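import Crest.Agent.R4P.AccN_31

/-!
R4 (S0004) with powers, module D (crossing pairs), helper31: **what the accident weights pay**.

`alX A γ e b B` = accident factor of one pair of neighbouring classes, target `B γ`, with exits and the exit
letter `b`; `alX_le` : `(log b)^C' b^(-1) alX^e` is at most the weight `dlt`.
-/

set_option autoImplicit false

namespace Crest.Agent.R4P.AccAl31

open Crest.Agent.R4P.AccN31 Crest.Agent.R4P.AccSum31
open Crest.Agent.R4.ShotG223 (acc Kmx BadK acc_nonneg)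

/-- accident factor with exits -/
noncomputable def alX (A γ e : ℝ) (b B : ℕ) : ℝ :=
  acc A b ((B:ℝ) * γ) + (∑ l ∈ (Finset.range (b + 1)).filter Nat.Prime,
    (l:ℝ) ^ (-(21/20) : ℝ) * acc A b (((B * l : ℕ) : ℝ) * γ) ^ e) ^ (1/e) +
    if b ∣ B then (b:ℝ) ^ ((6/1000) : ℝ) else 0

lemma exs_nonneg (A γ e : ℝ) (b B : ℕ) : 0 ≤ ∑ l ∈ (Finset.range (b + 1)).filter Nat.Prime,
    (l:ℝ) ^ (-(21/20) : ℝ) * acc A b (((B * l : ℕ) : ℝ) * γ) ^ e :=
  Finset.sum_nonneg fun l _ => mul_nonneg (Real.rpow_nonneg (Nat.cast_nonneg l) _)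
    (Real.rpow_nonneg (acc_nonneg _ _ _) _)

lemma alX_nonneg (A γ e : ℝ) (b B : ℕ) : 0 ≤ alX A γ e b B := by
  unfold alX
  refine add_nonneg (add_nonneg (acc_nonneg _ _ _) (Real.rpow_nonneg (exs_nonneg _ _ _ _ _) _)) ?_
  split_ifs
  · positivity
  · exact le_rfl

/-- powers of sums -/
lemma add3_rpow {x y z e : ℝ} (hx : 0 ≤ x) (hy : 0 ≤ y) (hz : 0 ≤ z) (h1 : 1 ≤ e) (h3 : e ≤ 3) :
    (x + y + z) ^ e ≤ 27 * (x ^ e + y ^ e + z ^ e) := by
  have he : 0 ≤ e := by linarith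
  set m := max x (max y z) with hm
  have hm0 : 0 ≤ m := hx.trans (le_max_left _ _)
  have h4 : x + y + z ≤ 3 * m := by
    have a := le_max_left x (max y z)
    have b := (le_max_left y z).trans (le_max_right x (max y z))
    have c := (le_max_right y z).trans (le_max_right x (max y z))
    linarith
  have h5 : (x + y + z) ^ e ≤ (3 * m) ^ e := Real.rpow_le_rpow (by positivity) h4 he
  rw [Real.mul_rpow (by norm_num) hm0] at h5
  have h6 : (3:ℝ) ^ e ≤ 27 := by
    calc (3:ℝ) ^ e ≤ 3 ^ (3:ℝ) := Real.rpow_le_rpow_of_exponent_le (by norm_num) h3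
      _ = 27 := by norm_num
  have h7 : m ^ e ≤ x ^ e + y ^ e + z ^ e := by
    have a := Real.rpow_nonneg hx e
    have b := Real.rpow_nonneg hy e
    have c := Real.rpow_nonneg hz e
    rcases max_cases x (max y z) with ⟨h, -⟩ | ⟨h, -⟩
    · rw [hm, h]; linarith
    · rw [hm, h]
      rcases max_cases y z with ⟨h, -⟩ | ⟨h, -⟩
      · rw [h]; linarith
      · rw [h]; linarith
  have h8 := Real.rpow_nonneg hm0 e
  nlinarith

/-- **THE WEIGHTS PAY** -/
theorem alX_le {e K C' : ℝ} (h1 : 1 ≤ e) (h3 : e ≤ 3) (hK : 0 ≤ K) : ∃ P₁ : ℕ, ∀ p0 ≥ P₁,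
    ∀ (A γ : ℝ) (b B : ℕ), b.Prime → p0 < b →
    K * (Real.log b ^ C' / b) * alX A γ e b B ^ e ≤ dlt p0 A (C' + 1) γ b B := by
  have he : 0 < e := by linarith
  have ev : ∀ᶠ x : ℝ in Filter.atTop, 27 * K ≤ Real.log x ∧
      27 * K * Real.log x ^ C' ≤ x ^ ((12/1000) : ℝ) ∧ 1 ≤ x := by
    have h := (isLittleO_log_rpow_rpow_atTop C' (show (0:ℝ) < 12/1000 by norm_num)).def
      (show (0:ℝ) < 1 / (27 * K + 1) by positivity)
    have h2 := Real.tendsto_log_atTop.eventually_ge_atTop (27 * K)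
    filter_upwards [h, h2, Filter.eventually_ge_atTop (1:ℝ)] with x hx hx2 hx1
    refine ⟨hx2, ?_, hx1⟩
    have hl := Real.rpow_nonneg (Real.log_nonneg hx1) C'
    have hr : 0 ≤ x ^ ((12/1000) : ℝ) := Real.rpow_nonneg (by linarith) _
    rw [Real.norm_eq_abs, Real.norm_eq_abs, abs_of_nonneg hl, abs_of_nonneg hr] at hx
    have h5 : (27 * K + 1) * Real.log x ^ C' ≤ x ^ ((12/1000) : ℝ) := by
      calc (27 * K + 1) * Real.log x ^ C' ≤ (27 * K + 1) * (1 / (27 * K + 1) * x ^ ((12/1000) : ℝ)) :=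
            mul_le_mul_of_nonneg_left hx (by positivity)
        _ = _ := by field_simp
    nlinarith
  obtain ⟨x₀, hx₀⟩ := Filter.eventually_atTop.1 ev
  refine ⟨⌈x₀⌉₊ + 1, fun p0 hp0 A γ b B hb hpb => ?_⟩
  have hbx : x₀ ≤ (b:ℝ) := by
    have a := Nat.le_ceil x₀
    have c : (⌈x₀⌉₊ : ℝ) ≤ b := by
      have : ⌈x₀⌉₊ ≤ b := by omega
      exact_mod_cast this
    linarith
  obtain ⟨g1, g2, g3⟩ := hx₀ b hbx
  have hb0 : (0:ℝ) < b := by linarith
  have hlog : 0 ≤ Real.log b := Real.log_nonneg g3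
  set x := acc A b ((B:ℝ) * γ) with hx
  set Z := ∑ l ∈ (Finset.range (b + 1)).filter Nat.Prime,
    (l:ℝ) ^ (-(21/20) : ℝ) * acc A b (((B * l : ℕ) : ℝ) * γ) ^ e with hZ
  have hZ0 : 0 ≤ Z := exs_nonneg _ _ _ _ _
  set z : ℝ := if b ∣ B then (b:ℝ) ^ ((6/1000) : ℝ) else 0 with hz
  have hz0 : 0 ≤ z := by
    rw [hz]; split_ifs
    · positivity
    · exact le_rfl
  have hx0 : 0 ≤ x := acc_nonneg _ _ _
  have e1 : alX A γ e b B ^ e ≤ 27 * (x ^ e + (Z ^ (1/e)) ^ e + z ^ e) := by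
    unfold alX
    exact add3_rpow hx0 (Real.rpow_nonneg hZ0 _) hz0 h1 h3
  have e2 : (Z ^ (1/e)) ^ e = Z := by
    rw [← Real.rpow_mul hZ0, one_div_mul_cancel he.ne', Real.rpow_one]
  have e3 : x ^ e + Z ≤ aw A γ b B := by
    unfold aw
    refine add_le_add (acc_rpow_le he h3) (Finset.sum_le_sum fun l _ => ?_)
    exact mul_le_mul_of_nonneg_left (acc_rpow_le he h3) (Real.rpow_nonneg (Nat.cast_nonneg l) _)
  have e4 : z ^ e ≤ if b ∣ B then (b:ℝ) ^ ((18/1000) : ℝ) else 0 := by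
    rw [hz]
    split_ifs
    · rw [← Real.rpow_mul hb0.le]
      exact Real.rpow_le_rpow_of_exponent_le g3 (by linarith)
    · rw [Real.zero_rpow he.ne']
  have e5 : alX A γ e b B ^ e ≤ 27 * (aw A γ b B + if b ∣ B then (b:ℝ) ^ ((18/1000) : ℝ) else 0) := by
    rw [e2] at e1
    linarith
  have hL : 0 ≤ Real.log b ^ C' / b := div_nonneg (Real.rpow_nonneg hlog _) hb0.le
  have haw := aw_nonneg A γ b B
  calc K * (Real.log b ^ C' / b) * alX A γ e b B ^ e
      ≤ K * (Real.log b ^ C' / b) *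
        (27 * (aw A γ b B + if b ∣ B then (b:ℝ) ^ ((18/1000) : ℝ) else 0)) :=
        mul_le_mul_of_nonneg_left e5 (mul_nonneg hK hL)
    _ = (27 * K) * (Real.log b ^ C' / b) * aw A γ b B +
        27 * K * Real.log b ^ C' / b * (if b ∣ B then (b:ℝ) ^ ((18/1000) : ℝ) else 0) := by ring
    _ ≤ dlt p0 A (C' + 1) γ b B := by
        unfold dlt
        refine add_le_add ?_ ?_
        · unfold dl0
          rw [if_pos ⟨hb, hpb⟩]
          refine mul_le_mul_of_nonneg_right ?_ haw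
          have hlp : 0 < Real.log b ∨ K = 0 := by
            rcases hK.lt_or_eq with h | h
            · left; linarith
            · right; exact h.symm
          rcases hlp with hlp | hK0
          · rw [Real.rpow_add_one hlp.ne', mul_comm (Real.log b ^ C'), mul_div_assoc]
            exact mul_le_mul_of_nonneg_right g1 hL
          · rw [hK0, mul_zero, zero_mul]
            positivity
        · by_cases hd : b ∣ B
          · rw [if_pos hd, if_pos ⟨hb, hpb, hd⟩]
            have h5 : (b:ℝ) ^ (-(97/100) : ℝ) =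
                (b:ℝ) ^ ((12/1000) : ℝ) / b * (b:ℝ) ^ ((18/1000) : ℝ) := by
              rw [div_mul_eq_mul_div, ← Real.rpow_add hb0, eq_div_iff hb0.ne']
              nth_rewrite 2 [← Real.rpow_one (b:ℝ)]
              rw [← Real.rpow_add hb0]
              norm_num
            rw [h5]
            refine mul_le_mul_of_nonneg_right ?_ (by positivity)
            exact div_le_div_of_nonneg_right g2 hb0.le
          · rw [if_neg hd, if_neg (fun h => hd h.2.2), mul_zero]

end Crest.Agent.R4P.AccAl31
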