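import Mathlib
import Crest.Agent.R4.ShotG223
import Crest.Agent.R4.DensAcc33

/-!
R4 (S0004), helper31, module D: **block sums of the accident factor** `acc A b θ` (`R4/ShotG223`).

`acc_block`: for every fixed target `θ`, `∑_{P < b ≤ 2P} acc(A,b,θ)^3 (log b)^C / b ≤ (log P)^(-A'')`
as soon as `A ≥ A₀(C, A'')` and `P ≥ P₀`, uniformly in `θ`.
-/

set_option autoImplicit false
open Finset

namespace Crest.Agent.R4P.AccSum31
open Crest.Agent.R4.ShotG223 Crest.Agent.R4.Bad223 Crest.Agent.R4.DensAcc33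

/-- powers of the accident factor -/
lemma acc_cube (A : ℝ) (b : ℕ) (θ : ℝ) : acc A b θ ^ 3 ≤ (Kmx b : ℝ) ^ 2 *
    ∑ k ∈ Finset.range (Kmx b), (open Classical in if BadK A b θ k then (2:ℝ) ^ ((3/2000 : ℝ) * k) else 0) := by
  classical
  have h := pow_sum_div_card_le_sum_pow (s := Finset.range (Kmx b))
    (f := fun k => if BadK A b θ k then (2:ℝ) ^ (2 * eps2 * k) else 0) (by
      intro k _
      split_ifs <;> positivity) 2
  have hK : (0 : ℝ) < Kmx b := by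
    have : 0 < Kmx b := by unfold Kmx; omega
    exact_mod_cast this
  rw [Finset.card_range, div_le_iff₀ (by positivity)] at h
  have e1 : acc A b θ = ∑ k ∈ Finset.range (Kmx b), if BadK A b θ k then (2:ℝ) ^ (2 * eps2 * k) else 0 := rfl
  rw [e1, mul_comm ((Kmx b : ℝ) ^ 2)]
  refine h.trans (le_of_eq ?_)
  congr 1
  refine Finset.sum_congr rfl fun k _ => ?_
  by_cases hk : BadK A b θ k
  · rw [if_pos hk, if_pos hk, ← Real.rpow_natCast, ← Real.rpow_mul (by norm_num)]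
    congr 1
    unfold eps2
    push_cast
    ring
  · rw [if_neg hk, if_neg hk]
    norm_num

lemma acc_one_le {A : ℝ} {b : ℕ} {θ : ℝ} (h : acc A b θ ≠ 0) : 1 ≤ acc A b θ := by
  classical
  have e1 : acc A b θ = ∑ k ∈ Finset.range (Kmx b), if BadK A b θ k then (2:ℝ) ^ (2 * eps2 * k) else 0 := rfl
  rw [e1] at h ⊢
  obtain ⟨k, hk, hk'⟩ := Finset.exists_ne_zero_of_sum_ne_zero h
  have hb : BadK A b θ k := by
    by_contra hc
    rw [if_neg hc] at hk'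
    exact hk' rfl
  have h1 : (1 : ℝ) ≤ (if BadK A b θ k then (2:ℝ) ^ (2 * eps2 * k) else 0) := by
    rw [if_pos hb]
    apply Real.one_le_rpow (by norm_num)
    unfold eps2
    positivity
  refine h1.trans (Finset.single_le_sum (f := fun k => if BadK A b θ k then (2:ℝ) ^ (2 * eps2 * k) else 0)
    (fun i _ => ?_) hk)
  split_ifs <;> positivity

/-- `acc^e ≤ acc^3` for `1 ≤ e ≤ 3` -/
lemma acc_rpow_le {A : ℝ} {b : ℕ} {θ e : ℝ} (h0 : 0 < e) (h3 : e ≤ 3) :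
    acc A b θ ^ e ≤ acc A b θ ^ 3 := by
  by_cases h : acc A b θ = 0
  · rw [h, Real.zero_rpow h0.ne']
    norm_num
  · rw [← Real.rpow_natCast]
    exact Real.rpow_le_rpow_of_exponent_le (acc_one_le h) (by exact_mod_cast h3)

/-! ### very large scales -/

/-- two accidental labels of the same very large scale have the same centre -/
lemma same_frac {P b₁ b₂ k₁ k₂ : ℕ} {h₁ h₂ : ℤ} {θ t₁ t₂ : ℝ} (hP : 12 ≤ (P : ℝ) ^ (71/1000 : ℝ))
    (hb₁ : P < b₁ ∧ b₁ ≤ 2 * P) (hb₂ : P < b₂ ∧ b₂ ≤ 2 * P)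
    (ht₁ : (b₁ : ℝ) ^ (9/5 : ℝ) < t₁) (ht₂ : (b₂ : ℝ) ^ (9/5 : ℝ) < t₂) (h12 : t₁ ≤ 2 * t₂)
    (h21 : t₂ ≤ 2 * t₁) (hk₁ : (k₁ : ℝ) ≤ t₁ ^ (21/200 : ℝ)) (hk₂ : (k₂ : ℝ) ≤ t₂ ^ (21/200 : ℝ))
    (hh₁ : |(k₁ : ℝ) * b₁ * θ - h₁| ≤ t₁ ^ (-(7/10) : ℝ))
    (hh₂ : |(k₂ : ℝ) * b₂ * θ - h₂| ≤ t₂ ^ (-(7/10) : ℝ)) :
    h₁ * (k₂ * b₂) = h₂ * (k₁ * b₁) := by
  have hP0 : (0:ℝ) < P := by
    rcases Nat.eq_zero_or_pos P with h | h
    · rw [h] at hP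
      rw [Nat.cast_zero, Real.zero_rpow (by norm_num)] at hP
      norm_num at hP
    · exact_mod_cast h
  -- one term
  have key : ∀ {b b' k : ℕ} {t t' : ℝ}, (P < b ∧ b ≤ 2 * P) → (P < b' ∧ b' ≤ 2 * P) →
      (b : ℝ) ^ (9/5 : ℝ) < t → (t' ≤ 2 * t) → 0 < t' → (k : ℝ) ≤ t' ^ (21/200 : ℝ) →
      (k : ℝ) * b' * t ^ (-(7/10) : ℝ) ≤ 1/3 := by
    intro b b' k t t' hb hb' ht htt ht'0 hk
    have hbR : (P : ℝ) < b := by exact_mod_cast hb.1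
    have hb2 : (b' : ℝ) ≤ 2 * P := by exact_mod_cast hb'.2
    have hPt : (P : ℝ) ^ (9/5 : ℝ) ≤ t := (Real.rpow_le_rpow hP0.le hbR.le (by norm_num)).trans ht.le
    have ht0 : 0 < t := lt_of_lt_of_le (Real.rpow_pos_of_pos hP0 _) hPt
    have h1 : (k : ℝ) ≤ 2 * t ^ (21/200 : ℝ) := by
      calc (k : ℝ) ≤ t' ^ (21/200 : ℝ) := hk
        _ ≤ (2 * t) ^ (21/200 : ℝ) := Real.rpow_le_rpow ht'0.le htt (by norm_num)
        _ = 2 ^ (21/200 : ℝ) * t ^ (21/200 : ℝ) := Real.mul_rpow (by norm_num) ht0.le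
        _ ≤ 2 ^ (1 : ℝ) * t ^ (21/200 : ℝ) := by
            apply mul_le_mul_of_nonneg_right _ (by positivity)
            exact Real.rpow_le_rpow_of_exponent_le (by norm_num) (by norm_num)
        _ = _ := by rw [Real.rpow_one]
    have h2 : (k : ℝ) * b' * t ^ (-(7/10) : ℝ) ≤ (2 * t ^ (21/200 : ℝ)) * (2 * P) * t ^ (-(7/10) : ℝ) := by
      gcongr
    refine h2.trans ?_
    have h3 : (2 * t ^ (21/200 : ℝ)) * (2 * P) * t ^ (-(7/10) : ℝ) = 4 * P * t ^ (-(119/200) : ℝ) := by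
      have : t ^ (21/200 : ℝ) * t ^ (-(7/10) : ℝ) = t ^ (-(119/200) : ℝ) := by
        rw [← Real.rpow_add ht0]; norm_num
      rw [← this]; ring
    rw [h3]
    have h4 : t ^ (-(119/200) : ℝ) ≤ (P : ℝ) ^ (-(1071/1000) : ℝ) := by
      calc t ^ (-(119/200) : ℝ) ≤ ((P : ℝ) ^ (9/5 : ℝ)) ^ (-(119/200) : ℝ) :=
            Real.rpow_le_rpow_of_nonpos (Real.rpow_pos_of_pos hP0 _) hPt (by norm_num)
        _ = _ := by rw [← Real.rpow_mul hP0.le]; norm_num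
    have h5 : (P : ℝ) * (P : ℝ) ^ (-(1071/1000) : ℝ) = ((P : ℝ) ^ (71/1000 : ℝ))⁻¹ := by
      rw [← Real.rpow_neg hP0.le]
      nth_rewrite 1 [← Real.rpow_one (P : ℝ)]
      rw [← Real.rpow_add hP0]
      norm_num
    calc 4 * P * t ^ (-(119/200) : ℝ) ≤ 4 * P * (P : ℝ) ^ (-(1071/1000) : ℝ) := by gcongr
      _ = 4 * ((P : ℝ) ^ (71/1000 : ℝ))⁻¹ := by rw [mul_assoc, h5]
      _ ≤ 4 * (12)⁻¹ := by
          apply mul_le_mul_of_nonneg_left _ (by norm_num)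
          exact inv_anti₀ (by norm_num) hP
      _ = 1/3 := by norm_num
  have hb₁0 : (0:ℝ) < b₁ := by have := hb₁.1; exact_mod_cast (by omega : 0 < b₁)
  have hb₂0 : (0:ℝ) < b₂ := by have := hb₂.1; exact_mod_cast (by omega : 0 < b₂)
  have ht₁0 : 0 < t₁ := lt_trans (Real.rpow_pos_of_pos hb₁0 _) ht₁
  have ht₂0 : 0 < t₂ := lt_trans (Real.rpow_pos_of_pos hb₂0 _) ht₂
  have u1 := key hb₁ hb₂ ht₁ h21 ht₂0 hk₂
  have u2 := key hb₂ hb₁ ht₂ h12 ht₁0 hk₁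
  have hreal : |((h₁ * (k₂ * b₂) - h₂ * (k₁ * b₁) : ℤ) : ℝ)| < 1 := by
    have e : ((h₁ * (k₂ * b₂) - h₂ * (k₁ * b₁) : ℤ) : ℝ) =
        (k₁ * b₁) * ((k₂ : ℝ) * b₂ * θ - h₂) - (k₂ * b₂) * ((k₁ : ℝ) * b₁ * θ - h₁) := by
      push_cast; ring
    rw [e]
    calc |((k₁:ℝ) * b₁) * ((k₂ : ℝ) * b₂ * θ - h₂) - (k₂ * b₂) * ((k₁ : ℝ) * b₁ * θ - h₁)|
        ≤ |((k₁:ℝ) * b₁) * ((k₂ : ℝ) * b₂ * θ - h₂)| + |((k₂:ℝ) * b₂) * ((k₁ : ℝ) * b₁ * θ - h₁)| :=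
          abs_sub _ _
      _ = (k₁ * b₁) * |(k₂ : ℝ) * b₂ * θ - h₂| + (k₂ * b₂) * |(k₁ : ℝ) * b₁ * θ - h₁| := by
          rw [abs_mul ((k₁:ℝ) * b₁), abs_mul ((k₂:ℝ) * b₂), abs_of_nonneg (by positivity : (0:ℝ) ≤ (k₁:ℝ) * b₁),
            abs_of_nonneg (by positivity : (0:ℝ) ≤ (k₂:ℝ) * b₂)]
      _ ≤ (k₁ * b₁) * t₂ ^ (-(7/10) : ℝ) + (k₂ * b₂) * t₁ ^ (-(7/10) : ℝ) := by gcongr
      _ ≤ 1/3 + 1/3 := add_le_add u2 u1
      _ < 1 := by norm_num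
  have hz : |h₁ * (k₂ * b₂) - h₂ * (k₁ * b₁)| < 1 := by exact_mod_cast hreal
  have := Int.abs_lt_one_iff.1 hz
  linarith

open Classical in
/-- at most three accidental primes per very large scale -/
lemma card_large {P : ℕ} (hP : 12 ≤ (P : ℝ) ^ (71/1000 : ℝ)) (hP6 : 4 ^ 6 ≤ P) (θ : ℝ) (k : ℕ) :
    ((Finset.Ioc P (2 * P)).filter (fun b => b.Prime ∧ k < Kmx b ∧
      ∃ t : ℝ, (2:ℝ)^k ≤ t ∧ t < 2^(k+1) ∧ (b : ℝ) ^ (9/5 : ℝ) < t ∧ BadS b θ t)).card ≤ 3 := by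
  set S := (Finset.Ioc P (2 * P)).filter (fun b => b.Prime ∧ k < Kmx b ∧
      ∃ t : ℝ, (2:ℝ)^k ≤ t ∧ t < 2^(k+1) ∧ (b : ℝ) ^ (9/5 : ℝ) < t ∧ BadS b θ t) with hS
  by_contra hcon
  push Not at hcon
  obtain ⟨b₀, hb₀⟩ : S.Nonempty := Finset.card_pos.1 (by omega)
  obtain ⟨hI₀, hp₀, hk₀, t₀, ht1, ht2, ht3, m, hm1, hm2, h₀, hh1, hh2⟩ := Finset.mem_filter.1 hb₀
  have hI₀' := Finset.mem_Ioc.1 hI₀
  have hdvd : ∀ b ∈ S.erase b₀, b ∣ m := by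
    intro b hb
    obtain ⟨hne, hb⟩ := Finset.mem_erase.1 hb
    obtain ⟨hI, hp, _, t, h1, h2, h3, m', hm1', hm2', h', hh1', hh2'⟩ := Finset.mem_filter.1 hb
    have hI' := Finset.mem_Ioc.1 hI
    have heq := same_frac hP hI' hI₀' h3 ht3 (by rw [pow_succ] at h2; nlinarith) (by rw [pow_succ] at ht2; nlinarith)
      hm2' hm2 hh2' hh2
    -- h' * (m * b₀) = h₀ * (m' * b)
    have hd : (b : ℤ) ∣ h' * (m * b₀) := by rw [heq]; exact Dvd.intro_left (h₀ * m') (by ring)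
    have hbZ : Prime (b : ℤ) := Nat.prime_iff_prime_int.1 hp
    rcases hbZ.dvd_or_dvd hd with h4 | h4
    · exact absurd h4 hh1'
    · rcases hbZ.dvd_or_dvd h4 with h5 | h5
      · exact Int.natCast_dvd_natCast.1 h5
      · exact absurd ((Nat.prime_dvd_prime_iff_eq hp hp₀).1 (Int.natCast_dvd_natCast.1 h5)) hne
  have hprod : ∏ b ∈ S.erase b₀, b ∣ m :=
    Finset.prod_primes_dvd m (fun b hb => (Finset.mem_filter.1 (Finset.mem_erase.1 hb).2).2.1.prime) hdvd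
  have hle : ∏ b ∈ S.erase b₀, b ≤ m := Nat.le_of_dvd (by omega) hprod
  have hP3 : P ^ 3 ≤ ∏ b ∈ S.erase b₀, b := by
    have hc : 3 ≤ (S.erase b₀).card := by rw [Finset.card_erase_of_mem hb₀]; omega
    calc P ^ 3 ≤ P ^ (S.erase b₀).card := Nat.pow_le_pow_right (by omega) hc
      _ ≤ ∏ b ∈ S.erase b₀, b := by
          apply Finset.pow_card_le_prod
          intro b hb
          exact (Finset.mem_Ioc.1 (Finset.mem_filter.1 (Finset.mem_erase.1 hb).2).1).1.le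
  have hPm : (P : ℝ) ^ 3 ≤ m := by exact_mod_cast hP3.trans hle
  have hP0 : (0:ℝ) < P := by exact_mod_cast (by omega : 0 < P)
  have hP1 : (1:ℝ) < P := by exact_mod_cast (by omega : 1 < P)
  -- the scale is at most P^24
  have ht24 : t₀ ≤ (P : ℝ) ^ (24 : ℝ) := by
    have h1 : (2:ℝ) ^ (k+1) ≤ 2 ^ (Kmx b₀) := pow_le_pow_right₀ (by norm_num) (by omega)
    have h2 : 2 ^ (Nat.clog 2 b₀) ≤ 4 * P := by
      have h3 : 2 ^ (Nat.clog 2 b₀).pred < b₀ := Nat.pow_pred_clog_lt_self (by norm_num) hp₀.one_lt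
      have h4 : 0 < Nat.clog 2 b₀ := Nat.clog_pos (by norm_num) hp₀.one_lt
      have h5 : 2 ^ (Nat.clog 2 b₀) = 2 * 2 ^ (Nat.clog 2 b₀).pred := by
        conv_lhs => rw [← Nat.succ_pred_eq_of_pos h4]
        rw [pow_succ]; ring
      rw [h5]
      omega
    have h6 : (2:ℝ) ^ (Kmx b₀) ≤ 4 * (4 * P) ^ 20 := by
      have : (2 ^ (Nat.clog 2 b₀) : ℝ) ≤ 4 * P := by exact_mod_cast h2
      calc (2:ℝ) ^ (Kmx b₀) = 4 * ((2:ℝ) ^ (Nat.clog 2 b₀)) ^ 20 := by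
            unfold Kmx; rw [pow_add, mul_comm 20, pow_mul]; ring
        _ ≤ _ := by gcongr
    have h7 : (4:ℝ) * (4 * P) ^ 20 ≤ (P:ℝ) ^ 24 := by
      have h8 : (4:ℝ) ^ 6 ≤ P := by exact_mod_cast hP6
      have h9 : ((4:ℝ) ^ 6) ^ 4 ≤ (P:ℝ) ^ 4 := pow_le_pow_left₀ (by norm_num) h8 4
      have h10 : (4:ℝ) ^ 21 ≤ (P:ℝ) ^ 4 := le_trans (by norm_num) h9
      calc (4:ℝ) * (4 * P) ^ 20 = 4 ^ 21 * (P:ℝ) ^ 20 := by ring
        _ ≤ (P:ℝ) ^ 4 * (P:ℝ) ^ 20 := by gcongr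
        _ = _ := by ring
    have h11 : (P:ℝ) ^ (24:ℝ) = (P:ℝ) ^ 24 := by
      rw [← Real.rpow_natCast]; norm_num
    rw [h11]
    linarith
  have ht00 : 0 < t₀ := lt_of_lt_of_le (by positivity) ht1
  have hfin : (m : ℝ) ≤ (P : ℝ) ^ (504/200 : ℝ) := by
    calc (m : ℝ) ≤ t₀ ^ (21/200 : ℝ) := hm2
      _ ≤ ((P : ℝ) ^ (24 : ℝ)) ^ (21/200 : ℝ) := Real.rpow_le_rpow ht00.le ht24 (by norm_num)
      _ = _ := by rw [← Real.rpow_mul hP0.le]; norm_num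
  have hlt : (P : ℝ) ^ (504/200 : ℝ) < (P : ℝ) ^ 3 := by
    have : (P : ℝ) ^ 3 = (P : ℝ) ^ (3:ℝ) := by rw [← Real.rpow_natCast]; norm_num
    rw [this]
    exact Real.rpow_lt_rpow_of_exponent_lt hP1 (by norm_num)
  linarith

/-! ### one scale -/

open Classical in
/-- density of the primes of a block which are bad at one scale -/
lemma bad_scale {P : ℕ} (hP : 12 ≤ (P : ℝ) ^ (71/1000 : ℝ)) (hP6 : 4 ^ 6 ≤ P) (θ : ℝ) (k : ℕ)
    {A T : ℝ} (hA : 0 ≤ A) (hT : 1 ≤ T) (hT4 : 4 ≤ T ^ (49 / 100 : ℝ)) (hT1 : T ≤ max ((2:ℝ)^k) (Real.log P ^ A)) :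
    ∑ b ∈ (Finset.Ioc P (2 * P)).filter (fun b => b.Prime ∧ k < Kmx b ∧ BadK A b θ k), (1 / (b : ℝ)) ≤
      64 * T ^ (-(49 / 100) : ℝ) + 2 * (P : ℝ) ^ (-(4 / 5) : ℝ) + 3 / P := by
  have hPp : 0 < P := by omega
  have hP0 : (0:ℝ) < P := by exact_mod_cast hPp
  set S1 := (Finset.Ioc P (2 * P)).filter (fun b => b.Prime ∧ Accd θ T b) with hS1
  set S2 := (Finset.Ioc P (2 * P)).filter (fun b => b.Prime ∧ k < Kmx b ∧
      ∃ t : ℝ, (2:ℝ)^k ≤ t ∧ t < 2^(k+1) ∧ (b : ℝ) ^ (9/5 : ℝ) < t ∧ BadS b θ t) with hS2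
  have hsub : (Finset.Ioc P (2 * P)).filter (fun b => b.Prime ∧ k < Kmx b ∧ BadK A b θ k) ⊆ S1 ∪ S2 := by
    intro b hb
    obtain ⟨hI, hp, hk, t, h1, h2, h3, h4⟩ := Finset.mem_filter.1 hb
    have hI' := Finset.mem_Ioc.1 hI
    have hPb : (P:ℝ) ≤ b := by exact_mod_cast hI'.1.le
    by_cases ht : t ≤ (b : ℝ) ^ (9/5 : ℝ)
    · refine Finset.mem_union_left _ (Finset.mem_filter.2 ⟨hI, hp, t, ?_, ht, h4⟩)
      refine hT1.trans (max_le h1 (le_trans ?_ h3))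
      refine Real.rpow_le_rpow (Real.log_nonneg ?_) (Real.log_le_log hP0 hPb) hA
      exact_mod_cast hPp
    · exact Finset.mem_union_right _ (Finset.mem_filter.2 ⟨hI, hp, hk, t, h1, h2, not_le.1 ht, h4⟩)
  have h2 : ∑ b ∈ S2, (1 / (b : ℝ)) ≤ 3 / P := by
    have hc : S2.card ≤ 3 := by
      rw [hS2]
      convert card_large hP hP6 θ k
    calc ∑ b ∈ S2, (1 / (b : ℝ)) ≤ ∑ _b ∈ S2, (1 / (P:ℝ)) := by
          refine Finset.sum_le_sum fun b hb => ?_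
          have hI' := Finset.mem_Ioc.1 (Finset.mem_filter.1 hb).1
          exact one_div_le_one_div_of_le hP0 (by exact_mod_cast hI'.1.le)
      _ = S2.card * (1 / (P:ℝ)) := by rw [Finset.sum_const, nsmul_eq_mul]
      _ ≤ 3 * (1 / (P:ℝ)) := by
          apply mul_le_mul_of_nonneg_right _ (by positivity)
          exact_mod_cast hc
      _ = 3 / P := by ring
  calc _ ≤ ∑ b ∈ S1 ∪ S2, (1 / (b : ℝ)) :=
        Finset.sum_le_sum_of_subset_of_nonneg hsub fun _ _ _ => by positivity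
    _ ≤ ∑ b ∈ S1, (1 / (b : ℝ)) + ∑ b ∈ S2, (1 / (b : ℝ)) := by
        have := Finset.sum_union_inter (s₁ := S1) (s₂ := S2) (f := fun b => 1 / (b : ℝ))
        have h0 : 0 ≤ ∑ b ∈ S1 ∩ S2, (1 / (b : ℝ)) := Finset.sum_nonneg fun _ _ => by positivity
        linarith
    _ ≤ _ := add_le_add (acc_dens θ hT hT4 hPp) h2

lemma Kmx_le {P b : ℕ} (hP : 2 ≤ P) (hb : b ≤ 2 * P) : (Kmx b : ℝ) ≤ 100 * Real.log P := by
  have h1 : Nat.clog 2 b ≤ Nat.clog 2 (2 * P) := Nat.clog_mono_right 2 hb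
  have h2 : 2 ^ (Nat.clog 2 (2 * P)) < 2 * (2 * P) := by
    have h3 : 2 ^ (Nat.clog 2 (2 * P)).pred < 2 * P := Nat.pow_pred_clog_lt_self (by norm_num) (by omega)
    have h4 : 0 < Nat.clog 2 (2 * P) := Nat.clog_pos (by norm_num) (by omega)
    conv_lhs => rw [← Nat.succ_pred_eq_of_pos h4]
    rw [pow_succ]; omega
  have h3 : (Nat.clog 2 (2 * P) : ℝ) * Real.log 2 < 2 * Real.log 2 + Real.log P := by
    have h4 : ((2:ℝ) ^ (Nat.clog 2 (2 * P))) < 4 * P := by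
      have : 2 ^ (Nat.clog 2 (2 * P)) < 4 * P := by omega
      exact_mod_cast this
    have h5 := Real.log_lt_log (by positivity) h4
    have hP0 : (0:ℝ) < P := by exact_mod_cast (by omega : 0 < P)
    rw [Real.log_pow, Real.log_mul (by norm_num) hP0.ne', show (4:ℝ) = 2 ^ 2 by norm_num, Real.log_pow] at h5
    push_cast at h5
    linarith
  have hl2 : Real.log 2 ≤ Real.log P := Real.log_le_log (by norm_num) (by exact_mod_cast hP)
  have h69 : 0.69 < Real.log 2 := by have := Real.log_two_gt_d9; linarith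
  have h4 : (Nat.clog 2 b : ℝ) ≤ Nat.clog 2 (2 * P) := by exact_mod_cast h1
  have h5 : (Nat.clog 2 (2 * P) : ℝ) ≤ 4.4 * Real.log P := by
    have h6 : (Nat.clog 2 (2 * P) : ℝ) * 0.69 ≤ (Nat.clog 2 (2 * P) : ℝ) * Real.log 2 :=
      mul_le_mul_of_nonneg_left h69.le (Nat.cast_nonneg _)
    nlinarith
  unfold Kmx
  push_cast
  nlinarith

/-! ### one dyadic block -/

/-- **block sum of the accident factor**, all targets -/
theorem acc_block (C A'' A : ℝ) (hC : 0 ≤ C) (hA'' : 0 ≤ A'') (hA : 3 * (A'' + C + 4) ≤ A) :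
    ∃ P₀ : ℕ, ∀ P ≥ P₀, ∀ θ : ℝ,
      ∑ b ∈ (Finset.Ioc P (2 * P)).filter Nat.Prime, acc A b θ ^ 3 * Real.log b ^ C / b ≤
        Real.log P ^ (-A'') := by
  classical
  have hK2 : (0:ℝ) < 2 ^ C := Real.rpow_pos_of_pos (by norm_num) _
  set K0 : ℝ := 10 ^ 6 * 2 ^ C with hK0
  have hK0p : 0 < K0 := by positivity
  -- choice of `P₀`
  have ev1 : ∀ᶠ x : ℝ in Filter.atTop, 1 + 128 * K0 ≤ Real.log x :=
    Real.tendsto_log_atTop.eventually_ge_atTop _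
  have ev2 : ∀ᶠ x : ℝ in Filter.atTop, Real.log x ^ (C + 3 + A'') ≤ 1 / (10 * K0) * x ^ (69/100 : ℝ) := by
    have h := (isLittleO_log_rpow_rpow_atTop (C + 3 + A'') (show (0:ℝ) < 69/100 by norm_num)).def
      (show (0:ℝ) < 1 / (10 * K0) by positivity)
    filter_upwards [h, Filter.eventually_ge_atTop (1:ℝ)] with x hx hx1
    rw [Real.norm_of_nonneg (Real.rpow_nonneg (Real.log_nonneg hx1) _),
      Real.norm_of_nonneg (by positivity)] at hx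
    exact hx
  have ev3 : ∀ᶠ x : ℝ in Filter.atTop, 12 ≤ x ^ (71/1000 : ℝ) :=
    (tendsto_rpow_atTop (by norm_num)).eventually_ge_atTop _
  have ev4 : ∀ᶠ x : ℝ in Filter.atTop, (4:ℝ) ^ 6 ≤ x := Filter.eventually_ge_atTop _
  have ev5 : ∀ᶠ x : ℝ in Filter.atTop, (4:ℝ) ^ (100/49 : ℝ) ≤ Real.log x :=
    Real.tendsto_log_atTop.eventually_ge_atTop _
  obtain ⟨x₀, hx₀⟩ := Filter.eventually_atTop.1 (ev1.and (ev2.and (ev3.and (ev4.and ev5))))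
  refine ⟨⌈x₀⌉₊, fun P hP θ => ?_⟩
  have hPx : x₀ ≤ (P:ℝ) := (Nat.le_ceil _).trans (by exact_mod_cast hP)
  obtain ⟨e1, e2, e3, e4, e5⟩ := hx₀ P hPx
  have hP6 : 4 ^ 6 ≤ P := by exact_mod_cast e4
  have hP2 : 2 ≤ P := by omega
  have hP0 : (0:ℝ) < P := by exact_mod_cast (by omega : 0 < P)
  have hP1 : (1:ℝ) ≤ P := by exact_mod_cast (by omega : 1 ≤ P)
  set l := Real.log P with hl
  have hl1 : 1 ≤ l := by linarith
  have hl0 : 0 < l := by linarith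
  have hA4 : 4 ≤ A := by linarith
  set N := Kmx (2 * P) with hN
  have hNle : (N : ℝ) ≤ 100 * l := Kmx_le hP2 le_rfl
  -- one prime
  have one : ∀ b ∈ (Finset.Ioc P (2 * P)).filter Nat.Prime, acc A b θ ^ 3 * Real.log b ^ C / b ≤
      (100 * l) ^ 2 * (2 * l) ^ C * ∑ k ∈ Finset.range N, (2:ℝ) ^ ((3/2000 : ℝ) * k) *
        (if k < Kmx b ∧ BadK A b θ k then 1 / (b:ℝ) else 0) := by
    intro b hb
    obtain ⟨hI, hp⟩ := Finset.mem_filter.1 hb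
    have hI' := Finset.mem_Ioc.1 hI
    have hb0 : (0:ℝ) < b := by exact_mod_cast hp.pos
    have hlb0 : 0 ≤ Real.log b := Real.log_natCast_nonneg b
    have hlb : Real.log b ≤ 2 * l := by
      have h1 : (b:ℝ) ≤ (P:ℝ) ^ 2 := by
        have : b ≤ P ^ 2 := by nlinarith [hI'.2]
        exact_mod_cast this
      have h2 := Real.log_le_log hb0 h1
      rw [Real.log_pow] at h2
      exact_mod_cast h2
    have hKb : (Kmx b : ℝ) ≤ 100 * l := Kmx_le hP2 hI'.2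
    have hKN : Kmx b ≤ N := by
      rw [hN]; unfold Kmx
      have := Nat.clog_mono_right 2 hI'.2
      omega
    have h1 := acc_cube A b θ
    set Sg := ∑ k ∈ Finset.range (Kmx b), (if BadK A b θ k then (2:ℝ) ^ ((3/2000 : ℝ) * k) else 0) with hSg
    have hSg0 : 0 ≤ Sg := Finset.sum_nonneg fun k _ => by split_ifs <;> positivity
    have h2 : acc A b θ ^ 3 ≤ (100 * l) ^ 2 * Sg := by
      refine h1.trans ?_
      apply mul_le_mul_of_nonneg_right _ hSg0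
      exact pow_le_pow_left₀ (Nat.cast_nonneg _) hKb 2
    have h3 : Real.log b ^ C ≤ (2 * l) ^ C := Real.rpow_le_rpow hlb0 hlb hC
    have h4 : Sg / b ≤ ∑ k ∈ Finset.range N, (2:ℝ) ^ ((3/2000 : ℝ) * k) *
        (if k < Kmx b ∧ BadK A b θ k then 1 / (b:ℝ) else 0) := by
      rw [hSg, Finset.sum_div]
      refine le_trans (le_of_eq ?_) (Finset.sum_le_sum_of_subset_of_nonneg
        (Finset.range_subset_range.2 hKN) fun k _ _ => ?_)
      · refine Finset.sum_congr rfl fun k hk => ?_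
        have hk' := Finset.mem_range.1 hk
        by_cases hB : BadK A b θ k
        · rw [if_pos hB, if_pos ⟨hk', hB⟩]; ring
        · rw [if_neg hB, if_neg (fun h => hB h.2)]; ring
      · refine mul_nonneg (by positivity) ?_
        split_ifs <;> positivity
    calc acc A b θ ^ 3 * Real.log b ^ C / b ≤ ((100 * l) ^ 2 * Sg) * (2 * l) ^ C / b := by
          apply div_le_div_of_nonneg_right _ hb0.le
          exact mul_le_mul h2 h3 (Real.rpow_nonneg hlb0 _) (by positivity)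
      _ = (100 * l) ^ 2 * (2 * l) ^ C * (Sg / b) := by ring
      _ ≤ _ := mul_le_mul_of_nonneg_left h4 (by positivity)
  refine (Finset.sum_le_sum one).trans ?_
  rw [← Finset.mul_sum, Finset.sum_comm]
  -- one scale
  have sc1 : ∀ k ∈ Finset.range N, ∑ b ∈ (Finset.Ioc P (2 * P)).filter Nat.Prime,
      (2:ℝ) ^ ((3/2000 : ℝ) * k) * (if k < Kmx b ∧ BadK A b θ k then 1 / (b:ℝ) else 0) ≤
      64 * l ^ (-(A'' + C + 4)) + 5 * (P:ℝ) ^ (-(69/100) : ℝ) := by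
    intro k hk
    have hkN := Finset.mem_range.1 hk
    rw [← Finset.mul_sum]
    have e : ∑ b ∈ (Finset.Ioc P (2 * P)).filter Nat.Prime,
        (if k < Kmx b ∧ BadK A b θ k then 1 / (b:ℝ) else 0) =
        ∑ b ∈ (Finset.Ioc P (2 * P)).filter (fun b => b.Prime ∧ k < Kmx b ∧ BadK A b θ k), (1 / (b : ℝ)) := by
      rw [← Finset.sum_filter, Finset.filter_filter]
    rw [e]
    set T := max ((2:ℝ)^k) (l ^ A) with hT
    have hT1 : 1 ≤ T := (one_le_pow₀ (by norm_num)).trans (le_max_left _ _)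
    have hT0 : 0 < T := by linarith
    have hlT : l ≤ T := by
      refine le_trans ?_ (le_max_right _ _)
      nth_rewrite 1 [← Real.rpow_one l]
      exact Real.rpow_le_rpow_of_exponent_le hl1 (by linarith)
    have hT4 : 4 ≤ T ^ (49 / 100 : ℝ) := by
      have h1 : (4:ℝ) ^ (100/49 : ℝ) ≤ T := e5.trans hlT
      calc (4:ℝ) = ((4:ℝ) ^ (100/49 : ℝ)) ^ (49/100 : ℝ) := by
            rw [← Real.rpow_mul (by norm_num)]; norm_num
        _ ≤ _ := Real.rpow_le_rpow (by positivity) h1 (by norm_num)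
    have hb := bad_scale e3 hP6 θ k (A := A) (by linarith) hT1 hT4 le_rfl
    have h2k : (0:ℝ) < 2 ^ ((3/2000 : ℝ) * k) := by positivity
    refine (mul_le_mul_of_nonneg_left hb h2k.le).trans ?_
    -- the main term
    have m1 : (2:ℝ) ^ ((3/2000 : ℝ) * k) * T ^ (-(49 / 100) : ℝ) ≤ l ^ (-(A'' + C + 4)) := by
      have hs : T ^ (-(49 / 100) : ℝ) = T ^ (-(1/100) : ℝ) * T ^ (-(48/100) : ℝ) := by
        rw [← Real.rpow_add hT0]; norm_num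
      have h3 : T ^ (-(1/100) : ℝ) ≤ (2:ℝ) ^ (-((1/100 : ℝ) * k)) := by
        calc T ^ (-(1/100) : ℝ) ≤ ((2:ℝ) ^ k) ^ (-(1/100) : ℝ) :=
              Real.rpow_le_rpow_of_nonpos (by positivity) (le_max_left _ _) (by norm_num)
          _ = _ := by
              rw [← Real.rpow_natCast, ← Real.rpow_mul (by norm_num)]
              congr 1; ring
      have h4 : T ^ (-(48/100) : ℝ) ≤ l ^ (-(A'' + C + 4)) := by
        calc T ^ (-(48/100) : ℝ) ≤ (l ^ A) ^ (-(48/100) : ℝ) :=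
              Real.rpow_le_rpow_of_nonpos (by positivity) (le_max_right _ _) (by norm_num)
          _ = l ^ (A * (-(48/100))) := by rw [← Real.rpow_mul hl0.le]
          _ ≤ _ := Real.rpow_le_rpow_of_exponent_le hl1 (by nlinarith)
      have h5 : (2:ℝ) ^ ((3/2000 : ℝ) * k) * (2:ℝ) ^ (-((1/100 : ℝ) * k)) ≤ 1 := by
        rw [← Real.rpow_add (by norm_num)]
        apply Real.rpow_le_one_of_one_le_of_nonpos (by norm_num)
        have : (0:ℝ) ≤ k := Nat.cast_nonneg _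
        linarith
      rw [hs]
      calc (2:ℝ) ^ ((3/2000 : ℝ) * k) * (T ^ (-(1/100) : ℝ) * T ^ (-(48/100) : ℝ))
          ≤ (2:ℝ) ^ ((3/2000 : ℝ) * k) * ((2:ℝ) ^ (-((1/100 : ℝ) * k)) * l ^ (-(A'' + C + 4))) := by
            gcongr
        _ = ((2:ℝ) ^ ((3/2000 : ℝ) * k) * (2:ℝ) ^ (-((1/100 : ℝ) * k))) * l ^ (-(A'' + C + 4)) := by ring
        _ ≤ 1 * l ^ (-(A'' + C + 4)) := mul_le_mul_of_nonneg_right h5 (by positivity)
        _ = _ := one_mul _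
    -- the power terms
    have m2 : (2:ℝ) ^ ((3/2000 : ℝ) * k) ≤ (P:ℝ) ^ (11/100 : ℝ) := by
      have hk' : (k:ℝ) ≤ 100 * l := le_trans (by exact_mod_cast hkN.le) hNle
      have h69 : Real.log 2 ≤ 0.7 := by have := Real.log_two_lt_d9; linarith
      have hl2 : 0 < Real.log 2 := Real.log_pos (by norm_num)
      rw [Real.rpow_def_of_pos (by norm_num), Real.rpow_def_of_pos hP0, Real.exp_le_exp]
      calc Real.log 2 * ((3/2000 : ℝ) * k) ≤ 0.7 * ((3/2000 : ℝ) * (100 * l)) := by gcongr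
        _ ≤ l * (11/100) := by nlinarith
        _ = _ := by rw [hl]
    have m3 : (2:ℝ) ^ ((3/2000 : ℝ) * k) * (2 * (P : ℝ) ^ (-(4 / 5) : ℝ) + 3 / P) ≤ 5 * (P:ℝ) ^ (-(69/100) : ℝ) := by
      have h6 : 3 / (P:ℝ) ≤ 3 * (P : ℝ) ^ (-(4 / 5) : ℝ) := by
        rw [div_eq_mul_inv, ← Real.rpow_neg_one]
        apply mul_le_mul_of_nonneg_left _ (by norm_num)
        exact Real.rpow_le_rpow_of_exponent_le hP1 (by norm_num)
      calc (2:ℝ) ^ ((3/2000 : ℝ) * k) * (2 * (P : ℝ) ^ (-(4 / 5) : ℝ) + 3 / P)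
          ≤ (P:ℝ) ^ (11/100 : ℝ) * (5 * (P : ℝ) ^ (-(4 / 5) : ℝ)) := by
            apply mul_le_mul m2 (by linarith) (by positivity) (by positivity)
        _ = 5 * ((P:ℝ) ^ (11/100 : ℝ) * (P : ℝ) ^ (-(4 / 5) : ℝ)) := by ring
        _ = _ := by rw [← Real.rpow_add hP0]; norm_num
    calc (2:ℝ) ^ ((3/2000 : ℝ) * k) * (64 * T ^ (-(49 / 100) : ℝ) + 2 * (P : ℝ) ^ (-(4 / 5) : ℝ) + 3 / P)
        = 64 * ((2:ℝ) ^ ((3/2000 : ℝ) * k) * T ^ (-(49 / 100) : ℝ)) +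
          (2:ℝ) ^ ((3/2000 : ℝ) * k) * (2 * (P : ℝ) ^ (-(4 / 5) : ℝ) + 3 / P) := by ring
      _ ≤ _ := by linarith
  refine (mul_le_mul_of_nonneg_left (Finset.sum_le_sum sc1) (by positivity)).trans ?_
  rw [Finset.sum_const, Finset.card_range, nsmul_eq_mul]
  -- final numbers
  have f1 : (100 * l) ^ 2 * (2 * l) ^ C * (N * (64 * l ^ (-(A'' + C + 4)) + 5 * (P:ℝ) ^ (-(69/100) : ℝ))) ≤
      K0 * l ^ (C + 3) * (64 * l ^ (-(A'' + C + 4)) + 5 * (P:ℝ) ^ (-(69/100) : ℝ)) := by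
    have e : K0 * l ^ (C + 3) = (100 * l) ^ 2 * (2 * l) ^ C * (100 * l) := by
      rw [hK0, Real.mul_rpow (by norm_num) hl0.le, Real.rpow_add hl0]
      have : l ^ (3:ℝ) = l ^ 3 := by rw [← Real.rpow_natCast]; norm_num
      rw [this]; ring
    rw [e]
    have h0 : 0 ≤ 64 * l ^ (-(A'' + C + 4)) + 5 * (P:ℝ) ^ (-(69/100) : ℝ) := by positivity
    calc (100 * l) ^ 2 * (2 * l) ^ C * (N * (64 * l ^ (-(A'' + C + 4)) + 5 * (P:ℝ) ^ (-(69/100) : ℝ)))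
        ≤ (100 * l) ^ 2 * (2 * l) ^ C * ((100 * l) * (64 * l ^ (-(A'' + C + 4)) + 5 * (P:ℝ) ^ (-(69/100) : ℝ))) := by
          gcongr
      _ = _ := by ring
  refine f1.trans ?_
  have g1 : l ^ (C + 3) * l ^ (-(A'' + C + 4)) = l ^ (-A'') * l⁻¹ := by
    rw [← Real.rpow_add hl0, ← Real.rpow_neg_one, ← Real.rpow_add hl0]
    congr 1; ring
  have g2 : 64 * K0 * l⁻¹ ≤ 1/2 := by
    rw [← div_eq_mul_inv, div_le_iff₀ hl0]; linarith
  have g3 : K0 * l ^ (C + 3) * (5 * (P:ℝ) ^ (-(69/100) : ℝ)) ≤ 1/2 * l ^ (-A'') := by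
    have h7 : l ^ (C + 3) = l ^ (C + 3 + A'') * l ^ (-A'') := by
      rw [← Real.rpow_add hl0]; congr 1; ring
    have h8 : (P:ℝ) ^ (69/100 : ℝ) * (P:ℝ) ^ (-(69/100) : ℝ) = 1 := by
      rw [← Real.rpow_add hP0]; norm_num
    have hlA : 0 < l ^ (-A'') := Real.rpow_pos_of_pos hl0 _
    have hPn : 0 < (P:ℝ) ^ (-(69/100) : ℝ) := Real.rpow_pos_of_pos hP0 _
    calc K0 * l ^ (C + 3) * (5 * (P:ℝ) ^ (-(69/100) : ℝ))
        = 5 * K0 * (l ^ (C + 3 + A'') * (P:ℝ) ^ (-(69/100) : ℝ)) * l ^ (-A'') := by rw [h7]; ring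
      _ ≤ 5 * K0 * ((1 / (10 * K0) * (P:ℝ) ^ (69/100 : ℝ)) * (P:ℝ) ^ (-(69/100) : ℝ)) * l ^ (-A'') := by
          gcongr
      _ = 5 * K0 * (1 / (10 * K0) * ((P:ℝ) ^ (69/100 : ℝ) * (P:ℝ) ^ (-(69/100) : ℝ))) * l ^ (-A'') := by ring
      _ = 1/2 * l ^ (-A'') := by rw [h8]; field_simp; norm_num
  have hlA : 0 < l ^ (-A'') := Real.rpow_pos_of_pos hl0 _
  calc K0 * l ^ (C + 3) * (64 * l ^ (-(A'' + C + 4)) + 5 * (P:ℝ) ^ (-(69/100) : ℝ))
      = 64 * K0 * (l ^ (C + 3) * l ^ (-(A'' + C + 4))) + K0 * l ^ (C + 3) * (5 * (P:ℝ) ^ (-(69/100) : ℝ)) := by ring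
    _ = (64 * K0 * l⁻¹) * l ^ (-A'') + K0 * l ^ (C + 3) * (5 * (P:ℝ) ^ (-(69/100) : ℝ)) := by rw [g1]; ring
    _ ≤ 1/2 * l ^ (-A'') + 1/2 * l ^ (-A'') := by
        apply add_le_add _ g3
        exact mul_le_mul_of_nonneg_right g2 hlA.le
    _ = _ := by ring

end Crest.Agent.R4P.AccSum31
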