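import Crest.Agent.R4P.HullPot_31
import Crest.Agent.R4P.AccSum_31
import Crest.Agent.R4P.Bld532

/-!
R4P (S0004), helper31, module D, group [X]: **root bound of the accident potential**.

* `mt_sum` : weighted sums over the missing ties of the items of a tree (missing shares `2 sg`).
* `nf_le` : the potential of an item, block by block.
* `dlt` : the accident weights `δ b B`; `root_nf` : `∑ W q nf(q) ≤ C Ws`.
-/

set_option autoImplicit false
set_option linter.unusedSectionVars false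
set_option linter.unusedVariables false
open Finset

namespace Crest.Agent.R4P.AccN31

open Crest.Agent.R4P.Cnt588 Crest.Agent.R4P.Bld532 Crest.Agent.R4P.Hull31
open Crest.Agent.R4.ShotG223 (acc Kmx BadK acc_nonneg)
open Crest.Agent.R4P.AccSum31

/-! ### sums over the missing ties -/

/-- the primes of the columns below the level `n` -/
def cp (p0 n : ℕ) : Finset ℕ := (Finset.range n).filter fun l => l.Prime ∧ p0 < l

lemma cp_mono {p0 n m : ℕ} (h : n ≤ m) : cp p0 n ⊆ cp p0 m :=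
  Finset.filter_subset_filter _ (Finset.range_mono h)

lemma cp_succ {p0 p : ℕ} (hp : p.Prime) (h : p0 < p) : cp p0 (p + 1) = insert p (cp p0 p) := by
  unfold cp
  rw [Finset.range_add_one, Finset.filter_insert, if_pos ⟨hp, h⟩]

lemma notMem_cp (p0 p : ℕ) : p ∉ cp p0 p := fun h => by
  have := Finset.mem_range.1 (Finset.mem_filter.1 h).1
  omega

theorem mt_sum {P : Par} {W : ℕ → ℝ} (hW : ∀ q, 0 ≤ W q) (hsg : ∀ k, 0 ≤ P.sg k) {g : ℕ → ℝ}
    (hg : ∀ l, 0 ≤ g l) : ∀ (t : IT) (s : NS), t.Ok s.n → All (NodeOk P W) s t →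
    ∑ q ∈ t.items, W q * ∑ l ∈ t.mt q, g l ≤
      (∑ l ∈ cp P.p0 s.n, 2 * P.sg l * g l) * Ws W t.items := by
  have G0 : ∀ n, 0 ≤ ∑ l ∈ cp P.p0 n, 2 * P.sg l * g l := fun n =>
    Finset.sum_nonneg fun l _ => mul_nonneg (mul_nonneg (by norm_num) (hsg l)) (hg l)
  have Gm : ∀ {n m : ℕ}, n ≤ m → ∑ l ∈ cp P.p0 n, 2 * P.sg l * g l ≤ ∑ l ∈ cp P.p0 m, 2 * P.sg l * g l :=
    fun h => Finset.sum_le_sum_of_subset_of_nonneg (cp_mono h) fun l _ _ =>
      mul_nonneg (mul_nonneg (by norm_num) (hsg l)) (hg l)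
  -- two disjoint parts
  have two : ∀ {S₁ S₀ : Finset ℕ} {f f₁ f₀ : ℕ → ℝ} {G : ℝ}, Disjoint S₁ S₀ →
      (∀ q ∈ S₁, f q = f₁ q) → (∀ q ∈ S₀, f q = f₀ q) → ∑ q ∈ S₁, W q * f₁ q ≤ G * Ws W S₁ →
      ∑ q ∈ S₀, W q * f₀ q ≤ G * Ws W S₀ → ∑ q ∈ S₁ ∪ S₀, W q * f q ≤ G * Ws W (S₁ ∪ S₀) := by
    intro S₁ S₀ f f₁ f₀ G hd h1 h0 k1 k0
    have e : Ws W (S₁ ∪ S₀) = Ws W S₁ + Ws W S₀ := Finset.sum_union hd
    rw [Finset.sum_union hd, e, mul_add]
    refine add_le_add (le_trans (le_of_eq ?_) k1) (le_trans (le_of_eq ?_) k0)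
    · exact Finset.sum_congr rfl fun q hq => by rw [h1 q hq]
    · exact Finset.sum_congr rfl fun q hq => by rw [h0 q hq]
  intro t
  induction t with
  | leaf S =>
    intro s _ _
    simp only [IT.items, IT.mt, Finset.sum_empty, mul_zero, Finset.sum_const_zero]
    exact mul_nonneg (G0 _) (Ws_nonneg hW _)
  | br p Sp t₁ t₀ ih₁ ih₀ =>
    intro s hO h
    obtain ⟨hp, hpn, hd, -, hO1, hO0⟩ := hO
    obtain ⟨⟨-, -, hp0, -, -, -, -, -, -, -, -, hms, -⟩, h1, h0⟩ := h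
    have k1 := ih₁ _ hO1 h1
    have k0 := ih₀ _ hO0 h0
    simp only at k1 k0
    have hpm : ∀ q, p ∉ t₀.mt q := fun q hq => lt_irrefl _ (BldF542.mt_lt _ _ hO0 _ _ hq).2
    have m1 : ∀ q ∈ t₁.items, ∑ l ∈ (IT.br p Sp t₁ t₀).mt q, g l = ∑ l ∈ t₁.mt q, g l := by
      intro q hq
      simp only [IT.mt, if_neg (Finset.disjoint_left.1 hd hq)]
    have m0 : ∀ q ∈ t₀.items, ∑ l ∈ (IT.br p Sp t₁ t₀).mt q, g l = g p + ∑ l ∈ t₀.mt q, g l := by
      intro q hq
      simp only [IT.mt, if_pos hq]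
      rw [Finset.sum_insert (hpm q)]
    show ∑ q ∈ t₁.items ∪ t₀.items, W q * ∑ l ∈ (IT.br p Sp t₁ t₀).mt q, g l ≤
      _ * Ws W (t₁.items ∪ t₀.items)
    have e : Ws W (t₁.items ∪ t₀.items) = Ws W t₁.items + Ws W t₀.items := Finset.sum_union hd
    rw [Finset.sum_union hd]
    have a1 : ∑ q ∈ t₁.items, W q * ∑ l ∈ (IT.br p Sp t₁ t₀).mt q, g l =
        ∑ q ∈ t₁.items, W q * ∑ l ∈ t₁.mt q, g l :=
      Finset.sum_congr rfl fun q hq => by rw [m1 q hq]
    have a0 : ∑ q ∈ t₀.items, W q * ∑ l ∈ (IT.br p Sp t₁ t₀).mt q, g l =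
        g p * Ws W t₀.items + ∑ q ∈ t₀.items, W q * ∑ l ∈ t₀.mt q, g l := by
      unfold Ws
      rw [Finset.mul_sum, ← Finset.sum_add_distrib]
      refine Finset.sum_congr rfl fun q hq => ?_
      rw [m0 q hq]
      ring
    rw [a1, a0]
    have hG : (∑ l ∈ cp P.p0 p, 2 * P.sg l * g l) + 2 * P.sg p * g p ≤
        ∑ l ∈ cp P.p0 s.n, 2 * P.sg l * g l := by
      refine le_trans (le_of_eq ?_) (Gm (Nat.succ_le_of_lt hpn))
      rw [Nat.succ_eq_add_one, cp_succ hp hp0, Finset.sum_insert (notMem_cp _ _)]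
      ring
    have hg' := mul_le_mul_of_nonneg_left hms (hg p)
    have hw := Ws_nonneg hW (t₁.items ∪ t₀.items)
    have := mul_le_mul_of_nonneg_right hG hw
    rw [e] at *
    nlinarith
  | add b t₁ t₀ ih₁ ih₀ =>
    intro s hO h
    obtain ⟨hp, hpn, hd, hO1, hO0⟩ := hO
    obtain ⟨-, h1, h0⟩ := h
    have k1 := ih₁ _ hO1 h1
    have k0 := ih₀ _ hO0 h0
    simp only at k1 k0
    have hG := Gm (Nat.succ_le_of_lt hpn)
    refine two hd (f₁ := fun q => ∑ l ∈ t₁.mt q, g l) (f₀ := fun q => ∑ l ∈ t₀.mt q, g l) ?_ ?_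
      (k1.trans (mul_le_mul_of_nonneg_right hG (Ws_nonneg hW _)))
      (k0.trans (mul_le_mul_of_nonneg_right hG (Ws_nonneg hW _)))
    · intro q hq
      simp only [IT.mt, if_neg (Finset.disjoint_left.1 hd hq)]
    · intro q hq
      simp only [IT.mt, if_pos hq]
  | up b Sp t ih =>
    intro s hO h
    obtain ⟨hp, hpn, -, hO1⟩ := hO
    exact (ih _ hO1 h.2).trans (mul_le_mul_of_nonneg_right (Gm hpn.le) (Ws_nonneg hW _))
  | pl b t ih =>
    intro s hO h
    obtain ⟨hp, hpn, hO1⟩ := hO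
    exact (ih _ hO1 h.2).trans (mul_le_mul_of_nonneg_right (Gm (Nat.succ_le_of_lt hpn)) (Ws_nonneg hW _))
  | far b t₁ t₀ ih₁ ih₀ =>
    intro s hO h
    obtain ⟨hp, hpn, hd, hO1, hO0⟩ := hO
    obtain ⟨-, h1, h0⟩ := h
    have k1 := ih₁ _ hO1 h1
    have k0 := ih₀ _ hO0 h0
    simp only at k1 k0
    have hG := Gm (Nat.succ_le_of_lt hpn)
    refine two hd (f₁ := fun q => ∑ l ∈ t₁.mt q, g l) (f₀ := fun q => ∑ l ∈ t₀.mt q, g l) ?_ ?_
      (k1.trans (mul_le_mul_of_nonneg_right hG (Ws_nonneg hW _)))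
      (k0.trans (mul_le_mul_of_nonneg_right hG (Ws_nonneg hW _)))
    · intro q hq
      simp only [IT.mt, if_neg (Finset.disjoint_left.1 hd hq)]
    · intro q hq
      simp only [IT.mt, if_pos hq]

/-! ### the potential of an item, block by block -/

/-- the block of a number: `b ∈ (2^j, 2^(j+1)]` -/
def bk (b : ℕ) : ℕ := Nat.clog 2 b - 1

lemma bk_spec {b : ℕ} (hb : 2 ≤ b) : b ∈ Finset.Ioc (2 ^ bk b) (2 ^ (bk b + 1)) := by
  have h1 : 0 < Nat.clog 2 b := Nat.clog_pos (by norm_num) hb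
  have e : bk b + 1 = Nat.clog 2 b := by unfold bk; omega
  rw [Finset.mem_Ioc, e]
  refine ⟨?_, Nat.le_pow_clog (by norm_num) _⟩
  have := Nat.pow_pred_clog_lt_self (b := 2) (by norm_num) (show 1 < b by omega)
  exact this

/-- sets of missing ties above the primes of a block -/
lemma card_img (m T : Finset ℕ) (P Q : ℕ) (hT : T ⊆ Finset.Ioc P Q) :
    (T.image fun b => m.filter (b < ·)).card ≤ 1 + (m.filter fun l => P < l ∧ l ≤ Q).card := by
  classical
  -- the number of ties of the block below `b` determines the set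
  set f : Finset ℕ → ℕ := fun S => ((m.filter fun l => P < l ∧ l ≤ Q) \ S).card with hf
  have hinj : Set.InjOn f (T.image fun b => m.filter (b < ·)) := by
    intro S hS S' hS' h
    obtain ⟨b, hb, rfl⟩ := Finset.mem_image.1 (Finset.mem_coe.1 hS)
    obtain ⟨b', hb', rfl⟩ := Finset.mem_image.1 (Finset.mem_coe.1 hS')
    have hbP := (Finset.mem_Ioc.1 (hT hb)).1
    have hbP' := (Finset.mem_Ioc.1 (hT hb')).1
    have hbQ := (Finset.mem_Ioc.1 (hT hb)).2
    have hbQ' := (Finset.mem_Ioc.1 (hT hb')).2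
    -- wlog by monotonicity
    have key : ∀ {x y : ℕ}, P < x → x ≤ Q → P < y → y ≤ Q → x ≤ y →
        f (m.filter (x < ·)) = f (m.filter (y < ·)) → m.filter (x < ·) = m.filter (y < ·) := by
      intro x y hx hx' hy hy' hxy he
      have hsub : (m.filter fun l => P < l ∧ l ≤ Q) \ (m.filter (x < ·)) ⊆
          (m.filter fun l => P < l ∧ l ≤ Q) \ (m.filter (y < ·)) := by
        intro l hl
        rw [Finset.mem_sdiff, Finset.mem_filter, Finset.mem_filter] at hl ⊢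
        exact ⟨hl.1, fun h => hl.2 ⟨h.1, lt_of_le_of_lt hxy h.2⟩⟩
      have heq := Finset.eq_of_subset_of_card_le hsub (le_of_eq he.symm)
      ext l
      rw [Finset.mem_filter, Finset.mem_filter]
      constructor
      · rintro ⟨h1, h2⟩
        refine ⟨h1, ?_⟩
        by_contra h3
        have h4 : l ∈ (m.filter fun l => P < l ∧ l ≤ Q) \ (m.filter (y < ·)) := by
          rw [Finset.mem_sdiff, Finset.mem_filter, Finset.mem_filter]
          exact ⟨⟨h1, by omega, by omega⟩, fun h => h3 h.2⟩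
        rw [← heq, Finset.mem_sdiff, Finset.mem_filter, Finset.mem_filter] at h4
        exact h4.2 ⟨h1, h2⟩
      · rintro ⟨h1, h2⟩
        exact ⟨h1, lt_of_le_of_lt hxy h2⟩
    rcases le_total b b' with hle | hle
    · exact key hbP hbQ hbP' hbQ' hle h
    · exact (key hbP' hbQ' hbP hbQ hle h.symm).symm
  rw [← Finset.card_image_of_injOn hinj]
  have hsub : ((T.image fun b => m.filter (b < ·)).image f) ⊆
      Finset.range ((m.filter fun l => P < l ∧ l ≤ Q).card + 1) := by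
    intro k hk
    obtain ⟨S, -, rfl⟩ := Finset.mem_image.1 hk
    rw [Finset.mem_range]
    exact Nat.lt_succ_of_le (Finset.card_le_card Finset.sdiff_subset)
  refine (Finset.card_le_card hsub).trans ?_
  rw [Finset.card_range]
  omega

/-- one block -/
lemma block_le {δ : ℕ → ℕ → ℝ} (hδ : ∀ b B, 0 ≤ δ b B) {κ : ℝ} {P Q : ℕ}
    (hblk : ∀ B, ∑ b ∈ Finset.Ioc P Q, δ b B ≤ κ) (m T : Finset ℕ) (hT : T ⊆ Finset.Ioc P Q) (B : ℕ) :
    ∑ b ∈ T, δ b (B * ∏ s ∈ m.filter (b < ·), s) ≤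
      κ * (1 + ((m.filter fun l => P < l ∧ l ≤ Q).card : ℝ)) := by
  classical
  have hκ : 0 ≤ κ := (Finset.sum_nonneg fun b _ => hδ b 0).trans (hblk 0)
  have h1 : ∑ b ∈ T, δ b (B * ∏ s ∈ m.filter (b < ·), s) =
      ∑ S ∈ T.image (fun b => m.filter (b < ·)), ∑ b ∈ T.filter (fun b => m.filter (b < ·) = S),
        δ b (B * ∏ s ∈ m.filter (b < ·), s) := by
    rw [Finset.sum_fiberwise_of_maps_to]
    intro b hb
    exact Finset.mem_image_of_mem _ hb
  rw [h1]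
  have h2 : ∀ S ∈ T.image (fun b => m.filter (b < ·)),
      ∑ b ∈ T.filter (fun b => m.filter (b < ·) = S), δ b (B * ∏ s ∈ m.filter (b < ·), s) ≤ κ := by
    intro S _
    have e : ∑ b ∈ T.filter (fun b => m.filter (b < ·) = S), δ b (B * ∏ s ∈ m.filter (b < ·), s) =
        ∑ b ∈ T.filter (fun b => m.filter (b < ·) = S), δ b (B * ∏ s ∈ S, s) :=
      Finset.sum_congr rfl fun b hb => by rw [(Finset.mem_filter.1 hb).2]
    rw [e]
    refine (Finset.sum_le_sum_of_subset_of_nonneg ((Finset.filter_subset _ _).trans hT)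
      fun b _ _ => hδ _ _).trans (hblk _)
  refine (Finset.sum_le_sum h2).trans ?_
  rw [Finset.sum_const, nsmul_eq_mul, mul_comm]
  refine mul_le_mul_of_nonneg_left ?_ hκ
  exact_mod_cast card_img m T P Q hT

/-- **all the blocks** -/
theorem nf_le {δ : ℕ → ℕ → ℝ} (hδ : ∀ b B, 0 ≤ δ b B) (h01 : ∀ b B, b < 2 → δ b B = 0)
    {κ : ℕ → ℝ} (hblk : ∀ j B, ∑ b ∈ Finset.Ioc (2 ^ j) (2 ^ (j + 1)), δ b B ≤ κ j) {K0 : ℝ}
    (hK : ∀ n, ∑ j ∈ Finset.range n, κ j ≤ K0) (m : Finset ℕ) (hm : ∀ l ∈ m, 2 ≤ l) (B n : ℕ) :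
    ∑ b ∈ Finset.range n, δ b (B * ∏ s ∈ m.filter (b < ·), s) ≤ K0 + ∑ l ∈ m, κ (bk l) := by
  classical
  have hκ : ∀ j, 0 ≤ κ j := fun j => (Finset.sum_nonneg fun b _ => hδ b 0).trans (hblk j 0)
  have e1 : ∑ b ∈ Finset.range n, δ b (B * ∏ s ∈ m.filter (b < ·), s) =
      ∑ b ∈ (Finset.range n).filter (2 ≤ ·), δ b (B * ∏ s ∈ m.filter (b < ·), s) := by
    rw [Finset.sum_filter]
    refine Finset.sum_congr rfl fun b _ => ?_
    split_ifs with h
    · rfl
    · exact h01 _ _ (by omega)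
  rw [e1]
  have e2 : ∑ b ∈ (Finset.range n).filter (2 ≤ ·), δ b (B * ∏ s ∈ m.filter (b < ·), s) =
      ∑ j ∈ Finset.range n, ∑ b ∈ ((Finset.range n).filter (2 ≤ ·)).filter (fun b => bk b = j),
        δ b (B * ∏ s ∈ m.filter (b < ·), s) := by
    rw [Finset.sum_fiberwise_of_maps_to]
    intro b hb
    rw [Finset.mem_filter, Finset.mem_range] at hb
    rw [Finset.mem_range]
    have h1 := bk_spec hb.2
    have h2 := (Finset.mem_Ioc.1 h1).1
    have h3 : bk b < 2 ^ bk b := Nat.lt_two_pow_self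
    omega
  rw [e2]
  have h3 : ∀ j ∈ Finset.range n,
      ∑ b ∈ ((Finset.range n).filter (2 ≤ ·)).filter (fun b => bk b = j),
        δ b (B * ∏ s ∈ m.filter (b < ·), s) ≤
      κ j * (1 + ((m.filter fun l => 2 ^ j < l ∧ l ≤ 2 ^ (j + 1)).card : ℝ)) := by
    intro j _
    refine block_le hδ (hblk j) m _ ?_ B
    intro b hb
    rw [Finset.mem_filter, Finset.mem_filter] at hb
    have := bk_spec hb.1.2
    rwa [hb.2] at this
  refine (Finset.sum_le_sum h3).trans ?_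
  have e3 : ∑ j ∈ Finset.range n, κ j * (1 + ((m.filter fun l => 2 ^ j < l ∧ l ≤ 2 ^ (j + 1)).card : ℝ)) =
      ∑ j ∈ Finset.range n, κ j +
        ∑ j ∈ Finset.range n, ∑ l ∈ m.filter (fun l => 2 ^ j < l ∧ l ≤ 2 ^ (j + 1)), κ j := by
    rw [← Finset.sum_add_distrib]
    refine Finset.sum_congr rfl fun j _ => ?_
    rw [Finset.sum_const, nsmul_eq_mul]
    ring
  rw [e3]
  refine add_le_add (hK n) ?_
  have e4 : ∑ j ∈ Finset.range n, ∑ l ∈ m.filter (fun l => 2 ^ j < l ∧ l ≤ 2 ^ (j + 1)), κ j =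
      ∑ l ∈ m, ∑ j ∈ (Finset.range n).filter (fun j => 2 ^ j < l ∧ l ≤ 2 ^ (j + 1)), κ j := by
    simp only [Finset.sum_filter]
    exact Finset.sum_comm
  rw [e4]
  refine Finset.sum_le_sum fun l hl => ?_
  have hsub : (Finset.range n).filter (fun j => 2 ^ j < l ∧ l ≤ 2 ^ (j + 1)) ⊆ {bk l} := by
    intro j hj
    rw [Finset.mem_filter] at hj
    rw [Finset.mem_singleton]
    have h1 := Finset.mem_Ioc.1 (bk_spec (hm l hl))
    have h2 : j < bk l + 1 := (Nat.pow_lt_pow_iff_right (by norm_num : 1 < 2)).1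
      (lt_of_lt_of_le hj.2.1 h1.2)
    have h3 : bk l < j + 1 := (Nat.pow_lt_pow_iff_right (by norm_num : 1 < 2)).1
      (lt_of_lt_of_le h1.1 hj.2.2)
    omega
  refine (Finset.sum_le_sum_of_subset_of_nonneg hsub fun j _ _ => hκ j).trans ?_
  rw [Finset.sum_singleton]

/-! ### the accident weights -/

/-- sum over the exits -/
noncomputable def z1 : ℝ := ∑' l : ℕ, (l:ℝ) ^ (-(21/20) : ℝ)

lemma z1_summable : Summable fun l : ℕ => (l:ℝ) ^ (-(21/20) : ℝ) :=
  Real.summable_nat_rpow.2 (by norm_num)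

lemma z1_nonneg : 0 ≤ z1 := tsum_nonneg fun l => Real.rpow_nonneg (Nat.cast_nonneg l) _

lemma z1_le (T : Finset ℕ) : ∑ l ∈ T, (l:ℝ) ^ (-(21/20) : ℝ) ≤ z1 :=
  z1_summable.sum_le_tsum _ fun l _ => Real.rpow_nonneg (Nat.cast_nonneg l) _

/-- accidents of `b` for the target `B γ` and for the targets of the exits -/
noncomputable def aw (A γ : ℝ) (b B : ℕ) : ℝ :=
  acc A b ((B:ℝ) * γ) ^ 3 + ∑ l ∈ (Finset.range (b + 1)).filter Nat.Prime,
    (l:ℝ) ^ (-(21/20) : ℝ) * acc A b (((B * l : ℕ) : ℝ) * γ) ^ 3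

lemma aw_nonneg (A γ : ℝ) (b B : ℕ) : 0 ≤ aw A γ b B := by
  unfold aw
  refine add_nonneg (pow_nonneg (acc_nonneg _ _ _) 3) (Finset.sum_nonneg fun l _ => ?_)
  exact mul_nonneg (Real.rpow_nonneg (Nat.cast_nonneg l) _) (pow_nonneg (acc_nonneg _ _ _) 3)

/-- the accident weight -/
noncomputable def dl0 (p0 : ℕ) (A C γ : ℝ) (b B : ℕ) : ℝ :=
  if b.Prime ∧ p0 < b then Real.log b ^ C / b * aw A γ b B else 0

lemma dl0_nonneg (p0 : ℕ) (A C γ : ℝ) (b B : ℕ) : 0 ≤ dl0 p0 A C γ b B := by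
  unfold dl0
  split_ifs
  · have := aw_nonneg A γ b B
    have h := Real.log_natCast_nonneg b
    positivity
  · exact le_rfl

/-- **the weights of the accident potential** -/
noncomputable def dlt (p0 : ℕ) (A C γ : ℝ) (b B : ℕ) : ℝ :=
  dl0 p0 A C γ b B + if b.Prime ∧ p0 < b ∧ b ∣ B then (b:ℝ) ^ (-(97/100) : ℝ) else 0

lemma dlt_nonneg (p0 : ℕ) (A C γ : ℝ) (b B : ℕ) : 0 ≤ dlt p0 A C γ b B := by
  unfold dlt
  refine add_nonneg (dl0_nonneg _ _ _ _ _ _) ?_
  split_ifs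
  · positivity
  · exact le_rfl

/-- what an own accident costs -/
noncomputable def ew (p0 : ℕ) (b : ℕ) : ℝ := if p0 < b then (b:ℝ) ^ (-(19/20) : ℝ) else 0

lemma ew_nonneg (p0 b : ℕ) : 0 ≤ ew p0 b := by
  unfold ew; split_ifs
  · positivity
  · exact le_rfl

/-- bound of the blocks -/
noncomputable def kap (P₀ : ℕ) (A'' : ℝ) (j : ℕ) : ℝ :=
  if P₀ ≤ 2 ^ j then (1 + z1) * Real.log ((2 ^ j : ℕ) : ℝ) ^ (-A'') else 0

lemma kap_nonneg (P₀ : ℕ) (A'' : ℝ) (j : ℕ) : 0 ≤ kap P₀ A'' j := by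
  unfold kap
  split_ifs
  · have := z1_nonneg
    have h := Real.log_natCast_nonneg (2 ^ j)
    positivity
  · exact le_rfl

/-- **block sums of the weights** -/
theorem dl0_block (C A'' A : ℝ) (hC : 0 ≤ C) (hA'' : 0 ≤ A'') (hA : 3 * (A'' + C + 4) ≤ A) :
    ∃ P₀ : ℕ, ∀ P₁ ≥ P₀, ∀ p0 : ℕ, 2 * P₁ ≤ p0 → ∀ (γ : ℝ) (j B : ℕ),
      ∑ b ∈ Finset.Ioc (2 ^ j) (2 ^ (j + 1)), dl0 p0 A C γ b B ≤ kap P₁ A'' j := by
  classical
  obtain ⟨P₀, hP₀⟩ := acc_block C A'' A hC hA'' hA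
  refine ⟨P₀, fun P₁ hP₁ p0 hp0 γ j B => ?_⟩
  unfold kap
  split_ifs with hj
  · have key := hP₀ (2 ^ j) (hP₁.trans hj)
    have e2 : 2 * 2 ^ j = 2 ^ (j + 1) := by rw [pow_succ]; ring
    rw [e2] at key
    set T := (Finset.Ioc (2 ^ j) (2 ^ (j + 1))).filter Nat.Prime with hT
    set κ := Real.log ((2 ^ j : ℕ) : ℝ) ^ (-A'') with hκ
    have hκ0 : 0 ≤ κ := Real.rpow_nonneg (Real.log_natCast_nonneg _) _
    have h1 : ∑ b ∈ Finset.Ioc (2 ^ j) (2 ^ (j + 1)), dl0 p0 A C γ b B ≤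
        ∑ b ∈ T, Real.log b ^ C / b * aw A γ b B := by
      rw [hT, Finset.sum_filter]
      refine Finset.sum_le_sum fun b _ => ?_
      unfold dl0
      by_cases hb : b.Prime
      · rw [if_pos hb]
        split_ifs
        · exact le_rfl
        · have := aw_nonneg A γ b B
          have h := Real.log_natCast_nonneg b
          positivity
      · rw [if_neg hb, if_neg fun h => hb h.1]
    refine h1.trans ?_
    have h2 : ∀ b ∈ T, Real.log b ^ C / b * aw A γ b B ≤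
        acc A b ((B:ℝ) * γ) ^ 3 * Real.log b ^ C / b +
        ∑ l ∈ (Finset.range (2 ^ (j + 1) + 1)).filter Nat.Prime,
          (l:ℝ) ^ (-(21/20) : ℝ) * (acc A b (((B * l : ℕ) : ℝ) * γ) ^ 3 * Real.log b ^ C / b) := by
      intro b hb
      have hb2 := (Finset.mem_Ioc.1 (Finset.mem_filter.1 hb).1).2
      have h := Real.log_natCast_nonneg b
      have h0 : 0 ≤ Real.log b ^ C / b := by positivity
      unfold aw
      rw [mul_add]
      refine add_le_add (le_of_eq (by ring)) ?_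
      rw [Finset.mul_sum]
      have hsub : (Finset.range (b + 1)).filter Nat.Prime ⊆
          (Finset.range (2 ^ (j + 1) + 1)).filter Nat.Prime :=
        Finset.filter_subset_filter _ (Finset.range_mono (by omega))
      refine le_trans (le_of_eq ?_) (Finset.sum_le_sum_of_subset_of_nonneg hsub fun l _ _ => ?_)
      · refine Finset.sum_congr rfl fun l _ => ?_
        ring
      · have := acc_nonneg A b (((B * l : ℕ) : ℝ) * γ)
        positivity
    refine (Finset.sum_le_sum h2).trans ?_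
    rw [Finset.sum_add_distrib, Finset.sum_comm]
    have h3 : ∑ l ∈ (Finset.range (2 ^ (j + 1) + 1)).filter Nat.Prime, ∑ b ∈ T,
        (l:ℝ) ^ (-(21/20) : ℝ) * (acc A b (((B * l : ℕ) : ℝ) * γ) ^ 3 * Real.log b ^ C / b) ≤
        z1 * κ := by
      calc _ ≤ ∑ l ∈ (Finset.range (2 ^ (j + 1) + 1)).filter Nat.Prime, (l:ℝ) ^ (-(21/20) : ℝ) * κ := by
            refine Finset.sum_le_sum fun l _ => ?_
            rw [← Finset.mul_sum]
            exact mul_le_mul_of_nonneg_left (key _) (by positivity)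
        _ = (∑ l ∈ (Finset.range (2 ^ (j + 1) + 1)).filter Nat.Prime, (l:ℝ) ^ (-(21/20) : ℝ)) * κ := by
            rw [Finset.sum_mul]
        _ ≤ z1 * κ := mul_le_mul_of_nonneg_right (z1_le _) hκ0
    have h4 := key ((B:ℝ) * γ)
    calc _ ≤ κ + z1 * κ := add_le_add h4 h3
      _ = (1 + z1) * κ := by ring
  · refine le_of_eq (Finset.sum_eq_zero fun b hb => ?_)
    have hb2 := (Finset.mem_Ioc.1 hb).2
    rw [pow_succ] at hb2
    unfold dl0
    rw [if_neg]
    rintro ⟨-, h⟩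
    omega

/-- the sum of the block bounds -/
theorem kap_sum {A'' : ℝ} (hA'' : 2 ≤ A'') {P₁ : ℕ} (hP₁ : 4 ≤ P₁) (n : ℕ) :
    ∑ j ∈ Finset.range n, kap P₁ A'' j ≤ (1 + z1) * ∑' j : ℕ, 3 * ((j:ℝ) ^ 2)⁻¹ := by
  have hz := z1_nonneg
  have hs : Summable fun j : ℕ => 3 * ((j:ℝ) ^ 2)⁻¹ :=
    (Real.summable_nat_pow_inv.2 (by norm_num)).mul_left 3
  have h1 : ∀ j ∈ Finset.range n, kap P₁ A'' j ≤ (1 + z1) * (3 * ((j:ℝ) ^ 2)⁻¹) := by
    intro j _
    unfold kap
    split_ifs with hj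
    · refine mul_le_mul_of_nonneg_left ?_ (by linarith)
      have hj2 : 2 ≤ j := by
        by_contra h
        have : j ≤ 1 := by omega
        have : 2 ^ j ≤ 2 ^ 1 := Nat.pow_le_pow_right (by norm_num) this
        omega
      have hlog : Real.log ((2 ^ j : ℕ) : ℝ) = j * Real.log 2 := by
        push_cast
        rw [Real.log_pow]
      have h69 : 0.69 < Real.log 2 := lt_trans (by norm_num) Real.log_two_gt_d9
      have hj' : (2:ℝ) ≤ j := by exact_mod_cast hj2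
      have h1 : (1:ℝ) ≤ j * Real.log 2 := by nlinarith
      rw [hlog]
      calc (j * Real.log 2 : ℝ) ^ (-A'') ≤ (j * Real.log 2) ^ (-(2:ℝ)) :=
            Real.rpow_le_rpow_of_exponent_le h1 (by linarith)
        _ = ((j * Real.log 2) ^ 2)⁻¹ := by
            rw [Real.rpow_neg (by positivity)]
            norm_cast
        _ ≤ 3 * ((j:ℝ) ^ 2)⁻¹ := by
            rw [mul_pow, mul_inv, mul_comm]
            refine mul_le_mul_of_nonneg_right ?_ (by positivity)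
            rw [inv_le_comm₀ (by positivity) (by norm_num)]
            nlinarith
    · positivity
  refine (Finset.sum_le_sum h1).trans ?_
  rw [← Finset.mul_sum]
  exact mul_le_mul_of_nonneg_left (hs.sum_le_tsum _ fun j _ => by positivity) (by linarith)

/-! ### trivial bound of the weights -/

lemma acc_max (A : ℝ) {b : ℕ} (hb : 2 ≤ b) (θ : ℝ) :
    acc A b θ ≤ 100 * Real.log b * (2 * (b:ℝ) ^ (1/100 : ℝ)) := by
  classical
  have hb0 : (0:ℝ) < b := by exact_mod_cast (by omega : 0 < b)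
  have e1 : acc A b θ = ∑ k ∈ Finset.range (Kmx b), if BadK A b θ k then
      (2:ℝ) ^ (2 * Crest.Agent.R4.ShotG223.eps2 * k) else 0 := rfl
  rw [e1]
  have h1 : (2:ℝ) ^ (2 * Crest.Agent.R4.ShotG223.eps2 * (Kmx b : ℝ)) ≤ 2 * (b:ℝ) ^ (1/100 : ℝ) := by
    have h2 : 2 ^ (Nat.clog 2 b) < 2 * b := by
      have h3 : 2 ^ (Nat.clog 2 b).pred < b := Nat.pow_pred_clog_lt_self (by norm_num) (by omega)
      have h4 : 0 < Nat.clog 2 b := Nat.clog_pos (by norm_num) (by omega)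
      conv_lhs => rw [← Nat.succ_pred_eq_of_pos h4]
      rw [pow_succ]; omega
    have h3 : ((2:ℝ) ^ (Nat.clog 2 b : ℝ)) ≤ 2 * b := by
      rw [Real.rpow_natCast]
      exact_mod_cast h2.le
    have e2 : (2 * Crest.Agent.R4.ShotG223.eps2 * (Kmx b : ℝ)) = (Nat.clog 2 b : ℝ) * (1/100) + 1/1000 := by
      unfold Crest.Agent.R4.ShotG223.eps2 Kmx
      push_cast
      ring
    rw [e2, Real.rpow_add (by norm_num), Real.rpow_mul (by norm_num)]
    have h4 : ((2:ℝ) ^ (Nat.clog 2 b : ℝ)) ^ (1/100 : ℝ) ≤ (2 * b) ^ (1/100 : ℝ) :=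
      Real.rpow_le_rpow (by positivity) h3 (by norm_num)
    rw [Real.mul_rpow (by norm_num) hb0.le] at h4
    have h5 : (2:ℝ) ^ (1/100 : ℝ) * (2:ℝ) ^ (1/1000 : ℝ) ≤ 2 := by
      rw [← Real.rpow_add (by norm_num)]
      calc (2:ℝ) ^ ((1/100 : ℝ) + 1/1000) ≤ (2:ℝ) ^ (1:ℝ) :=
            Real.rpow_le_rpow_of_exponent_le (by norm_num) (by norm_num)
        _ = 2 := Real.rpow_one _
    calc ((2:ℝ) ^ (Nat.clog 2 b : ℝ)) ^ (1/100 : ℝ) * (2:ℝ) ^ (1/1000 : ℝ)
        ≤ ((2:ℝ) ^ (1/100 : ℝ) * (b:ℝ) ^ (1/100 : ℝ)) * (2:ℝ) ^ (1/1000 : ℝ) :=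
          mul_le_mul_of_nonneg_right h4 (by positivity)
      _ = ((2:ℝ) ^ (1/100 : ℝ) * (2:ℝ) ^ (1/1000 : ℝ)) * (b:ℝ) ^ (1/100 : ℝ) := by ring
      _ ≤ 2 * (b:ℝ) ^ (1/100 : ℝ) := mul_le_mul_of_nonneg_right h5 (by positivity)
  have h2 : ∀ k ∈ Finset.range (Kmx b), (if BadK A b θ k then
      (2:ℝ) ^ (2 * Crest.Agent.R4.ShotG223.eps2 * k) else 0) ≤ 2 * (b:ℝ) ^ (1/100 : ℝ) := by
    intro k hk
    split_ifs
    · refine le_trans (Real.rpow_le_rpow_of_exponent_le (by norm_num) ?_) h1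
      have : (k:ℝ) ≤ Kmx b := by exact_mod_cast (Finset.mem_range.1 hk).le
      refine mul_le_mul_of_nonneg_left this ?_
      unfold Crest.Agent.R4.ShotG223.eps2
      norm_num
    · positivity
  refine (Finset.sum_le_sum h2).trans ?_
  rw [Finset.sum_const, Finset.card_range, nsmul_eq_mul]
  exact mul_le_mul_of_nonneg_right (Kmx_le hb (by omega)) (by positivity)

lemma aw_max (A γ : ℝ) {b : ℕ} (hb : 2 ≤ b) (B : ℕ) :
    aw A γ b B ≤ (1 + z1) * (8 * 10 ^ 6 * Real.log b ^ (3:ℝ) * (b:ℝ) ^ (3/100 : ℝ)) := by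
  have hb0 : (0:ℝ) < b := by exact_mod_cast (by omega : 0 < b)
  have hl := Real.log_natCast_nonneg b
  set M := 8 * 10 ^ 6 * Real.log b ^ (3:ℝ) * (b:ℝ) ^ (3/100 : ℝ) with hM
  have hM0 : 0 ≤ M := by positivity
  have h1 : ∀ θ, acc A b θ ^ 3 ≤ M := by
    intro θ
    have h2 := pow_le_pow_left₀ (acc_nonneg A b θ) (acc_max A hb θ) 3
    refine h2.trans (le_of_eq ?_)
    have e1 : ((b:ℝ) ^ (1/100 : ℝ)) ^ 3 = (b:ℝ) ^ (3/100 : ℝ) := by
      rw [← Real.rpow_natCast, ← Real.rpow_mul hb0.le]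
      norm_num
    have e2 : Real.log b ^ (3:ℝ) = Real.log b ^ 3 := by
      rw [← Real.rpow_natCast]; norm_num
    rw [hM, ← e1, e2]
    ring
  unfold aw
  rw [add_mul, one_mul]
  refine add_le_add (h1 _) ?_
  calc ∑ l ∈ (Finset.range (b + 1)).filter Nat.Prime,
      (l:ℝ) ^ (-(21/20) : ℝ) * acc A b (((B * l : ℕ) : ℝ) * γ) ^ 3
      ≤ ∑ l ∈ (Finset.range (b + 1)).filter Nat.Prime, (l:ℝ) ^ (-(21/20) : ℝ) * M :=
        Finset.sum_le_sum fun l _ => mul_le_mul_of_nonneg_left (h1 _) (by positivity)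
    _ = (∑ l ∈ (Finset.range (b + 1)).filter Nat.Prime, (l:ℝ) ^ (-(21/20) : ℝ)) * M := by
        rw [Finset.sum_mul]
    _ ≤ z1 * M := mul_le_mul_of_nonneg_right (z1_le _) hM0

/-- **the weights are below `ew`** -/
theorem dlt_le (C : ℝ) (hC : 0 ≤ C) : ∃ P₁ : ℕ, ∀ p0 ≥ P₁, ∀ (A γ : ℝ) (b B : ℕ),
    dlt p0 A C γ b B ≤ ew p0 b := by
  have hz := z1_nonneg
  have ev : ∀ᶠ x : ℝ in Filter.atTop,
      (1 + z1) * (8 * 10 ^ 6) * Real.log x ^ (C + 3) + 1 ≤ x ^ (2/100 : ℝ) := by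
    have h := (isLittleO_log_rpow_rpow_atTop (C + 3) (show (0:ℝ) < 2/100 by norm_num)).def
      (show (0:ℝ) < 1 / (2 * ((1 + z1) * (8 * 10 ^ 6))) by positivity)
    have h2 : ∀ᶠ x : ℝ in Filter.atTop, 2 ≤ x ^ (2/100 : ℝ) :=
      (tendsto_rpow_atTop (by norm_num)).eventually_ge_atTop _
    filter_upwards [h, h2, Filter.eventually_ge_atTop (1:ℝ)] with x hx hx2 hx1
    rw [Real.norm_of_nonneg (Real.rpow_nonneg (Real.log_nonneg hx1) _),
      Real.norm_of_nonneg (by positivity)] at hx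
    have hK : 0 < (1 + z1) * (8 * 10 ^ 6) := by positivity
    have h3 := mul_le_mul_of_nonneg_left hx hK.le
    have e : (1 + z1) * (8 * 10 ^ 6) * (1 / (2 * ((1 + z1) * (8 * 10 ^ 6))) * x ^ (2/100 : ℝ)) =
        x ^ (2/100 : ℝ) / 2 := by
      field_simp
    rw [e] at h3
    linarith
  obtain ⟨x₀, hx₀⟩ := Filter.eventually_atTop.1 ev
  refine ⟨⌈x₀⌉₊ + 2, fun p0 hp0 A γ b B => ?_⟩
  unfold ew
  by_cases hb : p0 < b
  · rw [if_pos hb]
    have hb2 : 2 ≤ b := by omega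
    have hb0 : (0:ℝ) < b := by exact_mod_cast (by omega : 0 < b)
    have hl := Real.log_natCast_nonneg b
    have hlp : 0 < Real.log b := Real.log_pos (by exact_mod_cast (by omega : 1 < b))
    have hx := hx₀ b ((Nat.le_ceil _).trans (by exact_mod_cast (by omega : ⌈x₀⌉₊ ≤ b)))
    have h1 : dl0 p0 A C γ b B ≤ (1 + z1) * (8 * 10 ^ 6) * Real.log b ^ (C + 3) * (b:ℝ) ^ (-(97/100) : ℝ) := by
      unfold dl0
      split_ifs
      · have h2 := mul_le_mul_of_nonneg_left (aw_max A γ hb2 B) (show 0 ≤ Real.log b ^ C / b by positivity)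
        refine h2.trans (le_of_eq ?_)
        have e1 : Real.log b ^ (C + 3) = Real.log b ^ C * Real.log b ^ (3:ℝ) :=
          Real.rpow_add hlp _ _
        have e2 : (b:ℝ) ^ (-(97/100) : ℝ) = (b:ℝ) ^ (3/100 : ℝ) / b := by
          rw [eq_div_iff hb0.ne', ← Real.rpow_add_one hb0.ne']
          norm_num
        rw [e1, e2]
        ring
      · positivity
    have h2 : (if b.Prime ∧ p0 < b ∧ b ∣ B then (b:ℝ) ^ (-(97/100) : ℝ) else 0) ≤
        (b:ℝ) ^ (-(97/100) : ℝ) := by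
      split_ifs
      · exact le_rfl
      · positivity
    unfold dlt
    calc _ ≤ (1 + z1) * (8 * 10 ^ 6) * Real.log b ^ (C + 3) * (b:ℝ) ^ (-(97/100) : ℝ) +
          (b:ℝ) ^ (-(97/100) : ℝ) := add_le_add h1 h2
      _ = ((1 + z1) * (8 * 10 ^ 6) * Real.log b ^ (C + 3) + 1) * (b:ℝ) ^ (-(97/100) : ℝ) := by ring
      _ ≤ (b:ℝ) ^ (2/100 : ℝ) * (b:ℝ) ^ (-(97/100) : ℝ) :=
          mul_le_mul_of_nonneg_right hx (by positivity)
      _ = (b:ℝ) ^ (-(19/20) : ℝ) := by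
          rw [← Real.rpow_add hb0]
          norm_num
  · rw [if_neg hb]
    unfold dlt dl0
    rw [if_neg (fun h => hb h.2), if_neg (fun h => hb h.2.1), add_zero]

/-! ### the shares -/

/-- sums of block functions over the columns -/
lemma blk_sum {f : ℕ → ℝ} (hf : ∀ j, 0 ≤ f j) (T : Finset ℕ) (n : ℕ) (hT : T ⊆ Finset.range n)
    (h2 : ∀ l ∈ T, 2 ≤ l) : ∑ l ∈ T, f (bk l) / l ≤ ∑ j ∈ Finset.range n, f j := by
  classical
  have e2 : ∑ l ∈ T, f (bk l) / l = ∑ j ∈ Finset.range n, ∑ l ∈ T.filter (fun l => bk l = j),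
      f (bk l) / l := by
    rw [Finset.sum_fiberwise_of_maps_to]
    intro b hb
    have hb' := Finset.mem_range.1 (hT hb)
    rw [Finset.mem_range]
    have h1 := bk_spec (h2 b hb)
    have h2 := (Finset.mem_Ioc.1 h1).1
    have h3 : bk b < 2 ^ bk b := Nat.lt_two_pow_self
    omega
  rw [e2]
  refine Finset.sum_le_sum fun j _ => ?_
  have h3 : ∑ l ∈ T.filter (fun l => bk l = j), f (bk l) / (l:ℝ) ≤
      ∑ l ∈ Finset.Ioc (2 ^ j) (2 ^ (j + 1)), f j * (1 / (2:ℝ) ^ j) := by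
    have hsub : T.filter (fun l => bk l = j) ⊆ Finset.Ioc (2 ^ j) (2 ^ (j + 1)) := by
      intro l hl
      rw [Finset.mem_filter] at hl
      have := bk_spec (h2 l hl.1)
      rwa [hl.2] at this
    refine le_trans (Finset.sum_le_sum fun l hl => ?_)
      (Finset.sum_le_sum_of_subset_of_nonneg hsub fun l _ _ => ?_)
    · rw [(Finset.mem_filter.1 hl).2, div_eq_mul_one_div]
      refine mul_le_mul_of_nonneg_left ?_ (hf j)
      refine one_div_le_one_div_of_le (by positivity) ?_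
      have := (Finset.mem_Ioc.1 (hsub hl)).1
      exact_mod_cast this.le
    · exact mul_nonneg (hf j) (by positivity)
  refine h3.trans (le_of_eq ?_)
  rw [Finset.sum_const, Nat.card_Ioc, nsmul_eq_mul, pow_succ]
  have e : 2 ^ j * 2 - 2 ^ j = 2 ^ j := by omega
  rw [e]
  push_cast
  field_simp

lemma sum_logpow (B : ℝ) {s : ℝ} (hs : 1 < s) :
    Summable fun l : ℕ => Real.log l ^ B * (l:ℝ) ^ (-s) := by
  set e := (s - 1) / 2 with he
  have he0 : 0 < e := by rw [he]; linarith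
  refine summable_of_isBigO_nat (Real.summable_nat_rpow.2 (show -(s - e) < -1 by rw [he]; linarith)) ?_
  have h := (isLittleO_log_rpow_rpow_atTop B he0).isBigO
  have h2 : (fun x : ℝ => Real.log x ^ B * x ^ (-s)) =O[Filter.atTop] fun x : ℝ => x ^ (-(s - e)) := by
    have h3 := h.mul (Asymptotics.isBigO_refl (fun x : ℝ => x ^ (-s)) Filter.atTop)
    refine h3.congr' Filter.EventuallyEq.rfl ?_
    filter_upwards [Filter.eventually_gt_atTop (0:ℝ)] with x hx
    rw [← Real.rpow_add hx]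
    congr 1
    ring
  exact h2.comp_tendsto tendsto_natCast_atTop_atTop

/-- the constant of the shares -/
noncomputable def cS (B : ℝ) : ℝ :=
  8 * (2 ^ B * ((1 + z1) * ∑' j : ℕ, 3 * ((j:ℝ) ^ 2)⁻¹)) +
    16 * ∑' l : ℕ, Real.log l ^ B * (l:ℝ) ^ (-(39/20) : ℝ)

theorem shares {B A'' : ℝ} (hB : 0 ≤ B) (hA'' : B + 2 ≤ A'') {P₁ : ℕ} (hP₁ : 4 ≤ P₁) (p0 n : ℕ) :
    ∑ l ∈ cp p0 n, 2 * (Real.log l ^ B / l) * (4 * kap P₁ A'' (bk l) + 8 * ew p0 l) ≤ cS B := by
  classical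
  have hz := z1_nonneg
  have h2 : ∀ l ∈ cp p0 n, 2 ≤ l := fun l hl => (Finset.mem_filter.1 hl).2.1.two_le
  have h1 : ∀ l ∈ cp p0 n, 2 * (Real.log l ^ B / l) * (4 * kap P₁ A'' (bk l) + 8 * ew p0 l) ≤
      8 * (2 ^ B * kap P₁ 2 (bk l) / l) + 16 * (Real.log l ^ B * (l:ℝ) ^ (-(39/20) : ℝ)) := by
    intro l hl
    have hl2 := h2 l hl
    have hl0 : (0:ℝ) < l := by exact_mod_cast (by omega : 0 < l)
    have hll := Real.log_natCast_nonneg l
    have hp0l : p0 < l := (Finset.mem_filter.1 hl).2.2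
    have a1 : Real.log l ^ B * kap P₁ A'' (bk l) ≤ 2 ^ B * kap P₁ 2 (bk l) := by
      unfold kap
      split_ifs with hj
      · set j := bk l with hjj
        have hj2 : 2 ≤ j := by
          by_contra h
          have h3 : j ≤ 1 := by omega
          have : 2 ^ j ≤ 2 ^ 1 := Nat.pow_le_pow_right (by norm_num) h3
          omega
        have hlog : Real.log ((2 ^ j : ℕ) : ℝ) = j * Real.log 2 := by
          push_cast
          rw [Real.log_pow]
        have h69 : 0.69 < Real.log 2 := lt_trans (by norm_num) Real.log_two_gt_d9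
        have hj' : (2:ℝ) ≤ j := by exact_mod_cast hj2
        have h1 : (1:ℝ) ≤ j * Real.log 2 := by nlinarith
        have h3 : Real.log l ≤ 2 * (j * Real.log 2) := by
          have h4 := (Finset.mem_Ioc.1 (bk_spec hl2)).2
          have h5 : Real.log l ≤ Real.log ((2 ^ (bk l + 1) : ℕ) : ℝ) :=
            Real.log_le_log hl0 (by exact_mod_cast h4)
          rw [← hjj] at h5
          push_cast at h5
          rw [Real.log_pow] at h5
          push_cast at h5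
          nlinarith
        rw [hlog]
        have h4 : Real.log l ^ B ≤ 2 ^ B * (j * Real.log 2) ^ B := by
          rw [← Real.mul_rpow (by norm_num) (by linarith)]
          exact Real.rpow_le_rpow hll h3 hB
        have h5 : (j * Real.log 2) ^ B * (j * Real.log 2) ^ (-A'') ≤ (j * Real.log 2) ^ (-(2:ℝ)) := by
          rw [← Real.rpow_add (by linarith)]
          exact Real.rpow_le_rpow_of_exponent_le h1 (by linarith)
        have h6 : 0 ≤ (j * Real.log 2 : ℝ) ^ (-A'') := by positivity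
        calc Real.log l ^ B * ((1 + z1) * (j * Real.log 2) ^ (-A''))
            ≤ (2 ^ B * (j * Real.log 2) ^ B) * ((1 + z1) * (j * Real.log 2) ^ (-A'')) :=
              mul_le_mul_of_nonneg_right h4 (by positivity)
          _ = 2 ^ B * ((1 + z1) * ((j * Real.log 2) ^ B * (j * Real.log 2) ^ (-A''))) := by ring
          _ ≤ 2 ^ B * ((1 + z1) * (j * Real.log 2) ^ (-(2:ℝ))) := by gcongr
      · simp
    have a2 : Real.log l ^ B / l * ew p0 l = Real.log l ^ B * (l:ℝ) ^ (-(39/20) : ℝ) := by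
      unfold ew
      rw [if_pos hp0l]
      have e : (l:ℝ) ^ (-(39/20) : ℝ) = (l:ℝ) ^ (-(19/20) : ℝ) / l := by
        rw [eq_div_iff hl0.ne', ← Real.rpow_add_one hl0.ne']
        norm_num
      rw [e]
      ring
    calc _ = 8 * ((Real.log l ^ B * kap P₁ A'' (bk l)) / l) + 16 * (Real.log l ^ B / l * ew p0 l) := by
          ring
      _ ≤ _ := by
          rw [a2]
          gcongr
  refine (Finset.sum_le_sum h1).trans ?_
  rw [Finset.sum_add_distrib, ← Finset.mul_sum, ← Finset.mul_sum]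
  unfold cS
  refine add_le_add (mul_le_mul_of_nonneg_left ?_ (by norm_num)) (mul_le_mul_of_nonneg_left ?_ (by norm_num))
  · have h3 := blk_sum (f := fun j => 2 ^ B * kap P₁ 2 j)
      (fun j => mul_nonneg (by positivity) (kap_nonneg _ _ _)) (cp p0 n) n (Finset.filter_subset _ _) h2
    refine h3.trans ?_
    rw [← Finset.mul_sum]
    exact mul_le_mul_of_nonneg_left (kap_sum le_rfl hP₁ n) (by positivity)
  · exact (sum_logpow B (by norm_num)).sum_le_tsum _ fun l _ =>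
      mul_nonneg (Real.rpow_nonneg (Real.log_natCast_nonneg l) _) (Real.rpow_nonneg (Nat.cast_nonneg l) _)

/-! ### the root bound -/

/-- the constant of the root bound -/
noncomputable def cR (B : ℝ) : ℝ := 4 * ((1 + z1) * ∑' j : ℕ, 3 * ((j:ℝ) ^ 2)⁻¹) + cS B

lemma cR_nonneg (B : ℝ) : 0 ≤ cR B := by
  have hz := z1_nonneg
  have h1 : 0 ≤ ∑' j : ℕ, 3 * ((j:ℝ) ^ 2)⁻¹ := tsum_nonneg fun j => by positivity
  have h2 : 0 ≤ ∑' l : ℕ, Real.log l ^ B * (l:ℝ) ^ (-(39/20) : ℝ) := tsum_nonneg fun l =>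
    mul_nonneg (Real.rpow_nonneg (Real.log_natCast_nonneg l) _) (Real.rpow_nonneg (Nat.cast_nonneg l) _)
  unfold cR cS
  positivity

/-- bookkeeping of a node -/
lemma bk_of {P : Par} {W : ℕ → ℝ} {s : NS} {t : IT} (h : NodeOk P W s t) : Bk t.items s := by
  cases t with
  | leaf S => exact h.1
  | br p Sp t₁ t₀ => exact h.2.2.2.2.1
  | add p t₁ t₀ => exact h.2.2.2.2.1
  | up p Sp t => exact h.2.2.2.2.1
  | pl p t => exact h.2.2.2.2.1
  | far p t₁ t₀ => exact h.2.2.2.2.1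

/-- **ROOT BOUND**: the accident potential of the items of a node, any target -/
theorem root_nf {B C A A'' : ℝ} (hB : 0 ≤ B) (hC : 0 ≤ C) (hA'' : B + 2 ≤ A'')
    (hA : 3 * (A'' + C + 4) ≤ A) : ∃ P₂ : ℕ, ∀ p0 ≥ P₂, ∀ (C1 c2 γ : ℝ) (W : ℕ → ℝ), (∀ q, 0 ≤ W q) →
    ∀ (t : IT) (s : NS), t.Ok s.n → All (NodeOk (par B C1 c2 p0) W) s t → ∀ n ≤ s.n,
    ∑ q ∈ t.items, W q * nf (dlt p0 A C γ) (ew p0) s.B (t.mt q) n ≤ cR B * Ws W t.items := by
  classical
  obtain ⟨P₀, hP₀⟩ := dl0_block C A'' A hC (by linarith) hA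
  refine ⟨2 * (P₀ + 4), fun p0 hp0 C1 c2 γ W hW t s hO h n hn => ?_⟩
  have hblk := hP₀ (P₀ + 4) (by omega) p0 hp0 γ
  set P₁ := P₀ + 4 with hP₁
  have hgeB : ∀ p : ℕ, p.Prime → p ∣ s.B → s.n ≤ p := by
    have hk := bk_of h.self
    exact hk.geB
  have key : ∀ q ∈ t.items, nf (dlt p0 A C γ) (ew p0) s.B (t.mt q) n ≤
      4 * ((1 + z1) * ∑' j : ℕ, 3 * ((j:ℝ) ^ 2)⁻¹) +
        ∑ l ∈ t.mt q, (4 * kap P₁ A'' (bk l) + 8 * ew p0 l) := by
    intro q hq
    have hpr : ∀ l ∈ t.mt q, l.Prime := fun l hl => (BldF542.mt_lt _ _ hO _ _ hl).1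
    have e1 : ∀ b ∈ Finset.range n, 4 * dlt p0 A C γ b (s.B * ∏ s ∈ (t.mt q).filter (b < ·), s) =
        4 * dl0 p0 A C γ b (s.B * ∏ s ∈ (t.mt q).filter (b < ·), s) := by
      intro b hb
      have hbn : b < s.n := (Finset.mem_range.1 hb).trans_le hn
      unfold dlt
      rw [if_neg, add_zero]
      rintro ⟨hbp, -, hd⟩
      rcases (Nat.Prime.dvd_mul hbp).1 hd with h1 | h1
      · have := hgeB b hbp h1
        omega
      · obtain ⟨l, hl, hbl⟩ := (Prime.dvd_finsetProd_iff hbp.prime _).1 h1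
        rw [Finset.mem_filter] at hl
        have := (Nat.prime_dvd_prime_iff_eq hbp (hpr l hl.1)).1 hbl
        omega
    unfold nf
    rw [Finset.sum_congr rfl e1, ← Finset.mul_sum, Finset.sum_add_distrib]
    have h1 := nf_le (δ := dl0 p0 A C γ) (fun b B => dl0_nonneg _ _ _ _ _ _) (fun b B hb => by
      unfold dl0
      rw [if_neg]
      rintro ⟨h, -⟩
      have := h.two_le
      omega) (κ := kap P₁ A'') hblk (fun n => kap_sum (by linarith) (by omega) n) (t.mt q)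
      (fun l hl => (hpr l hl).two_le) s.B n
    have h2 := mul_le_mul_of_nonneg_left h1 (show (0:ℝ) ≤ 4 by norm_num)
    rw [mul_add, Finset.mul_sum (t.mt q)] at h2
    linarith
  have hs : ∑ q ∈ t.items, W q * nf (dlt p0 A C γ) (ew p0) s.B (t.mt q) n ≤
      ∑ q ∈ t.items, (4 * ((1 + z1) * ∑' j : ℕ, 3 * ((j:ℝ) ^ 2)⁻¹) * W q +
        W q * ∑ l ∈ t.mt q, (4 * kap P₁ A'' (bk l) + 8 * ew p0 l)) := by
    refine Finset.sum_le_sum fun q hq => ?_
    refine (mul_le_mul_of_nonneg_left (key q hq) (hW q)).trans (le_of_eq ?_)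
    ring
  refine hs.trans ?_
  rw [Finset.sum_add_distrib, ← Finset.mul_sum]
  have h3 := mt_sum hW (P := par B C1 c2 p0) (fun k => par_sg_nonneg B C1 c2 p0 k)
    (g := fun l => 4 * kap P₁ A'' (bk l) + 8 * ew p0 l) (fun l => by
      have := kap_nonneg P₁ A'' (bk l)
      have := ew_nonneg p0 l
      positivity) t s hO h
  have h4 := mul_le_mul_of_nonneg_right (shares hB hA'' (by omega : 4 ≤ P₁) p0 s.n) (Ws_nonneg hW t.items)
  have h5 : ∑ q ∈ t.items, W q * ∑ l ∈ t.mt q, (4 * kap P₁ A'' (bk l) + 8 * ew p0 l) ≤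
      cS B * Ws W t.items := h3.trans h4
  have e : cR B * Ws W t.items = 4 * ((1 + z1) * ∑' j : ℕ, 3 * ((j:ℝ) ^ 2)⁻¹) * Ws W t.items +
      cS B * Ws W t.items := by
    unfold cR
    ring
  rw [e]
  exact add_le_add le_rfl h5

end Crest.Agent.R4P.AccN31
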