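import Crest.Agent.R4P.NB_10
import Crest.Agent.R4P.StepRad947
import Crest.Agent.R4P.OSWIA19
import Crest.Agent.R4P.IMI194
import Crest.Agent.R4P.BldC153
import Crest.Agent.R4.GKap812

/-!
R4 powers (S0004), helper10 (port of helper927's `R4/NI927`): **item and node hypotheses of the state theorems
for a context of 189.**

* `tails_uq` : `Σ_{l ∈ uq q, l > z} 1/l ≤ z^(-1/2)` for pruned items; `sum_uq`, `sum_ms` : the sums of
  the retained primes and of the missing ties are `≤ 1/2`.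
* `ctx_NI` : 710's `NI` for the data of a context, at all the columns `p ≥ p0`; `ctx_Ut` : the tails.
* `ctx_NB` : `NB` (node facts, columns, `lg`, means, `ph`, masses) at all the nodes.
* `ctx_mt`, `ctx_cnt` : polylogarithmic number of missing ties of alive items.
-/

set_option autoImplicit false
set_option linter.unusedSectionVars false
set_option linter.unusedVariables false
open MeasureTheory Filter

namespace Crest.Agent.R4P.NI927

open Crest.Agent.R4.Tour104 Crest.Agent.R4.Tour758 Crest.Agent.R4.Avg758 Crest.Agent.R4.Clos758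
open Crest.Agent.R4.ClosL758 Crest.Agent.R4.ClosG758 Crest.Agent.R4.ClosR758
open Crest.Agent.R4.Fam464 Crest.Agent.R4P.Cnt588 Crest.Agent.R4P.Walk560 Crest.Agent.R4.Piece464
open Crest.Agent.R4P.Item758 Crest.Agent.R4P.AvgItem710 Crest.Agent.R4P.PrunePar33
open Crest.Agent.R4P.Data758 Crest.Agent.R4P.WalkIT579
open Crest.Agent.R4P.Bld532 (NS All NodeOk Bk)
open Crest.Agent.R4P.GInst194 Crest.Agent.R4P.GFinC927 Crest.Agent.R4P.NMW710
open Crest.Agent.R4.DeepSt579 (tq tq_nonneg tq_le_one)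
open Crest.Agent.R4.GKap812 (Cnt)
open Crest.Agent.R4P.Step588 (NDt ND1 ctx_NDt CT CT_pos tot_ge ctx_rr ctx_MsN)
open Crest.Agent.R4P.Skel189 (Ctx top)
open Crest.Agent.R4P

/-! ### tails of the `up` primes -/

theorem tails_uq (B C : ℝ) (hB : C + 3 ≤ B) : ∃ p₁ : ℕ, ∀ p0 ≥ p₁, ∀ (t : IT) (q : ℕ),
    Pr t p0 C B q → ∀ z : ℝ, (p0 : ℝ) ≤ z →
      ∑ l ∈ (t.uq q).filter (fun l : ℕ => z < (l : ℝ)), (1 : ℝ) / l ≤ z ^ (-(1 / 2 : ℝ)) := by
  obtain ⟨p1, h1⟩ := Pr_tails B C 0 0 (1 / 4) (by norm_num) le_rfl le_rfl (by linarith)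
  refine ⟨p1 + 4, fun p0 hp0 t q hq z hz => ?_⟩
  have hz0 : (0 : ℝ) ≤ z := le_trans (Nat.cast_nonneg _) hz
  set P := ⌊z⌋₊ with hP
  have hPp : p0 ≤ P := Nat.le_floor hz
  have hPz : (P : ℝ) ≤ z := Nat.floor_le hz0
  have hzP : z < P + 1 := Nat.lt_floor_add_one z
  have hP4 : (4 : ℝ) ≤ P := by exact_mod_cast (by omega : 4 ≤ P)
  have hP0 : (0 : ℝ) < P := by linarith
  obtain ⟨-, h2, -⟩ := h1 p0 (by omega) t q hq P hPp
  have hfil : (t.uq q).filter (fun l : ℕ => z < (l : ℝ)) ⊆ (t.uq q).filter (fun b => P < b) := by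
    intro l hl
    obtain ⟨a, b⟩ := Finset.mem_filter.1 hl
    refine Finset.mem_filter.2 ⟨a, ?_⟩
    have : (P : ℝ) < l := lt_of_le_of_lt hPz b
    exact_mod_cast this
  have hterm : ∀ l ∈ (t.uq q).filter (fun b => P < b),
      (1 : ℝ) / l ≤ (P : ℝ) ^ (-(3 / 4 : ℝ)) * (l : ℝ) ^ (-(1 / 4 : ℝ)) := by
    intro l hl
    have h3 : P < l := (Finset.mem_filter.1 hl).2
    have h3' : (P : ℝ) ≤ l := by exact_mod_cast h3.le
    have hl0 : (0 : ℝ) < l := lt_of_lt_of_le hP0 h3'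
    have e : (1 : ℝ) / l = (l : ℝ) ^ (-(3 / 4 : ℝ)) * (l : ℝ) ^ (-(1 / 4 : ℝ)) := by
      rw [← Real.rpow_add hl0]
      norm_num
      rw [Real.rpow_neg_one]
    rw [e]
    refine mul_le_mul_of_nonneg_right ?_ (Real.rpow_nonneg hl0.le _)
    exact Real.rpow_le_rpow_of_nonpos hP0 h3' (by norm_num)
  calc ∑ l ∈ (t.uq q).filter (fun l : ℕ => z < (l : ℝ)), (1 : ℝ) / l
      ≤ ∑ l ∈ (t.uq q).filter (fun b => P < b), (1 : ℝ) / l :=
        Finset.sum_le_sum_of_subset_of_nonneg hfil fun _ _ _ => by positivity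
    _ ≤ ∑ l ∈ (t.uq q).filter (fun b => P < b),
          (P : ℝ) ^ (-(3 / 4 : ℝ)) * (l : ℝ) ^ (-(1 / 4 : ℝ)) := Finset.sum_le_sum hterm
    _ = (P : ℝ) ^ (-(3 / 4 : ℝ)) *
          ∑ l ∈ (t.uq q).filter (fun b => P < b), (l : ℝ) ^ (-(1 / 4 : ℝ)) := by
        rw [Finset.mul_sum]
    _ ≤ (P : ℝ) ^ (-(3 / 4 : ℝ)) * 1 := by
        refine mul_le_mul_of_nonneg_left (h2.trans ?_) (Real.rpow_nonneg hP0.le _)
        exact Real.rpow_le_one_of_one_le_of_nonpos (by linarith) (by norm_num)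
    _ = (P : ℝ) ^ (-(3 / 4 : ℝ)) := mul_one _
    _ ≤ z ^ (-(1 / 2 : ℝ)) := by
        have hz1 : (0 : ℝ) < z := by linarith
        -- z ≤ P + 1 ≤ P^(3/2)
        have hs : (2 : ℝ) ≤ (P : ℝ) ^ (1 / 2 : ℝ) := by
          have : (4 : ℝ) ^ (1 / 2 : ℝ) = 2 := by
            rw [show (4 : ℝ) = 2 ^ (2 : ℝ) by norm_num,
              ← Real.rpow_mul (show (0 : ℝ) ≤ 2 by norm_num)]
            norm_num
          exact this.symm.le.trans (Real.rpow_le_rpow (by norm_num) hP4 (by norm_num))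
        have hz2 : z ≤ (P : ℝ) ^ (3 / 2 : ℝ) := by
          have e : (P : ℝ) ^ (3 / 2 : ℝ) = P * (P : ℝ) ^ (1 / 2 : ℝ) := by
            rw [show (3 / 2 : ℝ) = 1 + 1 / 2 by norm_num, Real.rpow_add hP0, Real.rpow_one]
          rw [e]
          nlinarith
        have h5 := Real.rpow_le_rpow_of_nonpos hz1 hz2 (show -(1 / 2 : ℝ) ≤ 0 by norm_num)
        rw [← Real.rpow_mul hP0.le] at h5
        refine le_trans (le_of_eq ?_) h5
        norm_num

/-! ### contexts -/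

section ctx

variable {N : Skel189.Num} {γ : ℝ} {p0 P₀ : ℕ}

/-- a mean hypothesis for the weights of a context (`c₀ = 1/2`, from 532's / 464's construction) -/
def Mean (X : Ctx N γ p0 P₀) (c₀ : ℝ) : Prop :=
  ∀ q ∈ X.S', ∀ z, c₀ * tq (q / pp X.c.t q) ≤ mnw (q / pp X.c.t q) (X.c.om q z)

lemma ctx_pr (X : Ctx N γ p0 P₀) {q : ℕ} (hq : q ∈ X.S') :
    Pr X.c.t p0 (N.C1 + N.c2) N.B q := by
  rw [X.ht]; exact X.prn.pr q hq

lemma ctx_dead (X : Ctx N γ p0 P₀) (j : X.c.Lam) (hj : X.c.D.it j ∉ X.S') (a : ℤ) :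
    X.c.D.om j a = 0 := X.om_zero hj _ a

/-- all columns of an item are above `p0` -/
lemma ctx_cols (X : Ctx N γ p0 P₀) :
    ∀ q b, (b ∈ X.c.t.mt q ∨ b ∈ X.c.t.sp q ∨ b ∈ X.c.t.uq q) → p0 < b :=
  fun q b hb => (Bld532.cols_of_All _ _ _ _ X.nodes q b hb).2.1

/-- the tails of the `up` primes of the alive items -/
theorem ctx_Ut (N : Skel189.Num) : ∃ p₁ : ℕ, ∀ p0 ≥ p₁, ∀ (γ : ℝ) (P₀ : ℕ)
    (X : Ctx N γ p0 P₀) (p : ℕ), p0 ≤ p → ∀ q ∈ X.S', ∀ z : ℝ, (p : ℝ) ≤ z →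
      ∑ l ∈ (X.c.t.uq q).filter (fun l : ℕ => z < (l : ℝ)), (1 : ℝ) / l ≤ z ^ (-(1 / 2 : ℝ)) := by
  have hB1 := N.hB
  have hC1 := N.hC1
  have hc2 := N.hc2
  obtain ⟨p1, h1⟩ := tails_uq N.B (N.C1 + N.c2) (by linarith)
  exact ⟨p1, fun p0 hp0 γ P₀ X p hp q hq z hz => h1 p0 hp0 X.c.t q (ctx_pr X hq) z
    (le_trans (by exact_mod_cast hp) hz)⟩

/-- **710's `NI` for the data of a context** -/
theorem ctx_NI (N : Skel189.Num) {c₀ : ℝ} (hc₀ : 0 < c₀) : ∃ p₁ : ℕ, ∀ p0 ≥ p₁, ∀ (γ : ℝ)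
    (P₀ : ℕ) (X : Ctx N γ p0 P₀) (Y : Finset (ℕ × ℕ × Finset ℕ)) (p : ℕ), p0 ≤ p →
    NI (X.c.D.par Y) X.c.rr X.S' X.par (Crest.Agent.R4.Soft104.w X.ψ) (N.B + N.c2 + 1) c₀ p := by
  have hB1 := N.hB
  have hC1 := N.hC1
  have hc2 := N.hc2
  refine ⟨⌈Real.exp 4⌉₊ + 3, fun p0 hp0 γ P₀ X Y p hp => ?_⟩
  have hp3 : 3 ≤ p := by omega
  have hlog4 : 4 ≤ Real.log (p : ℝ) := by
    have h5 : Real.exp 4 ≤ ⌈Real.exp 4⌉₊ := Nat.le_ceil _
    have h6 : ((⌈Real.exp 4⌉₊ : ℕ) : ℝ) ≤ p := by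
      have : ⌈Real.exp 4⌉₊ ≤ p := by omega
      exact_mod_cast this
    have hp : (0 : ℝ) < p := lt_of_lt_of_le (Real.exp_pos _) (h5.trans h6)
    rw [Real.le_log_iff_exp_le hp]
    linarith
  have hlog0 : 0 < Real.log (p : ℝ) := by linarith
  have hp0' : (0 : ℝ) < p := by exact_mod_cast (by omega : 0 < p)
  exact
    { rad := X.ok.rad Y
      ab := fun j => X.ok.bpm _ (Cf.mem_S j) (Cf.r_pos j) (Nat.le_succ _)
      dead := fun j hj a => ctx_dead X j hj a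
      c0 := hc₀
      W0 := fun q => Crest.Agent.R4.Soft104.w_nonneg X.sys.nonneg q
      Wρ := fun q hq => by
        rw [ctx_rr X hq]
        have h2 := X.sys.nonneg q
        have h3 := tq_nonneg q
        have e : Crest.Agent.R4.Soft104.w X.ψ q = tq q * X.ψ q := rfl
        rw [e]
        nlinarith [mul_nonneg h3 h2]
      full := fun q hq => by
        have hqS : q ∈ X.c.S' := by rw [X.hS']; exact hq
        have hr := X.ok.r' q hqS
        have := X.ok.len (X.ok.sub hqS) hr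
        have e : ∑ j ∈ Finset.univ.filter (fun j : X.c.Lam => (X.c.D.par Y).it j = q),
            ((X.c.D.par Y).be j - (X.c.D.par Y).al j) = 2 * X.c.r q := this
        rw [e]
        unfold Cf.rr
        rw [if_pos hr]
      sg0 := Bld532.par_sg_nonneg _ _ _ _ _
      sg := by
        have h1 : 4 * (Real.log p ^ N.B / p * Real.log p ^ N.c2) ≤
            Real.log p ^ (N.B + N.c2 + 1) / p := by
          have e1 : Real.log p ^ (N.B + N.c2 + 1) =
              Real.log p ^ N.B * Real.log p ^ N.c2 * Real.log p := by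
            rw [Real.rpow_add hlog0, Real.rpow_add hlog0, Real.rpow_one]
          rw [e1]
          have hY : 0 ≤ Real.log p ^ N.B * Real.log p ^ N.c2 := by positivity
          have e2 : 4 * (Real.log p ^ N.B / p * Real.log p ^ N.c2) =
              (Real.log p ^ N.B * Real.log p ^ N.c2 * 4) / p := by ring
          rw [e2]
          exact div_le_div_of_nonneg_right (mul_le_mul_of_nonneg_left hlog4 hY) hp0'.le
        exact h1 }

/-- **`NB` at all the nodes of a context** -/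
theorem ctx_NB (N : Skel189.Num) {c₀ : ℝ} : ∃ p₁ : ℕ, ∀ p0 ≥ p₁, ∀ (γ : ℝ) (P₀ : ℕ)
    (X : Ctx N γ p0 P₀) (Y : Finset (ℕ × ℕ × Finset ℕ)), Mean X c₀ →
    All (NB (X.c.D.par Y) X.S' X.par (Crest.Agent.R4.Soft104.w X.ψ) X.c.t.uq (2 * CT) c₀ p0)
      ⟨top X.S, 1, 1, 1⟩ X.c.t := by
  have hB1 := N.hB
  have hC1 := N.hC1
  have hc2 := N.hc2
  obtain ⟨p1, h1⟩ := tot_ge N.B (N.C1 + N.c2) (by linarith)
  obtain ⟨p2, hp2⟩ := LeafA734.rt_half N.B (N.C1 + N.c2) (by linarith)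
  refine ⟨p1 + p2 + 3, fun p0 hp0 γ P₀ X Y hm => ?_⟩
  refine All.mono (fun u τ hh => ?_) (((ctx_NDt X).and X.all).and (ctx_MsN X))
  obtain ⟨⟨hN, hQ, hG⟩, hms⟩ := hh
  have hnodes := Bld532.All.mono (fun s t h => h.node) hN.all
  have huq := Bld532.All_UqN hnodes
  have hF : Fit u.B u.A τ := Bld532.Fit_of_NodeOk hnodes
  have hsum : ∀ q ∈ X.S', _ := fun q hq => hp2 p0 (by omega) X.c.t q (ctx_pr X hq)
    (fun b hb => ctx_cols X q b hb)
  refine ⟨hQ, ?_, ?_, ?_, ?_, ?_⟩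
  · intro p Sp t₁ t₀ e
    subst e
    have : X.par.p0 < p := hN.self.node.2.2.1
    exact this.le
  · intro p Sp t₁ t₀ e q hq hqt
    subst e
    have hpp : p0 < p := hN.self.node.2.2.1
    have h4 : ∀ r : ℕ, r.Prime → r < u.n → r ≤ p := hN.self.node.2.2.2.1
    have key := h1 p0 (by omega) X.c.t q (ctx_pr X hq)
      (fun l hl => (rt_prime X.c.t X.tOk q l hl).1) (p + 1) (by omega) (q / u.A)
      (Nat.pos_of_ne_zero (hN.div_ne hqt)) fun l hl1 hl2 hl3 =>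
        hN.self.ge q hqt l hl1 (by
          by_contra hlt
          have := h4 l hl1 (not_le.1 hlt)
          omega) hl2
    have hlog2 : Real.log ((p + 1 : ℕ) : ℝ) ≤ 2 * Real.log p := by
      have hp2 : (2 : ℝ) ≤ p := by exact_mod_cast (by omega : 2 ≤ p)
      have h5 : ((p + 1 : ℕ) : ℝ) ≤ (p : ℝ) ^ 2 := by push_cast; nlinarith
      have h6 : (0 : ℝ) < ((p + 1 : ℕ) : ℝ) := by push_cast; linarith
      have h7 := Real.log_le_log h6 h5
      rw [Real.log_pow] at h7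
      exact_mod_cast h7
    refine key.trans ?_
    have e : ((q / u.A).totient : ℝ) / ((q / u.A : ℕ) : ℝ) = tq (q / u.A) := rfl
    rw [e]
    refine mul_le_mul_of_nonneg_right ?_ (tq_nonneg _)
    have := mul_le_mul_of_nonneg_left hlog2 CT_pos.le
    linarith
  · intro j hj hjt
    have e := hN.self.pp _ hjt
    have := hm _ hj (X.c.bp j.1.1 j.1.2)
    have e' : u.A * pp τ ((X.c.D.par Y).it j) = pp X.c.t ((X.c.D.par Y).it j) := e.symm
    rw [e']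
    exact this
  · intro q hq hqt
    exact NMass800.ph_node hN.self.ok hF huq hqt (hms.uq q hqt)
      (fun p hp => (rt_prime X.c.t X.tOk q p hp).1) (hsum q hq).1
  · intro q hq hqt
    exact hms.ms X.tOk hF hqt (hsum q hq).2

/-- missing ties of the nodes -/
theorem ctx_mt (X : Ctx N γ p0 P₀) :
    All (fun _ τ => ∀ q ∈ τ.items, τ.mt q ⊆ X.c.t.mt q) ⟨top X.S, 1, 1, 1⟩ X.c.t :=
  All.mono (fun u τ h => h.mt) (ctx_MsN X)

/-- a piece with a nonzero mass is alive -/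
lemma mem_of_mI {Λ κ : Type*} [Fintype Λ] [DecidableEq Λ] [Fintype κ] [DecidableEq κ] [WRel κ]
    {D : Item758.Par Λ κ} {Al : Finset ℕ} (hdead : ∀ j, D.it j ∉ Al → ∀ a, D.om j a = 0)
    (hab : ∀ j, D.al j ≤ D.be j) {sp : ℕ → Finset Λ} {b pr : ℕ} {t : IT} {A : Finset Λ}
    (hb : 0 < b) (hF : Fit b pr t) (hW : D.Wts pr t)
    (hs : SideI D sp b pr t A (D.toDT sp b pr t)) {j : Λ} (hj : D.it j ∈ t.items)
    (h : mI (D.toDT sp b pr t) j ≠ 0) : D.it j ∈ Al := by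
  by_contra hn
  apply h
  rw [SideI_mI hs, D.I_U hab t b pr 1 hb hF hW (one_dvd _) j hj]
  have e : mnw (D.it j / (pr * pp t (D.it j))) (D.om j) = 0 := by
    unfold mnw
    rw [Finset.sum_eq_zero fun a _ => hdead j hn _, zero_div]
  rw [e]
  ring

/-- **the number of missing ties of alive items** -/
theorem ctx_cnt (X : Ctx N γ p0 P₀) {Y : Finset (ℕ × ℕ × Finset ℕ)} {sp : ℕ → Finset X.c.Lam}
    {u : NS} {τ : IT} {A : Finset X.c.Lam} {n : ℕ} (hO : τ.Ok n)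
    (hmt : ∀ q ∈ τ.items, τ.mt q ⊆ X.c.t.mt q) (hb : 0 < u.B) (hF : Fit u.B u.A τ)
    (hW : (X.c.D.par Y).Wts u.A τ)
    (hs : SideI (X.c.D.par Y) sp u.B u.A τ A ((X.c.D.par Y).toDT sp u.B u.A τ))
    {j : X.c.Lam} (hm : mI ((X.c.D.par Y).toDT sp u.B u.A τ) j ≠ 0) :
    Cnt (Res927.mtD (IMI194.dvM mI) j ((X.c.D.par Y).toDT sp u.B u.A τ)) p0
      (N.C1 + N.c2 + 1) := by
  have hab : ∀ j, (X.c.D.par Y).al j ≤ (X.c.D.par Y).be j :=
    fun j => X.ok.bpm _ (Cf.mem_S j) (Cf.r_pos j) (Nat.le_succ _)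
  have hq : (X.c.D.par Y).it j ∈ τ.items := by
    by_contra hn
    exact hm (IMI194.mI_zero hb hF hW hn)
  have hal : (X.c.D.par Y).it j ∈ X.S' :=
    mem_of_mI (D := X.c.D.par Y) (Al := X.S') (fun j hj a => ctx_dead X j hj a)
      hab hb hF hW hs hq hm
  have hdv : OSWI245.DvAt (X.c.D.par Y) sp (IMI194.dvM mI) j u.B u.A τ :=
    OSWI245.DvAt_of hab (fun _ _ _ _ _ _ _ _ => Iff.rfl) (fun _ _ _ _ => Iff.rfl) hb hF hW hm
  have e : Res927.mtD (IMI194.dvM mI) j ((X.c.D.par Y).toDT sp u.B u.A τ) =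
      τ.mt ((X.c.D.par Y).it j) := OSWI245.mtD_toDT hO hdv
  rw [e]
  intro P hP
  refine le_trans ?_ ((ctx_pr X hal).mt P hP)
  have := Finset.card_le_card (Finset.filter_subset_filter (· ≤ P) (hmt _ hq))
  exact_mod_cast this

end ctx

end Crest.Agent.R4P.NI927
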