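import Crest.Agent.R4P.LinkW758
import Crest.Agent.R4P.ColS710

/-!
R4 (S0004), powers pass: port of helper758's `R4/LinkG758` (first half) to the tree with powers
(helper17): `Link758` in the form used by the columns.

* `fsok` : `ColS710.FSOk` (exception `Qf` = one of the labels is accurate; none for `lam = 0`);
  `fsok_br` (two missing sides), `fsok_os` (left ties, right node below the column).
-/

set_option autoImplicit false
set_option linter.unusedSectionVars false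
set_option linter.unusedVariables false
open MeasureTheory Filter

namespace Crest.Agent.R4P.LinkG758

open Crest.Agent.R4.Tour104 Crest.Agent.R4.Tour758 Crest.Agent.R4.Avg758 Crest.Agent.R4.Clos758
open Crest.Agent.R4.ClosL758 Crest.Agent.R4.ClosG758 Crest.Agent.R4.ClosR758
open Crest.Agent.R4.Fam464 Crest.Agent.R4P.Cnt588 Crest.Agent.R4P.Walk560 Crest.Agent.R4P.Item758
open Crest.Agent.R4.Piece464 Crest.Agent.R4P.W363 Crest.Agent.R4P.AvgItem710
open Crest.Agent.R4P.Data758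
open Crest.Agent.R4.LF363 (Lab lab_unique)
open Crest.Agent.R4.HVW560 (cof)
open Crest.Agent.R4P.Link758 Crest.Agent.R4P.LinkW758 Crest.Agent.R4P.GSplit194
open Crest.Agent.R4.DeepSt579 Crest.Agent.R4P.ColW710 Crest.Agent.R4P.NMW710
open Crest.Agent.R4P.WalkIT579
open Crest.Agent.R4P.Bld532 (NS All)

section
variable {c : Cf} {n : ℕ}

/-- **`[F]` pairs of a column are payable** unless one of the labels is accurate; general form: the
factors of the two sides are `k₀`, `k₀'` times the missing products above the column `l` -/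
theorem fsokY (h : c.Ok n) {l : ℕ} (hl : l ≤ n) (X : Finset (ℕ × ℕ × Finset ℕ))
    {M M' b pr c₁ b' pr' c₁' N k₀ k₀' : ℕ} {t t' : IT} {A A' : Finset c.Lam} {Y : ℝ}
    (hM : 0 < M) (hM' : 0 < M') (hb : 0 < b) (hb' : 0 < b') (hF : Fit b pr t)
    (hF' : Fit b' pr' t') (hW : (c.D.par X).Wts pr t) (hW' : (c.D.par X).Wts pr' t')
    (hc : c₁ ∣ b) (hc' : c₁' ∣ b')
    (hcirc : pr * M * (b / c₁) = pr' * M' * (b' / c₁'))
    (hk : ∀ q ∈ t.items, b / c₁ = k₀ * Bl c l q) (hk' : ∀ q ∈ t'.items, b' / c₁' = k₀' * Bl c l q)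
    (hY : (k₀ : ℝ) ≤ Y) (hY' : (k₀' : ℝ) ≤ Y)
    (hthr : (1 : ℝ) / 2 ^ N ≤ c.wp.thr l) :
    ∀ e : ℕ × ℕ, e.1 ∈ t.items → e.2 ∈ t'.items → Dq c.rr M b pr c₁ M' b' pr' c₁' e ≤ 1/2^N →
    0 < (c.D.par X).iF (Ro ((c.D.par X).rho l)) ((c.D.par X).uA M b pr t A c₁)
      ((c.D.par X).uA M' b' pr' t' A' c₁') e →
    FSI (c.D.par X).γ c.rr N M b pr c₁ M' b' pr' c₁' e →
    1 < 2 * (Y * ((rf (e.1 / pr) M : ℝ) * rf (e.2 / pr') M'))^10 *
      Dq c.rr M b pr c₁ M' b' pr' c₁' e ∨ (Ac c l e.1 ∨ Ac c l e.2) := by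
  intro e i1 i2 hD hpos hFS
  by_cases hac : Ac c l e.1
  · exact Or.inr (Or.inl hac)
  by_cases hac' : Ac c l e.2
  · exact Or.inr (Or.inr hac')
  left
  have he := iF_PE hpos.ne'
  obtain ⟨j, j', hj, hA, hA', e1, e2, -, -, -⟩ := PE_pts hM hM' hb hb' hF hF' hW hW' hc hc' he
  have e1' : j.1.1 = e.1 := e1
  have e2' : j'.1.1 = e.2 := e2
  have hpr : pr ∣ e.1 := (hF.item _ i1).2.1
  have hpr' : pr' ∣ e.2 := (hF'.item _ i2).2.1
  have q0 : 0 < e.1 := by rw [← e1']; exact h.pos _ (Cf.mem_S j)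
  have q0' : 0 < e.2 := by rw [← e2']; exact h.pos _ (Cf.mem_S j')
  have p0 : 0 < pr := Nat.pos_of_dvd_of_pos hpr q0
  have p0' : 0 < pr' := Nat.pos_of_dvd_of_pos hpr' q0'
  have w0 : 0 < e.1 / pr := Nat.div_pos (Nat.le_of_dvd q0 hpr) p0
  have w0' : 0 < e.2 / pr' := Nat.div_pos (Nat.le_of_dvd q0' hpr') p0'
  have c0 : 0 < c₁ := Nat.pos_of_dvd_of_pos hc hb
  have c0' : 0 < c₁' := Nat.pos_of_dvd_of_pos hc' hb'
  have B1 : ((b : ℝ) / c₁) = ((b / c₁ : ℕ) : ℝ) := (cast_div' hc hb).symm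
  have B2 : ((b' : ℝ) / c₁') = ((b' / c₁' : ℕ) : ℝ) := (cast_div' hc' hb').symm
  have bb : 0 < b / c₁ := Nat.div_pos (Nat.le_of_dvd hb hc) c0
  have bb' : 0 < b' / c₁' := Nat.div_pos (Nat.le_of_dvd hb' hc') c0'
  have k1 : 0 < k₀ := Nat.pos_of_ne_zero fun h0 => by
    rw [hk _ i1, h0, Nat.zero_mul] at bb; exact lt_irrefl _ bb
  have k1' : 0 < k₀' := Nat.pos_of_ne_zero fun h0 => by
    rw [hk' _ i2, h0, Nat.zero_mul] at bb'; exact lt_irrefl _ bb'
  have r1 : c.rr e.1 = c.r e.1 := by rw [← e1']; exact Cf.rr_eq j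
  have r2 : c.rr e.2 = c.r e.2 := by rw [← e2']; exact Cf.rr_eq j'
  have rp : 0 < c.r e.1 := by rw [← e1']; exact Cf.r_pos j
  have rp' : 0 < c.r e.2 := by rw [← e2']; exact Cf.r_pos j'
  have gW : 0 < e.1 / pr / M.gcd (e.1 / pr) := GSplit194.gcd_pos hM w0
  have gW' : 0 < e.2 / pr' / M'.gcd (e.2 / pr') := GSplit194.gcd_pos hM' w0'
  set V := e.1 / pr / M.gcd (e.1 / pr) with hV
  set V' := e.2 / pr' / M'.gcd (e.2 / pr') with hV'
  have hx : 0 < cof V V' := cof_pos gW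
  have hy : 0 < cof V' V := cof_pos gW'
  have g1 : V * cof V' V = V' * cof V V' := by
    have a1 : V.gcd V' * cof V V' = V := mul_cof
    have a2 : V.gcd V' * cof V' V = V' := mul_cof'
    calc V * cof V' V = (V.gcd V' * cof V V') * cof V' V := by rw [a1]
      _ = (V.gcd V' * cof V' V) * cof V V' := by ring
      _ = V' * cof V V' := by rw [a2]
  have r0 := rf_pos (w := e.1 / pr) hM
  have r0' := rf_pos (w := e.2 / pr') hM'
  have hDq : Dq c.rr M b pr c₁ M' b' pr' c₁' e =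
      max ((cof V' V : ℝ) * (rf (e.1 / pr) M * ((b : ℝ) / c₁ * c.rr e.1)))
        ((cof V V' : ℝ) * (rf (e.2 / pr') M' * ((b' : ℝ) / c₁' * c.rr e.2))) := rfl
  rw [hDq] at hD ⊢
  have hy1 : (1 : ℝ) ≤ cof V' V := by exact_mod_cast hy
  have hx1 : (1 : ℝ) ≤ cof V V' := by exact_mod_cast hx
  have r01 : (1 : ℝ) ≤ rf (e.1 / pr) M := by exact_mod_cast r0
  have r01' : (1 : ℝ) ≤ rf (e.2 / pr') M' := by exact_mod_cast r0'
  have kk : (1 : ℝ) ≤ k₀ := by exact_mod_cast k1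
  have kk' : (1 : ℝ) ≤ k₀' := by exact_mod_cast k1'
  have t1 : (Bl c l e.1 : ℝ) * c.r e.1 ≤ c.wp.thr l := by
    have n0 : 0 ≤ (b : ℝ) / c₁ * c.rr e.1 := by rw [r1]; positivity
    have n1 : (Bl c l e.1 : ℝ) * c.r e.1 ≤ (b : ℝ) / c₁ * c.rr e.1 := by
      rw [B1, hk _ i1, r1]
      push_cast
      rw [mul_assoc]
      exact le_mul_of_one_le_left (mul_nonneg (Nat.cast_nonneg _) rp.le) kk
    refine n1.trans ?_
    calc (b : ℝ) / c₁ * c.rr e.1 ≤ rf (e.1 / pr) M * ((b : ℝ) / c₁ * c.rr e.1) :=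
          le_mul_of_one_le_left n0 r01
      _ ≤ (cof V' V : ℝ) * (rf (e.1 / pr) M * ((b : ℝ) / c₁ * c.rr e.1)) :=
          le_mul_of_one_le_left (by positivity) hy1
      _ ≤ _ := (le_max_left _ _).trans (hD.trans hthr)
  have t2 : (Bl c l e.2 : ℝ) * c.r e.2 ≤ c.wp.thr l := by
    have n0 : 0 ≤ (b' : ℝ) / c₁' * c.rr e.2 := by rw [r2]; positivity
    have n1 : (Bl c l e.2 : ℝ) * c.r e.2 ≤ (b' : ℝ) / c₁' * c.rr e.2 := by
      rw [B2, hk' _ i2, r2]
      push_cast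
      rw [mul_assoc]
      exact le_mul_of_one_le_left (mul_nonneg (Nat.cast_nonneg _) rp'.le) kk'
    refine n1.trans ?_
    calc (b' : ℝ) / c₁' * c.rr e.2 ≤ rf (e.2 / pr') M' * ((b' : ℝ) / c₁' * c.rr e.2) :=
          le_mul_of_one_le_left n0 r01'
      _ ≤ (cof V V' : ℝ) * (rf (e.2 / pr') M' * ((b' : ℝ) / c₁' * c.rr e.2)) :=
          le_mul_of_one_le_left (by positivity) hx1
      _ ≤ _ := (le_max_right _ _).trans (hD.trans hthr)
  have hRo : Ro ((c.D.par X).rho l) ⊆ Ro (c.D.rho l) := by rw [Cf.Ro_par]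
  have key := PE_FS_lower h hl X (k₀ := k₀) (k₀' := k₀') hM hM' hb hb' hF hF' hW hW' hc hc' hRo he
    hcirc hx hy g1 (hk _ i1) (hk' _ i2) t1 t2 hac hac' hFS
  refine key.trans_le ?_
  have Y0 : 0 ≤ Y := (Nat.cast_nonneg _).trans hY
  have hmax : ((max (rf (e.1 / pr) M * k₀) (rf (e.2 / pr') M' * k₀') : ℕ) : ℝ) ≤
      Y * ((rf (e.1 / pr) M : ℝ) * rf (e.2 / pr') M') := by
    rw [Nat.cast_max]
    push_cast
    refine max_le ?_ ?_
    · calc (rf (e.1 / pr) M : ℝ) * k₀ ≤ (rf (e.1 / pr) M : ℝ) * Y := by gcongr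
        _ = Y * (rf (e.1 / pr) M : ℝ) := mul_comm _ _
        _ ≤ Y * ((rf (e.1 / pr) M : ℝ) * rf (e.2 / pr') M') :=
          mul_le_mul_of_nonneg_left (le_mul_of_one_le_right (by linarith) r01') Y0
    · calc (rf (e.2 / pr') M' : ℝ) * k₀' ≤ (rf (e.2 / pr') M' : ℝ) * Y := by gcongr
        _ = Y * (rf (e.2 / pr') M' : ℝ) := mul_comm _ _
        _ ≤ Y * ((rf (e.1 / pr) M : ℝ) * rf (e.2 / pr') M') :=
          mul_le_mul_of_nonneg_left (le_mul_of_one_le_left (by linarith) r01) Y0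
  have hD0 : 0 ≤ max ((cof V' V : ℝ) * (rf (e.1 / pr) M * ((b : ℝ) / c₁ * c.rr e.1)))
        ((cof V V' : ℝ) * (rf (e.2 / pr') M' * ((b' : ℝ) / c₁' * c.rr e.2))) := by
    refine le_max_of_le_left ?_
    rw [r1]; positivity
  gcongr

/-- **`[F]` pairs of a column are payable** unless one of the labels is accurate -/
theorem fsok (h : c.Ok n) {l : ℕ} (hl : l ≤ n) (X : Finset (ℕ × ℕ × Finset ℕ))
    {M M' b pr c₁ b' pr' c₁' N : ℕ} {t t' : IT} {A A' : Finset c.Lam}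
    (hM : 0 < M) (hM' : 0 < M') (hb : 0 < b) (hb' : 0 < b') (hF : Fit b pr t)
    (hF' : Fit b' pr' t') (hW : (c.D.par X).Wts pr t) (hW' : (c.D.par X).Wts pr' t')
    (hc : c₁ ∣ b) (hc' : c₁' ∣ b')
    (hcirc : pr * M * (b / c₁) = pr' * M' * (b' / c₁'))
    (hk : ∀ q ∈ t.items, b / c₁ = Bl c l q) (hk' : ∀ q ∈ t'.items, b' / c₁' = Bl c l q)
    (hthr : (1 : ℝ) / 2 ^ N ≤ c.wp.thr l) :
    FSOk (c.D.par X) c.rr N l M b pr c₁ t A M' b' pr' c₁' t' A'
      (fun e => Ac c l e.1 ∨ Ac c l e.2) := by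
  intro e i1 i2 hD hpos hFS
  have key := fsokY h hl X (k₀ := 1) (k₀' := 1) (Y := 1) hM hM' hb hb' hF hF' hW hW' hc hc' hcirc
    (fun q hq => by rw [one_mul]; exact hk q hq) (fun q hq => by rw [one_mul]; exact hk' q hq)
    (by rw [Nat.cast_one]) (by rw [Nat.cast_one]) hthr e i1 i2 hD hpos hFS
  rwa [one_mul] at key

lemma div_col {B p : ℕ} (hp : 0 < p) : B * p / p = B := Nat.mul_div_cancel _ hp

/-- the ties below a column -/
lemma mt_Blw {τ : IT} {m p : ℕ} (hO : τ.Ok m) (hb : Blw p τ) : ∀ q, ∀ s ∈ τ.mt q, s ≤ p := by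
  intro q s hs
  cases τ with
  | leaf S => simp [IT.mt] at hs
  | br b S t₁ t₀ =>
    have h1 : (IT.br b S t₁ t₀).Ok (b + 1) := ⟨hO.1, Nat.lt_succ_self _, hO.2.2⟩
    have h2 : b < p := hb
    have := mt_lt _ h1 q s hs
    omega
  | add b t₁ t₀ =>
    have h1 : (IT.add b t₁ t₀).Ok (b + 1) := ⟨hO.1, Nat.lt_succ_self _, hO.2.2⟩
    have h2 : b < p := hb
    have := mt_lt _ h1 q s hs
    omega
  | up b S t =>
    have h2 : b ≤ p := hb
    have h3 : t.Ok b := hO.2.2.2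
    simp only [IT.mt] at hs
    have := mt_lt _ h3 q s hs
    omega
  | pl b t =>
    have h1 : (IT.pl b t).Ok (b + 1) := ⟨hO.1, Nat.lt_succ_self _, hO.2.2⟩
    have h2 : b < p := hb
    have := mt_lt _ h1 q s hs
    omega
  | far b t₁ t₀ =>
    have h1 : (IT.far b t₁ t₀).Ok (b + 1) := ⟨hO.1, Nat.lt_succ_self _, hO.2.2⟩
    have h2 : b < p := hb
    have := mt_lt _ h1 q s hs
    omega

/-- missing product above the column `p` for a node below the column -/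
theorem Bl_of_Blw {u : NS} {p q : ℕ} {τ : IT} (h : MF c.t u τ) (hp : p < u.n) (hb : Blw p τ)
    (hq : q ∈ τ.items) : Bl c p q = u.B := by
  have hO : τ.Ok u.n := by
    obtain ⟨F, -, -, hO, -⟩ := h
    exact hO
  exact h.prod_lt hq hp (mt_Blw hO hb q)

/-- missing product above the prime `l`, for a node which has no ties above `l` and no closed column
below `l`: the factor of the node may contain `l` itself (missed at `l` in the same chain) -/
theorem Bl_gen {u : NS} {l q : ℕ} {τ : IT} (h : MF c.t u τ) (hl : l.Prime)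
    (hn : ∀ s : ℕ, s.Prime → s < l → s < u.n) (hmt : ∀ s ∈ τ.mt q, s ≤ l) (hq : q ∈ τ.items) :
    u.B = (if l ∣ u.B then l else 1) * Bl c l q := by
  obtain ⟨F, h1, h2, hO, h3⟩ := h
  have hF : ∀ s ∈ F, l ≤ s := fun s hs => by
    by_contra hc
    push Not at hc
    exact absurd (h1 s hs).2 (not_le.2 (hn s (h1 s hs).1 hc))
  have e : Bl c l q = ∏ s ∈ F.erase l, s := by
    unfold Bl
    rw [lst_prod, h3 q hq]
    refine Finset.prod_congr ?_ fun _ _ => rfl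
    ext s
    simp only [Finset.mem_filter, Finset.mem_union, Finset.mem_erase]
    constructor
    · rintro ⟨hs | hs, hls⟩
      · exact ⟨hls.ne', hs⟩
      · exact absurd (hmt s hs) (not_le.2 hls)
    · rintro ⟨hne, hs⟩
      exact ⟨Or.inl hs, lt_of_le_of_ne (hF s hs) hne.symm⟩
  have hd : l ∣ u.B ↔ l ∈ F := by
    rw [← h2, hl.prime.dvd_finsetProd_iff]
    constructor
    · rintro ⟨s, hs, hls⟩
      have : l = s := (Nat.prime_dvd_prime_iff_eq hl (h1 s hs).1).1 hls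
      rw [this]; exact hs
    · intro hlF; exact ⟨l, hlF, dvd_rfl⟩
  by_cases hc : l ∣ u.B
  · rw [if_pos hc, e, Finset.mul_prod_erase F (fun s => s) (hd.1 hc), h2]
  · rw [if_neg hc, e, Finset.erase_eq_of_notMem (fun hm => hc (hd.2 hm)), h2, one_mul]

/-- the factor of a node whose level is above `l` does not contain `l` -/
theorem not_dvd_B {u : NS} {l : ℕ} {τ : IT} (h : MF c.t u τ) (hl : l.Prime) (hn : l < u.n) :
    ¬ l ∣ u.B := by
  obtain ⟨F, h1, h2, hO, h3⟩ := h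
  rw [← h2, hl.prime.dvd_finsetProd_iff]
  rintro ⟨s, hs, hls⟩
  have : l = s := (Nat.prime_dvd_prime_iff_eq hl (h1 s hs).1).1 hls
  have h4 := (h1 s hs).2
  omega

/-- `fsok` at a state with two ties -/
theorem fsok_br (h : c.Ok n) (X : Finset (ℕ × ℕ × Finset ℕ)) {sp : ℕ → Finset c.Lam}
    {M M' N p : ℕ} {u u' : NS} {Sp Sp' : Finset ℕ} {t₁ t₀ t₁' t₀' : IT}
    {A A' : Finset c.Lam}
    {d d' : DT c.Lam (Lb (WL c.Lam) X)}
    (hM : 0 < M) (hM' : 0 < M')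
    (hL : SideI (c.D.par X) sp u.B u.A (.br p Sp t₁ t₀) A d)
    (hR : SideI (c.D.par X) sp u'.B u'.A (.br p Sp' t₁' t₀') A' d')
    (hcirc : u.A * u.B * M = u'.A * u'.B * M')
    (mf : MF c.t u (.br p Sp t₁ t₀)) (mf' : MF c.t u' (.br p Sp' t₁' t₀')) (hp : p ≤ n)
    (hthr : (1 : ℝ) / 2 ^ N ≤ c.wp.thr p) :
    FSOk (c.D.par X) c.rr N p M (u.B * p) u.A p t₀ A M' (u'.B * p) u'.A p t₀' A'
      (fun e => Ac c p e.1 ∨ Ac c p e.2) := by
  have hL0 := hL.br₀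
  have hR0 := hR.br₀
  have hp0 : 0 < p := hL.hF.1.pos
  refine fsok h hp X hM hM' hL0.hb hR0.hb hL0.hF hR0.hF hL0.hW hR0.hW (Dvd.intro_left u.B rfl)
    (Dvd.intro_left u'.B rfl) ?_ ?_ ?_ hthr
  · rw [div_col hp0, div_col hp0]
    linarith
  · intro q hq
    rw [div_col hp0]
    exact (Bl_of_MF mf (Finset.mem_union_right _ hq)).symm
  · intro q hq
    rw [div_col hp0]
    exact (Bl_of_MF mf' (Finset.mem_union_right _ hq)).symm

/-- `fsok` at a state: left ties, right node below the column -/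
theorem fsok_os (h : c.Ok n) (X : Finset (ℕ × ℕ × Finset ℕ)) {sp : ℕ → Finset c.Lam}
    {M M' N p : ℕ} {u u' : NS} {Sp : Finset ℕ} {t₁ t₀ τ' : IT}
    {A A' : Finset c.Lam}
    {d d' : DT c.Lam (Lb (WL c.Lam) X)}
    (hM : 0 < M) (hM' : 0 < M')
    (hL : SideI (c.D.par X) sp u.B u.A (.br p Sp t₁ t₀) A d)
    (hR : SideI (c.D.par X) sp u'.B u'.A τ' A' d')
    (hcirc : u.A * u.B * M = u'.A * u'.B * M')
    (mf : MF c.t u (.br p Sp t₁ t₀)) (mf' : MF c.t u' τ') (hpu : p < u'.n) (hbl : Blw p τ')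
    (hp : p ≤ n) (hthr : (1 : ℝ) / 2 ^ N ≤ c.wp.thr p) :
    FSOk (c.D.par X) c.rr N p M (u.B * p) u.A p t₀ A M' u'.B u'.A 1 τ' A'
      (fun e => Ac c p e.1 ∨ Ac c p e.2) := by
  have hL0 := hL.br₀
  have hp0 : 0 < p := hL.hF.1.pos
  refine fsok h hp X hM hM' hL0.hb hR.hb hL0.hF hR.hF hL0.hW hR.hW (Dvd.intro_left u.B rfl)
    (one_dvd _) ?_ ?_ ?_ hthr
  · rw [div_col hp0, Nat.div_one]
    linarith
  · intro q hq
    rw [div_col hp0]
    exact (Bl_of_MF mf (Finset.mem_union_right _ hq)).symm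
  · intro q hq
    rw [Nat.div_one]
    exact (Bl_of_Blw mf' hpu hbl hq).symm

/-- `fsok_os` with the factor of a right node which may have missed `p` in the same chain: left ties,
right node at or below the column, no column below `p` closed on the right -/
theorem fsok_osY (h : c.Ok n) (X : Finset (ℕ × ℕ × Finset ℕ)) {sp : ℕ → Finset c.Lam}
    {M M' N p : ℕ} {u u' : NS} {Sp : Finset ℕ} {t₁ t₀ τ' : IT}
    {A A' : Finset c.Lam}
    {d d' : DT c.Lam (Lb (WL c.Lam) X)}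
    (hM : 0 < M) (hM' : 0 < M')
    (hL : SideI (c.D.par X) sp u.B u.A (.br p Sp t₁ t₀) A d)
    (hR : SideI (c.D.par X) sp u'.B u'.A τ' A' d')
    (hcirc : u.A * u.B * M = u'.A * u'.B * M')
    (mf : MF c.t u (.br p Sp t₁ t₀)) (mf' : MF c.t u' τ')
    (hpu : ∀ s : ℕ, s.Prime → s < p → s < u'.n) (hbl : Blw p τ')
    (hp : p ≤ n) (hthr : (1 : ℝ) / 2 ^ N ≤ c.wp.thr p) :
    ∀ e : ℕ × ℕ, e.1 ∈ t₀.items → e.2 ∈ τ'.items →
      Dq c.rr M (u.B * p) u.A p M' u'.B u'.A 1 e ≤ 1/2^N →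
      0 < (c.D.par X).iF (Ro ((c.D.par X).rho p)) ((c.D.par X).uA M (u.B * p) u.A t₀ A p)
        ((c.D.par X).uA M' u'.B u'.A τ' A' 1) e →
      FSI (c.D.par X).γ c.rr N M (u.B * p) u.A p M' u'.B u'.A 1 e →
      1 < 2 * ((if p ∣ u'.B then (p : ℝ) else 1) *
          ((rf (e.1 / u.A) M : ℝ) * rf (e.2 / u'.A) M'))^10 *
        Dq c.rr M (u.B * p) u.A p M' u'.B u'.A 1 e ∨ (Ac c p e.1 ∨ Ac c p e.2) := by
  have hL0 := hL.br₀
  have hpp : p.Prime := hL.hF.1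
  have hp0 : 0 < p := hpp.pos
  have hp1 : (1 : ℝ) ≤ p := by exact_mod_cast hpp.one_le
  have hO' : τ'.Ok u'.n := by
    obtain ⟨F, -, -, hO, -⟩ := mf'
    exact hO
  refine fsokY h hp X (k₀ := 1) (k₀' := if p ∣ u'.B then p else 1) hM hM' hL0.hb hR.hb hL0.hF hR.hF
    hL0.hW hR.hW (Dvd.intro_left u.B rfl) (one_dvd _) ?_ ?_ ?_ ?_ ?_ hthr
  · rw [div_col hp0, Nat.div_one]
    linarith
  · intro q hq
    rw [div_col hp0, one_mul]
    exact (Bl_of_MF mf (Finset.mem_union_right _ hq)).symm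
  · intro q hq
    rw [Nat.div_one]
    exact Bl_gen mf' hpp hpu (mt_Blw hO' hbl q) hq
  · split_ifs
    · simpa using hp1
    · simp
  · split_ifs
    · exact le_rfl
    · simp

end

end Crest.Agent.R4P.LinkG758
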