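import Crest.Agent.R4.Link758
import Crest.Agent.R4P.Data758

/-!
R4 (S0004), powers pass: port of helper758's `R4/Link758` to the tree with powers (helper17):
**from item pairs of a state to arithmetic.** The tree-free half (`Pt`, `num`, `Pt.off`, `Pt.eq'`,
`rel_pts`, `off_eq_of_exact`, `lab_div`, `cast_div'`) is exported from `R4.Link758`.

* `pt_of_uA`, `PE_pts`, `PE_rel` : points of the items of a state.
* `same_of_FF`, `FS_lower`, `PE_FS_lower` : a related pair of class `[F]` has `1 < 2 m^10 D`.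
* `MF`, `MF_root`, `MF.prod_lt`, `MF.prod_self` : missing ties above a node.
-/

set_option autoImplicit false
set_option linter.unusedSectionVars false
set_option linter.unusedVariables false
open MeasureTheory Filter

namespace Crest.Agent.R4P.Link758

open Crest.Agent.R4.Tour104 Crest.Agent.R4.Tour758 Crest.Agent.R4.Avg758 Crest.Agent.R4.Clos758
open Crest.Agent.R4.ClosL758 Crest.Agent.R4.ClosG758 Crest.Agent.R4.ClosR758
open Crest.Agent.R4.Fam464 Crest.Agent.R4P.Cnt588 Crest.Agent.R4P.Walk560 Crest.Agent.R4P.Item758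
open Crest.Agent.R4.Piece464 Crest.Agent.R4P.W363 Crest.Agent.R4P.AvgItem710
open Crest.Agent.R4P.Data758
open Crest.Agent.R4.LF363 (Lab lab_unique)
open Crest.Agent.R4.Dich579 (FF)

export Crest.Agent.R4.Link758 (Pt cast_div' num num_cast rel_pts off_eq_of_exact lab_div)

/-! ### points -/

section
variable {Λ κ : Type*} [Fintype Λ] [DecidableEq Λ] [Fintype κ] [DecidableEq κ]
  {D : Par Λ κ} {M M' b pr c b' pr' c' : ℕ} {t t' : IT} {A A' : Finset Λ}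

/-- a nonzero averaged value gives a point -/
theorem pt_of_uA (hM : 0 < M) (hb : 0 < b) (hF : Fit b pr t) (hW : D.Wts pr t) (hc : c ∣ b)
    {j : Λ} {y : ℝ} (h : D.uA M b pr t A c j y ≠ 0) :
    j ∈ A ∧ D.it j ∈ t.items ∧ ∃ (i a : ℤ) (z : ℝ),
      Pt D.γ (D.al j) (D.be j) (b / c) (D.it j / pr) M
        (fun a => D.om j ((c * mp t (D.it j) : ℕ) * a)) y i a z := by
  have hj : j ∈ A ∧ D.it j ∈ t.items := by
    by_contra h'; exact h (uA_zero hM h' y)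
  refine ⟨hj.1, hj.2, ?_⟩
  have c0 : 0 < c := Nat.pos_of_dvd_of_pos hc hb
  have hB0 : 0 < b / c := Nat.div_pos (Nat.le_of_dvd hb hc) c0
  have hB : ((b / c : ℕ) : ℝ) = (b : ℝ) / c := cast_div' hc hb
  have h1 : ∃ i ∈ Finset.range M, (D.toFT b pr t).U c j ((y + (i : ℕ)) / M) ≠ 0 := by
    by_contra hne
    push Not at hne
    apply h
    unfold Par.uA avg
    rw [rv_of_mem hj.1]
    unfold Ep
    rw [Finset.sum_eq_zero hne, zero_div]
  obtain ⟨i, hi, h2⟩ := h1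
  have h3 := D.U_le t b pr c hb hF hW hc j hj.2 ((y + (i : ℕ)) / M)
  have h0 : 0 ≤ (D.toFT b pr t).U c j ((y + (i : ℕ)) / M) :=
    (FT.pb hb (D.toFT_Adm t b pr hb hF hW) hc j).nonneg _
  have h4 : pc ((b : ℝ) / c * D.γ) ((b : ℝ) / c * D.al j) ((b : ℝ) / c * D.be j) (D.it j / pr)
      (fun a => D.om j ((c * mp t (D.it j) : ℕ) * a)) ((y + (i : ℕ)) / M) ≠ 0 := by
    intro h5
    exact h2 (le_antisymm (h3.trans (le_of_eq h5)) h0)
  have s0 : 0 < (b : ℝ) / c := by rw [← hB]; exact_mod_cast hB0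
  obtain ⟨a, z, k1, k2, k3, k4⟩ := pc_point s0 h4
  refine ⟨i, a, z, k2, k3, Int.natCast_nonneg i, by exact_mod_cast Finset.mem_range.1 hi, k1, ?_⟩
  rw [hB, k4]
  push_cast
  ring

/-- **points of a pair of items which counts** -/
theorem PE_pts (hM : 0 < M) (hM' : 0 < M') (hb : 0 < b) (hb' : 0 < b') (hF : Fit b pr t)
    (hF' : Fit b' pr' t') (hW : D.Wts pr t) (hW' : D.Wts pr' t') (hc : c ∣ b) (hc' : c' ∣ b')
    {R : Finset (Λ × Λ)} {e : ℕ × ℕ}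
    (he : e ∈ D.PE R (D.uA M b pr t A c) (D.uA M' b' pr' t' A' c')) :
    ∃ j j', (j, j') ∈ R ∧ j ∈ A ∧ j' ∈ A' ∧ D.it j = e.1 ∧ D.it j' = e.2 ∧ e.1 ∈ t.items ∧
      e.2 ∈ t'.items ∧ ∃ (y : ℝ) (i a i' a' : ℤ) (z z' : ℝ),
        Pt D.γ (D.al j) (D.be j) (b / c) (e.1 / pr) M
          (fun a => D.om j ((c * mp t e.1 : ℕ) * a)) y i a z ∧
        Pt D.γ (D.al j') (D.be j') (b' / c') (e.2 / pr') M'
          (fun a => D.om j' ((c' * mp t' e.2 : ℕ) * a)) y i' a' z' := by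
  obtain ⟨j, j', h1, h2, h3, h4, h5, h6, h7, y, h8, h9⟩ := Par.PE_ex hM hM' he
  obtain ⟨-, -, i, a, z, hP⟩ := pt_of_uA hM hb hF hW hc h8
  obtain ⟨-, -, i', a', z', hP'⟩ := pt_of_uA hM' hb' hF' hW' hc' h9
  rw [h4] at hP
  rw [h5] at hP'
  exact ⟨j, j', h1, h2, h3, h4, h5, h6, h7, y, i, a, i', a', z, z', hP, hP'⟩

end

/-- **relation of an item pair which counts** (`RelG` of `StopCls709`): any parameters `D` with
`Rad ρ` -/
theorem PE_rel {Λ κ : Type*} [Fintype Λ] [DecidableEq Λ] [Fintype κ] [DecidableEq κ]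
    {D : Par Λ κ} {ρ : ℕ → ℝ} (hρ : D.Rad ρ) {M M' b pr c b' pr' c' : ℕ} {t t' : IT}
    {A A' : Finset Λ} (hM : 0 < M) (hM' : 0 < M') (hb : 0 < b) (hb' : 0 < b') (hF : Fit b pr t)
    (hF' : Fit b' pr' t') (hW : D.Wts pr t) (hW' : D.Wts pr' t') (hc : c ∣ b) (hc' : c' ∣ b')
    {R : Finset (Λ × Λ)} {e : ℕ × ℕ}
    (he : e ∈ D.PE R (D.uA M b pr t A c) (D.uA M' b' pr' t' A' c')) {x y₁ : ℕ}
    (hxy : (e.1 / pr / M.gcd (e.1 / pr)) * y₁ = (e.2 / pr' / M'.gcd (e.2 / pr')) * x) :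
    ∃ m m' : ℤ, |(m + rf (e.1 / pr) M * ((b : ℝ) / c * D.γ)) * y₁ -
        (m' + rf (e.2 / pr') M' * ((b' : ℝ) / c' * D.γ)) * x| ≤
      2 * max ((y₁ : ℝ) * (rf (e.1 / pr) M * ((b : ℝ) / c * ρ e.1)))
        ((x : ℝ) * (rf (e.2 / pr') M' * ((b' : ℝ) / c' * ρ e.2))) := by
  obtain ⟨j, j', hj, hA, hA', e1, e2, i1, i2, y, i, a, i', a', z, z', hP, hP'⟩ :=
    PE_pts hM hM' hb hb' hF hF' hW hW' hc hc' he
  have hpr : pr ∣ e.1 := (hF.item _ i1).2.1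
  have hpr' : pr' ∣ e.2 := (hF'.item _ i2).2.1
  have q0 : 0 < e.1 := (hF.item _ i1).1
  have q0' : 0 < e.2 := (hF'.item _ i2).1
  have p0 : 0 < pr := Nat.pos_of_dvd_of_pos hpr q0
  have p0' : 0 < pr' := Nat.pos_of_dvd_of_pos hpr' q0'
  have w0 : 0 < e.1 / pr := Nat.div_pos (Nat.le_of_dvd q0 hpr) p0
  have w0' : 0 < e.2 / pr' := Nat.div_pos (Nat.le_of_dvd q0' hpr') p0'
  have B1 : ((b : ℝ) / c) = ((b / c : ℕ) : ℝ) := (cast_div' hc hb).symm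
  have B2 : ((b' : ℝ) / c') = ((b' / c' : ℕ) : ℝ) := (cast_div' hc' hb').symm
  rw [B1, B2]
  refine ⟨_, _, (rel_pts hP hP' hM hM' w0 w0' hxy).trans ?_⟩
  have hz : |z| ≤ ρ e.1 := by
    have h1 := hρ.al j
    have h2 := hρ.be j
    rw [e1] at h1 h2
    rw [abs_le]
    exact ⟨h1.trans hP.z1, hP.z2.le.trans h2⟩
  have hz' : |z'| ≤ ρ e.2 := by
    have h1 := hρ.al j'
    have h2 := hρ.be j'
    rw [e2] at h1 h2
    rw [abs_le]
    exact ⟨h1.trans hP'.z1, hP'.z2.le.trans h2⟩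
  have u1 : (y₁ : ℝ) * (rf (e.1 / pr) M * ((b / c : ℕ) * |z|)) ≤
      y₁ * (rf (e.1 / pr) M * ((b / c : ℕ) * ρ e.1)) := by gcongr
  have u2 : (x : ℝ) * (rf (e.2 / pr') M' * ((b' / c' : ℕ) * |z'|)) ≤
      x * (rf (e.2 / pr') M' * ((b' / c' : ℕ) * ρ e.2)) := by gcongr
  rw [two_mul]
  exact add_le_add (u1.trans (le_max_left _ _)) (u2.trans (le_max_right _ _))

/-! ### missing ties above a node -/

section tree
open Crest.Agent.R4P.Bld532 (NS All)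

/-- `F` = missing ties above the node -/
def MF (T : IT) (u : NS) (τ : IT) : Prop :=
  ∃ F : Finset ℕ, (∀ s ∈ F, s.Prime ∧ u.n ≤ s) ∧ ∏ s ∈ F, s = u.B ∧ τ.Ok u.n ∧
    ∀ q ∈ τ.items, T.mt q = F ∪ τ.mt q

theorem All_MF {T : IT} : ∀ (t : IT) (u : NS), MF T u t → All (MF T) u t := by
  intro t
  induction t with
  | leaf S => intro u h; exact h
  | br p Sp t₁ t₀ ih₁ ih₀ =>
    intro u h
    refine ⟨h, ?_, ?_⟩
    · obtain ⟨F, h1, h2, ⟨hp, hpn, hd, hSp, hO1, hO0⟩, h3⟩ := h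
      refine ih₁ _ ⟨F, fun s hs => ⟨(h1 s hs).1, hpn.le.trans (h1 s hs).2⟩, h2, hO1, fun q hq => ?_⟩
      have hn : q ∉ t₀.items := Finset.disjoint_left.1 hd hq
      have := h3 q (Finset.mem_union_left _ hq)
      simpa only [IT.mt, if_neg hn] using this
    · obtain ⟨F, h1, h2, ⟨hp, hpn, hd, hSp, hO1, hO0⟩, h3⟩ := h
      have hpF : p ∉ F := fun hpF => absurd (h1 p hpF).2 (not_le.2 hpn)
      refine ih₀ _ ⟨insert p F, fun s hs => ?_, ?_, hO0, fun q hq => ?_⟩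
      · rcases Finset.mem_insert.1 hs with rfl | hs
        · exact ⟨hp, le_rfl⟩
        · exact ⟨(h1 s hs).1, hpn.le.trans (h1 s hs).2⟩
      · rw [Finset.prod_insert hpF, h2, mul_comm]
      · have := h3 q (Finset.mem_union_right _ hq)
        rw [this]
        simp only [IT.mt, if_pos hq, Finset.union_insert, Finset.insert_union]
  | add p t₁ t₀ ih₁ ih₀ =>
    intro u h
    refine ⟨h, ?_, ?_⟩
    · obtain ⟨F, h1, h2, ⟨hp, hpn, hd, hO1, hO0⟩, h3⟩ := h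
      refine ih₁ _ ⟨F, fun s hs => ⟨(h1 s hs).1, (Nat.succ_le_of_lt hpn).trans (h1 s hs).2⟩, h2,
        hO1, fun q hq => ?_⟩
      have hn : q ∉ t₀.items := Finset.disjoint_left.1 hd hq
      have := h3 q (Finset.mem_union_left _ hq)
      simpa only [IT.mt, if_neg hn] using this
    · obtain ⟨F, h1, h2, ⟨hp, hpn, hd, hO1, hO0⟩, h3⟩ := h
      refine ih₀ _ ⟨F, fun s hs => ⟨(h1 s hs).1, (Nat.succ_le_of_lt hpn).trans (h1 s hs).2⟩, h2,
        hO0, fun q hq => ?_⟩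
      have := h3 q (Finset.mem_union_right _ hq)
      simpa only [IT.mt, if_pos hq] using this
  | up p Sp t ih =>
    intro u h
    refine ⟨h, ?_⟩
    obtain ⟨F, h1, h2, ⟨hp, hpn, hd, hO⟩, h3⟩ := h
    refine ih _ ⟨F, fun s hs => ⟨(h1 s hs).1, hpn.le.trans (h1 s hs).2⟩, h2, hO, fun q hq => ?_⟩
    have := h3 q hq
    simpa only [IT.mt] using this
  | pl p t ih =>
    intro u h
    refine ⟨h, ?_⟩
    obtain ⟨F, h1, h2, ⟨hp, hpn, hO⟩, h3⟩ := h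
    refine ih _ ⟨F, fun s hs => ⟨(h1 s hs).1, (Nat.succ_le_of_lt hpn).trans (h1 s hs).2⟩, h2, hO,
      fun q hq => ?_⟩
    have := h3 q hq
    simpa only [IT.mt] using this
  | far p t₁ t₀ ih₁ ih₀ =>
    intro u h
    refine ⟨h, ?_, ?_⟩
    · obtain ⟨F, h1, h2, ⟨hp, hpn, hd, hO1, hO0⟩, h3⟩ := h
      refine ih₁ _ ⟨F, fun s hs => ⟨(h1 s hs).1, (Nat.succ_le_of_lt hpn).trans (h1 s hs).2⟩, h2,
        hO1, fun q hq => ?_⟩
      have hn : q ∉ t₀.items := Finset.disjoint_left.1 hd hq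
      have := h3 q (Finset.mem_union_left _ hq)
      simpa only [IT.mt, if_neg hn] using this
    · obtain ⟨F, h1, h2, ⟨hp, hpn, hd, hO1, hO0⟩, h3⟩ := h
      refine ih₀ _ ⟨F, fun s hs => ⟨(h1 s hs).1, (Nat.succ_le_of_lt hpn).trans (h1 s hs).2⟩, h2,
        hO0, fun q hq => ?_⟩
      have := h3 q (Finset.mem_union_right _ hq)
      simpa only [IT.mt, if_pos hq] using this

/-- every node of a tree knows its missing ties -/
theorem MF_root {T : IT} {n : ℕ} (h : T.Ok n) (c : ℝ) : All (MF T) ⟨n, c, 1, 1⟩ T :=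
  All_MF T _ ⟨∅, by simp, by simp, h, fun q _ => by simp⟩

lemma mt_lt : ∀ (t : IT) {n : ℕ}, t.Ok n → ∀ q, ∀ s ∈ t.mt q, s < n := by
  intro t
  induction t with
  | leaf S => intro n _ q s hs; simp [IT.mt] at hs
  | br p Sp t₁ t₀ ih₁ ih₀ =>
    intro n hO q s hs
    obtain ⟨hp, hpn, -, -, h1, h0⟩ := hO
    by_cases hq : q ∈ t₀.items
    · simp only [IT.mt, if_pos hq, Finset.mem_insert] at hs
      rcases hs with rfl | hs
      · exact hpn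
      · exact (ih₀ h0 q s hs).trans hpn
    · simp only [IT.mt, if_neg hq] at hs
      exact (ih₁ h1 q s hs).trans hpn
  | add p t₁ t₀ ih₁ ih₀ =>
    intro n hO q s hs
    obtain ⟨hp, hpn, -, h1, h0⟩ := hO
    by_cases hq : q ∈ t₀.items
    · simp only [IT.mt, if_pos hq] at hs
      exact (ih₀ h0 q s hs).trans_le hpn
    · simp only [IT.mt, if_neg hq] at hs
      exact (ih₁ h1 q s hs).trans_le hpn
  | up p Sp t ih =>
    intro n hO q s hs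
    obtain ⟨hp, hpn, -, h1⟩ := hO
    simp only [IT.mt] at hs
    exact (ih h1 q s hs).trans hpn
  | pl p t ih =>
    intro n hO q s hs
    obtain ⟨hp, hpn, h1⟩ := hO
    simp only [IT.mt] at hs
    exact (ih h1 q s hs).trans_le hpn
  | far p t₁ t₀ ih₁ ih₀ =>
    intro n hO q s hs
    obtain ⟨hp, hpn, -, h1, h0⟩ := hO
    by_cases hq : q ∈ t₀.items
    · simp only [IT.mt, if_pos hq] at hs
      exact (ih₀ h0 q s hs).trans_le hpn
    · simp only [IT.mt, if_neg hq] at hs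
      exact (ih₁ h1 q s hs).trans_le hpn

/-- product of the missing ties above the level of the column (between the node and its children) -/
theorem MF.prod_lt {T τ : IT} {u : NS} (h : MF T u τ) {q l : ℕ} (hq : q ∈ τ.items) (hl : l < u.n)
    (hmt : ∀ s ∈ τ.mt q, s ≤ l) : (lst (T.mt q) l).prod = u.B := by
  obtain ⟨F, h1, h2, -, h3⟩ := h
  rw [lst_prod, h3 q hq, ← h2]
  refine Finset.prod_congr ?_ fun _ _ => rfl
  ext s
  simp only [Finset.mem_filter, Finset.mem_union]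
  constructor
  · rintro ⟨hs | hs, hls⟩
    · exact hs
    · exact absurd (hmt s hs) (not_le.2 hls)
  · intro hs
    exact ⟨Or.inl hs, hl.trans_le (h1 s hs).2⟩

/-- product of the missing ties above the previous column: `u.B`, or `u.B / u.n` -/
theorem MF.prod_self {T τ : IT} {u : NS} (h : MF T u τ) {q : ℕ} (hq : q ∈ τ.items) :
    ∃ k₀ : ℕ, u.B = k₀ * (lst (T.mt q) u.n).prod ∧ (k₀ = 1 ∨ (k₀ = u.n ∧ u.n ∈ T.mt q)) := by
  obtain ⟨F, h1, h2, hO, h3⟩ := h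
  have hmt : ∀ s ∈ τ.mt q, s < u.n := mt_lt τ hO q
  have e : (lst (T.mt q) u.n).prod = ∏ s ∈ F.erase u.n, s := by
    rw [lst_prod, h3 q hq]
    refine Finset.prod_congr ?_ fun _ _ => rfl
    ext s
    simp only [Finset.mem_filter, Finset.mem_union, Finset.mem_erase]
    constructor
    · rintro ⟨hs | hs, hls⟩
      · exact ⟨hls.ne', hs⟩
      · exact absurd (hmt s hs) (not_lt.2 hls.le)
    · rintro ⟨hne, hs⟩
      exact ⟨Or.inl hs, lt_of_le_of_ne (h1 s hs).2 hne.symm⟩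
  by_cases hn : u.n ∈ F
  · refine ⟨u.n, ?_, Or.inr ⟨rfl, by rw [h3 q hq]; exact Finset.mem_union_left _ hn⟩⟩
    rw [e, ← h2, Finset.mul_prod_erase F (fun s => s) hn]
  · refine ⟨1, ?_, Or.inl rfl⟩
    rw [e, Finset.erase_eq_of_notMem hn, h2, one_mul]

end tree

/-! ### class `[F]` -/

section
variable {c : Cf} {n : ℕ}

/-- product of the missing ties above the level `l` -/
noncomputable def Bl (c : Cf) (l q : ℕ) : ℕ := (lst (c.t.mt q) l).prod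

/-- the state of a thin item with an `[F]` label: the label itself -/
theorem st_of_lab {l q : ℕ} (hthin : (Bl c l q : ℝ) * c.r q ≤ c.wp.thr l) {ρ₀ : ℚ}
    (h : Lab (Bl c l q * c.γ) (Bl c l q * c.r q) ρ₀) :
    c.wp.st c.γ c.r c.t l q = some (ρ₀ / Bl c l q) := by
  unfold WP.st
  rw [sta_thin hthin]
  exact lab0_eq_some h

/-- the item is labelled in `W*`, but its label is not used (too accurate: `|γ - σ| < lam l * r q`):
it is in a cell of true centres. Impossible if all labels are used (`lam l = 0`). -/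
def Ac (c : Cf) (l q : ℕ) : Prop :=
  ∃ σ : ℚ, c.wp.st c.γ c.r c.t l q = some σ ∧ ¬ c.lam l * c.r q ≤ |c.γ - σ|

lemma not_Ac_zero {l q : ℕ} (h : c.lam l = 0) : ¬ Ac c l q := by
  rintro ⟨σ, -, h2⟩
  exact h2 (by rw [h, zero_mul]; exact abs_nonneg _)

/-- an item with a state of `W*` which is not too accurate -/
lemma st_of_not_Ac {l q : ℕ} (h : ¬ Ac c l q) {σ : ℚ} (hs : c.wp.st c.γ c.r c.t l q = some σ) :
    c.st l q = some σ := by
  show stB c.wp c.wpL c.lam c.γ c.r c.t c.lv l q = some σ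
  rw [stB_of_some hs]
  exact stA_some.2 ⟨hs, by by_contra hc; exact h ⟨σ, hs, hc⟩⟩

lemma st_of_Ac {l q : ℕ} (h : Ac c l q) : c.st l q = none := by
  obtain ⟨σ, h1, h2⟩ := h
  show stB c.wp c.wpL c.lam c.γ c.r c.t c.lv l q = none
  rw [stB_of_some h1]
  refine stA_none.2 fun τ hτ => ?_
  rw [h1] at hτ
  rw [← Option.some.inj hτ]; exact not_le.1 h2

/-- **[F] pairs have the same index.** `B = κ₀ · Bl` (`κ₀ = 1`, or the tie of the level itself);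
raising factors `rf`, `rf'` (and `κ₀`, `κ₀'`) at most `t^(1/10)`. -/
theorem same_of_FF (h : c.Ok n) {l : ℕ} (hl : l ≤ n) {j j' : c.Lam} {B w M B' w' M' : ℕ}
    {κ κ' : ℤ → ℝ} {y z z' : ℝ} {i a i' a' : ℤ}
    (hP : Pt c.γ (c.D.al j) (c.D.be j) B w M κ y i a z)
    (hP' : Pt c.γ (c.D.al j') (c.D.be j') B' w' M' κ' y i' a' z')
    (hM : 0 < M) (hM' : 0 < M') (hB : 0 < B) (hB' : 0 < B') (hw : 0 < w) (hw' : 0 < w')
    {x y₁ pr pr' : ℕ}
    (hx : 0 < x) (hy : 0 < y₁) (hpr : 0 < pr) (hpr' : 0 < pr') (hq : j.1.1 = pr * w)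
    (hq' : j'.1.1 = pr' * w') (hcirc : pr * M * B = pr' * M' * B')
    (hxy : (w / M.gcd w) * y₁ = (w' / M'.gcd w') * x)
    {k₀ k₀' : ℕ} (hk : B = k₀ * Bl c l j.1.1) (hk' : B' = k₀' * Bl c l j'.1.1)
    (hthin : (Bl c l j.1.1 : ℝ) * c.r j.1.1 ≤ c.wp.thr l)
    (hthin' : (Bl c l j'.1.1 : ℝ) * c.r j'.1.1 ≤ c.wp.thr l)
    (hac : ¬ Ac c l j.1.1) (hac' : ¬ Ac c l j'.1.1)
    {t : ℝ} (ht : 1 ≤ t) (hm : ((rf w M * k₀ : ℕ) : ℝ) ≤ t ^ (1/10 : ℝ))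
    (hm' : ((rf w' M' * k₀' : ℕ) : ℝ) ≤ t ^ (1/10 : ℝ))
    (hyr : (y₁ : ℝ) * (rf w M * (B * c.r j.1.1)) ≤ 1 / t)
    (hxr : (x : ℝ) * (rf w' M' * (B' * c.r j'.1.1)) ≤ 1 / t) {ρ ρ' : ℚ}
    (hFF : FF (rf w M * (B * c.γ)) (rf w' M' * (B' * c.γ)) t (rf w M * (B * c.r j.1.1))
      (rf w' M' * (B' * c.r j'.1.1)) x y₁ ρ ρ') : (j, j') ∉ Ro (c.D.rho l) := by
  have hb0 : 0 < Bl c l j.1.1 := Nat.pos_of_ne_zero fun h0 => by rw [hk, h0] at hB; simp at hB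
  have hb0' : 0 < Bl c l j'.1.1 := Nat.pos_of_ne_zero fun h0 => by
    rw [hk', h0] at hB'; simp at hB'
  have hk0 : 0 < k₀ := Nat.pos_of_ne_zero fun h0 => by rw [hk, h0] at hB; simp at hB
  have hk0' : 0 < k₀' := Nat.pos_of_ne_zero fun h0 => by rw [hk', h0] at hB'; simp at hB'
  have hr0 := rf_pos (w := w) hM
  have hr0' := rf_pos (w := w') hM'
  have ht0 : 0 < t := lt_of_lt_of_le one_pos ht
  -- one side
  have key : ∀ {q B w M k₀ y₁ : ℕ} {ρ : ℚ}, 0 < Bl c l q → 0 < k₀ → 0 < rf w M → 0 < y₁ →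
      B = k₀ * Bl c l q → ((rf w M * k₀ : ℕ) : ℝ) ≤ t ^ (1/10 : ℝ) →
      (y₁ : ℝ) * (rf w M * (B * c.r q)) ≤ 1 / t →
      Lab (rf w M * (B * c.γ)) (rf w M * (B * c.r q)) ρ →
      (ρ.den : ℝ) ≤ t ^ (21/200 : ℝ) →
      |rf w M * (B * c.γ) - ρ| ≤ t ^ (39/200 : ℝ) * (rf w M * (B * c.r q)) →
      (Bl c l q : ℝ) * c.r q ≤ c.wp.thr l →
      ∃ σ : ℚ, c.wp.st c.γ c.r c.t l q = some σ ∧ (rf w M : ℝ) * (B * σ) = ρ := by
    intro q B w M k₀ y₁ ρ b0 k0 r0 y0 hB hm hyr hL hd hn hth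
    have e1 : (rf w M : ℝ) * (B * c.γ) = ((rf w M * k₀ : ℕ) : ℝ) * (Bl c l q * c.γ) := by
      rw [hB]; push_cast; ring
    have e2 : (rf w M : ℝ) * (B * c.r q) = ((rf w M * k₀ : ℕ) : ℝ) * (Bl c l q * c.r q) := by
      rw [hB]; push_cast; ring
    rw [e1, e2] at hL hn
    rw [e2] at hyr
    have hpos := hL.pos
    have hy1 : (1 : ℝ) ≤ y₁ := by exact_mod_cast y0
    have hr1 : ((rf w M * k₀ : ℕ) : ℝ) * (Bl c l q * c.r q) ≤ 1 / t :=
      (le_mul_of_one_le_left hpos.le hy1).trans hyr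
    have hlab := lab_div (Nat.mul_pos r0 k0) ht hm hL hd hn hr1
    refine ⟨_, st_of_lab hth hlab, ?_⟩
    have b0' : (Bl c l q : ℝ) ≠ 0 := by exact_mod_cast b0.ne'
    have k0' : (k₀ : ℝ) ≠ 0 := by exact_mod_cast k0.ne'
    have r0' : (rf w M : ℝ) ≠ 0 := by exact_mod_cast r0.ne'
    rw [hB]
    push_cast
    field_simp
  obtain ⟨σ, s1, s2⟩ := key hb0 hk0 hr0 hy hk hm hyr hFF.lab hFF.den hFF.near hthin
  obtain ⟨τ, s1', s2'⟩ := key hb0' hk0' hr0' hx hk' hm' hxr hFF.lab' hFF.den' hFF.near' hthin'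
  intro hR
  rw [h.Ro_iff hl j j' hP.z1 hP.z2 hP'.z1 hP'.z2, st_of_not_Ac hac s1, st_of_not_Ac hac' s1'] at hR
  apply hR
  apply WP.ix_same_some
  refine off_eq_of_exact hP hP' hM hM' hB hw hw' hx hy hpr hpr' hq hq' hcirc hxy ?_
  rw [s2, s2']
  refine hFF.exact _ _ ?_
  refine (rel_pts hP hP' hM hM' hw hw' hxy).trans ?_
  have hz : |z| ≤ c.r j.1.1 := by
    rw [abs_le]
    exact ⟨(h.bp_ge j _).trans hP.z1, (hP.z2.le).trans (h.bp_le j (Cf.k_lt j))⟩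
  have hz' : |z'| ≤ c.r j'.1.1 := by
    rw [abs_le]
    exact ⟨(h.bp_ge j' _).trans hP'.z1, (hP'.z2.le).trans (h.bp_le j' (Cf.k_lt j'))⟩
  have u1 : (y₁ : ℝ) * (rf w M * (B * |z|)) ≤ y₁ * (rf w M * (B * c.r j.1.1)) := by gcongr
  have u2 : (x : ℝ) * (rf w' M' * (B' * |z'|)) ≤ x * (rf w' M' * (B' * c.r j'.1.1)) := by gcongr
  calc _ ≤ 1 / t + 1 / t := add_le_add (u1.trans hyr) (u2.trans hxr)
    _ = 2 / t := by ring

open Crest.Agent.R4.StopAsm709 (FS)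

/-- **[F] pairs which are related have large raising factors**: `1 < 2 m^10 D` -/
theorem FS_lower (h : c.Ok n) {l : ℕ} (hl : l ≤ n) {j j' : c.Lam} {B w M B' w' M' : ℕ}
    {κ κ' : ℤ → ℝ} {y z z' : ℝ} {i a i' a' : ℤ}
    (hP : Pt c.γ (c.D.al j) (c.D.be j) B w M κ y i a z)
    (hP' : Pt c.γ (c.D.al j') (c.D.be j') B' w' M' κ' y i' a' z')
    (hM : 0 < M) (hM' : 0 < M') (hB : 0 < B) (hB' : 0 < B') (hw : 0 < w) (hw' : 0 < w')
    {x y₁ pr pr' : ℕ}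
    (hx : 0 < x) (hy : 0 < y₁) (hpr : 0 < pr) (hpr' : 0 < pr') (hq : j.1.1 = pr * w)
    (hq' : j'.1.1 = pr' * w') (hcirc : pr * M * B = pr' * M' * B')
    (hxy : (w / M.gcd w) * y₁ = (w' / M'.gcd w') * x)
    {k₀ k₀' : ℕ} (hk : B = k₀ * Bl c l j.1.1) (hk' : B' = k₀' * Bl c l j'.1.1)
    (hthin : (Bl c l j.1.1 : ℝ) * c.r j.1.1 ≤ c.wp.thr l)
    (hthin' : (Bl c l j'.1.1 : ℝ) * c.r j'.1.1 ≤ c.wp.thr l)
    (hac : ¬ Ac c l j.1.1) (hac' : ¬ Ac c l j'.1.1)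
    (hR : (j, j') ∈ Ro (c.D.rho l)) {N : ℕ}
    (hFS : FS N (rf w M * (B * c.γ)) (rf w' M' * (B' * c.γ)) x y₁ (rf w M * (B * c.r j.1.1))
      (rf w' M' * (B' * c.r j'.1.1))) :
    1 < 2 * ((max (rf w M * k₀) (rf w' M' * k₀') : ℕ) : ℝ) ^ 10 *
      max ((y₁ : ℝ) * (rf w M * (B * c.r j.1.1))) ((x : ℝ) * (rf w' M' * (B' * c.r j'.1.1))) := by
  obtain ⟨t, m, m', ρ, ρ', h1, h2, h3, h4, h5, h6⟩ := hFS
  have ht : 1 ≤ t := le_trans (one_le_pow₀ (by norm_num)) h1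
  have ht0 : 0 < t := lt_of_lt_of_le one_pos ht
  set mx : ℕ := max (rf w M * k₀) (rf w' M' * k₀') with hmx
  set Dm := max ((y₁ : ℝ) * (rf w M * (B * c.r j.1.1)))
    ((x : ℝ) * (rf w' M' * (B' * c.r j'.1.1))) with hDm
  by_contra hcon
  push Not at hcon
  have h7 : ((mx : ℕ) : ℝ) ^ 10 ≤ t := by
    have a1 : ((mx : ℕ) : ℝ) ^ 10 / t ≤ 1 := by
      calc ((mx : ℕ) : ℝ) ^ 10 / t = 2 * ((mx : ℕ) : ℝ) ^ 10 * (1 / (2 * t)) := by
            field_simp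
        _ ≤ 2 * ((mx : ℕ) : ℝ) ^ 10 * Dm := mul_le_mul_of_nonneg_left h2.le (by positivity)
        _ ≤ 1 := hcon
    rwa [div_le_one ht0] at a1
  have h8 : ((mx : ℕ) : ℝ) ≤ t ^ (1/10 : ℝ) := by
    have a2 : (((mx : ℕ) : ℝ) ^ 10) ^ (1/10 : ℝ) ≤ t ^ (1/10 : ℝ) :=
      Real.rpow_le_rpow (by positivity) h7 (by norm_num)
    have a3 : (((mx : ℕ) : ℝ) ^ 10) ^ (1/10 : ℝ) = ((mx : ℕ) : ℝ) := by
      rw [← Real.rpow_natCast, ← Real.rpow_mul (Nat.cast_nonneg _)]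
      norm_num
    rwa [a3] at a2
  refine same_of_FF h hl hP hP' hM hM' hB hB' hw hw' hx hy hpr hpr' hq hq' hcirc hxy hk hk' hthin
    hthin' hac hac' ht (le_trans ?_ h8) (le_trans ?_ h8) ((le_max_left _ _).trans h3)
    ((le_max_right _ _).trans h3) h5 hR
  · exact_mod_cast le_max_left _ _
  · exact_mod_cast le_max_right _ _

/-- **for item pairs of a state** (`D = c.D.par X`; node data `(b, pr)`, factors `c₁`, `c₁'`) -/
theorem PE_FS_lower (h : c.Ok n) {l : ℕ} (hl : l ≤ n) (X : Finset (ℕ × ℕ × Finset ℕ))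
    {M M' b pr c₁ b' pr' c₁' : ℕ} {t t' : IT} {A A' : Finset c.Lam}
    (hM : 0 < M) (hM' : 0 < M') (hb : 0 < b) (hb' : 0 < b') (hF : Fit b pr t)
    (hF' : Fit b' pr' t') (hW : (c.D.par X).Wts pr t) (hW' : (c.D.par X).Wts pr' t')
    (hc : c₁ ∣ b) (hc' : c₁' ∣ b') {R : Finset (c.Lam × c.Lam)} (hR : R ⊆ Ro (c.D.rho l))
    {e : ℕ × ℕ}
    (he : e ∈ (c.D.par X).PE R ((c.D.par X).uA M b pr t A c₁) ((c.D.par X).uA M' b' pr' t' A' c₁'))
    (hcirc : pr * M * (b / c₁) = pr' * M' * (b' / c₁')) {x y₁ : ℕ} (hx : 0 < x) (hy : 0 < y₁)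
    (hxy : (e.1 / pr / M.gcd (e.1 / pr)) * y₁ = (e.2 / pr' / M'.gcd (e.2 / pr')) * x)
    {k₀ k₀' : ℕ} (hk : b / c₁ = k₀ * Bl c l e.1) (hk' : b' / c₁' = k₀' * Bl c l e.2)
    (hthin : (Bl c l e.1 : ℝ) * c.r e.1 ≤ c.wp.thr l)
    (hthin' : (Bl c l e.2 : ℝ) * c.r e.2 ≤ c.wp.thr l)
    (hac : ¬ Ac c l e.1) (hac' : ¬ Ac c l e.2) {N : ℕ}
    (hFS : FS N (rf (e.1 / pr) M * ((b : ℝ) / c₁ * c.γ)) (rf (e.2 / pr') M' * ((b' : ℝ) / c₁' * c.γ))
      x y₁ (rf (e.1 / pr) M * ((b : ℝ) / c₁ * c.rr e.1))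
      (rf (e.2 / pr') M' * ((b' : ℝ) / c₁' * c.rr e.2))) :
    1 < 2 * ((max (rf (e.1 / pr) M * k₀) (rf (e.2 / pr') M' * k₀') : ℕ) : ℝ) ^ 10 *
      max ((y₁ : ℝ) * (rf (e.1 / pr) M * ((b : ℝ) / c₁ * c.rr e.1)))
        ((x : ℝ) * (rf (e.2 / pr') M' * ((b' : ℝ) / c₁' * c.rr e.2))) := by
  obtain ⟨j, j', hj, hA, hA', e1, e2, i1, i2, y, i, a, i', a', z, z', hP, hP'⟩ :=
    PE_pts hM hM' hb hb' hF hF' hW hW' hc hc' he
  have e1' : j.1.1 = e.1 := e1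
  have e2' : j'.1.1 = e.2 := e2
  have hpr : pr ∣ e.1 := (hF.item _ i1).2.1
  have hpr' : pr' ∣ e.2 := (hF'.item _ i2).2.1
  have q0 : 0 < e.1 := by rw [← e1']; exact h.pos _ (Cf.mem_S j)
  have q0' : 0 < e.2 := by rw [← e2']; exact h.pos _ (Cf.mem_S j')
  have p0 : 0 < pr := Nat.pos_of_dvd_of_pos hpr q0
  have p0' : 0 < pr' := Nat.pos_of_dvd_of_pos hpr' q0'
  have c0 : 0 < c₁ := Nat.pos_of_dvd_of_pos hc hb
  have c0' : 0 < c₁' := Nat.pos_of_dvd_of_pos hc' hb'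
  have r1 : c.rr e.1 = c.r e.1 := by rw [← e1']; exact Cf.rr_eq j
  have r2 : c.rr e.2 = c.r e.2 := by rw [← e2']; exact Cf.rr_eq j'
  have B1 : ((b : ℝ) / c₁) = ((b / c₁ : ℕ) : ℝ) := (cast_div' hc hb).symm
  have B2 : ((b' : ℝ) / c₁') = ((b' / c₁' : ℕ) : ℝ) := (cast_div' hc' hb').symm
  rw [B1, B2, r1, r2, ← e1', ← e2'] at hFS ⊢
  rw [← e1'] at hk hthin hac
  rw [← e2'] at hk' hthin' hac'
  rw [← e1', ← e2'] at hxy
  rw [← e1'] at hP
  rw [← e2'] at hP'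
  refine FS_lower h hl hP hP' hM hM' (Nat.div_pos (Nat.le_of_dvd hb hc) c0)
    (Nat.div_pos (Nat.le_of_dvd hb' hc') c0')
    (Nat.div_pos (Nat.le_of_dvd (by rw [e1']; exact q0) (by rw [e1']; exact hpr)) p0)
    (Nat.div_pos (Nat.le_of_dvd (by rw [e2']; exact q0') (by rw [e2']; exact hpr')) p0') hx hy
    p0 p0' ?_ ?_ hcirc hxy hk hk' hthin hthin' hac hac' (hR hj) hFS
  · exact (Nat.mul_div_cancel' (by rw [e1']; exact hpr)).symm
  · exact (Nat.mul_div_cancel' (by rw [e2']; exact hpr')).symm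

end

end Crest.Agent.R4P.Link758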