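import Crest.Agent.R4P.NI_10
import Crest.Agent.R4P.Link758
import Crest.Agent.R4.GDef864

/-!
R4 powers (S0004), helper10 (port of helper927's `R4/NMCtx927`): conditions `WNM` on the world of the columns of
a context, levels of the nodes (`All_lvl`), facts of the nodes (`NodeF`).
-/

set_option autoImplicit false
set_option linter.unusedSectionVars false
set_option linter.unusedVariables false
open MeasureTheory Filter

namespace Crest.Agent.R4P.NMCtx927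

open Crest.Agent.R4.Tour104 Crest.Agent.R4.Tour758 Crest.Agent.R4.Avg758 Crest.Agent.R4.Clos758
open Crest.Agent.R4.ClosL758 Crest.Agent.R4.ClosG758 Crest.Agent.R4.ClosR758
open Crest.Agent.R4.Fam464 Crest.Agent.R4P.Cnt588 Crest.Agent.R4P.Walk560 Crest.Agent.R4.Piece464
open Crest.Agent.R4P.Item758 Crest.Agent.R4P.AvgItem710 Crest.Agent.R4P.PrunePar33
open Crest.Agent.R4P.Data758 Crest.Agent.R4P.WalkIT579
open Crest.Agent.R4P.Bld532 (NS All NodeOk Bk)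
open Crest.Agent.R4P.GInst194 Crest.Agent.R4P.GFinC927 Crest.Agent.R4P.NMW710
open Crest.Agent.R4P.NI927 Crest.Agent.R4P.Link758
open Crest.Agent.R4.DeepSt579 (tq tq_nonneg tq_le_one)
open Crest.Agent.R4P.Step588 (NDt ND1 ctx_NDt CT CT_pos tot_ge ctx_rr All_All)
open Crest.Agent.R4P.Skel189 (Ctx top)
open Crest.Agent.R4P

/-- levels below -/
theorem All_lvl {n : ℕ} : ∀ (t : IT) (u : NS), t.Ok u.n → u.n ≤ n → 0 < u.n →
    All (fun u τ => u.n ≤ n ∧ 0 < u.n ∧ τ.Ok u.n) u t := by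
  intro t
  induction t with
  | leaf S => intro u hO h h0; exact ⟨h, h0, hO⟩
  | br p Sp t₁ t₀ ih₁ ih₀ =>
    intro u hO h h0
    have hp := hO.2.1
    have hp0 := hO.1.pos
    exact ⟨⟨h, h0, hO⟩, ih₁ ⟨p, _, _, _⟩ hO.2.2.2.2.1 (by show p ≤ n; omega) hp0,
      ih₀ ⟨p, _, _, _⟩ hO.2.2.2.2.2 (by show p ≤ n; omega) hp0⟩
  | add p t₁ t₀ ih₁ ih₀ =>
    intro u hO h h0
    have hp := hO.2.1
    exact ⟨⟨h, h0, hO⟩, ih₁ ⟨p + 1, _, _, _⟩ hO.2.2.2.1 (by show p + 1 ≤ n; omega) (Nat.succ_pos _),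
      ih₀ ⟨p + 1, _, _, _⟩ hO.2.2.2.2 (by show p + 1 ≤ n; omega) (Nat.succ_pos _)⟩
  | up p Sp t ih =>
    intro u hO h h0
    have hp := hO.2.1
    have hp0 := hO.1.pos
    exact ⟨⟨h, h0, hO⟩, ih ⟨p, _, _, _⟩ hO.2.2.2 (by show p ≤ n; omega) hp0⟩
  | pl p t ih =>
    intro u hO h h0
    have hp := hO.2.1
    exact ⟨⟨h, h0, hO⟩, ih ⟨p + 1, _, _, _⟩ hO.2.2 (by show p + 1 ≤ n; omega) (Nat.succ_pos _)⟩
  | far p t₁ t₀ ih₁ ih₀ =>
    intro u hO h h0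
    have hp := hO.2.1
    exact ⟨⟨h, h0, hO⟩, ih₁ ⟨p + 1, _, _, _⟩ hO.2.2.2.1 (by show p + 1 ≤ n; omega) (Nat.succ_pos _),
      ih₀ ⟨p + 1, _, _, _⟩ hO.2.2.2.2 (by show p + 1 ≤ n; omega) (Nat.succ_pos _)⟩

variable {N : Skel189.Num} {γ : ℝ} {p0 P₀ : ℕ}

/-- **conditions on the world of the columns** -/
structure WNM (X : Ctx N γ p0 P₀) : Prop where
  /-- the cells are not too fine -/
  dep : ∀ p : ℕ, p0 ≤ p → (2 : ℝ) ^ X.c.wp.dep p ≤ Real.exp (Crest.Agent.R4.GDef864.rt (Real.log p))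
  /-- small radii are thin -/
  thr : ∀ p : ℕ, p0 ≤ p → 1 / 2 ^ nn p ≤ X.c.wp.thr p
  /-- no accurate labels -/
  ac : ∀ l q : ℕ, p0 ≤ l → ¬ Ac X.c l q


end Crest.Agent.R4P.NMCtx927
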