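import Crest.Agent.R4P.NMS800
import Crest.Agent.R4P.StopIS95

/-!
# R4 powers (S0004), module G, helper10 (after helper927's `R4/GFinC927`): **node facts of the near misses**

`NB` : node facts (`NQ`, big columns, `lg`, means, `ph`, masses) at all the nodes of a tree;
`NB.nf` : helper95's item facts `NF` of one side of a state.
-/

set_option autoImplicit false
set_option linter.unusedSectionVars false
set_option linter.unusedVariables false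

namespace Crest.Agent.R4P.GFinC927

open Crest.Agent.R4.Tour104 Crest.Agent.R4.Tour758 Crest.Agent.R4.Avg758 Crest.Agent.R4.Clos758
open Crest.Agent.R4.ClosL758 Crest.Agent.R4.ClosG758 Crest.Agent.R4.ClosR758
open Crest.Agent.R4.Fam464 Crest.Agent.R4P.Cnt588 Crest.Agent.R4P.Walk560 Crest.Agent.R4.Piece464
open Crest.Agent.R4P.Item758 Crest.Agent.R4P.AvgItem710
open Crest.Agent.R4P.Bld532 (NS All NodeOk Bk)
open Crest.Agent.R4P.WalkIT579 Crest.Agent.R4.DeepSt579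
open Crest.Agent.R4P.StopFF95 (NF)
open Crest.Agent.R4P

variable {Λ κ : Type*} [Fintype Λ] [DecidableEq Λ] [Fintype κ] [DecidableEq κ]

/-- number of dyadic scales of a column -/
noncomputable def nn (p : ℕ) : ℕ := ⌊1/4 * Real.log p / Real.log 2⌋₊

/-- the scale bound -/
lemma two_nn {p : ℕ} (hp : 2 ^ 40 ≤ p) : 2 * (1 / (2 : ℝ) ^ nn p) ≤ (p : ℝ) ^ (-(1 / 5) : ℝ) := by
  have hp0 : (0 : ℝ) < p := by
    have : 0 < p := lt_of_lt_of_le (by norm_num) hp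
    exact_mod_cast this
  have hl2 : 0 < Real.log 2 := Real.log_pos (by norm_num)
  have h1 : 1 / 4 * Real.log p / Real.log 2 < nn p + 1 := Nat.lt_floor_add_one _
  rw [div_lt_iff₀ hl2] at h1
  have h2 : (p : ℝ) ^ (1 / 4 : ℝ) ≤ 2 * 2 ^ nn p := by
    have h3 : (2 : ℝ) * 2 ^ nn p = Real.exp ((nn p + 1) * Real.log 2) := by
      have : ((nn p : ℝ) + 1) = ((nn p + 1 : ℕ) : ℝ) := by push_cast; ring
      rw [this, Real.exp_nat_mul, Real.exp_log (by norm_num), pow_succ]; ring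
    rw [h3, Real.rpow_def_of_pos hp0]
    exact Real.exp_le_exp.2 (by linarith)
  have h4 : (4 : ℝ) ≤ (p : ℝ) ^ (1 / 20 : ℝ) := by
    have h5 : ((2 : ℝ) ^ 40) ^ (1 / 20 : ℝ) ≤ (p : ℝ) ^ (1 / 20 : ℝ) :=
      Real.rpow_le_rpow (by positivity) (by exact_mod_cast hp) (by norm_num)
    refine le_trans (le_of_eq ?_) h5
    rw [← Real.rpow_natCast, ← Real.rpow_mul (by norm_num)]
    norm_num
  have h6 : (p : ℝ) ^ (1 / 4 : ℝ) = (p : ℝ) ^ (1 / 5 : ℝ) * (p : ℝ) ^ (1 / 20 : ℝ) := by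
    rw [← Real.rpow_add hp0]; norm_num
  have h7 : 0 < (p : ℝ) ^ (1 / 5 : ℝ) := Real.rpow_pos_of_pos hp0 _
  have h8 : 2 * (p : ℝ) ^ (1 / 5 : ℝ) ≤ 2 ^ nn p := by
    rw [h6] at h2
    nlinarith
  rw [Real.rpow_neg hp0.le, ← one_div, mul_one_div, div_le_div_iff₀ (by positivity) h7]
  linarith

/-- node facts of the near misses -/
structure NB (D : Par Λ κ) (Al : Finset ℕ) (P : Bld532.Par) (W : ℕ → ℝ) (U : ℕ → Finset ℕ)
    (CL c₀ : ℝ) (p₁ : ℕ) (u : NS) (τ : IT) : Prop where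
  nq : NQ P W U u τ
  big : ∀ (p : ℕ) (Sp : Finset ℕ) (t₁ t₀ : IT), τ = .br p Sp t₁ t₀ → p₁ ≤ p
  lg : ∀ (p : ℕ) (Sp : Finset ℕ) (t₁ t₀ : IT), τ = .br p Sp t₁ t₀ → ∀ q ∈ Al, q ∈ τ.items →
    1 ≤ CL * Real.log p * tq (q / u.A)
  mean : ∀ j, D.it j ∈ Al → D.it j ∈ τ.items →
    c₀ * tq (D.it j / (u.A * pp τ (D.it j))) ≤ mnw (D.it j / (u.A * pp τ (D.it j))) (D.om j)
  ph : ∀ q ∈ Al, q ∈ τ.items → tq (q / u.A) ≤ 2 * (prf τ q * tq (q / (u.A * pp τ q)))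
  ms : ∀ q ∈ Al, q ∈ τ.items → (u.B : ℝ) * tq (q / u.A) ≤ 2 * (u.c * tq q)

variable {D : Par Λ κ} {Al : Finset ℕ} {P : Bld532.Par} {W : ℕ → ℝ} {U : ℕ → Finset ℕ}
  {CL c₀ : ℝ} {p₁ : ℕ}

/-- item facts of a side which is a tie -/
lemma NB.nf {u : NS} {p : ℕ} {Sp : Finset ℕ} {t₁ t₀ : IT}
    (h : NB D Al P W U CL c₀ p₁ u (.br p Sp t₁ t₀)) {A : Finset Λ} (hA : IL D.it A) :
    NF D Al CL c₀ p u (.br p Sp t₁ t₀) A where
  il := hA
  lg := h.lg p Sp t₁ t₀ rfl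
  mean := h.mean
  ph := h.ph
  ms := h.ms

end Crest.Agent.R4P.GFinC927
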