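import Crest.Agent.R4P.OSWS245

/-!
R4 powers pass (S0004), helper16 (after helper927): one-sided columns, the sum with exponent `11/12`.

`OF` : 245's invariant `OI` and, for the SETTLED one-sided columns (`> p`),
`∑ l^(-11/12) ≤ (2/3) n^(-1/4) + mS n^(1/12)` (`n` = upper end of the gap);
`OF.next`, `OF.start`; `OF.le_one` : both sums over all one-sided columns are `≤ 1` for `p ≥ 4096`;
`sum_le_third` : `∑_{O \ {p}} 1/l ≤ p^(-1/3)`, `∑_O 1/l ≤ 2 p^(-1/3)`.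
-/

set_option autoImplicit false
set_option linter.unusedSectionVars false
set_option linter.unusedVariables false

namespace Crest.Agent.R4P.OF927

open Crest.Agent.R4.Tour104 Crest.Agent.R4.Tour758 Crest.Agent.R4.Avg758 Crest.Agent.R4.Clos758
open Crest.Agent.R4.ClosL758 Crest.Agent.R4.ClosG758 Crest.Agent.R4.ClosR758
open Crest.Agent.R4P.ClosR442 Crest.Agent.R4P.Walk560 Crest.Agent.R4P.Res927
open Crest.Agent.R4P.OSWS245
open Crest.Agent.R4

/-- twelfth root -/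
noncomputable def rt (n : ℕ) : ℝ := (n : ℝ) ^ (1 / 12 : ℝ)

lemma rt_pos {n : ℕ} (h : 0 < n) : 0 < rt n := Real.rpow_pos_of_pos (by exact_mod_cast h) _

lemma rt_mono {m n : ℕ} (h : m ≤ n) : rt m ≤ rt n :=
  Real.rpow_le_rpow (Nat.cast_nonneg _) (by exact_mod_cast h) (by norm_num)

lemma rt_pow (n k : ℕ) : rt n ^ k = (n : ℝ) ^ ((k : ℝ) / 12) := by
  unfold rt
  rw [← Real.rpow_natCast, ← Real.rpow_mul (Nat.cast_nonneg _)]
  congr 1
  ring

lemma rt12 (n : ℕ) : rt n ^ 12 = n := by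
  rw [rt_pow]
  norm_num

lemma rt11 {n : ℕ} (h : 0 < n) : (n : ℝ) ^ (-(11 / 12) : ℝ) = 1 / (n : ℝ) * rt n := by
  have h0 : (0 : ℝ) < n := by exact_mod_cast h
  unfold rt
  rw [one_div, ← Real.rpow_neg_one, ← Real.rpow_add h0]
  norm_num

lemma rt4 {n : ℕ} (h : 0 < n) : (n : ℝ) ^ (-(1 / 3) : ℝ) = 1 / rt n ^ 4 := by
  rw [rt_pow, Real.rpow_neg (Nat.cast_nonneg _), one_div]
  norm_num

lemma one_le_rt {n : ℕ} (h : 0 < n) : 1 ≤ rt n := by
  have h6 : rt 1 ≤ rt n := rt_mono h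
  have h7 : rt 1 = 1 := by unfold rt; simp
  rwa [h7] at h6

/-- the elementary inequality -/
lemma elem {a b m : ℝ} (hb : 0 < b) (hab : b ≤ a) (hm0 : 0 ≤ m) (hm : m ≤ 2 / a ^ 4) :
    2 / 3 / a ^ 3 + m * a ≤ 2 / 3 / b ^ 3 + m * b := by
  have ha : 0 < a := hb.trans_le hab
  have h1 : m * (a - b) ≤ 2 / a ^ 4 * (a - b) := mul_le_mul_of_nonneg_right hm (by linarith)
  have h2 : 2 / a ^ 4 * (a - b) ≤ 2 / 3 / b ^ 3 - 2 / 3 / a ^ 3 := by
    have e1 : 2 / 3 / b ^ 3 - 2 / 3 / a ^ 3 = (2 / 3) * (a * (a ^ 3 - b ^ 3)) / (a ^ 4 * b ^ 3) := by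
      field_simp
    have e2 : 2 / a ^ 4 * (a - b) = 2 * (a - b) * b ^ 3 / (a ^ 4 * b ^ 3) := by
      field_simp
    rw [e1, e2]
    refine div_le_div_of_nonneg_right ?_ (by positivity)
    have h3 : b ^ 3 ≤ a * (a ^ 2 + a * b + b ^ 2) / 3 := by
      have : b ^ 3 = b * b ^ 2 := by ring
      have k1 : b * b ^ 2 ≤ a * b ^ 2 := mul_le_mul_of_nonneg_right hab (by positivity)
      have k2 : b ^ 2 ≤ a ^ 2 := by nlinarith
      have k3 : b ^ 2 ≤ a * b := by nlinarith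
      nlinarith
    have h4 : 0 ≤ a - b := by linarith
    have e3 : a * (a ^ 3 - b ^ 3) = (a - b) * (a * (a ^ 2 + a * b + b ^ 2)) := by ring
    rw [e3]
    nlinarith [mul_le_mul_of_nonneg_left h3 h4]
  linarith

variable {Λ κ : Type*} [Fintype Λ] [DecidableEq Λ] [Fintype κ] [DecidableEq κ] [WRel κ]
  {stp : Stp Λ κ} {dv : DT Λ κ → Λ → Prop} {p0 : ℕ}

/-- the sum over the settled one-sided columns -/
noncomputable def fS (s : St Λ κ) : ℝ := ∑ q ∈ sO s ∪ sO' s, (q : ℝ) ^ (-(11 / 12) : ℝ)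

lemma fS_nonneg (s : St Λ κ) : 0 ≤ fS s :=
  Finset.sum_nonneg fun q _ => Real.rpow_nonneg (Nat.cast_nonneg _) _

/-- the settled columns along a step -/
lemma sOO_step {s q : St Λ κ} (h : OGe s) (hs : OStep s q) :
    (sO q ∪ sO' q = sO s ∪ sO' s ∨ sO q ∪ sO' q = insert s.p (sO s ∪ sO' s)) ∧
      s.p ∉ sO s ∪ sO' s := by
  obtain ⟨a1, a2, a3⟩ := sO_step h hs
  obtain ⟨b1, b2, b3⟩ := sO'_step h hs
  refine ⟨?_, by rw [Finset.mem_union, not_or]; exact ⟨a3, b3⟩⟩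
  rcases a1 with h | h <;> rcases b1 with h' | h' <;> rw [h, h']
  · exact Or.inl rfl
  · exact Or.inr (Finset.union_insert _ _ _)
  · exact Or.inr (Finset.insert_union _ _ _)
  · refine Or.inr ?_
    rw [Finset.insert_union, Finset.union_insert, Finset.insert_idem]

/-- invariant of the one-sided columns -/
structure OF (p0 : ℕ) (x : XSt Λ κ) : Prop where
  oi : OI p0 x
  m : mS x.s ≤ 2 / rt x.n ^ 4
  f : fS x.s ≤ 2 / 3 / rt x.n ^ 3 + mS x.s * rt x.n

lemma steps_n {x : XSt Λ κ} {e : XStep Λ κ} (he : e ∈ steps stp dv x) :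
    e.y.n = max x.s.p (e.y.s.p + 1) := by
  have h0 := (mem_steps.1 he).1
  classical
  by_cases h1 : x.s.t.isLeaf ∨ x.s.t'.isLeaf
  · simp [steps0, h1] at h0
  by_cases h2 : stp x.s
  · simp [steps0, h1, h2] at h0
  by_cases hL : x.s.isPL
  · obtain ⟨w, r, t₁, t₀, v, B, G, hv, -, h⟩ := St.isPL_cases hL
    have e2 : steps0 stp dv x = preL dv x := by simp [steps0, h1, h2, hL]
    rw [e2] at h0
    simp only [preL, hv] at h0
    split_ifs at h0 <;> simp only [List.mem_cons, List.not_mem_nil, or_false] at h0 <;>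
    rcases h0 with rfl | rfl <;> rfl
  by_cases hR : x.s.isPR
  · obtain ⟨w, r, t₁, t₀, v, B, G, hv, -, h⟩ := St.isPR_cases hR
    have e2 : steps0 stp dv x = preR dv x := by simp [steps0, h1, h2, hL, hR]
    rw [e2] at h0
    simp only [preR, hv] at h0
    split_ifs at h0 <;> simp only [List.mem_cons, List.not_mem_nil, or_false] at h0 <;>
    rcases h0 with rfl | rfl <;> rfl
  rcases hv : vw x.s.p x.s.t with ⟨w, r, t₁, t₀, v, B₁, G⟩ | ⟨r, t₁, t₀⟩ | ⟨Sp, u⟩ <;>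
  rcases hv' : vw x.s.p x.s.t' with ⟨w', r', t₁', t₀', v', B', G'⟩ | ⟨r', t₁', t₀'⟩ | ⟨Sp', u'⟩ <;>
  simp only [steps0, h1, h2, hL, hR, hv, hv', if_false, oneA, oneB] at h0 <;>
  (try split_ifs at h0) <;> simp only [List.mem_cons, List.not_mem_nil, or_false] at h0 <;>
  rcases h0 with rfl | rfl | rfl | rfl <;> rfl

lemma OF.next (hp0 : 1 ≤ p0) (hst : ∀ s : St Λ κ, ¬ stp s → ¬ stpN s) {x : XSt Λ κ} (hX : XI x)
    (h : OF p0 x) : ∀ e ∈ steps stp dv x, OF p0 e.y := by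
  intro e he
  obtain ⟨h1, h2⟩ := steps_act he
  have hpp := h.oi.p_ge h1
  have hp := hX.n
  have hs := steps_O hX e he
  have hpos : 0 < x.s.p := by omega
  have hb := rt_pos hpos
  have h3 := h.oi.mS_le (hst _ h2)
  rw [rt4 hpos] at h3
  have hm0 := mS_nonneg x.s
  have hn := steps_n he
  obtain ⟨hc, hnot⟩ := sOO_step h.oi.ge hs
  refine ⟨h.oi.next hp0 hst hX e he, ?_, ?_⟩
  · by_cases hpe : e.y.s.p = x.s.p
    · -- the column stays
      rw [mS_same h.oi.ge hs hpe]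
      have hn' : e.y.n = x.s.p + 1 := by rw [hn, hpe]; omega
      rw [hn']
      refine h3.trans ?_
      have hb1 := rt_pos (n := x.s.p + 1) (by omega)
      rw [div_le_div_iff₀ (by positivity) (by positivity), one_mul]
      have h5 : rt (x.s.p + 1) ≤ rt (8 * x.s.p) := rt_mono (by omega)
      have h6 : rt (x.s.p + 1) ^ 4 ≤ rt (8 * x.s.p) ^ 4 := pow_le_pow_left₀ hb1.le h5 4
      refine h6.trans (le_of_eq ?_)
      rw [rt_pow, rt_pow]
      push_cast
      rw [Real.mul_rpow (by norm_num) (Nat.cast_nonneg _)]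
      have : (8:ℝ) ^ ((4:ℝ)/12) = 2 := by
        rw [show (8:ℝ) = 2 ^ (3:ℝ) by norm_num, ← Real.rpow_mul (by norm_num)]
        norm_num
      rw [this]
    · have hlt : e.y.s.p < x.s.p := lt_of_le_of_ne hs.pe hpe
      have hn' : e.y.n = x.s.p := by rw [hn]; omega
      rw [hn']
      have h4 : 1 / (x.s.p : ℝ) ≤ 1 / rt x.s.p ^ 4 := by
        refine one_div_le_one_div_of_le (by positivity) ?_
        calc rt x.s.p ^ 4 ≤ rt x.s.p ^ 12 := pow_le_pow_right₀ (one_le_rt hpos) (by norm_num)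
          _ = x.s.p := rt12 _
      have e5 : 2 / rt x.s.p ^ 4 = 1 / rt x.s.p ^ 4 + 1 / rt x.s.p ^ 4 := by ring
      rw [e5]
      have h6 : mS e.y.s ≤ mS x.s + 1 / (x.s.p : ℝ) := by
        rcases hc with hc | hc
        · unfold mS
          rw [hc]
          have : 0 ≤ 1 / (x.s.p : ℝ) := by positivity
          linarith
        · unfold mS
          rw [hc, Finset.sum_insert hnot, add_comm]
      linarith
  · by_cases hpe : e.y.s.p = x.s.p
    · have e1 : sO e.y.s ∪ sO' e.y.s = sO x.s ∪ sO' x.s := by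
        rcases hc with hc | hc
        · exact hc
        · exfalso
          have hm : x.s.p ∈ sO e.y.s ∪ sO' e.y.s := by rw [hc]; exact Finset.mem_insert_self _ _
          rcases Finset.mem_union.1 hm with hm | hm <;>
          · have := (Finset.mem_filter.1 hm).2
            omega
      have k : mS e.y.s = mS x.s := mS_same h.oi.ge hs hpe
      have k' : fS e.y.s = fS x.s := by unfold fS; rw [e1]
      rw [k, k']
      have hn' : e.y.n = x.s.p + 1 := by rw [hn, hpe]; omega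
      rw [hn']
      exact h.f.trans (elem (rt_pos (by omega)) (rt_mono hp) hm0 h.m)
    · have hlt : e.y.s.p < x.s.p := lt_of_le_of_ne hs.pe hpe
      have hn' : e.y.n = x.s.p := by rw [hn]; omega
      rw [hn']
      have hf := h.f.trans (elem hb (rt_mono hp.le) hm0 h.m)
      rcases hc with hc | hc
      · have k : mS e.y.s = mS x.s := by unfold mS; rw [hc]
        have k' : fS e.y.s = fS x.s := by unfold fS; rw [hc]
        rw [k, k']
        exact hf
      · have k : mS e.y.s = mS x.s + 1 / (x.s.p : ℝ) := by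
          unfold mS
          rw [hc, Finset.sum_insert hnot, add_comm]
        have k' : fS e.y.s = fS x.s + 1 / (x.s.p : ℝ) * rt x.s.p := by
          unfold fS
          rw [hc, Finset.sum_insert hnot, rt11 hpos, add_comm]
        rw [k, k']
        linarith

/-- no one-sided columns -/
lemma OF.start {x : XSt Λ κ} (h : OI p0 x) (hO : x.s.O = ∅) (hO' : x.s.O' = ∅) : OF p0 x := by
  have e1 : mS x.s = 0 := by unfold mS sO sO'; rw [hO, hO']; simp
  have e2 : fS x.s = 0 := by unfold fS sO sO'; rw [hO, hO']; simp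
  have h0 : 0 ≤ rt x.n := Real.rpow_nonneg (Nat.cast_nonneg _) _
  exact ⟨h, by rw [e1]; positivity, by rw [e1, e2]; positivity⟩

lemma OF.fS_le {x : XSt Λ κ} (hX : XI x) (h : OF p0 x) (hn : 4096 ≤ x.s.p) :
    fS x.s ≤ 1 / 3 := by
  have hlt := hX.n
  have hb := rt_pos (n := x.n) (by omega)
  have h2 : (2 : ℝ) ≤ rt x.n := by
    have h1 : rt 4096 ≤ rt x.n := rt_mono (by omega)
    have h3 : rt 4096 = 2 := by
      unfold rt
      rw [show ((4096 : ℕ) : ℝ) = 2 ^ (12:ℝ) by norm_num, ← Real.rpow_mul (by norm_num)]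
      norm_num
    rwa [h3] at h1
  refine h.f.trans ?_
  have h6 : mS x.s * rt x.n ≤ 2 / rt x.n ^ 4 * rt x.n := mul_le_mul_of_nonneg_right h.m hb.le
  have h7 : 2 / rt x.n ^ 4 * rt x.n = 2 / rt x.n ^ 3 := by
    field_simp
  have h8 : 2 / 3 / rt x.n ^ 3 + 2 / rt x.n ^ 3 = (8 / 3) / rt x.n ^ 3 := by ring
  have h9 : (8 / 3 : ℝ) / rt x.n ^ 3 ≤ 1 / 3 := by
    rw [div_le_iff₀ (by positivity)]
    have : (2:ℝ) ^ 3 ≤ rt x.n ^ 3 := pow_le_pow_left₀ (by norm_num) h2 3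
    linarith
  linarith

/-- both sums are at most one -/
lemma OF.le_one {x : XSt Λ κ} (hX : XI x) (h : OF p0 x) (hn : 4096 ≤ x.s.p) :
    ∑ l ∈ x.s.O, (l : ℝ) ^ (-(11 / 12) : ℝ) ≤ 1 ∧
      ∑ l ∈ x.s.O', (l : ℝ) ^ (-(11 / 12) : ℝ) ≤ 1 := by
  have h1 := h.fS_le hX hn
  have h2 : (x.s.p : ℝ) ^ (-(11 / 12) : ℝ) ≤ 2 / 3 := by
    have h3 : (x.s.p : ℝ) ^ (-(11 / 12) : ℝ) ≤ ((4096:ℕ) : ℝ) ^ (-(11 / 12) : ℝ) :=
      Real.rpow_le_rpow_of_nonpos (by norm_num) (by exact_mod_cast hn) (by norm_num)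
    refine h3.trans ?_
    rw [show ((4096 : ℕ) : ℝ) = 2 ^ (12:ℝ) by norm_num, ← Real.rpow_mul (by norm_num)]
    norm_num
  have key : ∀ O : Finset ℕ, O.erase x.s.p ⊆ sO x.s ∪ sO' x.s →
      ∑ l ∈ O, (l : ℝ) ^ (-(11 / 12) : ℝ) ≤ 1 := by
    intro O hO
    have h5 : O ⊆ insert x.s.p (O.erase x.s.p) := by
      intro l hl
      by_cases h : l = x.s.p
      · rw [h]; exact Finset.mem_insert_self _ _
      · exact Finset.mem_insert_of_mem (Finset.mem_erase.2 ⟨h, hl⟩)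
    refine (Finset.sum_le_sum_of_subset_of_nonneg h5
      fun q _ _ => Real.rpow_nonneg (Nat.cast_nonneg _) _).trans ?_
    rw [Finset.sum_insert (by simp)]
    have h6 : ∑ l ∈ O.erase x.s.p, (l : ℝ) ^ (-(11 / 12) : ℝ) ≤ fS x.s :=
      Finset.sum_le_sum_of_subset_of_nonneg hO fun q _ _ => Real.rpow_nonneg (Nat.cast_nonneg _) _
    linarith
  refine ⟨key _ ?_, key _ ?_⟩
  · rw [← sO_erase h.oi.ge]; exact Finset.subset_union_left
  · rw [← sO'_erase h.oi.ge]; exact Finset.subset_union_right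

/-- the stop rule at a non-stopped state: settled columns -/
lemma sum_erase_le {x : XSt Λ κ} (h : OI p0 x) (hs : ¬ stpN x.s) :
    ∑ l ∈ x.s.O.erase x.s.p, 1 / (l : ℝ) ≤ (x.s.p : ℝ) ^ (-(1 / 3) : ℝ) ∧
      ∑ l ∈ x.s.O'.erase x.s.p, 1 / (l : ℝ) ≤ (x.s.p : ℝ) ^ (-(1 / 3) : ℝ) := by
  have h1 := h.mS_le hs
  rw [← sO_erase h.ge, ← sO'_erase h.ge]
  constructor
  · exact le_trans (Finset.sum_le_sum_of_subset_of_nonneg Finset.subset_union_left
      fun q _ _ => by positivity) h1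
  · exact le_trans (Finset.sum_le_sum_of_subset_of_nonneg Finset.subset_union_right
      fun q _ _ => by positivity) h1

/-- the stop rule at a non-stopped state: all one-sided columns -/
lemma sum_le_third {x : XSt Λ κ} (h : OI p0 x) (hs : ¬ stpN x.s) (hp : 0 < x.s.p) :
    ∑ l ∈ x.s.O, 1 / (l : ℝ) ≤ 2 * (x.s.p : ℝ) ^ (-(1 / 3) : ℝ) ∧
      ∑ l ∈ x.s.O', 1 / (l : ℝ) ≤ 2 * (x.s.p : ℝ) ^ (-(1 / 3) : ℝ) := by
  obtain ⟨h1, h2⟩ := sum_erase_le h hs
  have hx1 : (1:ℝ) ≤ x.s.p := by exact_mod_cast hp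
  have h4 : 1 / (x.s.p : ℝ) ≤ (x.s.p : ℝ) ^ (-(1/3) : ℝ) := by
    rw [one_div, ← Real.rpow_neg_one]
    exact Real.rpow_le_rpow_of_exponent_le hx1 (by norm_num)
  have key : ∀ O : Finset ℕ, ∑ l ∈ O.erase x.s.p, 1 / (l : ℝ) ≤ (x.s.p : ℝ) ^ (-(1 / 3) : ℝ) →
      ∑ l ∈ O, 1 / (l : ℝ) ≤ 2 * (x.s.p : ℝ) ^ (-(1 / 3) : ℝ) := by
    intro O hO
    have h5 : O ⊆ insert x.s.p (O.erase x.s.p) := by
      intro l hl
      by_cases h : l = x.s.p
      · rw [h]; exact Finset.mem_insert_self _ _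
      · exact Finset.mem_insert_of_mem (Finset.mem_erase.2 ⟨h, hl⟩)
    refine (Finset.sum_le_sum_of_subset_of_nonneg h5 fun q _ _ => by positivity).trans ?_
    rw [Finset.sum_insert (by simp)]
    linarith
  exact ⟨key _ h1, key _ h2⟩

end Crest.Agent.R4P.OF927
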