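import Crest.Agent.R4P.OSO198

/-!
R4 (S0004) with powers, helper16: **the averaging moduli along a step of the walk**.

* `MStep s q` : `M`, `M'` are kept, multiplied by `s.p` or divided by `s.p`; at a genuine one-sided
  column the modulus of the partner is multiplied by `s.p`; `nxt_MStep`.
* `sq_keep` : squares of other primes are kept.
-/

set_option autoImplicit false
set_option linter.unusedSectionVars false
set_option linter.unusedVariables false
set_option linter.unusedSimpArgs false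

namespace Crest.Agent.R4P.OSWS16

open Crest.Agent.R4.Tour104 Crest.Agent.R4.Tour758 Crest.Agent.R4.Avg758 Crest.Agent.R4.Clos758
open Crest.Agent.R4.ClosL758 Crest.Agent.R4.ClosG758 Crest.Agent.R4.ClosR758
open Crest.Agent.R4P.ClosR442 Crest.Agent.R4P.Walk560 Crest.Agent.R4P.OSWS245

variable {Λ κ : Type*} [Fintype Λ] [DecidableEq Λ] [DecidableEq κ] [WRel κ]

/-- what a step does to the averaging moduli -/
structure MStep (s q : St Λ κ) : Prop where
  m : q.M = s.M ∨ q.M = s.p * s.M ∨ (s.p ∣ s.M ∧ q.M = s.M / s.p)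
  m' : q.M' = s.M' ∨ q.M' = s.p * s.M' ∨ (s.p ∣ s.M' ∧ q.M' = s.M' / s.p)
  L : osL s → q.M' = s.p * s.M' ∧ q.M = s.M
  R : osR s → q.M = s.p * s.M ∧ q.M' = s.M'

/-- **the averaging moduli along a step** -/
theorem nxt0_MStep {stp : Stp Λ κ} {s : St Λ κ} :
    ∀ q ∈ nxt0 stp s, MStep s q.2 := by
  intro q hq
  unfold nxt0 at hq
  by_cases h1 : s.t.isLeaf ∨ s.t'.isLeaf
  · simp [h1] at hq
  by_cases h2 : stp s
  · simp [h1, h2] at hq
  rw [if_neg h1, if_neg h2] at hq
  by_cases hPL : s.isPL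
  · have nL : ¬ osL s := fun k => k.2.2 hPL
    have nR : ¬ osR s := fun k => k.not_PL hPL
    rw [if_pos hPL] at hq
    obtain ⟨w, r, t₁, t₀, v, B, G, hv, et, ⟨hd, e⟩ | ⟨-, -, e⟩⟩ := St.isPL_cases hPL
    · rw [e] at hq
      simp only [List.mem_cons, List.not_mem_nil, or_false] at hq
      rcases hq with rfl | rfl
      · exact ⟨Or.inr (Or.inr ⟨hd, rfl⟩), Or.inl rfl, fun k => absurd k nL, fun k => absurd k nR⟩
      · exact ⟨Or.inr (Or.inr ⟨hd, rfl⟩), Or.inl rfl, fun k => absurd k nL, fun k => absurd k nR⟩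
    · rw [e] at hq
      simp only [List.mem_cons, List.not_mem_nil, or_false] at hq
      rcases hq with rfl | rfl
      · exact ⟨Or.inl rfl, Or.inr (Or.inl rfl), fun k => absurd k nL, fun k => absurd k nR⟩
      · exact ⟨Or.inl rfl, Or.inr (Or.inl rfl), fun k => absurd k nL, fun k => absurd k nR⟩
  by_cases hPR : s.isPR
  · have nL : ¬ osL s := fun k => k.not_PR hPR
    have nR : ¬ osR s := fun k => k.2.2 hPR
    rw [if_neg hPL, if_pos hPR] at hq
    obtain ⟨w, r, t₁, t₀, v, B, G, hv, et, ⟨hd, e⟩ | ⟨-, -, e⟩⟩ := St.isPR_cases hPR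
    · rw [e] at hq
      simp only [List.mem_cons, List.not_mem_nil, or_false] at hq
      rcases hq with rfl | rfl
      · exact ⟨Or.inl rfl, Or.inr (Or.inr ⟨hd, rfl⟩), fun k => absurd k nL, fun k => absurd k nR⟩
      · exact ⟨Or.inl rfl, Or.inr (Or.inr ⟨hd, rfl⟩), fun k => absurd k nL, fun k => absurd k nR⟩
    · rw [e] at hq
      simp only [List.mem_cons, List.not_mem_nil, or_false] at hq
      rcases hq with rfl | rfl
      · exact ⟨Or.inr (Or.inl rfl), Or.inl rfl, fun k => absurd k nL, fun k => absurd k nR⟩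
      · exact ⟨Or.inr (Or.inl rfl), Or.inl rfl, fun k => absurd k nL, fun k => absurd k nR⟩
  rw [if_neg hPL, if_neg hPR] at hq
  rcases hv : vw s.p s.t with ⟨w, r, t₁, t₀, v, B, G⟩ | ⟨r, t₁, t₀⟩ | ⟨Sp, u⟩ <;>
  rcases hv' : vw s.p s.t' with ⟨w', r', t₁', t₀', v', B', G'⟩ | ⟨r', t₁', t₀'⟩ | ⟨Sp', u'⟩ <;>
  simp only [hv, hv'] at hq
  · -- br br
    have nL : ¬ osL s := by rintro ⟨-, ⟨_, _, k⟩, -⟩; rw [hv'] at k; exact absurd k (by simp)
    have nR : ¬ osR s := by rintro ⟨-, ⟨_, _, k⟩, -⟩; rw [hv] at k; exact absurd k (by simp)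
    simp only [List.mem_cons, List.not_mem_nil, or_false] at hq
    rcases hq with rfl | rfl | rfl | rfl <;>
    exact ⟨Or.inl rfl, Or.inl rfl, fun k => absurd k nL, fun k => absurd k nR⟩
  · -- br add
    have nL : ¬ osL s := by rintro ⟨-, ⟨_, _, k⟩, -⟩; rw [hv'] at k; exact absurd k (by simp)
    have nR : ¬ osR s := by rintro ⟨-, ⟨_, _, k⟩, -⟩; rw [hv] at k; exact absurd k (by simp)
    simp only [List.mem_cons, List.not_mem_nil, or_false] at hq
    subst hq
    exact ⟨Or.inl rfl, Or.inl rfl, fun k => absurd k nL, fun k => absurd k nR⟩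
  · -- br up
    have nR : ¬ osR s := by rintro ⟨-, ⟨_, _, k⟩, -⟩; rw [hv] at k; exact absurd k (by simp)
    simp only [List.mem_cons, List.not_mem_nil, or_false] at hq
    rcases hq with rfl | rfl <;>
    exact ⟨Or.inl rfl, Or.inr (Or.inl rfl), fun _ => ⟨rfl, rfl⟩, fun k => absurd k nR⟩
  · -- add br
    have nL : ¬ osL s := by
      rintro ⟨⟨_, _, _, _, _, _, _, k⟩, -, -⟩; rw [hv] at k; exact absurd k (by simp)
    have nR : ¬ osR s := by rintro ⟨-, ⟨_, _, k⟩, -⟩; rw [hv] at k; exact absurd k (by simp)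
    simp only [List.mem_cons, List.not_mem_nil, or_false] at hq
    subst hq
    exact ⟨Or.inl rfl, Or.inl rfl, fun k => absurd k nL, fun k => absurd k nR⟩
  · -- add add
    have nL : ¬ osL s := by rintro ⟨-, ⟨_, _, k⟩, -⟩; rw [hv'] at k; exact absurd k (by simp)
    have nR : ¬ osR s := by rintro ⟨-, ⟨_, _, k⟩, -⟩; rw [hv] at k; exact absurd k (by simp)
    split_ifs at hq with hj hl <;> simp only [List.mem_cons, List.not_mem_nil, or_false] at hq
    · rcases hq with rfl | rfl <;>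
      exact ⟨Or.inl rfl, Or.inl rfl, fun k => absurd k nL, fun k => absurd k nR⟩
    · subst hq
      exact ⟨Or.inl rfl, Or.inl rfl, fun k => absurd k nL, fun k => absurd k nR⟩
    · subst hq
      exact ⟨Or.inl rfl, Or.inl rfl, fun k => absurd k nL, fun k => absurd k nR⟩
  · -- add up
    have nL : ¬ osL s := by
      rintro ⟨⟨_, _, _, _, _, _, _, k⟩, -, -⟩; rw [hv] at k; exact absurd k (by simp)
    have nR : ¬ osR s := by
      rintro ⟨⟨_, _, _, _, _, _, _, k⟩, -, -⟩; rw [hv'] at k; exact absurd k (by simp)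
    split_ifs at hq with hj <;> simp only [List.mem_cons, List.not_mem_nil, or_false] at hq
    · rcases hq with rfl | rfl <;>
      exact ⟨Or.inl rfl, Or.inl rfl, fun k => absurd k nL, fun k => absurd k nR⟩
    · subst hq
      exact ⟨Or.inl rfl, Or.inl rfl, fun k => absurd k nL, fun k => absurd k nR⟩
  · -- up br
    have nL : ¬ osL s := by
      rintro ⟨⟨_, _, _, _, _, _, _, k⟩, -, -⟩; rw [hv] at k; exact absurd k (by simp)
    simp only [List.mem_cons, List.not_mem_nil, or_false] at hq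
    rcases hq with rfl | rfl <;>
    exact ⟨Or.inr (Or.inl rfl), Or.inl rfl, fun k => absurd k nL, fun _ => ⟨rfl, rfl⟩⟩
  · -- up add
    have nL : ¬ osL s := by
      rintro ⟨⟨_, _, _, _, _, _, _, k⟩, -, -⟩; rw [hv] at k; exact absurd k (by simp)
    have nR : ¬ osR s := by
      rintro ⟨⟨_, _, _, _, _, _, _, k⟩, -, -⟩; rw [hv'] at k; exact absurd k (by simp)
    split_ifs at hq with hj <;> simp only [List.mem_cons, List.not_mem_nil, or_false] at hq
    · rcases hq with rfl | rfl <;>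
      exact ⟨Or.inl rfl, Or.inl rfl, fun k => absurd k nL, fun k => absurd k nR⟩
    · subst hq
      exact ⟨Or.inl rfl, Or.inl rfl, fun k => absurd k nL, fun k => absurd k nR⟩
  · -- up up
    have nL : ¬ osL s := by
      rintro ⟨⟨_, _, _, _, _, _, _, k⟩, -, -⟩; rw [hv] at k; exact absurd k (by simp)
    have nR : ¬ osR s := by
      rintro ⟨⟨_, _, _, _, _, _, _, k⟩, -, -⟩; rw [hv'] at k; exact absurd k (by simp)
    simp only [List.mem_cons, List.not_mem_nil, or_false] at hq
    subst hq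
    exact ⟨Or.inl rfl, Or.inl rfl, fun k => absurd k nL, fun k => absurd k nR⟩

theorem nxt_MStep {stp : Stp Λ κ} {s : St Λ κ} : ∀ q ∈ nxt stp s, MStep s q.2 :=
  fun q hq => nxt0_MStep q (mem_nxt.1 hq).1

/-- a square of an earlier prime stays in the modulus -/
lemma sq_keep {p P M M₁ : ℕ} (hp : p.Prime) (hP : P.Prime) (hne : P ≠ p)
    (h : M₁ = M ∨ M₁ = p * M ∨ (p ∣ M ∧ M₁ = M / p)) (hd : P ^ 2 ∣ M) : P ^ 2 ∣ M₁ := by
  rcases h with rfl | rfl | ⟨h1, rfl⟩
  · exact hd
  · exact hd.mul_left p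
  · have e : p * (M / p) = M := Nat.mul_div_cancel' h1
    rw [← e] at hd
    exact (Nat.Coprime.pow_left 2 ((Nat.coprime_primes hP hp).2 hne)).dvd_of_dvd_mul_left hd

end Crest.Agent.R4P.OSWS16
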