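import Crest.Agent.R4P.OSWS245
import Crest.Agent.R4P.OSM_16

/-!
R4 (S0004) with powers, helper16: **walk sums of the one-sided columns**, final form for chains.

* `EBudR`, `EBudL` : budgets in expectation; `ebud_total`.
* `aFR`, `aFL` : the own side has missed the tie `p` of the column in the same chain (`x.s.p ∈ x.u'`):
  cost `ε j p`; `aHL`, `aHR` : the items of the other side which miss the tie `p` then: cost `ρ p`
  (budget `δ j p ≥ ρ p / p`, in expectation).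
* `aDR2`, `aDL2` : costs paid once, also inside a chain.
* `costL2`, `costR2`, `WS_eOS2`.
-/

set_option autoImplicit false
set_option linter.unusedSectionVars false
set_option linter.unusedVariables false
set_option linter.unusedSimpArgs false

namespace Crest.Agent.R4P.OSWS16

open Crest.Agent.R4.Tour104 Crest.Agent.R4.Tour758 Crest.Agent.R4.Avg758 Crest.Agent.R4.Clos758
open Crest.Agent.R4.ClosL758 Crest.Agent.R4.ClosG758 Crest.Agent.R4.ClosR758
open Crest.Agent.R4P.ClosR442 Crest.Agent.R4P.Walk560 Crest.Agent.R4P.Res927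
open Crest.Agent.R4P.OSWS245

variable {Λ κ : Type*} [Fintype Λ] [DecidableEq Λ] [Fintype κ] [DecidableEq κ] [WRel κ]
  {stp : Stp Λ κ} {dv : DT Λ κ → Λ → Prop} {du : ℕ → Λ → Prop} {m : DT Λ κ → Λ → ℝ} {p0 : ℕ}

/-! ### the moduli -/

lemma steps_M {x : XSt Λ κ} : ∀ e ∈ steps stp dv x, MStep x.s e.y.s := by
  intro e he
  have : (e.a * e.a', e.y.s) ∈ nxt stp x.s := by
    rw [← steps_proj stp dv x]
    exact List.mem_map.2 ⟨e, he, rfl⟩
  exact nxt_MStep _ this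

/-! ### budgets in expectation -/

/-- a budget in expectation for costs of the right items -/
def EBudR (stp : Stp Λ κ) (p0 : ℕ) (dv : DT Λ κ → Λ → Prop) (m : DT Λ κ → Λ → ℝ)
    (I : XSt Λ κ → Prop) (a B : Λ → XSt Λ κ → ℝ) : Prop :=
  ∀ j x, I x → IX p0 dv m x → 0 ≤ a j x ∧
    a j x + ((nxJ stp dv j x).map fun q => q.1 * B j q.2).sum ≤ B j x

/-- a budget in expectation for costs of the left items -/
def EBudL (stp : Stp Λ κ) (p0 : ℕ) (dv : DT Λ κ → Λ → Prop) (m : DT Λ κ → Λ → ℝ)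
    (I : XSt Λ κ → Prop) (a B : Λ → XSt Λ κ → ℝ) : Prop :=
  ∀ j x, I x → IX p0 dv m x → 0 ≤ a j x ∧
    a j x + ((nxI stp dv j x).map fun q => q.1 * B j q.2).sum ≤ B j x

section bud
variable {I : XSt Λ κ → Prop} {a B a' B' : Λ → XSt Λ κ → ℝ}

lemma map_add_sum {α : Type*} (l : List (ℝ × α)) (f g : α → ℝ) :
    (l.map fun q => q.1 * (f q.2 + g q.2)).sum =
      (l.map fun q => q.1 * f q.2).sum + (l.map fun q => q.1 * g q.2).sum := by
  induction l with
  | nil => simp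
  | cons a l ih => simp only [List.map_cons, List.sum_cons, ih]; ring

lemma EBudR.add (h : EBudR stp p0 dv m I a B) (h' : EBudR stp p0 dv m I a' B') :
    EBudR stp p0 dv m I (fun j x => a j x + a' j x) (fun j x => B j x + B' j x) := by
  intro j x hx hX
  obtain ⟨h1, h2⟩ := h j x hx hX
  obtain ⟨k1, k2⟩ := h' j x hx hX
  refine ⟨by linarith, ?_⟩
  have := map_add_sum (nxJ stp dv j x) (B j) (B' j)
  linarith

lemma EBudL.add (h : EBudL stp p0 dv m I a B) (h' : EBudL stp p0 dv m I a' B') :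
    EBudL stp p0 dv m I (fun j x => a j x + a' j x) (fun j x => B j x + B' j x) := by
  intro j x hx hX
  obtain ⟨h1, h2⟩ := h j x hx hX
  obtain ⟨k1, k2⟩ := h' j x hx hX
  refine ⟨by linarith, ?_⟩
  have := map_add_sum (nxI stp dv j x) (B j) (B' j)
  linarith

/-- pointwise budgets are budgets in expectation -/
lemma budR_exp (h : BudR stp p0 dv m I a B) : EBudR stp p0 dv m I a B := by
  intro j x hx hX
  obtain ⟨k1, k2, k3⟩ := h j x hx hX
  refine ⟨k1, ?_⟩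
  have hw : ((nxJ stp dv j x).map fun q => q.1).sum ≤ 1 :=
    row_le_right hX.tc.wL hX.tc.wR j
  have hnn : ∀ q ∈ nxJ stp dv j x, 0 ≤ q.1 := by
    intro q hq
    obtain ⟨e, he, -, rfl⟩ := mem_nxJ hq
    exact (steps_w hX.tc.wL hX.tc.wR e he).1.le
  have e1 : ((nxJ stp dv j x).map fun q => q.1 * B j q.2).sum ≤
      ((nxJ stp dv j x).map fun q => q.1 * (B j x - a j x)).sum := by
    refine List.sum_le_sum fun q hq => ?_
    refine mul_le_mul_of_nonneg_left ?_ (hnn q hq)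
    obtain ⟨e, he, hf, rfl⟩ := mem_nxJ hq
    have := k3 e he hf
    linarith
  have e4 : ((nxJ stp dv j x).map fun q => q.1 * (B j x - a j x)).sum =
      ((nxJ stp dv j x).map fun q => q.1).sum * (B j x - a j x) := List.sum_map_mul_right _ _ _
  rw [e4] at e1
  have e5 := mul_le_mul_of_nonneg_right hw (by linarith : 0 ≤ B j x - a j x)
  linarith

/-- pointwise budgets are budgets in expectation -/
lemma budL_exp (h : BudL stp p0 dv m I a B) : EBudL stp p0 dv m I a B := by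
  intro j x hx hX
  obtain ⟨k1, k2, k3⟩ := h j x hx hX
  refine ⟨k1, ?_⟩
  have hw : ((nxI stp dv j x).map fun q => q.1).sum ≤ 1 :=
    row_le_left hX.tc.wL hX.tc.wR j
  have hnn : ∀ q ∈ nxI stp dv j x, 0 ≤ q.1 := by
    intro q hq
    obtain ⟨e, he, -, rfl⟩ := mem_nxI hq
    exact (steps_w hX.tc.wL hX.tc.wR e he).2.le
  have e1 : ((nxI stp dv j x).map fun q => q.1 * B j q.2).sum ≤
      ((nxI stp dv j x).map fun q => q.1 * (B j x - a j x)).sum := by
    refine List.sum_le_sum fun q hq => ?_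
    refine mul_le_mul_of_nonneg_left ?_ (hnn q hq)
    obtain ⟨e, he, hf, rfl⟩ := mem_nxI hq
    have := k3 e he hf
    linarith
  have e4 : ((nxI stp dv j x).map fun q => q.1 * (B j x - a j x)).sum =
      ((nxI stp dv j x).map fun q => q.1).sum * (B j x - a j x) := List.sum_map_mul_right _ _ _
  rw [e4] at e1
  have e5 := mul_le_mul_of_nonneg_right hw (by linarith : 0 ≤ B j x - a j x)
  linarith

/-- the walk sum of costs of the right items -/
theorem ebudR_W (hp0 : 1 ≤ p0) (hst : ∀ s : St Λ κ, ¬ stp s → ¬ stpN s)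
    (hI : ∀ x, I x → IX p0 dv m x → ∀ e ∈ steps stp dv x, I e.y)
    (h : EBudR stp p0 dv m I a B)
    {loc : XSt Λ κ → ℝ}
    (hl : ∀ x, I x → IX p0 dv m x → loc x ≤ ∑ j ∈ x.s.A', m x.s.t' j * a j x) :
    ∀ x, I x → IX p0 dv m x → W (nxH stp dv) XSt.rank loc x ≤ ∑ j ∈ x.s.A', m x.s.t' j * B j x := by
  classical
  intro x hx hX
  have hIn : ∀ y : XSt Λ κ, (I y ∧ IX p0 dv m y) → ∀ e ∈ steps stp dv y, I e.y ∧ IX p0 dv m e.y :=
    fun y hy e he => ⟨hI y hy.1 hy.2 e he, hy.2.next hp0 hst e he⟩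
  have h1 := res_right (stp := stp) (dv := dv) (m := m) (I := fun y => I y ∧ IX p0 dv m y) hIn
    (loc := loc) (c := fun j y => max 0 (a j y)) (fun j y => le_max_left _ _)
    (fun y hy hty => (hl y hy.1 hy.2).trans (Finset.sum_le_sum fun j _ =>
      mul_le_mul_of_nonneg_left (le_max_right _ _) (hty.R.self.nn j))) x ⟨hx, hX⟩ hX.tc
  refine h1.trans (Finset.sum_le_sum fun j _ => ?_)
  refine mul_le_mul_of_nonneg_left ?_ (hX.tc.R.self.nn j)
  refine W_le_super (nxJ_rank stp dv j) (Inv := fun y => I y ∧ IX p0 dv m y)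
      (fun y hy q hq => ?_) (Φ := B j) (fun y hy => ?_) x ⟨hx, hX⟩
  · obtain ⟨e, he, -, rfl⟩ := mem_nxJ hq
    exact ⟨hIn y hy e he, (steps_w hy.2.tc.wL hy.2.tc.wR e he).1.le⟩
  · obtain ⟨k1, k2⟩ := h j y hy.1 hy.2
    show max 0 (a j y) + _ ≤ _
    rw [max_eq_right k1]
    exact k2

/-- the walk sum of costs of the left items -/
theorem ebudL_W (hp0 : 1 ≤ p0) (hst : ∀ s : St Λ κ, ¬ stp s → ¬ stpN s)
    (hI : ∀ x, I x → IX p0 dv m x → ∀ e ∈ steps stp dv x, I e.y)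
    (h : EBudL stp p0 dv m I a B)
    {loc : XSt Λ κ → ℝ}
    (hl : ∀ x, I x → IX p0 dv m x → loc x ≤ ∑ j ∈ x.s.A, m x.s.t j * a j x) :
    ∀ x, I x → IX p0 dv m x → W (nxH stp dv) XSt.rank loc x ≤ ∑ j ∈ x.s.A, m x.s.t j * B j x := by
  classical
  intro x hx hX
  have hIn : ∀ y : XSt Λ κ, (I y ∧ IX p0 dv m y) → ∀ e ∈ steps stp dv y, I e.y ∧ IX p0 dv m e.y :=
    fun y hy e he => ⟨hI y hy.1 hy.2 e he, hy.2.next hp0 hst e he⟩
  have h1 := res_left (stp := stp) (dv := dv) (m := m) (I := fun y => I y ∧ IX p0 dv m y) hIn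
    (loc := loc) (c := fun j y => max 0 (a j y)) (fun j y => le_max_left _ _)
    (fun y hy hty => (hl y hy.1 hy.2).trans (Finset.sum_le_sum fun j _ =>
      mul_le_mul_of_nonneg_left (le_max_right _ _) (hty.L.self.nn j))) x ⟨hx, hX⟩ hX.tc
  refine h1.trans (Finset.sum_le_sum fun j _ => ?_)
  refine mul_le_mul_of_nonneg_left ?_ (hX.tc.L.self.nn j)
  refine W_le_super (nxI_rank stp dv j) (Inv := fun y => I y ∧ IX p0 dv m y)
      (fun y hy q hq => ?_) (Φ := B j) (fun y hy => ?_) x ⟨hx, hX⟩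
  · obtain ⟨e, he, -, rfl⟩ := mem_nxI hq
    exact ⟨hIn y hy e he, (steps_w hy.2.tc.wL hy.2.tc.wR e he).2.le⟩
  · obtain ⟨k1, k2⟩ := h j y hy.1 hy.2
    show max 0 (a j y) + _ ≤ _
    rw [max_eq_right k1]
    exact k2

/-- **both sides together** -/
theorem ebud_total (hp0 : 1 ≤ p0) (hst : ∀ s : St Λ κ, ¬ stp s → ¬ stpN s)
    (hI : ∀ x, I x → IX p0 dv m x → ∀ e ∈ steps stp dv x, I e.y)
    (hL : EBudL stp p0 dv m I a B)
    (hR : EBudR stp p0 dv m I a' B') {loc : St Λ κ → ℝ}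
    (hl : ∀ x, I x → IX p0 dv m x → loc x.s ≤ ∑ j ∈ x.s.A, m x.s.t j * a j x +
      ∑ j ∈ x.s.A', m x.s.t' j * a' j x) {x : XSt Λ κ} (hx : I x) (hX : IX p0 dv m x) :
    WS stp loc x.s ≤ ∑ j ∈ x.s.A, m x.s.t j * B j x + ∑ j ∈ x.s.A', m x.s.t' j * B' j x := by
  rw [WS_eq_H stp dv loc x]
  have hIn : ∀ y : XSt Λ κ, (I y ∧ IX p0 dv m y) → ∀ q ∈ nxH stp dv y,
      (I q.2 ∧ IX p0 dv m q.2) ∧ 0 ≤ q.1 := by
    intro y hy q hq
    obtain ⟨e, he, rfl⟩ := List.mem_map.1 hq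
    have := steps_w hy.2.tc.wL hy.2.tc.wR e he
    exact ⟨⟨hI y hy.1 hy.2 e he, hy.2.next hp0 hst e he⟩, mul_nonneg this.1.le this.2.le⟩
  have h1 := W_mono (nxH_rank stp dv) (Inv := fun y => I y ∧ IX p0 dv m y) hIn
    (f := fun y => loc y.s) (g := fun y => ∑ j ∈ y.s.A, m y.s.t j * a j y +
      ∑ j ∈ y.s.A', m y.s.t' j * a' j y) (fun y hy => hl y hy.1 hy.2) x ⟨hx, hX⟩
  refine h1.trans ?_
  rw [W_add (nxH_rank stp dv)]
  exact add_le_add (ebudL_W hp0 hst hI hL (fun y _ _ => le_rfl) x hx hX)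
    (ebudR_W hp0 hst hI hR (fun y _ _ => le_rfl) x hx hX)

end bud

/-! ### the own side has missed the tie in the same chain -/

lemma u'_same {x : XSt Λ κ} (hX : XI x) {e : XStep Λ κ} (he : e ∈ steps stp dv x)
    (h : e.y.s.p ∈ e.y.u') : e.y.s.p = x.s.p := by
  have hs := steps_top hX he
  rcases (steps_mv he).1.R.u_sub.2 _ h with h1 | h1
  · rcases hX.nu' _ h1 with h2 | h2
    · have := hX.n; omega
    · exact h2
  · exact h1

lemma u_same {x : XSt Λ κ} (hX : XI x) {e : XStep Λ κ} (he : e ∈ steps stp dv x)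
    (h : e.y.s.p ∈ e.y.u) : e.y.s.p = x.s.p := by
  have hs := steps_top hX he
  rcases (steps_mv he).1.L.u_sub.2 _ h with h1 | h1
  · rcases hX.nu _ h1 with h2 | h2
    · have := hX.n; omega
    · exact h2
  · exact h1

open Classical in
/-- cost `ε j p` of the right items at a one-sided column of the left side, if the right side has missed
the tie `p` -/
noncomputable def aFR (ε : Λ → ℕ → ℝ) (j : Λ) (x : XSt Λ κ) : ℝ :=
  if OSL x ∧ x.s.p ∈ x.u' then ε j x.s.p else 0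

open Classical in
/-- mirror -/
noncomputable def aFL (ε : Λ → ℕ → ℝ) (j : Λ) (x : XSt Λ κ) : ℝ :=
  if OSR x ∧ x.s.p ∈ x.u then ε j x.s.p else 0

open Classical in
/-- its budget -/
noncomputable def bFR (dv : DT Λ κ → Λ → Prop) (ε : Λ → ℕ → ℝ) (j : Λ) (x : XSt Λ κ) : ℝ :=
  ∑ q ∈ mtD dv j x.s.t', ε j q + if x.s.p ∈ x.u' then ε j x.s.p else 0

open Classical in
/-- mirror -/
noncomputable def bFL (dv : DT Λ κ → Λ → Prop) (ε : Λ → ℕ → ℝ) (j : Λ) (x : XSt Λ κ) : ℝ :=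
  ∑ q ∈ mtD dv j x.s.t, ε j q + if x.s.p ∈ x.u then ε j x.s.p else 0

theorem budR_F {I : XSt Λ κ → Prop} {ε : Λ → ℕ → ℝ} (hε : ∀ j p, 0 ≤ ε j p) :
    BudR stp p0 dv m I (aFR ε) (bFR dv ε) := by
  classical
  intro j x _ hX
  have hs0 : 0 ≤ ∑ q ∈ mtD dv j x.s.t', ε j q := Finset.sum_nonneg fun q _ => hε j q
  have ha : aFR ε j x ≤ if x.s.p ∈ x.u' then ε j x.s.p else 0 := by
    unfold aFR
    by_cases h1 : x.s.p ∈ x.u'
    · rw [if_pos h1]
      by_cases h2 : OSL x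
      · rw [if_pos ⟨h2, h1⟩]
      · rw [if_neg (fun k => h2 k.1)]; exact hε _ _
    · rw [if_neg (fun k => h1 k.2), if_neg h1]
  have ha0 : 0 ≤ aFR ε j x := by
    unfold aFR; split_ifs <;> first | exact hε _ _ | exact le_rfl
  refine ⟨ha0, ?_, fun e he hf => ?_⟩
  · unfold bFR; linarith
  obtain ⟨hpp, hpn⟩ := steps_p hX.xi he
  obtain ⟨hm, -, ha'⟩ := steps_mv he
  have hlt := steps_top hX.xi he
  unfold bFR
  rcases hm.R.mt ha' hf with ⟨h1, h2⟩ | ⟨h1, h2⟩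
  · -- nothing missed in this step
    rw [h1]
    by_cases hy : e.y.s.p ∈ e.y.u'
    · have hyp := u'_same hX.xi he hy
      have hxp : x.s.p ∈ x.u' := by rw [← hyp, ← h2]; exact hy
      have hno : ¬ OSL x := fun k => by
        have := ((steps_O hX.xi e he).L k).2.2
        omega
      have e0 : aFR ε j x = 0 := by unfold aFR; rw [if_neg (fun k => hno k.1)]
      rw [if_pos hy, if_pos hxp, hyp, e0]
      linarith
    · rw [if_neg hy]
      linarith
  · -- the tie is missed in this step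
    have hmem : x.s.p ∈ mtD dv j x.s.t' := by rw [h1]; exact Finset.mem_insert_self _ _
    have htop : x.s.t'.top = x.s.p := le_antisymm (le_max_right _ _) (mtD_le_top hX.xi.cR _ hmem)
    have hnu : x.s.p ∉ x.u' := fun k => by have := hX.xi.u' _ k; omega
    have hnm : x.s.p ∉ mtD dv j e.y.s.t' := by
      intro k
      have h3 : x.s.p ≤ e.y.s.t'.top := mtD_le_top (hX.xi.next e he).cR _ k
      have h4 := (hX.xi.next e he).u' x.s.p (by rw [h2]; exact Finset.mem_insert_self _ _)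
      omega
    have e0 : aFR ε j x = 0 := by unfold aFR; rw [if_neg (fun k => hnu k.2)]
    rw [h1, Finset.sum_insert hnm, e0, if_neg hnu]
    by_cases hy : e.y.s.p ∈ e.y.u'
    · rw [if_pos hy, u'_same hX.xi he hy]
      linarith
    · rw [if_neg hy]
      have := hε j x.s.p
      linarith

theorem budL_F {I : XSt Λ κ → Prop} {ε : Λ → ℕ → ℝ} (hε : ∀ j p, 0 ≤ ε j p) :
    BudL stp p0 dv m I (aFL ε) (bFL dv ε) := by
  classical
  intro j x _ hX
  have hs0 : 0 ≤ ∑ q ∈ mtD dv j x.s.t, ε j q := Finset.sum_nonneg fun q _ => hε j q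
  have ha : aFL ε j x ≤ if x.s.p ∈ x.u then ε j x.s.p else 0 := by
    unfold aFL
    by_cases h1 : x.s.p ∈ x.u
    · rw [if_pos h1]
      by_cases h2 : OSR x
      · rw [if_pos ⟨h2, h1⟩]
      · rw [if_neg (fun k => h2 k.1)]; exact hε _ _
    · rw [if_neg (fun k => h1 k.2), if_neg h1]
  have ha0 : 0 ≤ aFL ε j x := by
    unfold aFL; split_ifs <;> first | exact hε _ _ | exact le_rfl
  refine ⟨ha0, ?_, fun e he hf => ?_⟩
  · unfold bFL; linarith
  obtain ⟨hpp, hpn⟩ := steps_p hX.xi he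
  obtain ⟨hm, ha', -⟩ := steps_mv he
  have hlt := steps_top hX.xi he
  unfold bFL
  rcases hm.L.mt ha' hf with ⟨h1, h2⟩ | ⟨h1, h2⟩
  · rw [h1]
    by_cases hy : e.y.s.p ∈ e.y.u
    · have hyp := u_same hX.xi he hy
      have hxp : x.s.p ∈ x.u := by rw [← hyp, ← h2]; exact hy
      have hno : ¬ OSR x := fun k => by
        have := ((steps_O hX.xi e he).R k).2.2
        omega
      have e0 : aFL ε j x = 0 := by unfold aFL; rw [if_neg (fun k => hno k.1)]
      rw [if_pos hy, if_pos hxp, hyp, e0]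
      linarith
    · rw [if_neg hy]
      linarith
  · have hmem : x.s.p ∈ mtD dv j x.s.t := by rw [h1]; exact Finset.mem_insert_self _ _
    have htop : x.s.t.top = x.s.p := le_antisymm (le_max_left _ _) (mtD_le_top hX.xi.cL _ hmem)
    have hnu : x.s.p ∉ x.u := fun k => by have := hX.xi.u _ k; omega
    have hnm : x.s.p ∉ mtD dv j e.y.s.t := by
      intro k
      have h3 : x.s.p ≤ e.y.s.t.top := mtD_le_top (hX.xi.next e he).cL _ k
      have h4 := (hX.xi.next e he).u x.s.p (by rw [h2]; exact Finset.mem_insert_self _ _)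
      omega
    have e0 : aFL ε j x = 0 := by unfold aFL; rw [if_neg (fun k => hnu k.2)]
    rw [h1, Finset.sum_insert hnm, e0, if_neg hnu]
    by_cases hy : e.y.s.p ∈ e.y.u
    · rw [if_pos hy, u_same hX.xi he hy]
      linarith
    · rw [if_neg hy]
      have := hε j x.s.p
      linarith

/-! ### the other side has missed the tie in the same chain -/

open Classical in
/-- cost `ρ p` of the left items which miss the tie `p` at a one-sided column of the left side, if the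
right side has missed the tie `p` in the same chain -/
noncomputable def aHL (dv : DT Λ κ → Λ → Prop) (ρ : ℕ → ℝ) (j : Λ) (x : XSt Λ κ) : ℝ :=
  if (OSL x ∧ ¬ dv x.s.t j) ∧ x.s.p ∈ x.u' then ρ x.s.p else 0

open Classical in
/-- mirror -/
noncomputable def aHR (dv : DT Λ κ → Λ → Prop) (ρ : ℕ → ℝ) (j : Λ) (x : XSt Λ κ) : ℝ :=
  if (OSR x ∧ ¬ dv x.s.t' j) ∧ x.s.p ∈ x.u then ρ x.s.p else 0

open Classical in
/-- value of the tie `x.s.p` of the left item -/
noncomputable def hL (ρ : ℕ → ℝ) (δ : Λ → ℕ → ℝ) (j : Λ) (x : XSt Λ κ) : ℝ :=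
  if x.s.p ∈ x.u' then ρ x.s.p else if x.s.t'.top = x.s.p then δ j x.s.p else 0

open Classical in
/-- mirror -/
noncomputable def hR (ρ : ℕ → ℝ) (δ : Λ → ℕ → ℝ) (j : Λ) (x : XSt Λ κ) : ℝ :=
  if x.s.p ∈ x.u then ρ x.s.p else if x.s.t.top = x.s.p then δ j x.s.p else 0

open Classical in
/-- the budget -/
noncomputable def bHL (dv : DT Λ κ → Λ → Prop) (ρ : ℕ → ℝ) (δ : Λ → ℕ → ℝ) (j : Λ)
    (x : XSt Λ κ) : ℝ :=
  ∑ q ∈ (mtD dv j x.s.t).erase x.s.p, δ j q + if x.s.p ∈ mtD dv j x.s.t then hL ρ δ j x else 0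

open Classical in
/-- mirror -/
noncomputable def bHR (dv : DT Λ κ → Λ → Prop) (ρ : ℕ → ℝ) (δ : Λ → ℕ → ℝ) (j : Λ)
    (x : XSt Λ κ) : ℝ :=
  ∑ q ∈ (mtD dv j x.s.t').erase x.s.p, δ j q + if x.s.p ∈ mtD dv j x.s.t' then hR ρ δ j x else 0

lemma mtD_subL {x : XSt Λ κ} {j : Λ} {e : XStep Λ κ} (he : e ∈ steps stp dv x) (hf : e.f j) :
    mtD dv j e.y.s.t ⊆ mtD dv j x.s.t := by
  obtain ⟨hm, ha', -⟩ := steps_mv he
  rcases hm.L.mt ha' hf with ⟨h1, -⟩ | ⟨h1, -⟩ <;> rw [h1]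
  exact Finset.subset_insert _ _

lemma mtD_subR {x : XSt Λ κ} {j : Λ} {e : XStep Λ κ} (he : e ∈ steps stp dv x) (hf : e.f' j) :
    mtD dv j e.y.s.t' ⊆ mtD dv j x.s.t' := by
  obtain ⟨hm, -, ha'⟩ := steps_mv he
  rcases hm.R.mt ha' hf with ⟨h1, -⟩ | ⟨h1, -⟩ <;> rw [h1]
  exact Finset.subset_insert _ _

/-- the budget after a step -/
lemma bHL_step {ρ : ℕ → ℝ} {δ : Λ → ℕ → ℝ} (hδ : ∀ j p, 0 ≤ δ j p)
    {x : XSt Λ κ} (hX : XI x) {j : Λ} {e : XStep Λ κ} (he : e ∈ steps stp dv x) (hf : e.f j) :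
    bHL dv ρ δ j e.y ≤ ∑ q ∈ (mtD dv j x.s.t).erase x.s.p, δ j q +
      if x.s.p ∈ mtD dv j e.y.s.t ∧ e.y.s.p = x.s.p then hL ρ δ j e.y else 0 := by
  classical
  have hsub := mtD_subL he hf
  have htop := steps_top hX he
  unfold bHL
  by_cases h1 : e.y.s.p = x.s.p
  · rw [h1]
    have h2 : ∑ q ∈ (mtD dv j e.y.s.t).erase x.s.p, δ j q ≤
        ∑ q ∈ (mtD dv j x.s.t).erase x.s.p, δ j q :=
      Finset.sum_le_sum_of_subset_of_nonneg (Finset.erase_subset_erase _ hsub) fun q _ _ => hδ j q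
    by_cases h3 : x.s.p ∈ mtD dv j e.y.s.t
    · rw [if_pos h3, if_pos ⟨h3, rfl⟩]; linarith
    · rw [if_neg h3, if_neg (fun k => h3 k.1)]; linarith
  · have h2 : e.y.s.p < x.s.p := lt_of_le_of_ne htop.2.2.1 h1
    have h3 : x.s.p ∉ mtD dv j e.y.s.t := by
      intro k
      have h4 : x.s.p ≤ e.y.s.t.top := mtD_le_top (hX.next e he).cL _ k
      have h5 : e.y.s.t.top ≤ e.y.s.p := le_max_left _ _
      omega
    have hz : (if x.s.p ∈ mtD dv j e.y.s.t ∧ e.y.s.p = x.s.p then hL ρ δ j e.y else 0) = 0 :=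
      if_neg (fun k => h3 k.1)
    rw [hz, add_zero]
    have h4 : hL ρ δ j e.y ≤ δ j e.y.s.p := by
      unfold hL
      rw [if_neg (fun k => h1 (u'_same hX he k))]
      split_ifs
      · exact le_rfl
      · exact hδ _ _
    have h5 : ∑ q ∈ mtD dv j e.y.s.t, δ j q ≤ ∑ q ∈ (mtD dv j x.s.t).erase x.s.p, δ j q := by
      refine Finset.sum_le_sum_of_subset_of_nonneg (fun q hq => ?_) fun q _ _ => hδ j q
      exact Finset.mem_erase.2 ⟨fun k => h3 (k ▸ hq), hsub hq⟩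
    by_cases h6 : e.y.s.p ∈ mtD dv j e.y.s.t
    · rw [if_pos h6]
      have := Finset.sum_erase_add (mtD dv j e.y.s.t) (δ j) h6
      linarith
    · rw [if_neg h6, Finset.erase_eq_of_notMem h6]
      linarith

lemma bHR_step {ρ : ℕ → ℝ} {δ : Λ → ℕ → ℝ} (hδ : ∀ j p, 0 ≤ δ j p)
    {x : XSt Λ κ} (hX : XI x) {j : Λ} {e : XStep Λ κ} (he : e ∈ steps stp dv x) (hf : e.f' j) :
    bHR dv ρ δ j e.y ≤ ∑ q ∈ (mtD dv j x.s.t').erase x.s.p, δ j q +
      if x.s.p ∈ mtD dv j e.y.s.t' ∧ e.y.s.p = x.s.p then hR ρ δ j e.y else 0 := by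
  classical
  have hsub := mtD_subR he hf
  have htop := steps_top hX he
  unfold bHR
  by_cases h1 : e.y.s.p = x.s.p
  · rw [h1]
    have h2 : ∑ q ∈ (mtD dv j e.y.s.t').erase x.s.p, δ j q ≤
        ∑ q ∈ (mtD dv j x.s.t').erase x.s.p, δ j q :=
      Finset.sum_le_sum_of_subset_of_nonneg (Finset.erase_subset_erase _ hsub) fun q _ _ => hδ j q
    by_cases h3 : x.s.p ∈ mtD dv j e.y.s.t'
    · rw [if_pos h3, if_pos ⟨h3, rfl⟩]; linarith
    · rw [if_neg h3, if_neg (fun k => h3 k.1)]; linarith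
  · have h2 : e.y.s.p < x.s.p := lt_of_le_of_ne htop.2.2.1 h1
    have h3 : x.s.p ∉ mtD dv j e.y.s.t' := by
      intro k
      have h4 : x.s.p ≤ e.y.s.t'.top := mtD_le_top (hX.next e he).cR _ k
      have h5 : e.y.s.t'.top ≤ e.y.s.p := le_max_right _ _
      omega
    have hz : (if x.s.p ∈ mtD dv j e.y.s.t' ∧ e.y.s.p = x.s.p then hR ρ δ j e.y else 0) = 0 :=
      if_neg (fun k => h3 k.1)
    rw [hz, add_zero]
    have h4 : hR ρ δ j e.y ≤ δ j e.y.s.p := by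
      unfold hR
      rw [if_neg (fun k => h1 (u_same hX he k))]
      split_ifs
      · exact le_rfl
      · exact hδ _ _
    have h5 : ∑ q ∈ mtD dv j e.y.s.t', δ j q ≤ ∑ q ∈ (mtD dv j x.s.t').erase x.s.p, δ j q := by
      refine Finset.sum_le_sum_of_subset_of_nonneg (fun q hq => ?_) fun q _ _ => hδ j q
      exact Finset.mem_erase.2 ⟨fun k => h3 (k ▸ hq), hsub hq⟩
    by_cases h6 : e.y.s.p ∈ mtD dv j e.y.s.t'
    · rw [if_pos h6]
      have := Finset.sum_erase_add (mtD dv j e.y.s.t') (δ j) h6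
      linarith
    · rw [if_neg h6, Finset.erase_eq_of_notMem h6]
      linarith

theorem ebudL_H {I : XSt Λ κ → Prop} {ρ : ℕ → ℝ} {δ : Λ → ℕ → ℝ} (hδ : ∀ j p, 0 ≤ δ j p)
    (hρ : ∀ p, 0 ≤ ρ p) (hρδ : ∀ j (p : ℕ), p0 ≤ p → 1 / (p : ℝ) * ρ p ≤ δ j p) :
    EBudL stp p0 dv m I (aHL dv ρ) (bHL dv ρ δ) := by
  classical
  intro j x _ hX
  have ha0 : 0 ≤ aHL dv ρ j x := by
    unfold aHL; split_ifs <;> first | exact hρ _ | exact le_rfl
  refine ⟨ha0, ?_⟩
  have hS0 : 0 ≤ ∑ q ∈ (mtD dv j x.s.t).erase x.s.p, δ j q := Finset.sum_nonneg fun q _ => hδ j q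
  have hh0 : 0 ≤ hL ρ δ j x := by
    unfold hL; split_ifs <;> first | exact hρ _ | exact hδ _ _ | exact le_rfl
  -- at a cost state
  have hcost : aHL dv ρ j x ≤ if x.s.p ∈ mtD dv j x.s.t then hL ρ δ j x else 0 := by
    unfold aHL
    by_cases h1 : (OSL x ∧ ¬ dv x.s.t j) ∧ x.s.p ∈ x.u'
    · have h2 : x.s.p ∈ mtD dv j x.s.t := tieL_mem hX.xi ⟨OSL_tie h1.1.1, h1.1.2⟩
      rw [if_pos h1, if_pos h2]
      unfold hL
      rw [if_pos h1.2]
    · rw [if_neg h1]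
      split_ifs <;> first | exact hh0 | exact le_rfl
  rcases row_I (stp := stp) (dv := dv) j hX.xi with h0 | ⟨y, h0, hu, -, ha⟩ |
    ⟨w, y1, y0, h0, hw0, hw2, hw1, hu1, hu0, -, -, hp, ha, ha1, ha0'⟩
  · rw [h0]
    simp only [List.map_nil, List.sum_nil, add_zero]
    unfold bHL
    linarith
  · -- one outcome
    obtain ⟨e, he, hf, h2⟩ := mem_nxI (x := x) (stp := stp) (dv := dv) (j := j) (q := (1, y))
      (by rw [h0]; simp)
    have h3 : y = e.y := congrArg Prod.snd h2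
    rw [h0]
    simp only [List.map_cons, List.map_nil, List.sum_cons, List.sum_nil, add_zero, one_mul]
    rw [h3] at hu ha ⊢
    have h4 := bHL_step (ρ := ρ) hδ hX.xi he hf
    have h5 : aHL dv ρ j x + (if x.s.p ∈ mtD dv j e.y.s.t ∧ e.y.s.p = x.s.p then hL ρ δ j e.y
        else 0) ≤ if x.s.p ∈ mtD dv j x.s.t then hL ρ δ j x else 0 := by
      by_cases h6 : x.s.p ∈ mtD dv j e.y.s.t ∧ e.y.s.p = x.s.p
      · have h7 : aHL dv ρ j x = 0 := by
          unfold aHL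
          rw [if_neg]
          intro k
          have := ((steps_O hX.xi e he).L k.1.1).2.2
          omega
        rw [if_pos h6, if_pos (mtD_subL he hf h6.1), h7, zero_add]
        unfold hL
        rw [h6.2]
        have hu2 : e.y.u' = x.u' := hu
        rw [hu2]
        by_cases h8 : x.s.p ∈ x.u'
        · rw [if_pos h8, if_pos h8]
        · rw [if_neg h8, if_neg h8]
          have h9 : x.s.t'.top ≤ x.s.p := le_max_right _ _
          by_cases h10 : e.y.s.t'.top = x.s.p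
          · rw [if_pos h10, if_pos (by omega)]
          · rw [if_neg h10]
            split_ifs <;> first | exact hδ _ _ | exact le_rfl
      · rw [if_neg h6, add_zero]; exact hcost
    have hB : bHL dv ρ δ j x = ∑ q ∈ (mtD dv j x.s.t).erase x.s.p, δ j q +
        if x.s.p ∈ mtD dv j x.s.t then hL ρ δ j x else 0 := rfl
    rw [hB]
    linarith
  · -- two outcomes
    obtain ⟨e1, he1, hf1, h21⟩ := mem_nxI (x := x) (stp := stp) (dv := dv) (j := j)
      (q := (1 - w, y1)) (by rw [h0]; simp)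
    obtain ⟨e0, he0, hf0, h20⟩ := mem_nxI (x := x) (stp := stp) (dv := dv) (j := j)
      (q := (w, y0)) (by rw [h0]; simp)
    have h31 : y1 = e1.y := congrArg Prod.snd h21
    have h30 : y0 = e0.y := congrArg Prod.snd h20
    rw [h0]
    simp only [List.map_cons, List.map_nil, List.sum_cons, List.sum_nil, add_zero]
    rw [h31] at hu1 ha1 ⊢
    rw [h30] at hu0 ha0' ⊢
    have htop : x.s.t'.top = x.s.p := by
      have h1 : x.s.t'.top ≤ x.s.p := le_max_right _ _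
      have h2 : x.s.p < x.s.t'.top + 1 := ha
      omega
    have hnu : x.s.p ∉ x.u' := fun k => by have := hX.xi.u' _ k; omega
    have e0' : aHL dv ρ j x = 0 := by unfold aHL; rw [if_neg (fun k => hnu k.2)]
    have b1 := bHL_step (ρ := ρ) hδ hX.xi he1 hf1
    have b0 := bHL_step (ρ := ρ) hδ hX.xi he0 hf0
    have c1 : (if x.s.p ∈ mtD dv j e1.y.s.t ∧ e1.y.s.p = x.s.p then hL ρ δ j e1.y else 0) = 0 := by
      by_cases h6 : x.s.p ∈ mtD dv j e1.y.s.t ∧ e1.y.s.p = x.s.p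
      · rw [if_pos h6]
        unfold hL
        have hu2 : e1.y.u' = x.u' := hu1
        have ha2 : e1.y.s.t'.top + 1 ≤ x.s.p := ha1
        rw [h6.2, hu2, if_neg hnu, if_neg (by omega)]
      · rw [if_neg h6]
    have c0 : (if x.s.p ∈ mtD dv j e0.y.s.t ∧ e0.y.s.p = x.s.p then hL ρ δ j e0.y else 0) ≤
        if x.s.p ∈ mtD dv j x.s.t then ρ x.s.p else 0 := by
      by_cases h6 : x.s.p ∈ mtD dv j e0.y.s.t ∧ e0.y.s.p = x.s.p
      · rw [if_pos h6, if_pos (mtD_subL he0 hf0 h6.1)]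
        unfold hL
        have hu2 : e0.y.u' = insert x.s.p x.u' := hu0
        rw [h6.2, hu2, if_pos (Finset.mem_insert_self _ _)]
      · rw [if_neg h6]
        split_ifs <;> first | exact hρ _ | exact le_rfl
    have hnl : ¬ (x.s.t.isLeaf ∨ x.s.t'.isLeaf) := (steps_act he1).1
    have hge := hX.oi.p_ge hnl
    rw [e0', zero_add]
    set S := ∑ q ∈ (mtD dv j x.s.t).erase x.s.p, δ j q with hS
    rw [c1, add_zero] at b1
    have hB : bHL dv ρ δ j x = S + if x.s.p ∈ mtD dv j x.s.t then δ j x.s.p else 0 := by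
      unfold bHL hL
      rw [if_neg hnu, if_pos htop]
    rw [hB]
    have k1 := mul_le_mul_of_nonneg_left b1 (by linarith : 0 ≤ 1 - w)
    have k0 := mul_le_mul_of_nonneg_left (b0.trans (by linarith : _ ≤ S +
      if x.s.p ∈ mtD dv j x.s.t then ρ x.s.p else 0)) hw0.le
    by_cases h7 : x.s.p ∈ mtD dv j x.s.t
    · rw [if_pos h7] at k0 ⊢
      have k2 : w * ρ x.s.p ≤ δ j x.s.p := by
        refine le_trans ?_ (hρδ j x.s.p hge)
        exact mul_le_mul_of_nonneg_right hw1 (hρ _)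
      nlinarith
    · rw [if_neg h7] at k0 ⊢
      nlinarith

theorem ebudR_H {I : XSt Λ κ → Prop} {ρ : ℕ → ℝ} {δ : Λ → ℕ → ℝ} (hδ : ∀ j p, 0 ≤ δ j p)
    (hρ : ∀ p, 0 ≤ ρ p) (hρδ : ∀ j (p : ℕ), p0 ≤ p → 1 / (p : ℝ) * ρ p ≤ δ j p) :
    EBudR stp p0 dv m I (aHR dv ρ) (bHR dv ρ δ) := by
  classical
  intro j x _ hX
  have ha0 : 0 ≤ aHR dv ρ j x := by
    unfold aHR; split_ifs <;> first | exact hρ _ | exact le_rfl
  refine ⟨ha0, ?_⟩
  have hS0 : 0 ≤ ∑ q ∈ (mtD dv j x.s.t').erase x.s.p, δ j q := Finset.sum_nonneg fun q _ => hδ j q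
  have hh0 : 0 ≤ hR ρ δ j x := by
    unfold hR; split_ifs <;> first | exact hρ _ | exact hδ _ _ | exact le_rfl
  have hcost : aHR dv ρ j x ≤ if x.s.p ∈ mtD dv j x.s.t' then hR ρ δ j x else 0 := by
    unfold aHR
    by_cases h1 : (OSR x ∧ ¬ dv x.s.t' j) ∧ x.s.p ∈ x.u
    · have h2 : x.s.p ∈ mtD dv j x.s.t' := tieR_mem hX.xi ⟨OSR_tie h1.1.1, h1.1.2⟩
      rw [if_pos h1, if_pos h2]
      unfold hR
      rw [if_pos h1.2]
    · rw [if_neg h1]
      split_ifs <;> first | exact hh0 | exact le_rfl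
  rcases row_J (stp := stp) (dv := dv) j hX.xi with h0 | ⟨y, h0, hu, -, ha⟩ |
    ⟨w, y1, y0, h0, hw0, hw2, hw1, hu1, hu0, -, -, hp, ha, ha1, ha0'⟩
  · rw [h0]
    simp only [List.map_nil, List.sum_nil, add_zero]
    unfold bHR
    linarith
  · obtain ⟨e, he, hf, h2⟩ := mem_nxJ (x := x) (stp := stp) (dv := dv) (j := j) (q := (1, y))
      (by rw [h0]; simp)
    have h3 : y = e.y := congrArg Prod.snd h2
    rw [h0]
    simp only [List.map_cons, List.map_nil, List.sum_cons, List.sum_nil, add_zero, one_mul]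
    rw [h3] at hu ha ⊢
    have h4 := bHR_step (ρ := ρ) hδ hX.xi he hf
    have h5 : aHR dv ρ j x + (if x.s.p ∈ mtD dv j e.y.s.t' ∧ e.y.s.p = x.s.p then hR ρ δ j e.y
        else 0) ≤ if x.s.p ∈ mtD dv j x.s.t' then hR ρ δ j x else 0 := by
      by_cases h6 : x.s.p ∈ mtD dv j e.y.s.t' ∧ e.y.s.p = x.s.p
      · have h7 : aHR dv ρ j x = 0 := by
          unfold aHR
          rw [if_neg]
          intro k
          have := ((steps_O hX.xi e he).R k.1.1).2.2
          omega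
        rw [if_pos h6, if_pos (mtD_subR he hf h6.1), h7, zero_add]
        unfold hR
        rw [h6.2]
        have hu2 : e.y.u = x.u := hu
        rw [hu2]
        by_cases h8 : x.s.p ∈ x.u
        · rw [if_pos h8, if_pos h8]
        · rw [if_neg h8, if_neg h8]
          have h9 : x.s.t.top ≤ x.s.p := le_max_left _ _
          by_cases h10 : e.y.s.t.top = x.s.p
          · rw [if_pos h10, if_pos (by omega)]
          · rw [if_neg h10]
            split_ifs <;> first | exact hδ _ _ | exact le_rfl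
      · rw [if_neg h6, add_zero]; exact hcost
    have hB : bHR dv ρ δ j x = ∑ q ∈ (mtD dv j x.s.t').erase x.s.p, δ j q +
        if x.s.p ∈ mtD dv j x.s.t' then hR ρ δ j x else 0 := rfl
    rw [hB]
    linarith
  · obtain ⟨e1, he1, hf1, h21⟩ := mem_nxJ (x := x) (stp := stp) (dv := dv) (j := j)
      (q := (1 - w, y1)) (by rw [h0]; simp)
    obtain ⟨e0, he0, hf0, h20⟩ := mem_nxJ (x := x) (stp := stp) (dv := dv) (j := j)
      (q := (w, y0)) (by rw [h0]; simp)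
    have h31 : y1 = e1.y := congrArg Prod.snd h21
    have h30 : y0 = e0.y := congrArg Prod.snd h20
    rw [h0]
    simp only [List.map_cons, List.map_nil, List.sum_cons, List.sum_nil, add_zero]
    rw [h31] at hu1 ha1 ⊢
    rw [h30] at hu0 ha0' ⊢
    have htop : x.s.t.top = x.s.p := by
      have h1 : x.s.t.top ≤ x.s.p := le_max_left _ _
      have h2 : x.s.p < x.s.t.top + 1 := ha
      omega
    have hnu : x.s.p ∉ x.u := fun k => by have := hX.xi.u _ k; omega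
    have e0' : aHR dv ρ j x = 0 := by unfold aHR; rw [if_neg (fun k => hnu k.2)]
    have b1 := bHR_step (ρ := ρ) hδ hX.xi he1 hf1
    have b0 := bHR_step (ρ := ρ) hδ hX.xi he0 hf0
    have c1 : (if x.s.p ∈ mtD dv j e1.y.s.t' ∧ e1.y.s.p = x.s.p then hR ρ δ j e1.y else 0) = 0 := by
      by_cases h6 : x.s.p ∈ mtD dv j e1.y.s.t' ∧ e1.y.s.p = x.s.p
      · rw [if_pos h6]
        unfold hR
        have hu2 : e1.y.u = x.u := hu1
        have ha2 : e1.y.s.t.top + 1 ≤ x.s.p := ha1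
        rw [h6.2, hu2, if_neg hnu, if_neg (by omega)]
      · rw [if_neg h6]
    have c0 : (if x.s.p ∈ mtD dv j e0.y.s.t' ∧ e0.y.s.p = x.s.p then hR ρ δ j e0.y else 0) ≤
        if x.s.p ∈ mtD dv j x.s.t' then ρ x.s.p else 0 := by
      by_cases h6 : x.s.p ∈ mtD dv j e0.y.s.t' ∧ e0.y.s.p = x.s.p
      · rw [if_pos h6, if_pos (mtD_subR he0 hf0 h6.1)]
        unfold hR
        have hu2 : e0.y.u = insert x.s.p x.u := hu0
        rw [h6.2, hu2, if_pos (Finset.mem_insert_self _ _)]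
      · rw [if_neg h6]
        split_ifs <;> first | exact hρ _ | exact le_rfl
    have hnl : ¬ (x.s.t.isLeaf ∨ x.s.t'.isLeaf) := (steps_act he1).1
    have hge := hX.oi.p_ge hnl
    rw [e0', zero_add]
    set S := ∑ q ∈ (mtD dv j x.s.t').erase x.s.p, δ j q with hS
    rw [c1, add_zero] at b1
    have hB : bHR dv ρ δ j x = S + if x.s.p ∈ mtD dv j x.s.t' then δ j x.s.p else 0 := by
      unfold bHR hR
      rw [if_neg hnu, if_pos htop]
    rw [hB]
    have k1 := mul_le_mul_of_nonneg_left b1 (by linarith : 0 ≤ 1 - w)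
    have k0 := mul_le_mul_of_nonneg_left (b0.trans (by linarith : _ ≤ S +
      if x.s.p ∈ mtD dv j x.s.t' then ρ x.s.p else 0)) hw0.le
    by_cases h7 : x.s.p ∈ mtD dv j x.s.t'
    · rw [if_pos h7] at k0 ⊢
      have k2 : w * ρ x.s.p ≤ δ j x.s.p := by
        refine le_trans ?_ (hρδ j x.s.p hge)
        exact mul_le_mul_of_nonneg_right hw1 (hρ _)
      nlinarith
    · rw [if_neg h7] at k0 ⊢
      nlinarith

/-! ### costs paid once -/

open Classical in
/-- right items which may be exact partners: every earlier one-sided prime of the left side divides the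
modulus once and is retained; `p` is not retained, or it divides the modulus already -/
noncomputable def aDR2 (stp : Stp Λ κ) (du : ℕ → Λ → Prop) (C : ℝ) (j : Λ)
    (x : XSt Λ κ) : ℝ :=
  if (¬ (x.s.t.isLeaf ∨ x.s.t'.isLeaf) ∧ ¬ stp x.s) ∧ OSL x ∧
    (∀ P ∈ x.s.O.erase x.s.p, du P j ∧ ¬ P ^ 2 ∣ x.s.M') ∧ (¬ du x.s.p j ∨ x.s.p ∣ x.s.M')
    then C else 0

open Classical in
/-- mirror -/
noncomputable def aDL2 (stp : Stp Λ κ) (du : ℕ → Λ → Prop) (C : ℝ) (j : Λ)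
    (x : XSt Λ κ) : ℝ :=
  if (¬ (x.s.t.isLeaf ∨ x.s.t'.isLeaf) ∧ ¬ stp x.s) ∧ OSR x ∧
    (∀ P ∈ x.s.O'.erase x.s.p, du P j ∧ ¬ P ^ 2 ∣ x.s.M) ∧ (¬ du x.s.p j ∨ x.s.p ∣ x.s.M)
    then C else 0

open Classical in
/-- the budget: `C` as long as the settled columns are retained and divide the modulus once -/
noncomputable def bD2 (du : ℕ → Λ → Prop) (C : ℝ) (O : Finset ℕ) (M : ℕ) (j : Λ) : ℝ :=
  if ∃ P ∈ O, ¬ du P j ∨ (P.Prime ∧ P ^ 2 ∣ M) then 0 else C

lemma bD2_nonneg {C : ℝ} (hC : 0 ≤ C) (O : Finset ℕ) (M : ℕ) (j : Λ) : 0 ≤ bD2 du C O M j := by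
  unfold bD2; split_ifs <;> first | exact le_rfl | exact hC

lemma bD2_le {C : ℝ} (hC : 0 ≤ C) (O : Finset ℕ) (M : ℕ) (j : Λ) : bD2 du C O M j ≤ C := by
  unfold bD2; split_ifs <;> first | exact hC | exact le_rfl

/-- settled columns stay, squares stay -/
lemma bD2_step {C : ℝ} (hC : 0 ≤ C) {O O₁ : Finset ℕ} {p M M₁ : ℕ} {j : Λ} (hp : p.Prime)
    (hn : p ∉ O) (h : O ⊆ O₁) (hM : M₁ = M ∨ M₁ = p * M ∨ (p ∣ M ∧ M₁ = M / p)) :
    bD2 du C O₁ M₁ j ≤ bD2 du C O M j := by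
  by_cases h1 : ∃ P ∈ O₁, ¬ du P j ∨ (P.Prime ∧ P ^ 2 ∣ M₁)
  · have e : bD2 du C O₁ M₁ j = 0 := by unfold bD2; rw [if_pos h1]
    rw [e]; exact bD2_nonneg hC _ _ _
  · have h2 : ¬ ∃ P ∈ O, ¬ du P j ∨ (P.Prime ∧ P ^ 2 ∣ M) := by
      rintro ⟨P, hP, k⟩
      refine h1 ⟨P, h hP, ?_⟩
      rcases k with k | ⟨k1, k2⟩
      · exact Or.inl k
      · exact Or.inr ⟨k1, sq_keep hp k1 (fun e => hn (e ▸ hP)) hM k2⟩
    unfold bD2
    rw [if_neg h1, if_neg h2]

theorem budR_once2 {I : XSt Λ κ → Prop} {C : ℝ} (hC : 0 ≤ C) :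
    BudR stp p0 dv m I (aDR2 stp du C) (fun j x => bD2 du C (sO x.s) x.s.M' j) := by
  intro j x _ hX
  by_cases h : (¬ (x.s.t.isLeaf ∨ x.s.t'.isLeaf) ∧ ¬ stp x.s) ∧ OSL x ∧
      (∀ P ∈ x.s.O.erase x.s.p, du P j ∧ ¬ P ^ 2 ∣ x.s.M') ∧ (¬ du x.s.p j ∨ x.s.p ∣ x.s.M')
  · have e0 : aDR2 stp du C j x = C := by unfold aDR2; rw [if_pos h]
    have e1 : bD2 du C (sO x.s) x.s.M' j = C := by
      unfold bD2
      rw [if_neg]
      rintro ⟨P, hP, k⟩
      rw [sO_erase hX.oi.ge] at hP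
      rcases k with k | k
      · exact k (h.2.2.1 P hP).1
      · exact (h.2.2.1 P hP).2 k.2
    refine ⟨by rw [e0]; exact hC, by rw [e0]; exact e1.ge, fun e he hf => ?_⟩
    obtain ⟨-, k1, -⟩ := sO_step hX.oi.ge (steps_O hX.xi e he)
    obtain ⟨hpp, -⟩ := steps_p hX.xi he
    have e2 : bD2 du C (sO e.y.s) e.y.s.M' j = 0 := by
      unfold bD2
      rw [if_pos]
      refine ⟨x.s.p, by rw [k1 h.2.1]; exact Finset.mem_insert_self _ _, ?_⟩
      rcases h.2.2.2 with h3 | h3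
      · exact Or.inl h3
      · refine Or.inr ⟨hpp, ?_⟩
        rw [((steps_M e he).L h.2.1).1, pow_two]
        exact Nat.mul_dvd_mul_left _ h3
    show aDR2 stp du C j x + bD2 du C (sO e.y.s) e.y.s.M' j ≤ bD2 du C (sO x.s) x.s.M' j
    rw [e0, e1, e2, add_zero]
  · have e0 : aDR2 stp du C j x = 0 := by unfold aDR2; rw [if_neg h]
    refine ⟨by rw [e0], by rw [e0]; exact bD2_nonneg hC _ _ _, fun e he hf => ?_⟩
    obtain ⟨k0, -, k2⟩ := sO_step hX.oi.ge (steps_O hX.xi e he)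
    obtain ⟨hpp, -⟩ := steps_p hX.xi he
    rw [e0, zero_add]
    refine bD2_step hC hpp k2 ?_ (steps_M e he).m'
    rcases k0 with k0 | k0 <;> rw [k0]
    exact Finset.subset_insert _ _

theorem budL_once2 {I : XSt Λ κ → Prop} {C : ℝ} (hC : 0 ≤ C) :
    BudL stp p0 dv m I (aDL2 stp du C) (fun j x => bD2 du C (sO' x.s) x.s.M j) := by
  intro j x _ hX
  by_cases h : (¬ (x.s.t.isLeaf ∨ x.s.t'.isLeaf) ∧ ¬ stp x.s) ∧ OSR x ∧
      (∀ P ∈ x.s.O'.erase x.s.p, du P j ∧ ¬ P ^ 2 ∣ x.s.M) ∧ (¬ du x.s.p j ∨ x.s.p ∣ x.s.M)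
  · have e0 : aDL2 stp du C j x = C := by unfold aDL2; rw [if_pos h]
    have e1 : bD2 du C (sO' x.s) x.s.M j = C := by
      unfold bD2
      rw [if_neg]
      rintro ⟨P, hP, k⟩
      rw [sO'_erase hX.oi.ge] at hP
      rcases k with k | k
      · exact k (h.2.2.1 P hP).1
      · exact (h.2.2.1 P hP).2 k.2
    refine ⟨by rw [e0]; exact hC, by rw [e0]; exact e1.ge, fun e he hf => ?_⟩
    obtain ⟨-, k1, -⟩ := sO'_step hX.oi.ge (steps_O hX.xi e he)
    obtain ⟨hpp, -⟩ := steps_p hX.xi he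
    have e2 : bD2 du C (sO' e.y.s) e.y.s.M j = 0 := by
      unfold bD2
      rw [if_pos]
      refine ⟨x.s.p, by rw [k1 h.2.1]; exact Finset.mem_insert_self _ _, ?_⟩
      rcases h.2.2.2 with h3 | h3
      · exact Or.inl h3
      · refine Or.inr ⟨hpp, ?_⟩
        rw [((steps_M e he).R h.2.1).1, pow_two]
        exact Nat.mul_dvd_mul_left _ h3
    show aDL2 stp du C j x + bD2 du C (sO' e.y.s) e.y.s.M j ≤ bD2 du C (sO' x.s) x.s.M j
    rw [e0, e1, e2, add_zero]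
  · have e0 : aDL2 stp du C j x = 0 := by unfold aDL2; rw [if_neg h]
    refine ⟨by rw [e0], by rw [e0]; exact bD2_nonneg hC _ _ _, fun e he hf => ?_⟩
    obtain ⟨k0, -, k2⟩ := sO'_step hX.oi.ge (steps_O hX.xi e he)
    obtain ⟨hpp, -⟩ := steps_p hX.xi he
    rw [e0, zero_add]
    refine bD2_step hC hpp k2 ?_ (steps_M e he).m
    rcases k0 with k0 | k0 <;> rw [k0]
    exact Finset.subset_insert _ _

/-! ### everything together -/

/-- the costs of the left items -/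
noncomputable def costL2 (stp : Stp Λ κ) (dv : DT Λ κ → Λ → Prop) (du : ℕ → Λ → Prop)
    (re : Λ → Finset ℕ) (β : ℕ → ℝ) (ε ε'' : Λ → ℕ → ℝ) (ρ : ℕ → ℝ) (ε₀ C : ℝ) (ω : ℕ → ℝ) (j : Λ)
    (x : XSt Λ κ) : ℝ :=
  aG stp β j x + aTL dv ε j x + aEL re ε'' j x + aCL stp du ε₀ ω j x +
    aDL2 stp du C j x + aFL ε j x + aHL dv ρ j x

/-- the costs of the right items -/
noncomputable def costR2 (stp : Stp Λ κ) (dv : DT Λ κ → Λ → Prop) (du : ℕ → Λ → Prop)
    (re : Λ → Finset ℕ) (β : ℕ → ℝ) (ε ε'' : Λ → ℕ → ℝ) (ρ : ℕ → ℝ) (ε₀ C : ℝ) (ω : ℕ → ℝ) (j : Λ)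
    (x : XSt Λ κ) : ℝ :=
  aG stp β j x + aTR dv ε j x + aER re ε'' j x + aCR stp du ε₀ ω j x +
    aDR2 stp du C j x + aFR ε j x + aHR dv ρ j x

/-- **walk sum of the one-sided columns**, from a state without history. -/
theorem WS_eOS2 {I : XSt Λ κ → Prop} (hp0 : 1 ≤ p0) (hst : ∀ s : St Λ κ, ¬ stp s → ¬ stpN s)
    (hI : ∀ x, I x → IX p0 dv m x → ∀ e ∈ steps stp dv x, I e.y) {K : ℝ} (hK : 0 ≤ K) {β : ℕ → ℝ}
    (hβ : ∀ p : ℕ, p0 ≤ p → 0 ≤ β p ∧ β p ≤ K * (p : ℝ) ^ (-(11/12) : ℝ))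
    {re : Λ → Finset ℕ} {ε ε'' : Λ → ℕ → ℝ} (hε : ∀ j p, 0 ≤ ε j p)
    (hε'' : ∀ j p, 0 ≤ ε'' j p) {ρ : ℕ → ℝ} (hρ : ∀ p, 0 ≤ ρ p)
    (hρε : ∀ j (p : ℕ), p0 ≤ p → 1 / (p : ℝ) * ρ p ≤ ε j p) {ε₀ : ℝ} (hε₀ : 0 ≤ ε₀)
    {ω : ℕ → ℝ} (hω : ∀ l, 0 ≤ ω l ∧ ω l ≤ 1) (hω2 : ∀ l, p0 ≤ l → ω l ≤ 1/2) {C : ℝ} (hC : 0 ≤ C)
    {loc : St Λ κ → ℝ}
    (hl : ∀ x, I x → IX p0 dv m x → loc x.s ≤
      ∑ j ∈ x.s.A, m x.s.t j * costL2 stp dv du re β ε ε'' ρ ε₀ C ω j x +
      ∑ j ∈ x.s.A', m x.s.t' j * costR2 stp dv du re β ε ε'' ρ ε₀ C ω j x)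
    {x : XSt Λ κ} (hx : I x) (hX : IX p0 dv m x) (hu : x.u = ∅) (hu' : x.u' = ∅) :
    WS stp loc x.s ≤
      ∑ j ∈ x.s.A, m x.s.t j * (4 * K * (p0 : ℝ) ^ (-(1/4) : ℝ) +
        3 * ∑ q ∈ mtD dv j x.s.t, ε j q +
        ∑ q ∈ (re j).filter (fun q => q ≤ x.s.p), ε'' j q + 2 * ε₀ + C) +
      ∑ j ∈ x.s.A', m x.s.t' j * (4 * K * (p0 : ℝ) ^ (-(1/4) : ℝ) +
        3 * ∑ q ∈ mtD dv j x.s.t', ε j q +
        ∑ q ∈ (re j).filter (fun q => q ≤ x.s.p), ε'' j q + 2 * ε₀ + C) := by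
  classical
  have bL := (budL_exp ((((((budL_gen (stp := stp) (dv := dv) (m := m) (I := I) hK hp0 hst hβ).add
    (budL_tie (stp := stp) (dv := dv) (m := m) (p0 := p0) hε)).add
    (budL_ret (stp := stp) (dv := dv) (m := m) (p0 := p0) (re := re) hε'')).add
    (budL_geo (stp := stp) (dv := dv) (du := du) (m := m) hε₀ hω hω2)).add
    (budL_once2 (stp := stp) (dv := dv) (du := du) (m := m) (p0 := p0) hC)).add
    (budL_F (stp := stp) (dv := dv) (m := m) (p0 := p0) hε))).add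
    (ebudL_H (stp := stp) (dv := dv) (m := m) (p0 := p0) (δ := ε) hε hρ hρε)
  have bR := (budR_exp ((((((budR_gen (stp := stp) (dv := dv) (m := m) (I := I) hK hp0 hst hβ).add
    (budR_tie (stp := stp) (dv := dv) (m := m) (p0 := p0) hε)).add
    (budR_ret (stp := stp) (dv := dv) (m := m) (p0 := p0) (re := re) hε'')).add
    (budR_geo (stp := stp) (dv := dv) (du := du) (m := m) hε₀ hω hω2)).add
    (budR_once2 (stp := stp) (dv := dv) (du := du) (m := m) (p0 := p0) hC)).add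
    (budR_F (stp := stp) (dv := dv) (m := m) (p0 := p0) hε))).add
    (ebudR_H (stp := stp) (dv := dv) (m := m) (p0 := p0) (δ := ε) hε hρ hρε)
  have key := ebud_total hp0 hst hI bL bR hl hx hX
  refine key.trans ?_
  have g1 : ∀ (O : Finset ℕ) (j : Λ), gO du ω O j ≤ 1 := fun O j => by
    have := gO_anti (du := du) hω (Finset.empty_subset O) j
    rwa [gO_empty] at this
  refine add_le_add (Finset.sum_le_sum fun j _ => ?_) (Finset.sum_le_sum fun j _ => ?_)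
  · refine mul_le_mul_of_nonneg_left ?_ (hX.tc.L.self.nn j)
    have h1 := bG_le (p0 := p0) hK j x
    have h2 := mul_le_mul_of_nonneg_left (g1 (sO' x.s) j) (by linarith : 0 ≤ 2 * ε₀)
    have h3 := bD2_le (du := du) hC (sO' x.s) x.s.M j
    have h4 : bFL dv ε j x = ∑ q ∈ mtD dv j x.s.t, ε j q := by
      unfold bFL; rw [hu]; simp
    have h5 : bHL dv ρ ε j x ≤ ∑ q ∈ mtD dv j x.s.t, ε j q := by
      unfold bHL hL
      rw [hu', if_neg (Finset.notMem_empty _)]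
      by_cases h6 : x.s.p ∈ mtD dv j x.s.t
      · rw [if_pos h6, ← Finset.sum_erase_add _ _ h6]
        have := hε j x.s.p
        split_ifs <;> linarith
      · rw [if_neg h6, Finset.erase_eq_of_notMem h6, add_zero]
    linarith
  · refine mul_le_mul_of_nonneg_left ?_ (hX.tc.R.self.nn j)
    have h1 := bG_le (p0 := p0) hK j x
    have h2 := mul_le_mul_of_nonneg_left (g1 (sO x.s) j) (by linarith : 0 ≤ 2 * ε₀)
    have h3 := bD2_le (du := du) hC (sO x.s) x.s.M' j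
    have h4 : bFR dv ε j x = ∑ q ∈ mtD dv j x.s.t', ε j q := by
      unfold bFR; rw [hu']; simp
    have h5 : bHR dv ρ ε j x ≤ ∑ q ∈ mtD dv j x.s.t', ε j q := by
      unfold bHR hR
      rw [hu, if_neg (Finset.notMem_empty _)]
      by_cases h6 : x.s.p ∈ mtD dv j x.s.t'
      · rw [if_pos h6, ← Finset.sum_erase_add _ _ h6]
        have := hε j x.s.p
        split_ifs <;> linarith
      · rw [if_neg h6, Finset.erase_eq_of_notMem h6, add_zero]
    linarith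

end Crest.Agent.R4P.OSWS16
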