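import Crest.Agent.R4P.ColY710
import Crest.Agent.R4P.OF927
import Crest.Agent.R4P.GSt927
import Crest.Agent.R4P.StopIS95
import Crest.Agent.R4P.NB_10
import Crest.Agent.R4P.OSWS2_16
import Crest.Agent.R4P.OSWIA19

/-!
R4 powers pass (S0004), helper16 (after helper710's `R4/OSFin710`): **one-sided columns: definitions**.

* `OB` : node facts; `FSL` : the `[F]` pairs of the one-sided columns are payable (up to the factor `p` if the
  other side has missed the tie `p` of the chain); `Spr` : sparse sets.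
* `ns_left`, `ns_right` : side conditions `NSd`, also inside a chain.
-/

set_option autoImplicit false
set_option linter.unusedSectionVars false
set_option linter.unusedVariables false
open Finset

namespace Crest.Agent.R4P.OSFin710

open Crest.Agent.R4.Tour104 Crest.Agent.R4.Tour758 Crest.Agent.R4.Avg758 Crest.Agent.R4.Clos758
open Crest.Agent.R4.ClosL758 Crest.Agent.R4.ClosG758 Crest.Agent.R4.ClosR758
open Crest.Agent.R4.Fam464 Crest.Agent.R4P.Cnt588 Crest.Agent.R4P.Walk560 Crest.Agent.R4.Piece464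
open Crest.Agent.R4P.GInst194 Crest.Agent.R4P.WalkIT579 Crest.Agent.R4P.GSt927
open Crest.Agent.R4P.AvgItem710 Crest.Agent.R4.DeepSt579
open Crest.Agent.R4P.Item758 Crest.Agent.R4P.NMW710 Crest.Agent.R4P.Rad800
open Crest.Agent.R4P.ColW710 Crest.Agent.R4P.ColY710
open Crest.Agent.R4P.Res927 Crest.Agent.R4P.OSWS245 Crest.Agent.R4P.OF927
open Crest.Agent.R4P.GFinC927 (nn)
open Crest.Agent.R4P.StopFF95 (NF)
open Crest.Agent.R4P.Bld532 (NS All NodeOk Bk)
open Crest.Agent.R4P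

variable {Λ κ : Type*} [Fintype Λ] [DecidableEq Λ] [Fintype κ] [DecidableEq κ] [WRel κ]
  {D : Par Λ κ} {sp : ℕ → Finset Λ} {ρ : ℕ → ℝ} {Al : Finset ℕ} {P : Bld532.Par}
  {W : ℕ → ℝ} {U : ℕ → Finset ℕ} {CL C1 c₀ : ℝ} {p0 : ℕ} {stp : Stp Λ κ}
  {Qp : NS → IT → Prop}

/-- node facts of the one-sided columns -/
structure OB (D : Par Λ κ) (Al : Finset ℕ) (P : Bld532.Par) (W : ℕ → ℝ)
    (U : ℕ → Finset ℕ) (CL c₀ : ℝ) (p0 : ℕ) (u : NS) (τ : IT) : Prop where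
  nq : NQ P W U u τ
  lg : ∀ p : ℕ, p0 ≤ p → (∀ r : ℕ, r.Prime → r < u.n → r ≤ p) → ∀ q ∈ Al, q ∈ τ.items →
    1 ≤ CL * Real.log p * tq (q / u.A)
  mean : ∀ j, D.it j ∈ Al → D.it j ∈ τ.items →
    c₀ * tq (D.it j / (u.A * pp τ (D.it j))) ≤ mnw (D.it j / (u.A * pp τ (D.it j))) (D.om j)
  ph : ∀ q ∈ Al, q ∈ τ.items → tq (q / u.A) ≤ 2 * (prf τ q * tq (q / (u.A * pp τ q)))
  ms : ∀ q ∈ Al, q ∈ τ.items → (u.B : ℝ) * tq (q / u.A) ≤ 2 * (u.c * tq q)
  /-- the retained primes above the level divide the rest of the item -/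
  upc : ∀ q ∈ τ.items, ∀ l : ℕ, l.Prime → u.n ≤ l → l ∈ U q → l ∣ q / u.A

/-- **the `[F]` pairs at the one-sided columns are payable**, up to the factor `p` if the side without the tie
has missed `p` in the same chain -/
def FSL (D : Par Λ κ) (sp : ℕ → Finset Λ) (ρ : ℕ → ℝ) (Qp : NS → IT → Prop)
    (B₀ B₀' : ℕ) (x : XSt Λ κ) : Prop :=
  (∀ (u u' : NS) (p : ℕ) (Sp : Finset ℕ) (t₁ t₀ τ' : IT),
    HI D sp Qp B₀ B₀' x u u' (.br p Sp t₁ t₀) τ' → JS x.s u u' → x.s.p = p → Blw p τ' →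
    FSOkY D ρ (nn p) p x.s.M (u.B * p) u.A p t₀ x.s.A x.s.M' u'.B u'.A 1 τ' x.s.A'
      (if p ∣ u'.B then (p : ℝ) else 1) (fun _ => False)) ∧
  (∀ (u u' : NS) (p : ℕ) (Sp : Finset ℕ) (τ t₁' t₀' : IT),
    HI D sp Qp B₀ B₀' x u u' τ (.br p Sp t₁' t₀') → JS x.s u u' → x.s.p = p → Blw p τ →
    FSOkY D ρ (nn p) p x.s.M' (u'.B * p) u'.A p t₀' x.s.A' x.s.M u.B u.A 1 τ x.s.A
      (if p ∣ u.B then (p : ℝ) else 1) (fun _ => False))

/-- a sparse set above `p0` -/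
def Spr (p0 : ℕ) (D : ℝ) (M : Finset ℕ) : Prop :=
  (∀ q ∈ M, p0 < q) ∧ ∀ P : ℕ, p0 ≤ P → ((M.filter (· ≤ P)).card : ℝ) ≤ Real.log P ^ D

/-! ### side conditions -/

lemma IS_of {B₀ B₀' : ℕ} {x : XSt Λ κ} {u u' : NS} {τ τ' : IT}
    (hnq : ∀ u τ, Qp u τ → NQ P W U u τ) (h : HI D sp Qp B₀ B₀' x u u' τ τ')
    (hj : JS x.s u u') : IS D sp P W U x.s u u' τ τ' where
  tL := h.L.eq
  tR := h.R.eq
  qL := h.qL.mono hnq
  qR := h.qR.mono hnq
  circ := hj.circ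
  lv := by
    obtain ⟨m, h1, h2, h3, h4, h5⟩ := hj.lv
    exact ⟨m, h1, h2, fun l a b => (h3 l a b).1, fun l a b => (h3 l a b).2, h4, h5⟩

/-- the retained primes of a node which is `Blw p`, at the column `p` -/
lemma blw_rd {u : NS} {τ : IT} {p : ℕ} (hq : All (NQ P W U) u τ) (hB : Blw p τ)
    (hl : ¬ isL τ) (hp : p.Prime) {q : ℕ} (hqt : q ∈ τ.items) (hd : p ∣ q / u.A) :
    p ∈ U q ∧ ¬ p ^ 2 ∣ q / u.A := by
  obtain ⟨a1, a2, a3⟩ := top_of_nodeOk hq.self.1 hl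
  by_cases hn : u.n ≤ p
  · exact (hq.self.2 q hqt).1 p hp hn hd
  · push Not at hn
    have h1 := a3 p hp hn
    cases τ with
    | leaf S => exact absurd trivial hl
    | br b Sp t₁ t₀ => exact absurd (show p ≤ b from h1) (not_le.2 hB)
    | add b t₁ t₀ => exact absurd (show p ≤ b from h1) (not_le.2 hB)
    | pl b t => exact absurd (show p ≤ b from h1) (not_le.2 hB)
    | far b t₁ t₀ => exact absurd (show p ≤ b from h1) (not_le.2 hB)
    | up b S σ =>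
      have e : b = p := le_antisymm hB h1
      subst e
      have h2 : All (NQ P W U) ⟨b, u.c, u.A, u.B⟩ σ := hq.2
      exact (h2.self.2 q hqt).1 b hp le_rfl hd

/-- the converse: retained primes at the column divide the rest -/
lemma blw_upc {u : NS} {τ : IT} {p : ℕ} (hq : All Qp u τ)
    (hQ : ∀ u τ, Qp u τ → OB D Al P W U CL c₀ p0 u τ) (hB : Blw p τ)
    (hl : ¬ isL τ) (hp : p.Prime) {q : ℕ} (hqt : q ∈ τ.items) (hd : p ∈ U q) : p ∣ q / u.A := by
  have hn1 := hQ _ _ hq.self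
  obtain ⟨a1, a2, a3⟩ := top_of_nodeOk hn1.nq.1 hl
  by_cases hn : u.n ≤ p
  · exact hn1.upc q hqt p hp hn hd
  · push Not at hn
    have h1 := a3 p hp hn
    cases τ with
    | leaf S => exact absurd trivial hl
    | br b Sp t₁ t₀ => exact absurd (show p ≤ b from h1) (not_le.2 hB)
    | add b t₁ t₀ => exact absurd (show p ≤ b from h1) (not_le.2 hB)
    | pl b t => exact absurd (show p ≤ b from h1) (not_le.2 hB)
    | far b t₁ t₀ => exact absurd (show p ≤ b from h1) (not_le.2 hB)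
    | up b S σ =>
      have e : b = p := le_antisymm hB h1
      subst e
      have h2 : All Qp ⟨b, u.c, u.A, u.B⟩ σ := hq.2
      exact (hQ _ _ h2.self).upc q hqt b hp le_rfl hd

variable {s : St Λ κ} {u u' : NS} {τ τ' : IT}

/-- side conditions of the left side, `Blw` at the column (also inside a chain) -/
lemma ns_left (h : IS D sp P W U s u u' τ τ') (hl : ¬ s.t.isLeaf) (hl' : ¬ s.t'.isLeaf)
    (hB : ¬ s.p ∣ s.M ∨ Blw s.p τ) (hf : NF D Al CL c₀ s.p u τ s.A)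
    (hU : ∀ q ∈ Al, ∀ z : ℝ, (s.p:ℝ) ≤ z →
      ∑ l ∈ (U q).filter (fun l : ℕ => z < (l : ℝ)), (1 : ℝ) / l ≤ z ^ (-(1 / 2 : ℝ))) :
    NSd D Al P W CL c₀ s.p 1 s.M u τ s.A where
  node := h.qL.self.1
  il := hf.il
  lg := hf.lg
  mean := hf.mean
  ph := hf.ph
  ms := hf.ms
  once := fun q _ hq l h1 h2 h3 => by
    by_cases e : l = s.p
    · subst e
      rcases hB with hB | hB
      · exact hB h2
      · exact (blw_rd h.qL hB (h.nl hl) h1 hq ((dvd_pow_self _ two_ne_zero).trans h3)).2 h3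
    · have h4 := (h.gt_level hl hl' h1 (lt_of_le_of_ne (h.ge_p hl hl' h1 (Or.inl h2))
        (Ne.symm e))).1
      exact ((h.qL.self.2 q hq).1 l h1 h4 ((dvd_pow_self _ two_ne_zero).trans h3)).2 h3
  geM := fun l h1 h2 => h.ge_p hl hl' h1 (Or.inl h2)
  tame := fun z hz j _ h1 h2 => h.qL.self.tame h2
    (fun l h3 h4 => (h.level hl hl' hz l h3 h4).1) (hU _ h1 z hz)

/-- side conditions of the right side, `Blw` at the column (also inside a chain) -/
lemma ns_right (h : IS D sp P W U s u u' τ τ') (hl : ¬ s.t.isLeaf) (hl' : ¬ s.t'.isLeaf)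
    (hB : ¬ s.p ∣ s.M' ∨ Blw s.p τ') (hf : NF D Al CL c₀ s.p u' τ' s.A')
    (hU : ∀ q ∈ Al, ∀ z : ℝ, (s.p:ℝ) ≤ z →
      ∑ l ∈ (U q).filter (fun l : ℕ => z < (l : ℝ)), (1 : ℝ) / l ≤ z ^ (-(1 / 2 : ℝ))) :
    NSd D Al P W CL c₀ s.p 1 s.M' u' τ' s.A' where
  node := h.qR.self.1
  il := hf.il
  lg := hf.lg
  mean := hf.mean
  ph := hf.ph
  ms := hf.ms
  once := fun q _ hq l h1 h2 h3 => by
    by_cases e : l = s.p
    · subst e
      rcases hB with hB | hB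
      · exact hB h2
      · exact (blw_rd h.qR hB (h.nl' hl') h1 hq ((dvd_pow_self _ two_ne_zero).trans h3)).2 h3
    · have h4 := (h.gt_level hl hl' h1 (lt_of_le_of_ne (h.ge_p hl hl' h1 (Or.inr h2))
        (Ne.symm e))).2
      exact ((h.qR.self.2 q hq).1 l h1 h4 ((dvd_pow_self _ two_ne_zero).trans h3)).2 h3
  geM := fun l h1 h2 => h.ge_p hl hl' h1 (Or.inr h2)
  tame := fun z hz j _ h1 h2 => h.qR.self.tame h2
    (fun l h3 h4 => (h.level hl hl' hz l h3 h4).2) (hU _ h1 z hz)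

end Crest.Agent.R4P.OSFin710
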