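import Crest.Agent.R4P.OSCtxA_14
import Crest.Agent.R4P.OSDef710
import Crest.Agent.R4P.NMDef_10
import Crest.Agent.R4P.LinkG758

/-!
R4 (S0004), powers pass, group [O] (helper14), second part of the port of helper710's `R4/OSCtx710`:

* `ctx_OB` : node facts `OB` at all the nodes of a context.
* `fsl_data` : `FSL` for the concrete data (helper17's `fsok_osY`).
-/

set_option autoImplicit false
set_option linter.unusedSectionVars false
set_option linter.unusedVariables false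
open Finset

namespace Crest.Agent.R4P.OSCtx710

open Crest.Agent.R4.Tour104 Crest.Agent.R4.Tour758 Crest.Agent.R4.Avg758 Crest.Agent.R4.Clos758
open Crest.Agent.R4.ClosL758 Crest.Agent.R4.ClosG758 Crest.Agent.R4.ClosR758
open Crest.Agent.R4.Fam464 Crest.Agent.R4P.Cnt588 Crest.Agent.R4P.Walk560 Crest.Agent.R4.Piece464
open Crest.Agent.R4P.Item758 Crest.Agent.R4P.AvgItem710 Crest.Agent.R4P.PrunePar33
open Crest.Agent.R4P.Data758 Crest.Agent.R4P.WalkIT579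
open Crest.Agent.R4P.Bld532 (NS All NodeOk Bk)
open Crest.Agent.R4P.GInst194 Crest.Agent.R4P.NMW710 Crest.Agent.R4P.GSt927
open Crest.Agent.R4P.ColW710 Crest.Agent.R4P.ColY710 Crest.Agent.R4P.OSFin710
open Crest.Agent.R4P.NI927 Crest.Agent.R4P.Res927 Crest.Agent.R4P.OSWS245
open Crest.Agent.R4P.Link758 Crest.Agent.R4P.LinkG758
open Crest.Agent.R4P.GFinC927 (nn)
open Crest.Agent.R4P.Step588 (NDt ND1 ctx_NDt CT CT_pos tot_ge ctx_rr ctx_MsN All_All)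
open Crest.Agent.R4P.Skel189 (Ctx top)
open Crest.Agent.R4.DeepSt579 (tq tq_nonneg tq_le_one)
open Crest.Agent.R4P

variable {N : Skel189.Num} {γ : ℝ} {p0 P₀ : ℕ}

/-- **`OB` at all the nodes of a context** -/
theorem ctx_OB (N : Skel189.Num) {c₀ : ℝ} : ∃ p₁ : ℕ, ∀ p0 ≥ p₁, ∀ (γ : ℝ) (P₀ : ℕ)
    (X : Ctx N γ p0 P₀) (Y : Finset (ℕ × ℕ × Finset ℕ)), Mean X c₀ →
    All (OB (X.c.D.par Y) X.S' X.par (Crest.Agent.R4.Soft104.w X.ψ) X.c.t.uq (2 * CT) c₀ p0)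
      ⟨top X.S, 1, 1, 1⟩ X.c.t := by
  obtain ⟨p1, h1⟩ := ctx_lg N
  obtain ⟨p2, h2⟩ := ctx_NB N (c₀ := c₀)
  refine ⟨p1 + p2, fun p0 hp0 γ P₀ X Y hm => ?_⟩
  refine All.mono (fun u τ hh => ?_)
    (((ctx_NDt X).and (h2 p0 (by omega) γ P₀ X Y hm)).and (h1 p0 (by omega) γ P₀ X))
  obtain ⟨⟨hN, hB⟩, hlg⟩ := hh
  refine ⟨hB.nq, hlg, hB.mean, hB.ph, hB.ms, fun q hq l hl hn hd => ?_⟩
  have h3 := hN.self.sub hq
  have h4 := hN.rd q h3 l hd
  have h5 := hN.dvd q h3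
  have h6 := hN.self.pp q hq
  refine h4.trans ?_
  rw [h6] at h5 ⊢
  exact Nat.div_dvd_div_left h5 (Dvd.intro _ rfl)

/-- **`FSL` for the concrete data** (no accurate labels at the columns) -/
theorem fsl_data {c : Cf} {n : ℕ} (h : c.Ok n) (X : Finset (ℕ × ℕ × Finset ℕ))
    {sp : ℕ → Finset c.Lam} {Qp : NS → IT → Prop}
    (hMF : ∀ u τ, Qp u τ → MF c.t u τ ∧ u.n ≤ n)
    (hbig : ∀ u τ, Qp u τ → ∀ p Sp t₁ t₀, τ = .br p Sp t₁ t₀ →
      (1 : ℝ) / 2 ^ nn p ≤ c.wp.thr p ∧ ∀ q, ¬ Ac c p q)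
    {B₀ B₀' : ℕ} {x : XSt c.Lam (Lb (WL c.Lam) X)} :
    FSL (c.D.par X) sp c.rr Qp B₀ B₀' x := by
  constructor
  · intro u u' p Sp t₁ t₀ τ' hi hj hxp hbl
    obtain ⟨mf, hn⟩ := hMF _ _ hi.qL.self
    obtain ⟨mf', hn'⟩ := hMF _ _ hi.qR.self
    obtain ⟨hthr, hac⟩ := hbig _ _ hi.qL.self _ _ _ _ rfl
    have hpn : p < u.n := hi.okL.2.1
    have hpp : p.Prime := hi.okL.1
    obtain ⟨m, l1, l2, l3, l4, l5⟩ := hj.lv
    have hpm : p ≤ m := l1 p hpp hpn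
    have key := fsok_osY h X (N := nn p) hi.mL.pos hi.mR.pos hi.L hi.R hj.circ mf mf'
      (fun s hs hsp => (l3 s hs (lt_of_lt_of_le hsp hpm)).2) hbl (hpn.le.trans hn) hthr
    intro e i1 i2 hD hpos hFS
    rcases key e i1 i2 hD hpos hFS with h3 | h3 | h3
    · exact Or.inl h3
    · exact absurd h3 (hac _)
    · exact absurd h3 (hac _)
  · intro u u' p Sp τ t₁' t₀' hi hj hxp hbl
    obtain ⟨mf, hn⟩ := hMF _ _ hi.qL.self
    obtain ⟨mf', hn'⟩ := hMF _ _ hi.qR.self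
    obtain ⟨hthr, hac⟩ := hbig _ _ hi.qR.self _ _ _ _ rfl
    have hpn : p < u'.n := hi.okR.2.1
    have hpp : p.Prime := hi.okR.1
    obtain ⟨m, l1, l2, l3, l4, l5⟩ := hj.lv
    have hpm : p ≤ m := l2 p hpp hpn
    have key := fsok_osY h X (N := nn p) hi.mR.pos hi.mL.pos hi.R hi.L hj.circ.symm mf' mf
      (fun s hs hsp => (l3 s hs (lt_of_lt_of_le hsp hpm)).1) hbl (hpn.le.trans hn') hthr
    intro e i1 i2 hD hpos hFS
    rcases key e i1 i2 hD hpos hFS with h3 | h3 | h3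
    · exact Or.inl h3
    · exact absurd h3 (hac _)
    · exact absurd h3 (hac _)

end Crest.Agent.R4P.OSCtx710
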