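import Crest.Agent.R4P.AsmX_26
import Crest.Agent.R4P.NI_10
import Crest.Agent.R4P.OSCtxB_14

/-!
R4 (S0004) with powers, module D (crossing pairs), helper26: **facts at the crossing states**.

* `CS` : one side of a crossing state at the column `b`; `CZ` : both sides.
* `cz_oneL`, `cz_oneR`, `cz_jnt` : the crossing states of a step.
* `SFX` : the item facts of one side, in the letters of `ShotTot_33`, `ExcStrip_32`; `CS.sfx`.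
-/

set_option autoImplicit false
set_option linter.unusedSectionVars false
set_option linter.unusedVariables false

namespace Crest.Agent.R4P.CrsFacts26

open Crest.Agent.R4.Tour104 Crest.Agent.R4.Tour758 Crest.Agent.R4.Avg758 Crest.Agent.R4.Clos758
open Crest.Agent.R4.ClosL758 Crest.Agent.R4.ClosG758 Crest.Agent.R4.ClosR758
open Crest.Agent.R4.Fam464 Crest.Agent.R4P.Cnt588 Crest.Agent.R4P.Walk560 Crest.Agent.R4.Piece464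
open Crest.Agent.R4P.Item758 Crest.Agent.R4P.AvgItem710
open Crest.Agent.R4P.Data758 Crest.Agent.R4P.WalkIT579
open Crest.Agent.R4P.Bld532 (NS All NodeOk Bk)
open Crest.Agent.R4P.Res927 Crest.Agent.R4P.GSt927 Crest.Agent.R4P.OSWS245
open Crest.Agent.R4P.StopCtx9 (OFP RI rt rt_pos rt12 fS)
open Crest.Agent.R4P.Skel189 (Ctx top Part PartW)
open Crest.Agent.R4P.Frame758 (tM tN tG tD wt)
open Crest.Agent.R4P.ClosP542 (PulG)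
open Crest.Agent.R4.Item758 (AdI AdI_univ)
open Crest.Agent.R4P.VWalk36 (crs)
open Crest.Agent.R4P.Strip29 (Blind NoSplit)
open Crest.Agent.R4.Soft104
open Crest.Agent.R4P.Link758 (MF MF_root)
open Crest.Agent.R4P.Step588 (NDt ND1 ctx_NDt All_All ctx_rr)
open Crest.Agent.R4P.CtxX26 Crest.Agent.R4P.DeadX26 Crest.Agent.R4P.CrossSum29
open Crest.Agent.R4P.StratX36 Crest.Agent.R4P.SkelF29 Crest.Agent.R4P.Dd26
open Crest.Agent.R4P.AsmX26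
open Crest.Agent.R4.ClsB (Tame)
open Crest.Agent.R4.DeepSt579 (tq tq_nonneg tq_mono rd)
open Crest.Agent.R4P.OSFin710 (OB)
open Crest.Agent.R4P.StratN36 (ex)
open Crest.Agent.R4P

/-- the sum over all the one-sided columns of a state, also the settled column -/
lemma sum_OO {Λ κ : Type*} [Fintype Λ] [DecidableEq Λ] [Fintype κ] [DecidableEq κ] [WRel κ]
    {p0 : ℕ} {x : XSt Λ κ} (h : OFP x) (hO : OI p0 x) (hn : 1000 ≤ x.n) (hp : 64 ≤ x.s.p) :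
    ∑ l ∈ x.s.O ∪ x.s.O', (l : ℝ) ^ (-(11 / 12) : ℝ) ≤ 1 := by
  classical
  have eO : sO x.s = x.s.O.erase x.s.p := sO_erase hO.ge
  have eO' : sO' x.s = x.s.O'.erase x.s.p := sO'_erase hO.ge
  have hb := rt_pos (n := x.n) (by omega)
  have h1 : (1000 : ℝ) ≤ rt x.n ^ 12 := by rw [rt12]; exact_mod_cast hn
  have h2 : (5 : ℝ) ≤ rt x.n ^ 3 := by
    by_contra hc
    push Not at hc
    have h3 : (rt x.n ^ 3) ^ 4 < (5 : ℝ) ^ 4 := pow_lt_pow_left₀ hc (by positivity) (by norm_num)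
    have h4 : (rt x.n ^ 3) ^ 4 = rt x.n ^ 12 := by rw [← pow_mul]
    rw [h4] at h3
    norm_num at h3
    linarith
  have h5 : fS x.s ≤ 8 / 15 := by
    refine h.f.trans ?_
    have h6 : mS x.s * rt x.n ≤ 2 / rt x.n ^ 4 * rt x.n := mul_le_mul_of_nonneg_right h.m hb.le
    have h7 : 2 / rt x.n ^ 4 * rt x.n = 2 / rt x.n ^ 3 := by
      field_simp
    have h8 : 2 / 3 / rt x.n ^ 3 + 2 / rt x.n ^ 3 = (8 / 3) / rt x.n ^ 3 := by ring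
    have h9 : (8 / 3 : ℝ) / rt x.n ^ 3 ≤ 8 / 15 := by
      rw [div_le_div_iff₀ (by positivity) (by norm_num)]
      linarith
    linarith
  have h6 : ((x.s.p : ℕ) : ℝ) ^ (-(11 / 12) : ℝ) ≤ 7 / 15 := by
    have h7 : ((x.s.p : ℕ) : ℝ) ^ (-(11 / 12) : ℝ) ≤ (64 : ℝ) ^ (-(11 / 12) : ℝ) :=
      Real.rpow_le_rpow_of_nonpos (by norm_num) (by exact_mod_cast hp) (by norm_num)
    have h8 : (64 : ℝ) ^ (-(11 / 12) : ℝ) ≤ (64 : ℝ) ^ (-(1 / 2) : ℝ) :=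
      Real.rpow_le_rpow_of_exponent_le (by norm_num) (by norm_num)
    have h9 : (64 : ℝ) ^ (-(1 / 2) : ℝ) = 1 / 8 := by
      rw [show (64 : ℝ) = 8 ^ (2 : ℝ) by norm_num, ← Real.rpow_mul (by norm_num)]
      norm_num
    linarith
  have hsub : x.s.O ∪ x.s.O' ⊆ insert x.s.p (sO x.s ∪ sO' x.s) := by
    intro l hl
    rw [Finset.mem_insert, Finset.mem_union, eO, eO', Finset.mem_erase, Finset.mem_erase]
    rcases Finset.mem_union.1 hl with hl | hl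
    · by_cases e : l = x.s.p
      · exact Or.inl e
      · exact Or.inr (Or.inl ⟨e, hl⟩)
    · by_cases e : l = x.s.p
      · exact Or.inl e
      · exact Or.inr (Or.inr ⟨e, hl⟩)
  have hpn : x.s.p ∉ sO x.s ∪ sO' x.s := by
    rw [eO, eO']
    simp
  calc ∑ l ∈ x.s.O ∪ x.s.O', (l : ℝ) ^ (-(11 / 12) : ℝ)
      ≤ ∑ l ∈ insert x.s.p (sO x.s ∪ sO' x.s), (l : ℝ) ^ (-(11 / 12) : ℝ) :=
        Finset.sum_le_sum_of_subset_of_nonneg hsub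
          fun q _ _ => Real.rpow_nonneg (Nat.cast_nonneg _) _
    _ = ((x.s.p : ℕ) : ℝ) ^ (-(11 / 12) : ℝ) + fS x.s := by
        rw [Finset.sum_insert hpn]
        rfl
    _ ≤ 1 := by linarith

section ctx
variable {N : Skel189.Num} {γ : ℝ} {p0 P₀ : ℕ}

/-- one side of a crossing state at the column `b` -/
structure CS (X : Ctx N γ p0 P₀) (j₀ : X.c.Lam) (Q' : NS → IT → Prop) (b : ℕ) (v : NS) (σ : IT)
    (d : DT X.c.Lam (Lb (WL X.c.Lam) X.Y)) : Prop where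
  I : SideI (X.c.D.par X.Y) X.c.sp v.B v.A σ Finset.univ d
  ok : σ.Ok v.n
  q : All (QE X j₀ Q') v σ
  lv : ∀ l : ℕ, l.Prime → l < v.n → l ≤ b
  ll : ∀ l : ℕ, l.Prime → l < b → l < v.n

/-- **a crossing state at the column `b`** -/
structure CZ (X : Ctx N γ p0 P₀) (j₀ : X.c.Lam) (Q' : NS → IT → Prop) (b : ℕ) (z : X.Sta)
    (v v' : NS) (σ σ' : IT) : Prop where
  bp : b.Prime
  b0 : p0 < b
  L : CS X j₀ Q' b v σ z.t
  R : CS X j₀ Q' b v' σ' z.t'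
  circ : v.A * v.B * z.M = v'.A * v'.B * z.M'
  mL : MS b z.M z.O'
  mR : MS b z.M' z.O
  A : z.A = Finset.univ
  A' : z.A' = Finset.univ
  sM : ∑ l ∈ z.M.primeFactors, (l : ℝ) ^ (-(11 / 12) : ℝ) ≤ 1
  sM' : ∑ l ∈ z.M'.primeFactors, (l : ℝ) ^ (-(11 / 12) : ℝ) ≤ 1

variable {X : Ctx N γ p0 P₀} {j₀ : X.c.Lam} {Q' : NS → IT → Prop}
  {J : XSt X.c.Lam (Lb (WL X.c.Lam) X.Y) → NS → NS → IT → IT → Prop}
  {b : ℕ} {z : X.Sta} {v v' : NS} {σ σ' : IT}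

lemma CZ.st (h : CZ X j₀ Q' b z v v' σ σ') :
    StI (X.c.D.par X.Y) X.c.sp z v.B v.A σ v'.B v'.A σ' := by
  refine ⟨?_, ?_, h.mL.pos, h.mR.pos⟩
  · rw [h.A]; exact h.L.I
  · rw [h.A']; exact h.R.I

/-- the facts of a state which makes a step -/
structure XP (X : Ctx N γ p0 P₀) (j₀ : X.c.Lam) (Q' : NS → IT → Prop)
    (x : XSt X.c.Lam (Lb (WL X.c.Lam) X.Y)) (v v' : NS) (σ σ' : IT) : Prop where
  bp : x.s.p.Prime
  b0 : p0 < x.s.p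
  pn : x.s.p < x.n
  L : CS X j₀ Q' x.s.p v σ x.s.t
  R : CS X j₀ Q' x.s.p v' σ' x.s.t'
  circ : v.A * v.B * x.s.M = v'.A * v'.B * x.s.M'
  mL : MS x.s.p x.s.M x.s.O'
  mR : MS x.s.p x.s.M' x.s.O
  A : x.s.A = Finset.univ
  A' : x.s.A' = Finset.univ
  sM : ∑ l ∈ x.s.M.primeFactors, (l : ℝ) ^ (-(11 / 12) : ℝ) ≤ 1
  sM' : ∑ l ∈ x.s.M'.primeFactors, (l : ℝ) ^ (-(11 / 12) : ℝ) ≤ 1

theorem wix_xp {u₀ : NS} {x : XSt X.c.Lam (Lb (WL X.c.Lam) X.Y)} (hp0 : 1000 ≤ p0)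
    (h : WIX X j₀ Q' J u₀ x v v' σ σ') (hl : ¬ x.s.t.isLeaf) (hl' : ¬ x.s.t'.isLeaf) :
    XP X j₀ Q' x v v' σ σ' := by
  obtain ⟨l1, l2, hpp⟩ := HJ.lev (P := X.par) (W := w X.ψ) (fun u τ hq => (QE.nf hq).ok) h.hi h.js
    hl hl'
  have hn := h.xi.n
  have hO := sum_OO h.of h.oi
  have hb0 : p0 < x.s.p := by
    have hwt := wt_of_HJ (μ := X.tm j₀) (rB := CtxNF36.rdB j₀) (P := X.par) (W := w X.ψ)
      (fun u τ h => QE.nf h) h.hi h.js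
    exact (WT.prime (fun u τ h => QE.nf h) hwt hl hl').2
  have hpn : x.s.p < x.n := hn
  have hs := hO (by omega) (by omega)
  have hsub : ∀ O : Finset ℕ, O ⊆ x.s.O ∪ x.s.O' → ∑ l ∈ O, (l : ℝ) ^ (-(11 / 12) : ℝ) ≤ 1 :=
    fun O hO => (Finset.sum_le_sum_of_subset_of_nonneg hO
      fun q _ _ => Real.rpow_nonneg (Nat.cast_nonneg _) _).trans hs
  have hLs := h.hi.L
  have hRs := h.hi.R
  rw [h.A] at hLs
  rw [h.A'] at hRs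
  exact
    { bp := hpp
      b0 := hb0
      pn := hpn
      L := ⟨hLs, h.hi.okL, h.hi.qL, l1.1, l1.2⟩
      R := ⟨hRs, h.hi.okR, h.hi.qR, l2.1, l2.2⟩
      circ := h.js.circ
      mL := h.hi.mL
      mR := h.hi.mR
      A := h.A
      A' := h.A'
      sM := by rw [h.hi.mL.eq]; exact hsub _ Finset.subset_union_right
      sM' := by rw [h.hi.mR.eq]; exact hsub _ Finset.subset_union_left }

/-- a child of an add node at the column `b` -/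
lemma CS.child {u : NS} {τ σ₂ : IT} {d d' : DT X.c.Lam (Lb (WL X.c.Lam) X.Y)}
    (h : CS X j₀ Q' b u τ d) (hq : All (QE X j₀ Q') ⟨b + 1, u.c, u.A, u.B⟩ σ)
    (hd : d' = (X.c.D.par X.Y).toDT X.c.sp u.B u.A σ)
    (hk : (τ = .add b σ σ₂ ∨ τ = .add b σ₂ σ) ∨ (τ = .far b σ σ₂ ∧ ∃ F, σ = .leaf F) ∨
      (τ = .far b σ₂ σ ∧ ∃ F, σ₂ = .leaf F)) :
    CS X j₀ Q' b ⟨b + 1, u.c, u.A, u.B⟩ σ d' := by
  obtain ⟨h3, h4⟩ := side_add (v := ⟨b + 1, u.c, u.A, u.B⟩) h.I h.ok rfl hk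
  refine ⟨?_, h4, hq, fun l _ hl => Nat.lt_succ_iff.1 hl, fun l _ hl => Nat.lt_succ_of_lt hl⟩
  rw [hd]
  exact h3

/-- the children of the node of a one-sided step -/
lemma CS.oc {u : NS} {τ σX σC : IT} {d dX dC : DT X.c.Lam (Lb (WL X.c.Lam) X.Y)}
    (h : CS X j₀ Q' b u τ d) (hC : OC (X.c.D.par X.Y) X.c.sp (QE X j₀ Q') b u τ σX σC dX dC) :
    CS X j₀ Q' b ⟨b + 1, u.c, u.A, u.B⟩ σX dX ∧ CS X j₀ Q' b ⟨b + 1, u.c, u.A, u.B⟩ σC dC := by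
  refine ⟨h.child hC.qX hC.eX hC.it, h.child (σ₂ := σX) hC.qC hC.eC ?_⟩
  rcases hC.it with (e | e) | ⟨e, h⟩ | ⟨e, h⟩
  · exact Or.inl (Or.inr e)
  · exact Or.inl (Or.inl e)
  · exact Or.inr (Or.inr ⟨e, h⟩)
  · exact Or.inr (Or.inl ⟨e, h⟩)

lemma CS.ac {u : NS} {τ σ₁ σ₀ : IT} {d d₁ d₀ : DT X.c.Lam (Lb (WL X.c.Lam) X.Y)}
    (h : CS X j₀ Q' b u τ d) (hC : AC (X.c.D.par X.Y) X.c.sp (QE X j₀ Q') b u τ σ₁ σ₀ d₁ d₀) :
    CS X j₀ Q' b ⟨b + 1, u.c, u.A, u.B⟩ σ₁ d₁ ∧ CS X j₀ Q' b ⟨b + 1, u.c, u.A, u.B⟩ σ₀ d₀ := by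
  obtain ⟨_, a⟩ := hC.m1
  obtain ⟨_, b'⟩ := hC.m0
  exact ⟨h.child hC.q1 hC.e1 a, h.child hC.q0 hC.e0 b'⟩

variable {u₀ : NS} {x : XSt X.c.Lam (Lb (WL X.c.Lam) X.Y)} {st : X.Sta → Prop}

/-- the strategy of a context -/
noncomputable abbrev SX (X : Ctx N γ p0 P₀) (j₀ : X.c.Lam) (st : X.Sta → Prop) : X.STP :=
  StX st (X.tm j₀) X.c.D.it (CtxNF36.rdB j₀) X.par.sg

/-- the crossing state from the facts of the state -/
lemma XP.czL {u : NS} {τ : IT} {d : DT X.c.Lam (Lb (WL X.c.Lam) X.Y)}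
    (h : XP X j₀ Q' x v v' σ σ') (hc : CS X j₀ Q' x.s.p ⟨x.s.p + 1, v.c, v.A, v.B⟩ τ d) :
    CZ X j₀ Q' x.s.p { x.s with t := d } ⟨x.s.p + 1, v.c, v.A, v.B⟩ v' τ σ' :=
  ⟨h.bp, h.b0, hc, h.R, h.circ, h.mL, h.mR, h.A, h.A', h.sM, h.sM'⟩

lemma XP.czR {u : NS} {τ : IT} {d : DT X.c.Lam (Lb (WL X.c.Lam) X.Y)}
    (h : XP X j₀ Q' x v v' σ σ') (hc : CS X j₀ Q' x.s.p ⟨x.s.p + 1, v'.c, v'.A, v'.B⟩ τ d) :
    CZ X j₀ Q' x.s.p { x.s with t' := d } v ⟨x.s.p + 1, v'.c, v'.A, v'.B⟩ σ τ :=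
  ⟨h.bp, h.b0, h.L, hc, h.circ, h.mL, h.mR, h.A, h.A', h.sM, h.sM'⟩

lemma XP.czJ {τ τ' : IT} {d d' : DT X.c.Lam (Lb (WL X.c.Lam) X.Y)}
    (h : XP X j₀ Q' x v v' σ σ') (hc : CS X j₀ Q' x.s.p ⟨x.s.p + 1, v.c, v.A, v.B⟩ τ d)
    (hc' : CS X j₀ Q' x.s.p ⟨x.s.p + 1, v'.c, v'.A, v'.B⟩ τ' d') :
    CZ X j₀ Q' x.s.p { x.s with t := d, t' := d' } ⟨x.s.p + 1, v.c, v.A, v.B⟩
      ⟨x.s.p + 1, v'.c, v'.A, v'.B⟩ τ τ' :=
  ⟨h.bp, h.b0, hc, hc', h.circ, h.mL, h.mR, h.A, h.A', h.sM, h.sM'⟩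

/-- **the crossing state of a left one-sided step** -/
theorem cz_oneL (hG : PG X.par (w X.ψ)) (hp0 : 1000 ≤ p0) (h : WIX X j₀ Q' J u₀ x v v' σ σ')
    {r : X.c.Lam → Lb (WL X.c.Lam) X.Y} {t₁ t₀ : DT X.c.Lam (Lb (WL X.c.Lam) X.Y)}
    (ho : OneL (SX X j₀ st) x.s r t₁ t₀) :
    XP X j₀ Q' x v v' σ σ' ∧ ∃ σX σC,
      CS X j₀ Q' x.s.p ⟨x.s.p + 1, v.c, v.A, v.B⟩ σX ((SX X j₀ st).x x.s t₁ t₀) ∧
      CS X j₀ Q' x.s.p ⟨x.s.p + 1, v.c, v.A, v.B⟩ σC ((SX X j₀ st).c x.s t₁ t₀) ∧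
      CZ X j₀ Q' x.s.p { x.s with t := (SX X j₀ st).x x.s t₁ t₀ }
        ⟨x.s.p + 1, v.c, v.A, v.B⟩ v' σX σ' ∧
      OC (X.c.D.par X.Y) X.c.sp (QE X j₀ Q') x.s.p v σ σX σC ((SX X j₀ st).x x.s t₁ t₀)
        ((SX X j₀ st).c x.s t₁ t₀) ∧
      XF X.par (w X.ψ) x.s.p (ex x.s.p v'.B) σ.items σX.items σC.items σ'.items
        (dd ((SX X j₀ st).x x.s t₁ t₀)) (dd ((SX X j₀ st).c x.s t₁ t₀)) := by
  have hx := wix_xp hp0 h ho.prp.nl ho.prp.nl'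
  obtain ⟨σX, σC, -, -, h3, h4⟩ := oneL_x (st := st) hG (fun u τ h => QE.nf h) h.hi h.js h.j.2.1 ho
  obtain ⟨k1, k2⟩ := hx.L.oc h3
  exact ⟨hx, σX, σC, k1, k2, hx.czL (u := v) k1, h3, h4⟩

/-- **the crossing state of a right one-sided step** -/
theorem cz_oneR (hG : PG X.par (w X.ψ)) (hp0 : 1000 ≤ p0) (h : WIX X j₀ Q' J u₀ x v v' σ σ')
    {r : X.c.Lam → Lb (WL X.c.Lam) X.Y} {t₁ t₀ : DT X.c.Lam (Lb (WL X.c.Lam) X.Y)}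
    (ho : OneR (SX X j₀ st) x.s r t₁ t₀) :
    XP X j₀ Q' x v v' σ σ' ∧ ∃ σX σC,
      CS X j₀ Q' x.s.p ⟨x.s.p + 1, v'.c, v'.A, v'.B⟩ σX ((SX X j₀ st).x x.s t₁ t₀) ∧
      CS X j₀ Q' x.s.p ⟨x.s.p + 1, v'.c, v'.A, v'.B⟩ σC ((SX X j₀ st).c x.s t₁ t₀) ∧
      CZ X j₀ Q' x.s.p { x.s with t' := (SX X j₀ st).x x.s t₁ t₀ }
        v ⟨x.s.p + 1, v'.c, v'.A, v'.B⟩ σ σX ∧
      OC (X.c.D.par X.Y) X.c.sp (QE X j₀ Q') x.s.p v' σ' σX σC ((SX X j₀ st).x x.s t₁ t₀)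
        ((SX X j₀ st).c x.s t₁ t₀) ∧
      XF X.par (w X.ψ) x.s.p (ex x.s.p v.B) σ'.items σX.items σC.items σ.items
        (dd ((SX X j₀ st).x x.s t₁ t₀)) (dd ((SX X j₀ st).c x.s t₁ t₀)) := by
  have hx := wix_xp hp0 h ho.prp.nl ho.prp.nl'
  obtain ⟨σX, σC, -, -, h3, h4⟩ := oneR_x (st := st) hG (fun u τ h => QE.nf h) h.hi h.js h.j.2.1 ho
  obtain ⟨k1, k2⟩ := hx.R.oc h3
  exact ⟨hx, σX, σC, k1, k2, hx.czR (u := v) k1, h3, h4⟩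

/-- **the crossing states of a joint step** -/
theorem cz_jnt (hG : PG X.par (w X.ψ)) (hp0 : 1000 ≤ p0) (h : WIX X j₀ Q' J u₀ x v v' σ σ')
    {r r' : X.c.Lam → Lb (WL X.c.Lam) X.Y} {t₁ t₀ t₁' t₀' : DT X.c.Lam (Lb (WL X.c.Lam) X.Y)}
    (ho : Jnt (SX X j₀ st) x.s r t₁ t₀ r' t₁' t₀') :
    XP X j₀ Q' x v v' σ σ' ∧ ∃ σ₁ σ₀ σ₁' σ₀',
      (CS X j₀ Q' x.s.p ⟨x.s.p + 1, v.c, v.A, v.B⟩ σ₁ t₁ ∧
        CS X j₀ Q' x.s.p ⟨x.s.p + 1, v.c, v.A, v.B⟩ σ₀ t₀ ∧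
        CS X j₀ Q' x.s.p ⟨x.s.p + 1, v'.c, v'.A, v'.B⟩ σ₁' t₁' ∧
        CS X j₀ Q' x.s.p ⟨x.s.p + 1, v'.c, v'.A, v'.B⟩ σ₀' t₀') ∧
      CZ X j₀ Q' x.s.p { x.s with t := t₁, t' := t₀' } ⟨x.s.p + 1, v.c, v.A, v.B⟩
        ⟨x.s.p + 1, v'.c, v'.A, v'.B⟩ σ₁ σ₀' ∧
      CZ X j₀ Q' x.s.p { x.s with t := t₀, t' := t₁' } ⟨x.s.p + 1, v.c, v.A, v.B⟩
        ⟨x.s.p + 1, v'.c, v'.A, v'.B⟩ σ₀ σ₁' ∧
      AC (X.c.D.par X.Y) X.c.sp (QE X j₀ Q') x.s.p v σ σ₁ σ₀ t₁ t₀ ∧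
      AC (X.c.D.par X.Y) X.c.sp (QE X j₀ Q') x.s.p v' σ' σ₁' σ₀' t₁' t₀' ∧
      ex x.s.p v.B = 0 ∧ ex x.s.p v'.B = 0 ∧
      JF X.par (w X.ψ) x.s.p σ.items σ₁.items σ₀.items σ'.items σ₁'.items σ₀'.items := by
  have hx := wix_xp hp0 h ho.prp.nl ho.prp.nl'
  obtain ⟨σ₁, σ₀, σ₁', σ₀', -, -, -, hA, hA', h0, h0', hJ⟩ :=
    jnt_x (st := st) hG (fun u τ h => QE.nf h) h.hi h.js ho
  obtain ⟨k1, k2⟩ := hx.L.ac hA
  obtain ⟨k3, k4⟩ := hx.R.ac hA'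
  exact ⟨hx, σ₁, σ₀, σ₁', σ₀', ⟨k1, k2, k3, k4⟩, hx.czJ k1 k4, hx.czJ k2 k3, hA, hA', h0, h0', hJ⟩

/-! ### item facts -/

/-- **item facts of one side** at a crossing state of the column `b` -/
structure SFX (X : Ctx N γ p0 P₀) (CL : ℝ) (b M : ℕ) (u : NS) (τ : IT) : Prop where
  A0 : τ.items.Nonempty → 0 < u.A
  B0 : 0 < u.B
  q0 : ∀ q ∈ τ.items, 0 < q ∧ u.A ∣ q
  on : ∀ q ∈ τ.items, ∀ l : ℕ, l.Prime → l ∣ M → l ≠ b → ¬ l ^ 2 ∣ q / u.A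
  tame : ∀ z : ℝ, (b : ℝ) ≤ z → ∀ q ∈ τ.items, q ∈ X.S' → Tame z 1 (q / u.A / M.gcd (q / u.A))
  lg : ∀ q ∈ τ.items, q ∈ X.S' → 1 ≤ CL * Real.log b * tq (q / u.A / M.gcd (q / u.A))
  ms : ∀ V : Finset ℕ, V ⊆ τ.items → (∀ q ∈ V, q ∈ X.S') →
    ∑ q ∈ V, rd u.B 1 X.c.rr q * tq (q / u.A) ≤ u.c * Ws (w X.ψ) V

theorem CS.sfx {CL c₀ : ℝ} {d : DT X.c.Lam (Lb (WL X.c.Lam) X.Y)} {M : ℕ} {O : Finset ℕ}
    (hQB : ∀ u τ, Q' u τ → OB (X.c.D.par X.Y) X.S' X.par (w X.ψ) X.c.t.uq CL c₀ p0 u τ)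
    (hUt : ∀ q ∈ X.S', ∀ z : ℝ, (b : ℝ) ≤ z →
      ∑ l ∈ (X.c.t.uq q).filter (fun l : ℕ => z < (l : ℝ)), (1 : ℝ) / l ≤ z ^ (-(1 / 2 : ℝ)))
    (hb : p0 < b) (hCL : 0 ≤ CL) (hM : MS b M O) (h : CS X j₀ Q' b v σ d) : SFX X CL b M v σ := by
  have hs := h.q.self
  have hOB := hQB _ _ hs.ext
  have hbk := WalkIT579.bk_of_nodeOk hs.nf.ok
  have hpos : ∀ q ∈ σ.items, 0 < q := fun q hq => hbk.pos q hq
  have hF : Fit v.B v.A σ := h.I.hF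
  have hdv : ∀ q ∈ σ.items, v.A ∣ q := fun q hq => (hF.item q hq).2.1
  have hA0 : ∀ q ∈ σ.items, 0 < q / v.A := fun q hq =>
    Nat.div_pos (Nat.le_of_dvd (hpos q hq) (hdv q hq)) (Nat.pos_of_dvd_of_pos (hdv q hq) (hpos q hq))
  have hge : ∀ l : ℕ, l.Prime → b < l → v.n ≤ l := fun l hl hbl => by
    by_contra hc
    have := h.lv l hl (not_le.1 hc)
    omega
  have hw0 : ∀ q ∈ σ.items, 0 < q / v.A / M.gcd (q / v.A) := fun q hq =>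
    Nat.div_pos (Nat.le_of_dvd (hA0 q hq) (Nat.gcd_dvd_right _ _)) (Nat.gcd_pos_of_pos_left _ hM.pos)
  have hwd : ∀ q, q / v.A / M.gcd (q / v.A) ∣ q / v.A := fun q =>
    Nat.div_dvd_of_dvd (Nat.gcd_dvd_right _ _)
  refine ⟨?_, h.I.hb, fun q hq => ⟨hpos q hq, hdv q hq⟩, ?_, ?_, ?_, ?_⟩
  · rintro ⟨q, hq⟩
    exact Nat.pos_of_dvd_of_pos (hdv q hq) (hpos q hq)
  · intro q hq l hl hd hne h2
    have hb1 : b ≤ l := hM.geM hl hd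
    exact hs.nd.self.rad q hq l hl (hge l hl (lt_of_le_of_ne hb1 (Ne.symm hne))) h2
  · intro z hz q hq hS
    refine ⟨one_dvd _, ?_⟩
    rw [Nat.div_one]
    refine le_trans (Finset.sum_le_sum_of_subset_of_nonneg ?_ fun l _ _ => by positivity)
      (hUt q hS z hz)
    intro l hl
    obtain ⟨h1, h2⟩ := Finset.mem_filter.1 hl
    have hlp := Nat.prime_of_mem_primeFactors h1
    have hld := (Nat.dvd_of_mem_primeFactors h1).trans (hwd q)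
    have hbl : b < l := by exact_mod_cast lt_of_le_of_lt hz h2
    exact Finset.mem_filter.2 ⟨(hs.nq.2 q hq).1 l hlp (hge l hlp hbl) hld |>.1, h2⟩
  · intro q hq hS
    have h1 := hOB.lg b hb.le (fun r hr hrn => h.lv r hr hrn) q hS hq
    refine h1.trans (mul_le_mul_of_nonneg_left (tq_mono (hwd q) (hA0 q hq)) ?_)
    exact mul_nonneg hCL (Real.log_natCast_nonneg b)
  · intro V hV hS
    unfold Cnt588.Ws
    rw [Finset.mul_sum]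
    refine Finset.sum_le_sum fun q hq => ?_
    have h1 := hOB.ms q (hS q hq) (hV hq)
    have h2 : rd v.B 1 X.c.rr q = (v.B : ℝ) * (X.ψ q / 2) := by
      unfold rd
      rw [ctx_rr X (hS q hq), Nat.cast_one, div_one]
    have h3 : w X.ψ q = X.ψ q * tq q := by
      unfold Crest.Agent.R4.Soft104.w tq
      ring
    have h4 := (X.prn.pos q (hS q hq)).le
    rw [h2, h3]
    nlinarith [mul_le_mul_of_nonneg_left h1 (half_pos (X.prn.pos q (hS q hq))).le]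

/-! ### sizes of the masses -/

lemma lo_anti {C : ℝ} (hC : 0 ≤ C) {p b : ℕ} (hp : 3 ≤ p) (h : p ≤ b) :
    Real.log b ^ (-C) ≤ Real.log p ^ (-C) := by
  have h1 := Bld532.one_le_log_nat hp
  exact Real.rpow_le_rpow_of_nonpos (by linarith)
    (Real.log_le_log (by positivity) (by exact_mod_cast h)) (by linarith)

lemma hi_mono {C : ℝ} (hC : 0 ≤ C) {p b : ℕ} (hp : 3 ≤ p) (h : p ≤ b) :
    Real.log p ^ C ≤ Real.log b ^ C := by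
  have h1 := Bld532.one_le_log_nat hp
  exact Real.rpow_le_rpow (by linarith) (Real.log_le_log (by positivity) (by exact_mod_cast h)) hC

/-- **a node which is not dead has mass at least `(log b)^(-C1)`** -/
theorem lo_of_not_dd (hp3 : 3 ≤ p0) : ∀ (σ : IT) (v : NS), All (NodeOk X.par (w X.ψ)) v σ →
    (∀ l : ℕ, l.Prime → l < v.n → l ≤ b) →
    ¬ dd ((X.c.D.par X.Y).toDT X.c.sp v.B v.A σ) →
    Real.log b ^ (-N.C1) ≤ v.c * Ws (w X.ψ) σ.items := by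
  have hC1 : 0 ≤ N.C1 := by have := N.hC1; linarith
  intro σ
  induction σ with
  | leaf S => intro v _ _ h; exact absurd trivial h
  | br p Sp t₁ t₀ ih₁ ih₀ =>
    intro v hn hl _
    obtain ⟨a1, a2, a3, -, -, -, -, -, -, a4, -⟩ := hn.self
    exact (lo_anti hC1 (by have : p0 < p := a3; omega) (hl p a1 a2)).trans a4
  | add p t₁ t₀ ih₁ ih₀ =>
    intro v hn hl _
    obtain ⟨a1, a2, a3, -, -, -, a4, -⟩ := hn.self
    exact (lo_anti hC1 (by have : p0 < p := a3; omega) (hl p a1 a2)).trans a4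
  | up p Sp t ih =>
    intro v hn hl _
    obtain ⟨a1, a2, a3, -, -, -, -, a4, -⟩ := hn.self
    exact (lo_anti hC1 (by have : p0 < p := a3; omega) (hl p a1 a2)).trans a4
  | pl p t ih =>
    intro v hn hl hd
    obtain ⟨a1, a2, -⟩ := hn.self
    refine ih ⟨p + 1, v.c, v.A * p, v.B⟩ hn.2 (fun l hlp hlt => ?_) (fun hd' => hd ⟨rfl, hd'⟩)
    exact (Nat.lt_succ_iff.1 hlt).trans (hl p a1 a2)
  | far p t₁ t₀ ih₁ ih₀ =>
    intro v hn hl _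
    obtain ⟨a1, a2, a3, -, -, -, a4, -⟩ := hn.self
    exact (lo_anti hC1 (by have : p0 < p := a3; omega) (hl p a1 a2)).trans a4

/-- **a node which is not a leaf has mass at most `(log b)^c2`** -/
theorem hi_of_nl (hp3 : 3 ≤ p0) {σ : IT} {v : NS} (hn : NodeOk X.par (w X.ψ) v σ)
    (hl : ∀ l : ℕ, l.Prime → l < v.n → l ≤ b) (hd : ¬ isL σ) :
    v.c * Ws (w X.ψ) σ.items ≤ Real.log b ^ N.c2 := by
  have hc2 : 0 ≤ N.c2 := by have := N.hc2; linarith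
  cases σ with
  | leaf S => exact absurd trivial hd
  | br p Sp t₁ t₀ =>
    obtain ⟨a1, a2, a3, -, -, -, -, -, -, -, a4, -⟩ := hn
    exact a4.trans (hi_mono hc2 (by have : p0 < p := a3; omega) (hl p a1 a2))
  | add p t₁ t₀ =>
    obtain ⟨a1, a2, a3, -, -, -, -, a4, -⟩ := hn
    exact a4.trans (hi_mono hc2 (by have : p0 < p := a3; omega) (hl p a1 a2))
  | up p Sp t =>
    obtain ⟨a1, a2, a3, -, -, -, -, -, a4, -⟩ := hn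
    exact a4.trans (hi_mono hc2 (by have : p0 < p := a3; omega) (hl p a1 a2))
  | pl p t =>
    obtain ⟨a1, a2, a3, -, -, -, a4⟩ := hn
    exact a4.trans (hi_mono hc2 (by have : p0 < p := a3; omega) (hl p a1 a2))
  | far p t₁ t₀ =>
    obtain ⟨a1, a2, a3, -, -, -, -, a4, -⟩ := hn
    exact a4.trans (hi_mono hc2 (by have : p0 < p := a3; omega) (hl p a1 a2))

/-- an add node is alive and its mass is at least `(log b)^(-C1)` -/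
theorem CS.lo (hp3 : 3 ≤ p0) {d : DT X.c.Lam (Lb (WL X.c.Lam) X.Y)} (h : CS X j₀ Q' b v σ d)
    (hd : ¬ dd d) : Real.log b ^ (-N.C1) ≤ X.tn j₀ d.g := by
  have h1 := lo_of_not_dd (X := X) (b := b) hp3 σ v (h.q.mono fun u τ h => h.nf.ok) h.lv
    (by rw [← h.I.eq]; exact hd)
  rw [h.I.eq, (X.c.D.par X.Y).toDT_g]
  exact h1.trans h.q.self.mass.ge

theorem CS.mass {d : DT X.c.Lam (Lb (WL X.c.Lam) X.Y)} (h : CS X j₀ Q' b v σ d) :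
    X.tn j₀ d.g = v.c * Ws (w X.ψ) σ.items := by
  rw [h.I.eq, (X.c.D.par X.Y).toDT_g]
  exact h.q.self.mass

theorem CS.hi (hp3 : 3 ≤ p0) {d : DT X.c.Lam (Lb (WL X.c.Lam) X.Y)} (h : CS X j₀ Q' b v σ d)
    (hd : ¬ d.isLeaf) : X.tn j₀ d.g ≤ Real.log b ^ N.c2 := by
  rw [h.mass]
  exact hi_of_nl hp3 h.q.self.nf.ok h.lv fun hl => hd (by
    rw [h.I.eq]; exact (WalkIT579.toDT_leaf _ _ _ _ _).2 hl)

end ctx

end Crest.Agent.R4P.CrsFacts26
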