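import Crest.Agent.R4P.HullStep_31
import Crest.Agent.R4P.CrsFacts_26

/-!
R4 (S0004) with powers, module D (crossing pairs), helper26: **the hull potential (helper31) in a context**.

* `wix_vld` : validity of the data `WIX`.
* `hull_oneL`, `hull_oneR`, `hull_jnt` : what the hull potential pays at the add steps, all data.
-/

set_option autoImplicit false
set_option linter.unusedSectionVars false
set_option linter.unusedVariables false

namespace Crest.Agent.R4P.HullCtx26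

open Crest.Agent.R4.Tour104 Crest.Agent.R4.Tour758 Crest.Agent.R4.Avg758 Crest.Agent.R4.Clos758
open Crest.Agent.R4.ClosL758 Crest.Agent.R4.ClosG758 Crest.Agent.R4.ClosR758
open Crest.Agent.R4.Fam464 Crest.Agent.R4P.Cnt588 Crest.Agent.R4P.Walk560 Crest.Agent.R4.Piece464
open Crest.Agent.R4P.Item758 Crest.Agent.R4P.AvgItem710
open Crest.Agent.R4P.Data758 Crest.Agent.R4P.WalkIT579
open Crest.Agent.R4P.Bld532 (NS All NodeOk Bk)
open Crest.Agent.R4P.Res927 Crest.Agent.R4P.GSt927 Crest.Agent.R4P.OSWS245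
open Crest.Agent.R4P.Skel189 (Ctx top Part PartW)
open Crest.Agent.R4P.Frame758 (tM tN tG tD wt)
open Crest.Agent.R4.Item758 (AdI AdI_univ)
open Crest.Agent.R4P.VWalk36 (crs)
open Crest.Agent.R4P.Strip29 (Blind NoSplit)
open Crest.Agent.R4.Soft104
open Crest.Agent.R4P.CtxX26 Crest.Agent.R4P.DeadX26 Crest.Agent.R4P.CrossSum29
open Crest.Agent.R4P.StratX36 Crest.Agent.R4P.SkelF29 Crest.Agent.R4P.Dd26
open Crest.Agent.R4P.AsmX26 Crest.Agent.R4P.CrsFacts26 Crest.Agent.R4P.Hull31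
open Crest.Agent.R4P.StratN36 (ex CutN FarN DomE)
open Crest.Agent.R4P

section ctx
variable {N : Skel189.Num} {γ : ℝ} {p0 P₀ : ℕ} {X : Ctx N γ p0 P₀} {j₀ : X.c.Lam}
  {Q' : NS → IT → Prop}

/-- a property of the states as extra part of the invariant -/
abbrev JS1 (X : Ctx N γ p0 P₀) (JJ : XSt X.c.Lam (Lb (WL X.c.Lam) X.Y) → Prop)
    (x : XSt X.c.Lam (Lb (WL X.c.Lam) X.Y)) (_ _ : NS) (_ _ : IT) : Prop := JJ x

/-- the data of a walk -/
def VX (X : Ctx N γ p0 P₀) (j₀ : X.c.Lam) (Q' : NS → IT → Prop)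
    (JJ : XSt X.c.Lam (Lb (WL X.c.Lam) X.Y) → Prop) (u₀ : NS)
    (y : YD X.c.Lam (Lb (WL X.c.Lam) X.Y)) : Prop :=
  WIX X j₀ Q' (JS1 X JJ) u₀ y.x y.v y.v' y.σ y.σ'

variable {JJ : XSt X.c.Lam (Lb (WL X.c.Lam) X.Y) → Prop}

theorem jn_JS1 {stp : X.STP} (hst : ∀ s : X.Sta, ¬ stp s → ¬ stpN s)
    (hJJ : ∀ x : XSt X.c.Lam (Lb (WL X.c.Lam) X.Y), XI x → JJ x →
      ∀ e ∈ steps stp (IMI194.dvM GInst194.mI) x, JJ e.y) :
    Jn (X.c.D.par X.Y) X.c.sp (QE X j₀ Q') stp (JS1 X JJ) := by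
  intro B₀ B₀' x v v' σ σ' h1 h2 h3 h4 e he
  obtain ⟨w, w', ρ, ρ', k1, k2⟩ := HJ.next (P := X.par) (W := Crest.Agent.R4.Soft104.w X.ψ) (X.ok.spok.spOk X.Y)
    (fun b => X.c.IL_sp b) (fun u τ hq => (QE.nf hq).ok) h1 h2 h3 e he
  exact ⟨w, w', ρ, ρ', k1, k2, hJJ x h1 h4 e he⟩

theorem wix_vld (hG : PG X.par (w X.ψ)) (hp0 : 1 ≤ p0) {stp : X.STP}
    (hst : ∀ s : X.Sta, ¬ stp s → ¬ stpN s) (hn : NoSplit stp)
    (hJJ : ∀ x : XSt X.c.Lam (Lb (WL X.c.Lam) X.Y), XI x → JJ x →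
      ∀ e ∈ steps stp (IMI194.dvM GInst194.mI) x, JJ e.y) :
    Vld (X.c.D.par X.Y) X.c.sp (QE X j₀ Q') stp (IMI194.dvM GInst194.mI) (fun u₀ : NS => u₀.B)
      (fun u₀ => u₀.B) (VX X j₀ Q' JJ) where
  xi i y h := h.xi
  hi i y h := h.hi
  js i y h := h.js
  next := by
    intro i y h e he z hz h1 h2
    obtain ⟨⟨a, a', b, b', k⟩, -, -⟩ := wix_next hG hp0 hst hn (jn_JS1 hst hJJ) h e he
    unfold VX
    rw [← hz] at k
    exact ⟨k.xi, k.oi, k.of, k.ri, k.tc, k.nn, k.A, k.A', h1, h2, k.j⟩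

/-- **the hull potential of a context** -/
noncomputable def AcX (X : Ctx N γ p0 P₀) (j₀ : X.c.Lam) (Q' : NS → IT → Prop)
    (JJ : XSt X.c.Lam (Lb (WL X.c.Lam) X.Y) → Prop) (δ : ℕ → ℕ → ℝ) (e₀ : ℕ → ℝ) :
    XSt X.c.Lam (Lb (WL X.c.Lam) X.Y) → ℝ :=
  PsiI δ e₀ (w X.ψ) (VX X j₀ Q' JJ)

/-- the same of a state with data -/
noncomputable def AcY (X : Ctx N γ p0 P₀) (δ : ℕ → ℕ → ℝ) (e₀ : ℕ → ℝ)
    (x : XSt X.c.Lam (Lb (WL X.c.Lam) X.Y)) (v v' : NS) (σ σ' : IT) : ℝ :=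
  PsiY δ e₀ (w X.ψ) (⟨x, v, v', σ, σ'⟩ : YD X.c.Lam (Lb (WL X.c.Lam) X.Y))

/-! ### the children of a one-sided step -/

/-- the two parts of a cut have different trees -/
lemma cut_ne (hG : PG X.par (w X.ψ)) {b J : ℕ} {u : NS} {σ₁ σ₀ : IT} {S : Finset ℕ}
    (h1 : QE X j₀ Q' u σ₁) (h0 : QE X j₀ Q' u σ₀)
    (hN : CutN X.par (w X.ψ) b J S σ₁.items σ₀.items) :
    (X.c.D.par X.Y).toDT X.c.sp u.B u.A σ₁ ≠ (X.c.D.par X.Y).toDT X.c.sp u.B u.A σ₀ := by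
  intro he
  have hg : (X.c.D.par X.Y).toG u.B u.A σ₁ = (X.c.D.par X.Y).toG u.B u.A σ₀ := by
    rw [← (X.c.D.par X.Y).toDT_g X.c.sp σ₁, ← (X.c.D.par X.Y).toDT_g X.c.sp σ₀, he]
  have m1 := h1.nf.ms (fun q => J ≤ ex b q)
  have m0 := h0.nf.ms (fun q => J ≤ ex b q)
  rw [hg, m0] at m1
  have e1 : σ₁.items.filter (fun q => J ≤ ex b q) = σ₁.items := by
    rw [Finset.filter_eq_self]
    intro q hq
    rw [hN.t1] at hq
    exact (Finset.mem_filter.1 hq).2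
  have e0 : σ₀.items.filter (fun q => J ≤ ex b q) = ∅ := by
    rw [Finset.filter_eq_empty_iff]
    intro q hq
    rw [hN.t0] at hq
    exact not_le.2 (Finset.mem_filter.1 hq).2
  rw [e1, e0] at m1
  have hpos : 0 < Ws (w X.ψ) σ₁.items := by
    have h2 := hN.s1
    have h3 : 0 ≤ X.par.sg b * Ws (w X.ψ) S :=
      mul_nonneg (hG.sg0 b) (Bld532.Ws_nonneg hG.w0 S)
    linarith
  have hc := h1.nf.c0
  have : Ws (w X.ψ) (∅ : Finset ℕ) = 0 := by unfold Ws; simp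
  rw [this, mul_zero] at m1
  have := mul_pos hc hpos
  linarith

/-- which child goes on -/
lemma oc_on {stp : X.STP} {s : X.Sta} {u : NS} {τ σX σC : IT}
    {r : X.c.Lam → Lb (WL X.c.Lam) X.Y} {t₁ t₀ : DT X.c.Lam (Lb (WL X.c.Lam) X.Y)}
    (et : (X.c.D.par X.Y).toDT X.c.sp u.B u.A τ = .add s.p r t₁ t₀)
    (hC : OC (X.c.D.par X.Y) X.c.sp (QE X j₀ Q') s.p u τ σX σC (stp.x s t₁ t₀) (stp.c s t₁ t₀))
    (hne : (X.c.D.par X.Y).toDT X.c.sp u.B u.A σX ≠ (X.c.D.par X.Y).toDT X.c.sp u.B u.A σC) :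
    ∃ T₁ T₀, (τ = .add s.p T₁ T₀ ∨ τ = .far s.p T₁ T₀) ∧
      ∀ C : Finset ℕ, ((stp.on s ∧ C = T₁.items) ∨ (¬ stp.on s ∧ C = T₀.items)) → C = σC.items := by
  obtain ⟨τ₁, τ₀, hτ, -, rfl, rfl⟩ := toDT_add et
  have hx := hC.eX
  have hc := hC.eC
  unfold Stp.c at hc
  unfold Stp.x at hx
  rcases hC.it with (e | e) | ⟨e, -⟩ | ⟨e, -⟩
  · refine ⟨σX, σC, Or.inl e, ?_⟩
    rintro C (⟨ho, h⟩ | ⟨ho, h⟩)
    · exfalso
      rw [if_pos ho] at hc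
      rcases hτ with h1 | h1 <;> rw [e] at h1
      · injection h1 with _ h2 h3
        subst h2
        exact hne hc
      · cases h1
    · exact h
  · refine ⟨σC, σX, Or.inl e, ?_⟩
    rintro C (⟨ho, h⟩ | ⟨ho, h⟩)
    · exact h
    · exfalso
      rw [if_neg ho] at hc
      rcases hτ with h1 | h1 <;> rw [e] at h1
      · injection h1 with _ h2 h3
        subst h3
        exact hne hc
      · cases h1
  · refine ⟨σX, σC, Or.inr e, ?_⟩
    rintro C (⟨ho, h⟩ | ⟨ho, h⟩)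
    · exfalso
      rw [if_pos ho] at hc
      rcases hτ with h1 | h1 <;> rw [e] at h1
      · cases h1
      · injection h1 with _ h2 h3
        subst h2
        exact hne hc
    · exact h
  · refine ⟨σC, σX, Or.inr e, ?_⟩
    rintro C (⟨ho, h⟩ | ⟨ho, h⟩)
    · exact h
    · exfalso
      rw [if_neg ho] at hc
      rcases hτ with h1 | h1 <;> rw [e] at h1
      · cases h1
      · injection h1 with _ h2 h3
        subst h3
        exact hne hc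

/-- the sizes of the two parts -/
lemma cut_nonempty (hG : PG X.par (w X.ψ)) {b J : ℕ} {S S₁ S₀ : Finset ℕ}
    (hN : CutN X.par (w X.ψ) b J S S₁ S₀) : S₁.Nonempty ∧ S₀.Nonempty := by
  have h3 : 0 ≤ X.par.sg b * Ws (w X.ψ) S :=
    mul_nonneg (hG.sg0 b) (Bld532.Ws_nonneg hG.w0 S)
  constructor
  · by_contra h
    rw [Finset.not_nonempty_iff_eq_empty] at h
    have h2 := hN.s1
    rw [h] at h2
    unfold Ws at h2 h3
    simp at h2
    linarith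
  · by_contra h
    rw [Finset.not_nonempty_iff_eq_empty] at h
    have h2 := hN.s0
    rw [h] at h2
    unfold Ws at h2 h3
    simp at h2
    linarith

/-- the items of positive weight are cut in the same way -/
lemma cutN_pos (hG : PG X.par (w X.ψ)) {b J : ℕ} {S S₁ S₀ : Finset ℕ}
    (h : CutN X.par (w X.ψ) b J S S₁ S₀) :
    CutN X.par (w X.ψ) b J (pos (w X.ψ) S) (pos (w X.ψ) S₁) (pos (w X.ψ) S₀) := by
  have hs : ∀ T : Finset ℕ, Ws (w X.ψ) (pos (w X.ψ) T) = Ws (w X.ψ) T := fun T => by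
    unfold Ws
    exact Hull31.sum_pos hG.w0 T
  refine ⟨h.pos, ?_, ?_, by rw [hs, hs]; exact h.s1, by rw [hs, hs]; exact h.s0, fun J' hJ' => ?_⟩
  · ext q
    rw [mem_pos, h.t1, Finset.mem_filter, Finset.mem_filter, mem_pos]
    tauto
  · ext q
    rw [mem_pos, h.t0, Finset.mem_filter, Finset.mem_filter, mem_pos]
    tauto
  · rw [hs]
    refine le_trans ?_ (h.low J' hJ')
    unfold Ws
    exact Finset.sum_le_sum_of_subset_of_nonneg
      (Finset.filter_subset_filter _ (pos_sub _ _)) fun q _ _ => hG.w0 q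

/-- flags at a low cut: the poorer part leaves -/
lemma flag_low (hG : PG X.par (w X.ψ)) {b J B k : ℕ} {S S₁ S₀ : Finset ℕ} (hB : ex b B = 0)
    (hN : CutN X.par (w X.ψ) b J S S₁ S₀) (hk : k = J) :
    fl b B S₁ k + 1 ≤ fl b B S k := by
  subst hk
  obtain ⟨-, q, hq⟩ := cut_nonempty hG hN
  have hq' := hq
  rw [hN.t0, Finset.mem_filter] at hq'
  have hef : ∀ q, ef b B q = ex b q := fun q => by
    unfold ef
    have : B.factorization b = 0 := hB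
    rw [this, add_zero]
    rfl
  refine fl_low (h := ?_) (h1 := fun q hq => ?_) (hq := hq'.1) (hk := by rw [hef]; exact hq'.2)
  · rw [hN.t1]; exact Finset.filter_subset _ _
  · rw [hN.t1, Finset.mem_filter] at hq
    rw [hef]; exact hq.2

/-- flags at a high cut: the richer part leaves -/
lemma flag_high (hG : PG X.par (w X.ψ)) {b J B k : ℕ} {S S₁ S₀ : Finset ℕ} (hB : ex b B = 0)
    (hN : CutN X.par (w X.ψ) b J S S₁ S₀) (hk : k + 1 = J) :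
    fl b B S₀ k + 1 ≤ fl b B S k := by
  obtain ⟨⟨q, hq⟩, -⟩ := cut_nonempty hG hN
  have hq' := hq
  rw [hN.t1, Finset.mem_filter] at hq'
  have hef : ∀ q, ef b B q = ex b q := fun q => by
    unfold ef
    have : B.factorization b = 0 := hB
    rw [this, add_zero]
    rfl
  refine fl_high (h := ?_) (h1 := fun q hq => ?_) (hq := hq'.1) (hk := by rw [hef]; omega)
  · rw [hN.t0]; exact Finset.filter_subset _ _
  · rw [hN.t0, Finset.mem_filter] at hq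
    rw [hef]; omega

/-- the class of effective exponent `i` -/
def cl (b B i : ℕ) (S : Finset ℕ) : Finset ℕ := S.filter (fun q => ex b q + ex b B = i)

lemma mem_cl {b B i q : ℕ} {S : Finset ℕ} : q ∈ cl b B i S ↔ q ∈ S ∧ ef b B q = i := by
  unfold cl
  rw [Finset.mem_filter]
  exact Iff.rfl

section pay
variable {δ : ℕ → ℕ → ℝ} {e₀ : ℕ → ℝ} (hδ : ∀ b θ, 0 ≤ δ b θ) (he : ∀ b θ, δ b θ ≤ e₀ b)
  (hG : PG X.par (w X.ψ)) (hp0 : 1000 ≤ p0) {stp : X.STP}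
  (hst : ∀ s : X.Sta, ¬ stp s → ¬ stpN s) (hn : NoSplit stp)
  (hJJ : ∀ x : XSt X.c.Lam (Lb (WL X.c.Lam) X.Y), XI x → JJ x →
      ∀ e ∈ steps stp (IMI194.dvM GInst194.mI) x, JJ e.y)
  {u₀ : NS} {x : XSt X.c.Lam (Lb (WL X.c.Lam) X.Y)} {v v' : NS} {σ σ' : IT}
include hδ he hG hp0 hst hn hJJ

/-- the potential does not increase -/
theorem hull_oth (h : WIX X j₀ Q' (JS1 X JJ) u₀ x v v' σ σ') :
    AsmX26.stS stp (AcX X j₀ Q' JJ δ e₀) x ≤ AcY X δ e₀ x v v' σ σ' :=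
  sS_PsiI hδ he hG.w0 (fun u τ h => (QE.nf h).c0.le)
    (wix_vld hG (by omega) hst hn hJJ) (X.ok.spok.spOk X.Y) (fun b => X.c.IL_sp b)
    (P := X.par) (W := Crest.Agent.R4.Soft104.w X.ψ) (fun u τ h => (QE.nf h).ok) hn
    (y := (⟨x, v, v', σ, σ'⟩ : YD X.c.Lam (Lb (WL X.c.Lam) X.Y))) h

/-- **payment at a left one-sided step** : the class of the partner which is next to the cut -/
theorem hull_oneL (h : WIX X j₀ Q' (JS1 X JJ) u₀ x v v' σ σ')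
    {r : X.c.Lam → Lb (WL X.c.Lam) X.Y} {t₁ t₀ : DT X.c.Lam (Lb (WL X.c.Lam) X.Y)}
    (ho : OneL stp x.s r t₁ t₀) {σX σC : IT}
    (hC : OC (X.c.D.par X.Y) X.c.sp (QE X j₀ Q') x.s.p v σ σX σC (stp.x x.s t₁ t₀)
      (stp.c x.s t₁ t₀)) {J i : ℕ}
    (hN : (CutN X.par (w X.ψ) x.s.p J σ.items σC.items σX.items ∧ i = J) ∨
      (CutN X.par (w X.ψ) x.s.p J σ.items σX.items σC.items ∧ i + 1 = J)) :
    (δ x.s.p v.B + δ x.s.p v'.B) *
        ((v.c * Ws (w X.ψ) σ.items) * (v'.c * Ws (w X.ψ) (cl x.s.p v'.B i σ'.items))) +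
      AsmX26.stS stp (AcX X j₀ Q' JJ δ e₀) x ≤ AcY X δ e₀ x v v' σ σ' := by
  refine pay_oneL hδ he hG.w0 (fun u τ h => (QE.nf h).c0.le)
    (wix_vld hG (by omega) hst hn hJJ) (X.ok.spok.spOk X.Y) (fun b => X.c.IL_sp b)
    (P := X.par) (W := Crest.Agent.R4.Soft104.w X.ψ) (fun u τ h => (QE.nf h).ok) hn
    (y := (⟨x, v, v', σ, σ'⟩ : YD X.c.Lam (Lb (WL X.c.Lam) X.Y))) h ho (C := σC) (C' := σX)
    (by
      rcases hC.it with h1 | ⟨h1, -⟩ | ⟨h1, -⟩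
      · exact Or.inl h1
      · exact Or.inr (Or.inl h1)
      · exact Or.inr (Or.inr h1)) hC.eC
    (Z := cl x.s.p v'.B i σ'.items) (fun q hq => (mem_cl.1 hq).1) ?_
  intro q hq
  have hk := (mem_cl.1 hq).2
  show fl x.s.p v.B (pos _ σC.items) (ef x.s.p v'.B q) + 1 ≤
    fl x.s.p v.B (pos _ σ.items) (ef x.s.p v'.B q)
  rw [hk]
  rcases hN with ⟨hN, hi⟩ | ⟨hN, hi⟩
  · exact flag_low hG hC.b0 (cutN_pos hG hN) hi
  · exact flag_high hG hC.b0 (cutN_pos hG hN) hi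

/-- **payment at a right one-sided step** -/
theorem hull_oneR (h : WIX X j₀ Q' (JS1 X JJ) u₀ x v v' σ σ')
    {r : X.c.Lam → Lb (WL X.c.Lam) X.Y} {t₁ t₀ : DT X.c.Lam (Lb (WL X.c.Lam) X.Y)}
    (ho : OneR stp x.s r t₁ t₀) {σX σC : IT}
    (hC : OC (X.c.D.par X.Y) X.c.sp (QE X j₀ Q') x.s.p v' σ' σX σC (stp.x x.s t₁ t₀)
      (stp.c x.s t₁ t₀)) {J i : ℕ}
    (hN : (CutN X.par (w X.ψ) x.s.p J σ'.items σC.items σX.items ∧ i = J) ∨
      (CutN X.par (w X.ψ) x.s.p J σ'.items σX.items σC.items ∧ i + 1 = J)) :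
    (δ x.s.p v.B + δ x.s.p v'.B) *
        ((v.c * Ws (w X.ψ) (cl x.s.p v.B i σ.items)) * (v'.c * Ws (w X.ψ) σ'.items)) +
      AsmX26.stS stp (AcX X j₀ Q' JJ δ e₀) x ≤ AcY X δ e₀ x v v' σ σ' := by
  refine pay_oneR hδ he hG.w0 (fun u τ h => (QE.nf h).c0.le)
    (wix_vld hG (by omega) hst hn hJJ) (X.ok.spok.spOk X.Y) (fun b => X.c.IL_sp b)
    (P := X.par) (W := Crest.Agent.R4.Soft104.w X.ψ) (fun u τ h => (QE.nf h).ok) hn
    (y := (⟨x, v, v', σ, σ'⟩ : YD X.c.Lam (Lb (WL X.c.Lam) X.Y))) h ho (C := σC) (C' := σX)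
    (by
      rcases hC.it with h1 | ⟨h1, -⟩ | ⟨h1, -⟩
      · exact Or.inl h1
      · exact Or.inr (Or.inl h1)
      · exact Or.inr (Or.inr h1)) hC.eC
    (Z := cl x.s.p v.B i σ.items) (fun q hq => (mem_cl.1 hq).1) ?_
  intro q hq
  have hk := (mem_cl.1 hq).2
  show fl x.s.p v'.B (pos _ σC.items) (ef x.s.p v.B q) + 1 ≤
    fl x.s.p v'.B (pos _ σ'.items) (ef x.s.p v.B q)
  rw [hk]
  rcases hN with ⟨hN, hi⟩ | ⟨hN, hi⟩
  · exact flag_low hG hC.b0 (cutN_pos hG hN) hi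
  · exact flag_high hG hC.b0 (cutN_pos hG hN) hi

/-- **payment at a joint step** (cut): the classes next to the threshold of both sides -/
theorem hull_jnt (h : WIX X j₀ Q' (JS1 X JJ) u₀ x v v' σ σ')
    {r r' : X.c.Lam → Lb (WL X.c.Lam) X.Y} {t₁ t₀ t₁' t₀' : DT X.c.Lam (Lb (WL X.c.Lam) X.Y)}
    (ho : Jnt stp x.s r t₁ t₀ r' t₁' t₀') {σ₁ σ₀ σ₁' σ₀' : IT}
    (hA : AC (X.c.D.par X.Y) X.c.sp (QE X j₀ Q') x.s.p v σ σ₁ σ₀ t₁ t₀)
    (hA' : AC (X.c.D.par X.Y) X.c.sp (QE X j₀ Q') x.s.p v' σ' σ₁' σ₀' t₁' t₀')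
    (hB : ex x.s.p v.B = 0) (hB' : ex x.s.p v'.B = 0) {J : ℕ}
    (hN : CutN X.par (w X.ψ) x.s.p J σ.items σ₁.items σ₀.items)
    (hN' : CutN X.par (w X.ψ) x.s.p J σ'.items σ₁'.items σ₀'.items) :
    (δ x.s.p v.B + δ x.s.p v'.B) *
        ((v.c * Ws (w X.ψ) σ.items) * (v'.c * Ws (w X.ψ)
            (cl x.s.p v'.B J σ₁'.items ∪ cl x.s.p v'.B (J - 1) σ₀'.items)) +
          (v.c * Ws (w X.ψ) (cl x.s.p v.B J σ₁.items ∪ cl x.s.p v.B (J - 1) σ₀.items)) *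
            (v'.c * Ws (w X.ψ) σ'.items)) +
      AsmX26.stS stp (AcX X j₀ Q' JJ δ e₀) x ≤ AcY X δ e₀ x v v' σ σ' := by
  have hJ := hN.pos
  have e1 : σ.items = σ₁.items ∪ σ₀.items := hA.items
  have e1' : σ'.items = σ₁'.items ∪ σ₀'.items := hA'.items
  have key : ∀ {B B' : ℕ} {S S₁ S₀ T T₁ T₀ : Finset ℕ}, ex x.s.p B' = 0 → ex x.s.p B = 0 →
      CutN X.par (w X.ψ) x.s.p J S S₁ S₀ → CutN X.par (w X.ψ) x.s.p J T T₁ T₀ →
      ∀ q ∈ cl x.s.p B J S₁ ∪ cl x.s.p B (J - 1) S₀,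
        (q ∈ S₁ → fl x.s.p B' (pos (w X.ψ) T₁) (ef x.s.p B q) + 1 ≤
          fl x.s.p B' (pos (w X.ψ) T) (ef x.s.p B q)) ∧
        (q ∈ S₀ → fl x.s.p B' (pos (w X.ψ) T₀) (ef x.s.p B q) + 1 ≤
          fl x.s.p B' (pos (w X.ψ) T) (ef x.s.p B q)) := by
    intro B B' S S₁ S₀ T T₁ T₀ hB' hB hS hT q hq
    have hef : ∀ q, ef x.s.p B q = ex x.s.p q := fun q => by
      unfold ef
      have : B.factorization x.s.p = 0 := hB
      rw [this, add_zero]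
      rfl
    rcases Finset.mem_union.1 hq with hq | hq
    · obtain ⟨h1, h2⟩ := mem_cl.1 hq
      rw [h2]
      refine ⟨fun _ => flag_low hG hB' (cutN_pos hG hT) rfl, fun h0 => ?_⟩
      exfalso
      rw [hS.t0, Finset.mem_filter] at h0
      rw [hef] at h2
      omega
    · obtain ⟨h1, h2⟩ := mem_cl.1 hq
      rw [h2]
      refine ⟨fun h0 => ?_, fun _ => flag_high hG hB' (cutN_pos hG hT) (by omega)⟩
      exfalso
      rw [hS.t1, Finset.mem_filter] at h0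
      rw [hef] at h2
      omega
  have hT : σ = .add x.s.p σ₁ σ₀ ∨ σ = .far x.s.p σ₁ σ₀ := by
    rcases hA.it with e | ⟨e, -⟩
    · exact Or.inl e
    · exact Or.inr e
  have hT' : σ' = .add x.s.p σ₁' σ₀' ∨ σ' = .far x.s.p σ₁' σ₀' := by
    rcases hA'.it with e | ⟨e, -⟩
    · exact Or.inl e
    · exact Or.inr e
  exact pay_jnt hδ he hG.w0 (fun u τ h => (QE.nf h).c0.le)
    (wix_vld hG (by omega) hst hn hJJ) (X.ok.spok.spOk X.Y) (fun b => X.c.IL_sp b)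
    (P := X.par) (W := Crest.Agent.R4.Soft104.w X.ψ) (fun u τ h => (QE.nf h).ok) hn
    (y := (⟨x, v, v', σ, σ'⟩ : YD X.c.Lam (Lb (WL X.c.Lam) X.Y))) h ho hT hT'
    (Z := cl x.s.p v.B J σ₁.items ∪ cl x.s.p v.B (J - 1) σ₀.items)
    (Z' := cl x.s.p v'.B J σ₁'.items ∪ cl x.s.p v'.B (J - 1) σ₀'.items)
    (fun q hq => by
      show q ∈ σ.items
      rw [e1]
      rcases Finset.mem_union.1 hq with hq | hq
      · exact Finset.mem_union_left _ (mem_cl.1 hq).1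
      · exact Finset.mem_union_right _ (mem_cl.1 hq).1)
    (fun q hq => by
      show q ∈ σ'.items
      rw [e1']
      rcases Finset.mem_union.1 hq with hq | hq
      · exact Finset.mem_union_left _ (mem_cl.1 hq).1
      · exact Finset.mem_union_right _ (mem_cl.1 hq).1)
    (key hB' hB hN hN') (key hB hB' hN' hN)

end pay

/-! ### from all data to the state -/

/-- **a bound for all the data of a state is a bound for the state** -/
theorem le_AcX {δ : ℕ → ℕ → ℝ} {e₀ : ℕ → ℝ} {u₀ : NS}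
    {x : XSt X.c.Lam (Lb (WL X.c.Lam) X.Y)} {v v' : NS} {σ σ' : IT}
    (h : WIX X j₀ Q' (JS1 X JJ) u₀ x v v' σ σ') {a : ℝ}
    (H : ∀ u₀ v v' σ σ', WIX X j₀ Q' (JS1 X JJ) u₀ x v v' σ σ' → a ≤ AcY X δ e₀ x v v' σ σ') :
    a ≤ AcX X j₀ Q' JJ δ e₀ x := by
  refine le_PsiI (i := u₀) (y := (⟨x, v, v', σ, σ'⟩ : YD X.c.Lam (Lb (WL X.c.Lam) X.Y))) h rfl ?_
  rintro i ⟨y, u, u', τ, τ'⟩ hy rfl
  exact H i u u' τ τ' hy

end ctx

end Crest.Agent.R4P.HullCtx26
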