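import Crest.Agent.R4P.AccN_31
import Crest.Agent.R4P.HullCtx_26

/-!
R4 (S0004) with powers, module D (crossing pairs), helper31: **the accident potential at the self states** is at
most a constant times the square of the mass.
-/

set_option autoImplicit false
set_option linter.unusedSectionVars false
set_option linter.unusedVariables false

namespace Crest.Agent.R4P.AccRoot31

open Crest.Agent.R4.Tour104 Crest.Agent.R4.Tour758 Crest.Agent.R4.Avg758 Crest.Agent.R4.Clos758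
open Crest.Agent.R4.ClosL758 Crest.Agent.R4.ClosG758 Crest.Agent.R4.ClosR758
open Crest.Agent.R4.Fam464 Crest.Agent.R4P.Cnt588 Crest.Agent.R4P.Walk560 Crest.Agent.R4.Piece464
open Crest.Agent.R4P.Item758 Crest.Agent.R4P.AvgItem710
open Crest.Agent.R4P.Data758 Crest.Agent.R4P.WalkIT579
open Crest.Agent.R4P.Bld532 (NS All NodeOk Bk Par)
open Crest.Agent.R4P.Res927 Crest.Agent.R4P.GSt927 Crest.Agent.R4P.OSWS245
open Crest.Agent.R4P.Skel189 (Ctx top)
open Crest.Agent.R4P.Frame758 (tM tN tG tD wt)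
open Crest.Agent.R4.Item758 (AdI AdI_univ)
open Crest.Agent.R4P.Strip29 (Blind NoSplit)
open Crest.Agent.R4.Soft104
open Crest.Agent.R4P.CtxX26 Crest.Agent.R4P.DeadX26 Crest.Agent.R4P.CrossSum29
open Crest.Agent.R4P.StratX36 Crest.Agent.R4P.SkelF29 Crest.Agent.R4P.Dd26
open Crest.Agent.R4P.AsmX26 Crest.Agent.R4P.CrsFacts26 Crest.Agent.R4P.Hull31 Crest.Agent.R4P.HullCtx26
open Crest.Agent.R4P.AccN31
open Crest.Agent.R4P

/-- **ROOT BOUND OF THE ACCIDENT POTENTIAL** -/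
theorem acx_root (N : Skel189.Num) {C A A'' : ℝ} (hB : 0 ≤ N.B) (hC : 0 ≤ C) (hA'' : N.B + 2 ≤ A'')
    (hA : 3 * (A'' + C + 4) ≤ A) : ∃ P₂ : ℕ, 1 ≤ P₂ ∧ ∀ p0 ≥ P₂, ∀ (γ : ℝ) (P₀ : ℕ) (X : Ctx N γ p0 P₀)
    (j₀ : X.c.Lam) (Q' : NS → IT → Prop) (JJ : XSt X.c.Lam (Lb (WL X.c.Lam) X.Y) → Prop),
    PG X.par (w X.ψ) → ∀ stp : X.STP, (∀ s : X.Sta, ¬ stp s → ¬ stpN s) → NoSplit stp →
    (∀ x : XSt X.c.Lam (Lb (WL X.c.Lam) X.Y), XI x → JJ x →
      ∀ e ∈ steps stp (IMI194.dvM GInst194.mI) x, JJ e.y) →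
    ∀ u τ, All (QE X j₀ Q') u τ → JJ (XSt.st u.n (X.self u τ Finset.univ)) →
    AcX X j₀ Q' JJ (dlt p0 A C γ) (ew p0) (XSt.st u.n (X.self u τ Finset.univ)) ≤
      (2 * cR N.B + 8) * (X.mu j₀ u τ Finset.univ * X.mu j₀ u τ Finset.univ) := by
  obtain ⟨P₁, h1⟩ := dlt_le C hC
  obtain ⟨P₂, h2⟩ := root_nf hB hC hA'' hA
  refine ⟨P₁ + P₂ + 1, by omega, fun p0 hp0 γ P₀ X j₀ Q' JJ hG stp hst hn hJJ u τ hq hJ => ?_⟩
  have hδ : ∀ b θ, 0 ≤ dlt p0 A C γ b θ := fun b θ => dlt_nonneg p0 A C γ b θ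
  have he : ∀ b θ, dlt p0 A C γ b θ ≤ ew p0 b := fun b θ => h1 p0 (by omega) A γ b θ
  have hs := hq.self
  have hp1 : 1 ≤ p0 := le_trans (by omega : 1 ≤ P₁ + P₂ + 1) hp0
  have hV := wix_vld (Q' := Q') (j₀ := j₀) (JJ := JJ) hG hp1 hst hn hJJ
  have hy : VX X j₀ Q' JJ u (⟨XSt.st u.n (X.self u τ Finset.univ), u, u, τ, τ⟩ :
      YD X.c.Lam (Lb (WL X.c.Lam) X.Y)) := wix_start hq hJ
  refine (PsiI_le hδ he hG.w0 (fun u τ h => (QE.nf h).c0.le) hV hy).trans ?_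
  have hok := hs.ok
  have hp : (X.self u τ Finset.univ).p = WalkIT579.tp τ := by
    have e1 : (X.self u τ Finset.univ).t.top = WalkIT579.tp τ := toDT_tp _ _ _ _ _
    have e2 : (X.self u τ Finset.univ).t'.top = WalkIT579.tp τ := toDT_tp _ _ _ _ _
    show max _ _ = _
    rw [e1, e2, max_self]
  have htp : WalkIT579.tp τ ≤ u.n := by
    cases τ with
    | leaf S => exact Nat.zero_le _
    | br p Sp t₁ t₀ => exact hok.2.1.le
    | add p t₁ t₀ => exact hok.2.1.le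
    | up p t => exact hok.2.1.le
    | pl p t => exact hok.2.1.le
    | far p t₁ t₀ => exact hok.2.1.le
  have hroot := h2 p0 (by omega) N.C1 N.c2 γ (w X.ψ) hG.w0 τ u hok
    (All.mono (fun s t h => (QE.nf h).ok) hq) (WalkIT579.tp τ) htp
  have hmass : X.mu j₀ u τ Finset.univ = u.c * Ws (w X.ψ) τ.items := hs.mass
  have hc := hs.nf.c0.le
  set c := u.c with hcdef
  set W := w X.ψ with hW
  set F : ℕ → ℝ := fun q => nf (dlt p0 A C γ) (ew p0) u.B (τ.mt q) (WalkIT579.tp τ) with hF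
  have hF0 : ∀ q, 0 ≤ F q := fun q => nf_nonneg hδ he _ _ _
  have hWs0 : 0 ≤ Ws W τ.items := Bld532.Ws_nonneg hG.w0 _
  show Psi (dlt p0 A C γ) (ew p0) W (X.self u τ Finset.univ).p (sdP W u τ) (sdP W u τ) ≤ _
  rw [hp, hmass]
  unfold Psi
  have e1 : ∀ e ∈ (sdP W u τ).S ×ˢ (sdP W u τ).S,
      ((sdP W u τ).c * W e.1) * ((sdP W u τ).c * W e.2) *
        Hp (dlt p0 A C γ) (ew p0) (WalkIT579.tp τ) (sdP W u τ) (sdP W u τ) e.1 e.2 ≤
      (c * W e.1 * F e.1) * (c * W e.2) + (c * W e.1) * (c * W e.2 * F e.2) +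
        8 * ((c * W e.1) * (c * W e.2)) := by
    intro e _
    have h3 : Hp (dlt p0 A C γ) (ew p0) (WalkIT579.tp τ) (sdP W u τ) (sdP W u τ) e.1 e.2 ≤
        F e.1 + F e.2 + 8 := by
      unfold Hp
      have h4 := flag_le hδ he (WalkIT579.tp τ) (sdP W u τ).B (sdP W u τ).B
        (fl (WalkIT579.tp τ) (sdP W u τ).B (sdP W u τ).S (ef (WalkIT579.tp τ) (sdP W u τ).B e.2))
        (fl (WalkIT579.tp τ) (sdP W u τ).B (sdP W u τ).S (ef (WalkIT579.tp τ) (sdP W u τ).B e.1))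
        (fl_le _ _ _ _) (fl_le _ _ _ _) (add_nonneg (fl_nonneg _ _ _ _) (fl_nonneg _ _ _ _))
      have h5 : ew p0 (WalkIT579.tp τ) ≤ 1 := by
        unfold ew
        split_ifs with hlt
        · have : (1:ℝ) ≤ (WalkIT579.tp τ : ℝ) := by
            have : 1 ≤ WalkIT579.tp τ := by omega
            exact_mod_cast this
          exact Real.rpow_le_one_of_one_le_of_nonpos this (by norm_num)
        · exact zero_le_one
      have h6 : nf (dlt p0 A C γ) (ew p0) (sdP W u τ).B ((sdP W u τ).m e.1) (WalkIT579.tp τ) = F e.1 := rfl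
      have h7 : nf (dlt p0 A C γ) (ew p0) (sdP W u τ).B ((sdP W u τ).m e.2) (WalkIT579.tp τ) = F e.2 := rfl
      rw [h6, h7]
      linarith
    have h0 : 0 ≤ (c * W e.1) * (c * W e.2) :=
      mul_nonneg (mul_nonneg hc (hG.w0 _)) (mul_nonneg hc (hG.w0 _))
    calc ((sdP W u τ).c * W e.1) * ((sdP W u τ).c * W e.2) *
        Hp (dlt p0 A C γ) (ew p0) (WalkIT579.tp τ) (sdP W u τ) (sdP W u τ) e.1 e.2
        ≤ ((c * W e.1) * (c * W e.2)) * (F e.1 + F e.2 + 8) := mul_le_mul_of_nonneg_left h3 h0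
      _ = _ := by ring
  refine (Finset.sum_le_sum e1).trans ?_
  rw [Finset.sum_add_distrib, Finset.sum_add_distrib, ← Finset.mul_sum]
  have pr : ∀ f g : ℕ → ℝ, ∑ e ∈ (sdP W u τ).S ×ˢ (sdP W u τ).S, f e.1 * g e.2 =
      (∑ q ∈ (sdP W u τ).S, f q) * ∑ r ∈ (sdP W u τ).S, g r := by
    intro f g
    rw [Finset.sum_product, Finset.sum_mul_sum]
  rw [pr (fun q => c * W q * F q) (fun r => c * W r), pr (fun q => c * W q) (fun r => c * W r * F r),
    pr (fun q => c * W q) (fun r => c * W r)]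
  have s1 : ∑ q ∈ (sdP W u τ).S, c * W q = c * Ws W τ.items := by
    rw [← Finset.mul_sum]
    congr 1
    exact Hull31.sum_pos hG.w0 _
  have s2 : ∑ q ∈ (sdP W u τ).S, c * W q * F q ≤ c * (cR N.B * Ws W τ.items) := by
    have : ∀ q, c * W q * F q = c * (W q * F q) := fun q => by ring
    simp only [this]
    rw [← Finset.mul_sum]
    refine mul_le_mul_of_nonneg_left (le_trans ?_ hroot) hc
    exact Finset.sum_le_sum_of_subset_of_nonneg (pos_sub _ _) fun q _ _ =>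
      mul_nonneg (hG.w0 q) (hF0 q)
  rw [s1]
  have hm0 : 0 ≤ c * Ws W τ.items := mul_nonneg hc hWs0
  have k1 := mul_le_mul_of_nonneg_right s2 hm0
  have k2 := mul_le_mul_of_nonneg_left s2 hm0
  have hcR := cR_nonneg N.B
  nlinarith [k1, k2]

end Crest.Agent.R4P.AccRoot31
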