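import Crest.Agent.R4.InX944

/-!
R4P (S0004, all `q`), helper24: **tag energy**: pairs of moduli whose cofactors are composed of small
primes (`≤ p`), one of the cofactors being large (`≥ Y`, for instance `Y = 2^p`).  Every type
`(x, y)` is a partial matching; the sum over the types is `exp (O (p^(3/4)))`.
-/

set_option autoImplicit false
open Finset

namespace Crest.Agent.R4P.TagE24

open Crest.Agent.R4.HVW560 Crest.Agent.R4.InX944

/-- `n ↦ n^(-1/4)` -/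
noncomputable def f4 : ℕ →* ℝ where
  toFun n := (n:ℝ)^(-(1/4):ℝ)
  map_one' := by simp
  map_mul' m n := by
    push_cast
    exact Real.mul_rpow (Nat.cast_nonneg _) (Nat.cast_nonneg _)

lemma f4_apply (n : ℕ) : f4 n = (n:ℝ)^(-(1/4):ℝ) := rfl

lemma f4_nonneg (n : ℕ) : 0 ≤ f4 n := by rw [f4_apply]; positivity

lemma f4_prime {l : ℕ} (hl : l.Prime) : f4 l ≤ 6/7 := by
  have h2 : (2:ℝ) ≤ l := by exact_mod_cast hl.two_le
  have h1 : (l:ℝ)^(-(1/4):ℝ) ≤ (2:ℝ)^(-(1/4):ℝ) :=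
    Real.rpow_le_rpow_of_nonpos (by norm_num) h2 (by norm_num)
  refine h1.trans ?_
  have h3 : (0:ℝ) ≤ (2:ℝ)^(-(1/4):ℝ) := by positivity
  by_contra hc
  push Not at hc
  have h4 : (6/7:ℝ)^4 < ((2:ℝ)^(-(1/4):ℝ))^4 := pow_lt_pow_left₀ hc (by norm_num) (by norm_num)
  rw [← Real.rpow_natCast ((2:ℝ)^(-(1/4):ℝ)) 4, ← Real.rpow_mul (by norm_num)] at h4
  norm_num at h4

lemma inv_le_exp {t : ℝ} (h0 : 0 ≤ t) (h1 : t ≤ 6/7) : (1 - t)⁻¹ ≤ Real.exp (7 * t) := by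
  have h2 : 0 < 1 - t := by linarith
  have h3 : (1 - t)⁻¹ ≤ 1 + 7 * t := by
    rw [inv_le_iff_one_le_mul₀ h2]
    nlinarith
  have := Real.add_one_le_exp (7 * t)
  linarith

/-- `∑_{l ≤ p} l^(-1/4) ≤ 2 p^(3/4)` -/
lemma sum_quarter (p : ℕ) : ∑ l ∈ Finset.range (p+1), f4 l ≤ 2 * (p:ℝ)^(3/4:ℝ) := by
  induction p with
  | zero => simp [f4_apply]
  | succ p ih =>
    rw [Finset.sum_range_succ]
    have hp1 : (0:ℝ) < ((p+1:ℕ):ℝ) := by positivity
    have key : f4 (p+1) ≤ 2 * ((p+1:ℕ):ℝ)^(3/4:ℝ) - 2 * (p:ℝ)^(3/4:ℝ) := by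
      rw [f4_apply]
      set a : ℝ := ((p+1:ℕ):ℝ) with ha
      have hap : a = (p:ℝ) + 1 := by rw [ha]; push_cast; ring
      have hp0 : (0:ℝ) ≤ p := Nat.cast_nonneg _
      have g := Real.geom_mean_le_arith_mean2_weighted (w₁ := 3/4) (w₂ := 1/4) (by norm_num)
        (by norm_num) hp0 hp1.le (by norm_num)
      have e1 : a^(-(1/4):ℝ) * a^(1/4:ℝ) = 1 := by
        rw [← Real.rpow_add hp1]; norm_num
      have e2 : a^(3/4:ℝ) * a^(1/4:ℝ) = a := by
        rw [← Real.rpow_add hp1]; norm_num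
      have h4 : 0 < a^(1/4:ℝ) := by positivity
      refine le_of_mul_le_mul_right ?_ h4
      rw [e1, sub_mul]
      have e3 : 2 * a^(3/4:ℝ) * a^(1/4:ℝ) = 2 * a := by rw [mul_assoc, e2]
      rw [e3]
      have e4 : 2 * (p:ℝ)^(3/4:ℝ) * a^(1/4:ℝ) = 2 * ((p:ℝ)^(3/4:ℝ) * a^(1/4:ℝ)) := by ring
      rw [e4]
      linarith
    linarith

/-- **sum over smooth numbers** -/
theorem smooth_sum (p : ℕ) (T : Finset ℕ)
    (hT : ∀ x ∈ T, 0 < x ∧ ∀ l : ℕ, l.Prime → l ∣ x → l ≤ p) :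
    ∑ x ∈ T, f4 x ≤ Real.exp (14 * (p:ℝ)^(3/4:ℝ)) := by
  classical
  have hn : ∀ {l : ℕ}, l.Prime → ‖f4 l‖ < 1 := by
    intro l hl
    rw [Real.norm_of_nonneg (f4_nonneg l)]
    have := f4_prime hl
    linarith
  obtain ⟨hs, hsum⟩ := EulerProduct.summable_and_hasSum_smoothNumbers_prod_primesBelow_geometric
    (f := f4) hn (p+1)
  have hmem : ∀ x ∈ T, x ∈ (p+1).smoothNumbers := by
    intro x hx
    rw [Nat.mem_smoothNumbers']
    intro l hl hd
    exact Nat.lt_succ_of_le ((hT x hx).2 l hl hd)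
  set T' : Finset ((p+1).smoothNumbers) := T.attach.image (fun x => ⟨x.1, hmem x.1 x.2⟩) with hT'
  have e1 : ∑ x ∈ T, f4 x = ∑ m ∈ T', f4 m := by
    rw [hT', Finset.sum_image]
    · rw [← Finset.sum_attach]
    · intro a _ b _ hab
      apply Subtype.ext
      exact congrArg (fun m : ((p+1).smoothNumbers) => (m : ℕ)) hab
  rw [e1]
  refine (sum_le_hasSum T' (fun m _ => f4_nonneg m) hsum).trans ?_
  calc ∏ l ∈ (p+1).primesBelow, (1 - f4 l)⁻¹ ≤ ∏ l ∈ (p+1).primesBelow, Real.exp (7 * f4 l) := by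
        apply Finset.prod_le_prod
        · intro l hl
          have := f4_prime (Nat.prime_of_mem_primesBelow hl)
          exact inv_nonneg.2 (by linarith)
        · intro l hl
          exact inv_le_exp (f4_nonneg l) (f4_prime (Nat.prime_of_mem_primesBelow hl))
    _ = Real.exp (∑ l ∈ (p+1).primesBelow, 7 * f4 l) := by rw [Real.exp_sum]
    _ ≤ Real.exp (14 * (p:ℝ)^(3/4:ℝ)) := by
        apply Real.exp_le_exp.2
        rw [← Finset.mul_sum]
        have h1 : ∑ l ∈ (p+1).primesBelow, f4 l ≤ ∑ l ∈ Finset.range (p+1), f4 l :=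
          Finset.sum_le_sum_of_subset_of_nonneg (Finset.filter_subset _ _)
            fun l _ _ => f4_nonneg l
        have h2 := sum_quarter p
        linarith

lemma f4_mul_self_mul (x : ℕ) : f4 x = (x:ℝ)^(-(1/4):ℝ) := rfl

/-- one pair -/
lemma pair_le {x y : ℕ} (hx : 0 < x) (hy : 0 < y) {R R' D Y : ℝ} (hR : 0 < R) (hR' : 0 < R')
    (hD1 : (y:ℝ) * R ≤ D) (hD2 : (x:ℝ) * R' ≤ D) (hY : 0 < Y) (hbig : Y ≤ x ∨ Y ≤ y) :
    R * R' / D ≤ (R + R')/2 * (Y^(-(1/4):ℝ) * (f4 x * f4 y)) := by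
  have hx' : (1:ℝ) ≤ x := by exact_mod_cast hx
  have hy' : (1:ℝ) ≤ y := by exact_mod_cast hy
  have hD : 0 < D := lt_of_lt_of_le (mul_pos (by linarith) hR) hD1
  have hxy : (0:ℝ) < (x:ℝ) * y := by positivity
  set s : ℝ := ((x:ℝ) * y)^(-(1/2):ℝ) with hs
  have hs0 : 0 < s := by positivity
  have hs2 : s^2 * ((x:ℝ) * y) = 1 := by
    rw [hs, ← Real.rpow_natCast, ← Real.rpow_mul hxy.le]
    norm_num
    rw [Real.rpow_neg hxy.le, Real.rpow_one, inv_mul_cancel₀ hxy.ne']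
  have h1 : R * R' / D ≤ (R + R')/2 * s := by
    rw [div_le_iff₀ hD]
    have hpos : 0 ≤ (R + R')/2 * s * D := by positivity
    have hDD : ((x:ℝ) * y) * (R * R') ≤ D^2 := by
      calc ((x:ℝ) * y) * (R * R') = (y * R) * (x * R') := by ring
        _ ≤ D * D := mul_le_mul hD1 hD2 (by positivity) hD.le
        _ = D^2 := by ring
    have hq : 4 * (R * R') ≤ (R + R')^2 := by nlinarith [sq_nonneg (R - R')]
    apply le_of_sq_le_sq _ hpos
    calc (R * R')^2 = (R * R') * (R * R') * (s^2 * ((x:ℝ) * y)) := by rw [hs2]; ring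
      _ = (4 * (R * R')) * (((x:ℝ) * y) * (R * R')) * (s^2 / 4) := by ring
      _ ≤ (R + R')^2 * D^2 * (s^2 / 4) := by
          apply mul_le_mul_of_nonneg_right _ (by positivity)
          exact mul_le_mul hq hDD (by positivity) (by positivity)
      _ = ((R + R')/2 * s * D)^2 := by ring
  refine h1.trans ?_
  apply mul_le_mul_of_nonneg_left _ (by positivity)
  have h2 : s = ((x:ℝ) * y)^(-(1/4):ℝ) * ((x:ℝ) * y)^(-(1/4):ℝ) := by
    rw [hs, ← Real.rpow_add hxy]; norm_num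
  have h3 : ((x:ℝ) * y)^(-(1/4):ℝ) = f4 x * f4 y := by
    rw [f4_apply, f4_apply, Real.mul_rpow (by positivity) (by positivity)]
  have h4 : ((x:ℝ) * y)^(-(1/4):ℝ) ≤ Y^(-(1/4):ℝ) := by
    apply Real.rpow_le_rpow_of_nonpos hY _ (by norm_num)
    rcases hbig with h | h
    · nlinarith
    · nlinarith
  rw [h2]
  nth_rewrite 2 [h3]
  exact mul_le_mul_of_nonneg_right h4 (mul_nonneg (f4_nonneg _) (f4_nonneg _))

/-- **tag energy** -/
theorem tag_gen (p : ℕ) {Y η : ℝ} (hY : 0 < Y) (hη : 0 ≤ η) {S : Finset ℕ} {E : Finset (ℕ × ℕ)}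
    {R : ℕ → ℝ} {F : ℕ × ℕ → ℝ} (hE : E ⊆ S ×ˢ S) (hS : ∀ w ∈ S, 0 < w ∧ 0 < R w)
    (hsm : ∀ e ∈ E, (∀ l : ℕ, l.Prime → l ∣ cof e.1 e.2 → l ≤ p) ∧
      (∀ l : ℕ, l.Prime → l ∣ cof e.2 e.1 → l ≤ p))
    (hbig : ∀ e ∈ E, Y ≤ cof e.1 e.2 ∨ Y ≤ cof e.2 e.1)
    (hF : ∀ e ∈ E, F e ≤ 2 * ((R e.1 * R e.2) / DP R R e) * (2 * η * DP R R e + 1)) :
    ∑ e ∈ E, F e ≤ 2 * (Y^(-(1/4):ℝ) * Real.exp (28 * (p:ℝ)^(3/4:ℝ))) * ∑ w ∈ S, R w +
      4 * η * (∑ w ∈ S, R w)^2 := by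
  classical
  have memE : ∀ e ∈ E, e.1 ∈ S ∧ e.2 ∈ S := fun e he => Finset.mem_product.1 (hE he)
  set M := ∑ w ∈ S, R w with hM
  have hM0 : 0 ≤ M := Finset.sum_nonneg fun w hw => (hS w hw).2.le
  set y4 := Y^(-(1/4):ℝ) with hy4
  have hy40 : 0 < y4 := by positivity
  set ty : ℕ × ℕ → ℕ × ℕ := fun e => (cof e.1 e.2, cof e.2 e.1) with hty
  set g : ℕ × ℕ → ℝ := fun e => (R e.1 + R e.2) * (f4 (ty e).1 * f4 (ty e).2) with hg
  -- one pair
  have hone : ∀ e ∈ E, F e ≤ y4 * g e + 4 * η * (R e.1 * R e.2) := by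
    intro e he
    obtain ⟨m1, m2⟩ := memE e he
    have hR := (hS _ m1).2
    have hR' := (hS _ m2).2
    have c1 := cof_pos (w := e.2) (hS _ m1).1
    have c2 := cof_pos (w := e.1) (hS _ m2).1
    have hD : 0 < DP R R e := DP_pos (R := R) (R' := R) (hS _ m2).1 hR
    have hp := pair_le c1 c2 hR hR' (D := DP R R e) (le_max_left _ _) (le_max_right _ _) hY
      (hbig e he)
    calc F e ≤ 2 * ((R e.1 * R e.2) / DP R R e) * (2 * η * DP R R e + 1) := hF e he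
      _ = 2 * ((R e.1 * R e.2) / DP R R e) + 4 * η * (R e.1 * R e.2) := by
          field_simp; ring
      _ ≤ 2 * ((R e.1 + R e.2)/2 * (y4 * (f4 (cof e.1 e.2) * f4 (cof e.2 e.1)))) +
          4 * η * (R e.1 * R e.2) := by linarith
      _ = _ := by rw [hg, hty]; ring
  -- the generic part
  have hgen : ∑ e ∈ E, 4 * η * (R e.1 * R e.2) ≤ 4 * η * M^2 := by
    rw [← Finset.mul_sum]
    apply mul_le_mul_of_nonneg_left _ (by positivity)
    calc ∑ e ∈ E, R e.1 * R e.2 ≤ ∑ e ∈ S ×ˢ S, R e.1 * R e.2 := by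
          apply Finset.sum_le_sum_of_subset_of_nonneg hE
          intro e he _
          have h := Finset.mem_product.1 he
          exact mul_nonneg (hS _ h.1).2.le (hS _ h.2).2.le
      _ = M^2 := by
          rw [Finset.sum_product, sq, hM, Finset.sum_mul_sum]
  -- the types
  set T := E.image ty with hT
  have hfib : ∑ e ∈ E, g e = ∑ t ∈ T, ∑ e ∈ E.filter (fun e => ty e = t), g e :=
    (Finset.sum_fiberwise_of_maps_to (fun e he => Finset.mem_image_of_mem ty he) g).symm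
  have hty1 : ∀ t ∈ T, ∑ e ∈ E.filter (fun e => ty e = t), g e ≤ 2 * M * (f4 t.1 * f4 t.2) := by
    intro t _
    have hmem : ∀ e ∈ E.filter (fun e => ty e = t), e ∈ E ∧ cof e.1 e.2 = t.1 ∧
        cof e.2 e.1 = t.2 := by
      intro e he
      obtain ⟨h1, h2⟩ := Finset.mem_filter.1 he
      exact ⟨h1, congrArg Prod.fst h2, congrArg Prod.snd h2⟩
    have e1 : ∑ e ∈ E.filter (fun e => ty e = t), g e =
        (∑ e ∈ E.filter (fun e => ty e = t), R e.1 + ∑ e ∈ E.filter (fun e => ty e = t), R e.2) *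
          (f4 t.1 * f4 t.2) := by
      rw [← Finset.sum_add_distrib, Finset.sum_mul]
      apply Finset.sum_congr rfl
      intro e he
      obtain ⟨_, h2⟩ := Finset.mem_filter.1 he
      rw [hg]
      simp only [h2]
    -- injectivity
    have key : ∀ e ∈ E.filter (fun e => ty e = t), ∀ f ∈ E.filter (fun e => ty e = t),
        (e.1 = f.1 ∨ e.2 = f.2) → e = f := by
      intro e he f hf h
      obtain ⟨he1, he2, he3⟩ := hmem e he
      obtain ⟨hf1, hf2, hf3⟩ := hmem f hf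
      have a1 : t.1 * Nat.gcd e.1 e.2 = e.1 := by rw [← he2]; exact cof_mul_gcd _ _
      have a2 : t.2 * Nat.gcd e.1 e.2 = e.2 := by
        rw [← he3, Nat.gcd_comm]; exact cof_mul_gcd _ _
      have b1 : t.1 * Nat.gcd f.1 f.2 = f.1 := by rw [← hf2]; exact cof_mul_gcd _ _
      have b2 : t.2 * Nat.gcd f.1 f.2 = f.2 := by
        rw [← hf3, Nat.gcd_comm]; exact cof_mul_gcd _ _
      have t1 : 0 < t.1 := by rw [← he2]; exact cof_pos (hS _ (memE e he1).1).1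
      have t2 : 0 < t.2 := by rw [← he3]; exact cof_pos (hS _ (memE e he1).2).1
      have hgg : Nat.gcd e.1 e.2 = Nat.gcd f.1 f.2 := by
        rcases h with h | h
        · apply Nat.eq_of_mul_eq_mul_left t1
          rw [a1, b1, h]
        · apply Nat.eq_of_mul_eq_mul_left t2
          rw [a2, b2, h]
      apply Prod.ext
      · rw [← a1, ← b1, hgg]
      · rw [← a2, ← b2, hgg]
    have i1 : Set.InjOn Prod.fst ((E.filter (fun e => ty e = t) : Finset (ℕ × ℕ)) : Set (ℕ × ℕ)) :=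
      fun e he f hf h => key e (Finset.mem_coe.1 he) f (Finset.mem_coe.1 hf) (Or.inl h)
    have i2 : Set.InjOn Prod.snd ((E.filter (fun e => ty e = t) : Finset (ℕ × ℕ)) : Set (ℕ × ℕ)) :=
      fun e he f hf h => key e (Finset.mem_coe.1 he) f (Finset.mem_coe.1 hf) (Or.inr h)
    have s1 : ∑ e ∈ E.filter (fun e => ty e = t), R e.1 ≤ M := by
      rw [← Finset.sum_image (f := R) i1]
      apply Finset.sum_le_sum_of_subset_of_nonneg
      · intro q hq
        obtain ⟨e, he, rfl⟩ := Finset.mem_image.1 hq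
        exact (memE e (hmem e he).1).1
      · intro q hq _; exact (hS q hq).2.le
    have s2 : ∑ e ∈ E.filter (fun e => ty e = t), R e.2 ≤ M := by
      rw [← Finset.sum_image (f := R) i2]
      apply Finset.sum_le_sum_of_subset_of_nonneg
      · intro q hq
        obtain ⟨e, he, rfl⟩ := Finset.mem_image.1 hq
        exact (memE e (hmem e he).1).2
      · intro q hq _; exact (hS q hq).2.le
    rw [e1]
    apply mul_le_mul_of_nonneg_right _ (mul_nonneg (f4_nonneg _) (f4_nonneg _))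
    linarith
  have hTT : ∑ t ∈ T, f4 t.1 * f4 t.2 ≤ Real.exp (28 * (p:ℝ)^(3/4:ℝ)) := by
    have hsub : T ⊆ (T.image Prod.fst) ×ˢ (T.image Prod.snd) := by
      intro t ht
      exact Finset.mem_product.2 ⟨Finset.mem_image_of_mem _ ht, Finset.mem_image_of_mem _ ht⟩
    have h1 : ∑ t ∈ T, f4 t.1 * f4 t.2 ≤
        (∑ x ∈ T.image Prod.fst, f4 x) * ∑ y ∈ T.image Prod.snd, f4 y := by
      rw [Finset.sum_mul_sum, ← Finset.sum_product']
      exact Finset.sum_le_sum_of_subset_of_nonneg hsub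
        fun t _ _ => mul_nonneg (f4_nonneg _) (f4_nonneg _)
    have h2 : ∑ x ∈ T.image Prod.fst, f4 x ≤ Real.exp (14 * (p:ℝ)^(3/4:ℝ)) := by
      apply smooth_sum
      intro x hx
      obtain ⟨t, ht, rfl⟩ := Finset.mem_image.1 hx
      obtain ⟨e, he, rfl⟩ := Finset.mem_image.1 ht
      exact ⟨cof_pos (hS _ (memE e he).1).1, (hsm e he).1⟩
    have h3 : ∑ x ∈ T.image Prod.snd, f4 x ≤ Real.exp (14 * (p:ℝ)^(3/4:ℝ)) := by
      apply smooth_sum
      intro x hx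
      obtain ⟨t, ht, rfl⟩ := Finset.mem_image.1 hx
      obtain ⟨e, he, rfl⟩ := Finset.mem_image.1 ht
      exact ⟨cof_pos (hS _ (memE e he).2).1, (hsm e he).2⟩
    have h4 : Real.exp (28 * (p:ℝ)^(3/4:ℝ)) =
        Real.exp (14 * (p:ℝ)^(3/4:ℝ)) * Real.exp (14 * (p:ℝ)^(3/4:ℝ)) := by
      rw [← Real.exp_add]; congr 1; ring
    rw [h4]
    exact h1.trans (mul_le_mul h2 h3 (Finset.sum_nonneg fun _ _ => f4_nonneg _) (Real.exp_pos _).le)
  have hgs : ∑ e ∈ E, g e ≤ 2 * M * Real.exp (28 * (p:ℝ)^(3/4:ℝ)) := by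
    rw [hfib]
    calc ∑ t ∈ T, ∑ e ∈ E.filter (fun e => ty e = t), g e
        ≤ ∑ t ∈ T, 2 * M * (f4 t.1 * f4 t.2) := Finset.sum_le_sum hty1
      _ = 2 * M * ∑ t ∈ T, f4 t.1 * f4 t.2 := (Finset.mul_sum T _ _).symm
      _ ≤ _ := mul_le_mul_of_nonneg_left hTT (by positivity)
  calc ∑ e ∈ E, F e ≤ ∑ e ∈ E, (y4 * g e + 4 * η * (R e.1 * R e.2)) := Finset.sum_le_sum hone
    _ = y4 * ∑ e ∈ E, g e + ∑ e ∈ E, 4 * η * (R e.1 * R e.2) := by
        rw [Finset.sum_add_distrib, Finset.mul_sum]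
    _ ≤ y4 * (2 * M * Real.exp (28 * (p:ℝ)^(3/4:ℝ))) + 4 * η * M^2 :=
        add_le_add (mul_le_mul_of_nonneg_left hgs hy40.le) hgen
    _ = _ := by ring

end Crest.Agent.R4P.TagE24
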