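import Crest.Agent.R4P.LLG_24
import Crest.Agent.R4P.TagE_24

/-!
R4 (S0004), POWERS, module dseR (D4), helper7: **labelled pairs with different labels crossing at a
prime `b`**, part A (tree free): smooth sums with exponent `99/100`, partial matchings, the unique
ratio of the pairs of two fixed labels with a large common part of the denominators.
-/

set_option autoImplicit false
open Finset

namespace Crest.Agent.R4P.AddLL7

open Crest.Agent.R4.HVW560 Crest.Agent.R4.InX944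
open Crest.Agent.R4.LF363 (Lab lab_cube)
open Crest.Agent.R4.LL207 (Zc div_gcd_pos dvd_of_exact)
open Crest.Agent.R4P.TagE24 (inv_le_exp f4 f4_apply f4_prime)

/-! ### smooth sums -/

/-- `n ↦ n^(-99/100)` -/
noncomputable def f99 : ℕ →* ℝ where
  toFun n := (n:ℝ)^(-(99/100):ℝ)
  map_one' := by simp
  map_mul' m n := by
    push_cast
    exact Real.mul_rpow (Nat.cast_nonneg _) (Nat.cast_nonneg _)

lemma f99_apply (n : ℕ) : f99 n = (n:ℝ)^(-(99/100):ℝ) := rfl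

lemma f99_nonneg (n : ℕ) : 0 ≤ f99 n := by rw [f99_apply]; positivity

lemma f99_prime {l : ℕ} (hl : l.Prime) : f99 l ≤ 6/7 := by
  have h2 : (1:ℝ) ≤ l := by exact_mod_cast hl.one_lt.le
  refine le_trans ?_ (f4_prime hl)
  rw [f99_apply, f4_apply]
  exact Real.rpow_le_rpow_of_exponent_le h2 (by norm_num)

/-- `∑_{l ≤ p} l^(-99/100) ≤ p^(1/100) (1 + log p)` -/
lemma sum_f99 (p : ℕ) : ∑ l ∈ Finset.range (p+1), f99 l ≤ (p:ℝ)^(1/100:ℝ) * (1 + Real.log p) := by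
  have h0 : f99 0 = 0 := by rw [f99_apply]; simp [Real.zero_rpow]
  rw [Finset.sum_range_succ', h0, add_zero]
  have h1 : ∀ l ∈ Finset.range p, f99 (l+1) ≤ (p:ℝ)^(1/100:ℝ) * ((l+1 : ℕ) : ℝ)⁻¹ := by
    intro l hl
    have hl' : ((l+1:ℕ):ℝ) ≤ p := by exact_mod_cast Finset.mem_range.1 hl
    have hl0 : (0:ℝ) < ((l+1:ℕ):ℝ) := by positivity
    rw [f99_apply]
    have e : ((l+1:ℕ):ℝ)^(-(99/100):ℝ) = ((l+1:ℕ):ℝ)^(1/100:ℝ) * ((l+1:ℕ):ℝ)⁻¹ := by
      rw [← Real.rpow_neg_one, ← Real.rpow_add hl0]; norm_num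
    rw [e]
    exact mul_le_mul_of_nonneg_right (Real.rpow_le_rpow hl0.le hl' (by norm_num)) (by positivity)
  refine (Finset.sum_le_sum h1).trans ?_
  rw [← Finset.mul_sum]
  refine mul_le_mul_of_nonneg_left ?_ (by positivity)
  have h2 := harmonic_le_one_add_log p
  have h3 : ((harmonic p : ℚ) : ℝ) = ∑ l ∈ Finset.range p, ((l+1 : ℕ) : ℝ)⁻¹ := by
    unfold harmonic; push_cast; rfl
  rw [← h3]; exact h2

/-- **sum over smooth numbers** -/
theorem smooth_sum99 (p : ℕ) (T : Finset ℕ)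
    (hT : ∀ x ∈ T, 0 < x ∧ ∀ l : ℕ, l.Prime → l ∣ x → l ≤ p) :
    ∑ x ∈ T, f99 x ≤ Real.exp (7 * ((p:ℝ)^(1/100:ℝ) * (1 + Real.log p))) := by
  classical
  have hn : ∀ {l : ℕ}, l.Prime → ‖f99 l‖ < 1 := by
    intro l hl
    rw [Real.norm_of_nonneg (f99_nonneg l)]
    have := f99_prime hl
    linarith
  obtain ⟨hs, hsum⟩ := EulerProduct.summable_and_hasSum_smoothNumbers_prod_primesBelow_geometric
    (f := f99) hn (p+1)
  have hmem : ∀ x ∈ T, x ∈ (p+1).smoothNumbers := by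
    intro x hx
    rw [Nat.mem_smoothNumbers']
    intro l hl hd
    exact Nat.lt_succ_of_le ((hT x hx).2 l hl hd)
  set T' : Finset ((p+1).smoothNumbers) := T.attach.image (fun x => ⟨x.1, hmem x.1 x.2⟩) with hT'
  have e1 : ∑ x ∈ T, f99 x = ∑ m ∈ T', f99 m := by
    rw [hT', Finset.sum_image]
    · rw [← Finset.sum_attach]
    · intro a _ b _ hab
      apply Subtype.ext
      exact congrArg (fun m : ((p+1).smoothNumbers) => (m : ℕ)) hab
  rw [e1]
  refine (sum_le_hasSum T' (fun m _ => f99_nonneg m) hsum).trans ?_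
  calc ∏ l ∈ (p+1).primesBelow, (1 - f99 l)⁻¹ ≤ ∏ l ∈ (p+1).primesBelow, Real.exp (7 * f99 l) := by
        apply Finset.prod_le_prod
        · intro l hl
          have := f99_prime (Nat.prime_of_mem_primesBelow hl)
          exact inv_nonneg.2 (by linarith)
        · intro l hl
          exact inv_le_exp (f99_nonneg l) (f99_prime (Nat.prime_of_mem_primesBelow hl))
    _ = Real.exp (∑ l ∈ (p+1).primesBelow, 7 * f99 l) := by rw [Real.exp_sum]
    _ ≤ _ := by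
        apply Real.exp_le_exp.2
        rw [← Finset.mul_sum]
        have h1 : ∑ l ∈ (p+1).primesBelow, f99 l ≤ ∑ l ∈ Finset.range (p+1), f99 l :=
          Finset.sum_le_sum_of_subset_of_nonneg (Finset.filter_subset _ _)
            fun l _ _ => f99_nonneg l
        have h2 := sum_f99 p
        linarith

/-- **large smooth numbers** -/
theorem smooth_tail (p : ℕ) {Y : ℝ} (hY : 0 < Y) (T : Finset ℕ)
    (hT : ∀ x ∈ T, 0 < x ∧ ∀ l : ℕ, l.Prime → l ∣ x → l ≤ p) (hTY : ∀ x ∈ T, Y ≤ x) :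
    ∑ x ∈ T, (x:ℝ)⁻¹ ≤
      Y^(-(1/100):ℝ) * Real.exp (7 * ((p:ℝ)^(1/100:ℝ) * (1 + Real.log p))) := by
  have h1 : ∀ x ∈ T, (x:ℝ)⁻¹ ≤ Y^(-(1/100):ℝ) * f99 x := by
    intro x hx
    have hx0 : (0:ℝ) < x := by exact_mod_cast (hT x hx).1
    rw [f99_apply]
    have e : (x:ℝ)⁻¹ = (x:ℝ)^(-(1/100):ℝ) * (x:ℝ)^(-(99/100):ℝ) := by
      rw [← Real.rpow_neg_one, ← Real.rpow_add hx0]; norm_num
    rw [e]
    exact mul_le_mul_of_nonneg_right
      (Real.rpow_le_rpow_of_nonpos hY (hTY x hx) (by norm_num)) (by positivity)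
  refine (Finset.sum_le_sum h1).trans ?_
  rw [← Finset.mul_sum]
  exact mul_le_mul_of_nonneg_left (smooth_sum99 p T hT) (by positivity)

/-! ### one type of pairs -/

/-- pairs of one type are a partial matching -/
lemma type_inj {E : Finset (ℕ × ℕ)} (h0 : ∀ e ∈ E, 0 < e.1 ∧ 0 < e.2) {x y : ℕ}
    (h : ∀ e ∈ E, cof e.1 e.2 = x ∧ cof e.2 e.1 = y) :
    Set.InjOn Prod.fst (E : Set (ℕ × ℕ)) ∧ Set.InjOn Prod.snd (E : Set (ℕ × ℕ)) := by
  have key : ∀ e ∈ E, ∀ f ∈ E, (e.1 = f.1 ∨ e.2 = f.2) → e = f := by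
    intro e he f hf hh
    obtain ⟨he2, he3⟩ := h e he
    obtain ⟨hf2, hf3⟩ := h f hf
    have a1 : x * Nat.gcd e.1 e.2 = e.1 := by rw [← he2]; exact cof_mul_gcd _ _
    have a2 : y * Nat.gcd e.1 e.2 = e.2 := by rw [← he3, Nat.gcd_comm]; exact cof_mul_gcd _ _
    have b1 : x * Nat.gcd f.1 f.2 = f.1 := by rw [← hf2]; exact cof_mul_gcd _ _
    have b2 : y * Nat.gcd f.1 f.2 = f.2 := by rw [← hf3, Nat.gcd_comm]; exact cof_mul_gcd _ _
    have t1 : 0 < x := by rw [← he2]; exact cof_pos (h0 e he).1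
    have t2 : 0 < y := by rw [← he3]; exact cof_pos (h0 e he).2
    have hgg : Nat.gcd e.1 e.2 = Nat.gcd f.1 f.2 := by
      rcases hh with hh | hh
      · apply Nat.eq_of_mul_eq_mul_left t1
        rw [a1, b1, hh]
      · apply Nat.eq_of_mul_eq_mul_left t2
        rw [a2, b2, hh]
    apply Prod.ext
    · rw [← a1, ← b1, hgg]
    · rw [← a2, ← b2, hgg]
  exact ⟨fun e he f hf hh => key e (Finset.mem_coe.1 he) f (Finset.mem_coe.1 hf) (Or.inl hh),
    fun e he f hf hh => key e (Finset.mem_coe.1 he) f (Finset.mem_coe.1 hf) (Or.inr hh)⟩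

/-- **the unique type**: exact `b^(-1/2)` -/
theorem match_le {S₁ S₀ : Finset ℕ} {E : Finset (ℕ × ℕ)} (hE : E ⊆ S₁ ×ˢ S₀) {R : ℕ → ℝ}
    (hS₁ : ∀ q ∈ S₁, 0 < q ∧ 0 < R q) (hS₀ : ∀ q ∈ S₀, 0 < q ∧ 0 < R q) {x y b : ℕ}
    (hb : 0 < b) (hxb : b ≤ x) (h : ∀ e ∈ E, cof e.1 e.2 = x ∧ cof e.2 e.1 = y)
    {F : ℕ × ℕ → ℝ} (hF : ∀ e ∈ E, F e ≤ 2 * ((R e.1 * R e.2) / DP R R e)) :
    ∑ e ∈ E, F e ≤ 2 / Real.sqrt b * Real.sqrt ((∑ q ∈ S₁, R q) * ∑ q ∈ S₀, R q) := by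
  classical
  have hmem : ∀ e ∈ E, e.1 ∈ S₁ ∧ e.2 ∈ S₀ := fun e he => Finset.mem_product.1 (hE he)
  have hbr : (0:ℝ) < b := by exact_mod_cast hb
  have hsb : 0 < Real.sqrt b := Real.sqrt_pos.2 hbr
  have hone : ∀ e ∈ E, F e ≤ 2 / Real.sqrt b * (Real.sqrt (R e.1) * Real.sqrt (R e.2)) := by
    intro e he
    obtain ⟨m1, m2⟩ := hmem e he
    obtain ⟨q0, r1⟩ := hS₁ _ m1
    obtain ⟨q0', r2⟩ := hS₀ _ m2
    obtain ⟨hx, hy⟩ := h e he
    have hD : 0 < DP R R e := DP_pos (R := R) (R' := R) q0' r1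
    have hxr : (b:ℝ) ≤ (cof e.1 e.2 : ℕ) := by rw [hx]; exact_mod_cast hxb
    have hyr : (1:ℝ) ≤ (cof e.2 e.1 : ℕ) := by exact_mod_cast cof_pos q0'
    have d1 : (cof e.2 e.1 : ℝ) * R e.1 ≤ DP R R e := le_max_left _ _
    have d2 : (cof e.1 e.2 : ℝ) * R e.2 ≤ DP R R e := le_max_right _ _
    have hDD : (b:ℝ) * (R e.1 * R e.2) ≤ DP R R e ^ 2 := by
      calc (b:ℝ) * (R e.1 * R e.2) ≤ ((cof e.2 e.1 : ℝ) * R e.1) * ((cof e.1 e.2 : ℝ) * R e.2) := by
            have : (b:ℝ) ≤ (cof e.2 e.1 : ℝ) * (cof e.1 e.2 : ℝ) := by nlinarith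
            calc (b:ℝ) * (R e.1 * R e.2) ≤ ((cof e.2 e.1 : ℝ) * (cof e.1 e.2 : ℝ)) * (R e.1 * R e.2) :=
                  mul_le_mul_of_nonneg_right this (by positivity)
              _ = _ := by ring
        _ ≤ DP R R e * DP R R e := mul_le_mul d1 d2 (by positivity) hD.le
        _ = _ := by ring
    refine (hF e he).trans ?_
    have key : (R e.1 * R e.2) / DP R R e ≤
        1 / Real.sqrt b * (Real.sqrt (R e.1) * Real.sqrt (R e.2)) := by
      rw [div_le_iff₀ hD, ← Real.sqrt_mul r1.le]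
      set s := Real.sqrt (R e.1 * R e.2) with hs
      have hs0 : 0 < s := Real.sqrt_pos.2 (mul_pos r1 r2)
      have hs2 : s ^ 2 = R e.1 * R e.2 := Real.sq_sqrt (mul_pos r1 r2).le
      have hb2 : Real.sqrt b ^ 2 = b := Real.sq_sqrt hbr.le
      have h5 : Real.sqrt b * s ≤ DP R R e := by
        refine le_of_sq_le_sq ?_ hD.le
        rw [mul_pow, hb2, hs2]; exact hDD
      rw [← hs2]
      calc s ^ 2 = 1 / Real.sqrt b * s * (Real.sqrt b * s) := by field_simp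
        _ ≤ 1 / Real.sqrt b * s * DP R R e := mul_le_mul_of_nonneg_left h5 (by positivity)
    calc 2 * ((R e.1 * R e.2) / DP R R e) ≤
        2 * (1 / Real.sqrt b * (Real.sqrt (R e.1) * Real.sqrt (R e.2))) := by linarith
      _ = _ := by ring
  refine (Finset.sum_le_sum hone).trans ?_
  rw [← Finset.mul_sum]
  refine mul_le_mul_of_nonneg_left ?_ (by positivity)
  obtain ⟨i1, i2⟩ := type_inj (fun e he => ⟨(hS₁ _ (hmem e he).1).1, (hS₀ _ (hmem e he).2).1⟩) h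
  have s1 : ∑ e ∈ E, R e.1 ≤ ∑ q ∈ S₁, R q := by
    rw [← Finset.sum_image (f := R) i1]
    refine Finset.sum_le_sum_of_subset_of_nonneg (fun q hq => ?_) fun q hq _ => (hS₁ q hq).2.le
    obtain ⟨e, he, rfl⟩ := Finset.mem_image.1 hq
    exact (hmem e he).1
  have s2 : ∑ e ∈ E, R e.2 ≤ ∑ q ∈ S₀, R q := by
    rw [← Finset.sum_image (f := R) i2]
    refine Finset.sum_le_sum_of_subset_of_nonneg (fun q hq => ?_) fun q hq _ => (hS₀ q hq).2.le
    obtain ⟨e, he, rfl⟩ := Finset.mem_image.1 hq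
    exact (hmem e he).2
  have n1 : 0 ≤ ∑ e ∈ E, R e.1 := Finset.sum_nonneg fun e he => (hS₁ _ (hmem e he).1).2.le
  have n2 : 0 ≤ ∑ e ∈ E, R e.2 := Finset.sum_nonneg fun e he => (hS₀ _ (hmem e he).2).2.le
  refine (Real.sum_mul_le_sqrt_mul_sqrt E (fun e => Real.sqrt (R e.1))
    (fun e => Real.sqrt (R e.2))).trans ?_
  have q1 : ∑ e ∈ E, Real.sqrt (R e.1) ^ 2 = ∑ e ∈ E, R e.1 :=
    Finset.sum_congr rfl fun e he => Real.sq_sqrt (hS₁ _ (hmem e he).1).2.le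
  have q2 : ∑ e ∈ E, Real.sqrt (R e.2) ^ 2 = ∑ e ∈ E, R e.2 :=
    Finset.sum_congr rfl fun e he => Real.sq_sqrt (hS₀ _ (hmem e he).2).2.le
  rw [q1, q2, ← Real.sqrt_mul n1]
  exact Real.sqrt_le_sqrt (mul_le_mul s1 s2 n2 (n1.trans s1))

/-- **types with one large smooth cofactor**, the other one at most `X` : left cofactor large -/
theorem large_le {S : Finset ℕ} {E : Finset (ℕ × ℕ)} (hE : E ⊆ S ×ˢ S) {R : ℕ → ℝ}
    (hS : ∀ q ∈ S, 0 < q ∧ 0 < R q) {p : ℕ} {X Y : ℝ} (hX : 0 ≤ X) (hY : 0 < Y)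
    (hsm : ∀ e ∈ E, ∀ l : ℕ, l.Prime → (l ∣ cof e.1 e.2 ∨ l ∣ cof e.2 e.1) → l ≤ p)
    (hbig : ∀ e ∈ E, (Y ≤ cof e.1 e.2 ∧ (cof e.2 e.1 : ℝ) ≤ X) ∨
      (Y ≤ cof e.2 e.1 ∧ (cof e.1 e.2 : ℝ) ≤ X))
    {F : ℕ × ℕ → ℝ} (hF : ∀ e ∈ E, F e ≤ 2 * ((R e.1 * R e.2) / DP R R e)) :
    ∑ e ∈ E, F e ≤ 4 * X * (Y^(-(1/100):ℝ) *
      Real.exp (7 * ((p:ℝ)^(1/100:ℝ) * (1 + Real.log p)))) * ∑ q ∈ S, R q := by
  classical
  have hmem : ∀ e ∈ E, e.1 ∈ S ∧ e.2 ∈ S := fun e he => Finset.mem_product.1 (hE he)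
  set M := ∑ q ∈ S, R q with hM
  set G := Y^(-(1/100):ℝ) * Real.exp (7 * ((p:ℝ)^(1/100:ℝ) * (1 + Real.log p))) with hG
  have hG0 : 0 ≤ G := by positivity
  have hM0 : 0 ≤ M := Finset.sum_nonneg fun w hw => (hS w hw).2.le
  -- one side
  have side : ∀ (E' : Finset (ℕ × ℕ)) (big small : ℕ × ℕ → ℕ), E' ⊆ E →
      ((∀ e, big e = cof e.1 e.2 ∧ small e = cof e.2 e.1) ∨
        (∀ e, big e = cof e.2 e.1 ∧ small e = cof e.1 e.2)) →
      (∀ e ∈ E', Y ≤ big e ∧ (small e : ℝ) ≤ X) →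
      ∑ e ∈ E', F e ≤ 2 * X * G * M := by
    intro E' big small hE' hbs hE'b
    have hpos : ∀ e ∈ E', 0 < big e ∧ 0 < small e := by
      intro e he
      obtain ⟨m1, m2⟩ := hmem e (hE' he)
      have c1 := cof_pos (w := e.2) (hS _ m1).1
      have c2 := cof_pos (w := e.1) (hS _ m2).1
      rcases hbs with h | h
      · rw [(h e).1, (h e).2]; exact ⟨c1, c2⟩
      · rw [(h e).1, (h e).2]; exact ⟨c2, c1⟩
    have hsm' : ∀ e ∈ E', ∀ l : ℕ, l.Prime → l ∣ big e → l ≤ p := by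
      intro e he l hl hd
      rcases hbs with h | h
      · rw [(h e).1] at hd; exact hsm e (hE' he) l hl (Or.inl hd)
      · rw [(h e).1] at hd; exact hsm e (hE' he) l hl (Or.inr hd)
    -- the types
    set ty : ℕ × ℕ → ℕ × ℕ := fun e => (small e, big e) with hty
    set T := E'.image ty with hT
    set Tb := E'.image big with hTb
    rw [← Finset.sum_fiberwise_of_maps_to (t := T) (g := ty)
      (fun e he => Finset.mem_image_of_mem ty he)]
    have h1 : ∀ t ∈ T, ∑ e ∈ E'.filter (fun e => ty e = t), F e ≤ 2 * M * (t.2:ℝ)⁻¹ := by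
      intro t _
      have hm : ∀ e ∈ E'.filter (fun e => ty e = t), e ∈ E' ∧ small e = t.1 ∧ big e = t.2 := by
        intro e he
        obtain ⟨h1, h2⟩ := Finset.mem_filter.1 he
        exact ⟨h1, congrArg Prod.fst h2, congrArg Prod.snd h2⟩
      have h0 : ∀ e ∈ E'.filter (fun e => ty e = t), 0 < e.1 ∧ 0 < e.2 := fun e he =>
        ⟨(hS _ (hmem e (hE' (hm e he).1)).1).1, (hS _ (hmem e (hE' (hm e he).1)).2).1⟩
      -- one pair
      have hone : ∀ e ∈ E'.filter (fun e => ty e = t), F e ≤ 2 * (t.2:ℝ)⁻¹ *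
          (if (∀ e, big e = cof e.1 e.2 ∧ small e = cof e.2 e.1) then R e.1 else R e.2) := by
        intro e he
        obtain ⟨he1, he2, he3⟩ := hm e he
        obtain ⟨m1, m2⟩ := hmem e (hE' he1)
        have r1 := (hS _ m1).2
        have r2 := (hS _ m2).2
        have hD : 0 < DP R R e := DP_pos (R := R) (R' := R) (hS _ m2).1 r1
        have d1 : (cof e.2 e.1 : ℝ) * R e.1 ≤ DP R R e := le_max_left _ _
        have d2 : (cof e.1 e.2 : ℝ) * R e.2 ≤ DP R R e := le_max_right _ _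
        have hb0 : (0:ℝ) < t.2 := by rw [← he3]; exact_mod_cast (hpos e he1).1
        refine (hF e (hE' he1)).trans ?_
        rw [mul_assoc]
        refine mul_le_mul_of_nonneg_left ?_ (by norm_num)
        rw [div_le_iff₀ hD]
        split_ifs with hc
        · have e1 : (cof e.1 e.2 : ℝ) = t.2 := by rw [← (hc e).1, he3]
          rw [e1] at d2
          calc R e.1 * R e.2 = (t.2:ℝ)⁻¹ * R e.1 * (t.2 * R e.2) := by field_simp
            _ ≤ (t.2:ℝ)⁻¹ * R e.1 * DP R R e := mul_le_mul_of_nonneg_left d2 (by positivity)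
        · have hc' := hbs.resolve_left hc
          have e1 : (cof e.2 e.1 : ℝ) = t.2 := by rw [← (hc' e).1, he3]
          rw [e1] at d1
          calc R e.1 * R e.2 = (t.2:ℝ)⁻¹ * R e.2 * (t.2 * R e.1) := by field_simp
            _ ≤ (t.2:ℝ)⁻¹ * R e.2 * DP R R e := mul_le_mul_of_nonneg_left d1 (by positivity)
      refine (Finset.sum_le_sum hone).trans ?_
      rw [← Finset.mul_sum]
      have e5 : 2 * M * (t.2:ℝ)⁻¹ = 2 * (t.2:ℝ)⁻¹ * M := by ring
      rw [e5]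
      refine mul_le_mul_of_nonneg_left ?_ (by positivity)
      split_ifs with hc
      · obtain ⟨i1, -⟩ := type_inj h0 (x := t.2) (y := t.1) (fun e he => by
          obtain ⟨-, he2, he3⟩ := hm e he
          rw [← he2, ← he3, (hc e).1, (hc e).2]; exact ⟨rfl, rfl⟩)
        rw [← Finset.sum_image (f := R) i1]
        refine Finset.sum_le_sum_of_subset_of_nonneg (fun q hq => ?_) fun q hq _ => (hS q hq).2.le
        obtain ⟨e, he, rfl⟩ := Finset.mem_image.1 hq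
        exact (hmem e (hE' (hm e he).1)).1
      · have hc' := hbs.resolve_left hc
        obtain ⟨-, i2⟩ := type_inj h0 (x := t.1) (y := t.2) (fun e he => by
          obtain ⟨-, he2, he3⟩ := hm e he
          rw [← he2, ← he3, (hc' e).1, (hc' e).2]; exact ⟨rfl, rfl⟩)
        rw [← Finset.sum_image (f := R) i2]
        refine Finset.sum_le_sum_of_subset_of_nonneg (fun q hq => ?_) fun q hq _ => (hS q hq).2.le
        obtain ⟨e, he, rfl⟩ := Finset.mem_image.1 hq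
        exact (hmem e (hE' (hm e he).1)).2
    refine (Finset.sum_le_sum h1).trans ?_
    rw [← Finset.mul_sum]
    -- sum over the types
    have hTs : T ⊆ Finset.Icc 1 ⌊X⌋₊ ×ˢ Tb := by
      intro t ht
      obtain ⟨e, he, rfl⟩ := Finset.mem_image.1 ht
      exact Finset.mem_product.2 ⟨Finset.mem_Icc.2 ⟨(hpos e he).2, Nat.le_floor (hE'b e he).2⟩,
        Finset.mem_image_of_mem _ he⟩
    have h2 : ∑ t ∈ T, (t.2:ℝ)⁻¹ ≤ X * G := by
      refine (Finset.sum_le_sum_of_subset_of_nonneg hTs fun t _ _ => by positivity).trans ?_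
      rw [Finset.sum_product]
      simp only
      rw [Finset.sum_const, nsmul_eq_mul, Nat.card_Icc, Nat.add_sub_cancel]
      have h3 : ∑ x ∈ Tb, (x:ℝ)⁻¹ ≤ G := by
        refine smooth_tail p hY Tb (fun x hx => ?_) (fun x hx => ?_)
        · obtain ⟨e, he, rfl⟩ := Finset.mem_image.1 hx
          exact ⟨(hpos e he).1, hsm' e he⟩
        · obtain ⟨e, he, rfl⟩ := Finset.mem_image.1 hx
          exact (hE'b e he).1
      exact mul_le_mul (Nat.floor_le hX) h3 (Finset.sum_nonneg fun x _ => by positivity) hX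
    calc 2 * M * ∑ t ∈ T, (t.2:ℝ)⁻¹ ≤ 2 * M * (X * G) := mul_le_mul_of_nonneg_left h2 (by positivity)
      _ = _ := by ring
  -- two sides
  rw [← Finset.sum_filter_add_sum_filter_not E
    (fun e => Y ≤ cof e.1 e.2 ∧ (cof e.2 e.1 : ℝ) ≤ X)]
  have s1 := side (E.filter (fun e => Y ≤ cof e.1 e.2 ∧ (cof e.2 e.1 : ℝ) ≤ X))
    (fun e => cof e.1 e.2) (fun e => cof e.2 e.1) (Finset.filter_subset _ _)
    (Or.inl fun e => ⟨rfl, rfl⟩) (fun e he => (Finset.mem_filter.1 he).2)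
  have s2 := side (E.filter (fun e => ¬ (Y ≤ cof e.1 e.2 ∧ (cof e.2 e.1 : ℝ) ≤ X)))
    (fun e => cof e.2 e.1) (fun e => cof e.1 e.2) (Finset.filter_subset _ _)
    (Or.inr fun e => ⟨rfl, rfl⟩) (fun e he => by
      obtain ⟨h1, h2⟩ := Finset.mem_filter.1 he
      exact (hbig e h1).resolve_left h2)
  linarith

/-! ### the unique ratio -/

/-- the congruence modulo the common part of the denominators -/
lemma cong {x y : ℕ} (ρ σ : ℚ) {n m : ℤ} (h : ((n:ℝ) + ρ) * y = (m + σ) * x) {x' y' : ℕ}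
    (hx : x = σ.den / Nat.gcd ρ.den σ.den * x') (hy : y = ρ.den / Nat.gcd ρ.den σ.den * y') :
    ((Nat.gcd ρ.den σ.den : ℕ) : ℤ) ∣ ρ.num * y' - σ.num * x' := by
  have hq : ((n : ℚ) + ρ) * y = (m + σ) * x := by exact_mod_cast h
  have e1 : ρ * ρ.den = ρ.num := Rat.mul_den_eq_num ρ
  have e2 : σ * σ.den = σ.num := Rat.mul_den_eq_num σ
  obtain ⟨p1, p2⟩ := div_gcd_pos ρ σ
  have hg0 : 0 < Nat.gcd ρ.den σ.den := Nat.gcd_pos_of_pos_left _ ρ.den_pos
  have hk : Nat.gcd ρ.den σ.den * (ρ.den / Nat.gcd ρ.den σ.den) = ρ.den :=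
    Nat.mul_div_cancel' (Nat.gcd_dvd_left _ _)
  have hl : Nat.gcd ρ.den σ.den * (σ.den / Nat.gcd ρ.den σ.den) = σ.den :=
    Nat.mul_div_cancel' (Nat.gcd_dvd_right _ _)
  set g := Nat.gcd ρ.den σ.den with hg
  set k' := ρ.den / g with hk'
  set l' := σ.den / g with hl'
  set k := ρ.den with hkd
  set l := σ.den with hld
  have hz : (n * k + ρ.num) * (y * l : ℤ) = (m * l + σ.num) * (x * k) := by
    have : ((n * k + ρ.num) * (y * l) : ℚ) = (m * l + σ.num) * (x * k) := by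
      rw [← e1, ← e2]
      linear_combination (k : ℚ) * l * hq
    exact_mod_cast this
  have hgz : (g : ℤ) * k' * l' ≠ 0 := by
    have : 0 < g * k' * l' := Nat.mul_pos (Nat.mul_pos hg0 p1) p2
    exact_mod_cast this.ne'
  have a1 : (k : ℤ) = g * k' := by exact_mod_cast hk.symm
  have a2 : (l : ℤ) = g * l' := by exact_mod_cast hl.symm
  have a3 : (x : ℤ) = l' * x' := by exact_mod_cast hx
  have a4 : (y : ℤ) = k' * y' := by exact_mod_cast hy
  have hz2 : (n * k + ρ.num) * (y' : ℤ) = (m * l + σ.num) * x' := by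
    apply mul_left_cancel₀ hgz
    calc (g : ℤ) * k' * l' * ((n * k + ρ.num) * y') = (n * k + ρ.num) * ((k' * y') * (g * l')) := by ring
      _ = (n * k + ρ.num) * (y * l) := by rw [← a4, ← a2]
      _ = (m * l + σ.num) * (x * k) := hz
      _ = (m * l + σ.num) * ((l' * x') * (g * k')) := by rw [← a3, ← a1]
      _ = _ := by ring
  refine ⟨m * l' * x' - n * k' * y', ?_⟩
  rw [a1, a2] at hz2
  linear_combination hz2

/-- **the unique ratio**: two pairs of coprime cofactors for the same two labels -/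
theorem ratio_unique (ρ σ : ℚ) {x y x₂ y₂ : ℕ} {n m n₂ m₂ : ℤ} (hxy : Nat.Coprime x y)
    (hxy₂ : Nat.Coprime x₂ y₂) (h : ((n:ℝ) + ρ) * y = (m + σ) * x)
    (h₂ : ((n₂:ℝ) + ρ) * y₂ = (m₂ + σ) * x₂)
    (h1 : y * x₂ < Nat.gcd ρ.den σ.den) (h2 : y₂ * x < Nat.gcd ρ.den σ.den) :
    x = x₂ ∧ y = y₂ := by
  obtain ⟨⟨x', hx'⟩, ⟨y', hy'⟩⟩ := dvd_of_exact ρ σ h
  obtain ⟨⟨x₂', hx₂'⟩, ⟨y₂', hy₂'⟩⟩ := dvd_of_exact ρ σ h₂
  have c1 := cong ρ σ h hx' hy'
  have c2 := cong ρ σ h₂ hx₂' hy₂'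
  obtain ⟨p1, p2⟩ := div_gcd_pos ρ σ
  have hg0 : 0 < Nat.gcd ρ.den σ.den := Nat.gcd_pos_of_pos_left _ ρ.den_pos
  set g := Nat.gcd ρ.den σ.den with hg
  -- `g ∣ y' x₂' - y₂' x'`
  have d1 : (g : ℤ) ∣ ρ.num * ((y' : ℤ) * x₂' - y₂' * x') := by
    obtain ⟨u, hu⟩ := c1
    obtain ⟨v, hv⟩ := c2
    refine ⟨u * x₂' - v * x', ?_⟩
    linear_combination (x₂' : ℤ) * hu - (x' : ℤ) * hv
  have hcop : IsCoprime (g : ℤ) ρ.num := by
    have h3 : (ρ.num).natAbs.Coprime ρ.den := ρ.reduced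
    have h4 : Nat.Coprime g (ρ.num).natAbs :=
      (Nat.Coprime.coprime_dvd_left (Nat.gcd_dvd_left _ _) h3.symm)
    have h5 := Nat.isCoprime_iff_coprime.2 h4
    rcases Int.natAbs_eq ρ.num with h6 | h6
    · rw [h6]; exact h5
    · rw [h6]; exact h5.neg_right
  have d2 : (g : ℤ) ∣ (y' : ℤ) * x₂' - y₂' * x' := hcop.dvd_of_dvd_mul_left d1
  -- sizes
  have z1 : y' * x₂' < g := by
    refine lt_of_le_of_lt ?_ h1
    rw [hy', hx₂']
    exact Nat.mul_le_mul (Nat.le_mul_of_pos_left _ p1) (Nat.le_mul_of_pos_left _ p2)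
  have z2 : y₂' * x' < g := by
    refine lt_of_le_of_lt ?_ h2
    rw [hy₂', hx']
    exact Nat.mul_le_mul (Nat.le_mul_of_pos_left _ p1) (Nat.le_mul_of_pos_left _ p2)
  have e0 : (y' : ℤ) * x₂' - y₂' * x' = 0 := by
    apply Int.eq_zero_of_abs_lt_dvd d2
    rw [abs_lt]
    have a1 : (y' : ℤ) * x₂' < g := by exact_mod_cast z1
    have a2 : (y₂' : ℤ) * x' < g := by exact_mod_cast z2
    have a3 : (0:ℤ) ≤ (y' : ℤ) * x₂' := by positivity
    have a4 : (0:ℤ) ≤ (y₂' : ℤ) * x' := by positivity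
    constructor <;> linarith
  have e1 : y' * x₂' = y₂' * x' := by
    have : (y' : ℤ) * x₂' = y₂' * x' := by linarith
    exact_mod_cast this
  have e2 : y * x₂ = y₂ * x := by
    rw [hy', hx₂', hy₂', hx']
    calc _ = (ρ.den / g) * (σ.den / g) * (y' * x₂') := by ring
      _ = (ρ.den / g) * (σ.den / g) * (y₂' * x') := by rw [e1]
      _ = _ := by ring
  -- coprimality
  have f1 : x ∣ x₂ := by
    have : x ∣ y * x₂ := by rw [e2]; exact Dvd.intro_left _ rfl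
    exact hxy.dvd_of_dvd_mul_left this
  have f2 : x₂ ∣ x := by
    have : x₂ ∣ y₂ * x := by rw [← e2]; exact Dvd.intro_left _ rfl
    exact hxy₂.dvd_of_dvd_mul_left this
  have f3 : y ∣ y₂ := by
    have : y ∣ y₂ * x := by rw [← e2]; exact Dvd.intro _ rfl
    exact hxy.symm.dvd_of_dvd_mul_right this
  have f4' : y₂ ∣ y := by
    have : y₂ ∣ y * x₂ := by rw [e2]; exact Dvd.intro _ rfl
    exact hxy₂.symm.dvd_of_dvd_mul_right this
  exact ⟨Nat.dvd_antisymm f1 f2, Nat.dvd_antisymm f3 f4'⟩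

end Crest.Agent.R4P.AddLL7
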