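import Crest.Agent.R4P.AddLL_7

/-!
R4 (S0004), POWERS, module dseR (D4), helper7: **labelled pairs with different labels whose first cofactor
is divisible by `b^2`**, product form (tree free): cost `b^(-13/25) (M_V M_W)^(1/2+e)`.
-/

set_option autoImplicit false
open Finset

namespace Crest.Agent.R4P.AddLB7

open Crest.Agent.R4.HVW560 Crest.Agent.R4.HVWX793 Crest.Agent.R4.LLpair207 Crest.Agent.R4.InX944
open Crest.Agent.R4.LF363 (Lab)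
open Crest.Agent.R4.LL207 (Zc div_gcd_pos dvd_of_exact Zc_ge Zc_symm Zc_pos CL CL_nonneg CX CX_pos
  e1 Bz_le D_ge lac_sum double)
open Crest.Agent.R4

/-- **Schur test, product form** -/
theorem schur_prod {Λ₁ Λ₂ : Finset ℚ} {c : ℚ → ℚ → ℝ} (hc : ∀ ρ σ, 0 ≤ c ρ σ) {M N : ℚ → ℝ}
    (hM : ∀ ρ, 0 ≤ M ρ) (hN : ∀ σ, 0 ≤ N σ) {Q ε : ℝ} (hQ0 : 0 ≤ Q) (hε : 0 ≤ ε)
    (hr : ∀ ρ ∈ Λ₁, ∑ σ ∈ Λ₂, c ρ σ ≤ Q) (hs : ∀ σ ∈ Λ₂, ∑ ρ ∈ Λ₁, c ρ σ ≤ Q) :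
    ∑ ρ ∈ Λ₁, ∑ σ ∈ Λ₂, c ρ σ * (M ρ * N σ)^(1/2+ε) ≤
      Q * ((∑ ρ ∈ Λ₁, M ρ) * ∑ σ ∈ Λ₂, N σ)^(1/2+ε) := by
  classical
  set T := ∑ ρ ∈ Λ₁, M ρ with hT
  set U := ∑ σ ∈ Λ₂, N σ with hU
  have hT0 : 0 ≤ T := Finset.sum_nonneg fun ρ _ => hM ρ
  have hU0 : 0 ≤ U := Finset.sum_nonneg fun σ _ => hN σ
  have hMT : ∀ ρ ∈ Λ₁, M ρ ≤ T := fun ρ hρ => Finset.single_le_sum (fun σ _ => hM σ) hρ
  have hNU : ∀ σ ∈ Λ₂, N σ ≤ U := fun σ hσ => Finset.single_le_sum (fun σ _ => hN σ) hσ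
  have e2 : ∀ ρ ∈ Λ₁, ∀ σ ∈ Λ₂, c ρ σ * (M ρ * N σ)^(1/2+ε) ≤
      (T * U)^ε * ((Real.sqrt (c ρ σ) * Real.sqrt (M ρ)) * (Real.sqrt (c ρ σ) * Real.sqrt (N σ))) := by
    intro ρ hρ σ hσ
    have h1 : (M ρ * N σ)^(1/2+ε) = (M ρ * N σ)^(1/2:ℝ) * (M ρ * N σ)^ε :=
      Real.rpow_add_of_nonneg (mul_nonneg (hM _) (hN _)) (by norm_num) hε
    have h2 : (M ρ * N σ)^(1/2:ℝ) = Real.sqrt (M ρ) * Real.sqrt (N σ) := by
      rw [← Real.sqrt_eq_rpow, Real.sqrt_mul (hM ρ)]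
    have h3 : (M ρ * N σ)^ε ≤ (T * U)^ε :=
      Real.rpow_le_rpow (mul_nonneg (hM _) (hN _))
        (mul_le_mul (hMT ρ hρ) (hNU σ hσ) (hN _) hT0) hε
    have h4 : Real.sqrt (c ρ σ) * Real.sqrt (c ρ σ) = c ρ σ := Real.mul_self_sqrt (hc ρ σ)
    have h5 : 0 ≤ Real.sqrt (M ρ) * Real.sqrt (N σ) := by positivity
    rw [h1, h2]
    calc c ρ σ * (Real.sqrt (M ρ) * Real.sqrt (N σ) * (M ρ * N σ)^ε)
        ≤ c ρ σ * (Real.sqrt (M ρ) * Real.sqrt (N σ) * (T * U)^ε) :=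
          mul_le_mul_of_nonneg_left (mul_le_mul_of_nonneg_left h3 h5) (hc ρ σ)
      _ = (Real.sqrt (c ρ σ) * Real.sqrt (c ρ σ)) * (Real.sqrt (M ρ) * Real.sqrt (N σ) * (T * U)^ε) := by
          rw [h4]
      _ = _ := by ring
  have hTU : 0 ≤ (T * U)^ε := Real.rpow_nonneg (mul_nonneg hT0 hU0) _
  have hcs : ∑ x ∈ Λ₁ ×ˢ Λ₂, (Real.sqrt (c x.1 x.2) * Real.sqrt (M x.1)) *
      (Real.sqrt (c x.1 x.2) * Real.sqrt (N x.2)) ≤ Q * Real.sqrt (T * U) := by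
    refine (Real.sum_mul_le_sqrt_mul_sqrt _ _ _).trans ?_
    have s1 : ∑ x ∈ Λ₁ ×ˢ Λ₂, (Real.sqrt (c x.1 x.2) * Real.sqrt (M x.1))^2 ≤ Q * T := by
      rw [Finset.sum_product]
      calc ∑ ρ ∈ Λ₁, ∑ σ ∈ Λ₂, (Real.sqrt (c ρ σ) * Real.sqrt (M ρ))^2
          = ∑ ρ ∈ Λ₁, (∑ σ ∈ Λ₂, c ρ σ) * M ρ := by
            refine Finset.sum_congr rfl fun ρ _ => ?_
            rw [Finset.sum_mul]
            refine Finset.sum_congr rfl fun σ _ => ?_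
            rw [mul_pow, Real.sq_sqrt (hc ρ σ), Real.sq_sqrt (hM ρ)]
        _ ≤ ∑ ρ ∈ Λ₁, Q * M ρ := Finset.sum_le_sum fun ρ hρ =>
            mul_le_mul_of_nonneg_right (hr ρ hρ) (hM ρ)
        _ = Q * T := by rw [← Finset.mul_sum]
    have s2 : ∑ x ∈ Λ₁ ×ˢ Λ₂, (Real.sqrt (c x.1 x.2) * Real.sqrt (N x.2))^2 ≤ Q * U := by
      rw [Finset.sum_product, Finset.sum_comm]
      calc ∑ σ ∈ Λ₂, ∑ ρ ∈ Λ₁, (Real.sqrt (c ρ σ) * Real.sqrt (N σ))^2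
          = ∑ σ ∈ Λ₂, (∑ ρ ∈ Λ₁, c ρ σ) * N σ := by
            refine Finset.sum_congr rfl fun σ _ => ?_
            rw [Finset.sum_mul]
            refine Finset.sum_congr rfl fun ρ _ => ?_
            rw [mul_pow, Real.sq_sqrt (hc ρ σ), Real.sq_sqrt (hN σ)]
        _ ≤ ∑ σ ∈ Λ₂, Q * N σ := Finset.sum_le_sum fun σ hσ =>
            mul_le_mul_of_nonneg_right (hs σ hσ) (hN σ)
        _ = Q * U := by rw [← Finset.mul_sum]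
    calc _ ≤ Real.sqrt (Q * T) * Real.sqrt (Q * U) :=
          mul_le_mul (Real.sqrt_le_sqrt s1) (Real.sqrt_le_sqrt s2) (Real.sqrt_nonneg _)
            (Real.sqrt_nonneg _)
      _ = Real.sqrt (Q^2 * (T * U)) := by
          rw [← Real.sqrt_mul (mul_nonneg hQ0 hT0)]
          congr 1; ring
      _ = Q * Real.sqrt (T * U) := by
          rw [Real.sqrt_mul (sq_nonneg _), Real.sqrt_sq hQ0]
  calc ∑ ρ ∈ Λ₁, ∑ σ ∈ Λ₂, c ρ σ * (M ρ * N σ)^(1/2+ε)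
      ≤ ∑ ρ ∈ Λ₁, ∑ σ ∈ Λ₂, (T * U)^ε * ((Real.sqrt (c ρ σ) * Real.sqrt (M ρ)) *
          (Real.sqrt (c ρ σ) * Real.sqrt (N σ))) :=
        Finset.sum_le_sum fun ρ hρ => Finset.sum_le_sum fun σ hσ => e2 ρ hρ σ hσ
    _ = (T * U)^ε * ∑ x ∈ Λ₁ ×ˢ Λ₂, (Real.sqrt (c x.1 x.2) * Real.sqrt (M x.1)) *
          (Real.sqrt (c x.1 x.2) * Real.sqrt (N x.2)) := by
        rw [Finset.mul_sum (Λ₁ ×ˢ Λ₂) (fun x : ℚ × ℚ => (Real.sqrt (c x.1 x.2) * Real.sqrt (M x.1)) *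
          (Real.sqrt (c x.1 x.2) * Real.sqrt (N x.2))) ((T * U)^ε), Finset.sum_product]
    _ ≤ (T * U)^ε * (Q * Real.sqrt (T * U)) := mul_le_mul_of_nonneg_left hcs hTU
    _ = Q * (T * U)^(1/2+ε) := by
        rw [Real.rpow_add_of_nonneg (mul_nonneg hT0 hU0) (by norm_num) hε, ← Real.sqrt_eq_rpow]
        ring

/-- row sums with the exponent `1/6` -/
theorem row6 {θ : ℝ} {Λ Λf : Finset ℚ} {a : ℚ → ℝ}
    (hΛ : ∀ ρ ∈ Λ, Lab θ (a ρ) ρ ∨ ρ ∈ Λf) (ρ : ℚ) :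
    ∑ σ ∈ Λ, ((Zc ρ σ : ℕ) : ℝ)^(-(1/6) : ℝ) ≤ CX + Λf.card := by
  classical
  have hle2 : ∀ σ, ((Zc ρ σ : ℕ) : ℝ)^(-(1/6) : ℝ) ≤ 1 := by
    intro σ
    have hZ : (1:ℝ) ≤ (Zc ρ σ : ℕ) := by exact_mod_cast Zc_pos ρ σ
    exact Real.rpow_le_one_of_one_le_of_nonpos hZ (by norm_num)
  rw [← Finset.sum_filter_add_sum_filter_not Λ (fun σ => σ ∈ Λf)]
  have s1 : ∑ σ ∈ Λ.filter (fun σ => σ ∈ Λf), ((Zc ρ σ : ℕ) : ℝ)^(-(1/6) : ℝ) ≤ Λf.card := by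
    calc ∑ σ ∈ Λ.filter (fun σ => σ ∈ Λf), ((Zc ρ σ : ℕ) : ℝ)^(-(1/6) : ℝ)
        ≤ ∑ σ ∈ Λ.filter (fun σ => σ ∈ Λf), (1:ℝ) := Finset.sum_le_sum fun σ _ => hle2 σ
      _ = (Λ.filter (fun σ => σ ∈ Λf)).card := by
          rw [Finset.sum_const, nsmul_eq_mul, mul_one]
      _ ≤ _ := by
          have : (Λ.filter (fun σ => σ ∈ Λf)).card ≤ Λf.card :=
            Finset.card_le_card fun σ hσ => (Finset.mem_filter.1 hσ).2
          exact_mod_cast this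
  set T := Λ.filter (fun σ => ¬ σ ∈ Λf) with hT
  have hTl : ∀ σ ∈ T, Lab θ (a σ) σ := by
    intro σ hσ
    obtain ⟨h1, h2⟩ := Finset.mem_filter.1 hσ
    exact (hΛ σ h1).resolve_right h2
  have s2 : ∑ σ ∈ T, ((Zc ρ σ : ℕ) : ℝ)^(-(1/6) : ℝ) ≤ CX := by
    refine lac_sum T (fun σ => σ.den) (fun σ _ => σ.den_pos) ?_ ρ.den_pos
      (Y := fun σ => ((Zc ρ σ : ℕ) : ℝ)) (fun σ _ => Zc_ge ρ σ)
    intro σ hσ τ hτ hne hle
    exact double (hTl σ hσ) (hTl τ hτ) hne hle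
  linarith

/-- **one pair of labels, first cofactor divisible by `d`** -/
theorem ll_label_d {V W : Finset ℕ} {R R' : ℕ → ℝ}
    (hV : ∀ v ∈ V, 0 < v ∧ 0 < R v) (hW : ∀ w ∈ W, 0 < w ∧ 0 < R' w)
    {z₁ z₂ d : ℕ} (hz₁ : 0 < z₁) (hz₂ : 0 < z₂) (hd : 0 < d) {K : ℝ} (hK : 0 ≤ K)
    {F : ℕ × ℕ → ℝ} {E : Finset (ℕ × ℕ)}
    (hE : E ⊆ V ×ˢ W) (hz : ∀ e ∈ E, z₁ ∣ cof e.1 e.2 ∧ z₂ ∣ cof e.2 e.1)
    (hdc : ∀ e ∈ E, d ∣ cof e.1 e.2)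
    (hD : ∀ e ∈ E, 1 ≤ 1024 * (Dp R R' e)^4 * ((z₁ * z₂ : ℕ) : ℝ)^10)
    (hF : ∀ e ∈ E, F e ≤ K * ((wt R e.1 * wt R' e.2) / Dp R R' e)) :
    ∑ e ∈ E, F e ≤ (10^5 * CL e1) * (K * ((d:ℝ)^(-(11/40) : ℝ) * ((z₁ * z₂ : ℕ) : ℝ)^(-(1/6) : ℝ))) *
      ((∑ v ∈ V, wt R v) * ∑ w ∈ W, wt R' w)^(1/2+e1) := by
  have he1 : 0 < e1 := by unfold e1; norm_num
  have he4 : e1 ≤ 1/4 := by unfold e1; norm_num
  set Z : ℝ := ((z₁ * z₂ : ℕ) : ℝ) with hZ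
  have hZ1 : 1 ≤ Z := by rw [hZ]; exact_mod_cast Nat.mul_pos hz₁ hz₂
  have hZ0 : 0 < Z := by linarith
  set δ : ℝ := 1/6 * Z^(-(5/2) : ℝ) with hδd
  have hδ : 0 < δ := by positivity
  have hδ4 : δ^4 * Z^10 = 1/1296 := by
    rw [hδd, mul_pow, ← Real.rpow_natCast (Z^(-(5/2):ℝ)) 4, ← Real.rpow_mul hZ0.le,
      ← Real.rpow_natCast Z 10, mul_assoc, ← Real.rpow_add hZ0]
    norm_num
  have h1 : ∀ e ∈ E, δ < Dp R R' e := by
    intro e he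
    by_contra hc
    push Not at hc
    have m := Finset.mem_product.1 (hE he)
    have hD0 : 0 ≤ Dp R R' e := by
      refine le_max_of_le_right (mul_nonneg (by positivity) (hV _ m.1).2.le)
    have h2 := hD e he
    have h3 : (Dp R R' e)^4 ≤ δ^4 := pow_le_pow_left₀ hD0 hc 4
    have h4 : 1024 * (Dp R R' e)^4 * Z^10 ≤ 1024 * (δ^4 * Z^10) := by
      have : (0:ℝ) ≤ Z^10 := by positivity
      nlinarith [mul_le_mul_of_nonneg_right h3 this]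
    rw [hδ4] at h4
    norm_num at h4
    linarith
  have hM : 0 ≤ ((∑ v ∈ V, wt R v) * ∑ w ∈ W, wt R' w)^(1/2+e1) := by
    apply Real.rpow_nonneg
    exact mul_nonneg (Finset.sum_nonneg fun q hq => wt_nonneg (hV q hq).2.le)
      (Finset.sum_nonneg fun q hq => wt_nonneg (hW q hq).2.le)
  set w₁ := Nat.lcm z₁ d with hw₁
  have hw₁0 : 0 < w₁ := Nat.lcm_pos hz₁ hd
  have key := LLG24.ll_class he1 he4 hV hW hK hδ (z₁ := w₁) (z₂ := z₂) hE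
    (fun e he => ⟨Nat.lcm_dvd (hz e he).1 (hdc e he), (hz e he).2⟩) h1 hF
  refine key.trans ?_
  apply mul_le_mul_of_nonneg_right _ hM
  have hCL := CL_nonneg he1
  set Y : ℝ := ((w₁ * z₂ : ℕ) : ℝ) with hY
  have hd0 : (0:ℝ) < d := by exact_mod_cast hd
  have hYZ : Z ≤ Y := by
    rw [hZ, hY]
    exact_mod_cast Nat.mul_le_mul_right _ (Nat.le_of_dvd hw₁0 (Nat.dvd_lcm_left z₁ d))
  have hYd : (d:ℝ) ≤ Y := by
    rw [hY]
    have h5 : d ≤ w₁ := Nat.le_of_dvd hw₁0 (Nat.dvd_lcm_right z₁ d)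
    exact_mod_cast h5.trans (Nat.le_mul_of_pos_right _ hz₂)
  have hY0 : 0 < Y := by linarith
  have d1 : δ^(-(2*e1)) ≤ 6 * Z^(1/200:ℝ) := by
    have b : δ^(-(2*e1)) = 6^(2*e1) * Z^(1/200:ℝ) := by
      rw [hδd, Real.mul_rpow (by norm_num) (by positivity), ← Real.rpow_mul hZ0.le, one_div,
        Real.inv_rpow (by norm_num), Real.rpow_neg (by norm_num), inv_inv]
      congr 2
      unfold e1; norm_num
    rw [b]
    apply mul_le_mul_of_nonneg_right _ (by positivity)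
    calc (6:ℝ)^(2*e1) ≤ 6^(1:ℝ) :=
          Real.rpow_le_rpow_of_exponent_le (by norm_num) (by unfold e1; norm_num)
      _ = 6 := Real.rpow_one _
  have d2 := Bz_le hw₁0 hz₂
  rw [← hY] at d2
  have d3 : Bz w₁ z₂ e1 * δ^(-(2*e1)) ≤ 10^5 * ((d:ℝ)^(-(11/40):ℝ) * Z^(-(1/6):ℝ)) := by
    have e3 : Y^(-(48/100) : ℝ) = Y^(-(11/40):ℝ) * Y^(-(41/200):ℝ) := by
      rw [← Real.rpow_add hY0]; norm_num
    have e4 : Y^(-(11/40):ℝ) ≤ (d:ℝ)^(-(11/40):ℝ) :=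
      Real.rpow_le_rpow_of_nonpos hd0 hYd (by norm_num)
    have e5 : Y^(-(41/200):ℝ) ≤ Z^(-(41/200):ℝ) :=
      Real.rpow_le_rpow_of_nonpos hZ0 hYZ (by norm_num)
    have e6 : Z^(-(41/200):ℝ) * Z^(1/200:ℝ) ≤ Z^(-(1/6):ℝ) := by
      rw [← Real.rpow_add hZ0]
      exact Real.rpow_le_rpow_of_exponent_le hZ1 (by norm_num)
    calc Bz w₁ z₂ e1 * δ^(-(2*e1)) ≤ (10^4 * Y^(-(48/100) : ℝ)) * (6 * Z^(1/200:ℝ)) :=
          mul_le_mul d2 d1 (by positivity) (by positivity)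
      _ = 60000 * (Y^(-(11/40):ℝ) * (Y^(-(41/200):ℝ) * Z^(1/200:ℝ))) := by rw [e3]; ring
      _ ≤ 60000 * ((d:ℝ)^(-(11/40):ℝ) * (Z^(-(41/200):ℝ) * Z^(1/200:ℝ))) := by
          apply mul_le_mul_of_nonneg_left _ (by norm_num)
          apply mul_le_mul e4 (mul_le_mul_of_nonneg_right e5 (by positivity)) (by positivity)
            (by positivity)
      _ ≤ 10^5 * ((d:ℝ)^(-(11/40):ℝ) * Z^(-(1/6):ℝ)) := by
          apply mul_le_mul (by norm_num) _ (by positivity) (by norm_num)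
          exact mul_le_mul_of_nonneg_left e6 (by positivity)
  calc CL e1 * (K * Bz w₁ z₂ e1 * δ^(-(2*e1))) = (CL e1 * K) * (Bz w₁ z₂ e1 * δ^(-(2*e1))) := by ring
    _ ≤ (CL e1 * K) * (10^5 * ((d:ℝ)^(-(11/40):ℝ) * Z^(-(1/6):ℝ))) :=
        mul_le_mul_of_nonneg_left d3 (by positivity)
    _ = _ := by ring

set_option maxHeartbeats 800000 in
/-- **all the pairs of labels**, first cofactor divisible by `d` -/
theorem ll_total_d {θ P K : ℝ} (hP : 1 ≤ P) (hK : 0 ≤ K) {V W : Finset ℕ} {R : ℕ → ℝ}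
    {lab : ℕ → ℚ} {Λf : Finset ℚ} {d : ℕ} (hd : 0 < d)
    (hS : ∀ q ∈ V ∪ W, 0 < q ∧ 0 < R q)
    (hlab : ∀ q ∈ V ∪ W, Lab θ (R q) (lab q) ∨ (lab q ∈ Λf ∧ P⁻¹ ≤ R q))
    {E : Finset (ℕ × ℕ)} (hE : E ⊆ V ×ˢ W) {F : ℕ × ℕ → ℝ}
    (hF : ∀ e ∈ E, F e ≤ K * ((wt R e.1 * wt R e.2) / Dp R R e))
    (hex : ∀ e ∈ E, 0 < F e → lab e.1 ≠ lab e.2 ∧ P ≤ (Zc (lab e.1) (lab e.2) : ℝ) ∧
      d ∣ cof e.1 e.2 ∧
      ∃ n m : ℤ, ((n:ℝ) + lab e.1) * (cof e.2 e.1 : ℕ) = (m + lab e.2) * (cof e.1 e.2 : ℕ)) :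
    ∑ e ∈ E, F e ≤ (10^5 * CL e1) * K * ((d:ℝ)^(-(11/40) : ℝ) * (CX + Λf.card)) *
      ((∑ q ∈ V, wt R q) * ∑ q ∈ W, wt R q)^(1/2+e1) := by
  classical
  have he1 : 0 < e1 := by unfold e1; norm_num
  have hP0 : 0 < P := by linarith
  have hSV : ∀ q ∈ V, 0 < q ∧ 0 < R q := fun q hq => hS q (Finset.mem_union_left _ hq)
  have hSW : ∀ q ∈ W, 0 < q ∧ 0 < R q := fun q hq => hS q (Finset.mem_union_right _ hq)
  have hred : ∑ e ∈ E, F e ≤ ∑ e ∈ E.filter (fun e => 0 < F e), F e := by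
    rw [← Finset.sum_filter_add_sum_filter_not E (fun e => 0 < F e)]
    have : ∑ e ∈ E.filter (fun e => ¬ 0 < F e), F e ≤ 0 :=
      Finset.sum_nonpos fun e he => not_lt.1 (Finset.mem_filter.1 he).2
    linarith
  refine hred.trans ?_
  set E' := E.filter (fun e => 0 < F e) with hE'
  set Λ₁ := V.image lab with hΛ₁
  set Λ₂ := W.image lab with hΛ₂
  have hCL := CL_nonneg he1
  have hmemE : ∀ e ∈ E', e.1 ∈ V ∧ e.2 ∈ W := fun e he =>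
    Finset.mem_product.1 (hE (Finset.mem_filter.1 he).1)
  have hch : ∀ ρ : ℚ, ∃ b : ℝ, ρ ∈ (V ∪ W).image lab → (Lab θ b ρ ∨ ρ ∈ Λf) := by
    intro ρ
    by_cases hρ : ρ ∈ (V ∪ W).image lab
    · obtain ⟨q, hq, rfl⟩ := Finset.mem_image.1 hρ
      exact ⟨R q, fun _ => (hlab q hq).imp id And.left⟩
    · exact ⟨0, fun h => absurd h hρ⟩
  choose b hb using hch
  have hsub1 : Λ₁ ⊆ (V ∪ W).image lab := Finset.image_subset_image Finset.subset_union_left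
  have hsub2 : Λ₂ ⊆ (V ∪ W).image lab := Finset.image_subset_image Finset.subset_union_right
  set c : ℚ → ℚ → ℝ := fun ρ σ => ((Zc ρ σ : ℕ) : ℝ)^(-(1/6) : ℝ) with hc
  have hc0 : ∀ ρ σ, 0 ≤ c ρ σ := fun ρ σ => by rw [hc]; positivity
  have hrow : ∀ ρ ∈ Λ₁, ∑ σ ∈ Λ₂, c ρ σ ≤ CX + Λf.card := fun ρ _ =>
    row6 (θ := θ) (a := b) (fun σ hσ => hb σ (hsub2 hσ)) ρ
  have hcol : ∀ σ ∈ Λ₂, ∑ ρ ∈ Λ₁, c ρ σ ≤ CX + Λf.card := fun σ _ => by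
    have := row6 (θ := θ) (Λ := Λ₁) (Λf := Λf) (a := b) (fun σ hσ => hb σ (hsub1 hσ)) σ
    refine le_trans (le_of_eq ?_) this
    refine Finset.sum_congr rfl fun ρ _ => ?_
    simp only [hc]
    rw [Zc_symm]
  set M : ℚ → ℝ := fun ρ => ∑ q ∈ V.filter (fun q => lab q = ρ), wt R q with hM
  set N : ℚ → ℝ := fun σ => ∑ q ∈ W.filter (fun q => lab q = σ), wt R q with hN
  have hM0 : ∀ ρ, 0 ≤ M ρ := fun ρ => Finset.sum_nonneg fun q hq =>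
    wt_nonneg (hSV q (Finset.mem_filter.1 hq).1).2.le
  have hN0 : ∀ σ, 0 ≤ N σ := fun σ => Finset.sum_nonneg fun q hq =>
    wt_nonneg (hSW q (Finset.mem_filter.1 hq).1).2.le
  have hMs : ∑ ρ ∈ Λ₁, M ρ = ∑ q ∈ V, wt R q :=
    Finset.sum_fiberwise_of_maps_to (fun q hq => Finset.mem_image_of_mem lab hq) _
  have hNs : ∑ σ ∈ Λ₂, N σ = ∑ q ∈ W, wt R q :=
    Finset.sum_fiberwise_of_maps_to (fun q hq => Finset.mem_image_of_mem lab hq) _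
  have e0 : ∑ e ∈ E', F e = ∑ ρ ∈ Λ₁, ∑ σ ∈ Λ₂,
      ∑ e ∈ E'.filter (fun e => lab e.1 = ρ ∧ lab e.2 = σ), F e := by
    have := Finset.sum_fiberwise_of_maps_to (s := E') (t := Λ₁ ×ˢ Λ₂)
      (g := fun e : ℕ × ℕ => (lab e.1, lab e.2)) (fun e he => by
        obtain ⟨a1, a2⟩ := hmemE e he
        exact Finset.mem_product.2 ⟨Finset.mem_image_of_mem _ a1, Finset.mem_image_of_mem _ a2⟩) F
    rw [← this, Finset.sum_product]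
    refine Finset.sum_congr rfl fun ρ _ => Finset.sum_congr rfl fun σ _ => ?_
    refine Finset.sum_congr ?_ fun _ _ => rfl
    ext e
    simp only [Finset.mem_filter, Prod.ext_iff]
  set K₀ : ℝ := (10^5 * CL e1) * K * (d:ℝ)^(-(11/40) : ℝ) with hK₀
  have hK₀0 : 0 ≤ K₀ := by rw [hK₀]; positivity
  have hpair : ∀ ρ ∈ Λ₁, ∀ σ ∈ Λ₂,
      ∑ e ∈ E'.filter (fun e => lab e.1 = ρ ∧ lab e.2 = σ), F e ≤
        K₀ * (c ρ σ * (M ρ * N σ)^(1/2+e1)) := by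
    intro ρ _ σ _
    set Eρ := E'.filter (fun e => lab e.1 = ρ ∧ lab e.2 = σ) with hEρ
    have hmem : ∀ e ∈ Eρ, e ∈ E ∧ 0 < F e ∧ lab e.1 = ρ ∧ lab e.2 = σ := by
      intro e he
      obtain ⟨h1, h2⟩ := Finset.mem_filter.1 he
      obtain ⟨h3, h4⟩ := Finset.mem_filter.1 h1
      exact ⟨h3, h4, h2⟩
    have hnn : 0 ≤ (M ρ * N σ)^(1/2+e1) := Real.rpow_nonneg (mul_nonneg (hM0 ρ) (hN0 σ)) _
    rcases Eρ.eq_empty_or_nonempty with h0 | ⟨e₀, he₀⟩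
    · rw [h0, Finset.sum_empty]
      exact mul_nonneg hK₀0 (mul_nonneg (hc0 _ _) hnn)
    obtain ⟨g1, g2, g3, g4⟩ := hmem e₀ he₀
    have hPZ : P ≤ (Zc ρ σ : ℝ) := by
      have := (hex e₀ g1 g2).2.1
      rwa [g3, g4] at this
    have hZ1 : (1:ℝ) ≤ (Zc ρ σ : ℕ) := by exact_mod_cast Zc_pos ρ σ
    obtain ⟨p1, p2⟩ := div_gcd_pos ρ σ
    have hZe : (σ.den / Nat.gcd ρ.den σ.den) * (ρ.den / Nat.gcd ρ.den σ.den) = Zc ρ σ := by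
      unfold Zc; ring
    have key := ll_label_d (V := V.filter (fun q => lab q = ρ)) (W := W.filter (fun q => lab q = σ))
      (R := R) (R' := R) (fun v hv => hSV v (Finset.mem_filter.1 hv).1)
      (fun v hv => hSW v (Finset.mem_filter.1 hv).1) p2 p1 hd hK (F := F) (E := Eρ)
      (by
        intro e he
        obtain ⟨h1, _, h3, h4⟩ := hmem e he
        have h5 := Finset.mem_product.1 (hE h1)
        exact Finset.mem_product.2 ⟨Finset.mem_filter.2 ⟨h5.1, h3⟩, Finset.mem_filter.2 ⟨h5.2, h4⟩⟩)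
      (by
        intro e he
        obtain ⟨h1, h2, h3, h4⟩ := hmem e he
        obtain ⟨_, _, _, n, m, h5⟩ := hex e h1 h2
        rw [h3, h4] at h5
        exact dvd_of_exact ρ σ h5)
      (by
        intro e he
        obtain ⟨h1, h2, h3, h4⟩ := hmem e he
        exact (hex e h1 h2).2.2.1)
      (by
        intro e he
        obtain ⟨h1, h2, h3, h4⟩ := hmem e he
        obtain ⟨hne, _, _⟩ := hex e h1 h2
        have m5 := Finset.mem_product.1 (hE h1)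
        have r1 := (hSV _ m5.1).2
        have r2 := (hSW _ m5.2).2
        have c1 : (1:ℝ) ≤ (cof e.1 e.2 : ℕ) := by exact_mod_cast cof_pos (hSV _ m5.1).1
        have c2 : (1:ℝ) ≤ (cof e.2 e.1 : ℕ) := by exact_mod_cast cof_pos (hSW _ m5.2).1
        have d1 : R e.1 ≤ Dp R R e := by
          refine le_trans ?_ (le_max_right _ _)
          nlinarith
        have d2 : R e.2 ≤ Dp R R e := by
          refine le_trans ?_ (le_max_left _ _)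
          nlinarith
        rw [hZe]
        have fat : P⁻¹ ≤ Dp R R e → 1 ≤ 1024 * (Dp R R e)^4 * ((Zc ρ σ : ℕ) : ℝ)^10 := by
          intro hd
          have hZ0 : (0:ℝ) < (Zc ρ σ : ℕ) := by linarith
          have t1 : 1 ≤ Dp R R e * (Zc ρ σ : ℕ) := by
            calc (1:ℝ) = P⁻¹ * P := (inv_mul_cancel₀ hP0.ne').symm
              _ ≤ Dp R R e * (Zc ρ σ : ℕ) := mul_le_mul hd hPZ hP0.le (by linarith)
          have t2 : 1 ≤ (Dp R R e * (Zc ρ σ : ℕ))^4 := one_le_pow₀ t1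
          have t3 : (1:ℝ) ≤ ((Zc ρ σ : ℕ) : ℝ)^6 := one_le_pow₀ hZ1
          calc (1:ℝ) ≤ 1024 * ((Dp R R e * (Zc ρ σ : ℕ))^4 * ((Zc ρ σ : ℕ) : ℝ)^6) := by nlinarith
            _ = _ := by ring
        rcases hlab _ (Finset.mem_union_left _ m5.1) with hl1 | hl1
        · rcases hlab _ (Finset.mem_union_right _ m5.2) with hl2 | hl2
          · have := D_ge hl1 hl2 hne d1 d2
            rwa [h3, h4] at this
          · exact fat (hl2.2.trans d2)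
        · exact fat (hl1.2.trans d1))
      (fun e he => hF e (hmem e he).1)
    rw [hZe] at key
    refine key.trans (le_of_eq ?_)
    rw [hK₀, hc, hM, hN]
    ring
  rw [e0]
  calc ∑ ρ ∈ Λ₁, ∑ σ ∈ Λ₂, ∑ e ∈ E'.filter (fun e => lab e.1 = ρ ∧ lab e.2 = σ), F e
      ≤ ∑ ρ ∈ Λ₁, ∑ σ ∈ Λ₂, K₀ * (c ρ σ * (M ρ * N σ)^(1/2+e1)) :=
        Finset.sum_le_sum fun ρ hρ => Finset.sum_le_sum fun σ hσ => hpair ρ hρ σ hσ
    _ = K₀ * ∑ ρ ∈ Λ₁, ∑ σ ∈ Λ₂, c ρ σ * (M ρ * N σ)^(1/2+e1) := by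
        rw [Finset.mul_sum]
        refine Finset.sum_congr rfl fun ρ _ => ?_
        rw [Finset.mul_sum]
    _ ≤ K₀ * ((CX + Λf.card) * ((∑ q ∈ V, wt R q) * ∑ q ∈ W, wt R q)^(1/2+e1)) := by
        refine mul_le_mul_of_nonneg_left ?_ hK₀0
        rw [← hMs, ← hNs]
        have hCX := CX_pos
        exact schur_prod hc0 hM0 hN0 (by positivity) he1.le hrow hcol
    _ = _ := by rw [hK₀]; ring

open Filter in
lemma num6 (C D : ℝ) (hC : 0 ≤ C) : ∀ᶠ x : ℝ in atTop,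
    C * Real.log x ^ D * (x^2) ^ (-(11/40):ℝ) ≤ x ^ (-(13/25):ℝ) := by
  have e1 := AddLL7.ev_lit (a := 3/100) (c := 1 / (C + 1)) (by norm_num) (by positivity) D
  filter_upwards [e1, eventually_ge_atTop (1:ℝ)] with x h1 h4
  have hx0 : 0 < x := by linarith
  have hl : 0 ≤ Real.log x ^ D := Real.rpow_nonneg (Real.log_nonneg h4) _
  have h5 : C * Real.log x ^ D ≤ x ^ (3/100:ℝ) := by
    calc C * Real.log x ^ D ≤ (C + 1) * (1 / (C + 1) * x ^ (3/100:ℝ)) :=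
          mul_le_mul (by linarith) h1 hl (by linarith)
      _ = _ := by field_simp
  have e2 : (x^2 : ℝ) ^ (-(11/40):ℝ) = x ^ (-(11/20):ℝ) := by
    rw [← Real.rpow_natCast x 2, ← Real.rpow_mul hx0.le]; norm_num
  rw [e2]
  calc C * Real.log x ^ D * x ^ (-(11/20):ℝ) ≤ x ^ (3/100:ℝ) * x ^ (-(11/20):ℝ) :=
        mul_le_mul_of_nonneg_right h5 (Real.rpow_nonneg hx0.le _)
    _ = _ := by rw [← Real.rpow_add hx0]; norm_num

/-- **labelled pairs with different labels, first cofactor divisible by `b²`** -/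
theorem ll_two (Cl : ℝ) (hCl : 0 ≤ Cl) : ∃ b₁ : ℕ, ∀ b : ℕ, b₁ ≤ b →
    ∀ (θ : ℝ) (V W : Finset ℕ) (E : Finset (ℕ × ℕ)) (R : ℕ → ℝ) (lab : ℕ → ℚ)
      (Λf : Finset ℚ) (F : ℕ × ℕ → ℝ),
    Λf.card ≤ 1 → E ⊆ V ×ˢ W →
    (∀ q ∈ V ∪ W, 0 < q ∧ 0 < R q) → (∀ q ∈ V ∪ W, R q ≤ Cl * Real.log b * wt R q) →
    (∀ q ∈ V ∪ W, Lab θ (R q) (lab q) ∨ (lab q ∈ Λf ∧ (b:ℝ)⁻¹ ≤ R q)) →
    (∀ e ∈ E, F e ≤ 2 * ((R e.1 * R e.2) / DP R R e)) →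
    (∀ e ∈ E, 0 < F e → lab e.1 ≠ lab e.2 ∧ (b:ℝ) ≤ (Zc (lab e.1) (lab e.2) : ℝ) ∧
      b ^ 2 ∣ cof e.1 e.2 ∧
      ∃ n m : ℤ, ((n:ℝ) + lab e.1) * (cof e.2 e.1 : ℕ) = (m + lab e.2) * (cof e.1 e.2 : ℕ)) →
    ∑ e ∈ E, F e ≤ (b:ℝ) ^ (-(13/25):ℝ) *
      ((∑ q ∈ V, wt R q) * ∑ q ∈ W, wt R q)^(1/2+e1) := by
  classical
  have hCX := CX_pos
  have he1 : 0 < e1 := by unfold e1; norm_num
  have hLe := CL_nonneg (ε := e1) he1
  obtain ⟨x₁, hx₁⟩ := Filter.eventually_atTop.1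
    ((num6 (10^5 * CL e1 * (2 * Cl^2) * (CX + 1)) 2
      (by positivity)).and (Filter.eventually_ge_atTop (Real.exp 1)))
  refine ⟨⌈x₁⌉₊ + 1, fun b hb => ?_⟩
  intro θ V W E R lab Λf F hΛ hES hS hLS hlab hF hex
  have hbx : x₁ ≤ b := (Nat.le_ceil x₁).trans (by exact_mod_cast (by omega : ⌈x₁⌉₊ ≤ b))
  obtain ⟨n1, n9⟩ := hx₁ b hbx
  have hb0N : 0 < b := by omega
  have hb0 : (0:ℝ) < b := by exact_mod_cast hb0N
  have hb1 : (1:ℝ) ≤ b := by exact_mod_cast hb0N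
  set ℓ := Real.log (b:ℝ) with hℓ
  have hℓ1 : 1 ≤ ℓ := by rw [hℓ]; exact (Real.le_log_iff_exp_le hb0).2 n9
  have hℓ0 : 0 < ℓ := by linarith
  set L := Cl * ℓ with hL
  have hL0 : 0 ≤ L := by positivity
  have hmem : ∀ e ∈ E, e.1 ∈ V ∪ W ∧ e.2 ∈ V ∪ W := fun e he => by
    obtain ⟨a1, a2⟩ := Finset.mem_product.1 (hES he)
    exact ⟨Finset.mem_union_left _ a1, Finset.mem_union_right _ a2⟩
  have k1 := ll_total_d (θ := θ) (P := b) (K := 2 * L^2) (d := b^2) hb1 (by positivity)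
    (Nat.pow_pos hb0N) (V := V) (W := W) (R := R) (lab := lab) (Λf := Λf) hS hlab
    (E := E) hES (F := F)
    (fun e he => by
      have hh := hmem e he
      have hR := (hS _ hh.1).2
      have hR' := (hS _ hh.2).2
      have hD := DP_pos (R := R) (R' := R) (hS _ hh.2).1 hR
      have eD : Dp R R e = DP R R e := by
        unfold Dp DP
        exact max_comm _ _
      rw [eD]
      have hRR : R e.1 * R e.2 ≤ L^2 * (wt R e.1 * wt R e.2) := by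
        have f1 := hLS _ hh.1
        have f2 := hLS _ hh.2
        have f5 : 0 ≤ L * wt R e.1 := hR.le.trans f1
        calc R e.1 * R e.2 ≤ (L * wt R e.1) * (L * wt R e.2) := mul_le_mul f1 f2 hR'.le f5
          _ = _ := by ring
      calc F e ≤ 2 * ((R e.1 * R e.2) / DP R R e) := hF e he
        _ ≤ 2 * ((L^2 * (wt R e.1 * wt R e.2)) / DP R R e) := by gcongr
        _ = 2 * L^2 * (wt R e.1 * wt R e.2 / DP R R e) := by ring)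
    hex
  have hΛr : ((Λf.card : ℕ) : ℝ) ≤ 1 := by exact_mod_cast hΛ
  have hMM : 0 ≤ ((∑ q ∈ V, wt R q) * ∑ q ∈ W, wt R q)^(1/2+e1) := by
    refine Real.rpow_nonneg (mul_nonneg ?_ ?_) _
    · exact Finset.sum_nonneg fun q hq => wt_nonneg (hS q (Finset.mem_union_left _ hq)).2.le
    · exact Finset.sum_nonneg fun q hq => wt_nonneg (hS q (Finset.mem_union_right _ hq)).2.le
  refine k1.trans (mul_le_mul_of_nonneg_right ?_ hMM)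
  push_cast
  calc (10^5 * CL e1) * (2 * L^2) * (((b:ℝ)^2)^(-(11/40) : ℝ) * (CX + Λf.card))
      ≤ (10^5 * CL e1) * (2 * L^2) * (((b:ℝ)^2)^(-(11/40) : ℝ) * (CX + 1)) := by gcongr
    _ = (10^5 * CL e1 * (2 * Cl^2) * (CX + 1)) * ℓ ^ (2:ℝ) * ((b:ℝ)^2)^(-(11/40) : ℝ) := by
        rw [Real.rpow_two, hL]; ring
    _ ≤ _ := n1

end Crest.Agent.R4P.AddLB7
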