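import Crest.Agent.R4.LL207

/-!
R4P (S0004, all `q`), helper24: **LL** for general items (no squarefree hypothesis): labelled pairs of
one node with DIFFERENT labels.  The only change is `ll_scale`: instead of coprimality of the crossing
divisors we move to `v / z₁`, `w / z₂` with the radii `z₂ * R`, `z₁ * R'`; the bound is the same.
-/

set_option autoImplicit false
open Finset

namespace Crest.Agent.R4P.LLG24

open Crest.Agent.R4.HVW560 Crest.Agent.R4.HVWX793 Crest.Agent.R4.LLpair207 Crest.Agent.R4.LL207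
open Crest.Agent.R4.LF363 (Lab rat_gap)

/-- dividing by divisors of the cofactors leaves the gcd unchanged -/
lemma gcd_div_div {v w z₁ z₂ : ℕ} (hv : 0 < v) (h1 : z₁ ∣ cof v w) (h2 : z₂ ∣ cof w v) :
    Nat.gcd (v / z₁) (w / z₂) = Nat.gcd v w := by
  have hg : 0 < Nat.gcd v w := Nat.gcd_pos_of_pos_left _ hv
  have e1 : cof v w * Nat.gcd v w = v := cof_mul_gcd v w
  have e2 : cof w v * Nat.gcd v w = w := by rw [Nat.gcd_comm]; exact cof_mul_gcd w v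
  obtain ⟨a, ha⟩ := h1
  obtain ⟨b, hb⟩ := h2
  have hcop : Nat.Coprime (cof v w) (cof w v) := cof_coprime hv
  have hc0 : 0 < cof v w := cof_pos hv
  have hz1 : 0 < z₁ := Nat.pos_of_ne_zero (by rintro rfl; rw [ha] at hc0; simp at hc0)
  rcases Nat.eq_zero_or_pos z₂ with rfl | hz2
  · have hw0 : cof w v = 0 := by rw [hb]; simp
    have hw : w = 0 := by rw [← e2, hw0]; simp
    have hc1 : cof v w = 1 := by
      rw [hw0] at hcop
      simpa using hcop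
    have : z₁ = 1 := Nat.eq_one_of_dvd_one (by rw [← hc1, ha]; exact Dvd.intro _ rfl)
    subst this
    rw [hw]; simp
  · have d1 : v / z₁ = a * Nat.gcd v w := by
      apply Nat.div_eq_of_eq_mul_right hz1
      rw [← mul_assoc, ← ha, e1]
    have d2 : w / z₂ = b * Nat.gcd v w := by
      apply Nat.div_eq_of_eq_mul_right hz2
      rw [← mul_assoc, ← hb, e2]
    rw [d1, d2, Nat.gcd_mul_right]
    have : Nat.gcd a b = 1 := by
      have h3 : Nat.Coprime a b := by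
        rw [ha, hb] at hcop
        exact Nat.Coprime.coprime_mul_left (Nat.Coprime.coprime_mul_left_right hcop)
      exact h3
    rw [this, one_mul]

lemma cof_div_div {v w z₁ z₂ : ℕ} (hv : 0 < v) (h1 : z₁ ∣ cof v w) (h2 : z₂ ∣ cof w v) :
    z₁ * cof (v / z₁) (w / z₂) = cof v w := by
  have hg : 0 < Nat.gcd v w := Nat.gcd_pos_of_pos_left _ hv
  have e1 : cof v w * Nat.gcd v w = v := cof_mul_gcd v w
  have e3 : cof (v / z₁) (w / z₂) * Nat.gcd v w = v / z₁ := by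
    have := cof_mul_gcd (v / z₁) (w / z₂)
    rwa [gcd_div_div hv h1 h2] at this
  have hd : z₁ ∣ v := h1.trans ⟨_, e1.symm⟩
  apply Nat.eq_of_mul_eq_mul_right hg
  rw [mul_assoc, e3, Nat.mul_div_cancel' hd, e1]

/-- **one scale**, general items -/
theorem ll_scale {ε : ℝ} (hε : 0 < ε) (hε4 : ε ≤ 1/4) {V W : Finset ℕ} {E : Finset (ℕ × ℕ)}
    {R R' : ℕ → ℝ} (hV : ∀ v ∈ V, 0 < v ∧ 0 ≤ R v) (hW : ∀ w ∈ W, 0 < w ∧ 0 ≤ R' w)
    (hE : E ⊆ V ×ˢ W) {z₁ z₂ : ℕ} (hz : ∀ e ∈ E, z₁ ∣ cof e.1 e.2 ∧ z₂ ∣ cof e.2 e.1)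
    {T K : ℝ} (hT : 0 < T) (hK : 0 ≤ K) {F : ℕ × ℕ → ℝ}
    (h1 : ∀ e ∈ E, (cof e.1 e.2 : ℝ) * R' e.2 ≤ T) (h2 : ∀ e ∈ E, (cof e.2 e.1 : ℝ) * R e.1 ≤ T)
    (hF : ∀ e ∈ E, F e ≤ K * (wt R e.1 * wt R' e.2)) :
    ∑ e ∈ E, F e ≤ K * (KH 1 0 ε * T^(1-2*ε) * Bz z₁ z₂ ε) *
      ((∑ v ∈ V, wt R v) * ∑ w ∈ W, wt R' w)^(1/2+ε) := by
  classical
  have hKH := (KH_pos 1 0 ε).le
  have hB := Bz_nonneg z₁ z₂ ε
  have hM : 0 ≤ ∑ v ∈ V, wt R v := Finset.sum_nonneg fun v hv => wt_nonneg (hV v hv).2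
  have hM' : 0 ≤ ∑ w ∈ W, wt R' w := Finset.sum_nonneg fun w hw => wt_nonneg (hW w hw).2
  rcases E.eq_empty_or_nonempty with rfl | ⟨e₀, he₀⟩
  · rw [Finset.sum_empty]; positivity
  have hV0 : ∀ v ∈ V, 0 < v := fun v hv => (hV v hv).1
  have hW0 : ∀ v ∈ W, 0 < v := fun v hv => (hW v hv).1
  have memE : ∀ e ∈ E, e.1 ∈ V ∧ e.2 ∈ W := fun e he => Finset.mem_product.1 (hE he)
  have hz₁ : 0 < z₁ := Nat.pos_of_dvd_of_pos (hz e₀ he₀).1 (cof_pos (hV0 _ (memE e₀ he₀).1))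
  have hz₂ : 0 < z₂ := Nat.pos_of_dvd_of_pos (hz e₀ he₀).2 (cof_pos (hW0 _ (memE e₀ he₀).2))
  have hz₁r : (0:ℝ) < z₁ := by exact_mod_cast hz₁
  have hz₂r : (0:ℝ) < z₂ := by exact_mod_cast hz₂
  set V' := V.filter fun v => z₁ ∣ v with hV'
  set W' := W.filter fun w => z₂ ∣ w with hW'
  have hV1 : ∀ v ∈ V', z₁ * (v / z₁) = v := fun v hv => Nat.mul_div_cancel' (Finset.mem_filter.1 hv).2
  have hW1 : ∀ w ∈ W', z₂ * (w / z₂) = w := fun w hw => Nat.mul_div_cancel' (Finset.mem_filter.1 hw).2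
  have hVpos : ∀ v ∈ V', 0 < v / z₁ := fun v hv =>
    Nat.div_pos (Nat.le_of_dvd (hV0 v (Finset.mem_filter.1 hv).1) (Finset.mem_filter.1 hv).2) hz₁
  have hWpos : ∀ w ∈ W', 0 < w / z₂ := fun w hw =>
    Nat.div_pos (Nat.le_of_dvd (hW0 w (Finset.mem_filter.1 hw).1) (Finset.mem_filter.1 hw).2) hz₂
  have hVR : ∀ v ∈ V', 0 ≤ R v := fun v hv => (hV v (Finset.mem_filter.1 hv).1).2
  have hWR : ∀ w ∈ W', 0 ≤ R' w := fun w hw => (hW w (Finset.mem_filter.1 hw).1).2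
  have memE' : ∀ e ∈ E, e.1 ∈ V' ∧ e.2 ∈ W' := by
    intro e he
    obtain ⟨m1, m2⟩ := memE e he
    obtain ⟨d1, d2⟩ := hz e he
    exact ⟨Finset.mem_filter.2 ⟨m1, d1.trans ⟨_, (cof_mul_gcd e.1 e.2).symm⟩⟩,
      Finset.mem_filter.2 ⟨m2, d2.trans ⟨_, (cof_mul_gcd e.2 e.1).symm⟩⟩⟩
  set ψ₁ : ℕ → ℝ := fun v => z₂ * R (z₁ * v) with hψ₁
  set θ₁ : ℕ → ℝ := fun w => z₁ * R' (z₂ * w) with hθ₁
  set V₁ := V'.image (fun v => v / z₁) with hV₁
  set W₁ := W'.image (fun w => w / z₂) with hW₁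
  set E₁ := E.image (fun e => (e.1 / z₁, e.2 / z₂)) with hE₁
  have injV : Set.InjOn (fun v => v / z₁) (V' : Set ℕ) := by
    intro a ha b hb hab
    have := congrArg (fun n => z₁ * n) hab
    simp only at this
    rw [hV1 a ha, hV1 b hb] at this
    exact this
  have injW : Set.InjOn (fun w => w / z₂) (W' : Set ℕ) := by
    intro a ha b hb hab
    have := congrArg (fun n => z₂ * n) hab
    simp only at this
    rw [hW1 a ha, hW1 b hb] at this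
    exact this
  have injE : Set.InjOn (fun e : ℕ × ℕ => (e.1 / z₁, e.2 / z₂)) (E : Set (ℕ × ℕ)) := by
    intro a ha b hb hab
    have h1 := congrArg Prod.fst hab
    have h2 := congrArg Prod.snd hab
    exact Prod.ext (injV (memE' a ha).1 (memE' b hb).1 h1) (injW (memE' a ha).2 (memE' b hb).2 h2)
  have hcof : ∀ e ∈ E, z₁ * cof (e.1/z₁) (e.2/z₂) = cof e.1 e.2 ∧
      z₂ * cof (e.2/z₂) (e.1/z₁) = cof e.2 e.1 := by
    intro e he
    obtain ⟨m1, m2⟩ := memE e he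
    obtain ⟨d1, d2⟩ := hz e he
    exact ⟨cof_div_div (hV0 _ m1) d1 d2, cof_div_div (hW0 _ m2) d2 d1⟩
  have key := hvw2_plain hε hε4 (V := V₁) (W := W₁) (E := E₁) (ψ := ψ₁) (θ := θ₁) (δ₁ := T) (δ₂ := T)
    { hδ₁ := hT
      hδ₂ := hT
      hV := by
        intro v hv
        obtain ⟨v', hv', rfl⟩ := Finset.mem_image.1 hv
        exact hVpos v' hv'
      hW := by
        intro v hv
        obtain ⟨v', hv', rfl⟩ := Finset.mem_image.1 hv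
        exact hWpos v' hv'
      hψ := by
        intro v hv
        obtain ⟨v', hv', rfl⟩ := Finset.mem_image.1 hv
        rw [hψ₁]; simp only
        rw [hV1 v' hv']; exact mul_nonneg hz₂r.le (hVR v' hv')
      hθ := by
        intro v hv
        obtain ⟨v', hv', rfl⟩ := Finset.mem_image.1 hv
        rw [hθ₁]; simp only
        rw [hW1 v' hv']; exact mul_nonneg hz₁r.le (hWR v' hv')
      hE := by
        intro e he
        obtain ⟨e', he', rfl⟩ := Finset.mem_image.1 he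
        exact Finset.mem_product.2 ⟨Finset.mem_image_of_mem _ (memE' e' he').1,
          Finset.mem_image_of_mem _ (memE' e' he').2⟩
      h1 := by
        intro e he
        obtain ⟨e', he', rfl⟩ := Finset.mem_image.1 he
        simp only [hθ₁]
        rw [hW1 _ (memE' e' he').2]
        have := h1 e' he'
        rw [← (hcof e' he').1] at this
        push_cast at this
        linarith
      h2 := by
        intro e he
        obtain ⟨e', he', rfl⟩ := Finset.mem_image.1 he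
        simp only [hψ₁]
        rw [hV1 _ (memE' e' he').1]
        have := h2 e' he'
        rw [← (hcof e' he').2] at this
        push_cast at this
        linarith }
  have hzz : (0:ℝ) < (z₁:ℝ) * z₂ := mul_pos hz₁r hz₂r
  -- left side
  have hL : (z₁:ℝ) * z₂ * ∑ e ∈ E, wt R e.1 * wt R' e.2 ≤ ∑ e ∈ E₁, wt ψ₁ e.1 * wt θ₁ e.2 := by
    rw [hE₁, Finset.sum_image injE, Finset.mul_sum]
    apply Finset.sum_le_sum
    intro e he
    obtain ⟨m1, m2⟩ := memE' e he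
    have w1 : (z₂:ℝ) * wt R e.1 ≤ wt ψ₁ (e.1/z₁) := by
      have := wt_mul_le (ψ := R) (z := z₁) (v := e.1/z₁) hz₁ (hVpos _ m1)
        (by rw [hV1 _ m1]; exact hVR _ m1)
      rw [hV1 _ m1] at this
      have h3 := mul_le_mul_of_nonneg_left this hz₂r.le
      refine h3.trans (le_of_eq ?_)
      rw [hψ₁]; unfold wt; ring
    have w2 : (z₁:ℝ) * wt R' e.2 ≤ wt θ₁ (e.2/z₂) := by
      have := wt_mul_le (ψ := R') (z := z₂) (v := e.2/z₂) hz₂ (hWpos _ m2)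
        (by rw [hW1 _ m2]; exact hWR _ m2)
      rw [hW1 _ m2] at this
      have h3 := mul_le_mul_of_nonneg_left this hz₁r.le
      refine h3.trans (le_of_eq ?_)
      rw [hθ₁]; unfold wt; ring
    have w1n : 0 ≤ wt R e.1 := wt_nonneg (hVR _ m1)
    have w2n : 0 ≤ wt R' e.2 := wt_nonneg (hWR _ m2)
    calc (z₁:ℝ) * z₂ * (wt R e.1 * wt R' e.2) = (z₂ * wt R e.1) * (z₁ * wt R' e.2) := by ring
      _ ≤ _ := mul_le_mul w1 w2 (mul_nonneg hz₁r.le w2n) ((mul_nonneg hz₂r.le w1n).trans w1)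
  have hf1 := (zf_pos hz₁).le
  have hf2 := (zf_pos hz₂).le
  have hM1 : ∑ v ∈ V₁, wt ψ₁ v ≤ z₂ * (zf z₁ * ∑ v ∈ V, wt R v) := by
    have s1 : ∑ v ∈ V', wt R v ≤ ∑ v ∈ V, wt R v :=
      Finset.sum_le_sum_of_subset_of_nonneg (Finset.filter_subset _ _)
        fun v hv _ => wt_nonneg (hV v hv).2
    have s2 : ∑ v ∈ V₁, wt ψ₁ v ≤ z₂ * (zf z₁ * ∑ v ∈ V', wt R v) := by
      rw [hV₁, Finset.sum_image injV, Finset.mul_sum, Finset.mul_sum]
      apply Finset.sum_le_sum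
      intro v hv
      have := wt_le_of_mul (ψ := R) (z := z₁) (v := v/z₁) hz₁ (hVpos _ hv)
        (by rw [hV1 _ hv]; exact hVR _ hv)
      rw [hV1 _ hv] at this
      have h3 := mul_le_mul_of_nonneg_left this hz₂r.le
      refine le_trans (le_of_eq ?_) h3
      rw [hψ₁]; unfold wt; ring
    refine s2.trans ?_
    exact mul_le_mul_of_nonneg_left (mul_le_mul_of_nonneg_left s1 hf1) hz₂r.le
  have hM2 : ∑ v ∈ W₁, wt θ₁ v ≤ z₁ * (zf z₂ * ∑ v ∈ W, wt R' v) := by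
    have s1 : ∑ v ∈ W', wt R' v ≤ ∑ v ∈ W, wt R' v :=
      Finset.sum_le_sum_of_subset_of_nonneg (Finset.filter_subset _ _)
        fun v hv _ => wt_nonneg (hW v hv).2
    have s2 : ∑ v ∈ W₁, wt θ₁ v ≤ z₁ * (zf z₂ * ∑ v ∈ W', wt R' v) := by
      rw [hW₁, Finset.sum_image injW, Finset.mul_sum, Finset.mul_sum]
      apply Finset.sum_le_sum
      intro v hv
      have := wt_le_of_mul (ψ := R') (z := z₂) (v := v/z₂) hz₂ (hWpos _ hv)
        (by rw [hW1 _ hv]; exact hWR _ hv)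
      rw [hW1 _ hv] at this
      have h3 := mul_le_mul_of_nonneg_left this hz₁r.le
      refine le_trans (le_of_eq ?_) h3
      rw [hθ₁]; unfold wt; ring
    refine s2.trans ?_
    exact mul_le_mul_of_nonneg_left (mul_le_mul_of_nonneg_left s1 hf2) hz₁r.le
  have hM2n : 0 ≤ ∑ v ∈ W₁, wt θ₁ v := by
    rw [hW₁, Finset.sum_image injW]
    apply Finset.sum_nonneg
    intro v hv
    apply wt_nonneg
    rw [hθ₁]; simp only
    rw [hW1 _ hv]; exact mul_nonneg hz₁r.le (hWR _ hv)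
  have hM1n : 0 ≤ ∑ v ∈ V₁, wt ψ₁ v := by
    rw [hV₁, Finset.sum_image injV]
    apply Finset.sum_nonneg
    intro v hv
    apply wt_nonneg
    rw [hψ₁]; simp only
    rw [hV1 _ hv]; exact mul_nonneg hz₂r.le (hVR _ hv)
  have eT : (T * T)^(1/2-ε) = T^(1-2*ε) := by
    rw [Real.mul_rpow hT.le hT.le, ← Real.rpow_add hT]
    congr 1; ring
  set N : ℝ := (z₁:ℝ) * z₂ with hN
  set MM : ℝ := (∑ v ∈ V, wt R v) * ∑ w ∈ W, wt R' w with hMM
  have hMM0 : 0 ≤ MM := mul_nonneg hM hM'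
  have eM : ((∑ v ∈ V₁, wt ψ₁ v) * ∑ w ∈ W₁, wt θ₁ w)^(1/2+ε) ≤
      N^(1/2+ε) * ((zf z₁ * zf z₂)^(1/2+ε) * MM^(1/2+ε)) := by
    rw [← Real.mul_rpow (by positivity) hMM0, ← Real.mul_rpow hzz.le (by positivity)]
    apply Real.rpow_le_rpow (mul_nonneg hM1n hM2n) _ (by linarith)
    calc (∑ v ∈ V₁, wt ψ₁ v) * ∑ w ∈ W₁, wt θ₁ w
        ≤ (z₂ * (zf z₁ * ∑ v ∈ V, wt R v)) * (z₁ * (zf z₂ * ∑ v ∈ W, wt R' v)) :=
          mul_le_mul hM1 hM2 hM2n (hM1n.trans hM1)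
      _ = _ := by rw [hN, hMM]; ring
  have hsum : ∑ e ∈ E, wt R e.1 * wt R' e.2 ≤
      N⁻¹ * (KH 1 0 ε * (T^(1-2*ε) * (N^(1/2+ε) * ((zf z₁ * zf z₂)^(1/2+ε) * MM^(1/2+ε))))) := by
    have h3 : N * ∑ e ∈ E, wt R e.1 * wt R' e.2 ≤
        KH 1 0 ε * (T^(1-2*ε) * (N^(1/2+ε) * ((zf z₁ * zf z₂)^(1/2+ε) * MM^(1/2+ε)))) := by
      refine hL.trans (key.trans ?_)
      rw [eT]
      apply mul_le_mul_of_nonneg_left _ hKH
      exact mul_le_mul_of_nonneg_left eM (by positivity)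
    calc ∑ e ∈ E, wt R e.1 * wt R' e.2 = N⁻¹ * (N * ∑ e ∈ E, wt R e.1 * wt R' e.2) := by
          rw [← mul_assoc, inv_mul_cancel₀ hzz.ne', one_mul]
      _ ≤ _ := mul_le_mul_of_nonneg_left h3 (by positivity)
  have eN : N⁻¹ * N^(1/2+ε) = (1 / N)^(1/2-ε) := by
    have h5 : (1 / N : ℝ) = N⁻¹ := one_div N
    rw [h5, Real.inv_rpow hzz.le, ← Real.rpow_neg hzz.le]
    nth_rewrite 1 [← Real.rpow_neg_one N]
    rw [← Real.rpow_add hzz]
    congr 1; ring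
  calc ∑ e ∈ E, F e ≤ ∑ e ∈ E, K * (wt R e.1 * wt R' e.2) := Finset.sum_le_sum hF
    _ = K * ∑ e ∈ E, wt R e.1 * wt R' e.2 := by rw [Finset.mul_sum]
    _ ≤ K * (N⁻¹ * (KH 1 0 ε * (T^(1-2*ε) * (N^(1/2+ε) *
          ((zf z₁ * zf z₂)^(1/2+ε) * MM^(1/2+ε)))))) := mul_le_mul_of_nonneg_left hsum hK
    _ = K * (KH 1 0 ε * (T^(1-2*ε) * ((N⁻¹ * N^(1/2+ε)) *
          ((zf z₁ * zf z₂)^(1/2+ε) * MM^(1/2+ε))))) := by ring
    _ = _ := by rw [eN]; unfold Bz; ring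

/-- dyadic scales above `δ`: `E` with `δ < D ≤ δ 2^n` -/
theorem ll_pair2 {ε : ℝ} (hε : 0 < ε) (hε4 : ε ≤ 1/4) {V W : Finset ℕ}
    {R R' : ℕ → ℝ} (hV : ∀ v ∈ V, 0 < v ∧ 0 < R v) (hW : ∀ w ∈ W, 0 < w ∧ 0 < R' w)
    {z₁ z₂ : ℕ} {K δ : ℝ} (hK : 0 ≤ K) (hδ : 0 < δ) {F : ℕ × ℕ → ℝ} (n : ℕ) :
    ∀ E : Finset (ℕ × ℕ),
    E ⊆ V ×ˢ W → (∀ e ∈ E, z₁ ∣ cof e.1 e.2 ∧ z₂ ∣ cof e.2 e.1) →
    (∀ e ∈ E, δ < Dp R R' e) → (∀ e ∈ E, Dp R R' e ≤ δ * 2^n) →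
    (∀ e ∈ E, F e ≤ K * ((wt R e.1 * wt R' e.2) / Dp R R' e)) →
    ∑ e ∈ E, F e ≤ (∑ i ∈ Finset.range n, ((2:ℝ)^(-(2*ε)))^(i+1)) *
      (2 * K * KH 1 0 ε * Bz z₁ z₂ ε * δ^(-(2*ε))) *
      ((∑ v ∈ V, wt R v) * ∑ w ∈ W, wt R' w)^(1/2+ε) := by
  classical
  set Z := ((∑ v ∈ V, wt R v) * ∑ w ∈ W, wt R' w)^(1/2+ε) with hZ
  have hKH := (KH_pos 1 0 ε).le
  have hBf := Bz_nonneg z₁ z₂ ε
  have hmu : ∀ q ∈ V, 0 ≤ wt R q := fun q hq => wt_nonneg (hV q hq).2.le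
  have hmu' : ∀ q ∈ W, 0 ≤ wt R' q := fun q hq => wt_nonneg (hW q hq).2.le
  induction n with
  | zero =>
    intro E hE _ h1 h2 _
    have : E = ∅ := by
      rw [Finset.eq_empty_iff_forall_notMem]
      intro e he
      have a := h1 e he
      have b := h2 e he
      simp at b
      linarith
    rw [this]; simp
  | succ n ih =>
    intro E hE hz h1 h2 hF
    set E1 := E.filter (fun e => Dp R R' e ≤ δ * 2^n) with hE1
    set E2 := E.filter (fun e => ¬ Dp R R' e ≤ δ * 2^n) with hE2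
    have hsplit : ∑ e ∈ E, F e = ∑ e ∈ E1, F e + ∑ e ∈ E2, F e := by
      rw [hE1, hE2, Finset.sum_filter_add_sum_filter_not]
    have s1 : ∀ e ∈ E1, e ∈ E := fun e he => (Finset.mem_filter.1 he).1
    have s2 : ∀ e ∈ E2, e ∈ E := fun e he => (Finset.mem_filter.1 he).1
    have b1 := ih E1 (fun e he => hE (s1 e he)) (fun e he => hz e (s1 e he))
      (fun e he => h1 e (s1 e he))
      (fun e he => (Finset.mem_filter.1 he).2) (fun e he => hF e (s1 e he))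
    have h2n : (0:ℝ) < δ * 2^n := by positivity
    have h2n1 : (0:ℝ) < δ * 2^(n+1) := by positivity
    have b2 := ll_scale hε hε4 (V := V) (W := W) (E := E2) (R := R) (R' := R')
      (z₁ := z₁) (z₂ := z₂)
      (T := δ * 2^(n+1)) (K := K / (δ * 2^n)) (F := F) (fun w hw => ⟨(hV w hw).1, (hV w hw).2.le⟩)
      (fun w hw => ⟨(hW w hw).1, (hW w hw).2.le⟩)
      (fun e he => hE (s2 e he)) (fun e he => hz e (s2 e he)) h2n1 (by positivity)
      (fun e he => (le_max_left _ _).trans (h2 e (s2 e he)))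
      (fun e he => (le_max_right _ _).trans (h2 e (s2 e he)))
      (by
        intro e he
        have h3 := not_le.1 (Finset.mem_filter.1 he).2
        have h5 : 0 < Dp R R' e := h2n.trans h3
        have h := Finset.mem_product.1 (hE (s2 e he))
        have h6 : 0 ≤ wt R e.1 * wt R' e.2 := mul_nonneg (hmu _ h.1) (hmu' _ h.2)
        refine (hF e (s2 e he)).trans ?_
        calc K * ((wt R e.1 * wt R' e.2) / Dp R R' e)
            ≤ K * ((wt R e.1 * wt R' e.2) / (δ * 2^n)) :=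
              mul_le_mul_of_nonneg_left (div_le_div_of_nonneg_left h6 h2n h3.le) hK
          _ = _ := by ring)
    have e1 : K / (δ * 2^n) * (KH 1 0 ε * (δ * 2^(n+1))^(1-2*ε) * Bz z₁ z₂ ε)
        = ((2:ℝ)^(-(2*ε)))^(n+1) * (2 * K * KH 1 0 ε * Bz z₁ z₂ ε * δ^(-(2*ε))) := by
      have e2 : (δ * 2^(n+1))^(1-2*ε) = (δ * 2^(n+1)) * (δ^(-(2*ε)) * ((2:ℝ)^(-(2*ε)))^(n+1)) := by
        rw [sub_eq_add_neg, Real.rpow_add h2n1, Real.rpow_one, Real.mul_rpow hδ.le (by positivity)]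
        congr 2
        rw [← Real.rpow_natCast, ← Real.rpow_natCast, ← Real.rpow_mul (by norm_num),
          ← Real.rpow_mul (by norm_num), mul_comm]
      rw [e2, pow_succ]
      field_simp
    rw [e1] at b2
    rw [hsplit, Finset.sum_range_succ, add_mul, add_mul]
    exact add_le_add b1 b2

/-- **one pair of classes**, all scales -/
theorem ll_class {ε : ℝ} (hε : 0 < ε) (hε4 : ε ≤ 1/4) {V W : Finset ℕ}
    {R R' : ℕ → ℝ} (hV : ∀ v ∈ V, 0 < v ∧ 0 < R v) (hW : ∀ w ∈ W, 0 < w ∧ 0 < R' w)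
    {z₁ z₂ : ℕ} {K δ : ℝ} (hK : 0 ≤ K) (hδ : 0 < δ) {F : ℕ × ℕ → ℝ} {E : Finset (ℕ × ℕ)}
    (hE : E ⊆ V ×ˢ W) (hz : ∀ e ∈ E, z₁ ∣ cof e.1 e.2 ∧ z₂ ∣ cof e.2 e.1)
    (h1 : ∀ e ∈ E, δ < Dp R R' e)
    (hF : ∀ e ∈ E, F e ≤ K * ((wt R e.1 * wt R' e.2) / Dp R R' e)) :
    ∑ e ∈ E, F e ≤ CL ε * (K * Bz z₁ z₂ ε * δ^(-(2*ε))) *
      ((∑ v ∈ V, wt R v) * ∑ w ∈ W, wt R' w)^(1/2+ε) := by
  classical
  have hZ0 : 0 ≤ ((∑ v ∈ V, wt R v) * ∑ w ∈ W, wt R' w)^(1/2+ε) := by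
    apply Real.rpow_nonneg
    exact mul_nonneg (Finset.sum_nonneg fun q hq => wt_nonneg (hV q hq).2.le)
      (Finset.sum_nonneg fun q hq => wt_nonneg (hW q hq).2.le)
  obtain ⟨n, hn⟩ : ∃ n : ℕ, ∀ e ∈ E, Dp R R' e ≤ δ * 2^n := by
    obtain ⟨n, hn⟩ := pow_unbounded_of_one_lt ((∑ e ∈ E, |Dp R R' e|) / δ) (one_lt_two)
    refine ⟨n, fun e he => ?_⟩
    rw [div_lt_iff₀ hδ] at hn
    have h2 : |Dp R R' e| ≤ ∑ e ∈ E, |Dp R R' e| :=
      Finset.single_le_sum (f := fun e => |Dp R R' e|) (fun e _ => abs_nonneg _) he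
    have h3 := le_abs_self (Dp R R' e)
    linarith
  refine (ll_pair2 hε hε4 hV hW hK hδ n E hE hz h1 hn hF).trans ?_
  apply mul_le_mul_of_nonneg_right _ hZ0
  have hB := Bz_nonneg z₁ z₂ ε
  have hKH := (KH_pos 1 0 ε).le
  calc (∑ i ∈ Finset.range n, ((2:ℝ)^(-(2*ε)))^(i+1)) *
      (2 * K * KH 1 0 ε * Bz z₁ z₂ ε * δ^(-(2*ε)))
      ≤ (1/(1-(2:ℝ)^(-(2*ε)))) * (2 * K * KH 1 0 ε * Bz z₁ z₂ ε * δ^(-(2*ε))) := by
        apply mul_le_mul_of_nonneg_right (Crest.Agent.R4.LL207.geom_bd (by positivity) (two_rpow_lt hε) n)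
        positivity
    _ = _ := by unfold CL; ring

/-- **one pair of labels** -/
theorem ll_label {V W : Finset ℕ} {R R' : ℕ → ℝ}
    (hV : ∀ v ∈ V, 0 < v ∧ 0 < R v) (hW : ∀ w ∈ W, 0 < w ∧ 0 < R' w)
    {z₁ z₂ : ℕ} (hz₁ : 0 < z₁) (hz₂ : 0 < z₂) {K : ℝ} (hK : 0 ≤ K) {F : ℕ × ℕ → ℝ}
    {E : Finset (ℕ × ℕ)}
    (hE : E ⊆ V ×ˢ W) (hz : ∀ e ∈ E, z₁ ∣ cof e.1 e.2 ∧ z₂ ∣ cof e.2 e.1)
    (hD : ∀ e ∈ E, 1 ≤ 1024 * (Dp R R' e)^4 * ((z₁ * z₂ : ℕ) : ℝ)^10)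
    (hF : ∀ e ∈ E, F e ≤ K * ((wt R e.1 * wt R' e.2) / Dp R R' e)) :
    ∑ e ∈ E, F e ≤ (10^5 * CL e1) * (K * ((z₁ * z₂ : ℕ) : ℝ)^(-(1/3) : ℝ)) *
      ((∑ v ∈ V, wt R v) * ∑ w ∈ W, wt R' w)^(1/2+e1) := by
  have he1 : 0 < e1 := by unfold e1; norm_num
  have he4 : e1 ≤ 1/4 := by unfold e1; norm_num
  have hV0 : ∀ v ∈ V, 0 < v := fun v hv => (hV v hv).1
  set Z : ℝ := ((z₁ * z₂ : ℕ) : ℝ) with hZ
  have hZ1 : 1 ≤ Z := by rw [hZ]; exact_mod_cast Nat.mul_pos hz₁ hz₂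
  have hZ0 : 0 < Z := by linarith
  set δ : ℝ := 1/6 * Z^(-(5/2) : ℝ) with hδd
  have hδ : 0 < δ := by positivity
  have hδ4 : δ^4 * Z^10 = 1/1296 := by
    rw [hδd, mul_pow, ← Real.rpow_natCast (Z^(-(5/2):ℝ)) 4, ← Real.rpow_mul hZ0.le,
      ← Real.rpow_natCast Z 10, mul_assoc, ← Real.rpow_add hZ0]
    norm_num
  have h1 : ∀ e ∈ E, δ < Dp R R' e := by
    intro e he
    by_contra hc
    push Not at hc
    have m := Finset.mem_product.1 (hE he)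
    have hD0 : 0 ≤ Dp R R' e := by
      refine le_max_of_le_right (mul_nonneg (by positivity) (hV _ m.1).2.le)
    have h2 := hD e he
    have h3 : (Dp R R' e)^4 ≤ δ^4 := pow_le_pow_left₀ hD0 hc 4
    have h4 : 1024 * (Dp R R' e)^4 * Z^10 ≤ 1024 * (δ^4 * Z^10) := by
      have : (0:ℝ) ≤ Z^10 := by positivity
      nlinarith [mul_le_mul_of_nonneg_right h3 this]
    rw [hδ4] at h4
    norm_num at h4
    linarith
  have key := ll_class he1 he4 hV hW hK hδ hE hz h1 hF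
  refine key.trans ?_
  have hM : 0 ≤ ((∑ v ∈ V, wt R v) * ∑ w ∈ W, wt R' w)^(1/2+e1) := by
    apply Real.rpow_nonneg
    exact mul_nonneg (Finset.sum_nonneg fun q hq => wt_nonneg (hV q hq).2.le)
      (Finset.sum_nonneg fun q hq => wt_nonneg (hW q hq).2.le)
  apply mul_le_mul_of_nonneg_right _ hM
  have hCL := CL_nonneg he1
  have d1 : δ^(-(2*e1)) ≤ 6 * Z^(1/200:ℝ) := by
    have b : δ^(-(2*e1)) = 6^(2*e1) * Z^(1/200:ℝ) := by
      rw [hδd, Real.mul_rpow (by norm_num) (by positivity), ← Real.rpow_mul hZ0.le, one_div,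
        Real.inv_rpow (by norm_num), Real.rpow_neg (by norm_num), inv_inv]
      congr 2
      unfold e1; norm_num
    rw [b]
    apply mul_le_mul_of_nonneg_right _ (by positivity)
    calc (6:ℝ)^(2*e1) ≤ 6^(1:ℝ) :=
          Real.rpow_le_rpow_of_exponent_le (by norm_num) (by unfold e1; norm_num)
      _ = 6 := Real.rpow_one _
  have d2 := Bz_le hz₁ hz₂
  rw [← hZ] at d2
  have d3 : Bz z₁ z₂ e1 * δ^(-(2*e1)) ≤ 10^5 * Z^(-(1/3):ℝ) := by
    calc Bz z₁ z₂ e1 * δ^(-(2*e1)) ≤ (10^4 * Z^(-(48/100) : ℝ)) * (6 * Z^(1/200:ℝ)) :=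
          mul_le_mul d2 d1 (by positivity) (by positivity)
      _ = 60000 * Z^(-(48/100) + 1/200 : ℝ) := by rw [Real.rpow_add hZ0]; ring
      _ ≤ 10^5 * Z^(-(1/3):ℝ) := by
          apply mul_le_mul (by norm_num) _ (by positivity) (by norm_num)
          exact Real.rpow_le_rpow_of_exponent_le hZ1 (by norm_num)
  calc CL e1 * (K * Bz z₁ z₂ e1 * δ^(-(2*e1))) = (CL e1 * K) * (Bz z₁ z₂ e1 * δ^(-(2*e1))) := by ring
    _ ≤ (CL e1 * K) * (10^5 * Z^(-(1/3):ℝ)) := mul_le_mul_of_nonneg_left d3 (by positivity)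
    _ = _ := by ring

/-- **LL**: all the pairs of labelled items of one node with different labels.
`hlab`: the label is valid at some radius `a q ≤ R q`, or it is one of the labels of `Λf` and
`R q ≥ 1/P`. -/
theorem ll_total {θ P K : ℝ} (hP : 1 ≤ P) (hK : 0 ≤ K) {S : Finset ℕ} {R a : ℕ → ℝ}
    {lab : ℕ → ℚ} {Λf : Finset ℚ} (hS : ∀ q ∈ S, 0 < q ∧ 0 < R q)
    (hlab : ∀ q ∈ S, (Lab θ (a q) (lab q) ∧ a q ≤ R q) ∨ (lab q ∈ Λf ∧ P⁻¹ ≤ R q))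
    {E : Finset (ℕ × ℕ)} (hE : E ⊆ S ×ˢ S) {F : ℕ × ℕ → ℝ}
    (hF : ∀ e ∈ E, F e ≤ K * ((wt R e.1 * wt R e.2) / Dp R R e))
    (hex : ∀ e ∈ E, 0 < F e → lab e.1 ≠ lab e.2 ∧ P ≤ (Zc (lab e.1) (lab e.2) : ℝ) ∧
      ∃ n m : ℤ, ((n:ℝ) + lab e.1) * (cof e.2 e.1 : ℕ) = (m + lab e.2) * (cof e.1 e.2 : ℕ)) :
    ∑ e ∈ E, F e ≤ (10^5 * CL e1) * K * ((CX + Λf.card) * P^(-(1/6) : ℝ)) *
      (∑ q ∈ S, wt R q)^(1+2*e1) := by
  classical
  have he1 : 0 < e1 := by unfold e1; norm_num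
  have hP0 : 0 < P := by linarith
  have hS0 : ∀ q ∈ S, 0 < q := fun q hq => (hS q hq).1
  -- only the positive pairs
  have hred : ∑ e ∈ E, F e ≤ ∑ e ∈ E.filter (fun e => 0 < F e), F e := by
    rw [← Finset.sum_filter_add_sum_filter_not E (fun e => 0 < F e)]
    have : ∑ e ∈ E.filter (fun e => ¬ 0 < F e), F e ≤ 0 :=
      Finset.sum_nonpos fun e he => not_lt.1 (Finset.mem_filter.1 he).2
    linarith
  refine hred.trans ?_
  set E' := E.filter (fun e => 0 < F e) with hE'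
  have hE'S : E' ⊆ S ×ˢ S := (Finset.filter_subset _ _).trans hE
  set Λ := S.image lab with hΛ
  have hCL := CL_nonneg he1
  -- one valid radius for every label
  have hch : ∀ ρ : ℚ, ∃ b : ℝ, ρ ∈ Λ → (Lab θ b ρ ∨ ρ ∈ Λf) := by
    intro ρ
    by_cases hρ : ρ ∈ Λ
    · obtain ⟨q, hq, rfl⟩ := Finset.mem_image.1 hρ
      exact ⟨a q, fun _ => (hlab q hq).imp And.left And.left⟩
    · exact ⟨0, fun h => absurd h hρ⟩
  choose b hb using hch
  have hrow : ∀ ρ ∈ Λ, ∑ σ ∈ Λ, cc P ρ σ ≤ (CX + Λf.card) * P^(-(1/6) : ℝ) := fun ρ _ =>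
    row_sum hP (θ := θ) (a := b) (fun σ hσ => hb σ hσ) ρ
  refine (schur (Λ := Λ) (S := S) (lab := lab) (fun q hq => Finset.mem_image_of_mem lab hq)
    (m := wt R) (fun q hq => wt_nonneg (hS q hq).2.le) hE'S (F := F) (P := P)
    (K := (10^5 * CL e1) * K) (Q := (CX + Λf.card) * P^(-(1/6) : ℝ)) (ε := e1) (by positivity) he1
    ?_ hrow)
  intro ρ _ σ _
  set Eρ := E'.filter (fun e => lab e.1 = ρ ∧ lab e.2 = σ) with hEρ
  have hmem : ∀ e ∈ Eρ, e ∈ E ∧ 0 < F e ∧ lab e.1 = ρ ∧ lab e.2 = σ := by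
    intro e he
    obtain ⟨h1, h2⟩ := Finset.mem_filter.1 he
    obtain ⟨h3, h4⟩ := Finset.mem_filter.1 h1
    exact ⟨h3, h4, h2⟩
  have hnn : 0 ≤ ((∑ q ∈ S.filter (fun q => lab q = ρ), wt R q) *
      ∑ q ∈ S.filter (fun q => lab q = σ), wt R q)^(1/2+e1) := by
    apply Real.rpow_nonneg
    exact mul_nonneg (Finset.sum_nonneg fun q hq => wt_nonneg (hS q (Finset.mem_filter.1 hq).1).2.le)
      (Finset.sum_nonneg fun q hq => wt_nonneg (hS q (Finset.mem_filter.1 hq).1).2.le)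
  rcases Eρ.eq_empty_or_nonempty with h0 | ⟨e₀, he₀⟩
  · rw [h0, Finset.sum_empty]
    have := cc_nonneg P ρ σ
    positivity
  obtain ⟨g1, g2, g3, g4⟩ := hmem e₀ he₀
  have hPZ : P ≤ (Zc ρ σ : ℝ) := by
    have := (hex e₀ g1 g2).2.1
    rwa [g3, g4] at this
  have hcc : cc P ρ σ = ((Zc ρ σ : ℕ) : ℝ)^(-(1/3) : ℝ) := if_pos hPZ
  rw [hcc]
  have hZ1 : (1:ℝ) ≤ (Zc ρ σ : ℕ) := by exact_mod_cast Zc_pos ρ σ
  obtain ⟨p1, p2⟩ := div_gcd_pos ρ σ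
  have hZe : (σ.den / Nat.gcd ρ.den σ.den) * (ρ.den / Nat.gcd ρ.den σ.den) = Zc ρ σ := by
    unfold Zc; ring
  have key := ll_label (V := S.filter (fun q => lab q = ρ)) (W := S.filter (fun q => lab q = σ))
    (R := R) (R' := R) (fun v hv => hS v (Finset.mem_filter.1 hv).1)
    (fun v hv => hS v (Finset.mem_filter.1 hv).1) p2 p1 hK (F := F) (E := Eρ)
    (by
      intro e he
      obtain ⟨h1, _, h3, h4⟩ := hmem e he
      have h5 := Finset.mem_product.1 (hE h1)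
      exact Finset.mem_product.2 ⟨Finset.mem_filter.2 ⟨h5.1, h3⟩, Finset.mem_filter.2 ⟨h5.2, h4⟩⟩)
    (by
      intro e he
      obtain ⟨h1, h2, h3, h4⟩ := hmem e he
      obtain ⟨_, _, n, m, h5⟩ := hex e h1 h2
      rw [h3, h4] at h5
      exact dvd_of_exact ρ σ h5)
    (by
      intro e he
      obtain ⟨h1, h2, h3, h4⟩ := hmem e he
      obtain ⟨hne, _, _⟩ := hex e h1 h2
      have m5 := Finset.mem_product.1 (hE h1)
      have r1 := (hS _ m5.1).2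
      have r2 := (hS _ m5.2).2
      have c1 : (1:ℝ) ≤ (cof e.1 e.2 : ℕ) := by exact_mod_cast cof_pos (hS0 _ m5.1)
      have c2 : (1:ℝ) ≤ (cof e.2 e.1 : ℕ) := by exact_mod_cast cof_pos (hS0 _ m5.2)
      have d1 : R e.1 ≤ Dp R R e := by
        refine le_trans ?_ (le_max_right _ _)
        nlinarith
      have d2 : R e.2 ≤ Dp R R e := by
        refine le_trans ?_ (le_max_left _ _)
        nlinarith
      rw [hZe]
      have fat : P⁻¹ ≤ Dp R R e → 1 ≤ 1024 * (Dp R R e)^4 * ((Zc ρ σ : ℕ) : ℝ)^10 := by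
        intro hd
        have hZ0 : (0:ℝ) < (Zc ρ σ : ℕ) := by linarith
        have t1 : 1 ≤ Dp R R e * (Zc ρ σ : ℕ) := by
          calc (1:ℝ) = P⁻¹ * P := (inv_mul_cancel₀ hP0.ne').symm
            _ ≤ Dp R R e * (Zc ρ σ : ℕ) := mul_le_mul hd hPZ hP0.le (by linarith)
        have t2 : 1 ≤ (Dp R R e * (Zc ρ σ : ℕ))^4 := one_le_pow₀ t1
        have t3 : (1:ℝ) ≤ ((Zc ρ σ : ℕ) : ℝ)^6 := one_le_pow₀ hZ1
        calc (1:ℝ) ≤ 1024 * ((Dp R R e * (Zc ρ σ : ℕ))^4 * ((Zc ρ σ : ℕ) : ℝ)^6) := by nlinarith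
          _ = _ := by ring
      rcases hlab _ m5.1 with hl1 | hl1
      · rcases hlab _ m5.2 with hl2 | hl2
        · have := D_ge hl1.1 hl2.1 hne (hl1.2.trans d1) (hl2.2.trans d2)
          rwa [h3, h4] at this
        · exact fat (hl2.2.trans d2)
      · exact fat (hl1.2.trans d1))
    (fun e he => hF e (hmem e he).1)
  rw [hZe] at key
  refine key.trans (le_of_eq ?_)
  ring

end Crest.Agent.R4P.LLG24
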