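import Crest.Agent.R4.RseN207
import Crest.Agent.R4P.LLG_24

/-!
R4P (S0004, all `q`), helper24: the numbers of `rseR` for general items: `rseU` (unlabelled pairs of one
node with a large cofactor, from `R4.InUR944.inUU_ret`), `rseL` (labelled pairs with different labels,
from `LLG24.ll_total`).
-/

set_option autoImplicit false
open Finset

namespace Crest.Agent.R4P.RseN24

open Crest.Agent.R4.HVW560 Crest.Agent.R4.HVWX793
open Crest.Agent.R4.ClsS (eps1)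
open Crest.Agent.R4.LF363 (Lab)
open Crest.Agent.R4.InX944
open Crest.Agent.R4.StopAsm709
open Crest.Agent.R4.RseN207 (small log_large exists_scale)
open Crest.Agent.R4

set_option maxHeartbeats 4000000 in
/-- **unlabelled pairs of one node**, a large cofactor -/
theorem rseU (CL C2 : ℝ) (hCL : 0 ≤ CL) (hC2 : 0 ≤ C2) {κ : ℝ} (hκ : 0 < κ) :
    ∃ p₁ : ℕ, ∀ p : ℕ, p₁ ≤ p →
    ∀ (η θ : ℝ) (S : Finset ℕ) (E : Finset (ℕ × ℕ)) (R : ℕ → ℝ) (F : ℕ × ℕ → ℝ),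
    0 < η → η ≤ Real.exp (-(Real.log p ^ (4/5:ℝ))) → 1 ≤ η * p → E ⊆ S ×ˢ S →
    (∀ w ∈ S, 0 < w ∧ 0 < R w) → (∀ w ∈ S, R w ≤ CL * Real.log p * wt R w) →
    (∀ z : ℝ, (p:ℝ)^2 ≤ z → ∀ w ∈ S, Crest.Agent.R4.ClsB.Tame z 1 w) →
    ∑ w ∈ S, wt R w ≤ Real.log p ^ C2 →
    (∀ e ∈ E, p ≤ cof e.1 e.2 ∨ p ≤ cof e.2 e.1) →
    (∀ e ∈ E, F e ≤ 2 * ((R e.1 * R e.2) / DP R R e) * (2 * η * DP R R e + 1)) →
    (∀ e ∈ E, 0 < F e → ∃ m m' : ℤ,
      |(m + θ) * (cof e.2 e.1 : ℕ) - (m' + θ) * (cof e.1 e.2 : ℕ)| ≤ η * DP R R e) →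
    (∀ w ∈ S, R w * (η * p) ≤ 1 → ∀ ρ, ¬ Lab θ (R w) ρ) →
    ∑ e ∈ E, F e ≤ κ * ∑ w ∈ S, wt R w := by
  classical
  obtain ⟨C, c0, hC1, hc0, H⟩ := Crest.Agent.R4.InX944.inUU_ret
  obtain ⟨T0, hT01, H⟩ := H c0 hc0 le_rfl
  have hKH := (KH_pos 1 0 eps1).le
  obtain ⟨pa, hpa⟩ := exists_scale (c1 := c0) (T0 := T0) hc0
  obtain ⟨pb, hpb⟩ := log_large 1
  obtain ⟨p1, hp1⟩ := small (6 * CL^2) (2 + C2) (δ := κ/4) (by positivity)
  obtain ⟨p2, hp2⟩ := small (6 * CL^2 * (2 * KH 1 0 eps1 + C) * (2 * 2^(1/c0))^2)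
    (2 + 2/c0 + C2) (δ := κ/4) (by positivity)
  obtain ⟨p3, hp3⟩ := small (12 * CL) 1 (δ := κ/4) (by positivity)
  refine ⟨pa + pb + p1 + p2 + p3 + 3, fun p hp => ?_⟩
  obtain ⟨n, hn400, hnT, hnX, hnU⟩ := hpa p (by omega)
  intro η θ S E R F hη hη1 hηp hES hS hLS hSt hMb hbig hF hrel hU
  have hl1 := hpb p (by omega)
  set ℓ := Real.log (p:ℝ) with hℓ
  have hℓ0 : 0 < ℓ := by linarith
  have hpN : 0 < p := by omega
  have hp0 : (0:ℝ) < p := by exact_mod_cast hpN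
  set L := CL * ℓ with hL
  have hL0 : 0 ≤ L := by positivity
  set M := ∑ w ∈ S, wt R w with hM
  have hwt : ∀ q ∈ S, 0 ≤ wt R q := fun q hq => by
    unfold wt; exact mul_nonneg (hS q hq).2.le (by positivity)
  have hM0 : 0 ≤ M := Finset.sum_nonneg hwt
  have hMC : ∀ x : ℝ, 0 ≤ x → x ≤ 1 → M^(1+x) ≤ M * ℓ^C2 := by
    intro x hx0 hx1
    rcases hM0.eq_or_lt with h0 | h0
    · rw [← h0, Real.zero_rpow (by linarith)]; simp
    · rw [Real.rpow_add h0, Real.rpow_one]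
      apply mul_le_mul_of_nonneg_left _ hM0
      calc M^x ≤ (ℓ^C2)^x := Real.rpow_le_rpow hM0 hMb hx0
        _ = ℓ^(C2*x) := by rw [← Real.rpow_mul hℓ0.le]
        _ ≤ ℓ^C2 := Real.rpow_le_rpow_of_exponent_le hl1 (by nlinarith)
  set W := Real.exp (-(1/500) * ℓ^(4/5:ℝ)) with hW
  have hW0 : 0 < W := Real.exp_pos _
  have hx45 : 0 ≤ ℓ^(4/5:ℝ) := by positivity
  have hx451 : ℓ^(4/5:ℝ) ≤ ℓ := by
    calc ℓ^(4/5:ℝ) ≤ ℓ^(1:ℝ) := Real.rpow_le_rpow_of_exponent_le hl1 (by norm_num)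
      _ = ℓ := Real.rpow_one _
  have hηW : η ≤ W := hη1.trans (Real.exp_le_exp.2 (by nlinarith))
  have hη_one : η ≤ 1 := by
    refine hη1.trans ?_
    rw [Real.exp_le_one_iff]
    linarith
  have hηe : η^(2*eps1) ≤ W := by
    have he1 : eps1 = 1/1000 := rfl
    calc η^(2*eps1) ≤ (Real.exp (-(ℓ^(4/5:ℝ))))^(2*eps1) :=
          Real.rpow_le_rpow hη.le hη1 (by rw [he1]; norm_num)
      _ = Real.exp (-(ℓ^(4/5:ℝ)) * (2*eps1)) := by rw [← Real.exp_mul]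
      _ = W := by rw [hW, he1]; congr 1; ring
  have hpinv1 : 1/(p:ℝ) ≤ W := by
    have : 1/(p:ℝ) = Real.exp (-ℓ) := by
      rw [Real.exp_neg, hℓ, Real.exp_log hp0, one_div]
    rw [this, hW]
    apply Real.exp_le_exp.2
    nlinarith
  have bG := H ((p:ℝ)^2) L η θ n 1 p S E R F hn400 hpN hnT hnX one_pos hη hη_one hηp hES hS hLS hSt
    hbig hF hrel hU
  -- term 1
  have t1 : 6 * η * L^2 * M^2 ≤ κ/4 * M := by
    have h := hp1 p (by omega)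
    have h2 : M ≤ ℓ^C2 := hMb
    calc 6 * η * L^2 * M^2 = 6 * L^2 * η * M * M := by ring
      _ ≤ 6 * L^2 * W * ℓ^C2 * M := by gcongr
      _ = (6 * CL^2) * (ℓ^(2:ℝ) * ℓ^C2) * W * M := by rw [hL, Real.rpow_two]; ring
      _ = (6 * CL^2) * ℓ^(2 + C2) * W * M := by rw [Real.rpow_add hℓ0]
      _ ≤ κ/4 * M := mul_le_mul_of_nonneg_right h hM0
  -- term 2
  have hn2 : (n:ℝ) ≤ (2:ℝ)^n := by
    exact_mod_cast (Nat.lt_two_pow_self (n := n)).le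
  set T := (2:ℝ)^n with hT
  have hT1 : 1 ≤ T := one_le_pow₀ (by norm_num)
  have hTT : (2:ℝ)^(2*eps1*n) ≤ T := by
    have he1 : eps1 = 1/1000 := rfl
    rw [hT, ← Real.rpow_natCast]
    apply Real.rpow_le_rpow_of_exponent_le (by norm_num)
    rw [he1]
    have : (0:ℝ) ≤ n := Nat.cast_nonneg _
    linarith
  have hTC : T^(-(1/1000):ℝ) ≤ 1 := Real.rpow_le_one_of_one_le_of_nonpos hT1 (by norm_num)
  have hB : n * (2 * KH 1 0 eps1 * (2:ℝ)^(2*eps1*n)) + C * T^(-(1/1000):ℝ) ≤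
      (2 * KH 1 0 eps1 + C) * T^2 := by
    have h1 : n * (2 * KH 1 0 eps1 * (2:ℝ)^(2*eps1*n)) ≤ T * (2 * KH 1 0 eps1 * T) := by
      gcongr
    have h2 : C * T^(-(1/1000):ℝ) ≤ C * T^2 := by
      apply mul_le_mul_of_nonneg_left _ (by linarith)
      nlinarith
    nlinarith
  have hT2 : T^2 ≤ (2 * 2^(1/c0))^2 * ℓ^(2/c0) := by
    calc T^2 ≤ (2 * (2*ℓ)^(1/c0))^2 := pow_le_pow_left₀ (by positivity) hnU 2
      _ = (2 * 2^(1/c0))^2 * (ℓ^(1/c0) * ℓ^(1/c0)) := by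
          rw [Real.mul_rpow (by norm_num) hℓ0.le]; ring
      _ = _ := by
          rw [← Real.rpow_add hℓ0]
          congr 2
          ring
  have t2 : 6 * L^2 * (n * (2 * KH 1 0 eps1 * (2:ℝ)^(2*eps1*n)) +
        C * T^(-(1/1000):ℝ)) * (η^(2*eps1) * (M * M)^(1/2+eps1)) ≤ κ/4 * M := by
    have h := hp2 p (by omega)
    have he1 : eps1 = 1/1000 := rfl
    have h1 : (M * M)^(1/2+eps1) ≤ M * ℓ^C2 := by
      have e1 : (M * M)^(1/2+eps1) = M^(1+2*eps1) := by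
        rw [← sq, ← Real.rpow_natCast M 2, ← Real.rpow_mul hM0]
        congr 1
        push_cast
        ring
      rw [e1]
      exact hMC (2*eps1) (by rw [he1]; norm_num) (by rw [he1]; norm_num)
    have h0 : 0 ≤ (M * M)^(1/2+eps1) := by positivity
    have hηp' : 0 ≤ η^(2*eps1) := by positivity
    calc 6 * L^2 * (n * (2 * KH 1 0 eps1 * (2:ℝ)^(2*eps1*n)) +
          C * T^(-(1/1000):ℝ)) * (η^(2*eps1) * (M * M)^(1/2+eps1))
        ≤ 6 * L^2 * ((2 * KH 1 0 eps1 + C) * ((2 * 2^(1/c0))^2 * ℓ^(2/c0))) *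
          (W * (M * ℓ^C2)) := by
          have h2 := hB.trans (mul_le_mul_of_nonneg_left hT2 (by linarith : 0 ≤ 2 * KH 1 0 eps1 + C))
          gcongr
      _ = (6 * CL^2 * (2 * KH 1 0 eps1 + C) * (2 * 2^(1/c0))^2) *
          (ℓ^(2:ℝ) * ℓ^(2/c0) * ℓ^C2) * W * M := by
          rw [hL, Real.rpow_two]; ring
      _ = (6 * CL^2 * (2 * KH 1 0 eps1 + C) * (2 * 2^(1/c0))^2) *
          ℓ^(2 + 2/c0 + C2) * W * M := by
          rw [← Real.rpow_add hℓ0, ← Real.rpow_add hℓ0]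
      _ ≤ κ/4 * M := mul_le_mul_of_nonneg_right h hM0
  -- term 3
  have t3 : 12 * (L / p) * M ≤ κ/4 * M := by
    have h := hp3 p (by omega)
    apply mul_le_mul_of_nonneg_right _ hM0
    calc 12 * (L / p) = 12 * L * (1/p) := by ring
      _ ≤ 12 * L * W := by gcongr
      _ = 12 * CL * ℓ^(1:ℝ) * W := by rw [hL, Real.rpow_one]; ring
      _ ≤ κ/4 := h
  have hκM := mul_nonneg hκ.le hM0
  linarith

set_option maxHeartbeats 4000000 in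
/-- **labelled pairs of one node**, different labels with `p ≤ Zc` -/
theorem rseL (CL C2 : ℝ) (hCL : 0 ≤ CL) (hC2 : 0 ≤ C2) {κ : ℝ} (hκ : 0 < κ) :
    ∃ p₁ : ℕ, ∀ p : ℕ, p₁ ≤ p →
    ∀ (θ : ℝ) (S : Finset ℕ) (E : Finset (ℕ × ℕ)) (R a : ℕ → ℝ) (lab : ℕ → ℚ)
      (Λf : Finset ℚ) (F : ℕ × ℕ → ℝ),
    ((Λf.card : ℕ) : ℝ) ≤ Real.log p → E ⊆ S ×ˢ S →
    (∀ w ∈ S, 0 < w ∧ 0 < R w) → (∀ w ∈ S, R w ≤ CL * Real.log p * wt R w) →
    ∑ w ∈ S, wt R w ≤ Real.log p ^ C2 →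
    (∀ q ∈ S, (Lab θ (a q) (lab q) ∧ a q ≤ R q) ∨ (lab q ∈ Λf ∧ (p:ℝ)⁻¹ ≤ R q)) →
    (∀ e ∈ E, F e ≤ 2 * ((R e.1 * R e.2) / DP R R e)) →
    (∀ e ∈ E, 0 < F e → lab e.1 ≠ lab e.2 ∧ (p:ℝ) ≤ (LL207.Zc (lab e.1) (lab e.2) : ℝ) ∧
      ∃ m m' : ℤ, ((m:ℝ) + lab e.1) * (cof e.2 e.1 : ℕ) = (m' + lab e.2) * (cof e.1 e.2 : ℕ)) →
    ∑ e ∈ E, F e ≤ κ * ∑ w ∈ S, wt R w := by
  classical
  have hCX := LL207.CX_pos
  have hLe := LL207.CL_nonneg (ε := LL207.e1) (by unfold LL207.e1; norm_num)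
  obtain ⟨pb, hpb⟩ := log_large 1
  obtain ⟨p4, hp4⟩ := small (10^5 * LL207.CL LL207.e1 * (2 * CL^2) * (LL207.CX + 1)) (3 + C2)
    (δ := κ) (by positivity)
  refine ⟨pb + p4 + 3, fun p hp => ?_⟩
  intro θ S E R a lab Λf F hΛ hES hS hLS hMb hlab hF hex
  have hl1 := hpb p (by omega)
  set ℓ := Real.log (p:ℝ) with hℓ
  have hℓ0 : 0 < ℓ := by linarith
  have hpN : 0 < p := by omega
  have hp0 : (0:ℝ) < p := by exact_mod_cast hpN
  have hp1R : (1:ℝ) ≤ p := by exact_mod_cast hpN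
  set L := CL * ℓ with hL
  have hL0 : 0 ≤ L := by positivity
  set M := ∑ w ∈ S, wt R w with hM
  have hwt : ∀ q ∈ S, 0 ≤ wt R q := fun q hq => by
    unfold wt; exact mul_nonneg (hS q hq).2.le (by positivity)
  have hM0 : 0 ≤ M := Finset.sum_nonneg hwt
  have hmem : ∀ e ∈ E, e.1 ∈ S ∧ e.2 ∈ S := fun e he => Finset.mem_product.1 (hES he)
  have hMC : ∀ x : ℝ, 0 ≤ x → x ≤ 1 → M^(1+x) ≤ M * ℓ^C2 := by
    intro x hx0 hx1
    rcases hM0.eq_or_lt with h0 | h0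
    · rw [← h0, Real.zero_rpow (by linarith)]; simp
    · rw [Real.rpow_add h0, Real.rpow_one]
      apply mul_le_mul_of_nonneg_left _ hM0
      calc M^x ≤ (ℓ^C2)^x := Real.rpow_le_rpow hM0 hMb hx0
        _ = ℓ^(C2*x) := by rw [← Real.rpow_mul hℓ0.le]
        _ ≤ ℓ^C2 := Real.rpow_le_rpow_of_exponent_le hl1 (by nlinarith)
  set W := Real.exp (-(1/500) * ℓ^(4/5:ℝ)) with hW
  have hW0 : 0 < W := Real.exp_pos _
  have hx45 : 0 ≤ ℓ^(4/5:ℝ) := by positivity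
  have hx451 : ℓ^(4/5:ℝ) ≤ ℓ := by
    calc ℓ^(4/5:ℝ) ≤ ℓ^(1:ℝ) := Real.rpow_le_rpow_of_exponent_le hl1 (by norm_num)
      _ = ℓ := Real.rpow_one _
  have hpinv : (p:ℝ)^(-(1/6):ℝ) ≤ W := by
    rw [Real.rpow_def_of_pos hp0, hW]
    apply Real.exp_le_exp.2
    show ℓ * -(1/6) ≤ _
    nlinarith
  have bF := LLG24.ll_total (θ := θ) (P := p) (K := 2 * L^2) hp1R (by positivity) (S := S)
    (R := R) (a := a) (lab := lab) (Λf := Λf) hS hlab (E := E) hES (F := F)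
    (fun e he => by
      have hh := hmem e he
      have hR := (hS _ hh.1).2
      have hR' := (hS _ hh.2).2
      have hD := DP_pos (R := R) (R' := R) (hS _ hh.2).1 hR
      have eD : LLpair207.Dp R R e = DP R R e := by
        unfold LLpair207.Dp DP
        exact max_comm _ _
      rw [eD]
      have hRR : R e.1 * R e.2 ≤ L^2 * (wt R e.1 * wt R e.2) := by
        have f1 := hLS _ hh.1
        have f2 := hLS _ hh.2
        have f5 : 0 ≤ L * wt R e.1 := hR.le.trans f1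
        calc R e.1 * R e.2 ≤ (L * wt R e.1) * (L * wt R e.2) := mul_le_mul f1 f2 hR'.le f5
          _ = _ := by ring
      calc F e ≤ 2 * ((R e.1 * R e.2) / DP R R e) := hF e he
        _ ≤ 2 * ((L^2 * (wt R e.1 * wt R e.2)) / DP R R e) := by gcongr
        _ = 2 * L^2 * (wt R e.1 * wt R e.2 / DP R R e) := by ring)
    hex
  refine bF.trans ?_
  have h := hp4 p (by omega)
  have he1 : LL207.e1 = 1/1000 := rfl
  have h1 : (∑ q ∈ S, wt R q)^(1+2*LL207.e1) ≤ M * ℓ^C2 :=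
    hMC (2*LL207.e1) (by rw [he1]; norm_num) (by rw [he1]; norm_num)
  have h2 : LL207.CX + Λf.card ≤ (LL207.CX + 1) * ℓ := by
    have : ((Λf.card : ℕ) : ℝ) ≤ ℓ := hΛ
    nlinarith
  have h3 : 0 ≤ (∑ q ∈ S, wt R q)^(1+2*LL207.e1) := by positivity
  calc (10^5 * LL207.CL LL207.e1) * (2 * L^2) * ((LL207.CX + Λf.card) * (p:ℝ)^(-(1/6) : ℝ)) *
      (∑ q ∈ S, wt R q)^(1+2*LL207.e1)
      ≤ (10^5 * LL207.CL LL207.e1) * (2 * L^2) * (((LL207.CX + 1) * ℓ) * W) * (M * ℓ^C2) := by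
        gcongr
    _ = (10^5 * LL207.CL LL207.e1 * (2 * CL^2) * (LL207.CX + 1)) * (ℓ^(3:ℝ) * ℓ^C2) * W * M := by
        rw [hL]
        have : ℓ^(3:ℝ) = ℓ^3 := by exact_mod_cast Real.rpow_natCast ℓ 3
        rw [this]; ring
    _ = (10^5 * LL207.CL LL207.e1 * (2 * CL^2) * (LL207.CX + 1)) * ℓ^(3 + C2) * W * M := by
        rw [← Real.rpow_add hℓ0]
    _ ≤ κ * M := mul_le_mul_of_nonneg_right h hM0

end Crest.Agent.R4P.RseN24
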