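import Crest.Agent.R4P.AddLA_7
import Crest.Agent.R4P.RseN_24

/-!
R4 (S0004), POWERS, module dseR (D4), helper7: **labelled pairs with different labels crossing at a
prime `b`**, part B (tree free).

* `ll_cross` : `b` not bad (every label whose denominator is divisible by `b` has denominator
  `> exp (b^(1/20))`): cost `exp (-b^(1/50)) M + C log b · b^(-1/2) √(M₁ M₀)`;
* `ll_bad` : cost `b^(-1/7) M` in general.
One of the labels may be the label of the previous stage (fat items).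
-/

set_option autoImplicit false
open Finset

namespace Crest.Agent.R4P.AddLL7

open Crest.Agent.R4.HVW560 Crest.Agent.R4.InX944
open Crest.Agent.R4.LF363 (Lab lab_cube)
open Crest.Agent.R4.LL207 (Zc div_gcd_pos dvd_of_exact Zc_ge Zc_symm Zc_pos)
open Crest.Agent.R4

lemma den_le_Zc (ρ σ : ℚ) : (ρ.den : ℝ) ≤ σ.den * Zc ρ σ ∧ (σ.den : ℝ) ≤ ρ.den * Zc ρ σ := by
  have h := Zc_ge ρ σ
  have h1 : (0:ℝ) < ρ.den := by exact_mod_cast ρ.den_pos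
  have h2 : (0:ℝ) < σ.den := by exact_mod_cast σ.den_pos
  constructor
  · have := (div_le_iff₀ h2).1 h.2
    linarith
  · have := (div_le_iff₀ h1).1 h.1
    linarith

/-- two proper labels cannot be close -/
lemma prop_prop {θ r s Q : ℝ} {ρ σ : ℚ} (h : Lab θ r ρ) (h' : Lab θ s σ) (hne : ρ ≠ σ)
    (hZ : (Zc ρ σ : ℝ) < Q) (hX : Q ^ 4 < ρ.den ∨ Q ^ 4 < σ.den) (hQ : 2 ≤ Q) : False := by
  wlog hle : ρ.den ≤ σ.den generalizing ρ σ r s with H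
  · exact H h' h (Ne.symm hne) (by rwa [Zc_symm]) hX.symm (not_le.1 hle).le
  have h1 := lab_cube h h' hne hle
  have h2 := (den_le_Zc ρ σ).2
  have hρ : (1:ℝ) ≤ ρ.den := by exact_mod_cast ρ.den_pos
  have hleR : (ρ.den : ℝ) ≤ σ.den := by exact_mod_cast hle
  have h3 : (σ.den : ℝ) ≤ ρ.den * Q := h2.trans (mul_le_mul_of_nonneg_left hZ.le (by linarith))
  have h4 : Q ^ 4 < σ.den := by
    rcases hX with h | h
    · exact h.trans_le hleR
    · exact h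
  have h5 : (ρ.den : ℝ) ^ 2 ≤ 2 * Q := by
    have : (ρ.den : ℝ) * (ρ.den : ℝ) ^ 2 ≤ ρ.den * (2 * Q) := by nlinarith
    exact le_of_mul_le_mul_left this (by linarith)
  have h6 : Q ^ 3 < ρ.den := by
    have : Q * Q ^ 3 < Q * ρ.den := by
      calc Q * Q ^ 3 = Q ^ 4 := by ring
        _ < (σ.den : ℝ) := h4
        _ ≤ ρ.den * Q := h3
        _ = _ := by ring
    exact lt_of_mul_lt_mul_left this (by linarith)
  have h7 : (Q ^ 3) ^ 2 < (ρ.den : ℝ) ^ 2 := pow_lt_pow_left₀ h6 (by positivity) (by norm_num)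
  have h8 : 2 * Q ≤ (Q ^ 3) ^ 2 := by
    have : (Q ^ 3) ^ 2 = Q * Q ^ 5 := by ring
    rw [this, mul_comm 2 Q]
    refine mul_le_mul_of_nonneg_left ?_ (by linarith)
    have : (2:ℝ) ^ 5 ≤ Q ^ 5 := pow_le_pow_left₀ (by norm_num) hQ 5
    norm_num at this
    linarith
  linarith

/-- at most one proper label is close to a given one -/
lemma prop_unique {θ r s Q : ℝ} {ρ ρ' φ : ℚ} (h : Lab θ r ρ) (h' : Lab θ s ρ')
    (hZ : (Zc ρ φ : ℝ) < Q) (hZ' : (Zc ρ' φ : ℝ) < Q) (h3 : Q ^ 3 ≤ ρ.den) (h3' : Q ^ 3 ≤ ρ'.den)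
    (hQ : 2 ≤ Q) : ρ = ρ' := by
  by_contra hne
  wlog hle : ρ.den ≤ ρ'.den generalizing ρ ρ' r s with H
  · exact H h' h hZ' hZ h3' h3 (Ne.symm hne) (not_le.1 hle).le
  have h1 := lab_cube h h' hne hle
  have hρ : (1:ℝ) ≤ ρ.den := by exact_mod_cast ρ.den_pos
  have hφ : (0:ℝ) < φ.den := by exact_mod_cast φ.den_pos
  have a1 : (ρ'.den : ℝ) ≤ φ.den * Q :=
    (den_le_Zc ρ' φ).1.trans (mul_le_mul_of_nonneg_left hZ'.le hφ.le)
  have a2 : (φ.den : ℝ) ≤ ρ.den * Q :=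
    (den_le_Zc ρ φ).2.trans (mul_le_mul_of_nonneg_left hZ.le (by linarith))
  have a3 : (ρ'.den : ℝ) ≤ ρ.den * Q * Q := a1.trans (mul_le_mul_of_nonneg_right a2 (by linarith))
  have h5 : (ρ.den : ℝ) ^ 2 ≤ 2 * Q ^ 2 := by
    have : (ρ.den : ℝ) * (ρ.den : ℝ) ^ 2 ≤ ρ.den * (2 * Q ^ 2) := by nlinarith
    exact le_of_mul_le_mul_left this (by linarith)
  have h7 : (Q ^ 3) ^ 2 ≤ (ρ.den : ℝ) ^ 2 := pow_le_pow_left₀ (by positivity) h3 2
  have h8 : 2 * Q ^ 2 < (Q ^ 3) ^ 2 := by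
    have : (Q ^ 3) ^ 2 = Q ^ 4 * Q ^ 2 := by ring
    rw [this]
    refine mul_lt_mul_of_pos_right ?_ (by positivity)
    have : (2:ℝ) ^ 4 ≤ Q ^ 4 := pow_le_pow_left₀ (by norm_num) hQ 4
    norm_num at this
    linarith
  linarith

/-- **the pairs of two fixed labels with a large common part** -/
theorem two_labels {S₁ S₀ : Finset ℕ} {E : Finset (ℕ × ℕ)} (hE : E ⊆ S₁ ×ˢ S₀) {R : ℕ → ℝ}
    (hS₁ : ∀ q ∈ S₁, 0 < q ∧ 0 < R q) (hS₀ : ∀ q ∈ S₀, 0 < q ∧ 0 < R q) {b : ℕ} (hb : 0 < b)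
    (ρ σ : ℚ) {X Y : ℝ} (hX : 0 ≤ X) (hY : 0 < Y) (hg : Y * X ≤ Nat.gcd ρ.den σ.den)
    (hsm : ∀ e ∈ E, ∀ l : ℕ, l.Prime → (l ∣ cof e.1 e.2 ∨ l ∣ cof e.2 e.1) → l ≤ b)
    (hbx : ∀ e ∈ E, b ≤ cof e.1 e.2)
    (hex : ∀ e ∈ E, ∃ n m : ℤ,
      ((n:ℝ) + ρ) * (cof e.2 e.1 : ℕ) = (m + σ) * (cof e.1 e.2 : ℕ))
    (hslot : (∀ e ∈ E, (cof e.1 e.2 : ℝ) ≤ X) ∨ (∀ e ∈ E, (cof e.2 e.1 : ℝ) ≤ X))
    {F : ℕ × ℕ → ℝ} (hF : ∀ e ∈ E, F e ≤ 2 * ((R e.1 * R e.2) / DP R R e)) :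
    ∑ e ∈ E, F e ≤ 4 * X * (Y^(-(1/100):ℝ) *
      Real.exp (7 * ((b:ℝ)^(1/100:ℝ) * (1 + Real.log b)))) * ∑ q ∈ S₁ ∪ S₀, R q +
      2 / Real.sqrt b * Real.sqrt ((∑ q ∈ S₁, R q) * ∑ q ∈ S₀, R q) := by
  classical
  have hmem : ∀ e ∈ E, e.1 ∈ S₁ ∧ e.2 ∈ S₀ := fun e he => Finset.mem_product.1 (hE he)
  set Sm : ℕ × ℕ → Prop := fun e => (cof e.1 e.2 : ℝ) < Y ∨ (cof e.2 e.1 : ℝ) < Y with hSm
  -- the small pairs: both cofactors bounded, product below the gcd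
  set P : ℕ × ℕ → Prop := fun e =>
    ((∀ e ∈ E, (cof e.1 e.2 : ℝ) ≤ X) → (cof e.2 e.1 : ℝ) < Y) ∧
    (¬ (∀ e ∈ E, (cof e.1 e.2 : ℝ) ≤ X) → (cof e.1 e.2 : ℝ) < Y) with hP
  rw [← Finset.sum_filter_add_sum_filter_not E P, add_comm]
  refine add_le_add ?_ ?_
  · have hS : ∀ q ∈ S₁ ∪ S₀, 0 < q ∧ 0 < R q := fun q hq =>
      (Finset.mem_union.1 hq).elim (hS₁ q) (hS₀ q)
    refine large_le (S := S₁ ∪ S₀) (fun e he => ?_) hS hX hY
      (fun e he => hsm e (Finset.mem_filter.1 he).1) (fun e he => ?_)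
      (fun e he => hF e (Finset.mem_filter.1 he).1)
    · obtain ⟨m1, m2⟩ := hmem e (Finset.mem_filter.1 he).1
      exact Finset.mem_product.2 ⟨Finset.mem_union_left _ m1, Finset.mem_union_right _ m2⟩
    · obtain ⟨h1, h2⟩ := Finset.mem_filter.1 he
      by_cases hc : ∀ e ∈ E, (cof e.1 e.2 : ℝ) ≤ X
      · right
        refine ⟨?_, hc e h1⟩
        by_contra hn
        push Not at hn
        exact h2 ⟨fun _ => hn, fun hh => absurd hc hh⟩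
      · left
        refine ⟨?_, (hslot.resolve_left hc) e h1⟩
        by_contra hn
        push Not at hn
        exact h2 ⟨fun hh => absurd hh hc, fun _ => hn⟩
  · rcases (E.filter P).eq_empty_or_nonempty with h0 | ⟨e₀, he₀⟩
    · rw [h0, Finset.sum_empty]; positivity
    obtain ⟨g1, g2⟩ := Finset.mem_filter.1 he₀
    refine match_le (x := cof e₀.1 e₀.2) (y := cof e₀.2 e₀.1)
      ((Finset.filter_subset _ _).trans hE) hS₁ hS₀ hb (hbx e₀ g1) (fun e he => ?_)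
      (fun e he => hF e (Finset.mem_filter.1 he).1)
    obtain ⟨h1, h2⟩ := Finset.mem_filter.1 he
    obtain ⟨n, m, hnm⟩ := hex e h1
    obtain ⟨n₀, m₀, hnm₀⟩ := hex e₀ g1
    have c1 : Nat.Coprime (cof e.1 e.2) (cof e.2 e.1) := cof_coprime (hS₁ _ (hmem e h1).1).1
    have c2 : Nat.Coprime (cof e₀.1 e₀.2) (cof e₀.2 e₀.1) := cof_coprime (hS₁ _ (hmem e₀ g1).1).1
    have hlt : ∀ e ∈ E, ∀ e' ∈ E, P e → P e' →
        cof e.2 e.1 * cof e'.1 e'.2 < Nat.gcd ρ.den σ.den := by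
      intro e he e' he' hPe hPe'
      have p1 : (0:ℝ) < cof e.2 e.1 := by exact_mod_cast cof_pos (hS₀ _ (hmem e he).2).1
      have p2 : (0:ℝ) < cof e'.1 e'.2 := by exact_mod_cast cof_pos (hS₁ _ (hmem e' he').1).1
      have : ((cof e.2 e.1 * cof e'.1 e'.2 : ℕ) : ℝ) < Nat.gcd ρ.den σ.den := by
        push_cast
        refine lt_of_lt_of_le ?_ hg
        by_cases hc : ∀ e ∈ E, (cof e.1 e.2 : ℝ) ≤ X
        · have a1 := hPe.1 hc
          have a2 := hc e' he'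
          calc (cof e.2 e.1 : ℝ) * cof e'.1 e'.2 < Y * cof e'.1 e'.2 :=
                mul_lt_mul_of_pos_right a1 p2
            _ ≤ Y * X := mul_le_mul_of_nonneg_left a2 hY.le
        · have a1 := hPe'.2 hc
          have a2 := (hslot.resolve_left hc) e he
          calc (cof e.2 e.1 : ℝ) * cof e'.1 e'.2 < cof e.2 e.1 * Y :=
                mul_lt_mul_of_pos_left a1 p1
            _ ≤ X * Y := mul_le_mul_of_nonneg_right a2 hY.le
            _ = _ := by ring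
      exact_mod_cast this
    obtain ⟨u1, u2⟩ := ratio_unique ρ σ c1 c2 hnm hnm₀ (hlt e h1 e₀ g1 h2 g2)
      (hlt e₀ g1 e h1 g2 h2)
    exact ⟨u1, u2⟩

/-! ### numbers -/

open Filter in
lemma ev_lit {a c : ℝ} (ha : 0 < a) (hc : 0 < c) (D : ℝ) :
    ∀ᶠ x : ℝ in atTop, Real.log x ^ D ≤ c * x ^ a := by
  have h := (isLittleO_log_rpow_rpow_atTop D ha).bound hc
  filter_upwards [h, eventually_ge_atTop (1:ℝ)] with x hx h1
  have h0 : 0 ≤ Real.log x := Real.log_nonneg h1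
  rwa [Real.norm_of_nonneg (Real.rpow_nonneg h0 _),
    Real.norm_of_nonneg (Real.rpow_nonneg (by linarith) _)] at hx

open Filter in
lemma ev_pow {a a' c : ℝ} (h : a < a') (hc : 0 < c) :
    ∀ᶠ x : ℝ in atTop, x ^ a ≤ c * x ^ a' := by
  have h1 := (tendsto_rpow_atTop (show 0 < a' - a by linarith)).eventually_ge_atTop (1 / c)
  filter_upwards [h1, eventually_gt_atTop (0:ℝ)] with x hx h0
  have e : x ^ a' = x ^ a * x ^ (a' - a) := by rw [← Real.rpow_add h0]; congr 1; ring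
  rw [e]
  have h2 : 1 ≤ c * x ^ (a' - a) := by
    rw [div_le_iff₀ hc] at hx; linarith
  have h3 : 0 ≤ x ^ a := Real.rpow_nonneg h0.le _
  nlinarith

open Filter in
lemma num1 {κ : ℝ} (hκ : 0 < κ) (C D : ℝ) (hC : 0 ≤ C) : ∀ᶠ x : ℝ in atTop,
    C * Real.log x ^ D * Real.exp (-(κ * x ^ (1/40:ℝ))) ≤ 1/8 * Real.exp (-(x ^ (1/50:ℝ))) := by
  have e1 := ev_lit (a := 1) (c := 1 / (8 * (C + 1))) (by norm_num) (by positivity) D
  have e2 := ev_lit (a := 1/40) (c := κ/2) (by norm_num) (by positivity) 1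
  have e3 := ev_pow (a := 1/50) (a' := 1/40) (c := κ/2) (by norm_num) (by positivity)
  filter_upwards [e1, e2, e3, eventually_ge_atTop (1:ℝ)] with x h1 h2 h3 h4
  rw [Real.rpow_one] at h1 h2
  have hx0 : 0 < x := by linarith
  have hl : 0 ≤ Real.log x ^ D := Real.rpow_nonneg (Real.log_nonneg h4) _
  have h5 : C * Real.log x ^ D ≤ 1/8 * x := by
    calc C * Real.log x ^ D ≤ (C + 1) * (1 / (8 * (C + 1)) * x) :=
          mul_le_mul (by linarith) h1 hl (by linarith)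
      _ = 1/8 * x := by field_simp
  calc C * Real.log x ^ D * Real.exp (-(κ * x ^ (1/40:ℝ)))
      ≤ 1/8 * x * Real.exp (-(κ * x ^ (1/40:ℝ))) :=
        mul_le_mul_of_nonneg_right h5 (Real.exp_pos _).le
    _ = 1/8 * (Real.exp (Real.log x) * Real.exp (-(κ * x ^ (1/40:ℝ)))) := by
        rw [Real.exp_log hx0]; ring
    _ = 1/8 * Real.exp (Real.log x + -(κ * x ^ (1/40:ℝ))) := by rw [Real.exp_add]
    _ ≤ _ := by
        refine mul_le_mul_of_nonneg_left (Real.exp_le_exp.2 ?_) (by norm_num)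
        linarith

open Filter in
lemma num2 : ∀ᶠ x : ℝ in atTop,
    (Real.exp (x ^ (1/40:ℝ)) * x) * ((Real.exp (x ^ (1/20:ℝ) / 4)) ^ (-(1/100):ℝ) *
      Real.exp (7 * (x ^ (1/100:ℝ) * (1 + Real.log x)))) ≤ Real.exp (-(x ^ (1/40:ℝ))) := by
  have e2 := ev_lit (a := 1/40) (c := 1) (by norm_num) (by norm_num) 1
  have e2' := ev_lit (a := 1/100) (c := 1) (by norm_num) (by norm_num) 1
  have e3 := ev_pow (a := 1/40) (a' := 1/20) (c := 1/8000) (by norm_num) (by positivity)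
  have e4 := ev_pow (a := 1/50) (a' := 1/40) (c := 1) (by norm_num) (by positivity)
  have e5 := ev_pow (a := 1/100) (a' := 1/40) (c := 1) (by norm_num) (by positivity)
  filter_upwards [e2, e2', e3, e4, e5, eventually_ge_atTop (1:ℝ)] with x h2 h2' h3 h4 h5 h6
  rw [Real.rpow_one] at h2 h2'
  have hx0 : 0 < x := by linarith
  have e6 : x ^ (1/100:ℝ) * x ^ (1/100:ℝ) = x ^ (1/50:ℝ) := by
    rw [← Real.rpow_add hx0]; norm_num
  have hp : 0 ≤ x ^ (1/100:ℝ) := Real.rpow_nonneg hx0.le _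
  have h7 : x ^ (1/100:ℝ) * (1 + Real.log x) ≤ 2 * x ^ (1/40:ℝ) := by
    calc x ^ (1/100:ℝ) * (1 + Real.log x) ≤ x ^ (1/100:ℝ) * (1 + 1 * x ^ (1/100:ℝ)) :=
          mul_le_mul_of_nonneg_left (by linarith) hp
      _ = x ^ (1/100:ℝ) + x ^ (1/50:ℝ) := by rw [← e6]; ring
      _ ≤ _ := by linarith
  have e7 : (Real.exp (x ^ (1/20:ℝ) / 4)) ^ (-(1/100):ℝ) = Real.exp (-(x ^ (1/20:ℝ) / 400)) := by
    rw [← Real.exp_mul]; congr 1; ring
  rw [e7]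
  nth_rewrite 2 [← Real.exp_log hx0]
  rw [← Real.exp_add, ← Real.exp_add, ← Real.exp_add]
  refine Real.exp_le_exp.2 ?_
  linarith

open Filter in
lemma num3 : ∀ᶠ x : ℝ in atTop,
    (Real.exp (x ^ (1/20:ℝ) / 4)) ^ (-(1/6):ℝ) ≤ Real.exp (-(1 * x ^ (1/40:ℝ))) := by
  have e3 := ev_pow (a := 1/40) (a' := 1/20) (c := 1/24) (by norm_num) (by positivity)
  filter_upwards [e3] with x h3
  rw [← Real.exp_mul]
  refine Real.exp_le_exp.2 ?_
  linarith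

open Filter in
lemma num4 : ∀ᶠ x : ℝ in atTop,
    2 ≤ Real.exp (x ^ (1/20:ℝ) / 4) ∧ x ≤ Real.exp (x ^ (1/20:ℝ) / 4) ∧
    Real.exp (x ^ (1/40:ℝ)) * x ≤ Real.exp (x ^ (1/20:ℝ) / 4) ^ 2 := by
  have e2 := ev_lit (a := 1/20) (c := 1/8) (by norm_num) (by norm_num) 1
  have e3 := ev_pow (a := 1/40) (a' := 1/20) (c := 1/8) (by norm_num) (by positivity)
  filter_upwards [e2, e3, eventually_ge_atTop (2:ℝ)] with x h2 h3 h4
  rw [Real.rpow_one] at h2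
  have hx0 : 0 < x := by linarith
  have hp : 0 ≤ x ^ (1/20:ℝ) := Real.rpow_nonneg hx0.le _
  have h5 : x ≤ Real.exp (x ^ (1/20:ℝ) / 4) := by
    conv_lhs => rw [← Real.exp_log hx0]
    refine Real.exp_le_exp.2 ?_
    linarith
  refine ⟨h4.trans h5, h5, ?_⟩
  rw [sq]
  refine mul_le_mul (Real.exp_le_exp.2 (by linarith)) h5 hx0.le (Real.exp_pos _).le

set_option maxHeartbeats 1000000 in
/-- **labelled pairs with different labels crossing at `b`**, `b` not bad -/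
theorem ll_cross (Cl C2 : ℝ) (hCl : 0 ≤ Cl) (hC2 : 0 ≤ C2) : ∃ b₁ : ℕ, ∀ b : ℕ, b₁ ≤ b →
    ∀ (θ : ℝ) (S₁ S₀ : Finset ℕ) (E : Finset (ℕ × ℕ)) (R : ℕ → ℝ) (lab : ℕ → ℚ)
      (Λf : Finset ℚ) (F : ℕ × ℕ → ℝ),
    Λf.card ≤ 1 → E ⊆ S₁ ×ˢ S₀ →
    (∀ q ∈ S₁ ∪ S₀, 0 < q ∧ 0 < R q) → (∀ q ∈ S₁ ∪ S₀, R q ≤ Cl * Real.log b * wt R q) →
    ∑ q ∈ S₁ ∪ S₀, wt R q ≤ Real.log b ^ C2 →
    (∀ q ∈ S₁ ∪ S₀, Lab θ (R q) (lab q) ∨ (lab q ∈ Λf ∧ (b:ℝ)⁻¹ ≤ R q)) →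
    (∀ e ∈ E, F e ≤ 2 * ((R e.1 * R e.2) / DP R R e)) →
    (∀ e ∈ E, ∀ l : ℕ, l.Prime → (l ∣ cof e.1 e.2 ∨ l ∣ cof e.2 e.1) → l ≤ b) →
    (∀ e ∈ E, 0 < F e → lab e.1 ≠ lab e.2 ∧ b ≤ cof e.1 e.2 ∧
      (Real.exp ((b:ℝ) ^ (1/20:ℝ)) < (lab e.1).den ∨
        Real.exp ((b:ℝ) ^ (1/20:ℝ)) < (lab e.2).den) ∧
      ∃ n m : ℤ, ((n:ℝ) + lab e.1) * (cof e.2 e.1 : ℕ) = (m + lab e.2) * (cof e.1 e.2 : ℕ)) →
    ∑ e ∈ E, F e ≤ Real.exp (-((b:ℝ) ^ (1/50:ℝ))) * ∑ q ∈ S₁ ∪ S₀, wt R q +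
      4 * (Cl * Real.log b) / Real.sqrt b *
        Real.sqrt ((∑ q ∈ S₁, wt R q) * ∑ q ∈ S₀, wt R q) := by
  classical
  have he1 : (0:ℝ) < LL207.e1 := by unfold LL207.e1; norm_num
  have he4 : LL207.e1 ≤ 1/4 := by unfold LL207.e1; norm_num
  have hCX := LL207.CX_pos
  have hLe := LL207.CL_nonneg (ε := LL207.e1) he1
  obtain ⟨x₁, hx₁⟩ := Filter.eventually_atTop.1
    ((num1 (κ := 1) one_pos (10^5 * LL207.CL LL207.e1 * (2 * Cl^2) * (LL207.CX + 1)) (2 + C2)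
      (by positivity)).and
    ((num1 (κ := 1/500) (by norm_num) (LL207.CL LL207.e1 * (2 * Cl^2) * 10^4) (2 + C2)
      (by positivity)).and
    ((num1 (κ := 1) one_pos (4 * Cl) 1 (by positivity)).and
    (num2.and (num3.and (num4.and (Filter.eventually_ge_atTop (Real.exp 1))))))))
  refine ⟨⌈x₁⌉₊ + 1, fun b hb => ?_⟩
  intro θ S₁ S₀ E R lab Λf F hΛ hES hS hLS hMb hlab hF hsm hex
  have hbx : x₁ ≤ b := (Nat.le_ceil x₁).trans (by exact_mod_cast (by omega : ⌈x₁⌉₊ ≤ b))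
  obtain ⟨n1, n2, n3, n4, n5, ⟨n6, n7, n8⟩, n9⟩ := hx₁ b hbx
  have hb0N : 0 < b := by omega
  have hb0 : (0:ℝ) < b := by exact_mod_cast hb0N
  set ℓ := Real.log (b:ℝ) with hℓ
  have hℓ1 : 1 ≤ ℓ := by rw [hℓ]; exact (Real.le_log_iff_exp_le hb0).2 n9
  have hℓ0 : 0 < ℓ := by linarith
  set L := Cl * ℓ with hL
  have hL0 : 0 ≤ L := by positivity
  set S := S₁ ∪ S₀ with hSd
  set M := ∑ q ∈ S, wt R q with hM
  set W := Real.exp (-((b:ℝ) ^ (1/50:ℝ))) with hW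
  set Q := Real.exp ((b:ℝ) ^ (1/20:ℝ) / 4) with hQ
  set T := Real.exp ((b:ℝ) ^ (1/40:ℝ)) with hT
  have hQ0 : 0 < Q := Real.exp_pos _
  have hT0 : 0 < T := Real.exp_pos _
  have hQ1 : 1 ≤ Q := by linarith
  have hX : Real.exp ((b:ℝ) ^ (1/20:ℝ)) = Q ^ 4 := by
    rw [hQ, ← Real.exp_nat_mul]; congr 1; push_cast; ring
  have hE : E ⊆ S ×ˢ S := fun e he => by
    obtain ⟨m1, m2⟩ := Finset.mem_product.1 (hES he)
    exact Finset.mem_product.2 ⟨Finset.mem_union_left _ m1, Finset.mem_union_right _ m2⟩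
  have hmem : ∀ e ∈ E, e.1 ∈ S ∧ e.2 ∈ S := fun e he => Finset.mem_product.1 (hE he)
  have hwt : ∀ q ∈ S, 0 ≤ wt R q := fun q hq => by
    unfold wt; exact mul_nonneg (hS q hq).2.le (by positivity)
  have hM0 : 0 ≤ M := Finset.sum_nonneg hwt
  have hS₁ : ∀ q ∈ S₁, 0 < q ∧ 0 < R q := fun q hq => hS q (Finset.mem_union_left _ hq)
  have hS₀ : ∀ q ∈ S₀, 0 < q ∧ 0 < R q := fun q hq => hS q (Finset.mem_union_right _ hq)
  have hMC : ∀ x : ℝ, 0 ≤ x → x ≤ 1 → M^(1+x) ≤ M * ℓ^C2 := by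
    intro x hx0 hx1
    rcases hM0.eq_or_lt with h0 | h0
    · rw [← h0, Real.zero_rpow (by linarith)]; simp
    · rw [Real.rpow_add h0, Real.rpow_one]
      apply mul_le_mul_of_nonneg_left _ hM0
      calc M^x ≤ (ℓ^C2)^x := Real.rpow_le_rpow hM0 hMb hx0
        _ = ℓ^(C2*x) := by rw [← Real.rpow_mul hℓ0.le]
        _ ≤ ℓ^C2 := Real.rpow_le_rpow_of_exponent_le hℓ1 (by nlinarith)
  have hRL : ∑ q ∈ S, R q ≤ L * M := by
    rw [hM, Finset.mul_sum]; exact Finset.sum_le_sum hLS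
  have hFw : ∀ e ∈ E, F e ≤ 2 * L^2 * ((wt R e.1 * wt R e.2) / LLpair207.Dp R R e) := by
    intro e he
    have hh := hmem e he
    have hR := (hS _ hh.1).2
    have hR' := (hS _ hh.2).2
    have hD := DP_pos (R := R) (R' := R) (hS _ hh.2).1 hR
    have eD : LLpair207.Dp R R e = DP R R e := by
      unfold LLpair207.Dp DP
      exact max_comm _ _
    rw [eD]
    have hRR : R e.1 * R e.2 ≤ L^2 * (wt R e.1 * wt R e.2) := by
      have f1 := hLS _ hh.1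
      have f2 := hLS _ hh.2
      have f5 : 0 ≤ L * wt R e.1 := hR.le.trans f1
      calc R e.1 * R e.2 ≤ (L * wt R e.1) * (L * wt R e.2) := mul_le_mul f1 f2 hR'.le f5
        _ = _ := by ring
    calc F e ≤ 2 * ((R e.1 * R e.2) / DP R R e) := hF e he
      _ ≤ 2 * ((L^2 * (wt R e.1 * wt R e.2)) / DP R R e) := by gcongr
      _ = 2 * L^2 * (wt R e.1 * wt R e.2 / DP R R e) := by ring
  -- positive pairs
  have hred : ∑ e ∈ E, F e ≤ ∑ e ∈ E.filter (fun e => 0 < F e), F e := by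
    rw [← Finset.sum_filter_add_sum_filter_not E (fun e => 0 < F e)]
    have : ∑ e ∈ E.filter (fun e => ¬ 0 < F e), F e ≤ 0 :=
      Finset.sum_nonpos fun e he => not_lt.1 (Finset.mem_filter.1 he).2
    linarith
  refine hred.trans ?_
  set E' := E.filter (fun e => 0 < F e) with hE'
  have hE'm : ∀ e ∈ E', e ∈ E ∧ 0 < F e := fun e he => Finset.mem_filter.1 he
  set P1 : ℕ × ℕ → Prop := fun e => Q ≤ (Zc (lab e.1) (lab e.2) : ℝ) with hP1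
  set P2 : ℕ × ℕ → Prop := fun e => T < LLpair207.Dp R R e with hP2
  set P3 : ℕ × ℕ → Prop := fun e => lab e.2 ∈ Λf ∧ (b:ℝ)⁻¹ ≤ R e.2 with hP3
  rw [← Finset.sum_filter_add_sum_filter_not E' P1,
    ← Finset.sum_filter_add_sum_filter_not (E'.filter fun e => ¬ P1 e) P2,
    ← Finset.sum_filter_add_sum_filter_not ((E'.filter fun e => ¬ P1 e).filter fun e => ¬ P2 e) P3]
  -- part 1
  have b1 : ∑ e ∈ E'.filter P1, F e ≤ 1/8 * W * M := by
    have k1 := LLG24.ll_total (θ := θ) (P := Q) (K := 2 * L^2) hQ1 (by positivity) (S := S)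
      (R := R) (a := R) (lab := lab) (Λf := Λf) hS
      (fun q hq => by
        rcases hlab q hq with h | h
        · exact Or.inl ⟨h, le_rfl⟩
        · refine Or.inr ⟨h.1, le_trans ?_ h.2⟩
          exact inv_anti₀ hb0 n7)
      (E := E'.filter P1)
      (fun e he => hE (hE'm e (Finset.mem_filter.1 he).1).1) (F := F)
      (fun e he => hFw e (hE'm e (Finset.mem_filter.1 he).1).1)
      (fun e he h0 => by
        obtain ⟨h1, h2⟩ := Finset.mem_filter.1 he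
        obtain ⟨h3, h4⟩ := hE'm e h1
        obtain ⟨h5, -, -, h6⟩ := hex e h3 h4
        exact ⟨h5, h2, h6⟩)
    have hΛr : ((Λf.card : ℕ) : ℝ) ≤ 1 := by exact_mod_cast hΛ
    have k2 := hMC (2 * LL207.e1) (by positivity) (by unfold LL207.e1; norm_num)
    calc ∑ e ∈ E'.filter P1, F e
        ≤ (10^5 * LL207.CL LL207.e1) * (2 * L^2) * ((LL207.CX + Λf.card) * Q^(-(1/6) : ℝ)) *
          M^(1+2*LL207.e1) := k1
      _ ≤ (10^5 * LL207.CL LL207.e1) * (2 * L^2) *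
          ((LL207.CX + 1) * Real.exp (-(1 * (b:ℝ) ^ (1/40:ℝ)))) * (M * ℓ^C2) := by gcongr
      _ = (10^5 * LL207.CL LL207.e1 * (2 * Cl^2) * (LL207.CX + 1) * ℓ^(2 + C2) *
          Real.exp (-(1 * (b:ℝ) ^ (1/40:ℝ)))) * M := by
          rw [Real.rpow_add hℓ0, Real.rpow_two, hL]; ring
      _ ≤ (1/8 * W) * M := mul_le_mul_of_nonneg_right n1 hM0
  -- part 2
  have b2 : ∑ e ∈ (E'.filter fun e => ¬ P1 e).filter P2, F e ≤ 1/8 * W * M := by
    have k1 := LLG24.ll_class (ε := LL207.e1) he1 he4 (V := S) (W := S) (R := R) (R' := R) hS hS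
      (z₁ := 1) (z₂ := 1) (K := 2 * L^2) (δ := T) (by positivity) hT0 (F := F)
      (E := (E'.filter fun e => ¬ P1 e).filter P2)
      (fun e he => hE (hE'm e (Finset.mem_filter.1 (Finset.mem_filter.1 he).1).1).1)
      (fun e _ => ⟨one_dvd _, one_dvd _⟩)
      (fun e he => (Finset.mem_filter.1 he).2)
      (fun e he => hFw e (hE'm e (Finset.mem_filter.1 (Finset.mem_filter.1 he).1).1).1)
    have k2 := hMC (2 * LL207.e1) (by positivity) (by unfold LL207.e1; norm_num)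
    have k3 : (M * M)^(1/2+LL207.e1) ≤ M * ℓ^C2 := by
      have e1 : (M * M)^(1/2+LL207.e1) = M^(1+2*LL207.e1) := by
        rw [← sq, ← Real.rpow_natCast M 2, ← Real.rpow_mul hM0]
        congr 1
        push_cast
        ring
      rw [e1]; exact k2
    have k4 : LLpair207.Bz 1 1 LL207.e1 ≤ 10^4 := by
      have := LL207.Bz_le (z₁ := 1) (z₂ := 1) one_pos one_pos
      simpa using this
    have k5 : T^(-(2*LL207.e1)) = Real.exp (-(1/500 * (b:ℝ) ^ (1/40:ℝ))) := by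
      rw [hT, ← Real.exp_mul]; congr 1; unfold LL207.e1; ring
    have k6 := LLpair207.Bz_nonneg 1 1 LL207.e1
    have k7 : 0 ≤ (M * M)^(1/2+LL207.e1) := Real.rpow_nonneg (mul_nonneg hM0 hM0) _
    calc ∑ e ∈ (E'.filter fun e => ¬ P1 e).filter P2, F e
        ≤ LL207.CL LL207.e1 * (2 * L^2 * LLpair207.Bz 1 1 LL207.e1 * T^(-(2*LL207.e1))) *
          (M * M)^(1/2+LL207.e1) := k1
      _ ≤ LL207.CL LL207.e1 * (2 * L^2 * 10^4 * T^(-(2*LL207.e1))) * (M * ℓ^C2) := by gcongr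
      _ = (LL207.CL LL207.e1 * (2 * Cl^2) * 10^4 * ℓ^(2 + C2) *
          Real.exp (-(1/500 * (b:ℝ) ^ (1/40:ℝ)))) * M := by
          rw [Real.rpow_add hℓ0, Real.rpow_two, hL, k5]; ring
      _ ≤ (1/8 * W) * M := mul_le_mul_of_nonneg_right n2 hM0
  -- parts 3 and 4
  have hm3 : ∀ e ∈ (E'.filter fun e => ¬ P1 e).filter (fun e => ¬ P2 e),
      e ∈ E ∧ 0 < F e ∧ (Zc (lab e.1) (lab e.2) : ℝ) < Q ∧ DP R R e ≤ T := by
    intro e he
    obtain ⟨h1, h2⟩ := Finset.mem_filter.1 he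
    obtain ⟨h3, h4⟩ := Finset.mem_filter.1 h1
    obtain ⟨h5, h6⟩ := hE'm e h3
    have eD : LLpair207.Dp R R e = DP R R e := by
      unfold LLpair207.Dp DP
      exact max_comm _ _
    refine ⟨h5, h6, not_le.1 h4, ?_⟩
    rw [← eD]; exact not_lt.1 h2
  -- the smaller denominator is at least `Q ^ 3`
  have hden : ∀ e ∈ E, 0 < F e → (Zc (lab e.1) (lab e.2) : ℝ) < Q →
      Q ^ 3 ≤ (lab e.1).den ∧ Q ^ 3 ≤ (lab e.2).den := by
    intro e he h0 hZ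
    obtain ⟨-, -, h1, -⟩ := hex e he h0
    rw [hX] at h1
    have d1 : (0:ℝ) < (lab e.1).den := by exact_mod_cast (lab e.1).den_pos
    have d2 : (0:ℝ) < (lab e.2).den := by exact_mod_cast (lab e.2).den_pos
    obtain ⟨z1, z2⟩ := den_le_Zc (lab e.1) (lab e.2)
    have z3 : ((lab e.1).den : ℝ) ≤ (lab e.2).den * Q :=
      z1.trans (mul_le_mul_of_nonneg_left hZ.le d2.le)
    have z4 : ((lab e.2).den : ℝ) ≤ (lab e.1).den * Q :=
      z2.trans (mul_le_mul_of_nonneg_left hZ.le d1.le)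
    have hQ34 : Q ^ 3 ≤ Q ^ 4 := pow_le_pow_right₀ hQ1 (by norm_num)
    rcases h1 with h1 | h1
    · refine ⟨by linarith, ?_⟩
      have : Q ^ 3 * Q ≤ (lab e.2).den * Q := by
        calc Q ^ 3 * Q = Q ^ 4 := by ring
          _ ≤ _ := h1.le.trans z3
      exact le_of_mul_le_mul_right this hQ0
    · refine ⟨?_, by linarith⟩
      have : Q ^ 3 * Q ≤ (lab e.1).den * Q := by
        calc Q ^ 3 * Q = Q ^ 4 := by ring
          _ ≤ _ := h1.le.trans z4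
      exact le_of_mul_le_mul_right this hQ0
  have hgcd : ∀ e ∈ E, 0 < F e → (Zc (lab e.1) (lab e.2) : ℝ) < Q →
      Q * (T * b) ≤ Nat.gcd (lab e.1).den (lab e.2).den := by
    intro e he h0 hZ
    obtain ⟨-, -, h1, -⟩ := hex e he h0
    rw [hX] at h1
    obtain ⟨p1, p2⟩ := div_gcd_pos (lab e.1) (lab e.2)
    set g := Nat.gcd (lab e.1).den (lab e.2).den with hg
    have hg0 : 0 < g := Nat.gcd_pos_of_pos_left _ (lab e.1).den_pos
    have hgr : (0:ℝ) < g := by exact_mod_cast hg0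
    have k1 : (g:ℝ) * ((lab e.1).den / g : ℕ) = (lab e.1).den := by
      exact_mod_cast Nat.mul_div_cancel' (Nat.gcd_dvd_left _ _)
    have k2 : (g:ℝ) * ((lab e.2).den / g : ℕ) = (lab e.2).den := by
      exact_mod_cast Nat.mul_div_cancel' (Nat.gcd_dvd_right _ _)
    have hZe : (Zc (lab e.1) (lab e.2) : ℝ) =
        (((lab e.1).den / g : ℕ) : ℝ) * ((lab e.2).den / g : ℕ) := by
      unfold Zc; push_cast; rfl
    have q1 : (1:ℝ) ≤ ((lab e.1).den / g : ℕ) := by exact_mod_cast p1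
    have q2 : (1:ℝ) ≤ ((lab e.2).den / g : ℕ) := by exact_mod_cast p2
    have w1 : (((lab e.1).den / g : ℕ) : ℝ) ≤ Q := by nlinarith
    have w2 : (((lab e.2).den / g : ℕ) : ℝ) ≤ Q := by nlinarith
    have h5 : Q ^ 4 ≤ g * Q := by
      rcases h1 with h1 | h1
      · rw [← k1] at h1
        exact h1.le.trans (mul_le_mul_of_nonneg_left w1 hgr.le)
      · rw [← k2] at h1
        exact h1.le.trans (mul_le_mul_of_nonneg_left w2 hgr.le)
    have h6 : Q ^ 3 ≤ g := by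
      have : Q ^ 3 * Q ≤ g * Q := by
        calc Q ^ 3 * Q = Q ^ 4 := by ring
          _ ≤ _ := h5
      exact le_of_mul_le_mul_right this hQ0
    calc Q * (T * b) ≤ Q * Q ^ 2 := mul_le_mul_of_nonneg_left n8 hQ0.le
      _ = Q ^ 3 := by ring
      _ ≤ g := h6
  have hrel : ∀ E₃ : Finset (ℕ × ℕ), E₃ ⊆ (E'.filter fun e => ¬ P1 e).filter (fun e => ¬ P2 e) →
      ∀ ρ σ : ℚ, (∀ e ∈ E₃, lab e.1 = ρ ∧ lab e.2 = σ) →
      ((∀ e ∈ E₃, (cof e.1 e.2 : ℝ) ≤ T * b) ∨ (∀ e ∈ E₃, (cof e.2 e.1 : ℝ) ≤ T * b)) →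
      ∑ e ∈ E₃, F e ≤ 1/8 * W * M + 2 * L / Real.sqrt b *
        Real.sqrt ((∑ q ∈ S₁, wt R q) * ∑ q ∈ S₀, wt R q) := by
    intro E₃ hE₃ ρ σ hρσ hslot
    have hm : ∀ e ∈ E₃, e ∈ E ∧ 0 < F e ∧ (Zc (lab e.1) (lab e.2) : ℝ) < Q ∧ DP R R e ≤ T :=
      fun e he => hm3 e (hE₃ he)
    have hsb : 0 < Real.sqrt b := Real.sqrt_pos.2 hb0
    rcases E₃.eq_empty_or_nonempty with h0 | ⟨e₀, he₀⟩
    · rw [h0, Finset.sum_empty]; positivity
    obtain ⟨g1, g2, g3, g4⟩ := hm e₀ he₀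
    have hg := hgcd e₀ g1 g2 g3
    rw [(hρσ e₀ he₀).1, (hρσ e₀ he₀).2] at hg
    have key := two_labels (fun e he => hES (hm e he).1) hS₁ hS₀ hb0N ρ σ (X := T * b) (Y := Q)
      (by positivity) hQ0 hg (fun e he => hsm e (hm e he).1)
      (fun e he => (hex e (hm e he).1 (hm e he).2.1).2.1)
      (fun e he => by
        obtain ⟨n, m, h⟩ := (hex e (hm e he).1 (hm e he).2.1).2.2.2
        rw [(hρσ e he).1, (hρσ e he).2] at h
        exact ⟨n, m, h⟩) hslot (fun e he => hF e (hm e he).1)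
    refine key.trans (add_le_add ?_ ?_)
    · calc 4 * (T * b) * (Q^(-(1/100):ℝ) *
            Real.exp (7 * ((b:ℝ)^(1/100:ℝ) * (1 + Real.log b)))) * ∑ q ∈ S, R q
          = 4 * ((T * b) * (Q^(-(1/100):ℝ) *
            Real.exp (7 * ((b:ℝ)^(1/100:ℝ) * (1 + Real.log b))))) * ∑ q ∈ S, R q := by ring
        _ ≤ 4 * Real.exp (-((b:ℝ) ^ (1/40:ℝ))) * (L * M) := by
            refine mul_le_mul (mul_le_mul_of_nonneg_left n4 (by norm_num)) hRL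
              (Finset.sum_nonneg fun q hq => (hS q hq).2.le) (by positivity)
        _ = (4 * Cl * ℓ ^ (1:ℝ) * Real.exp (-(1 * (b:ℝ) ^ (1/40:ℝ)))) * M := by
            rw [Real.rpow_one, hL, one_mul]; ring
        _ ≤ (1/8 * W) * M := mul_le_mul_of_nonneg_right n3 hM0
    · have r1 : ∑ q ∈ S₁, R q ≤ L * ∑ q ∈ S₁, wt R q := by
        rw [Finset.mul_sum]
        exact Finset.sum_le_sum fun q hq => hLS q (Finset.mem_union_left _ hq)
      have r0 : ∑ q ∈ S₀, R q ≤ L * ∑ q ∈ S₀, wt R q := by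
        rw [Finset.mul_sum]
        exact Finset.sum_le_sum fun q hq => hLS q (Finset.mem_union_right _ hq)
      have r2 : 0 ≤ ∑ q ∈ S₀, R q := Finset.sum_nonneg fun q hq => (hS₀ q hq).2.le
      have r3 : 0 ≤ ∑ q ∈ S₁, R q := Finset.sum_nonneg fun q hq => (hS₁ q hq).2.le
      have r4 : Real.sqrt ((∑ q ∈ S₁, R q) * ∑ q ∈ S₀, R q) ≤
          L * Real.sqrt ((∑ q ∈ S₁, wt R q) * ∑ q ∈ S₀, wt R q) := by
        have eL : L * Real.sqrt ((∑ q ∈ S₁, wt R q) * ∑ q ∈ S₀, wt R q) =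
            Real.sqrt (L ^ 2 * ((∑ q ∈ S₁, wt R q) * ∑ q ∈ S₀, wt R q)) := by
          rw [Real.sqrt_mul (sq_nonneg _), Real.sqrt_sq hL0]
        rw [eL]
        refine Real.sqrt_le_sqrt ?_
        calc (∑ q ∈ S₁, R q) * ∑ q ∈ S₀, R q ≤
            (L * ∑ q ∈ S₁, wt R q) * (L * ∑ q ∈ S₀, wt R q) := mul_le_mul r1 r0 r2 (r3.trans r1)
          _ = _ := by ring
      calc 2 / Real.sqrt b * Real.sqrt ((∑ q ∈ S₁, R q) * ∑ q ∈ S₀, R q) ≤
            2 / Real.sqrt b * (L * Real.sqrt ((∑ q ∈ S₁, wt R q) * ∑ q ∈ S₀, wt R q)) :=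
            mul_le_mul_of_nonneg_left r4 (by positivity)
        _ = _ := by ring
  set E₃ := (E'.filter fun e => ¬ P1 e).filter (fun e => ¬ P2 e) with hE₃
  have hproper : ∀ e ∈ E₃, ¬ (Lab θ (R e.1) (lab e.1) ∧ Lab θ (R e.2) (lab e.2)) := by
    rintro e he ⟨h1, h2⟩
    obtain ⟨g1, g2, g3, g4⟩ := hm3 e he
    obtain ⟨h5, -, h6, -⟩ := hex e g1 g2
    rw [hX] at h6
    exact prop_prop h1 h2 h5 g3 h6 n6
  have hcard : ∀ x ∈ Λf, ∀ y ∈ Λf, x = y := Finset.card_le_one.1 hΛ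
  have b3 : ∑ e ∈ E₃.filter P3, F e ≤ 1/8 * W * M + 2 * L / Real.sqrt b *
        Real.sqrt ((∑ q ∈ S₁, wt R q) * ∑ q ∈ S₀, wt R q) := by
    have hsb : 0 < Real.sqrt b := Real.sqrt_pos.2 hb0
    rcases (E₃.filter P3).eq_empty_or_nonempty with h0 | ⟨e₀, he₀⟩
    · rw [h0, Finset.sum_empty]; positivity
    have hall : ∀ e ∈ E₃.filter P3, e ∈ E₃ ∧ P3 e ∧ Lab θ (R e.1) (lab e.1) := by
      intro e he
      obtain ⟨h1, h2⟩ := Finset.mem_filter.1 he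
      refine ⟨h1, h2, ?_⟩
      obtain ⟨g1, g2, g3, g4⟩ := hm3 e h1
      rcases hlab e.1 (hmem e g1).1 with h3 | h3
      · exact h3
      · exact absurd (hcard _ h3.1 _ h2.1) (hex e g1 g2).1
    refine hrel _ (Finset.filter_subset _ _) (lab e₀.1) (lab e₀.2) (fun e he => ?_) (Or.inl ?_)
    · obtain ⟨a1, a2, a3⟩ := hall e he
      obtain ⟨c1, c2, c3⟩ := hall e₀ he₀
      have e2 : lab e.2 = lab e₀.2 := hcard _ a2.1 _ c2.1
      refine ⟨?_, e2⟩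
      obtain ⟨g1, g2, g3, g4⟩ := hm3 e a1
      obtain ⟨k1, k2, k3, k4⟩ := hm3 e₀ c1
      have d1 := hden e g1 g2 g3
      have d2 := hden e₀ k1 k2 k3
      rw [e2] at g3
      exact prop_unique a3 c3 g3 k3 d1.1 d2.1 n6
    · intro e he
      obtain ⟨a1, a2, a3⟩ := hall e he
      obtain ⟨g1, g2, g3, g4⟩ := hm3 e a1
      have d2 : (cof e.1 e.2 : ℝ) * R e.2 ≤ DP R R e := le_max_right _ _
      have h5 : (cof e.1 e.2 : ℝ) * (b:ℝ)⁻¹ ≤ T :=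
        (mul_le_mul_of_nonneg_left a2.2 (by positivity)).trans (d2.trans g4)
      rw [← div_eq_mul_inv, div_le_iff₀ hb0] at h5
      exact h5
  have b4 : ∑ e ∈ E₃.filter (fun e => ¬ P3 e), F e ≤ 1/8 * W * M + 2 * L / Real.sqrt b *
        Real.sqrt ((∑ q ∈ S₁, wt R q) * ∑ q ∈ S₀, wt R q) := by
    have hsb : 0 < Real.sqrt b := Real.sqrt_pos.2 hb0
    rcases (E₃.filter (fun e => ¬ P3 e)).eq_empty_or_nonempty with h0 | ⟨e₀, he₀⟩
    · rw [h0, Finset.sum_empty]; positivity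
    have hall : ∀ e ∈ E₃.filter (fun e => ¬ P3 e), e ∈ E₃ ∧ Lab θ (R e.2) (lab e.2) ∧
        lab e.1 ∈ Λf ∧ (b:ℝ)⁻¹ ≤ R e.1 := by
      intro e he
      obtain ⟨h1, h2⟩ := Finset.mem_filter.1 he
      obtain ⟨g1, g2, g3, g4⟩ := hm3 e h1
      have h3 : Lab θ (R e.2) (lab e.2) := (hlab e.2 (hmem e g1).2).resolve_right h2
      refine ⟨h1, h3, ?_⟩
      rcases hlab e.1 (hmem e g1).1 with h4 | h4
      · exact absurd ⟨h4, h3⟩ (hproper e h1)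
      · exact h4
    refine hrel _ (Finset.filter_subset _ _) (lab e₀.1) (lab e₀.2) (fun e he => ?_) (Or.inr ?_)
    · obtain ⟨a1, a2, a3, a4⟩ := hall e he
      obtain ⟨c1, c2, c3, c4⟩ := hall e₀ he₀
      have e2 : lab e.1 = lab e₀.1 := hcard _ a3 _ c3
      refine ⟨e2, ?_⟩
      obtain ⟨g1, g2, g3, g4⟩ := hm3 e a1
      obtain ⟨k1, k2, k3, k4⟩ := hm3 e₀ c1
      have d1 := hden e g1 g2 g3
      have d2 := hden e₀ k1 k2 k3
      rw [Zc_symm, e2] at g3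
      rw [Zc_symm] at k3
      exact prop_unique a2 c2 g3 k3 d1.2 d2.2 n6
    · intro e he
      obtain ⟨a1, a2, a3, a4⟩ := hall e he
      obtain ⟨g1, g2, g3, g4⟩ := hm3 e a1
      have d2 : (cof e.2 e.1 : ℝ) * R e.1 ≤ DP R R e := le_max_left _ _
      have h5 : (cof e.2 e.1 : ℝ) * (b:ℝ)⁻¹ ≤ T :=
        (mul_le_mul_of_nonneg_left a4 (by positivity)).trans (d2.trans g4)
      rw [← div_eq_mul_inv, div_le_iff₀ hb0] at h5
      exact h5
  have hW0 : 0 < W := Real.exp_pos _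
  have hWM : 0 ≤ W * M := mul_nonneg hW0.le hM0
  have e4 : 4 * (Cl * ℓ) / Real.sqrt b * Real.sqrt ((∑ q ∈ S₁, wt R q) * ∑ q ∈ S₀, wt R q) =
      2 * (2 * L / Real.sqrt b * Real.sqrt ((∑ q ∈ S₁, wt R q) * ∑ q ∈ S₀, wt R q)) := by
    rw [hL]; ring
  rw [e4]
  linarith

open Filter in
lemma num5 (C D : ℝ) (hC : 0 ≤ C) : ∀ᶠ x : ℝ in atTop,
    C * Real.log x ^ D * x ^ (-(1/6):ℝ) ≤ x ^ (-(1/7):ℝ) := by
  have e1 := ev_lit (a := 1/42) (c := 1 / (C + 1)) (by norm_num) (by positivity) D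
  filter_upwards [e1, eventually_ge_atTop (1:ℝ)] with x h1 h4
  have hx0 : 0 < x := by linarith
  have hl : 0 ≤ Real.log x ^ D := Real.rpow_nonneg (Real.log_nonneg h4) _
  have h5 : C * Real.log x ^ D ≤ x ^ (1/42:ℝ) := by
    calc C * Real.log x ^ D ≤ (C + 1) * (1 / (C + 1) * x ^ (1/42:ℝ)) :=
          mul_le_mul (by linarith) h1 hl (by linarith)
      _ = _ := by field_simp
  calc C * Real.log x ^ D * x ^ (-(1/6):ℝ) ≤ x ^ (1/42:ℝ) * x ^ (-(1/6):ℝ) :=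
        mul_le_mul_of_nonneg_right h5 (Real.rpow_nonneg hx0.le _)
    _ = _ := by rw [← Real.rpow_add hx0]; norm_num

/-- **labelled pairs with different labels crossing at `b`**, any `b` -/
theorem ll_bad (Cl C2 : ℝ) (hCl : 0 ≤ Cl) (hC2 : 0 ≤ C2) : ∃ b₁ : ℕ, ∀ b : ℕ, b₁ ≤ b →
    ∀ (θ : ℝ) (S : Finset ℕ) (E : Finset (ℕ × ℕ)) (R : ℕ → ℝ) (lab : ℕ → ℚ)
      (Λf : Finset ℚ) (F : ℕ × ℕ → ℝ),
    Λf.card ≤ 1 → E ⊆ S ×ˢ S →
    (∀ q ∈ S, 0 < q ∧ 0 < R q) → (∀ q ∈ S, R q ≤ Cl * Real.log b * wt R q) →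
    ∑ q ∈ S, wt R q ≤ Real.log b ^ C2 →
    (∀ q ∈ S, Lab θ (R q) (lab q) ∨ (lab q ∈ Λf ∧ (b:ℝ)⁻¹ ≤ R q)) →
    (∀ e ∈ E, F e ≤ 2 * ((R e.1 * R e.2) / DP R R e)) →
    (∀ e ∈ E, 0 < F e → lab e.1 ≠ lab e.2 ∧ (b:ℝ) ≤ (Zc (lab e.1) (lab e.2) : ℝ) ∧
      ∃ n m : ℤ, ((n:ℝ) + lab e.1) * (cof e.2 e.1 : ℕ) = (m + lab e.2) * (cof e.1 e.2 : ℕ)) →
    ∑ e ∈ E, F e ≤ (b:ℝ) ^ (-(1/7):ℝ) * ∑ q ∈ S, wt R q := by
  classical
  have hCX := LL207.CX_pos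
  have hLe := LL207.CL_nonneg (ε := LL207.e1) (by unfold LL207.e1; norm_num)
  obtain ⟨x₁, hx₁⟩ := Filter.eventually_atTop.1
    ((num5 (10^5 * LL207.CL LL207.e1 * (2 * Cl^2) * (LL207.CX + 1)) (2 + C2)
      (by positivity)).and (Filter.eventually_ge_atTop (Real.exp 1)))
  refine ⟨⌈x₁⌉₊ + 1, fun b hb => ?_⟩
  intro θ S E R lab Λf F hΛ hES hS hLS hMb hlab hF hex
  have hbx : x₁ ≤ b := (Nat.le_ceil x₁).trans (by exact_mod_cast (by omega : ⌈x₁⌉₊ ≤ b))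
  obtain ⟨n1, n9⟩ := hx₁ b hbx
  have hb0N : 0 < b := by omega
  have hb0 : (0:ℝ) < b := by exact_mod_cast hb0N
  have hb1 : (1:ℝ) ≤ b := by exact_mod_cast hb0N
  set ℓ := Real.log (b:ℝ) with hℓ
  have hℓ1 : 1 ≤ ℓ := by rw [hℓ]; exact (Real.le_log_iff_exp_le hb0).2 n9
  have hℓ0 : 0 < ℓ := by linarith
  set L := Cl * ℓ with hL
  have hL0 : 0 ≤ L := by positivity
  set M := ∑ q ∈ S, wt R q with hM
  have hmem : ∀ e ∈ E, e.1 ∈ S ∧ e.2 ∈ S := fun e he => Finset.mem_product.1 (hES he)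
  have hwt : ∀ q ∈ S, 0 ≤ wt R q := fun q hq => by
    unfold wt; exact mul_nonneg (hS q hq).2.le (by positivity)
  have hM0 : 0 ≤ M := Finset.sum_nonneg hwt
  have hMC : ∀ x : ℝ, 0 ≤ x → x ≤ 1 → M^(1+x) ≤ M * ℓ^C2 := by
    intro x hx0 hx1
    rcases hM0.eq_or_lt with h0 | h0
    · rw [← h0, Real.zero_rpow (by linarith)]; simp
    · rw [Real.rpow_add h0, Real.rpow_one]
      apply mul_le_mul_of_nonneg_left _ hM0
      calc M^x ≤ (ℓ^C2)^x := Real.rpow_le_rpow hM0 hMb hx0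
        _ = ℓ^(C2*x) := by rw [← Real.rpow_mul hℓ0.le]
        _ ≤ ℓ^C2 := Real.rpow_le_rpow_of_exponent_le hℓ1 (by nlinarith)
  have k1 := LLG24.ll_total (θ := θ) (P := b) (K := 2 * L^2) hb1 (by positivity) (S := S)
    (R := R) (a := R) (lab := lab) (Λf := Λf) hS
    (fun q hq => (hlab q hq).imp (fun h => ⟨h, le_rfl⟩) id)
    (E := E) hES (F := F)
    (fun e he => by
      have hh := hmem e he
      have hR := (hS _ hh.1).2
      have hR' := (hS _ hh.2).2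
      have hD := DP_pos (R := R) (R' := R) (hS _ hh.2).1 hR
      have eD : LLpair207.Dp R R e = DP R R e := by
        unfold LLpair207.Dp DP
        exact max_comm _ _
      rw [eD]
      have hRR : R e.1 * R e.2 ≤ L^2 * (wt R e.1 * wt R e.2) := by
        have f1 := hLS _ hh.1
        have f2 := hLS _ hh.2
        have f5 : 0 ≤ L * wt R e.1 := hR.le.trans f1
        calc R e.1 * R e.2 ≤ (L * wt R e.1) * (L * wt R e.2) := mul_le_mul f1 f2 hR'.le f5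
          _ = _ := by ring
      calc F e ≤ 2 * ((R e.1 * R e.2) / DP R R e) := hF e he
        _ ≤ 2 * ((L^2 * (wt R e.1 * wt R e.2)) / DP R R e) := by gcongr
        _ = 2 * L^2 * (wt R e.1 * wt R e.2 / DP R R e) := by ring)
    hex
  have hΛr : ((Λf.card : ℕ) : ℝ) ≤ 1 := by exact_mod_cast hΛ
  have k2 := hMC (2 * LL207.e1) (by unfold LL207.e1; norm_num) (by unfold LL207.e1; norm_num)
  calc ∑ e ∈ E, F e
      ≤ (10^5 * LL207.CL LL207.e1) * (2 * L^2) * ((LL207.CX + Λf.card) * (b:ℝ)^(-(1/6) : ℝ)) *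
        M^(1+2*LL207.e1) := k1
    _ ≤ (10^5 * LL207.CL LL207.e1) * (2 * L^2) *
        ((LL207.CX + 1) * (b:ℝ)^(-(1/6) : ℝ)) * (M * ℓ^C2) := by gcongr
    _ = (10^5 * LL207.CL LL207.e1 * (2 * Cl^2) * (LL207.CX + 1) * ℓ^(2 + C2) *
        (b:ℝ)^(-(1/6) : ℝ)) * M := by
        rw [Real.rpow_add hℓ0, Real.rpow_two, hL]; ring
    _ ≤ _ := mul_le_mul_of_nonneg_right n1 hM0

end Crest.Agent.R4P.AddLL7
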