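import Crest.Agent.R4.Lift223

/-!
R4 (S0004), POWERS, module dseR (D4), helper7: **unique lifts with prime powers**.

Two families `f i`, `g j` on one circle with classes `cl`, `cl'`; the left family is `1/b^k`-periodic
and on a set `E` of pairs of the same class every coincidence is exact (the two centres agree) with a
centre whose denominator is NOT divisible by `b^k`.  Then

  `∑_E I (f g) ≤ √(I Φ · I Ψ / b)`,

`Φ`, `Ψ` = in-class energies of the two families.  (`k = 1` : `R4.Lift223.lift_class` with `P' = 1`.)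
-/

set_option autoImplicit false
set_option linter.unusedSectionVars false
set_option linter.unusedVariables false
open MeasureTheory Filter

namespace Crest.Agent.R4P.AddLift7

open Crest.Agent.R4.Tour104 Crest.Agent.R4.Avg758 Crest.Agent.R4.Piece464
open Crest.Agent.R4.Lift223

/-- **the admissible shifts**: among the `b^k` shifts of a rational by `s / b^k` at most `b^(k-1)`
have a denominator which is not divisible by `b^k` -/
lemma card_adm {b k : ℕ} (hb : b.Prime) (hk : 0 < k) (v : ℚ) :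
    ((Finset.range (b ^ k)).filter fun s : ℕ => ¬ b ^ k ∣ (v + (s : ℚ) / (b ^ k : ℕ)).den).card ≤
      b ^ (k - 1) := by
  classical
  have hbk : 0 < b ^ k := pow_pos hb.pos k
  have hbk1 : b ^ (k - 1) * b = b ^ k := by rw [← pow_succ]; congr 1; omega
  -- two admissible shifts are congruent modulo `b`
  have key : ∀ s t : ℕ, ¬ b ^ k ∣ (v + (s : ℚ) / (b ^ k : ℕ)).den →
      ¬ b ^ k ∣ (v + (t : ℚ) / (b ^ k : ℕ)).den → s ≡ t [MOD b] := by
    intro s t hs ht
    set x : ℚ := v + (s : ℚ) / (b ^ k : ℕ) with hx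
    set y : ℚ := v + (t : ℚ) / (b ^ k : ℕ) with hy
    -- `x - y = (s - t) / b^k`
    have hbq : ((b ^ k : ℕ) : ℚ) ≠ 0 := by exact_mod_cast hbk.ne'
    have hxy : (x - y) * ((b ^ k : ℕ) : ℚ) = ((s : ℤ) - (t : ℤ) : ℤ) := by
      rw [hx, hy, Int.cast_sub, Int.cast_natCast, Int.cast_natCast]
      generalize ((b ^ k : ℕ) : ℚ) = N at hbq
      field_simp
      ring
    -- the denominators
    have hd : (x - y).den ∣ x.den * y.den := Rat.sub_den_dvd x y
    -- valuations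
    have hxd : x.den.factorization b ≤ k - 1 := by
      by_contra hc
      exact hs ((hb.pow_dvd_iff_le_factorization x.den_nz).2 (by omega))
    have hyd : y.den.factorization b ≤ k - 1 := by
      by_contra hc
      exact ht ((hb.pow_dvd_iff_le_factorization y.den_nz).2 (by omega))
    -- common denominator `m = b^(k-1) * m'`, `m'` prime to `b`
    set m' : ℕ := ordCompl[b] x.den * ordCompl[b] y.den with hm'
    have hm'b : ¬ b ∣ m' := by
      rw [hm', hb.dvd_mul]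
      push Not
      exact ⟨Nat.not_dvd_ordCompl hb x.den_nz, Nat.not_dvd_ordCompl hb y.den_nz⟩
    have hxm : x.den ∣ b ^ (k - 1) * m' := by
      have h1 : x.den = b ^ x.den.factorization b * ordCompl[b] x.den :=
        (Nat.ordProj_mul_ordCompl_eq_self x.den b).symm
      rw [h1, hm']
      exact mul_dvd_mul (pow_dvd_pow b hxd) (Dvd.intro _ rfl)
    have hym : y.den ∣ b ^ (k - 1) * m' := by
      have h1 : y.den = b ^ y.den.factorization b * ordCompl[b] y.den :=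
        (Nat.ordProj_mul_ordCompl_eq_self y.den b).symm
      rw [h1, hm']
      exact mul_dvd_mul (pow_dvd_pow b hyd) (Dvd.intro_left _ rfl)
    obtain ⟨a, ha⟩ : ∃ a : ℤ, x * ((b ^ (k - 1) * m' : ℕ) : ℚ) = a := by
      obtain ⟨c, hc⟩ := hxm
      refine ⟨x.num * c, ?_⟩
      rw [hc]
      push_cast
      rw [← mul_assoc, Rat.mul_den_eq_num]
    obtain ⟨a', ha'⟩ : ∃ a : ℤ, y * ((b ^ (k - 1) * m' : ℕ) : ℚ) = a := by
      obtain ⟨c, hc⟩ := hym
      refine ⟨y.num * c, ?_⟩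
      rw [hc]
      push_cast
      rw [← mul_assoc, Rat.mul_den_eq_num]
    have h3 : (a - a' : ℤ) * (b : ℤ) = ((s : ℤ) - t) * (m' : ℤ) := by
      have h4 : ((a : ℚ) - a') * b = ((s : ℤ) - (t : ℤ) : ℤ) * (m' : ℚ) := by
        rw [← ha, ← ha', ← hxy, ← hbk1]
        push_cast
        ring
      have h5 : (((a - a' : ℤ) * (b : ℤ) : ℤ) : ℚ) = ((((s : ℤ) - t) * (m' : ℤ) : ℤ) : ℚ) := by
        push_cast at h4 ⊢
        exact h4
      exact_mod_cast h5
    have h6 : (b : ℤ) ∣ ((s : ℤ) - t) * (m' : ℤ) := Dvd.intro_left _ h3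
    have hbz : Prime (b : ℤ) := Nat.prime_iff_prime_int.1 hb
    rcases hbz.dvd_or_dvd h6 with h7 | h7
    · exact ((Nat.modEq_iff_dvd).2 (by
        have : (b : ℤ) ∣ -((s : ℤ) - t) := (dvd_neg).2 h7
        rwa [neg_sub] at this))
    · exact absurd (by exact_mod_cast h7) hm'b
  rcases ((Finset.range (b ^ k)).filter
    fun s : ℕ => ¬ b ^ k ∣ (v + (s : ℚ) / (b ^ k : ℕ)).den).eq_empty_or_nonempty with he | ⟨s₀, hs₀⟩
  · rw [he]; simp
  · have h1 := (Finset.mem_filter.1 hs₀).2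
    refine (Finset.card_le_card (t := ((Finset.range (b ^ k)).filter fun s => s ≡ s₀ [MOD b]))
      fun s hs => ?_).trans ?_
    · obtain ⟨h2, h3⟩ := Finset.mem_filter.1 hs
      exact Finset.mem_filter.2 ⟨h2, key s s₀ h3 h1⟩
    · rw [← Nat.count_eq_card_filter_range, ← hbk1, mul_comm]
      rw [Nat.count_modEq_card _ hb.pos, Nat.mul_div_cancel_left _ hb.pos, Nat.mul_mod_right,
        if_neg (by omega)]
      omega

section fin
variable {ι ι' κ : Type*} [DecidableEq κ]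

open Classical in
/-- **one fibre** -/
theorem fibre_pow {b k : ℕ} (hb : b.Prime) (hk : 0 < k) {J : Finset ι} {J' : Finset ι'}
    {E : Finset (ι × ι')} (hEJ : ∀ e ∈ E, e.1 ∈ J ∧ e.2 ∈ J') {a : ι → ℝ} {g : ι' → ℕ → ℝ}
    {c : ι → ℚ} {d : ι' → ℕ → ℚ} {cl : ι → κ} {cl' : ι' → κ}
    (ha0 : ∀ i ∈ J, 0 ≤ a i) (hg0 : ∀ j ∈ J', ∀ s, 0 ≤ g j s)
    (hE : ∀ e ∈ E, ∀ s, a e.1 ≠ 0 → g e.2 s ≠ 0 →
      c e.1 + (s : ℚ) / (b ^ k : ℕ) = d e.2 s ∧ cl e.1 = cl' e.2 ∧
        ¬ b ^ k ∣ (c e.1 + (s : ℚ) / (b ^ k : ℕ)).den)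
    {l : ℝ} (hl : 0 < l) :
    ∑ s ∈ Finset.range (b ^ k), ∑ e ∈ E, a e.1 * g e.2 s ≤
      l / 2 * (b ^ (k - 1) * qe J a cl) +
      1 / (2 * l) * ∑ s ∈ Finset.range (b ^ k), qe J' (fun j => g j s) cl' := by
  set T : Finset (ℚ × κ) := J.image (fun i => (c i, cl i)) with hT
  set A : ℚ × κ → ℝ := fun t => ∑ i ∈ J.filter (fun i => (c i, cl i) = t), a i with hA
  set B : ℕ → ℚ × κ → ℝ := fun s t =>
    ∑ j ∈ J'.filter (fun j => (d j s, cl' j) = t), g j s with hB
  set adm : ℕ → ℚ → Prop := fun s v => ¬ b ^ k ∣ (v + (s : ℚ) / (b ^ k : ℕ)).den with hadm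
  have step1 : ∀ s, ∑ e ∈ E, a e.1 * g e.2 s ≤
      ∑ t ∈ T, if adm s t.1 then A t * B s (t.1 + (s : ℚ) / (b ^ k : ℕ), t.2) else 0 := by
    intro s
    have h1 : ∑ e ∈ E, a e.1 * g e.2 s =
        ∑ e ∈ E.filter (fun e => a e.1 ≠ 0 ∧ g e.2 s ≠ 0), a e.1 * g e.2 s := by
      symm
      refine Finset.sum_filter_of_ne fun e _ h => ⟨left_ne_zero_of_mul h, right_ne_zero_of_mul h⟩
    rw [h1, ← Finset.sum_fiberwise_of_maps_to (t := T) (g := fun e => (c e.1, cl e.1))]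
    · refine Finset.sum_le_sum fun t _ => ?_
      by_cases hne : ((E.filter (fun e => a e.1 ≠ 0 ∧ g e.2 s ≠ 0)).filter
          (fun e => (c e.1, cl e.1) = t)).Nonempty
      · obtain ⟨e₀, he₀⟩ := hne
        obtain ⟨h2, h3⟩ := Finset.mem_filter.1 he₀
        obtain ⟨h4, h5, h6⟩ := Finset.mem_filter.1 h2
        obtain ⟨-, -, h7⟩ := hE e₀ h4 s h5 h6
        have hc : c e₀.1 = t.1 := congrArg Prod.fst h3
        rw [hc] at h7
        rw [if_pos h7, hA, hB]
        simp only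
        rw [Finset.sum_mul_sum, ← Finset.sum_product']
        refine Finset.sum_le_sum_of_subset_of_nonneg ?_ ?_
        · intro e he
          obtain ⟨h2, h3⟩ := Finset.mem_filter.1 he
          obtain ⟨h4, h5, h6⟩ := Finset.mem_filter.1 h2
          obtain ⟨h7, h8, -⟩ := hE e h4 s h5 h6
          refine Finset.mem_product.2 ⟨Finset.mem_filter.2 ⟨(hEJ e h4).1, h3⟩,
            Finset.mem_filter.2 ⟨(hEJ e h4).2, ?_⟩⟩
          rw [← h7, ← h8, ← h3]
        · intro e he _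
          obtain ⟨h2, h3⟩ := Finset.mem_product.1 he
          exact mul_nonneg (ha0 _ (Finset.mem_filter.1 h2).1) (hg0 _ (Finset.mem_filter.1 h3).1 _)
      · rw [Finset.not_nonempty_iff_eq_empty] at hne
        rw [hne, Finset.sum_empty]
        split_ifs
        · exact mul_nonneg (Finset.sum_nonneg fun i hi => ha0 _ (Finset.mem_filter.1 hi).1)
            (Finset.sum_nonneg fun j hj => hg0 _ (Finset.mem_filter.1 hj).1 _)
        · exact le_rfl
    · intro e he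
      obtain ⟨h4, -⟩ := Finset.mem_filter.1 he
      exact Finset.mem_image.2 ⟨e.1, (hEJ e h4).1, rfl⟩
  have step2 : ∀ x y : ℝ, x * y ≤ l / 2 * x ^ 2 + 1 / (2 * l) * y ^ 2 := by
    intro x y
    have h2 : l / 2 * x ^ 2 + 1 / (2 * l) * y ^ 2 - x * y = (l * x - y) ^ 2 / (2 * l) := by
      field_simp; ring
    have h3 : 0 ≤ (l * x - y) ^ 2 / (2 * l) := by positivity
    linarith
  have step3 : ∀ s, ∑ t ∈ T, (if adm s t.1 then A t * B s (t.1 + (s : ℚ) / (b ^ k : ℕ), t.2)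
      else 0) ≤ l / 2 * ∑ t ∈ T, (if adm s t.1 then A t ^ 2 else 0) +
        1 / (2 * l) * ∑ t ∈ T, B s (t.1 + (s : ℚ) / (b ^ k : ℕ), t.2) ^ 2 := by
    intro s
    rw [Finset.mul_sum, Finset.mul_sum, ← Finset.sum_add_distrib]
    refine Finset.sum_le_sum fun t _ => ?_
    split_ifs
    · exact step2 _ _
    · have : 0 ≤ 1 / (2 * l) * B s (t.1 + (s : ℚ) / (b ^ k : ℕ), t.2) ^ 2 := by positivity
      linarith
  have hfirst : ∑ s ∈ Finset.range (b ^ k), ∑ t ∈ T, (if adm s t.1 then A t ^ 2 else 0) ≤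
      (b : ℝ) ^ (k - 1) * qe J a cl := by
    rw [Finset.sum_comm]
    calc ∑ t ∈ T, ∑ s ∈ Finset.range (b ^ k), (if adm s t.1 then A t ^ 2 else 0)
        ≤ ∑ t ∈ T, (b : ℝ) ^ (k - 1) * A t ^ 2 := by
          refine Finset.sum_le_sum fun t _ => ?_
          rw [← Finset.sum_filter, Finset.sum_const, nsmul_eq_mul]
          refine mul_le_mul_of_nonneg_right ?_ (sq_nonneg _)
          exact_mod_cast card_adm hb hk t.1
      _ = (b : ℝ) ^ (k - 1) * ∑ t ∈ T, A t ^ 2 := by rw [Finset.mul_sum]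
      _ ≤ _ := by
          refine mul_le_mul_of_nonneg_left ?_ (by positivity)
          refine (sum_sq_le_qe ha0 (fun i => (c i, cl i)) T).trans ?_
          exact qe_mono ha0 fun _ _ _ _ _ _ h => congrArg Prod.snd h
  have hsecond : ∀ s, ∑ t ∈ T, B s (t.1 + (s : ℚ) / (b ^ k : ℕ), t.2) ^ 2 ≤
      qe J' (fun j => g j s) cl' := by
    intro s
    have hinj : Set.InjOn (fun t : ℚ × κ => (t.1 + (s : ℚ) / (b ^ k : ℕ), t.2)) (T : Set (ℚ × κ)) := by
      rintro ⟨x, y⟩ _ ⟨x', y'⟩ _ h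
      have h1 : x + (s : ℚ) / (b ^ k : ℕ) = x' + (s : ℚ) / (b ^ k : ℕ) := congrArg Prod.fst h
      have h2 : y = y' := congrArg Prod.snd h
      rw [add_right_cancel h1, h2]
    rw [← Finset.sum_image (f := fun t : ℚ × κ => B s t ^ 2) hinj]
    refine (sum_sq_le_qe (fun j hj => hg0 j hj s) (fun j => (d j s, cl' j)) _).trans ?_
    exact qe_mono (fun j hj => hg0 j hj s) fun _ _ _ _ _ _ h => congrArg Prod.snd h
  calc ∑ s ∈ Finset.range (b ^ k), ∑ e ∈ E, a e.1 * g e.2 s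
      ≤ ∑ s ∈ Finset.range (b ^ k), (l / 2 * ∑ t ∈ T, (if adm s t.1 then A t ^ 2 else 0) +
        1 / (2 * l) * ∑ t ∈ T, B s (t.1 + (s : ℚ) / (b ^ k : ℕ), t.2) ^ 2) :=
        Finset.sum_le_sum fun s _ => (step1 s).trans (step3 s)
    _ = l / 2 * ∑ s ∈ Finset.range (b ^ k), ∑ t ∈ T, (if adm s t.1 then A t ^ 2 else 0) +
        1 / (2 * l) * ∑ s ∈ Finset.range (b ^ k),
          ∑ t ∈ T, B s (t.1 + (s : ℚ) / (b ^ k : ℕ), t.2) ^ 2 := by
        rw [Finset.sum_add_distrib, Finset.mul_sum, Finset.mul_sum]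
    _ ≤ _ := by
        refine add_le_add (mul_le_mul_of_nonneg_left hfirst (by positivity))
          (mul_le_mul_of_nonneg_left (Finset.sum_le_sum fun s _ => hsecond s) (by positivity))

end fin

section circle
variable {ι ι' κ : Type*} [DecidableEq κ]

/-- **unique lifts with prime powers** -/
theorem lift_pow {b k : ℕ} (hb : b.Prime) (hk : 0 < k) {J : Finset ι} {J' : Finset ι'}
    {E : Finset (ι × ι')} (hEJ : ∀ e ∈ E, e.1 ∈ J ∧ e.2 ∈ J') {f : ι → ℝ → ℝ} {g : ι' → ℝ → ℝ}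
    (pf : ∀ i ∈ J, PB (f i)) (pg : ∀ j ∈ J', PB (g j)) {C : ι → ℝ → ℚ} {D : ι' → ℝ → ℚ}
    {cl : ι → κ} {cl' : ι' → κ}
    (hf : ∀ i ∈ J, ∀ z, f i (z + 1 / (b ^ k : ℕ)) = f i z)
    (hC : ∀ i ∈ J, ∀ z, f i z ≠ 0 → C i (z + 1 / (b ^ k : ℕ)) = C i z + 1 / (b ^ k : ℕ))
    (hE : ∀ e ∈ E, ∀ z, f e.1 z ≠ 0 → g e.2 z ≠ 0 →
      C e.1 z = D e.2 z ∧ cl e.1 = cl' e.2 ∧ ¬ b ^ k ∣ (C e.1 z).den) :
    ∑ e ∈ E, I (fun z => f e.1 z * g e.2 z) ≤
      Real.sqrt (I (fun z => qe J (fun i => f i z) cl) *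
        I (fun z => qe J' (fun j => g j z) cl') / b) := by
  classical
  have hb0 : (0 : ℝ) < b := by exact_mod_cast hb.pos
  have hN : 0 < b ^ k := pow_pos hb.pos k
  have pe : ∀ e ∈ E, PB fun z => f e.1 z * g e.2 z := fun e he =>
    (pf _ (hEJ e he).1).mul (pg _ (hEJ e he).2)
  have ph : PB fun z => ∑ e ∈ E, f e.1 z * g e.2 z := PB.sum E pe
  set Φ : ℝ → ℝ := fun z => qe J (fun i => f i z) cl with hΦdef
  set Ψ : ℝ → ℝ := fun z => qe J' (fun j => g j z) cl' with hΨdef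
  have pΦ : PB Φ := PB_qe pf cl
  have pΨ : PB Ψ := PB_qe pg cl'
  rw [← I_sum E fun e he => (pe e he).integrableOn, ← I_Ep hN ph.integrableOn]
  have iΦ : 0 ≤ I Φ := I_nonneg pΦ.nonneg
  have iΨ : 0 ≤ I Ψ := I_nonneg pΨ.nonneg
  have hNr : ((b ^ k : ℕ) : ℝ) ≠ 0 := by exact_mod_cast hN.ne'
  have hbk : ((b ^ k : ℕ) : ℝ) = b ^ (k - 1) * b := by
    have : b ^ k = b ^ (k - 1) * b := by rw [← pow_succ]; congr 1; omega
    rw [this]; push_cast; ring
  have key : ∀ l : ℝ, 0 < l → ∀ y, Ep (b ^ k) (fun z => ∑ e ∈ E, f e.1 z * g e.2 z) y ≤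
      l / (2 * b) * Ep (b ^ k) Φ y + 1 / (2 * l) * Ep (b ^ k) Ψ y := by
    intro l hl y
    set z : ℕ → ℝ := fun s => (y + s) / ((b ^ k : ℕ) : ℝ) with hz
    have z1 : ∀ s, z (s + 1) = z s + 1 / (b ^ k : ℕ) := by
      intro s; simp only [hz]; push_cast; field_simp; ring
    have q1 : ∀ i ∈ J, ∀ s, f i (z s) = f i (z 0) := by
      intro i hi s
      induction s with
      | zero => rfl
      | succ s ih => rw [z1, hf i hi, ih]
    have q2 : ∀ i ∈ J, ∀ s : ℕ, f i (z 0) ≠ 0 → C i (z s) = C i (z 0) + (s : ℚ) / (b ^ k : ℕ) := by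
      intro i hi s h
      induction s with
      | zero => simp
      | succ s ih =>
        rw [z1, hC i hi _ (by rw [q1 i hi]; exact h), ih]
        push_cast; ring
    have h1 := fibre_pow hb hk hEJ (a := fun i => f i (z 0)) (g := fun j s => g j (z s))
      (c := fun i => C i (z 0)) (d := fun j s => D j (z s)) (cl := cl) (cl' := cl')
      (fun i hi => (pf i hi).nonneg _) (fun j hj s => (pg j hj).nonneg _)
      (fun e he s ha hg => by
        have h2 := q1 e.1 (hEJ e he).1 s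
        have h3 := q2 e.1 (hEJ e he).1 s ha
        obtain ⟨h4, h5, h6⟩ := hE e he (z s) (by rw [h2]; exact ha) hg
        rw [h3] at h4 h6
        exact ⟨h4, h5, h6⟩) hl
    have eE : ∀ F : ℝ → ℝ, ∑ s ∈ Finset.range (b ^ k), F (z s) = (b ^ k : ℕ) * Ep (b ^ k) F y := by
      intro F
      rw [mul_comm]
      unfold Ep
      rw [div_mul_cancel₀ _ hNr]
    have e1 : ∑ s ∈ Finset.range (b ^ k), ∑ e ∈ E, f e.1 (z 0) * g e.2 (z s) =
        (b ^ k : ℕ) * Ep (b ^ k) (fun z => ∑ e ∈ E, f e.1 z * g e.2 z) y := by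
      rw [← eE]
      exact Finset.sum_congr rfl fun s _ => Finset.sum_congr rfl fun e he => by
        rw [q1 e.1 (hEJ e he).1 s]
    have e2 : qe J (fun i => f i (z 0)) cl = Ep (b ^ k) Φ y := by
      have h2 : ∀ s, Φ (z s) = qe J (fun i => f i (z 0)) cl := by
        intro s
        simp only [hΦdef]
        unfold qe
        refine Finset.sum_congr rfl fun i hi => Finset.sum_congr rfl fun i' hi' => ?_
        beta_reduce
        rw [q1 i hi, q1 i' hi']
      have h3 : ((b ^ k : ℕ) : ℝ) * qe J (fun i => f i (z 0)) cl =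
          (b ^ k : ℕ) * Ep (b ^ k) Φ y := by
        rw [← eE, Finset.sum_congr rfl fun s _ => h2 s, Finset.sum_const, Finset.card_range,
          nsmul_eq_mul]
      exact mul_left_cancel₀ hNr h3
    have e3 : ∑ s ∈ Finset.range (b ^ k), qe J' (fun j => g j (z s)) cl' =
        (b ^ k : ℕ) * Ep (b ^ k) Ψ y := by
      rw [← eE]
    rw [e1, e2, e3] at h1
    have hNp : (0 : ℝ) < ((b ^ k : ℕ) : ℝ) := by exact_mod_cast hN
    refine le_of_mul_le_mul_left (h1.trans (le_of_eq ?_)) hNp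
    rw [hbk]
    field_simp
  have h1 : ∀ l : ℝ, 0 < l → I (Ep (b ^ k) (fun z => ∑ e ∈ E, f e.1 z * g e.2 z)) ≤
      l * (I Φ / (2 * b)) + (I Ψ / 2) / l := by
    intro l hl
    have pE := ph.Ep hN
    have p1 := (pΦ.Ep hN).smul (c := l / (2 * b)) (by positivity)
    have p2 := (pΨ.Ep hN).smul (c := 1 / (2 * l)) (by positivity)
    calc I (Ep (b ^ k) (fun z => ∑ e ∈ E, f e.1 z * g e.2 z))
        ≤ I (fun y => l / (2 * b) * Ep (b ^ k) Φ y + 1 / (2 * l) * Ep (b ^ k) Ψ y) :=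
          I_mono pE.integrableOn (p1.add p2).integrableOn fun y => key l hl y
      _ = l / (2 * b) * I Φ + 1 / (2 * l) * I Ψ := by
          rw [I_add p1.integrableOn p2.integrableOn, I_smul, I_smul, I_Ep hN pΦ.integrableOn,
            I_Ep hN pΨ.integrableOn]
      _ = _ := by field_simp
  refine (le_two_sqrt (by positivity) (by positivity) h1).trans (le_of_eq ?_)
  have e1 : I Φ / (2 * b) * (I Ψ / 2) = I Φ * I Ψ / b / 2 ^ 2 := by
    field_simp
  rw [e1, Real.sqrt_div' _ (by positivity), Real.sqrt_sq (by norm_num)]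
  ring

end circle

end Crest.Agent.R4P.AddLift7
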