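import Crest.Agent.R4P.AddNode_7
import Crest.Agent.R4P.AddLB_7

/-!
R4 (S0004), POWERS, module dseR (D4), helper7: **the labelled in-world pairs across an add node**, bad
primes: only the items of adjacent exponents are charged `b^(-1/7)`.
-/

set_option autoImplicit false
set_option linter.unusedSectionVars false
set_option linter.unusedVariables false

open MeasureTheory Filter

namespace Crest.Agent.R4P.AddNode7

open Crest.Agent.R4P.Cnt588 Crest.Agent.R4P.Item758 Crest.Agent.R4P.W363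
open Crest.Agent.R4P.Data758 Crest.Agent.R4P.OmSt532 Crest.Agent.R4P.OmData532
open Crest.Agent.R4P.LfDat734 Crest.Agent.R4P.WPex189
open Crest.Agent.R4P.Bld532 (NS All NodeOk Bk plk dv nd)
open Crest.Agent.R4P.Step588 (NDt ND1 ctx_NDt uq_lt)
open Crest.Agent.R4P.WalkIT579 (tp isL nodeOk_hi top_of_nodeOk)
open Crest.Agent.R4P.Skel189 Crest.Agent.R4P.RseSt23 Crest.Agent.R4P.RseNd23
open Crest.Agent.R4.Soft104 (w)
open Crest.Agent.R4.LF363 (Lab)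
open Crest.Agent.R4.HVW560 (cof wt)
open Crest.Agent.R4.AvgItem710 (Dp mul_cof mul_cof' cof_pos cof_coprime exists_of_I_ne)
open Crest.Agent.R4P.AvgItem710
open Crest.Agent.R4.ClosL758 Crest.Agent.R4.ClosR758 Crest.Agent.R4.Tour104 Crest.Agent.R4.Fam464
open Crest.Agent.R4.Tour758 Crest.Agent.R4.Avg758
open Crest.Agent.R4P.PairR23 (iF_rel_le)
open Crest.Agent.R4.Lift223 (qe cen cen_add cen_den floor_eq_of_window)
open Crest.Agent.R4

open Crest.Agent.R4.ClsS (eps1)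

/-! ### arithmetic -/

/-- `b^s` divides the cofactor -/
lemma pow_dvd_cof {b i s W W' : ℕ} (hb : b.Prime) (hW0 : 0 < W) (hW'0 : 0 < W')
    (hW : b ^ (i + s) ∣ W) (hW' : ¬ b ^ (i + 1) ∣ W') : b ^ s ∣ cof W W' := by
  have hg0 : 0 < Nat.gcd W W' := Nat.gcd_pos_of_pos_left _ hW0
  have hc0 : 0 < cof W W' := cof_pos hW0
  have h1 : cof W W' * Nat.gcd W W' = W := Nat.div_mul_cancel (Nat.gcd_dvd_left _ _)
  have h2 : W.factorization b = (cof W W').factorization b + (Nat.gcd W W').factorization b := by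
    conv_lhs => rw [← h1]
    rw [Nat.factorization_mul hc0.ne' hg0.ne']
    rfl
  have h3 : i + s ≤ W.factorization b := (hb.pow_dvd_iff_le_factorization hW0.ne').1 hW
  have h4 : W'.factorization b < i + 1 := by
    by_contra hc
    push Not at hc
    exact hW' ((hb.pow_dvd_iff_le_factorization hW'0.ne').2 hc)
  have h5 : (Nat.gcd W W').factorization b ≤ W'.factorization b :=
    (Nat.factorization_le_iff_dvd hg0.ne' hW'0.ne').2 (Nat.gcd_dvd_right _ _) b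
  exact (hb.pow_dvd_iff_le_factorization hc0.ne').2 (by omega)

/-- exponents above `A` -/
lemma fac_div {b A q : ℕ} (hA : A ∣ q) (hq : 0 < q / A) :
    q.factorization b = A.factorization b + (q / A).factorization b := by
  have hA0 : A ≠ 0 := by
    rintro rfl
    simp at hq
  have h1 : A * (q / A) = q := Nat.mul_div_cancel' hA
  conv_lhs => rw [← h1]
  rw [Nat.factorization_mul hA0 hq.ne']
  rfl

/-- `q` has the extreme exponent of its child -/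
def adj (b : ℕ) (t₁ t₀ : IT) (q : ℕ) : Prop :=
  (q ∈ t₁.items ∧ ∀ r ∈ t₁.items, q.factorization b ≤ r.factorization b) ∨
  (q ∈ t₀.items ∧ ∀ r ∈ t₀.items, r.factorization b ≤ q.factorization b)

/-- a pair of items which are not both extreme: the exponents differ by two -/
lemma sq_dvd_of_not_adj {b A k q r : ℕ} {t₁ t₀ : IT} (hb : b.Prime) (hd : Disjoint t₁.items t₀.items)
    (hA : ∀ q ∈ t₁.items ∪ t₀.items, A ∣ q ∧ 0 < q / A)
    (hm1 : ∀ q ∈ t₁.items, b ^ k ∣ q / A) (hm0 : ∀ q ∈ t₀.items, ¬ b ^ k ∣ q / A)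
    (hq : q ∈ t₁.items) (hr : r ∈ t₀.items) (h : ¬ (adj b t₁ t₀ q ∧ adj b t₁ t₀ r)) :
    b ^ 2 ∣ cof (q / A) (r / A) := by
  have hq1 := hA q (Finset.mem_union_left _ hq)
  have hr1 := hA r (Finset.mem_union_right _ hr)
  have fq := fac_div (b := b) hq1.1 hq1.2
  have fr := fac_div (b := b) hr1.1 hr1.2
  have lq : k ≤ (q / A).factorization b := (hb.pow_dvd_iff_le_factorization hq1.2.ne').1 (hm1 q hq)
  have lr : (r / A).factorization b < k := by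
    by_contra hc
    push Not at hc
    exact hm0 r hr ((hb.pow_dvd_iff_le_factorization hr1.2.ne').2 hc)
  by_cases h1 : adj b t₁ t₀ q
  · have h2 : ¬ adj b t₁ t₀ r := fun h2 => h ⟨h1, h2⟩
    have h3 : ∃ r' ∈ t₀.items, r.factorization b < r'.factorization b := by
      by_contra hc
      push Not at hc
      exact h2 (Or.inr ⟨hr, hc⟩)
    obtain ⟨r', hr', h4⟩ := h3
    have hr2 := hA r' (Finset.mem_union_right _ hr')
    have fr' := fac_div (b := b) hr2.1 hr2.2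
    have lr' : (r' / A).factorization b < k := by
      by_contra hc
      push Not at hc
      exact hm0 r' hr' ((hb.pow_dvd_iff_le_factorization hr2.2.ne').2 hc)
    obtain ⟨i, rfl⟩ : ∃ i, k = i + 2 := ⟨k - 2, by omega⟩
    refine pow_dvd_cof (i := i) hb hq1.2 hr1.2 (hm1 q hq) fun hc => ?_
    have := (hb.pow_dvd_iff_le_factorization hr1.2.ne').1 hc
    omega
  · have h3 : ∃ q' ∈ t₁.items, q'.factorization b < q.factorization b := by
      by_contra hc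
      push Not at hc
      exact h1 (Or.inl ⟨hq, hc⟩)
    obtain ⟨q', hq', h4⟩ := h3
    have hq2 := hA q' (Finset.mem_union_left _ hq')
    have fq' := fac_div (b := b) hq2.1 hq2.2
    have lq' : k ≤ (q' / A).factorization b := (hb.pow_dvd_iff_le_factorization hq2.2.ne').1 (hm1 q' hq')
    obtain ⟨i, rfl⟩ : ∃ i, k = i + 1 := ⟨k - 1, by omega⟩
    refine pow_dvd_cof (i := i) hb hq1.2 hr1.2 ?_ (hm0 r hr)
    exact (hb.pow_dvd_iff_le_factorization hq1.2.ne').2 (by omega)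

section tr
variable {A : ℕ}

/-- **the labelled pairs, first cofactor divisible by `b²`**, item coordinates -/
theorem ll_two' (Cl : ℝ) (hCl : 0 ≤ Cl) : ∃ b₁ : ℕ, ∀ b : ℕ, b₁ ≤ b →
    ∀ (A : ℕ) (θ : ℝ) (S₁ S₀ : Finset ℕ) (E : Finset (ℕ × ℕ)) (R : ℕ → ℝ) (lab : ℕ → ℚ)
      (Λf : Finset ℚ) (F : ℕ × ℕ → ℝ),
    (∀ q ∈ S₁ ∪ S₀, A ∣ q) → Λf.card ≤ 1 → E ⊆ S₁ ×ˢ S₀ →
    (∀ q ∈ S₁ ∪ S₀, 0 < q / A ∧ 0 < R q) → (∀ q ∈ S₁ ∪ S₀, R q ≤ Cl * Real.log b * wA A R q) →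
    (∀ q ∈ S₁ ∪ S₀, Lab θ (R q) (lab q) ∨ (lab q ∈ Λf ∧ (b:ℝ)⁻¹ ≤ R q)) →
    (∀ e ∈ E, F e ≤ 2 * ((R e.1 * R e.2) / DA A R e)) →
    (∀ e ∈ E, 0 < F e → lab e.1 ≠ lab e.2 ∧ (b:ℝ) ≤ (LL207.Zc (lab e.1) (lab e.2) : ℝ) ∧
      b ^ 2 ∣ cof (e.1 / A) (e.2 / A) ∧
      ∃ n m : ℤ, ((n:ℝ) + lab e.1) * (cof (e.2 / A) (e.1 / A) : ℕ) =
        (m + lab e.2) * (cof (e.1 / A) (e.2 / A) : ℕ)) →
    ∑ e ∈ E, F e ≤ (b:ℝ) ^ (-(13/25):ℝ) *
      ((∑ q ∈ S₁, wA A R q) * ∑ q ∈ S₀, wA A R q)^(1/2+LL207.e1) := by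
  obtain ⟨b₁, H⟩ := AddLB7.ll_two Cl hCl
  refine ⟨b₁, fun b hb A θ S₁ S₀ E R lab Λf F hA hΛ hE hT hL hlab hF hex => ?_⟩
  have hA1 : ∀ q ∈ S₁, A ∣ q := fun q hq => hA q (Finset.mem_union_left _ hq)
  have hA0 : ∀ q ∈ S₀, A ∣ q := fun q hq => hA q (Finset.mem_union_right _ hq)
  have hEE : E ⊆ (S₁ ∪ S₀) ×ˢ (S₁ ∪ S₀) := fun e he => by
    obtain ⟨m1, m2⟩ := Finset.mem_product.1 (hE he)
    exact Finset.mem_product.2 ⟨Finset.mem_union_left _ m1, Finset.mem_union_right _ m2⟩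
  have key := H b hb θ (S₁.image (· / A)) (S₀.image (· / A))
    (E.image fun e => (e.1 / A, e.2 / A))
    (fun v => R (A * v)) (fun v => lab (A * v)) Λf (fun e => F (A * e.1, A * e.2)) hΛ
    (sub_tr2 hE)
    (fun v hv => by
      rw [← image_union] at hv
      obtain ⟨q, hq, rfl⟩ := Finset.mem_image.1 hv
      have h1 := hT q hq
      exact ⟨h1.1, by rw [Nat.mul_div_cancel' (hA q hq)]; exact h1.2⟩)
    (fun v hv => by
      rw [← image_union] at hv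
      obtain ⟨q, hq, rfl⟩ := Finset.mem_image.1 hv
      have h1 := hL q hq
      rw [wt_tr A R (hA q hq)]
      exact (R_tr A R (hA q hq)).le.trans h1)
    (fun v hv => by
      rw [← image_union] at hv
      obtain ⟨q, hq, rfl⟩ := Finset.mem_image.1 hv
      simp only [Nat.mul_div_cancel' (hA q hq)]
      exact hlab q hq)
    (fun x hx => by
      obtain ⟨e, he, rfl⟩ := Finset.mem_image.1 hx
      obtain ⟨a1, a2⟩ := Finset.mem_product.1 (hEE he)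
      have d1 := hA _ a1
      have d2 := hA _ a2
      have h1 := hF e he
      rw [DP_eq A R d1 d2]
      simp only [Nat.mul_div_cancel' d1, Nat.mul_div_cancel' d2]
      exact h1)
    (fun x hx h0 => by
      obtain ⟨e, he, rfl⟩ := Finset.mem_image.1 hx
      obtain ⟨a1, a2⟩ := Finset.mem_product.1 (hEE he)
      have d1 := hA _ a1
      have d2 := hA _ a2
      simp only [Nat.mul_div_cancel' d1, Nat.mul_div_cancel' d2] at h0 ⊢
      exact hex e he h0)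
  rw [sum_tr2 hA hEE, sum_wA hA1, sum_wA hA0] at key
  have e1 : ∑ e ∈ E, F e = ∑ e ∈ E, F (A * (e.1 / A), A * (e.2 / A)) := by
    refine Finset.sum_congr rfl fun e he => ?_
    obtain ⟨a1, a2⟩ := Finset.mem_product.1 (hEE he)
    rw [Nat.mul_div_cancel' (hA _ a1), Nat.mul_div_cancel' (hA _ a2)]
  rw [e1]
  exact key

end tr

section ctx
variable {N : Skel189.Num} {γ : ℝ} {p0 P₀ : ℕ} {X : Ctx N γ p0 P₀} {u : NS} {b : ℕ} {t₁ t₀ : IT}

open Classical in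
/-- the alive items with an extreme exponent -/
noncomputable def alJ (X : Ctx N γ p0 P₀) (b : ℕ) (t₁ t₀ : IT) (A : Finset X.c.Lam) : Finset ℕ :=
  (al X (.add b t₁ t₀) A).filter (adj b t₁ t₀)

open Classical in
set_option maxHeartbeats 1000000 in
/-- **the labelled pairs of one world across an add node**, refined charge of the bad primes -/
theorem lab_add2 (N : Skel189.Num) : ∃ p₁ : ℕ, ∀ p0 ≥ p₁, ∀ (γ : ℝ) (P₀ : ℕ), 2 ≤ P₀ →
    ∀ X : Ctx N γ p0 P₀, RseH X → X.c.d1 * Kc X.S ≤ 1 → ∀ (Y : Finset (ℕ × ℕ × Finset ℕ))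
      (u : NS) (b : ℕ) (t₁ t₀ : IT), NF X u (.add b t₁ t₀) → ∀ A : Finset X.c.Lam,
      Q (DL X Y b) (rv A (Uw X Y u t₁)) (rv A (Uw X Y u t₀)) ≤
        Real.sqrt (Q (Dr ((X.c.D.par Y).rho b)) (rv A (Uw X Y u t₁)) (rv A (Uw X Y u t₁)) *
          Q (Dr ((X.c.D.par Y).rho b)) (rv A (Uw X Y u t₀)) (rv A (Uw X Y u t₀)) / b) +
        (if BadN X u (.add b t₁ t₀) b then
          (b:ℝ) ^ (-(1/7):ℝ) * (u.c * ∑ q ∈ alJ X b t₁ t₀ A, w X.ψ q)
        else Real.exp (-((b:ℝ) ^ (1/50:ℝ))) * (u.c * ∑ q ∈ al X (.add b t₁ t₀) A, w X.ψ q)) +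
        4 * (2 * Step588.CT * Real.log b) / Real.sqrt b *
          Real.sqrt ((u.c * ∑ q ∈ al X t₁ A, w X.ψ q) * (u.c * ∑ q ∈ al X t₀ A, w X.ψ q)) +
        (b:ℝ) ^ (-(13/25):ℝ) *
          ((u.c * ∑ q ∈ al X t₁ A, w X.ψ q) * (u.c * ∑ q ∈ al X t₀ A, w X.ψ q))^(1/2+LL207.e1) := by
  have hc2 := N.hc2
  have hCT := Step588.CT_pos
  obtain ⟨p1, h1⟩ := alive_facts N
  obtain ⟨p2, h2⟩ := ll_two' (2 * Step588.CT) (by positivity)
  obtain ⟨p4, h4⟩ := lab_add N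
  obtain ⟨p3, h3⟩ := ll_bad' (2 * Step588.CT) N.c2 (by positivity) hc2
  obtain ⟨p5, h5⟩ := num_p (N.c2 + 2)
  refine ⟨p1 + p2 + p3 + p4 + p5 + 2, fun p0 hp0 γ P₀ hP X hX hd1 Y u b t₁ t₀ hN A => ?_⟩
  have hn1 : 0 ≤ u.c * ∑ q ∈ al X t₁ A, w X.ψ q :=
    mul_nonneg hN.c0.le (Finset.sum_nonneg fun q _ => X.hW q)
  have hn0 : 0 ≤ u.c * ∑ q ∈ al X t₀ A, w X.ψ q :=
    mul_nonneg hN.c0.le (Finset.sum_nonneg fun q _ => X.hW q)
  by_cases hbad : BadN X u (.add b t₁ t₀) b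
  swap
  · have h6 := h4 p0 (by omega) γ P₀ hP X hX hd1 Y u b t₁ t₀ hN A
    rw [if_neg hbad] at h6 ⊢
    have h7 : 0 ≤ (b:ℝ) ^ (-(13/25):ℝ) *
          ((u.c * ∑ q ∈ al X t₁ A, w X.ψ q) * (u.c * ∑ q ∈ al X t₀ A, w X.ψ q))^(1/2+LL207.e1) := by
      positivity
    linarith
  rw [if_pos hbad]
  have h := hN.nd
  have hl : ¬ isL (IT.add b t₁ t₀) := fun h => h
  obtain ⟨k1, k2, k3, k4⟩ := nodeOk_hi h.self.node hl
  have k2' : p0 < b := k2
  have hbt : b ≤ top X.S := (le_of_lt k3).trans hN.lvl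
  obtain ⟨n1, n2, n3, n4, n5⟩ := h5 b (by omega)
  have hpR : (0:ℝ) < b := by exact_mod_cast (by omega : 0 < b)
  have hpR1 : (1:ℝ) ≤ b := by exact_mod_cast (by omega : 1 ≤ b)
  have hlam := hX.lam b k2' hbt
  have hthr := hX.thr b k2'
  obtain ⟨hbp, -, -, -, -, ⟨k, t', hk, -, e1, e0, -⟩, -⟩ := h.self.node
  have hm1 : ∀ q ∈ t₁.items, b ^ k ∣ q / u.A := fun q hq => by
    rw [e1] at hq
    exact (Bld532.mem_dv.1 hq).2
  have hm0 : ∀ q ∈ t₀.items, ¬ b ^ k ∣ q / u.A := fun q hq => by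
    rw [e0] at hq
    exact (Bld532.mem_nd.1 hq).2
  set T : Finset ℕ := al X (.add b t₁ t₀) A with hT
  set T1 : Finset ℕ := al X t₁ A with hT1
  set T0 : Finset ℕ := al X t₀ A with hT0
  have hTu : T = T1 ∪ T0 := by
    rw [hT, hT1, hT0]
    unfold al
    exact Finset.filter_union _ _ _
  have hTm : ∀ q ∈ T, q ∈ (IT.add b t₁ t₀).items ∧ q ∈ X.S' := fun q hq => by
    rw [hT] at hq
    unfold al at hq
    obtain ⟨a1, a2⟩ := Finset.mem_filter.1 hq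
    exact ⟨a1, a2.1⟩
  have hTF : ∀ q ∈ T, AlF X u (.add b t₁ t₀) q := fun q hq =>
    h1 p0 (by omega) γ P₀ hP X u _ hN hl q (hTm q hq).1 (hTm q hq).2
  have hT1T : T1 ⊆ T := by rw [hTu]; exact Finset.subset_union_left
  have hT0T : T0 ⊆ T := by rw [hTu]; exact Finset.subset_union_right
  -- masses
  have hwA0 : ∀ q ∈ T, 0 ≤ wA u.A (RB X u) q := fun q hq => by
    unfold wA
    have := (hTF q hq).R0.le
    positivity
  have hmass : ∀ T' ⊆ T, ∑ q ∈ T', wA u.A (RB X u) q ≤ u.c * ∑ q ∈ T', w X.ψ q := by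
    intro T' hT'
    rw [Finset.mul_sum]
    exact Finset.sum_le_sum fun q hq => (hTF q (hT' hq)).wle
  have hM2 : ∑ q ∈ T, wA u.A (RB X u) q ≤ Real.log b ^ N.c2 := by
    refine (hmass T subset_rfl).trans (le_trans ?_ k1)
    refine mul_le_mul_of_nonneg_left ?_ hN.c0.le
    unfold Ws
    refine Finset.sum_le_sum_of_subset_of_nonneg (fun q hq => (hTm q hq).1) fun q _ _ => X.hW q
  -- labelled items
  set stt : ℕ → Option ℚ := fun q => stq X b q with hstt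
  set TL : Finset ℕ := T.filter fun q => (stt q).isSome = true with hTL
  set S1 : Finset ℕ := T1.filter fun q => (stt q).isSome = true with hS1
  set S0 : Finset ℕ := T0.filter fun q => (stt q).isSome = true with hS0
  have hS10 : S1 ∪ S0 = TL := by
    rw [hS1, hS0, hTL, hTu, Finset.filter_union]
  have hTLT : TL ⊆ T := Finset.filter_subset _ _
  have hS1T : S1 ⊆ T1 := Finset.filter_subset _ _
  have hS0T : S0 ⊆ T0 := Finset.filter_subset _ _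
  -- the pairs
  set P : Finset (X.c.Lam × X.c.Lam) := (DL X Y b).filter fun x => ¬ ¬ b ∣ (labB X u b x.2.1.1).den
    with hP'
  have hPD : P ⊆ DL X Y b := Finset.filter_subset _ _
  have hsplit : Q (DL X Y b) (rv A (Uw X Y u t₁)) (rv A (Uw X Y u t₀)) =
      Q ((DL X Y b).filter fun x => ¬ b ∣ (labB X u b x.2.1.1).den) (rv A (Uw X Y u t₁))
        (rv A (Uw X Y u t₀)) + Q P (rv A (Uw X Y u t₁)) (rv A (Uw X Y u t₀)) := by
    unfold Q
    rw [hP']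
    exact (Finset.sum_filter_add_sum_filter_not _ _ _).symm
  have hlift := lift_add h hbt hlam hd1 Y A
  set D := X.c.D.par Y with hD
  set F : ℕ × ℕ → ℝ := fun e => D.iF P (rv A (Uw X Y u t₁)) (rv A (Uw X Y u t₀)) e with hF
  set E : Finset (ℕ × ℕ) := D.PE P (rv A (Uw X Y u t₁)) (rv A (Uw X Y u t₀)) with hE
  have hQE : Q P (rv A (Uw X Y u t₁)) (rv A (Uw X Y u t₀)) = ∑ e ∈ E, F e := D.Q_eq _ _ _
  -- facts of the pairs
  have hfact : ∀ e ∈ E, e.1 ∈ S1 ∧ e.2 ∈ S0 ∧ ret X.c.t b e.1 = ret X.c.t b e.2 ∧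
      b ∣ (labB X u b e.2).den ∧ ∃ a a' : ℤ,
        ((a:ℝ) + ((labB X u b e.1 : ℚ) : ℝ)) * (cof (e.2 / u.A) (e.1 / u.A) : ℕ) =
        (a' + ((labB X u b e.2 : ℚ) : ℝ)) * (cof (e.1 / u.A) (e.2 / u.A) : ℕ) := by
    intro e he
    obtain ⟨j, j', hR, hj, hj', rfl, i1, i0, s1, s0, hret, ⟨σ, hσ⟩, ⟨σ', hσ'⟩, a, a', hex⟩ :=
      PE_add h hbt hlam hPD he
    have hden := not_not.1 (Finset.mem_filter.1 hR).2
    refine ⟨?_, ?_, hret, hden, a, a', hex⟩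
    · refine Finset.mem_filter.2 ⟨?_, ?_⟩
      · rw [hT1]; unfold al
        exact Finset.mem_filter.2 ⟨i1, s1, j, hj, rfl⟩
      · show (stq X b j.1.1).isSome = true
        rw [hσ]; rfl
    · refine Finset.mem_filter.2 ⟨?_, ?_⟩
      · rw [hT0]; unfold al
        exact Finset.mem_filter.2 ⟨i0, s0, j', hj', rfl⟩
      · show (stq X b j'.1.1).isSome = true
        rw [hσ']; rfl
  have hit1 : ∀ q ∈ T1, q ∈ t₁.items := fun q hq => by
    rw [hT1] at hq; unfold al at hq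
    exact (Finset.mem_filter.1 hq).1
  have hit0 : ∀ q ∈ T0, q ∈ t₀.items := fun q hq => by
    rw [hT0] at hq; unfold al at hq
    exact (Finset.mem_filter.1 hq).1
  have hZ : ∀ e ∈ E, labB X u b e.1 ≠ labB X u b e.2 ∧
      b ≤ LL207.Zc (labB X u b e.1) (labB X u b e.2) ∧ b ≤ cof (e.1 / u.A) (e.2 / u.A) := by
    intro e he
    obtain ⟨f1, f0, -, hden, a, a', hex⟩ := hfact e he
    have g1 := hS1T f1
    have g0 := hS0T f0
    have q1 := hTF _ (hT1T g1)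
    have hcop : Nat.Coprime (cof (e.1 / u.A) (e.2 / u.A)) (cof (e.2 / u.A) (e.1 / u.A)) :=
      cof_coprime q1.pos
    have hbd := b_dvd_cof hbp (hm1 _ (hit1 _ g1)) (hm0 _ (hit0 _ g0))
    have hz := RseAr23.Zc_of_exact hbp hbd hcop (labB X u b e.1) (labB X u b e.2) hex hden
    refine ⟨hz.2, hz.1, Nat.le_of_dvd ?_ hbd⟩
    exact Nat.div_pos (Nat.le_of_dvd q1.pos (Nat.gcd_dvd_left _ _))
      (Nat.gcd_pos_of_pos_left _ q1.pos)
  have hFle : ∀ e ∈ E, F e ≤ 2 * ((RB X u e.1 * RB X u e.2) / DA u.A (RB X u) e) := by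
    intro e he
    obtain ⟨f1, f0, -⟩ := hfact e he
    exact F_add h hbt hlam hPD (hit1 _ (hS1T f1)) (hit0 _ (hS0T f0))
  -- labels
  have hK : ∀ s : ℕ, tp (IT.add b t₁ t₀) < s → Real.log b ^ (N.c2 + 2) ≤ s * X.c.wp.thr s := by
    intro s hs
    have hs' : b < s := hs
    have hsR : (0:ℝ) < s := by
      have : 0 < s := by omega
      exact_mod_cast this
    have hps : (b:ℝ) ≤ s := by exact_mod_cast hs'.le
    have h6 := hX.thr s (k2'.trans hs')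
    have h7 : (s:ℝ) ^ (1/2:ℝ) = s * (s:ℝ) ^ (-(1/2:ℝ)) := by
      conv_rhs => rw [← Real.rpow_one (s:ℝ), ← Real.rpow_mul hsR.le, ← Real.rpow_add hsR]
      norm_num
    calc Real.log b ^ (N.c2 + 2) ≤ (b:ℝ) ^ (1/2:ℝ) := n5
      _ ≤ (s:ℝ) ^ (1/2:ℝ) := Real.rpow_le_rpow hpR.le hps (by norm_num)
      _ = s * (s:ℝ) ^ (-(1/2:ℝ)) := h7
      _ ≤ s * X.c.wp.thr s := mul_le_mul_of_nonneg_left h6 hsR.le
  have hthr0 : 0 < X.c.wp.thr b := (Real.rpow_pos_of_pos hpR _).trans_le hthr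
  have hK4 : 32 * (Real.log b ^ (N.c2 + 2)) ^ 4 <
      (tp (IT.add b t₁ t₀) : ℝ) ^ 2 * X.c.wp.thr (tp (IT.add b t₁ t₀)) ^ 2 := by
    show 32 * (Real.log b ^ (N.c2 + 2)) ^ 4 < (b : ℝ) ^ 2 * X.c.wp.thr b ^ 2
    refine n4.trans_le ?_
    have h7 : ((b:ℝ) ^ (-(1/2:ℝ))) ^ 2 ≤ X.c.wp.thr b ^ 2 :=
      pow_le_pow_left₀ (Real.rpow_nonneg hpR.le _) hthr 2
    have h8 : ((b:ℝ) ^ (-(1/2:ℝ))) ^ 2 = (b:ℝ)⁻¹ := by
      rw [← Real.rpow_natCast, ← Real.rpow_mul hpR.le, ← Real.rpow_neg_one]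
      norm_num
    rw [h8] at h7
    calc (b:ℝ) = (b:ℝ) ^ 2 * (b:ℝ)⁻¹ := by field_simp
      _ ≤ (b:ℝ) ^ 2 * X.c.wp.thr b ^ 2 := mul_le_mul_of_nonneg_left h7 (sq_nonneg _)
  obtain ⟨Λf, hΛ, hlab⟩ := lab_nodeB h X.tOk hl (wp := X.c.wp) (wpL := X.c.wpL) (lam := X.c.lam)
    (lv := X.c.lv) (γ := X.c.γ) (r := X.c.r) hK hthr0 hK4
  have hLAB : ∀ q ∈ TL, Lab (u.B * X.c.γ) (RB X u q) (labB X u b q) ∨
      (labB X u b q ∈ Λf ∧ (b:ℝ)⁻¹ ≤ RB X u q) := by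
    intro q hq
    obtain ⟨hq1, hq2⟩ := Finset.mem_filter.1 hq
    have hf := hTF q hq1
    obtain ⟨σ, hσ⟩ := Option.isSome_iff_exists.1 hq2
    have hσ' : stq X b q = some σ := hσ
    have hR : RB X u q = u.B * X.c.r q := by
      show (u.B:ℝ) * X.c.rr q = _
      rw [hf.rr]
    rw [labB_some hσ', hR]
    rcases hlab q (hTm q hq1).1 hf.hi σ hσ' with h6 | h6
    · exact Or.inl h6
    · refine Or.inr ⟨h6.1, le_trans ?_ h6.2.le⟩
      refine le_trans ?_ hthr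
      rw [← Real.rpow_neg_one]
      exact Real.rpow_le_rpow_of_exponent_le hpR1 (by norm_num)
  have hsubM : ∑ q ∈ TL, wA u.A (RB X u) q ≤ ∑ q ∈ T, wA u.A (RB X u) q :=
    Finset.sum_le_sum_of_subset_of_nonneg hTLT fun q hq _ => hwA0 q hq
  have hES : E ⊆ S1 ×ˢ S0 := fun e he =>
    Finset.mem_product.2 ⟨(hfact e he).1, (hfact e he).2.1⟩
  have hEE : E ⊆ TL ×ˢ TL := fun e he => by
    rw [← hS10]
    exact Finset.mem_product.2 ⟨Finset.mem_union_left _ (hfact e he).1,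
      Finset.mem_union_right _ (hfact e he).2.1⟩
  -- extreme pairs
  set EJ : Finset (ℕ × ℕ) := E.filter fun e => adj b t₁ t₀ e.1 ∧ adj b t₁ t₀ e.2 with hEJ
  set EN : Finset (ℕ × ℕ) := E.filter fun e => ¬ (adj b t₁ t₀ e.1 ∧ adj b t₁ t₀ e.2) with hEN
  set TJ : Finset ℕ := TL.filter (adj b t₁ t₀) with hTJ
  have hTJT : TJ ⊆ TL := Finset.filter_subset _ _
  have hsE : ∑ e ∈ E, F e = ∑ e ∈ EJ, F e + ∑ e ∈ EN, F e :=
    (Finset.sum_filter_add_sum_filter_not _ _ _).symm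
  have hmJ : ∑ q ∈ TJ, wA u.A (RB X u) q ≤ u.c * ∑ q ∈ alJ X b t₁ t₀ A, w X.ψ q := by
    refine (hmass TJ (hTJT.trans hTLT)).trans (mul_le_mul_of_nonneg_left ?_ hN.c0.le)
    refine Finset.sum_le_sum_of_subset_of_nonneg (fun q hq => ?_) fun q _ _ => X.hW q
    obtain ⟨g1, g2⟩ := Finset.mem_filter.1 hq
    unfold alJ
    exact Finset.mem_filter.2 ⟨hTLT g1, g2⟩
  have kJ := h3 b (by omega) u.A (u.B * X.c.γ) TJ EJ (RB X u) (labB X u b) Λf F
    (fun q hq => (hTF q (hTLT (hTJT hq))).dvd) hΛ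
    (fun e he => by
      obtain ⟨g1, g2, g3⟩ := Finset.mem_filter.1 he
      obtain ⟨a1, a2⟩ := Finset.mem_product.1 (hEE g1)
      exact Finset.mem_product.2 ⟨Finset.mem_filter.2 ⟨a1, g2⟩, Finset.mem_filter.2 ⟨a2, g3⟩⟩)
    (fun q hq => ⟨(hTF q (hTLT (hTJT hq))).pos, (hTF q (hTLT (hTJT hq))).R0⟩)
    (fun q hq => (hTF q (hTLT (hTJT hq))).lo)
    ((Finset.sum_le_sum_of_subset_of_nonneg hTJT fun q hq _ => hwA0 q (hTLT hq)).trans
      (hsubM.trans hM2))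
    (fun q hq => hLAB q (hTJT hq)) (fun e he => hFle e (Finset.mem_filter.1 he).1)
    (fun e he _ => by
      have he' := (Finset.mem_filter.1 he).1
      obtain ⟨z1, z2, z3⟩ := hZ e he'
      obtain ⟨-, -, -, -, hex⟩ := hfact e he'
      exact ⟨z1, by exact_mod_cast z2, hex⟩)
  have kN := h2 b (by omega) u.A (u.B * X.c.γ) S1 S0 EN (RB X u) (labB X u b) Λf F
    (fun q hq => (hTF q (hTLT (hS10 ▸ hq))).dvd) hΛ
    ((Finset.filter_subset _ _).trans hES)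
    (fun q hq => ⟨(hTF q (hTLT (hS10 ▸ hq))).pos, (hTF q (hTLT (hS10 ▸ hq))).R0⟩)
    (fun q hq => (hTF q (hTLT (hS10 ▸ hq))).lo)
    (fun q hq => hLAB q (hS10 ▸ hq)) (fun e he => hFle e (Finset.mem_filter.1 he).1)
    (fun e he _ => by
      obtain ⟨he', hna⟩ := Finset.mem_filter.1 he
      obtain ⟨z1, z2, z3⟩ := hZ e he'
      obtain ⟨f1, f0, -, -, hex⟩ := hfact e he'
      refine ⟨z1, by exact_mod_cast z2, ?_, hex⟩
      exact sq_dvd_of_not_adj hbp h.fit.1 (fun q hq => ⟨h.bk.dvd q hq, Nat.pos_of_ne_zero (h.div_ne hq)⟩)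
        hm1 hm0 (hit1 _ (hS1T f1)) (hit0 _ (hS0T f0)) hna)
  rw [hsplit, hQE, hsE]
  have i1 : ∑ q ∈ S1, wA u.A (RB X u) q ≤ u.c * ∑ q ∈ T1, w X.ψ q :=
    (Finset.sum_le_sum_of_subset_of_nonneg hS1T fun q hq _ => hwA0 q (hT1T hq)).trans
      (hmass T1 hT1T)
  have i0 : ∑ q ∈ S0, wA u.A (RB X u) q ≤ u.c * ∑ q ∈ T0, w X.ψ q :=
    (Finset.sum_le_sum_of_subset_of_nonneg hS0T fun q hq _ => hwA0 q (hT0T hq)).trans
      (hmass T0 hT0T)
  have j1 : 0 ≤ ∑ q ∈ S1, wA u.A (RB X u) q :=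
    Finset.sum_nonneg fun q hq => hwA0 q (hT1T (hS1T hq))
  have j0 : 0 ≤ ∑ q ∈ S0, wA u.A (RB X u) q :=
    Finset.sum_nonneg fun q hq => hwA0 q (hT0T (hS0T hq))
  have k1' := mul_le_mul_of_nonneg_left hmJ (Real.rpow_nonneg hpR.le (-(1/7):ℝ))
  have k2'' : (b:ℝ) ^ (-(13/25):ℝ) *
      ((∑ q ∈ S1, wA u.A (RB X u) q) * ∑ q ∈ S0, wA u.A (RB X u) q)^(1/2+LL207.e1) ≤
      (b:ℝ) ^ (-(13/25):ℝ) *
      ((u.c * ∑ q ∈ T1, w X.ψ q) * (u.c * ∑ q ∈ T0, w X.ψ q))^(1/2+LL207.e1) := by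
    refine mul_le_mul_of_nonneg_left (Real.rpow_le_rpow (mul_nonneg j1 j0)
      (mul_le_mul i1 i0 j0 (j1.trans i1)) (by unfold LL207.e1; norm_num)) (Real.rpow_nonneg hpR.le _)
  have hlog : 0 ≤ Real.log (b:ℝ) := by linarith
  have k3' : 0 ≤ 4 * (2 * Step588.CT * Real.log b) / Real.sqrt b *
      Real.sqrt ((u.c * ∑ q ∈ T1, w X.ψ q) * (u.c * ∑ q ∈ T0, w X.ψ q)) := by positivity
  have k4' := kJ.trans k1'
  have k5' := kN.trans k2''
  linarith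

end ctx

end Crest.Agent.R4P.AddNode7
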