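import Crest.Agent.R4P.RseC2_23

/-!
R4 (S0004), powers pass, helper23: **the part `rseR` of the node errors of a context**.

* `mass_al` : the mass of the alive items of an item-level population is at most its raw mass;
* `rseR_eq` : `rseR` of a node in terms of the pairs of its column;
* `part_rse` : `Part X j₀ Hb (fun u τ A => rseR A (X.g u τ)) κ`.
-/

set_option autoImplicit false
set_option linter.unusedSectionVars false
set_option linter.unusedVariables false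

open MeasureTheory Filter

namespace Crest.Agent.R4P.RseNd23

open Crest.Agent.R4P.Cnt588 Crest.Agent.R4P.Item758 Crest.Agent.R4P.W363
open Crest.Agent.R4P.Data758
open Crest.Agent.R4P.Bld532 (NS All NodeOk Bk)
open Crest.Agent.R4P.Step588 (NDt ND1 ctx_NDt uq_lt)
open Crest.Agent.R4P.WalkIT579 (tp isL nodeOk_hi top_of_nodeOk)
open Crest.Agent.R4P.Skel189 Crest.Agent.R4P.RseSt23
open Crest.Agent.R4P.AvgItem710
open Crest.Agent.R4.ClosL758 Crest.Agent.R4.ClosR758 Crest.Agent.R4.Tour104 Crest.Agent.R4.Fam464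
open Crest.Agent.R4.Tour758 Crest.Agent.R4.Avg758 Crest.Agent.R4.ClosG758
open Crest.Agent.R4P.Frame758
open Crest.Agent.R4.Soft104 (w)
open Crest.Agent.R4.Item758 (IL AdS AdI)
open Crest.Agent.R4

section ctx
variable {N : Skel189.Num} {γ : ℝ} {p0 P₀ : ℕ}

/-- **the mass of the alive items of an item-level population** -/
theorem mass_al {X : Ctx N γ p0 P₀} {u : NS} {τ : IT} (hc : 0 ≤ u.c) {A : Finset X.c.Lam}
    (hA : IL X.c.D.it A) :
    u.c * ∑ q ∈ al X τ A, w X.ψ q ≤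
      u.c * ∑ j ∈ A.filter (fun j => X.c.D.it j ∈ τ.items), Frame758.wt X.c.D j := by
  classical
  refine mul_le_mul_of_nonneg_left ?_ hc
  have hnn : ∀ j, 0 ≤ Frame758.wt X.c.D j := fun j => wt_nonneg X j
  have hmem : ∀ q ∈ al X τ A, q ∈ τ.items ∧ q ∈ X.S' ∧ ∃ j ∈ A, j.1.1 = q := fun q hq => by
    unfold al at hq
    obtain ⟨a1, a2, a3⟩ := Finset.mem_filter.1 hq
    exact ⟨a1, a2, a3⟩
  have h1 : ∀ q ∈ al X τ A, w X.ψ q =
      ∑ j ∈ Finset.univ.filter (fun j : X.c.Lam => j.1.1 = q), Frame758.wt X.c.D j := by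
    intro q hq
    obtain ⟨a1, a2, a3⟩ := hmem q hq
    have hqS : q ∈ X.c.S := by rw [X.hS]; exact X.prn.sub a2
    have hlen := X.ok.len hqS (X.rpos a2)
    have e1 : ∑ j ∈ Finset.univ.filter (fun j : X.c.Lam => j.1.1 = q), Frame758.wt X.c.D j =
        (∑ j ∈ Finset.univ.filter (fun j : X.c.Lam => j.1.1 = q), (X.c.D.be j - X.c.D.al j)) *
          ((q.totient : ℝ) / (q : ℝ)) := by
      rw [Finset.sum_mul]
      refine Finset.sum_congr rfl fun j hj => ?_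
      have e := (Finset.mem_filter.1 hj).2
      unfold Frame758.wt
      have e' : X.c.D.it j = q := e
      rw [e']
    rw [e1, hlen, X.hr]
    unfold R4.Soft104.w
    ring
  rw [Finset.sum_congr rfl h1, ← Finset.sum_biUnion]
  · refine Finset.sum_le_sum_of_subset_of_nonneg (fun j hj => ?_) fun j _ _ => hnn j
    obtain ⟨q, hq, hj⟩ := Finset.mem_biUnion.1 hj
    have e := (Finset.mem_filter.1 hj).2
    obtain ⟨a1, a2, j', hj', e'⟩ := hmem q hq
    refine Finset.mem_filter.2 ⟨(hA j j' (e.trans e'.symm)).2 hj', ?_⟩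
    show j.1.1 ∈ τ.items
    rw [e]; exact a1
  · intro q _ r _ hne
    rw [Function.onFun, Finset.disjoint_left]
    intro j hj hj'
    exact hne ((Finset.mem_filter.1 hj).2.symm.trans (Finset.mem_filter.1 hj').2)

/-- not an `up` node -/
def notUp : IT → Prop
  | .up _ _ _ => False
  | _ => True

/-- **`rseR` of a node** -/
theorem rseR_eq {X : Ctx N γ p0 P₀} {u : NS} {τ : IT} (h : NDt X.par (w X.ψ) X.c.t u τ)
    (hl : ¬ isL τ) (hu : notUp τ) (A : Finset X.c.Lam) :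
    rseR A (X.g u τ) = Q (RS X X.Y (tp τ)) (Uv X X.Y u τ A) (Uv X X.Y u τ A) := by
  have hv : (X.g u τ).val = fun j => ((X.c.D.par X.Y).toFT u.B u.A τ).U 1 j :=
    Par.toG_val _ h.B_pos h.fit (node_wts h X.Y)
  cases τ with
  | leaf S => exact absurd trivial hl
  | br p Sp t₁ t₀ =>
    have e : rseR A (X.g u (.br p Sp t₁ t₀)) = Q (RS X X.Y p)
      (rv A (X.g u (.br p Sp t₁ t₀)).val) (rv A (X.g u (.br p Sp t₁ t₀)).val) := rfl
    rw [e, hv]
    rfl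
  | add p t₁ t₀ =>
    have e : rseR A (X.g u (.add p t₁ t₀)) = Q (RS X X.Y p)
      (rv A (X.g u (.add p t₁ t₀)).val) (rv A (X.g u (.add p t₁ t₀)).val) := rfl
    rw [e, hv]
    rfl
  | up p Sp t => exact absurd hu (by simp [notUp])
  | pl p t =>
    have e : rseR A (X.g u (.pl p t)) = Q (RS X X.Y p)
      (rv A (X.g u (.pl p t)).val) (rv A (X.g u (.pl p t)).val) := rfl
    rw [e, hv]
    rfl
  | far p t₁ t₀ =>
    have e : rseR A (X.g u (.far p t₁ t₀)) = Q (RS X X.Y p)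
      (rv A (X.g u (.far p t₁ t₀)).val) (rv A (X.g u (.far p t₁ t₀)).val) := rfl
    rw [e, hv]
    rfl

/-- the property of the nodes -/
def PN (X : Ctx N γ p0 P₀) (κ : ℝ) (u : NS) (τ : IT) : Prop :=
  ∀ A : Finset X.c.Lam, IL X.c.D.it A → rseR A (X.g u τ) ≤
    κ * (u.c * ∑ j ∈ A.filter (fun j => X.c.D.it j ∈ τ.items), Frame758.wt X.c.D j)

lemma PN_leaf {X : Ctx N γ p0 P₀} {κ : ℝ} (hκ : 0 ≤ κ) {u : NS} (hc : 0 ≤ u.c) (S : Finset ℕ) :
    PN X κ u (.leaf S) := fun A _ => by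
  have e : rseR A (X.g u (.leaf S)) = 0 := rfl
  rw [e]
  exact mul_nonneg hκ (mul_nonneg hc (Finset.sum_nonneg fun j _ => wt_nonneg X j))

/-- all the nodes -/
theorem PN_all {X : Ctx N γ p0 P₀} {κ : ℝ} (hκ : 0 ≤ κ) : ∀ (t : IT) (u : NS),
    All (fun u τ => 0 < u.c ∧ (¬ isL τ → notUp τ → PN X κ u τ)) u t → All (PN X κ) u t := by
  intro t
  induction t with
  | leaf S => intro u h; exact PN_leaf hκ h.1.le S
  | br p Sp t₁ t₀ ih₁ ih₀ =>
    intro u h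
    exact ⟨h.1.2 (fun h => h) trivial, ih₁ _ h.2.1, ih₀ _ h.2.2⟩
  | add p t₁ t₀ ih₁ ih₀ =>
    intro u h
    exact ⟨h.1.2 (fun h => h) trivial, ih₁ _ h.2.1, ih₀ _ h.2.2⟩
  | up p Sp t ih =>
    intro u h
    have h1 := ih _ h.2
    refine ⟨?_, h1⟩
    intro A hA
    exact h1.self A hA
  | pl p t ih =>
    intro u h
    exact ⟨h.1.2 (fun h => h) trivial, ih _ h.2⟩
  | far p t₁ t₀ ih₁ ih₀ =>
    intro u h
    exact ⟨h.1.2 (fun h => h) trivial, ih₁ _ h.2.1, ih₀ _ h.2.2⟩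

/-- **the energy `rseR` at all the nodes of a context** -/
theorem ctx_rse (N : Skel189.Num) {κ : ℝ} (hκ : 0 < κ) : ∃ p₁ : ℕ, ∀ p0 ≥ p₁,
    ∀ (γ : ℝ) (P₀ : ℕ), 2 ≤ P₀ → ∀ X : Ctx N γ p0 P₀, RseH X →
      All (PN X κ) ⟨top X.S, 1, 1, 1⟩ X.c.t := by
  obtain ⟨p1, h1⟩ := ctx_NF N
  obtain ⟨p2, h2⟩ := rse_node N hκ
  refine ⟨p1 + p2, fun p0 hp0 γ P₀ hP X hX => ?_⟩
  refine PN_all hκ.le X.c.t _ (All.mono (fun u τ hN => ⟨hN.c0, fun hl hu A hA => ?_⟩)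
    (h1 p0 (by omega) γ P₀ hP X))
  rw [rseR_eq hN.nd hl hu A]
  refine (h2 p0 (by omega) γ P₀ hP X hX X.Y u τ hN hl A).trans ?_
  exact mul_le_mul_of_nonneg_left (mass_al hN.c0.le hA) hκ.le

/-- **the part `rseR` of the node errors** -/
theorem part_rse (N : Skel189.Num) {κ : ℝ} (hκ : 0 < κ) : ∃ p₁ : ℕ, ∀ p0 ≥ p₁,
    ∀ (γ : ℝ) (P₀ : ℕ), 2 ≤ P₀ → ∀ X : Ctx N γ p0 P₀, RseH X → ∀ (j₀ : X.c.Lam)
      (Hb : NS → IT → Prop), Part X j₀ Hb (fun u τ A => rseR A (X.g u τ)) κ := by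
  obtain ⟨p1, h1⟩ := ctx_rse N hκ
  refine ⟨p1, fun p0 hp0 γ P₀ hP X hX j₀ Hb => ?_⟩
  refine All.mono (fun u τ hh _ _ A hA _ => ?_)
    (((h1 p0 hp0 γ P₀ hP X hX).and (ctx_tM X j₀)).and (ctx_mumu X j₀))
  obtain ⟨⟨k1, k2⟩, k3⟩ := hh
  refine (k1 A hA.2).trans (mul_le_mul_of_nonneg_left ?_ hκ.le)
  have e : X.mu j₀ u τ A = u.c * ∑ j ∈ A.filter (fun j => X.c.D.it j ∈ τ.items),
      Frame758.wt X.c.D j := k2 A
  rw [← e]
  have := (k3 A).2
  linarith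

/-- **the hypotheses from the parameters** -/
theorem RseH.of {N : Skel189.Num} (hT : TagN N) {γ : ℝ} {p0 P₀ : ℕ} (X : Ctx N γ p0 P₀)
    (hlam : ∀ p, p0 < p → N.lam p0 X.ψ X.S p = 0)
    (hdep : ∀ p, p0 < p → p ≤ top X.S →
      2 * Real.exp (Real.log p ^ (4/5:ℝ)) ≤ 2 ^ N.dep p0 X.ψ X.S p)
    (hthr : ∀ p, p0 < p → (p:ℝ) ^ (-(1/2:ℝ)) ≤ N.thr p0 p) : RseH X where
  lam := fun p hp _ => by rw [X.lam]; exact hlam p hp
  dep := fun p hp hpt => by rw [X.dep]; exact hdep p hp hpt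
  thr := fun p hp => by rw [X.thr]; exact hthr p hp
  sep := fun p hp hpt q hq r hr hne => hT.sep X hq hr hp.le hpt hne

end ctx

end Crest.Agent.R4P.RseNd23
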