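import Crest.Agent.R4P.AddLL_7
import Crest.Agent.R4P.AddLift_7
import Crest.Agent.R4P.RseP_23

/-!
R4 (S0004), POWERS, module dseR (D4), helper7: **the labelled in-world pairs across an add node**.
-/

set_option autoImplicit false
set_option linter.unusedSectionVars false
set_option linter.unusedVariables false

open MeasureTheory Filter

namespace Crest.Agent.R4P.AddNode7

open Crest.Agent.R4P.Cnt588 Crest.Agent.R4P.Item758 Crest.Agent.R4P.W363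
open Crest.Agent.R4P.Data758 Crest.Agent.R4P.OmSt532 Crest.Agent.R4P.OmData532
open Crest.Agent.R4P.LfDat734 Crest.Agent.R4P.WPex189
open Crest.Agent.R4P.Bld532 (NS All NodeOk Bk plk dv nd)
open Crest.Agent.R4P.Step588 (NDt ND1 ctx_NDt uq_lt)
open Crest.Agent.R4P.WalkIT579 (tp isL nodeOk_hi top_of_nodeOk)
open Crest.Agent.R4P.Skel189 Crest.Agent.R4P.RseSt23 Crest.Agent.R4P.RseNd23
open Crest.Agent.R4.Soft104 (w)
open Crest.Agent.R4.LF363 (Lab)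
open Crest.Agent.R4.HVW560 (cof wt)
open Crest.Agent.R4.AvgItem710 (Dp mul_cof mul_cof' cof_pos cof_coprime exists_of_I_ne)
open Crest.Agent.R4P.AvgItem710
open Crest.Agent.R4.ClosL758 Crest.Agent.R4.ClosR758 Crest.Agent.R4.Tour104 Crest.Agent.R4.Fam464
open Crest.Agent.R4.Tour758 Crest.Agent.R4.Avg758
open Crest.Agent.R4P.PairR23 (iF_rel_le)
open Crest.Agent.R4.Lift223 (qe cen cen_add cen_den floor_eq_of_window)
open Crest.Agent.R4

/-! ### energies -/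

section gen
variable {Λ κ : Type*} [Fintype Λ] [DecidableEq Λ] [DecidableEq κ]

/-- `I (qe ..)` is the in-class energy -/
lemma I_qe {f : Λ → ℝ → ℝ} (pf : ∀ j, PB (f j)) (r : Λ → κ) :
    I (fun z => qe Finset.univ (fun i => f i z) r) = Q (Dr r) f f := by
  unfold qe Q Dr
  rw [Finset.sum_filter, ← Finset.univ_product_univ, Finset.sum_product]
  have h1 : ∀ i j : Λ, PB fun z => if r i = r j then f i z * f j z else 0 := fun i j => by
    by_cases h : r i = r j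
    · simp only [h, if_true]; exact (pf i).mul (pf j)
    · simp only [h, if_false]; exact PB.const le_rfl
  rw [Tour104.I_sum _ fun i _ => (PB.sum _ fun j _ => h1 i j).integrableOn]
  refine Finset.sum_congr rfl fun i _ => ?_
  rw [Tour104.I_sum _ fun j _ => (h1 i j).integrableOn]
  refine Finset.sum_congr rfl fun j _ => ?_
  by_cases h : r i = r j
  · simp only [h, if_true]
  · simp only [h, if_false]
    simp [I]

/-- `lift_pow` for one family of functions -/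
theorem lift_Q {b k : ℕ} (hb : b.Prime) (hk : 0 < k) {E : Finset (Λ × Λ)} {f g : Λ → ℝ → ℝ}
    (pf : ∀ j, PB (f j)) (pg : ∀ j, PB (g j)) {C : Λ → ℝ → ℚ} {cl : Λ → κ}
    (A1 : ∀ i z, f i (z + 1 / (b ^ k : ℕ)) = f i z)
    (A2 : ∀ i z, f i z ≠ 0 → C i (z + 1 / (b ^ k : ℕ)) = C i z + 1 / (b ^ k : ℕ))
    (A3 : ∀ e ∈ E, ∀ z, f e.1 z ≠ 0 → g e.2 z ≠ 0 →
      C e.1 z = C e.2 z ∧ cl e.1 = cl e.2 ∧ ¬ b ^ k ∣ (C e.1 z).den) :
    Q E f g ≤ Real.sqrt (Q (Dr cl) f f * Q (Dr cl) g g / b) := by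
  rw [← I_qe pf, ← I_qe pg]
  exact AddLift7.lift_pow hb hk (J := (Finset.univ : Finset Λ)) (J' := (Finset.univ : Finset Λ))
    (E := E) (fun e _ => ⟨Finset.mem_univ _, Finset.mem_univ _⟩) (f := f) (g := g)
    (fun i _ => pf i) (fun j _ => pg j) (C := C) (D := C) (cl := cl) (cl' := cl)
    (fun i _ z => A1 i z) (fun i _ z => A2 i z) A3

end gen

section per
variable {Λ κ : Type*} [Fintype Λ] [DecidableEq κ]

/-- **the functions of a pulled tree are `1/p^k`-periodic** -/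
lemma per_plk (D : Item758.Par Λ κ) {b c p : ℕ} (hb : 0 < b) (hc : c ∣ b) {t : IT}
    (hp : 0 < p) : ∀ (k pr : ℕ), Fit b pr (plk p k t) → D.Wts pr (plk p k t) → ∀ (j : Λ) (x : ℝ),
      (D.toFT b pr (plk p k t)).U c j (x + 1 / (p ^ k : ℕ)) = (D.toFT b pr (plk p k t)).U c j x := by
  intro k
  induction k with
  | zero =>
    intro pr hF hW j x
    have := (FT.pb hb (D.toFT_Adm _ b pr hb hF hW) hc j).per x
    simpa using this
  | succ k ih =>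
    intro pr hF hW j x
    show (D.toFT b (pr * p) (plk p k t)).U c j (p * (x + 1 / (p ^ (k+1) : ℕ))) =
      (D.toFT b (pr * p) (plk p k t)).U c j (p * x)
    have hp0 : (p:ℝ) ≠ 0 := by exact_mod_cast hp.ne'
    have e : (p:ℝ) * (x + 1 / (p ^ (k+1) : ℕ)) = p * x + 1 / (p ^ k : ℕ) := by
      push_cast
      rw [pow_succ]
      field_simp
    rw [e]
    exact ih (pr * p) hF.2.2 hW.pl j _

end per

/-! ### arithmetic -/

/-- the higher exponent: `b` divides the cofactor -/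
lemma b_dvd_cof {b k W W' : ℕ} (hb : b.Prime) (hW : b ^ k ∣ W) (hW' : ¬ b ^ k ∣ W') :
    b ∣ cof W W' := by
  by_contra hc
  have h1 : cof W W' * Nat.gcd W W' = W := Nat.div_mul_cancel (Nat.gcd_dvd_left _ _)
  have h2 : (b ^ k).Coprime (cof W W') := Nat.Coprime.pow_left k ((Nat.Prime.coprime_iff_not_dvd hb).2 hc)
  have h3 : b ^ k ∣ Nat.gcd W W' := by
    rw [← h1] at hW
    exact h2.dvd_of_dvd_mul_left hW
  exact hW' (h3.trans (Nat.gcd_dvd_right _ _))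

/-- the centre of the poor item is not divisible by `b^k` -/
lemma cen_not_dvd {b k W : ℕ} (hb : b.Prime) (hW0 : 0 < W) (hW : ¬ b ^ k ∣ W) {ρ : ℚ}
    (hρ : ¬ b ∣ ρ.den) (a : ℤ) : ¬ b ^ k ∣ (((a : ℚ) + ρ) / W).den := by
  intro h
  have h1 : b ^ k ∣ W * ρ.den := h.trans (cen_den W hW0 a ρ)
  have h2 : (b ^ k).Coprime ρ.den := Nat.Coprime.pow_left k ((Nat.Prime.coprime_iff_not_dvd hb).2 hρ)
  exact hW (h2.dvd_of_dvd_mul_right h1)

/-! ### item coordinates -/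

section tr
variable {A : ℕ} {T : Finset ℕ}

lemma image_union (S₁ S₀ : Finset ℕ) : (S₁ ∪ S₀).image (· / A) = S₁.image (· / A) ∪ S₀.image (· / A) :=
  Finset.image_union _ _

lemma sub_tr2 {S₁ S₀ : Finset ℕ} {E : Finset (ℕ × ℕ)} (hE : E ⊆ S₁ ×ˢ S₀) :
    E.image (fun e => (e.1 / A, e.2 / A)) ⊆ S₁.image (· / A) ×ˢ S₀.image (· / A) := by
  intro x hx
  obtain ⟨e, he, rfl⟩ := Finset.mem_image.1 hx
  obtain ⟨a1, a2⟩ := Finset.mem_product.1 (hE he)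
  exact Finset.mem_product.2 ⟨Finset.mem_image_of_mem _ a1, Finset.mem_image_of_mem _ a2⟩

lemma sum_wA {T : Finset ℕ} (hT : ∀ q ∈ T, A ∣ q) (R : ℕ → ℝ) :
    ∑ v ∈ T.image (· / A), wt (fun v => R (A * v)) v = ∑ q ∈ T, wA A R q := by
  rw [sum_tr1 hT]
  exact Finset.sum_congr rfl fun q hq => wt_tr A R (hT q hq)

/-- **the labelled pairs across an add node, big denominators**, item coordinates -/
theorem ll_cross' (Cl C2 : ℝ) (hCl : 0 ≤ Cl) (hC2 : 0 ≤ C2) : ∃ b₁ : ℕ, ∀ b : ℕ, b₁ ≤ b →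
    ∀ (A : ℕ) (θ : ℝ) (S₁ S₀ : Finset ℕ) (E : Finset (ℕ × ℕ)) (R : ℕ → ℝ) (lab : ℕ → ℚ)
      (Λf : Finset ℚ) (F : ℕ × ℕ → ℝ),
    (∀ q ∈ S₁ ∪ S₀, A ∣ q) → Λf.card ≤ 1 → E ⊆ S₁ ×ˢ S₀ →
    (∀ q ∈ S₁ ∪ S₀, 0 < q / A ∧ 0 < R q) → (∀ q ∈ S₁ ∪ S₀, R q ≤ Cl * Real.log b * wA A R q) →
    ∑ q ∈ S₁ ∪ S₀, wA A R q ≤ Real.log b ^ C2 →
    (∀ q ∈ S₁ ∪ S₀, Lab θ (R q) (lab q) ∨ (lab q ∈ Λf ∧ (b:ℝ)⁻¹ ≤ R q)) →
    (∀ e ∈ E, F e ≤ 2 * ((R e.1 * R e.2) / DA A R e)) →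
    (∀ e ∈ E, ∀ l : ℕ, l.Prime → (l ∣ cof (e.1 / A) (e.2 / A) ∨ l ∣ cof (e.2 / A) (e.1 / A)) →
      l ≤ b) →
    (∀ e ∈ E, 0 < F e → lab e.1 ≠ lab e.2 ∧ b ≤ cof (e.1 / A) (e.2 / A) ∧
      (Real.exp ((b:ℝ) ^ (1/20:ℝ)) < (lab e.1).den ∨
        Real.exp ((b:ℝ) ^ (1/20:ℝ)) < (lab e.2).den) ∧
      ∃ n m : ℤ, ((n:ℝ) + lab e.1) * (cof (e.2 / A) (e.1 / A) : ℕ) =
        (m + lab e.2) * (cof (e.1 / A) (e.2 / A) : ℕ)) →
    ∑ e ∈ E, F e ≤ Real.exp (-((b:ℝ) ^ (1/50:ℝ))) * ∑ q ∈ S₁ ∪ S₀, wA A R q +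
      4 * (Cl * Real.log b) / Real.sqrt b *
        Real.sqrt ((∑ q ∈ S₁, wA A R q) * ∑ q ∈ S₀, wA A R q) := by
  obtain ⟨b₁, H⟩ := AddLL7.ll_cross Cl C2 hCl hC2
  refine ⟨b₁, fun b hb A θ S₁ S₀ E R lab Λf F hA hΛ hE hT hL hM hlab hF hsm hex => ?_⟩
  have hA1 : ∀ q ∈ S₁, A ∣ q := fun q hq => hA q (Finset.mem_union_left _ hq)
  have hA0 : ∀ q ∈ S₀, A ∣ q := fun q hq => hA q (Finset.mem_union_right _ hq)
  have hEE : E ⊆ (S₁ ∪ S₀) ×ˢ (S₁ ∪ S₀) := fun e he => by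
    obtain ⟨m1, m2⟩ := Finset.mem_product.1 (hE he)
    exact Finset.mem_product.2 ⟨Finset.mem_union_left _ m1, Finset.mem_union_right _ m2⟩
  have key := H b hb θ (S₁.image (· / A)) (S₀.image (· / A))
    (E.image fun e => (e.1 / A, e.2 / A))
    (fun v => R (A * v)) (fun v => lab (A * v)) Λf (fun e => F (A * e.1, A * e.2)) hΛ
    (sub_tr2 hE)
    (fun v hv => by
      rw [← image_union] at hv
      obtain ⟨q, hq, rfl⟩ := Finset.mem_image.1 hv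
      have h1 := hT q hq
      exact ⟨h1.1, by rw [Nat.mul_div_cancel' (hA q hq)]; exact h1.2⟩)
    (fun v hv => by
      rw [← image_union] at hv
      obtain ⟨q, hq, rfl⟩ := Finset.mem_image.1 hv
      have h1 := hL q hq
      rw [wt_tr A R (hA q hq)]
      exact (R_tr A R (hA q hq)).le.trans h1)
    (by rw [← image_union, sum_wA hA]; exact hM)
    (fun v hv => by
      rw [← image_union] at hv
      obtain ⟨q, hq, rfl⟩ := Finset.mem_image.1 hv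
      simp only [Nat.mul_div_cancel' (hA q hq)]
      exact hlab q hq)
    (fun x hx => by
      obtain ⟨e, he, rfl⟩ := Finset.mem_image.1 hx
      obtain ⟨a1, a2⟩ := Finset.mem_product.1 (hEE he)
      have d1 := hA _ a1
      have d2 := hA _ a2
      have h1 := hF e he
      rw [DP_eq A R d1 d2]
      simp only [Nat.mul_div_cancel' d1, Nat.mul_div_cancel' d2]
      exact h1)
    (fun x hx => by
      obtain ⟨e, he, rfl⟩ := Finset.mem_image.1 hx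
      exact hsm e he)
    (fun x hx h0 => by
      obtain ⟨e, he, rfl⟩ := Finset.mem_image.1 hx
      obtain ⟨a1, a2⟩ := Finset.mem_product.1 (hEE he)
      have d1 := hA _ a1
      have d2 := hA _ a2
      simp only [Nat.mul_div_cancel' d1, Nat.mul_div_cancel' d2] at h0 ⊢
      exact hex e he h0)
  rw [sum_tr2 hA hEE, ← image_union, sum_wA hA, sum_wA hA1, sum_wA hA0] at key
  have e1 : ∑ e ∈ E, F e = ∑ e ∈ E, F (A * (e.1 / A), A * (e.2 / A)) := by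
    refine Finset.sum_congr rfl fun e he => ?_
    obtain ⟨a1, a2⟩ := Finset.mem_product.1 (hEE he)
    rw [Nat.mul_div_cancel' (hA _ a1), Nat.mul_div_cancel' (hA _ a2)]
  rw [e1]
  exact key

/-- **the labelled pairs, different labels**, item coordinates -/
theorem ll_bad' (Cl C2 : ℝ) (hCl : 0 ≤ Cl) (hC2 : 0 ≤ C2) : ∃ b₁ : ℕ, ∀ b : ℕ, b₁ ≤ b →
    ∀ (A : ℕ) (θ : ℝ) (S : Finset ℕ) (E : Finset (ℕ × ℕ)) (R : ℕ → ℝ) (lab : ℕ → ℚ)
      (Λf : Finset ℚ) (F : ℕ × ℕ → ℝ),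
    (∀ q ∈ S, A ∣ q) → Λf.card ≤ 1 → E ⊆ S ×ˢ S →
    (∀ q ∈ S, 0 < q / A ∧ 0 < R q) → (∀ q ∈ S, R q ≤ Cl * Real.log b * wA A R q) →
    ∑ q ∈ S, wA A R q ≤ Real.log b ^ C2 →
    (∀ q ∈ S, Lab θ (R q) (lab q) ∨ (lab q ∈ Λf ∧ (b:ℝ)⁻¹ ≤ R q)) →
    (∀ e ∈ E, F e ≤ 2 * ((R e.1 * R e.2) / DA A R e)) →
    (∀ e ∈ E, 0 < F e → lab e.1 ≠ lab e.2 ∧ (b:ℝ) ≤ (LL207.Zc (lab e.1) (lab e.2) : ℝ) ∧
      ∃ n m : ℤ, ((n:ℝ) + lab e.1) * (cof (e.2 / A) (e.1 / A) : ℕ) =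
        (m + lab e.2) * (cof (e.1 / A) (e.2 / A) : ℕ)) →
    ∑ e ∈ E, F e ≤ (b:ℝ) ^ (-(1/7):ℝ) * ∑ q ∈ S, wA A R q := by
  obtain ⟨b₁, H⟩ := AddLL7.ll_bad Cl C2 hCl hC2
  refine ⟨b₁, fun b hb A θ S E R lab Λf F hA hΛ hE hT hL hM hlab hF hex => ?_⟩
  have key := H b hb θ (S.image (· / A)) (E.image fun e => (e.1 / A, e.2 / A))
    (fun v => R (A * v)) (fun v => lab (A * v)) Λf (fun e => F (A * e.1, A * e.2)) hΛ
    (sub_tr hE)
    (fun v hv => by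
      obtain ⟨q, hq, rfl⟩ := Finset.mem_image.1 hv
      have h1 := hT q hq
      exact ⟨h1.1, by rw [Nat.mul_div_cancel' (hA q hq)]; exact h1.2⟩)
    (fun v hv => by
      obtain ⟨q, hq, rfl⟩ := Finset.mem_image.1 hv
      have h1 := hL q hq
      rw [wt_tr A R (hA q hq)]
      exact (R_tr A R (hA q hq)).le.trans h1)
    (by rw [sum_wA hA]; exact hM)
    (fun v hv => by
      obtain ⟨q, hq, rfl⟩ := Finset.mem_image.1 hv
      simp only [Nat.mul_div_cancel' (hA q hq)]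
      exact hlab q hq)
    (fun x hx => by
      obtain ⟨e, he, rfl⟩ := Finset.mem_image.1 hx
      obtain ⟨a1, a2⟩ := Finset.mem_product.1 (hE he)
      have d1 := hA _ a1
      have d2 := hA _ a2
      have h1 := hF e he
      rw [DP_eq A R d1 d2]
      simp only [Nat.mul_div_cancel' d1, Nat.mul_div_cancel' d2]
      exact h1)
    (fun x hx h0 => by
      obtain ⟨e, he, rfl⟩ := Finset.mem_image.1 hx
      obtain ⟨a1, a2⟩ := Finset.mem_product.1 (hE he)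
      have d1 := hA _ a1
      have d2 := hA _ a2
      simp only [Nat.mul_div_cancel' d1, Nat.mul_div_cancel' d2] at h0 ⊢
      exact hex e he h0)
  rw [sum_tr2 hA hE, sum_wA hA] at key
  have e1 : ∑ e ∈ E, F e = ∑ e ∈ E, F (A * (e.1 / A), A * (e.2 / A)) := by
    refine Finset.sum_congr rfl fun e he => ?_
    obtain ⟨a1, a2⟩ := Finset.mem_product.1 (hE he)
    rw [Nat.mul_div_cancel' (hA _ a1), Nat.mul_div_cancel' (hA _ a2)]
  rw [e1]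
  exact key

end tr

/-! ### an add node of a context -/

section ctx
variable {N : Skel189.Num} {γ : ℝ} {p0 P₀ : ℕ} {X : Ctx N γ p0 P₀} {u : NS} {b : ℕ} {t₁ t₀ : IT}

/-- the state of an item at a column -/
noncomputable abbrev stq (X : Ctx N γ p0 P₀) (b q : ℕ) : Option ℚ :=
  X.c.st b q

/-- the label of an item on the circle of a node -/
noncomputable abbrev labB (X : Ctx N γ p0 P₀) (u : NS) (b q : ℕ) : ℚ :=
  (u.B : ℚ) * (stq X b q).getD 0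

/-- pairs of pieces in one world -/
lemma mem_Dr {Y : Finset (ℕ × ℕ × Finset ℕ)} {p : ℕ} {x : X.c.Lam × X.c.Lam} :
    x ∈ Dr ((X.c.D.par Y).rho p) ↔ (X.c.world p x.1.1).1 = (X.c.world p x.2.1).1 ∧
      ret X.c.t p x.1.1.1 = ret X.c.t p x.2.1.1 ∧ X.c.tg p x.1.1.1 = X.c.tg p x.2.1.1 := by
  unfold Dr
  rw [Finset.mem_filter]
  simp only [Finset.mem_univ, true_and]
  rw [X.c.D.rho_eq Y p x.1 x.2]
  refine (Cf.D_rho _ _ _ _).trans ?_
  rw [Prod.ext_iff]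
  exact and_congr_right fun _ => Prod.ext_iff

/-- labelled pairs of pieces in one world -/
noncomputable def DL (X : Ctx N γ p0 P₀) (Y : Finset (ℕ × ℕ × Finset ℕ)) (b : ℕ) :
    Finset (X.c.Lam × X.c.Lam) :=
  (Dr ((X.c.D.par Y).rho b)).filter fun x => (stq X b x.1.1.1).isSome = true

/-- unlabelled pairs of pieces in one world -/
noncomputable def DU (X : Ctx N γ p0 P₀) (Y : Finset (ℕ × ℕ × Finset ℕ)) (b : ℕ) :
    Finset (X.c.Lam × X.c.Lam) :=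
  (Dr ((X.c.D.par Y).rho b)).filter fun x => ¬ (stq X b x.1.1.1).isSome = true

lemma Q_DL_DU (X : Ctx N γ p0 P₀) (Y : Finset (ℕ × ℕ × Finset ℕ)) (b : ℕ)
    (f g : X.c.Lam → ℝ → ℝ) :
    Q (Dr ((X.c.D.par Y).rho b)) f g = Q (DL X Y b) f g + Q (DU X Y b) f g := by
  unfold Q DL DU
  exact (Finset.sum_filter_add_sum_filter_not _ _ _).symm

/-- `u.B ≤ Kc` -/
lemma B_le_Kc {τ : IT} (h : NDt X.par (w X.ψ) X.c.t u τ) {q : ℕ} (hq : q ∈ τ.items) :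
    u.B ≤ Kc X.S := by
  have h1 := X.mp_le (q := q)
  rw [h.self.mp _ hq] at h1
  have h2 : 0 < mp τ q := by
    rw [BldF542.mp_eq_prod τ u.n h.self.ok]
    exact Finset.prod_pos fun s hs => (BldF542.mt_lt τ u.n h.self.ok _ s hs).1.pos
  exact (Nat.le_mul_of_pos_right _ h2).trans h1

/-- the windows of a piece have length at most one -/
lemma win_len (hd1 : X.c.d1 * Kc X.S ≤ 1) {τ : IT} (h : NDt X.par (w X.ψ) X.c.t u τ) {j : X.c.Lam}
    (hj : j.1.1 ∈ τ.items) :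
    (u.B : ℝ) / (1 : ℕ) * X.c.bp j.1.1 (j.1.2 + 1) - (u.B : ℝ) / (1 : ℕ) * X.c.bp j.1.1 j.1.2 ≤ 1 := by
  have h1 := X.ok.fine j.1.1 (Cf.mem_S j) (Cf.r_pos j) j.1.2 (Cf.k_lt j)
  have h2 : (u.B : ℝ) ≤ Kc X.S := by exact_mod_cast B_le_Kc h hj
  have hd0 : 0 < X.c.d1 := by rw [X.d1]; exact N.hd1 p0 X.ψ X.S
  have hB : (0:ℝ) ≤ u.B := Nat.cast_nonneg _
  rw [Nat.cast_one, div_one, ← mul_sub]
  calc (u.B : ℝ) * (X.c.bp j.1.1 (j.1.2 + 1) - X.c.bp j.1.1 j.1.2) ≤ u.B * X.c.d1 :=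
        mul_le_mul_of_nonneg_left h1 hB
    _ ≤ Kc X.S * X.c.d1 := mul_le_mul_of_nonneg_right h2 hd0.le
    _ ≤ 1 := by linarith

/-- values of the pieces at a node -/
noncomputable abbrev Uw (X : Ctx N γ p0 P₀) (Y : Finset (ℕ × ℕ × Finset ℕ)) (u : NS) (t : IT) :
    X.c.Lam → ℝ → ℝ := fun j => ((X.c.D.par Y).toFT u.B u.A t).U 1 j

/-- **coincidence of two labelled pieces of one world across an add node** -/
theorem exact2 (h : NDt X.par (w X.ψ) X.c.t u (.add b t₁ t₀)) (hbt : b ≤ top X.S)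
    (hlam : X.c.lam b = 0) {Y : Finset (ℕ × ℕ × Finset ℕ)} {j j' : X.c.Lam}
    (hx : (j, j') ∈ DL X Y b) {z : ℝ} (h1 : Uw X Y u t₁ j z ≠ 0) (h0 : Uw X Y u t₀ j' z ≠ 0) :
    j.1.1 ∈ t₁.items ∧ j'.1.1 ∈ t₀.items ∧ ∃ (a a' : ℤ),
      ((u.B : ℝ) / (1 : ℕ) * X.c.bp j.1.1 j.1.2 ≤
        ((j.1.1 / u.A : ℕ) : ℝ) * z - (u.B : ℝ) / (1 : ℕ) * X.c.γ - a ∧
      ((j.1.1 / u.A : ℕ) : ℝ) * z - (u.B : ℝ) / (1 : ℕ) * X.c.γ - a <
        (u.B : ℝ) / (1 : ℕ) * X.c.bp j.1.1 (j.1.2 + 1)) ∧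
      ((u.B : ℝ) / (1 : ℕ) * X.c.bp j'.1.1 j'.1.2 ≤
        ((j'.1.1 / u.A : ℕ) : ℝ) * z - (u.B : ℝ) / (1 : ℕ) * X.c.γ - a' ∧
      ((j'.1.1 / u.A : ℕ) : ℝ) * z - (u.B : ℝ) / (1 : ℕ) * X.c.γ - a' <
        (u.B : ℝ) / (1 : ℕ) * X.c.bp j'.1.1 (j'.1.2 + 1)) ∧
      ((a:ℝ) + ((labB X u b j.1.1 : ℚ) : ℝ)) * ((j'.1.1 / u.A : ℕ) : ℝ) =
        (a' + ((labB X u b j'.1.1 : ℚ) : ℝ)) * ((j.1.1 / u.A : ℕ) : ℝ) ∧
      ((a:ℝ) + ((labB X u b j.1.1 : ℚ) : ℝ)) * (cof (j'.1.1 / u.A) (j.1.1 / u.A) : ℕ) =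
        (a' + ((labB X u b j'.1.1 : ℚ) : ℝ)) * (cof (j.1.1 / u.A) (j'.1.1 / u.A) : ℕ) := by
  obtain ⟨hx1, hx2⟩ := Finset.mem_filter.1 hx
  obtain ⟨hix, -, -⟩ := mem_Dr.1 hx1
  have hd : Disjoint t₁.items t₀.items := h.fit.1
  have hF1 : Fit u.B u.A t₁ := h.fit.2.1
  have hF0 : Fit u.B u.A t₀ := h.fit.2.2
  have hW := node_wts h Y
  obtain ⟨m1, a, -, l1, l2⟩ := Par.supp _ h.B_pos hF1 (hW.add₁ hd) (one_dvd _) h1
  obtain ⟨m0, a', -, l3, l4⟩ := Par.supp _ h.B_pos hF0 hW.add₀ (one_dvd _) h0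
  have hs2 := isSome_pair hlam hix
  obtain ⟨σ, hσ⟩ := Option.isSome_iff_exists.1 hx2
  rw [hx2] at hs2
  obtain ⟨σ', hσ'⟩ := Option.isSome_iff_exists.1 hs2.symm
  have e1 := rel_some h hbt hlam hix (Finset.mem_union_left _ m1) (Finset.mem_union_right _ m0)
    hσ hσ' l1 l2 l3 l4
  have f1 : labB X u b j.1.1 = (u.B : ℚ) * σ := by
    show (u.B : ℚ) * (stq X b j.1.1).getD 0 = _
    have : stq X b j.1.1 = some σ := hσ
    rw [this]; rfl
  have f2 : labB X u b j'.1.1 = (u.B : ℚ) * σ' := by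
    show (u.B : ℚ) * (stq X b j'.1.1).getD 0 = _
    have : stq X b j'.1.1 = some σ' := hσ'
    rw [this]; rfl
  rw [f1, f2]
  exact ⟨m1, m0, a, a', ⟨l1, l2⟩, ⟨l3, l4⟩, e1.1, e1.2⟩

/-- the exact centre of a piece on the circle of a node -/
noncomputable def Cn (X : Ctx N γ p0 P₀) (u : NS) (b : ℕ) (j : X.c.Lam) (z : ℝ) : ℚ :=
  cen (j.1.1 / u.A) ((u.B : ℝ) / (1 : ℕ) * X.c.γ + (u.B : ℝ) / (1 : ℕ) * X.c.bp j.1.1 j.1.2)
    (labB X u b j.1.1) z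

lemma Cn_eq (hd1 : X.c.d1 * Kc X.S ≤ 1) {τ : IT} (h : NDt X.par (w X.ψ) X.c.t u τ) {j : X.c.Lam}
    (hj : j.1.1 ∈ τ.items) {z : ℝ} {a : ℤ}
    (l1 : (u.B : ℝ) / (1 : ℕ) * X.c.bp j.1.1 j.1.2 ≤
        ((j.1.1 / u.A : ℕ) : ℝ) * z - (u.B : ℝ) / (1 : ℕ) * X.c.γ - a)
    (l2 : ((j.1.1 / u.A : ℕ) : ℝ) * z - (u.B : ℝ) / (1 : ℕ) * X.c.γ - a <
        (u.B : ℝ) / (1 : ℕ) * X.c.bp j.1.1 (j.1.2 + 1)) :
    Cn X u b j z = ((a : ℚ) + labB X u b j.1.1) / (j.1.1 / u.A : ℕ) := by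
  have := floor_eq_of_window (win_len hd1 h hj) l1 l2
  unfold Cn Lift223.cen
  rw [this]

lemma rv_ne {A : Finset X.c.Lam} {f : X.c.Lam → ℝ → ℝ} {j : X.c.Lam} {z : ℝ}
    (h : rv A f j z ≠ 0) : f j z ≠ 0 := by
  intro h0
  apply h
  unfold rv
  split_ifs
  · exact h0
  · rfl

/-- **the lift part of the labelled pairs**, abstract tree -/
theorem lift_add_core (h : NDt X.par (w X.ψ) X.c.t u (.add b t₁ t₀)) (hbp : b.Prime)
    (hbt : b ≤ top X.S) (hlam : X.c.lam b = 0) (hd1 : X.c.d1 * Kc X.S ≤ 1)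
    (Y : Finset (ℕ × ℕ × Finset ℕ)) (A : Finset X.c.Lam) {k : ℕ} (hk : 0 < k)
    (hm1 : ∀ q ∈ t₁.items, b ^ k ∣ q / u.A) (hm0 : ∀ q ∈ t₀.items, ¬ b ^ k ∣ q / u.A)
    (hper : ∀ (j : X.c.Lam) (z : ℝ), Uw X Y u t₁ j (z + 1 / (b ^ k : ℕ)) = Uw X Y u t₁ j z) :
    Q ((DL X Y b).filter fun x => ¬ b ∣ (labB X u b x.2.1.1).den)
      (rv A (Uw X Y u t₁)) (rv A (Uw X Y u t₀)) ≤
      Real.sqrt (Q (Dr ((X.c.D.par Y).rho b)) (rv A (Uw X Y u t₁)) (rv A (Uw X Y u t₁)) *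
        Q (Dr ((X.c.D.par Y).rho b)) (rv A (Uw X Y u t₀)) (rv A (Uw X Y u t₀)) / b) := by
  classical
  have hd : Disjoint t₁.items t₀.items := h.fit.1
  have hF1 : Fit u.B u.A t₁ := h.fit.2.1
  have hF0 : Fit u.B u.A t₀ := h.fit.2.2
  have hW := node_wts h Y
  have pf : ∀ j, PB (rv A (Uw X Y u t₁) j) := fun j =>
    PB_rv (fun j => FT.pb h.B_pos ((X.c.D.par Y).toFT_Adm _ _ _ h.B_pos hF1 (hW.add₁ hd))
      (one_dvd _) j) A j
  have pg : ∀ j, PB (rv A (Uw X Y u t₀) j) := fun j =>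
    PB_rv (fun j => FT.pb h.B_pos ((X.c.D.par Y).toFT_Adm _ _ _ h.B_pos hF0 hW.add₀)
      (one_dvd _) j) A j
  have hpos : ∀ q ∈ (IT.add b t₁ t₀).items, 0 < q / u.A := fun q hq =>
    Nat.pos_of_ne_zero (h.div_ne hq)
  have A1 : ∀ (i : X.c.Lam) (z : ℝ), rv A (Uw X Y u t₁) i (z + 1 / (b ^ k : ℕ)) =
      rv A (Uw X Y u t₁) i z := by
    intro i z
    by_cases hi : i ∈ A
    · rw [rv_of_mem hi]; exact hper i z
    · rw [rv_of_not_mem hi]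
  have A2 : ∀ (i : X.c.Lam) (z : ℝ), rv A (Uw X Y u t₁) i z ≠ 0 →
      Cn X u b i (z + 1 / (b ^ k : ℕ)) = Cn X u b i z + 1 / (b ^ k : ℕ) := by
    intro i z hz
    obtain ⟨m1, -⟩ := Par.supp _ h.B_pos hF1 (hW.add₁ hd) (one_dvd _) (rv_ne hz)
    have m1' : i.1.1 ∈ t₁.items := m1
    exact cen_add (hpos _ (Finset.mem_union_left _ m1')) (hm1 _ m1') _ _ z
  have A3 : ∀ e ∈ (DL X Y b).filter fun x => ¬ b ∣ (labB X u b x.2.1.1).den, ∀ z : ℝ,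
      rv A (Uw X Y u t₁) e.1 z ≠ 0 → rv A (Uw X Y u t₀) e.2 z ≠ 0 →
      Cn X u b e.1 z = Cn X u b e.2 z ∧ (X.c.D.par Y).rho b e.1 = (X.c.D.par Y).rho b e.2 ∧
        ¬ b ^ k ∣ (Cn X u b e.1 z).den := by
    intro e he z hz hz'
    obtain ⟨g1, g2⟩ := Finset.mem_filter.1 he
    have g1' : (e.1, e.2) ∈ DL X Y b := g1
    obtain ⟨m1, m0, a, a', ⟨l1, l2⟩, ⟨l3, l4⟩, x1, -⟩ :=
      exact2 h hbt hlam g1' (rv_ne hz) (rv_ne hz')
    have c1 := Cn_eq (b := b) hd1 h (Finset.mem_union_left _ m1) l1 l2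
    have c0 := Cn_eq (b := b) hd1 h (Finset.mem_union_right _ m0) l3 l4
    have w1 := hpos _ (Finset.mem_union_left _ m1)
    have w0 := hpos _ (Finset.mem_union_right _ m0)
    have hC12 : Cn X u b e.1 z = Cn X u b e.2 z := by
      rw [c1, c0]
      have w1q : ((e.1.1.1 / u.A : ℕ) : ℚ) ≠ 0 := by exact_mod_cast w1.ne'
      have w0q : ((e.2.1.1 / u.A : ℕ) : ℚ) ≠ 0 := by exact_mod_cast w0.ne'
      rw [div_eq_div_iff w1q w0q]
      exact_mod_cast x1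
    refine ⟨hC12, ?_, ?_⟩
    · exact (Finset.mem_filter.1 (Finset.mem_filter.1 g1).1).2
    · rw [hC12, c0]
      exact cen_not_dvd hbp w0 (hm0 _ m0) g2 a'
  exact lift_Q hbp hk pf pg A1 A2 A3

/-- **the lift part of the labelled pairs of an add node** -/
theorem lift_add (h : NDt X.par (w X.ψ) X.c.t u (.add b t₁ t₀)) (hbt : b ≤ top X.S)
    (hlam : X.c.lam b = 0) (hd1 : X.c.d1 * Kc X.S ≤ 1) (Y : Finset (ℕ × ℕ × Finset ℕ))
    (A : Finset X.c.Lam) :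
    Q ((DL X Y b).filter fun x => ¬ b ∣ (labB X u b x.2.1.1).den)
      (rv A (Uw X Y u t₁)) (rv A (Uw X Y u t₀)) ≤
      Real.sqrt (Q (Dr ((X.c.D.par Y).rho b)) (rv A (Uw X Y u t₁)) (rv A (Uw X Y u t₁)) *
        Q (Dr ((X.c.D.par Y).rho b)) (rv A (Uw X Y u t₀)) (rv A (Uw X Y u t₀)) / b) := by
  obtain ⟨hb, -, -, -, -, ⟨k, t', hk, e, e1, e0, -⟩, -⟩ := h.self.node
  have hd : Disjoint t₁.items t₀.items := h.fit.1
  have hF1 : Fit u.B u.A t₁ := h.fit.2.1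
  have hW := node_wts h Y
  refine lift_add_core h hb hbt hlam hd1 Y A (k := k) hk (fun q hq => ?_) (fun q hq => ?_)
    fun j z => ?_
  · rw [e1] at hq
    exact (Bld532.mem_dv.1 hq).2
  · rw [e0] at hq
    exact (Bld532.mem_nd.1 hq).2
  · subst e
    exact per_plk (X.c.D.par Y) h.B_pos (one_dvd _) hb.pos k u.A hF1 (hW.add₁ hd) j z

/-- energy of a labelled pair of items across an add node -/
theorem F_add (h : NDt X.par (w X.ψ) X.c.t u (.add b t₁ t₀)) (hbt : b ≤ top X.S)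
    (hlam : X.c.lam b = 0) {Y : Finset (ℕ × ℕ × Finset ℕ)} {A : Finset X.c.Lam}
    {P : Finset (X.c.Lam × X.c.Lam)} (hP : P ⊆ DL X Y b) {e : ℕ × ℕ}
    (h1 : e.1 ∈ t₁.items) (h0 : e.2 ∈ t₀.items) :
    (X.c.D.par Y).iF P (rv A (Uw X Y u t₁)) (rv A (Uw X Y u t₀)) e ≤
      2 * ((RB X u e.1 * RB X u e.2) / DA u.A (RB X u) e) := by
  have hd : Disjoint t₁.items t₀.items := h.fit.1
  have hF1 : Fit u.B u.A t₁ := h.fit.2.1
  have hF0 : Fit u.B u.A t₀ := h.fit.2.2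
  have hW := node_wts h Y
  have key := iF_rel_le (D := X.c.D.par Y) (ρ := X.c.rr) (b := u.B) (pr := u.A) (c := 1)
    (b' := u.B) (pr' := u.A) (c' := 1) (A := A) (A' := A) (X.ok.rad Y) h.B_pos h.B_pos hF1 hF0
    (hW.add₁ hd) hW.add₀ (one_dvd _) (one_dvd _) P e h1 h0
    (C := ((labB X u b e.1 : ℚ) : ℝ)) (C' := ((labB X u b e.2 : ℚ) : ℝ)) (δ := 0) le_rfl
    (fun x hx _ _ i1 i2 y a a' l1 l2 l3 l4 => by
      obtain ⟨hx1, hx2⟩ := Finset.mem_filter.1 (hP hx)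
      obtain ⟨hix, -, -⟩ := mem_Dr.1 hx1
      have i1' : x.1.1.1 = e.1 := i1
      have i2' : x.2.1.1 = e.2 := i2
      have hs2 := isSome_pair hlam hix
      obtain ⟨σ, hσ⟩ := Option.isSome_iff_exists.1 hx2
      rw [hx2] at hs2
      obtain ⟨σ', hσ'⟩ := Option.isSome_iff_exists.1 hs2.symm
      rw [← i1'] at l1 l2 h1
      rw [← i2'] at l3 l4 h0
      have k := (rel_some h hbt hlam hix (Finset.mem_union_left _ h1)
        (Finset.mem_union_right _ h0) hσ hσ' l1 l2 l3 l4).2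
      have f1 : labB X u b e.1 = (u.B : ℚ) * σ := by
        show (u.B : ℚ) * (stq X b e.1).getD 0 = _
        have : stq X b x.1.1.1 = some σ := hσ
        rw [i1'] at this
        rw [this]; rfl
      have f2 : labB X u b e.2 = (u.B : ℚ) * σ' := by
        show (u.B : ℚ) * (stq X b e.2).getD 0 = _
        have : stq X b x.2.1.1 = some σ' := hσ'
        rw [i2'] at this
        rw [this]; rfl
      rw [i1', i2'] at k
      rw [f1, f2, k, sub_self, abs_zero])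
  rw [Nat.cast_one, div_one, mul_zero, zero_add, mul_one] at key
  exact key

/-- there is an alive item of the node whose label has a small denominator divisible by `b` -/
def BadN (X : Ctx N γ p0 P₀) (u : NS) (τ : IT) (b : ℕ) : Prop :=
  ∃ q ∈ τ.items, q ∈ X.S' ∧ ∃ σ, stq X b q = some σ ∧ b ∣ ((u.B : ℚ) * σ).den ∧
    ((((u.B : ℚ) * σ).den : ℕ) : ℝ) ≤ Real.exp ((b:ℝ) ^ (1/20:ℝ))

lemma labB_some {q : ℕ} {σ : ℚ} (h : stq X b q = some σ) : labB X u b q = (u.B : ℚ) * σ := by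
  show (u.B : ℚ) * (stq X b q).getD 0 = _
  rw [h]; rfl

/-- **a pair of items of labelled pieces of one world, across an add node** -/
theorem PE_add (h : NDt X.par (w X.ψ) X.c.t u (.add b t₁ t₀)) (hbt : b ≤ top X.S)
    (hlam : X.c.lam b = 0) {Y : Finset (ℕ × ℕ × Finset ℕ)} {A : Finset X.c.Lam}
    {P : Finset (X.c.Lam × X.c.Lam)} (hP : P ⊆ DL X Y b) {e : ℕ × ℕ}
    (he : e ∈ (X.c.D.par Y).PE P (rv A (Uw X Y u t₁)) (rv A (Uw X Y u t₀))) :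
    ∃ j j' : X.c.Lam, (j, j') ∈ P ∧ j ∈ A ∧ j' ∈ A ∧ e = (j.1.1, j'.1.1) ∧
      j.1.1 ∈ t₁.items ∧ j'.1.1 ∈ t₀.items ∧ j.1.1 ∈ X.S' ∧ j'.1.1 ∈ X.S' ∧
      ret X.c.t b j.1.1 = ret X.c.t b j'.1.1 ∧
      (∃ σ, stq X b j.1.1 = some σ) ∧ (∃ σ, stq X b j'.1.1 = some σ) ∧
      ∃ a a' : ℤ, ((a:ℝ) + ((labB X u b j.1.1 : ℚ) : ℝ)) * (cof (j'.1.1 / u.A) (j.1.1 / u.A) : ℕ) =
        (a' + ((labB X u b j'.1.1 : ℚ) : ℝ)) * (cof (j.1.1 / u.A) (j'.1.1 / u.A) : ℕ) := by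
  obtain ⟨j, j', hR, hI, e1, e2⟩ := Par.mem_PE.1 he
  obtain ⟨y, y1, y2⟩ := exists_of_I_ne hI
  have hA : j ∈ A := by
    by_contra hc
    exact y1 (congrFun (rv_of_not_mem (f := Uw X Y u t₁) hc) y)
  have hA' : j' ∈ A := by
    by_contra hc
    exact y2 (congrFun (rv_of_not_mem (f := Uw X Y u t₀) hc) y)
  have z1 := rv_ne y1
  have z2 := rv_ne y2
  have hd : Disjoint t₁.items t₀.items := h.fit.1
  have hF1 : Fit u.B u.A t₁ := h.fit.2.1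
  have hF0 : Fit u.B u.A t₀ := h.fit.2.2
  have hW := node_wts h Y
  obtain ⟨m1, a, o1, -⟩ := Par.supp _ h.B_pos hF1 (hW.add₁ hd) (one_dvd _) z1
  obtain ⟨m0, a', o0, -⟩ := Par.supp _ h.B_pos hF0 hW.add₀ (one_dvd _) z2
  have hs1 : j.1.1 ∈ X.S' := by
    by_contra hc
    exact o1 (X.om_zero hc _ _)
  have hs0 : j'.1.1 ∈ X.S' := by
    by_contra hc
    exact o0 (X.om_zero hc _ _)
  obtain ⟨hx1, hx2⟩ := Finset.mem_filter.1 (hP hR)
  obtain ⟨hix, hret, -⟩ := mem_Dr.1 hx1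
  have hs2 := isSome_pair hlam hix
  have hσ := Option.isSome_iff_exists.1 hx2
  rw [hx2] at hs2
  have hσ' := Option.isSome_iff_exists.1 hs2.symm
  obtain ⟨-, -, c, c', -, -, -, x2⟩ := exact2 h hbt hlam (hP hR) z1 z2
  exact ⟨j, j', hR, hA, hA', Prod.ext e1.symm e2.symm, m1, m0, hs1, hs0, hret, hσ, hσ', c, c', x2⟩

open Classical in
set_option maxHeartbeats 1000000 in
/-- **the labelled pairs of one world across an add node** -/
theorem lab_add (N : Skel189.Num) : ∃ p₁ : ℕ, ∀ p0 ≥ p₁, ∀ (γ : ℝ) (P₀ : ℕ), 2 ≤ P₀ →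
    ∀ X : Ctx N γ p0 P₀, RseH X → X.c.d1 * Kc X.S ≤ 1 → ∀ (Y : Finset (ℕ × ℕ × Finset ℕ))
      (u : NS) (b : ℕ) (t₁ t₀ : IT), NF X u (.add b t₁ t₀) → ∀ A : Finset X.c.Lam,
      Q (DL X Y b) (rv A (Uw X Y u t₁)) (rv A (Uw X Y u t₀)) ≤
        Real.sqrt (Q (Dr ((X.c.D.par Y).rho b)) (rv A (Uw X Y u t₁)) (rv A (Uw X Y u t₁)) *
          Q (Dr ((X.c.D.par Y).rho b)) (rv A (Uw X Y u t₀)) (rv A (Uw X Y u t₀)) / b) +
        (if BadN X u (.add b t₁ t₀) b then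
          (b:ℝ) ^ (-(1/7):ℝ) * (u.c * ∑ q ∈ al X (.add b t₁ t₀) A, w X.ψ q)
        else Real.exp (-((b:ℝ) ^ (1/50:ℝ))) * (u.c * ∑ q ∈ al X (.add b t₁ t₀) A, w X.ψ q) +
          4 * (2 * Step588.CT * Real.log b) / Real.sqrt b *
            Real.sqrt ((u.c * ∑ q ∈ al X t₁ A, w X.ψ q) * (u.c * ∑ q ∈ al X t₀ A, w X.ψ q))) := by
  have hc2 := N.hc2
  have hCT := Step588.CT_pos
  obtain ⟨p1, h1⟩ := alive_facts N
  obtain ⟨p2, h2⟩ := ll_cross' (2 * Step588.CT) N.c2 (by positivity) hc2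
  obtain ⟨p3, h3⟩ := ll_bad' (2 * Step588.CT) N.c2 (by positivity) hc2
  obtain ⟨p5, h5⟩ := num_p (N.c2 + 2)
  refine ⟨p1 + p2 + p3 + p5, fun p0 hp0 γ P₀ hP X hX hd1 Y u b t₁ t₀ hN A => ?_⟩
  have h := hN.nd
  have hl : ¬ isL (IT.add b t₁ t₀) := fun h => h
  obtain ⟨k1, k2, k3, k4⟩ := nodeOk_hi h.self.node hl
  have k2' : p0 < b := k2
  have hbt : b ≤ top X.S := (le_of_lt k3).trans hN.lvl
  obtain ⟨n1, n2, n3, n4, n5⟩ := h5 b (by omega)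
  have hpR : (0:ℝ) < b := by exact_mod_cast (by omega : 0 < b)
  have hpR1 : (1:ℝ) ≤ b := by exact_mod_cast (by omega : 1 ≤ b)
  have hlam := hX.lam b k2' hbt
  have hthr := hX.thr b k2'
  obtain ⟨hbp, -, -, -, -, ⟨k, t', hk, -, e1, e0, -⟩, -⟩ := h.self.node
  have hm1 : ∀ q ∈ t₁.items, b ^ k ∣ q / u.A := fun q hq => by
    rw [e1] at hq
    exact (Bld532.mem_dv.1 hq).2
  have hm0 : ∀ q ∈ t₀.items, ¬ b ^ k ∣ q / u.A := fun q hq => by
    rw [e0] at hq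
    exact (Bld532.mem_nd.1 hq).2
  set T : Finset ℕ := al X (.add b t₁ t₀) A with hT
  set T1 : Finset ℕ := al X t₁ A with hT1
  set T0 : Finset ℕ := al X t₀ A with hT0
  have hTu : T = T1 ∪ T0 := by
    rw [hT, hT1, hT0]
    unfold al
    exact Finset.filter_union _ _ _
  have hTm : ∀ q ∈ T, q ∈ (IT.add b t₁ t₀).items ∧ q ∈ X.S' := fun q hq => by
    rw [hT] at hq
    unfold al at hq
    obtain ⟨a1, a2⟩ := Finset.mem_filter.1 hq
    exact ⟨a1, a2.1⟩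
  have hTF : ∀ q ∈ T, AlF X u (.add b t₁ t₀) q := fun q hq =>
    h1 p0 (by omega) γ P₀ hP X u _ hN hl q (hTm q hq).1 (hTm q hq).2
  have hT1T : T1 ⊆ T := by rw [hTu]; exact Finset.subset_union_left
  have hT0T : T0 ⊆ T := by rw [hTu]; exact Finset.subset_union_right
  -- masses
  have hwA0 : ∀ q ∈ T, 0 ≤ wA u.A (RB X u) q := fun q hq => by
    unfold wA
    have := (hTF q hq).R0.le
    positivity
  have hmass : ∀ T' ⊆ T, ∑ q ∈ T', wA u.A (RB X u) q ≤ u.c * ∑ q ∈ T', w X.ψ q := by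
    intro T' hT'
    rw [Finset.mul_sum]
    exact Finset.sum_le_sum fun q hq => (hTF q (hT' hq)).wle
  have hM2 : ∑ q ∈ T, wA u.A (RB X u) q ≤ Real.log b ^ N.c2 := by
    refine (hmass T subset_rfl).trans (le_trans ?_ k1)
    refine mul_le_mul_of_nonneg_left ?_ hN.c0.le
    unfold Ws
    refine Finset.sum_le_sum_of_subset_of_nonneg (fun q hq => (hTm q hq).1) fun q _ _ => X.hW q
  -- labelled items
  set stt : ℕ → Option ℚ := fun q => stq X b q with hstt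
  set TL : Finset ℕ := T.filter fun q => (stt q).isSome = true with hTL
  set S1 : Finset ℕ := T1.filter fun q => (stt q).isSome = true with hS1
  set S0 : Finset ℕ := T0.filter fun q => (stt q).isSome = true with hS0
  have hS10 : S1 ∪ S0 = TL := by
    rw [hS1, hS0, hTL, hTu, Finset.filter_union]
  have hTLT : TL ⊆ T := Finset.filter_subset _ _
  have hS1T : S1 ⊆ T1 := Finset.filter_subset _ _
  have hS0T : S0 ⊆ T0 := Finset.filter_subset _ _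
  -- the pairs
  set P : Finset (X.c.Lam × X.c.Lam) := (DL X Y b).filter fun x => ¬ ¬ b ∣ (labB X u b x.2.1.1).den
    with hP'
  have hPD : P ⊆ DL X Y b := Finset.filter_subset _ _
  have hsplit : Q (DL X Y b) (rv A (Uw X Y u t₁)) (rv A (Uw X Y u t₀)) =
      Q ((DL X Y b).filter fun x => ¬ b ∣ (labB X u b x.2.1.1).den) (rv A (Uw X Y u t₁))
        (rv A (Uw X Y u t₀)) + Q P (rv A (Uw X Y u t₁)) (rv A (Uw X Y u t₀)) := by
    unfold Q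
    rw [hP']
    exact (Finset.sum_filter_add_sum_filter_not _ _ _).symm
  have hlift := lift_add h hbt hlam hd1 Y A
  set D := X.c.D.par Y with hD
  set F : ℕ × ℕ → ℝ := fun e => D.iF P (rv A (Uw X Y u t₁)) (rv A (Uw X Y u t₀)) e with hF
  set E : Finset (ℕ × ℕ) := D.PE P (rv A (Uw X Y u t₁)) (rv A (Uw X Y u t₀)) with hE
  have hQE : Q P (rv A (Uw X Y u t₁)) (rv A (Uw X Y u t₀)) = ∑ e ∈ E, F e := D.Q_eq _ _ _
  -- facts of the pairs
  have hfact : ∀ e ∈ E, e.1 ∈ S1 ∧ e.2 ∈ S0 ∧ ret X.c.t b e.1 = ret X.c.t b e.2 ∧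
      b ∣ (labB X u b e.2).den ∧ ∃ a a' : ℤ,
        ((a:ℝ) + ((labB X u b e.1 : ℚ) : ℝ)) * (cof (e.2 / u.A) (e.1 / u.A) : ℕ) =
        (a' + ((labB X u b e.2 : ℚ) : ℝ)) * (cof (e.1 / u.A) (e.2 / u.A) : ℕ) := by
    intro e he
    obtain ⟨j, j', hR, hj, hj', rfl, i1, i0, s1, s0, hret, ⟨σ, hσ⟩, ⟨σ', hσ'⟩, a, a', hex⟩ :=
      PE_add h hbt hlam hPD he
    have hden := not_not.1 (Finset.mem_filter.1 hR).2
    refine ⟨?_, ?_, hret, hden, a, a', hex⟩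
    · refine Finset.mem_filter.2 ⟨?_, ?_⟩
      · rw [hT1]; unfold al
        exact Finset.mem_filter.2 ⟨i1, s1, j, hj, rfl⟩
      · show (stq X b j.1.1).isSome = true
        rw [hσ]; rfl
    · refine Finset.mem_filter.2 ⟨?_, ?_⟩
      · rw [hT0]; unfold al
        exact Finset.mem_filter.2 ⟨i0, s0, j', hj', rfl⟩
      · show (stq X b j'.1.1).isSome = true
        rw [hσ']; rfl
  have hit1 : ∀ q ∈ T1, q ∈ t₁.items := fun q hq => by
    rw [hT1] at hq; unfold al at hq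
    exact (Finset.mem_filter.1 hq).1
  have hit0 : ∀ q ∈ T0, q ∈ t₀.items := fun q hq => by
    rw [hT0] at hq; unfold al at hq
    exact (Finset.mem_filter.1 hq).1
  have hZ : ∀ e ∈ E, labB X u b e.1 ≠ labB X u b e.2 ∧
      b ≤ LL207.Zc (labB X u b e.1) (labB X u b e.2) ∧ b ≤ cof (e.1 / u.A) (e.2 / u.A) := by
    intro e he
    obtain ⟨f1, f0, -, hden, a, a', hex⟩ := hfact e he
    have g1 := hS1T f1
    have g0 := hS0T f0
    have q1 := hTF _ (hT1T g1)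
    have hcop : Nat.Coprime (cof (e.1 / u.A) (e.2 / u.A)) (cof (e.2 / u.A) (e.1 / u.A)) :=
      cof_coprime q1.pos
    have hbd := b_dvd_cof hbp (hm1 _ (hit1 _ g1)) (hm0 _ (hit0 _ g0))
    have hz := RseAr23.Zc_of_exact hbp hbd hcop (labB X u b e.1) (labB X u b e.2) hex hden
    refine ⟨hz.2, hz.1, Nat.le_of_dvd ?_ hbd⟩
    exact Nat.div_pos (Nat.le_of_dvd q1.pos (Nat.gcd_dvd_left _ _))
      (Nat.gcd_pos_of_pos_left _ q1.pos)
  have hFle : ∀ e ∈ E, F e ≤ 2 * ((RB X u e.1 * RB X u e.2) / DA u.A (RB X u) e) := by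
    intro e he
    obtain ⟨f1, f0, -⟩ := hfact e he
    exact F_add h hbt hlam hPD (hit1 _ (hS1T f1)) (hit0 _ (hS0T f0))
  -- labels
  have hK : ∀ s : ℕ, tp (IT.add b t₁ t₀) < s → Real.log b ^ (N.c2 + 2) ≤ s * X.c.wp.thr s := by
    intro s hs
    have hs' : b < s := hs
    have hsR : (0:ℝ) < s := by
      have : 0 < s := by omega
      exact_mod_cast this
    have hps : (b:ℝ) ≤ s := by exact_mod_cast hs'.le
    have h6 := hX.thr s (k2'.trans hs')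
    have h7 : (s:ℝ) ^ (1/2:ℝ) = s * (s:ℝ) ^ (-(1/2:ℝ)) := by
      conv_rhs => rw [← Real.rpow_one (s:ℝ), ← Real.rpow_mul hsR.le, ← Real.rpow_add hsR]
      norm_num
    calc Real.log b ^ (N.c2 + 2) ≤ (b:ℝ) ^ (1/2:ℝ) := n5
      _ ≤ (s:ℝ) ^ (1/2:ℝ) := Real.rpow_le_rpow hpR.le hps (by norm_num)
      _ = s * (s:ℝ) ^ (-(1/2:ℝ)) := h7
      _ ≤ s * X.c.wp.thr s := mul_le_mul_of_nonneg_left h6 hsR.le
  have hthr0 : 0 < X.c.wp.thr b := (Real.rpow_pos_of_pos hpR _).trans_le hthr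
  have hK4 : 32 * (Real.log b ^ (N.c2 + 2)) ^ 4 <
      (tp (IT.add b t₁ t₀) : ℝ) ^ 2 * X.c.wp.thr (tp (IT.add b t₁ t₀)) ^ 2 := by
    show 32 * (Real.log b ^ (N.c2 + 2)) ^ 4 < (b : ℝ) ^ 2 * X.c.wp.thr b ^ 2
    refine n4.trans_le ?_
    have h7 : ((b:ℝ) ^ (-(1/2:ℝ))) ^ 2 ≤ X.c.wp.thr b ^ 2 :=
      pow_le_pow_left₀ (Real.rpow_nonneg hpR.le _) hthr 2
    have h8 : ((b:ℝ) ^ (-(1/2:ℝ))) ^ 2 = (b:ℝ)⁻¹ := by
      rw [← Real.rpow_natCast, ← Real.rpow_mul hpR.le, ← Real.rpow_neg_one]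
      norm_num
    rw [h8] at h7
    calc (b:ℝ) = (b:ℝ) ^ 2 * (b:ℝ)⁻¹ := by field_simp
      _ ≤ (b:ℝ) ^ 2 * X.c.wp.thr b ^ 2 := mul_le_mul_of_nonneg_left h7 (sq_nonneg _)
  obtain ⟨Λf, hΛ, hlab⟩ := lab_nodeB h X.tOk hl (wp := X.c.wp) (wpL := X.c.wpL) (lam := X.c.lam)
    (lv := X.c.lv) (γ := X.c.γ) (r := X.c.r) hK hthr0 hK4
  have hLAB : ∀ q ∈ TL, Lab (u.B * X.c.γ) (RB X u q) (labB X u b q) ∨
      (labB X u b q ∈ Λf ∧ (b:ℝ)⁻¹ ≤ RB X u q) := by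
    intro q hq
    obtain ⟨hq1, hq2⟩ := Finset.mem_filter.1 hq
    have hf := hTF q hq1
    obtain ⟨σ, hσ⟩ := Option.isSome_iff_exists.1 hq2
    have hσ' : stq X b q = some σ := hσ
    have hR : RB X u q = u.B * X.c.r q := by
      show (u.B:ℝ) * X.c.rr q = _
      rw [hf.rr]
    rw [labB_some hσ', hR]
    rcases hlab q (hTm q hq1).1 hf.hi σ hσ' with h6 | h6
    · exact Or.inl h6
    · refine Or.inr ⟨h6.1, le_trans ?_ h6.2.le⟩
      refine le_trans ?_ hthr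
      rw [← Real.rpow_neg_one]
      exact Real.rpow_le_rpow_of_exponent_le hpR1 (by norm_num)
  have hsubM : ∑ q ∈ TL, wA u.A (RB X u) q ≤ ∑ q ∈ T, wA u.A (RB X u) q :=
    Finset.sum_le_sum_of_subset_of_nonneg hTLT fun q hq _ => hwA0 q hq
  have hES : E ⊆ S1 ×ˢ S0 := fun e he =>
    Finset.mem_product.2 ⟨(hfact e he).1, (hfact e he).2.1⟩
  have hEE : E ⊆ TL ×ˢ TL := fun e he => by
    rw [← hS10]
    exact Finset.mem_product.2 ⟨Finset.mem_union_left _ (hfact e he).1,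
      Finset.mem_union_right _ (hfact e he).2.1⟩
  rw [hsplit, hQE]
  refine add_le_add hlift ?_
  split_ifs with hbad
  · -- a bad prime
    have key := h3 b (by omega) u.A (u.B * X.c.γ) TL E (RB X u) (labB X u b) Λf F
      (fun q hq => (hTF q (hTLT hq)).dvd) hΛ hEE
      (fun q hq => ⟨(hTF q (hTLT hq)).pos, (hTF q (hTLT hq)).R0⟩)
      (fun q hq => (hTF q (hTLT hq)).lo) (hsubM.trans hM2) hLAB hFle
      (fun e he _ => by
        obtain ⟨z1, z2, z3⟩ := hZ e he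
        obtain ⟨-, -, -, -, hex⟩ := hfact e he
        exact ⟨z1, by exact_mod_cast z2, hex⟩)
    refine key.trans (mul_le_mul_of_nonneg_left ?_ (Real.rpow_nonneg hpR.le _))
    exact hsubM.trans (hmass T subset_rfl)
  · have hbig : ∀ e ∈ E, Real.exp ((b:ℝ) ^ (1/20:ℝ)) < ((labB X u b e.2).den : ℝ) := by
      intro e he
      obtain ⟨f1, f0, -, hden, -⟩ := hfact e he
      obtain ⟨g0, g0'⟩ := Finset.mem_filter.1 f0
      obtain ⟨σ, hσ⟩ := Option.isSome_iff_exists.1 g0'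
      have hσ' : stq X b e.2 = some σ := hσ
      by_contra hc
      push Not at hc
      apply hbad
      refine ⟨e.2, (hTm _ (hT0T g0)).1, (hTm _ (hT0T g0)).2, σ, hσ', ?_, ?_⟩
      · rw [← labB_some (u := u) hσ']; exact hden
      · rw [← labB_some (u := u) hσ']; exact hc
    have key := h2 b (by omega) u.A (u.B * X.c.γ) S1 S0 E (RB X u) (labB X u b) Λf F
      (fun q hq => (hTF q (hTLT (hS10 ▸ hq))).dvd) hΛ hES
      (fun q hq => ⟨(hTF q (hTLT (hS10 ▸ hq))).pos, (hTF q (hTLT (hS10 ▸ hq))).R0⟩)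
      (fun q hq => (hTF q (hTLT (hS10 ▸ hq))).lo) (by rw [hS10]; exact hsubM.trans hM2)
      (fun q hq => hLAB q (hS10 ▸ hq)) hFle
      (fun e he l hlp hld => by
        obtain ⟨f1, f0, hret, -⟩ := hfact e he
        have g1 := (hTm _ (hT1T (hS1T f1))).1
        have g0 := (hTm _ (hT0T (hS0T f0))).1
        rcases hld with hld | hld
        · exact smooth_ret h X.tOk hl g1 g0 hret hlp hld
        · exact smooth_ret h X.tOk hl g0 g1 hret.symm hlp hld)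
      (fun e he _ => by
        obtain ⟨z1, z2, z3⟩ := hZ e he
        obtain ⟨-, -, -, -, hex⟩ := hfact e he
        exact ⟨z1, z3, Or.inr (hbig e he), hex⟩)
    refine key.trans (add_le_add ?_ ?_)
    · refine mul_le_mul_of_nonneg_left ?_ (Real.exp_pos _).le
      rw [hS10]
      exact hsubM.trans (hmass T subset_rfl)
    · have hlog : 0 ≤ Real.log (b:ℝ) := by linarith
      refine mul_le_mul_of_nonneg_left (Real.sqrt_le_sqrt ?_) (by positivity)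
      have i1 : ∑ q ∈ S1, wA u.A (RB X u) q ≤ u.c * ∑ q ∈ T1, w X.ψ q :=
        (Finset.sum_le_sum_of_subset_of_nonneg hS1T fun q hq _ => hwA0 q (hT1T hq)).trans
          (hmass T1 hT1T)
      have i0 : ∑ q ∈ S0, wA u.A (RB X u) q ≤ u.c * ∑ q ∈ T0, w X.ψ q :=
        (Finset.sum_le_sum_of_subset_of_nonneg hS0T fun q hq _ => hwA0 q (hT0T hq)).trans
          (hmass T0 hT0T)
      refine mul_le_mul i1 i0 (Finset.sum_nonneg fun q hq => hwA0 q (hT0T (hS0T hq))) ?_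
      exact mul_nonneg hN.c0.le (Finset.sum_nonneg fun q _ => X.hW q)

end ctx

end Crest.Agent.R4P.AddNode7
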