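import Crest.Agent.R4P.AddPay_7

/-!
R4 (S0004), POWERS, module dseR (D4), helper7: **the charges of the add nodes along a path**.

`path_add` : for every piece `j` of an item of `S'` the charges `zA` summed along its path are at most
`2 (log p0)^(-A) + 4 p0^(-1/100)`.
-/

set_option autoImplicit false
set_option linter.unusedSectionVars false
set_option linter.unusedVariables false

open MeasureTheory Filter

namespace Crest.Agent.R4P.AddPay7

open Crest.Agent.R4P.Cnt588 Crest.Agent.R4P.Item758 Crest.Agent.R4P.W363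
open Crest.Agent.R4P.Data758 Crest.Agent.R4P.OmSt532 Crest.Agent.R4P.OmData532
open Crest.Agent.R4P.LfDat734 Crest.Agent.R4P.WPex189
open Crest.Agent.R4P.Bld532 (NS All NodeOk Bk plk dv nd)
open Crest.Agent.R4P.Step588 (NDt ND1 ctx_NDt uq_lt)
open Crest.Agent.R4P.WalkIT579 (tp isL nodeOk_hi top_of_nodeOk)
open Crest.Agent.R4P.Skel189 Crest.Agent.R4P.RseSt23 Crest.Agent.R4P.RseNd23
open Crest.Agent.R4.Soft104 (w)
open Crest.Agent.R4.LF363 (Lab)
open Crest.Agent.R4P.AvgItem710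
open Crest.Agent.R4.ClosL758 Crest.Agent.R4.ClosR758 Crest.Agent.R4.Tour104 Crest.Agent.R4.Fam464
open Crest.Agent.R4.Tour758 Crest.Agent.R4.Avg758
open Crest.Agent.R4P.Frame758
open Crest.Agent.R4.Item758 (IL AdS AdI)
open Crest.Agent.R4P.AddNode7 Crest.Agent.R4P.DseCh23
open Crest.Agent.R4P.Dse22 (LocOk chE dse_le)
open Crest.Agent.R4P.PruneSep532
open Crest.Agent.R4P.PruneAcc17 (Bab)
open Crest.Agent.R4P.BadB16
open Crest.Agent.R4

/-! ### sums along a path -/

section gen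
variable {Λ : Type*} {it : Λ → ℕ}

lemma chE_add (e₁ e₂ : NS → IT → Λ → ℝ) : ∀ (t : IT) (s : NS) (j : Λ),
    chE it (fun s t j => e₁ s t j + e₂ s t j) s t j = chE it e₁ s t j + chE it e₂ s t j := by
  intro t
  induction t with
  | leaf S => intro s j; simp [chE]
  | br p Sp t₁ t₀ ih₁ ih₀ =>
    intro s j
    simp only [chE]
    split_ifs
    · rw [ih₀]; ring
    · rw [ih₁]; ring
  | add b t₁ t₀ ih₁ ih₀ =>
    intro s j
    simp only [chE]
    split_ifs
    · rw [ih₀]; ring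
    · rw [ih₁]; ring
  | up b Sp t ih => intro s j; simp only [chE]; exact ih _ _
  | pl p t ih => intro s j; simp only [chE]; rw [ih]; ring
  | far b t₁ t₀ ih₁ ih₀ =>
    intro s j
    simp only [chE]
    split_ifs
    · rw [ih₀]; ring
    · rw [ih₁]; ring

lemma chE_mono {e₁ e₂ : NS → IT → Λ → ℝ} {j : Λ} (h : ∀ s t, e₁ s t j ≤ e₂ s t j) : ∀ (t : IT)
    (s : NS), chE it e₁ s t j ≤ chE it e₂ s t j := by
  intro t
  induction t with
  | leaf S => intro s; simp [chE]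
  | br p Sp t₁ t₀ ih₁ ih₀ =>
    intro s
    simp only [chE]
    split_ifs
    · exact add_le_add (h _ _) (ih₀ _)
    · exact add_le_add (h _ _) (ih₁ _)
  | add b t₁ t₀ ih₁ ih₀ =>
    intro s
    simp only [chE]
    split_ifs
    · exact add_le_add (h _ _) (ih₀ _)
    · exact add_le_add (h _ _) (ih₁ _)
  | up b Sp t ih => intro s; simp only [chE]; exact ih _
  | pl p t ih => intro s; simp only [chE]; exact add_le_add (h _ _) (ih _)
  | far b t₁ t₀ ih₁ ih₀ =>
    intro s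
    simp only [chE]
    split_ifs
    · exact add_le_add (h _ _) (ih₀ _)
    · exact add_le_add (h _ _) (ih₁ _)

/-- a function of the add nodes -/
def eF (F : ℕ → ℝ → Finset ℕ → Finset ℕ → ℝ) (it : Λ → ℕ) : NS → IT → Λ → ℝ
  | u, .add b t₁ t₀, j => if it j ∈ t₀.items then F b u.c t₀.items t₁.items
      else F b u.c t₁.items t₀.items
  | _, _, _ => 0

lemma chE_pth (F : ℕ → ℝ → Finset ℕ → Finset ℕ → ℝ) : ∀ (t : IT) (s : NS) (j : Λ),
    chE it (eF F it) s t j = pth F s.c t (it j) := by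
  intro t
  induction t with
  | leaf S => intro s j; simp [chE, pth]
  | br p Sp t₁ t₀ ih₁ ih₀ =>
    intro s j
    simp only [chE, pth, eF, zero_add]
    split_ifs
    · exact ih₀ _ _
    · exact ih₁ _ _
  | add b t₁ t₀ ih₁ ih₀ =>
    intro s j
    simp only [chE, pth, eF]
    split_ifs
    · rw [ih₀]
    · rw [ih₁]
  | up b Sp t ih => intro s j; simp only [chE, pth]; exact ih _ _
  | pl p t ih => intro s j; simp only [chE, pth, eF, zero_add]; exact ih _ _
  | far b t₁ t₀ ih₁ ih₀ =>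
    intro s j
    simp only [chE, pth, eF, zero_add]
    split_ifs
    · exact ih₀ _ _
    · exact ih₁ _ _

end gen

section pth
variable {P : Bld532.Par} {W : ℕ → ℝ}

lemma pth_rst (F : ℕ → ℝ → Finset ℕ → Finset ℕ → ℝ) : ∀ (t : IT) (s : NS), All (NodeOk P W) s t →
    ∀ q : ℕ, pth (rst (P.p0 < ·) F) s.c t q = pth F s.c t q := by
  intro t
  induction t with
  | leaf S => intro s _ q; rfl
  | br p Sp t₁ t₀ ih₁ ih₀ =>
    intro s h q
    simp only [pth]
    split_ifs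
    · exact ih₀ _ h.2.2 q
    · exact ih₁ _ h.2.1 q
  | add b t₁ t₀ ih₁ ih₀ =>
    intro s h q
    have hb : P.p0 < b := h.1.2.2.1
    simp only [pth, rst, if_pos hb]
    have k0 := ih₀ _ h.2.2 q
    have k1 := ih₁ _ h.2.1 q
    simp only [rst] at k0 k1
    rw [k0, k1]
  | up b Sp t ih => intro s h q; simp only [pth]; exact ih _ h.2 q
  | pl p t ih => intro s h q; simp only [pth]; exact ih _ h.2 q
  | far b t₁ t₀ ih₁ ih₀ =>
    intro s h q
    simp only [pth]
    split_ifs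
    · exact ih₀ _ h.2.2 q
    · exact ih₁ _ h.2.1 q

end pth

/-! ### the bad primes -/

open Classical in
/-- smaller / larger exponents at `b` among the items -/
noncomputable def gE (T : Finset ℕ) (q b : ℕ) : ℝ :=
  (if ∃ r ∈ T, r.factorization b < q.factorization b then 1 else 0) +
  (if ∃ r ∈ T, q.factorization b < r.factorization b then 1 else 0)

lemma gE_nonneg (T : Finset ℕ) (q b : ℕ) : 0 ≤ gE T q b := by
  unfold gE; split_ifs <;> norm_num

lemma gE_le (T : Finset ℕ) (q b : ℕ) : gE T q b ≤ 2 := by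
  unfold gE; split_ifs <;> norm_num

lemma gE_mono {T T' : Finset ℕ} (h : T ⊆ T') (q b : ℕ) : gE T q b ≤ gE T' q b := by
  unfold gE
  refine add_le_add ?_ ?_
  · split_ifs with h1 h2
    · exact le_rfl
    · obtain ⟨r, hr, hlt⟩ := h1
      exact absurd ⟨r, h hr, hlt⟩ h2
    · norm_num
    · exact le_rfl
  · split_ifs with h1 h2
    · exact le_rfl
    · obtain ⟨r, hr, hlt⟩ := h1
      exact absurd ⟨r, h hr, hlt⟩ h2
    · norm_num
    · exact le_rfl

section ctx
variable {N : Skel189.Num} {γ : ℝ} {p0 P₀ : ℕ}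

open Classical in
/-- the bad primes of an item -/
noncomputable def BP (X : Ctx N γ p0 P₀) (q : ℕ) : Finset ℕ :=
  (Finset.range (top X.S + 1)).filter fun b => b.Prime ∧ p0 < b ∧ BadB X.c.γ (Bab X.c.t q b) b

open Classical in
lemma mem_BP {X : Ctx N γ p0 P₀} {q b : ℕ} : b ∈ BP X q ↔ b < top X.S + 1 ∧ b.Prime ∧ p0 < b ∧
    BadB X.c.γ (Bab X.c.t q b) b := by
  unfold BP
  rw [Finset.mem_filter, Finset.mem_range]

/-- the potential -/
noncomputable def Ph (X : Ctx N γ p0 P₀) (T : Finset ℕ) (q n : ℕ) : ℝ :=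
  ∑ b ∈ (BP X q).filter (· < n), 2 * (b:ℝ) ^ (-(1/7):ℝ) * gE T q b

lemma Ph_nonneg (X : Ctx N γ p0 P₀) (T : Finset ℕ) (q n : ℕ) : 0 ≤ Ph X T q n :=
  Finset.sum_nonneg fun b _ => mul_nonneg (by positivity) (gE_nonneg _ _ _)

lemma Ph_mono (X : Ctx N γ p0 P₀) {T T' : Finset ℕ} (h : T ⊆ T') (q : ℕ) {n n' : ℕ} (hn : n ≤ n') :
    Ph X T q n ≤ Ph X T' q n' := by
  unfold Ph
  calc ∑ b ∈ (BP X q).filter (· < n), 2 * (b:ℝ) ^ (-(1/7):ℝ) * gE T q b
      ≤ ∑ b ∈ (BP X q).filter (· < n), 2 * (b:ℝ) ^ (-(1/7):ℝ) * gE T' q b :=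
        Finset.sum_le_sum fun b _ => mul_le_mul_of_nonneg_left (gE_mono h q b) (by positivity)
    _ ≤ _ := by
        refine Finset.sum_le_sum_of_subset_of_nonneg (fun b hb => ?_)
          fun b _ _ => mul_nonneg (by positivity) (gE_nonneg _ _ _)
        obtain ⟨a1, a2⟩ := Finset.mem_filter.1 hb
        exact Finset.mem_filter.2 ⟨a1, lt_of_lt_of_le a2 hn⟩

/-- one step of the potential -/
lemma Ph_step (X : Ctx N γ p0 P₀) {T T' : Finset ℕ} (h : T ⊆ T') {q b n : ℕ} (hb : b ∈ BP X q)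
    (hbn : b < n) (hg : gE T q b + 1 ≤ gE T' q b) :
    2 * (b:ℝ) ^ (-(1/7):ℝ) + Ph X T q (b+1) ≤ Ph X T' q n := by
  have hmem : b ∈ (BP X q).filter (· < n) := Finset.mem_filter.2 ⟨hb, hbn⟩
  have hmem' : b ∈ (BP X q).filter (· < b+1) := Finset.mem_filter.2 ⟨hb, Nat.lt_succ_self b⟩
  have h1 : Ph X T q (b+1) ≤ Ph X T q n := Ph_mono X subset_rfl q hbn
  refine (add_le_add_right h1 _).trans ?_
  unfold Ph
  rw [← Finset.add_sum_erase _ _ hmem, ← Finset.add_sum_erase _ _ hmem, ← add_assoc]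
  refine add_le_add ?_ ?_
  · have : 0 ≤ 2 * (b:ℝ) ^ (-(1/7):ℝ) := by positivity
    nlinarith
  · exact Finset.sum_le_sum fun b _ => mul_le_mul_of_nonneg_left (gE_mono h q b) (by positivity)

/-- the bad charge as a charge of `chE` -/
noncomputable def eB (X : Ctx N γ p0 P₀) : NS → IT → X.c.Lam → ℝ
  | u, .add b t₁ t₀, j => zB X b u t₁ t₀ j.1.1
  | _, _, _ => 0

/-- **a bad prime of the node is a bad prime of its items** -/
theorem BadN_BadB (N : Skel189.Num) : ∃ p₁ : ℕ, ∀ p0 ≥ p₁, ∀ (γ : ℝ) (P₀ : ℕ), 2 ≤ P₀ →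
    ∀ X : Ctx N γ p0 P₀, RseH X → ∀ (u : NS) (b : ℕ) (t₁ t₀ : IT), NF X u (.add b t₁ t₀) →
      BadN X u (.add b t₁ t₀) b → ∀ q ∈ (IT.add b t₁ t₀).items, b ∈ BP X q := by
  obtain ⟨p1, h1⟩ := alive_facts N
  obtain ⟨p5, h5⟩ := num_p (N.c2 + 2)
  have hev : ∀ᶠ x : ℝ in atTop, Real.log x ^ (N.c2 + 2) ≤ 1 * x ^ (1/10:ℝ) :=
    AddLL7.ev_lit (by norm_num) one_pos _
  obtain ⟨x₁, hx₁⟩ := Filter.eventually_atTop.1 hev
  refine ⟨p1 + p5 + ⌈x₁⌉₊ + 2, fun p0 hp0 γ P₀ hP X hX u b t₁ t₀ hN hbad q hq => ?_⟩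
  have h := hN.nd
  have hl : ¬ isL (IT.add b t₁ t₀) := fun h => h
  obtain ⟨k1, k2, k3, k4⟩ := nodeOk_hi h.self.node hl
  have k2' : p0 < b := k2
  have hbt : b ≤ top X.S := (le_of_lt k3).trans hN.lvl
  obtain ⟨n1, n2, n3, n4, n5⟩ := h5 b (by omega)
  have hpR : (0:ℝ) < b := by exact_mod_cast (by omega : 0 < b)
  have hbp := h.self.node.1
  have hthr := hX.thr b k2'
  have hK : ∀ s : ℕ, tp (IT.add b t₁ t₀) < s → Real.log b ^ (N.c2 + 2) ≤ s * X.c.wp.thr s := by
    intro s hs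
    have hs' : b < s := hs
    have hsR : (0:ℝ) < s := by
      have : 0 < s := by omega
      exact_mod_cast this
    have hps : (b:ℝ) ≤ s := by exact_mod_cast hs'.le
    have h6 := hX.thr s (k2'.trans hs')
    have h7 : (s:ℝ) ^ (1/2:ℝ) = s * (s:ℝ) ^ (-(1/2:ℝ)) := by
      conv_rhs => rw [← Real.rpow_one (s:ℝ), ← Real.rpow_mul hsR.le, ← Real.rpow_add hsR]
      norm_num
    calc Real.log b ^ (N.c2 + 2) ≤ (b:ℝ) ^ (1/2:ℝ) := n5
      _ ≤ (s:ℝ) ^ (1/2:ℝ) := Real.rpow_le_rpow hpR.le hps (by norm_num)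
      _ = s * (s:ℝ) ^ (-(1/2:ℝ)) := h7
      _ ≤ s * X.c.wp.thr s := mul_le_mul_of_nonneg_left h6 hsR.le
  have hK' : Real.log b ^ (N.c2 + 2) ≤ (tp (IT.add b t₁ t₀) : ℝ) ^ (1 / 10 : ℝ) := by
    have := hx₁ b ((Nat.le_ceil _).trans (by exact_mod_cast (by omega : ⌈x₁⌉₊ ≤ b)))
    rw [one_mul] at this
    exact this
  obtain ⟨r, hr, hrS, σ, hσ, hd, hX'⟩ := hbad
  have hf := h1 p0 (by omega) γ P₀ hP X u _ hN hl r hr hrS
  have key := bad_of_labelB h X.tOk hl (wp := X.c.wp) (wpL := X.c.wpL) (lam := X.c.lam)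
    (lv := X.c.lv) (γ := X.c.γ) (r := X.c.r)
    (K := Real.log b ^ (N.c2 + 2)) hK hK' (by
      have : -(1/2:ℝ) = -(1 / 2 : ℝ) := rfl
      exact hthr) hr hf.hi hσ hd hX'
  have hB : Bab X.c.t q b = u.B := Bab_node h X.tOk hl hq
  exact mem_BP.2 ⟨by omega, hbp, k2', by rw [hB]; exact key⟩

/-- **the bad charges along a path** -/
theorem path_bad (N : Skel189.Num) : ∃ p₁ : ℕ, ∀ p0 ≥ p₁, ∀ (γ : ℝ) (P₀ : ℕ), 2 ≤ P₀ →
    ∀ X : Ctx N γ p0 P₀, RseH X → ∀ (t : IT) (u : NS), All (NF X) u t → ∀ j : X.c.Lam,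
      j.1.1 ∈ t.items → chE X.c.D.it (eB X) u t j ≤ Ph X t.items j.1.1 u.n := by
  obtain ⟨p1, h1⟩ := BadN_BadB N
  refine ⟨p1 + 1, fun p0 hp0 γ P₀ hP X hX t => ?_⟩
  induction t with
  | leaf S => intro u _ j _; exact Ph_nonneg _ _ _ _
  | br p Sp t₁ t₀ ih₁ ih₀ =>
    intro u h j hj
    have hn : p < u.n := h.1.nd.self.node.2.1
    have hj' : j.1.1 ∈ t₁.items ∪ t₀.items := hj
    simp only [chE, eB, zero_add]
    by_cases h0 : X.c.D.it j ∈ t₀.items
    · rw [if_pos h0]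
      exact (ih₀ _ h.2.2 j h0).trans (Ph_mono X Finset.subset_union_right _ hn.le)
    · rw [if_neg h0]
      have h2 : j.1.1 ∈ t₁.items := (Finset.mem_union.1 hj').resolve_right h0
      exact (ih₁ _ h.2.1 j h2).trans (Ph_mono X Finset.subset_union_left _ hn.le)
  | add b t₁ t₀ ih₁ ih₀ =>
    intro u h j hj
    have hnd := h.1.nd
    have hn : b < u.n := hnd.self.node.2.1
    have hj' : j.1.1 ∈ t₁.items ∪ t₀.items := hj
    obtain ⟨hbp, -, -, -, -, ⟨k, t', hk, -, e1, e0, -⟩, hlo, -, hs0, hs1⟩ := hnd.self.node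
    have hdj : Disjoint t₁.items t₀.items := hnd.fit.1
    have hmem : ∀ q ∈ t₁.items ∪ t₀.items, u.A ∣ q ∧ 0 < q / u.A := fun q hq =>
      ⟨hnd.bk.dvd q hq, Nat.pos_of_ne_zero (hnd.div_ne hq)⟩
    have hlt : ∀ q ∈ t₁.items, ∀ r ∈ t₀.items, r.factorization b < q.factorization b := by
      intro q hq r hr
      have hq' : b ^ k ∣ q / u.A := by rw [e1] at hq; exact (Bld532.mem_dv.1 hq).2
      have hr' : ¬ b ^ k ∣ r / u.A := by rw [e0] at hr; exact (Bld532.mem_nd.1 hr).2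
      obtain ⟨a1, a2⟩ := hmem q (Finset.mem_union_left _ hq)
      obtain ⟨b1, b2⟩ := hmem r (Finset.mem_union_right _ hr)
      have fq := fac_div (b := b) a1 a2
      have fr := fac_div (b := b) b1 b2
      have l1 : k ≤ (q / u.A).factorization b := (hbp.pow_dvd_iff_le_factorization a2.ne').1 hq'
      have l0 : (r / u.A).factorization b < k := by
        by_contra hc
        push Not at hc
        exact hr' ((hbp.pow_dvd_iff_le_factorization b2.ne').2 hc)
      omega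
    have hsg : 0 ≤ X.par.sg b * Ws (w X.ψ) (t₁.items ∪ t₀.items) :=
      mul_nonneg (X.gd.sg0 b) (Ws_nonneg33 X.hW _)
    have hne : ∀ T : Finset ℕ, X.par.sg b * Ws (w X.ψ) (t₁.items ∪ t₀.items) < Ws (w X.ψ) T →
        ∃ r, r ∈ T := by
      intro T hT
      by_contra hc
      push Not at hc
      have : T = ∅ := Finset.eq_empty_of_forall_notMem hc
      rw [this] at hT
      unfold Ws at hT hsg
      rw [Finset.sum_empty] at hT
      linarith
    obtain ⟨r₀, hr₀⟩ := hne _ hs0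
    obtain ⟨r₁, hr₁⟩ := hne _ hs1
    simp only [chE, eB]
    by_cases h0 : X.c.D.it j ∈ t₀.items
    · rw [if_pos h0]
      have h0' : j.1.1 ∈ t₀.items := h0
      have ih := ih₀ _ h.2.2 j h0'
      by_cases hb : BadN X u (.add b t₁ t₀) b ∧ adj b t₁ t₀ j.1.1
      · have hBP := h1 p0 (by omega) γ P₀ hP X hX u b t₁ t₀ h.1 hb.1 _ hj
        have hz : zB X b u t₁ t₀ j.1.1 = 2 * (b:ℝ) ^ (-(1/7):ℝ) := by unfold zB; rw [if_pos hb]
        rw [hz]
        refine (add_le_add_right ih _).trans ?_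
        refine Ph_step X Finset.subset_union_right hBP hn ?_
        -- `q` is maximal in `t₀`
        have hmax : ∀ r ∈ t₀.items, r.factorization b ≤ (j.1.1).factorization b := by
          rcases hb.2 with h3 | h3
          · exact absurd h0' (Finset.disjoint_left.1 hdj h3.1)
          · exact h3.2
        have g1 : gE t₀.items j.1.1 b ≤
            (if ∃ r ∈ t₀.items, r.factorization b < (j.1.1).factorization b then 1 else 0) + 0 := by
          unfold gE
          refine add_le_add (le_of_eq ?_) ?_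
          · congr
          · rw [if_neg]
            rintro ⟨r, hr, hlt⟩
            exact absurd (hmax r hr) (not_le.2 hlt)
        have g2 : (if ∃ r ∈ t₀.items, r.factorization b < (j.1.1).factorization b then (1:ℝ) else 0) + 1
            ≤ gE (t₁.items ∪ t₀.items) j.1.1 b := by
          unfold gE
          refine add_le_add ?_ ?_
          · split_ifs with a1 a2
            · exact le_rfl
            · obtain ⟨r, hr, hlt⟩ := a1
              exact absurd ⟨r, Finset.mem_union_right _ hr, hlt⟩ a2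
            · norm_num
            · exact le_rfl
          · rw [if_pos ⟨r₁, Finset.mem_union_left _ hr₁, hlt r₁ hr₁ _ h0'⟩]
        show gE t₀.items j.1.1 b + 1 ≤ gE (t₁.items ∪ t₀.items) j.1.1 b
        linarith
      · have hz : zB X b u t₁ t₀ j.1.1 = 0 := by unfold zB; rw [if_neg hb]
        rw [hz, zero_add]
        exact ih.trans (Ph_mono X Finset.subset_union_right _ hn)
    · rw [if_neg h0]
      have h2 : j.1.1 ∈ t₁.items := (Finset.mem_union.1 hj').resolve_right h0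
      have ih := ih₁ _ h.2.1 j h2
      by_cases hb : BadN X u (.add b t₁ t₀) b ∧ adj b t₁ t₀ j.1.1
      · have hBP := h1 p0 (by omega) γ P₀ hP X hX u b t₁ t₀ h.1 hb.1 _ hj
        have hz : zB X b u t₁ t₀ j.1.1 = 2 * (b:ℝ) ^ (-(1/7):ℝ) := by unfold zB; rw [if_pos hb]
        rw [hz]
        refine (add_le_add_right ih _).trans ?_
        refine Ph_step X Finset.subset_union_left hBP hn ?_
        have hmin : ∀ r ∈ t₁.items, (j.1.1).factorization b ≤ r.factorization b := by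
          rcases hb.2 with h3 | h3
          · exact h3.2
          · exact absurd h3.1 (Finset.disjoint_left.1 hdj h2)
        have g1 : gE t₁.items j.1.1 b ≤
            0 + (if ∃ r ∈ t₁.items, (j.1.1).factorization b < r.factorization b then 1 else 0) := by
          unfold gE
          refine add_le_add ?_ (le_of_eq ?_)
          · rw [if_neg]
            rintro ⟨r, hr, hlt⟩
            exact absurd (hmin r hr) (not_le.2 hlt)
          · congr
        have g2 : 1 + (if ∃ r ∈ t₁.items, (j.1.1).factorization b < r.factorization b then (1:ℝ) else 0)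
            ≤ gE (t₁.items ∪ t₀.items) j.1.1 b := by
          unfold gE
          refine add_le_add ?_ ?_
          · rw [if_pos ⟨r₀, Finset.mem_union_right _ hr₀, hlt _ h2 r₀ hr₀⟩]
          · split_ifs with a1 a2
            · exact le_rfl
            · obtain ⟨r, hr, hlt⟩ := a1
              exact absurd ⟨r, Finset.mem_union_left _ hr, hlt⟩ a2
            · norm_num
            · exact le_rfl
        show gE t₁.items j.1.1 b + 1 ≤ gE (t₁.items ∪ t₀.items) j.1.1 b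
        linarith
      · have hz : zB X b u t₁ t₀ j.1.1 = 0 := by unfold zB; rw [if_neg hb]
        rw [hz, zero_add]
        exact ih.trans (Ph_mono X Finset.subset_union_left _ hn)
  | up b Sp t ih =>
    intro u h j hj
    have hn : b < u.n := h.1.nd.self.node.2.1
    simp only [chE]
    exact (ih _ h.2 j hj).trans (Ph_mono X subset_rfl _ hn.le)
  | pl p t ih =>
    intro u h j hj
    have hn : p < u.n := h.1.nd.self.node.2.1
    simp only [chE, eB, zero_add]
    exact (ih _ h.2 j hj).trans (Ph_mono X subset_rfl _ hn)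
  | far b t₁ t₀ ih₁ ih₀ =>
    intro u h j hj
    have hn : b < u.n := h.1.nd.self.node.2.1
    have hj' : j.1.1 ∈ t₁.items ∪ t₀.items := hj
    simp only [chE, eB, zero_add]
    by_cases h0 : X.c.D.it j ∈ t₀.items
    · rw [if_pos h0]
      exact (ih₀ _ h.2.2 j h0).trans (Ph_mono X Finset.subset_union_right _ hn)
    · rw [if_neg h0]
      have h2 : j.1.1 ∈ t₁.items := (Finset.mem_union.1 hj').resolve_right h0
      exact (ih₁ _ h.2.1 j h2).trans (Ph_mono X Finset.subset_union_left _ hn)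

/-- the charges of the add nodes as a charge of `chE` -/
noncomputable def eZ (X : Ctx N γ p0 P₀) : NS → IT → X.c.Lam → ℝ
  | u, .add b t₁ t₀, j => zA X b u t₁ t₀ j.1.1
  | _, _, _ => 0

/-- **the charges of the add nodes along a path** -/
theorem path_add (N : Skel189.Num) : ∃ p₁ : ℕ, ∀ p0 ≥ p₁, ∀ (γ : ℝ) (P₀ : ℕ), 2 ≤ P₀ →
    ∀ X : Ctx N γ p0 P₀, RseH X → ∀ j : X.c.Lam, j.1.1 ∈ X.S' →
      chE X.c.D.it (eZ X) ⟨top X.S, 1, 1, 1⟩ X.c.t j ≤
        2 * Real.log p0 ^ (-N.A) + 4 * (p0:ℝ) ^ (-(1/100):ℝ) := by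
  obtain ⟨p1, h1⟩ := path_bad N
  obtain ⟨p2, h2⟩ := ctx_bad N
  obtain ⟨p3, h3⟩ := ctx_NF N
  refine ⟨p1 + p2 + p3, fun p0 hp0 γ P₀ hP X hX j hj => ?_⟩
  have hjt : j.1.1 ∈ X.c.t.items := by rw [X.items]; exact X.prn.sub hj
  -- the bad part
  have b1 : chE X.c.D.it (eB X) ⟨top X.S, 1, 1, 1⟩ X.c.t j ≤ 4 * (p0:ℝ) ^ (-(1/100):ℝ) := by
    refine (h1 p0 (by omega) γ P₀ hP X hX X.c.t _ (h3 p0 (by omega) γ P₀ hP X) j hjt).trans ?_
    have k1 := h2 p0 (by omega) γ P₀ X j.1.1 hj p0 le_rfl (BP X j.1.1) (fun b hb => by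
      obtain ⟨-, a1, a2, a3⟩ := mem_BP.1 hb
      rw [X.hγ] at a3
      exact ⟨a1, a2, a3⟩)
    unfold Ph
    calc ∑ b ∈ (BP X j.1.1).filter (· < top X.S), 2 * (b:ℝ) ^ (-(1/7):ℝ) * gE X.c.t.items j.1.1 b
        ≤ ∑ b ∈ BP X j.1.1, 2 * (b:ℝ) ^ (-(1/7):ℝ) * gE X.c.t.items j.1.1 b :=
          Finset.sum_le_sum_of_subset_of_nonneg (Finset.filter_subset _ _)
            fun b _ _ => mul_nonneg (by positivity) (gE_nonneg _ _ _)
      _ ≤ ∑ b ∈ BP X j.1.1, 4 * (b:ℝ) ^ (-(1/7):ℝ) := by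
          refine Finset.sum_le_sum fun b _ => ?_
          have e1 := gE_le X.c.t.items j.1.1 b
          have e2 : 0 ≤ (b:ℝ) ^ (-(1/7):ℝ) := by positivity
          nlinarith
      _ = 4 * ∑ b ∈ BP X j.1.1, (b:ℝ) ^ (-(1/7):ℝ) := by rw [Finset.mul_sum]
      _ ≤ _ := mul_le_mul_of_nonneg_left k1 (by norm_num)
  -- the SEP part
  set F₁ : ℕ → ℝ → Finset ℕ → Finset ℕ → ℝ := betF (w X.ψ) fun b => Real.log b ^ N.a with hF₁
  set F₂ : ℕ → ℝ → Finset ℕ → Finset ℕ → ℝ := bnuF (w X.ψ) fun b => Real.log b ^ (-N.a') with hF₂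
  have c1 : chE X.c.D.it (eF F₁ X.c.D.it) ⟨top X.S, 1, 1, 1⟩ X.c.t j ≤ Real.log p0 ^ (-N.A) := by
    rw [chE_pth]
    have := X.prn.bet j.1.1 hj p0 le_rfl
    have e := pth_rst (P := X.par) (W := w X.ψ) F₁ X.c.t ⟨top X.S, 1, 1, 1⟩ X.nodes j.1.1
    have e2 : X.c.t = N.tree p0 X.ψ X.S := X.ht
    have e' : pth F₁ 1 X.c.t j.1.1 = pth (rst (p0 < ·) F₁) 1 (N.tree p0 X.ψ X.S) j.1.1 := by
      rw [← e2]; exact e.symm
    exact e'.le.trans this
  have c2 : chE X.c.D.it (eF F₂ X.c.D.it) ⟨top X.S, 1, 1, 1⟩ X.c.t j ≤ Real.log p0 ^ (-N.A) := by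
    rw [chE_pth]
    have := X.prn.bnu j.1.1 hj p0 le_rfl
    have e := pth_rst (P := X.par) (W := w X.ψ) F₂ X.c.t ⟨top X.S, 1, 1, 1⟩ X.nodes j.1.1
    have e2 : X.c.t = N.tree p0 X.ψ X.S := X.ht
    have e' : pth F₂ 1 X.c.t j.1.1 = pth (rst (p0 < ·) F₂) 1 (N.tree p0 X.ψ X.S) j.1.1 := by
      rw [← e2]; exact e.symm
    exact e'.le.trans this
  have hz : ∀ s t, eZ X s t j ≤ (eF F₁ X.c.D.it s t j + eF F₂ X.c.D.it s t j) + eB X s t j := by
    intro s t
    cases t with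
    | add b t₁ t₀ =>
      show zA X b s t₁ t₀ j.1.1 ≤ ((if X.c.D.it j ∈ t₀.items then _ else _) +
        (if X.c.D.it j ∈ t₀.items then _ else _)) + zB X b s t₁ t₀ j.1.1
      have e : X.c.D.it j = j.1.1 := rfl
      rw [e]
      unfold zA
      rw [if_pos hj]
      refine add_le_add ?_ le_rfl
      split_ifs
      · exact le_rfl
      · exact le_rfl
    | leaf S => simp [eZ, eF, eB]
    | br p Sp t₁ t₀ => simp [eZ, eF, eB]
    | up b Sp t => simp [eZ, eF, eB]
    | pl p t => simp [eZ, eF, eB]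
    | far b t₁ t₀ => simp [eZ, eF, eB]
  have key := chE_mono (it := X.c.D.it) (e₁ := eZ X)
    (e₂ := fun s t j => (eF F₁ X.c.D.it s t j + eF F₂ X.c.D.it s t j) + eB X s t j) hz X.c.t
    ⟨top X.S, 1, 1, 1⟩
  rw [chE_add (fun s t j => eF F₁ X.c.D.it s t j + eF F₂ X.c.D.it s t j) (eB X), chE_add] at key
  linarith

end ctx

end Crest.Agent.R4P.AddPay7
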