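import Crest.Agent.R4P.AddLL_7

/-!
R4 (S0004), POWERS, module dseR (D4), helper7: the numbers of the payment of an add node.
-/

set_option autoImplicit false

namespace Crest.Agent.R4P.AddPayN7

open Crest.Agent.R4.ClsS (eps1)

set_option maxHeartbeats 1000000 in
/-- **the payment of an add node** -/
theorem pay_real {K CTT A₀ C3 a a' c2 : ℝ} (hK : 0 ≤ K) (hC : 0 ≤ CTT) (hC3 : 0 ≤ C3)
    (h1 : a' + 3 ≤ a) (h2 : a' + 1 ≤ A₀) (h3 : C3 + a' * (1/2+eps1) + 1 ≤ a * (1/2-eps1))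
    (h4 : C3 + c2 + 1 ≤ a) : ∃ x₀ : ℝ, 1 ≤ x₀ ∧ ∀ ℓ ≥ x₀, ∀ b m₁ m₀ ν₁ ν₀ : ℝ, 1 ≤ b → 0 ≤ m₁ →
    m₁ ≤ ν₁ → 0 ≤ m₀ → m₀ ≤ ν₀ → ν₁ ≤ ℓ ^ c2 →
    K * Real.sqrt (m₁ * m₀ / b) + 4 * (CTT * ℓ) / Real.sqrt b * Real.sqrt (m₁ * m₀) +
      b ^ (-(13/25):ℝ) * (m₁ * m₀) ^ (1/2+eps1) + ℓ ^ (-A₀) * (m₁ * m₀) +
      ℓ ^ C3 * (b ^ (-(1/2-eps1)) * (m₁ * m₀) ^ (1/2+eps1)) + ℓ ^ C3 / b * m₁ ≤
    1/4 * (m₁ * (ℓ ^ a / (b * ν₁) + ℓ ^ (-a') * ν₀) + m₀ * (ℓ ^ a / (b * ν₀) + ℓ ^ (-a') * ν₁)) := by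
  have he : eps1 = 1/1000 := rfl
  refine ⟨max 1 ((4 * (K + 4 * CTT + 8)) ^ 2), le_max_left _ _, ?_⟩
  intro ℓ hℓ b m₁ m₀ ν₁ ν₀ hb hm₁ hmν₁ hm₀ hmν₀ hν₁
  have hℓ1 : 1 ≤ ℓ := (le_max_left _ _).trans hℓ
  have hℓ0 : 0 < ℓ := by linarith
  have hb0 : 0 < b := by linarith
  have hν₁0 : 0 ≤ ν₁ := hm₁.trans hmν₁
  have hν₀0 : 0 ≤ ν₀ := hm₀.trans hmν₀
  have hsq : 4 * (K + 4 * CTT + 8) ≤ ℓ ^ (1/2:ℝ) := by
    rw [← Real.sqrt_eq_rpow]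
    exact Real.le_sqrt_of_sq_le ((le_max_right _ _).trans hℓ)
  set P := m₁ * (ℓ ^ a / (b * ν₁) + ℓ ^ (-a') * ν₀) + m₀ * (ℓ ^ a / (b * ν₀) + ℓ ^ (-a') * ν₁) with hP
  have ra : 0 ≤ ℓ ^ a := Real.rpow_nonneg hℓ0.le _
  have ra' : 0 ≤ ℓ ^ (-a') := Real.rpow_nonneg hℓ0.le _
  have q1 : 0 ≤ m₁ * (ℓ ^ a / (b * ν₁)) := by positivity
  have q2 : 0 ≤ m₁ * (ℓ ^ (-a') * ν₀) := by positivity
  have q3 : 0 ≤ m₀ * (ℓ ^ a / (b * ν₀)) := by positivity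
  have q4 : 0 ≤ m₀ * (ℓ ^ (-a') * ν₁) := by positivity
  have hP0 : 0 ≤ P := by rw [hP]; positivity
  rcases hm₁.eq_or_lt with hz | hpos
  · rw [← hz]
    have e0 : (0:ℝ) ^ (1/2+eps1) = 0 := Real.zero_rpow (by rw [he]; norm_num)
    simp only [zero_mul, zero_div, Real.sqrt_zero, mul_zero, add_zero, e0]
    positivity
  have hν₁p : 0 < ν₁ := hpos.trans_le hmν₁
  -- (i)
  have i1 : m₁ / b ≤ P * ℓ ^ (c2 - a) := by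
    have h5 : m₁ * (ℓ ^ a / (b * ν₁)) ≤ P := by rw [hP]; linarith
    have h6 : m₁ / b = m₁ * (ℓ ^ a / (b * ν₁)) * (ν₁ * ℓ ^ (-a)) := by
      rw [Real.rpow_neg hℓ0.le]
      have : ℓ ^ a ≠ 0 := (Real.rpow_pos_of_pos hℓ0 _).ne'
      field_simp
    rw [h6]
    refine mul_le_mul h5 ?_ (by positivity) hP0
    calc ν₁ * ℓ ^ (-a) ≤ ℓ ^ c2 * ℓ ^ (-a) := mul_le_mul_of_nonneg_right hν₁ (by positivity)
      _ = ℓ ^ (c2 - a) := by rw [← Real.rpow_add hℓ0]; rfl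
  -- (ii)
  have i2 : m₁ * m₀ ≤ P * ℓ ^ a' := by
    have h5 : m₁ * (ℓ ^ (-a') * m₀) ≤ P := by
      have : m₁ * (ℓ ^ (-a') * m₀) ≤ m₁ * (ℓ ^ (-a') * ν₀) :=
        mul_le_mul_of_nonneg_left (mul_le_mul_of_nonneg_left hmν₀ ra') hm₁
      rw [hP]; linarith
    have h6 : m₁ * m₀ = m₁ * (ℓ ^ (-a') * m₀) * ℓ ^ a' := by
      have e : ℓ ^ (-a') * ℓ ^ a' = 1 := by rw [← Real.rpow_add hℓ0]; simp
      calc m₁ * m₀ = m₁ * m₀ * (ℓ ^ (-a') * ℓ ^ a') := by rw [e, mul_one]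
        _ = _ := by ring
    rw [h6]
    exact mul_le_mul_of_nonneg_right h5 (by positivity)
  -- (iii)
  have i3 : Real.sqrt (m₁ * m₀ / b) ≤ P * ℓ ^ (-((a - a') / 2)) := by
    have h5 : m₁ * (ℓ ^ a / (b * ν₁)) + m₀ * (ℓ ^ (-a') * ν₁) ≤ P := by rw [hP]; linarith
    have h6 : 0 ≤ P * ℓ ^ (-((a - a') / 2)) := by positivity
    refine Real.sqrt_le_iff.2 ⟨h6, ?_⟩
    have h7 : (m₁ * (ℓ ^ a / (b * ν₁))) * (m₀ * (ℓ ^ (-a') * ν₁)) ≤ P ^ 2 := by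
      set x := m₁ * (ℓ ^ a / (b * ν₁))
      set y := m₀ * (ℓ ^ (-a') * ν₁)
      have : (x + y) ^ 2 ≤ P ^ 2 := pow_le_pow_left₀ (by linarith) h5 2
      nlinarith [sq_nonneg (x - y)]
    have h8 : (m₁ * (ℓ ^ a / (b * ν₁))) * (m₀ * (ℓ ^ (-a') * ν₁)) =
        m₁ * m₀ / b * (ℓ ^ a * ℓ ^ (-a')) := by field_simp
    rw [h8, ← Real.rpow_add hℓ0] at h7
    have h9 : (P * ℓ ^ (-((a - a') / 2))) ^ 2 = P ^ 2 * ℓ ^ (-(a + -a')) := by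
      rw [mul_pow, ← Real.rpow_natCast (ℓ ^ (-((a - a') / 2))) 2, ← Real.rpow_mul hℓ0.le]
      congr 2
      push_cast
      ring
    rw [h9]
    have h10 : ℓ ^ (a + -a') * ℓ ^ (-(a + -a')) = 1 := by rw [← Real.rpow_add hℓ0]; simp
    calc m₁ * m₀ / b = m₁ * m₀ / b * ℓ ^ (a + -a') * ℓ ^ (-(a + -a')) := by
          rw [mul_assoc, h10, mul_one]
      _ ≤ P ^ 2 * ℓ ^ (-(a + -a')) := mul_le_mul_of_nonneg_right h7 (by positivity)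
  -- (iv)
  have i4 : b ^ (-(1/2-eps1)) * (m₁ * m₀) ^ (1/2+eps1) ≤
      P * ℓ ^ (-(a * (1/2-eps1)) + a' * (1/2+eps1)) := by
    have hmm : 0 ≤ m₁ * m₀ := by positivity
    rcases hmm.eq_or_lt with h0 | h0
    · rw [← h0, Real.zero_rpow (by rw [he]; norm_num), mul_zero]; positivity
    rcases hP0.eq_or_lt with hP00 | hPp
    · exfalso
      rw [← hP00, zero_mul] at i2
      linarith
    have e1 : (m₁ * m₀) ^ (1/2+eps1) = (m₁ * m₀) ^ (1/2-eps1) * (m₁ * m₀) ^ (2*eps1) := by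
      rw [← Real.rpow_add h0]; congr 1; ring
    have e2 : b ^ (-(1/2-eps1)) * (m₁ * m₀) ^ (1/2-eps1) = (Real.sqrt (m₁ * m₀ / b)) ^ (1-2*eps1) := by
      have e3 : (1:ℝ)/2 * (1 - 2*eps1) = 1/2 - eps1 := by ring
      rw [Real.sqrt_eq_rpow, ← Real.rpow_mul (by positivity), e3, Real.div_rpow hmm hb0.le,
        Real.rpow_neg hb0.le]
      exact inv_mul_eq_div _ _
    have e4 : (Real.sqrt (m₁ * m₀ / b)) ^ (1-2*eps1) ≤ (P * ℓ ^ (-((a - a') / 2))) ^ (1-2*eps1) :=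
      Real.rpow_le_rpow (Real.sqrt_nonneg _) i3 (by rw [he]; norm_num)
    have e5 : (m₁ * m₀) ^ (2*eps1) ≤ (P * ℓ ^ a') ^ (2*eps1) :=
      Real.rpow_le_rpow hmm i2 (by rw [he]; norm_num)
    calc b ^ (-(1/2-eps1)) * (m₁ * m₀) ^ (1/2+eps1)
        = (Real.sqrt (m₁ * m₀ / b)) ^ (1-2*eps1) * (m₁ * m₀) ^ (2*eps1) := by
          rw [e1, ← mul_assoc, e2]
      _ ≤ (P * ℓ ^ (-((a - a') / 2))) ^ (1-2*eps1) * (P * ℓ ^ a') ^ (2*eps1) :=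
          mul_le_mul e4 e5 (by positivity) (by positivity)
      _ = P * ℓ ^ (-(a * (1/2-eps1)) + a' * (1/2+eps1)) := by
          rw [Real.mul_rpow hP0 (by positivity), Real.mul_rpow hP0 (by positivity),
            ← Real.rpow_mul hℓ0.le, ← Real.rpow_mul hℓ0.le]
          have e6 : P ^ (1-2*eps1) * P ^ (2*eps1) = P := by
            rw [← Real.rpow_add hPp]
            have : (1:ℝ) - 2*eps1 + 2*eps1 = 1 := by ring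
            rw [this, Real.rpow_one]
          calc P ^ (1-2*eps1) * ℓ ^ (-((a - a') / 2) * (1-2*eps1)) *
                (P ^ (2*eps1) * ℓ ^ (a' * (2*eps1)))
              = (P ^ (1-2*eps1) * P ^ (2*eps1)) *
                (ℓ ^ (-((a - a') / 2) * (1-2*eps1)) * ℓ ^ (a' * (2*eps1))) := by ring
            _ = _ := by
                rw [e6, ← Real.rpow_add hℓ0]
                congr 2
                ring
  -- the sum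
  have r32 : ℓ ^ (-((a - a') / 2)) ≤ ℓ ^ (-(3/2):ℝ) :=
    Real.rpow_le_rpow_of_exponent_le hℓ1 (by linarith)
  have r1 : ℓ ^ (-(1:ℝ)) ≤ ℓ ^ (-(1/2):ℝ) := Real.rpow_le_rpow_of_exponent_le hℓ1 (by norm_num)
  have r32' : ℓ ^ (-(3/2):ℝ) ≤ ℓ ^ (-(1/2):ℝ) := Real.rpow_le_rpow_of_exponent_le hℓ1 (by norm_num)
  have t1 : K * Real.sqrt (m₁ * m₀ / b) ≤ K * (P * ℓ ^ (-(1/2):ℝ)) :=
    mul_le_mul_of_nonneg_left (i3.trans (mul_le_mul_of_nonneg_left (r32.trans r32') hP0)) hK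
  have t2 : 4 * (CTT * ℓ) / Real.sqrt b * Real.sqrt (m₁ * m₀) ≤ 4 * CTT * (P * ℓ ^ (-(1/2):ℝ)) := by
    have e1 : 4 * (CTT * ℓ) / Real.sqrt b * Real.sqrt (m₁ * m₀) =
        4 * CTT * (ℓ * Real.sqrt (m₁ * m₀ / b)) := by
      rw [Real.sqrt_div (by positivity)]
      ring
    rw [e1]
    refine mul_le_mul_of_nonneg_left ?_ (by positivity)
    have e2 : ℓ * ℓ ^ (-(3/2):ℝ) = ℓ ^ (-(1/2):ℝ) := by
      nth_rewrite 1 [← Real.rpow_one ℓ]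
      rw [← Real.rpow_add hℓ0]; norm_num
    calc ℓ * Real.sqrt (m₁ * m₀ / b) ≤ ℓ * (P * ℓ ^ (-(3/2):ℝ)) :=
          mul_le_mul_of_nonneg_left (i3.trans (mul_le_mul_of_nonneg_left r32 hP0)) hℓ0.le
      _ = P * (ℓ * ℓ ^ (-(3/2):ℝ)) := by ring
      _ = _ := by rw [e2]
  have t34 : ℓ ^ C3 * (P * ℓ ^ (-(a * (1/2-eps1)) + a' * (1/2+eps1))) ≤ P * ℓ ^ (-(1/2):ℝ) := by
    have e1 : ℓ ^ C3 * (P * ℓ ^ (-(a * (1/2-eps1)) + a' * (1/2+eps1))) =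
        P * ℓ ^ (C3 + (-(a * (1/2-eps1)) + a' * (1/2+eps1))) := by
      rw [Real.rpow_add hℓ0 C3]; ring
    rw [e1]
    exact mul_le_mul_of_nonneg_left (Real.rpow_le_rpow_of_exponent_le hℓ1 (by linarith)) hP0
  have t5 : ℓ ^ C3 * (b ^ (-(1/2-eps1)) * (m₁ * m₀) ^ (1/2+eps1)) ≤ P * ℓ ^ (-(1/2):ℝ) :=
    (mul_le_mul_of_nonneg_left i4 (by positivity)).trans t34
  have t3 : b ^ (-(13/25):ℝ) * (m₁ * m₀) ^ (1/2+eps1) ≤ P * ℓ ^ (-(1/2):ℝ) := by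
    have e1 : b ^ (-(13/25):ℝ) ≤ b ^ (-(1/2-eps1)) :=
      Real.rpow_le_rpow_of_exponent_le hb (by rw [he]; norm_num)
    have e2 : 1 ≤ ℓ ^ C3 := Real.one_le_rpow hℓ1 hC3
    have e3 : 0 ≤ b ^ (-(1/2-eps1)) * (m₁ * m₀) ^ (1/2+eps1) := by positivity
    calc b ^ (-(13/25):ℝ) * (m₁ * m₀) ^ (1/2+eps1)
        ≤ b ^ (-(1/2-eps1)) * (m₁ * m₀) ^ (1/2+eps1) :=
          mul_le_mul_of_nonneg_right e1 (by positivity)
      _ = 1 * (b ^ (-(1/2-eps1)) * (m₁ * m₀) ^ (1/2+eps1)) := (one_mul _).symm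
      _ ≤ ℓ ^ C3 * (b ^ (-(1/2-eps1)) * (m₁ * m₀) ^ (1/2+eps1)) :=
          mul_le_mul_of_nonneg_right e2 e3
      _ ≤ _ := t5
  have t4 : ℓ ^ (-A₀) * (m₁ * m₀) ≤ P * ℓ ^ (-(1/2):ℝ) := by
    calc ℓ ^ (-A₀) * (m₁ * m₀) ≤ ℓ ^ (-A₀) * (P * ℓ ^ a') :=
          mul_le_mul_of_nonneg_left i2 (by positivity)
      _ = P * ℓ ^ (-A₀ + a') := by rw [Real.rpow_add hℓ0]; ring
      _ ≤ _ := mul_le_mul_of_nonneg_left (Real.rpow_le_rpow_of_exponent_le hℓ1 (by linarith)) hP0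
  have t6 : ℓ ^ C3 / b * m₁ ≤ P * ℓ ^ (-(1/2):ℝ) := by
    calc ℓ ^ C3 / b * m₁ = ℓ ^ C3 * (m₁ / b) := by ring
      _ ≤ ℓ ^ C3 * (P * ℓ ^ (c2 - a)) := mul_le_mul_of_nonneg_left i1 (by positivity)
      _ = P * ℓ ^ (C3 + (c2 - a)) := by rw [Real.rpow_add hℓ0]; ring
      _ ≤ _ := mul_le_mul_of_nonneg_left (Real.rpow_le_rpow_of_exponent_le hℓ1 (by linarith)) hP0
  have hr : 0 < ℓ ^ (-(1/2):ℝ) := Real.rpow_pos_of_pos hℓ0 _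
  have hfin : (K + 4 * CTT + 4) * (P * ℓ ^ (-(1/2):ℝ)) ≤ 1/4 * P := by
    have e1 : ℓ ^ (1/2:ℝ) * ℓ ^ (-(1/2):ℝ) = 1 := by rw [← Real.rpow_add hℓ0]; norm_num
    have e2 : (4 * (K + 4 * CTT + 8)) * ℓ ^ (-(1/2):ℝ) ≤ 1 := by
      exact (mul_le_mul_of_nonneg_right hsq hr.le).trans e1.le
    have e3 : (K + 4 * CTT + 4) * ℓ ^ (-(1/2):ℝ) ≤ 1/4 := by
      have e4 : (K + 4 * CTT + 4) * ℓ ^ (-(1/2):ℝ) ≤ (K + 4 * CTT + 8) * ℓ ^ (-(1/2):ℝ) :=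
        mul_le_mul_of_nonneg_right (by linarith) hr.le
      linarith
    calc (K + 4 * CTT + 4) * (P * ℓ ^ (-(1/2):ℝ)) = ((K + 4 * CTT + 4) * ℓ ^ (-(1/2):ℝ)) * P := by ring
      _ ≤ 1/4 * P := mul_le_mul_of_nonneg_right e3 hP0
  calc _ ≤ K * (P * ℓ ^ (-(1/2):ℝ)) + 4 * CTT * (P * ℓ ^ (-(1/2):ℝ)) + P * ℓ ^ (-(1/2):ℝ) +
        P * ℓ ^ (-(1/2):ℝ) + P * ℓ ^ (-(1/2):ℝ) + P * ℓ ^ (-(1/2):ℝ) := by linarith
    _ = (K + 4 * CTT + 4) * (P * ℓ ^ (-(1/2):ℝ)) := by ring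
    _ ≤ _ := hfin

open Filter in
/-- `exp (-b^(1/50))` is smaller than every power of `log b` over `b` -/
theorem exp_real (a' B C1 : ℝ) : ∀ᶠ x : ℝ in atTop,
    2 * Real.exp (-(x ^ (1/50:ℝ))) ≤ 1/2 * (Real.log x ^ (-a') *
      (Real.log x ^ B / x * Real.log x ^ (-C1))) := by
  have e1 := AddLL7.ev_lit (a := 1) (c := 1) (by norm_num) (by norm_num) (a' - B + C1)
  have e2 := AddLL7.ev_lit (a := 1/100) (c := 1/3) (by norm_num) (by norm_num) 1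
  have e3 := AddLL7.ev_pow (a := 1/100) (a' := 1/50) (c := 1) (by norm_num) (by positivity)
  filter_upwards [e1, e2, e3, eventually_ge_atTop (4:ℝ), eventually_gt_atTop (Real.exp 1)]
    with x h1 h2 h3 h4 h5
  rw [Real.rpow_one] at h1 h2
  have hx0 : 0 < x := by linarith
  have hl1 : 1 < Real.log x := by
    rw [← Real.log_exp 1]; exact Real.log_lt_log (Real.exp_pos _) h5
  have hl0 : 0 < Real.log x := by linarith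
  rw [one_mul] at h1 h3
  have k1 : Real.log x ^ (-a') * (Real.log x ^ B / x * Real.log x ^ (-C1)) =
      (Real.log x ^ (a' - B + C1))⁻¹ / x := by
    rw [← Real.rpow_neg hl0.le]
    have : -(a' - B + C1) = -a' + B + -C1 := by ring
    rw [this, Real.rpow_add hl0, Real.rpow_add hl0]
    ring
  rw [k1]
  have k2 : x⁻¹ ≤ (Real.log x ^ (a' - B + C1))⁻¹ :=
    inv_anti₀ (Real.rpow_pos_of_pos hl0 _) h1
  have k3 : Real.exp (-(x ^ (1/50:ℝ))) ≤ x⁻¹ * x⁻¹ * x⁻¹ := by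
    have e : x⁻¹ * x⁻¹ * x⁻¹ = Real.exp (-(3 * Real.log x)) := by
      rw [show (3:ℝ) * Real.log x = Real.log x + Real.log x + Real.log x by ring, Real.exp_neg,
        Real.exp_add, Real.exp_add, Real.exp_log hx0, mul_inv, mul_inv]
    rw [e]
    refine Real.exp_le_exp.2 ?_
    linarith
  have hxi : 0 < x⁻¹ := inv_pos.2 hx0
  have k4 : x⁻¹ ≤ 1/4 := by
    rw [inv_le_comm₀ hx0 (by norm_num)]; norm_num; linarith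
  calc 2 * Real.exp (-(x ^ (1/50:ℝ))) ≤ 2 * (x⁻¹ * x⁻¹ * x⁻¹) := by linarith
    _ ≤ 2 * (x⁻¹ * x⁻¹ * (1/4)) := by gcongr
    _ = 1/2 * (x⁻¹ * x⁻¹) := by ring
    _ ≤ 1/2 * ((Real.log x ^ (a' - B + C1))⁻¹ * x⁻¹) := by gcongr
    _ = _ := by ring

end Crest.Agent.R4P.AddPayN7
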