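import Crest.Agent.R4P.AddUU_7
import Crest.Agent.R4P.AddLL_7

/-!
R4 (S0004), POWERS, module dseR (D4), helper7: **unlabelled pairs across an add node**, all classes.
-/

set_option autoImplicit false
set_option linter.unusedVariables false
open Finset

namespace Crest.Agent.R4P.AddUU7

open Crest.Agent.R4.HVW560 Crest.Agent.R4.HVWX793
open Crest.Agent.R4.ClsS (eps1)
open Crest.Agent.R4.LF363 (Lab)
open Crest.Agent.R4.InX944 (DP DP_pos)
open Crest.Agent.R4.ClsB (Tame)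
open Crest.Agent.R4

lemma cof_common {g x y : ℕ} (hg : 0 < g) : cof (g * x) (g * y) = cof x y := by
  unfold cof
  rw [Nat.gcd_mul_left, Nat.mul_div_mul_left _ _ hg]

/-- the cofactors of the transferred pair -/
lemma tr_pow {b k j v w : ℕ} (hb : b.Prime) (hjk : j < k) (hv : b ^ k ∣ v) (hw : b ^ j ∣ w)
    (hw' : ¬ b ^ (j + 1) ∣ w) (hv0 : 0 < v) :
    b ^ (k - j) * cof v (b ^ (k - j) * w) = cof v w ∧ cof (b ^ (k - j) * w) v = cof w v := by
  obtain ⟨v0, rfl⟩ := hv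
  obtain ⟨w0, rfl⟩ := hw
  have hbw : ¬ b ∣ w0 := by
    rintro ⟨c, rfl⟩
    exact hw' ⟨c, by rw [pow_succ]; ring⟩
  have e1 : b ^ (k - j) * (b ^ j * w0) = b ^ k * w0 := by
    rw [← mul_assoc, ← pow_add]; congr 2; omega
  have e2 : b ^ k * v0 = b ^ j * (b ^ (k - j) * v0) := by
    rw [← mul_assoc, ← pow_add]; congr 2; omega
  have hbk : 0 < b ^ k := Nat.pow_pos hb.pos
  have hbj : 0 < b ^ j := Nat.pow_pos hb.pos
  have hbz : 0 < b ^ (k - j) := Nat.pow_pos hb.pos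
  have hcop : Nat.Coprime (b ^ (k - j)) w0 :=
    Nat.Coprime.pow_left _ ((Nat.Prime.coprime_iff_not_dvd hb).2 hbw)
  rw [e1, cof_common hbk, cof_common hbk, e2, cof_common hbj, cof_common hbj]
  have g1 : Nat.gcd (b ^ (k - j) * v0) w0 = Nat.gcd v0 w0 := hcop.gcd_mul_left_cancel v0
  unfold cof
  constructor
  · rw [g1, Nat.mul_div_assoc _ (Nat.gcd_dvd_left v0 w0)]
  · rw [Nat.gcd_comm w0 (b ^ (k - j) * v0), g1, Nat.gcd_comm]

lemma ratio_two {b m : ℕ} (hb : b.Prime) (hm : 0 < m) :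
    (((b ^ m : ℕ) : ℝ) / ((b ^ m).totient : ℝ)) ≤ 2 := by
  rw [Nat.totient_prime_pow hb hm]
  have h2 : (2:ℝ) ≤ b := by exact_mod_cast hb.two_le
  have hb1 : ((b - 1 : ℕ) : ℝ) = (b:ℝ) - 1 := by
    rw [Nat.cast_sub hb.one_le, Nat.cast_one]
  have hp : (0:ℝ) < (b:ℝ) ^ (m - 1) := by positivity
  rw [div_le_iff₀ (by push_cast; rw [hb1]; exact mul_pos hp (by linarith))]
  push_cast
  rw [hb1]
  have e : (b:ℝ) ^ m = b ^ (m - 1) * b := by
    rw [← pow_succ]; congr 1; omega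
  rw [e]
  nlinarith

lemma tot_two {b m w : ℕ} (hb : b.Prime) (hm : 0 < m) (hw : 0 < w) :
    ((w.totient : ℝ) / w) ≤ 2 * (((b ^ m * w).totient : ℝ) / ((b ^ m * w : ℕ) : ℝ)) := by
  refine (tot_ratio_mul_le (z := b ^ m) (Nat.pow_pos hb.pos) hw).trans ?_
  exact mul_le_mul_of_nonneg_right (ratio_two hb hm) (by positivity)

lemma tame_div {Z : ℝ} {G q : ℕ} (h : Tame Z 1 q) (hG : G ∣ q) (hq : 0 < q) : Tame Z G q := by
  refine ⟨hG, le_trans (Finset.sum_le_sum_of_subset_of_nonneg ?_ fun i _ _ => by positivity) h.2⟩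
  refine Finset.filter_subset_filter _ ?_
  rw [Nat.div_one]
  exact Nat.primeFactors_mono (Nat.div_dvd_of_dvd hG) hq.ne'

lemma tame_z {Z : ℝ} {b k j w : ℕ} (hb : b.Prime) (hjk : j < k) (hw : b ^ j ∣ w) (hw0 : 0 < w)
    (h : Tame Z 1 w) : Tame Z (b ^ k) (b ^ (k - j) * w) := by
  obtain ⟨w0, rfl⟩ := hw
  have e1 : b ^ (k - j) * (b ^ j * w0) = b ^ k * w0 := by
    rw [← mul_assoc, ← pow_add]; congr 2; omega
  refine ⟨by rw [e1]; exact dvd_mul_right _ _, ?_⟩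
  rw [e1, Nat.mul_div_cancel_left _ (Nat.pow_pos hb.pos)]
  refine le_trans (Finset.sum_le_sum_of_subset_of_nonneg ?_ fun i _ _ => by positivity) h.2
  refine Finset.filter_subset_filter _ ?_
  rw [Nat.div_one]
  exact Nat.primeFactors_mono (dvd_mul_left _ _) hw0.ne'

/-- geometric sum of the powers `b ^ (k - j)`, `j < k` -/
lemma geo_z {b : ℕ} {s : ℝ} (hb : 2 ≤ b) (hs : (b:ℝ) ^ (-s) ≤ 1/2) (k : ℕ) :
    ∑ j ∈ Finset.range k, (((b ^ (k - j) : ℕ) : ℝ)) ^ (-s) ≤ 2 * (b:ℝ) ^ (-s) := by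
  have hb0 : (0:ℝ) < b := by exact_mod_cast (by omega : 0 < b)
  have hx : 0 < (b:ℝ) ^ (-s) := Real.rpow_pos_of_pos hb0 _
  set x := (b:ℝ) ^ (-s) with hxd
  have e : ∀ m : ℕ, (((b ^ m : ℕ) : ℝ)) ^ (-s) = x ^ m := fun m => by
    rw [hxd]
    push_cast
    rw [← Real.rpow_natCast, ← Real.rpow_mul hb0.le, ← Real.rpow_natCast, ← Real.rpow_mul hb0.le]
    congr 1; ring
  have h1 : ∑ j ∈ Finset.range k, (((b ^ (k - j) : ℕ) : ℝ)) ^ (-s) =
      ∑ j ∈ Finset.range k, x ^ (j + 1) := by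
    rw [← Finset.sum_range_reflect]
    refine Finset.sum_congr rfl fun j hj => ?_
    have hj' := Finset.mem_range.1 hj
    rw [e]
    congr 1; omega
  rw [h1]
  have h2 : ∀ k : ℕ, ∑ j ∈ Finset.range k, x ^ (j + 1) ≤ 2 * x * (1 - (1/2)^k) := by
    intro k
    induction k with
    | zero => simp
    | succ k ih =>
      rw [Finset.sum_range_succ]
      have h3 : x ^ k ≤ (1/2)^k := pow_le_pow_left₀ hx.le hs k
      have h4 : x ^ (k + 1) ≤ x * (1/2)^k := by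
        rw [pow_succ]
        calc x ^ k * x ≤ (1/2)^k * x := mul_le_mul_of_nonneg_right h3 hx.le
          _ = _ := by ring
      have h5 : (2:ℝ) * x * (1 - (1/2)^(k+1)) = 2 * x * (1 - (1/2)^k) + x * (1/2)^k := by
        rw [pow_succ]; ring
      linarith
  refine (h2 k).trans ?_
  have : (0:ℝ) ≤ (1/2)^k := by positivity
  nlinarith

set_option maxHeartbeats 800000 in
/-- **all the classes of pairs across an add node**, `D ≤ 2^N` -/
theorem core_all : ∃ C c0 : ℝ, 1 ≤ C ∧ 0 < c0 ∧ ∀ c1 : ℝ, 0 < c1 → c1 ≤ c0 → ∃ T0 : ℝ, 1 ≤ T0 ∧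
    ∀ (X K L θ : ℝ) (n N b k : ℕ) (V W : Finset ℕ) (E : Finset (ℕ × ℕ)) (R : ℕ → ℝ)
      (F : ℕ × ℕ → ℝ),
    400 ≤ n → b.Prime → 16 ≤ b → T0 ≤ (2:ℝ)^n → X ≤ Real.exp (((2:ℝ)^n)^c1) → 0 ≤ K → 0 ≤ L →
    (∀ w ∈ V ∪ W, 0 < w ∧ 0 < R w) → (∀ w ∈ V ∪ W, R w ≤ L * wt R w) →
    (∀ Z : ℝ, X ≤ Z → ∀ w ∈ V ∪ W, Tame Z 1 w) →
    (∀ v ∈ V, b ^ k ∣ v) → (∀ w ∈ W, ¬ b ^ k ∣ w) →
    E ⊆ V ×ˢ W → (∀ e ∈ E, DP R R e ≤ 2^N) →
    (∀ e ∈ E, F e ≤ K * ((R e.1 * R e.2) / DP R R e)) →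
    (∀ e ∈ E, 0 < F e → ∃ m m' : ℤ,
      |(m + θ) * (cof e.2 e.1 : ℕ) - (m' + θ) * (cof e.1 e.2 : ℕ)| ≤ 2 * DP R R e) →
    (∀ q ∈ V, R q ≤ 1/2^n → ∀ ρ, ¬ Lab θ (R q) ρ) →
    ∑ e ∈ E, F e ≤ 2 * (K * L^2 * (((n:ℝ) + N) * (C * (2:ℝ)^(2*eps1*n)) + C)) *
      ((b:ℝ)^(-(1/2-eps1)) * ((∑ q ∈ V, wt R q) * (∑ r ∈ W, wt R r))^(1/2+eps1)) +
      2 * K * (L / b) * ∑ q ∈ V, wt R q := by
  classical
  obtain ⟨C, c0, hC1, hc0, hC⟩ := core_z
  have he1 : eps1 = 1/1000 := rfl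
  refine ⟨C, c0, hC1, hc0, fun c1 hc1 hc10 => ?_⟩
  obtain ⟨T0, hT01, hT0⟩ := hC c1 hc1 hc10
  refine ⟨T0, hT01, ?_⟩
  intro X K L θ n N b k V W E R F hn hb hb16 hTn hX hK hL hVW hLVW ht hVb hWb hE hDN hF hrel hU
  have hb0 : (0:ℝ) < b := by exact_mod_cast hb.pos
  have hb1 : (1:ℝ) ≤ b := by exact_mod_cast hb.one_le
  have hb16' : (16:ℝ) ≤ b := by exact_mod_cast hb16
  have hmu : ∀ q ∈ V ∪ W, 0 ≤ wt R q := fun q hq => by
    unfold wt; exact mul_nonneg (hVW q hq).2.le (by positivity)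
  set MV := ∑ q ∈ V, wt R q with hMV
  set MW := ∑ q ∈ W, wt R q with hMW
  have hMV0 : 0 ≤ MV := Finset.sum_nonneg fun q hq => hmu q (Finset.mem_union_left _ hq)
  have hMW0 : 0 ≤ MW := Finset.sum_nonneg fun q hq => hmu q (Finset.mem_union_right _ hq)
  set Wj : ℕ → Finset ℕ := fun j => W.filter fun w => w.factorization b = j with hWj
  set Ej : ℕ → Finset (ℕ × ℕ) := fun j => E.filter fun e => e.2.factorization b = j with hEj
  have hWpos : ∀ w ∈ W, 0 < w := fun w hw => (hVW w (Finset.mem_union_right _ hw)).1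
  have hlt : ∀ w ∈ W, w.factorization b < k := by
    intro w hw
    by_contra hc
    push Not at hc
    exact hWb w hw ((hb.pow_dvd_iff_le_factorization (hWpos w hw).ne').2 hc)
  have hsplit : ∑ e ∈ E, F e = ∑ j ∈ Finset.range k, ∑ e ∈ Ej j, F e := by
    rw [hEj]
    refine (Finset.sum_fiberwise_of_maps_to (fun e he => ?_) F).symm
    exact Finset.mem_range.2 (hlt _ (Finset.mem_product.1 (hE he)).2)
  have hone : ∀ j ∈ Finset.range k, ∑ e ∈ Ej j, F e ≤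
      K * L^2 * (((n:ℝ) + N) * (C * (2:ℝ)^(2*eps1*n)) + C) *
        ((((b ^ (k - j) : ℕ) : ℝ))^(-(1/2-eps1)) * (MV * MW)^(1/2+eps1)) +
      K * L * MV * (((b ^ (k - j) : ℕ) : ℝ))^(-(1:ℝ)) := by
    intro j hj
    have hjk := Finset.mem_range.1 hj
    have hsubW : Wj j ⊆ W := Finset.filter_subset _ _
    have hWd : ∀ w ∈ Wj j, b ^ j ∣ w ∧ ¬ b ^ (j + 1) ∣ w := by
      intro w hw
      obtain ⟨h1, h2⟩ := Finset.mem_filter.1 hw
      have hw0 := (hWpos w h1).ne'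
      constructor
      · exact (hb.pow_dvd_iff_le_factorization hw0).2 h2.ge
      · intro h3
        have := (hb.pow_dvd_iff_le_factorization hw0).1 h3
        omega
    have hEsub : Ej j ⊆ V ×ˢ Wj j := by
      intro e he
      obtain ⟨h1, h2⟩ := Finset.mem_filter.1 he
      have h := Finset.mem_product.1 (hE h1)
      exact Finset.mem_product.2 ⟨h.1, Finset.mem_filter.2 ⟨h.2, h2⟩⟩
    have hEE : ∀ e ∈ Ej j, e ∈ E := fun e he => (Finset.mem_filter.1 he).1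
    have hkj : 0 < k - j := by omega
    have key := hT0 X K L θ n N (b ^ k) (b ^ (k - j)) V (Wj j) (Ej j) R F hn
      (Nat.pow_pos hb.pos) hTn hX (Nat.pow_pos hb.pos) hK hL
      (fun w hw => hVW w (Finset.mem_union_left _ hw))
      (fun w hw => hVW w (Finset.mem_union_right _ (hsubW hw)))
      (fun w hw => hLVW w (Finset.mem_union_left _ hw))
      (fun w hw => hLVW w (Finset.mem_union_right _ (hsubW hw)))
      (fun Z hZ w hw => tame_div (ht Z hZ w (Finset.mem_union_left _ hw)) (hVb w hw)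
        (hVW w (Finset.mem_union_left _ hw)).1)
      (fun Z hZ w hw => tame_z hb hjk (hWd w hw).1 (hWpos w (hsubW hw))
        (ht Z hZ w (Finset.mem_union_right _ (hsubW hw))))
      (fun w hw => tot_two hb hkj (hWpos w (hsubW hw)))
      hEsub
      ⟨fun e he => by
        have h := Finset.mem_product.1 (hEsub he)
        exact (tr_pow hb hjk (hVb _ h.1) (hWd _ h.2).1 (hWd _ h.2).2
          (hVW _ (Finset.mem_union_left _ h.1)).1).1,
       fun e he => by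
        have h := Finset.mem_product.1 (hEsub he)
        exact (tr_pow hb hjk (hVb _ h.1) (hWd _ h.2).1 (hWd _ h.2).2
          (hVW _ (Finset.mem_union_left _ h.1)).1).2⟩
      (fun e he => hDN e (hEE e he)) (fun e he => hF e (hEE e he))
      (fun e he => hrel e (hEE e he)) hU
    refine key.trans (add_le_add ?_ ?_)
    · have hc : 0 ≤ K * L^2 * (((n:ℝ) + N) * (C * (2:ℝ)^(2*eps1*n)) + C) := by positivity
      refine mul_le_mul_of_nonneg_left (mul_le_mul_of_nonneg_left ?_ (by positivity)) hc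
      refine Real.rpow_le_rpow (mul_nonneg hMV0 (Finset.sum_nonneg fun q hq =>
        hmu q (Finset.mem_union_right _ (hsubW hq)))) ?_ (by rw [he1]; norm_num)
      refine mul_le_mul_of_nonneg_left ?_ hMV0
      exact Finset.sum_le_sum_of_subset_of_nonneg hsubW fun q hq _ =>
        hmu q (Finset.mem_union_right _ hq)
    · rw [Real.rpow_neg_one]
      refine le_of_eq ?_
      rw [div_eq_mul_inv]
      ring
  rw [hsplit]
  refine (Finset.sum_le_sum hone).trans ?_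
  rw [Finset.sum_add_distrib, ← Finset.mul_sum, ← Finset.mul_sum, ← Finset.sum_mul]
  have hg1 := geo_z (b := b) (s := 1/2-eps1) hb.two_le (by
    have h1 : (b:ℝ)^(-(1/2-eps1)) ≤ (16:ℝ)^(-(1/2-eps1)) :=
      Real.rpow_le_rpow_of_nonpos (by norm_num) hb16' (by rw [he1]; norm_num)
    refine h1.trans ?_
    have h2 : (16:ℝ)^(-(1/2-eps1)) ≤ (16:ℝ)^(-(1/4):ℝ) :=
      Real.rpow_le_rpow_of_exponent_le (by norm_num) (by rw [he1]; norm_num)
    refine h2.trans (le_of_eq ?_)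
    rw [show (16:ℝ) = 2 ^ (4:ℝ) by norm_num, ← Real.rpow_mul (by norm_num)]
    norm_num) k
  have hg2 := geo_z (b := b) (s := 1) hb.two_le (by
    rw [Real.rpow_neg_one]
    rw [inv_le_comm₀ hb0 (by norm_num)]
    norm_num
    linarith) k
  have hc : 0 ≤ K * L^2 * (((n:ℝ) + N) * (C * (2:ℝ)^(2*eps1*n)) + C) := by positivity
  have hY : 0 ≤ (MV * MW)^(1/2+eps1) := by positivity
  have hKL : 0 ≤ K * L * MV := by positivity
  refine add_le_add ?_ ?_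
  · calc K * L^2 * (((n:ℝ) + N) * (C * (2:ℝ)^(2*eps1*n)) + C) *
          ((∑ j ∈ Finset.range k, (((b ^ (k - j) : ℕ) : ℝ))^(-(1/2-eps1))) * (MV * MW)^(1/2+eps1))
        ≤ K * L^2 * (((n:ℝ) + N) * (C * (2:ℝ)^(2*eps1*n)) + C) *
          ((2 * (b:ℝ)^(-(1/2-eps1))) * (MV * MW)^(1/2+eps1)) :=
          mul_le_mul_of_nonneg_left (mul_le_mul_of_nonneg_right hg1 hY) hc
      _ = _ := by ring
  · calc K * L * MV * ∑ j ∈ Finset.range k, (((b ^ (k - j) : ℕ) : ℝ))^(-(1:ℝ))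
        ≤ K * L * MV * (2 * (b:ℝ)^(-(1:ℝ))) := mul_le_mul_of_nonneg_left hg2 hKL
      _ = _ := by rw [Real.rpow_neg_one, div_eq_mul_inv]; ring


open Filter in
/-- the scale `2^n` between `ℓ^A` and `2 ℓ^A` -/
lemma scale {x A : ℝ} (hx : 1 ≤ x) (hA : 0 ≤ A) : ∃ n : ℕ, x ^ A ≤ (2:ℝ) ^ n ∧ (2:ℝ) ^ n ≤ 2 * x ^ A ∧
    (n:ℝ) ≤ A * Real.log x / Real.log 2 + 1 := by
  have hx0 : 0 < x := by linarith
  have hl2 : 0 < Real.log 2 := Real.log_pos (by norm_num)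
  have hlx : 0 ≤ Real.log x := Real.log_nonneg hx
  set y := A * Real.log x / Real.log 2 with hy
  have hy0 : 0 ≤ y := by rw [hy]; positivity
  have e : x ^ A = (2:ℝ) ^ y := by
    rw [Real.rpow_def_of_pos hx0, Real.rpow_def_of_pos (by norm_num : (0:ℝ) < 2), hy]
    congr 1
    field_simp
  refine ⟨⌈y⌉₊, ?_, ?_, (Nat.ceil_lt_add_one hy0).le⟩
  · rw [e, ← Real.rpow_natCast]
    exact Real.rpow_le_rpow_of_exponent_le (by norm_num) (Nat.le_ceil y)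
  · rw [e, ← Real.rpow_natCast]
    have h1 : ((⌈y⌉₊ : ℕ) : ℝ) ≤ y + 1 := (Nat.ceil_lt_add_one hy0).le
    calc (2:ℝ) ^ ((⌈y⌉₊ : ℕ) : ℝ) ≤ (2:ℝ) ^ (y + 1) :=
          Real.rpow_le_rpow_of_exponent_le (by norm_num) h1
      _ = _ := by rw [Real.rpow_add (by norm_num), Real.rpow_one]; ring

open Filter in
lemma ev_exp (A : ℝ) : ∀ᶠ x : ℝ in atTop, 2 * x ^ A ≤ Real.exp (x ^ (4/5:ℝ)) := by
  have h1 : Tendsto (fun x : ℝ => x ^ (4/5:ℝ)) atTop atTop := tendsto_rpow_atTop (by norm_num)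
  have h2 := (isLittleO_rpow_exp_atTop (5/4 * A)).bound (show (0:ℝ) < 1/2 by norm_num)
  have h3 := h1.eventually h2
  filter_upwards [h3, eventually_gt_atTop (0:ℝ)] with x hx h0
  have e : (x ^ (4/5:ℝ)) ^ (5/4 * A) = x ^ A := by
    rw [← Real.rpow_mul h0.le]; congr 1; ring
  rw [e, Real.norm_of_nonneg (Real.rpow_nonneg h0.le _), Real.norm_of_nonneg (Real.exp_pos _).le] at hx
  linarith

set_option maxHeartbeats 800000 in
/-- **unlabelled pairs across an add node**: `V` = items divisible by `b^k`, `W` = items not divisible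
by `b^k`; the items of `V` of radius `≤ (log b)^(-Ct)` have no label. -/
theorem uu_cross : ∃ κ₀ : ℝ, 0 ≤ κ₀ ∧ ∀ (Cl Ct A : ℝ), 0 ≤ Cl → 0 ≤ Ct → 0 ≤ A →
    ∃ b₁ : ℕ, ∀ b : ℕ, b₁ ≤ b → b.Prime →
    ∀ (η θ : ℝ) (k : ℕ) (V W : Finset ℕ) (E : Finset (ℕ × ℕ)) (R : ℕ → ℝ) (F : ℕ × ℕ → ℝ),
    0 < η → η ≤ Real.exp (-(Real.log b ^ (4/5:ℝ))) →
    (∀ w ∈ V ∪ W, 0 < w ∧ 0 < R w) → (∀ w ∈ V ∪ W, R w ≤ Cl * Real.log b * wt R w) →
    (∀ Z : ℝ, (b:ℝ)^2 ≤ Z → ∀ w ∈ V ∪ W, Tame Z 1 w) →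
    (∀ v ∈ V, b ^ k ∣ v) → (∀ w ∈ W, ¬ b ^ k ∣ w) → E ⊆ V ×ˢ W →
    (∀ e ∈ E, F e ≤ 2 * ((R e.1 * R e.2) / DP R R e) * (2 * (η * DP R R e) + 1)) →
    (∀ e ∈ E, 0 < F e → ∃ m m' : ℤ,
      |(m + θ) * (cof e.2 e.1 : ℕ) - (m' + θ) * (cof e.1 e.2 : ℕ)| ≤ η * DP R R e) →
    (∀ q ∈ V, R q ≤ Real.log b ^ (-Ct) → ∀ ρ, ¬ Lab θ (R q) ρ) →
    ∑ e ∈ E, F e ≤ Real.log b ^ (-A) * ((∑ q ∈ V, wt R q) * ∑ r ∈ W, wt R r) +
      Real.log b ^ (κ₀ + (Ct + A) / 500) * ((b:ℝ)^(-(1/2-eps1)) *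
        ((∑ q ∈ V, wt R q) * (∑ r ∈ W, wt R r))^(1/2+eps1)) +
      Real.log b ^ (κ₀ + (Ct + A) / 500) / b * ∑ q ∈ V, wt R q := by
  classical
  obtain ⟨C, c0, hC1, hc0, hC⟩ := core_all
  obtain ⟨T0, hT01, hT0⟩ := hC c0 hc0 le_rfl
  have he1 : eps1 = 1/1000 := rfl
  refine ⟨4 + (3 + 2 / c0) / 500, by positivity, ?_⟩
  intro Cl Ct A hCl hCt hA
  set A1 := Ct + A + 3 + 2 / c0 with hA1
  have hA1p : 0 < A1 := by positivity
  have hev := (ev_exp A1).and ((Filter.eventually_ge_atTop (2:ℝ)).and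
    ((Filter.eventually_ge_atTop (12 * Cl^2 * (5 * C) + 12 * Cl + 6 * Cl^2 + 1)).and
    (((tendsto_rpow_atTop hA1p).eventually_ge_atTop (max T0 ((2:ℝ)^401))).and
    (AddLL7.ev_lit (a := 1) (c := Real.log 2 / (2 * A1)) one_pos
      (div_pos (Real.log_pos (by norm_num)) (by positivity)) 1))))
  obtain ⟨x₀, hx₀⟩ := Filter.eventually_atTop.1 hev
  refine ⟨⌈Real.exp x₀⌉₊ + 16, fun b hb hbp => ?_⟩
  intro η θ k V W E R F hη hη1 hVW hLVW ht hVb hWb hE hF hrel hU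
  have hb16 : 16 ≤ b := by omega
  have hb0 : (0:ℝ) < b := by exact_mod_cast (by omega : 0 < b)
  have hbx : Real.exp x₀ ≤ b := (Nat.le_ceil _).trans (by exact_mod_cast (by omega : ⌈Real.exp x₀⌉₊ ≤ b))
  set ℓ := Real.log (b:ℝ) with hℓ
  have hxl : x₀ ≤ ℓ := by rw [hℓ]; exact (Real.le_log_iff_exp_le hb0).2 hbx
  obtain ⟨m1, m2, m3, m4, m5⟩ := hx₀ ℓ hxl
  rw [Real.rpow_one, Real.rpow_one] at m5
  have hℓ0 : 0 < ℓ := by linarith
  have hℓ1 : 1 ≤ ℓ := by linarith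
  have hC0 : 0 ≤ C := by linarith
  have q1 : 0 ≤ 12 * Cl^2 * (5 * C) := by positivity
  have q2 : 0 ≤ 12 * Cl := by positivity
  have q3 : 0 ≤ 6 * Cl^2 := by positivity
  obtain ⟨n, n1, n2, n3⟩ := scale hℓ1 hA1p.le
  have h2n : (0:ℝ) < (2:ℝ)^n := by positivity
  have hP0 : 0 < ℓ ^ A1 := Real.rpow_pos_of_pos hℓ0 _
  have hP1 : 1 ≤ ℓ ^ A1 := Real.one_le_rpow hℓ1 hA1p.le
  have hn400 : 400 ≤ n := by
    by_contra hc
    push Not at hc
    have h1 : (2:ℝ)^n ≤ 2^400 := pow_le_pow_right₀ (by norm_num) hc.le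
    have h2 : (2:ℝ)^401 ≤ 2^n := ((le_max_right _ _).trans m4).trans n1
    have h3 : (2:ℝ)^400 < 2^401 := pow_lt_pow_right₀ (by norm_num) (by norm_num)
    exact absurd (h2.trans h1) (not_le.2 h3)
  have hTn : T0 ≤ (2:ℝ)^n := ((le_max_left _ _).trans m4).trans n1
  have hX : (b:ℝ)^2 ≤ Real.exp (((2:ℝ)^n)^c0) := by
    have h1 : (b:ℝ)^2 = Real.exp (2 * ℓ) := by
      rw [mul_comm, Real.exp_mul, hℓ, Real.exp_log hb0]
      norm_num
    rw [h1]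
    refine Real.exp_le_exp.2 ?_
    have h2 : ℓ ^ (2:ℝ) ≤ ((2:ℝ)^n)^c0 := by
      calc ℓ ^ (2:ℝ) ≤ ℓ ^ (A1 * c0) := by
            refine Real.rpow_le_rpow_of_exponent_le hℓ1 ?_
            have : 2 / c0 * c0 = 2 := by field_simp
            have h3 : 2 / c0 * c0 ≤ A1 * c0 := mul_le_mul_of_nonneg_right (by
              rw [hA1]; linarith) hc0.le
            linarith
        _ = (ℓ ^ A1) ^ c0 := by rw [← Real.rpow_mul hℓ0.le]
        _ ≤ _ := Real.rpow_le_rpow hP0.le n1 hc0.le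
    have h4 : ℓ ^ (2:ℝ) = ℓ * ℓ := by
      rw [show (2:ℝ) = ((2:ℕ):ℝ) by norm_num, Real.rpow_natCast]; ring
    calc 2 * ℓ ≤ ℓ * ℓ := mul_le_mul_of_nonneg_right m2 hℓ0.le
      _ = ℓ ^ (2:ℝ) := h4.symm
      _ ≤ _ := h2
  have hinv : 1 / (2:ℝ)^n ≤ ℓ ^ (-A1) := by
    rw [Real.rpow_neg hℓ0.le, ← one_div]
    exact one_div_le_one_div_of_le hP0 n1
  have hηn : η * (2:ℝ)^n ≤ 1 := by
    calc η * (2:ℝ)^n ≤ Real.exp (-(ℓ ^ (4/5:ℝ))) * Real.exp (ℓ ^ (4/5:ℝ)) :=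
          mul_le_mul hη1 (n2.trans m1) h2n.le (Real.exp_pos _).le
      _ = 1 := by rw [← Real.exp_add]; simp
  have hη2 : η ≤ 1 / (2:ℝ)^n := by rw [le_div_iff₀ h2n]; exact hηn
  have hη11 : η ≤ 1 := by
    refine hη1.trans ?_
    rw [Real.exp_le_one_iff]
    have := Real.rpow_nonneg hℓ0.le (4/5:ℝ)
    linarith
  have hmu : ∀ q ∈ V ∪ W, 0 ≤ wt R q := fun q hq => by
    unfold wt; exact mul_nonneg (hVW q hq).2.le (by positivity)
  set MV := ∑ q ∈ V, wt R q with hMV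
  set MW := ∑ q ∈ W, wt R q with hMW
  have hMV0 : 0 ≤ MV := Finset.sum_nonneg fun q hq => hmu q (Finset.mem_union_left _ hq)
  have hMW0 : 0 ≤ MW := Finset.sum_nonneg fun q hq => hmu q (Finset.mem_union_right _ hq)
  have hDpos : ∀ e ∈ E, 0 < DP R R e := by
    intro e he
    have h := Finset.mem_product.1 (hE he)
    exact DP_pos (hVW _ (Finset.mem_union_right _ h.2)).1 (hVW _ (Finset.mem_union_left _ h.1)).2
  set L := Cl * ℓ with hL
  have hL0 : 0 ≤ L := by positivity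
  -- the split
  set E1 := E.filter fun e => DP R R e ≤ (2:ℝ)^n with hE1
  set E2 := E.filter fun e => ¬ DP R R e ≤ (2:ℝ)^n with hE2
  have hsplit : ∑ e ∈ E, F e = ∑ e ∈ E1, F e + ∑ e ∈ E2, F e :=
    (Finset.sum_filter_add_sum_filter_not _ _ _).symm
  have hE1E : E1 ⊆ E := Finset.filter_subset _ _
  have key := hT0 ((b:ℝ)^2) 6 L θ n n b k V W E1 R F hn400 hbp hb16 hTn hX (by norm_num) hL0 hVW
    hLVW ht hVb hWb (hE1E.trans hE) (fun e he => (Finset.mem_filter.1 he).2)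
    (fun e he => by
      have heE := hE1E he
      have hD := hDpos e heE
      have hDn := (Finset.mem_filter.1 he).2
      have h := Finset.mem_product.1 (hE heE)
      have hR := (hVW _ (Finset.mem_union_left _ h.1)).2
      have hR' := (hVW _ (Finset.mem_union_right _ h.2)).2
      have h1 : η * DP R R e ≤ 1 := (mul_le_mul_of_nonneg_left hDn hη.le).trans hηn
      have h2 : 0 ≤ (R e.1 * R e.2) / DP R R e := by positivity
      calc F e ≤ 2 * ((R e.1 * R e.2) / DP R R e) * (2 * (η * DP R R e) + 1) := hF e heE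
        _ ≤ 2 * ((R e.1 * R e.2) / DP R R e) * 3 :=
            mul_le_mul_of_nonneg_left (by linarith) (by positivity)
        _ = _ := by ring)
    (fun e he hFe => by
      have heE := hE1E he
      obtain ⟨m, m', hm⟩ := hrel e heE hFe
      refine ⟨m, m', hm.trans ?_⟩
      have hD := hDpos e heE
      exact mul_le_mul_of_nonneg_right (by linarith) hD.le)
    (fun q hq hRq ρ => hU q hq (hRq.trans (hinv.trans (Real.rpow_le_rpow_of_exponent_le hℓ1 (by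
      rw [hA1]
      have : 0 ≤ 2 / c0 := by positivity
      linarith)))) ρ)
  -- far pairs
  have hfar : ∑ e ∈ E2, F e ≤ ℓ ^ (-A) * (MV * MW) := by
    have h1 : ∀ e ∈ E2, F e ≤ 6 * (1 / (2:ℝ)^n) * L^2 * (wt R e.1 * wt R e.2) := by
      intro e he
      obtain ⟨heE, hDn⟩ := Finset.mem_filter.1 he
      push Not at hDn
      have hD := hDpos e heE
      have h := Finset.mem_product.1 (hE heE)
      have hR := (hVW _ (Finset.mem_union_left _ h.1)).2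
      have hR' := (hVW _ (Finset.mem_union_right _ h.2)).2
      have l1 := hLVW _ (Finset.mem_union_left _ h.1)
      have l2 := hLVW _ (Finset.mem_union_right _ h.2)
      have h5 : 0 ≤ L * wt R e.1 := hR.le.trans l1
      have h6 : 1 / DP R R e ≤ 1 / (2:ℝ)^n := one_div_le_one_div_of_le h2n hDn.le
      have h7 : R e.1 * R e.2 ≤ L^2 * (wt R e.1 * wt R e.2) := by
        calc R e.1 * R e.2 ≤ (L * wt R e.1) * (L * wt R e.2) := mul_le_mul l1 l2 hR'.le h5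
          _ = _ := by ring
      have h8 : 0 ≤ R e.1 * R e.2 := by positivity
      calc F e ≤ 2 * ((R e.1 * R e.2) / DP R R e) * (2 * (η * DP R R e) + 1) := hF e heE
        _ = (R e.1 * R e.2) * (4 * η + 2 * (1 / DP R R e)) := by field_simp; ring
        _ ≤ (R e.1 * R e.2) * (4 * (1 / (2:ℝ)^n) + 2 * (1 / (2:ℝ)^n)) :=
            mul_le_mul_of_nonneg_left (by linarith) h8
        _ = (R e.1 * R e.2) * (6 * (1 / (2:ℝ)^n)) := by ring
        _ ≤ (L^2 * (wt R e.1 * wt R e.2)) * (6 * (1 / (2:ℝ)^n)) :=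
            mul_le_mul_of_nonneg_right h7 (by positivity)
        _ = _ := by ring
    have h2 : ∑ e ∈ E2, F e ≤ 6 * (1 / (2:ℝ)^n) * L^2 * (MV * MW) := by
      calc ∑ e ∈ E2, F e ≤ ∑ e ∈ E2, 6 * (1 / (2:ℝ)^n) * L^2 * (wt R e.1 * wt R e.2) :=
            Finset.sum_le_sum h1
        _ ≤ ∑ e ∈ V ×ˢ W, 6 * (1 / (2:ℝ)^n) * L^2 * (wt R e.1 * wt R e.2) := by
            refine Finset.sum_le_sum_of_subset_of_nonneg
              ((Finset.filter_subset _ _).trans hE) fun e he _ => ?_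
            have h := Finset.mem_product.1 he
            have a1 := hmu _ (Finset.mem_union_left W h.1)
            have a2 := hmu _ (Finset.mem_union_right V h.2)
            positivity
        _ = _ := by rw [← Finset.mul_sum, Finset.sum_product, Finset.sum_mul_sum]
    refine h2.trans (mul_le_mul_of_nonneg_right ?_ (mul_nonneg hMV0 hMW0))
    -- `6 L² / 2^n ≤ ℓ^(-A)`
    have h3 : ℓ ^ (-A1) ≤ ℓ ^ (-A) * ℓ ^ (-(3:ℝ)) := by
      rw [← Real.rpow_add hℓ0]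
      refine Real.rpow_le_rpow_of_exponent_le hℓ1 ?_
      rw [hA1]
      have : 0 ≤ 2 / c0 := by positivity
      linarith
    have h4 : ℓ ^ (-(3:ℝ)) = (ℓ^3)⁻¹ := by
      rw [Real.rpow_neg hℓ0.le]; congr 1; exact_mod_cast Real.rpow_natCast ℓ 3
    have h5 : 0 ≤ ℓ ^ (-A) := Real.rpow_nonneg hℓ0.le _
    have h6 : 6 * Cl^2 ≤ ℓ := by linarith
    calc 6 * (1 / (2:ℝ)^n) * L^2 ≤ 6 * (ℓ ^ (-A) * (ℓ^3)⁻¹) * L^2 := by
          apply mul_le_mul_of_nonneg_right _ (sq_nonneg _)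
          rw [← h4]
          linarith [hinv.trans h3]
      _ = ℓ ^ (-A) * ((6 * Cl^2) / ℓ) := by
          rw [hL]; field_simp
      _ ≤ ℓ ^ (-A) * 1 := by
          apply mul_le_mul_of_nonneg_left _ h5
          rw [div_le_one hℓ0]; exact h6
      _ = _ := mul_one _
  -- near pairs
  have hYY : 0 ≤ (b:ℝ)^(-(1/2-eps1)) * (MV * MW)^(1/2+eps1) := by positivity
  set Ce := 4 + (3 + 2 / c0) / 500 + (Ct + A) / 500 with hCe
  have hCe' : Ce = 2 * eps1 * A1 + 4 := by rw [hCe, hA1, he1]; ring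
  have hP2 : 1 ≤ ℓ ^ (2 * eps1 * A1) := Real.one_le_rpow hℓ1 (by rw [he1]; positivity)
  have hC3 : ℓ ^ Ce = ℓ ^ (2 * eps1 * A1) * ℓ^4 := by
    rw [hCe', Real.rpow_add hℓ0]
    congr 1
    exact_mod_cast Real.rpow_natCast ℓ 4
  have hnℓ : (n:ℝ) ≤ ℓ := by
    have hl2 : 0 < Real.log 2 := Real.log_pos (by norm_num)
    have h1 : A1 * Real.log ℓ / Real.log 2 ≤ ℓ / 2 := by
      rw [div_le_iff₀ hl2]
      calc A1 * Real.log ℓ ≤ A1 * (Real.log 2 / (2 * A1) * ℓ) :=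
            mul_le_mul_of_nonneg_left m5 hA1p.le
        _ = _ := by field_simp
    linarith
  have hc1 : 2 * (6 * L^2 * (((n:ℝ) + n) * (C * (2:ℝ)^(2*eps1*n)) + C)) ≤ ℓ ^ Ce := by
    have h3 : (2:ℝ)^(2*eps1*n) ≤ 2 * ℓ ^ (2 * eps1 * A1) := by
      have h1 : (2:ℝ)^(2*eps1*n) = ((2:ℝ)^n)^(2*eps1) := by
        rw [← Real.rpow_natCast, ← Real.rpow_mul (by norm_num)]
        congr 1; ring
      rw [h1]
      calc ((2:ℝ)^n)^(2*eps1) ≤ (2 * ℓ ^ A1)^(2*eps1) :=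
            Real.rpow_le_rpow h2n.le n2 (by rw [he1]; norm_num)
        _ = 2^(2*eps1) * ℓ ^ (2 * eps1 * A1) := by
            rw [Real.mul_rpow (by norm_num) hP0.le, ← Real.rpow_mul hℓ0.le]
            congr 2; ring
        _ ≤ 2 * ℓ ^ (2 * eps1 * A1) := by
            refine mul_le_mul_of_nonneg_right ?_ (by positivity)
            calc (2:ℝ)^(2*eps1) ≤ 2^(1:ℝ) :=
                  Real.rpow_le_rpow_of_exponent_le (by norm_num) (by rw [he1]; norm_num)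
              _ = 2 := Real.rpow_one 2
    have h5 : ((n:ℝ) + n) * (C * (2:ℝ)^(2*eps1*n)) + C ≤ 5 * C * (ℓ * ℓ ^ (2 * eps1 * A1)) := by
      have h6 : (n:ℝ) * (2:ℝ)^(2*eps1*n) ≤ ℓ * (2 * ℓ ^ (2 * eps1 * A1)) :=
        mul_le_mul hnℓ h3 (by positivity) hℓ0.le
      have h7 : 1 ≤ ℓ * ℓ ^ (2 * eps1 * A1) := by
        calc (1:ℝ) = 1 * 1 := by ring
          _ ≤ _ := mul_le_mul hℓ1 hP2 zero_le_one hℓ0.le
      have h8 := mul_le_mul_of_nonneg_left h6 hC0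
      have h9 := mul_le_mul_of_nonneg_left h7 hC0
      calc ((n:ℝ) + n) * (C * (2:ℝ)^(2*eps1*n)) + C
          = 2 * (C * ((n:ℝ) * (2:ℝ)^(2*eps1*n))) + C * 1 := by ring
        _ ≤ 2 * (C * (ℓ * (2 * ℓ ^ (2 * eps1 * A1)))) + C * (ℓ * ℓ ^ (2 * eps1 * A1)) := by linarith
        _ = _ := by ring
    have h8 : 12 * Cl^2 * (5 * C) ≤ ℓ := by linarith
    rw [hC3]
    calc 2 * (6 * L^2 * (((n:ℝ) + n) * (C * (2:ℝ)^(2*eps1*n)) + C))
        ≤ 2 * (6 * L^2 * (5 * C * (ℓ * ℓ ^ (2 * eps1 * A1)))) := by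
          apply mul_le_mul_of_nonneg_left _ (by norm_num)
          exact mul_le_mul_of_nonneg_left h5 (by positivity)
      _ = (12 * Cl^2 * (5 * C)) * (ℓ^3 * ℓ ^ (2 * eps1 * A1)) := by rw [hL]; ring
      _ ≤ ℓ * (ℓ^3 * ℓ ^ (2 * eps1 * A1)) := mul_le_mul_of_nonneg_right h8 (by positivity)
      _ = _ := by ring
  have hc2 : 2 * 6 * (L / b) ≤ ℓ ^ Ce / b := by
    have h8 : 12 * Cl ≤ ℓ := by linarith
    rw [hC3, mul_div_assoc']
    refine div_le_div_of_nonneg_right ?_ hb0.le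
    have h9 : ℓ^2 ≤ ℓ^4 := pow_le_pow_right₀ hℓ1 (by norm_num)
    calc 2 * 6 * L = (12 * Cl) * ℓ := by rw [hL]; ring
      _ ≤ ℓ * ℓ := mul_le_mul_of_nonneg_right h8 hℓ0.le
      _ = 1 * ℓ^2 := by ring
      _ ≤ ℓ ^ (2 * eps1 * A1) * ℓ^4 := mul_le_mul hP2 h9 (by positivity) (by positivity)
  rw [hsplit]
  have k1 := mul_le_mul_of_nonneg_right hc1 hYY
  have k2 := mul_le_mul_of_nonneg_right hc2 hMV0
  linarith

end Crest.Agent.R4P.AddUU7
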