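import Crest.Agent.R4P.AddNode_7
import Crest.Agent.R4P.AddUU2_7

/-!
R4 (S0004), POWERS, module dseR (D4), helper7: **the unlabelled in-world pairs across an add node**
(node form of `AddUU7.uu_cross`).
-/

set_option autoImplicit false
set_option linter.unusedSectionVars false
set_option linter.unusedVariables false

open MeasureTheory Filter

namespace Crest.Agent.R4P.AddNode7

open Crest.Agent.R4P.Cnt588 Crest.Agent.R4P.Item758 Crest.Agent.R4P.W363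
open Crest.Agent.R4P.Data758 Crest.Agent.R4P.OmSt532 Crest.Agent.R4P.OmData532
open Crest.Agent.R4P.LfDat734 Crest.Agent.R4P.WPex189
open Crest.Agent.R4P.Bld532 (NS All NodeOk Bk plk dv nd)
open Crest.Agent.R4P.Step588 (NDt ND1 ctx_NDt uq_lt)
open Crest.Agent.R4P.WalkIT579 (tp isL nodeOk_hi top_of_nodeOk)
open Crest.Agent.R4P.Skel189 Crest.Agent.R4P.RseSt23 Crest.Agent.R4P.RseNd23
open Crest.Agent.R4.Soft104 (w)
open Crest.Agent.R4.LF363 (Lab)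
open Crest.Agent.R4.HVW560 (cof wt)
open Crest.Agent.R4.AvgItem710 (Dp mul_cof mul_cof' cof_pos cof_coprime exists_of_I_ne)
open Crest.Agent.R4P.AvgItem710
open Crest.Agent.R4.ClosL758 Crest.Agent.R4.ClosR758 Crest.Agent.R4.Tour104 Crest.Agent.R4.Fam464
open Crest.Agent.R4.Tour758 Crest.Agent.R4.Avg758
open Crest.Agent.R4P.PairR23 (iF_rel_le)
open Crest.Agent.R4.ClsS (eps1)
open Crest.Agent.R4

section tr

/-- **unlabelled pairs across an add node**, item coordinates -/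
theorem uu_cross' : ∃ κ₀ : ℝ, 0 ≤ κ₀ ∧ ∀ (Cl Ct A : ℝ), 0 ≤ Cl → 0 ≤ Ct → 0 ≤ A →
    ∃ b₁ : ℕ, ∀ b : ℕ, b₁ ≤ b → b.Prime →
    ∀ (a : ℕ) (η θ : ℝ) (k : ℕ) (V W : Finset ℕ) (E : Finset (ℕ × ℕ)) (R : ℕ → ℝ)
      (F : ℕ × ℕ → ℝ),
    (∀ q ∈ V ∪ W, a ∣ q) →
    0 < η → η ≤ Real.exp (-(Real.log b ^ (4/5:ℝ))) →
    (∀ q ∈ V ∪ W, 0 < q / a ∧ 0 < R q) → (∀ q ∈ V ∪ W, R q ≤ Cl * Real.log b * wA a R q) →
    (∀ Z : ℝ, (b:ℝ)^2 ≤ Z → ∀ q ∈ V ∪ W, Crest.Agent.R4.ClsB.Tame Z 1 (q / a)) →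
    (∀ q ∈ V, b ^ k ∣ q / a) → (∀ q ∈ W, ¬ b ^ k ∣ q / a) → E ⊆ V ×ˢ W →
    (∀ e ∈ E, F e ≤ 2 * ((R e.1 * R e.2) / DA a R e) * (2 * (η * DA a R e) + 1)) →
    (∀ e ∈ E, 0 < F e → ∃ m m' : ℤ,
      |(m + θ) * (cof (e.2 / a) (e.1 / a) : ℕ) - (m' + θ) * (cof (e.1 / a) (e.2 / a) : ℕ)| ≤
        η * DA a R e) →
    (∀ q ∈ V, R q ≤ Real.log b ^ (-Ct) → ∀ ρ, ¬ Lab θ (R q) ρ) →
    ∑ e ∈ E, F e ≤ Real.log b ^ (-A) * ((∑ q ∈ V, wA a R q) * ∑ r ∈ W, wA a R r) +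
      Real.log b ^ (κ₀ + (Ct + A) / 500) * ((b:ℝ)^(-(1/2-eps1)) *
        ((∑ q ∈ V, wA a R q) * (∑ r ∈ W, wA a R r))^(1/2+eps1)) +
      Real.log b ^ (κ₀ + (Ct + A) / 500) / b * ∑ q ∈ V, wA a R q := by
  obtain ⟨κ₀, hκ₀, HH⟩ := AddUU7.uu_cross
  refine ⟨κ₀, hκ₀, fun Cl Ct A hCl hCt hA => ?_⟩
  obtain ⟨b₁, H⟩ := HH Cl Ct A hCl hCt hA
  refine ⟨b₁, ?_⟩
  intro b hb hbp a η θ k V W E R F ha hη hη1 hT hL htm hVb hWb hE hF hrel hlab
  have hAV : ∀ q ∈ V, a ∣ q := fun q hq => ha q (Finset.mem_union_left _ hq)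
  have hAW : ∀ q ∈ W, a ∣ q := fun q hq => ha q (Finset.mem_union_right _ hq)
  have hEE : E ⊆ (V ∪ W) ×ˢ (V ∪ W) := fun e he => by
    obtain ⟨m1, m2⟩ := Finset.mem_product.1 (hE he)
    exact Finset.mem_product.2 ⟨Finset.mem_union_left _ m1, Finset.mem_union_right _ m2⟩
  have key := H b hb hbp η θ k (V.image (· / a)) (W.image (· / a))
    (E.image fun e => (e.1 / a, e.2 / a))
    (fun v => R (a * v)) (fun e => F (a * e.1, a * e.2)) hη hη1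
    (fun v hv => by
      rw [← image_union] at hv
      obtain ⟨q, hq, rfl⟩ := Finset.mem_image.1 hv
      have h1 := hT q hq
      exact ⟨h1.1, by rw [Nat.mul_div_cancel' (ha q hq)]; exact h1.2⟩)
    (fun v hv => by
      rw [← image_union] at hv
      obtain ⟨q, hq, rfl⟩ := Finset.mem_image.1 hv
      have h1 := hL q hq
      rw [wt_tr a R (ha q hq)]
      exact (R_tr a R (ha q hq)).le.trans h1)
    (fun Z hZ v hv => by
      rw [← image_union] at hv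
      obtain ⟨q, hq, rfl⟩ := Finset.mem_image.1 hv
      exact htm Z hZ q hq)
    (fun v hv => by
      obtain ⟨q, hq, rfl⟩ := Finset.mem_image.1 hv
      exact hVb q hq)
    (fun v hv => by
      obtain ⟨q, hq, rfl⟩ := Finset.mem_image.1 hv
      exact hWb q hq)
    (sub_tr2 hE)
    (fun x hx => by
      obtain ⟨e, he, rfl⟩ := Finset.mem_image.1 hx
      obtain ⟨a1, a2⟩ := Finset.mem_product.1 (hEE he)
      have d1 := ha _ a1
      have d2 := ha _ a2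
      have h1 := hF e he
      rw [DP_eq a R d1 d2]
      simp only [Nat.mul_div_cancel' d1, Nat.mul_div_cancel' d2]
      exact h1)
    (fun x hx h0 => by
      obtain ⟨e, he, rfl⟩ := Finset.mem_image.1 hx
      obtain ⟨a1, a2⟩ := Finset.mem_product.1 (hEE he)
      have d1 := ha _ a1
      have d2 := ha _ a2
      rw [DP_eq a R d1 d2]
      simp only [Nat.mul_div_cancel' d1, Nat.mul_div_cancel' d2] at h0
      exact hrel e he h0)
    (fun v hv => by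
      obtain ⟨q, hq, rfl⟩ := Finset.mem_image.1 hv
      simp only [Nat.mul_div_cancel' (hAV q hq)]
      exact hlab q hq)
  rw [sum_tr2 ha hEE, sum_wA hAV, sum_wA hAW] at key
  have e1 : ∑ e ∈ E, F e = ∑ e ∈ E, F (a * (e.1 / a), a * (e.2 / a)) := by
    refine Finset.sum_congr rfl fun e he => ?_
    obtain ⟨a1, a2⟩ := Finset.mem_product.1 (hEE he)
    rw [Nat.mul_div_cancel' (ha _ a1), Nat.mul_div_cancel' (ha _ a2)]
  rw [e1]
  exact key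

end tr

section ctx
variable {N : Skel189.Num} {γ : ℝ} {p0 P₀ : ℕ} {X : Ctx N γ p0 P₀} {u : NS} {b : ℕ} {t₁ t₀ : IT}

/-- the states of an unlabelled pair -/
lemma DU_none (hlam : X.c.lam b = 0) {Y : Finset (ℕ × ℕ × Finset ℕ)} {x : X.c.Lam × X.c.Lam}
    (hx : x ∈ DU X Y b) : (X.c.world b x.1.1).1 = (X.c.world b x.2.1).1 ∧
      stq X b x.1.1.1 = none ∧ stq X b x.2.1.1 = none := by
  obtain ⟨hx1, hx2⟩ := Finset.mem_filter.1 hx
  obtain ⟨hix, -, -⟩ := mem_Dr.1 hx1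
  have hs2 := isSome_pair hlam hix
  have h1 : stq X b x.1.1.1 = none := Option.not_isSome_iff_eq_none.1 hx2
  refine ⟨hix, h1, ?_⟩
  have h3 : (stq X b x.1.1.1).isSome = (stq X b x.2.1.1).isSome := hs2
  rw [h1] at h3
  have h4 : (stq X b x.2.1.1).isSome = false := h3.symm
  rw [← Option.not_isSome_iff_eq_none, h4]
  simp

/-- energy of an unlabelled pair of items across an add node -/
theorem F_addU (h : NDt X.par (w X.ψ) X.c.t u (.add b t₁ t₀)) (hbt : b ≤ top X.S)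
    (hlam : X.c.lam b = 0) {Y : Finset (ℕ × ℕ × Finset ℕ)} {A : Finset X.c.Lam} {e : ℕ × ℕ}
    (h1 : e.1 ∈ t₁.items) (h0 : e.2 ∈ t₀.items) {η : ℝ} (hη : etaL X.c.wp b ≤ η) :
    (X.c.D.par Y).iF (DU X Y b) (rv A (Uw X Y u t₁)) (rv A (Uw X Y u t₀)) e ≤
      2 * ((RB X u e.1 * RB X u e.2) / DA u.A (RB X u) e) * (2 * (η * DA u.A (RB X u) e) + 1) := by
  have hd : Disjoint t₁.items t₀.items := h.fit.1
  have hF1 : Fit u.B u.A t₁ := h.fit.2.1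
  have hF0 : Fit u.B u.A t₀ := h.fit.2.2
  have hW := node_wts h Y
  have hrr : ∀ q, 0 < X.c.rr q := (X.ok.rad Y).pos
  have hDA : 0 ≤ DA u.A (RB X u) e := by
    unfold DA Crest.Agent.R4.AvgItem710.Dp
    refine le_max_of_le_left ?_
    have := (hrr e.1).le
    positivity
  have hη0 : 0 ≤ η := (etaL_pos _ _).le.trans hη
  have key := iF_rel_le (D := X.c.D.par Y) (ρ := X.c.rr) (b := u.B) (pr := u.A) (c := 1)
    (b' := u.B) (pr' := u.A) (c' := 1) (A := A) (A' := A) (X.ok.rad Y) h.B_pos h.B_pos hF1 hF0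
    (hW.add₁ hd) hW.add₀ (one_dvd _) (one_dvd _) (DU X Y b) e h1 h0
    (C := u.B * X.c.γ) (C' := u.B * X.c.γ) (δ := η * DA u.A (RB X u) e) (mul_nonneg hη0 hDA)
    (fun x hx _ _ i1 i2 y a a' l1 l2 l3 l4 => by
      obtain ⟨hix, hs, hs'⟩ := DU_none hlam hx
      have i1' : x.1.1.1 = e.1 := i1
      have i2' : x.2.1.1 = e.2 := i2
      rw [← i1'] at l1 l2 h1
      rw [← i2'] at l3 l4 h0
      have k := rel_none h hbt hlam hix (Finset.mem_union_left _ h1)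
        (Finset.mem_union_right _ h0) hs hs' l1 l2 l3 l4
      rw [i1', i2'] at k
      exact k.trans (mul_le_mul_of_nonneg_right hη hDA))
  rw [Nat.cast_one, div_one] at key
  exact key

/-- **a pair of items of unlabelled pieces of one world, across an add node** -/
theorem PE_addU (h : NDt X.par (w X.ψ) X.c.t u (.add b t₁ t₀)) (hbt : b ≤ top X.S)
    (hlam : X.c.lam b = 0) {Y : Finset (ℕ × ℕ × Finset ℕ)} {A : Finset X.c.Lam} {e : ℕ × ℕ}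
    {η : ℝ} (hη : etaL X.c.wp b ≤ η)
    (he : e ∈ (X.c.D.par Y).PE (DU X Y b) (rv A (Uw X Y u t₁)) (rv A (Uw X Y u t₀))) :
    ∃ j j' : X.c.Lam, j ∈ A ∧ j' ∈ A ∧ e = (j.1.1, j'.1.1) ∧
      j.1.1 ∈ t₁.items ∧ j'.1.1 ∈ t₀.items ∧ j.1.1 ∈ X.S' ∧ j'.1.1 ∈ X.S' ∧
      stq X b j.1.1 = none ∧ stq X b j'.1.1 = none ∧
      ∃ a a' : ℤ, |(a + (u.B : ℝ) * X.c.γ) * (cof (j'.1.1 / u.A) (j.1.1 / u.A) : ℕ) -
        (a' + (u.B : ℝ) * X.c.γ) * (cof (j.1.1 / u.A) (j'.1.1 / u.A) : ℕ)| ≤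
          η * DA u.A (RB X u) (j.1.1, j'.1.1) := by
  obtain ⟨j, j', hR, hI, e1, e2⟩ := Par.mem_PE.1 he
  obtain ⟨y, y1, y2⟩ := exists_of_I_ne hI
  have hA : j ∈ A := by
    by_contra hc
    exact y1 (congrFun (rv_of_not_mem (f := Uw X Y u t₁) hc) y)
  have hA' : j' ∈ A := by
    by_contra hc
    exact y2 (congrFun (rv_of_not_mem (f := Uw X Y u t₀) hc) y)
  have z1 := rv_ne y1
  have z2 := rv_ne y2
  have hd : Disjoint t₁.items t₀.items := h.fit.1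
  have hF1 : Fit u.B u.A t₁ := h.fit.2.1
  have hF0 : Fit u.B u.A t₀ := h.fit.2.2
  have hW := node_wts h Y
  obtain ⟨m1, a, o1, l1, l2⟩ := Par.supp _ h.B_pos hF1 (hW.add₁ hd) (one_dvd _) z1
  obtain ⟨m0, a', o0, l3, l4⟩ := Par.supp _ h.B_pos hF0 hW.add₀ (one_dvd _) z2
  have hs1 : j.1.1 ∈ X.S' := by
    by_contra hc
    exact o1 (X.om_zero hc _ _)
  have hs0 : j'.1.1 ∈ X.S' := by
    by_contra hc
    exact o0 (X.om_zero hc _ _)
  obtain ⟨hix, hs, hs'⟩ := DU_none hlam hR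
  have k := rel_none h hbt hlam hix (Finset.mem_union_left _ m1)
    (Finset.mem_union_right _ m0) hs hs' l1 l2 l3 l4
  refine ⟨j, j', hA, hA', Prod.ext e1.symm e2.symm, m1, m0, hs1, hs0, hs, hs', a, a', ?_⟩
  refine k.trans (mul_le_mul_of_nonneg_right hη ?_)
  unfold DA Crest.Agent.R4.AvgItem710.Dp
  refine le_max_of_le_left ?_
  have := (X.ok.rad Y).pos j.1.1
  positivity

open Classical in
set_option maxHeartbeats 1000000 in
/-- **the unlabelled pairs of one world across an add node** -/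
theorem unl_add : ∃ κ₀ : ℝ, 0 ≤ κ₀ ∧ ∀ (N : Skel189.Num) (Ct A₀ : ℝ), 0 ≤ Ct → 0 ≤ A₀ →
    ∃ p₁ : ℕ, ∀ p0 ≥ p₁, ∀ (γ : ℝ) (P₀ : ℕ), 2 ≤ P₀ →
    ∀ X : Ctx N γ p0 P₀, RseH X → (∀ p, p0 < p → Real.log p ^ (-Ct) ≤ X.c.wp.thr p) →
    ∀ (Y : Finset (ℕ × ℕ × Finset ℕ)) (u : NS) (b : ℕ) (t₁ t₀ : IT), NF X u (.add b t₁ t₀) →
    ∀ A : Finset X.c.Lam,
      Q (DU X Y b) (rv A (Uw X Y u t₁)) (rv A (Uw X Y u t₀)) ≤
        Real.log b ^ (-A₀) * ((u.c * ∑ q ∈ al X t₁ A, w X.ψ q) *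
          (u.c * ∑ q ∈ al X t₀ A, w X.ψ q)) +
        Real.log b ^ (κ₀ + (Ct + A₀) / 500) * ((b:ℝ)^(-(1/2-eps1)) *
          ((u.c * ∑ q ∈ al X t₁ A, w X.ψ q) * (u.c * ∑ q ∈ al X t₀ A, w X.ψ q))^(1/2+eps1)) +
        Real.log b ^ (κ₀ + (Ct + A₀) / 500) / b * (u.c * ∑ q ∈ al X t₁ A, w X.ψ q) := by
  have hCT := Step588.CT_pos
  have he1 : eps1 = 1/1000 := rfl
  obtain ⟨κ₀, hκ₀, HH⟩ := uu_cross'
  refine ⟨κ₀, hκ₀, fun N Ct A₀ hCt hA₀ => ?_⟩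
  obtain ⟨p1, h1⟩ := alive_facts N
  obtain ⟨p2, h2⟩ := HH (2 * Step588.CT) Ct A₀ (by positivity) hCt hA₀
  set C3 := κ₀ + (Ct + A₀) / 500 with hC3
  refine ⟨p1 + p2 + 2, fun p0 hp0 γ P₀ hP X hX hthrC Y u b t₁ t₀ hN A => ?_⟩
  have h := hN.nd
  have hl : ¬ isL (IT.add b t₁ t₀) := fun h => h
  obtain ⟨k1, k2, k3, k4⟩ := nodeOk_hi h.self.node hl
  have k2' : p0 < b := k2
  have hbt : b ≤ top X.S := (le_of_lt k3).trans hN.lvl
  have hpR : (0:ℝ) < b := by exact_mod_cast (by omega : 0 < b)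
  have hpR2 : (2:ℝ) ≤ b := by exact_mod_cast (by omega : 2 ≤ b)
  have hlog : 0 ≤ Real.log (b:ℝ) := Real.log_nonneg (by linarith)
  have hlam := hX.lam b k2' hbt
  have hdep := hX.dep b k2' hbt
  have hthr := hthrC b k2'
  obtain ⟨hbp, -, -, -, -, ⟨k, t', hk, -, e1, e0, -⟩, -⟩ := h.self.node
  have hm1 : ∀ q ∈ t₁.items, b ^ k ∣ q / u.A := fun q hq => by
    rw [e1] at hq
    exact (Bld532.mem_dv.1 hq).2
  have hm0 : ∀ q ∈ t₀.items, ¬ b ^ k ∣ q / u.A := fun q hq => by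
    rw [e0] at hq
    exact (Bld532.mem_nd.1 hq).2
  set η : ℝ := Real.exp (-(Real.log b ^ (4/5:ℝ))) with hη
  have hη0 : 0 < η := Real.exp_pos _
  have hηe : etaL X.c.wp b ≤ η := by
    unfold etaL
    rw [hη, Real.exp_neg, ← one_div, div_le_div_iff₀ (by positivity) (Real.exp_pos _)]
    linarith
  set T : Finset ℕ := al X (.add b t₁ t₀) A with hT
  set T1 : Finset ℕ := al X t₁ A with hT1
  set T0 : Finset ℕ := al X t₀ A with hT0
  have hTu : T = T1 ∪ T0 := by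
    rw [hT, hT1, hT0]
    unfold al
    exact Finset.filter_union _ _ _
  have hTm : ∀ q ∈ T, q ∈ (IT.add b t₁ t₀).items ∧ q ∈ X.S' := fun q hq => by
    rw [hT] at hq
    unfold al at hq
    obtain ⟨a1, a2⟩ := Finset.mem_filter.1 hq
    exact ⟨a1, a2.1⟩
  have hTF : ∀ q ∈ T, AlF X u (.add b t₁ t₀) q := fun q hq =>
    h1 p0 (by omega) γ P₀ hP X u _ hN hl q (hTm q hq).1 (hTm q hq).2
  have hT1T : T1 ⊆ T := by rw [hTu]; exact Finset.subset_union_left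
  have hT0T : T0 ⊆ T := by rw [hTu]; exact Finset.subset_union_right
  have hwA0 : ∀ q ∈ T, 0 ≤ wA u.A (RB X u) q := fun q hq => by
    unfold wA
    have := (hTF q hq).R0.le
    positivity
  have hmass : ∀ T' ⊆ T, ∑ q ∈ T', wA u.A (RB X u) q ≤ u.c * ∑ q ∈ T', w X.ψ q := by
    intro T' hT'
    rw [Finset.mul_sum]
    exact Finset.sum_le_sum fun q hq => (hTF q (hT' hq)).wle
  have hit1 : ∀ q ∈ T1, q ∈ t₁.items := fun q hq => by
    rw [hT1] at hq; unfold al at hq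
    exact (Finset.mem_filter.1 hq).1
  have hit0 : ∀ q ∈ T0, q ∈ t₀.items := fun q hq => by
    rw [hT0] at hq; unfold al at hq
    exact (Finset.mem_filter.1 hq).1
  -- unlabelled items
  set S1 : Finset ℕ := T1.filter fun q => stq X b q = none with hS1
  set S0 : Finset ℕ := T0.filter fun q => stq X b q = none with hS0
  have hS1T : S1 ⊆ T1 := Finset.filter_subset _ _
  have hS0T : S0 ⊆ T0 := Finset.filter_subset _ _
  have hSS : ∀ q ∈ S1 ∪ S0, q ∈ T := fun q hq => by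
    rcases Finset.mem_union.1 hq with h6 | h6
    · exact hT1T (hS1T h6)
    · exact hT0T (hS0T h6)
  set D := X.c.D.par Y with hD
  set F : ℕ × ℕ → ℝ := fun e => D.iF (DU X Y b) (rv A (Uw X Y u t₁)) (rv A (Uw X Y u t₀)) e with hF
  set E : Finset (ℕ × ℕ) := D.PE (DU X Y b) (rv A (Uw X Y u t₁)) (rv A (Uw X Y u t₀)) with hE
  have hQE : Q (DU X Y b) (rv A (Uw X Y u t₁)) (rv A (Uw X Y u t₀)) = ∑ e ∈ E, F e := D.Q_eq _ _ _
  have hfact : ∀ e ∈ E, e.1 ∈ S1 ∧ e.2 ∈ S0 ∧ ∃ a a' : ℤ,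
      |(a + (u.B : ℝ) * X.c.γ) * (cof (e.2 / u.A) (e.1 / u.A) : ℕ) -
        (a' + (u.B : ℝ) * X.c.γ) * (cof (e.1 / u.A) (e.2 / u.A) : ℕ)| ≤
          η * DA u.A (RB X u) e := by
    intro e he
    obtain ⟨j, j', hj, hj', rfl, i1, i0, s1, s0, hσ, hσ', a, a', hex⟩ :=
      PE_addU h hbt hlam hηe he
    refine ⟨?_, ?_, a, a', hex⟩
    · refine Finset.mem_filter.2 ⟨?_, hσ⟩
      rw [hT1]; unfold al
      exact Finset.mem_filter.2 ⟨i1, s1, j, hj, rfl⟩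
    · refine Finset.mem_filter.2 ⟨?_, hσ'⟩
      rw [hT0]; unfold al
      exact Finset.mem_filter.2 ⟨i0, s0, j', hj', rfl⟩
  have key := h2 b (by omega) hbp u.A η (u.B * X.c.γ) k S1 S0 E (RB X u) F
    (fun q hq => (hTF q (hSS q hq)).dvd) hη0 le_rfl
    (fun q hq => ⟨(hTF q (hSS q hq)).pos, (hTF q (hSS q hq)).R0⟩)
    (fun q hq => (hTF q (hSS q hq)).lo)
    (fun Z hZ q hq => (hTF q (hSS q hq)).tame Z hZ)
    (fun q hq => hm1 q (hit1 _ (hS1T hq))) (fun q hq => hm0 q (hit0 _ (hS0T hq)))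
    (fun e he => Finset.mem_product.2 ⟨(hfact e he).1, (hfact e he).2.1⟩)
    (fun e he => F_addU h hbt hlam (hit1 _ (hS1T (hfact e he).1)) (hit0 _ (hS0T (hfact e he).2.1))
      hηe)
    (fun e he _ => (hfact e he).2.2)
    (fun q hq hthin ρ => by
      obtain ⟨hq1, hq2⟩ := Finset.mem_filter.1 hq
      have hqT := hT1T hq1
      have hf := hTF q hqT
      have hR : RB X u q = u.B * X.c.r q := by
        show (u.B:ℝ) * X.c.rr q = _
        rw [hf.rr]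
      rw [hR]
      refine st_noneB h X.tOk hl (hTm q hqT).1 hlam hq2 ?_ ρ
      rw [← hR]
      exact hthin.trans hthr)
  rw [hQE]
  refine key.trans ?_
  have i1 : ∑ q ∈ S1, wA u.A (RB X u) q ≤ u.c * ∑ q ∈ T1, w X.ψ q :=
    (Finset.sum_le_sum_of_subset_of_nonneg hS1T fun q hq _ => hwA0 q (hT1T hq)).trans
      (hmass T1 hT1T)
  have i0 : ∑ q ∈ S0, wA u.A (RB X u) q ≤ u.c * ∑ q ∈ T0, w X.ψ q :=
    (Finset.sum_le_sum_of_subset_of_nonneg hS0T fun q hq _ => hwA0 q (hT0T hq)).trans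
      (hmass T0 hT0T)
  have n1 : 0 ≤ ∑ q ∈ S1, wA u.A (RB X u) q :=
    Finset.sum_nonneg fun q hq => hwA0 q (hT1T (hS1T hq))
  have n0 : 0 ≤ ∑ q ∈ S0, wA u.A (RB X u) q :=
    Finset.sum_nonneg fun q hq => hwA0 q (hT0T (hS0T hq))
  have i2 : (∑ q ∈ S1, wA u.A (RB X u) q) * ∑ q ∈ S0, wA u.A (RB X u) q ≤
      (u.c * ∑ q ∈ T1, w X.ψ q) * (u.c * ∑ q ∈ T0, w X.ψ q) :=
    mul_le_mul i1 i0 n0 (n1.trans i1)
  have i3 := Real.rpow_le_rpow (mul_nonneg n1 n0) i2 (by rw [he1]; norm_num : (0:ℝ) ≤ 1/2+eps1)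
  have hb3 : 0 ≤ (b:ℝ)^(-(1/2-eps1)) := Real.rpow_nonneg hpR.le _
  have hlC : 0 ≤ Real.log (b:ℝ) ^ C3 := Real.rpow_nonneg hlog _
  refine add_le_add (add_le_add ?_ ?_) ?_
  · exact mul_le_mul_of_nonneg_left i2 (Real.rpow_nonneg hlog _)
  · exact mul_le_mul_of_nonneg_left (mul_le_mul_of_nonneg_left i3 hb3) hlC
  · exact mul_le_mul_of_nonneg_left i1 (div_nonneg hlC hpR.le)

end ctx

end Crest.Agent.R4P.AddNode7
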