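import Crest.Agent.R4P.Item758b
import Crest.Agent.R4P.World2_363
import Crest.Agent.R4P.AvgSymA710

/-!
R4 (S0004): **CONCRETE DATA** of a system, part A (definitions, worlds, pieces); port of helper758's
`R4/Data758` (v4) to the tree with powers (helper504). Retained primes of an item: `rt t q = t.uq q`
(the SEP-present children are pulled).

`r q = ψ q / 2` (tree radius).  `Λ = {(q,k)}` = pieces (breakpoints of `W363.exists_bp`), worlds `W*`
(`World2_363`), leaf weights = products of local weights, zero for pruned items.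
-/

set_option autoImplicit false
set_option linter.unusedSectionVars false
set_option linter.unusedVariables false
open MeasureTheory Filter

namespace Crest.Agent.R4P.Data758

open Crest.Agent.R4.Tour104 Crest.Agent.R4.Tour758 Crest.Agent.R4.Avg758 Crest.Agent.R4.Clos758
open Crest.Agent.R4.ClosL758 Crest.Agent.R4.ClosG758 Crest.Agent.R4.ClosR758
open Crest.Agent.R4.Fam464 Crest.Agent.R4P.Cnt588 Crest.Agent.R4P.Item758
open Crest.Agent.R4.Piece464 Crest.Agent.R4P.W363 Crest.Agent.R4P.AvgItem710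

/-! ### retained primes -/

/-- retained primes of an item -/
def rt (t : IT) (q : ℕ) : Finset ℕ := t.uq q

lemma rt_prime (t : IT) : ∀ {n : ℕ}, t.Ok n → ∀ q, ∀ b ∈ rt t q, b.Prime ∧ b < n := by
  induction t with
  | leaf S => intro n _ q b hb; simp [rt, IT.uq] at hb
  | br p Sp t₁ t₀ ih₁ ih₀ =>
    intro n hO q b hb
    obtain ⟨hp, hpn, -, -, h1, h0⟩ := hO
    unfold rt at hb
    simp only [IT.uq] at hb
    split_ifs at hb with hq hs
    · obtain ⟨a, c⟩ := ih₀ h0 q b hb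
      exact ⟨a, c.trans hpn⟩
    · rcases Finset.mem_insert.1 hb with rfl | hb
      · exact ⟨hp, hpn⟩
      · obtain ⟨a, c⟩ := ih₁ h1 q b hb
        exact ⟨a, c.trans hpn⟩
    · obtain ⟨a, c⟩ := ih₁ h1 q b hb
      exact ⟨a, c.trans hpn⟩
  | add p t₁ t₀ ih₁ ih₀ =>
    intro n hO q b hb
    obtain ⟨hp, hpn, -, h1, h0⟩ := hO
    unfold rt at hb
    simp only [IT.uq] at hb
    split_ifs at hb with hq
    · obtain ⟨a, c⟩ := ih₀ h0 q b hb
      exact ⟨a, c.trans_le hpn⟩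
    · obtain ⟨a, c⟩ := ih₁ h1 q b hb
      exact ⟨a, c.trans_le hpn⟩
  | up p Sp t ih =>
    intro n hO q b hb
    obtain ⟨hp, hpn, -, h1⟩ := hO
    unfold rt at hb
    simp only [IT.uq] at hb
    split_ifs at hb with hs
    · rcases Finset.mem_insert.1 hb with rfl | hb
      · exact ⟨hp, hpn⟩
      · obtain ⟨a, c⟩ := ih h1 q b hb
        exact ⟨a, c.trans hpn⟩
    · obtain ⟨a, c⟩ := ih h1 q b hb
      exact ⟨a, c.trans hpn⟩
  | pl p t ih =>
    intro n hO q b hb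
    obtain ⟨hp, hpn, h1⟩ := hO
    obtain ⟨a, c⟩ := ih h1 q b hb
    exact ⟨a, c.trans_le hpn⟩
  | far p t₁ t₀ ih₁ ih₀ =>
    intro n hO q b hb
    obtain ⟨hp, hpn, -, h1, h0⟩ := hO
    unfold rt at hb
    simp only [IT.uq] at hb
    split_ifs at hb with hq
    · obtain ⟨a, c⟩ := ih₀ h0 q b hb
      exact ⟨a, c.trans_le hpn⟩
    · obtain ⟨a, c⟩ := ih₁ h1 q b hb
      exact ⟨a, c.trans_le hpn⟩

lemma ret_eq (t : IT) (p q : ℕ) : ret t p q = ∏ b ∈ (rt t q).filter (p < ·), b := rfl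

/-- a prime divides the retained part iff it is a retained prime -/
lemma dvd_ret {t : IT} {n : ℕ} (hO : t.Ok n) {p b q : ℕ} (hb : b.Prime) :
    b ∣ ret t p q ↔ b ∈ rt t q ∧ p < b := by
  rw [ret_eq, hb.prime.dvd_finsetProd_iff]
  constructor
  · rintro ⟨c, hc, hbc⟩
    obtain ⟨h1, h2⟩ := Finset.mem_filter.1 hc
    have hcp := (rt_prime t hO q c h1).1
    have : b = c := (Nat.prime_dvd_prime_iff_eq hb hcp).1 hbc
    subst this
    exact ⟨h1, h2⟩
  · rintro ⟨h1, h2⟩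
    exact ⟨b, Finset.mem_filter.2 ⟨h1, h2⟩, dvd_rfl⟩

/-! ### labels -/

/-- labels of the worlds: index (cell or centre) and retained part -/
structure WL (Λ : Type) where
  ix : Λ
  rt : Λ
deriving DecidableEq, Fintype

/-- two labels are related iff their indices differ -/
instance (Λ : Type) : WRel (WL Λ) where
  rel a b := a.ix ≠ b.ix
  irr _ h := h rfl
  symm h := h.symm

lemma WL.ext_iff' {Λ : Type} {a b : WL Λ} : a = b ↔ a.ix = b.ix ∧ a.rt = b.rt := by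
  cases a; cases b; simp

/-! ### the data -/

/-- parameters of the concrete data -/
structure Cf where
  γ : ℝ
  /-- tree radius `ψ/2` -/
  r : ℕ → ℝ
  S : Finset ℕ
  /-- pruned set -/
  S' : Finset ℕ
  K : ℕ
  bp : ℕ → ℕ → ℝ
  /-- worlds of the columns -/
  wp : WP
  /-- worlds of the leaves (own thinness `thr`) -/
  wpL : WP
  t : IT
  /-- level of the leaf of an item -/
  lv : ℕ → ℕ
  /-- weight of a piece (item, left endpoint) in leaf coordinates (`0` for pruned items) -/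
  om : ℕ → ℝ → ℤ → ℝ
  /-- bound for the lengths of the pieces -/
  d1 : ℝ
  /-- accuracy thresholds: a label `σ` is used at the column `p` only if `lam p * r q ≤ |γ - σ|`
  (`0`: always) -/
  lam : ℕ → ℝ
  /-- further breakpoints -/
  bx : ℕ → Finset ℝ
  /-- tag of an item at a column (exponent blocks) -/
  tg : ℕ → ℕ → ℕ
  /-- tag of an item in its leaf class -/
  tgL : ℕ → ℕ

open Classical in
/-- state of `q` at the column `p`: the state of `W*`, if it is not too accurate -/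
noncomputable def stA (P : WP) (lam : ℕ → ℝ) (γ : ℝ) (r : ℕ → ℝ) (t : IT) (p q : ℕ) : Option ℚ :=
  if ∃ σ : ℚ, P.st γ r t p q = some σ ∧ lam p * r q ≤ |γ - σ| then P.st γ r t p q else none

lemma stA_some {P : WP} {lam : ℕ → ℝ} {γ : ℝ} {r : ℕ → ℝ} {t : IT} {p q : ℕ} {σ : ℚ} :
    stA P lam γ r t p q = some σ ↔ P.st γ r t p q = some σ ∧ lam p * r q ≤ |γ - σ| := by
  unfold stA
  split_ifs with h
  · obtain ⟨τ, h1, h2⟩ := h
    constructor
    · intro h3
      refine ⟨h3, ?_⟩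
      rw [h1] at h3
      rw [← Option.some.inj h3]; exact h2
    · exact fun h3 => h3.1
  · constructor
    · intro h3; exact absurd h3 (by simp)
    · intro h3; exact absurd ⟨σ, h3⟩ h

/-- unlabelled or accurate -/
lemma stA_none {P : WP} {lam : ℕ → ℝ} {γ : ℝ} {r : ℕ → ℝ} {t : IT} {p q : ℕ} :
    stA P lam γ r t p q = none ↔
      ∀ σ : ℚ, P.st γ r t p q = some σ → |γ - σ| < lam p * r q := by
  rw [Option.eq_none_iff_forall_ne_some]
  constructor
  · intro h σ hσ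
    by_contra hc
    exact h σ (stA_some.2 ⟨hσ, not_lt.1 hc⟩)
  · intro h σ hσ
    obtain ⟨h1, h2⟩ := stA_some.1 hσ
    exact absurd (h σ h1) (not_lt.2 h2)

/-- `lam = 0`: the states of `W*` -/
lemma stA_zero {P : WP} {lam : ℕ → ℝ} {γ : ℝ} {r : ℕ → ℝ} {t : IT} {p q : ℕ} (h : lam p = 0) :
    stA P lam γ r t p q = P.st γ r t p q := by
  cases hs : P.st γ r t p q with
  | none => exact stA_none.2 fun σ hσ => by rw [hs] at hσ; exact absurd hσ (by simp)
  | some σ => exact stA_some.2 ⟨hs, by rw [h, zero_mul]; exact abs_nonneg _⟩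

open Classical in
/-- births are ANTICIPATED: the item will be evaluated again at a lower level (it still misses a tie,
or it is thin at its leaf) -/
def btA (PL : WP) (r : ℕ → ℝ) (t : IT) (lv : ℕ → ℕ) (p q : ℕ) : Prop :=
  (∃ s ∈ t.mt q, s ≤ p) ∨ (mp t q : ℝ) * r q ≤ PL.thr (lv q)

open Classical in
/-- the label of the present stage, if births are anticipated -/
noncomputable def fbA (PL : WP) (γ : ℝ) (r : ℕ → ℝ) (t : IT) (lv : ℕ → ℕ) (p q : ℕ) : Option ℚ :=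
  if btA PL r t lv p q then lab0 γ (r q) (lst (t.mt q) p).prod else none

/-- **state of `q` at the column `p`**: the state `stA` (state of `W*`, if it is not too accurate);
items without a state of `W*` have the label of the present stage, if births are anticipated -/
noncomputable def stB (P PL : WP) (lam : ℕ → ℝ) (γ : ℝ) (r : ℕ → ℝ) (t : IT) (lv : ℕ → ℕ)
    (p q : ℕ) : Option ℚ :=
  if (P.st γ r t p q).isSome then stA P lam γ r t p q else fbA PL γ r t lv p q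

section stB
variable {P PL : WP} {lam : ℕ → ℝ} {γ : ℝ} {r : ℕ → ℝ} {t : IT} {lv : ℕ → ℕ} {p q : ℕ} {σ : ℚ}

lemma fbA_some (h : fbA PL γ r t lv p q = some σ) :
    btA PL r t lv p q ∧ lab0 γ (r q) (lst (t.mt q) p).prod = some σ := by
  unfold fbA at h
  split_ifs at h with h1
  exact ⟨h1, h⟩

lemma fbA_none (h : fbA PL γ r t lv p q = none) (hb : btA PL r t lv p q) :
    lab0 γ (r q) (lst (t.mt q) p).prod = none := by
  unfold fbA at h
  rwa [if_pos hb] at h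

/-- the state is `stA` if `W*` has a state -/
lemma stB_of_some (h : P.st γ r t p q = some σ) :
    stB P PL lam γ r t lv p q = stA P lam γ r t p q := by
  unfold stB
  rw [h, Option.isSome_some, if_pos rfl]

/-- the state is the present label if `W*` has no state -/
lemma stB_of_none (h : P.st γ r t p q = none) :
    stB P PL lam γ r t lv p q = fbA PL γ r t lv p q := by
  unfold stB
  rw [h, Option.isSome_none, if_neg (by simp)]

/-- **the two cases of a labelled item** -/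
lemma stB_some (h : stB P PL lam γ r t lv p q = some σ) :
    (P.st γ r t p q = some σ ∧ lam p * r q ≤ |γ - σ|) ∨
      (P.st γ r t p q = none ∧ btA PL r t lv p q ∧
        lab0 γ (r q) (lst (t.mt q) p).prod = some σ) := by
  cases hs : P.st γ r t p q with
  | none =>
    rw [stB_of_none hs] at h
    exact Or.inr ⟨rfl, fbA_some h⟩
  | some τ =>
    rw [stB_of_some hs] at h
    have := stA_some.1 h
    rw [hs] at this
    exact Or.inl this

/-- a label used by the column is the state of `W*` or the present label -/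
lemma stB_lbAt (h : stB P PL lam γ r t lv p q = some σ) :
    P.st γ r t p q = some σ ∨ lab0 γ (r q) (lst (t.mt q) p).prod = some σ := by
  rcases stB_some h with h | h
  · exact Or.inl h.1
  · exact Or.inr h.2.2

/-- `lam = 0`: the state of `W*` stays -/
lemma stB_zero_some (hl : lam p = 0) (h : P.st γ r t p q = some σ) :
    stB P PL lam γ r t lv p q = some σ := by
  rw [stB_of_some h, stA_zero hl, h]

/-- `lam = 0`: no state at all -/
lemma stB_none_zero (hl : lam p = 0) (h : stB P PL lam γ r t lv p q = none) :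
    P.st γ r t p q = none ∧ (btA PL r t lv p q → lab0 γ (r q) (lst (t.mt q) p).prod = none) := by
  cases hs : P.st γ r t p q with
  | none =>
    rw [stB_of_none hs] at h
    exact ⟨rfl, fbA_none h⟩
  | some τ =>
    rw [stB_zero_some hl hs] at h
    exact absurd h (by simp)

/-- a thin item: the state is the label -/
lemma stB_thin (h : ((lst (t.mt q) p).prod : ℝ) * r q ≤ P.thr p) :
    P.st γ r t p q = lab0 γ (r q) (lst (t.mt q) p).prod := by
  unfold WP.st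
  exact sta_thin h

/-- a thin item without a label -/
lemma stB_thin_none (h : ((lst (t.mt q) p).prod : ℝ) * r q ≤ P.thr p)
    (h0 : lab0 γ (r q) (lst (t.mt q) p).prod = none) : stB P PL lam γ r t lv p q = none := by
  rw [stB_of_none (by rw [stB_thin h, h0])]
  unfold fbA
  split_ifs
  · exact h0
  · rfl

/-- a thin item, `lam = 0`: the state is the label -/
lemma stB_thin_zero (hl : lam p = 0) (h : ((lst (t.mt q) p).prod : ℝ) * r q ≤ P.thr p) :
    stB P PL lam γ r t lv p q = lab0 γ (r q) (lst (t.mt q) p).prod := by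
  cases hs : lab0 γ (r q) (lst (t.mt q) p).prod with
  | none => exact stB_thin_none h hs
  | some σ => exact stB_zero_some hl (by rw [stB_thin h, hs])

end stB

/-- breakpoints of `q` in `z`-coordinates for the states `stB`, for all the levels of a finite set -/
noncomputable def zbB (P PL : WP) (lam : ℕ → ℝ) (γ : ℝ) (r : ℕ → ℝ) (t : IT) (lv : ℕ → ℕ)
    (I : Finset ℕ) (q : ℕ) : Finset ℝ :=
  I.biUnion fun p => (P.E p (stB P PL lam γ r t lv p q)).image
    fun e => q * e - (γ - ctr γ (stB P PL lam γ r t lv p q))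

/-- breakpoints of `q` in `z`-coordinates, for all the levels of a finite set -/
noncomputable def zbA (P : WP) (lam : ℕ → ℝ) (γ : ℝ) (r : ℕ → ℝ) (t : IT) (I : Finset ℕ) (q : ℕ) :
    Finset ℝ :=
  I.biUnion fun p => (P.E p (stA P lam γ r t p q)).image
    fun e => q * e - (γ - ctr γ (stA P lam γ r t p q))

/-- **the index is constant on every piece** -/
theorem ix_constA (P : WP) {γ : ℝ} {I : Finset ℕ} {q : ℕ} (hq : 0 < q) {s : ℕ → Option ℚ}
    {bp : ℕ → ℝ} (hbp : ∀ z ∈ (I.biUnion fun p => (P.E p (s p)).image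
      fun e => (q : ℝ) * e - (γ - ctr γ (s p))), ∀ k, bp k < z → z < bp (k + 1) → False)
    {p : ℕ} (hp : p ∈ I) {k : ℕ} {z : ℝ} (h1 : bp k ≤ z) (h2 : z < bp (k + 1)) :
    P.ix γ p q (s p) z = P.ix γ p q (s p) (bp k) := by
  unfold WP.ix
  refine Prod.ext rfl ?_
  show cell _ _ = cell _ _
  rw [cell_eq_iff]
  intro e he
  have hq' : (0:ℝ) < q := by exact_mod_cast hq
  have hm : (q : ℝ) * e - (γ - ctr γ (s p)) ∈ (I.biUnion fun p => (P.E p (s p)).image
      fun e => (q : ℝ) * e - (γ - ctr γ (s p))) :=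
    Finset.mem_biUnion.2 ⟨p, hp, Finset.mem_image.2 ⟨e, he, rfl⟩⟩
  unfold off
  rw [le_div_iff₀ hq', le_div_iff₀ hq']
  constructor
  · intro h
    by_contra hc
    push Not at hc
    exact hbp _ hm k (by linarith) (by linarith)
  · intro h
    linarith

/-- state of `q` at the column `p` -/
noncomputable abbrev Cf.st (c : Cf) (p q : ℕ) : Option ℚ :=
  stB c.wp c.wpL c.lam c.γ c.r c.t c.lv p q

/-- **world** at level `p` of the `k`-th piece of `q` -/
noncomputable def Cf.world (c : Cf) (p : ℕ) (j : ℕ × ℕ) : (Bool × ℕ) × ℕ × ℕ :=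
  (c.wp.ix c.γ p j.1 (c.st p j.1) (c.bp j.1 j.2), ret c.t p j.1, c.tg p j.1)

/-- pieces -/
abbrev Cf.Lam (c : Cf) : Type :=
  {x : ℕ × ℕ // x ∈ (c.S.filter (fun q => 0 < c.r q)) ×ˢ Finset.range c.K}

/-- **concrete data** -/
noncomputable def Cf.D (c : Cf) : Par0 c.Lam (WL c.Lam) where
  γ := c.γ
  it j := j.1.1
  al j := c.bp j.1.1 j.1.2
  be j := c.bp j.1.1 (j.1.2 + 1)
  om j := c.om j.1.1 (c.bp j.1.1 j.1.2)
  rho p j := ⟨rep (fun j : c.Lam => (c.world p j.1).1) j,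
    rep (fun j : c.Lam => (ret c.t p j.1.1, c.tg p j.1.1)) j⟩
  rhoL j := ⟨rep (fun j : c.Lam => c.wpL.ix c.γ (c.lv j.1.1) j.1.1
    (c.wpL.st c.γ c.r c.t (c.lv j.1.1) j.1.1) (c.bp j.1.1 j.1.2)) j,
    rep (fun j : c.Lam => (ret c.t 0 j.1.1, c.tgL j.1.1)) j⟩

open Classical in
/-- pieces with the retained prime `b` -/
noncomputable def Cf.sp (c : Cf) (b : ℕ) : Finset c.Lam :=
  Finset.univ.filter fun j => b ∈ rt c.t j.1.1

/-- conditions on the data -/
structure Cf.Ok (c : Cf) (n : ℕ) : Prop where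
  tOk : c.t.Ok n
  items : c.t.items = c.S
  pos : ∀ q ∈ c.S, 0 < q
  sub : c.S' ⊆ c.S
  r' : ∀ q ∈ c.S', 0 < c.r q
  bp0 : ∀ q ∈ c.S, 0 < c.r q → c.bp q 0 = -c.r q
  bpK : ∀ q ∈ c.S, 0 < c.r q → c.bp q c.K = c.r q
  bpm : ∀ q ∈ c.S, 0 < c.r q → Monotone (c.bp q)
  bpz : ∀ q ∈ c.S, 0 < c.r q →
    ∀ z ∈ zbB c.wp c.wpL c.lam c.γ c.r c.t c.lv (Finset.range (n + 1)) q, ∀ k,
    c.bp q k < z → z < c.bp q (k + 1) → False
  bpL : ∀ q ∈ c.S, 0 < c.r q → ∀ z ∈ c.wpL.zb c.γ c.r c.t (Finset.range (n + 1)) q, ∀ k,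
    c.bp q k < z → z < c.bp q (k + 1) → False
  bpx : ∀ q ∈ c.S, 0 < c.r q → ∀ z ∈ c.bx q, ∀ k,
    c.bp q k < z → z < c.bp q (k + 1) → False
  fine : ∀ q ∈ c.S, 0 < c.r q → ∀ k < c.K, c.bp q (k + 1) - c.bp q k ≤ c.d1
  dvd : ∀ q ∈ c.S, pp c.t q ∣ q
  wt : ∀ q ∈ c.S, ∀ z, Wt (q / pp c.t q) (c.om q z)
  le1 : ∀ q ∈ c.S, ∀ z a, c.om q z a ≤ 1

/-- existence of breakpoints -/
theorem exists_bp' (S : Finset ℕ) (r : ℕ → ℝ) (Z : ℕ → Finset ℝ) :
    ∃ (K : ℕ) (bp : ℕ → ℕ → ℝ), 0 < K ∧ ∀ q ∈ S, 0 < r q → bp q 0 = -r q ∧ bp q K = r q ∧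
      Monotone (bp q) ∧ ∀ z ∈ Z q, ∀ k, bp q k < z → z < bp q (k + 1) → False := by
  obtain ⟨K, bp, hK, h⟩ := exists_bp (S.filter fun q => 0 < r q) r
    (fun q hq => (Finset.mem_filter.1 hq).2) Z
  exact ⟨K, bp, hK, fun q hq hr => h q (Finset.mem_filter.2 ⟨hq, hr⟩)⟩

/-- breakpoints with a fine grid -/
theorem exists_bp2 (S : Finset ℕ) (r : ℕ → ℝ) (Z : ℕ → Finset ℝ) {d : ℝ} (hd : 0 < d) :
    ∃ (K : ℕ) (bp : ℕ → ℕ → ℝ), 0 < K ∧ ∀ q ∈ S, 0 < r q → bp q 0 = -r q ∧ bp q K = r q ∧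
      Monotone (bp q) ∧ (∀ z ∈ Z q, ∀ k, bp q k < z → z < bp q (k + 1) → False) ∧
      ∀ k < K, bp q (k + 1) - bp q k ≤ d := by
  classical
  obtain ⟨K, bp, hK, h⟩ := exists_bp' S r (fun q => Z q ∪
    (Finset.range (⌈2 * r q / d⌉₊ + 2)).image fun i : ℕ => -r q + i * d)
  refine ⟨K, bp, hK, fun q hq hr => ?_⟩
  obtain ⟨h0, h1, hm, hz⟩ := h q hq hr
  refine ⟨h0, h1, hm, fun z hz' => hz z (Finset.mem_union_left _ hz'), fun k hk => ?_⟩
  by_contra hlt
  push Not at hlt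
  have a0 : -r q ≤ bp q k := h0 ▸ hm (Nat.zero_le k)
  have a1 : bp q (k + 1) ≤ r q := h1 ▸ hm (Nat.succ_le_of_lt hk)
  set i : ℕ := ⌊(bp q k + r q) / d⌋₊ + 1 with hi
  have i0 : 0 ≤ (bp q k + r q) / d := div_nonneg (by linarith) hd.le
  have b1 : (bp q k + r q) / d < (i : ℝ) := by
    rw [hi]; push_cast; exact Nat.lt_floor_add_one _
  have b2 : (i : ℝ) ≤ (bp q k + r q) / d + 1 := by
    rw [hi]; push_cast
    linarith [Nat.floor_le i0]
  have c1 : bp q k < -r q + i * d := by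
    rw [div_lt_iff₀ hd] at b1; linarith
  have c2 : -r q + i * d < bp q (k + 1) := by
    have : (i : ℝ) * d ≤ bp q k + r q + d := by
      have := mul_le_mul_of_nonneg_right b2 hd.le
      rwa [add_mul, div_mul_cancel₀ _ hd.ne', one_mul] at this
    linarith
  refine hz (-r q + i * d) (Finset.mem_union_right _ (Finset.mem_image.2 ⟨i, ?_, rfl⟩)) k c1 c2
  rw [Finset.mem_range]
  have c3 : (i : ℝ) * d < 2 * r q := by linarith
  have c4 : (i : ℝ) < 2 * r q / d := by rw [lt_div_iff₀ hd]; exact c3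
  have c5 : (i : ℝ) < (⌈2 * r q / d⌉₊ : ℝ) := c4.trans_le (Nat.le_ceil _)
  have c6 : i < ⌈2 * r q / d⌉₊ := by exact_mod_cast c5
  omega

section
variable {c : Cf} {n : ℕ}

lemma Cf.mem_S (j : c.Lam) : j.1.1 ∈ c.S :=
  (Finset.mem_filter.1 (Finset.mem_product.1 j.2).1).1

lemma Cf.r_pos (j : c.Lam) : 0 < c.r j.1.1 :=
  (Finset.mem_filter.1 (Finset.mem_product.1 j.2).1).2

lemma Cf.k_lt (j : c.Lam) : j.1.2 < c.K := Finset.mem_range.1 (Finset.mem_product.1 j.2).2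

lemma Cf.Ok.bp_ge (h : c.Ok n) (j : c.Lam) (k : ℕ) : -c.r j.1.1 ≤ c.bp j.1.1 k := by
  rw [← h.bp0 _ (Cf.mem_S j) (Cf.r_pos j)]
  exact h.bpm _ (Cf.mem_S j) (Cf.r_pos j) (Nat.zero_le k)

lemma Cf.Ok.bp_le (h : c.Ok n) (j : c.Lam) {k : ℕ} (hk : k ≤ c.K) : c.bp j.1.1 k ≤ c.r j.1.1 := by
  rw [← h.bpK _ (Cf.mem_S j) (Cf.r_pos j)]
  exact h.bpm _ (Cf.mem_S j) (Cf.r_pos j) hk

/-- the pieces of one item are disjoint -/
lemma Cf.Ok.disj' (h : c.Ok n) (j j' : c.Lam) : j ≠ j' → c.D.it j = c.D.it j' →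
    c.D.be j ≤ c.D.al j' ∨ c.D.be j' ≤ c.D.al j := by
  intro hne e
  have e' : j.1.1 = j'.1.1 := e
  have hk : j.1.2 ≠ j'.1.2 := fun hk => hne (Subtype.ext (Prod.ext e' hk))
  rcases lt_or_gt_of_ne hk with hlt | hlt
  · left
    show c.bp j.1.1 (j.1.2 + 1) ≤ c.bp j'.1.1 j'.1.2
    rw [← e']
    exact h.bpm _ (Cf.mem_S j) (Cf.r_pos j) hlt
  · right
    show c.bp j'.1.1 (j'.1.2 + 1) ≤ c.bp j.1.1 j.1.2
    rw [← e']
    exact h.bpm _ (Cf.mem_S j) (Cf.r_pos j) hlt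

lemma Cf.D_rho (c : Cf) (p : ℕ) (j j' : c.Lam) : c.D.rho p j = c.D.rho p j' ↔
    c.world p j.1 = c.world p j'.1 := by
  rw [WL.ext_iff', Prod.ext_iff]
  exact and_congr (rep_eq_iff _ _ _) (rep_eq_iff _ _ _)

/-- the relation of the walk: the indices differ -/
lemma Cf.mem_Ro (c : Cf) (p : ℕ) (e : c.Lam × c.Lam) : e ∈ Ro (c.D.rho p) ↔
    (c.world p e.1.1).1 ≠ (c.world p e.2.1).1 := by
  rw [Crest.Agent.R4.ClosR758.mem_Ro]
  exact not_congr (rep_eq_iff (fun j : c.Lam => (c.world p j.1).1) e.1 e.2)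

/-- the pairs which are not in one class but not related either: same index, different retained
parts or different tags -/
lemma Cf.mem_Rr_Ro (c : Cf) (p : ℕ) (e : c.Lam × c.Lam) :
    e ∈ Rr (c.D.rho p) \ Ro (c.D.rho p) ↔
    (c.world p e.1.1).1 = (c.world p e.2.1).1 ∧
      (ret c.t p e.1.1.1 ≠ ret c.t p e.2.1.1 ∨ c.tg p e.1.1.1 ≠ c.tg p e.2.1.1) := by
  rw [Finset.mem_sdiff, Cf.mem_Ro, not_not, Crest.Agent.R4.ClosL758.Rr, Finset.mem_filter, and_comm]
  refine and_congr_right fun h => ?_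
  have : c.D.rho p e.1 ≠ c.D.rho p e.2 ↔
      (ret c.t p e.1.1.1 ≠ ret c.t p e.2.1.1 ∨ c.tg p e.1.1.1 ≠ c.tg p e.2.1.1) := by
    rw [Ne, Cf.D_rho, Prod.ext_iff, not_and]
    have e2 : (c.world p e.1.1).2 = (c.world p e.2.1).2 ↔
        (ret c.t p e.1.1.1 = ret c.t p e.2.1.1 ∧ c.tg p e.1.1.1 = c.tg p e.2.1.1) := Prod.ext_iff
    rw [e2]
    tauto
  simp only [Finset.mem_univ, true_and]
  exact this

lemma Cf.D_rhoL (c : Cf) (j j' : c.Lam) : c.D.rhoL j = c.D.rhoL j' ↔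
    (c.wpL.ix c.γ (c.lv j.1.1) j.1.1
      (c.wpL.st c.γ c.r c.t (c.lv j.1.1) j.1.1) (c.bp j.1.1 j.1.2), ret c.t 0 j.1.1,
      c.tgL j.1.1) =
    (c.wpL.ix c.γ (c.lv j'.1.1) j'.1.1
      (c.wpL.st c.γ c.r c.t (c.lv j'.1.1) j'.1.1) (c.bp j'.1.1 j'.1.2), ret c.t 0 j'.1.1,
      c.tgL j'.1.1) := by
  rw [WL.ext_iff', Prod.ext_iff]
  exact and_congr (rep_eq_iff _ _ _) (rep_eq_iff _ _ _)

lemma Cf.Ok.wts (h : c.Ok n) (X : Finset (ℕ × ℕ × Finset ℕ)) : (c.D.par X).Wts 1 c.t := by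
  intro j _
  rw [one_mul]
  exact h.wt j.1.1 (Cf.mem_S j) _

/-- total length of the pieces of an item -/
lemma Cf.Ok.len (h : c.Ok n) {q : ℕ} (hq : q ∈ c.S) (hr : 0 < c.r q) :
    ∑ j ∈ Finset.univ.filter (fun j : c.Lam => j.1.1 = q), (c.D.be j - c.D.al j) = 2 * c.r q := by
  have h1 : ∑ j ∈ Finset.univ.filter (fun j : c.Lam => j.1.1 = q), (c.D.be j - c.D.al j) =
      ∑ k ∈ Finset.range c.K, (c.bp q (k + 1) - c.bp q k) := by
    refine Finset.sum_bij' (fun j _ => j.1.2) (fun k hk => (⟨(q, k), Finset.mem_product.2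
      ⟨Finset.mem_filter.2 ⟨hq, hr⟩, hk⟩⟩ : c.Lam)) ?_ ?_ ?_ ?_ ?_
    · intro j _; exact Finset.mem_range.2 (Cf.k_lt j)
    · intro k hk; simp
    · intro j hj
      apply Subtype.ext
      exact Prod.ext (Finset.mem_filter.1 hj).2.symm rfl
    · intro k hk; rfl
    · intro j hj
      have e := (Finset.mem_filter.1 hj).2
      show c.bp j.1.1 (j.1.2 + 1) - c.bp j.1.1 j.1.2 = _
      rw [e]
  rw [h1, Finset.sum_range_sub, h.bp0 q hq hr, h.bpK q hq hr]
  ring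

/-- positive radii for all natural numbers -/
noncomputable def Cf.rr (c : Cf) (q : ℕ) : ℝ := if 0 < c.r q then c.r q else 1

lemma Cf.rr_eq (j : c.Lam) : c.rr j.1.1 = c.r j.1.1 := if_pos (Cf.r_pos j)

/-- the hypotheses of `AvgSym710` -/
theorem Cf.Ok.rad (h : c.Ok n) (X : Finset (ℕ × ℕ × Finset ℕ)) : (c.D.par X).Rad c.rr where
  pos := by
    intro q
    unfold Cf.rr
    split_ifs with hq
    · exact hq
    · exact one_pos
  al := by
    intro j
    show -c.rr j.1.1 ≤ c.bp j.1.1 j.1.2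
    rw [Cf.rr_eq]
    exact h.bp_ge j _
  be := by
    intro j
    show c.bp j.1.1 (j.1.2 + 1) ≤ c.rr j.1.1
    rw [Cf.rr_eq]
    exact h.bp_le j (Cf.k_lt j)
  om := fun j a => h.le1 _ (Cf.mem_S j) _ a
  dj := fun i j hne e => h.disj' i j hne e

/-! ### worlds of pieces in terms of points -/

/-- the index of a piece is the index of each of its points -/
theorem Cf.Ok.ix_point (h : c.Ok n) {p : ℕ} (hp : p ≤ n) (j : c.Lam) {z : ℝ}
    (h1 : c.D.al j ≤ z) (h2 : z < c.D.be j) :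
    c.wp.ix c.γ p j.1.1 (c.st p j.1.1) z =
      c.wp.ix c.γ p j.1.1 (c.st p j.1.1) (c.bp j.1.1 j.1.2) :=
  ix_constA c.wp (h.pos _ (Cf.mem_S j)) (s := fun p => c.st p j.1.1)
    (h.bpz _ (Cf.mem_S j) (Cf.r_pos j)) (Finset.mem_range.2 (Nat.lt_succ_of_le hp)) h1 h2

theorem Cf.Ok.ixL_point (h : c.Ok n) {p : ℕ} (hp : p ≤ n) (j : c.Lam) {z : ℝ}
    (h1 : c.D.al j ≤ z) (h2 : z < c.D.be j) :
    c.wpL.ix c.γ p j.1.1 (c.wpL.st c.γ c.r c.t p j.1.1) z =
      c.wpL.ix c.γ p j.1.1 (c.wpL.st c.γ c.r c.t p j.1.1) (c.bp j.1.1 j.1.2) :=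
  c.wpL.ix_const (h.pos _ (Cf.mem_S j)) (h.bpL _ (Cf.mem_S j) (Cf.r_pos j))
    (Finset.mem_range.2 (Nat.lt_succ_of_le hp)) h1 h2

/-- **worlds of two pieces**: same world iff same index at (any) points, same retained part and same
tag -/
theorem Cf.Ok.rho_iff (h : c.Ok n) {p : ℕ} (hp : p ≤ n) (j j' : c.Lam) {z z' : ℝ}
    (h1 : c.D.al j ≤ z) (h2 : z < c.D.be j) (h1' : c.D.al j' ≤ z') (h2' : z' < c.D.be j') :
    c.D.rho p j = c.D.rho p j' ↔
      c.wp.ix c.γ p j.1.1 (c.st p j.1.1) z =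
        c.wp.ix c.γ p j'.1.1 (c.st p j'.1.1) z' ∧
      ret c.t p j.1.1 = ret c.t p j'.1.1 ∧ c.tg p j.1.1 = c.tg p j'.1.1 := by
  rw [Cf.D_rho, h.ix_point hp j h1 h2, h.ix_point hp j' h1' h2']
  unfold Cf.world
  rw [Prod.ext_iff]
  exact and_congr_right fun _ => Prod.ext_iff

/-- **relation of two pieces**: the indices at (any) points differ -/
theorem Cf.Ok.Ro_iff (h : c.Ok n) {p : ℕ} (hp : p ≤ n) (j j' : c.Lam) {z z' : ℝ}
    (h1 : c.D.al j ≤ z) (h2 : z < c.D.be j) (h1' : c.D.al j' ≤ z') (h2' : z' < c.D.be j') :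
    (j, j') ∈ Ro (c.D.rho p) ↔
      c.wp.ix c.γ p j.1.1 (c.st p j.1.1) z ≠
        c.wp.ix c.γ p j'.1.1 (c.st p j'.1.1) z' := by
  rw [Cf.mem_Ro, h.ix_point hp j h1 h2, h.ix_point hp j' h1' h2']
  rfl

/-- same for the leaf classes -/
theorem Cf.Ok.rhoL_iff (h : c.Ok n) (j j' : c.Lam) (hl : c.lv j.1.1 ≤ n) (hl' : c.lv j'.1.1 ≤ n)
    {z z' : ℝ}
    (h1 : c.D.al j ≤ z) (h2 : z < c.D.be j) (h1' : c.D.al j' ≤ z') (h2' : z' < c.D.be j') :
    c.D.rhoL j = c.D.rhoL j' ↔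
      c.wpL.ix c.γ (c.lv j.1.1) j.1.1 (c.wpL.st c.γ c.r c.t (c.lv j.1.1) j.1.1) z =
        c.wpL.ix c.γ (c.lv j'.1.1) j'.1.1 (c.wpL.st c.γ c.r c.t (c.lv j'.1.1) j'.1.1) z' ∧
      ret c.t 0 j.1.1 = ret c.t 0 j'.1.1 ∧ c.tgL j.1.1 = c.tgL j'.1.1 := by
  rw [Cf.D_rhoL, h.ixL_point hl j h1 h2, h.ixL_point hl' j' h1' h2', Prod.ext_iff]
  exact and_congr_right fun _ => Prod.ext_iff

/-- **a nonzero value gives a point**: the piece `j` scaled by `s` on the modulus `w` -/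
theorem pc_point {γ : ℝ} {s al be : ℝ} (hs : 0 < s) {w : ℕ} {κ : ℤ → ℝ} {x : ℝ}
    (h : pc (s * γ) (s * al) (s * be) w κ x ≠ 0) :
    ∃ (a : ℤ) (z : ℝ), κ a ≠ 0 ∧ al ≤ z ∧ z < be ∧ s * z = w * x - s * γ - a := by
  unfold pc at h
  obtain ⟨a, ha, hk⟩ := Finset.exists_ne_zero_of_sum_ne_zero h
  rw [Finset.mem_Ioc, Int.floor_lt, Int.le_floor] at ha
  refine ⟨a, (w * x - s * γ - a) / s, hk, ?_, ?_, ?_⟩
  · rw [le_div_iff₀ hs]; nlinarith [ha.2]
  · rw [div_lt_iff₀ hs]; nlinarith [ha.1]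
  · field_simp

end

end Crest.Agent.R4P.Data758
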