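import Crest.Agent.R4.DensAcc33
import Crest.Agent.R4P.OmData532
import Crest.Agent.R4P.BldF542

/-!
R4 (S0004), POWERS (helper17): **PRUNES of accidental missing ties and accidental up primes.**

* `cev ev I B t q` : number of the events `ev B' p` at the missing ties and the up primes `p ∈ I` of the
  item `q`, `B'` = product of the missing ties of `q` above `p` (times `B`).
* `cev_le` : potential bound: if `∑_{p ∈ I, ev B p} 2 σ p ≤ ε` for every `B`, then
  `∑ W q cev ≤ (ε + ε KA) W(items)`.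
* `NoAcc γ A p0 t q` : no accidental (`DensAcc33.Accd`, target `B' γ`, scales `≥ (log p) ^ A`) missing
  tie or up prime `p > p0`.
* `prune_acc` : the pruned set.
-/

set_option autoImplicit false

namespace Crest.Agent.R4P.PruneAcc17

open Crest.Agent.R4P.Cnt588 Crest.Agent.R4P.Bld532 Finset
open Crest.Agent.R4.DensAcc33 (Accd acc_dens)

/-! ### events of an item -/

open Classical in
/-- number of the events `ev B p` at the missing ties and the up primes of `I` of the item `q` -/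
noncomputable def cev (ev : ℕ → ℕ → Prop) (I : Finset ℕ) : ℕ → IT → ℕ → ℕ
  | _, .leaf _, _ => 0
  | B, .br p Sp t₁ t₀, q => if q ∈ t₀.items then
      (if p ∈ I ∧ ev B p then 1 else 0) + cev ev I (B * p) t₀ q
      else (if q ∈ Sp ∧ p ∈ I ∧ ev B p then 1 else 0) + cev ev I B t₁ q
  | B, .add _ t₁ t₀, q => if q ∈ t₀.items then cev ev I B t₀ q else cev ev I B t₁ q
  | B, .up b Sp t, q => (if q ∈ Sp ∧ b ∈ I ∧ ev B b then 1 else 0) + cev ev I B t q
  | B, .pl _ t, q => cev ev I B t q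
  | B, .far _ t₁ t₀, q => if q ∈ t₀.items then cev ev I B t₀ q else cev ev I B t₁ q

/-- product of the missing ties of `q` above `p` -/
def Bab (t : IT) (q p : ℕ) : ℕ := ∏ s ∈ (t.mt q).filter (p < ·), s

lemma uq_lt : ∀ (t : IT) (n : ℕ), t.Ok n → ∀ q, ∀ p ∈ t.uq q, p < n := by
  intro t
  induction t with
  | leaf S => intro n _ q p h; simp [IT.uq] at h
  | br r Sp t₁ t₀ ih₁ ih₀ =>
    intro n hok q p h
    obtain ⟨_, hrn, _, _, h1, h0⟩ := hok
    simp only [IT.uq] at h
    split_ifs at h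
    · exact (ih₀ r h0 q p h).trans hrn
    · rcases Finset.mem_insert.1 h with rfl | h
      · exact hrn
      · exact (ih₁ r h1 q p h).trans hrn
    · exact (ih₁ r h1 q p h).trans hrn
  | add b t₁ t₀ ih₁ ih₀ =>
    intro n hok q p h
    obtain ⟨_, hrn, _, h1, h0⟩ := hok
    simp only [IT.uq] at h
    split_ifs at h
    · have := ih₀ (b + 1) h0 q p h; omega
    · have := ih₁ (b + 1) h1 q p h; omega
  | up b Sp t ih =>
    intro n hok q p h
    obtain ⟨_, hrn, _, h1⟩ := hok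
    simp only [IT.uq] at h
    split_ifs at h
    · rcases Finset.mem_insert.1 h with rfl | h
      · exact hrn
      · exact (ih b h1 q p h).trans hrn
    · exact (ih b h1 q p h).trans hrn
  | pl b t ih =>
    intro n hok q p h
    obtain ⟨_, hrn, h1⟩ := hok
    have := ih (b + 1) h1 q p h; omega
  | far b t₁ t₀ ih₁ ih₀ =>
    intro n hok q p h
    obtain ⟨_, hrn, _, h1, h0⟩ := hok
    simp only [IT.uq] at h
    split_ifs at h
    · have := ih₀ (b + 1) h0 q p h; omega
    · have := ih₁ (b + 1) h1 q p h; omega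

/-- no events: none of the missing ties and up primes is an event -/
theorem cev_zero {ev : ℕ → ℕ → Prop} {I : Finset ℕ} : ∀ (t : IT) (n B : ℕ), t.Ok n → ∀ q,
    cev ev I B t q = 0 → ∀ p ∈ I, (p ∈ t.mt q ∨ p ∈ t.uq q) → ¬ ev (B * Bab t q p) p := by
  classical
  intro t
  induction t with
  | leaf S => intro n B _ q _ p _ h; simp [IT.mt, IT.uq] at h
  | br r Sp t₁ t₀ ih₁ ih₀ =>
    intro n B hok q hz p hp h
    obtain ⟨_, hrn, hdis, hsp, h1, h0⟩ := hok
    simp only [cev] at hz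
    simp only [IT.mt, IT.uq] at h
    unfold Bab
    simp only [IT.mt]
    by_cases hq : q ∈ t₀.items
    · rw [if_pos hq] at hz h
      rw [if_pos hq] at h
      rw [if_pos hq]
      have hz1 : ¬ (r ∈ I ∧ ev B r) := by
        intro hc; rw [if_pos hc] at hz; omega
      have hz2 : cev ev I (B * r) t₀ q = 0 := by omega
      have hlt : ∀ s ∈ t₀.mt q, s < r := fun s hs => (BldF542.mt_lt t₀ r h0 q s hs).2
      have hrm : r ∉ t₀.mt q := fun hc => lt_irrefl _ (hlt r hc)
      rcases h with h | h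
      · rcases Finset.mem_insert.1 h with rfl | h
        · have e : (insert p (t₀.mt q)).filter (p < ·) = ∅ := by
            rw [Finset.filter_eq_empty_iff]
            intro s hs
            rcases Finset.mem_insert.1 hs with rfl | hs
            · exact lt_irrefl _
            · exact not_lt.2 (hlt s hs).le
          rw [e, Finset.prod_empty, mul_one]
          exact fun hc => hz1 ⟨hp, hc⟩
        · have hpr := hlt p h
          have := ih₀ r (B * r) h0 q hz2 p hp (Or.inl h)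
          unfold Bab at this
          rw [Finset.filter_insert, if_pos hpr, Finset.prod_insert (fun hc => hrm
            (Finset.mem_filter.1 hc).1), ← mul_assoc]
          exact this
      · have hpr := uq_lt t₀ r h0 q p h
        have := ih₀ r (B * r) h0 q hz2 p hp (Or.inr h)
        unfold Bab at this
        rw [Finset.filter_insert, if_pos hpr, Finset.prod_insert (fun hc => hrm
          (Finset.mem_filter.1 hc).1), ← mul_assoc]
        exact this
    · rw [if_neg hq] at hz h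
      rw [if_neg hq] at h
      rw [if_neg hq]
      have hz2 : cev ev I B t₁ q = 0 := by omega
      have hz1 : ¬ (q ∈ Sp ∧ r ∈ I ∧ ev B r) := by
        intro hc; rw [if_pos hc] at hz; omega
      rcases h with h | h
      · exact ih₁ r B h1 q hz2 p hp (Or.inl h)
      · by_cases hqs : q ∈ Sp
        · rw [if_pos hqs] at h
          rcases Finset.mem_insert.1 h with rfl | h
          · have e : (t₁.mt q).filter (p < ·) = ∅ := by
              rw [Finset.filter_eq_empty_iff]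
              intro s hs
              exact not_lt.2 (BldF542.mt_lt t₁ p h1 q s hs).2.le
            rw [e, Finset.prod_empty, mul_one]
            exact fun hc => hz1 ⟨hqs, hp, hc⟩
          · exact ih₁ r B h1 q hz2 p hp (Or.inr h)
        · rw [if_neg hqs] at h
          exact ih₁ r B h1 q hz2 p hp (Or.inr h)
  | add b t₁ t₀ ih₁ ih₀ =>
    intro n B hok q hz p hp h
    obtain ⟨_, hrn, _, h1, h0⟩ := hok
    simp only [cev] at hz
    simp only [IT.mt, IT.uq] at h
    unfold Bab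
    simp only [IT.mt]
    by_cases hq : q ∈ t₀.items
    · simp only [if_pos hq] at hz h ⊢
      exact ih₀ (b + 1) B h0 q hz p hp h
    · simp only [if_neg hq] at hz h ⊢
      exact ih₁ (b + 1) B h1 q hz p hp h
  | up b Sp t ih =>
    intro n B hok q hz p hp h
    obtain ⟨_, hrn, _, h1⟩ := hok
    simp only [cev] at hz
    simp only [IT.mt, IT.uq] at h
    have hz2 : cev ev I B t q = 0 := by omega
    have hz1 : ¬ (q ∈ Sp ∧ b ∈ I ∧ ev B b) := by
      intro hc; rw [if_pos hc] at hz; omega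
    unfold Bab
    simp only [IT.mt]
    rcases h with h | h
    · exact ih b B h1 q hz2 p hp (Or.inl h)
    · by_cases hqs : q ∈ Sp
      · rw [if_pos hqs] at h
        rcases Finset.mem_insert.1 h with rfl | h
        · have e : (t.mt q).filter (p < ·) = ∅ := by
            rw [Finset.filter_eq_empty_iff]
            intro s hs
            exact not_lt.2 (BldF542.mt_lt t p h1 q s hs).2.le
          rw [e, Finset.prod_empty, mul_one]
          exact fun hc => hz1 ⟨hqs, hp, hc⟩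
        · exact ih b B h1 q hz2 p hp (Or.inr h)
      · rw [if_neg hqs] at h
        exact ih b B h1 q hz2 p hp (Or.inr h)
  | pl b t ih =>
    intro n B hok q hz p hp h
    obtain ⟨_, hrn, h1⟩ := hok
    exact ih (b + 1) B h1 q hz p hp h
  | far b t₁ t₀ ih₁ ih₀ =>
    intro n B hok q hz p hp h
    obtain ⟨_, hrn, _, h1, h0⟩ := hok
    simp only [cev] at hz
    simp only [IT.mt, IT.uq] at h
    unfold Bab
    simp only [IT.mt]
    by_cases hq : q ∈ t₀.items
    · simp only [if_pos hq] at hz h ⊢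
      exact ih₀ (b + 1) B h0 q hz p hp h
    · simp only [if_neg hq] at hz h ⊢
      exact ih₁ (b + 1) B h1 q hz p hp h

/-! ### the potential -/

/-- the potential of the events below the column `n` -/
noncomputable def gev (ev : ℕ → ℕ → Prop) (P Q : ℕ) (σ : ℕ → ℝ) (ε : ℝ) (B n : ℕ) : ℝ :=
  open Classical in
  if n ≤ Q + 1 then ∑ p ∈ (blk P Q).filter (fun p => p < n ∧ ev B p), 2 * σ p else ε

/-- hypothesis: the events of a fixed `B` have small weight -/
def EvH (ev : ℕ → ℕ → Prop) (P Q : ℕ) (σ : ℕ → ℝ) (ε : ℝ) : Prop :=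
  open Classical in ∀ B : ℕ, ∑ p ∈ (blk P Q).filter (fun p => ev B p), 2 * σ p ≤ ε

section
variable {ev : ℕ → ℕ → Prop} {P Q : ℕ} {σ : ℕ → ℝ} {ε : ℝ}

lemma gev_nonneg (hσ : ∀ b, 0 ≤ σ b) (hε : 0 ≤ ε) (B n : ℕ) : 0 ≤ gev ev P Q σ ε B n := by
  classical
  unfold gev
  split_ifs
  · exact Finset.sum_nonneg fun p _ => mul_nonneg (by norm_num) (hσ p)
  · exact hε

lemma gev_le (hσ : ∀ b, 0 ≤ σ b) (h : EvH ev P Q σ ε) (B n : ℕ) : gev ev P Q σ ε B n ≤ ε := by
  classical
  unfold gev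
  split_ifs
  · refine le_trans (Finset.sum_le_sum_of_subset_of_nonneg ?_ fun p _ _ =>
      mul_nonneg (by norm_num) (hσ p)) (h B)
    intro p hp
    rw [Finset.mem_filter] at hp ⊢
    exact ⟨hp.1, hp.2.2⟩
  · exact le_rfl

lemma gev_mono (hσ : ∀ b, 0 ≤ σ b) (h : EvH ev P Q σ ε) (B : ℕ) {m n : ℕ} (hmn : m ≤ n) :
    gev ev P Q σ ε B m ≤ gev ev P Q σ ε B n := by
  classical
  by_cases hn : n ≤ Q + 1
  · unfold gev
    rw [if_pos hn, if_pos (hmn.trans hn)]
    refine Finset.sum_le_sum_of_subset_of_nonneg ?_ fun p _ _ => mul_nonneg (by norm_num) (hσ p)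
    intro p hp
    rw [Finset.mem_filter] at hp ⊢
    exact ⟨hp.1, hp.2.1.trans_le hmn, hp.2.2⟩
  · have e : gev ev P Q σ ε B n = ε := by unfold gev; rw [if_neg hn]
    rw [e]; exact gev_le hσ h B m

/-- one step inside the block -/
lemma gev_step (hσ : ∀ b, 0 ≤ σ b) (h : EvH ev P Q σ ε) (B : ℕ) {p n : ℕ} (hpn : p < n)
    (hp : p ∈ blk P Q) (he : ev B p) :
    gev ev P Q σ ε B p + 2 * σ p ≤ gev ev P Q σ ε B n := by
  classical
  have hpQ := (mem_blk33.1 hp).2.1
  have key : gev ev P Q σ ε B p + 2 * σ p ≤ gev ev P Q σ ε B (p + 1) := by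
    unfold gev
    rw [if_pos (by omega), if_pos (by omega)]
    have e : (blk P Q).filter (fun r => r < p + 1 ∧ ev B r) =
        insert p ((blk P Q).filter (fun r => r < p ∧ ev B r)) := by
      ext r
      simp only [Finset.mem_filter, Finset.mem_insert]
      constructor
      · rintro ⟨h1, h2, h3⟩
        rcases Nat.lt_succ_iff_lt_or_eq.1 h2 with h4 | h4
        · exact Or.inr ⟨h1, h4, h3⟩
        · exact Or.inl h4
      · rintro (rfl | ⟨h1, h2, h3⟩)
        · exact ⟨hp, Nat.lt_succ_self _, he⟩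
        · exact ⟨h1, Nat.lt_succ_of_lt h2, h3⟩
    rw [e, Finset.sum_insert (by simp), add_comm]
  exact key.trans (gev_mono hσ h B hpn)

/-- outside the block `B` may change for free -/
lemma gev_out (hσ : ∀ b, 0 ≤ σ b) (h : EvH ev P Q σ ε) (hε : 0 ≤ ε) (B B' : ℕ) {p n : ℕ} (hpn : p < n)
    (hpp : p.Prime) (hp : p ∉ blk P Q) : gev ev P Q σ ε B' p ≤ gev ev P Q σ ε B n := by
  classical
  by_cases hpQ : p ≤ Q
  · have hpP : p ≤ P := by
      by_contra hc
      exact hp (mem_blk33.2 ⟨not_le.1 hc, hpQ, hpp⟩)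
    have e : gev ev P Q σ ε B' p = 0 := by
      unfold gev
      rw [if_pos (by omega)]
      apply Finset.sum_eq_zero
      intro r hr
      obtain ⟨h1, h2, _⟩ := Finset.mem_filter.1 hr
      have := (mem_blk33.1 h1).1
      omega
    rw [e]; exact gev_nonneg hσ hε B n
  · have e : gev ev P Q σ ε B n = ε := by unfold gev; rw [if_neg (by omega)]
    rw [e]; exact gev_le hσ h B' p

end

/-- tie rule: missing share at most `σ p` -/
def TieRule (W : ℕ → ℝ) (σ : ℕ → ℝ) : IT → Prop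
  | .leaf _ => True
  | .br p _ t₁ t₀ => Ws W t₀.items ≤ σ p * Ws W (t₁.items ∪ t₀.items) ∧ TieRule W σ t₁ ∧
      TieRule W σ t₀
  | .add _ t₁ t₀ => TieRule W σ t₁ ∧ TieRule W σ t₀
  | .up _ _ t => TieRule W σ t
  | .pl _ t => TieRule W σ t
  | .far _ t₁ t₀ => TieRule W σ t₁ ∧ TieRule W σ t₀

/-- tie rule with `2 sg` -/
theorem TieRule_of_All (P : Par) (W : ℕ → ℝ) :
    ∀ (t : IT) (s : NS), All (NodeOk P W) s t → TieRule W (fun k => 2 * P.sg k) t := by
  intro t
  induction t with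
  | leaf S => intro s _; trivial
  | br p Sp t₁ t₀ ih1 ih0 =>
    rintro s ⟨⟨_, _, _, _, _, _, _, _, _, _, _, h, _⟩, h6, h7⟩
    exact ⟨h, ih1 _ h6, ih0 _ h7⟩
  | add b t₁ t₀ ih1 ih0 => rintro s ⟨_, h6, h7⟩; exact ⟨ih1 _ h6, ih0 _ h7⟩
  | up b Sp t ih => rintro s ⟨_, h6⟩; exact ih _ h6
  | pl b t ih => rintro s ⟨_, h6⟩; exact ih _ h6
  | far b t₁ t₀ ih1 ih0 => rintro s ⟨_, h6, h7⟩; exact ⟨ih1 _ h6, ih0 _ h7⟩

/-- weighted number of the events -/
noncomputable def CE (W : ℕ → ℝ) (ev : ℕ → ℕ → Prop) (I : Finset ℕ) (B : ℕ) (t : IT) : ℝ :=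
  ∑ q ∈ t.items, W q * (cev ev I B t q : ℝ)

open Classical in
lemma CE_br {W : ℕ → ℝ} {ev : ℕ → ℕ → Prop} {I : Finset ℕ} {B p : ℕ} {Sp : Finset ℕ} {t₁ t₀ : IT}
    (h : Disjoint t₁.items t₀.items) (hsp : Sp ⊆ t₁.items) :
    CE W ev I B (.br p Sp t₁ t₀) = CE W ev I B t₁ + CE W ev I (B * p) t₀ +
      (if p ∈ I ∧ ev B p then Ws W t₀.items + Ws W Sp else 0) := by
  have e : CE W ev I B (.br p Sp t₁ t₀) = ∑ q ∈ t₁.items ∪ t₀.items,
      (if q ∈ t₀.items then W q * (((if p ∈ I ∧ ev B p then 1 else 0) +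
          cev ev I (B * p) t₀ q : ℕ) : ℝ)
        else W q * (((if q ∈ Sp ∧ p ∈ I ∧ ev B p then 1 else 0) + cev ev I B t₁ q : ℕ) : ℝ)) := by
    unfold CE
    refine Finset.sum_congr rfl fun q _ => ?_
    by_cases hq : q ∈ t₀.items
    · simp only [cev, if_pos hq]
    · simp only [cev, if_neg hq]
  rw [e, sum_split33 h]
  unfold CE Ws
  by_cases he : p ∈ I ∧ ev B p
  · have e1 : ∑ q ∈ t₁.items, W q * (((if q ∈ Sp ∧ p ∈ I ∧ ev B p then 1 else 0) +
        cev ev I B t₁ q : ℕ) : ℝ) = ∑ q ∈ Sp, W q + ∑ q ∈ t₁.items, W q * (cev ev I B t₁ q : ℝ) := by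
      have e2 : ∑ q ∈ Sp, W q = ∑ q ∈ t₁.items, (if q ∈ Sp then W q else 0) := by
        rw [← Finset.sum_filter]
        refine Finset.sum_congr ?_ fun _ _ => rfl
        ext q; simp only [Finset.mem_filter]
        exact ⟨fun hq => ⟨hsp hq, hq⟩, fun hq => hq.2⟩
      rw [e2, ← Finset.sum_add_distrib]
      refine Finset.sum_congr rfl fun q _ => ?_
      by_cases hq : q ∈ Sp
      · rw [if_pos ⟨hq, he⟩, if_pos hq]; push_cast; ring
      · rw [if_neg (fun hc => hq hc.1), if_neg hq]; push_cast; ring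
    have e3 : ∑ q ∈ t₀.items, W q * (((if p ∈ I ∧ ev B p then 1 else 0) +
        cev ev I (B * p) t₀ q : ℕ) : ℝ) = ∑ q ∈ t₀.items, W q +
          ∑ q ∈ t₀.items, W q * (cev ev I (B * p) t₀ q : ℝ) := by
      rw [← Finset.sum_add_distrib]
      refine Finset.sum_congr rfl fun q _ => ?_
      rw [if_pos he]; push_cast; ring
    rw [e1, e3, if_pos he]; ring
  · have e1 : ∑ q ∈ t₁.items, W q * (((if q ∈ Sp ∧ p ∈ I ∧ ev B p then 1 else 0) +
        cev ev I B t₁ q : ℕ) : ℝ) = ∑ q ∈ t₁.items, W q * (cev ev I B t₁ q : ℝ) := by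
      refine Finset.sum_congr rfl fun q _ => ?_
      rw [if_neg (fun hc => he hc.2)]; push_cast; ring
    have e3 : ∑ q ∈ t₀.items, W q * (((if p ∈ I ∧ ev B p then 1 else 0) +
        cev ev I (B * p) t₀ q : ℕ) : ℝ) = ∑ q ∈ t₀.items, W q * (cev ev I (B * p) t₀ q : ℝ) := by
      refine Finset.sum_congr rfl fun q _ => ?_
      rw [if_neg he]; push_cast; ring
    rw [e1, e3, if_neg he]; ring

lemma CE_add {W : ℕ → ℝ} {ev : ℕ → ℕ → Prop} {I : Finset ℕ} {B b : ℕ} {t₁ t₀ : IT}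
    (h : Disjoint t₁.items t₀.items) :
    CE W ev I B (.add b t₁ t₀) = CE W ev I B t₁ + CE W ev I B t₀ := by
  have e : CE W ev I B (.add b t₁ t₀) = ∑ q ∈ t₁.items ∪ t₀.items,
      (if q ∈ t₀.items then W q * (cev ev I B t₀ q : ℝ) else W q * (cev ev I B t₁ q : ℝ)) := by
    unfold CE
    refine Finset.sum_congr rfl fun q _ => ?_
    by_cases hq : q ∈ t₀.items
    · simp only [cev, if_pos hq]
    · simp only [cev, if_neg hq]
  rw [e, sum_split33 h]; rfl

lemma CE_far {W : ℕ → ℝ} {ev : ℕ → ℕ → Prop} {I : Finset ℕ} {B b : ℕ} {t₁ t₀ : IT}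
    (h : Disjoint t₁.items t₀.items) :
    CE W ev I B (.far b t₁ t₀) = CE W ev I B t₁ + CE W ev I B t₀ := by
  have e : CE W ev I B (.far b t₁ t₀) = ∑ q ∈ t₁.items ∪ t₀.items,
      (if q ∈ t₀.items then W q * (cev ev I B t₀ q : ℝ) else W q * (cev ev I B t₁ q : ℝ)) := by
    unfold CE
    refine Finset.sum_congr rfl fun q _ => ?_
    by_cases hq : q ∈ t₀.items
    · simp only [cev, if_pos hq]
    · simp only [cev, if_neg hq]
  rw [e, sum_split33 h]; rfl

open Classical in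
lemma CE_up {W : ℕ → ℝ} {ev : ℕ → ℕ → Prop} {I : Finset ℕ} {B b : ℕ} {Sp : Finset ℕ} {t : IT}
    (hsp : Sp ⊆ t.items) :
    CE W ev I B (.up b Sp t) = CE W ev I B t + (if b ∈ I ∧ ev B b then Ws W Sp else 0) := by
  unfold CE
  show ∑ q ∈ t.items, W q * (((if q ∈ Sp ∧ b ∈ I ∧ ev B b then 1 else 0) +
    cev ev I B t q : ℕ) : ℝ) = _
  by_cases he : b ∈ I ∧ ev B b
  · rw [if_pos he]
    have e2 : Ws W Sp = ∑ q ∈ t.items, (if q ∈ Sp then W q else 0) := by
      unfold Ws
      rw [← Finset.sum_filter]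
      refine Finset.sum_congr ?_ fun _ _ => rfl
      ext q; simp only [Finset.mem_filter]
      exact ⟨fun hq => ⟨hsp hq, hq⟩, fun hq => hq.2⟩
    rw [e2, ← Finset.sum_add_distrib]
    refine Finset.sum_congr rfl fun q _ => ?_
    by_cases hq : q ∈ Sp
    · rw [if_pos ⟨hq, he⟩, if_pos hq]; push_cast; ring
    · rw [if_neg (fun hc => hq hc.1), if_neg hq]; push_cast; ring
  · rw [if_neg he, add_zero]
    refine Finset.sum_congr rfl fun q _ => ?_
    rw [if_neg (fun hc => he hc.2)]; push_cast; ring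

/-- lower bound of the number of missing ties -/
lemma MT_br_ge {W : ℕ → ℝ} (hW : ∀ q, 0 ≤ W q) (I : Finset ℕ) {p : ℕ} {Sp : Finset ℕ} {t₁ t₀ : IT}
    (h : Disjoint t₁.items t₀.items) (h0 : t₀.Ok p) :
    MT33 W I t₁ + MT33 W I t₀ + (if p ∈ I then Ws W t₀.items else 0) ≤
      MT33 W I (.br p Sp t₁ t₀) := by
  have e : MT33 W I (.br p Sp t₁ t₀) = ∑ q ∈ t₁.items ∪ t₀.items,
      (if q ∈ t₀.items then W q * (((insert p (t₀.mt q)).filter (· ∈ I)).card : ℝ)
        else W q * (((t₁.mt q).filter (· ∈ I)).card : ℝ)) := by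
    unfold MT33
    refine Finset.sum_congr rfl fun q _ => ?_
    by_cases hq : q ∈ t₀.items
    · simp only [IT.mt, if_pos hq]
    · simp only [IT.mt, if_neg hq]
  rw [e, sum_split33 h]
  have e3 : ∑ q ∈ t₁.items, W q * (((t₁.mt q).filter (· ∈ I)).card : ℝ) = MT33 W I t₁ := rfl
  rw [e3]
  have e2 : MT33 W I t₀ + (if p ∈ I then Ws W t₀.items else 0) ≤
      ∑ q ∈ t₀.items, W q * (((insert p (t₀.mt q)).filter (· ∈ I)).card : ℝ) := by
    have : MT33 W I t₀ + (if p ∈ I then Ws W t₀.items else 0) =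
        ∑ q ∈ t₀.items, W q * ((((t₀.mt q).filter (· ∈ I)).card : ℝ) +
          (if p ∈ I then 1 else 0)) := by
      simp only [mul_add, Finset.sum_add_distrib, MT33]
      congr 1
      by_cases hp : p ∈ I
      · simp [hp, Ws]
      · simp [hp]
    rw [this]
    refine Finset.sum_le_sum fun q _ => mul_le_mul_of_nonneg_left ?_ (hW q)
    by_cases hp : p ∈ I
    · rw [if_pos hp, Finset.filter_insert, if_pos hp, Finset.card_insert_of_notMem]
      · push_cast; exact le_rfl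
      · intro hc
        exact lt_irrefl _ (BldF542.mt_lt t₀ p h0 q p (Finset.mem_filter.1 hc).1).2
    · rw [if_neg hp, Finset.filter_insert, if_neg hp, add_zero]
  linarith

/-- **potential bound** -/
theorem cev_pot (W : ℕ → ℝ) (hW : ∀ q, 0 ≤ W q) {ev : ℕ → ℕ → Prop} {P Q : ℕ} {σ : ℕ → ℝ} {ε : ℝ}
    (hσ : ∀ b, 0 ≤ σ b) (hε : 0 ≤ ε) (h : EvH ev P Q σ ε) :
    ∀ (t : IT) (n B : ℕ), t.Ok n → t.UpRule W σ → TieRule W σ t →
      CE W ev (blk P Q) B t ≤ gev ev P Q σ ε B n * Ws W t.items + ε * MT33 W (blk P Q) t := by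
  classical
  intro t
  induction t with
  | leaf S =>
    intro n B _ _ _
    have e : CE W ev (blk P Q) B (.leaf S) = 0 := by simp [CE, cev]
    rw [e]
    exact add_nonneg (mul_nonneg (gev_nonneg hσ hε _ _) (Ws_nonneg33 hW _))
      (mul_nonneg hε (MT_nonneg33 hW _ _))
  | br p Sp t₁ t₀ ih₁ ih₀ =>
    intro n B hok hu ht
    obtain ⟨hpp, hpn, hdis, hsp, hok1, hok0⟩ := hok
    obtain ⟨hu, hu1, hu0⟩ := hu
    obtain ⟨ht, ht1, ht0⟩ := ht
    have i1 := ih₁ p B hok1 hu1 ht1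
    have i0 := ih₀ p (B * p) hok0 hu0 ht0
    have hw : Ws W (t₁.items ∪ t₀.items) = Ws W t₁.items + Ws W t₀.items := Ws_union33 W hdis
    have hit : (IT.br p Sp t₁ t₀).items = t₁.items ∪ t₀.items := rfl
    have hMT := MT_br_ge hW (blk P Q) (Sp := Sp) hdis hok0
    have hw1 := Ws_nonneg33 hW t₁.items
    have hw0 := Ws_nonneg33 hW t₀.items
    rw [CE_br hdis hsp, hit, hw]
    have g1 := gev_mono hσ h B hpn.le
    have hM := mul_le_mul_of_nonneg_left hMT hε
    by_cases hp : p ∈ blk P Q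
    · rw [if_pos hp] at hM
      have g0 := gev_le hσ h (B * p) p
      have k0 := mul_le_mul_of_nonneg_right g0 hw0
      have gB := gev_nonneg (P := P) (Q := Q) (ev := ev) hσ hε B p
      by_cases he : ev B p
      · rw [if_pos ⟨hp, he⟩]
        have gs := gev_step hσ h B hpn hp he
        have ks := mul_le_mul_of_nonneg_right gs (add_nonneg hw1 hw0)
        have hSp : Ws W Sp ≤ σ p * (Ws W t₁.items + Ws W t₀.items) :=
          hu.trans (mul_le_mul_of_nonneg_left (by linarith) (hσ p))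
        rw [hw] at ht
        have k1 : gev ev P Q σ ε B p * Ws W t₁.items ≤
            gev ev P Q σ ε B p * (Ws W t₁.items + Ws W t₀.items) :=
          mul_le_mul_of_nonneg_left (by linarith) gB
        nlinarith
      · rw [if_neg (fun hc => he hc.2)]
        have k1 := mul_le_mul_of_nonneg_right g1 (add_nonneg hw1 hw0)
        have k2 : gev ev P Q σ ε B p * Ws W t₁.items ≤
            gev ev P Q σ ε B p * (Ws W t₁.items + Ws W t₀.items) :=
          mul_le_mul_of_nonneg_left (by linarith) gB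
        nlinarith
    · rw [if_neg (fun hc => hp hc.1)]
      rw [if_neg hp, add_zero] at hM
      have g0 := gev_out hσ h hε B (B * p) hpn hpp hp
      have k0 := mul_le_mul_of_nonneg_right g0 hw0
      have k1 := mul_le_mul_of_nonneg_right g1 hw1
      nlinarith
  | add b t₁ t₀ ih₁ ih₀ =>
    intro n B hok hu ht
    obtain ⟨hpp, hpn, hdis, hok1, hok0⟩ := hok
    have i1 := ih₁ (b + 1) B hok1 hu.1 ht.1
    have i0 := ih₀ (b + 1) B hok0 hu.2 ht.2
    have hw : Ws W (t₁.items ∪ t₀.items) = Ws W t₁.items + Ws W t₀.items := Ws_union33 W hdis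
    have hit : (IT.add b t₁ t₀).items = t₁.items ∪ t₀.items := rfl
    rw [CE_add hdis, MT_add33 _ hdis, hit, hw]
    have g1 := gev_mono hσ h B (show b + 1 ≤ n by omega)
    have k1 := mul_le_mul_of_nonneg_right g1 (Ws_nonneg33 hW t₁.items)
    have k0 := mul_le_mul_of_nonneg_right g1 (Ws_nonneg33 hW t₀.items)
    nlinarith
  | up b Sp t ih =>
    intro n B hok hu ht
    obtain ⟨hpp, hpn, hsp, hok1⟩ := hok
    have i1 := ih b B hok1 hu.2 ht
    have hw := Ws_nonneg33 hW t.items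
    rw [CE_up hsp]
    have hit : (IT.up b Sp t).items = t.items := rfl
    have hMT : MT33 W (blk P Q) (IT.up b Sp t) = MT33 W (blk P Q) t := rfl
    rw [hit, hMT]
    by_cases he : b ∈ blk P Q ∧ ev B b
    · rw [if_pos he]
      have gs := gev_step hσ h B hpn he.1 he.2
      have ks := mul_le_mul_of_nonneg_right gs hw
      have h0 := hu.1
      have h1 : 0 ≤ σ b * Ws W t.items := mul_nonneg (hσ b) hw
      nlinarith
    · rw [if_neg he, add_zero]
      have g1 := gev_mono hσ h B hpn.le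
      have k1 := mul_le_mul_of_nonneg_right g1 hw
      linarith
  | pl b t ih =>
    intro n B hok hu ht
    obtain ⟨hpp, hpn, hok1⟩ := hok
    have i1 := ih (b + 1) B hok1 hu ht
    have g1 := gev_mono hσ h B (show b + 1 ≤ n by omega)
    have k1 := mul_le_mul_of_nonneg_right g1 (Ws_nonneg33 hW t.items)
    have hit : (IT.pl b t).items = t.items := rfl
    have hMT : MT33 W (blk P Q) (IT.pl b t) = MT33 W (blk P Q) t := rfl
    have hCE : CE W ev (blk P Q) B (IT.pl b t) = CE W ev (blk P Q) B t := rfl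
    rw [hit, hMT, hCE]
    linarith
  | far b t₁ t₀ ih₁ ih₀ =>
    intro n B hok hu ht
    obtain ⟨hpp, hpn, hdis, hok1, hok0⟩ := hok
    have i1 := ih₁ (b + 1) B hok1 hu.1 ht.1
    have i0 := ih₀ (b + 1) B hok0 hu.2 ht.2
    have hw : Ws W (t₁.items ∪ t₀.items) = Ws W t₁.items + Ws W t₀.items := Ws_union33 W hdis
    have hit : (IT.far b t₁ t₀).items = t₁.items ∪ t₀.items := rfl
    rw [CE_far hdis, MT_far33 _ hdis, hit, hw]
    have g1 := gev_mono hσ h B (show b + 1 ≤ n by omega)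
    have k1 := mul_le_mul_of_nonneg_right g1 (Ws_nonneg33 hW t₁.items)
    have k0 := mul_le_mul_of_nonneg_right g1 (Ws_nonneg33 hW t₀.items)
    nlinarith

/-- **weighted number of the events of a block** -/
theorem cev_le (W : ℕ → ℝ) (hW : ∀ q, 0 ≤ W q) {ev : ℕ → ℕ → Prop} {P Q : ℕ} {σ : ℕ → ℝ} {ε : ℝ}
    (hσ : ∀ b, 0 ≤ σ b) (hε : 0 ≤ ε) (h : EvH ev P Q σ ε) {lam Lam : ℝ} (hl : 0 < lam)
    (hL : lam ≤ Lam) (t : IT) (n B : ℕ) (c : ℝ) (hc : 0 < c) (hok : t.Ok n) (hu : t.UpRule W σ)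
    (ht : TieRule W σ t) (ha : t.Alive W (blk P Q) lam Lam c) :
    ∑ q ∈ t.items, W q * (cev ev (blk P Q) B t q : ℝ) ≤
      ε * (1 + KA (blk P Q) lam Lam) * Ws W t.items := by
  have h1 := cev_pot W hW hσ hε h t n B hok hu ht
  have h2 := mt_le W hW P Q hl hL t n c hc hok ha
  have h3 : MT33 W (blk P Q) t ≤ KA (blk P Q) lam Lam * Ws W t.items := h2
  have h4 := gev_le hσ h B n
  have h5 := mul_le_mul_of_nonneg_right h4 (Ws_nonneg33 hW t.items)
  have h6 := mul_le_mul_of_nonneg_left h3 hε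
  have h7 : CE W ev (blk P Q) B t = ∑ q ∈ t.items, W q * (cev ev (blk P Q) B t q : ℝ) := rfl
  rw [← h7]
  nlinarith

/-! ### numbers -/

lemma sum_inv_sq (x l : ℝ) (hl : 0 < l) (hx : l < x) (N : ℕ) :
    ∑ j ∈ Finset.range N, 1 / (x + j * l) ^ 2 ≤ 1 / l * (1 / (x - l) - 1 / (x + N * l - l)) := by
  induction N with
  | zero => simp
  | succ N ih =>
    rw [Finset.sum_range_succ]
    have hN : (0 : ℝ) ≤ N * l := by positivity
    have hy : 0 < x + N * l - l := by linarith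
    have hy' : 0 < x + N * l := by linarith
    have key : 1 / (x + N * l) ^ 2 ≤ 1 / l * (1 / (x + N * l - l) - 1 / (x + N * l)) := by
      have e : 1 / l * (1 / (x + N * l - l) - 1 / (x + N * l)) =
          1 / ((x + N * l - l) * (x + N * l)) := by
        rw [div_sub_div _ _ hy.ne' hy'.ne', div_mul_div_comm,
          show (1 : ℝ) * (1 * (x + N * l) - (x + N * l - l) * 1) = l by ring,
          div_mul_eq_div_div, div_self hl.ne']
      rw [e]
      apply one_div_le_one_div_of_le (by positivity)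
      rw [pow_two]
      exact mul_le_mul_of_nonneg_right (by linarith) hy'.le
    have e2 : x + ((N + 1 : ℕ) : ℝ) * l - l = x + N * l := by push_cast; ring
    rw [e2]
    have e3 : 1 / l * (1 / (x - l) - 1 / (x + N * l)) =
        1 / l * (1 / (x - l) - 1 / (x + N * l - l)) +
          1 / l * (1 / (x + N * l - l) - 1 / (x + N * l)) := by ring
    rw [e3]
    linarith

/-- Mertens on a dyadic block, trivial bound -/
lemma blk2_sum {P : ℕ} (hP : 1 ≤ P) : ∑ p ∈ blk P (2 * P), (1 / (p : ℝ)) ≤ 1 := by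
  have hP0 : (0 : ℝ) < P := by exact_mod_cast hP
  have h1 : ∀ p ∈ blk P (2 * P), (1 / (p : ℝ)) ≤ 1 / P := by
    intro p hp
    exact one_div_le_one_div_of_le hP0 (by exact_mod_cast (mem_blk33.1 hp).1.le)
  refine (Finset.sum_le_card_nsmul _ _ _ h1).trans ?_
  have h2 : (blk P (2 * P)).card ≤ P := by
    refine (Finset.card_filter_le _ _).trans ?_
    rw [Nat.card_Ioc]; omega
  rw [nsmul_eq_mul]
  have h3 : ((blk P (2 * P)).card : ℝ) ≤ P := by exact_mod_cast h2
  calc ((blk P (2 * P)).card : ℝ) * (1 / P) ≤ P * (1 / P) :=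
        mul_le_mul_of_nonneg_right h3 (by positivity)
    _ = 1 := by field_simp

/-- dyadic scales -/
def Dk (p0 j : ℕ) : ℕ := 2 ^ j * p0

lemma log_Dk {p0 : ℕ} (h : 0 < p0) (j : ℕ) :
    Real.log (Dk p0 j : ℕ) = Real.log p0 + j * Real.log 2 := by
  have h0 : (0 : ℝ) < p0 := by exact_mod_cast h
  unfold Dk
  push_cast
  rw [Real.log_mul (by positivity) (by positivity), Real.log_pow]; ring

lemma Dk_ge {p0 : ℕ} (j : ℕ) : p0 ≤ Dk p0 j := Nat.le_mul_of_pos_left _ (by positivity)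

lemma exists_Dk {p0 p : ℕ} (h : p0 < p) (h0 : 0 < p0) {n : ℕ} (hn : p < n) :
    ∃ j ∈ Finset.range n, p ∈ Finset.Ioc (Dk p0 j) (2 * Dk p0 j) := by
  classical
  -- largest j with `Dk p0 j < p`
  have hD : ∀ j, j ≤ Dk p0 j := fun j =>
    (Nat.lt_two_pow_self (n := j)).le.trans (Nat.le_mul_of_pos_right _ h0)
  set j := Nat.findGreatest (fun j => Dk p0 j < p) p with hj
  have h1 : Dk p0 j < p := by
    have h2 : (fun j => Dk p0 j < p) 0 := by simpa [Dk] using h
    exact Nat.findGreatest_spec (P := fun j => Dk p0 j < p) (Nat.zero_le p) h2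
  have h2 : p ≤ 2 * Dk p0 j := by
    by_contra hc
    push Not at hc
    have h3 : Dk p0 (j + 1) < p := by
      have : Dk p0 (j + 1) = 2 * Dk p0 j := by unfold Dk; rw [pow_succ]; ring
      omega
    have h4 : j + 1 ≤ p := (hD (j + 1)).trans h3.le
    have := Nat.le_findGreatest (P := fun j => Dk p0 j < p) h4 h3
    omega
  refine ⟨j, Finset.mem_range.2 ?_, Finset.mem_Ioc.2 ⟨h1, h2⟩⟩
  have := hD j
  omega

open Classical in
/-- **GENERAL PRUNE of events** `ev B' p` at the missing ties and the up primes `p > p0`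
(`B'` = product of the missing ties above `p`), when the events of every fixed `B'` have density
`≤ (log P)^(-E)` on `(P, 2P]`, `E ≥ B + C1 + c2 + 2`. -/
theorem prune_ev (B C1 c2 ε : ℝ) (hε : 0 < ε) (hB : 0 ≤ B) (hC1 : 0 ≤ C1) (hc2 : 0 ≤ c2) :
    ∃ p₁ : ℕ, ∀ p0 ≥ p₁, (par B C1 c2 p0).Good ∧ ∀ ev : ℕ → ℕ → Prop,
      (∀ B' P : ℕ, p0 ≤ P → ∑ p ∈ (blk P (2 * P)).filter (fun p => ev B' p), (1 / (p : ℝ)) ≤
        Real.log P ^ (-(B + C1 + c2 + 2))) →
      ∀ (W : ℕ → ℝ), (∀ q, 0 ≤ W q) → ∀ (n : ℕ) (S : Finset ℕ), (∀ q ∈ S, 0 < q) →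
        (1 - ε) * Ws W S ≤ Ws W (S.filter fun q => ∀ p,
          (p ∈ (bld (par B C1 c2 p0) W n 1 1 S).mt q ∨
            p ∈ (bld (par B C1 c2 p0) W n 1 1 S).uq q) →
          ¬ ev (Bab (bld (par B C1 c2 p0) W n 1 1 S) q p) p) := by
  obtain ⟨p1, h1⟩ := par_Good B C1 c2 hB hC1 hc2
  set C := C1 + c2 with hC
  set K : ℝ := 4 * 2 ^ B * (3 * 2 ^ C) with hK
  have hK0 : 0 < K := by positivity
  have hl2 : 0 < Real.log 2 := Real.log_pos (by norm_num)
  have hl2' : Real.log 2 ≤ 1 := by have := Real.log_two_lt_d9; linarith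
  set T : ℝ := 2 + K / (Real.log 2 * ε) with hT
  refine ⟨p1 + ⌈Real.exp T⌉₊ + 3, fun p0 hp0 => ⟨h1 p0 (by omega), ?_⟩⟩
  intro ev hev W hW n S hS
  have hG := h1 p0 (by omega)
  set t := bld (par B C1 c2 p0) W n 1 1 S with ht
  have hp0' : 0 < p0 := by omega
  have hpT : Real.exp T ≤ p0 := by
    have h1 : Real.exp T ≤ ⌈Real.exp T⌉₊ := Nat.le_ceil _
    have h2 : ((⌈Real.exp T⌉₊ : ℕ) : ℝ) ≤ p0 := by
      have : ⌈Real.exp T⌉₊ ≤ p0 := by omega
      exact_mod_cast this
    linarith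
  have hp0R : (0 : ℝ) < p0 := by exact_mod_cast hp0'
  have hx : T ≤ Real.log p0 := (Real.le_log_iff_exp_le hp0R).2 hpT
  have hT2 : 2 ≤ T := by
    have : 0 ≤ K / (Real.log 2 * ε) := by positivity
    rw [hT]; linarith
  have hAll := bld_All_root (par B C1 c2 p0) W hW hG n S hS
  have hit : t.items = S := bld_items _ _ hW hG n 1 1 1 S (Bk.root S hS n)
  have hok : t.Ok n := Ok_of_All _ _ _ _ hAll
  have hu : t.UpRule W (fun k => 2 * (par B C1 c2 p0).sg k) := UpRule_of_All _ _ _ _ hAll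
  have htr : TieRule W (fun k => 2 * (par B C1 c2 p0).sg k) t := TieRule_of_All _ _ _ _ hAll
  have hσ : ∀ b, 0 ≤ (fun k => 2 * (par B C1 c2 p0).sg k) b := fun b =>
    mul_nonneg (by norm_num) (par_sg_nonneg B C1 c2 p0 b)
  -- one block
  have hblk : ∀ j, ∑ q ∈ S, W q * (cev ev (blk (Dk p0 j) (2 * Dk p0 j)) 1 t q : ℝ) ≤
      K * (1 / (Real.log p0 + j * Real.log 2) ^ 2) * Ws W S := by
    intro j
    set P := Dk p0 j with hP
    have hPp : p0 ≤ P := Dk_ge j
    have hP3 : 3 ≤ P := by omega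
    have hP0 : (0 : ℝ) < P := by positivity
    have hlP := log_Dk hp0' j
    rw [← hP] at hlP
    have hx2 : 2 ≤ Real.log P := by
      rw [hlP]; have : 0 ≤ (j : ℝ) * Real.log 2 := by positivity
      linarith
    have hX0 : 0 < Real.log P := by linarith
    have h2P : Real.log ((2 * P : ℕ) : ℝ) ≤ 2 * Real.log P := by
      push_cast
      rw [Real.log_mul (by norm_num) hP0.ne']; linarith
    have hlo2 : Real.log P ≤ Real.log ((2 * P : ℕ) : ℝ) :=
      Real.log_le_log hP0 (by push_cast; linarith)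
    have h2P0 : 1 ≤ Real.log ((2 * P : ℕ) : ℝ) := by linarith
    -- the weight of the events
    have hEv : EvH ev P (2 * P) (fun k => 2 * (par B C1 c2 p0).sg k)
        (4 * (2 * Real.log P) ^ B * Real.log P ^ (-(B + C1 + c2 + 2))) := by
      intro B'
      have h3 : ∀ p ∈ (blk P (2 * P)).filter (fun p => ev B' p),
          2 * (2 * (par B C1 c2 p0).sg p) ≤ 4 * (2 * Real.log P) ^ B * (1 / (p : ℝ)) := by
        intro p hp
        have hpb := mem_blk33.1 (Finset.mem_filter.1 hp).1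
        have hp0'' : (0 : ℝ) < p := by exact_mod_cast hpb.2.2.pos
        have h4 : Real.log p ≤ 2 * Real.log P :=
          (Real.log_le_log hp0'' (by exact_mod_cast hpb.2.1)).trans h2P
        have h5 : Real.log p ^ B ≤ (2 * Real.log P) ^ B :=
          Real.rpow_le_rpow (Real.log_natCast_nonneg p) h4 hB
        show 2 * (2 * (Real.log p ^ B / p)) ≤ _
        calc 2 * (2 * (Real.log p ^ B / p)) = 4 * Real.log p ^ B * (1 / (p : ℝ)) := by ring
          _ ≤ 4 * (2 * Real.log P) ^ B * (1 / (p : ℝ)) := by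
            apply mul_le_mul_of_nonneg_right _ (by positivity)
            linarith
      refine (Finset.sum_le_sum h3).trans ?_
      rw [← Finset.mul_sum]
      exact mul_le_mul_of_nonneg_left (hev B' P hPp) (by positivity)
    have hal : t.Alive W (blk P (2 * P)) (Real.log ((2 * P : ℕ) : ℝ) ^ (-C1))
        (Real.log ((2 * P : ℕ) : ℝ) ^ c2) 1 :=
      par_Alive B C1 c2 p0 hC1 hc2 (by omega) W P (2 * P) t ⟨n, 1, 1, 1⟩ hAll
    have key := cev_le W hW hσ (by positivity) hEv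
      (lam := Real.log ((2 * P : ℕ) : ℝ) ^ (-C1)) (Lam := Real.log ((2 * P : ℕ) : ℝ) ^ c2)
      (Real.rpow_pos_of_pos (by linarith) _)
      (Real.rpow_le_rpow_of_exponent_le h2P0 (by linarith)) t n 1 1 one_pos hok hu htr hal
    rw [hit] at key
    refine key.trans (mul_le_mul_of_nonneg_right ?_ (Ws_nonneg33 hW S))
    have hKA := PrunePar33.KA_le (blk2_sum (P := P) (by omega)) h2P0 hC1 hc2
    have hKA2 : KA (blk P (2 * P)) (Real.log ((2 * P : ℕ) : ℝ) ^ (-C1))
        (Real.log ((2 * P : ℕ) : ℝ) ^ c2) ≤ 2 * (2 * Real.log P) ^ C :=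
      hKA.trans (mul_le_mul_of_nonneg_left (Real.rpow_le_rpow (by linarith) h2P (by positivity))
        (by norm_num))
    have h1C : 1 ≤ (2 * Real.log P) ^ C := Real.one_le_rpow (by linarith) (by positivity)
    have hE : 0 ≤ 4 * (2 * Real.log P) ^ B * Real.log P ^ (-(B + C1 + c2 + 2)) := by positivity
    calc 4 * (2 * Real.log P) ^ B * Real.log P ^ (-(B + C1 + c2 + 2)) *
          (1 + KA (blk P (2 * P)) (Real.log ((2 * P : ℕ) : ℝ) ^ (-C1))
            (Real.log ((2 * P : ℕ) : ℝ) ^ c2))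
        ≤ 4 * (2 * Real.log P) ^ B * Real.log P ^ (-(B + C1 + c2 + 2)) *
          (3 * (2 * Real.log P) ^ C) := mul_le_mul_of_nonneg_left (by linarith) hE
      _ = K * (Real.log P ^ B * Real.log P ^ C * Real.log P ^ (-(B + C1 + c2 + 2))) := by
          rw [Real.mul_rpow (by norm_num) hX0.le, Real.mul_rpow (by norm_num) hX0.le, hK]; ring
      _ = K * (1 / Real.log P ^ 2) := by
          rw [← Real.rpow_add hX0, ← Real.rpow_add hX0]
          have e : B + C + -(B + C1 + c2 + 2) = -2 := by rw [hC]; ring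
          rw [e, Real.rpow_neg hX0.le, one_div]
          norm_num
      _ = K * (1 / (Real.log p0 + j * Real.log 2) ^ 2) := by rw [hlP]
  -- Markov
  set S₁ := S.filter fun q => ∀ p, (p ∈ t.mt q ∨ p ∈ t.uq q) → ¬ ev (Bab t q p) p with hS₁
  set f : ℕ → ℝ := fun q => ∑ j ∈ Finset.range n,
    (cev ev (blk (Dk p0 j) (2 * Dk p0 j)) 1 t q : ℝ) with hf
  have hf0 : ∀ q, 0 ≤ f q := fun q => Finset.sum_nonneg fun j _ => Nat.cast_nonneg _
  have hbad : ∀ q ∈ S, q ∉ S₁ → 1 ≤ f q := by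
    intro q hq hq1
    have h3 : ¬ ∀ p, (p ∈ t.mt q ∨ p ∈ t.uq q) → ¬ ev (Bab t q p) p := fun h =>
      hq1 (Finset.mem_filter.2 ⟨hq, h⟩)
    push Not at h3
    obtain ⟨p, hp, he⟩ := h3
    have h4 := cols_of_All _ _ _ _ hAll q p (by tauto)
    obtain ⟨j, hj, hpj⟩ := exists_Dk (p0 := p0) h4.2.1 hp0' h4.2.2
    have hpb : p ∈ blk (Dk p0 j) (2 * Dk p0 j) :=
      mem_blk33.2 ⟨(Finset.mem_Ioc.1 hpj).1, (Finset.mem_Ioc.1 hpj).2, h4.1⟩
    have h5 : cev ev (blk (Dk p0 j) (2 * Dk p0 j)) 1 t q ≠ 0 := by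
      intro h0
      have := cev_zero t n 1 hok q h0 p hpb hp
      rw [one_mul] at this
      exact this he
    have h6 : (1 : ℝ) ≤ (cev ev (blk (Dk p0 j) (2 * Dk p0 j)) 1 t q : ℝ) := by
      exact_mod_cast Nat.one_le_iff_ne_zero.2 h5
    exact h6.trans (Finset.single_le_sum
      (f := fun j => (cev ev (blk (Dk p0 j) (2 * Dk p0 j)) 1 t q : ℝ))
      (fun j _ => Nat.cast_nonneg _) hj)
  have htot : ∑ q ∈ S, W q * f q ≤ ε * Ws W S := by
    have e : ∑ q ∈ S, W q * f q = ∑ j ∈ Finset.range n,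
        ∑ q ∈ S, W q * (cev ev (blk (Dk p0 j) (2 * Dk p0 j)) 1 t q : ℝ) := by
      rw [Finset.sum_comm]
      refine Finset.sum_congr rfl fun q _ => ?_
      rw [hf, Finset.mul_sum]
    rw [e]
    refine (Finset.sum_le_sum fun j _ => hblk j).trans ?_
    rw [← Finset.sum_mul, ← Finset.mul_sum]
    refine mul_le_mul_of_nonneg_right ?_ (Ws_nonneg33 hW S)
    have h3 := sum_inv_sq (Real.log p0) (Real.log 2) hl2 (by linarith) n
    have hn0 : (0 : ℝ) ≤ n * Real.log 2 := by positivity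
    have h4 : 0 ≤ 1 / (Real.log p0 + n * Real.log 2 - Real.log 2) := by
      apply div_nonneg zero_le_one; linarith
    have h5 : ∑ j ∈ Finset.range n, 1 / (Real.log p0 + j * Real.log 2) ^ 2 ≤
        1 / Real.log 2 * (1 / (Real.log p0 - Real.log 2)) :=
      h3.trans (mul_le_mul_of_nonneg_left (by linarith) (by positivity))
    refine (mul_le_mul_of_nonneg_left h5 hK0.le).trans ?_
    have h6 : K / (Real.log 2 * ε) ≤ Real.log p0 - Real.log 2 := by linarith
    have h7 : 0 < Real.log p0 - Real.log 2 := by linarith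
    rw [div_le_iff₀ (by positivity)] at h6
    have h8 : K * (1 / Real.log 2 * (1 / (Real.log p0 - Real.log 2))) =
        K / (Real.log 2 * (Real.log p0 - Real.log 2)) := by field_simp
    rw [h8, div_le_iff₀ (by positivity)]
    nlinarith
  have hsub : S₁ ⊆ S := Finset.filter_subset _ _
  have e1 : Ws W S = Ws W S₁ + ∑ q ∈ S \ S₁, W q := by
    unfold Ws
    rw [← Finset.sum_sdiff hsub, add_comm]
  have h9 : ∑ q ∈ S \ S₁, W q ≤ ∑ q ∈ S, W q * f q := by
    calc ∑ q ∈ S \ S₁, W q ≤ ∑ q ∈ S \ S₁, W q * f q := by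
          refine Finset.sum_le_sum fun q hq => ?_
          obtain ⟨hq1, hq2⟩ := Finset.mem_sdiff.1 hq
          have := mul_le_mul_of_nonneg_left (hbad q hq1 hq2) (hW q)
          linarith
      _ ≤ ∑ q ∈ S, W q * f q :=
          Finset.sum_le_sum_of_subset_of_nonneg Finset.sdiff_subset
            fun q _ _ => mul_nonneg (hW q) (hf0 q)
  linarith

/-! ### accidents -/

/-- **no accidental missing tie and no accidental up prime** -/
def NoAcc (γ A : ℝ) (t : IT) (q : ℕ) : Prop :=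
  ∀ p, (p ∈ t.mt q ∨ p ∈ t.uq q) → ¬ Accd (Bab t q p * γ) (Real.log p ^ A) p

lemma Accd.mono {θ T T' : ℝ} (h : T' ≤ T) {b : ℕ} (hA : Accd θ T b) : Accd θ T' b := by
  obtain ⟨t, h1, h2⟩ := hA
  exact ⟨t, h.trans h1, h2⟩

/-- density of the accidents at the scales `≥ (log p)^A` -/
lemma acc_log (E : ℝ) (hE : 0 ≤ E) : ∃ p₁ : ℕ, ∀ A : ℝ, 3 * (E + 1) ≤ A → ∀ P ≥ p₁, ∀ θ : ℝ,
    open Classical in
    ∑ p ∈ (blk P (2 * P)).filter (fun p : ℕ => Accd θ (Real.log p ^ A) p), (1 / (p : ℝ)) ≤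
      Real.log P ^ (-E) := by
  classical
  have hlit := (isLittleO_log_rpow_rpow_atTop E (show (0 : ℝ) < 4 / 5 by norm_num)).bound
    (show (0 : ℝ) < 1 / 4 by norm_num)
  obtain ⟨y, hy⟩ := Filter.eventually_atTop.1 hlit
  refine ⟨⌈|y|⌉₊ + ⌈Real.exp 128⌉₊ + 3, fun A hA P hP θ => ?_⟩
  have hP1 : 1 ≤ P := by omega
  have hP0 : (0 : ℝ) < P := by exact_mod_cast hP1
  have hx : 128 ≤ Real.log P := by
    rw [Real.le_log_iff_exp_le hP0]
    have h1 : Real.exp 128 ≤ ⌈Real.exp 128⌉₊ := Nat.le_ceil _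
    have h2 : ((⌈Real.exp 128⌉₊ : ℕ) : ℝ) ≤ P := by
      have : ⌈Real.exp 128⌉₊ ≤ P := by omega
      exact_mod_cast this
    linarith
  have hX0 : 0 < Real.log P := by linarith
  have hX1 : 1 ≤ Real.log P := by linarith
  have hyP : y ≤ P := by
    have h5 : |y| ≤ ⌈|y|⌉₊ := Nat.le_ceil _
    have h6 : ((⌈|y|⌉₊ : ℕ) : ℝ) ≤ P := by
      have : ⌈|y|⌉₊ ≤ P := by omega
      exact_mod_cast this
    linarith [le_abs_self y]
  have h8 := hy P hyP
  rw [Real.norm_eq_abs, Real.norm_eq_abs, abs_of_nonneg (by positivity),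
    abs_of_nonneg (by positivity)] at h8
  have hA0 : 0 ≤ A := by linarith
  -- the scale
  set T := Real.log P ^ A with hT
  have hT1 : 1 ≤ T := Real.one_le_rpow hX1 hA0
  have hT49 : Real.log P ^ (E + 1) ≤ T ^ (49 / 100 : ℝ) := by
    rw [hT, ← Real.rpow_mul hX0.le]
    exact Real.rpow_le_rpow_of_exponent_le hX1 (by linarith)
  have hLE : Real.log P ≤ Real.log P ^ (E + 1) := by
    nth_rewrite 1 [← Real.rpow_one (Real.log P)]
    exact Real.rpow_le_rpow_of_exponent_le hX1 (by linarith)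
  have hT4 : 4 ≤ T ^ (49 / 100 : ℝ) := by linarith
  have hsub : (blk P (2 * P)).filter (fun p : ℕ => Accd θ (Real.log p ^ A) p) ⊆
      (Finset.Ioc P (2 * P)).filter (fun b : ℕ => b.Prime ∧ Accd θ T b) := by
    intro p hp
    obtain ⟨h1, h2⟩ := Finset.mem_filter.1 hp
    have h3 := mem_blk33.1 h1
    refine Finset.mem_filter.2 ⟨Finset.mem_Ioc.2 ⟨h3.1, h3.2.1⟩, h3.2.2, Accd.mono ?_ h2⟩
    exact Real.rpow_le_rpow hX0.le (Real.log_le_log hP0 (by exact_mod_cast h3.1.le)) hA0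
  refine (Finset.sum_le_sum_of_subset_of_nonneg hsub fun _ _ _ => by positivity).trans ?_
  refine (acc_dens θ hT1 hT4 hP1).trans ?_
  have e1 : 64 * T ^ (-(49 / 100) : ℝ) ≤ 1 / 2 * Real.log P ^ (-E) := by
    rw [Real.rpow_neg (by positivity), Real.rpow_neg hX0.le, ← one_div, ← one_div]
    have h9 : 1 / T ^ (49 / 100 : ℝ) ≤ 1 / Real.log P ^ (E + 1) :=
      one_div_le_one_div_of_le (by positivity) hT49
    have h10 : 1 / Real.log P ^ (E + 1) = 1 / Real.log P ^ E * (1 / Real.log P) := by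
      rw [Real.rpow_add hX0, Real.rpow_one]; field_simp
    have h11 : 1 / Real.log P ≤ 1 / 128 := one_div_le_one_div_of_le (by norm_num) hx
    have h12 : 0 ≤ 1 / Real.log P ^ E := by positivity
    calc 64 * (1 / T ^ (49 / 100 : ℝ)) ≤ 64 * (1 / Real.log P ^ E * (1 / Real.log P)) := by
          rw [← h10]; linarith
      _ ≤ 64 * (1 / Real.log P ^ E * (1 / 128)) := by
          have := mul_le_mul_of_nonneg_left h11 h12
          linarith
      _ = 1 / 2 * (1 / Real.log P ^ E) := by ring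
  have e2 : 2 * (P : ℝ) ^ (-(4 / 5) : ℝ) ≤ 1 / 2 * Real.log P ^ (-E) := by
    rw [Real.rpow_neg hP0.le, Real.rpow_neg hX0.le]
    have h9 : 0 < Real.log P ^ E := by positivity
    have h10 : 0 < (P : ℝ) ^ (4 / 5 : ℝ) := by positivity
    rw [← one_div, ← one_div, mul_one_div, mul_one_div, div_le_div_iff₀ h10 h9]
    linarith
  linarith

end Crest.Agent.R4P.PruneAcc17
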