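import Crest.Agent.R4P.AvgSymA710
import Crest.Agent.R4.PairC944

/-!
R4 (S0004), powers pass, helper23: **the energy of a pair of items at two nodes, pieces whose common
points satisfy a relation of width `δ`** (port of `R4.PairC944.iF_rel_le` to the tree with powers).
-/

set_option autoImplicit false
set_option linter.unusedSectionVars false
open MeasureTheory Filter

namespace Crest.Agent.R4P.PairR23

open Crest.Agent.R4.Tour104 Crest.Agent.R4.Piece464 Crest.Agent.R4P.AvgItem710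
open Crest.Agent.R4.HVW560 (cof)
open Crest.Agent.R4.PairC944 (fam_rel_le)
open Crest.Agent.R4P.Item758 Crest.Agent.R4P.Cnt588 Crest.Agent.R4.ClosR758 Crest.Agent.R4.Fam464

variable {Λ κ : Type*} [DecidableEq Λ] [Fintype Λ] [Fintype κ] [DecidableEq κ]

/-- **the energy of a pair of items, pieces whose common points satisfy the relation of width `δ`**
(centres `a`, `a'` on the circles of the two nodes, `C`, `C'` = centre targets). -/
theorem iF_rel_le {D : Par Λ κ} {ρ : ℕ → ℝ} {b pr c b' pr' c' : ℕ} {t t' : IT} {A A' : Finset Λ}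
    (hR : D.Rad ρ) (hb : 0 < b) (hb' : 0 < b')
    (hF : Fit b pr t) (hF' : Fit b' pr' t') (hW : D.Wts pr t) (hW' : D.Wts pr' t') (hc : c ∣ b)
    (hc' : c' ∣ b') (R : Finset (Λ × Λ)) (e : ℕ × ℕ) (he : e.1 ∈ t.items)
    (he' : e.2 ∈ t'.items) {C C' δ : ℝ} (hδ : 0 ≤ δ)
    (hrel : ∀ x ∈ R, x.1 ∈ A → x.2 ∈ A' → D.it x.1 = e.1 → D.it x.2 = e.2 →
      ∀ (y : ℝ) (a a' : ℤ),
      (b : ℝ) / c * D.al x.1 ≤ ((e.1 / pr : ℕ) : ℝ) * y - (b : ℝ) / c * D.γ - a →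
      ((e.1 / pr : ℕ) : ℝ) * y - (b : ℝ) / c * D.γ - a < (b : ℝ) / c * D.be x.1 →
      (b' : ℝ) / c' * D.al x.2 ≤ ((e.2 / pr' : ℕ) : ℝ) * y - (b' : ℝ) / c' * D.γ - a' →
      ((e.2 / pr' : ℕ) : ℝ) * y - (b' : ℝ) / c' * D.γ - a' < (b' : ℝ) / c' * D.be x.2 →
      |((a:ℝ) + C) * (cof (e.2 / pr') (e.1 / pr) : ℕ) -
        (a' + C') * (cof (e.1 / pr) (e.2 / pr') : ℕ)| ≤ δ) :
    D.iF R (rv A fun j => (D.toFT b pr t).U c j) (rv A' fun j => (D.toFT b' pr' t').U c' j) e ≤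
      2 * (((b : ℝ) / c * ρ e.1) * ((b' : ℝ) / c' * ρ e.2) /
        Dp (e.1 / pr) (e.2 / pr') ((b : ℝ) / c * ρ e.1) ((b' : ℝ) / c' * ρ e.2)) * (2 * δ + 1) := by
  classical
  obtain ⟨a1, a2, a3⟩ := hF.item _ he
  obtain ⟨a1', a2', a3'⟩ := hF'.item _ he'
  have w0 : 0 < e.1 / pr := Nat.div_pos (Nat.le_of_dvd a1 a2) (Nat.pos_of_dvd_of_pos a2 a1)
  have w0' : 0 < e.2 / pr' :=
    Nat.div_pos (Nat.le_of_dvd a1' a2') (Nat.pos_of_dvd_of_pos a2' a1')
  have c0 : (0 : ℝ) < c := by exact_mod_cast Nat.pos_of_dvd_of_pos hc hb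
  have c0' : (0 : ℝ) < c' := by exact_mod_cast Nat.pos_of_dvd_of_pos hc' hb'
  have b0 : (0 : ℝ) < b := by exact_mod_cast hb
  have b0' : (0 : ℝ) < b' := by exact_mod_cast hb'
  have r0 : 0 < (b : ℝ) / c * ρ e.1 := mul_pos (by positivity) (hR.pos _)
  have r0' : 0 < (b' : ℝ) / c' * ρ e.2 := mul_pos (by positivity) (hR.pos _)
  set P : Finset (Λ × Λ) := (R.filter (fun x => (D.it x.1, D.it x.2) = e)).filter
    (fun x => x.1 ∈ A ∧ x.2 ∈ A') with hP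
  have hPm : ∀ x ∈ P, x ∈ R ∧ x.1 ∈ A ∧ x.2 ∈ A' ∧ D.it x.1 = e.1 ∧ D.it x.2 = e.2 := by
    intro x hx
    obtain ⟨h1, h2⟩ := Finset.mem_filter.1 hx
    obtain ⟨h3, h4⟩ := Finset.mem_filter.1 h1
    exact ⟨h3, h2.1, h2.2, congrArg Prod.fst h4, congrArg Prod.snd h4⟩
  have key := fam_rel_le (fam_node hR hb hF hW hc he A) (fam_node hR hb' hF' hW' hc' he' A')
    w0 w0' r0 r0' (P := P) (fun x hx => by
      obtain ⟨-, h2, h3, h4, h5⟩ := hPm x hx
      exact Finset.mem_product.2 ⟨Finset.mem_filter.2 ⟨h2, h4⟩, Finset.mem_filter.2 ⟨h3, h5⟩⟩)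
    (c := C) (c' := C') hδ (fun x hx y a a' l1 l2 l3 l4 => by
      obtain ⟨h1, h2, h3, h4, h5⟩ := hPm x hx
      exact hrel x h1 h2 h3 h4 h5 y a a' l1 l2 l3 l4)
  refine le_trans (le_of_eq ?_) key
  unfold Par.iF
  conv_rhs => rw [hP, Finset.sum_filter]
  refine Finset.sum_congr rfl fun x _ => ?_
  split_ifs with hx
  · congr 1; funext y
    rw [rv_of_mem hx.1, rv_of_mem hx.2]
  · have h0 : (fun y => rv A (fun j => (D.toFT b pr t).U c j) x.1 y *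
        rv A' (fun j => (D.toFT b' pr' t').U c' j) x.2 y) = fun _ => 0 := by
      funext y
      by_cases h1 : x.1 ∈ A
      · have h2 : x.2 ∉ A' := fun h2 => hx ⟨h1, h2⟩
        rw [rv_of_not_mem (A := A') h2, mul_zero]
      · rw [rv_of_not_mem (A := A) h1, zero_mul]
    rw [h0]; simp [I]

end Crest.Agent.R4P.PairR23
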