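import Crest.Agent.R4.LL207

/-!
R4 (S0004), helper23: arithmetic of exact pairs of labels for `rseR` with powers.

`b` prime, `b ∣ x`, `x`, `y` coprime, `(n + ρ) y = (m + σ) x`, `b ∣ den σ`: then `b ∣ den σ / g`, so
`b ≤ Zc ρ σ` and `ρ ≠ σ`.
-/

set_option autoImplicit false

namespace Crest.Agent.R4P.RseAr23

open Crest.Agent.R4.LL207 (Zc Zc_symm div_gcd_pos)

/-- `b ∣ x`, `b ∣ den σ` : `b ∣ den σ / g` -/
theorem b_dvd_of_exact {x y b : ℕ} (hb : b.Prime) (hbx : b ∣ x) (hxy : Nat.Coprime x y) (ρ σ : ℚ)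
    {n m : ℤ} (h : ((n:ℝ) + ρ) * y = (m + σ) * x) (hσ : b ∣ σ.den) :
    b ∣ σ.den / Nat.gcd ρ.den σ.den := by
  have hq : ((n : ℚ) + ρ) * y = (m + σ) * x := by exact_mod_cast h
  have e1 : ρ * ρ.den = ρ.num := Rat.mul_den_eq_num ρ
  have e2 : σ * σ.den = σ.num := Rat.mul_den_eq_num σ
  have hcop : (σ.num).natAbs.Coprime σ.den := σ.reduced
  have hcop' : (ρ.num).natAbs.Coprime ρ.den := ρ.reduced
  set k := ρ.den with hk
  set l := σ.den with hl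
  have hz : (n * k + ρ.num) * (y * l : ℤ) = (m * l + σ.num) * (x * k) := by
    have : ((n * k + ρ.num) * (y * l) : ℚ) = (m * l + σ.num) * (x * k) := by
      rw [← e1, ← e2]
      linear_combination (k : ℚ) * l * hq
    exact_mod_cast this
  set g := Nat.gcd k l with hg
  have hg0 : 0 < g := Nat.gcd_pos_of_pos_left _ ρ.den_pos
  obtain ⟨k', hk'⟩ : g ∣ k := Nat.gcd_dvd_left _ _
  obtain ⟨l', hl'⟩ : g ∣ l := Nat.gcd_dvd_right _ _
  have hld : l / g = l' := by rw [hl']; exact Nat.mul_div_cancel_left _ hg0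
  rw [hld]
  have hgz : (g : ℤ) ≠ 0 := by exact_mod_cast hg0.ne'
  have hz2 : (n * k + ρ.num) * (y * l' : ℤ) = (m * l + σ.num) * (x * k') := by
    apply mul_left_cancel₀ hgz
    have a1 : (l : ℤ) = g * l' := by exact_mod_cast hl'
    have a2 : (k : ℤ) = g * k' := by exact_mod_cast hk'
    calc (g : ℤ) * ((n * k + ρ.num) * (y * l')) = (n * k + ρ.num) * (y * (g * l')) := by ring
      _ = (m * l + σ.num) * (x * k) := by rw [← a1]; exact hz
      _ = (m * l + σ.num) * (x * (g * k')) := by rw [← a2]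
      _ = _ := by ring
  by_contra hbl
  have hbp : Prime (b : ℤ) := Nat.prime_iff_prime_int.1 hb
  have hbg : b ∣ g := by
    rw [hl'] at hσ
    exact (hb.dvd_mul.1 hσ).resolve_right hbl
  have hbk : b ∣ k := hbg.trans (Nat.gcd_dvd_left _ _)
  have h1 : (b : ℤ) ∣ (n * k + ρ.num) * (y * l') := by
    rw [hz2]
    exact Dvd.dvd.mul_left (Dvd.dvd.mul_right (by exact_mod_cast hbx) _) _
  rcases hbp.dvd_mul.1 h1 with h2 | h2
  · have h3 : (b : ℤ) ∣ n * k := Dvd.dvd.mul_left (by exact_mod_cast hbk) _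
    have h4 : (b : ℤ) ∣ ρ.num := (dvd_add_right h3).1 h2
    have h5 : b ∣ (ρ.num).natAbs := Int.natCast_dvd.1 h4
    have h6 : b ∣ 1 := by
      have := Nat.dvd_gcd h5 hbk
      rwa [hcop'] at this
    exact hb.one_lt.ne' (Nat.dvd_one.1 h6)
  · rcases hbp.dvd_mul.1 h2 with h3 | h3
    · have h4 : b ∣ y := by exact_mod_cast h3
      have h5 : b ∣ 1 := by
        have := Nat.dvd_gcd hbx h4
        rwa [hxy] at this
      exact hb.one_lt.ne' (Nat.dvd_one.1 h5)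
    · exact hbl (by exact_mod_cast h3)

/-- `b ≤ Zc ρ σ`, `ρ ≠ σ` -/
theorem Zc_of_exact {x y b : ℕ} (hb : b.Prime) (hbx : b ∣ x) (hxy : Nat.Coprime x y) (ρ σ : ℚ)
    {n m : ℤ} (h : ((n:ℝ) + ρ) * y = (m + σ) * x) (hσ : b ∣ σ.den) :
    b ≤ Zc ρ σ ∧ ρ ≠ σ := by
  have h1 := b_dvd_of_exact hb hbx hxy ρ σ h hσ
  obtain ⟨p1, p2⟩ := div_gcd_pos ρ σ
  refine ⟨?_, ?_⟩
  · have h2 := Nat.le_of_dvd p2 h1
    unfold Zc
    exact h2.trans (Nat.le_mul_of_pos_left _ p1)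
  · rintro rfl
    rw [Nat.gcd_self, Nat.div_self ρ.den_pos] at h1
    exact hb.one_lt.ne' (Nat.dvd_one.1 h1)

/-- the symmetric version -/
theorem Zc_of_exact' {x y b : ℕ} (hb : b.Prime) (hby : b ∣ y) (hxy : Nat.Coprime x y) (ρ σ : ℚ)
    {n m : ℤ} (h : ((n:ℝ) + ρ) * y = (m + σ) * x) (hρ : b ∣ ρ.den) :
    b ≤ Zc ρ σ ∧ ρ ≠ σ := by
  have h1 := Zc_of_exact hb hby hxy.symm σ ρ h.symm hρ
  rw [Zc_symm]
  exact ⟨h1.1, h1.2.symm⟩

end Crest.Agent.R4P.RseAr23
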