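import Crest.Agent.R4P.StepRad947
import Crest.Agent.R4P.PrTame579
import Crest.Agent.R4P.PairR_23
import Crest.Agent.R4P.RseAr_23

/-!
R4 (S0004), powers pass, helper23: **states of the items of one node** for `rseR`.

`(u, τ)` a non-leaf node of a context, `p` = its column, `B = u.B`:
* `mt_node` : the missing ties `> p` of its items are the primes of `B`;
* `st_none` : a thin unlabelled item has no label; `lab_node` : the label of a labelled item is a label at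
  its radius, or it is THE label of the previous stage and the item is fat;
* `exact_node` : same index, both labelled: exact centres;
* `alive_den` : a retained prime of one item only divides the denominator of the label of the other.
-/

set_option autoImplicit false
set_option linter.unusedSectionVars false
set_option linter.unusedVariables false

namespace Crest.Agent.R4P.RseSt23

open Crest.Agent.R4P.Cnt588 Crest.Agent.R4P.Item758 Crest.Agent.R4P.W363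
open Crest.Agent.R4P.Data758 Crest.Agent.R4P.OmSt532 Crest.Agent.R4P.OmData532
open Crest.Agent.R4P.LfDat734 Crest.Agent.R4P.WPex189
open Crest.Agent.R4P.Bld532 (NS All NodeOk Bk)
open Crest.Agent.R4P.Step588 (NDt ND1 ctx_NDt uq_lt)
open Crest.Agent.R4P.WalkIT579 (tp isL nodeOk_hi top_of_nodeOk)
open Crest.Agent.R4P.Skel189
open Crest.Agent.R4.Soft104 (w)
open Crest.Agent.R4.LF363 (Lab)
open Crest.Agent.R4.HVW560 (cof)
open Crest.Agent.R4.AvgItem710 (mul_cof mul_cof' cof_pos cof_coprime)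

/-! ### missing ties of a node -/

section node
variable {P : Bld532.Par} {W : ℕ → ℝ} {t' : IT} {u : NS} {τ : IT}

/-- **the missing ties above the column are the primes of `u.B`** -/
theorem mt_node (h : NDt P W t' u τ) {n : ℕ} (hO : t'.Ok n) (hl : ¬ isL τ) {q : ℕ}
    (hq : q ∈ τ.items) : (t'.mt q).filter (tp τ < ·) = u.B.primeFactors := by
  obtain ⟨k1, k2, k3⟩ := top_of_nodeOk h.self.node hl
  have e1 := BldF542.mp_eq_prod t' n hO q
  have e2 := BldF542.mp_eq_prod τ u.n h.self.ok q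
  have e3 := h.self.mp q hq
  have hB0 : u.B ≠ 0 := h.bk.sfB.ne_zero
  have hp' : ∀ p ∈ t'.mt q, p.Prime := fun p hp => (BldF542.mt_lt t' n hO q p hp).1
  have hp : ∀ p ∈ τ.mt q, p.Prime := fun p hp => (BldF542.mt_lt τ u.n h.self.ok q p hp).1
  have m0 : mp τ q ≠ 0 := by
    rw [e2]; exact Finset.prod_ne_zero_iff.2 fun p h => (hp p h).ne_zero
  have e4 : t'.mt q = u.B.primeFactors ∪ τ.mt q := by
    have f1 : (mp t' q).primeFactors = t'.mt q := by rw [e1]; exact Nat.primeFactors_prod hp'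
    have f2 : (mp τ q).primeFactors = τ.mt q := by rw [e2]; exact Nat.primeFactors_prod hp
    rw [← f1, ← f2, e3, Nat.primeFactors_mul hB0 m0]
  ext l
  rw [Finset.mem_filter, e4, Finset.mem_union]
  constructor
  · rintro ⟨h1 | h1, h2⟩
    · exact h1
    · have h3 := BldF542.mt_lt τ u.n h.self.ok q l h1
      exact absurd (k3 l h3.1 h3.2) (not_le.2 h2)
  · intro h1
    have h2 := h.bk.geB l (Nat.prime_of_mem_primeFactors h1) (Nat.dvd_of_mem_primeFactors h1)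
    exact ⟨Or.inl h1, k2.trans_le h2⟩

/-- the list of the missing ties of a node -/
noncomputable def LB (B : ℕ) : List ℕ := B.primeFactors.sort (· ≤ ·)

lemma lst_node (h : NDt P W t' u τ) {n : ℕ} (hO : t'.Ok n) (hl : ¬ isL τ) {q : ℕ}
    (hq : q ∈ τ.items) : lst (t'.mt q) (tp τ) = LB u.B := by
  unfold Crest.Agent.R4.W363.lst LB
  rw [mt_node h hO hl hq]

lemma LB_prod {B : ℕ} (hB : Squarefree B) : (LB B).prod = B := by
  unfold LB
  have h1 : (B.primeFactors.sort (· ≤ ·)).prod = ∏ s ∈ B.primeFactors, s := by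
    rw [Finset.prod_eq_multiset_prod, Multiset.map_id', ← Multiset.prod_coe]
    congr 1
    exact Finset.sort_eq _ _
  rw [h1]
  exact Nat.prod_primeFactors_of_squarefree hB

/-- the state of an item of a node at its column -/
lemma st_node (h : NDt P W t' u τ) {n : ℕ} (hO : t'.Ok n) (hl : ¬ isL τ) {q : ℕ}
    (hq : q ∈ τ.items) (wp : WP) (γ : ℝ) (r : ℕ → ℝ) :
    wp.st γ r t' (tp τ) q = sta wp.thr γ (r q) (LB u.B) (tp τ) := by
  unfold WP.st
  rw [lst_node h hO hl hq]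

/-- **thin items without a label** -/
theorem st_none (h : NDt P W t' u τ) {n : ℕ} (hO : t'.Ok n) (hl : ¬ isL τ) {q : ℕ}
    (hq : q ∈ τ.items) {wp : WP} {γ : ℝ} {r : ℕ → ℝ} (hs : wp.st γ r t' (tp τ) q = none)
    (hthin : (u.B : ℝ) * r q ≤ wp.thr (tp τ)) (ρ : ℚ) : ¬ Lab (u.B * γ) (u.B * r q) ρ := by
  rw [st_node h hO hl hq, sta_thin (by rw [LB_prod h.bk.sfB]; exact hthin),
    LB_prod h.bk.sfB] at hs
  exact lab0_none hs ρ

/-- the two cases of a labelled item: label of the present stage, or fat and label of the previous stage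
`u.B / s` -/
theorem st_some (h : NDt P W t' u τ) {n : ℕ} (hO : t'.Ok n) (hl : ¬ isL τ) {wp : WP} {γ : ℝ}
    {r : ℕ → ℝ} {K : ℝ} (hK : ∀ s : ℕ, tp τ < s → K ≤ s * wp.thr s) :
    ∃ b₀ s : ℕ, 0 < b₀ ∧ (tp τ < s ∧ b₀ * s = u.B ∨ u.B = 1) ∧
      ∀ q ∈ τ.items, (u.B : ℝ) * r q ≤ K → ∀ σ : ℚ, wp.st γ r t' (tp τ) q = some σ →
        Lab (u.B * γ) (u.B * r q) (u.B * σ) ∨
        (tp τ < s ∧ b₀ * s = u.B ∧ wp.thr (tp τ) < u.B * r q ∧ Lab (b₀ * γ) (b₀ * r q) (b₀ * σ)) := by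
  have hprod := LB_prod h.bk.sfB
  have hmem : ∀ s ∈ LB u.B, s.Prime ∧ tp τ < s := by
    intro s hs
    unfold LB at hs
    rw [Finset.mem_sort] at hs
    have h1 := Nat.prime_of_mem_primeFactors hs
    obtain ⟨k1, k2, k3⟩ := top_of_nodeOk h.self.node hl
    exact ⟨h1, k2.trans_le (h.bk.geB s h1 (Nat.dvd_of_mem_primeFactors hs))⟩
  cases hL : LB u.B with
  | nil =>
    have hB1 : u.B = 1 := by rw [← hprod, hL]; rfl
    refine ⟨1, 0, one_pos, Or.inr hB1, fun q hq _ σ hσ => Or.inl ?_⟩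
    rw [st_node h hO hl hq, hL] at hσ
    have h1 : lab0 γ (r q) 1 = some σ := hσ
    have h2 := lab0_spec one_pos h1
    rw [hB1]
    exact h2
  | cons s L' =>
    have hs := hmem s (by rw [hL]; exact List.mem_cons_self)
    have hBs : s * L'.prod = u.B := by rw [← hprod, hL, List.prod_cons]
    have hB0 : 0 < u.B := Nat.pos_of_ne_zero h.bk.sfB.ne_zero
    have hL0 : 0 < L'.prod := by
      rcases Nat.eq_zero_or_pos L'.prod with h0 | h0
      · rw [h0, mul_zero] at hBs; omega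
      · exact h0
    refine ⟨L'.prod, s, hL0, Or.inl ⟨hs.2, by rw [mul_comm]; exact hBs⟩,
      fun q hq hKq σ hσ => ?_⟩
    rw [st_node h hO hl hq, hL] at hσ
    unfold Crest.Agent.R4.W363.sta at hσ
    split_ifs at hσ with hth
    · left
      rw [hBs] at hσ
      exact lab0_spec hB0 hσ
    · right
      rw [hBs] at hth
      refine ⟨hs.2, by rw [mul_comm]; exact hBs, not_le.1 hth, ?_⟩
      have hs0 : (0:ℝ) < s := by exact_mod_cast hs.1.pos
      have hthin : (L'.prod : ℝ) * r q ≤ wp.thr s := by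
        have h1 := hKq.trans (hK s hs.2)
        have hc : (u.B : ℝ) = (s:ℝ) * (L'.prod : ℕ) := by rw [← hBs, Nat.cast_mul]
        rw [hc, mul_assoc] at h1
        exact le_of_mul_le_mul_left h1 hs0
      rw [sta_thin hthin] at hσ
      exact lab0_spec hL0 hσ

end node

/-- two labels of one target with comparable radii coincide -/
lemma lab_unique_of {θ a b : ℝ} {ρ σ : ℚ} (h : Lab θ a ρ) (h' : Lab θ b σ) {lo hi : ℝ}
    (hlo : 0 < lo) (h1 : lo ≤ a) (h2 : lo ≤ b) (h3 : a ≤ hi) (h4 : b ≤ hi)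
    (hK : 32 * hi ^ 4 < lo ^ 2) : ρ = σ := by
  by_contra hne
  have key := (Crest.Agent.R4.LL207.two_labels h h' hne).1
  have hk : (0:ℝ) < ρ.den := by exact_mod_cast ρ.den_pos
  have hl : (0:ℝ) < σ.den := by exact_mod_cast σ.den_pos
  have d1 := h.den
  have d2 := h'.den
  have hm0 : 0 ≤ max a b := (h.pos.le).trans (le_max_left _ _)
  have hm : max a b ≤ hi := max_le h3 h4
  have hm4 : (max a b) ^ 4 ≤ hi ^ 4 := pow_le_pow_left₀ hm0 hm 4
  have e1 : (ρ.den : ℝ) ^ 5 * lo ≤ 1 := (mul_le_mul_of_nonneg_left h1 (by positivity)).trans d1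
  have e2 : (σ.den : ℝ) ^ 5 * lo ≤ 1 := (mul_le_mul_of_nonneg_left h2 (by positivity)).trans d2
  have e3 : ((ρ.den : ℝ) * σ.den) ^ 5 * lo ^ 2 ≤ 1 := by
    have := mul_le_mul e1 e2 (by positivity) zero_le_one
    calc ((ρ.den : ℝ) * σ.den) ^ 5 * lo ^ 2 = ((ρ.den : ℝ) ^ 5 * lo) * ((σ.den : ℝ) ^ 5 * lo) := by ring
      _ ≤ 1 := by linarith
  have e4 : 32 * (max a b) ^ 4 * ((ρ.den : ℝ) * σ.den) ^ 5 ≤
      32 * hi ^ 4 * ((ρ.den : ℝ) * σ.den) ^ 5 := by gcongr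
  have e5 : 32 * hi ^ 4 * ((ρ.den : ℝ) * σ.den) ^ 5 < 1 := by
    have hpos : 0 < ((ρ.den : ℝ) * σ.den) ^ 5 := by positivity
    calc 32 * hi ^ 4 * ((ρ.den : ℝ) * σ.den) ^ 5 < lo ^ 2 * ((ρ.den : ℝ) * σ.den) ^ 5 :=
          mul_lt_mul_of_pos_right hK hpos
      _ = ((ρ.den : ℝ) * σ.den) ^ 5 * lo ^ 2 := by ring
      _ ≤ 1 := e3
  linarith

section node2
variable {P : Bld532.Par} {W : ℕ → ℝ} {t' : IT} {u : NS} {τ : IT}

/-- **labels of a node**: at the radius of the item, or one common label for the fat items -/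
theorem lab_node (h : NDt P W t' u τ) {n : ℕ} (hO : t'.Ok n) (hl : ¬ isL τ) {wp : WP} {γ : ℝ}
    {r : ℕ → ℝ} {K : ℝ} (hK : ∀ s : ℕ, tp τ < s → K ≤ s * wp.thr s)
    (hthr : 0 < wp.thr (tp τ)) (hK4 : 32 * K ^ 4 < (tp τ : ℝ) ^ 2 * wp.thr (tp τ) ^ 2) :
    ∃ Λf : Finset ℚ, Λf.card ≤ 1 ∧ ∀ q ∈ τ.items, (u.B : ℝ) * r q ≤ K →
      ∀ σ : ℚ, wp.st γ r t' (tp τ) q = some σ →
        Lab (u.B * γ) (u.B * r q) (u.B * σ) ∨
        (((u.B : ℚ) * σ) ∈ Λf ∧ wp.thr (tp τ) < u.B * r q) := by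
  classical
  obtain ⟨b₀, s, hb₀, hbs, key⟩ := st_some h hO hl (wp := wp) (γ := γ) (r := r) hK
  by_cases hex : ∃ q ∈ τ.items, (u.B : ℝ) * r q ≤ K ∧ ∃ σ : ℚ, wp.st γ r t' (tp τ) q = some σ ∧
      (tp τ < s ∧ b₀ * s = u.B ∧ wp.thr (tp τ) < u.B * r q ∧ Lab (b₀ * γ) (b₀ * r q) (b₀ * σ))
  · obtain ⟨q₀, hq₀, hK₀, σ₀, hσ₀, hs1, hs2, hf₀, hL₀⟩ := hex
    refine ⟨{(u.B : ℚ) * σ₀}, by simp, fun q hq hKq σ hσ => ?_⟩
    rcases key q hq hKq σ hσ with h1 | ⟨-, -, hf, hL⟩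
    · exact Or.inl h1
    · right
      refine ⟨?_, hf⟩
      rw [Finset.mem_singleton]
      have hs0 : (0:ℝ) < s := by
        have : 0 < s := by omega
        exact_mod_cast this
      have hb0 : (0:ℝ) < b₀ := by exact_mod_cast hb₀
      have hBe : (u.B : ℝ) = b₀ * s := by rw [← hs2]; push_cast; ring
      have hp0 : (0:ℝ) < (tp τ : ℝ) := by
        exact_mod_cast (top_of_nodeOk h.self.node hl).1.pos
      have hps : (tp τ : ℝ) ≤ s := by exact_mod_cast hs1.le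
      have f1 : wp.thr (tp τ) / s ≤ b₀ * r q := by
        rw [div_le_iff₀ hs0]; rw [hBe] at hf; nlinarith
      have f2 : wp.thr (tp τ) / s ≤ b₀ * r q₀ := by
        rw [div_le_iff₀ hs0]; rw [hBe] at hf₀; nlinarith
      have f3 : b₀ * r q ≤ K / s := by
        rw [le_div_iff₀ hs0]; rw [hBe] at hKq; nlinarith
      have f4 : b₀ * r q₀ ≤ K / s := by
        rw [le_div_iff₀ hs0]; rw [hBe] at hK₀; nlinarith
      have f5 : 32 * (K / s) ^ 4 < (wp.thr (tp τ) / s) ^ 2 := by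
        rw [div_pow, div_pow, mul_div_assoc', div_lt_div_iff₀ (by positivity) (by positivity)]
        have g1 : (tp τ : ℝ) ^ 2 ≤ s ^ 2 := pow_le_pow_left₀ hp0.le hps 2
        have g2 : (tp τ : ℝ) ^ 2 * wp.thr (tp τ) ^ 2 ≤ s ^ 2 * wp.thr (tp τ) ^ 2 :=
          mul_le_mul_of_nonneg_right g1 (sq_nonneg _)
        have g3 : 32 * K ^ 4 < s ^ 2 * wp.thr (tp τ) ^ 2 := hK4.trans_le g2
        calc 32 * K ^ 4 * (s:ℝ) ^ 2 < (s ^ 2 * wp.thr (tp τ) ^ 2) * s ^ 2 :=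
              mul_lt_mul_of_pos_right g3 (by positivity)
          _ = wp.thr (tp τ) ^ 2 * (s:ℝ) ^ 4 := by ring
      have he := lab_unique_of hL hL₀ (div_pos hthr hs0) f1 f2 f3 f4 f5
      have hb0q : (b₀ : ℚ) ≠ 0 := by exact_mod_cast hb₀.ne'
      have : σ = σ₀ := mul_left_cancel₀ hb0q he
      rw [this]
  · refine ⟨∅, by simp, fun q hq hKq σ hσ => ?_⟩
    rcases key q hq hKq σ hσ with h1 | h1
    · exact Or.inl h1
    · exact absurd ⟨q, hq, hKq, σ, hσ, h1⟩ hex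

/-- **labels of a node, column states** (`stB`: anticipated births): at the radius of the item, or one
common label for the fat items -/
theorem lab_nodeB (h : NDt P W t' u τ) {n : ℕ} (hO : t'.Ok n) (hl : ¬ isL τ) {wp wpL : WP}
    {lam : ℕ → ℝ} {lv : ℕ → ℕ} {γ : ℝ}
    {r : ℕ → ℝ} {K : ℝ} (hK : ∀ s : ℕ, tp τ < s → K ≤ s * wp.thr s)
    (hthr : 0 < wp.thr (tp τ)) (hK4 : 32 * K ^ 4 < (tp τ : ℝ) ^ 2 * wp.thr (tp τ) ^ 2) :
    ∃ Λf : Finset ℚ, Λf.card ≤ 1 ∧ ∀ q ∈ τ.items, (u.B : ℝ) * r q ≤ K →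
      ∀ σ : ℚ, stB wp wpL lam γ r t' lv (tp τ) q = some σ →
        Lab (u.B * γ) (u.B * r q) (u.B * σ) ∨
        (((u.B : ℚ) * σ) ∈ Λf ∧ wp.thr (tp τ) < u.B * r q) := by
  obtain ⟨Λf, h1, h2⟩ := lab_node h hO hl (wp := wp) (γ := γ) (r := r) hK hthr hK4
  refine ⟨Λf, h1, fun q hq hKq σ hσ => ?_⟩
  rcases stB_lbAt hσ with h3 | h3
  · exact h2 q hq hKq σ h3
  · left
    rw [lst_node h hO hl hq, LB_prod h.bk.sfB] at h3
    exact lab0_spec (Nat.pos_of_ne_zero h.bk.sfB.ne_zero) h3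

/-- **thin items without a label, column states** -/
theorem st_noneB (h : NDt P W t' u τ) {n : ℕ} (hO : t'.Ok n) (hl : ¬ isL τ) {q : ℕ}
    (hq : q ∈ τ.items) {wp wpL : WP} {lam : ℕ → ℝ} {lv : ℕ → ℕ} {γ : ℝ} {r : ℕ → ℝ}
    (hlam : lam (tp τ) = 0) (hs : stB wp wpL lam γ r t' lv (tp τ) q = none)
    (hthin : (u.B : ℝ) * r q ≤ wp.thr (tp τ)) (ρ : ℚ) : ¬ Lab (u.B * γ) (u.B * r q) ρ :=
  st_none h hO hl hq (stB_none_zero hlam hs).1 hthin ρ

end node2

/-! ### exact centres on the circle of a node -/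

/-- **same index, both labelled: exact centres on the circle of the node** -/
theorem exact_node {wp : WP} {γ : ℝ} {r : ℕ → ℝ} {t : IT} {S : Finset ℕ} {n K : ℕ}
    (h : Fine wp γ r t S n K) {p q q' : ℕ} (hp : p ≤ n) (hq : q ∈ S) (hq' : q' ∈ S)
    (hq0 : 0 < q) (hq0' : 0 < q') {σ σ' : ℚ} (hσ : LbAt wp γ r t p q σ)
    (hσ' : LbAt wp γ r t p q' σ') {A B W W' : ℕ} (hA : 0 < A) (hB : 0 < B) (hW : 0 < W)
    (hW' : 0 < W') (e : q = A * W) (e' : q' = A * W') (hBK : B ≤ K) {y z z' : ℝ} {a a' : ℤ}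
    (hz : (B:ℝ) * z = W * y - B * γ - a) (hz' : (B:ℝ) * z' = W' * y - B * γ - a')
    (h1 : |z| ≤ r q) (h2 : |z'| ≤ r q')
    (hix : wp.ix γ p q (some σ) z = wp.ix γ p q' (some σ') z') :
    ((a:ℝ) + ((B * σ : ℚ) : ℝ)) * W' = (a' + ((B * σ' : ℚ) : ℝ)) * W ∧
    ((a:ℝ) + ((B * σ : ℚ) : ℝ)) * (cof W' W : ℕ) = (a' + ((B * σ' : ℚ) : ℝ)) * (cof W W' : ℕ) := by
  have hWr : (0:ℝ) < W := by exact_mod_cast hW
  have hWr' : (0:ℝ) < W' := by exact_mod_cast hW'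
  have hAB : (0:ℝ) < ((A * B : ℕ) : ℝ) := by exact_mod_cast Nat.mul_pos hA hB
  have h3 : cell (grd wp.δ₀ wp.n₁) (off γ σ q z) = cell (grd wp.δ₀ wp.n₁) (off γ σ' q' z') :=
    congrArg Prod.snd hix
  have h4 := grd_close h.δ0 (h.offB p hp q hq hq0 σ hσ z h1) (h.offB p hp q' hq' hq0' σ' hσ' z' h2) h3
  have f1 := Crest.Agent.R4.W363.off_circle (γ := γ) (c := σ) (z := z) hA hW e (B := B)
  have f2 := Crest.Agent.R4.W363.off_circle (γ := γ) (c := σ') (z := z') hA hW' e' (B := B)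
  rw [hz] at f1
  rw [hz'] at f2
  have g1 : ((A * B : ℕ) : ℝ) * off γ σ q z = y - ((a:ℝ) + ((B * σ : ℚ) : ℝ)) / W := by
    rw [f1]; push_cast; field_simp; ring
  have g2 : ((A * B : ℕ) : ℝ) * off γ σ' q' z' = y - ((a':ℝ) + ((B * σ' : ℚ) : ℝ)) / W' := by
    rw [f2]; push_cast; field_simp; ring
  have h5 : |((a:ℝ) + ((B * σ : ℚ) : ℝ)) / W - (a' + ((B * σ' : ℚ) : ℝ)) / W'| <
      ((A * B : ℕ) : ℝ) * wp.δ₀ := by
    have e1 : ((a:ℝ) + ((B * σ : ℚ) : ℝ)) / W - (a' + ((B * σ' : ℚ) : ℝ)) / W' =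
        -(((A * B : ℕ) : ℝ) * (off γ σ q z - off γ σ' q' z')) := by
      rw [mul_sub, g1, g2]; ring
    rw [e1, abs_neg, abs_mul, abs_of_pos hAB]
    exact mul_lt_mul_of_pos_left h4 hAB
  have h6 := Fine.circleB' h hp hp hq hq' hq0' hσ hσ' e e' hBK (B' := B)
  have h7 := snapped_eq (q := W) (r := W') hW hW' (σ := (B : ℚ) * σ) (τ := (B : ℚ) * σ') (a := a)
    (a' := a') (δ := ((A * B : ℕ) : ℝ) * wp.δ₀) (by
      refine le_trans (le_of_eq ?_) h6
      push_cast; ring) h5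
  rw [div_eq_div_iff hWr.ne' hWr'.ne'] at h7
  refine ⟨h7, ?_⟩
  have hg : (0:ℝ) < (W.gcd W' : ℕ) := by exact_mod_cast Nat.gcd_pos_of_pos_left _ hW
  have ew : (W:ℝ) = (W.gcd W' : ℕ) * (cof W W' : ℕ) := by exact_mod_cast (mul_cof).symm
  have ew' : (W':ℝ) = (W.gcd W' : ℕ) * (cof W' W : ℕ) := by exact_mod_cast (mul_cof').symm
  rw [ew, ew'] at h7
  apply mul_left_cancel₀ hg.ne'
  linarith

/-! ### alive pieces -/

section alive
variable {N : Skel189.Num} {γ : ℝ} {p0 P₀ : ℕ} {X : Ctx N γ p0 P₀} {u : NS} {τ : IT}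

/-- **a retained prime of one item of an exact alive pair divides the denominator of the other label**,
if it does not divide the other modulus -/
theorem alive_den (h : NDt X.par (w X.ψ) X.c.t u τ) {q : ℕ} (hq : q ∈ τ.items) {p : ℕ}
    (hpt : p ≤ tp τ) (hl : ¬ isL τ) {σ : ℚ} (hσ : X.c.st p q = some σ) {b : ℕ}
    (hb : b ∈ X.c.t.uq q) (hpb : p ≤ b) (hbw : b ∣ q / u.A) {z : ℝ} {a : ℤ}
    (ha : X.c.om q z ((mp τ q : ℕ) * a) ≠ 0) {W' : ℕ} (hbW : ¬ b ∣ W') {σ' : ℚ} {a' : ℤ}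
    (hex : ((a:ℝ) + ((u.B * σ : ℚ) : ℝ)) * W' = ((a':ℝ) + σ') * (q / u.A : ℕ)) : b ∣ σ'.den := by
  by_contra hden
  apply ha
  have hlp : b.Prime := (uq_lt X.tOk hb).1
  have hq' : q ∈ X.c.t.items := h.self.sub hq
  have hle := X.om_le q z (((mp τ q : ℕ) : ℤ) * a)
  have h0 : omL X.c.wp X.c.wpL X.c.γ X.c.r X.c.t X.c.lv X.c.S' q (((mp τ q : ℕ) : ℤ) * a) = 0 := by
    unfold omL omT
    have hd := h.rd q hq' b hb
    have hpp : 0 < q / Item758.pp X.c.t q := by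
      have h1 := h.dvd q hq'
      have h2 := h.pos q hq'
      exact Nat.div_pos (Nat.le_of_dvd h2 h1) (Nat.pos_of_dvd_of_pos h1 h2)
    refine omw_zero (l := b) (Nat.mem_primeFactors.2 ⟨hlp, hd, hpp.ne'⟩) hb
      (ρ := (mp X.c.t q : ℚ) * σ) (lb_mem_TE hb hpb (stB_lbAt hσ)) ?_
    have e1 := h.self.mp q hq
    exact dead_core hlp hbw hbW hden (τ := (u.B : ℚ) * σ) (τ' := σ') (m := ((mp τ q : ℕ) : ℤ))
      (by rw [e1]; push_cast; ring) hex
  have hnn : 0 ≤ X.c.om q z (((mp τ q : ℕ) : ℤ) * a) := by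
    have hS : q ∈ X.c.S := by rw [← X.ok.items]; exact hq'
    exact (X.ok.wt q hS z).nonneg _
  rw [h0] at hle
  exact le_antisymm hle hnn

end alive

end Crest.Agent.R4P.RseSt23
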