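import Crest.Agent.R4P.NI_10
import Crest.Agent.R4P.RseSt_23
import Crest.Agent.R4P.PruneAcc_17

/-!
R4 (S0004), powers pass, [W-dseR] (helper16): **bad primes of the labels along the path of an item**.

* `BadB γ B b` : `b` divides the denominator (`≤ exp (b^(1/20))`) of a label used at the stage with the
  missing product `B` (a label of `B γ`, or `s` times a label of `(B / s) γ` of radius `≈ 1/s`, `s` the last
  missing tie).
* `card_bad` : at most `2 P^(1/10)` such primes in `(P, 2P]` for one `B`.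
* `ctx_bad` : `∑ b^(-1/7) ≤ P^(-1/100)` over the primes `b > P` with `BadB γ (Bab t q b) b`.
-/

set_option autoImplicit false

namespace Crest.Agent.R4P.BadB16

open Finset
open Crest.Agent.R4.LF363 (Lab)
open Crest.Agent.R4P.PruneAcc17 (Bab)

/-! ### sparse families of labels -/

/-- denominators in different dyadic blocks -/
def Sparse (L : Set ℚ) : Prop :=
  ∀ ρ ∈ L, ∀ σ ∈ L, Nat.log 2 ρ.den = Nat.log 2 σ.den → ρ = σ

/-- labels of a target, at any radius -/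
def LabT (θ : ℝ) : Set ℚ := {ρ | ∃ r : ℝ, Lab θ r ρ}

lemma sparse_LabT (θ : ℝ) : Sparse (LabT θ) := by
  rintro ρ ⟨r, h⟩ σ ⟨r', h'⟩ he
  exact Crest.Agent.R4.LF363.lab_log_ne h h' he

/-- the fat labels of the stage `B`, `s = B.minFac` the last missing tie -/
def LabF (γ : ℝ) (B : ℕ) : Set ℚ := {ρ | ∃ (ρ₀ : ℚ) (r₀ : ℝ), ρ = (B.minFac : ℚ) * ρ₀ ∧
  (B.minFac : ℝ) ^ (-(3 / 2) : ℝ) ≤ r₀ ∧ r₀ ≤ (B.minFac : ℝ) ^ (-(9 / 10) : ℝ) ∧
  Lab ((B / B.minFac : ℕ) * γ) r₀ ρ₀}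

lemma LabF_unique {γ : ℝ} {B : ℕ} (hs : 400 ≤ B.minFac) {ρ σ : ℚ} (h : ρ ∈ LabF γ B)
    (h' : σ ∈ LabF γ B) : ρ = σ := by
  obtain ⟨ρ₀, r₀, e, h1, h2, hL⟩ := h
  obtain ⟨σ₀, r₁, e', h1', h2', hL'⟩ := h'
  set s : ℝ := (B.minFac : ℝ) with hsdef
  have hs4 : (400 : ℝ) ≤ s := by rw [hsdef]; exact_mod_cast hs
  have hs0 : 0 < s := by linarith
  have hlo : 0 < s ^ (-(3 / 2) : ℝ) := Real.rpow_pos_of_pos hs0 _
  have key : 32 * (s ^ (-(9 / 10) : ℝ)) ^ 4 < (s ^ (-(3 / 2) : ℝ)) ^ 2 := by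
    have e1 : (s ^ (-(9 / 10) : ℝ)) ^ 4 = s ^ (-(18 / 5) : ℝ) := by
      rw [← Real.rpow_natCast, ← Real.rpow_mul hs0.le]; norm_num
    have e2 : (s ^ (-(3 / 2) : ℝ)) ^ 2 = s ^ (-3 : ℝ) := by
      rw [← Real.rpow_natCast, ← Real.rpow_mul hs0.le]; norm_num
    have e3 : s ^ (-3 : ℝ) = s ^ (3 / 5 : ℝ) * s ^ (-(18 / 5) : ℝ) := by
      rw [← Real.rpow_add hs0]; norm_num
    rw [e1, e2, e3]
    refine mul_lt_mul_of_pos_right ?_ (Real.rpow_pos_of_pos hs0 _)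
    have e4 : (32 : ℝ) < (400 : ℝ) ^ (3 / 5 : ℝ) := by
      have h5 : (32 : ℝ) = ((32 : ℝ) ^ (5 : ℕ)) ^ (1 / 5 : ℝ) := by
        rw [← Real.rpow_natCast, ← Real.rpow_mul (by norm_num)]; norm_num
      have h6 : (400 : ℝ) ^ (3 / 5 : ℝ) = ((400 : ℝ) ^ (3 : ℕ)) ^ (1 / 5 : ℝ) := by
        rw [← Real.rpow_natCast, ← Real.rpow_mul (by norm_num)]; norm_num
      rw [h5, h6]
      exact Real.rpow_lt_rpow (by norm_num) (by norm_num) (by norm_num)
    exact e4.trans_le (Real.rpow_le_rpow (by norm_num) hs4 (by norm_num))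
  have := RseSt23.lab_unique_of hL hL' hlo h1 h1' h2 h2' key
  rw [e, e', this]

lemma sparse_LabF {γ : ℝ} {B : ℕ} (hs : 400 ≤ B.minFac) : Sparse (LabF γ B) :=
  fun _ h _ h' _ => LabF_unique hs h h'

/-- `b` divides a small denominator of the family -/
def BadL (L : Set ℚ) (b : ℕ) : Prop :=
  ∃ ρ ∈ L, b ∣ ρ.den ∧ (ρ.den : ℝ) ≤ Real.exp ((b : ℝ) ^ (1 / 20 : ℝ))

/-- **bad primes of a stage** -/
def BadB (γ : ℝ) (B b : ℕ) : Prop := BadL (LabT (B * γ)) b ∨ BadL (LabF γ B) b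

/-! ### counting -/

/-- primes `> P` dividing `D` -/
lemma card_dvd_le {P D : ℕ} (hP : 2 ≤ P) (hD : D ≠ 0) {F : Finset ℕ}
    (hF : ∀ b ∈ F, b.Prime ∧ P < b ∧ b ∣ D) : (F.card : ℝ) * Real.log P ≤ Real.log D := by
  have h1 : ∏ b ∈ F, b ∣ D := by
    refine Finset.prod_primes_dvd D (fun b hb => (hF b hb).1.prime) fun b hb => (hF b hb).2.2
  have h2 : P ^ F.card ≤ ∏ b ∈ F, b := by
    calc P ^ F.card = ∏ _b ∈ F, P := by rw [Finset.prod_const]
      _ ≤ ∏ b ∈ F, b := Finset.prod_le_prod' fun b hb => (hF b hb).2.1.le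
  have h3 : P ^ F.card ≤ D := h2.trans (Nat.le_of_dvd (Nat.pos_of_ne_zero hD) h1)
  have h4 : (P : ℝ) ^ F.card ≤ D := by exact_mod_cast h3
  have hP0 : (0 : ℝ) < P := by exact_mod_cast (by omega : 0 < P)
  have h5 := Real.log_le_log (pow_pos hP0 _) h4
  rwa [Real.log_pow] at h5

/-- **one sparse family** -/
lemma card_badL {L : Set ℚ} (hL : Sparse L) {P : ℕ} (hP : 2 ≤ P) {X : ℝ} (hX : 1 ≤ X)
    {F : Finset ℕ} (hF : ∀ b ∈ F, b.Prime ∧ P < b ∧ ∃ ρ ∈ L, b ∣ ρ.den ∧ (ρ.den : ℝ) ≤ X) :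
    (F.card : ℝ) * Real.log P ≤ (Real.log X / Real.log 2 + 1) * Real.log X := by
  classical
  have hX0 : 0 ≤ Real.log X := Real.log_nonneg hX
  have hl2 : 0 < Real.log 2 := Real.log_pos one_lt_two
  choose! ρ hρ using fun b hb => (hF b hb).2.2
  set J : Finset ℕ := F.image fun b => Nat.log 2 (ρ b).den with hJ
  have hJc : (J.card : ℝ) ≤ Real.log X / Real.log 2 + 1 := by
    have hsub : J ⊆ Finset.range (⌊Real.log X / Real.log 2⌋₊ + 1) := by
      intro k hk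
      obtain ⟨b, hb, rfl⟩ := Finset.mem_image.1 hk
      rw [Finset.mem_range, Nat.lt_succ_iff]
      refine Nat.le_floor ?_
      rw [le_div_iff₀ hl2]
      have h1 : (2 : ℝ) ^ Nat.log 2 (ρ b).den ≤ (ρ b).den := by
        exact_mod_cast Nat.pow_log_le_self 2 (ρ b).den_ne_zero
      have h2 := Real.log_le_log (by positivity) (h1.trans (hρ b hb).2.2)
      rwa [Real.log_pow] at h2
    have h2 := Finset.card_le_card hsub
    rw [Finset.card_range] at h2
    have h3 : (J.card : ℝ) ≤ (⌊Real.log X / Real.log 2⌋₊ : ℝ) + 1 := by exact_mod_cast h2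
    exact h3.trans (add_le_add_left (Nat.floor_le (div_nonneg hX0 hl2.le)) 1)
  have hcard : F.card = ∑ k ∈ J, (F.filter fun b => Nat.log 2 (ρ b).den = k).card :=
    Finset.card_eq_sum_card_image _ _
  have hlP : 0 ≤ Real.log P := Real.log_natCast_nonneg _
  rw [hcard, Nat.cast_sum, Finset.sum_mul]
  calc ∑ k ∈ J, ((F.filter fun b => Nat.log 2 (ρ b).den = k).card : ℝ) * Real.log P
      ≤ ∑ _k ∈ J, Real.log X := by
        refine Finset.sum_le_sum fun k hk => ?_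
        obtain ⟨b₀, hb₀, hk₀⟩ := Finset.mem_image.1 hk
        have h1 : ∀ b ∈ F.filter (fun b => Nat.log 2 (ρ b).den = k),
            b.Prime ∧ P < b ∧ b ∣ (ρ b₀).den := by
          intro b hb
          obtain ⟨hb1, hb2⟩ := Finset.mem_filter.1 hb
          have e : ρ b = ρ b₀ := hL _ (hρ b hb1).1 _ (hρ b₀ hb₀).1 (hb2.trans hk₀.symm)
          exact ⟨(hF b hb1).1, (hF b hb1).2.1, e ▸ (hρ b hb1).2.1⟩
        refine (card_dvd_le hP (ρ b₀).den_ne_zero h1).trans ?_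
        exact Real.log_le_log (by exact_mod_cast (ρ b₀).den_pos) (hρ b₀ hb₀).2.2
    _ = (J.card : ℝ) * Real.log X := by rw [Finset.sum_const, nsmul_eq_mul]
    _ ≤ _ := mul_le_mul_of_nonneg_right hJc hX0

lemma LabF_one (γ : ℝ) : LabF γ 1 = ∅ := by
  ext ρ
  simp only [Set.mem_empty_iff_false, iff_false]
  rintro ⟨ρ₀, r₀, -, h1, -, hL⟩
  have h2 := hL.le
  rw [Nat.minFac_one, Nat.cast_one, Real.one_rpow] at h1
  norm_num at h2
  linarith

/-- **one sparse family, one dyadic block** -/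
lemma card_blk {L : Set ℚ} (hL : Sparse L) {P : ℕ} (hP : 400 ≤ P) {F : Finset ℕ}
    (hF : ∀ b ∈ F, b.Prime ∧ P < b ∧ b ≤ 2 * P ∧ BadL L b) :
    (F.card : ℝ) ≤ (P : ℝ) ^ (1 / 10 : ℝ) := by
  have hP4 : (400 : ℝ) ≤ P := by exact_mod_cast hP
  have hP0 : (0 : ℝ) < P := by linarith
  set u : ℝ := (2 * (P : ℝ)) ^ (1 / 20 : ℝ) with hu
  have hu1 : 1 ≤ u := Real.one_le_rpow (by linarith) (by norm_num)
  have h1 := card_badL hL (by omega : 2 ≤ P) (X := Real.exp u) (Real.one_le_exp (by linarith))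
    (F := F) fun b hb => by
      obtain ⟨h1, h2, h3, ρ, h4, h5, h6⟩ := hF b hb
      refine ⟨h1, h2, ρ, h4, h5, h6.trans (Real.exp_le_exp.2 ?_)⟩
      refine Real.rpow_le_rpow (Nat.cast_nonneg _) ?_ (by norm_num)
      exact_mod_cast h3
  rw [Real.log_exp] at h1
  have hl2 : (0.6931 : ℝ) < Real.log 2 := by have := Real.log_two_gt_d9; linarith
  have h2 : u / Real.log 2 + 1 ≤ 2.45 * u := by
    have h3 : u / Real.log 2 ≤ 1.45 * u := by
      rw [div_le_iff₀ (by linarith)]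
      nlinarith
    linarith
  have h3 : (u / Real.log 2 + 1) * u ≤ 2.45 * u ^ 2 := by nlinarith
  have h4 : u ^ 2 ≤ 1.1 * (P : ℝ) ^ (1 / 10 : ℝ) := by
    rw [hu, ← Real.rpow_natCast, ← Real.rpow_mul (by positivity), Real.mul_rpow (by norm_num) hP0.le]
    have e : (1 / 20 : ℝ) * ((2 : ℕ) : ℝ) = 1 / 10 := by norm_num
    rw [e]
    refine mul_le_mul_of_nonneg_right ?_ (Real.rpow_nonneg hP0.le _)
    have h5 : (1.1 : ℝ) = ((1.1 : ℝ) ^ (10 : ℕ)) ^ (1 / 10 : ℝ) := by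
      rw [← Real.rpow_natCast, ← Real.rpow_mul (by norm_num)]; norm_num
    rw [h5]
    exact Real.rpow_le_rpow (by norm_num) (by norm_num) (by norm_num)
  have hlog : (5 : ℝ) ≤ Real.log P := by
    have h6 : Real.exp 5 ≤ P := by
      refine le_trans ?_ hP4
      have h7 : Real.exp 5 = Real.exp 1 ^ 5 := by rw [← Real.exp_nat_mul]; norm_num
      rw [h7]
      have h8 : Real.exp 1 < 2.7182818286 := Real.exp_one_lt_d9
      calc Real.exp 1 ^ 5 ≤ 2.7182818286 ^ 5 := pow_le_pow_left₀ (Real.exp_pos _).le h8.le 5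
        _ ≤ 400 := by norm_num
    have := Real.log_le_log (Real.exp_pos _) h6
    rwa [Real.log_exp] at this
  have hq0 : 0 ≤ (P : ℝ) ^ (1 / 10 : ℝ) := Real.rpow_nonneg hP0.le _
  have h9 : (F.card : ℝ) * 5 ≤ (F.card : ℝ) * Real.log P :=
    mul_le_mul_of_nonneg_left hlog (Nat.cast_nonneg _)
  nlinarith

/-- **one stage, one dyadic block** -/
lemma card_bad {γ : ℝ} {B P : ℕ} (hP : 400 ≤ P) (hB : B = 1 ∨ 400 ≤ B.minFac)
    {F : Finset ℕ} (hF : ∀ b ∈ F, b.Prime ∧ P < b ∧ b ≤ 2 * P ∧ BadB γ B b) :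
    (F.card : ℝ) ≤ 2 * (P : ℝ) ^ (1 / 10 : ℝ) := by
  classical
  have hsp : Sparse (LabF γ B) := by
    rcases hB with rfl | hB
    · rw [LabF_one]; intro ρ h; exact absurd h (Set.notMem_empty _)
    · exact sparse_LabF hB
  have h1 := card_blk (sparse_LabT (B * γ)) hP (F := F.filter fun b => BadL (LabT (B * γ)) b)
    fun b hb => by
      obtain ⟨h1, h2⟩ := Finset.mem_filter.1 hb
      exact ⟨(hF b h1).1, (hF b h1).2.1, (hF b h1).2.2.1, h2⟩
  have h2 := card_blk hsp hP (F := F.filter fun b => ¬ BadL (LabT (B * γ)) b)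
    fun b hb => by
      obtain ⟨h1, h2⟩ := Finset.mem_filter.1 hb
      exact ⟨(hF b h1).1, (hF b h1).2.1, (hF b h1).2.2.1, (hF b h1).2.2.2.resolve_left h2⟩
  have h3 := Finset.card_filter_add_card_filter_not (s := F) (fun b => BadL (LabT (B * γ)) b)
  have h4 : (F.card : ℝ) = ((F.filter fun b => BadL (LabT (B * γ)) b).card : ℝ) +
      ((F.filter fun b => ¬ BadL (LabT (B * γ)) b).card : ℝ) := by exact_mod_cast h3.symm
  rw [h4]
  linarith

/-! ### stages -/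

/-- **all the stages of a dyadic block**: `M` = missing ties -/
lemma card_stage {γ : ℝ} {M : Finset ℕ} (hM : ∀ s ∈ M, s.Prime ∧ 400 ≤ s) {P : ℕ} (hP : 400 ≤ P)
    {F : Finset ℕ} (hF : ∀ b ∈ F, b.Prime ∧ P < b ∧ b ≤ 2 * P ∧
      BadB γ (∏ s ∈ M.filter (b < ·), s) b) :
    (F.card : ℝ) ≤ (((M.filter (· ≤ 2 * P)).card : ℝ) + 1) * (2 * (P : ℝ) ^ (1 / 10 : ℝ)) := by
  classical
  set g : ℕ → ℕ := fun b => (M.filter fun s => b < s ∧ s ≤ 2 * P).card with hg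
  set J : Finset ℕ := F.image g with hJ
  have hJc : (J.card : ℝ) ≤ ((M.filter (· ≤ 2 * P)).card : ℝ) + 1 := by
    have hsub : J ⊆ Finset.range ((M.filter (· ≤ 2 * P)).card + 1) := by
      intro k hk
      obtain ⟨b, hb, rfl⟩ := Finset.mem_image.1 hk
      rw [Finset.mem_range, Nat.lt_succ_iff]
      refine Finset.card_le_card fun s hs => ?_
      obtain ⟨h1, h2⟩ := Finset.mem_filter.1 hs
      exact Finset.mem_filter.2 ⟨h1, h2.2⟩
    have h2 := Finset.card_le_card hsub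
    rw [Finset.card_range] at h2
    exact_mod_cast h2
  have hcard : F.card = ∑ k ∈ J, (F.filter fun b => g b = k).card :=
    Finset.card_eq_sum_card_image _ _
  have hq0 : 0 ≤ 2 * (P : ℝ) ^ (1 / 10 : ℝ) := by positivity
  rw [hcard, Nat.cast_sum]
  calc ∑ k ∈ J, ((F.filter fun b => g b = k).card : ℝ)
      ≤ ∑ _k ∈ J, 2 * (P : ℝ) ^ (1 / 10 : ℝ) := by
        refine Finset.sum_le_sum fun k hk => ?_
        obtain ⟨b₀, hb₀, hk₀⟩ := Finset.mem_image.1 hk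
        -- the stage is constant
        have hst : ∀ b ∈ F.filter (fun b => g b = k), M.filter (b < ·) = M.filter (b₀ < ·) := by
          intro b hb
          obtain ⟨hb1, hb2⟩ := Finset.mem_filter.1 hb
          have key : ∀ x y : ℕ, x ≤ y → y ≤ 2 * P → g x = g y →
              M.filter (x < ·) = M.filter (y < ·) := by
            intro x y hxy hy hxyg
            have hsub : (M.filter fun s => y < s ∧ s ≤ 2 * P) ⊆
                (M.filter fun s => x < s ∧ s ≤ 2 * P) := fun s hs => by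
              obtain ⟨h1, h2, h3⟩ := Finset.mem_filter.1 hs
              exact Finset.mem_filter.2 ⟨h1, by omega, h3⟩
            have he := Finset.eq_of_subset_of_card_le hsub hxyg.le
            ext s
            constructor
            · intro hs
              obtain ⟨h1, h2⟩ := Finset.mem_filter.1 hs
              refine Finset.mem_filter.2 ⟨h1, ?_⟩
              by_cases h3 : s ≤ 2 * P
              · have : s ∈ M.filter fun s => y < s ∧ s ≤ 2 * P := by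
                  rw [he]; exact Finset.mem_filter.2 ⟨h1, h2, h3⟩
                exact (Finset.mem_filter.1 this).2.1
              · show y < s
                omega
            · intro hs
              obtain ⟨h1, h2⟩ := Finset.mem_filter.1 hs
              exact Finset.mem_filter.2 ⟨h1, lt_of_le_of_lt hxy h2⟩
          rcases le_total b b₀ with h | h
          · exact key b b₀ h (hF b₀ hb₀).2.2.1 (hb2.trans hk₀.symm)
          · exact (key b₀ b h (hF b hb1).2.2.1 (hk₀.trans hb2.symm)).symm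
        refine card_bad (γ := γ) (B := ∏ s ∈ M.filter (b₀ < ·), s) hP ?_ fun b hb => ?_
        · rcases (M.filter (b₀ < ·)).eq_empty_or_nonempty with h | h
          · left; rw [h, Finset.prod_empty]
          · right
            set B := ∏ s ∈ M.filter (b₀ < ·), s with hBdef
            have hB1 : B ≠ 1 := by
              obtain ⟨s, hs⟩ := h
              intro h1
              have h2 : s ∣ B := Finset.dvd_prod_of_mem _ hs
              rw [h1, Nat.dvd_one] at h2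
              exact (hM s (Finset.mem_filter.1 hs).1).1.one_lt.ne' h2
            have h2 := Nat.minFac_prime hB1
            have h3 := (h2.prime.dvd_finsetProd_iff _).1 (Nat.minFac_dvd B)
            obtain ⟨s, hs, hd⟩ := h3
            have h4 := (Nat.prime_dvd_prime_iff_eq h2 (hM s (Finset.mem_filter.1 hs).1).1).1 hd
            rw [h4]
            exact (hM s (Finset.mem_filter.1 hs).1).2
        · obtain ⟨hb1, hb2⟩ := Finset.mem_filter.1 hb
          obtain ⟨h1, h2, h3, h4⟩ := hF b hb1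
          refine ⟨h1, h2, h3, ?_⟩
          rw [← hst b hb]
          exact h4
    _ = (J.card : ℝ) * (2 * (P : ℝ) ^ (1 / 10 : ℝ)) := by rw [Finset.sum_const, nsmul_eq_mul]
    _ ≤ _ := mul_le_mul_of_nonneg_right hJc hq0

/-! ### dyadic sums -/

lemma sum_biUnion_le' {ι : Type*} [DecidableEq ι] (J : Finset ι) (G : ι → Finset ℕ) {f : ℕ → ℝ}
    (hf : ∀ b, 0 ≤ f b) : ∑ b ∈ J.biUnion G, f b ≤ ∑ k ∈ J, ∑ b ∈ G k, f b := by
  classical
  induction J using Finset.induction_on with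
  | empty => simp
  | insert a s ha ih =>
    rw [Finset.biUnion_insert, Finset.sum_insert ha]
    have h5 := Finset.sum_union_inter (s₁ := G a) (s₂ := s.biUnion G) (f := f)
    have h6 : 0 ≤ ∑ q ∈ G a ∩ s.biUnion G, f q := Finset.sum_nonneg fun q _ => hf q
    linarith

/-- dyadic sums with a power gain -/
lemma sum_dyadic {F : Finset ℕ} {P : ℕ} (hP : 1 ≤ P) {a c K : ℝ} (hK : 0 ≤ K) (hc : 0 ≤ c)
    (hac : a < c) (h : ∀ k : ℕ, ((F.filter fun b => 2 ^ k * P < b ∧ b ≤ 2 * (2 ^ k * P)).card : ℝ) ≤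
      K * ((2 ^ k * P : ℕ) : ℝ) ^ a) :
    ∑ b ∈ F.filter (P < ·), (b : ℝ) ^ (-c) ≤ K * (P : ℝ) ^ (a - c) / (1 - 2 ^ (a - c)) := by
  classical
  have hP0 : (0 : ℝ) < P := by exact_mod_cast hP
  set N := F.sup id + 1 with hN
  have hsub : F.filter (P < ·) ⊆ (Finset.range N).biUnion
      (fun k => F.filter (fun b => 2 ^ k * P < b ∧ b ≤ 2 * (2 ^ k * P))) := by
    intro b hb
    obtain ⟨hbF, hPb⟩ := Finset.mem_filter.1 hb
    -- first k with b ≤ 2^(k+1) P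
    have hex : ∃ k : ℕ, b ≤ 2 * (2 ^ k * P) := by
      refine ⟨b, ?_⟩
      have h1 : b < 2 ^ b := Nat.lt_two_pow_self
      nlinarith
    refine Finset.mem_biUnion.2 ⟨Nat.find hex, ?_, Finset.mem_filter.2 ⟨hbF, ?_, Nat.find_spec hex⟩⟩
    · rw [Finset.mem_range]
      have h3 : b ≤ F.sup id := Finset.le_sup (f := id) hbF
      have h4 : Nat.find hex ≤ b := Nat.find_min' hex (by
        have h1 : b < 2 ^ b := Nat.lt_two_pow_self
        nlinarith)
      omega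
    · rcases Nat.eq_zero_or_pos (Nat.find hex) with h0 | h0
      · rw [h0]; simpa using hPb
      · have := Nat.find_min hex (m := Nat.find hex - 1) (by omega)
        push Not at this
        have e : 2 * (2 ^ (Nat.find hex - 1) * P) = 2 ^ Nat.find hex * P := by
          conv_rhs => rw [← Nat.sub_add_cancel h0, pow_succ]
          ring
        rwa [e] at this
  have hr0 : (0 : ℝ) < 2 ^ (a - c) := Real.rpow_pos_of_pos two_pos _
  have hr1 : (2 : ℝ) ^ (a - c) < 1 := Real.rpow_lt_one_of_one_lt_of_neg one_lt_two (by linarith)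
  calc ∑ b ∈ F.filter (P < ·), (b : ℝ) ^ (-c)
      ≤ ∑ b ∈ (Finset.range N).biUnion
          (fun k => F.filter (fun b => 2 ^ k * P < b ∧ b ≤ 2 * (2 ^ k * P))), (b : ℝ) ^ (-c) :=
        Finset.sum_le_sum_of_subset_of_nonneg hsub fun b _ _ =>
          Real.rpow_nonneg (Nat.cast_nonneg _) _
    _ ≤ ∑ k ∈ Finset.range N, ∑ b ∈ F.filter (fun b => 2 ^ k * P < b ∧ b ≤ 2 * (2 ^ k * P)),
          (b : ℝ) ^ (-c) :=
        sum_biUnion_le' _ _ fun b => Real.rpow_nonneg (Nat.cast_nonneg _) _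
    _ ≤ ∑ k ∈ Finset.range N, K * (P : ℝ) ^ (a - c) * (2 ^ (a - c)) ^ k := by
        refine Finset.sum_le_sum fun k _ => ?_
        have hQ0 : (0 : ℝ) < ((2 ^ k * P : ℕ) : ℝ) := by push_cast; positivity
        calc ∑ b ∈ F.filter (fun b => 2 ^ k * P < b ∧ b ≤ 2 * (2 ^ k * P)), (b : ℝ) ^ (-c)
            ≤ ∑ _b ∈ F.filter (fun b => 2 ^ k * P < b ∧ b ≤ 2 * (2 ^ k * P)),
                ((2 ^ k * P : ℕ) : ℝ) ^ (-c) := by
              refine Finset.sum_le_sum fun b hb => ?_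
              have h1 := (Finset.mem_filter.1 hb).2.1
              refine Real.rpow_le_rpow_of_nonpos hQ0 (by exact_mod_cast h1.le) (by linarith)
          _ = ((F.filter fun b => 2 ^ k * P < b ∧ b ≤ 2 * (2 ^ k * P)).card : ℝ) *
                ((2 ^ k * P : ℕ) : ℝ) ^ (-c) := by rw [Finset.sum_const, nsmul_eq_mul]
          _ ≤ K * ((2 ^ k * P : ℕ) : ℝ) ^ a * ((2 ^ k * P : ℕ) : ℝ) ^ (-c) :=
              mul_le_mul_of_nonneg_right (h k) (Real.rpow_nonneg hQ0.le _)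
          _ = K * ((2 ^ k * P : ℕ) : ℝ) ^ (a - c) := by
              rw [mul_assoc, ← Real.rpow_add hQ0]; rfl
          _ = K * (P : ℝ) ^ (a - c) * (2 ^ (a - c)) ^ k := by
              push_cast
              rw [Real.mul_rpow (by positivity) hP0.le, ← Real.rpow_natCast, ← Real.rpow_mul two_pos.le,
                ← Real.rpow_natCast, ← Real.rpow_mul two_pos.le, mul_comm (k : ℝ) (a - c)]
              ring
    _ = K * (P : ℝ) ^ (a - c) * ∑ k ∈ Finset.range N, ((2 : ℝ) ^ (a - c)) ^ k := by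
        rw [Finset.mul_sum]
    _ ≤ K * (P : ℝ) ^ (a - c) * (1 / (1 - 2 ^ (a - c))) := by
        refine mul_le_mul_of_nonneg_left ?_ (by positivity)
        rw [le_div_iff₀ (by linarith), mul_comm, mul_neg_geom_sum]
        have := pow_nonneg hr0.le N
        linarith
    _ = _ := by ring

/-! ### the labels of a node -/

section node
open Crest.Agent.R4P.Cnt588 Crest.Agent.R4P.W363 Crest.Agent.R4P.RseSt23
open Crest.Agent.R4P.Bld532 (NS Par)
open Crest.Agent.R4P.Step588 (NDt)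
open Crest.Agent.R4P.WalkIT579 (tp isL top_of_nodeOk)

variable {P : Par} {W : ℕ → ℝ} {t' : IT} {u : NS} {τ : IT}

/-- the missing product of a node is the missing product above its column -/
lemma Bab_node (h : NDt P W t' u τ) {n : ℕ} (hO : t'.Ok n) (hl : ¬ isL τ) {q : ℕ}
    (hq : q ∈ τ.items) : Bab t' q (tp τ) = u.B := by
  unfold Bab
  rw [mt_node h hO hl hq]
  exact Nat.prod_primeFactors_of_squarefree h.bk.sfB

/-- **the labels used at a node**: label of the present stage or fat label of the stage -/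
theorem lab_used (h : NDt P W t' u τ) {n : ℕ} (hO : t'.Ok n) (hl : ¬ isL τ) {wp : WP} {γ : ℝ}
    {r : ℕ → ℝ} {K : ℝ} (hK : ∀ s : ℕ, tp τ < s → K ≤ s * wp.thr s)
    (hK' : K ≤ (tp τ : ℝ) ^ (1 / 10 : ℝ))
    (hthr : (tp τ : ℝ) ^ (-(1 / 2) : ℝ) ≤ wp.thr (tp τ)) {q : ℕ} (hq : q ∈ τ.items)
    (hKq : (u.B : ℝ) * r q ≤ K) {σ : ℚ} (hσ : wp.st γ r t' (tp τ) q = some σ) :
    (u.B : ℚ) * σ ∈ LabT (u.B * γ) ∨ (u.B : ℚ) * σ ∈ LabF γ u.B := by
  have hprod := LB_prod h.bk.sfB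
  have hB0 : 0 < u.B := Nat.pos_of_ne_zero h.bk.sfB.ne_zero
  obtain ⟨k1, k2, k3⟩ := top_of_nodeOk h.self.node hl
  have hmem : ∀ s ∈ LB u.B, s.Prime ∧ tp τ < s ∧ s ∣ u.B := by
    intro s hs
    unfold LB at hs
    rw [Finset.mem_sort] at hs
    have h1 := Nat.prime_of_mem_primeFactors hs
    have h2 := Nat.dvd_of_mem_primeFactors hs
    exact ⟨h1, k2.trans_le (h.bk.geB s h1 h2), h2⟩
  cases hL : LB u.B with
  | nil =>
    left
    have hB1 : u.B = 1 := by rw [← hprod, hL]; rfl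
    rw [st_node h hO hl hq, hL] at hσ
    have h1 : lab0 γ (r q) 1 = some σ := hσ
    have h2 := lab0_spec one_pos h1
    rw [hB1]
    exact ⟨_, h2⟩
  | cons s L' =>
    have hs := hmem s (by rw [hL]; exact List.mem_cons_self)
    have hBs : s * L'.prod = u.B := by rw [← hprod, hL, List.prod_cons]
    have hL0 : 0 < L'.prod := by
      rcases Nat.eq_zero_or_pos L'.prod with h0 | h0
      · rw [h0, mul_zero] at hBs; omega
      · exact h0
    -- `s` is the smallest prime factor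
    have hmin : u.B.minFac = s := by
      have hB1 : u.B ≠ 1 := by
        intro h1
        have := hs.2.2
        rw [h1, Nat.dvd_one] at this
        exact hs.1.one_lt.ne' this
      have h2 := Nat.minFac_prime hB1
      have h3 : u.B.minFac ∈ LB u.B := by
        unfold LB
        rw [Finset.mem_sort]
        exact Nat.mem_primeFactors.2 ⟨h2, Nat.minFac_dvd _, hB0.ne'⟩
      have h4 : s ≤ u.B.minFac := by
        have hsort : (LB u.B).Pairwise (· ≤ ·) := by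
          unfold LB; exact Finset.pairwise_sort _ _
        rw [hL] at hsort h3
        rcases List.mem_cons.1 h3 with h5 | h5
        · exact h5.ge
        · exact (List.pairwise_cons.1 hsort).1 _ h5
      exact le_antisymm (Nat.minFac_le_of_dvd hs.1.two_le hs.2.2) h4
    rw [st_node h hO hl hq, hL] at hσ
    unfold Crest.Agent.R4.W363.sta at hσ
    split_ifs at hσ with hth
    · left
      rw [hBs] at hσ
      exact ⟨_, lab0_spec hB0 hσ⟩
    · right
      rw [hBs] at hth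
      have hs0 : (0:ℝ) < s := by exact_mod_cast hs.1.pos
      have hp0 : (0:ℝ) < (tp τ : ℝ) := by exact_mod_cast k1.pos
      have hps : (tp τ : ℝ) ≤ s := by exact_mod_cast hs.2.1.le
      have hc : (u.B : ℝ) = (s:ℝ) * (L'.prod : ℕ) := by rw [← hBs, Nat.cast_mul]
      have hthin : (L'.prod : ℝ) * r q ≤ wp.thr s := by
        have h1 := hKq.trans (hK s hs.2.1)
        rw [hc, mul_assoc] at h1
        exact le_of_mul_le_mul_left h1 hs0
      rw [sta_thin hthin] at hσ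
      have hdiv : u.B / u.B.minFac = L'.prod := by
        rw [hmin, ← hBs, Nat.mul_div_cancel_left _ hs.1.pos]
      refine ⟨L'.prod * σ, (L'.prod : ℝ) * r q, ?_, ?_, ?_, ?_⟩
      · rw [hmin, ← hBs]; push_cast; ring
      · rw [hmin]
        have h1 : (s : ℝ) ^ (-(1 / 2) : ℝ) ≤ wp.thr (tp τ) := by
          refine le_trans ?_ hthr
          exact Real.rpow_le_rpow_of_nonpos hp0 hps (by norm_num)
        have h2 : wp.thr (tp τ) < s * ((L'.prod : ℝ) * r q) := by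
          have := not_le.1 hth
          rwa [hc, mul_assoc] at this
        have h3 : (s : ℝ) ^ (-(3 / 2) : ℝ) * s = (s : ℝ) ^ (-(1 / 2) : ℝ) := by
          conv_lhs => rw [← Real.rpow_one (s : ℝ), ← Real.rpow_mul hs0.le]
          rw [← Real.rpow_add hs0]; norm_num
        have h4 : (s : ℝ) ^ (-(3 / 2) : ℝ) * s ≤ ((L'.prod : ℝ) * r q) * s := by
          rw [h3]; linarith
        exact le_of_mul_le_mul_right h4 hs0
      · rw [hmin]
        have h1 : s * ((L'.prod : ℝ) * r q) ≤ (s : ℝ) ^ (1 / 10 : ℝ) := by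
          have h2 : (u.B : ℝ) * r q ≤ (s : ℝ) ^ (1 / 10 : ℝ) :=
            (hKq.trans hK').trans (Real.rpow_le_rpow hp0.le hps (by norm_num))
          rwa [hc, mul_assoc] at h2
        have h3 : (s : ℝ) ^ (-(9 / 10) : ℝ) * s = (s : ℝ) ^ (1 / 10 : ℝ) := by
          conv_lhs => rw [← Real.rpow_one (s : ℝ), ← Real.rpow_mul hs0.le]
          rw [← Real.rpow_add hs0]; norm_num
        have h4 : ((L'.prod : ℝ) * r q) * s ≤ (s : ℝ) ^ (-(9 / 10) : ℝ) * s := by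
          rw [h3]; linarith
        exact le_of_mul_le_mul_right h4 hs0
      · rw [hdiv]
        exact lab0_spec hL0 hσ

/-- **a prime of the column which divides a small denominator of a label of the node is bad** -/
theorem bad_of_label (h : NDt P W t' u τ) {n : ℕ} (hO : t'.Ok n) (hl : ¬ isL τ) {wp : WP} {γ : ℝ}
    {r : ℕ → ℝ} {K : ℝ} (hK : ∀ s : ℕ, tp τ < s → K ≤ s * wp.thr s)
    (hK' : K ≤ (tp τ : ℝ) ^ (1 / 10 : ℝ))
    (hthr : (tp τ : ℝ) ^ (-(1 / 2) : ℝ) ≤ wp.thr (tp τ)) {q : ℕ} (hq : q ∈ τ.items)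
    (hKq : (u.B : ℝ) * r q ≤ K) {σ : ℚ} (hσ : wp.st γ r t' (tp τ) q = some σ) {b : ℕ}
    (hb : b ∣ ((u.B : ℚ) * σ).den)
    (hX : ((((u.B : ℚ) * σ).den : ℕ) : ℝ) ≤ Real.exp ((b : ℝ) ^ (1 / 20 : ℝ))) : BadB γ u.B b := by
  rcases lab_used h hO hl hK hK' hthr hq hKq hσ with h1 | h1
  · exact Or.inl ⟨_, h1, hb, hX⟩
  · exact Or.inr ⟨_, h1, hb, hX⟩

/-- **the labels used at a node**, column states `stB` (anticipated births) -/
theorem lab_usedB (h : NDt P W t' u τ) {n : ℕ} (hO : t'.Ok n) (hl : ¬ isL τ) {wp wpL : WP}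
    {lam : ℕ → ℝ} {lv : ℕ → ℕ} {γ : ℝ}
    {r : ℕ → ℝ} {K : ℝ} (hK : ∀ s : ℕ, tp τ < s → K ≤ s * wp.thr s)
    (hK' : K ≤ (tp τ : ℝ) ^ (1 / 10 : ℝ))
    (hthr : (tp τ : ℝ) ^ (-(1 / 2) : ℝ) ≤ wp.thr (tp τ)) {q : ℕ} (hq : q ∈ τ.items)
    (hKq : (u.B : ℝ) * r q ≤ K) {σ : ℚ}
    (hσ : Data758.stB wp wpL lam γ r t' lv (tp τ) q = some σ) :
    (u.B : ℚ) * σ ∈ LabT (u.B * γ) ∨ (u.B : ℚ) * σ ∈ LabF γ u.B := by
  rcases Data758.stB_lbAt hσ with h3 | h3
  · exact lab_used h hO hl hK hK' hthr hq hKq h3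
  · left
    rw [lst_node h hO hl hq, LB_prod h.bk.sfB] at h3
    exact ⟨_, lab0_spec (Nat.pos_of_ne_zero h.bk.sfB.ne_zero) h3⟩

/-- **a prime of the column which divides a small denominator of a label of the node is bad**, column
states `stB` -/
theorem bad_of_labelB (h : NDt P W t' u τ) {n : ℕ} (hO : t'.Ok n) (hl : ¬ isL τ) {wp wpL : WP}
    {lam : ℕ → ℝ} {lv : ℕ → ℕ} {γ : ℝ}
    {r : ℕ → ℝ} {K : ℝ} (hK : ∀ s : ℕ, tp τ < s → K ≤ s * wp.thr s)
    (hK' : K ≤ (tp τ : ℝ) ^ (1 / 10 : ℝ))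
    (hthr : (tp τ : ℝ) ^ (-(1 / 2) : ℝ) ≤ wp.thr (tp τ)) {q : ℕ} (hq : q ∈ τ.items)
    (hKq : (u.B : ℝ) * r q ≤ K) {σ : ℚ}
    (hσ : Data758.stB wp wpL lam γ r t' lv (tp τ) q = some σ) {b : ℕ}
    (hb : b ∣ ((u.B : ℚ) * σ).den)
    (hX : ((((u.B : ℚ) * σ).den : ℕ) : ℝ) ≤ Real.exp ((b : ℝ) ^ (1 / 20 : ℝ))) : BadB γ u.B b := by
  rcases lab_usedB h hO hl hK hK' hthr hq hKq hσ with h1 | h1
  · exact Or.inl ⟨_, h1, hb, hX⟩
  · exact Or.inr ⟨_, h1, hb, hX⟩

end node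

/-! ### contexts -/

section ctx
open Crest.Agent.R4P.Skel189 (Ctx top)
open Crest.Agent.R4P.NI927 (ctx_pr ctx_cols)

/-- **the bad primes above `P` along the path of an item of `S'`** (any finite set of them) -/
theorem ctx_bad (N : Skel189.Num) : ∃ p₁ : ℕ, ∀ p0 ≥ p₁, ∀ (γ : ℝ) (P₀ : ℕ)
    (X : Ctx N γ p0 P₀), ∀ q ∈ X.S', ∀ P : ℕ, p0 ≤ P → ∀ F : Finset ℕ,
      (∀ b ∈ F, b.Prime ∧ P < b ∧ BadB γ (Bab X.c.t q b) b) →
      ∑ b ∈ F, (b : ℝ) ^ (-(1 / 7) : ℝ) ≤ (P : ℝ) ^ (-(1 / 100) : ℝ) := by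
  set C : ℝ := N.C1 + N.c2 + 1 with hC
  have hC0 : 0 ≤ C := by have := N.hC1; have := N.hc2; linarith
  -- (log 2Q)^C + 1 ≤ Q^(1/50) / 2
  have e1 : ∀ᶠ x : ℝ in Filter.atTop, (Real.log x) ^ C ≤ 1 / 8 * x ^ (1 / 50 : ℝ) := by
    have h1 := isLittleO_log_rpow_rpow_atTop (s := 1 / 50) C (by norm_num)
    have h2 := h1.bound (c := 1 / 8) (by norm_num)
    filter_upwards [h2, Filter.eventually_ge_atTop (1 : ℝ)] with x hx hx1
    have h3 : 0 ≤ Real.log x ^ C := Real.rpow_nonneg (Real.log_nonneg hx1) _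
    have h4 : 0 ≤ x ^ (1 / 50 : ℝ) := Real.rpow_nonneg (by linarith) _
    rwa [Real.norm_of_nonneg h3, Real.norm_of_nonneg h4] at hx
  have e2 : ∀ᶠ x : ℝ in Filter.atTop, (8 : ℝ) ≤ x ^ (1 / 50 : ℝ) :=
    (tendsto_rpow_atTop (by norm_num : (0 : ℝ) < 1 / 50)).eventually_ge_atTop 8
  set cc : ℝ := 1 / (1 - 2 ^ ((3 / 25 : ℝ) - 1 / 7)) with hcc
  have e3 : ∀ᶠ x : ℝ in Filter.atTop, cc ≤ x ^ (1 / 100 : ℝ) :=
    (tendsto_rpow_atTop (by norm_num : (0 : ℝ) < 1 / 100)).eventually_ge_atTop cc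
  obtain ⟨x₀, hx₀⟩ := Filter.eventually_atTop.1 ((e1.and e2).and e3)
  refine ⟨⌈x₀⌉₊ + 400, fun p0 hp0 γ P₀ X q hq P hP F hF => ?_⟩
  have hP400 : 400 ≤ P := by omega
  have hPr := ctx_pr X hq
  have hPx : x₀ ≤ (P : ℝ) := (Nat.le_ceil x₀).trans (by exact_mod_cast (by omega : ⌈x₀⌉₊ ≤ P))
  have hP0 : (0 : ℝ) < P := by exact_mod_cast (by omega : 0 < P)
  have hM : ∀ s ∈ X.c.t.mt q, s.Prime ∧ 400 ≤ s := fun s hs => by
    have h1 := (BldF542.mt_lt X.c.t (top X.S) X.tOk q s hs).1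
    have h2 := ctx_cols X q s (Or.inl hs)
    exact ⟨h1, by omega⟩
  have key := sum_dyadic (F := F) (P := P) (by omega) (a := 3 / 25) (c := 1 / 7) (K := 1) zero_le_one
    (by norm_num) (by norm_num) fun k => by
      set Q := 2 ^ k * P with hQ
      have h2k : 1 ≤ 2 ^ k := Nat.one_le_two_pow
      have hPQ : P ≤ Q := by rw [hQ]; nlinarith
      have hQr : (P : ℝ) ≤ Q := by exact_mod_cast hPQ
      have hQ1 : (1 : ℝ) ≤ Q := by exact_mod_cast (by omega : 1 ≤ Q)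
      have hQ0 : (0 : ℝ) < Q := by linarith
      have h1 := card_stage (γ := γ) hM (P := Q) (by omega)
        (F := F.filter fun b => Q < b ∧ b ≤ 2 * Q) fun b hb => by
          obtain ⟨h1, h2, h3⟩ := Finset.mem_filter.1 hb
          exact ⟨(hF b h1).1, h2, h3, (hF b h1).2.2⟩
      have h2 := hPr.mt (2 * Q) (by omega)
      have h3 : Real.log ((2 * Q : ℕ) : ℝ) ^ C ≤ 1 / 8 * (((2 * Q : ℕ) : ℝ)) ^ (1 / 50 : ℝ) :=
        (hx₀ _ (hPx.trans (by push_cast; linarith))).1.1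
      have h4 : (8 : ℝ) ≤ (Q : ℝ) ^ (1 / 50 : ℝ) := (hx₀ _ (hPx.trans hQr)).1.2
      have h5 : (((2 * Q : ℕ) : ℝ)) ^ (1 / 50 : ℝ) ≤ 2 * (Q : ℝ) ^ (1 / 50 : ℝ) := by
        push_cast
        rw [Real.mul_rpow (by norm_num) hQ0.le]
        refine mul_le_mul_of_nonneg_right ?_ (Real.rpow_nonneg hQ0.le _)
        calc (2 : ℝ) ^ (1 / 50 : ℝ) ≤ 2 ^ (1 : ℝ) :=
              Real.rpow_le_rpow_of_exponent_le (by norm_num) (by norm_num)
          _ = 2 := Real.rpow_one 2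
      have h6 : (((X.c.t.mt q).filter (· ≤ 2 * Q)).card : ℝ) + 1 ≤
          3 / 8 * (Q : ℝ) ^ (1 / 50 : ℝ) := by
        have : (((X.c.t.mt q).filter (· ≤ 2 * Q)).card : ℝ) ≤ Real.log ((2 * Q : ℕ) : ℝ) ^ C := h2
        linarith
      have h7 : (Q : ℝ) ^ (3 / 25 : ℝ) = (Q : ℝ) ^ (1 / 50 : ℝ) * (Q : ℝ) ^ (1 / 10 : ℝ) := by
        rw [← Real.rpow_add hQ0]; norm_num
      have h8 : 0 ≤ (Q : ℝ) ^ (1 / 10 : ℝ) := Real.rpow_nonneg hQ0.le _
      have h9 : 0 ≤ (Q : ℝ) ^ (1 / 50 : ℝ) := Real.rpow_nonneg hQ0.le _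
      refine h1.trans ?_
      rw [one_mul, h7]
      have h10 := mul_le_mul_of_nonneg_right h6 (by positivity : 0 ≤ 2 * (Q : ℝ) ^ (1 / 10 : ℝ))
      nlinarith [mul_nonneg h9 h8]
  have hfil : F.filter (P < ·) = F := Finset.filter_true_of_mem fun b hb => (hF b hb).2.1
  rw [hfil] at key
  refine key.trans ?_
  have h1 : (1 : ℝ) * (P : ℝ) ^ ((3 / 25 : ℝ) - 1 / 7) / (1 - 2 ^ ((3 / 25 : ℝ) - 1 / 7)) =
      (P : ℝ) ^ ((3 / 25 : ℝ) - 1 / 7) * cc := by rw [hcc]; ring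
  rw [h1]
  have h2 : cc ≤ (P : ℝ) ^ (1 / 100 : ℝ) := (hx₀ _ hPx).2
  calc (P : ℝ) ^ ((3 / 25 : ℝ) - 1 / 7) * cc
      ≤ (P : ℝ) ^ ((3 / 25 : ℝ) - 1 / 7) * (P : ℝ) ^ (1 / 100 : ℝ) :=
        mul_le_mul_of_nonneg_left h2 (Real.rpow_nonneg hP0.le _)
    _ = (P : ℝ) ^ ((3 / 25 : ℝ) - 1 / 7 + 1 / 100) := by rw [← Real.rpow_add hP0]
    _ ≤ _ := Real.rpow_le_rpow_of_exponent_le (by exact_mod_cast (by omega : 1 ≤ P)) (by norm_num)

end ctx

end Crest.Agent.R4P.BadB16
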