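import Crest.Agent.R4.Dse368
import Crest.Agent.R4P.Item758b

/-!
R4 (S0004), powers: port of helper368's `R4/Dse368` (helper22): the in-class errors `dseR` of the
closure, charged to items. `c` = the factor `NS.c` of the node.
-/

set_option autoImplicit false
set_option linter.unusedSectionVars false
set_option linter.unusedVariables false
open MeasureTheory Filter

namespace Crest.Agent.R4P.Dse22

open Crest.Agent.R4.Tour104 Crest.Agent.R4.Tour758 Crest.Agent.R4.Avg758 Crest.Agent.R4.Clos758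
open Crest.Agent.R4.ClosL758 Crest.Agent.R4.ClosG758 Crest.Agent.R4.ClosR758
open Crest.Agent.R4.Fam464 Crest.Agent.R4P.Cnt588 Crest.Agent.R4P.Item758
open Crest.Agent.R4.Dse368 (locD dseR_br dseR_add)

section
variable {Λ κ : Type*} [Fintype Λ] [DecidableEq Λ] [Fintype κ] [DecidableEq κ]

/-- charges summed along the path of an item -/
noncomputable def chE (it : Λ → ℕ) (e : Bld532.NS → IT → Λ → ℝ) : Bld532.NS → IT → Λ → ℝ
  | _, .leaf _, _ => 0
  | s, .br p Sp t₁ t₀, j => e s (.br p Sp t₁ t₀) j +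
      if it j ∈ t₀.items then chE it e ⟨p, s.c * p, s.A, s.B * p⟩ t₀ j
      else chE it e ⟨p, s.c / (1 - 1 / (p : ℝ)), s.A * p, s.B⟩ t₁ j
  | s, .add b t₁ t₀, j => e s (.add b t₁ t₀) j +
      if it j ∈ t₀.items then chE it e ⟨b + 1, s.c, s.A, s.B⟩ t₀ j
      else chE it e ⟨b + 1, s.c, s.A, s.B⟩ t₁ j
  | s, .up b _ t, j => chE it e ⟨b, s.c, s.A, s.B⟩ t j
  | s, .pl p t, j => e s (.pl p t) j + chE it e ⟨p + 1, s.c, s.A * p, s.B⟩ t j
  | s, .far b t₁ t₀, j => e s (.far b t₁ t₀) j +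
      if it j ∈ t₀.items then chE it e ⟨b + 1, s.c, s.A, s.B⟩ t₀ j
      else chE it e ⟨b + 1, s.c, s.A, s.B⟩ t₁ j

/-- the sum over the items of a node splits into the two children -/
lemma sum_children (D : Item758.Par Λ κ) {A : Finset Λ} {S₁ S₀ : Finset ℕ} (hd : Disjoint S₁ S₀)
    (F₁ F₀ : Λ → ℝ) :
    ∑ j ∈ A.filter (fun j => D.it j ∈ S₁ ∪ S₀), (if D.it j ∈ S₀ then F₀ j else F₁ j) =
      ∑ j ∈ A.filter (fun j => D.it j ∈ S₁), F₁ j + ∑ j ∈ A.filter (fun j => D.it j ∈ S₀), F₀ j := by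
  have e : A.filter (fun j => D.it j ∈ S₁ ∪ S₀) =
      A.filter (fun j => D.it j ∈ S₁) ∪ A.filter (fun j => D.it j ∈ S₀) := by
    ext j
    simp only [Finset.mem_filter, Finset.mem_union]
    tauto
  rw [e, Finset.sum_union]
  · congr 1
    · refine Finset.sum_congr rfl fun j hj => ?_
      rw [if_neg (Finset.disjoint_left.1 hd (Finset.mem_filter.1 hj).2)]
    · refine Finset.sum_congr rfl fun j hj => ?_
      rw [if_pos (Finset.mem_filter.1 hj).2]
  · rw [Finset.disjoint_filter]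
    intro j _ h1 h2
    exact Finset.disjoint_left.1 hd h1 h2

/-- the local hypothesis: the local term is charged to the items of the population -/
def LocOk (D : Item758.Par Λ κ) (W : Λ → ℝ) (A : Finset Λ) (e : Bld532.NS → IT → Λ → ℝ)
    (s : Bld532.NS) (t : IT) : Prop :=
  locD A (D.toG s.B s.A t) ≤
    s.c * ∑ j ∈ A.filter (fun j => D.it j ∈ t.items), W j * e s t j

lemma e_two (D : Item758.Par Λ κ) {W : Λ → ℝ} {A : Finset Λ} {S₁ S₀ : Finset ℕ}
    (hd : Disjoint S₁ S₀) (c : ℝ) (f F₁ F₀ : Λ → ℝ) :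
    c * ∑ j ∈ A.filter (fun j => D.it j ∈ S₁ ∪ S₀), W j * (f j + if D.it j ∈ S₀ then F₀ j else F₁ j) =
      c * ∑ j ∈ A.filter (fun j => D.it j ∈ S₁ ∪ S₀), W j * f j +
      (c * ∑ j ∈ A.filter (fun j => D.it j ∈ S₁), W j * F₁ j +
        c * ∑ j ∈ A.filter (fun j => D.it j ∈ S₀), W j * F₀ j) := by
  rw [← mul_add, ← mul_add, ← sum_children D hd, ← Finset.sum_add_distrib]
  congr 1
  refine Finset.sum_congr rfl fun j _ => ?_
  split_ifs <;> ring

/-- **`dseR` charged to items**: raw masses of items are exactly preserved along the tree. -/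
theorem dse_items (D : Item758.Par Λ κ) {W : Λ → ℝ} {A : Finset Λ}
    {e : Bld532.NS → IT → Λ → ℝ} (t : IT) : ∀ s : Bld532.NS, Fit s.B s.A t →
    Bld532.All (LocOk D W A e) s t →
    dseR A (D.toG s.B s.A t) ≤
      s.c * ∑ j ∈ A.filter (fun j => D.it j ∈ t.items), W j * chE D.it e s t j := by
  induction t with
  | leaf S =>
    intro s hF h
    show (0 : ℝ) ≤ _
    refine le_of_eq ?_
    symm
    have : ∀ j ∈ A.filter (fun j => D.it j ∈ (IT.leaf S).items),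
        W j * chE D.it e s (.leaf S) j = 0 := fun j _ => by
      show W j * 0 = 0
      ring
    rw [Finset.sum_eq_zero this, mul_zero]
  | br p Sp t₁ t₀ ih₁ ih₀ =>
    intro s hF h
    obtain ⟨hp, hpb, hd, h1, h0⟩ := hF
    have hl : locD A (D.toG s.B s.A (.br p Sp t₁ t₀)) ≤
      s.c * ∑ j ∈ A.filter (fun j => D.it j ∈ t₁.items ∪ t₀.items),
        W j * e s (.br p Sp t₁ t₀) j := h.1
    have i1 := ih₁ ⟨p, s.c / (1 - 1 / (p : ℝ)), s.A * p, s.B⟩ h1 h.2.1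
    have i0 := ih₀ ⟨p, s.c * p, s.A, s.B * p⟩ h0 h.2.2
    have hw1 : 0 ≤ 1 - 1 / (p : ℝ) := one_sub_inv_nonneg p
    have hw0 : 0 ≤ 1 / (p : ℝ) := by positivity
    have e1 := mul_le_mul_of_nonneg_left i1 hw1
    have e0 := mul_le_mul_of_nonneg_left i0 hw0
    simp only at e1 e0
    rw [← mul_assoc, cf_present' hp] at e1
    rw [← mul_assoc, cf_missing' hp] at e0
    have e2 : dseR A (D.toG s.B s.A (.br p Sp t₁ t₀)) = locD A (D.toG s.B s.A (.br p Sp t₁ t₀)) +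
        ((1 - 1 / (p : ℝ)) * dseR A (D.toG s.B (s.A * p) t₁) +
          1 / (p : ℝ) * dseR A (D.toG (s.B * p) s.A t₀)) := dseR_br A _ _ _ _ _ _ _ _
    rw [e2]
    have e3 := e_two D (W := W) (A := A) hd s.c (fun j => e s (.br p Sp t₁ t₀) j)
      (fun j => chE D.it e ⟨p, s.c / (1 - 1 / (p : ℝ)), s.A * p, s.B⟩ t₁ j)
      (fun j => chE D.it e ⟨p, s.c * p, s.A, s.B * p⟩ t₀ j)
    show _ ≤ s.c * ∑ j ∈ A.filter (fun j => D.it j ∈ t₁.items ∪ t₀.items),
      W j * (e s (.br p Sp t₁ t₀) j + if D.it j ∈ t₀.items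
        then chE D.it e ⟨p, s.c * p, s.A, s.B * p⟩ t₀ j
        else chE D.it e ⟨p, s.c / (1 - 1 / (p : ℝ)), s.A * p, s.B⟩ t₁ j)
    rw [e3]
    linarith
  | add b t₁ t₀ ih₁ ih₀ =>
    intro s hF h
    obtain ⟨hd, h1, h0⟩ := hF
    have hl : locD A (D.toG s.B s.A (.add b t₁ t₀)) ≤
      s.c * ∑ j ∈ A.filter (fun j => D.it j ∈ t₁.items ∪ t₀.items),
        W j * e s (.add b t₁ t₀) j := h.1
    have i1 := ih₁ ⟨b + 1, s.c, s.A, s.B⟩ h1 h.2.1
    have i0 := ih₀ ⟨b + 1, s.c, s.A, s.B⟩ h0 h.2.2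
    simp only at i1 i0
    have e2 : dseR A (D.toG s.B s.A (.add b t₁ t₀)) = locD A (D.toG s.B s.A (.add b t₁ t₀)) +
        (dseR A (D.toG s.B s.A t₁) + dseR A (D.toG s.B s.A t₀)) := dseR_add A _ _ _
    rw [e2]
    have e3 := e_two D (W := W) (A := A) hd s.c (fun j => e s (.add b t₁ t₀) j)
      (fun j => chE D.it e ⟨b + 1, s.c, s.A, s.B⟩ t₁ j)
      (fun j => chE D.it e ⟨b + 1, s.c, s.A, s.B⟩ t₀ j)
    show _ ≤ s.c * ∑ j ∈ A.filter (fun j => D.it j ∈ t₁.items ∪ t₀.items),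
      W j * (e s (.add b t₁ t₀) j + if D.it j ∈ t₀.items
        then chE D.it e ⟨b + 1, s.c, s.A, s.B⟩ t₀ j
        else chE D.it e ⟨b + 1, s.c, s.A, s.B⟩ t₁ j)
    rw [e3]
    linarith
  | up b Sp t ih =>
    intro s hF h
    exact ih ⟨b, s.c, s.A, s.B⟩ hF h.2
  | pl p t ih =>
    intro s hF h
    obtain ⟨hp, hpb, h1⟩ := hF
    have hl : locD A (D.toG s.B s.A (.pl p t)) ≤
      s.c * ∑ j ∈ A.filter (fun j => D.it j ∈ t.items), W j * e s (.pl p t) j := h.1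
    have i1 := ih ⟨p + 1, s.c, s.A * p, s.B⟩ h1 h.2
    simp only at i1
    have e2 : dseR A (D.toG s.B s.A (.pl p t)) = locD A (D.toG s.B s.A (.pl p t)) +
        ((1 - (0 : ℝ)) * dseR A (D.toG s.B (s.A * p) t) + 0 * dseR A
          (TrG.leaf (D.rho p) fun _ _ => 0)) := dseR_br A _ _ _ _ _ _ _ _
    rw [e2]
    show _ ≤ s.c * ∑ j ∈ A.filter (fun j => D.it j ∈ t.items),
      W j * (e s (.pl p t) j + chE D.it e ⟨p + 1, s.c, s.A * p, s.B⟩ t j)
    have e3 : s.c * ∑ j ∈ A.filter (fun j => D.it j ∈ t.items),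
        W j * (e s (.pl p t) j + chE D.it e ⟨p + 1, s.c, s.A * p, s.B⟩ t j) =
        s.c * ∑ j ∈ A.filter (fun j => D.it j ∈ t.items), W j * e s (.pl p t) j +
        s.c * ∑ j ∈ A.filter (fun j => D.it j ∈ t.items),
          W j * chE D.it e ⟨p + 1, s.c, s.A * p, s.B⟩ t j := by
      rw [← mul_add, ← Finset.sum_add_distrib]
      congr 1
      exact Finset.sum_congr rfl fun j _ => by ring
    rw [e3]
    linarith
  | far b t₁ t₀ ih₁ ih₀ =>
    intro s hF h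
    obtain ⟨hd, h1, h0⟩ := hF
    have hl : locD A (D.toG s.B s.A (.far b t₁ t₀)) ≤
      s.c * ∑ j ∈ A.filter (fun j => D.it j ∈ t₁.items ∪ t₀.items),
        W j * e s (.far b t₁ t₀) j := h.1
    have i1 := ih₁ ⟨b + 1, s.c, s.A, s.B⟩ h1 h.2.1
    have i0 := ih₀ ⟨b + 1, s.c, s.A, s.B⟩ h0 h.2.2
    simp only at i1 i0
    have e2 : dseR A (D.toG s.B s.A (.far b t₁ t₀)) = locD A (D.toG s.B s.A (.far b t₁ t₀)) +
        (dseR A (D.toG s.B s.A t₁) + dseR A (D.toG s.B s.A t₀)) := dseR_add A _ _ _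
    rw [e2]
    have e3 := e_two D (W := W) (A := A) hd s.c (fun j => e s (.far b t₁ t₀) j)
      (fun j => chE D.it e ⟨b + 1, s.c, s.A, s.B⟩ t₁ j)
      (fun j => chE D.it e ⟨b + 1, s.c, s.A, s.B⟩ t₀ j)
    show _ ≤ s.c * ∑ j ∈ A.filter (fun j => D.it j ∈ t₁.items ∪ t₀.items),
      W j * (e s (.far b t₁ t₀) j + if D.it j ∈ t₀.items
        then chE D.it e ⟨b + 1, s.c, s.A, s.B⟩ t₀ j
        else chE D.it e ⟨b + 1, s.c, s.A, s.B⟩ t₁ j)
    rw [e3]
    linarith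

/-- **`dseR ≤ η · mass`** if the total charge of every item is at most `η` -/
theorem dse_le (D : Item758.Par Λ κ) {W : Λ → ℝ} (hW : ∀ j, 0 ≤ W j) {A : Finset Λ}
    {e : Bld532.NS → IT → Λ → ℝ} {t : IT} {s : Bld532.NS} (hc : 0 ≤ s.c) (hF : Fit s.B s.A t)
    (h : Bld532.All (LocOk D W A e) s t) {η : ℝ}
    (he : ∀ j ∈ A, D.it j ∈ t.items → chE D.it e s t j ≤ η) :
    dseR A (D.toG s.B s.A t) ≤ η * (s.c * D.rw W t.items A) := by
  refine (dse_items D t s hF h).trans ?_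
  unfold Par.rw
  have h1 : ∑ j ∈ A.filter (fun j => D.it j ∈ t.items), W j * chE D.it e s t j ≤
      ∑ j ∈ A.filter (fun j => D.it j ∈ t.items), η * W j := by
    refine Finset.sum_le_sum fun j hj => ?_
    obtain ⟨a, b⟩ := Finset.mem_filter.1 hj
    rw [mul_comm η]
    exact mul_le_mul_of_nonneg_left (he j a b) (hW j)
  rw [← Finset.mul_sum] at h1
  calc _ ≤ s.c * (η * ∑ j ∈ A.filter (fun j => D.it j ∈ t.items), W j) :=
        mul_le_mul_of_nonneg_left h1 hc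
    _ = _ := by ring

end

end Crest.Agent.R4P.Dse22
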