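import Crest.Agent.R4P.RseP_23
import Crest.Agent.R4P.Dse_22

/-!
R4 (S0004), powers pass, helper23 ([W-dseR], D5): **the local terms of `dseR`, child by child**.

* `hd t`, `hu u t` : the first node of a child which is not an `up` node, and its data;
* `ChE X Y A p u τ` : the energy of the pairs of pieces of the child `(u, τ)` which are in one world at
  the column `p` but not in one class of the child;
* `LocD_of` : bounds of `ChE` at all the children (and of the cross terms of the add nodes) give `LocOk`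
  at all the nodes.
-/

set_option autoImplicit false
set_option linter.unusedSectionVars false
set_option linter.unusedVariables false

open MeasureTheory Filter

namespace Crest.Agent.R4P.DseCh23

open Crest.Agent.R4P.Cnt588 Crest.Agent.R4P.Item758 Crest.Agent.R4P.W363
open Crest.Agent.R4P.Data758
open Crest.Agent.R4P.Bld532 (NS All NodeOk Bk)
open Crest.Agent.R4P.Step588 (NDt ND1 ctx_NDt uq_lt)
open Crest.Agent.R4P.WalkIT579 (tp isL nodeOk_hi top_of_nodeOk)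
open Crest.Agent.R4P.Skel189 Crest.Agent.R4P.RseSt23 Crest.Agent.R4P.RseNd23
open Crest.Agent.R4P.AvgItem710
open Crest.Agent.R4.ClosL758 Crest.Agent.R4.ClosR758 Crest.Agent.R4.Tour104 Crest.Agent.R4.Fam464
open Crest.Agent.R4.Tour758 Crest.Agent.R4.Avg758 Crest.Agent.R4.ClosG758
open Crest.Agent.R4P.Frame758
open Crest.Agent.R4.Soft104 (w)
open Crest.Agent.R4.Dse368 (locD)
open Crest.Agent.R4P.Dse22 (LocOk chE dse_le)
open Crest.Agent.R4.Item758 (IL AdS AdI)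
open Crest.Agent.R4

/-! ### the head of a child -/

/-- the first node which is not an `up` node -/
def hd : IT → IT
  | .up _ _ t => hd t
  | t => t

/-- the data of the head -/
def hu : NS → IT → NS
  | u, .up b _ t => hu ⟨b, u.c, u.A, u.B⟩ t
  | u, _ => u

lemma hu_c (t : IT) : ∀ u : NS, (hu u t).c = u.c := by
  induction t with
  | up b S t ih => intro u; exact ih _
  | _ => intro u; rfl

lemma hu_A (t : IT) : ∀ u : NS, (hu u t).A = u.A := by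
  induction t with
  | up b S t ih => intro u; exact ih _
  | _ => intro u; rfl

lemma hu_B (t : IT) : ∀ u : NS, (hu u t).B = u.B := by
  induction t with
  | up b S t ih => intro u; exact ih _
  | _ => intro u; rfl

lemma hu_n {Q : NS → IT → Prop} {P : Bld532.Par} {W : ℕ → ℝ} (hQ : ∀ u t, Q u t → NodeOk P W u t)
    (t : IT) : ∀ u : NS, All Q u t → (hu u t).n ≤ u.n := by
  induction t with
  | up b S t ih =>
    intro u h
    exact (ih _ h.2).trans (hQ _ _ h.1).2.1.le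
  | _ => intro u h; exact le_rfl

lemma hd_items (t : IT) : (hd t).items = t.items := by
  induction t with
  | up b S t ih => exact ih
  | _ => rfl

lemma hd_notUp (t : IT) : notUp (hd t) := by
  induction t with
  | up b S t ih => exact ih
  | _ => trivial

lemma All_hd {Q : NS → IT → Prop} (t : IT) : ∀ u : NS, All Q u t → All Q (hu u t) (hd t) := by
  induction t with
  | up b S t ih => intro u h; exact ih _ h.2
  | _ => intro u h; exact h

section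
variable {Λ κ : Type*} [Fintype Λ] [DecidableEq Λ] [Fintype κ] [DecidableEq κ]

lemma toG_hd (D : Item758.Par Λ κ) (b pr : ℕ) (t : IT) : D.toG b pr (hd t) = D.toG b pr t := by
  induction t with
  | up b S t ih => exact ih
  | _ => rfl

end

/-! ### the energy of a child -/

section ctx
variable {N : Skel189.Num} {γ : ℝ} {p0 P₀ : ℕ}

/-- the pairs of one world at `p` which are not in one class of the child -/
noncomputable def RC (X : Ctx N γ p0 P₀) (Y : Finset (ℕ × ℕ × Finset ℕ)) (p : ℕ) (u : NS) (τ : IT) :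
    Finset (X.c.Lam × X.c.Lam) :=
  Dr ((X.c.D.par Y).rho p) \ Dr ((X.c.D.par Y).toG u.B u.A τ).part

/-- **the energy of the child** `(u, τ)` of a node with column `p` -/
noncomputable def ChE (X : Ctx N γ p0 P₀) (Y : Finset (ℕ × ℕ × Finset ℕ)) (A : Finset X.c.Lam)
    (p : ℕ) (u : NS) (τ : IT) : ℝ :=
  Q (RC X Y p u τ) (Uv X Y u τ A) (Uv X Y u τ A)

/-- the cross term of an add node -/
noncomputable def CrE (X : Ctx N γ p0 P₀) (Y : Finset (ℕ × ℕ × Finset ℕ)) (A : Finset X.c.Lam)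
    (b : ℕ) (u : NS) (t₁ t₀ : IT) : ℝ :=
  2 * Q (Dr ((X.c.D.par Y).rho b)) (Uv X Y u t₁ A) (Uv X Y u t₀ A)

lemma ChE_eq {X : Ctx N γ p0 P₀} {Y : Finset (ℕ × ℕ × Finset ℕ)} {u : NS} {t : IT}
    (h : NDt X.par (w X.ψ) X.c.t u t) (A : Finset X.c.Lam) (p : ℕ) :
    ic ((X.c.D.par Y).rho p) ((X.c.D.par Y).toG u.B u.A t).part
      (rv A ((X.c.D.par Y).toG u.B u.A t).val) = ChE X Y A p u t := by
  have hv : ((X.c.D.par Y).toG u.B u.A t).val =
      fun j => ((X.c.D.par Y).toFT u.B u.A t).U 1 j :=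
    Par.toG_val _ h.B_pos h.fit (node_wts h Y)
  unfold ChE ic RC Uv
  rw [hv]

lemma toFT_hd (X : Ctx N γ p0 P₀) (Y : Finset (ℕ × ℕ × Finset ℕ)) (b pr : ℕ) (t : IT) :
    (X.c.D.par Y).toFT b pr (hd t) = (X.c.D.par Y).toFT b pr t := by
  induction t with
  | up b S t ih => exact ih
  | _ => rfl

lemma ChE_hd (X : Ctx N γ p0 P₀) (Y : Finset (ℕ × ℕ × Finset ℕ)) (A : Finset X.c.Lam) (p : ℕ)
    (u : NS) (t : IT) : ChE X Y A p (hu u t) (hd t) = ChE X Y A p u t := by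
  unfold ChE RC Uv
  rw [hu_A, hu_B, toG_hd, toFT_hd]

/-- the local charge of a node: `ε p u τ j` = charge of the child `(u, τ)` of a node with column `p`,
`ζ b u t₁ t₀ j` = charge of the cross term of an add node -/
noncomputable def eC (X : Ctx N γ p0 P₀) (ε : ℕ → NS → IT → X.c.Lam → ℝ)
    (ζ : ℕ → NS → IT → IT → X.c.Lam → ℝ) : NS → IT → X.c.Lam → ℝ
  | _, .leaf _, _ => 0
  | u, .br p _ t₁ t₀, j =>
      if j.1.1 ∈ t₀.items then
        ε p (hu ⟨p, u.c * p, u.A, u.B * p⟩ t₀) (hd t₀) j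
      else ε p (hu ⟨p, u.c / (1 - 1 / (p : ℝ)), u.A * p, u.B⟩ t₁) (hd t₁) j
  | u, .add b t₁ t₀, j => ζ b u t₁ t₀ j +
      if j.1.1 ∈ t₀.items then ε b (hu ⟨b + 1, u.c, u.A, u.B⟩ t₀) (hd t₀) j
      else ε b (hu ⟨b + 1, u.c, u.A, u.B⟩ t₁) (hd t₁) j
  | u, .up b _ t, j => eC X ε ζ ⟨b, u.c, u.A, u.B⟩ t j
  | u, .pl b t, j => ε b (hu ⟨b + 1, u.c, u.A * b, u.B⟩ t) (hd t) j
  | u, .far b t₁ t₀, j => ζ b u t₁ t₀ j +
      if j.1.1 ∈ t₀.items then ε b (hu ⟨b + 1, u.c, u.A, u.B⟩ t₀) (hd t₀) j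
      else ε b (hu ⟨b + 1, u.c, u.A, u.B⟩ t₁) (hd t₁) j

/-- the bound of a child -/
def ChOk (X : Ctx N γ p0 P₀) (Y : Finset (ℕ × ℕ × Finset ℕ)) (A : Finset X.c.Lam) (W : X.c.Lam → ℝ)
    (ε : ℕ → NS → IT → X.c.Lam → ℝ) (p : ℕ) (u : NS) (τ : IT) : Prop :=
  ChE X Y A p u τ ≤ u.c * ∑ j ∈ A.filter (fun j => X.c.D.it j ∈ τ.items), W j * ε p u τ j

/-- the bound of a cross term -/
def CrOk (X : Ctx N γ p0 P₀) (Y : Finset (ℕ × ℕ × Finset ℕ)) (A : Finset X.c.Lam) (W : X.c.Lam → ℝ)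
    (ζ : ℕ → NS → IT → IT → X.c.Lam → ℝ) (b : ℕ) (u : NS) (t₁ t₀ : IT) : Prop :=
  CrE X Y A b u t₁ t₀ ≤
    u.c * ∑ j ∈ A.filter (fun j => X.c.D.it j ∈ t₁.items ∪ t₀.items), W j * ζ b u t₁ t₀ j

/-- the bounds of the children of a node -/
def KidsOk (X : Ctx N γ p0 P₀) (Y : Finset (ℕ × ℕ × Finset ℕ)) (A : Finset X.c.Lam) (W : X.c.Lam → ℝ)
    (ε : ℕ → NS → IT → X.c.Lam → ℝ) (ζ : ℕ → NS → IT → IT → X.c.Lam → ℝ) : NS → IT → Prop
  | _, .leaf _ => True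
  | u, .br p _ t₁ t₀ =>
      ChOk X Y A W ε p (hu ⟨p, u.c / (1 - 1 / (p : ℝ)), u.A * p, u.B⟩ t₁) (hd t₁) ∧
      ChOk X Y A W ε p (hu ⟨p, u.c * p, u.A, u.B * p⟩ t₀) (hd t₀)
  | u, .add b t₁ t₀ =>
      ChOk X Y A W ε b (hu ⟨b + 1, u.c, u.A, u.B⟩ t₁) (hd t₁) ∧
      ChOk X Y A W ε b (hu ⟨b + 1, u.c, u.A, u.B⟩ t₀) (hd t₀) ∧ CrOk X Y A W ζ b u t₁ t₀
  | _, .up _ _ _ => True
  | u, .pl b t => ChOk X Y A W ε b (hu ⟨b + 1, u.c, u.A * b, u.B⟩ t) (hd t)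
  | u, .far b t₁ t₀ =>
      ChOk X Y A W ε b (hu ⟨b + 1, u.c, u.A, u.B⟩ t₁) (hd t₁) ∧
      ChOk X Y A W ε b (hu ⟨b + 1, u.c, u.A, u.B⟩ t₀) (hd t₀) ∧ CrOk X Y A W ζ b u t₁ t₀

/-- sum over two children with different charges -/
lemma sum_two (X : Ctx N γ p0 P₀) {A : Finset X.c.Lam} {S₁ S₀ : Finset ℕ} (hd : Disjoint S₁ S₀)
    (W f₁ f₀ : X.c.Lam → ℝ) :
    ∑ j ∈ A.filter (fun j => X.c.D.it j ∈ S₁ ∪ S₀), W j * (if j.1.1 ∈ S₀ then f₀ j else f₁ j) =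
      ∑ j ∈ A.filter (fun j => X.c.D.it j ∈ S₁), W j * f₁ j +
      ∑ j ∈ A.filter (fun j => X.c.D.it j ∈ S₀), W j * f₀ j := by
  classical
  have e : A.filter (fun j => X.c.D.it j ∈ S₁ ∪ S₀) =
      A.filter (fun j => X.c.D.it j ∈ S₁) ∪ A.filter (fun j => X.c.D.it j ∈ S₀) := by
    ext j
    simp only [Finset.mem_filter, Finset.mem_union]
    tauto
  rw [e, Finset.sum_union]
  · congr 1
    · refine Finset.sum_congr rfl fun j hj => ?_
      have h1 : j.1.1 ∈ S₁ := (Finset.mem_filter.1 hj).2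
      rw [if_neg (Finset.disjoint_left.1 hd h1)]
    · refine Finset.sum_congr rfl fun j hj => ?_
      have h1 : j.1.1 ∈ S₀ := (Finset.mem_filter.1 hj).2
      rw [if_pos h1]
  · rw [Finset.disjoint_filter]
    intro j _ h1 h2
    exact Finset.disjoint_left.1 hd h1 h2

/-- **the local terms from the bounds of the children** -/
theorem LocD_of {X : Ctx N γ p0 P₀} {Y : Finset (ℕ × ℕ × Finset ℕ)} {A : Finset X.c.Lam}
    {W : X.c.Lam → ℝ} {ε : ℕ → NS → IT → X.c.Lam → ℝ} {ζ : ℕ → NS → IT → IT → X.c.Lam → ℝ}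
    (t : IT) : ∀ u : NS, All (NDt X.par (w X.ψ) X.c.t) u t → All (KidsOk X Y A W ε ζ) u t →
      All (LocOk (X.c.D.par Y) W A (eC X ε ζ)) u t := by
  have hc : ∀ (u : NS) (t' : IT) (h : NDt X.par (w X.ψ) X.c.t u t') (p : ℕ)
      (k : ChOk X Y A W ε p (hu u t') (hd t')),
      ic ((X.c.D.par Y).rho p) ((X.c.D.par Y).toG u.B u.A t').part
        (rv A ((X.c.D.par Y).toG u.B u.A t').val) ≤
      u.c * ∑ j ∈ A.filter (fun j => X.c.D.it j ∈ t'.items), W j * ε p (hu u t') (hd t') j := by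
    intro u t' h p k
    rw [ChE_eq h, ← ChE_hd]
    unfold ChOk at k
    rw [hu_c, hd_items] at k
    exact k
  induction t with
  | leaf S =>
    intro u _ _
    show (0 : ℝ) ≤ u.c * ∑ j ∈ A.filter (fun j => (X.c.D.par Y).it j ∈ (IT.leaf S).items),
      W j * eC X ε ζ u (.leaf S) j
    refine le_of_eq ?_
    symm
    have : ∀ j ∈ A.filter (fun j => (X.c.D.par Y).it j ∈ (IT.leaf S).items),
        W j * eC X ε ζ u (.leaf S) j = 0 := fun j _ => by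
      show W j * 0 = 0
      ring
    rw [Finset.sum_eq_zero this, mul_zero]
  | br p Sp t₁ t₀ ih₁ ih₀ =>
    intro u hN hK
    refine ⟨?_, ih₁ _ hN.2.1 hK.2.1, ih₀ _ hN.2.2 hK.2.2⟩
    obtain ⟨hp, hpb, hdj, -, -⟩ := hN.1.fit
    have n1 := hN.2.1.self
    have n0 := hN.2.2.self
    have k1 := hc _ t₁ n1 p hK.1.1
    have k0 := hc _ t₀ n0 p hK.1.2
    have hw1 : 0 ≤ 1 - 1 / (p : ℝ) := one_sub_inv_nonneg p
    have hw0 : 0 ≤ 1 / (p : ℝ) := by positivity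
    have e1 := mul_le_mul_of_nonneg_left k1 hw1
    have e0 := mul_le_mul_of_nonneg_left k0 hw0
    simp only at e1 e0
    rw [← mul_assoc, cf_present' hp] at e1
    rw [← mul_assoc, cf_missing' hp] at e0
    have e2 : locD A ((X.c.D.par Y).toG u.B u.A (.br p Sp t₁ t₀)) =
      (1 - 1 / (p : ℝ)) * ic ((X.c.D.par Y).rho p) ((X.c.D.par Y).toG u.B (u.A * p) t₁).part
        (rv A ((X.c.D.par Y).toG u.B (u.A * p) t₁).val) +
      1 / (p : ℝ) * ic ((X.c.D.par Y).rho p) ((X.c.D.par Y).toG (u.B * p) u.A t₀).part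
        (rv A ((X.c.D.par Y).toG (u.B * p) u.A t₀).val) := rfl
    show locD A ((X.c.D.par Y).toG u.B u.A (.br p Sp t₁ t₀)) ≤
      u.c * ∑ j ∈ A.filter (fun j => X.c.D.it j ∈ t₁.items ∪ t₀.items), W j *
        (if j.1.1 ∈ t₀.items then
          ε p (hu ⟨p, u.c * p, u.A, u.B * p⟩ t₀) (hd t₀) j
        else ε p (hu ⟨p, u.c / (1 - 1 / (p : ℝ)), u.A * p, u.B⟩ t₁) (hd t₁) j)
    rw [e2, sum_two X hdj, mul_add]
    exact add_le_add e1 e0
  | add b t₁ t₀ ih₁ ih₀ =>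
    intro u hN hK
    refine ⟨?_, ih₁ _ hN.2.1 hK.2.1, ih₀ _ hN.2.2 hK.2.2⟩
    obtain ⟨hdj, -, -⟩ := hN.1.fit
    have n1 := hN.2.1.self
    have n0 := hN.2.2.self
    have k1 := hc _ t₁ n1 b hK.1.1
    have k0 := hc _ t₀ n0 b hK.1.2.1
    have k2 := hK.1.2.2
    unfold CrOk CrE Uv at k2
    simp only at k1 k0
    have v1 : ((X.c.D.par Y).toG u.B u.A t₁).val = fun j => ((X.c.D.par Y).toFT u.B u.A t₁).U 1 j :=
      Par.toG_val _ n1.B_pos n1.fit (node_wts n1 Y)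
    have v0 : ((X.c.D.par Y).toG u.B u.A t₀).val = fun j => ((X.c.D.par Y).toFT u.B u.A t₀).U 1 j :=
      Par.toG_val _ n0.B_pos n0.fit (node_wts n0 Y)
    rw [← v1, ← v0] at k2
    have e2 : locD A ((X.c.D.par Y).toG u.B u.A (.add b t₁ t₀)) =
      ic ((X.c.D.par Y).rho b) ((X.c.D.par Y).toG u.B u.A t₁).part
        (rv A ((X.c.D.par Y).toG u.B u.A t₁).val) +
      ic ((X.c.D.par Y).rho b) ((X.c.D.par Y).toG u.B u.A t₀).part
        (rv A ((X.c.D.par Y).toG u.B u.A t₀).val) +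
      2 * Q (Dr ((X.c.D.par Y).rho b)) (rv A ((X.c.D.par Y).toG u.B u.A t₁).val)
        (rv A ((X.c.D.par Y).toG u.B u.A t₀).val) := rfl
    show locD A ((X.c.D.par Y).toG u.B u.A (.add b t₁ t₀)) ≤
      u.c * ∑ j ∈ A.filter (fun j => X.c.D.it j ∈ t₁.items ∪ t₀.items), W j *
        (ζ b u t₁ t₀ j + if j.1.1 ∈ t₀.items then
          ε b (hu ⟨b + 1, u.c, u.A, u.B⟩ t₀) (hd t₀) j
        else ε b (hu ⟨b + 1, u.c, u.A, u.B⟩ t₁) (hd t₁) j)
    have e3 : ∀ j : X.c.Lam, W j * (ζ b u t₁ t₀ j + if j.1.1 ∈ t₀.items then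
          ε b (hu ⟨b + 1, u.c, u.A, u.B⟩ t₀) (hd t₀) j
        else ε b (hu ⟨b + 1, u.c, u.A, u.B⟩ t₁) (hd t₁) j) =
        W j * ζ b u t₁ t₀ j + W j * (if j.1.1 ∈ t₀.items then
          ε b (hu ⟨b + 1, u.c, u.A, u.B⟩ t₀) (hd t₀) j
        else ε b (hu ⟨b + 1, u.c, u.A, u.B⟩ t₁) (hd t₁) j) := fun j => mul_add _ _ _
    rw [e2, Finset.sum_congr rfl fun j _ => e3 j, Finset.sum_add_distrib, sum_two X hdj]
    linarith
  | up b Sp t ih =>
    intro u hN hK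
    have h1 := ih _ hN.2 hK.2
    refine ⟨?_, h1⟩
    exact h1.self
  | pl b t ih =>
    intro u hN hK
    refine ⟨?_, ih _ hN.2 hK.2⟩
    have n1 := hN.2.self
    have k1 := hc _ t n1 b hK.1
    simp only at k1
    have e2 : locD A ((X.c.D.par Y).toG u.B u.A (.pl b t)) =
      (1 - (0 : ℝ)) * ic ((X.c.D.par Y).rho b) ((X.c.D.par Y).toG u.B (u.A * b) t).part
        (rv A ((X.c.D.par Y).toG u.B (u.A * b) t).val) +
      0 * ic ((X.c.D.par Y).rho b) (TrG.leaf ((X.c.D.par Y).rho b) fun _ _ => (0 : ℝ)).part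
        (rv A (TrG.leaf ((X.c.D.par Y).rho b) fun _ _ => (0 : ℝ)).val) := rfl
    show locD A ((X.c.D.par Y).toG u.B u.A (.pl b t)) ≤
      u.c * ∑ j ∈ A.filter (fun j => X.c.D.it j ∈ t.items), W j *
        ε b (hu ⟨b + 1, u.c, u.A * b, u.B⟩ t) (hd t) j
    rw [e2, sub_zero, one_mul, zero_mul, add_zero]
    exact k1
  | far b t₁ t₀ ih₁ ih₀ =>
    intro u hN hK
    refine ⟨?_, ih₁ _ hN.2.1 hK.2.1, ih₀ _ hN.2.2 hK.2.2⟩
    obtain ⟨hdj, -, -⟩ := hN.1.fit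
    have n1 := hN.2.1.self
    have n0 := hN.2.2.self
    have k1 := hc _ t₁ n1 b hK.1.1
    have k0 := hc _ t₀ n0 b hK.1.2.1
    have k2 := hK.1.2.2
    unfold CrOk CrE Uv at k2
    simp only at k1 k0
    have v1 : ((X.c.D.par Y).toG u.B u.A t₁).val = fun j => ((X.c.D.par Y).toFT u.B u.A t₁).U 1 j :=
      Par.toG_val _ n1.B_pos n1.fit (node_wts n1 Y)
    have v0 : ((X.c.D.par Y).toG u.B u.A t₀).val = fun j => ((X.c.D.par Y).toFT u.B u.A t₀).U 1 j :=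
      Par.toG_val _ n0.B_pos n0.fit (node_wts n0 Y)
    rw [← v1, ← v0] at k2
    have e2 : locD A ((X.c.D.par Y).toG u.B u.A (.far b t₁ t₀)) =
      ic ((X.c.D.par Y).rho b) ((X.c.D.par Y).toG u.B u.A t₁).part
        (rv A ((X.c.D.par Y).toG u.B u.A t₁).val) +
      ic ((X.c.D.par Y).rho b) ((X.c.D.par Y).toG u.B u.A t₀).part
        (rv A ((X.c.D.par Y).toG u.B u.A t₀).val) +
      2 * Q (Dr ((X.c.D.par Y).rho b)) (rv A ((X.c.D.par Y).toG u.B u.A t₁).val)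
        (rv A ((X.c.D.par Y).toG u.B u.A t₀).val) := rfl
    show locD A ((X.c.D.par Y).toG u.B u.A (.far b t₁ t₀)) ≤
      u.c * ∑ j ∈ A.filter (fun j => X.c.D.it j ∈ t₁.items ∪ t₀.items), W j *
        (ζ b u t₁ t₀ j + if j.1.1 ∈ t₀.items then
          ε b (hu ⟨b + 1, u.c, u.A, u.B⟩ t₀) (hd t₀) j
        else ε b (hu ⟨b + 1, u.c, u.A, u.B⟩ t₁) (hd t₁) j)
    have e3 : ∀ j : X.c.Lam, W j * (ζ b u t₁ t₀ j + if j.1.1 ∈ t₀.items then
          ε b (hu ⟨b + 1, u.c, u.A, u.B⟩ t₀) (hd t₀) j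
        else ε b (hu ⟨b + 1, u.c, u.A, u.B⟩ t₁) (hd t₁) j) =
        W j * ζ b u t₁ t₀ j + W j * (if j.1.1 ∈ t₀.items then
          ε b (hu ⟨b + 1, u.c, u.A, u.B⟩ t₀) (hd t₀) j
        else ε b (hu ⟨b + 1, u.c, u.A, u.B⟩ t₁) (hd t₁) j) := fun j => mul_add _ _ _
    rw [e2, Finset.sum_congr rfl fun j _ => e3 j, Finset.sum_add_distrib, sum_two X hdj]
    linarith

end ctx

end Crest.Agent.R4P.DseCh23
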