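import Crest.Agent.R4P.AddNode2_7
import Crest.Agent.R4P.AddUN_7
import Crest.Agent.R4P.AddPayN_7
import Crest.Agent.R4P.DseCh_23
import Crest.Agent.R4P.BadB_16

/-!
R4 (S0004), POWERS, module dseR (D4), helper7: **the payment of the cross term of an add node**.

* `zA X b u t₁ t₀ q` : charge of the item `q` at the add node;
* `cr_add` : `CrOk` at every add node, from bounds `K · mass` of the energies of the two children;
* `path_add` : the charges summed along the path of an item of `S'` are small.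
-/

set_option autoImplicit false
set_option linter.unusedSectionVars false
set_option linter.unusedVariables false

open MeasureTheory Filter

namespace Crest.Agent.R4P.AddPay7

open Crest.Agent.R4P.Cnt588 Crest.Agent.R4P.Item758 Crest.Agent.R4P.W363
open Crest.Agent.R4P.Data758 Crest.Agent.R4P.OmSt532 Crest.Agent.R4P.OmData532
open Crest.Agent.R4P.LfDat734 Crest.Agent.R4P.WPex189
open Crest.Agent.R4P.Bld532 (NS All NodeOk Bk plk dv nd)
open Crest.Agent.R4P.Step588 (NDt ND1 ctx_NDt uq_lt)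
open Crest.Agent.R4P.WalkIT579 (tp isL nodeOk_hi top_of_nodeOk)
open Crest.Agent.R4P.Skel189 Crest.Agent.R4P.RseSt23 Crest.Agent.R4P.RseNd23
open Crest.Agent.R4.Soft104 (w)
open Crest.Agent.R4.LF363 (Lab)
open Crest.Agent.R4P.AvgItem710
open Crest.Agent.R4.ClosL758 Crest.Agent.R4.ClosR758 Crest.Agent.R4.Tour104 Crest.Agent.R4.Fam464
open Crest.Agent.R4.Tour758 Crest.Agent.R4.Avg758
open Crest.Agent.R4P.Frame758
open Crest.Agent.R4.Item758 (IL AdS AdI)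
open Crest.Agent.R4P.AddNode7 Crest.Agent.R4P.DseCh23
open Crest.Agent.R4P.Dse22 (LocOk chE dse_le)
open Crest.Agent.R4P.PruneSep532
open Crest.Agent.R4P.PruneAcc17 (Bab)
open Crest.Agent.R4P.BadB16
open Crest.Agent.R4.ClsS (eps1)
open Crest.Agent.R4

section ctx
variable {N : Skel189.Num} {γ : ℝ} {p0 P₀ : ℕ}

/-- **weighted mass of the alive items of an item-level population** -/
theorem mass_alF {X : Ctx N γ p0 P₀} {u : NS} {τ : IT} (hc : 0 ≤ u.c) {A : Finset X.c.Lam}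
    (hA : IL X.c.D.it A) {f : ℕ → ℝ} (hf : ∀ q, 0 ≤ f q) :
    u.c * ∑ q ∈ al X τ A, w X.ψ q * f q ≤
      u.c * ∑ j ∈ A.filter (fun j => X.c.D.it j ∈ τ.items), Frame758.wt X.c.D j * f j.1.1 := by
  classical
  refine mul_le_mul_of_nonneg_left ?_ hc
  have hnn : ∀ j, 0 ≤ Frame758.wt X.c.D j * f j.1.1 := fun j => mul_nonneg (wt_nonneg X j) (hf _)
  have hmem : ∀ q ∈ al X τ A, q ∈ τ.items ∧ q ∈ X.S' ∧ ∃ j ∈ A, j.1.1 = q := fun q hq => by
    unfold al at hq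
    obtain ⟨a1, a2, a3⟩ := Finset.mem_filter.1 hq
    exact ⟨a1, a2, a3⟩
  have h1 : ∀ q ∈ al X τ A, w X.ψ q * f q =
      ∑ j ∈ Finset.univ.filter (fun j : X.c.Lam => j.1.1 = q), Frame758.wt X.c.D j * f j.1.1 := by
    intro q hq
    obtain ⟨a1, a2, a3⟩ := hmem q hq
    have hqS : q ∈ X.c.S := by rw [X.hS]; exact X.prn.sub a2
    have hlen := X.ok.len hqS (X.rpos a2)
    have e1 : ∑ j ∈ Finset.univ.filter (fun j : X.c.Lam => j.1.1 = q),
        Frame758.wt X.c.D j * f j.1.1 =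
        (∑ j ∈ Finset.univ.filter (fun j : X.c.Lam => j.1.1 = q), (X.c.D.be j - X.c.D.al j)) *
          (((q.totient : ℝ) / (q : ℝ)) * f q) := by
      rw [Finset.sum_mul]
      refine Finset.sum_congr rfl fun j hj => ?_
      have e := (Finset.mem_filter.1 hj).2
      unfold Frame758.wt
      have e' : X.c.D.it j = q := e
      rw [e', e]
      ring
    rw [e1, hlen, X.hr]
    unfold R4.Soft104.w
    ring
  rw [Finset.sum_congr rfl h1, ← Finset.sum_biUnion]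
  · refine Finset.sum_le_sum_of_subset_of_nonneg (fun j hj => ?_) fun j _ _ => hnn j
    obtain ⟨q, hq, hj⟩ := Finset.mem_biUnion.1 hj
    have e := (Finset.mem_filter.1 hj).2
    obtain ⟨a1, a2, j', hj', e'⟩ := hmem q hq
    refine Finset.mem_filter.2 ⟨(hA j j' (e.trans e'.symm)).2 hj', ?_⟩
    show j.1.1 ∈ τ.items
    rw [e]; exact a1
  · intro q _ r _ hne
    rw [Function.onFun, Finset.disjoint_left]
    intro j hj hj'
    exact hne ((Finset.mem_filter.1 hj).2.symm.trans (Finset.mem_filter.1 hj').2)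

/-- the two SEP functionals -/
noncomputable def sepC (X : Ctx N γ p0 P₀) (b : ℕ) (c : ℝ) (T T' : Finset ℕ) : ℝ :=
  betF (w X.ψ) (fun b => Real.log b ^ N.a) b c T T' +
    bnuF (w X.ψ) (fun b => Real.log b ^ (-N.a')) b c T T'

lemma sepC_nonneg (X : Ctx N γ p0 P₀) {b : ℕ} {c : ℝ} (hc : 0 < c) (T T' : Finset ℕ) :
    0 ≤ sepC X b c T T' :=
  add_nonneg (betF_nonneg X.hW (fun b => Real.rpow_nonneg (Real.log_natCast_nonneg b) _) b c T T' hc)
    (bnuF_nonneg X.hW (fun b => Real.rpow_nonneg (Real.log_natCast_nonneg b) _) b c T T' hc)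

open Classical in
/-- the charge of a bad prime -/
noncomputable def zB (X : Ctx N γ p0 P₀) (b : ℕ) (u : NS) (t₁ t₀ : IT) (q : ℕ) : ℝ :=
  if BadN X u (.add b t₁ t₀) b ∧ adj b t₁ t₀ q then 2 * (b:ℝ) ^ (-(1/7):ℝ) else 0

lemma zB_nonneg (X : Ctx N γ p0 P₀) (b : ℕ) (u : NS) (t₁ t₀ : IT) (q : ℕ) :
    0 ≤ zB X b u t₁ t₀ q := by
  unfold zB; split_ifs <;> positivity

open Classical in
/-- **the charge of an add node** -/
noncomputable def zA (X : Ctx N γ p0 P₀) (b : ℕ) (u : NS) (t₁ t₀ : IT) (q : ℕ) : ℝ :=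
  if q ∈ X.S' then (if q ∈ t₀.items then sepC X b u.c t₀.items t₁.items
    else sepC X b u.c t₁.items t₀.items) + zB X b u t₁ t₀ q else 0

lemma zA_nonneg (X : Ctx N γ p0 P₀) (b : ℕ) {u : NS} (hc : 0 < u.c) (t₁ t₀ : IT) (q : ℕ) :
    0 ≤ zA X b u t₁ t₀ q := by
  unfold zA
  split_ifs
  · exact add_nonneg (sepC_nonneg X hc _ _) (zB_nonneg _ _ _ _ _ _)
  · exact add_nonneg (sepC_nonneg X hc _ _) (zB_nonneg _ _ _ _ _ _)
  · exact le_rfl

open Classical in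
set_option maxHeartbeats 1000000 in
/-- **the cross term of an add node is paid by `zA`** -/
theorem cr_add : ∃ κ₀ : ℝ, 0 ≤ κ₀ ∧ ∀ (N : Skel189.Num) (Ct A₀ K : ℝ), 0 ≤ Ct → 0 ≤ K → 0 ≤ N.a' →
    N.a' + 1 ≤ A₀ → N.a' + 3 ≤ N.a →
    (κ₀ + (Ct + A₀) / 500) + N.a' * (1/2+eps1) + 1 ≤ N.a * (1/2-eps1) →
    (κ₀ + (Ct + A₀) / 500) + N.c2 + 1 ≤ N.a →
    ∃ p₁ : ℕ, ∀ p0 ≥ p₁, ∀ (γ : ℝ) (P₀ : ℕ), 2 ≤ P₀ →
    ∀ X : Ctx N γ p0 P₀, RseH X → X.c.d1 * Kc X.S ≤ 1 →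
    (∀ p, p0 < p → Real.log p ^ (-Ct) ≤ X.c.wp.thr p) →
    ∀ (Y : Finset (ℕ × ℕ × Finset ℕ)) (u : NS) (b : ℕ) (t₁ t₀ : IT), NF X u (.add b t₁ t₀) →
    ∀ A : Finset X.c.Lam, IL X.c.D.it A →
      Q (Dr ((X.c.D.par Y).rho b)) (Uv X Y u t₁ A) (Uv X Y u t₁ A) ≤
        K * (u.c * ∑ q ∈ al X t₁ A, w X.ψ q) →
      Q (Dr ((X.c.D.par Y).rho b)) (Uv X Y u t₀ A) (Uv X Y u t₀ A) ≤
        K * (u.c * ∑ q ∈ al X t₀ A, w X.ψ q) →
      CrOk X Y A (Frame758.wt X.c.D) (fun b u t₁ t₀ j => zA X b u t₁ t₀ j.1.1) b u t₁ t₀ := by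
  obtain ⟨κ₀, hκ₀, HU⟩ := unl_add
  refine ⟨κ₀, hκ₀, fun N Ct A₀ K hCt hK ha' h2 h1 h3 h4 => ?_⟩
  have hCT := Step588.CT_pos
  have hA₀ : 0 ≤ A₀ := by linarith
  obtain ⟨p1, k1⟩ := lab_add2 N
  obtain ⟨p2, k2⟩ := HU N Ct A₀ hCt hA₀
  obtain ⟨x₀, hx₀, k3⟩ := AddPayN7.pay_real (K := K) (CTT := 2 * Step588.CT) (A₀ := A₀)
    (C3 := κ₀ + (Ct + A₀) / 500) (a := N.a) (a' := N.a') (c2 := N.c2) hK (by positivity)
    (by positivity) h1 h2 h3 h4
  obtain ⟨x₁, k4⟩ := Filter.eventually_atTop.1 (AddPayN7.exp_real N.a' N.B N.C1)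
  refine ⟨p1 + p2 + ⌈Real.exp x₀⌉₊ + ⌈x₁⌉₊ + 2, ?_⟩
  intro p0 hp0 γ P₀ hP X hX hd1 hthr Y u b t₁ t₀ hN A hA hE1 hE0
  have h := hN.nd
  have hl : ¬ isL (IT.add b t₁ t₀) := fun h => h
  obtain ⟨m1, m2, m3, m4⟩ := nodeOk_hi h.self.node hl
  have m2' : p0 < b := m2
  obtain ⟨hbp, -, -, -, -, -, hlo, hhi, hs0, hs1⟩ := h.self.node
  have hbR : (0:ℝ) < b := by exact_mod_cast (by omega : 0 < b)
  have hb1 : (1:ℝ) ≤ b := by exact_mod_cast (by omega : 1 ≤ b)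
  have hc0 := hN.c0
  have hbx : x₀ ≤ Real.log b := by
    rw [Real.le_log_iff_exp_le hbR]
    exact (Nat.le_ceil _).trans (by exact_mod_cast (by omega : ⌈Real.exp x₀⌉₊ ≤ b))
  have hl1 : 1 ≤ Real.log (b:ℝ) := hx₀.trans hbx
  have hl0 : 0 < Real.log (b:ℝ) := by linarith
  have hlab := k1 p0 (by omega) γ P₀ hP X hX hd1 Y u b t₁ t₀ hN A
  have hunl := k2 p0 (by omega) γ P₀ hP X hX hthr Y u b t₁ t₀ hN A
  have hexp := k4 b ((Nat.le_ceil _).trans (by exact_mod_cast (by omega : ⌈x₁⌉₊ ≤ b)))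
  -- masses
  have hdj : Disjoint t₁.items t₀.items := h.fit.1
  set M₁ := u.c * ∑ q ∈ al X t₁ A, w X.ψ q with hM₁
  set M₀ := u.c * ∑ q ∈ al X t₀ A, w X.ψ q with hM₀
  set ν₁ := u.c * Ws (w X.ψ) t₁.items with hν₁
  set ν₀ := u.c * Ws (w X.ψ) t₀.items with hν₀
  have hal : ∀ t : IT, al X t A ⊆ t.items := fun t => Finset.filter_subset _ _
  have hM₁0 : 0 ≤ M₁ := mul_nonneg hc0.le (Finset.sum_nonneg fun q _ => X.hW q)
  have hM₀0 : 0 ≤ M₀ := mul_nonneg hc0.le (Finset.sum_nonneg fun q _ => X.hW q)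
  have hM₁ν : M₁ ≤ ν₁ := mul_le_mul_of_nonneg_left
    (Finset.sum_le_sum_of_subset_of_nonneg (hal t₁) fun q _ _ => X.hW q) hc0.le
  have hM₀ν : M₀ ≤ ν₀ := mul_le_mul_of_nonneg_left
    (Finset.sum_le_sum_of_subset_of_nonneg (hal t₀) fun q _ _ => X.hW q) hc0.le
  have hWu : Ws (w X.ψ) (t₁.items ∪ t₀.items) = Ws (w X.ψ) t₁.items + Ws (w X.ψ) t₀.items := by
    unfold Ws; exact Finset.sum_union hdj
  have hW1 : 0 ≤ Ws (w X.ψ) t₁.items := Ws_nonneg33 X.hW _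
  have hW0 : 0 ≤ Ws (w X.ψ) t₀.items := Ws_nonneg33 X.hW _
  have hν₁2 : ν₁ ≤ Real.log b ^ N.c2 := by
    have h5 : u.c * Ws (w X.ψ) (t₁.items ∪ t₀.items) ≤ Real.log b ^ N.c2 := hhi
    rw [hWu] at h5
    refine le_trans (mul_le_mul_of_nonneg_left ?_ hc0.le) h5
    linarith
  have hpay := k3 (Real.log b) hbx b M₁ M₀ ν₁ ν₀ hb1 hM₁0 hM₁ν hM₀0 hM₀ν hν₁2
  -- the SEP charges
  set P := M₁ * (Real.log b ^ N.a / (b * ν₁) + Real.log b ^ (-N.a') * ν₀) +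
    M₀ * (Real.log b ^ N.a / (b * ν₀) + Real.log b ^ (-N.a') * ν₁) with hPd
  have e1 : sepC X b u.c t₁.items t₀.items =
      Real.log b ^ N.a / (b * ν₁) + Real.log b ^ (-N.a') * ν₀ := rfl
  have e0 : sepC X b u.c t₀.items t₁.items =
      Real.log b ^ N.a / (b * ν₀) + Real.log b ^ (-N.a') * ν₁ := rfl
  -- energies
  have hsq : Real.sqrt (Q (Dr ((X.c.D.par Y).rho b)) (rv A (Uw X Y u t₁)) (rv A (Uw X Y u t₁)) *
      Q (Dr ((X.c.D.par Y).rho b)) (rv A (Uw X Y u t₀)) (rv A (Uw X Y u t₀)) / b) ≤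
      K * Real.sqrt (M₁ * M₀ / b) := by
    have hE1' : Q (Dr ((X.c.D.par Y).rho b)) (rv A (Uw X Y u t₁)) (rv A (Uw X Y u t₁)) ≤ K * M₁ := hE1
    have hE0' : Q (Dr ((X.c.D.par Y).rho b)) (rv A (Uw X Y u t₀)) (rv A (Uw X Y u t₀)) ≤ K * M₀ := hE0
    have e5 : K * Real.sqrt (M₁ * M₀ / b) = Real.sqrt (K ^ 2 * (M₁ * M₀ / b)) := by
      rw [Real.sqrt_mul (sq_nonneg _), Real.sqrt_sq hK]
    rw [e5]
    refine Real.sqrt_le_sqrt ?_
    have pg : ∀ j, PB (rv A (Uw X Y u t₀) j) := fun j => by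
      have hF0 : Fit u.B u.A t₀ := h.fit.2.2
      exact PB_rv (fun j => FT.pb h.B_pos ((X.c.D.par Y).toFT_Adm _ _ _ h.B_pos hF0
        (node_wts h Y).add₀) (one_dvd _) j) A j
    have hq0 : 0 ≤ Q (Dr ((X.c.D.par Y).rho b)) (rv A (Uw X Y u t₀)) (rv A (Uw X Y u t₀)) := by
      rw [← I_qe pg]
      exact Tour104.I_nonneg fun z => Lift223.qe_nonneg (fun i _ => (pg i).nonneg z) _
    calc Q (Dr ((X.c.D.par Y).rho b)) (rv A (Uw X Y u t₁)) (rv A (Uw X Y u t₁)) *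
          Q (Dr ((X.c.D.par Y).rho b)) (rv A (Uw X Y u t₀)) (rv A (Uw X Y u t₀)) / b
        ≤ (K * M₁) * (K * M₀) / b := by
          refine div_le_div_of_nonneg_right ?_ hbR.le
          exact mul_le_mul hE1' hE0' hq0 (mul_nonneg hK hM₁0)
      _ = K ^ 2 * (M₁ * M₀ / b) := by ring
  have he : LL207.e1 = eps1 := by unfold LL207.e1; rfl
  rw [he] at hlab
  -- the bound of the cross term
  have hbnd : CrE X Y A b u t₁ t₀ ≤ 1/2 * P + 2 * (if BadN X u (.add b t₁ t₀) b then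
        (b:ℝ) ^ (-(1/7):ℝ) * (u.c * ∑ q ∈ alJ X b t₁ t₀ A, w X.ψ q)
      else Real.exp (-((b:ℝ) ^ (1/50:ℝ))) * (u.c * ∑ q ∈ al X (.add b t₁ t₀) A, w X.ψ q)) := by
    have e6 : CrE X Y A b u t₁ t₀ = 2 * (Q (DL X Y b) (rv A (Uw X Y u t₁)) (rv A (Uw X Y u t₀)) +
        Q (DU X Y b) (rv A (Uw X Y u t₁)) (rv A (Uw X Y u t₀))) := by
      rw [← Q_DL_DU]; rfl
    rw [e6]
    linarith
  have hPs : P = u.c * ∑ q ∈ al X t₁ A, w X.ψ q * sepC X b u.c t₁.items t₀.items +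
      u.c * ∑ q ∈ al X t₀ A, w X.ψ q * sepC X b u.c t₀.items t₁.items := by
    rw [← Finset.sum_mul, ← Finset.sum_mul, e1, e0, hPd, hM₁, hM₀]
    ring
  -- the charges of the alive items
  have halu : al X (.add b t₁ t₀) A = al X t₁ A ∪ al X t₀ A := by
    unfold al; exact Finset.filter_union _ _ _
  have hdal : Disjoint (al X t₁ A) (al X t₀ A) :=
    Finset.disjoint_of_subset_left (hal t₁) (Finset.disjoint_of_subset_right (hal t₀) hdj)
  have hzsum : u.c * ∑ q ∈ al X (.add b t₁ t₀) A, w X.ψ q * zA X b u t₁ t₀ q =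
      P + u.c * ∑ q ∈ al X (.add b t₁ t₀) A, w X.ψ q * zB X b u t₁ t₀ q := by
    have hS' : ∀ t : IT, ∀ q ∈ al X t A, q ∈ X.S' := fun t q hq => by
      unfold al at hq; exact (Finset.mem_filter.1 hq).2.1
    have f1 : ∀ q ∈ al X t₁ A, w X.ψ q * zA X b u t₁ t₀ q =
        w X.ψ q * sepC X b u.c t₁.items t₀.items + w X.ψ q * zB X b u t₁ t₀ q := fun q hq => by
      have g1 : q ∉ t₀.items := Finset.disjoint_left.1 hdj (hal t₁ hq)
      unfold zA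
      rw [if_pos (hS' t₁ q hq), if_neg g1, mul_add]
    have f0 : ∀ q ∈ al X t₀ A, w X.ψ q * zA X b u t₁ t₀ q =
        w X.ψ q * sepC X b u.c t₀.items t₁.items + w X.ψ q * zB X b u t₁ t₀ q := fun q hq => by
      unfold zA
      rw [if_pos (hS' t₀ q hq), if_pos (hal t₀ hq), mul_add]
    rw [halu, Finset.sum_union hdal, Finset.sum_union hdal, Finset.sum_congr rfl f1,
      Finset.sum_congr rfl f0, Finset.sum_add_distrib, Finset.sum_add_distrib, hPs]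
    ring
  have hmain : CrE X Y A b u t₁ t₀ ≤
      u.c * ∑ q ∈ al X (.add b t₁ t₀) A, w X.ψ q * zA X b u t₁ t₀ q := by
    rw [hzsum]
    have hP0 : 0 ≤ P := by
      rw [hPs]
      refine add_nonneg ?_ ?_
      · exact mul_nonneg hc0.le (Finset.sum_nonneg fun q _ =>
          mul_nonneg (X.hW q) (sepC_nonneg X hc0 _ _))
      · exact mul_nonneg hc0.le (Finset.sum_nonneg fun q _ =>
          mul_nonneg (X.hW q) (sepC_nonneg X hc0 _ _))
    have hzB0 : 0 ≤ u.c * ∑ q ∈ al X (.add b t₁ t₀) A, w X.ψ q * zB X b u t₁ t₀ q :=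
      mul_nonneg hc0.le (Finset.sum_nonneg fun q _ => mul_nonneg (X.hW q) (zB_nonneg _ _ _ _ _ _))
    refine hbnd.trans ?_
    split_ifs with hbad
    · have h7 : 2 * ((b:ℝ) ^ (-(1/7):ℝ) * (u.c * ∑ q ∈ alJ X b t₁ t₀ A, w X.ψ q)) ≤
          u.c * ∑ q ∈ al X (.add b t₁ t₀) A, w X.ψ q * zB X b u t₁ t₀ q := by
        have h8 : ∑ q ∈ al X (.add b t₁ t₀) A, w X.ψ q * zB X b u t₁ t₀ q =
            ∑ q ∈ alJ X b t₁ t₀ A, w X.ψ q * (2 * (b:ℝ) ^ (-(1/7):ℝ)) := by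
          unfold alJ
          rw [Finset.sum_filter]
          refine Finset.sum_congr rfl fun q _ => ?_
          unfold zB
          by_cases hq : adj b t₁ t₀ q
          · rw [if_pos ⟨hbad, hq⟩, if_pos hq]
          · rw [if_neg (fun hh => hq hh.2), if_neg hq, mul_zero]
        rw [h8, ← Finset.sum_mul]
        refine le_of_eq ?_
        ring
      linarith
    · -- exp term
      have hsg : (X.par.sg b : ℝ) = Real.log b ^ N.B / b := rfl
      have hlo' : Real.log b ^ (-N.C1) ≤ u.c * Ws (w X.ψ) (t₁.items ∪ t₀.items) := hlo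
      have hg : ∀ ν : ℝ, ∀ V : ℝ, X.par.sg b * Ws (w X.ψ) (t₁.items ∪ t₀.items) < V → ν = u.c * V →
          Real.log b ^ N.B / b * Real.log b ^ (-N.C1) ≤ ν := by
        intro ν V hV hν
        rw [hν]
        have h9 : Real.log b ^ N.B / b * (u.c * Ws (w X.ψ) (t₁.items ∪ t₀.items)) ≤ u.c * V := by
          have := mul_le_mul_of_nonneg_left hV.le hc0.le
          rw [hsg] at this
          linarith
        refine le_trans (mul_le_mul_of_nonneg_left hlo' ?_) h9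
        positivity
      have g0 := hg ν₀ _ hs0 rfl
      have g1 := hg ν₁ _ hs1 rfl
      have hr : 0 ≤ Real.log b ^ (-N.a') := Real.rpow_nonneg hl0.le _
      have s1 : 2 * Real.exp (-((b:ℝ) ^ (1/50:ℝ))) ≤ 1/2 * (Real.log b ^ (-N.a') * ν₀) :=
        hexp.trans (mul_le_mul_of_nonneg_left (mul_le_mul_of_nonneg_left g0 hr) (by norm_num))
      have s0 : 2 * Real.exp (-((b:ℝ) ^ (1/50:ℝ))) ≤ 1/2 * (Real.log b ^ (-N.a') * ν₁) :=
        hexp.trans (mul_le_mul_of_nonneg_left (mul_le_mul_of_nonneg_left g1 hr) (by norm_num))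
      have hMM : u.c * ∑ q ∈ al X (.add b t₁ t₀) A, w X.ψ q = M₁ + M₀ := by
        rw [halu, Finset.sum_union hdal, mul_add]
      rw [hMM]
      have v1 : 0 ≤ M₁ * (Real.log b ^ N.a / (b * ν₁)) := by
        have : 0 ≤ ν₁ := hM₁0.trans hM₁ν
        positivity
      have v0 : 0 ≤ M₀ * (Real.log b ^ N.a / (b * ν₀)) := by
        have : 0 ≤ ν₀ := hM₀0.trans hM₀ν
        positivity
      have w1 := mul_le_mul_of_nonneg_left s1 hM₁0
      have w0 := mul_le_mul_of_nonneg_left s0 hM₀0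
      have hPe : P = M₁ * (Real.log b ^ N.a / (b * ν₁)) + M₁ * (Real.log b ^ (-N.a') * ν₀) +
          (M₀ * (Real.log b ^ N.a / (b * ν₀)) + M₀ * (Real.log b ^ (-N.a') * ν₁)) := by
        rw [hPd]; ring
      linarith
  unfold CrOk
  refine hmain.trans ?_
  have key := mass_alF (X := X) (u := u) (τ := .add b t₁ t₀) hc0.le hA (f := zA X b u t₁ t₀)
    (fun q => zA_nonneg X b hc0 t₁ t₀ q)
  exact key

end ctx

end Crest.Agent.R4P.AddPay7
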