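import Crest.Agent.R4.InX944

/-!
R4 (S0004), POWERS, module dseR (D4), helper7: **unlabelled pairs across an add node**, tree free.

`core_z` : pairs `(v, w)` whose transfers `(v, z w)` have the same cofactor on one side and `1/z` of the
other one (`z = b ^ m`): dyadic part and deep part with the gain `z^(-(1/2-ε))`, one-partner part `L/z`.
-/

set_option autoImplicit false
set_option linter.unusedVariables false
open Finset

namespace Crest.Agent.R4P.AddUU7

open Crest.Agent.R4.HVW560 Crest.Agent.R4.HVWX793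
open Crest.Agent.R4.StopAsm709
open Crest.Agent.R4.ClsS (eps1)
open Crest.Agent.R4.LF363 (Lab)
open Crest.Agent.R4.InX944 (DP DP_pos)
open Crest.Agent.R4.ClsB (Tame)
open Crest.Agent.R4.Dich579 (FF Small EPair Alt)
open Crest.Agent.R4

/-- cofactors of the transferred pairs `(v, z w)` -/
structure Tr (z : ℕ) (E : Finset (ℕ × ℕ)) : Prop where
  c1 : ∀ e ∈ E, z * cof e.1 (z * e.2) = cof e.1 e.2
  c2 : ∀ e ∈ E, cof (z * e.2) e.1 = cof e.2 e.1

lemma Tr.mono {z : ℕ} {E E' : Finset (ℕ × ℕ)} (h : Tr z E) (hs : E' ⊆ E) : Tr z E' :=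
  ⟨fun e he => h.c1 e (hs he), fun e he => h.c2 e (hs he)⟩

/-- dyadic position -/
lemma dyad {D : ℝ} (n N : ℕ) (h1 : 1/2^n < D) (h2 : D ≤ 2^N) :
    ∃ i < n + N, (2:ℝ)^N / 2^i / 2 < D ∧ D ≤ (2:ℝ)^N / 2^i := by
  by_contra hc
  push Not at hc
  have key : ∀ i : ℕ, i ≤ n + N → D ≤ (2:ℝ)^N / 2^i := by
    intro i
    induction i with
    | zero => intro _; simpa using h2
    | succ i ih =>
      intro hi
      have h3 := ih (by omega)
      by_contra h4
      push Not at h4
      have h5 : (2:ℝ)^N / 2^(i+1) = (2:ℝ)^N / 2^i / 2 := by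
        rw [pow_succ]; field_simp
      rw [h5] at h4
      exact absurd h3 (not_le.2 (hc i (by omega) h4))
  have h6 := key (n + N) le_rfl
  have h7 : (2:ℝ)^N / 2^(n+N) = 1/2^n := by
    rw [pow_add]; field_simp
  rw [h7] at h6
  linarith

/-- the transferred radii -/
noncomputable def Rz (z : ℕ) (R : ℕ → ℝ) : ℕ → ℝ := fun v => z * R (v / z)

lemma Rz_mul {z : ℕ} (hz : 0 < z) (R : ℕ → ℝ) (w : ℕ) : Rz z R (z * w) = z * R w := by
  unfold Rz; rw [Nat.mul_div_cancel_left w hz]

lemma wt_Rz_le {z : ℕ} (hz : 0 < z) {R : ℕ → ℝ} {w : ℕ} (hw : 0 < w) (hR : 0 ≤ R w) :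
    wt (Rz z R) (z * w) ≤ z * wt R w := by
  unfold wt
  rw [Rz_mul hz]
  have h1 := tot_ratio_anti (m := w) (n := z * w) (dvd_mul_left w z) (Nat.mul_pos hz hw)
  calc (z:ℝ) * R w * (((z * w).totient : ℝ) / ((z * w : ℕ) : ℝ))
      ≤ (z:ℝ) * R w * ((w.totient : ℝ) / w) := mul_le_mul_of_nonneg_left h1 (by positivity)
    _ = _ := by ring

lemma wt_Rz_ge {z : ℕ} (hz : 0 < z) {R : ℕ → ℝ} {w : ℕ} (hR : 0 ≤ R w)
    (hτ : ((w.totient : ℝ) / w) ≤ 2 * (((z * w).totient : ℝ) / ((z * w : ℕ) : ℝ))) :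
    z * wt R w ≤ 2 * wt (Rz z R) (z * w) := by
  unfold wt
  rw [Rz_mul hz]
  calc (z:ℝ) * (R w * ((w.totient : ℝ) / w)) = ((z:ℝ) * R w) * ((w.totient : ℝ) / w) := by ring
    _ ≤ ((z:ℝ) * R w) * (2 * (((z * w).totient : ℝ) / ((z * w : ℕ) : ℝ))) :=
        mul_le_mul_of_nonneg_left hτ (by positivity)
    _ = _ := by ring

lemma DP_Rz {z : ℕ} (hz : 0 < z) {R : ℕ → ℝ} {e : ℕ × ℕ} (h1 : z * cof e.1 (z * e.2) = cof e.1 e.2)
    (h2 : cof (z * e.2) e.1 = cof e.2 e.1) : DP R (Rz z R) (e.1, z * e.2) = DP R R e := by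
  unfold DP
  simp only
  rw [Rz_mul hz, h2, ← h1]
  congr 1
  push_cast
  ring

lemma fin_core {a k κ d t y : ℝ} (ha : 0 ≤ a) (hk : 0 ≤ k) (hκ : 0 ≤ κ) (hd : 0 ≤ d) (ht : 0 ≤ t)
    (hy : 0 ≤ y) : a * (k * (κ * t) * y) + k * d * y ≤ k * (a * ((κ + d) * t) + (κ + d)) * y := by
  have e5 : k * (a * ((κ + d) * t) + (κ + d)) * y =
      (a * (k * (κ * t) * y) + k * d * y) + k * (a * (d * t) + κ) * y := by ring
  rw [e5]
  have : 0 ≤ k * (a * (d * t) + κ) * y := by positivity
  linarith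

set_option maxHeartbeats 1600000 in
/-- **one class of pairs across an add node** -/
theorem core_z : ∃ C c0 : ℝ, 1 ≤ C ∧ 0 < c0 ∧ ∀ c1 : ℝ, 0 < c1 → c1 ≤ c0 → ∃ T0 : ℝ, 1 ≤ T0 ∧
    ∀ (X K L θ : ℝ) (n N G z : ℕ) (V W : Finset ℕ) (E : Finset (ℕ × ℕ)) (R : ℕ → ℝ)
      (F : ℕ × ℕ → ℝ),
    400 ≤ n → 0 < z → T0 ≤ (2:ℝ)^n → X ≤ Real.exp (((2:ℝ)^n)^c1) → 0 < G → 0 ≤ K → 0 ≤ L →
    (∀ w ∈ V, 0 < w ∧ 0 < R w) → (∀ w ∈ W, 0 < w ∧ 0 < R w) →
    (∀ w ∈ V, R w ≤ L * wt R w) → (∀ w ∈ W, R w ≤ L * wt R w) →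
    (∀ Z : ℝ, X ≤ Z → ∀ w ∈ V, Tame Z G w) → (∀ Z : ℝ, X ≤ Z → ∀ w ∈ W, Tame Z G (z * w)) →
    (∀ w ∈ W, ((w.totient : ℝ) / w) ≤ 2 * (((z * w).totient : ℝ) / ((z * w : ℕ) : ℝ))) →
    E ⊆ V ×ˢ W → Tr z E → (∀ e ∈ E, DP R R e ≤ 2^N) →
    (∀ e ∈ E, F e ≤ K * ((R e.1 * R e.2) / DP R R e)) →
    (∀ e ∈ E, 0 < F e → ∃ m m' : ℤ,
      |(m + θ) * (cof e.2 e.1 : ℕ) - (m' + θ) * (cof e.1 e.2 : ℕ)| ≤ 2 * DP R R e) →
    (∀ q ∈ V, R q ≤ 1/2^n → ∀ ρ, ¬ Lab θ (R q) ρ) →
    ∑ e ∈ E, F e ≤ K * L^2 * (((n:ℝ) + N) * (C * (2:ℝ)^(2*eps1*n)) + C) *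
      ((z:ℝ)^(-(1/2-eps1)) * ((∑ q ∈ V, wt R q) * (∑ r ∈ W, wt R r))^(1/2+eps1)) +
      K * (L / z) * ∑ q ∈ V, wt R q := by
  classical
  obtain ⟨Cd, c0, hC1, hc0, hC⟩ := ClsT2.deepHyp_Gen3
  have he1 : eps1 = 1/1000 := rfl
  have hKH := KH_pos 1 0 eps1
  refine ⟨4 * KH 1 0 eps1 + 2 * Cd, c0, by linarith, hc0, ?_⟩
  intro c1 hc1 hc10
  obtain ⟨T0, hT01, hT0⟩ := hC c1 hc1 hc10
  refine ⟨T0, hT01, ?_⟩
  intro X K L θ n N G z V W E R F hn hz hTn hX hG hK hL hV hW hLV hLW hVt hWt hτ hE hTr hDN hF hrel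
    hU
  have h2n : (0:ℝ) < (2:ℝ)^n := by positivity
  have hz0 : (0:ℝ) < z := by exact_mod_cast hz
  have hz1 : (1:ℝ) ≤ z := by exact_mod_cast hz
  set D : ℕ × ℕ → ℝ := DP R R with hDdef
  have hDpos : ∀ e ∈ E, 0 < D e := by
    intro e he
    have h := Finset.mem_product.1 (hE he)
    exact DP_pos (hW _ h.2).1 (hV _ h.1).2
  have hmuV : ∀ q ∈ V, 0 ≤ wt R q := fun q hq => by
    unfold wt; exact mul_nonneg (hV q hq).2.le (by positivity)
  have hmuW : ∀ q ∈ W, 0 ≤ wt R q := fun q hq => by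
    unfold wt; exact mul_nonneg (hW q hq).2.le (by positivity)
  set MV := ∑ q ∈ V, wt R q with hMV
  set MW := ∑ q ∈ W, wt R q with hMW
  have hMV0 : 0 ≤ MV := Finset.sum_nonneg hmuV
  have hMW0 : 0 ≤ MW := Finset.sum_nonneg hmuW
  set R2 := Rz z R with hR2
  set W2 := W.image (fun w => z * w) with hW2
  have injW : Set.InjOn (fun w => z * w) (W : Set ℕ) := fun x _ y _ h =>
    Nat.eq_of_mul_eq_mul_left hz h
  have injE : ∀ E' : Finset (ℕ × ℕ), Set.InjOn (fun e : ℕ × ℕ => (e.1, z * e.2)) (E' : Set (ℕ × ℕ)) := by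
    intro E' x _ y _ h
    have h1 := congrArg Prod.fst h
    have h2 := congrArg Prod.snd h
    exact Prod.ext h1 (Nat.eq_of_mul_eq_mul_left hz h2)
  have hM2 : ∑ u ∈ W2, wt R2 u ≤ z * MW := by
    rw [hW2, Finset.sum_image injW, hMW, Finset.mul_sum]
    exact Finset.sum_le_sum fun w hw => wt_Rz_le hz (hW w hw).1 (hW w hw).2.le
  have hwt2 : ∀ w ∈ W, 0 ≤ wt R2 (z * w) := fun w hw => by
    unfold wt
    rw [hR2, Rz_mul hz]
    have := (hW w hw).2.le
    positivity
  have hM20 : 0 ≤ ∑ u ∈ W2, wt R2 u := by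
    rw [hW2, Finset.sum_image injW]
    exact Finset.sum_nonneg fun w hw => hwt2 w hw
  have hMM : (MV * ∑ u ∈ W2, wt R2 u)^(1/2+eps1) ≤
      z * ((z:ℝ)^(-(1/2-eps1)) * (MV * MW)^(1/2+eps1)) := by
    have h1 : MV * ∑ u ∈ W2, wt R2 u ≤ z * (MV * MW) := by
      calc MV * ∑ u ∈ W2, wt R2 u ≤ MV * (z * MW) := mul_le_mul_of_nonneg_left hM2 hMV0
        _ = _ := by ring
    refine (Real.rpow_le_rpow (mul_nonneg hMV0 hM20) h1 (by rw [he1]; norm_num)).trans ?_
    rw [Real.mul_rpow hz0.le (mul_nonneg hMV0 hMW0), ← mul_assoc]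
    refine le_of_eq ?_
    congr 1
    conv_rhs => rw [← Real.rpow_one (z:ℝ)]
    rw [← Real.rpow_mul hz0.le, ← Real.rpow_add hz0]
    congr 1
    ring
  set Y1 := (z:ℝ)^(-(1/2-eps1)) * (MV * MW)^(1/2+eps1) with hY1
  have hY10 : 0 ≤ Y1 := by positivity
  -- product of the radii
  have hRR : ∀ e ∈ E, R e.1 * R e.2 ≤ L^2 * (wt R e.1 * wt R e.2) := by
    intro e he
    have h := Finset.mem_product.1 (hE he)
    have h1 := hLV _ h.1
    have h2 := hLW _ h.2
    have h3 := (hW _ h.2).2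
    have h5 : 0 ≤ L * wt R e.1 := (hV _ h.1).2.le.trans h1
    calc R e.1 * R e.2 ≤ (L * wt R e.1) * (L * wt R e.2) := mul_le_mul h1 h2 h3.le h5
      _ = _ := by ring
  have hFmu : ∀ e ∈ E, F e ≤ K * L^2 * ((wt R e.1 * wt R e.2) / D e) := by
    intro e he
    calc F e ≤ K * ((R e.1 * R e.2) / D e) := hF e he
      _ ≤ K * ((L^2 * (wt R e.1 * wt R e.2)) / D e) :=
          mul_le_mul_of_nonneg_left (div_le_div_of_nonneg_right (hRR e he) (hDpos e he).le) hK
      _ = K * L^2 * ((wt R e.1 * wt R e.2) / D e) := by ring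
  have hw2 : ∀ e ∈ E, wt R e.1 * wt R e.2 ≤ (2 / z) * (wt R e.1 * wt R2 (z * e.2)) := by
    intro e he
    have h := Finset.mem_product.1 (hE he)
    have h1 := wt_Rz_ge hz (hW _ h.2).2.le (hτ _ h.2)
    have h2 : wt R e.2 ≤ (2 / z) * wt R2 (z * e.2) := by
      rw [div_mul_eq_mul_div, le_div_iff₀ hz0]
      linarith
    calc wt R e.1 * wt R e.2 ≤ wt R e.1 * ((2 / z) * wt R2 (z * e.2)) :=
          mul_le_mul_of_nonneg_left h2 (hmuV _ h.1)
      _ = _ := by ring
  -- the parts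
  set PA : ℕ × ℕ → Prop := fun e => AltS n θ (z * θ) (cof e.1 (z * e.2)) (cof (z * e.2) e.1)
    (R e.1) (z * R e.2) with hPA
  set PE : ℕ × ℕ → Prop := fun e => ES θ (z * θ) (cof e.1 (z * e.2)) (cof (z * e.2) e.1)
    (R e.1) (z * R e.2) with hPE
  set EY := E.filter (fun e => 1/2^n < D e) with hEY
  set EX := E.filter (fun e => ¬ 1/2^n < D e) with hEX
  set EG := EX.filter (fun e => PA e) with hEG
  set EH := EX.filter (fun e => ¬ PA e) with hEH
  set EE := EH.filter (fun e => PE e) with hEE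
  set ER := EH.filter (fun e => ¬ PE e) with hER
  have hsplit : ∑ e ∈ E, F e = ∑ e ∈ EY, F e +
      (∑ e ∈ EG, F e + (∑ e ∈ EE, F e + ∑ e ∈ ER, F e)) := by
    rw [hEE, hER, Finset.sum_filter_add_sum_filter_not, hEG, hEH,
      Finset.sum_filter_add_sum_filter_not, hEY, hEX, Finset.sum_filter_add_sum_filter_not]
  have hEYP : ∀ e ∈ EY, e ∈ E := fun e he => (Finset.mem_filter.1 he).1
  have hEXP : ∀ e ∈ EX, e ∈ E := fun e he => (Finset.mem_filter.1 he).1
  have hEGP : ∀ e ∈ EG, e ∈ EX := fun e he => (Finset.mem_filter.1 he).1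
  have hEHP : ∀ e ∈ EH, e ∈ EX := fun e he => (Finset.mem_filter.1 he).1
  have hEEP : ∀ e ∈ EE, e ∈ EH := fun e he => (Finset.mem_filter.1 he).1
  have hERP : ∀ e ∈ ER, e ∈ EH := fun e he => (Finset.mem_filter.1 he).1
  have hEXD : ∀ e ∈ EX, D e ≤ 1/2^n := fun e he => not_lt.1 (Finset.mem_filter.1 he).2
  have hKL : 0 ≤ K * L^2 := by positivity
  -- dyadic part
  have boundY : ∑ e ∈ EY, F e ≤ ((n:ℝ) + N) * (K * L^2 * (4 * KH 1 0 eps1 * (2:ℝ)^(2*eps1*n)) * Y1) := by
    set g : ℕ × ℕ → ℝ := fun e => K * L^2 * ((2 / z) * (wt R e.1 * wt R2 (z * e.2)) / D e) with hg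
    set P : ℕ → ℕ × ℕ → Prop := fun i e => (2:ℝ)^N / 2^i / 2 < D e ∧ D e ≤ (2:ℝ)^N / 2^i with hP
    have hb : ∀ e ∈ EY, F e ≤ g e := by
      intro e he
      have heE := hEYP e he
      refine (hFmu e heE).trans (mul_le_mul_of_nonneg_left ?_ hKL)
      exact div_le_div_of_nonneg_right (hw2 e heE) (hDpos e heE).le
    have hnn : ∀ e ∈ EY, 0 ≤ g e := by
      intro e he
      have heE := hEYP e he
      have h := Finset.mem_product.1 (hE heE)
      have a1 := hmuV _ h.1
      have a2 := hwt2 _ h.2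
      have a3 := (hDpos e heE).le
      rw [hg]
      positivity
    have h1 : ∑ e ∈ EY, F e ≤ ∑ i ∈ Finset.range (n + N), ∑ e ∈ EY.filter (P i), g e := by
      calc ∑ e ∈ EY, F e ≤ ∑ e ∈ EY, g e := Finset.sum_le_sum hb
        _ ≤ ∑ e ∈ EY, ∑ i ∈ Finset.range (n + N), if P i e then g e else 0 := by
            refine Finset.sum_le_sum fun e he => ?_
            have heE := hEYP e he
            obtain ⟨i, hi, hi2⟩ := dyad n N (Finset.mem_filter.1 he).2 (hDN e heE)
            have h3 := Finset.single_le_sum (f := fun i => if P i e then g e else 0)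
              (fun i _ => by
                show 0 ≤ if P i e then g e else 0
                split_ifs
                · exact hnn e he
                · exact le_rfl) (Finset.mem_range.2 hi)
            have h4 : (if P i e then g e else 0) = g e := if_pos hi2
            calc g e = if P i e then g e else 0 := h4.symm
              _ ≤ _ := h3
        _ = _ := by
            rw [Finset.sum_comm]
            exact Finset.sum_congr rfl fun i _ => (Finset.sum_filter _ _).symm
    refine h1.trans ?_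
    have h2 : ∀ i ∈ Finset.range (n + N), ∑ e ∈ EY.filter (P i), g e ≤
        K * L^2 * (4 * KH 1 0 eps1 * (2:ℝ)^(2*eps1*n)) * Y1 := by
      intro i hi
      have hi' := Finset.mem_range.1 hi
      set δ : ℝ := (2:ℝ)^N / 2^i with hδ
      have hδ0 : 0 < δ := by positivity
      set Ei := EY.filter (P i) with hEi
      have hEiE : ∀ e ∈ Ei, e ∈ E := fun e he => hEYP e (Finset.mem_filter.1 he).1
      have hEiD : ∀ e ∈ Ei, δ / 2 < D e ∧ D e ≤ δ := fun e he => (Finset.mem_filter.1 he).2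
      have key := hvw2_plain (ε := eps1) (by rw [he1]; norm_num) (by rw [he1]; norm_num)
        (V := V) (W := W2) (E := Ei.image fun e => (e.1, z * e.2)) (ψ := R) (θ := R2) (δ₁ := δ)
        (δ₂ := δ)
        { hδ₁ := hδ0
          hδ₂ := hδ0
          hV := fun v hv => (hV v hv).1
          hW := fun u hu => by
            obtain ⟨w, hw, rfl⟩ := Finset.mem_image.1 hu
            exact Nat.mul_pos hz (hW w hw).1
          hψ := fun v hv => (hV v hv).2.le
          hθ := fun u hu => by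
            obtain ⟨w, hw, rfl⟩ := Finset.mem_image.1 hu
            show 0 ≤ R2 (z * w)
            rw [hR2, Rz_mul hz]
            have := (hW w hw).2.le
            positivity
          hE := fun x hx => by
            obtain ⟨e, he, rfl⟩ := Finset.mem_image.1 hx
            have h := Finset.mem_product.1 (hE (hEiE e he))
            exact Finset.mem_product.2 ⟨h.1, Finset.mem_image_of_mem _ h.2⟩
          h1 := fun x hx => by
            obtain ⟨e, he, rfl⟩ := Finset.mem_image.1 hx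
            have heE := hEiE e he
            show (cof e.1 (z * e.2) : ℝ) * R2 (z * e.2) ≤ δ
            refine le_trans ?_ (hEiD e he).2
            rw [hDdef, ← DP_Rz hz (hTr.c1 e heE) (hTr.c2 e heE)]
            exact le_max_right _ _
          h2 := fun x hx => by
            obtain ⟨e, he, rfl⟩ := Finset.mem_image.1 hx
            have heE := hEiE e he
            show (cof (z * e.2) e.1 : ℝ) * R e.1 ≤ δ
            refine le_trans ?_ (hEiD e he).2
            rw [hDdef, ← DP_Rz hz (hTr.c1 e heE) (hTr.c2 e heE)]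
            exact le_max_left _ _ }
      rw [Finset.sum_image (injE Ei)] at key
      have hg2 : ∑ e ∈ Ei, g e ≤ K * L^2 * ((2 / z) * (2 / δ)) *
          ∑ e ∈ Ei, wt R e.1 * wt R2 (z * e.2) := by
        rw [Finset.mul_sum]
        refine Finset.sum_le_sum fun e he => ?_
        have heE := hEiE e he
        have h := Finset.mem_product.1 (hE heE)
        have a1 := hmuV _ h.1
        have a2 := hwt2 _ h.2
        have a3 := hDpos e heE
        have a4 := (hEiD e he).1
        have a5 : 1 / D e ≤ 2 / δ := by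
          rw [div_le_div_iff₀ a3 hδ0]; linarith
        rw [hg]
        have a6 : 0 ≤ K * L^2 * ((2 / z) * (wt R e.1 * wt R2 (z * e.2))) := by positivity
        calc K * L^2 * ((2 / z) * (wt R e.1 * wt R2 (z * e.2)) / D e)
            = K * L^2 * ((2 / z) * (wt R e.1 * wt R2 (z * e.2))) * (1 / D e) := by ring
          _ ≤ K * L^2 * ((2 / z) * (wt R e.1 * wt R2 (z * e.2))) * (2 / δ) :=
              mul_le_mul_of_nonneg_left a5 a6
          _ = _ := by ring
      refine hg2.trans ?_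
      have hcoef : 0 ≤ K * L^2 * ((2 / z) * (2 / δ)) := by positivity
      refine (mul_le_mul_of_nonneg_left (key.trans (mul_le_mul_of_nonneg_left
        (mul_le_mul_of_nonneg_left hMM (by positivity)) hKH.le)) hcoef).trans ?_
      -- the power of `δ`
      have hδp : (δ * δ)^(1/2-eps1) = δ * δ^(-(2*eps1)) := by
        rw [← pow_two, ← Real.rpow_natCast, ← Real.rpow_mul hδ0.le]
        conv_rhs => rw [← Real.rpow_one δ, ← Real.rpow_mul hδ0.le, ← Real.rpow_add hδ0]
        congr 1; push_cast; ring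
      have hδn : δ^(-(2*eps1)) ≤ (2:ℝ)^(2*eps1*n) := by
        have h3 : (1:ℝ)/2^n ≤ δ := by
          rw [hδ, div_le_div_iff₀ h2n (by positivity), one_mul, ← pow_add]
          exact pow_le_pow_right₀ (by norm_num) (by omega)
        have h4 : δ^(-(2*eps1)) ≤ (1/(2:ℝ)^n)^(-(2*eps1)) :=
          Real.rpow_le_rpow_of_nonpos (by positivity) h3 (by rw [he1]; norm_num)
        refine h4.trans (le_of_eq ?_)
        rw [one_div, Real.inv_rpow h2n.le, ← Real.rpow_neg h2n.le, neg_neg, ← Real.rpow_natCast,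
          ← Real.rpow_mul (by norm_num)]
        congr 1; ring
      rw [hδp]
      have e5 : K * L^2 * ((2 / z) * (2 / δ)) * (KH 1 0 eps1 * (δ * δ^(-(2*eps1)) * (z * Y1))) =
          K * L^2 * (4 * KH 1 0 eps1 * δ^(-(2*eps1))) * Y1 := by
        field_simp
        ring
      rw [e5]
      refine mul_le_mul_of_nonneg_right (mul_le_mul_of_nonneg_left ?_ hKL) hY10
      exact mul_le_mul_of_nonneg_left hδn (by positivity)
    refine (Finset.sum_le_sum h2).trans (le_of_eq ?_)
    rw [Finset.sum_const, Finset.card_range, nsmul_eq_mul]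
    push_cast
    ring
  -- deep part
  have boundG : ∑ e ∈ EG, F e ≤ K * L^2 * (2 * Cd) * Y1 := by
    have key := hT0 θ (z * θ) ((2:ℝ)^n) X (2 * (K * L^2) / z) V W2 (EG.image fun e => (e.1, z * e.2)) R
      R2 (fun f => F (f.1, f.2 / z)) G hTn hX (by positivity) hG (fun v hv => hV v hv)
      (by
        intro u hu
        obtain ⟨w, hw, rfl⟩ := Finset.mem_image.1 hu
        refine ⟨Nat.mul_pos hz (hW w hw).1, ?_⟩
        show 0 < R2 (z * w)
        rw [hR2, Rz_mul hz]
        exact mul_pos hz0 (hW w hw).2)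
      (fun Z hZ w hw => hVt Z hZ w hw)
      (by
        intro Z hZ u hu
        obtain ⟨w, hw, rfl⟩ := Finset.mem_image.1 hu
        exact hWt Z hZ w hw)
      (by
        intro x hx
        obtain ⟨e, he, rfl⟩ := Finset.mem_image.1 hx
        have h := Finset.mem_product.1 (hE (hEXP e (hEGP e he)))
        exact Finset.mem_product.2 ⟨h.1, Finset.mem_image_of_mem _ h.2⟩)
      (by
        intro x hx
        obtain ⟨e, he, rfl⟩ := Finset.mem_image.1 hx
        have heE := hEXP e (hEGP e he)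
        show DP R R2 (e.1, z * e.2) ≤ 1 / 2^n
        rw [hR2, DP_Rz hz (hTr.c1 e heE) (hTr.c2 e heE)]
        exact hEXD e (hEGP e he))
      (by
        intro x hx
        obtain ⟨e, he, rfl⟩ := Finset.mem_image.1 hx
        have heE := hEXP e (hEGP e he)
        have h := Finset.mem_product.1 (hE heE)
        show F (e.1, z * e.2 / z) ≤ 2 * (K * L^2) / z *
          ((wt R e.1 * wt R2 (z * e.2) * (ClsS.Af (cof e.1 (z * e.2)) * ClsS.Af (cof (z * e.2) e.1))) /
            DP R R2 (e.1, z * e.2))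
        rw [Nat.mul_div_cancel_left _ hz, hR2, DP_Rz hz (hTr.c1 e heE) (hTr.c2 e heE), ← hR2]
        have f1 := ClsS.one_le_Af (cof e.1 (z * e.2))
        have f2 := ClsS.one_le_Af (cof (z * e.2) e.1)
        have f3 : 1 ≤ ClsS.Af (cof e.1 (z * e.2)) * ClsS.Af (cof (z * e.2) e.1) := by nlinarith
        have a1 := hmuV _ h.1
        have a2 := hwt2 _ h.2
        have a3 := hDpos e heE
        have g3 : 0 ≤ K * L^2 * ((2 / z) * (wt R e.1 * wt R2 (z * e.2)) / D e) := by positivity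
        have g4 : F e ≤ K * L^2 * ((2 / z) * (wt R e.1 * wt R2 (z * e.2)) / D e) :=
          (hFmu e heE).trans (mul_le_mul_of_nonneg_left
            (div_le_div_of_nonneg_right (hw2 e heE) a3.le) hKL)
        have e5 : 2 * (K * L^2) / z * (wt R e.1 * wt R2 (z * e.2) *
            (ClsS.Af (cof e.1 (z * e.2)) * ClsS.Af (cof (z * e.2) e.1)) / D e) =
          K * L^2 * ((2 / z) * (wt R e.1 * wt R2 (z * e.2)) / D e) *
            (ClsS.Af (cof e.1 (z * e.2)) * ClsS.Af (cof (z * e.2) e.1)) := by ring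
        have e6 : (e.1, e.2) = e := rfl
        rw [e6, e5]
        nlinarith)
      (by
        intro x hx t ht h1 h2 hFe
        obtain ⟨e, he, rfl⟩ := Finset.mem_image.1 hx
        have heX := hEGP e he
        have heE := hEXP e heX
        have hFe' : 0 < F e := by
          have hFe2 : 0 < F (e.1, z * e.2 / z) := hFe
          rwa [Nat.mul_div_cancel_left _ hz] at hFe2
        obtain ⟨m, m', hm⟩ := hrel e heE hFe'
        have hDx : DP R R2 (e.1, z * e.2) = D e := DP_Rz hz (hTr.c1 e heE) (hTr.c2 e heE)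
        have hDx' : max ((cof (z * e.2) e.1 : ℝ) * R e.1) ((cof e.1 (z * e.2) : ℝ) * (z * R e.2)) =
            D e := by
          rw [← hDx]
          unfold DP
          simp only
          rw [hR2, Rz_mul hz]
        have h1' : 1/(2*t) < D e := by rw [← hDx]; exact h1
        have h2' : D e ≤ 1/t := by rw [← hDx]; exact h2
        show ClsT2.Gen3 θ (z * θ) t (cof e.1 (z * e.2)) (cof (z * e.2) e.1) (R e.1) (R2 (z * e.2))
        rw [hR2, Rz_mul hz]
        rw [← hDx'] at h1' h2'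
        refine gen3_of (m := m) (m' := z * m') ?_ (Finset.mem_filter.1 he).2 ht h1' h2'
        rw [hDx', hTr.c2 e heE]
        rw [← hTr.c1 e heE] at hm
        convert hm using 2
        push_cast
        ring)
    rw [Finset.sum_image (injE EG)] at key
    have s1 : ∑ e ∈ EG, F (e.1, z * e.2 / z) = ∑ e ∈ EG, F e := by
      refine Finset.sum_congr rfl fun e _ => ?_
      rw [Nat.mul_div_cancel_left _ hz]
    simp only at key
    rw [s1] at key
    refine key.trans ?_
    have hCd : 0 ≤ Cd := by linarith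
    have hp1 : ((2:ℝ)^n)^(-(1/1000):ℝ) ≤ 1 :=
      Real.rpow_le_one_of_one_le_of_nonpos (one_le_pow₀ (by norm_num)) (by norm_num)
    have hp0 : 0 ≤ ((2:ℝ)^n)^(-(1/1000):ℝ) := by positivity
    calc Cd * (2 * (K * L^2) / z) * ((2:ℝ)^n)^(-(1/1000):ℝ) * (MV * ∑ u ∈ W2, wt R2 u)^(1/2+eps1)
        ≤ Cd * (2 * (K * L^2) / z) * 1 * (z * Y1) := by
          apply mul_le_mul _ hMM (by positivity) (by positivity)
          exact mul_le_mul_of_nonneg_left hp1 (by positivity)
      _ = _ := by field_simp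
  -- one-partner part
  have boundE : ∑ e ∈ EE, F e ≤ K * (L / z) * MV := by
    have hpair : ∀ e ∈ EE, EPair (fun t => t^(1/20:ℝ)) θ (z * θ) R R2 e.1 (z * e.2) := by
      intro e he
      have h1 : PE e := (Finset.mem_filter.1 he).2
      obtain ⟨t, m, m', h2, h3⟩ := h1
      refine ⟨t, m, m', ?_, ?_⟩
      · rw [hR2, Rz_mul hz]; exact h2
      · rw [hR2, Rz_mul hz]; exact h3
    have hinj : Set.InjOn Prod.fst (EE : Set (ℕ × ℕ)) := by
      intro e he f hf h1
      have ae := hpair e (Finset.mem_coe.1 he)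
      have af := hpair f (Finset.mem_coe.1 hf)
      have h1' : e.1 = f.1 := h1
      rw [← h1'] at af
      exact Prod.ext h1 (Nat.eq_of_mul_eq_mul_left hz (Dich579.partner ae af))
    have hone : ∀ e ∈ EE, F e ≤ K * (L / z) * wt R e.1 := by
      intro e he
      have heE := hEXP e (hEHP e (hEEP e he))
      have h := Finset.mem_product.1 (hE heE)
      have hx : (z : ℝ) ≤ (cof e.1 e.2 : ℕ) := by
        have hpos : 0 < cof e.1 e.2 := cof_pos (hV _ h.1).1
        have : z ∣ cof e.1 e.2 := ⟨_, (hTr.c1 e heE).symm⟩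
        exact_mod_cast Nat.le_of_dvd hpos this
      have hR' := (hW _ h.2).2
      have hR := (hV _ h.1).2
      have hD0 := hDpos e heE
      have hDx : (z : ℝ) * R e.2 ≤ D e :=
        (mul_le_mul_of_nonneg_right hx hR'.le).trans (le_max_right _ _)
      calc F e ≤ K * ((R e.1 * R e.2) / D e) := hF e heE
        _ ≤ K * (R e.1 / z) := by
            apply mul_le_mul_of_nonneg_left _ hK
            rw [div_le_div_iff₀ hD0 hz0]
            calc R e.1 * R e.2 * z = R e.1 * (z * R e.2) := by ring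
              _ ≤ R e.1 * D e := mul_le_mul_of_nonneg_left hDx hR.le
        _ ≤ K * ((L * wt R e.1) / z) :=
            mul_le_mul_of_nonneg_left (div_le_div_of_nonneg_right (hLV _ h.1) hz0.le) hK
        _ = _ := by ring
    calc ∑ e ∈ EE, F e ≤ ∑ e ∈ EE, K * (L / z) * wt R e.1 := Finset.sum_le_sum hone
      _ = ∑ q ∈ EE.image Prod.fst, K * (L / z) * wt R q := by
          rw [Finset.sum_image hinj]
      _ ≤ ∑ q ∈ V, K * (L / z) * wt R q := by
          apply Finset.sum_le_sum_of_subset_of_nonneg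
          · intro q hq
            obtain ⟨e, he, rfl⟩ := Finset.mem_image.1 hq
            exact (Finset.mem_product.1 (hE (hEXP e (hEHP e (hEEP e he))))).1
          · intro q hq _
            have h2 := hmuV q hq
            positivity
      _ = _ := by rw [Finset.mul_sum]
  -- the rest is not positive
  have boundR : ∑ e ∈ ER, F e ≤ 0 := by
    refine Finset.sum_nonpos fun e he => ?_
    by_contra hpos
    push Not at hpos
    have heH := hERP e he
    have heX := hEHP e heH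
    have heE := hEXP e heX
    have h := Finset.mem_product.1 (hE heE)
    obtain ⟨m, m', hm⟩ := hrel e heE hpos
    have hDx : max ((cof (z * e.2) e.1 : ℝ) * R e.1) ((cof e.1 (z * e.2) : ℝ) * (z * R e.2)) =
        D e := by
      rw [hDdef, ← DP_Rz hz (hTr.c1 e heE) (hTr.c2 e heE)]
      unfold DP
      simp only
      rw [Rz_mul hz]
    have hcl := classify_num hn (θ := θ) (θ' := z * θ) (x := cof e.1 (z * e.2))
      (y := cof (z * e.2) e.1) (r := R e.1) (r' := z * R e.2) (m := m) (m' := z * m')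
      (cof_pos (hV _ h.1).1) (cof_pos (Nat.mul_pos hz (hW _ h.2).1)) (hV _ h.1).2
      (mul_pos hz0 (hW _ h.2).2) (by
        rw [hDx, hTr.c2 e heE]
        rw [← hTr.c1 e heE] at hm
        convert hm using 2
        push_cast
        ring)
    rcases hcl with h3 | h3 | h3
    · exact (Finset.mem_filter.1 heH).2 h3
    · exact (Finset.mem_filter.1 he).2 h3
    · obtain ⟨t, k, k', ρ, ρ', ht, -, hD, -, hFF, -⟩ := h3
      refine hU _ h.1 ?_ ρ hFF.lab
      have ht0 : (0:ℝ) < t := lt_of_lt_of_le h2n ht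
      have hy : (1:ℝ) ≤ cof (z * e.2) e.1 := by
        exact_mod_cast (cof_pos (Nat.mul_pos hz (hW _ h.2).1) : 0 < cof (z * e.2) e.1)
      calc R e.1 = 1 * R e.1 := (one_mul _).symm
        _ ≤ (cof (z * e.2) e.1 : ℝ) * R e.1 := mul_le_mul_of_nonneg_right hy (hV _ h.1).2.le
        _ ≤ 1/t := (le_max_left _ _).trans hD
        _ ≤ 1/2^n := one_div_le_one_div_of_le h2n ht
  rw [hsplit]
  have hp1 : 1 ≤ (2:ℝ)^(2*eps1*n) := Real.one_le_rpow (by norm_num) (by rw [he1]; positivity)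
  have hCd : 0 ≤ Cd := by linarith
  have hnN : (0:ℝ) ≤ (n:ℝ) + N := by positivity
  have hfin := fin_core (a := (n:ℝ) + N) (k := K * L^2) (κ := 4 * KH 1 0 eps1) (d := 2 * Cd)
    (t := (2:ℝ)^(2*eps1*n)) (y := Y1) hnN hKL (by positivity) (by positivity) (by positivity) hY10
  linarith

end Crest.Agent.R4P.AddUU7
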