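import Crest.Agent.R4P.CrossSum_29

/-!
R4 (S0004), POWERS, module D, helper29: **the outer sum of `eX` in relational form**: the invariant and
the extra potential `Ψ` live on states with data (`Y` = state with history, item trees, ...), `π y` = the
state of the walk.
-/

set_option autoImplicit false
set_option linter.unusedSectionVars false
set_option linter.unusedVariables false
set_option linter.unusedSimpArgs false
open MeasureTheory Filter

namespace Crest.Agent.R4P.CrossSum29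

open Crest.Agent.R4.Tour104 Crest.Agent.R4.Tour758 Crest.Agent.R4.Avg758 Crest.Agent.R4.Clos758
open Crest.Agent.R4.ClosL758 Crest.Agent.R4.ClosG758 Crest.Agent.R4.ClosR758
open Crest.Agent.R4P.ClosR442 Crest.Agent.R4P.Walk560 Crest.Agent.R4P.VWalk36
open Crest.Agent.R4P.Strip29 Crest.Agent.R4P.Dd26

/-- **supersolutions with data** -/
theorem W_super_rel {S Y : Type*} {next : S → List (ℝ × S)} {rank : S → ℕ}
    (h : ∀ s, ∀ p ∈ next s, rank p.2 < rank s) {π : Y → S} {Iv : Y → Prop} {loc : S → ℝ}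
    {Φ : Y → ℝ}
    (hI : ∀ y, Iv y → ∃ l : List (ℝ × Y), l.map (fun e => (e.1, π e.2)) = next (π y) ∧
      (∀ e ∈ l, Iv e.2 ∧ 0 ≤ e.1) ∧ loc (π y) + (l.map fun e => e.1 * Φ e.2).sum ≤ Φ y) :
    ∀ y, Iv y → W next rank loc (π y) ≤ Φ y := by
  suffices ∀ k y, rank (π y) < k → Iv y → W next rank loc (π y) ≤ Φ y from
    fun y => this (rank (π y) + 1) y (Nat.lt_succ_self _)
  intro k
  induction k with
  | zero => intro y hy; omega
  | succ k ih =>
    intro y hy hy'
    obtain ⟨l, hl, hi, hs⟩ := hI y hy'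
    rw [W_eq h, ← hl, List.map_map]
    refine le_trans (add_le_add le_rfl ?_) hs
    have e : ∀ e ∈ l, W next rank loc (π e.2) ≤ Φ e.2 := by
      intro e he
      have h1 : (e.1, π e.2) ∈ next (π y) := by
        rw [← hl]; exact List.mem_map.2 ⟨e, he, rfl⟩
      have := h _ _ h1
      simp only at this
      exact ih e.2 (by omega) (hi e he).1
    clear hl hs
    induction l with
    | nil => simp
    | cons a l ih' =>
      simp only [List.map_cons, List.sum_cons, Function.comp]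
      have h1 := mul_le_mul_of_nonneg_left (e a (by simp)) (hi a (by simp)).2
      have h2 := ih' (fun e he => hi e (by simp [he])) (fun x hx => e x (by simp [hx]))
      linarith

variable {Λ κ : Type*} [Fintype Λ] [DecidableEq Λ] [DecidableEq κ] [WRel κ]

/-- sums of functions of the state -/
lemma sum_proj {S Y : Type*} {π : Y → S} {l : List (ℝ × Y)} {n : List (ℝ × S)}
    (hl : l.map (fun e => (e.1, π e.2)) = n) (F : S → ℝ) :
    (l.map fun e => e.1 * F (π e.2)).sum = (n.map fun q => q.1 * F q.2).sum := by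
  rw [← hl, List.map_map]; rfl

/-- **OUTER SUM OF `eX`, with data** (`Y` = states with data, `π` = the state).  At every state `y` there
is a list `l` of continuing states with data over `nxt stp (π y)`, and the crossing states are paid by
the masses, the node functions with gaps and the decrease `Ψ y - Σ_l e.1 Ψ e.2`. -/
theorem cross_sumR [Fintype κ] {Y : Type*} {π : Y → St Λ κ} {wr : ℕ → Λ → κ}
    {Ad : TrG Λ κ → Finset Λ → Prop}
    {μ : TrG Λ κ → Finset Λ → ℝ} {ν : TrG Λ κ → ℝ} {stp : Stp Λ κ} (hns : NoSplit stp)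
    {Iv : Y → Prop} (hInv : ∀ y, Iv y → ∃ n, Inv wr Ad μ ν n (π y))
    (hdL : ∀ y, Iv y → ∀ r t₁ t₀, OneL stp (π y) r t₁ t₀ → ¬ dd (π y).t')
    (hdR : ∀ y, Iv y → ∀ r t₁ t₀, OneR stp (π y) r t₁ t₀ → ¬ dd (π y).t)
    {B K K₂ : ℝ} (hK : 0 ≤ K) (hK₂ : 0 ≤ K₂) {L g : DT Λ κ → ℝ}
    (hL : ∀ y, Iv y → GapN L g (π y).t ∧ GapN L g (π y).t')
    {Ψ : Y → ℝ}
    (H : ∀ y, Iv y → ∃ l : List (ℝ × Y), l.map (fun e => (e.1, π e.2)) = nxt stp (π y) ∧
      (∀ e ∈ l, Iv e.2) ∧
      (Oth stp (π y) → (l.map fun e => e.1 * Ψ e.2).sum ≤ Ψ y) ∧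
      (∀ r t₁ t₀, OneL stp (π y) r t₁ t₀ →
        Xs μ B { (π y) with t := stp.x (π y) t₁ t₀ } + (l.map fun e => e.1 * Ψ e.2).sum ≤
          K * (ν (stp.x (π y) t₁ t₀).g + pm (fun d => ν d.g) (stp.c (π y) t₁ t₀) (π y).t') +
          K₂ * (ν (stp.x (π y) t₁ t₀).g * Real.sqrt (ν (π y).t'.g / ν (π y).t.g)) +
          g (π y).t + Ψ y) ∧
      (∀ r t₁ t₀, OneR stp (π y) r t₁ t₀ →
        Xs μ B { (π y) with t' := stp.x (π y) t₁ t₀ } + (l.map fun e => e.1 * Ψ e.2).sum ≤
          K * (ν (stp.x (π y) t₁ t₀).g + pm (fun d => ν d.g) (π y).t (stp.c (π y) t₁ t₀)) +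
          K₂ * (ν (stp.x (π y) t₁ t₀).g * Real.sqrt (ν (π y).t.g / ν (π y).t'.g)) +
          g (π y).t' + Ψ y) ∧
      (∀ r t₁ t₀ r' t₁' t₀', Jnt stp (π y) r t₁ t₀ r' t₁' t₀' →
        Xs μ B { (π y) with t := t₁, t' := t₀' } + Xs μ B { (π y) with t := t₀, t' := t₁' } +
            (l.map fun e => e.1 * Ψ e.2).sum ≤
          K * (pm (fun d => ν d.g) t₁ t₁' + pm (fun d => ν d.g) t₀ t₀') +
          g (π y).t + g (π y).t' + Ψ y)) :
    ∀ y, Iv y → WS stp (eX stp μ B) (π y) ≤
      K * (ν (π y).t.g + ν (π y).t'.g) + 2 * K₂ * Real.sqrt (ν (π y).t.g * ν (π y).t'.g) +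
        (L (π y).t + L (π y).t') + Ψ y := by
  intro y hy
  have hmass : ∀ y, Iv y → MassN (fun d => ν d.g) (π y).t ∧ MassN (fun d => ν d.g) (π y).t' := by
    intro y hy
    obtain ⟨n, hn⟩ := hInv y hy
    exact ⟨massN_of_side hn.L, massN_of_side hn.R⟩
  have key : WS stp (eX stp μ B) (π y) ≤ K * PhK (fun d => ν d.g) (π y) +
      2 * K₂ * PhS (fun d => ν d.g) (π y) + PhG L (π y) + Ψ y := by
    refine W_super_rel (Iv := Iv) (π := π) (Φ := fun y => K * PhK (fun d => ν d.g) (π y) +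
      2 * K₂ * PhS (fun d => ν d.g) (π y) + PhG L (π y) + Ψ y)
      (fun s => nxt_rank stp s) (fun y hy => ?_) y hy
    obtain ⟨l, hl, hc, hO, hOL, hOR, hJ⟩ := H y hy
    refine ⟨l, hl, fun e he => ⟨hc e he, ?_⟩, ?_⟩
    · obtain ⟨n, hn⟩ := hInv y hy
      have h1 : (e.1, π e.2) ∈ nxt stp (π y) := by
        rw [← hl]; exact List.mem_map.2 ⟨e, he, rfl⟩
      exact (hn.next0 (stp := stp) _ (mem_nxt.1 h1).1).2
    · have es : (l.map fun e => e.1 * (K * PhK (fun d => ν d.g) (π e.2) +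
          2 * K₂ * PhS (fun d => ν d.g) (π e.2) + PhG L (π e.2) + Ψ e.2)).sum =
          K * ((nxt0 stp (π y)).map fun q => q.1 * PhK (fun d => ν d.g) q.2).sum +
          2 * K₂ * ((nxt0 stp (π y)).map fun q => q.1 * PhS (fun d => ν d.g) q.2).sum +
          ((nxt0 stp (π y)).map fun q => q.1 * PhG L q.2).sum +
          (l.map fun e => e.1 * Ψ e.2).sum := by
        rw [← nxt_sum, ← nxt_sum, ← nxt_sum, ← sum_proj hl, ← sum_proj hl, ← sum_proj hl]
        clear hl hc hO hOL hOR hJ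
        induction l with
        | nil => simp
        | cons a l ih => simp only [List.map_cons, List.sum_cons, ih]; ring
      rw [es]
      have d1 : ∀ F : St Λ κ → ℝ, ((nxt0 stp (π y)).map fun q => q.1 * F q.2).sum =
          F (π y) - decr stp F (π y) := by
        intro F; unfold decr; ring
      rw [d1, d1, d1, eX_eq]
      obtain ⟨m1, m1'⟩ := hmass y hy
      obtain ⟨g1, g1'⟩ := hL y hy
      rcases step_cases hns (π y) with ⟨r, t₁, t₀, h⟩ | ⟨r, t₁, t₀, h⟩ |
        ⟨r, t₁, t₀, r', t₁', t₀', h⟩ | ⟨h, hc⟩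
      · rw [h.cr]
        simp only [List.map_cons, List.map_nil, List.sum_cons, List.sum_nil, add_zero]
        have hd := hdL y hy r t₁ t₀ h
        have a1 := mul_le_mul_of_nonneg_left (PhK_L h hd m1) hK
        have a2 := mul_le_mul_of_nonneg_left (PhS_L h hd m1 m1'.nn) hK₂
        have a3 := PhG_L h g1
        have a4 : 0 ≤ L (stp.x (π y) t₁ t₀) := by
          have h2 := h.et
          rw [h2] at g1
          rcases stp.c_or (π y) t₁ t₀ with ⟨-, hx⟩ | ⟨-, hx⟩ <;> rw [hx]
          · exact g1.2.1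
          · exact g1.1
        have a5 := hOL r t₁ t₀ h
        linarith
      · rw [h.cr]
        simp only [List.map_cons, List.map_nil, List.sum_cons, List.sum_nil, add_zero]
        have hd := hdR y hy r t₁ t₀ h
        have a1 := mul_le_mul_of_nonneg_left (PhK_R h hd m1') hK
        have a2 := mul_le_mul_of_nonneg_left (PhS_R h hd m1' m1.nn) hK₂
        have a3 := PhG_R h g1'
        have a4 : 0 ≤ L (stp.x (π y) t₁ t₀) := by
          have h2 := h.et
          rw [h2] at g1'
          rcases stp.c_or (π y) t₁ t₀ with ⟨-, hx⟩ | ⟨-, hx⟩ <;> rw [hx]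
          · exact g1'.2.1
          · exact g1'.1
        have a5 := hOR r t₁ t₀ h
        linarith
      · rw [h.cr]
        simp only [List.map_cons, List.map_nil, List.sum_cons, List.sum_nil, add_zero]
        have a1 := mul_le_mul_of_nonneg_left (PhK_J h m1 m1') hK
        have a2 := mul_nonneg hK₂ (PhS_J h m1 m1')
        have a3 := PhG_J h g1 g1'
        have a5 := hJ r t₁ t₀ r' t₁' t₀' h
        linarith
      · rw [hc]
        simp only [List.map_nil, List.sum_nil]
        have a1 := mul_nonneg hK (PhK_oth h m1 m1')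
        have a2 := mul_nonneg hK₂ (PhS_oth h m1 m1')
        have a3 := PhG_oth h g1 g1'
        have a5 := hO h
        linarith
  obtain ⟨m1, m1'⟩ := hmass y hy
  have k1 : PhK (fun d => ν d.g) (π y) ≤ ν (π y).t.g + ν (π y).t'.g := by
    rw [PhK_pm]
    have := pm_nn (m := fun d : DT Λ κ => ν d.g) m1.nn m1'.nn
    linarith
  have k2 := PhS_le (fun d => ν d.g) (π y)
  rw [← Real.sqrt_mul m1.nn] at k2
  have k3 := mul_le_mul_of_nonneg_left k1 hK
  have k4 := mul_le_mul_of_nonneg_left k2 (mul_nonneg two_pos.le hK₂)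
  have k5 : PhG L (π y) = L (π y).t + L (π y).t' := by unfold PhG; ring
  linarith

end Crest.Agent.R4P.CrossSum29
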