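import Crest.Agent.R4P.SkelMain_2
import Crest.Agent.R4P.IMI194

/-!
R4 (S0004), POWERS: port of helper189's `R4/SkelNodeA189` (helper2): **facts at the nodes of a context**,
for the assembly of the node errors.

* `All_leafs`, `All_CxOk` : leaf data and factors of the leaves at all nodes.
* `ctx_mean` : the weights of a context have mean between `1/2` and `2` times `φ(w)/w`;
* `ctx_tM`, `ctx_tM_mono` : raw masses;
* `ctx_sum_mI` : at every node the integral masses are at most `4` times the raw masses.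
-/

set_option autoImplicit false

open MeasureTheory Filter

namespace Crest.Agent.R4P.Skel189

open Crest.Agent.R4P.Cnt588 Crest.Agent.R4.Max709 Crest.Agent.R4.Tour104 Crest.Agent.R4P.Item758
open Crest.Agent.R4P.Bld532 Crest.Agent.R4P.PrunePar33 Crest.Agent.R4P.PruneSep532
open Crest.Agent.R4P.Data758 Crest.Agent.R4P.OmData532 Crest.Agent.R4P.LfDat734
open Crest.Agent.R4P.W363 Crest.Agent.R4P.WPex189 Crest.Agent.R4P.Asm532 Crest.Agent.R4P.Walk560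
open Crest.Agent.R4.Soft104 Crest.Agent.R4P.Frame758
open Crest.Agent.R4P.Step588 Crest.Agent.R4P.Chi464
open Crest.Agent.R4P.Om532 Crest.Agent.R4P.OmSt532 Crest.Agent.R4.Ovl560 Crest.Agent.R4.LF363
open Crest.Agent.R4.Piece464 Crest.Agent.R4P.GInst194 Crest.Agent.R4P.IMI194
open Crest.Agent.R4.ClosG758

/-- the leaf data of the nodes are leaf data of the root -/
theorem All_leafs (t : IT) : ∀ s : NS, All (fun u τ => leafs u.B u.A τ ⊆ leafs s.B s.A t) s t := by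
  induction t with
  | leaf S => intro s; exact Finset.Subset.refl _
  | br p Sp t₁ t₀ ih₁ ih₀ =>
    intro s
    refine ⟨Finset.Subset.refl _, All.mono (fun u τ h => ?_) (ih₁ _), All.mono (fun u τ h => ?_) (ih₀ _)⟩
    · exact h.trans Finset.subset_union_left
    · exact h.trans Finset.subset_union_right
  | add b t₁ t₀ ih₁ ih₀ =>
    intro s
    refine ⟨Finset.Subset.refl _, All.mono (fun u τ h => ?_) (ih₁ _), All.mono (fun u τ h => ?_) (ih₀ _)⟩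
    · exact h.trans Finset.subset_union_left
    · exact h.trans Finset.subset_union_right
  | up b Sp t ih =>
    intro s
    exact ⟨Finset.Subset.refl _, ih ⟨b, s.c, s.A, s.B⟩⟩
  | pl b t ih =>
    intro s
    exact ⟨Finset.Subset.refl _, ih ⟨b + 1, s.c, s.A * b, s.B⟩⟩
  | far b t₁ t₀ ih₁ ih₀ =>
    intro s
    refine ⟨Finset.Subset.refl _, All.mono (fun u τ h => ?_) (ih₁ _), All.mono (fun u τ h => ?_) (ih₀ _)⟩
    · exact h.trans Finset.subset_union_left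
    · exact h.trans Finset.subset_union_right

/-- the factors of the leaves at all the nodes -/
theorem All_CxOk (cx : Finset ℕ → ℝ) (t : IT) : ∀ s : NS, Fit s.B s.A t → CxOk cx s.c t →
    All (fun u τ => CxOk cx u.c τ) s t := by
  induction t with
  | leaf S => intro s _ h; exact h
  | br p Sp t₁ t₀ ih₁ ih₀ =>
    intro s hF h
    obtain ⟨c1, c0⟩ := CxOk.br hF.2.2.1 h
    exact ⟨h, ih₁ ⟨p, s.c / (1 - 1 / (p : ℝ)), s.A * p, s.B⟩ hF.2.2.2.1 c1,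
      ih₀ ⟨p, s.c * p, s.A, s.B * p⟩ hF.2.2.2.2 c0⟩
  | add b t₁ t₀ ih₁ ih₀ =>
    intro s hF h
    obtain ⟨c1, c0⟩ := CxOk.add hF.1 h
    exact ⟨h, ih₁ ⟨b + 1, s.c, s.A, s.B⟩ hF.2.1 c1, ih₀ ⟨b + 1, s.c, s.A, s.B⟩ hF.2.2 c0⟩
  | up b Sp t ih => intro s hF h; exact ⟨h, ih ⟨b, s.c, s.A, s.B⟩ hF h⟩
  | pl b t ih => intro s hF h; exact ⟨h, ih ⟨b + 1, s.c, s.A * b, s.B⟩ hF.2.2 h⟩
  | far b t₁ t₀ ih₁ ih₀ =>
    intro s hF h
    obtain ⟨c1, c0⟩ := CxOk.far hF.1 h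
    exact ⟨h, ih₁ ⟨b + 1, s.c, s.A, s.B⟩ hF.2.1 c1, ih₀ ⟨b + 1, s.c, s.A, s.B⟩ hF.2.2 c0⟩

/-- the factors of the nodes are positive -/
theorem All_cpos (t : IT) : ∀ s : NS, t.Ok s.n → 0 < s.c → All (fun u _ => 0 < u.c) s t := by
  induction t with
  | leaf S => intro s _ h; exact h
  | br p Sp t₁ t₀ ih₁ ih₀ =>
    intro s hO h
    have hp : p.Prime := hO.1
    have hp2 : (2 : ℝ) ≤ p := by exact_mod_cast hp.two_le
    have h1 : (0 : ℝ) < 1 - 1 / (p : ℝ) := by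
      have : 1 / (p : ℝ) ≤ 1 / 2 := one_div_le_one_div_of_le (by norm_num) hp2
      linarith
    exact ⟨h, ih₁ ⟨p, s.c / (1 - 1 / (p : ℝ)), s.A * p, s.B⟩ hO.2.2.2.2.1 (div_pos h h1),
      ih₀ ⟨p, s.c * p, s.A, s.B * p⟩ hO.2.2.2.2.2 (mul_pos h (by linarith))⟩
  | add b t₁ t₀ ih₁ ih₀ =>
    intro s hO h
    exact ⟨h, ih₁ ⟨b + 1, s.c, s.A, s.B⟩ hO.2.2.2.1 h, ih₀ ⟨b + 1, s.c, s.A, s.B⟩ hO.2.2.2.2 h⟩
  | up b Sp t ih => intro s hO h; exact ⟨h, ih ⟨b, s.c, s.A, s.B⟩ hO.2.2.2 h⟩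
  | pl b t ih => intro s hO h; exact ⟨h, ih ⟨b + 1, s.c, s.A * b, s.B⟩ hO.2.2 h⟩
  | far b t₁ t₀ ih₁ ih₀ =>
    intro s hO h
    exact ⟨h, ih₁ ⟨b + 1, s.c, s.A, s.B⟩ hO.2.2.2.1 h, ih₀ ⟨b + 1, s.c, s.A, s.B⟩ hO.2.2.2.2 h⟩

/-- the factors of the leaves of a context -/
noncomputable abbrev Ctx.cx {N : Num} {γ : ℝ} {p0 P₀ : ℕ} (X : Ctx N γ p0 P₀) : Finset ℕ → ℝ :=
  clf X.c.t 1

/-- pruned items of a context: `Pr` -/
lemma Ctx.pr' {N : Num} {γ : ℝ} {p0 P₀ : ℕ} (X : Ctx N γ p0 P₀) {q : ℕ} (hq : q ∈ X.S') :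
    Pr X.c.t p0 (N.C1 + N.c2) N.B q := by
  rw [X.ht]; exact X.prn.pr q hq

/-- **means of the weights of a context** -/
theorem ctx_mean (N : Num) : ∃ p₁ : ℕ, ∀ p0 ≥ p₁, ∀ (γ : ℝ) (P₀ : ℕ), 2 ≤ P₀ →
    ∀ X : Ctx N γ p0 P₀, (∀ q ∈ X.S', ∀ z,
        1 / 2 * (((q / pp X.c.t q).totient : ℝ) / ((q / pp X.c.t q : ℕ) : ℝ)) ≤
          mnw (q / pp X.c.t q) (X.c.om q z)) ∧
      ∀ q ∈ X.S, ∀ z, mnw (q / pp X.c.t q) (X.c.om q z) ≤
        2 * (((q / pp X.c.t q).totient : ℝ) / ((q / pp X.c.t q : ℕ) : ℝ)) := by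
  obtain ⟨p1, h1⟩ := omT_cond4 N.B N.C1 N.c2 N.hC1 N.hc2 N.hB
  obtain ⟨p4, h4⟩ := ctx_card N
  obtain ⟨p5, h5⟩ := LeafA734.rt_half N.B (N.C1 + N.c2) (by
    have := N.hB; have := N.hC1; have := N.hc2; linarith)
  refine ⟨p1 + p4 + p5, fun p0 hp0 γ P₀ hP X => ?_⟩
  have ht : X.c.t = bld (Bld532.par N.B N.C1 N.c2 p0) (w X.ψ) (top X.S) 1 1 X.S := X.ht
  have H := h1 p0 (by omega) X.ψ X.S P₀ hP X.sys (top X.S) X.S' X.prn.sub X.prn.pr
  rw [← ht] at H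
  have hH : ∀ z, _ := fun z => H (X.Tz z) X.th X.ph X.lab
    (fun q hq b hb => h4 p0 (by omega) γ P₀ hP X z q hq b hb)
  refine ⟨fun q hq z => ?_, fun q hq z => ?_⟩
  · rw [X.om_eq]
    exact (hH z).2.2.2.1 q hq
  · by_cases hq' : q ∈ X.S'
    · rw [X.om_eq]
      have hd := X.ok.dvd q (by rw [X.hS]; exact hq)
      have hq0 := X.sys.pos q hq
      refine omT_mean_le (Nat.div_pos (Nat.le_of_dvd hq0 hd) (Nat.pos_of_dvd_of_pos hd hq0)) ?_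
      exact (h5 p0 (by omega) X.c.t q (X.pr' hq') fun b hb =>
        (cols_of_All _ _ _ _ X.nodes q b hb).2.1).1
    · have e : mnw (q / pp X.c.t q) (X.c.om q z) = 0 := by
        unfold mnw
        rw [Finset.sum_eq_zero fun a _ => X.om_zero hq' z _, zero_div]
      rw [e]
      positivity

section
variable {N : Num} {γ : ℝ} {p0 P₀ : ℕ} (X : Ctx N γ p0 P₀)

/-- the nodes of the tree of a context fit -/
theorem ctx_fit : All (fun u τ => Fit u.B u.A τ) ⟨top X.S, 1, 1, 1⟩ X.c.t :=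
  All.mono (fun _ _ h => Fit_of_NodeOk h) (All_All _ _ X.nodes)

/-- the factors of the leaves at the nodes of a context -/
theorem ctx_CxOk : All (fun u τ => CxOk X.cx u.c τ) ⟨top X.S, 1, 1, 1⟩ X.c.t :=
  All_CxOk X.cx X.c.t ⟨top X.S, 1, 1, 1⟩ X.fit (CxOk.clf X.c.t 1)

/-- **the raw masses at the nodes of a context** -/
theorem ctx_tM (j₀ : X.c.Lam) :
    All (fun u τ => ∀ A : Finset X.c.Lam,
      tM X.c.D (wt X.c.D) X.cx j₀ (leafs 1 1 X.c.t) (tG X.c.D (leafs 1 1 X.c.t) u.B u.A τ) A =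
        u.c * ∑ j ∈ A.filter (fun j => X.c.D.it j ∈ τ.items), wt X.c.D j)
      ⟨top X.S, 1, 1, 1⟩ X.c.t := by
  refine All.mono (fun u τ hh A => ?_)
    ((ctx_fit X).and ((All_leafs X.c.t ⟨top X.S, 1, 1, 1⟩).and (ctx_CxOk X)))
  obtain ⟨hF, hlf, hcx⟩ := hh
  exact tM_eq X.c.D (wt X.c.D) j₀ hF hlf hcx A

lemma wt_nonneg (j : X.c.Lam) : 0 ≤ wt X.c.D j :=
  mul_nonneg (sub_nonneg.2 (X.ok.bpm _ (Cf.mem_S j) (Cf.r_pos j) (Nat.le_succ _))) (by positivity)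

lemma cx_nonneg (S : Finset ℕ) : 0 ≤ X.cx S := clf_nonneg X.c.t zero_le_one S

/-- raw masses are nonnegative -/
theorem tM_nonneg (j₀ : X.c.Lam) {r : TrG X.c.Lam (Lb (WL X.c.Lam) (leafs 1 1 X.c.t))} (hr : r.Ok)
    (A : Finset X.c.Lam) :
    0 ≤ tM X.c.D (wt X.c.D) X.cx j₀ (leafs 1 1 X.c.t) r A :=
  Crest.Agent.R4P.Item758.muR_nonneg
    (X.c.D.dec_nonneg (fun j => wt_nonneg X j) (fun S => cx_nonneg X S) _) j₀ hr A

/-- the factors of the nodes are positive -/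
theorem ctx_cpos : All (fun u _ => 0 < u.c) ⟨top X.S, 1, 1, 1⟩ X.c.t :=
  All_cpos X.c.t ⟨top X.S, 1, 1, 1⟩ X.tOk one_pos

/-- raw masses are nonnegative and monotone in the population -/
theorem ctx_tM_mono (j₀ : X.c.Lam) :
    All (fun u τ => ∀ A A' : Finset X.c.Lam, A ⊆ A' →
      0 ≤ tM X.c.D (wt X.c.D) X.cx j₀ (leafs 1 1 X.c.t) (tG X.c.D (leafs 1 1 X.c.t) u.B u.A τ) A ∧
      tM X.c.D (wt X.c.D) X.cx j₀ (leafs 1 1 X.c.t) (tG X.c.D (leafs 1 1 X.c.t) u.B u.A τ) A ≤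
      tM X.c.D (wt X.c.D) X.cx j₀ (leafs 1 1 X.c.t) (tG X.c.D (leafs 1 1 X.c.t) u.B u.A τ) A')
      ⟨top X.S, 1, 1, 1⟩ X.c.t := by
  refine All.mono (fun u τ hh A A' hA => ?_) ((ctx_tM X j₀).and (ctx_cpos X))
  obtain ⟨hh, hc⟩ := hh
  rw [hh A, hh A']
  refine ⟨mul_nonneg hc.le (Finset.sum_nonneg fun j _ => wt_nonneg X j), ?_⟩
  exact mul_le_mul_of_nonneg_left (Finset.sum_le_sum_of_subset_of_nonneg
    (Finset.filter_subset_filter _ hA) fun j _ _ => wt_nonneg X j) hc.le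

end

/-- **integral masses and raw masses at the nodes of a context** -/
theorem ctx_sum_mI (N : Num) : ∃ p₁ : ℕ, ∀ p0 ≥ p₁, ∀ (γ : ℝ) (P₀ : ℕ), 2 ≤ P₀ →
    ∀ X : Ctx N γ p0 P₀, ∀ j₀ : X.c.Lam,
      All (fun u τ => ∀ A : Finset X.c.Lam,
        ∑ j ∈ A, mI (tD X.c.D (leafs 1 1 X.c.t) X.c.sp u.B u.A τ) j ≤
          4 * tM X.c.D (wt X.c.D) X.cx j₀ (leafs 1 1 X.c.t)
            (tG X.c.D (leafs 1 1 X.c.t) u.B u.A τ) A) ⟨top X.S, 1, 1, 1⟩ X.c.t := by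
  obtain ⟨p5, h5⟩ := LeafA734.rt_half N.B (N.C1 + N.c2) (by
    have := N.hB; have := N.hC1; have := N.hc2; linarith)
  refine ⟨p5, fun p0 hp0 γ P₀ hP X j₀ => ?_⟩
  have hitems : ∀ q, q ∈ X.c.t.items ↔ q ∈ X.S := fun q => by rw [X.items]
  have hroot : Mn (X.c.D.par (leafs 1 1 X.c.t)) 4 1 1 1 X.c.t := by
    refine Mn_root X.tOk X.fit (by rw [X.ht']; exact bld_PlOk _ _ _ _ _ _ _) (S' := X.S')
      (T' := X.Tc) (th := X.th) (ph := X.ph) (lab := X.lab) ?_ ?_ ?_ ?_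
    · intro j _ a
      have := X.om_le j.1.1 (X.c.bp j.1.1 j.1.2) a
      rw [X.hS'] at this
      exact this
    · intro j _ a
      exact (X.ok.wt _ (Cf.mem_S j) _).nonneg a
    · intro q hq hq'
      exact h5 p0 (by omega) X.c.t q (X.pr' hq') fun b hb =>
        (cols_of_All _ _ _ _ X.nodes q b hb).2.1
    · intro q hq
      exact X.ok.dvd q (by rw [X.hS, ← X.items]; exact hq)
  have hall := Mn.all X.c.t ⟨top X.S, 1, 1, 1⟩ X.tOk X.fit hroot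
  refine All.mono (fun u τ hh A => ?_) ((ctx_NDt X).and (hall.and ((ctx_fit X).and
    ((All_leafs X.c.t ⟨top X.S, 1, 1, 1⟩).and (ctx_CxOk X)))))
  obtain ⟨hND, hMn, hF, hlf, hcx⟩ := hh
  have hB : 0 < u.B := Nat.pos_of_ne_zero hND.bk.sfB.ne_zero
  have hW : (X.c.D.par (leafs 1 1 X.c.t)).Wts u.A τ := by
    intro j hj
    rw [← hND.self.pp _ hj]
    exact X.ok.wt _ (Cf.mem_S j) _
  exact sum_mI_le X.c.D (sp := X.c.sp) j₀
    (fun j => X.ok.bpm _ (Cf.mem_S j) (Cf.r_pos j) (Nat.le_succ _)) hlf hB hcx hF hW hMn A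

end Crest.Agent.R4P.Skel189
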