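import Crest.Agent.R4P.StratH_36
import Crest.Agent.R4P.SkelNodeA_2

/-!
R4 (S0004), powers, helper36: **the node facts `NF` and the parameters `PG` of the strategy at the nodes
of a context**: the masses of a context are the weights of the items.
-/

set_option autoImplicit false
set_option linter.unusedSectionVars false
set_option linter.unusedVariables false
open MeasureTheory Filter Set

namespace Crest.Agent.R4P.CtxNF36

open Crest.Agent.R4.Tour104 Crest.Agent.R4.Tour758 Crest.Agent.R4.Avg758 Crest.Agent.R4.Clos758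
open Crest.Agent.R4.ClosL758 Crest.Agent.R4.ClosG758 Crest.Agent.R4.ClosR758
open Crest.Agent.R4P.Cnt588 Crest.Agent.R4P.Walk560 Crest.Agent.R4P.Item758
open Crest.Agent.R4P.Bld532 (NS All NodeOk Bk dv nd mem_dv mem_nd Ws_mono Ws_nonneg)
open Crest.Agent.R4 Crest.Agent.R4P
open Crest.Agent.R4P.StratN36 Crest.Agent.R4P.StratX36
open Crest.Agent.R4P.Skel189 Crest.Agent.R4P.Frame758 Crest.Agent.R4P.Data758
open Crest.Agent.R4.Soft104 Crest.Agent.R4.Fam464

/-- the parameters of the builder of a context -/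
theorem par_PG (N : Skel189.Num) : ∃ p₁ : ℕ, ∀ p0 ≥ p₁, ∀ (W : ℕ → ℝ), (∀ q, 0 ≤ W q) →
    PG (Bld532.par N.B N.C1 N.c2 p0) W := by
  have h1 : ∀ᶠ x : ℝ in atTop, Real.log x ^ N.B ≤ 1 / 16 * x := by
    have := (isLittleO_log_rpow_rpow_atTop N.B (one_pos : (0:ℝ) < 1)).bound
      (by norm_num : (0:ℝ) < 1 / 16)
    filter_upwards [this, eventually_ge_atTop (1:ℝ)] with x hx h1
    rw [Real.rpow_one, Real.norm_of_nonneg (by linarith : (0:ℝ) ≤ x)] at hx
    exact (le_abs_self _).trans hx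
  obtain ⟨x₀, hx₀⟩ := eventually_atTop.1 h1
  refine ⟨max 2 (⌈x₀⌉₊), fun p0 hp0 W hW => ⟨hW, Bld532.par_sg_nonneg _ _ _ _, ?_, ?_⟩⟩
  · intro k hk hpk
    have hpk' : p0 < k := hpk
    have hk2 : 2 ≤ p0 := (le_max_left _ _).trans hp0
    have hk0 : (0:ℝ) < k := by exact_mod_cast (by omega : 0 < k)
    have h2 : x₀ ≤ k := by
      have : ⌈x₀⌉₊ ≤ k := ((le_max_right _ _).trans hp0).trans hpk'.le
      exact (Nat.le_ceil x₀).trans (by exact_mod_cast this)
    have h3 := hx₀ k h2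
    show 8 * (Real.log k ^ N.B / k) < 1
    rw [mul_div_assoc', div_lt_one hk0]
    linarith
  · intro k hk hpk
    have hpk' : p0 < k := hpk
    have hk2 : 2 ≤ p0 := (le_max_left _ _).trans hp0
    show 0 < Real.log k ^ (-N.C1)
    refine Real.rpow_pos_of_pos (Real.log_pos ?_) _
    exact_mod_cast (by omega : 1 < k)

/-! ### reading the missing product -/

/-- the product of the missing primes of a node is read from the label of its leftmost leaf -/
def rdB {Λ κ₀ : Type*} {X : Finset (ℕ × ℕ × Finset ℕ)} (j₀ : Λ) : DT Λ (Lb κ₀ X) → ℕ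
  | .leaf r _ => match (r j₀).2 with
    | some x => x.1.1
    | none => 0
  | .br _ _ _ t₁ _ _ _ _ => rdB j₀ t₁
  | .add _ _ t₁ _ => rdB j₀ t₁
  | .up _ _ t => rdB j₀ t

lemma rdB_strip {Λ κ₀ : Type*} {X : Finset (ℕ × ℕ × Finset ℕ)} (j₀ : Λ) (t : DT Λ (Lb κ₀ X)) :
    rdB j₀ (Strip29.strip t) = rdB j₀ t := by
  induction t with
  | leaf r f => rfl
  | br b w r t₁ t₀ v B G ih₁ ih₀ => exact ih₁
  | add b r t₁ t₀ ih₁ ih₀ => exact ih₁
  | up b Sp t ih => exact ih

lemma rdB_toDT {Λ κ₀ : Type*} [Fintype Λ] [DecidableEq Λ] [Fintype κ₀] [DecidableEq κ₀]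
    {X : Finset (ℕ × ℕ × Finset ℕ)} (D : Par0 Λ κ₀) (j₀ : Λ) (sp : ℕ → Finset Λ) (t : IT) :
    ∀ b pr : ℕ, leafs b pr t ⊆ X → rdB j₀ ((D.par X).toDT sp b pr t) = b := by
  induction t with
  | leaf S =>
    intro b pr h
    have hX : (b, pr, S) ∈ X := h (Finset.mem_singleton_self _)
    show (match (if h : (b, pr, S) ∈ X then some (⟨_, h⟩ : {x // x ∈ X}) else none) with
      | some x => x.1.1
      | none => 0) = b
    rw [dif_pos hX]
  | br p Sp t₁ t₀ ih₁ ih₀ => intro b pr h; exact ih₁ _ _ (Finset.subset_union_left.trans h)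
  | add p t₁ t₀ ih₁ ih₀ => intro b pr h; exact ih₁ _ _ (Finset.subset_union_left.trans h)
  | up b' Sp t ih => intro b pr h; exact ih _ _ h
  | pl p t ih => intro b pr h; exact ih _ _ h
  | far p t₁ t₀ ih₁ ih₀ => intro b pr h; exact ih₁ _ _ (Finset.subset_union_left.trans h)

section
variable {N : Skel189.Num} {γ : ℝ} {p0 P₀ : ℕ} (X : Ctx N γ p0 P₀)

/-- **the raw masses of the pieces of an item sum up to its weight** -/
theorem ctx_wt {q : ℕ} (hq : q ∈ X.S) :
    ∑ j ∈ Finset.univ.filter (fun j => X.c.D.it j = q), wt X.c.D j = w X.ψ q := by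
  have e : ∑ j ∈ Finset.univ.filter (fun j => X.c.D.it j = q), wt X.c.D j =
      (∑ j ∈ Finset.univ.filter (fun j : X.c.Lam => j.1.1 = q), (X.c.D.be j - X.c.D.al j)) *
        ((Nat.totient q : ℝ) / (q : ℝ)) := by
    rw [Finset.sum_mul]
    refine Finset.sum_congr rfl fun j hj => ?_
    have : X.c.D.it j = q := (Finset.mem_filter.1 hj).2
    unfold wt
    rw [this]
  rw [e]
  have hψ := X.hr q
  by_cases hr : 0 < X.c.r q
  · rw [X.ok.len (by rw [X.hS]; exact hq) hr, hψ]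
    unfold w
    ring
  · have h0 : X.ψ q = 0 := by
      have h1 := X.sys.nonneg q
      rw [hψ] at hr
      linarith
    have e2 : Finset.univ.filter (fun j : X.c.Lam => j.1.1 = q) = ∅ := by
      rw [Finset.filter_eq_empty_iff]
      intro j _ hj
      exact hr (hj ▸ Cf.r_pos j)
    rw [e2, Finset.sum_empty, zero_mul]
    unfold w
    rw [h0, mul_zero]

/-- masses of sets of items at a node -/
theorem ctx_mass (S : Finset ℕ) (hS : S ⊆ X.S) (Q : ℕ → Prop) [DecidablePred Q] :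
    ∑ j ∈ (Finset.univ.filter (fun j => Q (X.c.D.it j))).filter (fun j => X.c.D.it j ∈ S),
      wt X.c.D j = Ws (w X.ψ) (S.filter Q) := by
  unfold Ws
  rw [← Finset.sum_congr rfl fun q hq => ctx_wt X (hS (Finset.mem_filter.1 hq).1)]
  rw [Finset.filter_filter]
  have e : Finset.univ.filter (fun j => Q (X.c.D.it j) ∧ X.c.D.it j ∈ S) =
      (S.filter Q).biUnion fun q => Finset.univ.filter (fun j => X.c.D.it j = q) := by
    ext j
    simp only [Finset.mem_filter, Finset.mem_univ, true_and, Finset.mem_biUnion]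
    constructor
    · rintro ⟨h1, h2⟩; exact ⟨_, ⟨h2, h1⟩, rfl⟩
    · rintro ⟨q, ⟨h1, h2⟩, h3⟩; rw [h3]; exact ⟨h2, h1⟩
  rw [e, Finset.sum_biUnion]
  intro a _ b _ hab
  rw [Function.onFun, Finset.disjoint_left]
  intro j h1 h2
  exact hab ((Finset.mem_filter.1 h1).2.symm.trans (Finset.mem_filter.1 h2).2)

/-- **node facts of a context** -/
theorem ctx_NF (j₀ : X.c.Lam) :
    All (NF (X.c.D.par (leafs 1 1 X.c.t)) X.par (w X.ψ)
      (tM X.c.D (wt X.c.D) X.cx j₀ (leafs 1 1 X.c.t)) (rdB j₀)) ⟨top X.S, 1, 1, 1⟩ X.c.t := by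
  have hsub : All (fun _ τ => τ.items ⊆ X.S) ⟨top X.S, 1, 1, 1⟩ X.c.t := by
    have := Step588.All_it (t' := X.c.t) X.c.t ⟨top X.S, 1, 1, 1⟩ (Finset.Subset.refl _)
    refine All.mono (fun u τ h => ?_) this
    rw [← X.items]; exact h
  refine All.mono (fun u τ hh => ?_)
    ((ctx_tM X j₀).and ((ctx_cpos X).and (X.nodes.and (hsub.and
      (Skel189.All_leafs X.c.t ⟨top X.S, 1, 1, 1⟩)))))
  obtain ⟨h1, h2, h3, h4, h5⟩ := hh
  refine ⟨h3, h2, fun Q _ => ?_, fun sp => rdB_toDT _ _ _ _ _ _ h5⟩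
  have := h1 (Finset.univ.filter fun j => Q (X.c.D.it j))
  rw [ctx_mass X τ.items h4 Q] at this
  exact this

end

end Crest.Agent.R4P.CtxNF36
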