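import Crest.Agent.R4P.LfDat734
import Crest.Agent.R4P.WPex189
import Crest.Agent.R4P.ChiDef464
import Crest.Agent.R4P.Data758
import Crest.Agent.R4P.WalkIT579

/-!
R4 (S0004), powers, port of helper189's `Skel189` (helper393): **THE CONTEXT** of the main theorem for
all systems (no squarefree hypothesis).

`Num`: all numerical parameters (`fac` : the factorisation used by the closed exclusion, may depend on
the system).  `Ctx N γ p0 P₀`: one system together with everything that has been constructed for it.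
-/

set_option autoImplicit false

namespace Crest.Agent.R4P.Skel189

open Crest.Agent.R4P.Cnt588 Crest.Agent.R4.Max709 Crest.Agent.R4.Tour104 Crest.Agent.R4P.Item758
open Crest.Agent.R4P.Bld532 Crest.Agent.R4P.PrunePar33 Crest.Agent.R4P.PruneSep532
open Crest.Agent.R4P.Data758 Crest.Agent.R4P.OmData532 Crest.Agent.R4P.LfDat734
open Crest.Agent.R4P.W363 Crest.Agent.R4P.WPex189 Crest.Agent.R4P.Asm532 Crest.Agent.R4P.Walk560
open Crest.Agent.R4.Soft104 Crest.Agent.R4P.Frame758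
open Crest.Agent.R4P.Fac393 (Fac)

/-- **numerical parameters** -/
structure Num where
  /-- `up` rule `(log k)^B / k` -/
  B : ℝ
  /-- light leaves `(log k)^(-C1)` -/
  C1 : ℝ
  /-- heavy leaves `(log k)^c2` -/
  c2 : ℝ
  /-- exponents of the two path functionals of the SEP nodes and of the tails -/
  a : ℝ
  a' : ℝ
  A : ℝ
  /-- thinness of the cells at the columns (first argument: `p0`) -/
  thr : ℕ → ℕ → ℝ
  /-- depth of the cells at the columns, may depend on the system `(p0, ψ, S)` -/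
  dep : ℕ → (ℕ → ℝ) → Finset ℕ → ℕ → ℕ
  /-- accuracy thresholds at the columns (`0` : every label is used) -/
  lam : ℕ → (ℕ → ℝ) → Finset ℕ → ℕ → ℝ
  /-- further pruned set -/
  S2 : ℕ → (ℕ → ℝ) → Finset ℕ → Finset ℕ
  /-- factorisation (exponent blocks) of the closed exclusion -/
  fac : ℕ → (ℕ → ℝ) → Finset ℕ → Fac
  /-- tags of the worlds at the columns (exponent blocks) and at the leaves -/
  tg : ℕ → (ℕ → ℝ) → Finset ℕ → ℕ → ℕ → ℕ
  tgL : ℕ → (ℕ → ℝ) → Finset ℕ → ℕ → ℕ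
  /-- thinness and depth of the cells at the leaves (first argument: `p0`) -/
  thrL : ℕ → ℕ → ℝ
  depL : ℕ → ℕ → ℕ
  /-- fineness of the pieces of the system `(ψ, S)`, may depend on everything -/
  d1 : ℕ → (ℕ → ℝ) → Finset ℕ → ℝ
  hd1 : ∀ p0 ψ S, 0 < d1 p0 ψ S
  hC1 : 0 ≤ C1
  hc2 : 0 ≤ c2
  ha : 0 ≤ a
  hA : 1 ≤ A
  hB : 2 * (C1 + c2) + 5 ≤ B
  hB' : A + a + 2 * C1 + c2 + 2 ≤ B
  ha' : A + C1 + 2 * c2 + 2 ≤ a'

/-- first column: above all the prime factors -/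
def top (S : Finset ℕ) : ℕ := S.sup id + 1

lemma lt_top {S : Finset ℕ} {q p : ℕ} (hq : q ∈ S) (h0 : 0 < q) (h : p ∣ q) : p < top S := by
  have h1 : q ≤ S.sup id := Finset.le_sup (f := id) hq
  have h2 := Nat.le_of_dvd h0 h
  unfold top; omega

/-- the tree of a system -/
noncomputable def Num.tree (N : Num) (p0 : ℕ) (ψ : ℕ → ℝ) (S : Finset ℕ) : IT :=
  bld (Bld532.par N.B N.C1 N.c2 p0) (w ψ) (top S) 1 1 S

/-- bound for the products of missing columns times the common denominators `PV` (`Fac.size`) -/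
def Kc (S : Finset ℕ) : ℕ := (∏ i ∈ Finset.Icc 1 (top S), i) * 4 ^ (8 * top S ^ 4)

/-- facts about the pruned set -/
structure Prn (N : Num) (p0 : ℕ) (ψ : ℕ → ℝ) (S S' : Finset ℕ) : Prop where
  sub : S' ⊆ S
  sub2 : S' ⊆ N.S2 p0 ψ S
  pos : ∀ q ∈ S', 0 < ψ q
  mass : 1 / 4 ≤ ∑ q ∈ S', w ψ q
  pr : ∀ q ∈ S', Pr (N.tree p0 ψ S) p0 (N.C1 + N.c2) N.B q
  bet : ∀ q ∈ S', ∀ P : ℕ, p0 ≤ P →
    pth (rst (P < ·) (betF (w ψ) fun b => Real.log b ^ N.a)) 1 (N.tree p0 ψ S) q ≤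
      Real.log P ^ (-N.A)
  bnu : ∀ q ∈ S', ∀ P : ℕ, p0 ≤ P →
    pth (rst (P < ·) (bnuF (w ψ) fun b => Real.log b ^ (-N.a'))) 1 (N.tree p0 ψ S) q ≤
      Real.log P ^ (-N.A)

/-- **one system with all its data** -/
structure Ctx (N : Num) (γ : ℝ) (p0 P₀ : ℕ) where
  ψ : ℕ → ℝ
  S : Finset ℕ
  S' : Finset ℕ
  sys : SysM P₀ ψ S
  good : (Bld532.par N.B N.C1 N.c2 p0).Good
  prn : Prn N p0 ψ S S'
  c : Cf
  hγ : c.γ = γ
  hr : ∀ q, c.r q = ψ q / 2
  hS : c.S = S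
  hS' : c.S' = S'
  ht : c.t = N.tree p0 ψ S
  thr : c.wp.thr = N.thr p0
  dep : c.wp.dep = N.dep p0 ψ S
  lam : c.lam = N.lam p0 ψ S
  thrL : c.wpL.thr = N.thrL p0
  depL : c.wpL.dep = N.depL p0
  fine : Fine c.wp c.γ c.r c.t c.S (top S) (Kc S)
  fineL : Fine c.wpL c.γ c.r c.t c.S (top S) (Kc S)
  /-- the same cells and the same grid for the columns and the leaves -/
  same : c.wp.ρ₀ = c.wpL.ρ₀ ∧ c.wp.n₀ = c.wpL.n₀ ∧ c.wp.δ₀ = c.wpL.δ₀ ∧ c.wp.n₁ = c.wpL.n₁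
  lv : c.lv = LfDat734.lv c.t (top S)
  om : c.om = fun q z => Chi464.omXL (N.fac p0 ψ S) c.wp c.wpL c.γ c.r c.t c.lv S' q z
  bx : c.bx = Chi464.bxL (N.fac p0 ψ S) c.γ c.r c.t
  d1 : c.d1 = N.d1 p0 ψ S
  tg : c.tg = N.tg p0 ψ S
  tgL : c.tgL = N.tgL p0 ψ S
  ok : c.Ok (top S)

/-! ### facts of a context -/

namespace Ctx

variable {N : Num} {γ : ℝ} {p0 P₀ : ℕ} (X : Ctx N γ p0 P₀)

/-- the parameters of the builder -/
noncomputable def par (_ : Ctx N γ p0 P₀) : Bld532.Par := Bld532.par N.B N.C1 N.c2 p0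

/-- the factorisation of a context -/
noncomputable def fac (X : Ctx N γ p0 P₀) : Fac := N.fac p0 X.ψ X.S

lemma gd : X.par.Good := X.good

lemma ht' : X.c.t = bld X.par (w X.ψ) (top X.S) 1 1 X.S := X.ht

/-- `0 ≤ w ψ` -/
lemma hW (q : ℕ) : 0 ≤ w X.ψ q := w_nonneg X.sys.nonneg q

/-- `0 < q` -/
lemma spos {q : ℕ} (hq : q ∈ X.S) : 0 < q := X.sys.pos q hq

lemma items : X.c.t.items = X.S := by
  rw [X.ht']
  exact bld_items _ _ X.hW X.gd _ 1 1 1 _ (Bk.root X.S X.sys.pos _)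

lemma tOk : X.c.t.Ok (top X.S) := X.ok.tOk

lemma lt {q l : ℕ} (hq : q ∈ X.S) (h : l ∣ q) : l < top X.S := lt_top hq (X.sys.pos q hq) h

lemma rpos {q : ℕ} (hq : q ∈ X.S') : 0 < X.c.r q := by
  rw [X.hr]; exact half_pos (X.prn.pos q hq)

lemma mem_S (j : X.c.Lam) : j.1.1 ∈ X.S := by rw [← X.hS]; exact Cf.mem_S j

/-- all the node facts of 579 -/
theorem all : Bld532.All (fun u τ => WalkIT579.NQ X.par (w X.ψ) X.c.t.uq u τ ∧
    WalkIT579.NG X.c.t.uq u τ) ⟨top X.S, 1, 1, 1⟩ X.c.t := by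
  rw [X.ht']
  exact WalkIT579.bld_all X.par (w X.ψ) X.hW X.gd (top X.S) X.S X.sys.pos
    fun q hq l _ h => X.lt hq h

/-- all the node facts of the builder -/
theorem nodes : Bld532.All (NodeOk X.par (w X.ψ)) ⟨top X.S, 1, 1, 1⟩ X.c.t := by
  rw [X.ht']
  exact bld_All_root X.par (w X.ψ) X.hW X.gd (top X.S) X.S X.sys.pos

/-- the tree fits -/
lemma fit : Fit 1 1 X.c.t := Fit_of_NodeOk X.nodes

/-- the leaf facts of 734 -/
theorem leaves {F : ℝ → ℕ → ℕ → Finset ℕ → Prop}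
    (H : ∀ u Sl G, LeafF X.par (w X.ψ) X.c.t (top X.S) u Sl G → F u.c u.B u.A Sl) :
    LeafAll F 1 1 1 X.c.t := by
  have key := bld_leafF X.par (w X.ψ) X.hW X.gd (top X.S) X.S X.sys.pos
    (fun q hq l _ h => X.lt hq h) (F := F)
  rw [← X.ht'] at key
  exact key H

/-- products of missing ties are below `Kc` -/
lemma mp_le {q : ℕ} : mp X.c.t q ≤ Kc X.S := by
  have h := BldF542.mp_eq_prod X.c.t (top X.S) X.tOk q
  rw [h]
  have h1 := BldF542.mt_lt X.c.t (top X.S) X.tOk q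
  have h2 : (X.c.t.mt q) ⊆ Finset.Icc 1 (top X.S) := fun s hs =>
    Finset.mem_Icc.2 ⟨(h1 s hs).1.one_lt.le, (h1 s hs).2.le⟩
  calc ∏ s ∈ X.c.t.mt q, s ≤ ∏ s ∈ Finset.Icc 1 (top X.S), s :=
        Finset.prod_le_prod_of_subset_of_one_le' h2 fun i hi _ => (Finset.mem_Icc.1 hi).1
    _ ≤ Kc X.S := Nat.le_mul_of_pos_right _ (by positivity)

/-- pruned items have weight zero -/
lemma om_zero {q : ℕ} (hq : q ∉ X.S') (z : ℝ) (a : ℤ) : X.c.om q z a = 0 := by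
  rw [X.om]; exact Chi464.omXL_zero hq z a

/-- the weights are at most `omL` -/
lemma om_le (q : ℕ) (z : ℝ) (a : ℤ) :
    X.c.om q z a ≤ omL X.c.wp X.c.wpL X.c.γ X.c.r X.c.t X.c.lv X.c.S' q a := by
  rw [X.om, X.hS']; exact Chi464.omXL_le a

end Ctx

end Crest.Agent.R4P.Skel189
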