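import Crest.Agent.R4P.CrossSum_29
import Crest.Agent.R4P.Bld532
import Crest.Agent.R4P.ItemDT758
import Crest.Agent.R4P.Skel189

/-!
R4 (S0004), POWERS, module D, helper29: **the static budget of the far nodes**.

* `FL gg ν d` : sum over the far nodes of the subtree `d` (add nodes whose first child is a leaf) of
  `gg b * ν (far node)`, weighted with the walk weights; `FL_gap` : `GapN (FL gg ν) (gF gg ν)` with the
  gap `gF d = gg b * ν d` at far nodes, `0` at the cut nodes.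
* `FL_le` : `FL d ≤ (Σ_{l<n} gg l) ν d` (at most one far node per prime on a path: `FarD`).
* `bld_FarI`, `FarD_toDT` : the built tree has `FarD` everywhere.
-/

set_option autoImplicit false
set_option linter.unusedSectionVars false
set_option linter.unusedVariables false
set_option linter.unusedSimpArgs false
open MeasureTheory Filter

namespace Crest.Agent.R4P.CrossSum29

open Crest.Agent.R4.Tour104 Crest.Agent.R4.Tour758 Crest.Agent.R4.Avg758 Crest.Agent.R4.Clos758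
open Crest.Agent.R4.ClosL758 Crest.Agent.R4.ClosG758 Crest.Agent.R4.ClosR758
open Crest.Agent.R4P.ClosR442 Crest.Agent.R4P.Walk560 Crest.Agent.R4P.Cnt588

section
variable {Λ κ : Type*}

/-- no add node before the next column: leaf, `up`, tie, or pulls above such a node -/
def NearD : DT Λ κ → Prop
  | .leaf _ _ => True
  | .br _ w _ t₁ _ _ _ _ => w = 0 → NearD t₁
  | .add _ _ _ _ => False
  | .up _ _ _ => True

/-- below a far node there is no add node at the same prime -/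
def FarD : DT Λ κ → Prop
  | .add _ _ t₁ t₀ => t₁.isLeaf → NearD t₀
  | _ => True

open Classical in
/-- the gap of an add node: `gg b * ν` at far nodes -/
noncomputable def gF (gg : ℕ → ℝ) (m : DT Λ κ → ℝ) : DT Λ κ → ℝ
  | .add b r t₁ t₀ => if t₁.isLeaf then gg b * m (.add b r t₁ t₀) else 0
  | _ => 0

/-- the far functional -/
noncomputable def FL (gg : ℕ → ℝ) (m : DT Λ κ → ℝ) : DT Λ κ → ℝ
  | .leaf _ _ => 0
  | .br p w r t₁ t₀ v B G => (1 - w) * FL gg m t₁ + w * FL gg m t₀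
  | .add b r t₁ t₀ => FL gg m t₁ + FL gg m t₀ + gF gg m (.add b r t₁ t₀)
  | .up b Sp t => FL gg m t

end

variable {Λ κ : Type*} [Fintype Λ] [DecidableEq Λ] [DecidableEq κ] [WRel κ]

lemma gF_nn {gg : ℕ → ℝ} (hg : ∀ b, 0 ≤ gg b) {m : DT Λ κ → ℝ} {d : DT Λ κ} (h : 0 ≤ m d) :
    0 ≤ gF gg m d := by
  cases d with
  | leaf r f => exact le_rfl
  | br p w r t₁ t₀ v B G => exact le_rfl
  | add b r t₁ t₀ =>
    simp only [gF]
    split_ifs
    · exact mul_nonneg (hg b) h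
    · exact le_rfl
  | up b Sp t => exact le_rfl

lemma FL_nn {gg : ℕ → ℝ} (hg : ∀ b, 0 ≤ gg b) {m : DT Λ κ → ℝ} {d : DT Λ κ}
    (h : d.All (MassN m)) : 0 ≤ FL gg m d := by
  induction d with
  | leaf r f => exact le_rfl
  | br p w r t₁ t₀ v B G ih₁ ih₀ =>
    have hw := h.1.1
    have hw' : 0 ≤ 1 - w := by linarith [h.1.2.1]
    exact add_nonneg (mul_nonneg hw' (ih₁ h.2.1)) (mul_nonneg hw (ih₀ h.2.2))
  | add b r t₁ t₀ ih₁ ih₀ =>
    exact add_nonneg (add_nonneg (ih₁ h.2.1) (ih₀ h.2.2)) (gF_nn hg h.self.nn)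
  | up b Sp t ih => exact ih h.2

/-- **the gap** -/
theorem FL_gap {gg : ℕ → ℝ} (hg : ∀ b, 0 ≤ gg b) {m : DT Λ κ → ℝ} {d : DT Λ κ}
    (h : d.All (MassN m)) : GapN (FL gg m) (gF gg m) d := by
  cases d with
  | leaf r f => exact le_rfl
  | br p w r t₁ t₀ v B G =>
    exact ⟨h.1.1, h.1.2.1, FL_nn hg h.2.1, FL_nn hg h.2.2, FL_nn hg h, le_rfl⟩
  | add b r t₁ t₀ =>
    exact ⟨FL_nn hg h.2.1, FL_nn hg h.2.2, gF_nn hg h.self.nn, le_rfl⟩
  | up b Sp t => exact ⟨FL_nn hg h.2, le_rfl⟩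

/-- sum of the gaps below `n` -/
noncomputable def SG (gg : ℕ → ℝ) (n : ℕ) : ℝ := ∑ l ∈ Finset.range n, gg l

lemma SG_mono {gg : ℕ → ℝ} (hg : ∀ b, 0 ≤ gg b) {a b : ℕ} (h : a ≤ b) : SG gg a ≤ SG gg b :=
  Finset.sum_le_sum_of_subset_of_nonneg (Finset.range_mono h) fun i _ _ => hg i

lemma SG_nn {gg : ℕ → ℝ} (hg : ∀ b, 0 ≤ gg b) (a : ℕ) : 0 ≤ SG gg a :=
  Finset.sum_nonneg fun i _ => hg i

lemma SG_succ (gg : ℕ → ℝ) (a : ℕ) : SG gg (a + 1) = SG gg a + gg a := Finset.sum_range_succ _ _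

/-- **the far functional is small** -/
theorem FL_le {gg : ℕ → ℝ} (hg : ∀ b, 0 ≤ gg b) {m : DT Λ κ → ℝ} (d : DT Λ κ) :
    ∀ n : ℕ, d.Col n → d.All (MassN m) → d.All FarD →
      FL gg m d ≤ SG gg n * m d ∧ (∀ b, n = b + 1 → NearD d → FL gg m d ≤ SG gg b * m d) := by
  induction d with
  | leaf r f =>
    intro n _ h _
    have h0 : 0 ≤ m (.leaf r f) := h
    exact ⟨mul_nonneg (SG_nn hg _) h0, fun b _ _ => mul_nonneg (SG_nn hg _) h0⟩
  | br p w r t₁ t₀ v B G ih₁ ih₀ =>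
    intro n hc h hf
    obtain ⟨hp, hpn, c1, c0, ct⟩ := hc
    obtain ⟨⟨w0, w1, m1, m0, mm⟩, h1, h0⟩ := h
    have w1' : 0 ≤ 1 - w := by linarith
    have hb0 : 0 ≤ m (.br p w r t₁ t₀ v B G) := by
      refine le_trans ?_ mm
      positivity
    have key : ∀ k : ℕ, FL gg m t₁ ≤ SG gg k * m t₁ → w * FL gg m t₀ ≤ w * (SG gg k * m t₀) →
        FL gg m (.br p w r t₁ t₀ v B G) ≤ SG gg k * m (.br p w r t₁ t₀ v B G) := by
      intro k e1 e0
      have e1' := mul_le_mul_of_nonneg_left e1 w1'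
      have e2 := mul_le_mul_of_nonneg_left mm (SG_nn hg k)
      show (1 - w) * FL gg m t₁ + w * FL gg m t₀ ≤ _
      nlinarith
    refine ⟨key n ?_ ?_, fun b hb hn => ?_⟩
    · refine ((ih₁ (p + 1) c1 h1 hf.2.1).1).trans ?_
      exact mul_le_mul_of_nonneg_right (SG_mono hg hpn) m1
    · refine mul_le_mul_of_nonneg_left (((ih₀ (p + 1) c0 h0 hf.2.2).1).trans ?_) w0
      exact mul_le_mul_of_nonneg_right (SG_mono hg hpn) m0
    · have hpb : p ≤ b := by omega
      by_cases hw : w = 0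
      · refine key b ?_ ?_
        · refine ((ih₁ (p + 1) c1 h1 hf.2.1).2 p rfl (hn hw)).trans ?_
          exact mul_le_mul_of_nonneg_right (SG_mono hg hpb) m1
        · rw [hw]; simp
      · have cc := ct hw
        refine key b ?_ ?_
        · refine ((ih₁ p cc.1 h1 hf.2.1).1).trans ?_
          exact mul_le_mul_of_nonneg_right (SG_mono hg hpb) m1
        · refine mul_le_mul_of_nonneg_left (((ih₀ p cc.2 h0 hf.2.2).1).trans ?_) w0
          exact mul_le_mul_of_nonneg_right (SG_mono hg hpb) m0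
  | add b r t₁ t₀ ih₁ ih₀ =>
    intro n hc h hf
    obtain ⟨hb, hbn, c1, c0⟩ := hc
    obtain ⟨⟨m1, m0, mm⟩, h1, h0⟩ := h
    have hm0 : 0 ≤ m (.add b r t₁ t₀) := by linarith
    refine ⟨?_, fun _ _ hn => absurd hn id⟩
    have hS := mul_le_mul_of_nonneg_right (SG_mono hg (show b + 1 ≤ n from hbn)) hm0
    refine le_trans ?_ hS
    show FL gg m t₁ + FL gg m t₀ + gF gg m (.add b r t₁ t₀) ≤ _
    by_cases hl : t₁.isLeaf
    · have e1 : FL gg m t₁ = 0 := by
        cases t₁ with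
        | leaf r f => rfl
        | br _ _ _ _ _ _ _ _ => exact absurd hl id
        | add _ _ _ _ => exact absurd hl id
        | up _ _ _ => exact absurd hl id
      have e2 := (ih₀ (b + 1) c0 h0 hf.2.2).2 b rfl (hf.1 hl)
      have e3 : gF gg m (.add b r t₁ t₀) = gg b * m (.add b r t₁ t₀) := by
        simp only [gF]; rw [if_pos hl]
      rw [e1, e3, SG_succ]
      have e4 : SG gg b * m t₀ ≤ SG gg b * m (.add b r t₁ t₀) :=
        mul_le_mul_of_nonneg_left (by linarith) (SG_nn hg b)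
      nlinarith
    · have e1 := (ih₁ (b + 1) c1 h1 hf.2.1).1
      have e2 := (ih₀ (b + 1) c0 h0 hf.2.2).1
      have e3 : gF gg m (.add b r t₁ t₀) = 0 := by
        simp only [gF]; rw [if_neg hl]
      rw [e3]
      have e4 := mul_le_mul_of_nonneg_left mm (SG_nn hg (b + 1))
      nlinarith
  | up b Sp t ih =>
    intro n hc h hf
    obtain ⟨hb, hbn, c1⟩ := hc
    obtain ⟨⟨m1, mm⟩, h1⟩ := h
    have e1 := (ih b c1 h1 hf.2).1
    have key : ∀ k, b ≤ k → FL gg m (.up b Sp t) ≤ SG gg k * m (.up b Sp t) := by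
      intro k hk
      show FL gg m t ≤ _
      refine e1.trans (mul_le_mul (SG_mono hg hk) mm m1 (SG_nn hg k))
    exact ⟨key n hbn.le, fun b' hb' _ => key b' (by omega)⟩

end Crest.Agent.R4P.CrossSum29

/-! ### the built tree -/

namespace Crest.Agent.R4P.CrossSum29

open Crest.Agent.R4P.Cnt588 Crest.Agent.R4P.Bld532 Crest.Agent.R4P.Walk560
open Crest.Agent.R4P.Item758

/-- item version of `NearD` -/
def NearI : IT → Prop
  | .leaf _ => True
  | .br _ _ _ _ => True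
  | .add _ _ _ => False
  | .up _ _ _ => True
  | .pl _ t => NearI t
  | .far _ _ _ => False

/-- the shape of the add and far nodes of the built tree -/
def FarI : IT → Prop
  | .leaf _ => True
  | .br _ _ t₁ t₀ => FarI t₁ ∧ FarI t₀
  | .add _ t₁ t₀ => (∃ p t, t₁ = .pl p t) ∧ FarI t₁ ∧ FarI t₀
  | .up _ _ t => FarI t
  | .pl _ t => FarI t
  | .far _ t₁ t₀ => (∃ S, t₁ = .leaf S) ∧ NearI t₀ ∧ FarI t₀

lemma FarI_plk {k : ℕ} {t : IT} (h : FarI t) : ∀ j : ℕ, FarI (plk k j t)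
  | 0 => h
  | j + 1 => FarI_plk h j

lemma NearI_plk {k : ℕ} {t : IT} (h : NearI t) : ∀ j : ℕ, NearI (plk k j t)
  | 0 => h
  | j + 1 => NearI_plk h j

theorem fin_FarI {k : ℕ} {rec : ℝ → ℕ → Finset ℕ → IT} (hrec : ∀ c A S, FarI (rec c A S))
    (c : ℝ) (A K : ℕ) (S : Finset ℕ) : FarI (fin k rec c A K S) ∧ NearI (fin k rec c A K S) := by
  cases K with
  | zero => exact ⟨hrec _ _ _, trivial⟩
  | succ K =>
    have e : fin k rec c A (K + 1) S = plk k K (.br k (dv (A * k ^ K) (k ^ 2) S)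
      (rec (c / (1 - 1 / (k : ℝ))) (A * k ^ K * k) (dv (A * k ^ K) k S))
      (rec (c * k) (A * k ^ K) (nd (A * k ^ K) k S))) := rfl
    rw [e]
    refine ⟨FarI_plk ?_ K, NearI_plk ?_ K⟩
    · exact And.intro (hrec _ _ _) (hrec _ _ _)
    · exact True.intro

theorem fin1_FarI {P : Bld532.Par} {W : ℕ → ℝ} {k : ℕ} {rec : ℝ → ℕ → Finset ℕ → IT}
    (hrec : ∀ c A S, FarI (rec c A S)) (c : ℝ) (A K : ℕ) (S : Finset ℕ) :
    FarI (fin1 P W k rec c A K S) ∧ NearI (fin1 P W k rec c A K S) := by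
  unfold fin1
  split_ifs
  · exact ⟨trivial, trivial⟩
  · exact fin_FarI hrec c A K S

theorem chain_FarI {P : Bld532.Par} {W : ℕ → ℝ} {k : ℕ} {rec : ℝ → ℕ → Finset ℕ → IT}
    (hrec : ∀ c A S, FarI (rec c A S)) :
    ∀ (f : ℕ) (c : ℝ) (A : ℕ) (S : Finset ℕ), FarI (chain P W k rec f c A S) := by
  classical
  intro f
  induction f with
  | zero => intro c A S; trivial
  | succ f ih =>
    intro c A S
    rw [chain]
    split_ifs with h1 h2
    · trivial
    · refine ⟨?_, FarI_plk (ih _ _ _) _, ih _ _ _⟩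
      obtain ⟨j, hj⟩ : ∃ j, Nat.find h2 = j + 1 :=
        ⟨Nat.find h2 - 1, by have := (Nat.find_spec h2).1; omega⟩
      rw [hj]
      exact ⟨k, _, rfl⟩
    · unfold farw
      split_ifs
      · exact (fin1_FarI hrec _ _ _ _).1
      · exact ⟨⟨_, rfl⟩, (fin1_FarI hrec _ _ _ _).2, (fin1_FarI hrec _ _ _ _).1⟩

/-- **the built tree satisfies `FarI`** -/
theorem bld_FarI (P : Bld532.Par) (W : ℕ → ℝ) : ∀ (n : ℕ) (c : ℝ) (A : ℕ) (S : Finset ℕ),
    FarI (bld P W n c A S) := by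
  intro n
  induction n with
  | zero => intro c A S; trivial
  | succ k ih =>
    intro c A S
    rw [bld]
    split_ifs
    · exact chain_FarI ih _ _ _ _
    · exact ih _ _ _

/-- `FarI` at all the nodes -/
lemma FarI_All : ∀ (t : IT) (s : NS), FarI t → Bld532.All (fun _ τ => FarI τ) s t := by
  intro t
  induction t with
  | leaf S => intro s h; exact h
  | br p Sp t₁ t₀ ih₁ ih₀ => intro s h; exact ⟨h, ih₁ _ h.1, ih₀ _ h.2⟩
  | add b t₁ t₀ ih₁ ih₀ => intro s h; exact ⟨h, ih₁ _ h.2.1, ih₀ _ h.2.2⟩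
  | up b Sp t ih => intro s h; exact ⟨h, ih _ h⟩
  | pl b t ih => intro s h; exact ⟨h, ih _ h⟩
  | far b t₁ t₀ ih₁ ih₀ =>
    intro s h
    refine ⟨h, ih₁ _ ?_, ih₀ _ h.2.2⟩
    obtain ⟨S, e⟩ := h.1
    rw [e]; trivial

section
variable {Λ κ : Type*} [Fintype Λ] [DecidableEq Λ] [Fintype κ] [DecidableEq κ]

lemma NearD_toDT (D : Item758.Par Λ κ) (sp : ℕ → Finset Λ) : ∀ (t : IT) (n b pr : ℕ), t.Ok n →
    NearI t → NearD (D.toDT sp b pr t) := by
  intro t
  induction t with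
  | leaf S => intro n b pr _ _; trivial
  | br p Sp t₁ t₀ ih₁ ih₀ =>
    intro n b pr hO _ hw
    have hp : p.Prime := hO.1
    have : (0 : ℝ) < 1 / (p : ℝ) := one_div_pos.2 (by exact_mod_cast hp.pos)
    exact absurd hw this.ne'
  | add b' t₁ t₀ ih₁ ih₀ => intro n b pr _ h; exact absurd h id
  | up b' Sp t ih => intro n b pr _ _; trivial
  | pl p t ih =>
    intro n b pr hO h hw
    exact ih _ b (pr * p) hO.2.2 h
  | far b' t₁ t₀ ih₁ ih₀ => intro n b pr _ h; exact absurd h id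

/-- **the decorated trees satisfy `FarD` everywhere** -/
theorem FarD_toDT (D : Item758.Par Λ κ) (sp : ℕ → Finset Λ) : ∀ (t : IT) (n b pr : ℕ), t.Ok n →
    FarI t → (D.toDT sp b pr t).All FarD := by
  intro t
  induction t with
  | leaf S => intro n b pr _ _; trivial
  | br p Sp t₁ t₀ ih₁ ih₀ =>
    intro n b pr hO h
    obtain ⟨-, -, -, -, h4, h5⟩ := hO
    exact ⟨trivial, ih₁ _ _ _ h4 h.1, ih₀ _ _ _ h5 h.2⟩
  | add b' t₁ t₀ ih₁ ih₀ =>
    intro n b pr hO h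
    obtain ⟨-, -, -, h4, h5⟩ := hO
    obtain ⟨⟨p, t, e⟩, h1, h0⟩ := h
    refine ⟨fun hl => ?_, ih₁ _ _ _ h4 h1, ih₀ _ _ _ h5 h0⟩
    rw [e] at hl
    exact absurd hl id
  | up b' Sp t ih => intro n b pr hO h; exact ⟨trivial, ih _ _ _ hO.2.2.2 h⟩
  | pl p t ih =>
    intro n b pr hO h
    exact ⟨trivial, ih _ _ _ hO.2.2 h, trivial⟩
  | far b' t₁ t₀ ih₁ ih₀ =>
    intro n b pr hO h
    obtain ⟨-, -, -, h4, h5⟩ := hO
    obtain ⟨⟨S, e⟩, h1, h0⟩ := h
    refine ⟨fun _ => NearD_toDT D sp t₀ _ b pr h5 h1, ?_, ih₀ _ _ _ h5 h0⟩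
    rw [e]; trivial

end

/-- the trees of a context -/
theorem ctx_FarI {N : Skel189.Num} {γ : ℝ} {p0 P₀ : ℕ} (X : Skel189.Ctx N γ p0 P₀) (s : NS) :
    Bld532.All (fun _ τ => FarI τ) s X.c.t :=
  FarI_All _ _ (by rw [X.ht']; exact bld_FarI _ _ _ _ _ _)

end Crest.Agent.R4P.CrossSum29
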