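import Crest.Agent.R4P.Strip_29
import Crest.Agent.R4P.Frame758b

/-!
R4 (S0004), POWERS, helper29: **the frame for full populations**.

`MAIN_of_modulesF` = `Frame758.MAIN_of_modules`, but the error of a node is only required for the
population `univ` (`NodeEF`), and the slack `δ` only has to be a supermartingale on `univ`.  The
strategy must be `Blind` (does not look at the sets `Sp`) and `NoSplit` (no joint (add, up) steps).
-/

set_option autoImplicit false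
set_option linter.unusedSectionVars false
set_option linter.unusedVariables false
open MeasureTheory Filter

namespace Crest.Agent.R4P.FrameF29

open Crest.Agent.R4.Tour104 Crest.Agent.R4.Tour758 Crest.Agent.R4.Avg758 Crest.Agent.R4.Clos758
open Crest.Agent.R4.ClosL758 Crest.Agent.R4.ClosG758 Crest.Agent.R4.ClosR758
open Crest.Agent.R4.Fam464 Crest.Agent.R4P.Cnt588 Crest.Agent.R4P.Walk560 Crest.Agent.R4P.Item758
open Crest.Agent.R4.Item758 (IL AdS AdI AdI_univ)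
open Crest.Agent.R4P.ClosP542 (PulG)
open Crest.Agent.R4.Soft104 Crest.Agent.R4.Max709 Crest.Agent.R4.Fin532 Crest.Agent.R4P.Asm532
open Crest.Agent.R4P.Frame758 Crest.Agent.R4P.Strip29

section
variable {Λ κ : Type*} [Fintype Λ] [DecidableEq Λ] [Fintype κ] [DecidableEq κ]

/-- **energy of the root, full populations** -/
theorem energyF [WRel κ] (D : Item758.Par Λ κ) {sp : ℕ → Finset Λ}
    {dec : κ → Finset Λ → ℝ} (h0 : ∀ k A, 0 ≤ dec k A)
    (h1 : ∀ k A A', Disjoint A A' → dec k A + dec k A' = dec k (A ∪ A')) (j₀ : Λ)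
    {W : Λ → ℝ} {t : IT} {n b pr : ℕ} {c : ℝ} (hb : 0 < b) (hO : t.Ok n) (hF : Fit b pr t)
    (hW : D.Wts pr t) (hD : D.DecOk W dec j₀ c b pr t)
    {δ : TrG Λ κ → Finset Λ → ℝ} {C C₀ η B : ℝ} (hC0 : 0 ≤ C) (hC₀ : 0 ≤ C₀) (hη : 0 ≤ η)
    (hB : 0 ≤ B) {stp : Stp Λ κ} (hbl : Blind stp) (hns : NoSplit stp)
    (hstp : ∀ s : St Λ κ, s.O = ∅ → s.O' = ∅ → ¬ stp s)
    (hjt : ∀ (d : DT Λ κ) (A : Finset Λ), stp.jt (selfSt d A))
    (hd : (D.toG b pr t).All (SlackR AdF δ))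
    (hl : (D.toG b pr t).All
      (LeafSMR AdF (muR dec j₀) (fun t => muR dec j₀ t Finset.univ) C))
    (hl0 : (D.toG b pr t).All (Crest.Agent.R4.ClosR758.LeafIn AdF (muR dec j₀) C₀))
    (herr : (D.toDT sp b pr t).All fun r => ¬ PulG r.g →
      Below (SMR AdF (muR dec j₀) (fun t => muR dec j₀ t Finset.univ) δ
        (16 * (C + C₀ + η + B + 1))) r.g →
      dseR Finset.univ r.g + rseR Finset.univ r.g +
        WS stp (eAll stp (muR dec j₀) (fun t => muR dec j₀ t Finset.univ) B)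
          (selfSt r Finset.univ) ≤
        η * (muR dec j₀ r.g Finset.univ + muR dec j₀ r.g Finset.univ *
          muR dec j₀ r.g Finset.univ) + δ r.g Finset.univ) :
    I (fun x => (∑ j, (D.toFT b pr t).U 1 j x) ^ 2) ≤
      (16 * (C + C₀ + η + B + 1)) *
        (c * D.rw W t.items Finset.univ + (c * D.rw W t.items Finset.univ) ^ 2 +
          δ (D.toG b pr t) Finset.univ) := by
  have hg := D.toDT_g (fun _ => ∅) t b pr
  have hok := D.toG_Ok hb hF hW
  -- the errors of the stripped tree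
  have herr' : (D.toDT (fun _ => ∅) b pr t).All fun r => ¬ PulG r.g →
      Below (SMR AdF (muR dec j₀) (fun t => muR dec j₀ t Finset.univ) δ
        (16 * (C + C₀ + η + B + 1))) r.g →
      ∀ A, AdF r.g A → A.Nonempty →
      dseR A r.g + rseR A r.g +
        WS stp (eAll stp (muR dec j₀) (fun t => muR dec j₀ t Finset.univ) B) (selfSt r A) ≤
        η * (muR dec j₀ r.g A + muR dec j₀ r.g A * muR dec j₀ r.g Finset.univ) + δ r.g A := by
    rw [← strip_toDT D sp t b pr]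
    have key : ∀ d : DT Λ κ, (d.All fun r => ¬ PulG r.g →
        Below (SMR AdF (muR dec j₀) (fun t => muR dec j₀ t Finset.univ) δ
          (16 * (C + C₀ + η + B + 1))) r.g →
        dseR Finset.univ r.g + rseR Finset.univ r.g +
          WS stp (eAll stp (muR dec j₀) (fun t => muR dec j₀ t Finset.univ) B)
            (selfSt r Finset.univ) ≤
          η * (muR dec j₀ r.g Finset.univ + muR dec j₀ r.g Finset.univ *
            muR dec j₀ r.g Finset.univ) + δ r.g Finset.univ) →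
        (strip d).All fun r => ¬ PulG r.g →
        Below (SMR AdF (muR dec j₀) (fun t => muR dec j₀ t Finset.univ) δ
          (16 * (C + C₀ + η + B + 1))) r.g →
        ∀ A, AdF r.g A → A.Nonempty →
        dseR A r.g + rseR A r.g +
          WS stp (eAll stp (muR dec j₀) (fun t => muR dec j₀ t Finset.univ) B) (selfSt r A) ≤
          η * (muR dec j₀ r.g A + muR dec j₀ r.g A * muR dec j₀ r.g Finset.univ) + δ r.g A := by
      intro d
      have one : ∀ d : DT Λ κ, (¬ PulG d.g →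
          Below (SMR AdF (muR dec j₀) (fun t => muR dec j₀ t Finset.univ) δ
            (16 * (C + C₀ + η + B + 1))) d.g →
          dseR Finset.univ d.g + rseR Finset.univ d.g +
            WS stp (eAll stp (muR dec j₀) (fun t => muR dec j₀ t Finset.univ) B)
              (selfSt d Finset.univ) ≤
            η * (muR dec j₀ d.g Finset.univ + muR dec j₀ d.g Finset.univ *
              muR dec j₀ d.g Finset.univ) + δ d.g Finset.univ) →
          (¬ PulG (strip d).g →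
          Below (SMR AdF (muR dec j₀) (fun t => muR dec j₀ t Finset.univ) δ
            (16 * (C + C₀ + η + B + 1))) (strip d).g →
          ∀ A, AdF (strip d).g A → A.Nonempty →
          dseR A (strip d).g + rseR A (strip d).g +
            WS stp (eAll stp (muR dec j₀) (fun t => muR dec j₀ t Finset.univ) B)
              (selfSt (strip d) A) ≤
            η * (muR dec j₀ (strip d).g A + muR dec j₀ (strip d).g A *
              muR dec j₀ (strip d).g Finset.univ) + δ (strip d).g A) := by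
        intro d h hp hb A hA hne
        rw [← selfSt_strip, WS_strip hbl hns]
        rw [strip_g] at hp hb ⊢
        rcases hA with rfl | rfl
        · exact absurd hne Finset.not_nonempty_empty
        · exact h hp hb
      induction d with
      | leaf r f => intro h; exact one (.leaf r f) h
      | br p w r t₁ t₀ v B₁ G ih₁ ih₀ =>
        intro h
        exact ⟨one (.br p w r t₁ t₀ v B₁ G) h.1, ih₁ h.2.1, ih₀ h.2.2⟩
      | add b r t₁ t₀ ih₁ ih₀ =>
        intro h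
        exact ⟨one (.add b r t₁ t₀) h.1, ih₁ h.2.1, ih₀ h.2.2⟩
      | up b Sp u ih =>
        intro h
        exact ⟨one (.up b Sp u) h.1, ih h.2⟩
    exact key _ herr
  have key := closure_walk (n := n) (δ := δ) (wr := D.rho) (Ad := AdF) (μ := muR dec j₀)
    (ν := fun t => muR dec j₀ t Finset.univ) hC0 hC₀ hη hB hstp hjt (D.toDT (fun _ => ∅) b pr t)
    (by rw [hg]; exact hok) (D.toDT_Col (fun _ => ∅) t n b pr hO)
    (toDT_NodeOkF D h0 h1 j₀ t n b pr hb hO hF hW) (by rw [hg]; exact hd)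
    (by rw [hg]; exact hl) (by rw [hg]; exact hl0) herr' (AdF_univ _)
  rw [hg] at key
  have hmu := D.muR_toG (W := W) (dec := dec) (j₀ := j₀) Finset.univ t c b pr hF hD
  rw [hmu] at key
  have hval : (D.toG b pr t).tot = fun x => ∑ j, (D.toFT b pr t).U 1 j x := by
    funext x
    show ∑ j, (D.toG b pr t).val j x = _
    rw [D.toG_val hb hF hW]
  rw [hval] at key
  refine key.trans (le_of_eq ?_)
  ring

end

section
variable {Λ κ₀ : Type*} [Fintype Λ] [DecidableEq Λ] [Fintype κ₀] [DecidableEq κ₀]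
  {X : Finset (ℕ × ℕ × Finset ℕ)} [Fintype (Lb κ₀ X)] [DecidableEq (Lb κ₀ X)]

/-- **the error of a node, population `univ`** -/
def NodeEF [WRel κ₀] (D : Par0 Λ κ₀) (X : Finset (ℕ × ℕ × Finset ℕ)) [Fintype (Lb κ₀ X)]
    [DecidableEq (Lb κ₀ X)] (sp : ℕ → Finset Λ) (W : Λ → ℝ) (cx : Finset ℕ → ℝ) (j₀ : Λ)
    (stp : Stp Λ (Lb κ₀ X)) (δ : TrG Λ (Lb κ₀ X) → Finset Λ → ℝ) (B η Kb : ℝ)
    (b pr : ℕ) (t : IT) : Prop :=
  ¬ PulG (tG D X b pr t) →
  Below (SMR AdF (tM D W cx j₀ X) (tN D W cx j₀ X) δ Kb) (tG D X b pr t) →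
      dseR Finset.univ (tG D X b pr t) + rseR Finset.univ (tG D X b pr t) +
        WS stp (eAll stp (tM D W cx j₀ X) (tN D W cx j₀ X) B)
          (selfSt (tD D X sp b pr t) Finset.univ) ≤
      η * (tN D W cx j₀ X (tG D X b pr t) +
        tN D W cx j₀ X (tG D X b pr t) * tN D W cx j₀ X (tG D X b pr t)) +
        δ (tG D X b pr t) Finset.univ

/-- nothing is required at a pull -/
lemma NodeEF_pl [WRel κ₀] {D : Par0 Λ κ₀} {sp : ℕ → Finset Λ} {W : Λ → ℝ} {cx : Finset ℕ → ℝ}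
    {j₀ : Λ} {stp : Stp Λ (Lb κ₀ X)} {δ : TrG Λ (Lb κ₀ X) → Finset Λ → ℝ} {B η Kb : ℝ}
    {b pr p : ℕ} {t : IT} : NodeEF D X sp W cx j₀ stp δ B η Kb b pr (.pl p t) :=
  fun h => absurd ⟨rfl, rfl⟩ h

lemma NodeEF_up_pl [WRel κ₀] {D : Par0 Λ κ₀} {sp : ℕ → Finset Λ} {W : Λ → ℝ} {cx : Finset ℕ → ℝ}
    {j₀ : Λ} {stp : Stp Λ (Lb κ₀ X)} {δ : TrG Λ (Lb κ₀ X) → Finset Λ → ℝ} {B η Kb : ℝ}
    {b pr p b' : ℕ} {Sp : Finset ℕ} {t : IT} :
    NodeEF D X sp W cx j₀ stp δ B η Kb b pr (.up b' Sp (.pl p t)) :=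
  fun h => absurd ⟨rfl, rfl⟩ h

lemma AdL_AdF (it : Λ → ℕ) {κ : Type*} [Fintype κ] [DecidableEq κ] :
    AdL (κ := κ) it AdF := fun r f A h => by
  refine ⟨AdF_sat h r, ?_⟩
  rcases h with rfl | rfl
  · exact Item758.IL_empty it
  · exact Item758.IL_univ it

/-- **ENERGY of the root, full populations, plain parameters** -/
theorem energy0F [WRel κ₀] (D : Par0 Λ κ₀) {sp : ℕ → Finset Λ} {W : Λ → ℝ}
    (hW0 : ∀ j, 0 ≤ W j) (j₀ : Λ) {t : IT} {n : ℕ} {c : ℝ} (hX : leafs 1 1 t ⊆ X) (hO : t.Ok n)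
    (hF : Fit 1 1 t) (hit : ∀ j, D.it j ∈ t.items)
    (hW : (D.par X).Wts 1 t)
    {δ : TrG Λ (Lb κ₀ X) → Finset Λ → ℝ} {C C₀ η B : ℝ} (hC0 : 0 ≤ C)
    (hC₀ : 0 ≤ C₀) (hη : 0 ≤ η) (hB : 0 ≤ B) {stp : Stp Λ (Lb κ₀ X)} (hbl : Blind stp)
    (hns : NoSplit stp)
    (hstp : ∀ s : St Λ (Lb κ₀ X), s.O = ∅ → s.O' = ∅ → ¬ stp s)
    (hjt : ∀ (d : DT Λ (Lb κ₀ X)) (A : Finset Λ), stp.jt (selfSt d A))
    (hd : (tG D X 1 1 t).All (SlackR AdF δ))
    (hl : LeafAll (LeafE D W C) 1 1 1 t) (hl0 : LeafAll (LeafI D W C₀) 1 1 1 t)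
    (herr : Bld532.All (fun s t' =>
      NodeEF D X sp W (clf t 1) j₀ stp δ B η (16 * (C + C₀ + η + B + 1)) s.B s.A t')
        ⟨n, c, 1, 1⟩ t) :
    I (fun x => (∑ j, ((D.par X).toFT 1 1 t).U 1 j x) ^ 2) ≤
      (16 * (C + C₀ + η + B + 1)) *
        (∑ j, W j + (∑ j, W j) ^ 2 + δ (tG D X 1 1 t) Finset.univ) := by
  have hcx : ∀ S, 0 ≤ clf t 1 S := clf_nonneg t zero_le_one
  have hcO : CxOk (clf t 1) 1 t := CxOk.clf t 1
  have hdn := D.dec_nonneg hW0 hcx X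
  have herr' : (tD D X sp 1 1 t).All fun r => ¬ PulG r.g →
      Below (SMR AdF (tM D W (clf t 1) j₀ X) (tN D W (clf t 1) j₀ X) δ
        (16 * (C + C₀ + η + B + 1))) r.g →
      dseR Finset.univ r.g + rseR Finset.univ r.g +
        WS stp (eAll stp (tM D W (clf t 1) j₀ X) (tN D W (clf t 1) j₀ X) B)
          (selfSt r Finset.univ) ≤
        η * (tN D W (clf t 1) j₀ X r.g + tN D W (clf t 1) j₀ X r.g *
          tN D W (clf t 1) j₀ X r.g) + δ r.g Finset.univ := by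
    refine toDT_All2 (D.par X) sp (Qp := fun s t' =>
      NodeEF D X sp W (clf t 1) j₀ stp δ B η (16 * (C + C₀ + η + B + 1)) s.B s.A t')
      (F' := SlackR AdF δ) ?_ ?_ t ⟨n, c, 1, 1⟩ herr hd
    · intro s t' h
      have e : ((D.par X).toDT sp s.B s.A t').g = tG D X s.B s.A t' :=
        (D.par X).toDT_g sp t' s.B s.A
      rw [e]
      exact h
    · intro r hr _ _
      have hδ : 0 ≤ δ (.leaf r fun _ _ => 0) Finset.univ := hr.1 _ (AdF_univ _)
      have h2 : 0 ≤ tN D W (clf t 1) j₀ X (.leaf r fun _ _ => 0) := hdn _ _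
      have e1 : dseR Finset.univ (TrG.leaf r (fun _ _ => 0) : TrG Λ (Lb κ₀ X)) = 0 := rfl
      have e2 : rseR Finset.univ (TrG.leaf r (fun _ _ => 0) : TrG Λ (Lb κ₀ X)) = 0 := rfl
      have e3 := WS_leaf (stp := stp) (μ := tM D W (clf t 1) j₀ X) (ν := tN D W (clf t 1) j₀ X)
        (B := B) r (fun _ _ => 0) Finset.univ
      show dseR Finset.univ (TrG.leaf r (fun _ _ => 0) : TrG Λ (Lb κ₀ X)) +
        rseR Finset.univ (TrG.leaf r (fun _ _ => 0) : TrG Λ (Lb κ₀ X)) +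
          WS stp _ (selfSt (.leaf r _) Finset.univ) ≤ _
      rw [e1, e2, e3]
      have h3 := mul_nonneg hη (add_nonneg h2 (mul_nonneg h2 h2))
      show (0 : ℝ) + 0 + 0 ≤ η * (tN D W (clf t 1) j₀ X (.leaf r fun _ _ => 0) +
        tN D W (clf t 1) j₀ X (.leaf r fun _ _ => 0) *
          tN D W (clf t 1) j₀ X (.leaf r fun _ _ => 0)) + δ (.leaf r fun _ _ => 0) Finset.univ
      linarith
  have key := energyF (D.par X) (sp := sp) hdn (D.dec_union W _ _) j₀
    (W := W) (c := 1) one_pos hO hF hW (D.decOk W _ X j₀ t 1 1 1 hF hX hcO)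
    hC0 hC₀ hη hB hbl hns hstp hjt hd
    (leafSMR_of D (AdL_AdF D.it) hW0 hcx j₀ hC0 t 1 1 1 hF hX hcO hl)
    (leafIn_of D (AdL_AdF D.it) hW0 hcx j₀ hC₀ t 1 1 1 hF hX hcO hl0)
    herr'
  refine key.trans (le_of_eq ?_)
  have e : (1 : ℝ) * (D.par X).rw W t.items Finset.univ = ∑ j, W j := by
    rw [one_mul]
    show ∑ j ∈ Finset.univ.filter (fun j => D.it j ∈ t.items), W j = _
    rw [Finset.filter_true_of_mem fun j _ => hit j]
  rw [e]
  rfl

end

/-- **everything a system must supply, full populations** -/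
structure OutF (γ c₀ C C₀ η B δ₀ : ℝ) (ψ : ℕ → ℝ) (S S' : Finset ℕ) (t : IT)
    (X : Finset (ℕ × ℕ × Finset ℕ)) (n : ℕ) (c : ℝ) {Λ κ₀ : Type} [Fintype Λ] [DecidableEq Λ]
    [Fintype κ₀] [DecidableEq κ₀] [WRel κ₀] (D : Par0 Λ κ₀) (sp : ℕ → Finset Λ) (j₀ : Λ)
    (stp : Stp Λ (Lb κ₀ X)) (δ : TrG Λ (Lb κ₀ X) → Finset Λ → ℝ) : Prop where
  good : Good γ c₀ ψ S S' t (D.par X)
  disj : Disj D
  blind : Blind stp
  nosplit : NoSplit stp
  stp0 : ∀ s : St Λ (Lb κ₀ X), s.O = ∅ → s.O' = ∅ → ¬ stp s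
  jt0 : ∀ (d : DT Λ (Lb κ₀ X)) (A : Finset Λ), stp.jt (selfSt d A)
  slack : (tG D X 1 1 t).All (SlackR AdF δ)
  slack0 : δ (tG D X 1 1 t) Finset.univ ≤ δ₀
  leafE : LeafAll (LeafE D (wt D) C) 1 1 1 t
  leafI : LeafAll (LeafI D (wt D) C₀) 1 1 1 t
  node : Bld532.All (fun s t' =>
    NodeEF D X sp (wt D) (clf t 1) j₀ stp δ B η (16 * (C + C₀ + η + B + 1)) s.B s.A t')
      ⟨n, c, 1, 1⟩ t

/-- **MAIN FROM THE MODULE OUTPUTS, FULL POPULATIONS** -/
theorem MAIN_of_modulesF {γ c₀ C C₀ η B δ₀ : ℝ} (hc₀ : 0 < c₀) (hC : 0 ≤ C) (hC₀ : 0 ≤ C₀)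
    (hη : 0 ≤ η) (hB : 0 ≤ B) (hδ₀ : 0 ≤ δ₀) (P₀ : ℕ)
    (H : ∀ (ψ : ℕ → ℝ) (S : Finset ℕ), SysM P₀ ψ S →
      ∃ (t : IT) (n : ℕ) (S' : Finset ℕ) (Λ : Type) (_ : Fintype Λ) (_ : DecidableEq Λ)
        (κ₀ : Type) (_ : Fintype κ₀) (_ : DecidableEq κ₀) (_ : WRel κ₀) (D : Par0 Λ κ₀)
        (sp : ℕ → Finset Λ) (j₀ : Λ) (c : ℝ)
        (stp : Stp Λ (Lb κ₀ (leafs 1 1 t)))
        (δ : TrG Λ (Lb κ₀ (leafs 1 1 t)) → Finset Λ → ℝ),
        t.items = S ∧ t.Ok n ∧ Fit 1 1 t ∧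
        OutF γ c₀ C C₀ η B δ₀ ψ S S' t (leafs 1 1 t) n c D sp j₀ stp δ) : MAIN γ := by
  refine MAIN_of_good (c₀ := c₀) (K := 16 * (C + C₀ + η + B + 1) * (6 + δ₀)) hc₀ P₀
    fun ψ S hS => ?_
  obtain ⟨t, n, S', Λ, iF, iD, κ₀, iFκ, iDκ, iRκ, D, sp, j₀, c, stp, δ, hi, hO, hF, h⟩ := H ψ S hS
  set X := leafs 1 1 t with hX
  refine ⟨t, n, S', Λ, iF, iD, Lb κ₀ X, inferInstance, inferInstance, D.par X, hi, hO, hF, h.good,
    ?_⟩
  have hit : ∀ j, D.it j ∈ t.items := fun j => by rw [hi]; exact h.good.it j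
  have hW0 : ∀ j, 0 ≤ wt D j := fun j =>
    mul_nonneg (by have := h.good.ab j; exact sub_nonneg.2 this) (by positivity)
  have key := energy0F D (sp := sp) hW0 j₀ (t := t) (X := X) (n := n) (c := c)
    (Finset.Subset.refl _) hO hF hit h.good.wts hC hC₀ hη hB h.blind h.nosplit h.stp0 h.jt0
    h.slack h.leafE h.leafI h.node
  have hsum := sum_wt_le hS h.good h.disj
  have hsum0 : 0 ≤ ∑ j, wt D j := Finset.sum_nonneg fun j _ => hW0 j
  have hval : ((D.par X).toG 1 1 t).tot = fun x => ∑ j, ((D.par X).toFT 1 1 t).U 1 j x := by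
    funext x
    show ∑ j, ((D.par X).toG 1 1 t).val j x = _
    rw [(D.par X).toG_val one_pos hF h.good.wts]
  rw [hval]
  refine key.trans ?_
  refine mul_le_mul_of_nonneg_left ?_ (by positivity)
  have := h.slack0
  nlinarith

end Crest.Agent.R4P.FrameF29
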