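import Crest.Agent.R4P.StratF_36

/-!
R4 (S0004), powers, helper36: the strategy `StX` and its crossing facts for the **states with history**
(`GSt927.HI`, `GSt927.JS`).

* `HJ_BS_next` : item form, circle / levels and the invariant `BS` along `steps`.
* `crs_facts_x` : item form of the crossing states and their kinds `CK`.
* `oneL_x`, `oneR_x`, `jnt_x` : the same over the steps of CrossSum_29.
-/

set_option autoImplicit false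
set_option linter.unusedSectionVars false
set_option linter.unusedVariables false
open MeasureTheory Filter Set

namespace Crest.Agent.R4P.StratX36

open Crest.Agent.R4.Tour104 Crest.Agent.R4.Tour758 Crest.Agent.R4.Avg758 Crest.Agent.R4.Clos758
open Crest.Agent.R4.ClosL758 Crest.Agent.R4.ClosG758 Crest.Agent.R4.ClosR758
open Crest.Agent.R4P.Cnt588 Crest.Agent.R4P.Walk560 Crest.Agent.R4P.Item758
open Crest.Agent.R4P.Bld532 (NS All NodeOk Bk dv nd mem_dv mem_nd Ws_mono Ws_nonneg)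
open Crest.Agent.R4 Crest.Agent.R4P
open Crest.Agent.R4P.StratN36 Crest.Agent.R4P.Strip29 Crest.Agent.R4P.VWalk36
open Crest.Agent.R4P.GSt927 (HI JS HJ.lev HJ.next)
open Crest.Agent.R4P.Res927 Crest.Agent.R4P.AvgItem710

variable {Λ κ : Type*} [Fintype Λ] [DecidableEq Λ] [Fintype κ] [DecidableEq κ] [WRel κ]
  {D : Par Λ κ} {sp : ℕ → Finset Λ} {P : Bld532.Par} {W : ℕ → ℝ} {Qp : NS → IT → Prop}
  {μ : TrG Λ κ → Finset Λ → ℝ} {rB : DT Λ κ → ℕ} {u u' : NS} {τ τ' : IT} {B₀ B₀' : ℕ} {x : XSt Λ κ}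

lemma wt_of_HJ (hQ : ∀ u τ, Qp u τ → NF D P W μ rB u τ)
    (h : HI D sp Qp B₀ B₀' x u u' τ τ') (hj : JS x.s u u') : WT D sp Qp x.s u u' τ τ' where
  tL := h.L.eq
  tR := h.R.eq
  qL := h.qL
  qR := h.qR
  lv := fun hl hl' l hlp hlt => by
    obtain ⟨h1, h2, -⟩ := HJ.lev (P := P) (W := W) (fun u τ hq => (hQ u τ hq).ok) h hj hl hl'
    exact ⟨h1.2 l hlp hlt, h2.2 l hlp hlt⟩

/-- **item form, circle, levels and `BS` along the steps** (any strategy) -/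
theorem HJ_BS_next (hG : PG P W) (hQ : ∀ u τ, Qp u τ → NF D P W μ rB u τ) (hsp : D.SpOk sp)
    (hil : ∀ b, IL D.it (sp b)) {stp : Stp Λ κ} {dv : DT Λ κ → Λ → Prop} (hx : XI x)
    (h : HI D sp Qp B₀ B₀' x u u' τ τ') (hj : JS x.s u u') (hB : BS P.sg μ D.it x.s) :
    ∀ e ∈ steps stp dv x, ∃ v v' σ σ', HI D sp Qp B₀ B₀' e.y v v' σ σ' ∧ JS e.y.s v v' ∧
      BS P.sg μ D.it e.y.s := by
  intro e he
  obtain ⟨v, v', σ, σ', h1, h2⟩ := HJ.next (P := P) (W := W) hsp hil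
    (fun u τ hq => (hQ u τ hq).ok) hx h hj e he
  refine ⟨v, v', σ, σ', h1, h2, ?_⟩
  have hm : (e.a * e.a', e.y.s) ∈ nxt stp x.s := by
    rw [← steps_proj stp dv x]
    exact List.mem_map.2 ⟨e, he, rfl⟩
  exact BS.next hG hQ (wt_of_HJ hQ h hj) hB _ hm

/-- a side of a crossing state -/
lemma side_add {A : Finset Λ} {d : DT Λ κ} {v : NS} {σ σ₂ : IT} {p : ℕ}
    (hI : SideI D sp u.B u.A τ A d) (hO : τ.Ok u.n) (hv : v = ⟨p + 1, u.c, u.A, u.B⟩)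
    (h : (τ = .add p σ σ₂ ∨ τ = .add p σ₂ σ) ∨ (τ = .far p σ σ₂ ∧ ∃ F, σ = .leaf F) ∨
      (τ = .far p σ₂ σ ∧ ∃ F, σ₂ = .leaf F)) :
    SideI D sp v.B v.A σ A (D.toDT sp v.B v.A σ) ∧ σ.Ok v.n := by
  subst hv
  rcases h with (rfl | rfl) | ⟨rfl, -⟩ | ⟨rfl, -⟩
  · exact ⟨hI.add₁, hO.2.2.2.1⟩
  · exact ⟨hI.add₀, hO.2.2.2.2⟩
  · exact ⟨hI.far₁, hO.2.2.2.1⟩
  · exact ⟨hI.far₀, hO.2.2.2.2⟩

variable {st : St Λ κ → Prop}

/-- **item form of the crossing states and their kinds** -/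
theorem crs_facts_x (hG : PG P W) (hQ : ∀ u τ, Qp u τ → NF D P W μ rB u τ)
    (h : HI D sp Qp B₀ B₀' x u u' τ τ') (hj : JS x.s u u') (hB : BS P.sg μ D.it x.s) :
    ∀ q ∈ crs (StX st μ D.it rB P.sg) x.s, ∃ v v' σ σ', StI D sp q v.B v.A σ v'.B v'.A σ' ∧
      σ.Ok v.n ∧ σ'.Ok v'.n ∧ v.A * v.B * q.M = v'.A * v'.B * q.M' ∧
      v.B = B₀ * ∏ i ∈ x.u, i ∧ v'.B = B₀' * ∏ i ∈ x.u', i ∧ IL D.it q.A ∧ IL D.it q.A' ∧
      CI D sp Qp x.s u u' τ τ' q v v' σ σ' ∧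
      CK P W x.s.p (ex x.s.p u.B) (ex x.s.p u'.B) τ.items τ'.items σ.items σ'.items
        (Dd26.dd q.t) (Dd26.dd q.t') := by
  intro q hq
  obtain ⟨v, v', σ, σ', hC, hK⟩ := crs_facts hG hQ (wt_of_HJ hQ h hj) hB q hq
  have hL : SideI D sp v.B v.A σ q.A q.t ∧ σ.Ok v.n ∧ v.A * v.B = u.A * u.B ∧ v.B = u.B := by
    rcases hC.mL with ⟨rfl, rfl⟩ | ⟨e, σ₂, h2⟩
    · refine ⟨?_, h.okL, rfl, rfl⟩
      rw [hC.A, hC.tL, ← h.L.eq]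
      exact h.L
    · obtain ⟨h3, h4⟩ := side_add h.L h.okL e h2
      refine ⟨?_, h4, by rw [e], by rw [e]⟩
      rw [hC.A, hC.tL]
      exact h3
  have hR : SideI D sp v'.B v'.A σ' q.A' q.t' ∧ σ'.Ok v'.n ∧ v'.A * v'.B = u'.A * u'.B ∧
      v'.B = u'.B := by
    rcases hC.mR with ⟨rfl, rfl⟩ | ⟨e, σ₂, h2⟩
    · refine ⟨?_, h.okR, rfl, rfl⟩
      rw [hC.A', hC.tR, ← h.R.eq]
      exact h.R
    · obtain ⟨h3, h4⟩ := side_add h.R h.okR e h2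
      refine ⟨?_, h4, by rw [e], by rw [e]⟩
      rw [hC.A', hC.tR]
      exact h3
  refine ⟨v, v', σ, σ', ⟨hL.1, hR.1, ?_, ?_⟩, hL.2.1, hR.2.1, ?_, ?_, ?_, ?_, ?_, hC, hK⟩
  · rw [hC.M]; exact h.st.M0
  · rw [hC.M']; exact h.st.M0'
  · rw [hL.2.2.1, hR.2.2.1, hC.M, hC.M']; exact hj.circ
  · rw [hL.2.2.2]; exact h.bL
  · rw [hR.2.2.2]; exact h.bR
  · rw [hC.A]; exact h.ilL
  · rw [hC.A']; exact h.ilR

/-! ### over the steps of CrossSum_29 -/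

open Crest.Agent.R4P.CrossSum29 (OneL OneR Jnt)
open Crest.Agent.R4P.Dd26

/-- **left one-sided step**: item form of the crossing state and its kind -/
theorem oneL_x (hG : PG P W) (hQ : ∀ u τ, Qp u τ → NF D P W μ rB u τ)
    (h : HI D sp Qp B₀ B₀' x u u' τ τ') (hj : JS x.s u u') (hB : BS P.sg μ D.it x.s)
    {r : Λ → κ} {t₁ t₀ : DT Λ κ} (ho : OneL (StX st μ D.it rB P.sg) x.s r t₁ t₀) :
    ∃ σX σC, StI D sp { x.s with t := (StX st μ D.it rB P.sg).x x.s t₁ t₀ }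
        u.B u.A σX u'.B u'.A τ' ∧ σX.Ok (x.s.p + 1) ∧
      OC D sp Qp x.s.p u τ σX σC ((StX st μ D.it rB P.sg).x x.s t₁ t₀)
        ((StX st μ D.it rB P.sg).c x.s t₁ t₀) ∧
      XF P W x.s.p (ex x.s.p u'.B) τ.items σX.items σC.items τ'.items
        (dd ((StX st μ D.it rB P.sg).x x.s t₁ t₀)) (dd ((StX st μ D.it rB P.sg).c x.s t₁ t₀)) := by
  obtain ⟨σX, σC, hC, hX⟩ := oneL_facts (st := st) hG hQ (wt_of_HJ hQ h hj) hB ho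
  have h2 : (τ = .add x.s.p σX σC ∨ τ = .add x.s.p σC σX) ∨
      (τ = .far x.s.p σX σC ∧ ∃ F, σX = .leaf F) ∨ (τ = .far x.s.p σC σX ∧ ∃ F, σC = .leaf F) :=
    hC.it
  obtain ⟨h3, h4⟩ := side_add h.L h.okL rfl h2
  refine ⟨σX, σC, ⟨?_, h.R, h.st.M0, h.st.M0'⟩, h4, hC, hX⟩
  rw [hC.eX]
  exact h3

/-- **right one-sided step**: item form of the crossing state and its kind -/
theorem oneR_x (hG : PG P W) (hQ : ∀ u τ, Qp u τ → NF D P W μ rB u τ)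
    (h : HI D sp Qp B₀ B₀' x u u' τ τ') (hj : JS x.s u u') (hB : BS P.sg μ D.it x.s)
    {r : Λ → κ} {t₁ t₀ : DT Λ κ} (ho : OneR (StX st μ D.it rB P.sg) x.s r t₁ t₀) :
    ∃ σX σC, StI D sp { x.s with t' := (StX st μ D.it rB P.sg).x x.s t₁ t₀ }
        u.B u.A τ u'.B u'.A σX ∧ σX.Ok (x.s.p + 1) ∧
      OC D sp Qp x.s.p u' τ' σX σC ((StX st μ D.it rB P.sg).x x.s t₁ t₀)
        ((StX st μ D.it rB P.sg).c x.s t₁ t₀) ∧
      XF P W x.s.p (ex x.s.p u.B) τ'.items σX.items σC.items τ.items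
        (dd ((StX st μ D.it rB P.sg).x x.s t₁ t₀)) (dd ((StX st μ D.it rB P.sg).c x.s t₁ t₀)) := by
  obtain ⟨σX, σC, hC, hX⟩ := oneR_facts (st := st) hG hQ (wt_of_HJ hQ h hj) hB ho
  have h2 : (τ' = .add x.s.p σX σC ∨ τ' = .add x.s.p σC σX) ∨
      (τ' = .far x.s.p σX σC ∧ ∃ F, σX = .leaf F) ∨ (τ' = .far x.s.p σC σX ∧ ∃ F, σC = .leaf F) :=
    hC.it
  obtain ⟨h3, h4⟩ := side_add h.R h.okR rfl h2
  refine ⟨σX, σC, ⟨h.L, ?_, h.st.M0, h.st.M0'⟩, h4, hC, hX⟩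
  rw [hC.eX]
  exact h3

/-- **joint step**: item form of the two crossing states and their kind -/
theorem jnt_x (hG : PG P W) (hQ : ∀ u τ, Qp u τ → NF D P W μ rB u τ)
    (h : HI D sp Qp B₀ B₀' x u u' τ τ') (hj : JS x.s u u')
    {r r' : Λ → κ} {t₁ t₀ t₁' t₀' : DT Λ κ}
    (ho : Jnt (StX st μ D.it rB P.sg) x.s r t₁ t₀ r' t₁' t₀') :
    ∃ σ₁ σ₀ σ₁' σ₀', StI D sp { x.s with t := t₁, t' := t₀' } u.B u.A σ₁ u'.B u'.A σ₀' ∧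
      StI D sp { x.s with t := t₀, t' := t₁' } u.B u.A σ₀ u'.B u'.A σ₁' ∧
      (σ₁.Ok (x.s.p + 1) ∧ σ₀.Ok (x.s.p + 1) ∧ σ₁'.Ok (x.s.p + 1) ∧ σ₀'.Ok (x.s.p + 1)) ∧
      AC D sp Qp x.s.p u τ σ₁ σ₀ t₁ t₀ ∧ AC D sp Qp x.s.p u' τ' σ₁' σ₀' t₁' t₀' ∧
      ex x.s.p u.B = 0 ∧ ex x.s.p u'.B = 0 ∧
      JF P W x.s.p τ.items σ₁.items σ₀.items τ'.items σ₁'.items σ₀'.items := by
  obtain ⟨σ₁, σ₀, σ₁', σ₀', hA, hA', h0, h0', hJ⟩ :=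
    jnt_facts (st := st) hG hQ (wt_of_HJ hQ h hj) ho
  obtain ⟨_, a⟩ := hA.m1
  obtain ⟨_, b⟩ := hA.m0
  obtain ⟨_, a'⟩ := hA'.m1
  obtain ⟨_, b'⟩ := hA'.m0
  obtain ⟨k1, k1'⟩ := side_add h.L h.okL rfl a
  obtain ⟨k2, k2'⟩ := side_add h.L h.okL rfl b
  obtain ⟨k3, k3'⟩ := side_add h.R h.okR rfl a'
  obtain ⟨k4, k4'⟩ := side_add h.R h.okR rfl b'
  refine ⟨σ₁, σ₀, σ₁', σ₀', ⟨?_, ?_, h.st.M0, h.st.M0'⟩, ⟨?_, ?_, h.st.M0, h.st.M0'⟩,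
    ⟨k1', k2', k3', k4'⟩, hA, hA', h0, h0', hJ⟩
  · rw [hA.e1]; exact k1
  · rw [hA'.e0]; exact k4
  · rw [hA.e0]; exact k2
  · rw [hA'.e1]; exact k3

end Crest.Agent.R4P.StratX36
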