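import Crest.Agent.R4P.DeadX_26
import Crest.Agent.R4P.CrossRel_29
import Crest.Agent.R4P.FarGap_29
import Crest.Agent.R4P.StratH_36
import Crest.Agent.R4P.CtxNF_36
import Crest.Agent.R4P.SkelF_29
import Crest.Agent.R4P.NMDef_10
import Crest.Agent.R4P.StepDataD947

/-!
R4 (S0004) with powers, module D (crossing pairs), helper26: **assembly of `eX`, outer part**.

* `allMass` : masses at all the nodes of a side.
* `QE` : node facts; `ctx_QE`.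
* `ctx_eX_of` : the part `eX` of a context (`univ`) from the payments at the add steps.
-/

set_option autoImplicit false
set_option linter.unusedSectionVars false
set_option linter.unusedVariables false

namespace Crest.Agent.R4P.AsmX26

open Crest.Agent.R4.Tour104 Crest.Agent.R4.Tour758 Crest.Agent.R4.Avg758 Crest.Agent.R4.Clos758
open Crest.Agent.R4.ClosL758 Crest.Agent.R4.ClosG758 Crest.Agent.R4.ClosR758
open Crest.Agent.R4.Fam464 Crest.Agent.R4P.Cnt588 Crest.Agent.R4P.Walk560 Crest.Agent.R4.Piece464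
open Crest.Agent.R4P.Item758 Crest.Agent.R4P.AvgItem710
open Crest.Agent.R4P.Data758 Crest.Agent.R4P.WalkIT579
open Crest.Agent.R4P.Bld532 (NS All NodeOk Bk)
open Crest.Agent.R4P.Res927 Crest.Agent.R4P.GSt927 Crest.Agent.R4P.OSWS245
open Crest.Agent.R4P.StopCtx9 (OFP RI)
open Crest.Agent.R4P.Skel189 (Ctx top Part PartW)
open Crest.Agent.R4P.Frame758 (tM tN tG tD wt)
open Crest.Agent.R4P.ClosP542 (PulG)
open Crest.Agent.R4.Item758 (AdI AdI_univ)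
open Crest.Agent.R4P.VWalk36 (crs)
open Crest.Agent.R4P.Strip29 (Blind NoSplit)
open Crest.Agent.R4.Soft104
open Crest.Agent.R4P.NMCtx927 (All_lvl)
open Crest.Agent.R4P.Link758 (MF MF_root)
open Crest.Agent.R4P.Step588 (NDt ND1 ctx_NDt All_All)
open Crest.Agent.R4P.CtxX26 Crest.Agent.R4P.DeadX26 Crest.Agent.R4P.CrossSum29
open Crest.Agent.R4P.StratX36 Crest.Agent.R4P.SkelF29 Crest.Agent.R4P.Dd26
open Crest.Agent.R4P

/-! ### masses at all the nodes -/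

theorem allMass {Λ κ : Type*} [Fintype Λ] [DecidableEq Λ] [DecidableEq κ] [WRel κ] [Fintype κ]
    {wr : ℕ → Λ → κ} {Ad : TrG Λ κ → Finset Λ → Prop}
    {μ : TrG Λ κ → Finset Λ → ℝ} {ν : TrG Λ κ → ℝ} : ∀ t : DT Λ κ, t.g.Ok →
    t.All (Walk560.NodeOk wr Ad μ ν) → t.All (MassN fun d => ν d.g) := by
  intro t
  induction t with
  | leaf r f => intro _ h; exact h.mass.base.nu
  | br p w r t₁ t₀ v B G ih₁ ih₀ =>
    intro ho h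
    exact ⟨⟨ho.2.2.w0, ho.2.2.w1, h.2.1.self.mass.base.nu, h.2.2.self.mass.base.nu,
      h.self.mass.2.2⟩, ih₁ ho.1 h.2.1, ih₀ ho.2.1 h.2.2⟩
  | add b r t₁ t₀ ih₁ ih₀ =>
    intro ho h
    exact ⟨⟨h.2.1.self.mass.base.nu, h.2.2.self.mass.base.nu, h.self.mass.2.2⟩,
      ih₁ ho.1 h.2.1, ih₀ ho.2 h.2.2⟩
  | up b Sp t ih =>
    intro ho h
    exact ⟨⟨h.2.self.mass.base.nu, le_rfl⟩, ih ho h.2⟩

section ctx
variable {N : Skel189.Num} {γ : ℝ} {p0 P₀ : ℕ}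

/-- **node facts** of the walk for `eX` (`Q'` = further facts) -/
structure QE (X : Ctx N γ p0 P₀) (j₀ : X.c.Lam) (Q' : NS → IT → Prop) (u : NS) (τ : IT) : Prop where
  nd : NDt X.par (w X.ψ) X.c.t u τ
  nq : NQ X.par (w X.ψ) X.c.t.uq u τ
  nf : NF (X.c.D.par X.Y) X.par (w X.ψ) (X.tm j₀) (CtxNF36.rdB j₀) u τ
  mf : MF X.c.t u τ
  lv : u.n ≤ top X.S
  n0 : 0 < u.n
  ok : τ.Ok u.n
  pz : ∃ Z, PhiU820.PlOk Z τ ∧ τ.Ok u.n ∧ ∀ z ∈ Z, u.n ≤ z + 1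
  far : FarI τ
  mass : X.tn j₀ (X.g u τ) = u.c * Ws (w X.ψ) τ.items
  sub : τ.items ⊆ X.S
  ext : Q' u τ

theorem ctx_QE (X : Ctx N γ p0 P₀) (j₀ : X.c.Lam) {Q' : NS → IT → Prop}
    (hQ : All Q' ⟨top X.S, 1, 1, 1⟩ X.c.t) : All (QE X j₀ Q') ⟨top X.S, 1, 1, 1⟩ X.c.t := by
  have hn0 : 0 < top X.S := by unfold Skel189.top; omega
  have h1 := ctx_NDt X
  have h2 : All (NQ X.par (w X.ψ) X.c.t.uq) ⟨top X.S, 1, 1, 1⟩ X.c.t :=
    All.mono (fun u τ h => h.1) X.all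
  have h3 := CtxNF36.ctx_NF X j₀
  have h4 := MF_root X.tOk 1
  have h5 := All_lvl X.c.t ⟨top X.S, 1, 1, 1⟩ X.tOk le_rfl hn0
  have h6 := All_PZ X.c.t ⟨top X.S, 1, 1, 1⟩ ∅ X.tOk (by rw [X.ht']; exact Bld532.bld_PlOk _ _ _ _ _ _ _)
    (by simp)
  have h7 := ctx_FarI X ⟨top X.S, 1, 1, 1⟩
  have h8 := ctx_nu X j₀
  have h9 := All_items X.c.t ⟨top X.S, 1, 1, 1⟩
  refine All.mono (fun u τ hh => ?_) ((((((((h1.and h2).and h3).and h4).and h5).and h6).and h7).and h8).and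
    (h9.and hQ))
  obtain ⟨⟨⟨⟨⟨⟨⟨⟨k1, k2⟩, k3⟩, k4⟩, k5⟩, k6⟩, k7⟩, k8⟩, k9, k10⟩ := hh
  rw [X.items] at k9
  exact ⟨k1, k2, k3, k4, k5.1, k5.2.1, k1.self.ok, k6, k7, k8.1, k9, k10⟩

/-- the extra part of the invariant: dead nodes, dominated sides, further facts -/
def JX (X : Ctx N γ p0 P₀) (j₀ : X.c.Lam)
    (J : XSt X.c.Lam (Lb (WL X.c.Lam) X.Y) → NS → NS → IT → IT → Prop)
    (x : XSt X.c.Lam (Lb (WL X.c.Lam) X.Y)) (v v' : NS) (σ σ' : IT) : Prop :=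
  DJ x.s ∧ BS X.par.sg (X.tm j₀) X.c.D.it x.s ∧ J x v v' σ σ'

/-- the walk invariant of a context -/
abbrev WIX (X : Ctx N γ p0 P₀) (j₀ : X.c.Lam) (Q' : NS → IT → Prop)
    (J : XSt X.c.Lam (Lb (WL X.c.Lam) X.Y) → NS → NS → IT → IT → Prop) (u₀ : NS)
    (x : XSt X.c.Lam (Lb (WL X.c.Lam) X.Y)) (v v' : NS) (σ σ' : IT) : Prop :=
  WI (X.c.D.par X.Y) X.c.sp (QE X j₀ Q') (JX X j₀ J) u₀ p0 x v v' σ σ'

variable {X : Ctx N γ p0 P₀} {j₀ : X.c.Lam} {Q' : NS → IT → Prop}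
  {J : XSt X.c.Lam (Lb (WL X.c.Lam) X.Y) → NS → NS → IT → IT → Prop}

lemma jn_JX (hG : PG X.par (w X.ψ)) {stp : X.STP}
    (hJ : Jn (X.c.D.par X.Y) X.c.sp (QE X j₀ Q') stp J) :
    Jn (X.c.D.par X.Y) X.c.sp (QE X j₀ Q') stp (JX X j₀ J) := by
  intro B₀ B₀' x v v' σ σ' h1 h2 h3 h4 e he
  obtain ⟨w, w', ρ, ρ', k1, k2, k3⟩ := hJ B₀ B₀' x v v' σ σ' h1 h2 h3 h4.2.2 e he
  obtain ⟨-, -, -, -, -, -, k4⟩ := HJ_BS_next hG (fun u τ h => QE.nf h) (X.ok.spok.spOk X.Y)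
    (fun b => X.c.IL_sp b) h1 h2 h3 h4.2.1 e he
  exact ⟨w, w', ρ, ρ', k1, k2, h4.1.step h1 e he, k4, k3⟩

/-- **the invariant is preserved** -/
theorem wix_next (hG : PG X.par (w X.ψ)) (hp0 : 1 ≤ p0) {stp : X.STP}
    (hst : ∀ s : X.Sta, ¬ stp s → ¬ stpN s) (hn : NoSplit stp)
    (hJ : Jn (X.c.D.par X.Y) X.c.sp (QE X j₀ Q') stp J) {u₀ : NS}
    {x : XSt X.c.Lam (Lb (WL X.c.Lam) X.Y)} {v v' : NS} {σ σ' : IT}
    (h : WIX X j₀ Q' J u₀ x v v' σ σ') :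
    ∀ e ∈ steps stp (IMI194.dvM GInst194.mI) x,
      (∃ w w' ρ ρ', WIX X j₀ Q' J u₀ e.y w w' ρ ρ') ∧ 0 < e.a ∧ 0 < e.a' :=
  WI.next (fun u τ h => QE.nq h) hp0 hst hn (jn_JX hG hJ) h

/-- the invariant of the walk -/
theorem wix_inv {u₀ : NS} {x : XSt X.c.Lam (Lb (WL X.c.Lam) X.Y)} {v v' : NS} {σ σ' : IT}
    (h : WIX X j₀ Q' J u₀ x v v' σ σ') :
    Walk560.Inv (X.c.D.par X.Y).rho (AdI (X.c.D.par X.Y).it) (X.tm j₀)
      (X.tn j₀) x.s.p x.s :=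
  inv_of_StI (X.ok.spok.spOk X.Y) (fun b => X.c.IL_sp b)
    (X.c.D.dec_nonneg (fun j => Skel189.wt_nonneg X j) (fun S => Skel189.cx_nonneg X S) _)
    (X.c.D.dec_union (wt X.c.D) X.cx X.Y) j₀ h.hi.st h.hi.ilL h.hi.ilR le_rfl h.hi.mL h.hi.mR

/-- self states of the nodes -/
theorem wix_start {u : NS} {τ : IT} (hq : All (QE X j₀ Q') u τ)
    (hJ : J (XSt.st u.n (X.self u τ Finset.univ)) u u τ τ) :
    WIX X j₀ Q' J u (XSt.st u.n (X.self u τ Finset.univ)) u u τ τ := by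
  have hs := hq.self
  have hnodes := Bld532.All.mono (fun s t h => h.node) hs.nd.all
  have hF : Fit u.B u.A τ := Bld532.Fit_of_NodeOk hnodes
  have hB' : 0 < u.B := Nat.pos_of_ne_zero hs.nd.bk.sfB.ne_zero
  have hW : (X.c.D.par X.Y).Wts u.A τ := by
    intro j hj
    rw [← hs.nd.self.pp _ hj]
    exact X.ok.wt _ (Cf.mem_S j) _
  have hs' : SideI (X.c.D.par X.Y) X.c.sp u.B u.A τ Finset.univ
      ((X.c.D.par X.Y).toDT X.c.sp u.B u.A τ) :=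
    ⟨rfl, hB', hF, hW, (AdI_univ (X.c.D.par X.Y).it _).1, u.n, hs.ok⟩
  obtain ⟨Z, z1, z2, z3⟩ := hs.pz
  exact WI.start (P := X.par) (W := w X.ψ) (fun u τ h => h.nf.ok) le_rfl
    (fun j => X.ok.bpm _ (Cf.mem_S j) (Cf.r_pos j) (Nat.le_succ _)) hs' hq hs.ok hs.n0
    ⟨DJ.self (DN_toDT _ _ τ u.n Z u.B u.A z2 z1 z3), BS.self _ _ _ _ _, hJ⟩

/-- masses at all the nodes of the two sides -/
theorem wix_mass {u₀ : NS} {x : XSt X.c.Lam (Lb (WL X.c.Lam) X.Y)} {v v' : NS} {σ σ' : IT}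
    (h : WIX X j₀ Q' J u₀ x v v' σ σ') :
    x.s.t.All (MassN fun d => X.tn j₀ d.g) ∧ x.s.t'.All (MassN fun d => X.tn j₀ d.g) := by
  have hI := wix_inv h
  exact ⟨allMass _ hI.L.ok hI.L.wf, allMass _ hI.R.ok hI.R.wf⟩

/-- sum over the steps -/
noncomputable def stS (stp : X.STP) (Ψ : XSt X.c.Lam (Lb (WL X.c.Lam) X.Y) → ℝ)
    (x : XSt X.c.Lam (Lb (WL X.c.Lam) X.Y)) : ℝ :=
  ((steps stp (IMI194.dvM GInst194.mI) x).map fun e => e.a * e.a' * Ψ e.y).sum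

/-- **payments at the steps** -/
structure Pay (stp : X.STP) (j₀ : X.c.Lam) (B K K₂ : ℝ) (gg : ℕ → ℝ)
    (Ψ : XSt X.c.Lam (Lb (WL X.c.Lam) X.Y) → ℝ) (x : XSt X.c.Lam (Lb (WL X.c.Lam) X.Y)) : Prop where
  oth : Oth stp x.s → stS stp Ψ x ≤ Ψ x
  oneL : ∀ r t₁ t₀, OneL stp x.s r t₁ t₀ →
    Xs (X.tm j₀) B { x.s with t := stp.x x.s t₁ t₀ } + stS stp Ψ x ≤
      K * (X.tn j₀ (stp.x x.s t₁ t₀).g + pm (fun d => X.tn j₀ d.g) (stp.c x.s t₁ t₀) x.s.t') +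
      K₂ * (X.tn j₀ (stp.x x.s t₁ t₀).g * Real.sqrt (X.tn j₀ x.s.t'.g / X.tn j₀ x.s.t.g)) +
      gF gg (fun d => X.tn j₀ d.g) x.s.t + Ψ x
  oneR : ∀ r t₁ t₀, OneR stp x.s r t₁ t₀ →
    Xs (X.tm j₀) B { x.s with t' := stp.x x.s t₁ t₀ } + stS stp Ψ x ≤
      K * (X.tn j₀ (stp.x x.s t₁ t₀).g + pm (fun d => X.tn j₀ d.g) x.s.t (stp.c x.s t₁ t₀)) +
      K₂ * (X.tn j₀ (stp.x x.s t₁ t₀).g * Real.sqrt (X.tn j₀ x.s.t.g / X.tn j₀ x.s.t'.g)) +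
      gF gg (fun d => X.tn j₀ d.g) x.s.t' + Ψ x
  jnt : ∀ r t₁ t₀ r' t₁' t₀', Jnt stp x.s r t₁ t₀ r' t₁' t₀' →
    Xs (X.tm j₀) B { x.s with t := t₁, t' := t₀' } + Xs (X.tm j₀) B { x.s with t := t₀, t' := t₁' } +
      stS stp Ψ x ≤
      K * (pm (fun d => X.tn j₀ d.g) t₁ t₁' + pm (fun d => X.tn j₀ d.g) t₀ t₀') +
      gF gg (fun d => X.tn j₀ d.g) x.s.t + gF gg (fun d => X.tn j₀ d.g) x.s.t' + Ψ x

/-- **THE PART `eX` OF A CONTEXT from the payments at the steps** -/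
theorem ctx_eX_of (hG : PG X.par (w X.ψ)) (hp0 : 1 ≤ p0) {stp : X.STP}
    (hst : ∀ s : X.Sta, ¬ stp s → ¬ stpN s) (hns : NoSplit stp)
    (hJ : Jn (X.c.D.par X.Y) X.c.sp (QE X j₀ Q') stp J)
    (hQ : All Q' ⟨top X.S, 1, 1, 1⟩ X.c.t)
    (hJ0 : ∀ u τ, All (QE X j₀ Q') u τ → J (XSt.st u.n (X.self u τ Finset.univ)) u u τ τ)
    {B K K₂ Cg CΨ : ℝ} (hK : 0 ≤ K) (hK₂ : 0 ≤ K₂) {gg : ℕ → ℝ} (hgg : ∀ b, 0 ≤ gg b)
    (hCg : ∀ n, SG gg n ≤ Cg)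
    {Ψ : XSt X.c.Lam (Lb (WL X.c.Lam) X.Y) → ℝ}
    (hΨ : ∀ u τ, All (QE X j₀ Q') u τ → ¬ PulG (X.g u τ) →
      Ψ (XSt.st u.n (X.self u τ Finset.univ)) ≤
        CΨ * (X.mu j₀ u τ Finset.univ + X.mu j₀ u τ Finset.univ * X.mu j₀ u τ Finset.univ))
    (H : ∀ u₀ x v v' σ σ', WIX X j₀ Q' J u₀ x v v' σ σ' → Pay stp j₀ B K K₂ gg Ψ x)
    (Hb : NS → IT → Prop) :
    PartWF X j₀ Hb stp (eX stp (X.tm j₀) B) (2 * K + 2 * K₂ + 2 * Cg + CΨ) := by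
  refine All.mono (fun u τ hh hpu _ => ?_) ((All_All _ _ (ctx_QE X j₀ hQ)).and (Skel189.ctx_tM_mono X j₀))
  obtain ⟨hq, hmono⟩ := hh
  set x₀ : XSt X.c.Lam (Lb (WL X.c.Lam) X.Y) := XSt.st u.n (X.self u τ Finset.univ) with hx₀
  have hstart : WIX X j₀ Q' J u x₀ u u τ τ := wix_start hq (hJ0 u τ hq)
  have key := cross_sumR (π := fun x : XSt X.c.Lam (Lb (WL X.c.Lam) X.Y) => x.s) (stp := stp) hns
    (Iv := fun x => ∃ v v' σ σ', WIX X j₀ Q' J u x v v' σ σ')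
    (wr := (X.c.D.par X.Y).rho) (Ad := AdI (X.c.D.par X.Y).it) (μ := X.tm j₀) (ν := X.tn j₀)
    (fun x hx => by
      obtain ⟨v, v', σ, σ', hx⟩ := hx
      exact ⟨_, wix_inv hx⟩)
    (fun x hx r t₁ t₀ ho => by
      obtain ⟨v, v', σ, σ', hx⟩ := hx
      exact hx.j.1.hL ho)
    (fun x hx r t₁ t₀ ho => by
      obtain ⟨v, v', σ, σ', hx⟩ := hx
      exact hx.j.1.hR ho)
    (B := B) hK hK₂ (L := FL gg fun d => X.tn j₀ d.g) (g := gF gg fun d => X.tn j₀ d.g)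
    (fun x hx => by
      obtain ⟨v, v', σ, σ', hx⟩ := hx
      obtain ⟨m1, m2⟩ := wix_mass hx
      exact ⟨FL_gap hgg m1, FL_gap hgg m2⟩) (Ψ := Ψ)
    (fun x hx => by
      obtain ⟨v, v', σ, σ', hx⟩ := hx
      have hP := H u x v v' σ σ' hx
      refine ⟨(steps stp (IMI194.dvM GInst194.mI) x).map fun e => (e.a * e.a', e.y), ?_, ?_, ?_⟩
      · rw [← steps_proj stp (IMI194.dvM GInst194.mI) x, List.map_map]
        rfl
      · intro e he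
        obtain ⟨e', he', rfl⟩ := List.mem_map.1 he
        exact (wix_next hG hp0 hst hns hJ hx e' he').1
      · have es : (((steps stp (IMI194.dvM GInst194.mI) x).map fun e => (e.a * e.a', e.y)).map
            fun e => e.1 * Ψ e.2).sum = stS stp Ψ x := by
          rw [List.map_map]; rfl
        rw [es]
        exact ⟨hP.oth, hP.oneL, hP.oneR, hP.jnt⟩) x₀ ⟨u, u, τ, τ, hstart⟩
  have hnn : 0 ≤ X.tn j₀ (X.g u τ) := (hmono Finset.univ Finset.univ (Finset.Subset.refl _)).1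
  have hg : (X.self u τ Finset.univ).t.g = X.g u τ := (X.c.D.par X.Y).toDT_g X.c.sp τ u.B u.A
  have hg' : (X.self u τ Finset.univ).t'.g = X.g u τ := hg
  have hLb : FL gg (fun d => X.tn j₀ d.g) (X.self u τ Finset.univ).t ≤ Cg * X.tn j₀ (X.g u τ) := by
    obtain ⟨m1, -⟩ := wix_mass hstart
    have h1 := (FL_le hgg (m := fun d => X.tn j₀ d.g) (X.self u τ Finset.univ).t u.n
      ((X.c.D.par X.Y).toDT_Col X.c.sp τ u.n u.B u.A hq.self.ok) m1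
      (FarD_toDT _ X.c.sp τ u.n u.B u.A hq.self.ok hq.self.far)).1
    refine h1.trans ?_
    show SG gg u.n * X.tn j₀ (X.self u τ Finset.univ).t.g ≤ _
    rw [hg]
    exact mul_le_mul_of_nonneg_right (hCg _) hnn
  have hLb' : FL gg (fun d => X.tn j₀ d.g) (X.self u τ Finset.univ).t' ≤ Cg * X.tn j₀ (X.g u τ) :=
    hLb
  have hΨ' := hΨ u τ hq hpu
  have hs : Real.sqrt (X.tn j₀ (X.g u τ) * X.tn j₀ (X.g u τ)) = X.tn j₀ (X.g u τ) :=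
    Real.sqrt_mul_self hnn
  show WS stp (eX stp (X.tm j₀) B) x₀.s ≤ _
  refine key.trans ?_
  show K * (X.tn j₀ (X.self u τ Finset.univ).t.g + X.tn j₀ (X.self u τ Finset.univ).t'.g) +
    2 * K₂ * Real.sqrt (X.tn j₀ (X.self u τ Finset.univ).t.g * X.tn j₀ (X.self u τ Finset.univ).t'.g)
    + (FL gg (fun d => X.tn j₀ d.g) (X.self u τ Finset.univ).t +
      FL gg (fun d => X.tn j₀ d.g) (X.self u τ Finset.univ).t') + Ψ x₀ ≤ _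
  rw [hg, hg', hs]
  have e : X.mu j₀ u τ Finset.univ = X.tn j₀ (X.g u τ) := rfl
  rw [e] at hΨ' ⊢
  have h2 : 0 ≤ (2 * K + 2 * K₂ + 2 * Cg) * (X.tn j₀ (X.g u τ) * X.tn j₀ (X.g u τ)) := by
    have hCg0 : 0 ≤ Cg := (SG_nn hgg 0).trans (hCg 0)
    positivity
  nlinarith [hLb, hLb', hΨ', h2]

end ctx

end Crest.Agent.R4P.AsmX26
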