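import Crest.Agent.R4.AvgSym710
import Crest.Agent.R4.Ovl560F

/-!
R4 (S0004), powers, module D, helper28: **averages of product weights**.

* `ret_nw`, `aw_nw` : the averaged weight of a product of local weights is again a product: at the primes
  which do not divide `w / gcd(M, w)` only the mean survives, at the others the weight is raised.
* `exw_raise` : raising an excluded class gives an excluded class.
* `FamW` : the pieces of one item below a product weight; `fam_pair_w` : pairs of such families.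
-/

set_option autoImplicit false
open MeasureTheory Finset

namespace Crest.Agent.R4P.AwNw28

open Crest.Agent.R4.Tour104 Crest.Agent.R4.Piece464 Crest.Agent.R4.Avg758
open Crest.Agent.R4.HVW560 Crest.Agent.R4.AvgItem710
open Crest.Agent.R4.Ovl560 (LW nw nw_nonneg nw_add lf sum_line exw)
open Crest.Agent.R4.Item464 (mn)

lemma lf_empty {P : Finset ℕ} {u v : ℕ → ℤ → ℝ} {x y : ℕ} {a b : ℤ} {p : ℕ} (hp : p.Prime)
    (hP : p ∈ P) (hu : LW P u) :
    lf P ∅ u v x y a b p = if p ∣ x then u p a else mn u p := by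
  have hp0 : (p : ℝ) ≠ 0 := by exact_mod_cast hp.ne_zero
  unfold lf
  simp only [if_pos hP, Finset.notMem_empty, if_false, mul_one]
  split_ifs with hx
  · have e : ∀ k ∈ range p, u p (a + x * (k : ℤ)) = u p a := by
      intro k _
      obtain ⟨s, rfl⟩ := hx
      have := hu.add_mul hP a (s * k)
      rw [← this]
      congr 1
      push_cast; ring
    rw [Finset.sum_congr rfl e, sum_const, card_range, nsmul_eq_mul]
    field_simp
  · unfold mn
    congr 1
    -- a complete system of residues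
    have hc : IsCoprime (x : ℤ) (p : ℤ) := by
      rw [Int.isCoprime_iff_gcd_eq_one, Int.gcd_natCast_natCast]
      exact ((Nat.Prime.coprime_iff_not_dvd hp).2 hx).symm
    have hpz : (0 : ℤ) < p := by exact_mod_cast hp.pos
    refine Finset.sum_bij (fun k _ => ((a + x * (k : ℤ)) % p).toNat) ?_ ?_ ?_ ?_
    · intro k _
      have h1 := Int.emod_nonneg (a + x * (k : ℤ)) hpz.ne'
      have h2 := Int.emod_lt_of_pos (a + x * (k : ℤ)) hpz
      rw [mem_range]
      omega
    · intro k hk l hl hkl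
      have h1 := Int.emod_nonneg (a + x * (k : ℤ)) hpz.ne'
      have h2 := Int.emod_nonneg (a + x * (l : ℤ)) hpz.ne'
      have h3 : (a + x * (k : ℤ)) % p = (a + x * (l : ℤ)) % p := by
        have : (((a + x * (k : ℤ)) % p).toNat : ℤ) = (((a + x * (l : ℤ)) % p).toNat : ℤ) := by
          exact_mod_cast hkl
        rwa [Int.toNat_of_nonneg h1, Int.toNat_of_nonneg h2] at this
      have h4 : (p : ℤ) ∣ x * ((l : ℤ) - k) := by
        have := Int.modEq_iff_dvd.1 h3
        convert this using 1; ring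
      have h5 : (p : ℤ) ∣ (l : ℤ) - k := hc.symm.dvd_of_dvd_mul_left h4
      have hk' := mem_range.1 hk
      have hl' := mem_range.1 hl
      obtain ⟨t, ht⟩ := h5
      have : t = 0 := by
        by_contra h0
        rcases lt_or_gt_of_ne h0 with h | h
        · nlinarith [Int.add_one_le_iff.2 h]
        · nlinarith [Int.add_one_le_iff.2 h]
      subst this
      omega
    · intro b hb
      have hb' := mem_range.1 hb
      obtain ⟨s, t, hst⟩ := hc
      -- `k = (b - a) s mod p`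
      refine ⟨(((b : ℤ) - a) * s % p).toNat, ?_, ?_⟩
      · have h1 := Int.emod_nonneg (((b : ℤ) - a) * s) hpz.ne'
        have h2 := Int.emod_lt_of_pos (((b : ℤ) - a) * s) hpz
        rw [mem_range]; omega
      · have h1 := Int.emod_nonneg (((b : ℤ) - a) * s) hpz.ne'
        have h3 : (a + x * (((((b : ℤ) - a) * s % p).toNat : ℕ) : ℤ)) ≡ b [ZMOD p] := by
          rw [Int.toNat_of_nonneg h1]
          have h4 : ((b : ℤ) - a) * s % p ≡ ((b : ℤ) - a) * s [ZMOD p] := Int.mod_modEq _ _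
          have h5 : a + x * (((b : ℤ) - a) * s % p) ≡ a + x * (((b : ℤ) - a) * s) [ZMOD p] :=
            (Int.ModEq.refl a).add ((Int.ModEq.refl (x : ℤ)).mul h4)
          refine h5.trans (Int.modEq_iff_dvd.2 ⟨((b : ℤ) - a) * t, ?_⟩)
          linear_combination ((b : ℤ) - a) * (-hst)
        have h6 : (a + x * (((((b : ℤ) - a) * s % p).toNat : ℕ) : ℤ)) % p = b := by
          rw [h3]
          exact Int.emod_eq_of_lt (by positivity) (by exact_mod_cast hb')
        rw [h6]; simp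
    · intro k _
      have h1 := Int.emod_nonneg (a + x * (k : ℤ)) hpz.ne'
      show u p (a + x * (k : ℤ)) = u p ((((a + x * (k : ℤ)) % p).toNat : ℕ) : ℤ)
      rw [Int.toNat_of_nonneg h1]
      exact hu.congr hP (Int.mod_modEq _ _).symm

/-- mean over the classes which agree modulo `w₁` of a product weight -/
theorem ret_nw {w₁ z : ℕ} (hz : 0 < z) {P : Finset ℕ} {u : ℕ → ℤ → ℝ} (hu : LW P u)
    (hP : ∀ p ∈ P, p.Prime) (hPw : ∀ p ∈ P, p ∣ z * w₁) (a : ℤ) :
    ret w₁ z (nw P u) a = ∏ p ∈ P, if p ∣ w₁ then u p a else mn u p := by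
  have hz0 : (z : ℝ) ≠ 0 := by exact_mod_cast hz.ne'
  have h1 := sum_line (P := P) (Q := ∅) (u := u) (v := fun _ _ => 1) hu
    (fun p hp => absurd hp (Finset.notMem_empty p)) hP (fun p hp => absurd hp (Finset.notMem_empty p))
    (g := z) (x := w₁) (y := 1) (Nat.coprime_one_right _) hPw
    (fun p hp => absurd hp (Finset.notMem_empty p)) a 0
  have e : ∀ k : ℕ, nw P u (a + w₁ * (k : ℤ)) * nw ∅ (fun _ _ => (1 : ℝ)) (0 + (1 : ℕ) * (k : ℤ)) =
      nw P u (a + w₁ * (k : ℤ)) := by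
    intro k
    simp [nw]
  unfold ret
  rw [div_eq_iff hz0, mul_comm]
  rw [Finset.sum_congr rfl fun k _ => (e k).symm, h1, Finset.union_empty]
  congr 1
  exact Finset.prod_congr rfl fun p hp => lf_empty (hP p hp) hp hu

/-- the raised local weights -/
noncomputable def ru (w M : ℕ) (u : ℕ → ℤ → ℝ) : ℕ → ℤ → ℝ := fun p a =>
  u p (a * Int.gcdA (rf w M) (w / M.gcd w))

lemma ru_LW {P : Finset ℕ} {u : ℕ → ℤ → ℝ} (hu : LW P u) (w M : ℕ) : LW P (ru w M u) := by
  intro p hp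
  refine ⟨fun a => hu.nonneg hp _, fun a => ?_⟩
  unfold ru
  rw [add_mul]
  exact hu.add_mul hp _ _

open Classical in
/-- **average of a product weight** -/
theorem aw_nw {w M : ℕ} (hM : 0 < M) {P : Finset ℕ} {u : ℕ → ℤ → ℝ} (hu : LW P u)
    (hP : ∀ p ∈ P, p.Prime) (hPw : ∀ p ∈ P, p ∣ w) (a : ℤ) :
    aw w M (nw P u) a = (∏ p ∈ P.filter (fun p => ¬ p ∣ w / M.gcd w), mn u p) *
      nw (P.filter (fun p => p ∣ w / M.gcd w)) (ru w M u) a := by
  unfold aw rs
  rw [ret_nw (gcd_pos' hM) hu hP (fun p hp => by rw [mul_gcd_w]; exact hPw p hp)]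
  rw [← Finset.prod_filter_mul_prod_filter_not P (fun p => ¬ p ∣ w / M.gcd w)]
  congr 1
  · refine Finset.prod_congr rfl fun p hp => ?_
    rw [if_neg (Finset.mem_filter.1 hp).2]
  · unfold nw
    refine Finset.prod_congr ?_ fun p hp => ?_
    · ext p; simp
    · rw [if_pos (Finset.mem_filter.1 hp).2]
      rfl

/-- raising an excluded class -/
lemma exw_raise {w m : ℕ} (hc : Nat.Coprime m w) {c : ℕ → ℤ} {p : ℕ} (hp : p ∣ w) (a : ℤ) :
    exw c p (a * Int.gcdA m w) = exw (fun p => m * c p) p a := by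
  have h1 := gcdA_mul hc a
  have h2 : (m : ℤ) * (a * Int.gcdA m w) ≡ a [ZMOD p] :=
    h1.of_dvd (by exact_mod_cast hp)
  have hcp : IsCoprime (p : ℤ) (m : ℤ) := by
    rw [Int.isCoprime_iff_gcd_eq_one, Int.gcd_natCast_natCast]
    exact (Nat.Coprime.coprime_dvd_right hp hc).symm
  unfold exw
  have h3 : a * Int.gcdA m w ≡ c p [ZMOD p] ↔ a ≡ m * c p [ZMOD p] := by
    constructor
    · intro h
      exact h2.symm.trans ((Int.ModEq.refl (m : ℤ)).mul h)
    · intro h
      have h4 : (m : ℤ) * (a * Int.gcdA m w) ≡ m * c p [ZMOD p] := h2.trans h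
      have h5 : (p : ℤ) ∣ (m : ℤ) * (c p - a * Int.gcdA m w) := by
        have := Int.modEq_iff_dvd.1 h4
        convert this using 1; ring
      exact Int.modEq_iff_dvd.2 (hcp.dvd_of_dvd_mul_left h5)
  by_cases h : a ≡ m * c p [ZMOD p]
  · rw [if_pos (h3.2 h), if_pos h]
  · rw [if_neg (fun h' => h (h3.1 h')), if_neg h]

/-! ### families of pieces below a weight -/

/-- a family of functions below disjoint windows of one item, weights below `K v` -/
structure FamW {ι : Type*} (J : Finset ι) (g : ι → ℝ → ℝ) (θ r : ℝ) (w : ℕ) (α β : ι → ℝ)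
    (K : ℝ) (v : ℤ → ℝ) : Prop where
  pb : ∀ j ∈ J, PB (g j)
  le : ∀ j ∈ J, ∀ x, g j x ≤ K * pc θ (α j) (β j) w v x
  wt : Wt w v
  K0 : 0 ≤ K
  al : ∀ j ∈ J, -r ≤ α j
  be : ∀ j ∈ J, β j ≤ r
  dj : ∀ i ∈ J, ∀ j ∈ J, i ≠ j → β i ≤ α j ∨ β j ≤ α i

lemma pc_mono_wt {θ α β : ℝ} {w : ℕ} {κ κ' : ℤ → ℝ} (h : ∀ a, κ a ≤ κ' a) (x : ℝ) :
    pc θ α β w κ x ≤ pc θ α β w κ' x := Finset.sum_le_sum fun a _ => h a

lemma pc_smul {θ α β : ℝ} {w : ℕ} {κ : ℤ → ℝ} (K : ℝ) (x : ℝ) :
    pc θ α β w (fun a => K * κ a) x = K * pc θ α β w κ x := by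
  unfold pc; rw [Finset.mul_sum]

/-- a family with weights below `K v` -/
lemma Fam.toW {ι : Type*} {J : Finset ι} {g : ι → ℝ → ℝ} {θ r : ℝ} {w : ℕ} {α β : ι → ℝ}
    {κ : ι → ℤ → ℝ} (h : Fam J g θ r w α β κ) {K : ℝ} (hK : 0 ≤ K) {v : ℤ → ℝ} (hv : Wt w v)
    (hle : ∀ j ∈ J, ∀ a, κ j a ≤ K * v a) : FamW J g θ r w α β K v where
  pb := h.pb
  le := fun j hj x => (h.le j hj x).trans ((pc_mono_wt (hle j hj) x).trans (pc_smul K x).le)
  wt := hv
  K0 := hK
  al := h.al
  be := h.be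
  dj := h.dj

/-- windows of one item, common weight -/
lemma sum_pc_le_pc {ι : Type*} {J : Finset ι} {θ r : ℝ} {w : ℕ} {α β : ι → ℝ} {v : ℤ → ℝ}
    (hv : ∀ a, 0 ≤ v a) (hα : ∀ j ∈ J, -r ≤ α j) (hβ : ∀ j ∈ J, β j ≤ r)
    (hd : ∀ i ∈ J, ∀ j ∈ J, i ≠ j → β i ≤ α j ∨ β j ≤ α i) (x : ℝ) :
    ∑ j ∈ J, pc θ (α j) (β j) w v x ≤ pc θ (-r) r w v x := by
  classical
  unfold pc
  rw [← Finset.sum_biUnion]
  · refine Finset.sum_le_sum_of_subset_of_nonneg (fun a ha => ?_) fun a _ _ => hv a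
    obtain ⟨j, hj, ha⟩ := Finset.mem_biUnion.1 ha
    obtain ⟨a1, a2⟩ := mem_pw.1 ha
    rw [mem_pw]
    exact ⟨(hα j hj).trans a1, a2.trans_le (hβ j hj)⟩
  · intro i hi j hj hij
    rw [Function.onFun, Finset.disjoint_left]
    intro a ha ha'
    obtain ⟨a1, a2⟩ := mem_pw.1 ha
    obtain ⟨b1, b2⟩ := mem_pw.1 ha'
    rcases hd i hi j hj hij with h | h <;> linarith

/-- the averaged family -/
lemma FamW.Ep_le {ι : Type*} {J : Finset ι} {g : ι → ℝ → ℝ} {θ r : ℝ} {w M : ℕ} {α β : ι → ℝ}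
    {K : ℝ} {v : ℤ → ℝ} (h : FamW J g θ r w α β K v) (hw : 0 < w) (hM : 0 < M) (y : ℝ) :
    ∑ j ∈ J, Ep M (g j) y ≤ K / (rf w M : ℝ) *
      pc (rf w M * θ) (-(rf w M * r)) (rf w M * r) (w / M.gcd w) (aw w M v) y := by
  have m0 : (0 : ℝ) < rf w M := by exact_mod_cast rf_pos hM
  have e1 : ∀ j ∈ J, Ep M (g j) y ≤ K / (rf w M : ℝ) *
      pc (rf w M * θ) (rf w M * α j) (rf w M * β j) (w / M.gcd w) (aw w M v) y := by
    intro j hj
    have h1 : Ep M (g j) y ≤ Ep M (fun x => K * pc θ (α j) (β j) w v x) y :=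
      Ep_mono (h.le j hj) y
    have h2 : Ep M (fun x => K * pc θ (α j) (β j) w v x) y = K * Ep M (pc θ (α j) (β j) w v) y := by
      unfold Ep
      rw [← Finset.mul_sum]
      ring
    rw [h2, Ep_pc hM h.wt y] at h1
    refine h1.trans (le_of_eq ?_)
    ring
  refine (Finset.sum_le_sum e1).trans ?_
  rw [← Finset.mul_sum]
  refine mul_le_mul_of_nonneg_left ?_ (div_nonneg h.K0 m0.le)
  refine sum_pc_le_pc (aw_Wt h.wt).nonneg (fun j hj => ?_) (fun j hj => ?_)
    (fun i hi j hj hij => ?_) y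
  · have := mul_le_mul_of_nonneg_left (h.al j hj) m0.le
    linarith
  · exact mul_le_mul_of_nonneg_left (h.be j hj) m0.le
  · rcases h.dj i hi j hj hij with k | k
    · exact Or.inl (mul_le_mul_of_nonneg_left k m0.le)
    · exact Or.inr (mul_le_mul_of_nonneg_left k m0.le)

/-- **two families of averaged pieces with product weights** -/
theorem fam_pair_w {ι ι' : Type*} {J : Finset ι} {J' : Finset ι'} {g : ι → ℝ → ℝ}
    {g' : ι' → ℝ → ℝ} {θ r θ' r' : ℝ} {w M w' M' : ℕ} {α β : ι → ℝ} {α' β' : ι' → ℝ}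
    {K K' : ℝ} {v v' : ℤ → ℝ} (h : FamW J g θ r w α β K v) (h' : FamW J' g' θ' r' w' α' β' K' v')
    (hM : 0 < M) (hM' : 0 < M') (hw : 0 < w) (hw' : 0 < w') :
    ∑ j ∈ J, ∑ j' ∈ J', I (fun y => Ep M (g j) y * Ep M' (g' j') y) ≤
      K * K' / ((rf w M : ℝ) * rf w' M') *
      I (fun y => pc (rf w M * θ) (-(rf w M * r)) (rf w M * r) (w / M.gcd w) (aw w M v) y *
        pc (rf w' M' * θ') (-(rf w' M' * r')) (rf w' M' * r') (w' / M'.gcd w') (aw w' M' v') y) := by
  have m0 : (0 : ℝ) < rf w M := by exact_mod_cast rf_pos hM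
  have m0' : (0 : ℝ) < rf w' M' := by exact_mod_cast rf_pos hM'
  have w0 := div_pos' (M := M) hw hM
  have w0' := div_pos' (M := M') hw' hM'
  have pE : ∀ j ∈ J, PB (Ep M (g j)) := fun j hj => (h.pb j hj).Ep hM
  have pE' : ∀ j ∈ J', PB (Ep M' (g' j)) := fun j hj => (h'.pb j hj).Ep hM'
  have e1 : ∑ j ∈ J, ∑ j' ∈ J', I (fun y => Ep M (g j) y * Ep M' (g' j') y) =
      I (fun y => (∑ j ∈ J, Ep M (g j) y) * ∑ j' ∈ J', Ep M' (g' j') y) := by
    rw [← Finset.sum_product', ← I_sum _ fun e he => ?_]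
    · congr 1; funext y
      rw [Finset.sum_mul_sum, ← Finset.sum_product']
    · exact ((pE _ (Finset.mem_product.1 he).1).mul
        (pE' _ (Finset.mem_product.1 he).2)).integrableOn
  rw [e1]
  have p1 : PB fun y => ∑ j ∈ J, Ep M (g j) y := PB.sum J pE
  have p2 : PB fun y => ∑ j ∈ J', Ep M' (g' j) y := PB.sum J' pE'
  have q1 := PB_pc (θ := rf w M * θ) (α := -(rf w M * r)) (β := rf w M * r) w0 (aw_Wt h.wt (M := M))
  have q2 := PB_pc (θ := rf w' M' * θ') (α := -(rf w' M' * r')) (β := rf w' M' * r') w0'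
    (aw_Wt h'.wt (M := M'))
  rw [← I_smul]
  refine I_mono (p1.mul p2).integrableOn ?_ fun y => ?_
  · have := (q1.mul q2).integrableOn
    exact this.const_mul _
  · have a1 := h.Ep_le hw hM y
    have a2 := h'.Ep_le hw' hM' y
    have b1 : 0 ≤ ∑ j ∈ J', Ep M' (g' j) y := p2.nonneg y
    have b2 : 0 ≤ K / (rf w M : ℝ) *
      pc (rf w M * θ) (-(rf w M * r)) (rf w M * r) (w / M.gcd w) (aw w M v) y :=
      mul_nonneg (div_nonneg h.K0 m0.le) (q1.nonneg y)
    refine (mul_le_mul a1 a2 b1 b2).trans (le_of_eq ?_)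
    field_simp

end Crest.Agent.R4P.AwNw28
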