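import Crest.Agent.R4P.PruneSep532
import Crest.Agent.R4P.Bld532

/-!
R4 (S0004), row 4, helper25: **the columns with many true adds are rare**.

* `alv t` : the node `t` is alive, i.e. not a (pulled) leaf.
* `alive_lo` : an alive node of a tree with `NodeOk` has mass `≥ (log n)^(-C1)`.
* `aw W φ t` : `Σ` over the add nodes (column `b`) of `φ b * min (Ws T₁) (Ws T₀)`.
* `aw_le` : `aw W φ t ≤ ε Ws t` for `φ b = K (log b)^D / b` and `p0` large.
-/

set_option autoImplicit false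
set_option linter.unusedVariables false

namespace Crest.Agent.R4P.BadC25

open Crest.Agent.R4P.Cnt588 Crest.Agent.R4P.PrunePar33 Crest.Agent.R4P.Bld532

/-! ### alive nodes -/

/-- alive: not a leaf, not a pulled leaf -/
def alv : IT → Prop
  | .leaf _ => False
  | .pl _ t => alv t
  | _ => True

/-- the lower bound of the window decreases -/
lemma lo_anti {C1 : ℝ} (hC1 : 0 ≤ C1) {k n : ℕ} (hk : 3 ≤ k) (hkn : k ≤ n) :
    Real.log n ^ (-C1) ≤ Real.log k ^ (-C1) := by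
  have h1 := Bld532.one_le_log_nat hk
  have hk0 : (0 : ℝ) < k := by positivity
  have h2 : Real.log k ≤ Real.log n := Real.log_le_log hk0 (by exact_mod_cast hkn)
  exact Real.rpow_le_rpow_of_nonpos (by linarith) h2 (by linarith)

/-- **an alive node has mass at least `(log n)^(-C1)`**, `n` any bound for its columns -/
theorem alive_lo {B C1 c2 : ℝ} {p0 : ℕ} (hC1 : 0 ≤ C1) (hp0 : 2 ≤ p0) {W : ℕ → ℝ} :
    ∀ (t : IT) (s : NS), All (NodeOk (par B C1 c2 p0) W) s t → alv t → ∀ n : ℕ, s.n ≤ n + 1 →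
      Real.log n ^ (-C1) ≤ s.c * Ws W t.items := by
  have key : ∀ k n : ℕ, p0 < k → k < n + 1 → Real.log n ^ (-C1) ≤ Real.log k ^ (-C1) :=
    fun k n h1 h2 => lo_anti hC1 (by omega) (by omega)
  intro t
  induction t with
  | leaf S => intro s _ ha; exact absurd ha (by simp [alv])
  | br p Sp t₁ t₀ ih₁ ih₀ =>
    rintro s ⟨⟨h1, h2, h3, _, _, _, _, _, _, h4, _⟩, _⟩ _ n hn
    exact (key p n h3 (by omega)).trans h4
  | add b t₁ t₀ ih₁ ih₀ =>
    rintro s ⟨⟨h1, h2, h3, _, _, _, h4, _⟩, _⟩ _ n hn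
    exact (key b n h3 (by omega)).trans h4
  | up b Sp t ih =>
    rintro s ⟨⟨h1, h2, h3, _, _, _, _, h4, _⟩, _⟩ _ n hn
    exact (key b n h3 (by omega)).trans h4
  | pl b t ih =>
    rintro s ⟨⟨h1, h2, h3, _⟩, h6⟩ ha n hn
    exact ih _ h6 ha n (by show b + 1 ≤ n + 1; omega)
  | far b t₁ t₀ ih₁ ih₀ =>
    rintro s ⟨⟨h1, h2, h3, _, _, _, h4, _⟩, _⟩ _ n hn
    exact (key b n h3 (by omega)).trans h4

/-- **a true add**: both children have mass at least `lo b`, the node has mass at most `hi b` -/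
theorem add_min {B C1 c2 : ℝ} {p0 : ℕ} (hC1 : 0 ≤ C1) (hp0 : 2 ≤ p0) {W : ℕ → ℝ} {s : NS} {b : ℕ}
    {t₁ t₀ : IT} (h : All (NodeOk (par B C1 c2 p0) W) s (.add b t₁ t₀)) (h1 : alv t₁)
    (h0 : alv t₀) : Real.log b ^ (-C1) ≤ s.c * Ws W t₁.items ∧
      Real.log b ^ (-C1) ≤ s.c * Ws W t₀.items ∧
      s.c * Ws W (t₁.items ∪ t₀.items) ≤ Real.log b ^ c2 :=
  ⟨alive_lo hC1 hp0 t₁ _ h.2.1 h1 b le_rfl, alive_lo hC1 hp0 t₀ _ h.2.2 h0 b le_rfl,
    h.1.2.2.2.2.2.2.2.1⟩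

/-! ### the sum over the adds -/

/-- `Σ` over the add nodes of `φ b * min` (root weights) -/
noncomputable def aw (W : ℕ → ℝ) (φ : ℕ → ℝ) : IT → ℝ
  | .leaf _ => 0
  | .br _ _ t₁ t₀ => aw W φ t₁ + aw W φ t₀
  | .add b t₁ t₀ => φ b * min (Ws W t₁.items) (Ws W t₀.items) + (aw W φ t₁ + aw W φ t₀)
  | .up _ _ t => aw W φ t
  | .pl _ t => aw W φ t
  | .far _ t₁ t₀ => aw W φ t₁ + aw W φ t₀

variable {W : ℕ → ℝ} {φ : ℕ → ℝ}

lemma aw_nonneg (hW : ∀ q, 0 ≤ W q) (hφ : ∀ b, 0 ≤ φ b) : ∀ t : IT, 0 ≤ aw W φ t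
  | .leaf _ => le_rfl
  | .br _ _ t₁ t₀ => add_nonneg (aw_nonneg hW hφ t₁) (aw_nonneg hW hφ t₀)
  | .add b t₁ t₀ => add_nonneg (mul_nonneg (hφ b) (le_min (Ws_nonneg33 hW _) (Ws_nonneg33 hW _)))
      (add_nonneg (aw_nonneg hW hφ t₁) (aw_nonneg hW hφ t₀))
  | .up _ _ t => aw_nonneg hW hφ t
  | .pl _ t => aw_nonneg hW hφ t
  | .far _ t₁ t₀ => add_nonneg (aw_nonneg hW hφ t₁) (aw_nonneg hW hφ t₀)

/-- sums over blocks -/
lemma aw_le_sum (hW : ∀ q, 0 ≤ W q) {P : Par} {ι : Type*} (K : Finset ι) (I : ι → Finset ℕ)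
    (M : ι → ℝ) (hM : ∀ k ∈ K, 0 ≤ M k) (n : ℕ)
    (hφ : ∀ b, b.Prime → P.p0 < b → b < n → ∃ k ∈ K, b ∈ I k ∧ φ b ≤ M k) :
    ∀ (t : IT) (s : NS), All (NodeOk P W) s t → s.n ≤ n →
      aw W φ t ≤ ∑ k ∈ K, M k * t.cmin W (I k) := by
  intro t
  induction t with
  | leaf S => intro s _ _; simp [aw, IT.cmin]
  | br p Sp t₁ t₀ ih₁ ih₀ =>
    rintro s ⟨⟨h1, h2, _⟩, h6, h7⟩ hn
    have e1 := ih₁ _ h6 (show p ≤ n by omega)
    have e0 := ih₀ _ h7 (show p ≤ n by omega)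
    simp only [aw, IT.cmin, mul_add, Finset.sum_add_distrib]
    linarith
  | add b t₁ t₀ ih₁ ih₀ =>
    rintro s ⟨⟨h1, h2, h3, _⟩, h6, h7⟩ hn
    have e1 := ih₁ _ h6 (show b + 1 ≤ n by omega)
    have e0 := ih₀ _ h7 (show b + 1 ≤ n by omega)
    simp only [aw, IT.cmin, mul_add, Finset.sum_add_distrib]
    obtain ⟨k, hk, hbk, hφk⟩ := hφ b h1 h3 (by omega)
    have hmin : 0 ≤ min (Ws W t₁.items) (Ws W t₀.items) :=
      le_min (Ws_nonneg33 hW _) (Ws_nonneg33 hW _)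
    have e2 : φ b * min (Ws W t₁.items) (Ws W t₀.items) ≤ ∑ k ∈ K,
        M k * (if b ∈ I k then min (Ws W t₁.items) (Ws W t₀.items) else 0) := by
      refine le_trans ?_ (Finset.single_le_sum (f := fun k => M k *
        (if b ∈ I k then min (Ws W t₁.items) (Ws W t₀.items) else 0)) (fun j hj => ?_) hk)
      · simp only [if_pos hbk]
        exact mul_le_mul_of_nonneg_right hφk hmin
      · refine mul_nonneg (hM j hj) ?_
        split_ifs
        · exact hmin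
        · exact le_rfl
    linarith
  | up b Sp t ih =>
    rintro s ⟨⟨h1, h2, _⟩, h6⟩ hn
    exact ih _ h6 (show b ≤ n by omega)
  | pl b t ih =>
    rintro s ⟨⟨h1, h2, _⟩, h6⟩ hn
    exact ih _ h6 (show b + 1 ≤ n by omega)
  | far b t₁ t₀ ih₁ ih₀ =>
    rintro s ⟨⟨h1, h2, _⟩, h6, h7⟩ hn
    have e1 := ih₁ _ h6 (show b + 1 ≤ n by omega)
    have e0 := ih₀ _ h7 (show b + 1 ≤ n by omega)
    simp only [aw, IT.cmin, mul_add, Finset.sum_add_distrib]
    linarith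

/-- **the adds with the weight `K (log b)^D / b` are negligible** -/
theorem aw_le (B C1 c2 K D ε : ℝ) (hε : 0 < ε) (hC1 : 0 ≤ C1) (hc2 : 0 ≤ c2) (hK : 0 ≤ K)
    (hD : 0 ≤ D) : ∃ p₁ : ℕ, ∀ p0 ≥ p₁, ∀ W : ℕ → ℝ, (∀ q, 0 ≤ W q) → ∀ (t : IT) (s : NS),
      All (NodeOk (par B C1 c2 p0) W) s t → 0 < s.c →
      aw W (fun b => K * Real.log b ^ D / b) t ≤ ε * Ws W t.items := by
  set C := C1 + c2 with hC
  have hC0 : 0 ≤ C := by positivity
  set A := 10 * (1 + C) * K with hA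
  have hA0 : 0 ≤ A := by positivity
  -- `A X^(D+C+2) exp (-X/2) ≤ ε`
  have hlit := (isLittleO_rpow_exp_pos_mul_atTop (D + C + 2) (show (0 : ℝ) < 1 / 2 by norm_num)).bound
    (show (0 : ℝ) < ε / (A + 1) by positivity)
  obtain ⟨x, hx⟩ := Filter.eventually_atTop.1 hlit
  set T := max x 24 with hT
  refine ⟨⌈Real.exp T⌉₊ + 3, fun p0 hp0 W hW t s h hc => ?_⟩
  have hp2 : 2 ≤ p0 := by omega
  have hpT : Real.exp T ≤ p0 := by
    have h1 : Real.exp T ≤ ⌈Real.exp T⌉₊ := Nat.le_ceil _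
    have h2 : ((⌈Real.exp T⌉₊ : ℕ) : ℝ) ≤ p0 := by
      have : ⌈Real.exp T⌉₊ ≤ p0 := by omega
      exact_mod_cast this
    linarith
  have hp0R : (0 : ℝ) < p0 := lt_of_lt_of_le (Real.exp_pos _) hpT
  have hl : T ≤ Real.log p0 := (Real.le_log_iff_exp_le hp0R).2 hpT
  have hlx : x ≤ Real.log p0 := (le_max_left _ _).trans hl
  have hl24 : 24 ≤ Real.log p0 := (le_max_right _ _).trans hl
  set X : ℕ → ℝ := fun k => Real.log (Pk p0 (k + 1)) with hX
  have hXe : ∀ k, X k = 2 ^ (k + 1) * Real.log p0 := fun k => log_Pk _ _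
  have hXl : ∀ k, Real.log p0 ≤ X k := fun k => by
    rw [hXe]
    have : (1 : ℝ) ≤ 2 ^ (k + 1) := one_le_pow₀ (by norm_num)
    nlinarith
  have hX24 : ∀ k, 24 ≤ X k := fun k => hl24.trans (hXl k)
  set I : ℕ → Finset ℕ := fun k => blk (Pk p0 k) (Pk p0 (k + 1)) with hI
  set M : ℕ → ℝ := fun k => K * X k ^ D * Real.exp (-(1 / 2) * X k) with hM
  have hM0 : ∀ k, 0 ≤ M k := fun k => by
    have := hX24 k
    have : 0 ≤ X k ^ D := Real.rpow_nonneg (by linarith) _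
    positivity
  have h1 : aw W (fun b => K * Real.log b ^ D / b) t ≤
      ∑ k ∈ Finset.range s.n, M k * t.cmin W (I k) := by
    refine aw_le_sum hW (Finset.range s.n) I M (fun k _ => hM0 k) s.n ?_ t s h le_rfl
    intro b hb hb0 hbn
    have hb0' : p0 < b := hb0
    obtain ⟨k, hk1, hk2⟩ := exists_blk hp2 hb0'
    have hkn : k < s.n := by
      have := lt_Pk hp2 k
      omega
    refine ⟨k, Finset.mem_range.2 hkn, Finset.mem_filter.2 ⟨Finset.mem_Ioc.2 ⟨hk1, hk2⟩, hb⟩, ?_⟩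
    have hbR : (0 : ℝ) < b := by exact_mod_cast hb.pos
    have hPR : (0 : ℝ) < Pk p0 k := by
      have : 0 < Pk p0 k := lt_of_lt_of_le (by omega) (Pk_ge (by omega) k)
      exact_mod_cast this
    have e1 : Real.log b ≤ X k := Real.log_le_log hbR (by exact_mod_cast hk2)
    have e2 : Real.log b ^ D ≤ X k ^ D :=
      Real.rpow_le_rpow (Real.log_natCast_nonneg b) e1 hD
    have e3 : Real.exp (1 / 2 * X k) = Pk p0 k := by
      have : 1 / 2 * X k = Real.log (Pk p0 k) := by rw [hXe, log_Pk, pow_succ]; ring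
      rw [this, Real.exp_log hPR]
    have e4 : (1 : ℝ) / b ≤ Real.exp (-(1 / 2) * X k) := by
      rw [show -(1 / 2) * X k = -(1 / 2 * X k) by ring, Real.exp_neg, e3, one_div]
      exact inv_anti₀ hPR (by exact_mod_cast hk1.le)
    show K * Real.log b ^ D / b ≤ K * X k ^ D * Real.exp (-(1 / 2) * X k)
    rw [div_eq_mul_one_div]
    exact mul_le_mul (mul_le_mul_of_nonneg_left e2 hK) e4 (by positivity)
      (mul_nonneg hK (Real.rpow_nonneg (by have := hX24 k; linarith) _))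
  refine h1.trans ?_
  have hW0 : 0 ≤ Ws W t.items := Ws_nonneg33 hW _
  have h2 : ∀ k ∈ Finset.range s.n, M k * t.cmin W (I k) ≤
      ε * (1 / 2) ^ (k + 1) * Ws W t.items := by
    intro k _
    have hXp : 0 < X k := by have := hX24 k; linarith
    have hOk : t.Ok s.n := Ok_of_All _ W t s h
    have h3 := cmin_le W hW (Pk p0 k) (Pk p0 (k + 1)) (Real.rpow_pos_of_pos hXp (-C1))
      (Real.rpow_le_rpow_of_exponent_le (by have := hX24 k; linarith) (by linarith)) t s.n s.c hc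
      hOk (par_Alive B C1 c2 p0 hC1 hc2 hp2 W _ _ t s h)
    have h4 := KE_le (blk_sum_le hl24 hp2 k) (X := X k) (by have := hX24 k; linarith) hC1 hc2
    have h5 : M k * t.cmin W (I k) ≤ M k * (10 * (1 + C) * X k ^ (C + 1) * Ws W t.items) :=
      mul_le_mul_of_nonneg_left (h3.trans (mul_le_mul_of_nonneg_right h4 hW0)) (hM0 k)
    refine h5.trans ?_
    have h6 := hx (X k) (hlx.trans (hXl k))
    rw [Real.norm_eq_abs, Real.norm_eq_abs, abs_of_nonneg (Real.rpow_nonneg hXp.le _),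
      abs_of_nonneg (Real.exp_pos _).le] at h6
    have h7 : A * (X k ^ D * X k ^ (C + 1)) * Real.exp (-(1 / 2) * X k) ≤ ε * (1 / 2) ^ (k + 1) := by
      have e1 : X k ^ D * X k ^ (C + 1) * X k = X k ^ (D + C + 2) := by
        rw [← Real.rpow_add hXp, ← Real.rpow_add_one hXp.ne']
        congr 1; ring
      have e2 : Real.exp (1 / 2 * X k) * Real.exp (-(1 / 2) * X k) = 1 := by
        rw [← Real.exp_add]
        simp
      have e3 : X k ^ (D + C + 2) * Real.exp (-(1 / 2) * X k) ≤ ε / (A + 1) := by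
        calc X k ^ (D + C + 2) * Real.exp (-(1 / 2) * X k)
            ≤ (ε / (A + 1) * Real.exp (1 / 2 * X k)) * Real.exp (-(1 / 2) * X k) :=
              mul_le_mul_of_nonneg_right h6 (Real.exp_pos _).le
          _ = ε / (A + 1) := by rw [mul_assoc, e2, mul_one]
      have e4 : A * (X k ^ D * X k ^ (C + 1)) * Real.exp (-(1 / 2) * X k) * X k ≤ ε := by
        calc A * (X k ^ D * X k ^ (C + 1)) * Real.exp (-(1 / 2) * X k) * X k
            = A * ((X k ^ D * X k ^ (C + 1) * X k) * Real.exp (-(1 / 2) * X k)) := by ring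
          _ = A * (X k ^ (D + C + 2) * Real.exp (-(1 / 2) * X k)) := by rw [e1]
          _ ≤ A * (ε / (A + 1)) := mul_le_mul_of_nonneg_left e3 hA0
          _ ≤ ε := by
            rw [mul_div_assoc', div_le_iff₀ (by positivity)]
            nlinarith
      have e5 : (2 : ℝ) ^ (k + 1) ≤ X k := by
        rw [hXe]
        have : (0 : ℝ) < 2 ^ (k + 1) := by positivity
        nlinarith
      have e6 : 0 ≤ A * (X k ^ D * X k ^ (C + 1)) * Real.exp (-(1 / 2) * X k) := by positivity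
      have e7 : A * (X k ^ D * X k ^ (C + 1)) * Real.exp (-(1 / 2) * X k) * 2 ^ (k + 1) ≤ ε :=
        (mul_le_mul_of_nonneg_left e5 e6).trans e4
      have e8 : ε * (1 / 2 : ℝ) ^ (k + 1) = ε / 2 ^ (k + 1) := by
        rw [one_div, inv_pow, ← div_eq_mul_inv]
      rw [e8, le_div_iff₀ (by positivity)]
      exact e7
    calc M k * (10 * (1 + C) * X k ^ (C + 1) * Ws W t.items)
        = (A * (X k ^ D * X k ^ (C + 1)) * Real.exp (-(1 / 2) * X k)) * Ws W t.items := by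
          rw [hM, hA]; ring
      _ ≤ ε * (1 / 2) ^ (k + 1) * Ws W t.items := mul_le_mul_of_nonneg_right h7 hW0
  refine (Finset.sum_le_sum h2).trans ?_
  rw [← Finset.sum_mul, ← Finset.mul_sum]
  have h8 : ∑ k ∈ Finset.range s.n, (1 / 2 : ℝ) ^ (k + 1) ≤ 1 := geo33 s.n
  nlinarith [mul_nonneg hε.le hW0]

end Crest.Agent.R4P.BadC25
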