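import Crest.Agent.R4P.VLossC_4

/-!
R4 (S0004), [W-eSHR], helper10: **the in-class energy recursion with losses and births kept**.

* `BR A t` : weighted sum over all nodes below `t` of the energy of the in-node births
  (pairs of one class below, of different classes above).
* `din_all` : `Q (Dr t.part) + VL A t + BR A t ≤ C₀ μ t A + dseR A t`.
* `in_all` : the same at every node of a context.
-/

set_option autoImplicit false
set_option linter.unusedSectionVars false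
set_option linter.unusedVariables false

namespace Crest.Agent.R4P.BirI10

open Crest.Agent.R4.Tour104 Crest.Agent.R4.Tour758 Crest.Agent.R4.Avg758 Crest.Agent.R4.Clos758
open Crest.Agent.R4.ClosL758 Crest.Agent.R4.ClosG758 Crest.Agent.R4.ClosR758
open Crest.Agent.R4P.VLoss4

section gen
variable {Λ κ : Type*} [Fintype Λ] [DecidableEq Λ] [Fintype κ] [DecidableEq κ]

/-- separations and births: exact balance of two relations -/
lemma Q_ic (r r' : Λ → κ) (f : Λ → ℝ → ℝ) :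
    Q (Dr r) f f + ic r' r f = Q (Dr r') f f + ic r r' f := by
  have key : ∀ a b : Finset (Λ × Λ), Q a f f + Q (b \ a) f f = Q (a ∪ b) f f := by
    intro a b
    unfold Q
    rw [← Finset.union_sdiff_self_eq_union, Finset.sum_union Finset.disjoint_sdiff]
  have h1 := key (Dr r) (Dr r')
  have h2 := key (Dr r') (Dr r)
  rw [Finset.union_comm] at h2
  unfold ic
  rw [h1, h2]

lemma ic_nonneg (r r' : Λ → κ) {f : Λ → ℝ → ℝ} (hf : ∀ j, PB (f j)) : 0 ≤ ic r r' f :=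
  Q_nonneg hf hf

/-- weighted sum of the in-node births below a node -/
noncomputable def BR (A : Finset Λ) : TrG Λ κ → ℝ
  | .leaf _ _ => 0
  | .br _ w r t₁ t₀ _ _ _ =>
      (1 - w) * (BR A t₁ + ic t₁.part r (rv A t₁.val)) +
        w * (BR A t₀ + ic t₀.part r (rv A t₀.val))
  | .add r t₁ t₀ => (BR A t₁ + ic t₁.part r (rv A t₁.val)) +
      (BR A t₀ + ic t₀.part r (rv A t₀.val))

lemma BR_nonneg {t : TrG Λ κ} (h : t.Ok) (A : Finset Λ) : 0 ≤ BR A t := by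
  induction t with
  | leaf r f => exact le_rfl
  | br P w r t₁ t₀ v B G ih₁ ih₀ =>
    have hw := h.2.2.w0
    have hw1 : 0 ≤ 1 - w := by linarith [h.2.2.w1]
    exact add_nonneg (mul_nonneg hw1 (add_nonneg (ih₁ h.1)
      (ic_nonneg _ _ (PB_rv (fun j => h.1.pb j) A))))
      (mul_nonneg hw (add_nonneg (ih₀ h.2.1) (ic_nonneg _ _ (PB_rv (fun j => h.2.1.pb j) A))))
  | add r t₁ t₀ ih₁ ih₀ =>
    exact add_nonneg (add_nonneg (ih₁ h.1) (ic_nonneg _ _ (PB_rv (fun j => h.1.pb j) A)))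
      (add_nonneg (ih₀ h.2) (ic_nonneg _ _ (PB_rv (fun j => h.2.pb j) A)))

/-- **the in-class energy recursion with the losses and the births kept** -/
theorem din_all {Ad : TrG Λ κ → Finset Λ → Prop} {μ : TrG Λ κ → Finset Λ → ℝ} {ν : TrG Λ κ → ℝ}
    {A : Finset Λ} {C₀ : ℝ} (hC₀ : 0 ≤ C₀) (t : TrG Λ κ) (h : t.Ok) (hs : t.All LsOk)
    (hN : t.All (AdN Ad)) (hA : Ad t A) (hM : t.All (MassOk Ad μ ν))
    (hl : t.All (LeafInR μ A C₀)) :
    Q (Dr t.part) (rv A t.val) (rv A t.val) + VL A t + BR A t ≤ C₀ * μ t A + dseR A t := by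
  induction t with
  | leaf r f =>
    have h2 : Q (Dr r) (rv A f) (rv A f) ≤ C₀ * μ (TrG.leaf r f) A := hl
    have h3 : dseR A (TrG.leaf r f : TrG Λ κ) = 0 := rfl
    have h4 : VL A (TrG.leaf r f : TrG Λ κ) = 0 := rfl
    have h5 : BR A (TrG.leaf r f : TrG Λ κ) = 0 := rfl
    rw [h3, h4, h5, add_zero, add_zero, add_zero]; exact h2
  | br P w r t₁ t₀ v B G ih₁ ih₀ =>
    obtain ⟨sA, A1, A0⟩ := hN.1 A hA
    have hm := mul_le_mul_of_nonneg_left (hM.1.2.1 A hA) hC₀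
    have key := din_step_br h hs.1 sA
    obtain ⟨h1, h0, hb⟩ := h
    have i1 := ih₁ h1 hs.2.1 hN.2.1 A1 hM.2.1 hl.2.1
    have i0 := ih₀ h0 hs.2.2 hN.2.2 A0 hM.2.2 hl.2.2
    have hw : 0 ≤ 1 - w := by linarith [hb.w1]
    have j1 := Q_ic r t₁.part (rv A t₁.val)
    have j0 := Q_ic r t₀.part (rv A t₀.val)
    have f1 := mul_le_mul_of_nonneg_left i1 hw
    have f0 := mul_le_mul_of_nonneg_left i0 hb.w0
    show Q (Dr r) (rv A v) (rv A v) +
        (vl A (.br P w r t₁ t₀ v B G) + ((1 - w) * VL A t₁ + w * VL A t₀)) +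
        ((1 - w) * (BR A t₁ + ic t₁.part r (rv A t₁.val)) +
          w * (BR A t₀ + ic t₀.part r (rv A t₀.val))) ≤
      C₀ * μ (.br P w r t₁ t₀ v B G) A +
      ((1 - w) * (dseR A t₁ + ic r t₁.part (rv A t₁.val)) +
        w * (dseR A t₀ + ic r t₀.part (rv A t₀.val)))
    have e1 : (1 - w) * (Q (Dr r) (rv A t₁.val) (rv A t₁.val) + ic t₁.part r (rv A t₁.val)) =
        (1 - w) * (Q (Dr t₁.part) (rv A t₁.val) (rv A t₁.val) + ic r t₁.part (rv A t₁.val)) := by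
      rw [j1]
    have e0 : w * (Q (Dr r) (rv A t₀.val) (rv A t₀.val) + ic t₀.part r (rv A t₀.val)) =
        w * (Q (Dr t₀.part) (rv A t₀.val) (rv A t₀.val) + ic r t₀.part (rv A t₀.val)) := by
      rw [j0]
    linarith
  | add r t₁ t₀ ih₁ ih₀ =>
    obtain ⟨sA, A1, A0⟩ := hN.1 A hA
    have hm := mul_le_mul_of_nonneg_left (hM.1.2.1 A hA) hC₀
    have i1 := ih₁ h.1 hs.2.1 hN.2.1 A1 hM.2.1 hl.2.1
    have i0 := ih₀ h.2 hs.2.2 hN.2.2 A0 hM.2.2 hl.2.2
    have q1 := PB_rv (fun j => h.1.pb j) A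
    have q0 := PB_rv (fun j => h.2.pb j) A
    have j1 := Q_ic r t₁.part (rv A t₁.val)
    have j0 := Q_ic r t₀.part (rv A t₀.val)
    have key : Q (Dr r) (rv A (TrG.add r t₁ t₀).val) (rv A (TrG.add r t₁ t₀).val) =
        Q (Dr r) (rv A t₁.val) (rv A t₁.val) + Q (Dr r) (rv A t₀.val) (rv A t₀.val) +
          2 * Q (Dr r) (rv A t₁.val) (rv A t₀.val) := by
      have e : rv A (TrG.add r t₁ t₀).val = fun j x => rv A t₁.val j x + rv A t₀.val j x :=
        rv_add A t₁.val t₀.val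
      rw [e, Q_add_left q1 q0 (fun j => (q1 j).add (q0 j)), Q_add_right q1 q1 q0,
        Q_add_right q0 q1 q0, Dr_symm _ (rv A t₀.val) (rv A t₁.val)]
      ring
    show Q (Dr r) (rv A (TrG.add r t₁ t₀).val) (rv A (TrG.add r t₁ t₀).val) +
      (VL A t₁ + VL A t₀) + ((BR A t₁ + ic t₁.part r (rv A t₁.val)) +
        (BR A t₀ + ic t₀.part r (rv A t₀.val))) ≤ _
    rw [key]
    show _ ≤ C₀ * μ (.add r t₁ t₀) A + ((dseR A t₁ + ic r t₁.part (rv A t₁.val)) +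
      (dseR A t₀ + ic r t₀.part (rv A t₀.val)) + 2 * Q (Dr r) (rv A t₁.val) (rv A t₀.val))
    linarith

end gen

section ctx

open Crest.Agent.R4P.Cnt588 Crest.Agent.R4P.Item758 Crest.Agent.R4P.W363
open Crest.Agent.R4P.Data758 Crest.Agent.R4P.LfDat734
open Crest.Agent.R4P.Bld532 (NS All NodeOk Bk)
open Crest.Agent.R4P.Step588 (NDt ND1 ctx_NDt uq_lt All_All)
open Crest.Agent.R4P.WalkIT579 (tp isL nodeOk_hi top_of_nodeOk)
open Crest.Agent.R4P.Skel189 Crest.Agent.R4P.RseSt23 Crest.Agent.R4P.DseCh23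
open Crest.Agent.R4P.RseNd23
open Crest.Agent.R4P.Dse22 (chE LocOk dse_le dse_items)
open Crest.Agent.R4P.DseFin21 Crest.Agent.R4P.LeafIa21 Crest.Agent.R4P.DseInd21
open Crest.Agent.R4P.Frame758 (LeafAll LeafI wt tG tM tN CxOk leafIn_of tM_eq AdL_AdI)
open Crest.Agent.R4.Soft104 (w)
open Crest.Agent.R4.Item758 (IL AdI AdS AdI_all AdI_AdN)
open Crest.Agent.R4.Fam464
open Crest.Agent.R4P.VLossC4

variable {N : Skel189.Num} {γ : ℝ} {p0 P₀ : ℕ} {X : Ctx N γ p0 P₀}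

/-- **the in-class energy of a node with the losses and births of all the nodes below** -/
theorem in_all {C₀ : ℝ} (hC₀ : 0 ≤ C₀) (hLI : LeafAll (LeafIa X.c (wt X.c.D) C₀) 1 1 1 X.c.t)
    (j₀ : X.c.Lam) :
    All (fun u τ => ∀ A, AdI X.c.D.it (X.g u τ) A →
      Q (Dr (X.g u τ).part) (rv A (X.g u τ).val) (rv A (X.g u τ).val) + VL A (X.g u τ) +
        BR A (X.g u τ) ≤ C₀ * ma X A u τ + dseR A (X.g u τ)) ⟨top X.S, 1, 1, 1⟩ X.c.t := by
  have h1 : LeafAll (LeafI X.c.D (Wa X) C₀) 1 1 1 X.c.t :=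
    LeafAll_mono (fun _ _ _ _ h => LeafI_of_a h) _ _ _ _ hLI
  have h2 := All_LeafAll X.c.t ⟨top X.S, 1, 1, 1⟩ h1
  refine All.mono (fun u τ hh A hA => ?_)
    (((ctx_NDt X).and h2).and ((ctx_fit X).and
      ((All_leafs X.c.t ⟨top X.S, 1, 1, 1⟩).and (ctx_CxOk X))))
  obtain ⟨⟨hn, hl⟩, hF, hlf, hcx⟩ := hh
  have hok : (X.g u τ).Ok := (X.c.D.par X.Y).toG_Ok hn.B_pos hF (node_wts hn X.Y)
  have hls : (X.g u τ).All LsOk := par_LsOk (X.c.D.par X.Y) hn.B_pos hF (node_wts hn X.Y)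
  have hnn := X.c.D.dec_nonneg (fun j => Wa_nonneg (X := X) j) (fun S => cx_nonneg X S) X.Y
  have hM := MassOk_muR (Ad := AdI X.c.D.it) hnn (X.c.D.dec_union (Wa X) X.cx X.Y) j₀ hok
  have hli := leafIn_of (X := X.Y) X.c.D (AdL_AdI X.c.D.it) (fun j => Wa_nonneg (X := X) j)
    (fun S => cx_nonneg X S) j₀ hC₀ τ u.c u.B u.A hF hlf hcx hl
  have key := din_all hC₀ (X.g u τ) hok hls (AdI_all _ _) hA hM
    (LeafIn.all hli (AdN.all (AdI_all _ _) hA))
  have e := tM_eq (X := X.Y) X.c.D (Wa X) j₀ hF hlf hcx A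
  have e' : muR (X.c.D.dec (Wa X) X.cx X.Y) j₀ (X.g u τ) A = ma X A u τ := e
  rw [e'] at key
  exact key

end ctx

end Crest.Agent.R4P.BirI10
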