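import Crest.Agent.R4P.YI_25
import Crest.Agent.R4P.StratH_36

/-!
R4P (S0004), helper25, module D: **item data `YI` at the crossing states** (start of the cross walk on the
stripped trees): `YI_cross` from the item data `HI`, `JS` of the main walk and helper36's `CI`; `CI_L`, `CI_R`,
`CI_10`, `CI_01` : `CI` of the steps `OneL`, `OneR`, `Jnt`.
-/

set_option autoImplicit false
set_option linter.unusedSectionVars false
set_option linter.unusedVariables false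
open Finset

namespace Crest.Agent.R4P.XStart25

open Crest.Agent.R4.HVW560 Crest.Agent.R4P.AvgItem710
open Crest.Agent.R4.Tour104 Crest.Agent.R4.Tour758 Crest.Agent.R4.Avg758 Crest.Agent.R4.Clos758
open Crest.Agent.R4.ClosL758 Crest.Agent.R4.ClosG758 Crest.Agent.R4.ClosR758
open Crest.Agent.R4P.Cnt588 Crest.Agent.R4P.Walk560 Crest.Agent.R4P.Item758
open Crest.Agent.R4P.Bld532 (NS All NodeOk Bk dv nd mem_dv mem_nd)
open Crest.Agent.R4P.GSt927 Crest.Agent.R4P.WalkIT579 Crest.Agent.R4P.NMW710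
open Crest.Agent.R4P.CrossLoc25 Crest.Agent.R4P.CrossLocC25 Crest.Agent.R4P.WalkC
open Crest.Agent.R4P.YI25 Crest.Agent.R4P.Strip29 Crest.Agent.R4P.StratX36
open Crest.Agent.R4P.CrossSum29 (OneL OneR Jnt)
open Crest.Agent.R4P.Res927

variable {Λ κ : Type*} [Fintype Λ] [DecidableEq Λ] [Fintype κ] [DecidableEq κ] [WRel κ]
  {D : Par Λ κ} {sp : ℕ → Finset Λ} {P : Bld532.Par} {W : ℕ → ℝ} {Qp : NS → IT → Prop}
  {Al : Finset ℕ} {RP : Finset (Λ × Λ) → Prop}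

/-- a side after stripping -/
lemma side_strip {b pr : ℕ} {t : IT} {A : Finset Λ} {d : DT Λ κ} (h : SideI D sp b pr t A d) :
    SideI D (fun _ => ∅) b pr t A (strip d) :=
  ⟨by rw [h.eq, strip_toDT], h.hb, h.hF, h.hW, h.ad, h.ok⟩

section cross
variable {B₀ B₀' : ℕ} {x : XSt Λ κ} {u u' : NS} {τ τ' : IT}

/-- **item data of the cross walk at a crossing state** (stripped trees) -/
theorem YI_cross (hQ : ∀ u τ, Qp u τ → NodeOk P W u τ)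
    (h : HI D sp Qp B₀ B₀' x u u' τ τ') (hj : JS x.s u u') (hl : ¬ x.s.t.isLeaf)
    (hl' : ¬ x.s.t'.isLeaf) {z : St Λ κ} {v v' : NS} {σ σ' : IT}
    (hC : CI D sp Qp x.s u u' τ τ' z v v' σ σ') (hR : RP x.s.R) :
    YI D (fun _ => ∅) Qp RP (stS z) v v' σ σ' := by
  obtain ⟨lL, lR, hpp⟩ := HJ.lev hQ h hj hl hl'
  have hL : SideI D sp v.B v.A σ z.A z.t ∧ σ.Ok v.n ∧ v.A * v.B = u.A * u.B ∧ Lw x.s.p v σ ∧
      z.t.top ≤ x.s.p := by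
    rcases hC.mL with ⟨rfl, rfl⟩ | ⟨e, σ₂, h2⟩
    · refine ⟨?_, h.okL, rfl, ⟨Or.inr lL.1, lL.2⟩, ?_⟩
      · rw [hC.A, hC.tL, ← h.L.eq]
        exact h.L
      · rw [hC.tL, ← h.L.eq]
        exact le_max_left _ _
    · obtain ⟨h3, h4⟩ := side_add h.L h.okL e h2
      have h5 : SideI D sp v.B v.A σ z.A z.t := by
        rw [hC.A, hC.tL]
        exact h3
      refine ⟨h5, h4, by rw [e], Lw_of (Or.inr (by rw [e])), ?_⟩
      rw [h5.eq]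
      have := (D.toDT_Col sp σ v.n v.B v.A h4).top_lt (by rw [e]; exact Nat.succ_pos _)
      rw [e] at this
      simp only at this
      rw [e]
      simp only
      omega
  have hR' : SideI D sp v'.B v'.A σ' z.A' z.t' ∧ σ'.Ok v'.n ∧ v'.A * v'.B = u'.A * u'.B ∧
      Lw x.s.p v' σ' ∧ z.t'.top ≤ x.s.p := by
    rcases hC.mR with ⟨rfl, rfl⟩ | ⟨e, σ₂, h2⟩
    · refine ⟨?_, h.okR, rfl, ⟨Or.inr lR.1, lR.2⟩, ?_⟩
      · rw [hC.A', hC.tR, ← h.R.eq]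
        exact h.R
      · rw [hC.tR, ← h.R.eq]
        exact le_max_right _ _
    · obtain ⟨h3, h4⟩ := side_add h.R h.okR e h2
      have h5 : SideI D sp v'.B v'.A σ' z.A' z.t' := by
        rw [hC.A', hC.tR]
        exact h3
      refine ⟨h5, h4, by rw [e], Lw_of (Or.inr (by rw [e])), ?_⟩
      rw [h5.eq]
      have := (D.toDT_Col sp σ' v'.n v'.B v'.A h4).top_lt (by rw [e]; exact Nat.succ_pos _)
      rw [e] at this
      simp only at this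
      rw [e]
      simp only
      omega
  have hzp : (stS z).p ≤ x.s.p := by
    rw [stS_p]
    exact max_le hL.2.2.2.2 hR'.2.2.2.2
  refine ⟨⟨side_strip hL.1, hL.2.1, hC.qL, ?_⟩, ⟨side_strip hR'.1, hR'.2.1, hC.qR, ?_⟩, ?_, ?_, ?_,
    ⟨x.s.p, hL.2.2.2.1, hR'.2.2.2.1, ?_, ?_⟩, ?_⟩
  · show IL D.it z.A
    rw [hC.A]; exact h.ilL
  · show IL D.it z.A'
    rw [hC.A']; exact h.ilR
  · show MS (stS z).p z.M z.O'
    rw [hC.M, hC.O']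
    exact h.mL.down hzp
  · show MS (stS z).p z.M' z.O
    rw [hC.M', hC.O]
    exact h.mR.down hzp
  · show v.A * v.B * z.M = v'.A * v'.B * z.M'
    rw [hL.2.2.1, hR'.2.2.1, hC.M, hC.M']
    exact hj.circ
  · intro l hlp hd
    have hd' : l ∣ z.M := hd
    rw [hC.M] at hd'
    exact h.mL.geM hlp hd'
  · intro l hlp hd
    have hd' : l ∣ z.M' := hd
    rw [hC.M'] at hd'
    exact h.mR.geM hlp hd'
  · show RP z.R
    rw [hC.R]
    exact hR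

/-- crossing state of a left one-sided step -/
lemma CI_L (h : HI D sp Qp B₀ B₀' x u u' τ τ') {σX σC : IT} {X C : DT Λ κ}
    (hC : OC D sp Qp x.s.p u τ σX σC X C) :
    CI D sp Qp x.s u u' τ τ' { x.s with t := X } ⟨x.s.p + 1, u.c, u.A, u.B⟩ u' σX τ' :=
  ⟨rfl, rfl, rfl, rfl, rfl, rfl, rfl, hC.eX, h.R.eq, hC.qX, h.qR, Or.inr ⟨rfl, σC, hC.it⟩,
    Or.inl ⟨rfl, rfl⟩⟩

/-- crossing state of a right one-sided step -/
lemma CI_R (h : HI D sp Qp B₀ B₀' x u u' τ τ') {σX σC : IT} {X C : DT Λ κ}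
    (hC : OC D sp Qp x.s.p u' τ' σX σC X C) :
    CI D sp Qp x.s u u' τ τ' { x.s with t' := X } u ⟨x.s.p + 1, u'.c, u'.A, u'.B⟩ τ σX :=
  ⟨rfl, rfl, rfl, rfl, rfl, rfl, rfl, h.L.eq, hC.eX, h.qL, hC.qX, Or.inl ⟨rfl, rfl⟩,
    Or.inr ⟨rfl, σC, hC.it⟩⟩

/-- crossing states of a joint step -/
lemma CI_10 {σ₁ σ₀ σ₁' σ₀' : IT} {t₁ t₀ t₁' t₀' : DT Λ κ}
    (hA : AC D sp Qp x.s.p u τ σ₁ σ₀ t₁ t₀) (hA' : AC D sp Qp x.s.p u' τ' σ₁' σ₀' t₁' t₀') :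
    CI D sp Qp x.s u u' τ τ' { x.s with t := t₁, t' := t₀' } ⟨x.s.p + 1, u.c, u.A, u.B⟩
      ⟨x.s.p + 1, u'.c, u'.A, u'.B⟩ σ₁ σ₀' :=
  ⟨rfl, rfl, rfl, rfl, rfl, rfl, rfl, hA.e1, hA'.e0, hA.q1, hA'.q0, Or.inr ⟨rfl, hA.m1⟩,
    Or.inr ⟨rfl, hA'.m0⟩⟩

lemma CI_01 {σ₁ σ₀ σ₁' σ₀' : IT} {t₁ t₀ t₁' t₀' : DT Λ κ}
    (hA : AC D sp Qp x.s.p u τ σ₁ σ₀ t₁ t₀) (hA' : AC D sp Qp x.s.p u' τ' σ₁' σ₀' t₁' t₀') :
    CI D sp Qp x.s u u' τ τ' { x.s with t := t₀, t' := t₁' } ⟨x.s.p + 1, u.c, u.A, u.B⟩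
      ⟨x.s.p + 1, u'.c, u'.A, u'.B⟩ σ₀ σ₁' :=
  ⟨rfl, rfl, rfl, rfl, rfl, rfl, rfl, hA.e0, hA'.e1, hA.q0, hA'.q1, Or.inr ⟨rfl, hA.m0⟩,
    Or.inr ⟨rfl, hA'.m1⟩⟩

end cross

end Crest.Agent.R4P.XStart25
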