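import Crest.Agent.R4P.RawB_25
import Crest.Agent.R4P.XStart_25

/-!
R4 (S0004) with powers, module D, helper29: **the blocks of the cross walk with the predicate of the lower pairs**.

* `TT2`, `TB2`, `TB2'` : block bounds with two predicates `Pc` (columns) and `Px` (exits).
* `LS` : a lower side at a column; `LkN D Qp s₀ p e` : the pair of items `e` counts (`Par.PE`) at two lower sides
  at the column `p` with one circle and the scale pair `s₀`.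
* `Blks_P` : `YI25.Blks` for `VcL Pc`, `VxL Px` if `LkN (SE e) → Pc`, `LkN (p * SE e) → Px`.
-/

set_option autoImplicit false
set_option linter.unusedSectionVars false
set_option linter.unusedVariables false
set_option linter.unusedSimpArgs false
open Finset

namespace Crest.Agent.R4P.BlksP29

open Crest.Agent.R4.HVW560 Crest.Agent.R4P.AvgItem710
open Crest.Agent.R4.Tour104 Crest.Agent.R4.Tour758 Crest.Agent.R4.Avg758 Crest.Agent.R4.Clos758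
open Crest.Agent.R4.ClosL758 Crest.Agent.R4.ClosG758 Crest.Agent.R4.ClosR758
open Crest.Agent.R4.Fam464 Crest.Agent.R4P.Cnt588 Crest.Agent.R4P.Walk560 Crest.Agent.R4P.Item758
open Crest.Agent.R4P.Bld532 (NS All NodeOk Bk dv nd mem_dv mem_nd)
open Crest.Agent.R4P.GSt927 Crest.Agent.R4P.WalkIT579 Crest.Agent.R4P.NMW710
open Crest.Agent.R4P.CrossLoc25 Crest.Agent.R4P.CrossLocC25 Crest.Agent.R4P.WalkC
open Crest.Agent.R4P.CyC25 Crest.Agent.R4P.YI25 Crest.Agent.R4P.RawB25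
open Crest.Agent.R4P.VItem34 (meI meI_eq MX_meI)
open Crest.Agent.R4.WalkX560 (MX)
open Crest.Agent.R4P.Data758 Crest.Agent.R4.Piece464

variable {Λ κ : Type*} [Fintype Λ] [DecidableEq Λ] [Fintype κ] [DecidableEq κ] [WRel κ]
  {D : Par Λ κ} {sp : ℕ → Finset Λ} {P : Bld532.Par} {W : ℕ → ℝ} {Qp : NS → IT → Prop}
  {Al : Finset ℕ} {RP : Finset (Λ × Λ) → Prop} {ρ : ℕ → ℝ}

/-! ### two predicates -/

section raw
variable {Lo : ℝ × ℝ → ℕ × ℕ → Prop} {Pc Px : ℕ → ℕ × ℕ → Prop} {p : ℕ}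

open Classical in
/-- raw left tie against a raw side -/
theorem TB2 (hLo : LoOk Lo ρ) (hR : D.Rad ρ) (hdead : ∀ j, D.it j ∉ Al → ∀ a, D.om j a = 0)
    {M M' b pr b' pr' : ℕ} {S : Finset ℕ} {t₁ t₀ σ' : IT} {A A₂ : Finset Λ} {d u : DT Λ κ}
    (h : SideI D sp b pr (.br p S t₁ t₀) A d) (k : SideI D sp b' pr' σ' A₂ u)
    (hM : 0 < M) (hM' : 0 < M') (f : ∀ q ∈ t₀.items, ¬ p ∣ q / pr)
    (hP₁ : ∀ e ∈ D.PE (Ro (D.rho p)) (D.uA M (b * p) pr t₀ A p) (D.uA M' b' pr' σ' A₂ 1), Pc p e)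
    (hP₂ : ∀ e ∈ D.PE (Ro (D.rho p)) (D.uA M (b * p) pr t₀ A 1) (D.uA (p * M') b' pr' σ' A₂ 1),
      (p ∣ UI M' pr' e.2 → Pc p e) ∧ (¬ p ∣ UI M' pr' e.2 → Px p e)) :
    TB D Al (VcL Pc D.γ ρ Lo) (VxL Px D.γ ρ Lo) (6 * (SR ρ b (Qi D Al t₀ A) * SR ρ b' (Qi D Al σ' A₂)))
      p M b pr t₀ A M' b' pr' σ' A₂ := by
  have hpp : p.Prime := h.hF.1
  have hp0 : 0 < p := hpp.pos
  have hpR : (0:ℝ) < p := by exact_mod_cast hp0
  have hM2 : 0 < p * M' := Nat.mul_pos hp0 hM'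
  constructor
  · refine (Q_pb_le hR hdead hM hM' h.br₀.hb k.hb h.br₀.hF k.hF h.br₀.hW k.hW
      (Dvd.intro_left b rfl) (one_dvd _) _ A A₂ (Pc p) hP₁).trans ?_
    rw [Finset.sum_congr rfl fun e _ => pb_colL hp0 M b pr M' b' pr' e]
    exact blkL hR.pos _ _ _ (fun e _ he => vE_leL hLo hR.pos he) fun e =>
      mul_nonneg (by positivity) (VcL_nonneg hR.pos _ _ _)
  · have h0 : (0:ℝ) ≤ 1 / (p:ℝ) := by positivity
    refine (mul_le_mul_of_nonneg_left (Q_pb_le hR hdead hM hM2 h.br₀.hb k.hb h.br₀.hF k.hF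
      h.br₀.hW k.hW (one_dvd _) (one_dvd _) _ A A₂
      (fun e => (p ∣ UI M' pr' e.2 → Pc p e) ∧ (¬ p ∣ UI M' pr' e.2 → Px p e)) hP₂) h0).trans ?_
    rw [Finset.mul_sum]
    refine blkL hR.pos _ _ _ (fun e he hPe => ?_) fun e => mul_nonneg (by positivity)
      (VT_nonneg (fun _ _ _ => VcL_nonneg hR.pos _ _ _) (fun _ _ _ => VxL_nonneg hR.pos _ _ _) _ _ _ _)
    obtain ⟨a1, a2⟩ := Finset.mem_product.1 he
    have f1 : ¬ p ∣ e.1 / pr := f _ (mem_Qi.1 a1).1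
    obtain ⟨q0, q1, -⟩ := k.hF.item _ (mem_Qi.1 a2).1
    have w0' : 0 < e.2 / pr' := Nat.div_pos (Nat.le_of_dvd q0 q1) (Nat.pos_of_dvd_of_pos q1 q0)
    rw [pb_one]
    unfold VT
    split_ifs with hd
    · rw [vE_drop hpp D.γ (smv_missing f1) (smv_avg_drop hpp hM' w0' hd) (Or.inr rfl)
        (by push_cast; ring)]
      exact vE_leL hLo hR.pos (hPe.1 hd)
    · rw [vE_exit hpp D.γ (smv_missing f1) (smv_avg_raise hpp hM' hd) (by push_cast; ring)]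
      exact vX_leL hLo hR.pos (hPe.2 hd)

open Classical in
/-- raw right tie against a raw side -/
theorem TB2' (hLo : LoOk Lo ρ) (hR : D.Rad ρ) (hdead : ∀ j, D.it j ∉ Al → ∀ a, D.om j a = 0)
    {M M' b pr b' pr' : ℕ} {S' : Finset ℕ} {t₁' t₀' σ : IT} {A' A₂ : Finset Λ} {d' u : DT Λ κ}
    (h' : SideI D sp b' pr' (.br p S' t₁' t₀') A' d') (k : SideI D sp b pr σ A₂ u)
    (hM : 0 < M) (hM' : 0 < M') (f' : ∀ q ∈ t₀'.items, ¬ p ∣ q / pr')
    (hP₁ : ∀ e ∈ D.PE (Ro (D.rho p)) (D.uA M b pr σ A₂ 1) (D.uA M' (b' * p) pr' t₀' A' p), Pc p e)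
    (hP₂ : ∀ e ∈ D.PE (Ro (D.rho p)) (D.uA (p * M) b pr σ A₂ 1) (D.uA M' (b' * p) pr' t₀' A' 1),
      (p ∣ UI M pr e.1 → Pc p e) ∧ (¬ p ∣ UI M pr e.1 → Px p e)) :
    TB' D Al (VcL Pc D.γ ρ Lo) (VxL Px D.γ ρ Lo) (6 * (SR ρ b (Qi D Al σ A₂) * SR ρ b' (Qi D Al t₀' A')))
      p M b pr σ A₂ M' b' pr' t₀' A' := by
  have hpp : p.Prime := h'.hF.1
  have hp0 : 0 < p := hpp.pos
  have hpR : (0:ℝ) < p := by exact_mod_cast hp0
  have hM2 : 0 < p * M := Nat.mul_pos hp0 hM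
  constructor
  · refine (Q_pb_le hR hdead hM hM' k.hb h'.br₀.hb k.hF h'.br₀.hF k.hW h'.br₀.hW
      (one_dvd _) (Dvd.intro_left b' rfl) _ A₂ A' (Pc p) hP₁).trans ?_
    have e0 : ∀ e : ℕ × ℕ, D.pb ρ M b pr 1 e.1 M' (b' * p) pr' p e.2 =
        vE D.γ ρ M b pr M' b' pr' e := by
      intro e
      rw [← pb_one (D := D)]
      unfold Par.pb
      have h : ((b' * p : ℕ):ℝ) / p = (b':ℝ) / (1:ℕ) := by
        push_cast
        field_simp
      rw [h]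
    rw [Finset.sum_congr rfl fun e _ => e0 e]
    exact blkL hR.pos _ _ _ (fun e _ he => vE_leL hLo hR.pos he) fun e =>
      mul_nonneg (by positivity) (VcL_nonneg hR.pos _ _ _)
  · have h0 : (0:ℝ) ≤ 1 / (p:ℝ) := by positivity
    refine (mul_le_mul_of_nonneg_left (Q_pb_le hR hdead hM2 hM' k.hb h'.br₀.hb k.hF h'.br₀.hF
      k.hW h'.br₀.hW (one_dvd _) (one_dvd _) _ A₂ A'
      (fun e => (p ∣ UI M pr e.1 → Pc p e) ∧ (¬ p ∣ UI M pr e.1 → Px p e)) hP₂) h0).trans ?_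
    rw [Finset.mul_sum]
    refine blkL hR.pos _ _ _ (fun e he hPe => ?_) fun e => mul_nonneg (by positivity)
      (VT_nonneg (fun _ _ _ => VcL_nonneg hR.pos _ _ _) (fun _ _ _ => VxL_nonneg hR.pos _ _ _) _ _ _ _)
    obtain ⟨a1, a2⟩ := Finset.mem_product.1 he
    have f1 : ¬ p ∣ e.2 / pr' := f' _ (mem_Qi.1 a2).1
    obtain ⟨q0, q1, -⟩ := k.hF.item _ (mem_Qi.1 a1).1
    have w0 : 0 < e.1 / pr := Nat.div_pos (Nat.le_of_dvd q0 q1) (Nat.pos_of_dvd_of_pos q1 q0)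
    rw [pb_one]
    unfold VT
    split_ifs with hd
    · rw [vE_drop hpp D.γ (smv_avg_drop hpp hM w0 hd) (smv_missing f1) (Or.inl rfl)
        (by push_cast; ring)]
      exact vE_leL hLo hR.pos (hPe.1 hd)
    · rw [vE_exit hpp D.γ (smv_avg_raise hpp hM hd) (smv_missing f1) (by push_cast; ring)]
      exact vX_leL hLo hR.pos (hPe.2 hd)

open Classical in
/-- raw tie against a raw tie -/
theorem TT2 (hLo : LoOk Lo ρ) (hR : D.Rad ρ) (hdead : ∀ j, D.it j ∉ Al → ∀ a, D.om j a = 0)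
    {M M' b pr b' pr' : ℕ} {S S' : Finset ℕ} {t₁ t₀ t₁' t₀' : IT} {A A' : Finset Λ} {d d' : DT Λ κ}
    (h : SideI D sp b pr (.br p S t₁ t₀) A d) (h' : SideI D sp b' pr' (.br p S' t₁' t₀') A' d')
    (hM : 0 < M) (hM' : 0 < M') (f : ∀ q ∈ t₀.items, ¬ p ∣ q / pr)
    (f' : ∀ q ∈ t₀'.items, ¬ p ∣ q / pr')
    (hP₁ : ∀ e ∈ D.PE (Ro (D.rho p)) (D.uA M (b * p) pr t₀ A p) (D.uA M' (b' * p) pr' t₀' A' p),
      Pc p e)
    (hP₂ : ∀ e ∈ D.PE (Ro (D.rho p)) (D.uA M (b * p) pr t₀ A 1) (D.uA M' (b' * p) pr' t₀' A' 1),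
      Px p e) :
    TT D Al (VcL Pc D.γ ρ Lo) (VxL Px D.γ ρ Lo) (6 * (SR ρ b (Qi D Al t₀ A) * SR ρ b' (Qi D Al t₀' A')))
      p M b pr t₀ A M' b' pr' t₀' A' := by
  have hpp : p.Prime := h.hF.1
  have hp0 : 0 < p := hpp.pos
  have hpR : (0:ℝ) < p := by exact_mod_cast hp0
  constructor
  · refine (Q_pb_le hR hdead hM hM' h.br₀.hb h'.br₀.hb h.br₀.hF h'.br₀.hF h.br₀.hW h'.br₀.hW
      (Dvd.intro_left b rfl) (Dvd.intro_left b' rfl) _ A A' (Pc p) hP₁).trans ?_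
    rw [Finset.sum_congr rfl fun e _ => pb_col2 hp0 M b pr M' b' pr' e]
    exact blkL hR.pos _ _ _ (fun e _ he => vE_leL hLo hR.pos he) fun e =>
      mul_nonneg (by positivity) (VcL_nonneg hR.pos _ _ _)
  · have h0 : (0:ℝ) ≤ 1 / (p:ℝ) * (1 / (p:ℝ)) := by positivity
    refine (mul_le_mul_of_nonneg_left (Q_pb_le hR hdead hM hM' h.br₀.hb h'.br₀.hb h.br₀.hF
      h'.br₀.hF h.br₀.hW h'.br₀.hW (one_dvd _) (one_dvd _) _ A A' (Px p) hP₂) h0).trans ?_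
    rw [Finset.mul_sum]
    refine blkL hR.pos _ _ _ (fun e he hPe => ?_) fun e => mul_nonneg (by positivity)
      (VxL_nonneg hR.pos _ _ _)
    obtain ⟨a1, a2⟩ := Finset.mem_product.1 he
    rw [pb_one, vE_exit2 hpp D.γ (smv_missing (f _ (mem_Qi.1 a1).1))
      (smv_missing (f' _ (mem_Qi.1 a2).1)) (by push_cast; ring)]
    exact vX_leL hLo hR.pos hPe

end raw

/-! ### lower sides -/

/-- **a lower side at the column `p`** : node `v`, tree `t`, modulus `M`; `c = p` at near misses (missing child of a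
tie at `p`, the prime `p` of `v.B` is not counted), else `c = 1` -/
structure LS (D : Par Λ κ) (Qp : NS → IT → Prop) (p M : ℕ) (v : NS) (t : IT) (c : ℕ) : Prop where
  M0 : 0 < M
  b0 : 0 < v.B
  F : Fit v.B v.A t
  W : D.Wts v.A t
  c : c = 1 ∨ (c = p ∧ p ∣ v.B ∧ v.n = p)
  q : All Qp v t
  ok : t.Ok v.n
  up : ∀ r : ℕ, r.Prime → r < v.n → r ≤ p
  dn : ∀ r : ℕ, r.Prime → r < p → r < v.n

lemma LS.dvd {p M : ℕ} {v : NS} {t : IT} {c : ℕ} (h : LS D Qp p M v t c) : c ∣ v.B := by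
  rcases h.c with rfl | ⟨rfl, h1, -⟩
  · exact one_dvd _
  · exact h1

/-- **the pairs which count at a lower pair of sides** at the column `p` with the scale pair `s₀` -/
def LkN (D : Par Λ κ) (Qp : NS → IT → Prop) (s₀ : ℝ × ℝ) (p : ℕ) (e : ℕ × ℕ) : Prop :=
  ∃ (M : ℕ) (v : NS) (t : IT) (A : Finset Λ) (c : ℕ) (M' : ℕ) (v' : NS) (t' : IT)
    (A' : Finset Λ) (c' : ℕ), LS D Qp p M v t c ∧ LS D Qp p M' v' t' c' ∧
    v.A * (v.B / c) * M = v'.A * (v'.B / c') * M' ∧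
    SE M (v.B / c) v.A M' (v'.B / c') v'.A e = s₀ ∧
    e ∈ D.PE (Ro (D.rho p)) (D.uA M v.B v.A t A c) (D.uA M' v'.B v'.A t' A' c')

/-- the missing child of a tie -/
lemma LS_miss (hh : YH D sp P W Qp) {u : NS} {p : ℕ} {S : Finset ℕ} {t₁ t₀ : IT} {A : Finset Λ}
    {d : DT Λ κ} (h : SY D sp Qp u (.br p S t₁ t₀) A d) {M : ℕ} (hM : 0 < M) {c : ℕ}
    (hc : c = 1 ∨ c = p) : LS D Qp p M ⟨p, u.c * p, u.A, u.B * p⟩ t₀ c where
  M0 := hM
  b0 := h.S.br₀.hb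
  F := h.S.br₀.hF
  W := h.S.br₀.hW
  c := hc.imp id fun h => ⟨h, Dvd.intro_left u.B rfl, rfl⟩
  q := h.q.2.2
  ok := h.ok.2.2.2.2.2
  up := fun r _ hr => hr.le
  dn := fun r _ hr => hr

/-- the other side -/
lemma LS_part {u : NS} {p : ℕ} {τ σ : IT} {A A₂ : Finset Λ} {d : DT Λ κ}
    (h : SY D sp Qp u τ A d) (hl : ¬ isL τ) (hlw : Lw p u τ) (hC : Cn p τ σ)
    (hS : SideI D sp u.B u.A σ A₂ (D.toDT sp u.B u.A σ)) {M : ℕ} (hM : 0 < M) :
    ∃ v : NS, v.A = u.A ∧ v.B = u.B ∧ LS D Qp p M v σ 1 := by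
  rcases hC with ⟨S, rfl⟩ | ⟨rfl, -⟩
  · exact ⟨⟨p, u.c, u.A, u.B⟩, rfl, rfl, hM, hS.hb, hS.hF, hS.hW, Or.inl rfl, h.q.2, h.ok.2.2.2,
      fun l _ hl => hl.le, fun l _ hl => hl⟩
  · exact ⟨u, rfl, rfl, hM, hS.hb, hS.hF, hS.hW, Or.inl rfl, h.q, h.ok, hlw.1.resolve_left hl,
      hlw.2⟩

lemma Cn_items {p : ℕ} {τ σ : IT} (h : Cn p τ σ) : σ.items ⊆ τ.items := by
  rcases h with ⟨S, rfl⟩ | ⟨rfl, -⟩
  · exact subset_rfl
  · exact subset_rfl

section blocks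
variable {CL c₀ : ℝ} {p0 : ℕ}

open Classical in
/-- **BLOCK BOUNDS OF RAW SIDES**, exact predicates of the pairs -/
theorem Blks_P (hh : YH D sp P W Qp) (hr : RH D ρ Al Qp CL c₀ p0)
    {Lo : ℝ × ℝ → ℕ × ℕ → Prop} (hLo : LoOk Lo ρ) {Pc Px : ℕ → ℕ × ℕ → Prop}
    {s : St Λ κ} {u u' : NS} {τ τ' : IT} (h : YI D sp Qp RP s u u' τ τ')
    (hL : ¬ isL τ) (hR : ¬ isL τ')
    (hc : ∀ e ∈ Ep D Al s τ τ', LkN D Qp (SE s.M u.B u.A s.M' u'.B u'.A e) s.p e → Pc s.p e)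
    (hx : ∀ e ∈ Ep D Al s τ τ', LkN D Qp (s.p * (SE s.M u.B u.A s.M' u'.B u'.A e).1,
      s.p * (SE s.M u.B u.A s.M' u'.B u'.A e).2) s.p e → Px s.p e)
    {a : ℕ → ℝ} (ha : 12 * kp CL c₀ s.p ^ 2 ≤ a s.p) :
    Blks D Al sp (VcL Pc D.γ ρ Lo) (VxL Px D.γ ρ Lo) a meI s u.B u.A τ u'.B u'.A τ' := by
  have hl : ¬ (s.t.isLeaf ∧ s.t'.isLeaf) := by
    intro hl
    apply hL
    have := hl.1
    rw [h.L.S.eq] at this
    exact (WalkIT579.toDT_leaf D sp _ _ τ).1 this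
  obtain ⟨hpp, lwL, lwR⟩ := h.lev hh hl
  have hp1 : 1 ≤ s.p := hpp.one_lt.le
  have hpos : 0 < s.p := hpp.pos
  have M0 := h.mL.pos
  have M0' := h.mR.pos
  have hk := kp_nonneg hr hp1
  have hme := (MX_meI (Λ := Λ) (κ := κ)).nn
  have hinv : (0:ℝ) ≤ 1 / (s.p:ℝ) := by positivity
  have hρ := hr.rad.pos
  have hci := h.circ
  -- products
  have prod : ∀ {x y X Y : ℝ}, 0 ≤ x → 0 ≤ y → 0 ≤ X → 0 ≤ Y → x ≤ kp CL c₀ s.p * X →
      y ≤ kp CL c₀ s.p * Y → 2 * (6 * (x * y)) ≤ a s.p * X * Y := by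
    intro x y X Y hx hy hX hY h1 h2
    have k1 := mul_le_mul h1 h2 hy (mul_nonneg hk hX)
    have k2 := mul_le_mul_of_nonneg_right ha (mul_nonneg hX hY)
    nlinarith [k1, k2]
  refine ⟨?_, ?_, ?_⟩
  · intro S t₁ t₀ S' t₁' t₀' e e'
    subst e e'
    have hp0 : p0 ≤ s.p := hr.col _ _ _ _ _ h.L.q.self
    have hsb : ∀ c c', c = 1 ∨ c = s.p → c' = 1 ∨ c' = s.p →
        D.PE (Ro (D.rho s.p)) (D.uA s.M (u.B * s.p) u.A t₀ s.A c)
          (D.uA s.M' (u'.B * s.p) u'.A t₀' s.A' c') ⊆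
        Ep D Al s (.br s.p S t₁ t₀) (.br s.p S' t₁' t₀') := by
      intro c c' h1 h2
      refine (PE_sub hr.dead M0 M0' h.L.S.br₀.hb h.R.S.br₀.hb h.L.S.br₀.hF h.R.S.br₀.hF
        h.L.S.br₀.hW h.R.S.br₀.hW (LS_miss hh h.L M0 h1).dvd (LS_miss hh h.R M0' h2).dvd _ _ _).trans ?_
      exact Finset.product_subset_product (Qi_sub Finset.subset_union_right subset_rfl)
        (Qi_sub Finset.subset_union_right subset_rfl)
    refine ⟨_, TT2 hLo hr.rad hr.dead h.L.S h.R.S M0 M0' (fun q hq => br_ndvd hh h.L hq)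
      (fun q hq => br_ndvd hh h.R hq) (fun e he => hc e (hsb _ _ (Or.inr rfl) (Or.inr rfl) he) ?_)
      (fun e he => hx e (hsb _ _ (Or.inl rfl) (Or.inl rfl) he) ?_), ?_⟩
    · refine ⟨s.M, _, t₀, s.A, s.p, s.M', _, t₀', s.A', s.p, LS_miss hh h.L M0 (Or.inr rfl),
        LS_miss hh h.R M0' (Or.inr rfl), ?_, ?_, he⟩
      · simp only [Nat.mul_div_cancel _ hpos]
        exact hci
      · simp only [Nat.mul_div_cancel _ hpos]
    · have hi := Par.PE_ex M0 M0' he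
      obtain ⟨j, j', -, -, -, -, -, i1, i2, -⟩ := hi
      refine ⟨s.M, _, t₀, s.A, 1, s.M', _, t₀', s.A', 1, LS_miss hh h.L M0 (Or.inl rfl),
        LS_miss hh h.R M0' (Or.inl rfl), ?_, ?_, he⟩
      · simp only [Nat.div_one]
        calc u.A * (u.B * s.p) * s.M = u.A * u.B * s.M * s.p := by ring
          _ = u'.A * u'.B * s.M' * s.p := by rw [hci]
          _ = _ := by ring
      · simp only [Nat.div_one]
        exact SE_raise (smv_missing (br_ndvd hh h.L i1)) (smv_missing (br_ndvd hh h.R i2))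
    · exact prod (SR_nonneg hρ _ _) (SR_nonneg hρ _ _) (mul_nonneg hinv (hme _ _))
        (mul_nonneg hinv (hme _ _)) (SR_miss hr hp0 h.L) (SR_miss hr hp0 h.R)
  · intro S t₁ t₀ σ' A₂ e hC hA hil hS
    subst e
    have hp0 : p0 ≤ s.p := hr.col _ _ _ _ _ h.L.q.self
    have M2 : 0 < s.p * s.M' := Nat.mul_pos hpos M0'
    have hsb : ∀ c M₂, c = 1 ∨ c = s.p → 0 < M₂ →
        D.PE (Ro (D.rho s.p)) (D.uA s.M (u.B * s.p) u.A t₀ s.A c)
          (D.uA M₂ u'.B u'.A σ' A₂ 1) ⊆ Ep D Al s (.br s.p S t₁ t₀) τ' := by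
      intro c M₂ h1 h2
      refine (PE_sub hr.dead M0 h2 h.L.S.br₀.hb hS.hb h.L.S.br₀.hF hS.hF
        h.L.S.br₀.hW hS.hW (LS_miss hh h.L M0 h1).dvd (one_dvd _) _ _ _).trans ?_
      exact Finset.product_subset_product (Qi_sub Finset.subset_union_right subset_rfl)
        (Qi_sub (Cn_items hC) hA)
    refine ⟨6 * (SR ρ u.B (Qi D Al t₀ s.A) * SR ρ u'.B (Qi D Al σ' A₂)),
      mul_nonneg (by norm_num) (mul_nonneg (SR_nonneg hρ _ _) (SR_nonneg hρ _ _)),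
      TB2 hLo hr.rad hr.dead h.L.S hS M0 M0' (fun q hq => br_ndvd hh h.L hq)
        (fun e he => hc e (hsb _ _ (Or.inr rfl) M0' he) ?_)
        (fun e he => ⟨fun hd => hc e (hsb _ _ (Or.inl rfl) M2 he) ?_,
          fun hd => hx e (hsb _ _ (Or.inl rfl) M2 he) ?_⟩), ?_⟩
    · obtain ⟨v, hvA, hvB, hv⟩ := LS_part h.R hR lwR hC hS M0'
      refine ⟨s.M, _, t₀, s.A, s.p, s.M', v, σ', A₂, 1, LS_miss hh h.L M0 (Or.inr rfl), hv,
        ?_, ?_, ?_⟩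
      · rw [hvA, hvB]
        simp only [Nat.mul_div_cancel _ hpos, Nat.div_one]
        exact hci
      · rw [hvA, hvB]
        simp only [Nat.mul_div_cancel _ hpos, Nat.div_one]
      · rw [hvA, hvB]
        exact he
    · obtain ⟨v, hvA, hvB, hv⟩ := LS_part h.R hR lwR hC hS M2
      obtain ⟨j, j', -, -, -, -, -, i1, i2, -⟩ := Par.PE_ex M0 M2 he
      obtain ⟨q0, q1, -⟩ := hS.hF.item _ i2
      have w0' : 0 < e.2 / u'.A := Nat.div_pos (Nat.le_of_dvd q0 q1) (Nat.pos_of_dvd_of_pos q1 q0)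
      refine ⟨s.M, _, t₀, s.A, 1, s.p * s.M', v, σ', A₂, 1, LS_miss hh h.L M0 (Or.inl rfl), hv,
        ?_, ?_, ?_⟩
      · rw [hvA, hvB]
        simp only [Nat.div_one]
        calc u.A * (u.B * s.p) * s.M = u.A * u.B * s.M * s.p := by ring
          _ = u'.A * u'.B * s.M' * s.p := by rw [hci]
          _ = _ := by ring
      · rw [hvA, hvB]
        simp only [Nat.div_one]
        exact SE_inv hpp (smv_missing (br_ndvd hh h.L i1)) (smv_avg_drop hpp M0' w0' hd)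
          (Or.inr rfl)
      · rw [hvA, hvB]
        exact he
    · obtain ⟨v, hvA, hvB, hv⟩ := LS_part h.R hR lwR hC hS M2
      obtain ⟨j, j', -, -, -, -, -, i1, i2, -⟩ := Par.PE_ex M0 M2 he
      refine ⟨s.M, _, t₀, s.A, 1, s.p * s.M', v, σ', A₂, 1, LS_miss hh h.L M0 (Or.inl rfl), hv,
        ?_, ?_, ?_⟩
      · rw [hvA, hvB]
        simp only [Nat.div_one]
        calc u.A * (u.B * s.p) * s.M = u.A * u.B * s.M * s.p := by ring
          _ = u'.A * u'.B * s.M' * s.p := by rw [hci]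
          _ = _ := by ring
      · rw [hvA, hvB]
        simp only [Nat.div_one]
        exact SE_raise (smv_missing (br_ndvd hh h.L i1)) (smv_avg_raise hpp M0' hd)
      · rw [hvA, hvB]
        exact he
    · exact prod (SR_nonneg hρ _ _) (SR_nonneg hρ _ _) (mul_nonneg hinv (hme _ _))
        (hme _ _) (SR_miss hr hp0 h.L) (SR_part hr hp0 hp1 h.R hR lwR hC hil hS)
  · intro S' t₁' t₀' σ A₂ e hC hA hil hS
    subst e
    have hp0 : p0 ≤ s.p := hr.col _ _ _ _ _ h.R.q.self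
    have M2 : 0 < s.p * s.M := Nat.mul_pos hpos M0
    have hsb : ∀ c M₂, c = 1 ∨ c = s.p → 0 < M₂ →
        D.PE (Ro (D.rho s.p)) (D.uA M₂ u.B u.A σ A₂ 1)
          (D.uA s.M' (u'.B * s.p) u'.A t₀' s.A' c) ⊆ Ep D Al s τ (.br s.p S' t₁' t₀') := by
      intro c M₂ h1 h2
      refine (PE_sub hr.dead h2 M0' hS.hb h.R.S.br₀.hb hS.hF h.R.S.br₀.hF
        hS.hW h.R.S.br₀.hW (one_dvd _) (LS_miss hh h.R M0' h1).dvd _ _ _).trans ?_
      exact Finset.product_subset_product (Qi_sub (Cn_items hC) hA)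
        (Qi_sub Finset.subset_union_right subset_rfl)
    refine ⟨6 * (SR ρ u.B (Qi D Al σ A₂) * SR ρ u'.B (Qi D Al t₀' s.A')),
      mul_nonneg (by norm_num) (mul_nonneg (SR_nonneg hρ _ _) (SR_nonneg hρ _ _)),
      TB2' hLo hr.rad hr.dead h.R.S hS M0 M0' (fun q hq => br_ndvd hh h.R hq)
        (fun e he => hc e (hsb _ _ (Or.inr rfl) M0 he) ?_)
        (fun e he => ⟨fun hd => hc e (hsb _ _ (Or.inl rfl) M2 he) ?_,
          fun hd => hx e (hsb _ _ (Or.inl rfl) M2 he) ?_⟩), ?_⟩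
    · obtain ⟨v, hvA, hvB, hv⟩ := LS_part h.L hL lwL hC hS M0
      refine ⟨s.M, v, σ, A₂, 1, s.M', _, t₀', s.A', s.p, hv, LS_miss hh h.R M0' (Or.inr rfl),
        ?_, ?_, ?_⟩
      · rw [hvA, hvB]
        simp only [Nat.mul_div_cancel _ hpos, Nat.div_one]
        exact hci
      · rw [hvA, hvB]
        simp only [Nat.mul_div_cancel _ hpos, Nat.div_one]
      · rw [hvA, hvB]
        exact he
    · obtain ⟨v, hvA, hvB, hv⟩ := LS_part h.L hL lwL hC hS M2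
      obtain ⟨j, j', -, -, -, -, -, i1, i2, -⟩ := Par.PE_ex M2 M0' he
      obtain ⟨q0, q1, -⟩ := hS.hF.item _ i1
      have w0 : 0 < e.1 / u.A := Nat.div_pos (Nat.le_of_dvd q0 q1) (Nat.pos_of_dvd_of_pos q1 q0)
      refine ⟨s.p * s.M, v, σ, A₂, 1, s.M', _, t₀', s.A', 1, hv, LS_miss hh h.R M0' (Or.inl rfl),
        ?_, ?_, ?_⟩
      · rw [hvA, hvB]
        simp only [Nat.div_one]
        calc u.A * u.B * (s.p * s.M) = u.A * u.B * s.M * s.p := by ring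
          _ = u'.A * u'.B * s.M' * s.p := by rw [hci]
          _ = _ := by ring
      · rw [hvA, hvB]
        simp only [Nat.div_one]
        exact SE_inv hpp (smv_avg_drop hpp M0 w0 hd) (smv_missing (br_ndvd hh h.R i2))
          (Or.inl rfl)
      · rw [hvA, hvB]
        exact he
    · obtain ⟨v, hvA, hvB, hv⟩ := LS_part h.L hL lwL hC hS M2
      obtain ⟨j, j', -, -, -, -, -, i1, i2, -⟩ := Par.PE_ex M2 M0' he
      refine ⟨s.p * s.M, v, σ, A₂, 1, s.M', _, t₀', s.A', 1, hv, LS_miss hh h.R M0' (Or.inl rfl),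
        ?_, ?_, ?_⟩
      · rw [hvA, hvB]
        simp only [Nat.div_one]
        calc u.A * u.B * (s.p * s.M) = u.A * u.B * s.M * s.p := by ring
          _ = u'.A * u'.B * s.M' * s.p := by rw [hci]
          _ = _ := by ring
      · rw [hvA, hvB]
        simp only [Nat.div_one]
        exact SE_raise (smv_avg_raise hpp M0 hd) (smv_missing (br_ndvd hh h.R i2))
      · rw [hvA, hvB]
        exact he
    · exact prod (SR_nonneg hρ _ _) (SR_nonneg hρ _ _) (hme _ _)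
        (mul_nonneg hinv (hme _ _)) (SR_part hr hp0 hp1 h.L hL lwL hC hil hS) (SR_miss hr hp0 h.R)

end blocks

end Crest.Agent.R4P.BlksP29
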