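import Crest.Agent.R4P.VNum_34
import Crest.Agent.R4P.OSWIA19
import Crest.Agent.R4P.IMI194

/-!
R4 (S0004) with powers, module D, helper34: inputs of (Z3) `V_leQ` for decorated item trees (port of
`R4/ZNum812`).

* `h2` : `∑_{j ∈ A} m_j ∑_{p ∈ mtD j} β p`, `FQ_h2`, `FQ_m`, `h2_le`.
* `SgN` : the share of the missing items, `hsg_SgN`, `SgN_toDT`, `RwSg_of_All`.
* `okm` : masses on `Ok` trees, `MX_okm`; `meI`.
* `V_item` : everything together.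
-/

set_option autoImplicit false
set_option linter.unusedSectionVars false
set_option linter.unusedVariables false
open MeasureTheory Filter Set

namespace Crest.Agent.R4P.VItem34

open Crest.Agent.R4.Tour104 Crest.Agent.R4.Tour758 Crest.Agent.R4.Avg758 Crest.Agent.R4.Clos758
open Crest.Agent.R4.ClosL758 Crest.Agent.R4.ClosG758 Crest.Agent.R4.ClosR758
open Crest.Agent.R4P.Cnt588 Crest.Agent.R4P.Item758
open Crest.Agent.R4P.ClosR442 Crest.Agent.R4P.Walk560 Crest.Agent.R4P.VWalk36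
open Crest.Agent.R4P.VNum34
open Crest.Agent.R4.WalkX560 (MX)
open Crest.Agent.R4P.Res927 Crest.Agent.R4P.OSWS245 Crest.Agent.R4P.OSWI245
open Crest.Agent.R4P.GInst194 (mI)

section main
variable {Λ κ : Type*} [Fintype Λ] [DecidableEq Λ] [DecidableEq κ] [Fintype κ] [WRel κ]
  {wr : ℕ → Λ → κ} {Ad : TrG Λ κ → Finset Λ → Prop} {μ : TrG Λ κ → Finset Λ → ℝ}
  {ν : TrG Λ κ → ℝ} {n : ℕ} {a sg : ℕ → ℝ} {stp : ℕ → ℕ → ℕ → Prop} {A A' : Finset Λ} {p0 : ℕ}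

/-! ### the second potential -/

variable {dv : DT Λ κ → Λ → Prop} {m : DT Λ κ → Λ → ℝ} {me : TrG Λ κ → Finset Λ → ℝ}

/-- `∑_{j ∈ A} m_j ∑_{p ∈ mtD j} β p` -/
noncomputable def h2 (β : ℕ → ℝ) (dv : DT Λ κ → Λ → Prop) (m : DT Λ κ → Λ → ℝ) (t : DT Λ κ)
    (A : Finset Λ) : ℝ := ∑ j ∈ A, m t j * ∑ p ∈ mtD dv j t, β p

lemma mass_step {w x₁ x₀ x F₁ F₀ F b : ℝ} (hw0 : 0 ≤ w) (hw1 : 0 ≤ 1 - w) (hx : 0 ≤ x)
    (h : (x₀ = 0 ∧ (1 - w) * x₁ ≤ x ∧ F = F₁ ∧ 0 ≤ F₁) ∨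
      (x₁ = 0 ∧ w * x₀ ≤ x ∧ F = b + F₀ ∧ 0 ≤ b + F₀) ∨ (x₁ = 0 ∧ w = 0 ∧ 0 ≤ F)) :
    (1 - w) * (x₁ * F₁) + w * (x₀ * F₀) + b * (w * x₀) ≤ x * F := by
  rcases h with ⟨e, h1, e2, h3⟩ | ⟨e, h1, e2, h3⟩ | ⟨e, e2, h3⟩
  · rw [e, e2]
    have := mul_le_mul_of_nonneg_right h1 h3
    linarith
  · rw [e, e2]
    have := mul_le_mul_of_nonneg_right h1 h3
    linarith
  · rw [e, e2]
    have := mul_nonneg hx h3
    linarith

theorem FQ_h2 {β : ℕ → ℝ} (hβ : ∀ p, 0 ≤ β p)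
    (hme : ∀ {n : ℕ} {t : DT Λ κ} {A : Finset Λ}, Side wr Ad μ ν n t A → t.All (IM dv m) →
      me t.g A = ∑ j ∈ A, m t j) : FQ wr Ad μ ν (IM dv m) β me (h2 β dv m) where
  nn := by
    intro n t A h hq
    exact Finset.sum_nonneg fun j _ => mul_nonneg (hq.self.nn j)
      (Finset.sum_nonneg fun p _ => hβ p)
  br := by
    intro n p w r t₁ t₀ v B G A h hq
    obtain ⟨a1, a0, hb, -, -⟩ := h.br
    rw [hme a0 hq.2.2]
    unfold h2
    rw [Finset.mul_sum, Finset.mul_sum, Finset.mul_sum, Finset.mul_sum, ← Finset.sum_add_distrib,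
      ← Finset.sum_add_distrib]
    refine Finset.sum_le_sum fun j _ => ?_
    have hst := hq.1.st j
    refine mass_step hb.w0 (by linarith [hb.w1]) (hq.1.nn j) ?_
    by_cases hd : dv (.br p w r t₁ t₀ v B G) j
    · obtain ⟨e1, e2⟩ := hst.1 hd
      refine Or.inl ⟨e1, e2, ?_, Finset.sum_nonneg fun p _ => hβ p⟩
      simp only [mtD]
      rw [if_pos (Or.inr hd)]
    · obtain ⟨e1, e2⟩ := hst.2 hd
      by_cases hw : w = 0
      · exact Or.inr (Or.inr ⟨e1, hw, Finset.sum_nonneg fun p _ => hβ p⟩)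
      · have hnm : p ∉ mtD dv j t₀ := fun hm =>
          absurd (mtD_lt (h.col.2.2.2.2 hw).2 p hm) (lt_irrefl _)
        refine Or.inr (Or.inl ⟨e1, e2, ?_,
          add_nonneg (hβ p) (Finset.sum_nonneg fun p _ => hβ p)⟩)
        simp only [mtD]
        rw [if_neg (not_or.2 ⟨hw, hd⟩), Finset.sum_insert hnm]
  add := by
    intro n b r t₁ t₀ A h hq
    unfold h2
    rw [← Finset.sum_add_distrib]
    refine Finset.sum_le_sum fun j _ => ?_
    have hst := hq.1.st j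
    by_cases hd : dv (.add b r t₁ t₀) j
    · obtain ⟨e1, e2⟩ := hst.1 hd
      simp only [mtD, hd, if_true]
      rw [e1]
      have := mul_le_mul_of_nonneg_right e2
        (Finset.sum_nonneg fun p (_ : p ∈ mtD dv j t₁) => hβ p)
      linarith
    · obtain ⟨e1, e2⟩ := hst.2 hd
      simp only [mtD, hd, if_false]
      rw [e1]
      have := mul_le_mul_of_nonneg_right e2
        (Finset.sum_nonneg fun p (_ : p ∈ mtD dv j t₀) => hβ p)
      linarith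
  up := by
    intro n p t Sp u A h hq hv hp hp0
    unfold h2
    refine Finset.sum_le_sum fun j _ => ?_
    have h1 := vw_up_m hv hq.self j
    have h2 : mtD dv j u = mtD dv j t := by
      rcases vw_up hv with rfl | ⟨-, rfl, -⟩ <;> rfl
    rw [h2]
    exact mul_le_mul_of_nonneg_right h1 (Finset.sum_nonneg fun p _ => hβ p)

theorem FQ_m (hme : ∀ {n : ℕ} {t : DT Λ κ} {A : Finset Λ}, Side wr Ad μ ν n t A →
      t.All (IM dv m) → me t.g A = ∑ j ∈ A, m t j) :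
    FQ wr Ad μ ν (IM dv m) (fun _ => 0) me (fun t A => me t.g A) where
  nn := by
    intro n t A h hq
    rw [hme h hq]
    exact Finset.sum_nonneg fun j _ => hq.self.nn j
  br := by
    intro n p w r t₁ t₀ v B G A h hq
    obtain ⟨a1, a0, hb, -, -⟩ := h.br
    rw [hme a0 hq.2.2, hme a1 hq.2.1, hme h hq]
    rw [Finset.mul_sum, Finset.mul_sum, zero_mul, add_zero, ← Finset.sum_add_distrib]
    refine Finset.sum_le_sum fun j _ => ?_
    have hst := hq.1.st j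
    by_cases hd : dv (.br p w r t₁ t₀ v B G) j
    · obtain ⟨e1, e2⟩ := hst.1 hd
      rw [e1]; linarith
    · obtain ⟨e1, e2⟩ := hst.2 hd
      rw [e1]; linarith
  add := by
    intro n b r t₁ t₀ A h hq
    obtain ⟨a1, a0⟩ := h.add
    rw [hme a0 hq.2.2, hme a1 hq.2.1, hme h hq, ← Finset.sum_add_distrib]
    refine Finset.sum_le_sum fun j _ => ?_
    have hst := hq.1.st j
    by_cases hd : dv (.add b r t₁ t₀) j
    · obtain ⟨e1, e2⟩ := hst.1 hd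
      rw [e1]; linarith
    · obtain ⟨e1, e2⟩ := hst.2 hd
      rw [e1]; linarith
  up := by
    intro n p t Sp u A h hq hv hp hp0
    rw [vw_up_g hv]

/-- bound of the second potential -/
theorem h2_le {β : ℕ → ℝ} {κ₀ : ℝ} {t : DT Λ κ} {A : Finset Λ} (hm : ∀ j, 0 ≤ m t j)
    (hb : ∀ j ∈ A, m t j ≠ 0 → ∑ p ∈ mtD dv j t, β p ≤ κ₀) :
    h2 β dv m t A ≤ κ₀ * ∑ j ∈ A, m t j := by
  unfold h2
  rw [Finset.mul_sum]
  refine Finset.sum_le_sum fun j hj => ?_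
  by_cases h0 : m t j = 0
  · rw [h0]; simp
  · rw [mul_comm κ₀]
    exact mul_le_mul_of_nonneg_left (hb j hj h0) (hm j)

/-! ### share of the missing items -/

/-- full share of the missing items -/
def SgN (sg : ℕ → ℝ) (ν : TrG Λ κ → ℝ) : DT Λ κ → Prop
  | .br p w r t₁ t₀ v B G => w * ν t₀.g ≤ sg p * ν (DT.br p w r t₁ t₀ v B G).g
  | _ => True

/-- the share for the masses `me ≤ C μ` -/
lemma hsg_SgN {Q : DT Λ κ → Prop} {C : ℝ} (hC : 0 ≤ C) (hQ : ∀ t, Q t → SgN sg ν t)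
    (hle : ∀ {n : ℕ} {t : DT Λ κ} {A : Finset Λ}, Side wr Ad μ ν n t A → t.All Q →
      me t.g A ≤ C * μ t.g A)
    {n p : ℕ} {w : ℝ} {r : Λ → κ} {t₁ t₀ : DT Λ κ} {v : Λ → ℝ → ℝ} {B G : κ → ℝ → ℝ}
    {A : Finset Λ} (h : Side wr Ad μ ν n (.br p w r t₁ t₀ v B G) A)
    (hq : (DT.br p w r t₁ t₀ v B G).All Q) :
    w * me t₀.g A ≤ (C * sg p) * ν (DT.br p w r t₁ t₀ v B G).g := by
  obtain ⟨-, a0, hb, -, -⟩ := h.br
  have h1 := (hle a0 hq.2.2).trans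
    (mul_le_mul_of_nonneg_left (a0.wf.self.mass.base.le _ a0.ad) hC)
  have h2 := mul_le_mul_of_nonneg_left h1 hb.w0
  have h3 : w * ν t₀.g ≤ sg p * ν (DT.br p w r t₁ t₀ v B G).g := hQ _ hq.1
  have h4 := mul_le_mul_of_nonneg_left h3 hC
  linarith

/-- share condition of an item tree -/
def RwSg (D : Item758.Par Λ κ) (W : Λ → ℝ) (sg : ℕ → ℝ) : IT → Prop
  | .leaf _ => True
  | .br p _ t₁ t₀ =>
      D.rw W t₀.items Finset.univ ≤ sg p * D.rw W (t₁.items ∪ t₀.items) Finset.univ ∧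
      RwSg D W sg t₁ ∧ RwSg D W sg t₀
  | .add _ t₁ t₀ => RwSg D W sg t₁ ∧ RwSg D W sg t₀
  | .up _ _ t => RwSg D W sg t
  | .pl _ t => RwSg D W sg t
  | .far _ t₁ t₀ => RwSg D W sg t₁ ∧ RwSg D W sg t₀

lemma RwSg_of_All {D : Item758.Par Λ κ} {W : Λ → ℝ} {P : Bld532.Par} {Wq : ℕ → ℝ} {S₀ : Finset ℕ}
    (hW : ∀ S ⊆ S₀, D.rw W S Finset.univ = Cnt588.Ws Wq S) {t : IT} :
    ∀ {s : Bld532.NS}, Bld532.All (Bld532.NodeOk P Wq) s t → t.items ⊆ S₀ →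
      RwSg D W (fun p => 2 * P.sg p) t := by
  induction t with
  | leaf S => intro s _ _; trivial
  | br p Sp t₁ t₀ ih₁ ih₀ =>
    intro s h hS
    have h1 : t₁.items ⊆ S₀ := Finset.subset_union_left.trans hS
    have h0 : t₀.items ⊆ S₀ := Finset.subset_union_right.trans hS
    refine ⟨?_, ih₁ h.2.1 h1, ih₀ h.2.2 h0⟩
    have hS' : t₁.items ∪ t₀.items ⊆ S₀ := hS
    rw [hW _ h0, hW _ hS']
    obtain ⟨-, -, -, -, -, -, -, -, -, -, -, k, -⟩ := h.1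
    exact k
  | add p t₁ t₀ ih₁ ih₀ =>
    intro s h hS
    exact ⟨ih₁ h.2.1 (Finset.subset_union_left.trans hS),
      ih₀ h.2.2 (Finset.subset_union_right.trans hS)⟩
  | up p Sp t ih => intro s h hS; exact ih h.2 hS
  | pl p t ih => intro s h hS; exact ih h.2 hS
  | far p t₁ t₀ ih₁ ih₀ =>
    intro s h hS
    exact ⟨ih₁ h.2.1 (Finset.subset_union_left.trans hS),
      ih₀ h.2.2 (Finset.subset_union_right.trans hS)⟩

/-- **share condition of the decorated item tree** -/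
theorem SgN_toDT {D : Item758.Par Λ κ} {sp : ℕ → Finset Λ} {W : Λ → ℝ} {dec : κ → Finset Λ → ℝ}
    {j₀ : Λ} (h0 : ∀ k A, 0 ≤ dec k A) {sg : ℕ → ℝ} (hs : ∀ p, 0 ≤ sg p) {t : IT} :
    ∀ (c : ℝ) (b pr : ℕ), 0 ≤ c → 0 < b → Fit b pr t → D.Wts pr t → D.DecOk W dec j₀ c b pr t →
    RwSg D W sg t →
    (D.toDT sp b pr t).All (SgN sg fun t => muR dec j₀ t Finset.univ) := by
  induction t with
  | leaf S => intro c b pr _ _ _ _ _ _; trivial
  | br p Sp t₁ t₀ ih₁ ih₀ =>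
    intro c b pr hc hb hF hW hD hR
    have hp : p.Prime := hF.1
    have hf : (0 : ℝ) ≤ 1 - 1 / (p : ℝ) := one_sub_inv_nonneg p
    refine ⟨?_, ih₁ _ _ _ (div_nonneg hc hf) hb hF.2.2.2.1 (hW.br₁ hF.2.2.1) hD.1 hR.2.1,
      ih₀ _ _ _ (mul_nonneg hc (Nat.cast_nonneg p)) (Nat.mul_pos hb hp.pos) hF.2.2.2.2 hW.br₀
        hD.2 hR.2.2⟩
    have e0 := D.muR_toG (W := W) (dec := dec) (j₀ := j₀) Finset.univ t₀ _ (b * p) pr
      hF.2.2.2.2 hD.2
    have e := D.muR_toG (W := W) (dec := dec) (j₀ := j₀) Finset.univ (.br p Sp t₁ t₀) c b pr hF hD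
    have g0 := D.toDT_g sp t₀ (b * p) pr
    have g := D.toDT_g sp (.br p Sp t₁ t₀) b pr
    show 1 / (p : ℝ) * muR dec j₀ (D.toDT sp (b * p) pr t₀).g Finset.univ ≤
      sg p * muR dec j₀ (D.toDT sp b pr (.br p Sp t₁ t₀)).g Finset.univ
    rw [g0, g, e0, e, ← mul_assoc, cf_missing' hp]
    have := mul_le_mul_of_nonneg_left hR.1 hc
    calc c * D.rw W t₀.items Finset.univ
        ≤ c * (sg p * D.rw W (t₁.items ∪ t₀.items) Finset.univ) := this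
      _ = sg p * (c * D.rw W (IT.br p Sp t₁ t₀).items Finset.univ) := by
        show _ = sg p * (c * D.rw W (t₁.items ∪ t₀.items) Finset.univ)
        ring
  | add p t₁ t₀ ih₁ ih₀ =>
    intro c b pr hc hb hF hW hD hR
    exact ⟨trivial, ih₁ _ _ _ hc hb hF.2.1 (hW.add₁ hF.1) hD.1 hR.1,
      ih₀ _ _ _ hc hb hF.2.2 hW.add₀ hD.2 hR.2⟩
  | up p Sp t ih =>
    intro c b pr hc hb hF hW hD hR
    exact ⟨trivial, ih _ _ _ hc hb hF hW hD hR⟩
  | pl p t ih =>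
    intro c b pr hc hb hF hW hD hR
    refine ⟨?_, ih _ _ _ hc hb hF.2.2 hW.pl hD hR, trivial⟩
    have hok := D.toG_Ok hb hF hW
    have g := D.toDT_g sp (.pl p t) b pr
    show (0 : ℝ) * _ ≤ sg p * muR dec j₀ (D.toDT sp b pr (.pl p t)).g Finset.univ
    rw [zero_mul, g]
    exact mul_nonneg (hs p) (muR_nonneg h0 j₀ hok _)
  | far p t₁ t₀ ih₁ ih₀ =>
    intro c b pr hc hb hF hW hD hR
    exact ⟨trivial, ih₁ _ _ _ hc hb hF.2.1 (hW.far₁ hF.1) hD.1 hR.1,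
      ih₀ _ _ _ hc hb hF.2.2 hW.far₀ hD.2 hR.2⟩

/-! ### masses on `Ok` trees -/

open Classical in
/-- masses, zero on ill-formed trees -/
noncomputable def okm (μ : TrG Λ κ → Finset Λ → ℝ) (t : TrG Λ κ) (A : Finset Λ) : ℝ :=
  if t.Ok then μ t A else 0

lemma okm_eq {μ : TrG Λ κ → Finset Λ → ℝ} {t : TrG Λ κ} (h : t.Ok) (A : Finset Λ) :
    okm μ t A = μ t A := if_pos h

lemma MX_okm {μ : TrG Λ κ → Finset Λ → ℝ} (h0 : ∀ t A, t.Ok → 0 ≤ μ t A)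
    (h1 : ∀ t A A', t.Ok → Disjoint A A' → μ t A + μ t A' ≤ μ t (A ∪ A')) : MX (okm μ) := by
  refine ⟨fun t A => ?_, fun t A A' hd => ?_⟩
  · by_cases h : t.Ok
    · rw [okm_eq h]; exact h0 t A h
    · simp [okm, h]
  · by_cases h : t.Ok
    · rw [okm_eq h, okm_eq h, okm_eq h]; exact h1 t A A' h hd
    · simp [okm, h]

/-- integral masses of the populations -/
noncomputable def meI : TrG Λ κ → Finset Λ → ℝ := okm fun t A => ms A t

lemma ms_eq (A : Finset Λ) (t : TrG Λ κ) : ms A t = ∑ j ∈ A, I (t.val j) := by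
  unfold ms
  rw [← Finset.sum_subset (Finset.subset_univ A)]
  · refine Finset.sum_congr rfl fun j hj => ?_
    simp [rv, hj]
  · intro j _ hj
    simp [rv, hj, I]

lemma MX_meI : MX (meI : TrG Λ κ → Finset Λ → ℝ) :=
  MX_okm (fun t A h => ms_nonneg h A) fun t A A' h hd => (ms_union hd h).ge

lemma meI_eq {t : DT Λ κ} (h : t.g.Ok) (A : Finset Λ) : meI t.g A = ∑ j ∈ A, mI t j := by
  unfold meI
  rw [okm_eq h, ms_eq]
  rfl

/-! ### everything together -/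

/-- extra predicate of the nodes -/
def QN (sg : ℕ → ℝ) (ν : TrG Λ κ → ℝ) (dv : DT Λ κ → Λ → Prop) (t : DT Λ κ) : Prop :=
  IM dv mI t ∧ SgN sg ν t

lemma FQ.sub {Q Q' : DT Λ κ → Prop} (h : ∀ t, Q' t → Q t) {β : ℕ → ℝ}
    {f : DT Λ κ → Finset Λ → ℝ} (hf : FQ wr Ad μ ν Q β me f) : FQ wr Ad μ ν Q' β me f :=
  ⟨fun hs hq => hf.nn hs (hq.mono h), fun hs hq => hf.br hs (hq.mono h),
    fun hs hq => hf.add hs (hq.mono h), fun hs hq => hf.up hs (hq.mono h)⟩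

/-- **(Z3) on item trees**: the unsplit walk costs at most `κ₀ (2 ν me' + me ν')` -/
theorem V_item {c Dm E K κ₀ C : ℝ} (hN : OSN c Dm E K κ₀ p0) (hc : c ≤ 11/12) (hC : 0 ≤ C)
    (ha : ∀ p, 0 ≤ a p) (hs : ∀ p, 0 ≤ sg p)
    (hβ : ∀ p : ℕ, p0 ≤ p → a p * (C * sg p) ≤ K * Real.log p ^ E / p)
    (hst : ∀ M M' p : ℕ, ¬ stp M M' p → ¬ stp2 M M' p)
    (hle : ∀ {n : ℕ} {t : DT Λ κ} {A : Finset Λ}, Side wr Ad μ ν n t A →
      t.All (QN sg ν dv) → meI t.g A ≤ C * μ t.g A)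
    {z : ZS Λ κ} (hz : ZI wr Ad μ ν A A' n z) (hj : OJ p0 z)
    (hqL : z.t.All (QN sg ν dv)) (hqR : z.t'.All (QN sg ν dv))
    (hR : ∀ j ∈ A', mI z.t' j ≠ 0 → (∀ q ∈ mtD dv j z.t', p0 < q) ∧
      ∀ P : ℕ, p0 ≤ P → (((mtD dv j z.t').filter (· ≤ P)).card : ℝ) ≤ Real.log P ^ Dm) :
    V stp a meI z A A' ≤ κ₀ * (2 * (ν z.t.g * meI z.t'.g A') + meI z.t.g A * ν z.t'.g) := by
  have hp8 := hN.ge
  have hp1 : 1 ≤ p0 := by omega
  have hs' : ∀ p, 0 ≤ C * sg p := fun p => mul_nonneg hC (hs p)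
  have hb : ∀ p : ℕ, p0 ≤ p → 0 ≤ a p * (C * sg p) ∧
      a p * (C * sg p) ≤ (p : ℝ) ^ (-(11/12) : ℝ) := fun p hp =>
    ⟨mul_nonneg (ha p) (hs' p), (hβ p hp).trans (by have := (hN.beta p hp).2; linarith)⟩
  have hp00 : (0 : ℝ) < p0 := by exact_mod_cast (by omega : 0 < p0)
  have hsm := hN.sm
  have hpc : 0 ≤ (p0 : ℝ) ^ (-c) := by positivity
  have hpq : 0 ≤ (p0 : ℝ) ^ (-(1/4) : ℝ) := by positivity
  have hp11 : (p0 : ℝ) ^ (-(11/12) : ℝ) ≤ (p0 : ℝ) ^ (-c) :=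
    Real.rpow_le_rpow_of_exponent_le (by exact_mod_cast hp1) (by linarith)
  have hκ : 4 * (p0 : ℝ) ^ (-(1/4) : ℝ) + (p0 : ℝ) ^ (-(11/12) : ℝ) ≤ κ₀ := by linarith
  have hκ0 : 0 ≤ κ₀ := by
    have : 0 ≤ (p0 : ℝ) ^ (-(11/12) : ℝ) := by positivity
    linarith
  have hme : ∀ {n : ℕ} {t : DT Λ κ} {A : Finset Λ}, Side wr Ad μ ν n t A →
      t.All (IM dv mI) → meI t.g A = ∑ j ∈ A, mI t j := fun h _ => meI_eq h.ok _
  have hIM : ∀ t : DT Λ κ, QN sg ν dv t → IM dv mI t := fun t h => h.1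
  have h1 := V_leQ (stp := stp) (a := a) (sg := fun p => C * sg p) (c := κ₀) (me := meI)
    (Q := QN sg ν dv) (f := h2 (fun p => a p * (C * sg p)) dv mI) (J := OJ p0) ha hs' hκ0
    (FQ.sub hIM (FQ_m hme))
    (fun h hq => hsg_SgN (μ := μ) hC (fun t h => h.2) hle h hq)
    (FQ.sub hIM (FQ_h2 (fun p => mul_nonneg (ha p) (hs' p)) hme))
    (fun n z hz hj => hj.next hp1 hst hz)
    (fun n z hz hj h1 h2 => hj.gs_le hp1 hst hb hκ hz h1 h2) hz hj hqL hqR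
  refine h1.trans ?_
  have hν : 0 ≤ ν z.t.g := hz.L.wf.self.mass.base.nu
  have hIR : z.t'.All (IM dv mI) := hqR.mono hIM
  have h3 : h2 (fun p => a p * (C * sg p)) dv mI z.t' A' ≤ κ₀ * ∑ j ∈ A', mI z.t' j := by
    refine h2_le hIR.self.nn fun j hj h0 => ?_
    obtain ⟨k1, k2⟩ := hR j hj h0
    refine le_trans (Finset.sum_le_sum fun p hp => ?_) (hN.tail _ k1 k2)
    have hpp := k1 p hp
    have hp1' : (1 : ℝ) ≤ p := by exact_mod_cast (by omega : 1 ≤ p)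
    exact ((hb p hpp.le).2).trans (Real.rpow_le_rpow_of_exponent_le hp1' (by linarith))
  rw [meI_eq hz.R.ok]
  have h4 := mul_le_mul_of_nonneg_left h3 hν
  linarith

end main

/-- the product of the two numbers -/
lemma beta_num {K₁ K₂ E C : ℝ} {p : ℕ} (hp : 2 ≤ p) :
    K₁ * Real.log p ^ 2 * (C * (K₂ * Real.log p ^ E / p)) =
      (K₁ * (C * K₂)) * Real.log p ^ (E + 2) / p := by
  have hl : 0 < Real.log (p : ℝ) := Real.log_pos (by exact_mod_cast hp)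
  rw [Real.rpow_add hl, Real.rpow_two]; ring

end Crest.Agent.R4P.VItem34
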