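import Crest.Agent.R4P.LocC_25
import Crest.Agent.R4P.OSDef710
import Crest.Agent.R4P.VItem_34

/-!
R4 (S0004) with powers, module D, helper29: **the blocks of the cross walk at the states (tree, tree)**.

* `SR_node` : the radius mass of a population at a node is at most `CL log p / c₀` times its integral mass;
* `blks_raw` : `YI25.Blks` for the value functions `VcL`, `VxL`, masses `meI`, `a p = KAB (log p)^2`.
-/

set_option autoImplicit false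
set_option linter.unusedSectionVars false
set_option linter.unusedVariables false
open Finset

namespace Crest.Agent.R4P.Blks29

open Crest.Agent.R4.HVW560 Crest.Agent.R4P.AvgItem710
open Crest.Agent.R4.Tour104 Crest.Agent.R4.Tour758 Crest.Agent.R4.Avg758 Crest.Agent.R4.Clos758
open Crest.Agent.R4.ClosL758 Crest.Agent.R4.ClosG758 Crest.Agent.R4.ClosR758
open Crest.Agent.R4P.Cnt588 Crest.Agent.R4P.Walk560 Crest.Agent.R4P.Item758
open Crest.Agent.R4P.Bld532 (NS All NodeOk Bk dv nd mem_dv mem_nd)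
open Crest.Agent.R4P.GSt927 Crest.Agent.R4P.WalkIT579 Crest.Agent.R4P.NMW710
open Crest.Agent.R4P.CrossLoc25 Crest.Agent.R4P.CrossLocC25 Crest.Agent.R4P.WalkC
open Crest.Agent.R4P.CyC25 Crest.Agent.R4P.YI25
open Crest.Agent.R4P.GInst194 (mI)
open Crest.Agent.R4P.OSFin710 (OB)
open Crest.Agent.R4P.VItem34 (meI meI_eq MX_meI)
open Crest.Agent.R4.DeepSt579 (tq tq_nonneg tq_le_one rd)

variable {Λ κ : Type*} [Fintype Λ] [DecidableEq Λ] [Fintype κ] [DecidableEq κ] [WRel κ]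
  {D : Par Λ κ} {sp : ℕ → Finset Λ} {P : Bld532.Par} {W : ℕ → ℝ} {Qp : NS → IT → Prop}
  {Al : Finset ℕ} {RP : Finset (Λ × Λ) → Prop} {ρ : ℕ → ℝ} {U : ℕ → Finset ℕ} {CL c₀ : ℝ} {p0 : ℕ}

/-- hypotheses on the items -/
structure IH (D : Par Λ κ) (ρ : ℕ → ℝ) (Al : Finset ℕ) (CL c₀ : ℝ) : Prop where
  rad : D.Rad ρ
  ab : ∀ j, D.al j ≤ D.be j
  dead : ∀ j, D.it j ∉ Al → ∀ a, D.om j a = 0
  c0 : 0 < c₀
  CL0 : 0 ≤ CL
  full : ∀ q ∈ Al, 2 * ρ q ≤ ∑ j ∈ Finset.univ.filter (fun j => D.it j = q), (D.be j - D.al j)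

lemma IH.of_NI {C1 : ℝ} {p : ℕ} (h : NI D ρ Al P W C1 c₀ p) (hCL : 0 ≤ CL) :
    IH D ρ Al CL c₀ where
  rad := h.rad
  ab := h.ab
  dead := h.dead
  c0 := h.c0
  CL0 := hCL
  full := h.full

/-- the constant of the blocks -/
noncomputable def KAB (CL c₀ : ℝ) : ℝ := 12 * (CL / c₀) ^ 2

lemma SR_mul (ρ : ℕ → ℝ) (b p : ℕ) (hp : 0 < p) (V : Finset ℕ) :
    SR ρ b V = 1 / (p:ℝ) * SR ρ (b * p) V := by
  have hp' : (p:ℝ) ≠ 0 := by exact_mod_cast hp.ne'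
  unfold SR
  rw [Finset.mul_sum]
  refine Finset.sum_congr rfl fun q _ => ?_
  push_cast
  field_simp

/-- **radius mass and integral mass of a node** -/
theorem SR_node (hI : IH D ρ Al CL c₀) {u : NS} {τ : IT} {A : Finset Λ} {d : DT Λ κ}
    (hO : OB D Al P W U CL c₀ p0 u τ) (h : SideI D sp u.B u.A τ A d) (hil : IL D.it A) {p : ℕ}
    (hp0 : p0 ≤ p) (hp : ∀ r : ℕ, r.Prime → r < u.n → r ≤ p) :
    SR ρ u.B (Qi D Al τ A) ≤ CL * Real.log p / c₀ * meI d.g A := by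
  have hlog : 0 ≤ CL * Real.log p := mul_nonneg hI.CL0 (Real.log_natCast_nonneg p)
  have hρ := hI.rad.pos
  have key := ColW710.mass_node (f := fun _ => 1) hI.ab h hI.c0 hO.ph hO.mean hI.full hil
    (ColW710.mI_nn h) (fun _ => zero_le_one)
  simp only [one_mul] at key
  have h1 : SR ρ u.B (Qi D Al τ A) ≤
      CL * Real.log p * ∑ q ∈ Qi D Al τ A, rd u.B 1 ρ q * tq (q / u.A) := by
    unfold SR
    rw [Finset.mul_sum]
    refine Finset.sum_le_sum fun q hq => ?_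
    obtain ⟨h2, h3, -⟩ := mem_Qi.1 hq
    rw [ColW710.rd_one]
    have h4 := mul_le_mul_of_nonneg_left (hO.lg p hp0 hp q h3 h2)
      (mul_nonneg (Nat.cast_nonneg u.B : (0 : ℝ) ≤ u.B) (hρ q).le)
    linarith
  have ok : d.g.Ok := by rw [h.eq, D.toDT_g]; exact D.toG_Ok h.hb h.hF h.hW
  have h2 : ∑ j ∈ A.filter (fun j => D.it j ∈ τ.items), mI d j ≤ meI d.g A := by
    rw [meI_eq ok]
    exact Finset.sum_le_sum_of_subset_of_nonneg (Finset.filter_subset _ _)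
      fun j _ _ => ColW710.mI_nn h j
  have h3 : 1 / c₀ * ∑ j ∈ A.filter (fun j => D.it j ∈ τ.items), mI d j ≤ 1 / c₀ * meI d.g A :=
    mul_le_mul_of_nonneg_left h2 (one_div_nonneg.2 hI.c0.le)
  calc SR ρ u.B (Qi D Al τ A) ≤ CL * Real.log p * (1 / c₀ * meI d.g A) :=
        h1.trans (mul_le_mul_of_nonneg_left (key.trans h3) hlog)
    _ = CL * Real.log p / c₀ * meI d.g A := by ring

lemma meI_nonneg (t : TrG Λ κ) (A : Finset Λ) : 0 ≤ meI t A := (MX_meI (Λ := Λ) (κ := κ)).nn t A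

/-- related pieces of the two populations at the column `p` -/
def Px (D : Par Λ κ) (p : ℕ) (s : St Λ κ) (τ τ' : IT) (e : ℕ × ℕ) : Prop :=
  ∃ j j', (j, j') ∈ Ro (D.rho p) ∧ j ∈ s.A ∧ j' ∈ s.A' ∧ D.it j = e.1 ∧ D.it j' = e.2 ∧
    e.1 ∈ τ.items ∧ e.2 ∈ τ'.items

lemma Px.pc {p : ℕ} {s : St Λ κ} {τ τ' : IT} {e : ℕ × ℕ} (h : Px D p s τ τ' e) : Pc D p e := by
  obtain ⟨j, j', h1, -, -, h4, h5, -⟩ := h
  exact ⟨j, j', h1, h4, h5⟩

lemma Px_of {p M M' b pr c b' pr' c' : ℕ} {s : St Λ κ} {τ τ' t t' : IT} {A A' : Finset Λ}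
    (hM : 0 < M) (hM' : 0 < M') (hA : A ⊆ s.A) (hA' : A' ⊆ s.A') (ht : t.items ⊆ τ.items)
    (ht' : t'.items ⊆ τ'.items) :
    ∀ e ∈ D.PE (Ro (D.rho p)) (D.uA M b pr t A c) (D.uA M' b' pr' t' A' c'), Px D p s τ τ' e := by
  intro e he
  obtain ⟨j, j', h1, h2, h3, h4, h5, h6, h7, -⟩ := Par.PE_ex hM hM' he
  exact ⟨j, j', h1, hA h2, hA' h3, h4, h5, ht h6, ht' h7⟩

/-- items of the other side after the column -/
lemma Cn_sub {p : ℕ} {τ σ : IT} (h : Cn p τ σ) : σ.items ⊆ τ.items := by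
  rcases h with ⟨S, rfl⟩ | ⟨rfl, -⟩
  · exact subset_rfl
  · exact subset_rfl

/-- node data of the other side after the column -/
lemma Cn_node {p : ℕ} {u : NS} {τ σ : IT} (h : Cn p τ σ) (hq : All Qp u τ) (hl : Lw p u τ)
    (hn : ¬ isL τ) : ∃ v : NS, v.A = u.A ∧ v.B = u.B ∧ All Qp v σ ∧
      ∀ r : ℕ, r.Prime → r < v.n → r ≤ p := by
  rcases h with ⟨S, rfl⟩ | ⟨rfl, -⟩
  · exact ⟨⟨p, u.c, u.A, u.B⟩, rfl, rfl, hq.2, fun r _ hr => le_of_lt hr⟩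
  · exact ⟨u, rfl, rfl, hq, fun r hr hr' => (hl.1.resolve_left hn) r hr hr'⟩

/-- the mass of the missing child -/
lemma SR_t0 (hI : IH D ρ Al CL c₀) (hQ : ∀ u τ, Qp u τ → OB D Al P W U CL c₀ p0 u τ)
    {u : NS} {p : ℕ} {S : Finset ℕ} {t₁ t₀ : IT} {A : Finset Λ} {d : DT Λ κ}
    (h : SY D sp Qp u (.br p S t₁ t₀) A d) (hp0 : p0 ≤ p) (hp : 0 < p) :
    SR ρ u.B (Qi D Al t₀ A) ≤
      CL * Real.log p / c₀ * (1 / (p:ℝ) * meI (D.toDT sp (u.B * p) u.A t₀).g A) := by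
  have h1 := SR_node (u := ⟨p, u.c * p, u.A, u.B * p⟩) hI (hQ _ _ h.q.2.2.self) h.S.br₀ h.il hp0
    (fun r _ hr => le_of_lt hr)
  have h2 : (0:ℝ) ≤ 1 / (p:ℝ) := by positivity
  rw [SR_mul ρ u.B p hp]
  refine (mul_le_mul_of_nonneg_left h1 h2).trans (le_of_eq ?_)
  ring

/-- the mass of the other side -/
lemma SR_cn (hI : IH D ρ Al CL c₀) (hQ : ∀ u τ, Qp u τ → OB D Al P W U CL c₀ p0 u τ)
    {u : NS} {p : ℕ} {τ σ : IT} {A A₂ : Finset Λ} {d : DT Λ κ}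
    (h : SY D sp Qp u τ A d) (hl : Lw p u τ) (hn : ¬ isL τ) (hC : Cn p τ σ)
    (hil : IL D.it A₂) (hS : SideI D sp u.B u.A σ A₂ (D.toDT sp u.B u.A σ)) (hp0 : p0 ≤ p) :
    SR ρ u.B (Qi D Al σ A₂) ≤
      CL * Real.log p / c₀ * meI (D.toDT sp u.B u.A σ).g A₂ := by
  obtain ⟨v, h1, h2, h3, h4⟩ := Cn_node hC h.q hl hn
  have h5 := SR_node (u := v) (τ := σ) (A := A₂) (d := D.toDT sp u.B u.A σ) hI (hQ _ _ h3.self)
    (by rw [h1, h2]; exact hS) hil hp0 h4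
  rw [h2] at h5
  exact h5

lemma prod_num {CL c₀ L x y X Y : ℝ} (hx0 : 0 ≤ x) (hy0 : 0 ≤ y)
    (hx : x ≤ CL * L / c₀ * X) (hy : y ≤ CL * L / c₀ * Y) :
    2 * (6 * (x * y)) ≤ KAB CL c₀ * L ^ 2 * X * Y := by
  have h1 : x * y ≤ (CL * L / c₀ * X) * (CL * L / c₀ * Y) :=
    mul_le_mul hx hy hy0 (hx0.trans hx)
  have h2 : KAB CL c₀ * L ^ 2 * X * Y = 12 * ((CL * L / c₀ * X) * (CL * L / c₀ * Y)) := by
    unfold KAB
    ring
  rw [h2]
  linarith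

open Classical in
/-- **THE BLOCKS AT A STATE (tree, tree)** -/
theorem blks_raw (hh : YH D sp P W Qp) (hI : IH D ρ Al CL c₀)
    (hQ : ∀ u τ, Qp u τ → OB D Al P W U CL c₀ p0 u τ) {Lo : ℝ × ℝ → ℕ × ℕ → Prop}
    (hLo : LoOk Lo ρ) {Pp : ℕ → ℕ × ℕ → Prop} {s : St Λ κ} {u u' : NS} {τ τ' : IT}
    (h : YI D sp Qp RP s u u' τ τ') (hl : ¬ s.t.isLeaf) (hl' : ¬ s.t'.isLeaf) (hp0 : p0 ≤ s.p)
    (hP : ∀ e, Px D s.p s τ τ' e → Pp s.p e) :
    Blks D Al sp (VcL Pp D.γ ρ Lo) (VxL Pp D.γ ρ Lo) (fun p => KAB CL c₀ * Real.log p ^ 2) meI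
      s u.B u.A τ u'.B u'.A τ' := by
  have hρ := hI.rad.pos
  obtain ⟨hpp, lw, lw'⟩ := h.lev hh (fun k => hl k.1)
  have hp := hpp.pos
  have M0 := h.mL.pos
  have M0' := h.mR.pos
  have n1 : ¬ isL τ := fun k => hl (by
    rw [h.L.S.eq]
    exact (WalkIT579.toDT_leaf D sp _ _ τ).2 k)
  have n2 : ¬ isL τ' := fun k => hl' (by
    rw [h.R.S.eq]
    exact (WalkIT579.toDT_leaf D sp _ _ τ').2 k)
  constructor
  · rintro S t₁ t₀ S' t₁' t₀' e1 e2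
    have sL := h.L
    have sR := h.R
    rw [e1] at sL
    rw [e2] at sR
    have i0 : t₀.items ⊆ τ.items := by rw [e1]; exact Finset.subset_union_right
    have i0' : t₀'.items ⊆ τ'.items := by rw [e2]; exact Finset.subset_union_right
    refine ⟨_, TT_raw hLo hI.rad hI.dead sL.S sR.S M0 M0' (fun q hq => br_ndvd hh sL hq)
      (fun q hq => br_ndvd hh sR hq)
      (fun e he => hP e (Px_of M0 M0' subset_rfl subset_rfl i0 i0' e he))
      (fun e he => hP e (Px_of M0 M0' subset_rfl subset_rfl i0 i0' e he)), ?_⟩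
    exact prod_num (SR_nonneg hρ _ _) (SR_nonneg hρ _ _) (SR_t0 hI hQ sL hp0 hp)
      (SR_t0 hI hQ sR hp0 hp)
  · rintro S t₁ t₀ σ' A₂ e1 hC hA₂ il₂ S₂
    have sL := h.L
    rw [e1] at sL
    have i0 : t₀.items ⊆ τ.items := by rw [e1]; exact Finset.subset_union_right
    refine ⟨_, by have := SR_nonneg hρ u.B (Qi D Al t₀ s.A); have := SR_nonneg hρ u'.B (Qi D Al σ' A₂); positivity,
      TB_raw hLo hI.rad hI.dead sL.S S₂ M0 M0' (fun q hq => br_ndvd hh sL hq)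
      (fun e he => hP e (Px_of M0 M0' subset_rfl hA₂ i0 (Cn_sub hC) e he))
      (fun e he => hP e (Px_of M0 (Nat.mul_pos hp M0') subset_rfl hA₂ i0 (Cn_sub hC) e he)), ?_⟩
    exact prod_num (SR_nonneg hρ _ _) (SR_nonneg hρ _ _) (SR_t0 hI hQ sL hp0 hp)
      (SR_cn hI hQ h.R lw' n2 hC il₂ S₂ hp0)
  · rintro S t₁ t₀ σ A₂ e1 hC hA₂ il₂ S₂
    have sR := h.R
    rw [e1] at sR
    have i0 : t₀.items ⊆ τ'.items := by rw [e1]; exact Finset.subset_union_right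
    refine ⟨_, by have := SR_nonneg hρ u'.B (Qi D Al t₀ s.A'); have := SR_nonneg hρ u.B (Qi D Al σ A₂); positivity,
      TB'_raw hLo hI.rad hI.dead sR.S S₂ M0 M0' (fun q hq => br_ndvd hh sR hq)
      (fun e he => hP e (Px_of M0 M0' hA₂ subset_rfl (Cn_sub hC) i0 e he))
      (fun e he => hP e (Px_of (Nat.mul_pos hp M0) M0' hA₂ subset_rfl (Cn_sub hC) i0 e he)), ?_⟩
    exact prod_num (SR_nonneg hρ _ _) (SR_nonneg hρ _ _)
      (SR_cn hI hQ h.L lw n1 hC il₂ S₂ hp0) (SR_t0 hI hQ sR hp0 hp)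

end Crest.Agent.R4P.Blks29
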