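import Crest.Agent.R4P.GMer_27

/-!
R4 (S0004) with powers, [MB] / [B2], helper28: **bookkeeping of a change of classes**.

* `PAx c V Sm L` : a functional `V` on contents `J → ℝ` which is monotone and superadditive (on the
  contents with `Sm`), and `V (h + x) ≤ V h + L * M c x`.
* `cl zo v z` : content of the class `z` for pieces `p : P` with contents `v p` and (member dependent,
  partial) class map `zo : P → J → Option Z` (`none` = the piece is not in the class system).
* `born` : `Σ_{z'} V (cl zn v z') ≤ Σ_z V (cl zo v z) + L * M c (born mass)`, where `mn z'` is the main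
  old class of the new class `z'` and the born mass is the content of the pieces in a new class whose
  old class is not the main one.
* instances: `PAx.pot` (`Pot` of GMer_27, heights `≤ 1`), `PAx.sq` (raw square, group average `≤ ζ`).
-/

set_option autoImplicit false
set_option linter.unusedSectionVars false

namespace Crest.Agent.R4P.Born28

open Finset
open Crest.Agent.R4P.GMer27

variable {J : Type*} [Fintype J] {c : J → ℝ}

/-- axioms of the potentials -/
structure PAx (c : J → ℝ) (V : (J → ℝ) → ℝ) (Sm : (J → ℝ) → Prop) (L : ℝ) : Prop where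
  nn : ∀ h : J → ℝ, (∀ j, 0 ≤ h j) → 0 ≤ V h
  sm : ∀ x h : J → ℝ, (∀ j, 0 ≤ x j) → (∀ j, x j ≤ h j) → Sm h → Sm x
  mono : ∀ x h : J → ℝ, (∀ j, 0 ≤ x j) → (∀ j, x j ≤ h j) → Sm h → V x ≤ V h
  split : ∀ x y : J → ℝ, (∀ j, 0 ≤ x j) → (∀ j, 0 ≤ y j) → Sm (fun j => x j + y j) →
    V x + V y ≤ V (fun j => x j + y j)
  inj : ∀ h x : J → ℝ, (∀ j, 0 ≤ h j) → (∀ j, 0 ≤ x j) → Sm (fun j => h j + x j) →
    V (fun j => h j + x j) ≤ V h + L * M c x

variable {V : (J → ℝ) → ℝ} {Sm : (J → ℝ) → Prop} {L : ℝ}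

lemma PAx.sum (A : PAx c V Sm L) {κ : Type*} (s : Finset κ) (f : κ → J → ℝ)
    (hf : ∀ i ∈ s, ∀ j, 0 ≤ f i j) (h1 : Sm (fun j => ∑ i ∈ s, f i j)) :
    ∑ i ∈ s, V (f i) ≤ V (fun j => ∑ i ∈ s, f i j) := by
  classical
  induction s using Finset.induction_on with
  | empty => simpa using A.nn _ (fun _ => by simp)
  | insert a s ha ih =>
    have hs : ∀ j, 0 ≤ ∑ i ∈ s, f i j := fun j =>
      Finset.sum_nonneg fun i hi => hf i (Finset.mem_insert_of_mem hi) j
    have ha0 : ∀ j, 0 ≤ f a j := hf a (Finset.mem_insert_self a s)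
    have e : (fun j => ∑ i ∈ insert a s, f i j) = fun j => f a j + ∑ i ∈ s, f i j :=
      funext fun j => Finset.sum_insert ha
    rw [e] at h1 ⊢
    have h3 := ih (fun i hi => hf i (Finset.mem_insert_of_mem hi))
      (A.sm _ _ hs (fun j => by have := ha0 j; linarith) h1)
    have h4 := A.split _ _ ha0 hs h1
    rw [Finset.sum_insert ha]
    linarith

section cls
variable {P Z Z' : Type*} [Fintype P] [Fintype Z] [DecidableEq Z] [Fintype Z'] [DecidableEq Z']

/-- content of a class -/
def cl (zo : P → J → Option Z) (v : P → J → ℝ) (z : Z) (j : J) : ℝ :=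
  ∑ p, if zo p j = some z then v p j else 0

lemma cl_nonneg {zo : P → J → Option Z} {v : P → J → ℝ} (hv : ∀ p j, 0 ≤ v p j) (z : Z) (j : J) :
    0 ≤ cl zo v z j :=
  Finset.sum_nonneg fun p _ => by split_ifs; exacts [hv p j, le_rfl]

/-- the born mass at the member `j` -/
def bm (zo : P → J → Option Z) (zn : P → J → Option Z') (mn : Z' → Option Z) (v : P → J → ℝ)
    (j : J) : ℝ :=
  ∑ p, if ∃ z', zn p j = some z' ∧ (zo p j = none ∨ zo p j ≠ mn z') then v p j else 0

/-- the main part of a new class -/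
def mp (zo : P → J → Option Z) (zn : P → J → Option Z') (mn : Z' → Option Z) (v : P → J → ℝ)
    (z' : Z') (j : J) : ℝ :=
  ∑ p, if zn p j = some z' ∧ zo p j ≠ none ∧ zo p j = mn z' then v p j else 0

/-- the born part of a new class -/
def bp (zo : P → J → Option Z) (zn : P → J → Option Z') (mn : Z' → Option Z) (v : P → J → ℝ)
    (z' : Z') (j : J) : ℝ :=
  ∑ p, if zn p j = some z' ∧ (zo p j = none ∨ zo p j ≠ mn z') then v p j else 0

variable {zo : P → J → Option Z} {zn : P → J → Option Z'} {mn : Z' → Option Z} {v : P → J → ℝ}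

lemma mp_nonneg (hv : ∀ p j, 0 ≤ v p j) (z' : Z') (j : J) : 0 ≤ mp zo zn mn v z' j :=
  Finset.sum_nonneg fun p _ => by split_ifs; exacts [hv p j, le_rfl]

lemma bp_nonneg (hv : ∀ p j, 0 ≤ v p j) (z' : Z') (j : J) : 0 ≤ bp zo zn mn v z' j :=
  Finset.sum_nonneg fun p _ => by split_ifs; exacts [hv p j, le_rfl]

lemma cl_eq (z' : Z') (j : J) : cl zn v z' j = mp zo zn mn v z' j + bp zo zn mn v z' j := by
  unfold cl mp bp
  rw [← Finset.sum_add_distrib]
  refine Finset.sum_congr rfl fun p _ => ?_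
  by_cases h : zn p j = some z'
  · by_cases h1 : zo p j = none
    · simp [h, h1]
    · by_cases h2 : zo p j = mn z'
      · have h3 : mn z' ≠ none := by rw [← h2]; exact h1
        simp [h, h2, h3]
      · simp [h, h1, h2]
  · simp [h]

lemma sum_bp (j : J) : ∑ z', bp zo zn mn v z' j = bm zo zn mn v j := by
  unfold bp bm
  rw [Finset.sum_comm]
  refine Finset.sum_congr rfl fun p _ => ?_
  cases h : zn p j with
  | none => simp
  | some z₀ =>
    rw [Finset.sum_eq_single z₀]
    · simp
    · intro b _ hb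
      rw [if_neg]
      rintro ⟨h1, _⟩
      exact hb (Option.some.inj h1).symm
    · intro h1; exact absurd (Finset.mem_univ _) h1

/-- the main parts with one main class are inside this class -/
lemma sum_mp_le (hv : ∀ p j, 0 ≤ v p j) (z : Z) (j : J) :
    ∑ z' ∈ Finset.univ.filter (fun z' => mn z' = some z), mp zo zn mn v z' j ≤ cl zo v z j := by
  unfold mp cl
  rw [Finset.sum_comm]
  refine Finset.sum_le_sum fun p _ => ?_
  by_cases h : zo p j = some z
  · rw [if_pos h]
    cases h1 : zn p j with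
    | none => simp [hv p j]
    | some z₀ =>
      refine (Finset.sum_le_sum_of_subset_of_nonneg (Finset.subset_univ _) fun z' _ _ => by
        split_ifs; exacts [hv p j, le_rfl]).trans ?_
      rw [Finset.sum_eq_single z₀]
      · split_ifs; exacts [le_rfl, hv p j]
      · intro b _ hb
        rw [if_neg]
        rintro ⟨h2, _⟩
        exact hb (Option.some.inj h2).symm
      · intro h2; exact absurd (Finset.mem_univ _) h2
  · rw [if_neg h]
    refine le_of_eq (Finset.sum_eq_zero fun z' hz' => ?_)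
    rw [if_neg]
    rintro ⟨_, _, h2⟩
    exact h (h2.trans (Finset.mem_filter.1 hz').2)

/-- a main part whose main class is `none` is zero -/
lemma mp_none {z' : Z'} (h : mn z' = none) : mp zo zn mn v z' = fun _ => 0 := by
  funext j
  refine Finset.sum_eq_zero fun p _ => ?_
  rw [if_neg]
  rintro ⟨_, h1, h2⟩
  exact h1 (h2.trans h)

/-- **change of classes** -/
theorem born (A : PAx c V Sm L) (hL : 0 ≤ L) (hV0 : V (fun _ => 0) ≤ 0)
    (hv : ∀ p j, 0 ≤ v p j) (ho : ∀ z, Sm (cl zo v z)) (hn : ∀ z', Sm (cl zn v z')) :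
    ∑ z', V (cl zn v z') ≤ ∑ z, V (cl zo v z) + L * M c (bm zo zn mn v) := by
  classical
  have e1 : ∀ z', V (cl zn v z') ≤ V (mp zo zn mn v z') + L * M c (bp zo zn mn v z') := by
    intro z'
    have e : cl zn v z' = fun j => mp zo zn mn v z' j + bp zo zn mn v z' j :=
      funext fun j => cl_eq z' j
    have h1 := hn z'
    rw [e] at h1 ⊢
    exact A.inj _ _ (fun j => mp_nonneg hv z' j) (fun j => bp_nonneg hv z' j) h1
  have e2 : ∑ z', M c (bp zo zn mn v z') = M c (bm zo zn mn v) := by
    rw [← M_sum]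
    congr 1
    funext j
    exact sum_bp j
  have e3 : ∑ z', V (mp zo zn mn v z') ≤ ∑ z, V (cl zo v z) := by
    have f1 : ∀ z : Z, ∑ z' ∈ Finset.univ.filter (fun z' => mn z' = some z),
        V (mp zo zn mn v z') ≤ V (cl zo v z) := by
      intro z
      have h0 : ∀ j, 0 ≤ ∑ z' ∈ Finset.univ.filter (fun z' => mn z' = some z),
          mp zo zn mn v z' j := fun j => Finset.sum_nonneg fun z' _ => mp_nonneg hv z' j
      have h1 : ∀ j, ∑ z' ∈ Finset.univ.filter (fun z' => mn z' = some z),
          mp zo zn mn v z' j ≤ cl zo v z j := fun j => sum_mp_le hv z j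
      exact (A.sum _ _ (fun z' _ j => mp_nonneg hv z' j) (A.sm _ _ h0 h1 (ho z))).trans
        (A.mono _ _ h0 h1 (ho z))
    have f2 : ∑ z', V (mp zo zn mn v z') ≤
        ∑ o : Option Z, ∑ z' ∈ Finset.univ.filter (fun z' => mn z' = o), V (mp zo zn mn v z') := by
      rw [Finset.sum_fiberwise]
    refine f2.trans ?_
    rw [Fintype.sum_option]
    have f3 : ∑ z' ∈ Finset.univ.filter (fun z' => mn z' = none), V (mp zo zn mn v z') ≤ 0 := by
      refine Finset.sum_nonpos fun z' hz' => ?_
      rw [mp_none (Finset.mem_filter.1 hz').2]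
      exact hV0
    have f4 := Finset.sum_le_sum fun (z : Z) (_ : z ∈ Finset.univ) => f1 z
    linarith
  calc ∑ z', V (cl zn v z') ≤ ∑ z', (V (mp zo zn mn v z') + L * M c (bp zo zn mn v z')) :=
        Finset.sum_le_sum fun z' _ => e1 z'
    _ = ∑ z', V (mp zo zn mn v z') + L * ∑ z', M c (bp zo zn mn v z') := by
        rw [Finset.sum_add_distrib, Finset.mul_sum]
    _ ≤ _ := by rw [e2]; linarith

/-- nothing is born: free change of classes -/
theorem born_free (A : PAx c V Sm L) (hL : 0 ≤ L) (hV0 : V (fun _ => 0) ≤ 0)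
    (hv : ∀ p j, 0 ≤ v p j) (ho : ∀ z, Sm (cl zo v z)) (hn : ∀ z', Sm (cl zn v z'))
    (hf : ∀ p j z', v p j ≠ 0 → zn p j = some z' → zo p j ≠ none ∧ zo p j = mn z') :
    ∑ z', V (cl zn v z') ≤ ∑ z, V (cl zo v z) := by
  have h := born (mn := mn) A hL hV0 hv ho hn
  have e : bm zo zn mn v = fun _ => 0 := by
    funext j
    refine Finset.sum_eq_zero fun p _ => ?_
    split_ifs with h1
    · by_contra h2
      obtain ⟨z', h3, h4⟩ := h1
      obtain ⟨h5, h6⟩ := hf p j z' h2 h3
      rcases h4 with h4 | h4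
      · exact h5 h4
      · exact h4 h6
    · rfl
  rw [e] at h
  simpa [M] using h

/-- the born mass is additive over the pieces -/
lemma M_bm : M c (bm zo zn mn v) = ∑ p, M c (fun j =>
    if ∃ z', zn p j = some z' ∧ (zo p j = none ∨ zo p j ≠ mn z') then v p j else 0) := by
  rw [← M_sum]
  rfl

end cls

/-! ### instances -/

/-- the potential of GMer_27 -/
theorem PAx.pot {W : Set (J → ℝ)} (H : TC c W) :
    PAx c (Pot c W) (fun h => ∀ j, h j ≤ 1) 14 where
  nn := fun h _ => Pot_nonneg H h
  sm := fun x h _ hx h1 j => (hx j).trans (h1 j)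
  mono := fun x h hx hxh h1 => Pot_mono H hx hxh h1
  split := fun x y hx hy h1 => Pot_split H hx hy h1
  inj := fun h x _ hx _ => Pot_inj H hx

/-- the raw square -/
theorem PAx.sq (c0 : ∀ j, 0 ≤ c j) {ζ : ℝ} (hζ : 0 ≤ ζ) :
    PAx c (fun h => M c h ^ 2) (fun h => M c h ≤ ζ) (2 * ζ) where
  nn := fun h _ => sq_nonneg _
  sm := fun x h hx hxh h1 => (M_mono c0 hxh).trans h1
  mono := fun x h hx hxh h1 => pow_le_pow_left₀ (M_nonneg c0 hx) (M_mono c0 hxh) 2
  split := fun x y hx hy h1 => by
    have a := M_nonneg c0 hx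
    have b := M_nonneg c0 hy
    rw [M_add]
    nlinarith [mul_nonneg a b]
  inj := fun h x hh hx h1 => by
    have a := M_nonneg c0 hh
    have b := M_nonneg c0 hx
    rw [M_add] at h1
    rw [M_add]
    nlinarith [mul_nonneg a b, mul_nonneg b b, mul_le_mul_of_nonneg_right h1 b]

/-- scaled potentials (`Π^2 * Pot`) -/
theorem PAx.smul (A : PAx c V Sm L) {a : ℝ} (ha : 0 ≤ a) : PAx c (fun h => a * V h) Sm (a * L) where
  nn := fun h hh => mul_nonneg ha (A.nn h hh)
  sm := A.sm
  mono := fun x h hx hxh h1 => mul_le_mul_of_nonneg_left (A.mono x h hx hxh h1) ha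
  split := fun x y hx hy h1 => by
    have := mul_le_mul_of_nonneg_left (A.split x y hx hy h1) ha
    linarith [this, mul_add a (V x) (V y)]
  inj := fun h x hh hx h1 => by
    have := mul_le_mul_of_nonneg_left (A.inj h x hh hx h1) ha
    calc a * V (fun j => h j + x j) ≤ a * (V h + L * M c x) := this
      _ = a * V h + a * L * M c x := by ring

end Crest.Agent.R4P.Born28
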