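import Mathlib
import Crest.Agent.R4P.Rad800
import Crest.Agent.R4.NMW710

/-!
R4 powers pass (S0004), helper33, group [X]: **stripping the crossing prime** (tree-free).

A state `(M, pr, b, c ; M', pr', b', c')` at the crossing prime `s`, items `w = q / pr`, `w' = q' / pr'` of exact
valuations `a`, `a'`, `m = v_s M`, `m' = v_s M'`. With `st s n = n / s^(v_s n)`: the scale of the averaged pair is
the scale of the stripped pair with the radii `PL · R`, `PL' · R'`, `PL * PL' = s ^ dex`,
`dex ≥ 1` if `a + m' ≠ a' + m` (`Dq_st`, `bridge facts`).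
-/

set_option autoImplicit false
open Finset

namespace Crest.Agent.R4P.StripP33

open Crest.Agent.R4.HVW560 Crest.Agent.R4.AvgItem710 Crest.Agent.R4.DeepSt579
open Crest.Agent.R4.NMW710 (Dq)

/-- the part prime to `s` -/
def st (s n : ℕ) : ℕ := n / s ^ n.factorization s

lemma st_pos {s n : ℕ} (hn : 0 < n) : 0 < st s n := Nat.ordCompl_pos s hn.ne'

lemma st_mul (s n : ℕ) : s ^ n.factorization s * st s n = n := Nat.ordProj_mul_ordCompl_eq_self n s

lemma st_dvd (s n : ℕ) : st s n ∣ n := Nat.ordCompl_dvd n s

lemma fz_st (s n l : ℕ) : (st s n).factorization l = if l = s then 0 else n.factorization l := by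
  unfold st
  rw [Nat.factorization_ordCompl, Finsupp.erase_apply]

lemma st_ndvd {s n : ℕ} (hs : s.Prime) (hn : 0 < n) : ¬ s ∣ st s n := Nat.not_dvd_ordCompl hs hn.ne'

lemma fz_gcd {a b : ℕ} (ha : 0 < a) (hb : 0 < b) (l : ℕ) :
    (a.gcd b).factorization l = min (a.factorization l) (b.factorization l) := by
  rw [Nat.factorization_gcd ha.ne' hb.ne']; rfl

lemma fz_div {d n : ℕ} (h : d ∣ n) (l : ℕ) :
    (n / d).factorization l = n.factorization l - d.factorization l := by
  rw [Nat.factorization_div h]; rfl

lemma fz_mul {a b : ℕ} (ha : 0 < a) (hb : 0 < b) (l : ℕ) :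
    (a * b).factorization l = a.factorization l + b.factorization l := by
  rw [Nat.factorization_mul ha.ne' hb.ne']; rfl

lemma fz_pow {s : ℕ} (hs : s.Prime) (k l : ℕ) : (s ^ k).factorization l = if l = s then k else 0 := by
  rw [hs.factorization_pow, Finsupp.single_apply]
  by_cases h : l = s
  · rw [if_pos h, if_pos h.symm]
  · rw [if_neg h, if_neg (fun h' => h h'.symm)]

/-- valuations of `w / (M, w)` -/
lemma fz_u {w M : ℕ} (hw : 0 < w) (hM : 0 < M) (l : ℕ) :
    (w / M.gcd w).factorization l = w.factorization l - M.factorization l := by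
  rw [fz_div (Nat.gcd_dvd_right _ _), fz_gcd hM hw]; omega

lemma fz_rf {w M : ℕ} (hw : 0 < w) (hM : 0 < M) (l : ℕ) :
    (rf w M).factorization l = M.factorization l - w.factorization l := by
  unfold rf
  rw [fz_div (Nat.gcd_dvd_left _ _), fz_gcd hM hw]; omega

lemma fz_cof {x y : ℕ} (hx : 0 < x) (hy : 0 < y) (l : ℕ) :
    (cof x y).factorization l = x.factorization l - y.factorization l := by
  unfold cof
  rw [fz_div (Nat.gcd_dvd_left _ _), fz_gcd hx hy]; omega

lemma eq_fz {x y : ℕ} (hx : 0 < x) (hy : 0 < y) (h : ∀ l, x.factorization l = y.factorization l) :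
    x = y := Nat.eq_of_factorization_eq hx.ne' hy.ne' h

section
variable {s w M w' M' : ℕ}

/-- `w/(M,w)` and its part prime to `s` -/
lemma u_st (hs : s.Prime) (hw : 0 < w) (hM : 0 < M) :
    w / M.gcd w = s ^ (w.factorization s - M.factorization s) * (st s w / (st s M).gcd (st s w)) := by
  have h0 : 0 < st s w / (st s M).gcd (st s w) := div_pos' (st_pos hw) (st_pos hM)
  have hs0 : 0 < s ^ (w.factorization s - M.factorization s) := pow_pos hs.pos _
  refine eq_fz (div_pos' hw hM) (Nat.mul_pos hs0 h0) fun l => ?_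
  rw [fz_u hw hM, fz_mul hs0 h0, fz_pow hs, fz_u (st_pos hw) (st_pos hM), fz_st, fz_st]
  by_cases h : l = s
  · subst h; simp
  · simp [h]

lemma rf_st (hs : s.Prime) (hw : 0 < w) (hM : 0 < M) :
    rf w M = s ^ (M.factorization s - w.factorization s) * rf (st s w) (st s M) := by
  have h0 : 0 < rf (st s w) (st s M) := rf_pos (st_pos hM)
  have hs0 : 0 < s ^ (M.factorization s - w.factorization s) := pow_pos hs.pos _
  refine eq_fz (rf_pos hM) (Nat.mul_pos hs0 h0) fun l => ?_
  rw [fz_rf hw hM, fz_mul hs0 h0, fz_pow hs, fz_rf (st_pos hw) (st_pos hM), fz_st, fz_st]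
  by_cases h : l = s
  · subst h; simp
  · simp [h]

/-- the cofactor of the averaged items -/
lemma cof_st (hs : s.Prime) (hw : 0 < w) (hM : 0 < M) (hw' : 0 < w') (hM' : 0 < M') :
    cof (w / M.gcd w) (w' / M'.gcd w') =
      s ^ ((w.factorization s - M.factorization s) - (w'.factorization s - M'.factorization s)) *
        cof (st s w / (st s M).gcd (st s w)) (st s w' / (st s M').gcd (st s w')) := by
  have h1 : 0 < st s w / (st s M).gcd (st s w) := div_pos' (st_pos hw) (st_pos hM)
  have h2 : 0 < st s w' / (st s M').gcd (st s w') := div_pos' (st_pos hw') (st_pos hM')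
  have h0 : 0 < cof (st s w / (st s M).gcd (st s w)) (st s w' / (st s M').gcd (st s w')) := Crest.Agent.R4.AvgItem710.cof_pos h1
  have hs0 : 0 < s ^ ((w.factorization s - M.factorization s) - (w'.factorization s - M'.factorization s)) :=
    pow_pos hs.pos _
  refine eq_fz (Crest.Agent.R4.AvgItem710.cof_pos (div_pos' hw hM)) (Nat.mul_pos hs0 h0) fun l => ?_
  rw [fz_cof (div_pos' hw hM) (div_pos' hw' hM'), fz_u hw hM, fz_u hw' hM', fz_mul hs0 h0, fz_pow hs,
    fz_cof h1 h2, fz_u (st_pos hw) (st_pos hM), fz_u (st_pos hw') (st_pos hM'), fz_st, fz_st, fz_st, fz_st]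
  by_cases h : l = s
  · subst h; simp
  · simp [h]

end

/-- `β`: the power of `s` in the other cofactor -/
def bL (s a m a' m' : ℕ) : ℕ := s ^ ((a' - m') - (a - m))

/-- the power of `s` multiplying the radius of the left side -/
def PL (s a m a' m' : ℕ) : ℕ := s ^ (((a' - m') - (a - m)) + (m - a))

/-- the exponent of the crossing gain -/
def dex (a m a' m' : ℕ) : ℕ := (((a' - m') - (a - m)) + (m - a)) + (((a - m) - (a' - m')) + (m' - a'))

lemma bL_pos {s a m a' m' : ℕ} (hs : 0 < s) : 0 < bL s a m a' m' := pow_pos hs _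

lemma PL_pos {s a m a' m' : ℕ} (hs : 0 < s) : 0 < PL s a m a' m' := pow_pos hs _

lemma PL_mul (s a m a' m' : ℕ) : PL s a m a' m' * PL s a' m' a m = s ^ dex a m a' m' := by
  unfold PL dex; rw [← pow_add]

lemma dex_pos {a m a' m' : ℕ} (h : a + m' ≠ a' + m) : 1 ≤ dex a m a' m' := by
  unfold dex; omega

/-- the distance of the effective exponents is at most `dex` -/
lemma dst_le_dex (a m a' m' : ℕ) : dst (a + m') (a' + m) ≤ dex a m a' m' := by
  unfold dst dex; omega

lemma dex_one {a m a' m' : ℕ} (h : dex a m a' m' = 1) : dst (a + m') (a' + m) = 1 := by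
  unfold dst dex at *; omega

section
variable {s w M w' M' : ℕ}

lemma bL_rf (hs : s.Prime) (hw : 0 < w) (hM : 0 < M) (a' m' : ℕ) :
    bL s (w.factorization s) (M.factorization s) a' m' * rf w M =
      PL s (w.factorization s) (M.factorization s) a' m' * rf (st s w) (st s M) := by
  rw [rf_st hs hw hM]; unfold bL PL; rw [pow_add]; ring

/-- the averaged scale is the scale of the stripped pair -/
lemma Da_st (hs : s.Prime) (hw : 0 < w) (hM : 0 < M) (hw' : 0 < w') (hM' : 0 < M') (r r' : ℝ) :
    Da w M w' M' r r' = Da (st s w) (st s M) (st s w') (st s M')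
      (PL s (w.factorization s) (M.factorization s) (w'.factorization s) (M'.factorization s) * r)
      (PL s (w'.factorization s) (M'.factorization s) (w.factorization s) (M.factorization s) * r') := by
  unfold Da Dp
  rw [cof_st hs hw hM hw' hM', cof_st hs hw' hM' hw hM, rf_st hs hw hM, rf_st hs hw' hM']
  unfold PL
  congr 1
  · push_cast; rw [pow_add]; ring
  · push_cast; rw [pow_add]; ring

/-- the averaged scale with the factors `β` and the stripped cofactors -/
lemma Da_bt (hs : s.Prime) (hw : 0 < w) (hM : 0 < M) (hw' : 0 < w') (hM' : 0 < M') (r r' : ℝ) :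
    Da w M w' M' r r' = max
      ((cof (st s w' / (st s M').gcd (st s w')) (st s w / (st s M).gcd (st s w)) : ℝ) *
        (bL s (w.factorization s) (M.factorization s) (w'.factorization s) (M'.factorization s) *
          (rf w M * r)))
      ((cof (st s w / (st s M).gcd (st s w)) (st s w' / (st s M').gcd (st s w')) : ℝ) *
        (bL s (w'.factorization s) (M'.factorization s) (w.factorization s) (M.factorization s) *
          (rf w' M' * r'))) := by
  unfold Da Dp
  rw [cof_st hs hw hM hw' hM', cof_st hs hw' hM' hw hM]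
  unfold bL
  congr 1
  · push_cast; ring
  · push_cast; ring

/-- the circle relation of the link: `u β₁ y₀ = u' β₂ x₀` -/
lemma u_xy (hs : s.Prime) (hw : 0 < w) (hM : 0 < M) (hw' : 0 < w') (hM' : 0 < M') :
    (w / M.gcd w) * (bL s (w.factorization s) (M.factorization s) (w'.factorization s) (M'.factorization s) *
        cof (st s w' / (st s M').gcd (st s w')) (st s w / (st s M).gcd (st s w))) =
      (w' / M'.gcd w') * (bL s (w'.factorization s) (M'.factorization s) (w.factorization s) (M.factorization s) *
        cof (st s w / (st s M).gcd (st s w)) (st s w' / (st s M').gcd (st s w'))) := by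
  have e : ∀ x y : ℕ, x * cof y x = y * cof x y := fun x y => by
    have h1 := mul_cof (w := x) (w' := y)
    have h2 := mul_cof' (w := x) (w' := y)
    calc x * cof y x = (x.gcd y * cof x y) * cof y x := by rw [h1]
      _ = (x.gcd y * cof y x) * cof x y := by ring
      _ = y * cof x y := by rw [h2]
  have h := e (w / M.gcd w) (w' / M'.gcd w')
  rw [cof_st hs hw hM hw' hM', cof_st hs hw' hM' hw hM] at h
  unfold bL
  exact h

end

end Crest.Agent.R4P.StripP33
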