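import Mathlib
import Crest.Agent.R4P.StripP_33

/-!
R4 powers pass (S0004), helper33, group [X]: **the bridge** from an item state at the crossing prime `s` (one class:
exact valuations `a`, `a'`) to the tree-free theorems on an averaged circle (`uu, Rc, mu, Dc`), with `s` stripped
from the items and from the averages, and the powers of `s` in the radii.
-/

set_option autoImplicit false
open Finset

namespace Crest.Agent.R4P.BrP33

open Crest.Agent.R4.HVW560 Crest.Agent.R4.Schur709 Crest.Agent.R4.StopHvw709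
open Crest.Agent.R4.StopAsm709 Crest.Agent.R4.AvgItem710 Crest.Agent.R4.DeepSt579
open Crest.Agent.R4P.Rad800 Crest.Agent.R4P.StripP33
open Crest.Agent.R4.NMW710 (Dq)

/-- one item of one side, exact valuation `a` at `s`, every other prime of the average divides it at most once -/
structure Sd (s M pr a q : ℕ) : Prop where
  q0 : 0 < q
  dv : pr ∣ q
  fa : (q / pr).factorization s = a
  on : ∀ l : ℕ, l.Prime → l ∣ M → l ≠ s → ¬ l ^ 2 ∣ q / pr

/-- the stripped item -/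
def itm (s pr q : ℕ) : ℕ := st s (q / pr)

/-- back from the stripped item -/
def bk (s pr a w : ℕ) : ℕ := pr * (s ^ a * w)

/-- the radius of the stripped item -/
noncomputable def Rb (s M P b pr c a : ℕ) (ρ : ℕ → ℝ) (w : ℕ) : ℝ :=
  (ex (st s M) : ℝ) * ((P : ℝ) * rd b c ρ (bk s pr a w))

/-- the target of the stripped item -/
noncomputable def gb (s M P : ℕ) (θ : ℝ) (S : Finset ℕ) : ℝ :=
  ((ex (st s M) * ∏ l ∈ S, l : ℕ) : ℝ) * ((P : ℝ) * θ)

section one
variable {s M pr a q : ℕ}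

lemma Sd.w0 (h : Sd s M pr a q) : 0 < q / pr :=
  Nat.div_pos (Nat.le_of_dvd h.q0 h.dv) (Nat.pos_of_dvd_of_pos h.dv h.q0)

lemma Sd.i0 (h : Sd s M pr a q) : 0 < itm s pr q := st_pos h.w0

lemma Sd.bk_eq (h : Sd s M pr a q) : bk s pr a (itm s pr q) = q := by
  unfold bk itm
  rw [← h.fa, st_mul, Nat.mul_div_cancel' h.dv]

lemma Sd.once (hs : s.Prime) (hM : 0 < M) (h : Sd s M pr a q) : Once (st s M) (itm s pr q) := by
  intro l hl hd hd2
  have hls : l ≠ s := by
    rintro rfl; exact st_ndvd hs hM hd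
  exact h.on l hl (hd.trans (st_dvd s M)) hls (hd2.trans (st_dvd s _))

lemma Sd.uu_eq (hs : s.Prime) (hM : 0 < M) (h : Sd s M pr a q) :
    uu (st s M).primeFactors (itm s pr q) = itm s pr q / (st s M).gcd (itm s pr q) :=
  (h.once hs hM).uu (st_pos hM) h.i0

lemma Sd.Rb_eq (h : Sd s M pr a q) (P b c : ℕ) (ρ : ℕ → ℝ) :
    Rb s M P b pr c a ρ (itm s pr q) = (ex (st s M) : ℝ) * ((P : ℝ) * rd b c ρ q) := by
  unfold Rb; rw [h.bk_eq]

lemma Sd.Rc_eq (hs : s.Prime) (hM : 0 < M) (h : Sd s M pr a q) (P b c : ℕ) (ρ : ℕ → ℝ) :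
    Rc (st s M).primeFactors (Rb s M P b pr c a ρ) (itm s pr q) =
      (rf (itm s pr q) (st s M) : ℕ) * ((P : ℝ) * rd b c ρ q) := by
  have := (h.once hs hM).Rc (st_pos hM) h.i0 (fun w => (P : ℝ) * rd b c ρ (bk s pr a w))
  rw [h.bk_eq] at this
  exact this

lemma Sd.gb_eq (hs : s.Prime) (hM : 0 < M) (h : Sd s M pr a q) (P : ℕ) (θ : ℝ) :
    gb s M P θ (miss (st s M).primeFactors (itm s pr q)) =
      (rf (itm s pr q) (st s M) : ℕ) * ((P : ℝ) * θ) := by
  unfold gb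
  rw [(h.once hs hM).miss (st_pos hM) h.i0]

lemma Sd.mu_eq (hs : s.Prime) (hM : 0 < M) (h : Sd s M pr a q) (P b c : ℕ) (ρ : ℕ → ℝ) :
    mu (st s M).primeFactors (Rb s M P b pr c a ρ) (itm s pr q) =
      (ex (st s M) : ℝ) * ((P : ℝ) * rd b c ρ q) * tq (itm s pr q / (st s M).gcd (itm s pr q)) := by
  unfold Crest.Agent.R4.StopAsm709.mu tq
  rw [h.uu_eq hs hM, h.Rb_eq]

lemma tq_st_le (hs : s.Prime) {w : ℕ} (hw : 0 < w) : tq (st s w) ≤ 2 * tq w := by
  have hst := st_pos (s := s) hw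
  have hcop : Nat.Coprime (s ^ w.factorization s) (st s w) :=
    Nat.Coprime.pow_left _ ((Nat.Prime.coprime_iff_not_dvd hs).2 (st_ndvd hs hw))
  have e1 : tq w = tq (s ^ w.factorization s) * tq (st s w) := by
    unfold tq
    conv_lhs => rw [← st_mul s w]
    rw [Nat.totient_mul hcop]
    push_cast
    rw [mul_div_mul_comm]
  have e2 : (1:ℝ)/2 ≤ tq (s ^ w.factorization s) := by
    unfold tq
    rcases Nat.eq_zero_or_pos (w.factorization s) with h0 | h0
    · rw [h0]; norm_num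
    · rw [Nat.totient_prime_pow hs h0]
      have hs2 : (2:ℝ) ≤ s := by exact_mod_cast hs.two_le
      obtain ⟨k, hk⟩ : ∃ k, w.factorization s = k + 1 := ⟨w.factorization s - 1, by omega⟩
      rw [hk]
      have h1 : 1 ≤ s := hs.one_le
      have e3 : k + 1 - 1 = k := by omega
      rw [e3]
      push_cast [h1]
      rw [pow_succ]
      have hp : (0:ℝ) < (s:ℝ)^k := by positivity
      rw [mul_div_mul_left _ _ hp.ne', div_le_div_iff₀ (by norm_num) (by linarith)]
      linarith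
  rw [e1]
  have := tq_nonneg (st s w)
  nlinarith

lemma Sd.tq_le (hs : s.Prime) (hM : 0 < M) (h : Sd s M pr a q)
    (hsum : ∑ l ∈ (st s M).primeFactors, 1 / (l : ℝ) ≤ 1) :
    tq (itm s pr q / (st s M).gcd (itm s pr q)) ≤ 16 * tq (q / pr) := by
  have he8 : Real.exp 2 ≤ 8 := by
    have h := Real.exp_one_lt_d9
    have : Real.exp 2 = Real.exp 1 * Real.exp 1 := by rw [← Real.exp_add]; norm_num
    rw [this]
    have h0 := Real.exp_pos 1
    nlinarith
  have h1 := tq_div_le (st_pos (s := s) hM) h.i0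
  have h2 : Real.exp (2 * ∑ l ∈ (st s M).primeFactors, 1 / (l : ℝ)) ≤ 8 :=
    (Real.exp_le_exp.2 (by linarith)).trans he8
  have h3 := tq_st_le hs h.w0
  have h4 := tq_nonneg (itm s pr q)
  calc _ ≤ tq (itm s pr q) * 8 := h1.trans (mul_le_mul_of_nonneg_left h2 h4)
    _ ≤ (2 * tq (q / pr)) * 8 := mul_le_mul_of_nonneg_right h3 (by norm_num)
    _ = _ := by ring

lemma Sd.tq_ge (hs : s.Prime) (hM : 0 < M) (h : Sd s M pr a q) :
    tq (q / pr / M.gcd (q / pr)) ≤ tq (itm s pr q / (st s M).gcd (itm s pr q)) :=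
  tq_mono (by rw [u_st hs h.w0 hM]; exact Dvd.intro_left _ rfl) (div_pos' h.w0 hM)

/-- tameness of the stripped averaged item from tameness of the averaged item -/
lemma Sd.tame (hs : s.Prime) (hM : 0 < M) (h : Sd s M pr a q) {z : ℝ}
    (ht : Crest.Agent.R4.ClsB.Tame z 1 (q / pr / M.gcd (q / pr))) :
    Crest.Agent.R4.ClsB.Tame z 1 (Crest.Agent.R4.StopAsm709.uu (st s M).primeFactors (itm s pr q)) := by
  rw [h.uu_eq hs hM]
  refine ⟨one_dvd _, ?_⟩
  refine le_trans (Finset.sum_le_sum_of_subset_of_nonneg ?_ fun p _ _ => by positivity) ht.2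
  intro p hp
  rw [Finset.mem_filter] at hp ⊢
  refine ⟨?_, hp.2⟩
  rw [Nat.div_one] at hp ⊢
  refine Nat.primeFactors_mono ?_ (div_pos' h.w0 hM).ne' hp.1
  rw [u_st hs h.w0 hM]; exact Dvd.intro_left _ rfl

end one

section two
variable {s M pr a q M' pr' a' q' : ℕ}

/-- the scale -/
theorem Dc_br (hs : s.Prime) (hM : 0 < M) (hM' : 0 < M') (h : Sd s M pr a q) (h' : Sd s M' pr' a' q')
    (b c b' c' : ℕ) (ρ : ℕ → ℝ) :
    Dc (st s M').primeFactors (st s M).primeFactors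
      (Rb s M (PL s a (M.factorization s) a' (M'.factorization s)) b pr c a ρ)
      (Rb s M' (PL s a' (M'.factorization s) a (M.factorization s)) b' pr' c' a' ρ)
      (itm s pr q, itm s pr' q') = Dq ρ M b pr c M' b' pr' c' (q, q') := by
  have h1 := Dc_rad (e := (itm s pr q, itm s pr' q')) (st_pos (s := s) hM) (st_pos (s := s) hM')
    (fun w => (PL s a (M.factorization s) a' (M'.factorization s) : ℝ) * rd b c ρ (bk s pr a w))
    (fun w => (PL s a' (M'.factorization s) a (M.factorization s) : ℝ) * rd b' c' ρ (bk s pr' a' w))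
    h.i0 h'.i0 (h.once hs hM) (h'.once hs hM')
  rw [h.bk_eq, h'.bk_eq] at h1
  have h2 : Dq ρ M b pr c M' b' pr' c' (q, q') =
      Da (itm s pr q) (st s M) (itm s pr' q') (st s M')
      (PL s a (M.factorization s) a' (M'.factorization s) * rd b c ρ q)
      (PL s a' (M'.factorization s) a (M.factorization s) * rd b' c' ρ q') := by
    unfold Dq itm
    rw [Da_st hs h.w0 hM h'.w0 hM', h.fa, h'.fa]
  rw [h2, ← h1]
  rfl

/-- the scale in the letters of the link -/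
theorem Dq_bt (hs : s.Prime) (hM : 0 < M) (hM' : 0 < M') (h : Sd s M pr a q) (h' : Sd s M' pr' a' q')
    (b c b' c' : ℕ) (ρ : ℕ → ℝ) :
    Dq ρ M b pr c M' b' pr' c' (q, q') = max
      ((cof (itm s pr' q' / (st s M').gcd (itm s pr' q')) (itm s pr q / (st s M).gcd (itm s pr q)) : ℝ) *
        (bL s a (M.factorization s) a' (M'.factorization s) * (rf (q / pr) M * rd b c ρ q)))
      ((cof (itm s pr q / (st s M).gcd (itm s pr q)) (itm s pr' q' / (st s M').gcd (itm s pr' q')) : ℝ) *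
        (bL s a' (M'.factorization s) a (M.factorization s) * (rf (q' / pr') M' * rd b' c' ρ q'))) := by
  unfold Dq
  rw [Da_bt hs h.w0 hM h'.w0 hM', h.fa, h'.fa]
  rfl

/-- `β rf = P rf₀` -/
lemma Sd.brf (hs : s.Prime) (hM : 0 < M) (h : Sd s M pr a q) (a' m' : ℕ) :
    bL s a (M.factorization s) a' m' * rf (q / pr) M =
      PL s a (M.factorization s) a' m' * rf (itm s pr q) (st s M) := by
  have := bL_rf hs h.w0 hM a' m'
  rw [h.fa] at this
  exact this

end two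

section sums
variable {s pr pr' a a' M M' : ℕ} {V W : Finset ℕ}

lemma inj_itm (hV : ∀ q ∈ V, Sd s M pr a q) : Set.InjOn (fun q => itm s pr q) (V : Set ℕ) := by
  intro e he f hf hef
  simp only at hef
  rw [← (hV _ (Finset.mem_coe.1 he)).bk_eq, ← (hV _ (Finset.mem_coe.1 hf)).bk_eq, hef]

lemma prod_img (V W : Finset ℕ) (f g : ℕ → ℕ) :
    V.image f ×ˢ W.image g = (V ×ˢ W).image (fun e : ℕ × ℕ => (f e.1, g e.2)) := by
  ext e
  simp only [Finset.mem_product, Finset.mem_image]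
  constructor
  · rintro ⟨⟨x, hx, hx'⟩, ⟨y, hy, hy'⟩⟩
    exact ⟨(x, y), ⟨hx, hy⟩, Prod.ext hx' hy'⟩
  · rintro ⟨e, ⟨h1, h2⟩, rfl⟩
    exact ⟨⟨_, h1, rfl⟩, ⟨_, h2, rfl⟩⟩

open Classical in
/-- transfer of the sums -/
lemma sum_br (hV : ∀ q ∈ V, Sd s M pr a q) (hW : ∀ q ∈ W, Sd s M' pr' a' q) (κ : ℝ) (F : ℕ × ℕ → ℝ)
    (Q Q0 : ℕ × ℕ → Prop) (h : ∀ e ∈ V ×ˢ W, Q0 (itm s pr e.1, itm s pr' e.2) ↔ Q e) :
    ∑ f ∈ (V.image (itm s pr) ×ˢ W.image (itm s pr')).filter Q0,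
        κ * F (bk s pr a f.1, bk s pr' a' f.2) = κ * ∑ e ∈ (V ×ˢ W).filter Q, F e := by
  have hinj : Set.InjOn (fun e : ℕ × ℕ => (itm s pr e.1, itm s pr' e.2)) ((V ×ˢ W : Finset (ℕ × ℕ)) : Set (ℕ × ℕ)) := by
    intro e he f hf hef
    obtain ⟨h1, h2⟩ := Finset.mem_product.1 (Finset.mem_coe.1 he)
    obtain ⟨h3, h4⟩ := Finset.mem_product.1 (Finset.mem_coe.1 hf)
    simp only [Prod.mk.injEq] at hef
    exact Prod.ext (inj_itm hV h1 h3 hef.1) (inj_itm hW h2 h4 hef.2)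
  rw [prod_img, Finset.filter_image, Finset.sum_image
    (hinj.mono (by intro x hx; exact (Finset.mem_filter.1 (Finset.mem_coe.1 hx)).1))]
  have e1 : (V ×ˢ W).filter (fun e => Q0 (itm s pr e.1, itm s pr' e.2)) = (V ×ˢ W).filter Q :=
    Finset.filter_congr fun e he => h e he
  rw [e1, Finset.mul_sum]
  refine Finset.sum_congr rfl fun e he => ?_
  obtain ⟨h1, h2⟩ := Finset.mem_product.1 (Finset.mem_filter.1 he).1
  simp only
  rw [(hV _ h1).bk_eq, (hW _ h2).bk_eq]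

/-- the masses -/
lemma mass_br (hs : s.Prime) (hM : 0 < M) (hV : ∀ q ∈ V, Sd s M pr a q) (P b c : ℕ) {ρ : ℕ → ℝ}
    (hρ : ∀ q, 0 ≤ ρ q) (hsum : ∑ l ∈ (st s M).primeFactors, 1 / (l : ℝ) ≤ 1) :
    ∑ w ∈ V.image (itm s pr), mu (st s M).primeFactors (Rb s M P b pr c a ρ) w ≤
      (ex (st s M) * P : ℝ) * (16 * ∑ q ∈ V, rd b c ρ q * tq (q / pr)) := by
  rw [Finset.sum_image (inj_itm hV), Finset.mul_sum, Finset.mul_sum]
  refine Finset.sum_le_sum fun q hq => ?_
  rw [(hV q hq).mu_eq hs hM]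
  have h1 := (hV q hq).tq_le hs hM hsum
  have h2 : 0 ≤ rd b c ρ q := by unfold rd; have := hρ q; positivity
  calc _ ≤ (ex (st s M) : ℝ) * ((P : ℝ) * rd b c ρ q) * (16 * tq (q / pr)) :=
        mul_le_mul_of_nonneg_left h1 (by positivity)
    _ = _ := by ring

lemma mass_nonneg (hs : s.Prime) (hM : 0 < M) (hV : ∀ q ∈ V, Sd s M pr a q) (P b c : ℕ) {ρ : ℕ → ℝ}
    (hρ : ∀ q, 0 ≤ ρ q) :
    0 ≤ ∑ w ∈ V.image (itm s pr), mu (st s M).primeFactors (Rb s M P b pr c a ρ) w :=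
  Finset.sum_nonneg fun w hw => by
    obtain ⟨q, hq, rfl⟩ := Finset.mem_image.1 hw
    rw [(hV q hq).mu_eq hs hM]
    have h2 : 0 ≤ rd b c ρ q := by unfold rd; have := hρ q; positivity
    have h3 := tq_nonneg (itm s pr q / (st s M).gcd (itm s pr q))
    positivity

end sums

end Crest.Agent.R4P.BrP33
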