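import Crest.Agent.R4P.LocC_25
import Crest.Agent.R4P.VItem_34
import Crest.Agent.R4P.NI_10

/-!
R4P (S0004), helper25, module D: **block bounds (`Blks` of `LocC_25`) for raw sides**: `Blks_raw`, and the instance
for a context: `ctx_RH`, `ctx_blks`.

A side at the column `p` is raw: `Σ b ρ_q ≤ (CL log p / c₀) * meI` (`SR_le`), because the rest of an item at a node of
level `≤ p + 1` has `1 ≤ CL log p * φ(w)/w`. Leaf states are terminal, hence leaves occur only at their own level.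
-/

set_option autoImplicit false
set_option linter.unusedSectionVars false
set_option linter.unusedVariables false
set_option linter.unusedSimpArgs false
open Finset

namespace Crest.Agent.R4P.RawB25

open Crest.Agent.R4.HVW560 Crest.Agent.R4P.AvgItem710
open Crest.Agent.R4.Tour104 Crest.Agent.R4.Tour758 Crest.Agent.R4.Avg758 Crest.Agent.R4.Clos758
open Crest.Agent.R4.ClosL758 Crest.Agent.R4.ClosG758 Crest.Agent.R4.ClosR758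
open Crest.Agent.R4.Fam464 Crest.Agent.R4P.Cnt588 Crest.Agent.R4P.Walk560 Crest.Agent.R4P.Item758
open Crest.Agent.R4P.Bld532 (NS All NodeOk Bk dv nd mem_dv mem_nd)
open Crest.Agent.R4P.GSt927 Crest.Agent.R4P.WalkIT579 Crest.Agent.R4P.NMW710
open Crest.Agent.R4P.CrossLoc25 Crest.Agent.R4P.CrossLocC25 Crest.Agent.R4P.WalkC
open Crest.Agent.R4P.CyC25 Crest.Agent.R4P.YI25 Crest.Agent.R4P.GInst194
open Crest.Agent.R4P.VItem34 (meI meI_eq MX_meI)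
open Crest.Agent.R4.WalkX560 (MX)
open Crest.Agent.R4.DeepSt579 (tq tq_nonneg tq_le_one)
open Crest.Agent.R4P.Data758 Crest.Agent.R4.Piece464

variable {Λ κ : Type*} [Fintype Λ] [DecidableEq Λ] [Fintype κ] [DecidableEq κ] [WRel κ]
  {D : Par Λ κ} {sp : ℕ → Finset Λ} {P : Bld532.Par} {W : ℕ → ℝ} {Qp : NS → IT → Prop}
  {Al : Finset ℕ} {RP : Finset (Λ × Λ) → Prop} {ρ : ℕ → ℝ}

/-- node facts of a raw side at the column `p` -/
structure RF (D : Par Λ κ) (Al : Finset ℕ) (CL c₀ : ℝ) (p : ℕ) (v : NS) (σ : IT) : Prop where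
  lg : ∀ q ∈ Al, q ∈ σ.items → 1 ≤ CL * Real.log p * tq (q / v.A)
  mean : ∀ j, D.it j ∈ Al → D.it j ∈ σ.items →
    c₀ * tq (D.it j / (v.A * pp σ (D.it j))) ≤ mnw (D.it j / (v.A * pp σ (D.it j))) (D.om j)
  ph : ∀ q ∈ Al, q ∈ σ.items → tq (q / v.A) ≤ 2 * (prf σ q * tq (q / (v.A * pp σ q)))

/-- the constant of a column -/
noncomputable def kp (CL c₀ : ℝ) (p : ℕ) : ℝ := CL * Real.log p / c₀

/-- **radii against integral masses** -/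
theorem SR_le (hab : ∀ j, D.al j ≤ D.be j) (hρ : ∀ q, 0 < ρ q) {CL c₀ : ℝ} (hCL : 0 ≤ CL)
    (hc₀ : 0 < c₀)
    (hfull : ∀ q ∈ Al, 2 * ρ q ≤ ∑ j ∈ Finset.univ.filter (fun j => D.it j = q), (D.be j - D.al j))
    {p : ℕ} (hp1 : 1 ≤ p) {v : NS} {σ : IT} {A : Finset Λ} {d : DT Λ κ}
    (hr : RF D Al CL c₀ p v σ) (h : SideI D sp v.B v.A σ A d) (hil : IL D.it A) :
    SR ρ v.B (Qi D Al σ A) ≤ kp CL c₀ p * meI d.g A := by
  classical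
  obtain ⟨n, hO⟩ := h.ok
  have hl0 : 0 ≤ Real.log (p:ℝ) := Real.log_nonneg (by exact_mod_cast hp1)
  have hL0 : 0 ≤ CL * Real.log (p:ℝ) := mul_nonneg hCL hl0
  have hok : d.g.Ok := by rw [h.eq, D.toDT_g]; exact D.toG_Ok h.hb h.hF h.hW
  have hnn : ∀ j, 0 ≤ mI d j := by
    intro j
    unfold mI
    exact I_nonneg fun y => (hok.pb j).nonneg y
  have h1 : ∀ q ∈ Qi D Al σ A, (v.B:ℝ) * ρ q ≤
      kp CL c₀ p * ∑ j ∈ A.filter (fun j => D.it j = q), mI d j := by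
    intro q hq
    obtain ⟨h2, h3, h4⟩ := mem_Qi.1 hq
    have key := mass_ge hab h.hb h.hF h.hW h2 (BldF542.prf_pos _ n hO q).1.le hc₀ (hr.ph q h3 h2)
      (fun j hj => by
        have := hr.mean j (hj ▸ h3) (hj ▸ h2)
        rw [hj] at this
        exact this) (hfull q h3) hil h4
    have e : ∑ j ∈ A.filter (fun j => D.it j = q), I ((D.toFT v.B v.A σ).U 1 j) =
        ∑ j ∈ A.filter (fun j => D.it j = q), mI d j :=
      Finset.sum_congr rfl fun j _ => (SideI_mI h j).symm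
    rw [e] at key
    have hb0 : 0 ≤ (v.B:ℝ) * ρ q := mul_nonneg (Nat.cast_nonneg _) (hρ q).le
    have lg := hr.lg q h3 h2
    have k1 : (v.B:ℝ) * ρ q ≤ (CL * Real.log p) * ((v.B:ℝ) * ρ q * tq (q / v.A)) := by
      have := mul_le_mul_of_nonneg_left lg hb0
      calc (v.B:ℝ) * ρ q = (v.B:ℝ) * ρ q * 1 := (mul_one _).symm
        _ ≤ (v.B:ℝ) * ρ q * (CL * Real.log p * tq (q / v.A)) := this
        _ = _ := by ring
    refine k1.trans ((mul_le_mul_of_nonneg_left key hL0).trans (le_of_eq ?_))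
    unfold kp
    ring
  unfold SR
  refine (Finset.sum_le_sum h1).trans ?_
  rw [← Finset.mul_sum, meI_eq hok]
  have hk0 : 0 ≤ kp CL c₀ p := div_nonneg hL0 hc₀.le
  refine mul_le_mul_of_nonneg_left ?_ hk0
  have h2 := Finset.sum_fiberwise_of_maps_to (s := A.filter fun j => D.it j ∈ Qi D Al σ A)
    (t := Qi D Al σ A) (g := D.it) (fun j hj => (Finset.mem_filter.1 hj).2) (fun j => mI d j)
  have h3 : ∑ q ∈ Qi D Al σ A, ∑ j ∈ A.filter (fun j => D.it j = q), mI d j =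
      ∑ j ∈ A.filter (fun j => D.it j ∈ Qi D Al σ A), mI d j := by
    rw [← h2]
    refine Finset.sum_congr rfl fun q hq => Finset.sum_congr ?_ fun _ _ => rfl
    ext j
    simp only [Finset.mem_filter]
    exact ⟨fun k => ⟨⟨k.1, k.2 ▸ hq⟩, k.2⟩, fun k => ⟨k.1.1, k.2⟩⟩
  rw [h3]
  exact Finset.sum_le_sum_of_subset_of_nonneg (Finset.filter_subset _ _) fun j _ _ => hnn j

/-- hypotheses of the raw sides -/
structure RH (D : Par Λ κ) (ρ : ℕ → ℝ) (Al : Finset ℕ) (Qp : NS → IT → Prop) (CL c₀ : ℝ)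
    (p0 : ℕ) : Prop where
  rad : D.Rad ρ
  ab : ∀ j, D.al j ≤ D.be j
  dead : ∀ j, D.it j ∉ Al → ∀ a, D.om j a = 0
  CL0 : 0 ≤ CL
  c0 : 0 < c₀
  full : ∀ q ∈ Al, 2 * ρ q ≤ ∑ j ∈ Finset.univ.filter (fun j => D.it j = q), (D.be j - D.al j)
  rf : ∀ (p : ℕ) (v : NS) (σ : IT), p0 ≤ p → All Qp v σ → σ.Ok v.n →
    (∀ l : ℕ, l.Prime → l < v.n → l ≤ p) → RF D Al CL c₀ p v σ
  col : ∀ (v : NS) (p : ℕ) (S : Finset ℕ) (t₁ t₀ : IT), Qp v (.br p S t₁ t₀) → p0 ≤ p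

/-- a side of a block at the column `p` : the missing child of a tie, or the part of an `up` / absent side -/
def MvS (p M b : ℕ) (τ : IT) (A : Finset Λ) (M₁ b₁ c₁ : ℕ) (σ : IT) (A₁ : Finset Λ) : Prop :=
  (∃ S t₁, τ = .br p S t₁ σ ∧ M₁ = M ∧ b₁ = b * p ∧ (c₁ = p ∨ c₁ = 1) ∧ A₁ = A) ∨
  (Cn p τ σ ∧ (M₁ = M ∨ M₁ = p * M) ∧ b₁ = b ∧ c₁ = 1 ∧ A₁ ⊆ A)

/-- the pairs of items which meet at the column `p` satisfy the predicate `PP` -/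
def PEk (D : Par Λ κ) (PP : ℕ → ℕ × ℕ → Prop) (p M b pr : ℕ) (τ : IT) (A : Finset Λ)
    (M' b' pr' : ℕ) (τ' : IT) (A' : Finset Λ) : Prop :=
  ∀ (M₁ b₁ c₁ : ℕ) (σ : IT) (A₁ : Finset Λ) (M₂ b₂ c₂ : ℕ) (σ' : IT) (A₂ : Finset Λ),
    MvS p M b τ A M₁ b₁ c₁ σ A₁ → MvS p M' b' τ' A' M₂ b₂ c₂ σ' A₂ →
    ∀ e ∈ D.PE (Ro (D.rho p)) (D.uA M₁ b₁ pr σ A₁ c₁) (D.uA M₂ b₂ pr' σ' A₂ c₂), PP p e

lemma PEk_of_Pc {PP : ℕ → ℕ × ℕ → Prop} (hPP : ∀ p e, Pc D p e → PP p e) {p M b pr : ℕ} {τ : IT}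
    {A : Finset Λ} {M' b' pr' : ℕ} {τ' : IT} {A' : Finset Λ} (hp : 0 < p) (hM : 0 < M)
    (hM' : 0 < M') : PEk D PP p M b pr τ A M' b' pr' τ' A' := by
  intro M₁ b₁ c₁ σ A₁ M₂ b₂ c₂ σ' A₂ h1 h2 e he
  have k1 : 0 < M₁ := by
    rcases h1 with ⟨S, t₁, -, rfl, -⟩ | ⟨-, rfl | rfl, -⟩
    · exact hM
    · exact hM
    · exact Nat.mul_pos hp hM
  have k2 : 0 < M₂ := by
    rcases h2 with ⟨S, t₁, -, rfl, -⟩ | ⟨-, rfl | rfl, -⟩
    · exact hM'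
    · exact hM'
    · exact Nat.mul_pos hp hM'
  exact hPP _ _ (Pc_of_PE k1 k2 e he)

/-- level of the part of a side which is not a tie -/
lemma Cn_level {p : ℕ} {u : NS} {τ σ : IT} (hq : All Qp u τ) (hO : τ.Ok u.n) (hl : ¬ isL τ)
    (hlw : Lw p u τ) (h : Cn p τ σ) :
    ∃ v : NS, v.A = u.A ∧ v.B = u.B ∧ All Qp v σ ∧ σ.Ok v.n ∧
      ∀ l : ℕ, l.Prime → l < v.n → l ≤ p := by
  rcases h with ⟨S, rfl⟩ | ⟨rfl, -⟩
  · exact ⟨⟨p, u.c, u.A, u.B⟩, rfl, rfl, hq.2, hO.2.2.2, fun l _ hl => hl.le⟩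
  · exact ⟨u, rfl, rfl, hq, hO, hlw.1.resolve_left hl⟩

section blocks
variable {CL c₀ : ℝ} {p0 : ℕ}

lemma kp_nonneg (hr : RH D ρ Al Qp CL c₀ p0) {p : ℕ} (hp : 1 ≤ p) : 0 ≤ kp CL c₀ p :=
  div_nonneg (mul_nonneg hr.CL0 (Real.log_nonneg (by exact_mod_cast hp))) hr.c0.le

/-- the missing child of a tie -/
lemma SR_miss (hr : RH D ρ Al Qp CL c₀ p0) {p : ℕ} (hp0 : p0 ≤ p) {u : NS} {S : Finset ℕ}
    {t₁ t₀ : IT} {A : Finset Λ} {d : DT Λ κ} (h : SY D sp Qp u (.br p S t₁ t₀) A d) :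
    SR ρ u.B (Qi D Al t₀ A) ≤
      kp CL c₀ p * (1 / (p:ℝ) * meI (D.toDT sp (u.B * p) u.A t₀).g A) := by
  have hpp : p.Prime := h.S.hF.1
  have hB := h.br₀
  have hrf := hr.rf p _ _ hp0 hB.q hB.ok (fun l _ hl => hl.le)
  have key := SR_le (sp := sp) hr.ab hr.rad.pos hr.CL0 hr.c0 hr.full hpp.one_lt.le hrf hB.S hB.il
  rw [SR_col hpp.pos]
  have := mul_le_mul_of_nonneg_left key (by positivity : (0:ℝ) ≤ 1 / (p:ℝ))
  refine this.trans (le_of_eq ?_)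
  ring

/-- the part of the other side -/
lemma SR_part (hr : RH D ρ Al Qp CL c₀ p0) {p : ℕ} (hp0 : p0 ≤ p) (hp1 : 1 ≤ p) {u : NS} {τ σ : IT}
    {A A₂ : Finset Λ} {d : DT Λ κ} (h : SY D sp Qp u τ A d) (hl : ¬ isL τ) (hlw : Lw p u τ)
    (hC : Cn p τ σ) (hil : IL D.it A₂) (hS : SideI D sp u.B u.A σ A₂ (D.toDT sp u.B u.A σ)) :
    SR ρ u.B (Qi D Al σ A₂) ≤ kp CL c₀ p * meI (D.toDT sp u.B u.A σ).g A₂ := by
  obtain ⟨v, vA, vB, hq, hO, hlv⟩ := Cn_level h.q h.ok hl hlw hC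
  have hrf := hr.rf p v σ hp0 hq hO hlv
  rw [← vA, ← vB] at hS ⊢
  exact SR_le (sp := sp) hr.ab hr.rad.pos hr.CL0 hr.c0 hr.full hp1 hrf hS hil

open Classical in
/-- **BLOCK BOUNDS OF RAW SIDES** at a state with two nonleaf sides -/
theorem Blks_raw (hh : YH D sp P W Qp) (hr : RH D ρ Al Qp CL c₀ p0)
    {Lo : ℝ × ℝ → ℕ × ℕ → Prop} (hLo : LoOk Lo ρ) {PP : ℕ → ℕ × ℕ → Prop}
    {s : St Λ κ} {u u' : NS} {τ τ' : IT} (h : YI D sp Qp RP s u u' τ τ')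
    (hL : ¬ isL τ) (hR : ¬ isL τ')
    (hPE : PEk D PP s.p s.M u.B u.A τ s.A s.M' u'.B u'.A τ' s.A')
    {a : ℕ → ℝ} (ha : 12 * kp CL c₀ s.p ^ 2 ≤ a s.p) :
    Blks D Al sp (VcL PP D.γ ρ Lo) (VxL PP D.γ ρ Lo) a meI s u.B u.A τ u'.B u'.A τ' := by
  have hl : ¬ (s.t.isLeaf ∧ s.t'.isLeaf) := by
    intro hl
    apply hL
    have := hl.1
    rw [h.L.S.eq] at this
    exact (WalkIT579.toDT_leaf D sp _ _ τ).1 this
  obtain ⟨hpp, lwL, lwR⟩ := h.lev hh hl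
  have hp1 : 1 ≤ s.p := hpp.one_lt.le
  have M0 := h.mL.pos
  have M0' := h.mR.pos
  have hk := kp_nonneg hr hp1
  have hme := (MX_meI (Λ := Λ) (κ := κ)).nn
  have hinv : (0:ℝ) ≤ 1 / (s.p:ℝ) := by positivity
  have hρ := hr.rad.pos
  -- products
  have prod : ∀ {x y X Y : ℝ}, 0 ≤ x → 0 ≤ y → 0 ≤ X → 0 ≤ Y → x ≤ kp CL c₀ s.p * X →
      y ≤ kp CL c₀ s.p * Y → 2 * (6 * (x * y)) ≤ a s.p * X * Y := by
    intro x y X Y hx hy hX hY h1 h2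
    have k1 := mul_le_mul h1 h2 hy (mul_nonneg hk hX)
    have k2 := mul_le_mul_of_nonneg_right ha (mul_nonneg hX hY)
    nlinarith [k1, k2]
  refine ⟨?_, ?_, ?_⟩
  · intro S t₁ t₀ S' t₁' t₀' e e'
    subst e e'
    have hp0 : p0 ≤ s.p := hr.col _ _ _ _ _ h.L.q.self
    refine ⟨_, TT_raw hLo hr.rad hr.dead h.L.S h.R.S M0 M0' (fun q hq => br_ndvd hh h.L hq)
      (fun q hq => br_ndvd hh h.R hq)
      (hPE _ _ _ _ _ _ _ _ _ _ (Or.inl ⟨S, t₁, rfl, rfl, rfl, Or.inl rfl, rfl⟩)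
        (Or.inl ⟨S', t₁', rfl, rfl, rfl, Or.inl rfl, rfl⟩))
      (hPE _ _ _ _ _ _ _ _ _ _ (Or.inl ⟨S, t₁, rfl, rfl, rfl, Or.inr rfl, rfl⟩)
        (Or.inl ⟨S', t₁', rfl, rfl, rfl, Or.inr rfl, rfl⟩)), ?_⟩
    exact prod (SR_nonneg hρ _ _) (SR_nonneg hρ _ _) (mul_nonneg hinv (hme _ _))
      (mul_nonneg hinv (hme _ _)) (SR_miss hr hp0 h.L) (SR_miss hr hp0 h.R)
  · intro S t₁ t₀ σ' A₂ e hC hA hil hS
    subst e
    have hp0 : p0 ≤ s.p := hr.col _ _ _ _ _ h.L.q.self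
    refine ⟨6 * (SR ρ u.B (Qi D Al t₀ s.A) * SR ρ u'.B (Qi D Al σ' A₂)),
      mul_nonneg (by norm_num) (mul_nonneg (SR_nonneg hρ _ _) (SR_nonneg hρ _ _)),
      TB_raw hLo hr.rad hr.dead h.L.S hS M0 M0' (fun q hq => br_ndvd hh h.L hq)
      (hPE _ _ _ _ _ _ _ _ _ _ (Or.inl ⟨S, t₁, rfl, rfl, rfl, Or.inl rfl, rfl⟩)
        (Or.inr ⟨hC, Or.inl rfl, rfl, rfl, hA⟩))
      (hPE _ _ _ _ _ _ _ _ _ _ (Or.inl ⟨S, t₁, rfl, rfl, rfl, Or.inr rfl, rfl⟩)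
        (Or.inr ⟨hC, Or.inr rfl, rfl, rfl, hA⟩)), ?_⟩
    exact prod (SR_nonneg hρ _ _) (SR_nonneg hρ _ _) (mul_nonneg hinv (hme _ _))
      (hme _ _) (SR_miss hr hp0 h.L) (SR_part hr hp0 hp1 h.R hR lwR hC hil hS)
  · intro S' t₁' t₀' σ A₂ e hC hA hil hS
    subst e
    have hp0 : p0 ≤ s.p := hr.col _ _ _ _ _ h.R.q.self
    refine ⟨6 * (SR ρ u.B (Qi D Al σ A₂) * SR ρ u'.B (Qi D Al t₀' s.A')),
      mul_nonneg (by norm_num) (mul_nonneg (SR_nonneg hρ _ _) (SR_nonneg hρ _ _)),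
      TB'_raw hLo hr.rad hr.dead h.R.S hS M0 M0' (fun q hq => br_ndvd hh h.R hq)
      (hPE _ _ _ _ _ _ _ _ _ _ (Or.inr ⟨hC, Or.inl rfl, rfl, rfl, hA⟩)
        (Or.inl ⟨S', t₁', rfl, rfl, rfl, Or.inl rfl, rfl⟩))
      (hPE _ _ _ _ _ _ _ _ _ _ (Or.inr ⟨hC, Or.inr rfl, rfl, rfl, hA⟩)
        (Or.inl ⟨S', t₁', rfl, rfl, rfl, Or.inr rfl, rfl⟩)), ?_⟩
    exact prod (SR_nonneg hρ _ _) (SR_nonneg hρ _ _) (hme _ _)
      (mul_nonneg hinv (hme _ _)) (SR_part hr hp0 hp1 h.L hL lwL hC hil hS) (SR_miss hr hp0 h.R)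

/-- nonleaf trees -/
lemma not_isL_L {s : St Λ κ} {u u' : NS} {τ τ' : IT} (h : YI D sp Qp RP s u u' τ τ')
    (hl : ¬ s.t.isLeaf) : ¬ isL τ := by
  intro hi
  apply hl
  rw [h.L.S.eq]
  exact (WalkIT579.toDT_leaf D sp _ _ τ).2 hi

lemma not_isL_R {s : St Λ κ} {u u' : NS} {τ τ' : IT} (h : YI D sp Qp RP s u u' τ τ')
    (hl : ¬ s.t'.isLeaf) : ¬ isL τ' := by
  intro hi
  apply hl
  rw [h.R.S.eq]
  exact (WalkIT579.toDT_leaf D sp _ _ τ').2 hi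

open Classical in
/-- **the blocks of the generic states** if leaf states are terminal -/
theorem Blks_gen (hh : YH D sp P W Qp) (hr : RH D ρ Al Qp CL c₀ p0)
    {Lo : ℝ × ℝ → ℕ × ℕ → Prop} (hLo : LoOk Lo ρ) {PP : ℕ → ℕ × ℕ → Prop}
    (hPP : ∀ p e, Pc D p e → PP p e) {stp : St Λ κ → Prop}
    (hst : ∀ s : St Λ κ, s.t.isLeaf ∨ s.t'.isLeaf → stp s)
    {a : ℕ → ℝ} (ha : ∀ p, 12 * kp CL c₀ p ^ 2 ≤ a p)
    {s : St Λ κ} {u u' : NS} {τ τ' : IT} (h : YI D sp Qp RP s u u' τ τ') (hG : Gen stp s) :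
    Blks D Al sp (VcL PP D.γ ρ Lo) (VxL PP D.γ ρ Lo) a meI s u.B u.A τ u'.B u'.A τ' := by
  have hn : ¬ s.t.isLeaf ∧ ¬ s.t'.isLeaf :=
    ⟨fun hl => hG.2.1 (hst s (Or.inl hl)), fun hl => hG.2.1 (hst s (Or.inr hl))⟩
  obtain ⟨hpp, -, -⟩ := h.lev hh hG.1
  exact Blks_raw hh hr hLo h (not_isL_L h hn.1) (not_isL_R h hn.2)
    (PEk_of_Pc hPP hpp.pos h.mL.pos h.mR.pos) (ha _)

/-- `meI` and the disjoint parts of a population -/
lemma meI_split (t : TrG Λ κ) (A S : Finset Λ) : meI t (A ∩ S) + meI t (A \ S) ≤ meI t A :=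
  MX.split MX_meI t A S

open Classical in
/-- **local cost of the cross walk on the stripped trees** (leaf states terminal), raw sides -/
theorem loc_raw (hh : YH D sp P W Qp) (hr : RH D ρ Al Qp CL c₀ p0)
    {Lo : ℝ × ℝ → ℕ × ℕ → Prop} (hLo : LoOk Lo ρ) {PP : ℕ → ℕ × ℕ → Prop}
    (hPP : ∀ p e, Pc D p e → PP p e) {stp : St Λ κ → Prop}
    (hst : ∀ s : St Λ κ, s.t.isLeaf ∨ s.t'.isLeaf → stp s)
    {a : ℕ → ℝ} (ha : ∀ p, 12 * kp CL c₀ p ^ 2 ≤ a p)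
    {Vs : ℝ × ℝ → ℕ × ℕ → ℝ} (h0 : ∀ s e, 0 ≤ Vs s e)
    {μ : TrG Λ κ → Finset Λ → ℝ} {B : ℝ} (hB : 0 ≤ B) (hμ : ∀ t : TrG Λ κ, t.Ok → ∀ A, 0 ≤ μ t A)
    {s : St Λ κ} {u u' : NS} {τ τ' : IT} (h : YI D sp Qp RP s u u' τ τ') :
    eNMC stp s + eONEC stp s + eXITC stp μ B s ≤ cyC stp a meI s +
      ∑ e ∈ Ep D Al s τ τ', lcS stp Vs (VcL PP D.γ ρ Lo) (VxL PP D.γ ρ Lo) s u u' τ τ' e :=
  loc_C hh h0 (fun _ _ _ => VcL_nonneg hr.rad.pos _ _ _) (fun _ _ _ => VxL_nonneg hr.rad.pos _ _ _)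
    hB hμ MX_meI.nn meI_split (fun p => le_trans (by positivity) (ha p)) h
    (fun hG => Blks_gen hh hr hLo hPP hst ha h hG)

end blocks

/-! ### contexts -/

section ctx
open Crest.Agent.R4P.NI927 Crest.Agent.R4P.GFinC927
open Crest.Agent.R4P.Step588 (NDt ND1 ctx_NDt CT CT_pos tot_ge ctx_rr ctx_MsN)
open Crest.Agent.R4P.Skel189 (Ctx top)
open Crest.Agent.R4P

/-- **hypotheses of the raw sides for a context** -/
theorem ctx_RH (N : Skel189.Num) {c₀ : ℝ} (hc₀ : 0 < c₀) : ∃ p₁ : ℕ, ∀ p0 ≥ p₁, ∀ (γ : ℝ)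
    (P₀ : ℕ) (X : Ctx N γ p0 P₀) (Y : Finset (ℕ × ℕ × Finset ℕ)) (Qp : NS → IT → Prop),
    (∀ u τ, Qp u τ → NB (X.c.D.par Y) X.S' X.par (Crest.Agent.R4.Soft104.w X.ψ) X.c.t.uq
      (2 * CT) c₀ p0 u τ ∧ NDt X.par (Crest.Agent.R4.Soft104.w X.ψ) X.c.t u τ) →
    RH (X.c.D.par Y) X.c.rr X.S' Qp (2 * CT) c₀ p0 := by
  have hB1 := N.hB
  have hC1 := N.hC1
  have hc2 := N.hc2
  obtain ⟨p1, h1⟩ := tot_ge N.B (N.C1 + N.c2) (by linarith)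
  obtain ⟨p2, h2⟩ := ctx_NI N hc₀
  refine ⟨p1 + p2 + 3, fun p0 hp0 γ P₀ X Y Qp hQ => ?_⟩
  have ni := h2 p0 (by omega) γ P₀ X Y p0 le_rfl
  exact
    { rad := ni.rad
      ab := ni.ab
      dead := ni.dead
      CL0 := by have := CT_pos; linarith
      c0 := hc₀
      full := ni.full
      rf := fun p v σ hp hq hO hlv => by
        obtain ⟨hB, hN⟩ := hQ v σ hq.self
        refine ⟨fun q hqA hqt => ?_, hB.mean, hB.ph⟩
        have key := h1 p0 (by omega) X.c.t q (ctx_pr X hqA)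
          (fun l hl => (rt_prime X.c.t X.tOk q l hl).1) (p + 1) (by omega) (q / v.A)
          (Nat.pos_of_ne_zero (hN.div_ne hqt)) fun l hl1 hl2 hl3 =>
            hN.self.ge q hqt l hl1 (by
              by_contra hlt
              have := hlv l hl1 (not_le.1 hlt)
              omega) hl2
        have hlog2 : Real.log ((p + 1 : ℕ) : ℝ) ≤ 2 * Real.log p := by
          have hp2 : (2 : ℝ) ≤ p := by exact_mod_cast (by omega : 2 ≤ p)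
          have h5 : ((p + 1 : ℕ) : ℝ) ≤ (p : ℝ) ^ 2 := by push_cast; nlinarith
          have h6 : (0 : ℝ) < ((p + 1 : ℕ) : ℝ) := by push_cast; linarith
          have h7 := Real.log_le_log h6 h5
          rw [Real.log_pow] at h7
          exact_mod_cast h7
        refine key.trans ?_
        have e : ((q / v.A).totient : ℝ) / ((q / v.A : ℕ) : ℝ) = tq (q / v.A) := rfl
        rw [e]
        refine mul_le_mul_of_nonneg_right ?_ (tq_nonneg _)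
        have := mul_le_mul_of_nonneg_left hlog2 CT_pos.le
        linarith
      col := fun v p S t₁ t₀ h => (hQ v _ h).1.big p S t₁ t₀ rfl }

end ctx

end Crest.Agent.R4P.RawB25
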