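import Crest.Agent.R4P.StopLeaf_28
import Crest.Agent.R4P.RawB_25

/-!
R4P (S0004), helper25, module D: **stops of the cross walk, both sides no leaf**.

* `y0_of`, `x0_of` : a prime of the averaging modulus which the item does not have divides the cofactor `y0` (`x0`) of
  the crossing state; only the invariance of the scale pair `SE` is used (no history).
* `FZ` : what a state remembers of the crossing state; `FZ.next`, `FZ.start`.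
* `anat` : at a stop (`stp2`) the anatomy of every pair of the state is bad above `p`.
* `high_tt` : the pairs with large scale cost at most `(Ch² + 5)` times the product of the masses.
* `stop_tt`, `C_stop` : **`Xs ≤ Σ_e B B' Vs`** at the stops.
-/

set_option autoImplicit false
set_option linter.unusedSectionVars false
set_option linter.unusedVariables false
set_option linter.unusedSimpArgs false
open Finset

namespace Crest.Agent.R4P.CStop25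

open Crest.Agent.R4.HVW560 Crest.Agent.R4P.AvgItem710
open Crest.Agent.R4.Tour104 Crest.Agent.R4.Tour758 Crest.Agent.R4.Avg758 Crest.Agent.R4.Clos758
open Crest.Agent.R4.ClosL758 Crest.Agent.R4.ClosG758 Crest.Agent.R4.ClosR758
open Crest.Agent.R4.Fam464 Crest.Agent.R4P.Cnt588 Crest.Agent.R4P.Walk560 Crest.Agent.R4P.Item758
open Crest.Agent.R4.Piece464
open Crest.Agent.R4P.Bld532 (NS All NodeOk Bk dv nd mem_dv mem_nd)
open Crest.Agent.R4P.GSt927 Crest.Agent.R4P.WalkIT579 Crest.Agent.R4P.NMW710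
open Crest.Agent.R4P.CrossLoc25 Crest.Agent.R4P.CrossLocC25 Crest.Agent.R4P.WalkC
open Crest.Agent.R4P.CyC25 Crest.Agent.R4P.YI25 Crest.Agent.R4P.GInst194
open Crest.Agent.R4P.StopCtx9 Crest.Agent.R4P.CofMono28 Crest.Agent.R4P.TBLeaf28
open Crest.Agent.R4P.VNum34 (US mem_US stp2)
open Crest.Agent.R4P.Step588 (Fq ItHi2 pairBd_IZ2 high_nodeQ I_Fq_le sum_IFq_le PB_Fq)
open Crest.Agent.R4.StepNum442 (Kn)
open Crest.Agent.R4.DeepSt579 (tq tq_nonneg tq_le_one)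

/-! ### anatomy from the scale pair -/

section anat
variable {l M pr M' pr' b b' : ℕ} {e : ℕ × ℕ}

lemma dvd_FI {q : ℕ} (hl : l.Prime) (h : l ∣ M) (hn : ¬ l ∣ q / pr) : l ∣ FI M pr q := by
  have e1 : FI M pr q = M / M.gcd (q / pr) := rfl
  have hg : ¬ l ∣ M.gcd (q / pr) := fun h => hn (h.trans (Nat.gcd_dvd_right _ _))
  have h1 : M = M.gcd (q / pr) * (M / M.gcd (q / pr)) :=
    (Nat.mul_div_cancel' (Nat.gcd_dvd_left _ _)).symm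
  rw [h1] at h
  rw [e1]
  exact (hl.dvd_mul.1 h).resolve_left hg

lemma SE_eq (M b pr M' b' pr' : ℕ) (e : ℕ × ℕ) :
    SE M b pr M' b' pr' e = (((cof (UI M' pr' e.2) (UI M pr e.1) * (FI M pr e.1 * b) : ℕ) : ℝ),
      ((cof (UI M pr e.1) (UI M' pr' e.2) * (FI M' pr' e.2 * b') : ℕ) : ℝ)) := by
  unfold SE sc
  rw [sd_eq, sd_eq]
  push_cast
  rfl

/-- **a prime of the left modulus which the left item does not have** -/
lemma y0_of {y g x g' : ℕ} (hl : l.Prime) (hM : l ∣ M) (hn : ¬ l ∣ e.1 / pr)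
    (hS : SE M b pr M' b' pr' e = (((y * g : ℕ) : ℝ), ((x * g' : ℕ) : ℝ))) (hg : ¬ l ∣ g) :
    l ∣ y := by
  rw [SE_eq] at hS
  have h1 : cof (UI M' pr' e.2) (UI M pr e.1) * (FI M pr e.1 * b) = y * g := by
    have := (Prod.mk.inj hS).1
    exact_mod_cast this
  have h2 : l ∣ y * g := by
    rw [← h1]
    exact Dvd.dvd.mul_left (Dvd.dvd.mul_right (dvd_FI hl hM hn) _) _
  exact (hl.dvd_mul.1 h2).resolve_right hg

/-- **a prime of the right modulus which the right item does not have** -/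
lemma x0_of {y g x g' : ℕ} (hl : l.Prime) (hM : l ∣ M') (hn : ¬ l ∣ e.2 / pr')
    (hS : SE M b pr M' b' pr' e = (((y * g : ℕ) : ℝ), ((x * g' : ℕ) : ℝ))) (hg : ¬ l ∣ g') :
    l ∣ x := by
  rw [SE_eq] at hS
  have h1 : cof (UI M pr e.1) (UI M' pr' e.2) * (FI M' pr' e.2 * b') = x * g' := by
    have := (Prod.mk.inj hS).2
    exact_mod_cast this
  have h2 : l ∣ x * g' := by
    rw [← h1]
    exact Dvd.dvd.mul_left (Dvd.dvd.mul_right (dvd_FI hl hM hn) _) _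
  exact (hl.dvd_mul.1 h2).resolve_right hg

end anat

/-! ### what a state remembers of the crossing state -/

variable {Λ κ : Type*} [Fintype Λ] [DecidableEq Λ] [Fintype κ] [DecidableEq κ] [WRel κ]
  {D : Par Λ κ} {sp : ℕ → Finset Λ} {P : Bld532.Par} {W : ℕ → ℝ} {Qp : NS → IT → Prop}
  {Al : Finset ℕ} {RP : Finset (Λ × Λ) → Prop} {ρ : ℕ → ℝ}

/-- data of the crossing state (column `b`, moduli, cofactors, scale factors) kept along the cross walk -/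
structure FZ (D : Par Λ κ) (Al : Finset ℕ) (b Mz Mz' : ℕ) (x0 y0 g g' : ℕ × ℕ → ℕ) (s : St Λ κ)
    (u u' : NS) (τ τ' : IT) : Prop where
  pb : s.p ≤ b
  se : ∀ e ∈ Ep D Al s τ τ', SE s.M u.B u.A s.M' u'.B u'.A e =
    (((y0 e * g e : ℕ) : ℝ), ((x0 e * g' e : ℕ) : ℝ))
  pos : ∀ e ∈ Ep D Al s τ τ', 0 < x0 e ∧ 0 < y0 e
  nd : ∀ e ∈ Ep D Al s τ τ', ∀ l : ℕ, l.Prime → l < b → ¬ l ∣ g e ∧ ¬ l ∣ g' e
  us : ∀ l : ℕ, l.Prime → b < l → (l ∣ s.M → l ∣ Mz) ∧ (l ∣ s.M' → l ∣ Mz')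

section fz
variable {b Mz Mz' : ℕ} {x0 y0 g g' : ℕ × ℕ → ℕ} {s : St Λ κ} {u u' : NS} {τ τ' : IT}

lemma Nm.dvd {p f l : ℕ} {x y : ℕ × ℕ × ℕ} (hp : p.Prime) (hl : l.Prime) (hlp : l ≠ p)
    (h : Nm p x y f) (hd : l ∣ y.2.2) : l ∣ x.2.2 := by
  cases h with
  | st => exact hd
  | fp => exact Dvd.dvd.mul_left hd _
  | fm => exact Dvd.dvd.mul_left hd _
  | pr => exact hd
  | ms => exact hd
  | av => exact (hl.dvd_mul.1 hd).resolve_left fun h => hlp ((Nat.prime_dvd_prime_iff_eq hl hp).1 h)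

/-- **the data are kept** -/
theorem FZ.next (h : FZ D Al b Mz Mz' x0 y0 g g' s u u' τ τ') {p : ℕ} (hp : p.Prime) (hpb : p ≤ b)
    {c : CR Λ κ} (hch : Chd D Al sp Qp RP p s u u' τ τ' c) :
    FZ D Al b Mz Mz' x0 y0 g g' c.s c.v c.v' c.σ c.σ' where
  pb := hch.ple.trans hpb
  se := fun e he => by rw [hch.sc hp he]; exact h.se e (hch.sub he)
  pos := fun e he => h.pos e (hch.sub he)
  nd := fun e he => h.nd e (hch.sub he)
  us := fun l hl hbl => by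
    obtain ⟨f, n1, n2⟩ := hch.nm
    have hlp : l ≠ p := by omega
    obtain ⟨k1, k2⟩ := h.us l hl hbl
    exact ⟨fun hd => k1 (Nm.dvd hp hl hlp n1 hd), fun hd => k2 (Nm.dvd hp hl hlp n2 hd)⟩

/-- the cofactors and the factors of the crossing state -/
def xZ (M pr M' pr' : ℕ) (e : ℕ × ℕ) : ℕ := cof (UI M pr e.1) (UI M' pr' e.2)
def yZ (M pr M' pr' : ℕ) (e : ℕ × ℕ) : ℕ := cof (UI M' pr' e.2) (UI M pr e.1)
def gZ (M b pr : ℕ) (e : ℕ × ℕ) : ℕ := FI M pr e.1 * b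
def gZ' (M' b' pr' : ℕ) (e : ℕ × ℕ) : ℕ := FI M' pr' e.2 * b'

/-- **start** -/
theorem FZ.start (hh : YH D sp P W Qp) {s : St Λ κ} {u u' : NS} {τ τ' : IT}
    (h : YI D sp Qp RP s u u' τ τ') (hp : s.p ≤ b)
    (hM : ∀ l : ℕ, l.Prime → l ∣ s.M → b ≤ l) (hM' : ∀ l : ℕ, l.Prime → l ∣ s.M' → b ≤ l)
    (hn : ∀ l : ℕ, l.Prime → l < b → l < u.n) (hn' : ∀ l : ℕ, l.Prime → l < b → l < u'.n) :
    FZ D Al b s.M s.M' (xZ s.M u.A s.M' u'.A) (yZ s.M u.A s.M' u'.A) (gZ s.M u.B u.A)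
      (gZ' s.M' u'.B u'.A) s u u' τ τ' where
  pb := hp
  se := fun e _ => SE_eq _ _ _ _ _ _ _
  pos := fun e he => by
    obtain ⟨a1, a2⟩ := Finset.mem_product.1 he
    have p1 := h.L.UI0 hh h.mL.pos (Qi_items a1)
    have p2 := h.R.UI0 hh h.mR.pos (Qi_items a2)
    exact ⟨Nat.div_pos (Nat.le_of_dvd p1 (Nat.gcd_dvd_left _ _)) (Nat.gcd_pos_of_pos_left _ p1),
      Nat.div_pos (Nat.le_of_dvd p2 (Nat.gcd_dvd_left _ _)) (Nat.gcd_pos_of_pos_left _ p2)⟩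
  nd := fun e he l hl hlb => by
    constructor
    · intro hd
      rcases hl.dvd_mul.1 hd with h1 | h1
      · exact absurd (hM l hl (h1.trans (FI_dvd _ _ _))) (not_le.2 hlb)
      · exact absurd ((h.L.bk hh).geB l hl h1) (not_le.2 (hn l hl hlb))
    · intro hd
      rcases hl.dvd_mul.1 hd with h1 | h1
      · exact absurd (hM' l hl (h1.trans (FI_dvd _ _ _))) (not_le.2 hlb)
      · exact absurd ((h.R.bk hh).geB l hl h1) (not_le.2 (hn' l hl hlb))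
  us := fun l hl hbl => ⟨id, id⟩

end fz

/-! ### anatomy at a stop -/

/-- the numbers of the anatomy -/
def NumS (p : ℕ) : Prop :=
  1 / (p : ℝ) + 2 * (p : ℝ) ^ (-(1 / 2) : ℝ) ≤ (p : ℝ) ^ (-(1 / 3) : ℝ) / 2

theorem exists_NumS : ∃ p₁ : ℕ, ∀ p ≥ p₁, NumS p := by
  refine ⟨5 ^ 6, fun p hp => ?_⟩
  have hp5 : ((5 : ℝ) ^ (6 : ℕ)) ≤ p := by exact_mod_cast hp
  have hp0 : (0 : ℝ) < p := lt_of_lt_of_le (by norm_num) hp5
  have hp1 : (1 : ℝ) ≤ p := le_trans (by norm_num) hp5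
  unfold NumS
  have h6 : (5 : ℝ) ≤ (p : ℝ) ^ (1 / 6 : ℝ) := by
    have : ((5 : ℝ) ^ (6 : ℕ)) ^ (1 / 6 : ℝ) = 5 := by
      rw [← Real.rpow_natCast, ← Real.rpow_mul (by norm_num)]
      norm_num
    rw [← this]
    exact Real.rpow_le_rpow (by positivity) hp5 (by norm_num)
  have e1 : (p : ℝ) ^ (-(1 / 3) : ℝ) = (p : ℝ) ^ (1 / 6 : ℝ) * (p : ℝ) ^ (-(1 / 2) : ℝ) := by
    rw [← Real.rpow_add hp0]
    norm_num
  have e2 : 1 / (p : ℝ) ≤ (p : ℝ) ^ (-(1 / 2) : ℝ) * (1 / 2) := by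
    have e3 : 1 / (p : ℝ) = (p : ℝ) ^ (-(1 / 2) : ℝ) * (p : ℝ) ^ (-(1 / 2) : ℝ) := by
      rw [← Real.rpow_add hp0]
      norm_num
      rw [Real.rpow_neg_one]
    rw [e3]
    refine mul_le_mul_of_nonneg_left ?_ (by positivity)
    have h4 : (4 : ℝ) ^ (-(1 / 2) : ℝ) = 1 / 2 := by
      rw [show (4 : ℝ) = 2 ^ (2 : ℝ) by norm_num, ← Real.rpow_mul (by norm_num)]
      norm_num
    refine le_trans ?_ h4.le
    have h44 : (4 : ℝ) ≤ p := le_trans (by norm_num) hp5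
    have h45 : (-(1 / 2) : ℝ) ≤ 0 := by norm_num
    exact Real.rpow_le_rpow_of_nonpos (by norm_num) h44 h45
  have h0 : 0 < (p : ℝ) ^ (-(1 / 2) : ℝ) := by positivity
  rw [e1]
  nlinarith

section anat2
variable {b Mz Mz' : ℕ} {x0 y0 g g' : ℕ × ℕ → ℕ} {s : St Λ κ} {u u' : NS} {τ τ' : IT}
  {U : ℕ → Finset ℕ}

/-- **ANATOMY AT A STOP** -/
theorem anat (h : YI D sp Qp RP s u u' τ τ') (hz : FZ D Al b Mz Mz' x0 y0 g g' s u u' τ τ')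
    (hp : s.p.Prime) (hn : ∀ l : ℕ, l.Prime → s.p < l → u.n ≤ l)
    (hn' : ∀ l : ℕ, l.Prime → s.p < l → u'.n ≤ l)
    (hL : ∀ q ∈ τ.items, Rd U u q) (hR : ∀ q ∈ τ'.items, Rd U u' q)
    (hU : ∀ q ∈ Al, ∑ l ∈ (U q).filter (fun l : ℕ => (s.p : ℝ) < (l : ℝ)), (1 : ℝ) / l ≤
      (s.p : ℝ) ^ (-(1 / 2) : ℝ))
    (hMz : 0 < Mz) (hMz' : 0 < Mz')
    (hmz : ∑ l ∈ US Mz Mz' b, 1 / (l : ℝ) ≤ (b : ℝ) ^ (-(1 / 3) : ℝ))
    (hst : stp2 s.M s.M' s.p) (hN : NumS s.p) :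
    ∀ e ∈ Ep D Al s τ τ', (s.p : ℝ) ^ (-(1 / 3) : ℝ) / 2 ≤ SD (x0 e) (y0 e) s.p := by
  classical
  intro e he
  obtain ⟨a1, a2⟩ := Finset.mem_product.1 he
  obtain ⟨i1, i2, -⟩ := mem_Qi.1 a1
  obtain ⟨j1, j2, -⟩ := mem_Qi.1 a2
  obtain ⟨px, py⟩ := hz.pos e he
  have hp0 : (0 : ℝ) < s.p := by exact_mod_cast hp.pos
  have M0 := h.mL.pos
  have M0' := h.mR.pos
  have hpb := hz.pb
  have hb0 : (0 : ℝ) < b := lt_of_lt_of_le hp0 (by exact_mod_cast hpb)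
  -- the four kinds of primes
  set O := US s.M s.M' s.p with hO
  set O1 := O.filter (fun l => b < l) with hO1
  set O2 := (O.filter (fun l => ¬ b < l)).filter (fun l => l = b) with hO2
  set O3 := (O.filter (fun l => ¬ b < l)).filter (fun l => ¬ l = b) with hO3
  have s1 := Finset.sum_filter_add_sum_filter_not O (fun l => b < l) (fun l => (1 : ℝ) / l)
  have s2 := Finset.sum_filter_add_sum_filter_not (O.filter (fun l => ¬ b < l)) (fun l => l = b)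
    (fun l => (1 : ℝ) / l)
  have t1 : ∑ l ∈ O1, (1 : ℝ) / l ≤ (s.p : ℝ) ^ (-(1 / 3) : ℝ) := by
    refine le_trans (Finset.sum_le_sum_of_subset_of_nonneg (t := US Mz Mz' b) ?_
      fun l _ _ => by positivity) (hmz.trans ?_)
    · intro l hl
      obtain ⟨h1, h2⟩ := Finset.mem_filter.1 hl
      obtain ⟨h3, h4, h5⟩ := (mem_US M0.ne' M0'.ne').1 h1
      obtain ⟨k1, k2⟩ := hz.us l h3 h2
      exact (mem_US hMz.ne' hMz'.ne').2 ⟨h3, h4.imp k1 k2, h2⟩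
    · exact Real.rpow_le_rpow_of_nonpos hp0 (by exact_mod_cast hpb) (by norm_num)
  have t2 : ∑ l ∈ O2, (1 : ℝ) / l ≤ 1 / (s.p : ℝ) := by
    have hsub : O2 ⊆ {b} := fun l hl => Finset.mem_singleton.2 (Finset.mem_filter.1 hl).2
    refine le_trans (Finset.sum_le_sum_of_subset_of_nonneg hsub fun l _ _ => by positivity) ?_
    rw [Finset.sum_singleton]
    exact one_div_le_one_div_of_le hp0 (by exact_mod_cast hpb)
  -- the primes between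
  have t3 : ∑ l ∈ O3, (1 : ℝ) / l ≤ SD (x0 e) (y0 e) s.p + 2 * (s.p : ℝ) ^ (-(1 / 2) : ℝ) := by
    have hk : ∀ l ∈ O3, l.Prime ∧ ((s.p : ℕ) : ℝ) < l ∧
        (l ∣ x0 e * y0 e ∨ l ∈ U e.1 ∪ U e.2) := by
      intro l hl
      obtain ⟨h1, h2⟩ := Finset.mem_filter.1 hl
      obtain ⟨h1, h3⟩ := Finset.mem_filter.1 h1
      obtain ⟨h4, h5, h6⟩ := (mem_US M0.ne' M0'.ne').1 h1
      have hlb : l < b := by omega
      refine ⟨h4, by exact_mod_cast h6, ?_⟩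
      obtain ⟨n1, n2⟩ := hz.nd e he l h4 hlb
      rcases h5 with h5 | h5
      · by_cases hd : l ∣ e.1 / u.A
        · exact Or.inr (Finset.mem_union_left _ (hL _ i1 l h4 (hn l h4 h6) hd).1)
        · exact Or.inl (Dvd.dvd.mul_left (y0_of h4 h5 hd (hz.se e he) n1) _)
      · by_cases hd : l ∣ e.2 / u'.A
        · exact Or.inr (Finset.mem_union_right _ (hR _ j1 l h4 (hn' l h4 h6) hd).1)
        · exact Or.inl (Dvd.dvd.mul_right (x0_of h4 h5 hd (hz.se e he) n2) _)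
    have hm : ∑ l ∈ (U e.1 ∪ U e.2).filter (fun l : ℕ => ((s.p : ℕ) : ℝ) < (l : ℝ)), (1 : ℝ) / l ≤
        2 * (s.p : ℝ) ^ (-(1 / 2) : ℝ) := by
      rw [Finset.filter_union]
      have k1 := hU e.1 i2
      have k2 := hU e.2 j2
      have k3 := Finset.sum_union_inter (s₁ := (U e.1).filter (fun l : ℕ => (s.p : ℝ) < (l : ℝ)))
        (s₂ := (U e.2).filter (fun l : ℕ => (s.p : ℝ) < (l : ℝ))) (f := fun l => (1 : ℝ) / l)
      have k4 : 0 ≤ ∑ l ∈ (U e.1).filter (fun l : ℕ => (s.p : ℝ) < (l : ℝ)) ∩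
          (U e.2).filter (fun l : ℕ => (s.p : ℝ) < (l : ℝ)), (1 : ℝ) / l :=
        Finset.sum_nonneg fun l _ => by positivity
      linarith
    by_contra hc
    push Not at hc
    have key := StopLeaf28.SD_of_list2 (p := ((s.p : ℕ) : ℝ)) (θ := ∑ l ∈ O3, (1 : ℝ) / l -
      2 * (s.p : ℝ) ^ (-(1 / 2) : ℝ)) px py hk hm (by linarith)
    linarith
  unfold stp2 at hst
  unfold NumS at hN
  have e3 : ∑ l ∈ O, (1 : ℝ) / l = ∑ l ∈ US s.M s.M' s.p, 1 / (l : ℝ) := rfl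
  linarith

end anat2

/-! ### the pairs with large scale -/

section high
variable {P' : Bld532.Par} {W' : ℕ → ℝ} {U : ℕ → Finset ℕ} {CL c₀ Ch : ℝ} {p0 : ℕ}

lemma Kn_mono {m n : ℕ} (h : m ≤ n) : Kn m ≤ Kn n := by
  unfold Kn
  have : ((m : ℝ)) ^ (1 / 2 : ℝ) ≤ (n : ℝ) ^ (1 / 2 : ℝ) :=
    Real.rpow_le_rpow (Nat.cast_nonneg _) (by exact_mod_cast h) (by norm_num)
  exact Nat.succ_le_succ (Nat.floor_mono (Real.exp_le_exp.2 this))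

lemma Vn_mono {m n : ℕ} (h : m ≤ n) : Vn m ≤ Vn n := by
  unfold Vn
  have : ((m : ℝ)) ^ (1 / 4 : ℝ) ≤ (n : ℝ) ^ (1 / 4 : ℝ) :=
    Real.rpow_le_rpow (Nat.cast_nonneg _) (by exact_mod_cast h) (by norm_num)
  exact Nat.floor_mono (Real.exp_le_exp.2 this)

lemma Hn_mono {m n : ℕ} (h : m ≤ n) : Hn m ≤ Hn n := by
  unfold Hn
  have : ((m : ℝ)) ^ (1 / 8 : ℝ) ≤ (n : ℝ) ^ (1 / 8 : ℝ) :=
    Real.rpow_le_rpow (Nat.cast_nonneg _) (by exact_mod_cast h) (by norm_num)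
  have := Real.exp_le_exp.2 this
  linarith

lemma ηn_anti {m n : ℕ} (h : m ≤ n) : ηn n ≤ ηn m := by
  unfold ηn
  have : ((m : ℝ)) ^ (1 / 2 : ℝ) ≤ (n : ℝ) ^ (1 / 2 : ℝ) :=
    Real.rpow_le_rpow (Nat.cast_nonneg _) (by exact_mod_cast h) (by norm_num)
  exact Real.exp_le_exp.2 (by linarith)

lemma ηn_nonneg (p : ℕ) : 0 ≤ ηn p := (Real.exp_pos _).le

/-- monotonicity of the item data -/
lemma ItHi2.mono {b pr : ℕ} {t : IT} {K V0 K' V0' : ℕ} {C1 η H η' H' : ℝ} {q : ℕ}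
    (h : ItHi2 D ρ b pr t K V0 C1 η H q) (hK : K ≤ K') (hV : V0 ≤ V0') (hη : η ≤ η') (hH : H ≤ H')
    (hC1 : 0 ≤ C1) (hρ : 0 ≤ ρ q) : ItHi2 D ρ b pr t K' V0' C1 η' H' q := by
  obtain ⟨k, v, hk, hv, hz⟩ := h
  refine ⟨k, v, hk.trans hK, hv.trans hV, hz.mono (fun _ => le_rfl) ?_ hH⟩
  refine mul_le_mul_of_nonneg_left ?_ hC1
  have := mul_le_mul_of_nonneg_right hη (mul_nonneg (Nat.cast_nonneg b) hρ)
  linarith

/-- **pairs with large scale** of a state with two nonleaf sides -/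
theorem high_tt (hR : D.Rad ρ) (hab : ∀ j, D.al j ≤ D.be j) (hc₀ : 0 < c₀) (hCL : 0 ≤ CL)
    (hCh : 0 ≤ Ch)
    (hfull : ∀ q ∈ Al, 2 * ρ q ≤ ∑ j ∈ Finset.univ.filter (fun j => D.it j = q), (D.be j - D.al j))
    (he3 : ∀ p : ℕ, p0 ≤ p → e3 Ch p * (CL * Real.log p * (1/c₀))^2 ≤ 1) (hp02 : 2 ≤ p0)
    {M M' : ℕ} (hM : 0 < M) (hM' : 0 < M') {u u' : NS} {τ τ' : IT} {A A' : Finset Λ}
    {d d' : DT Λ κ} (h : SideI D sp u.B u.A τ A d) (h' : SideI D sp u'.B u'.A τ' A' d')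
    (hS : SB D ρ Al P' W' U CL c₀ Ch u τ) (hS' : SB D ρ Al P' W' U CL c₀ Ch u' τ')
    (hl : ¬ isL τ) (hl' : ¬ isL τ') (hil : IL D.it A) (hil' : IL D.it A')
    (hnn : ∀ j, 0 ≤ mI d j) (hnn' : ∀ j, 0 ≤ mI d' j) {p : ℕ} (ht : WalkIT579.tp τ ≤ p)
    (ht' : WalkIT579.tp τ' ≤ p) (h0 : p0 ≤ WalkIT579.tp τ) (h0' : p0 ≤ WalkIT579.tp τ')
    (h2 : p ≤ 2 * WalkIT579.tp τ) (h2' : p ≤ 2 * WalkIT579.tp τ')
    (Rl : Finset (Λ × Λ)) {E : Finset (ℕ × ℕ)} (hE : E ⊆ Qi D Al τ A ×ˢ Qi D Al τ' A')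
    (hD : ∀ e ∈ E, Tn p ≤ Dsc (ρ e.1) (ρ e.2) (SE M u.B u.A M' u'.B u'.A e)) :
    ∑ e ∈ E, D.iF Rl (D.uA M u.B u.A τ A 1) (D.uA M' u'.B u'.A τ' A' 1) e ≤
      (Ch ^ 2 + 5) * ((∑ j ∈ A, mI d j) * ∑ j ∈ A', mI d' j) := by
  classical
  set n := min (WalkIT579.tp τ) (WalkIT579.tp τ') with hn
  have hn1 : n ≤ WalkIT579.tp τ := min_le_left _ _
  have hn2 : n ≤ WalkIT579.tp τ' := min_le_right _ _
  have hn0 : p0 ≤ n := le_min h0 h0'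
  have hnp : n ≤ p := hn1.trans ht
  have hp2n : p ≤ 2 * n := by
    rcases min_choice (WalkIT579.tp τ) (WalkIT579.tp τ') with h3 | h3 <;> rw [hn, h3] <;> assumption
  have hρ := hR.pos
  have hT : 0 < Tn p := Real.exp_pos _
  have key := high_nodeQ (pairBd_IZ2 (Hn p)) (Cp := 18 * Hn p) (by unfold Hn; positivity) hM hM'
    h.hb h'.hb h.hF h'.hF h.hW h'.hW Rl A A' (V := Qi D Al τ A) (W := Qi D Al τ' A') (ρ := ρ)
    (K := Kn p) (V0 := Vn p) (C1 := Ch) (η := ηn n) (T := Tn p) hT (ηn_nonneg _)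
    (fun q hq => (ItHi2.mono (hS.ih hl q (mem_Qi.1 hq).2.1 (mem_Qi.1 hq).1) (Kn_mono ht)
      (Vn_mono ht) (ηn_anti hn1) (Hn_mono ht) hCh (hρ q).le).itHi h.hb h.hF h.hW)
    (fun q hq => (ItHi2.mono (hS'.ih hl' q (mem_Qi.1 hq).2.1 (mem_Qi.1 hq).1) (Kn_mono ht')
      (Vn_mono ht') (ηn_anti hn2) (Hn_mono ht') hCh (hρ q).le).itHi h'.hb h'.hF h'.hW)
    (fun q hq => I_Fq_le hR h.hb h.hF h.hW (mem_Qi.1 hq).1)
    (fun r hr => I_Fq_le hR h'.hb h'.hF h'.hW (mem_Qi.1 hr).1) hE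
    (fun e he => by
      have h3 := hD e he
      rw [Crest.Agent.R4.CrossInv709.Da_eq_sc]
      exact h3)
  refine key.trans ?_
  have m1 := sum_IFq_le h hil Al hnn
  have m2 := sum_IFq_le h' hil' Al hnn'
  have k1 : 0 ≤ ∑ q ∈ Qi D Al τ A, I (Fq D u.B u.A τ 1 q) :=
    Finset.sum_nonneg fun r _ => I_nonneg (PB_Fq D r h.hb h.hF h.hW (one_dvd _)).nonneg
  have k2 : 0 ≤ ∑ q ∈ Qi D Al τ' A', I (Fq D u'.B u'.A τ' 1 q) :=
    Finset.sum_nonneg fun r _ => I_nonneg (PB_Fq D r h'.hb h'.hF h'.hW (one_dvd _)).nonneg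
  have ht1 : 1 ≤ WalkIT579.tp τ := by omega
  have ht1' : 1 ≤ WalkIT579.tp τ' := by omega
  have r1 := StopLeaf28.SR_le_mass hS hl h hab hc₀ hfull hil hnn hρ hCL ht1
  have r2 := StopLeaf28.SR_le_mass hS' hl' h' hab hc₀ hfull hil' hnn' hρ hCL ht1'
  have hX : 0 ≤ ∑ j ∈ A, mI d j := Finset.sum_nonneg fun j _ => hnn j
  have hX' : 0 ≤ ∑ j ∈ A', mI d' j := Finset.sum_nonneg fun j _ => hnn' j
  have lp : ∀ {m : ℕ}, 1 ≤ m → m ≤ p → Real.log m ≤ Real.log p := fun {m} h3 h4 =>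
    Real.log_le_log (by exact_mod_cast h3) (by exact_mod_cast h4)
  have q0 : 0 ≤ 1 / c₀ := by positivity
  have r1' : ∑ q ∈ Qi D Al τ A, (u.B : ℝ) * ρ q ≤
      CL * Real.log p * (1 / c₀) * ∑ j ∈ A, mI d j := by
    refine r1.trans ?_
    have := mul_le_mul_of_nonneg_left (lp ht1 ht) hCL
    have := mul_le_mul_of_nonneg_right this (mul_nonneg q0 hX)
    linarith
  have r2' : ∑ q ∈ Qi D Al τ' A', (u'.B : ℝ) * ρ q ≤
      CL * Real.log p * (1 / c₀) * ∑ j ∈ A', mI d' j := by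
    refine r2.trans ?_
    have := mul_le_mul_of_nonneg_left (lp ht1' ht') hCL
    have := mul_le_mul_of_nonneg_right this (mul_nonneg q0 hX')
    linarith
  have s1 : 0 ≤ ∑ q ∈ Qi D Al τ A, (u.B : ℝ) * ρ q :=
    Finset.sum_nonneg fun q _ => mul_nonneg (Nat.cast_nonneg _) (hρ q).le
  have s2 : 0 ≤ ∑ q ∈ Qi D Al τ' A', (u'.B : ℝ) * ρ q :=
    Finset.sum_nonneg fun q _ => mul_nonneg (Nat.cast_nonneg _) (hρ q).le
  have hlogp : 0 ≤ Real.log p := Real.log_nonneg (by exact_mod_cast (by omega : 1 ≤ p))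
  -- numbers
  set L := CL * Real.log p * (1 / c₀) with hLd
  have hL0 : 0 ≤ L := mul_nonneg (mul_nonneg hCL hlogp) q0
  set E2 := Ch ^ 2 * (4 * ηn n + ηn n ^ 2) +
      18 * Hn p / Tn p * ((Vn p : ℝ) * Vn p * ((Kn p * (Vn p + 2)) * (Kn p * (Vn p + 2)))) with hE2
  have hE0 : 0 ≤ E2 := by
    have := ηn_nonneg n
    unfold Hn Tn at hE2
    rw [hE2]
    positivity
  have hE3 : E2 ≤ e3 Ch n + e3 Ch p := by
    have a1 : 0 ≤ 18 * Hn n / Tn n * ((Vn n : ℝ) * Vn n * ((Kn n * (Vn n + 2)) *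
        (Kn n * (Vn n + 2)))) := by unfold Hn Tn; positivity
    have a2 : 0 ≤ Ch ^ 2 * (4 * ηn p + ηn p ^ 2) := by
      have := ηn_nonneg p
      positivity
    unfold e3
    linarith
  have hlog : Real.log p ≤ 2 * Real.log n := by
    have h5 : (p : ℝ) ≤ (n : ℝ) ^ 2 := by
      have h6 : (2 : ℝ) ≤ n := by exact_mod_cast hp02.trans hn0
      have h7 : (p : ℝ) ≤ 2 * n := by exact_mod_cast hp2n
      nlinarith
    have h6 : (0 : ℝ) < p := by exact_mod_cast (by omega : 0 < p)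
    have h7 := Real.log_le_log h6 h5
    rw [Real.log_pow] at h7
    exact_mod_cast h7
  have hlogn : 0 ≤ Real.log n := Real.log_nonneg (by exact_mod_cast (by omega : 1 ≤ n))
  have hLn : L ≤ 2 * (CL * Real.log n * (1 / c₀)) := by
    rw [hLd]
    have := mul_le_mul_of_nonneg_left hlog hCL
    have := mul_le_mul_of_nonneg_right this q0
    linarith
  have hLn0 : 0 ≤ CL * Real.log n * (1 / c₀) := mul_nonneg (mul_nonneg hCL hlogn) q0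
  have b1 := he3 n hn0
  have b2 := he3 p (hn0.trans hnp)
  have hL2 : L ^ 2 ≤ 4 * (CL * Real.log n * (1 / c₀)) ^ 2 := by
    refine (pow_le_pow_left₀ hL0 hLn 2).trans (le_of_eq ?_)
    ring
  have hE5 : E2 * L ^ 2 ≤ 5 := by
    have c1 : E2 * L ^ 2 ≤ (e3 Ch n + e3 Ch p) * L ^ 2 :=
      mul_le_mul_of_nonneg_right hE3 (sq_nonneg _)
    have c2 : e3 Ch n * L ^ 2 ≤ e3 Ch n * (4 * (CL * Real.log n * (1 / c₀)) ^ 2) :=
      mul_le_mul_of_nonneg_left hL2 (e3_nonneg _ _)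
    have b2' : e3 Ch p * L ^ 2 ≤ 1 := b2
    have c3 : (e3 Ch n + e3 Ch p) * L ^ 2 = e3 Ch n * L ^ 2 + e3 Ch p * L ^ 2 := by ring
    have c4 : e3 Ch n * (4 * (CL * Real.log n * (1 / c₀)) ^ 2) =
        4 * (e3 Ch n * (CL * Real.log n * (1 / c₀)) ^ 2) := by ring
    linarith
  have f1 : E2 * ((∑ q ∈ Qi D Al τ A, (u.B : ℝ) * ρ q) * ∑ q ∈ Qi D Al τ' A', (u'.B : ℝ) * ρ q) ≤
      5 * ((∑ j ∈ A, mI d j) * ∑ j ∈ A', mI d' j) := by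
    have c1 : (∑ q ∈ Qi D Al τ A, (u.B : ℝ) * ρ q) * (∑ q ∈ Qi D Al τ' A', (u'.B : ℝ) * ρ q) ≤
        (L * ∑ j ∈ A, mI d j) * (L * ∑ j ∈ A', mI d' j) :=
      mul_le_mul r1' r2' s2 (mul_nonneg hL0 hX)
    calc _ ≤ E2 * ((L * ∑ j ∈ A, mI d j) * (L * ∑ j ∈ A', mI d' j)) :=
          mul_le_mul_of_nonneg_left c1 hE0
      _ = (E2 * L ^ 2) * ((∑ j ∈ A, mI d j) * ∑ j ∈ A', mI d' j) := by ring
      _ ≤ _ := mul_le_mul_of_nonneg_right hE5 (mul_nonneg hX hX')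
  have f2 : Ch ^ 2 * ((∑ q ∈ Qi D Al τ A, I (Fq D u.B u.A τ 1 q)) *
      ∑ r ∈ Qi D Al τ' A', I (Fq D u'.B u'.A τ' 1 r)) ≤
      Ch ^ 2 * ((∑ j ∈ A, mI d j) * ∑ j ∈ A', mI d' j) :=
    mul_le_mul_of_nonneg_left (mul_le_mul m1 m2 k2 hX) (sq_nonneg _)
  calc _ ≤ Ch ^ 2 * ((∑ j ∈ A, mI d j) * ∑ j ∈ A', mI d' j) +
        5 * ((∑ j ∈ A, mI d j) * ∑ j ∈ A', mI d' j) := add_le_add f2 f1
    _ = _ := by ring

/-- levels of a nonleaf side at the column `p` of a live state -/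
lemma tp_ge {p : ℕ} (hp : p.Prime) {u : NS} {τ : IT} (hN : NodeOk P' W' u τ) (hl : ¬ isL τ)
    (hlw : Lw p u τ) (hle : WalkIT579.tp τ ≤ p) : p ≤ 2 * WalkIT579.tp τ := by
  obtain ⟨k1, k2, k3⟩ := top_of_nodeOk hN hl
  rcases hle.lt_or_eq with hlt | heq
  · refine prev_le k1.ne_zero fun l hl1 hl2 => ?_
    exact k3 l hl1 (hlw.2 l hl1 hl2)
  · omega

end high

/-! ### the stop -/

section stop
variable {P' : Bld532.Par} {W' : ℕ → ℝ} {U : ℕ → Finset ℕ} {CL c₀ Ch : ℝ} {p0 : ℕ}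

/-- constants of the stops -/
structure CS (D : Par Λ κ) (ρ : ℕ → ℝ) (Al : Finset ℕ) (U : ℕ → Finset ℕ) (P' : Bld532.Par)
    (CL c₀ Ch : ℝ) (p0 : ℕ) : Prop where
  rad : D.Rad ρ
  ab : ∀ j, D.al j ≤ D.be j
  dead : ∀ j, D.it j ∉ Al → ∀ a, D.om j a = 0
  c0 : 0 < c₀
  CL0 : 0 ≤ CL
  Ch0 : 0 ≤ Ch
  full : ∀ q ∈ Al, 2 * ρ q ≤ ∑ j ∈ Finset.univ.filter (fun j => D.it j = q), (D.be j - D.al j)
  e : ∀ p : ℕ, p0 ≤ p → e3 Ch p * (CL * Real.log p * (1/c₀))^2 ≤ 1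
  two : 2 ≤ p0
  pp0 : p0 ≤ P'.p0
  Ut : ∀ p, p0 ≤ p → ∀ q ∈ Al, ∀ z : ℝ, (p:ℝ) ≤ z →
    ∑ l ∈ (U q).filter (fun l : ℕ => z < (l : ℝ)), (1 : ℝ) / l ≤ z ^ (-(1 / 2 : ℝ))
  num : ∀ p, p0 ≤ p → NumS p

lemma mnn_ok {d : DT Λ κ} (hd : d.g.Ok) (j : Λ) : 0 ≤ mI d j := by
  unfold mI
  exact I_nonneg fun x => (hd.pb j).nonneg x

variable {s : St Λ κ} {u u' : NS} {τ τ' : IT}

open Classical in
/-- **a state with two nonleaf sides**: if the pairs which are not low have scale at least `Tn p`, the excess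
energy is at most the low parts of the pairs -/
theorem stop_tt (H : CS D ρ Al U P' CL c₀ Ch p0) (hh : YH D sp P W Qp)
    (hQ : ∀ u τ, Qp u τ → SB D ρ Al P' W' U CL c₀ Ch u τ)
    (h : YI D sp Qp RP s u u' τ τ') (hL : ¬ isL τ) (hR : ¬ isL τ')
    {Lo : ℝ × ℝ → ℕ × ℕ → Prop}
    (hLo : ∀ e ∈ Ep D Al s τ τ', ¬ Lo (SE s.M u.B u.A s.M' u'.B u'.A e) e →
      Tn s.p ≤ Dsc (ρ e.1) (ρ e.2) (SE s.M u.B u.A s.M' u'.B u'.A e))
    {Vs : ℝ × ℝ → ℕ × ℕ → ℝ} (h0 : ∀ s e, 0 ≤ Vs s e)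
    (hVs : ∀ e ∈ D.PE s.R (D.uA s.M u.B u.A τ s.A 1) (D.uA s.M' u'.B u'.A τ' s.A' 1), e ∈ Ep D Al s τ τ' →
      FL Lo ρ D.γ (SE s.M u.B u.A s.M' u'.B u'.A e) e ≤ Vs (SE s.M u.B u.A s.M' u'.B u'.A e) e)
    {μ : TrG Λ κ → Finset Λ → ℝ} {B cμ : ℝ} (hcμ : 0 ≤ cμ) (hB : cμ ^ 2 * (Ch ^ 2 + 5) ≤ B)
    (hμ : ∑ j ∈ s.A, mI s.t j ≤ cμ * μ s.t.g s.A)
    (hμ' : ∑ j ∈ s.A', mI s.t' j ≤ cμ * μ s.t'.g s.A') (hμ0 : 0 ≤ μ s.t.g s.A)
    (hμ0' : 0 ≤ μ s.t'.g s.A') :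
    Xs μ B s ≤ ∑ e ∈ Ep D Al s τ τ',
      ((u.B : ℝ) * u'.B) * Vs (SE s.M u.B u.A s.M' u'.B u'.A e) e := by
  have M0 := h.mL.pos
  have M0' := h.mR.pos
  have hl : ¬ (s.t.isLeaf ∧ s.t'.isLeaf) := by
    intro hl
    apply hL
    have := hl.1
    rw [h.L.S.eq] at this
    exact (WalkIT579.toDT_leaf D sp _ _ τ).1 this
  obtain ⟨hpp, lwL, lwR⟩ := h.lev hh hl
  have e1 : s.t.top = WalkIT579.tp τ := by rw [h.L.S.eq]; exact WalkIT579.toDT_top D sp _ _ τ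
  have e2 : s.t'.top = WalkIT579.tp τ' := by rw [h.R.S.eq]; exact WalkIT579.toDT_top D sp _ _ τ'
  have t1 : WalkIT579.tp τ ≤ s.p := by rw [← e1]; exact le_max_left _ _
  have t2 : WalkIT579.tp τ' ≤ s.p := by rw [← e2]; exact le_max_right _ _
  have S1 := hQ _ _ h.L.q.self
  have S2 := hQ _ _ h.R.q.self
  have n1 := (nodeOk_hi S1.nq.1 hL).2.1
  have n2 := (nodeOk_hi S2.nq.1 hR).2.1
  have hp0 := H.pp0
  have okL : s.t.g.Ok := SideI.okg h.L.S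
  have okR : s.t'.g.Ok := SideI.okg h.R.S
  set f := D.uA s.M u.B u.A τ s.A 1 with hf
  set g := D.uA s.M' u'.B u'.A τ' s.A' 1 with hg
  set E := D.PE s.R f g with hE
  have hsub : E ⊆ Ep D Al s τ τ' := PE_sub H.dead M0 M0' h.L.S.hb h.R.S.hb h.L.S.hF h.R.S.hF
    h.L.S.hW h.R.S.hW (one_dvd _) (one_dvd _) s.R s.A s.A'
  -- high pairs
  have hhigh : ∑ e ∈ E.filter (fun e => ¬ Lo (SE s.M u.B u.A s.M' u'.B u'.A e) e),
      D.iF s.R f g e ≤ (Ch ^ 2 + 5) * ((∑ j ∈ s.A, mI s.t j) * ∑ j ∈ s.A', mI s.t' j) :=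
    high_tt H.rad H.ab H.c0 H.CL0 H.Ch0 H.full H.e H.two M0 M0' h.L.S h.R.S S1 S2 hL hR h.L.il
      h.R.il (mnn_ok okL) (mnn_ok okR) t1 t2 (by omega) (by omega) (tp_ge hpp S1.nq.1 hL lwL t1)
      (tp_ge hpp S2.nq.1 hR lwR t2) s.R ((Finset.filter_subset _ _).trans hsub)
      (fun e he => hLo e (hsub (Finset.mem_filter.1 he).1) (Finset.mem_filter.1 he).2)
  -- low pairs
  have hlow : ∑ e ∈ E.filter (fun e => Lo (SE s.M u.B u.A s.M' u'.B u'.A e) e), D.iF s.R f g e ≤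
      ∑ e ∈ Ep D Al s τ τ', ((u.B : ℝ) * u'.B) * Vs (SE s.M u.B u.A s.M' u'.B u'.A e) e := by
    refine le_trans (Finset.sum_le_sum fun e he => ?_)
      (Finset.sum_le_sum_of_subset_of_nonneg ((Finset.filter_subset _ _).trans hsub)
        fun e _ _ => mul_nonneg (by positivity) (h0 _ _))
    obtain ⟨h1, h2⟩ := Finset.mem_filter.1 he
    obtain ⟨a1, a2⟩ := Finset.mem_product.1 (hsub h1)
    have k1 := iF_le H.rad M0 M0' h.L.S.hb h.R.S.hb h.L.S.hF h.R.S.hF h.L.S.hW h.R.S.hW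
      (one_dvd _) (one_dvd _) s.R s.A s.A' e (mem_Qi.1 a1).1 (mem_Qi.1 a2).1
    rw [pb_one] at k1
    refine k1.trans ?_
    unfold vE
    refine mul_le_mul_of_nonneg_left ?_ (by positivity)
    have k2 := hVs e h1 (hsub h1)
    refine le_trans (le_of_eq ?_) k2
    unfold FL
    rw [if_pos ⟨h2, SE_pos _ _ _ _ _ _ _⟩]
  have hQs : Qs s = ∑ e ∈ E, D.iF s.R f g e := by
    rw [Qs_Q h.st, D.Q_eq]
  have hsplit := Finset.sum_filter_add_sum_filter_not E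
    (fun e => Lo (SE s.M u.B u.A s.M' u'.B u'.A e) e) (fun e => D.iF s.R f g e)
  have nn1 : 0 ≤ ∑ j ∈ s.A, mI s.t j := Finset.sum_nonneg fun j _ => mnn_ok okL j
  have nn2 : 0 ≤ ∑ j ∈ s.A', mI s.t' j := Finset.sum_nonneg fun j _ => mnn_ok okR j
  have hprod : (Ch ^ 2 + 5) * ((∑ j ∈ s.A, mI s.t j) * ∑ j ∈ s.A', mI s.t' j) ≤
      B * (μ s.t.g s.A * μ s.t'.g s.A') := by
    calc (Ch ^ 2 + 5) * ((∑ j ∈ s.A, mI s.t j) * ∑ j ∈ s.A', mI s.t' j)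
        ≤ (Ch ^ 2 + 5) * ((cμ * μ s.t.g s.A) * (cμ * μ s.t'.g s.A')) :=
          mul_le_mul_of_nonneg_left (mul_le_mul hμ hμ' nn2 (mul_nonneg hcμ hμ0)) (by positivity)
      _ = (cμ ^ 2 * (Ch ^ 2 + 5)) * (μ s.t.g s.A * μ s.t'.g s.A') := by ring
      _ ≤ _ := mul_le_mul_of_nonneg_right hB (mul_nonneg hμ0 hμ0')
  have hS0 : 0 ≤ ∑ e ∈ Ep D Al s τ τ',
      ((u.B : ℝ) * u'.B) * Vs (SE s.M u.B u.A s.M' u'.B u'.A e) e :=
    Finset.sum_nonneg fun e _ => mul_nonneg (by positivity) (h0 _ _)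
  unfold Xs
  refine max_le hS0 ?_
  linarith

variable {b Mz Mz' : ℕ} {x0 y0 g g' : ℕ × ℕ → ℕ}

open Classical in
/-- **STOPS OF THE CROSS WALK, two nonleaf sides** -/
theorem C_stop (H : CS D ρ Al U P' CL c₀ Ch p0) (hh : YH D sp P W Qp)
    (hQ : ∀ u τ, Qp u τ → SB D ρ Al P' W' U CL c₀ Ch u τ)
    (h : YI D sp Qp RP s u u' τ τ') (hz : FZ D Al b Mz Mz' x0 y0 g g' s u u' τ τ')
    (hL : ¬ isL τ) (hR : ¬ isL τ') (hst : stp2 s.M s.M' s.p) (hMz : 0 < Mz) (hMz' : 0 < Mz')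
    (hmz : ∑ l ∈ US Mz Mz' b, 1 / (l : ℝ) ≤ (b : ℝ) ^ (-(1 / 3) : ℝ))
    {Lo : ℝ × ℝ → ℕ × ℕ → Prop}
    (hLo : ∀ (sc : ℝ × ℝ) (e : ℕ × ℕ) (p : ℕ), p0 ≤ p →
      (p : ℝ) ^ (-(1 / 3) : ℝ) / 2 ≤ SD (x0 e) (y0 e) p → ¬ Lo sc e →
      Tn p ≤ Dsc (ρ e.1) (ρ e.2) sc)
    {Vs : ℝ × ℝ → ℕ × ℕ → ℝ} (h0 : ∀ s e, 0 ≤ Vs s e)
    (hVs : ∀ e ∈ D.PE s.R (D.uA s.M u.B u.A τ s.A 1) (D.uA s.M' u'.B u'.A τ' s.A' 1), e ∈ Ep D Al s τ τ' →
      FL Lo ρ D.γ (SE s.M u.B u.A s.M' u'.B u'.A e) e ≤ Vs (SE s.M u.B u.A s.M' u'.B u'.A e) e)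
    {μ : TrG Λ κ → Finset Λ → ℝ} {B cμ : ℝ} (hcμ : 0 ≤ cμ) (hB : cμ ^ 2 * (Ch ^ 2 + 5) ≤ B)
    (hμ : ∑ j ∈ s.A, mI s.t j ≤ cμ * μ s.t.g s.A)
    (hμ' : ∑ j ∈ s.A', mI s.t' j ≤ cμ * μ s.t'.g s.A') (hμ0 : 0 ≤ μ s.t.g s.A)
    (hμ0' : 0 ≤ μ s.t'.g s.A') :
    Xs μ B s ≤ ∑ e ∈ Ep D Al s τ τ',
      ((u.B : ℝ) * u'.B) * Vs (SE s.M u.B u.A s.M' u'.B u'.A e) e := by
  have hl : ¬ (s.t.isLeaf ∧ s.t'.isLeaf) := by
    intro hl
    apply hL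
    have := hl.1
    rw [h.L.S.eq] at this
    exact (WalkIT579.toDT_leaf D sp _ _ τ).1 this
  obtain ⟨hpp, lwL, lwR⟩ := h.lev hh hl
  have S1 := hQ _ _ h.L.q.self
  have S2 := hQ _ _ h.R.q.self
  have n1 := (nodeOk_hi S1.nq.1 hL).2.1
  have e1 : s.t.top = WalkIT579.tp τ := by rw [h.L.S.eq]; exact WalkIT579.toDT_top D sp _ _ τ
  have t1 : WalkIT579.tp τ ≤ s.p := by rw [← e1]; exact le_max_left _ _
  have hp0 := H.pp0
  have hp : p0 ≤ s.p := by omega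
  have lvl : ∀ {v : NS} {σ : IT}, ¬ isL σ → Lw s.p v σ → ∀ l : ℕ, l.Prime → s.p < l → v.n ≤ l := by
    intro v σ hσ hlw l hl1 hl2
    by_contra hc
    exact absurd (hlw.1.resolve_left hσ l hl1 (not_le.1 hc)) (not_le.2 hl2)
  have han := anat h hz hpp (lvl hL lwL) (lvl hR lwR) (fun q hq => (S1.nq.2 q hq).1)
    (fun q hq => (S2.nq.2 q hq).1) (fun q hq => H.Ut _ hp q hq _ le_rfl) hMz hMz' hmz hst
    (H.num _ hp)
  exact stop_tt H hh hQ h hL hR (fun e he hn => hLo _ e _ hp (han e he) hn) h0 hVs hcμ hB hμ hμ'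
    hμ0 hμ0'

end stop

end Crest.Agent.R4P.CStop25
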