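import Crest.Agent.R4P.World2_363

/-!
R4 (S0004), powers pass, T6, helper30: **close offsets lie in adjacent cells** (kd = cells of the true
offset).

* `cell_up`, `cell_near` : `|t' - t| ≤ (1 - exp (-1/2^j)) |t|` : the cells of depth `j` differ by at
  most one;
* `three_cells` : the accurate items of one labelled class at one place lie in three cells;
* `sq_three` : a sum over three cells, squared.
-/

set_option autoImplicit false

open Finset

namespace Crest.Agent.R4P.Cell330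

open Crest.Agent.R4.W363 (cell brk off)

/-- two breakpoints of one sign: ratio at least `exp (1/2^j)` -/
lemma ratio {ρ₀ : ℝ} (h0 : 0 < ρ₀) {j i i' : ℕ}
    (h : ρ₀ * Real.exp ((i : ℝ) / 2^j) < ρ₀ * Real.exp ((i' : ℝ) / 2^j)) :
    Real.exp (1 / 2^j) * (ρ₀ * Real.exp ((i : ℝ) / 2^j)) ≤ ρ₀ * Real.exp ((i' : ℝ) / 2^j) := by
  have h2 : (0:ℝ) < 2^j := by positivity
  have h3 : Real.exp ((i : ℝ) / 2^j) < Real.exp ((i' : ℝ) / 2^j) := lt_of_mul_lt_mul_left h h0.le
  have h4 := Real.exp_lt_exp.1 h3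
  have h5 : (i : ℝ) < i' := by
    rwa [div_lt_div_iff_of_pos_right h2] at h4
  have h6 : (i : ℝ) + 1 ≤ i' := by exact_mod_cast h5
  have e : Real.exp (1 / 2^j) * (ρ₀ * Real.exp ((i : ℝ) / 2^j)) =
      ρ₀ * Real.exp (((i : ℝ) + 1) / 2^j) := by
    rw [add_div, Real.exp_add]; ring
  rw [e]
  refine mul_le_mul_of_nonneg_left (Real.exp_le_exp.2 ?_) h0.le
  exact div_le_div_of_nonneg_right h6 h2.le

/-- two breakpoints `e < e'` -/
lemma brk_gap {ρ₀ : ℝ} (h0 : 0 < ρ₀) {n j : ℕ} {e e' : ℝ} (he : e ∈ brk ρ₀ n j)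
    (he' : e' ∈ brk ρ₀ n j) (h : e < e') :
    (e < 0 ∧ 0 < e') ∨ (0 < e ∧ Real.exp (1 / 2^j) * e ≤ e') ∨
      (e' < 0 ∧ e ≤ Real.exp (1 / 2^j) * e') := by
  unfold brk at he he'
  rw [Finset.mem_union, Finset.mem_image, Finset.mem_image] at he he'
  have pos : ∀ i : ℕ, 0 < ρ₀ * Real.exp ((i : ℝ) / 2^j) := fun i =>
    mul_pos h0 (Real.exp_pos _)
  rcases he with ⟨i, hi, rfl⟩ | ⟨i, hi, rfl⟩
  · rcases he' with ⟨i', hi', rfl⟩ | ⟨i', hi', rfl⟩
    · exact Or.inr (Or.inl ⟨pos i, ratio h0 h⟩)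
    · exfalso
      have := pos i
      have := pos i'
      linarith
  · rcases he' with ⟨i', hi', rfl⟩ | ⟨i', hi', rfl⟩
    · left
      have := pos i
      have := pos i'
      exact ⟨by linarith, by linarith⟩
    · right; right
      have h5 : ρ₀ * Real.exp ((i' : ℝ) / 2^j) < ρ₀ * Real.exp ((i : ℝ) / 2^j) := by linarith
      have h6 := ratio h0 h5
      have := pos i'
      exact ⟨by linarith, by linarith⟩

/-- at most one breakpoint between `t` and `t'` -/
lemma cell_up {ρ₀ : ℝ} (h0 : 0 < ρ₀) {n j : ℕ} {t t' : ℝ} (htt : t ≤ t')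
    (hs : 0 < t ∨ t' < 0 ∨ t = t')
    (h1 : 0 < t → t' < Real.exp (1 / 2^j) * t ∨ t' = Real.exp (1 / 2^j) * t)
    (h2 : t' < 0 → Real.exp (1 / 2^j) * t' ≤ t) :
    cell (brk ρ₀ n j) t' ≤ cell (brk ρ₀ n j) t + 1 := by
  classical
  unfold cell
  have hsub : (brk ρ₀ n j).filter (· ≤ t) ⊆ (brk ρ₀ n j).filter (· ≤ t') := by
    intro e he
    rw [Finset.mem_filter] at he ⊢
    exact ⟨he.1, he.2.trans htt⟩
  have hcard : (((brk ρ₀ n j).filter (· ≤ t')) \ ((brk ρ₀ n j).filter (· ≤ t))).card ≤ 1 := by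
    rw [Finset.card_le_one]
    intro a ha b hb
    rw [Finset.mem_sdiff, Finset.mem_filter, Finset.mem_filter] at ha hb
    obtain ⟨⟨a1, a2⟩, a3⟩ := ha
    obtain ⟨⟨b1, b2⟩, b3⟩ := hb
    have a4 : t < a := by
      by_contra hc
      exact a3 ⟨a1, not_lt.1 hc⟩
    have b4 : t < b := by
      by_contra hc
      exact b3 ⟨b1, not_lt.1 hc⟩
    have key : ∀ e e' : ℝ, e ∈ brk ρ₀ n j → e' ∈ brk ρ₀ n j → t < e → e' ≤ t' → ¬ e < e' := by
      intro e e' me me' te te' hlt
      have hexp : 1 < Real.exp (1 / 2^j) := Real.one_lt_exp_iff.2 (by positivity)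
      rcases hs with hs | hs | hs
      · rcases brk_gap h0 me me' hlt with ⟨g1, g2⟩ | ⟨g1, g2⟩ | ⟨g1, g2⟩
        · linarith
        · have h3 : Real.exp (1 / 2^j) * t < Real.exp (1 / 2^j) * e :=
            mul_lt_mul_of_pos_left te (Real.exp_pos _)
          rcases h1 hs with h4 | h4 <;> linarith
        · linarith
      · have h3 := h2 hs
        rcases brk_gap h0 me me' hlt with ⟨g1, g2⟩ | ⟨g1, g2⟩ | ⟨g1, g2⟩
        · linarith
        · linarith
        · have h4 : Real.exp (1 / 2^j) * e' ≤ Real.exp (1 / 2^j) * t' :=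
            mul_le_mul_of_nonneg_left te' (Real.exp_pos _).le
          linarith
      · linarith
    rcases lt_trichotomy a b with h3 | h3 | h3
    · exact absurd h3 (key a b a1 b1 a4 b2)
    · exact h3
    · exact absurd h3 (key b a b1 a1 b4 a2)
  have h3 := Finset.card_sdiff_add_card_eq_card hsub
  omega

/-- **close offsets lie in adjacent cells** -/
theorem cell_near {ρ₀ : ℝ} (h0 : 0 < ρ₀) {n j : ℕ} {t t' : ℝ}
    (h : |t' - t| ≤ (1 - Real.exp (-(1 / 2^j))) * |t|) :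
    cell (brk ρ₀ n j) t' ≤ cell (brk ρ₀ n j) t + 1 ∧
      cell (brk ρ₀ n j) t ≤ cell (brk ρ₀ n j) t' + 1 := by
  set x : ℝ := 1 / 2^j with hx
  have hx0 : 0 < x := by positivity
  have e1 : Real.exp x * Real.exp (-x) = 1 := by rw [← Real.exp_add, add_neg_cancel, Real.exp_zero]
  have hp := Real.exp_pos x
  have hm := Real.exp_pos (-x)
  have hx1 : 1 < Real.exp x := Real.one_lt_exp_iff.2 hx0
  have hm1 : Real.exp (-x) < 1 := by nlinarith
  have hsum : 2 ≤ Real.exp x + Real.exp (-x) := by nlinarith [sq_nonneg (Real.exp x - 1)]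
  obtain ⟨g1, g2⟩ := abs_le.1 h
  have mono : ∀ {a b : ℝ}, a ≤ b → cell (brk ρ₀ n j) a ≤ cell (brk ρ₀ n j) b := by
    classical
    intro a b hab
    unfold cell
    refine Finset.card_le_card fun e he => ?_
    rw [Finset.mem_filter] at he ⊢
    exact ⟨he.1, he.2.trans hab⟩
  rcases lt_trichotomy t 0 with ht | ht | ht
  · rw [abs_of_neg ht] at g1 g2
    have k1 : t' ≤ Real.exp (-x) * t := by nlinarith
    have k2 : Real.exp x * t ≤ t' := by nlinarith
    have k3 : t' < 0 := by nlinarith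
    rcases le_total t t' with hle | hle
    · refine ⟨cell_up h0 hle (Or.inr (Or.inl k3)) (fun hh => absurd hh (by linarith))
        (fun _ => ?_), (mono hle).trans (Nat.le_succ _)⟩
      calc Real.exp x * t' ≤ Real.exp x * (Real.exp (-x) * t) := mul_le_mul_of_nonneg_left k1 hp.le
        _ = t := by rw [← mul_assoc, e1, one_mul]
    · refine ⟨(mono hle).trans (Nat.le_succ _), cell_up h0 hle (Or.inr (Or.inl ht))
        (fun hh => absurd hh (by linarith)) (fun _ => k2)⟩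
  · subst ht
    have : t' = 0 := by
      rw [abs_zero, mul_zero] at h
      have := abs_nonpos_iff.1 h
      linarith
    subst this
    exact ⟨Nat.le_succ _, Nat.le_succ _⟩
  · rw [abs_of_pos ht] at g1 g2
    have k1 : Real.exp (-x) * t ≤ t' := by nlinarith
    have k2 : t' ≤ Real.exp x * t := by nlinarith
    have k3 : 0 < t' := lt_of_lt_of_le (mul_pos hm ht) k1
    rcases le_total t t' with hle | hle
    · refine ⟨cell_up h0 hle (Or.inl ht) (fun _ => lt_or_eq_of_le k2)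
        (fun hh => absurd hh (by linarith)), (mono hle).trans (Nat.le_succ _)⟩
    · refine ⟨(mono hle).trans (Nat.le_succ _), cell_up h0 hle (Or.inl k3) (fun _ => ?_)
        (fun hh => absurd hh (by linarith))⟩
      refine lt_or_eq_of_le ?_
      calc t = Real.exp x * (Real.exp (-x) * t) := by rw [← mul_assoc, e1, one_mul]
        _ ≤ Real.exp x * t' := mul_le_mul_of_nonneg_left k1 hp.le

/-- the offset to the exact centre is `(y - c) / (A B)` -/
lemma off_centre {A B W q : ℕ} (hA : 0 < A) (hB : 0 < B) (hW : 0 < W) (hq : q = A * W)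
    {γ σ y z c : ℝ} {a : ℤ} (hz : (B:ℝ) * z = W * y - B * γ - a) (hc : c = (a + B * σ) / W) :
    off γ σ q z = (y - c) / (A * B) := by
  have hA' : (0:ℝ) < A := by exact_mod_cast hA
  have hB' : (0:ℝ) < B := by exact_mod_cast hB
  have hW' : (0:ℝ) < W := by exact_mod_cast hW
  have h1 : (z + (γ - σ)) * B = W * (y - c) := by
    rw [hc]
    field_simp
    linarith
  unfold off
  rw [hq]
  push_cast
  rw [div_eq_div_iff (by positivity) (by positivity)]
  calc (z + (γ - σ)) * (A * B) = A * ((z + (γ - σ)) * B) := by ring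
    _ = A * (W * (y - c)) := by rw [h1]
    _ = (y - c) * (A * W) := by ring

/-- **three cells**: `t₀ = (y - c) / (A B)` = the offset to the exact centre; an accurate item
(`|γ - σ| ≤ η r`) whose point is not in the part near the centre (`r ≤ D q |t₀|`), with its piece
shorter than `δ` (offset units), lies in the cell of `t₀` or in a neighbour -/
theorem three_cells {ρ₀ : ℝ} (h0 : 0 < ρ₀) {n j q : ℕ} (hq : 0 < q) {γ σ z b r η D δ t₀ : ℝ}
    (ht : off γ σ q z = t₀) (hη : |γ - σ| ≤ η * r) (hη0 : 0 ≤ η) (hD : r ≤ D * q * |t₀|)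
    (hb : |off γ γ q b - off γ γ q z| ≤ δ)
    (hs : η * D * |t₀| + δ ≤ (1 - Real.exp (-(1 / 2^j))) * |t₀|) :
    cell (brk ρ₀ n j) (off γ γ q b) ≤ cell (brk ρ₀ n j) t₀ + 1 ∧
      cell (brk ρ₀ n j) t₀ ≤ cell (brk ρ₀ n j) (off γ γ q b) + 1 := by
  have hq' : (0:ℝ) < q := by exact_mod_cast hq
  refine cell_near h0 (le_trans ?_ hs)
  have h1 : off γ γ q z - t₀ = -((γ - σ) / q) := by
    rw [← ht]
    unfold off
    rw [sub_self, add_zero]
    ring
  have h2 : |off γ γ q z - t₀| ≤ η * D * |t₀| := by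
    rw [h1, abs_neg, abs_div, Nat.abs_cast, div_le_iff₀ hq']
    calc |γ - σ| ≤ η * r := hη
      _ ≤ η * (D * q * |t₀|) := mul_le_mul_of_nonneg_left hD hη0
      _ = η * D * |t₀| * q := by ring
  calc |off γ γ q b - t₀| = |(off γ γ q b - off γ γ q z) + (off γ γ q z - t₀)| := by ring_nf
    _ ≤ |off γ γ q b - off γ γ q z| + |off γ γ q z - t₀| := abs_add_le _ _
    _ ≤ η * D * |t₀| + δ := by linarith

/-- a family supported on three cells, squared -/
lemma sq_three {β : Type*} [DecidableEq β] {S : Finset β} (f : β → ℝ) (hc : S.card ≤ 3) :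
    (∑ F ∈ S, f F) ^ 2 ≤ 3 * ∑ F ∈ S, f F ^ 2 := by
  have h1 := sq_sum_le_card_mul_sum_sq (s := S) (f := f)
  have h2 : 0 ≤ ∑ F ∈ S, f F ^ 2 := Finset.sum_nonneg fun _ _ => sq_nonneg _
  have h3 : (S.card : ℝ) ≤ 3 := by exact_mod_cast hc
  nlinarith

/-- **the classes through the cells**: every class `z` meets at most three cells `F` -/
theorem classes_le_cells {α β : Type*} [Fintype α] [Fintype β] [DecidableEq β] {f : α → β → ℝ}
    (h0 : ∀ z F, 0 ≤ f z F) {S : α → Finset β} (hS : ∀ z, (S z).card ≤ 3)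
    (hz : ∀ z F, F ∉ S z → f z F = 0) :
    ∑ z, (∑ F, f z F) ^ 2 ≤ 3 * ∑ F, (∑ z, f z F) ^ 2 := by
  have h1 : ∀ z, (∑ F, f z F) ^ 2 ≤ 3 * ∑ F, f z F ^ 2 := by
    intro z
    have e : ∑ F, f z F = ∑ F ∈ S z, f z F :=
      (Finset.sum_subset (Finset.subset_univ _) fun F _ hF => hz z F hF).symm
    rw [e]
    refine (sq_three _ (hS z)).trans ?_
    refine mul_le_mul_of_nonneg_left ?_ (by norm_num)
    exact Finset.sum_le_sum_of_subset_of_nonneg (Finset.subset_univ _) fun _ _ _ => sq_nonneg _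
  have h2 : ∀ F, ∑ z, f z F ^ 2 ≤ (∑ z, f z F) ^ 2 := fun F =>
    Finset.sum_sq_le_sq_sum_of_nonneg fun z _ => h0 z F
  calc ∑ z, (∑ F, f z F) ^ 2 ≤ ∑ z, 3 * ∑ F, f z F ^ 2 := Finset.sum_le_sum fun z _ => h1 z
    _ = 3 * ∑ F, ∑ z, f z F ^ 2 := by rw [← Finset.mul_sum, Finset.sum_comm]
    _ ≤ 3 * ∑ F, (∑ z, f z F) ^ 2 :=
        mul_le_mul_of_nonneg_left (Finset.sum_le_sum fun F _ => h2 F) (by norm_num)

end Crest.Agent.R4P.Cell330
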