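import Crest.Agent.R4P.DseTk_23

/-!
R4 (S0004), powers pass, helper17 ([chokU], TgtCrs): **the children which may be `up` nodes**: the copy
of `DseKid_23`, `DseKs_23`, `DseSp_23`, `DseCd_23` (helper23) for the relation
`RC = Dr (rho p) \\ Dr (rho (tp τ))` of a non-leaf child `τ`, possibly an `up` node.
-/

set_option autoImplicit false
set_option linter.unusedSectionVars false
set_option linter.unusedVariables false

open MeasureTheory Filter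

namespace Crest.Agent.R4P.ChU17

open Crest.Agent.R4P.Cnt588 Crest.Agent.R4P.Item758 Crest.Agent.R4P.W363
open Crest.Agent.R4P.Data758 Crest.Agent.R4P.LfDat734 Crest.Agent.R4P.OmSt532
open Crest.Agent.R4P.OmData532 Crest.Agent.R4P.WPex189
open Crest.Agent.R4P.Bld532 (NS All NodeOk Bk)
open Crest.Agent.R4P.Step588 (NDt ND1 ctx_NDt uq_lt)
open Crest.Agent.R4P.WalkIT579 (tp isL nodeOk_hi top_of_nodeOk)
open Crest.Agent.R4P.Skel189 Crest.Agent.R4P.RseSt23 Crest.Agent.R4P.RseNd23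
open Crest.Agent.R4P.PairR23 (iF_rel_le)
open Crest.Agent.R4.ClosL758 Crest.Agent.R4.ClosR758 Crest.Agent.R4.Tour104 Crest.Agent.R4.Fam464
open Crest.Agent.R4.Tour758 Crest.Agent.R4.Avg758 Crest.Agent.R4.ClosG758
open Crest.Agent.R4P.Frame758
open Crest.Agent.R4.Soft104 (w)
open Crest.Agent.R4.LF363 (Lab)
open Crest.Agent.R4.HVW560 (cof wt)
open Crest.Agent.R4.InX944 (DP)
open Crest.Agent.R4.AvgItem710 (Dp mul_cof mul_cof' cof_pos cof_coprime exists_of_I_ne)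
open Crest.Agent.R4P.StB21
open Crest.Agent.R4P.DseCh23 (hd hu hu_c hu_A hu_B lvl cE eD)
open Crest.Agent.R4P.DseN23
open Crest.Agent.R4P.DseKid23 (KB DH stK wpK thK stK_leaf stK_node wpK_leaf wpK_node lvl_node
  thK_leaf thK_node isL_iff crK ret_sep ixK ixK_kept ixK_same pt_kid)
open Crest.Agent.R4

section ctx
variable {N : Skel189.Num} {γ : ℝ} {p0 P₀ : ℕ}

/-- **a child `(u, τ)` of a node `(v, V)`**, not a leaf, possibly an `up` node -/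
structure Kid (X : Ctx N γ p0 P₀) (v : NS) (V : IT) (u : NS) (τ : IT) : Prop where
  hv : NF X v V
  lV : ¬ isL V
  lvV : LvF X v V
  hu : NF X u τ
  lU : ¬ isL τ
  lvu : LvF X u τ
  sub : τ.items ⊆ V.items
  B : u.B = v.B ∨ u.B = v.B * tp V
  n : u.n ≤ tp V + 1
  lf : ∀ S, τ = .leaf S → LeafF X.par (w X.ψ) X.c.t (top X.S) u S 1
  ms : u.c * Ws (w X.ψ) τ.items ≤ 4 * Real.log u.n ^ (N.B + N.c2)

lemma kid_of {X : Ctx N γ p0 P₀} {v : NS} {V : IT} (hv : KB X v V) (lV : ¬ isL V) {s : NS} {t : IT}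
    (h1 : KB X s t) (lU : ¬ isL t) (hsub : t.items ⊆ V.items) (hB : s.B = v.B ∨ s.B = v.B * tp V)
    (hn : s.n ≤ tp V + 1) : Kid X v V s t :=
  { hv := hv.nf
    lV := lV
    lvV := hv.lv
    hu := h1.nf
    lU := lU
    lvu := h1.lv
    sub := hsub
    B := hB
    n := hn
    lf := h1.lf
    ms := h1.ms }

/-- the pairs of one world at `p` which are not in one world at the column of the child -/
noncomputable def RC (X : Ctx N γ p0 P₀) (Y : Finset (ℕ × ℕ × Finset ℕ)) (p : ℕ) (u : NS) (τ : IT) :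
    Finset (X.c.Lam × X.c.Lam) :=
  Dr ((X.c.D.par Y).rho p) \ Dr ((X.c.D.par Y).rho (tp τ))

/-- **the energy of the child** `(u, τ)` of a node with column `p` -/
noncomputable def ChE (X : Ctx N γ p0 P₀) (Y : Finset (ℕ × ℕ × Finset ℕ)) (A : Finset X.c.Lam)
    (p : ℕ) (u : NS) (τ : IT) : ℝ :=
  Q (RC X Y p u τ) (Uv X Y u τ A) (Uv X Y u τ A)

/-- the bound of a child -/
def ChOk (X : Ctx N γ p0 P₀) (Y : Finset (ℕ × ℕ × Finset ℕ)) (A : Finset X.c.Lam) (W : X.c.Lam → ℝ)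
    (ε : ℕ → NS → IT → X.c.Lam → ℝ) (p : ℕ) (u : NS) (τ : IT) : Prop :=
  ChE X Y A p u τ ≤ u.c * ∑ j ∈ A.filter (fun j => X.c.D.it j ∈ τ.items), W j * ε p u τ j

/-- **the relation of a child** -/
lemma mem_RC_node {X : Ctx N γ p0 P₀} {Y : Finset (ℕ × ℕ × Finset ℕ)} {p : ℕ} {u : NS} {τ : IT}
    {x : X.c.Lam × X.c.Lam} :
    x ∈ RC X Y p u τ ↔ X.c.world p x.1.1 = X.c.world p x.2.1 ∧
      X.c.world (tp τ) x.1.1 ≠ X.c.world (tp τ) x.2.1 := by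
  unfold RC
  rw [Finset.mem_sdiff]
  unfold Dr
  rw [Finset.mem_filter, Finset.mem_filter]
  have h1 : (X.c.D.par Y).rho p x.1 = (X.c.D.par Y).rho p x.2 ↔ _ :=
    (X.c.D.rho_eq Y p x.1 x.2).trans (Cf.D_rho X.c p x.1 x.2)
  have h2 : (X.c.D.par Y).rho (tp τ) x.1 = (X.c.D.par Y).rho (tp τ) x.2 ↔ _ :=
    (X.c.D.rho_eq Y (tp τ) x.1 x.2).trans (Cf.D_rho X.c (tp τ) x.1 x.2)
  rw [h1, h2]
  simp only [Finset.mem_univ, true_and, ne_eq]

/-- the column of the child is the column of the parent: nothing happens -/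
lemma ChE_same {X : Ctx N γ p0 P₀} {Y : Finset (ℕ × ℕ × Finset ℕ)} {A : Finset X.c.Lam}
    {u : NS} {τ : IT} : ChE X Y A (tp τ) u τ = 0 := by
  have h : RC X Y (tp τ) u τ = ∅ := by
    rw [Finset.eq_empty_iff_forall_notMem]
    intro x hx
    rw [mem_RC_node] at hx
    exact hx.2 hx.1
  unfold ChE
  rw [h]
  unfold Q
  exact Finset.sum_empty

end ctx

section ctx
variable {N : Skel189.Num} {γ : ℝ} {p0 P₀ : ℕ} {X : Ctx N γ p0 P₀} {v u : NS} {V τ : IT}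

/-! ### levels -/

lemma Kid.tpV (h : Kid X v V u τ) : (tp V).Prime ∧ p0 < tp V ∧ tp V < v.n := by
  obtain ⟨k1, k2, k3⟩ := top_of_nodeOk h.hv.nd.self.node h.lV
  exact ⟨k1, (nodeOk_hi h.hv.nd.self.node h.lV).2.1, k2⟩

lemma Kid.tpVt (h : Kid X v V u τ) : tp V ≤ top X.S := h.tpV.2.2.le.trans h.hv.lvl

/-- the level of a child which is not a leaf -/
lemma Kid.node (h : Kid X v V u τ) (hl : ¬ isL τ) :
    (tp τ).Prime ∧ p0 < tp τ ∧ tp τ < u.n ∧ tp τ ≤ tp V := by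
  obtain ⟨k1, k2, k3⟩ := top_of_nodeOk h.hu.nd.self.node hl
  refine ⟨k1, (nodeOk_hi h.hu.nd.self.node hl).2.1, k2, ?_⟩
  have := h.n
  omega

/-- level of the items of a leaf -/
lemma Kid.lvq {S : Finset ℕ} (h : Kid X v V u (.leaf S)) {q : ℕ} (hq : q ∈ S) :
    X.c.lv q = u.n - 1 := by
  rw [X.lv]; exact (h.lf S rfl).lvl q hq

lemma Kid.lvl_le (h : Kid X v V u τ) : lvl u τ ≤ tp V := by
  by_cases hl : isL τ
  · obtain ⟨S, rfl⟩ := isL_iff.1 hl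
    have := h.n
    show u.n - 1 ≤ tp V
    omega
  · rw [lvl_node hl]
    exact (h.node hl).2.2.2

lemma Kid.lvl_ge (h : Kid X v V u τ) {q : ℕ} (hq : q ∈ τ.items) : p0 ≤ lvl u τ := by
  by_cases hl : isL τ
  · obtain ⟨S, rfl⟩ := isL_iff.1 hl
    show p0 ≤ u.n - 1
    rw [← h.lvq hq]
    exact (h.lvV h.lV q (h.sub hq)).1
  · rw [lvl_node hl]
    exact (h.node hl).2.1.le

/-- a prime above the level of the child is at least `u.n` -/
lemma Kid.prime_ge (h : Kid X v V u τ) {b : ℕ} (hb : b.Prime) (hlt : lvl u τ < b) : u.n ≤ b := by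
  by_cases hl : isL τ
  · obtain ⟨S, rfl⟩ := isL_iff.1 hl
    have : u.n - 1 < b := hlt
    omega
  · rw [lvl_node hl] at hlt
    rcases Crest.Agent.R4P.WalkIT579.prime_ge h.hu.nd.self.node hl hb hlt.le with h1 | h1
    · omega
    · exact h1

lemma Kid.B_pos (h : Kid X v V u τ) : (0:ℝ) < u.B := by exact_mod_cast h.hu.nd.B_pos

/-! ### transitions of the states -/

/-- **thin at the child**: the state is the label of the present stage -/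
theorem K_thin (hT : TH X) (h : Kid X v V u τ) {q : ℕ} (hq : q ∈ τ.items)
    (hthin : (u.B : ℝ) * X.c.r q ≤ thK X u τ) : stK X τ q = lab0 X.c.γ (X.c.r q) u.B := by
  by_cases hl : isL τ
  · obtain ⟨S, rfl⟩ := isL_iff.1 hl
    rw [stK_leaf]
    rw [thK_leaf, ← h.lvq hq] at hthin
    exact leaf_th (h.lf S rfl) hq hthin
  · rw [stK_node hl]
    rw [thK_node hl] at hthin
    exact node_thin hT h.hu.nd hl hq hthin

/-- **fat at the child**: a label of the column is kept -/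
theorem K_keep (hT : TH X) (h : Kid X v V u τ) {q : ℕ} (hq : q ∈ τ.items) (hqs : q ∈ X.S')
    (hfat : thK X u τ < (u.B : ℝ) * X.c.r q) {σ : ℚ} (hσ : X.c.st (tp V) q = some σ) :
    stK X τ q = some σ := by
  have hqV := h.sub hq
  by_cases hl : isL τ
  · obtain ⟨S, rfl⟩ := isL_iff.1 hl
    rw [stK_leaf]
    rw [thK_leaf, ← h.lvq hq] at hfat
    obtain ⟨a1, a2⟩ := h.lvV h.lV q hqV
    rcases h.B with hB | hB
    · rw [leaf_same_fat hT h.hv.nd h.hv.rd h.lV (h.lf S rfl) hqV hq hqs hB a1 a2 hfat, hσ]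
    · rw [leaf_miss_fat hT h.hv.nd h.lV (h.lf S rfl) h.hu.nd h.hu.rd hqV hq hqs hB hfat, hσ]
  · rw [stK_node hl]
    rw [thK_node hl] at hfat
    rcases h.B with hB | hB
    · rw [node_same_fat hT h.hv.nd h.hu.nd h.lV hl hqV hq hB (h.node hl).2.2.2 hfat, hσ]
    · exact node_miss_some hT h.hv.nd h.hu.nd h.hu.rd h.lV hl hqV hq hqs hB hfat hσ

/-- **same stage: no birth** -/
theorem K_none (hT : TH X) (h : Kid X v V u τ) {q : ℕ} (hq : q ∈ τ.items) (hqs : q ∈ X.S')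
    (hB : u.B = v.B) (hn : X.c.st (tp V) q = none) : stK X τ q = none := by
  have hqV := h.sub hq
  by_cases hl : isL τ
  · obtain ⟨S, rfl⟩ := isL_iff.1 hl
    rw [stK_leaf]
    obtain ⟨a1, a2⟩ := h.lvV h.lV q hqV
    exact leaf_none hT h.hv.nd h.hv.rd h.lV (h.lf S rfl) hqV hq hqs hB a1 a2 hn
  · rw [stK_node hl]
    obtain ⟨a1, a2⟩ := h.lvu hl q hq
    exact node_same_none hT h.hv.nd h.hu.nd h.lV hl hqV hq hB (h.node hl).2.2.2 a1 a2 hn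

/-- **missing tie: a new label of a fat item is a label of the present stage** -/
theorem K_fatN (hT : TH X) (h : Kid X v V u τ) {q : ℕ} (hq : q ∈ τ.items) (hqs : q ∈ X.S')
    (hB : u.B = v.B * tp V) (hfat : thK X u τ < (u.B : ℝ) * X.c.r q)
    (hn : X.c.st (tp V) q = none) {σ : ℚ} (hσ : stK X τ q = some σ) :
    lab0 X.c.γ (X.c.r q) u.B = some σ := by
  have hqV := h.sub hq
  by_cases hl : isL τ
  · obtain ⟨S, rfl⟩ := isL_iff.1 hl
    rw [stK_leaf] at hσ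
    rw [thK_leaf, ← h.lvq hq] at hfat
    rw [leaf_miss_fat hT h.hv.nd h.lV (h.lf S rfl) h.hu.nd h.hu.rd hqV hq hqs hB hfat, hn] at hσ
    exact absurd hσ (by simp)
  · rw [stK_node hl] at hσ
    rw [thK_node hl] at hfat
    obtain ⟨a1, a2⟩ := node_miss_none hT h.hv.nd h.hu.nd h.hu.rd h.lV hl hqV hq hqs hB hfat hn
    by_cases hb : bt X.c (tp τ) q
    · rw [← a1 hb]; exact hσ
    · rw [a2 hb] at hσ
      exact absurd hσ (by simp)

/-- **missing tie**: thin at the column, the state is the label of the stage -/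
theorem K_miss (hT : TH X) (h : Kid X v V u τ) {q : ℕ} (hq : q ∈ τ.items) (hqs : q ∈ X.S')
    (hB : u.B = v.B * tp V) : (v.B : ℝ) * X.c.r q ≤ X.c.wp.thr (tp V) ∧
      X.c.st (tp V) q = lab0 X.c.γ (X.c.r q) v.B :=
  ⟨miss_thin hT h.hv.nd h.lV h.hu.nd h.hu.rd hq hqs hB,
    miss_st hT h.hv.nd h.lV h.hu.nd h.hu.rd (h.sub hq) hq hqs hB⟩


end ctx

section ctx
variable {N : Skel189.Num} {γ : ℝ} {p0 P₀ : ℕ} {X : Ctx N γ p0 P₀} {v u : NS} {V τ : IT}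

/-- a retained prime above the level of the child -/
lemma Kid.uq_sep (h : Kid X v V u τ) {q r b : ℕ} (hq : q ∈ τ.items) (hr : r ∈ τ.items)
    (hb : b.Prime) (hlt : lvl u τ < b) (h1 : b ∈ X.c.t.uq q) (h2 : b ∉ X.c.t.uq r) :
    b ∣ q / u.A ∧ ¬ b ∣ r / u.A :=
  ⟨h.hu.nd.rt_dvd hq h1, fun h4 => h2 ((h.hu.nd.uq_ge X.tOk hr (h.prime_ge hb hlt)).2 ⟨hb, h4⟩)⟩

/-- a prime of a modulus above the level of the child is retained -/
lemma Kid.uq_of (h : Kid X v V u τ) {q b : ℕ} (hq : q ∈ τ.items)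
    (hb : b.Prime) (hlt : lvl u τ < b) (hd : b ∣ q / u.A) : b ∈ X.c.t.uq q :=
  (h.hu.nd.uq_ge X.tOk hq (h.prime_ge hb hlt)).2 ⟨hb, hd⟩

/-- **separation at a child** -/
theorem kid_sep (hD : DH X) (h : Kid X v V u τ) {Y : Finset (ℕ × ℕ × Finset ℕ)}
    {x : X.c.Lam × X.c.Lam} (hx : x ∈ RC X Y (tp V) u τ) (i1 : x.1.1.1 ∈ τ.items)
    (i2 : x.2.1.1 ∈ τ.items) (s1 : x.1.1.1 ∈ X.S') (s2 : x.2.1.1 ∈ X.S') {z z' : ℝ}
    (z1 : X.c.D.al x.1 ≤ z) (z2 : z < X.c.D.be x.1) (z3 : X.c.D.al x.2 ≤ z')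
    (z4 : z' < X.c.D.be x.2) (hix : ixK X u τ x.1.1.1 z = ixK X u τ x.2.1.1 z') :
    (∃ b : ℕ, b.Prime ∧ lvl u τ < b ∧ b ≤ tp V ∧
      (b ∣ x.1.1.1 / u.A ∧ ¬ b ∣ x.2.1.1 / u.A ∨ b ∣ x.2.1.1 / u.A ∧ ¬ b ∣ x.1.1.1 / u.A)) ∨
    (crK u V τ ∧ (2 ^ lvl u τ ≤ cof (x.1.1.1 / u.A) (x.2.1.1 / u.A) ∨
      2 ^ lvl u τ ≤ cof (x.2.1.1 / u.A) (x.1.1.1 / u.A))) := by
  by_cases hl : isL τ
  · exact absurd hl h.lU
  · rw [mem_RC_node] at hx
    obtain ⟨hw, hne⟩ := hx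
    obtain ⟨n1, n2, n3, n4⟩ := h.node hl
    have hle : tp τ ≤ top X.S := n4.trans h.tpVt
    have hlv : lvl u τ = tp τ := lvl_node hl
    have hixw : (X.c.world (tp τ) x.1.1).1 = (X.c.world (tp τ) x.2.1).1 := by
      have hh := hix
      unfold ixK at hh
      rw [wpK_node hl, stK_node hl, stK_node hl, hlv] at hh
      rw [X.ok.ix_point hle x.1 z1 z2, X.ok.ix_point hle x.2 z3 z4] at hh
      exact hh
    have hrt : ret X.c.t (tp τ) x.1.1.1 ≠ ret X.c.t (tp τ) x.2.1.1 ∨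
        X.c.tg (tp τ) x.1.1.1 ≠ X.c.tg (tp τ) x.2.1.1 := by
      by_contra hc
      push Not at hc
      exact hne (Prod.ext hixw (Prod.ext hc.1 hc.2))
    have hrp : ret X.c.t (tp V) x.1.1.1 = ret X.c.t (tp V) x.2.1.1 :=
      congrArg (fun t => t.2.1) hw
    have htp : X.c.tg (tp V) x.1.1.1 = X.c.tg (tp V) x.2.1.1 :=
      congrArg (fun t => t.2.2) hw
    rcases hrt with hret | htag
    · left
      obtain ⟨b, hb, hb0, hbp, hh⟩ := ret_sep X.tOk hret hrp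
      rw [hlv]
      rcases hh with ⟨h1, h2⟩ | ⟨h1, h2⟩
      · exact ⟨b, hb, hb0, hbp, Or.inl (h.uq_sep i1 i2 hb (by rw [hlv]; exact hb0) h1 h2)⟩
      · exact ⟨b, hb, hb0, hbp, Or.inr (h.uq_sep i2 i1 hb (by rw [hlv]; exact hb0) h1 h2)⟩
    · right
      refine ⟨⟨hl, ?_⟩, ?_⟩
      · by_contra hc
        refine htag (hD.tg (tp τ) (tp V) n2 n4 (le_antisymm (Nat.log_mono_right n4) (not_lt.1 hc))
          _ _ htp)
      · rw [hlv, cof_div h.hu.nd.A_pos (h.hu.nd.bk.dvd _ i1) (h.hu.nd.bk.dvd _ i2),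
          cof_div h.hu.nd.A_pos (h.hu.nd.bk.dvd _ i2) (h.hu.nd.bk.dvd _ i1)]
        exact hD.rse.sep (tp τ) n2 hle _ s1 _ s2 htag

/-- **alive pieces**: a retained prime of one item of an exact alive pair, not dividing the other
modulus, divides the denominator of the other label -/
theorem kid_alive (h : Kid X v V u τ) {q : ℕ} (hq : q ∈ τ.items) {σ : ℚ}
    (hσ : stK X τ q = some σ) {b : ℕ} (hb : b.Prime) (hlt : lvl u τ < b) (hbw : b ∣ q / u.A)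
    {z : ℝ} {a : ℤ} (ha : X.c.om q z ((mp τ q : ℕ) * a) ≠ 0) {W' : ℕ} (hbW : ¬ b ∣ W') {σ' : ℚ}
    {a' : ℤ} (hex : ((a:ℝ) + ((u.B * σ : ℚ) : ℝ)) * W' = ((a':ℝ) + σ') * (q / u.A : ℕ)) :
    b ∣ σ'.den := by
  have hbu := h.uq_of hq hb hlt hbw
  by_cases hl : isL τ
  · obtain ⟨S, rfl⟩ := isL_iff.1 hl
    rw [stK_leaf] at hσ
    by_contra hden
    apply ha
    have hnd := h.hu.nd
    have hq' : q ∈ X.c.t.items := hnd.self.sub hq
    have hle := X.om_le q z (((mp (.leaf S) q : ℕ) : ℤ) * a)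
    have h0 : omL X.c.wp X.c.wpL X.c.γ X.c.r X.c.t X.c.lv X.c.S' q
        (((mp (.leaf S) q : ℕ) : ℤ) * a) = 0 := by
      unfold omL omT
      have hd := hnd.rd q hq' b hbu
      have hpp : 0 < q / Item758.pp X.c.t q := by
        have h1 := hnd.dvd q hq'
        have h2 := hnd.pos q hq'
        exact Nat.div_pos (Nat.le_of_dvd h2 h1) (Nat.pos_of_dvd_of_pos h1 h2)
      refine omw_zero (l := b) (Nat.mem_primeFactors.2 ⟨hb, hd, hpp.ne'⟩) hbu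
        (ρ := (mp X.c.t q : ℚ) * σ) (lab_mem_TE hbu ?_) ?_
      · unfold labL
        have : stL X.c.wpL X.c.γ X.c.r X.c.t X.c.lv q = some σ := hσ
        rw [this]
      · have e1 := hnd.self.mp q hq
        exact dead_core hb hbw hbW hden (τ := (u.B : ℚ) * σ) (τ' := σ')
          (m := ((mp (.leaf S) q : ℕ) : ℤ)) (by rw [e1]; push_cast; ring) hex
    have hnn : 0 ≤ X.c.om q z (((mp (.leaf S) q : ℕ) : ℤ) * a) := by
      have hS : q ∈ X.c.S := by rw [← X.ok.items]; exact hq'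
      exact (X.ok.wt q hS z).nonneg _
    rw [h0] at hle
    exact le_antisymm hle hnn
  · rw [stK_node hl] at hσ
    exact alive_den h.hu.nd hq le_rfl hl hσ hbu (by rw [lvl_node hl] at hlt; exact hlt.le) hbw ha
      hbW hex


end ctx

section ctx
variable {N : Skel189.Num} {γ : ℝ} {p0 P₀ : ℕ} {X : Ctx N γ p0 P₀} {v u : NS} {V τ : IT}

/-- the pairs of a child are in one world of the column -/
lemma RC_world {Y : Finset (ℕ × ℕ × Finset ℕ)} {p : ℕ} {x : X.c.Lam × X.c.Lam}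
    (hx : x ∈ RC X Y p u τ) : X.c.world p x.1.1 = X.c.world p x.2.1 := by
  unfold RC at hx
  rw [Finset.mem_sdiff] at hx
  have h1 := hx.1
  unfold Dr at h1
  rw [Finset.mem_filter] at h1
  exact ((X.c.D.rho_eq Y p x.1 x.2).trans (Cf.D_rho X.c p x.1 x.2)).1 h1.2

/-- a pair of pieces of a child with a common point -/
structure PtK (X : Ctx N γ p0 P₀) (Y : Finset (ℕ × ℕ × Finset ℕ)) (A : Finset X.c.Lam) (V : IT)
    (u : NS) (τ : IT) (e : ℕ × ℕ) (j j' : X.c.Lam) (y z z' : ℝ) (a a' : ℤ) : Prop where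
  mA : j ∈ A
  mA' : j' ∈ A
  e1 : j.1.1 = e.1
  e2 : j'.1.1 = e.2
  i1 : e.1 ∈ τ.items
  i2 : e.2 ∈ τ.items
  s1 : e.1 ∈ X.S'
  s2 : e.2 ∈ X.S'
  rc : (j, j') ∈ RC X Y (tp V) u τ
  o1 : X.c.om e.1 (X.c.bp j.1.1 j.1.2) ((mp τ e.1 : ℕ) * a) ≠ 0
  o2 : X.c.om e.2 (X.c.bp j'.1.1 j'.1.2) ((mp τ e.2 : ℕ) * a') ≠ 0
  l1 : (u.B : ℝ) / (1 : ℕ) * X.c.bp j.1.1 j.1.2 ≤
    ((e.1 / u.A : ℕ) : ℝ) * y - (u.B : ℝ) / (1 : ℕ) * X.c.γ - a
  l2 : ((e.1 / u.A : ℕ) : ℝ) * y - (u.B : ℝ) / (1 : ℕ) * X.c.γ - a <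
    (u.B : ℝ) / (1 : ℕ) * X.c.bp j.1.1 (j.1.2 + 1)
  l3 : (u.B : ℝ) / (1 : ℕ) * X.c.bp j'.1.1 j'.1.2 ≤
    ((e.2 / u.A : ℕ) : ℝ) * y - (u.B : ℝ) / (1 : ℕ) * X.c.γ - a'
  l4 : ((e.2 / u.A : ℕ) : ℝ) * y - (u.B : ℝ) / (1 : ℕ) * X.c.γ - a' <
    (u.B : ℝ) / (1 : ℕ) * X.c.bp j'.1.1 (j'.1.2 + 1)
  hz : (u.B : ℝ) * z = ((e.1 / u.A : ℕ) : ℝ) * y - u.B * X.c.γ - a
  hz' : (u.B : ℝ) * z' = ((e.2 / u.A : ℕ) : ℝ) * y - u.B * X.c.γ - a'
  zr : |z| ≤ X.c.r e.1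
  zr' : |z'| ≤ X.c.r e.2
  za : X.c.D.al j ≤ z
  zb : z < X.c.D.be j
  za' : X.c.D.al j' ≤ z'
  zb' : z' < X.c.D.be j'

/-- **a pair of items of a child with a nonzero pair of pieces** -/
theorem PE_kid (h : NDt X.par (w X.ψ) X.c.t u τ) {Y : Finset (ℕ × ℕ × Finset ℕ)}
    {A : Finset X.c.Lam} {e : ℕ × ℕ}
    (he : e ∈ (X.c.D.par Y).PE (RC X Y (tp V) u τ) (Uv X Y u τ A) (Uv X Y u τ A)) :
    ∃ (j j' : X.c.Lam) (y z z' : ℝ) (a a' : ℤ), PtK X Y A V u τ e j j' y z z' a a' := by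
  obtain ⟨j, j', hR, hI, e1, e2⟩ := Par.mem_PE.1 he
  obtain ⟨y, y1, y2⟩ := exists_of_I_ne hI
  have hA : j ∈ A := by
    by_contra hc
    exact y1 (congrFun (rv_of_not_mem (f := fun j => ((X.c.D.par Y).toFT u.B u.A τ).U 1 j) hc) y)
  have hA' : j' ∈ A := by
    by_contra hc
    exact y2 (congrFun (rv_of_not_mem (f := fun j => ((X.c.D.par Y).toFT u.B u.A τ).U 1 j) hc) y)
  have y1' : ((X.c.D.par Y).toFT u.B u.A τ).U 1 j y ≠ 0 := by
    have e := congrFun (rv_of_mem (f := fun j => ((X.c.D.par Y).toFT u.B u.A τ).U 1 j) hA) y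
    intro h0
    exact y1 (e.trans h0)
  have y2' : ((X.c.D.par Y).toFT u.B u.A τ).U 1 j' y ≠ 0 := by
    have e := congrFun (rv_of_mem (f := fun j => ((X.c.D.par Y).toFT u.B u.A τ).U 1 j) hA') y
    intro h0
    exact y2 (e.trans h0)
  obtain ⟨m1, a, o1, l1, l2⟩ := Par.supp _ h.B_pos h.fit (node_wts h Y) (one_dvd _) y1'
  obtain ⟨m2, a', o2, l3, l4⟩ := Par.supp _ h.B_pos h.fit (node_wts h Y) (one_dvd _) y2'
  rw [one_mul] at o1 o2
  have e1' : j.1.1 = e.1 := e1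
  have e2' : j'.1.1 = e.2 := e2
  have m1' : j.1.1 ∈ τ.items := m1
  have m2' : j'.1.1 ∈ τ.items := m2
  have o1' : X.c.om j.1.1 (X.c.bp j.1.1 j.1.2) ((mp τ j.1.1 : ℕ) * a) ≠ 0 := o1
  have o2' : X.c.om j'.1.1 (X.c.bp j'.1.1 j'.1.2) ((mp τ j'.1.1 : ℕ) * a') ≠ 0 := o2
  have l1' : (u.B : ℝ) / (1 : ℕ) * X.c.bp j.1.1 j.1.2 ≤
    ((j.1.1 / u.A : ℕ) : ℝ) * y - (u.B : ℝ) / (1 : ℕ) * X.c.γ - a := l1
  have l2' : ((j.1.1 / u.A : ℕ) : ℝ) * y - (u.B : ℝ) / (1 : ℕ) * X.c.γ - a <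
    (u.B : ℝ) / (1 : ℕ) * X.c.bp j.1.1 (j.1.2 + 1) := l2
  have l3' : (u.B : ℝ) / (1 : ℕ) * X.c.bp j'.1.1 j'.1.2 ≤
    ((j'.1.1 / u.A : ℕ) : ℝ) * y - (u.B : ℝ) / (1 : ℕ) * X.c.γ - a' := l3
  have l4' : ((j'.1.1 / u.A : ℕ) : ℝ) * y - (u.B : ℝ) / (1 : ℕ) * X.c.γ - a' <
    (u.B : ℝ) / (1 : ℕ) * X.c.bp j'.1.1 (j'.1.2 + 1) := l4
  obtain ⟨z, q1, q2, q3, q4⟩ := pt_kid h.B_pos l1' l2'
  obtain ⟨z', q5, q6, q7, q8⟩ := pt_kid h.B_pos l3' l4'
  have hs1 : j.1.1 ∈ X.S' := by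
    by_contra hc
    exact o1' (X.om_zero hc _ _)
  have hs2 : j'.1.1 ∈ X.S' := by
    by_contra hc
    exact o2' (X.om_zero hc _ _)
  refine ⟨j, j', y, z, z', a, a', ?_⟩
  rw [e1'] at m1' hs1 q1 q2
  rw [e2'] at m2' hs2 q5 q6
  exact
    { mA := hA
      mA' := hA'
      e1 := e1'
      e2 := e2'
      i1 := m1'
      i2 := m2'
      s1 := hs1
      s2 := hs2
      rc := hR
      o1 := by rw [e1'] at o1' ⊢; exact o1'
      o2 := by rw [e2'] at o2' ⊢; exact o2'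
      l1 := by rw [e1'] at l1' ⊢; exact l1'
      l2 := by rw [e1'] at l2' ⊢; exact l2'
      l3 := by rw [e2'] at l3' ⊢; exact l3'
      l4 := by rw [e2'] at l4' ⊢; exact l4'
      hz := q1
      hz' := q5
      zr := q2
      zr' := q6
      za := q3
      zb := q4
      za' := q7
      zb' := q8 }

/-- **energy of an unlabelled pair** -/
theorem F_none_kid (h : NDt X.par (w X.ψ) X.c.t u τ) {Y : Finset (ℕ × ℕ × Finset ℕ)} {p : ℕ}
    (hp : p ≤ top X.S) (hlam : X.c.lam p = 0) {A : Finset X.c.Lam} {e : ℕ × ℕ}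
    (h1 : e.1 ∈ τ.items) (h2 : e.2 ∈ τ.items) {η : ℝ} (hη : etaL X.c.wp p ≤ η)
    (hs : X.c.st p e.1 = none)
    (hs' : X.c.st p e.2 = none) :
    (X.c.D.par Y).iF (RC X Y p u τ) (Uv X Y u τ A) (Uv X Y u τ A) e ≤
      2 * ((RB X u e.1 * RB X u e.2) / DA u.A (RB X u) e) * (2 * (η * DA u.A (RB X u) e) + 1) := by
  have hrr : ∀ q, 0 < X.c.rr q := (X.ok.rad Y).pos
  have hB' : (0 : ℝ) < u.B := by exact_mod_cast h.B_pos
  have hDA : 0 ≤ DA u.A (RB X u) e := by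
    unfold DA Crest.Agent.R4.AvgItem710.Dp
    refine le_max_of_le_left ?_
    have := (hrr e.1).le
    positivity
  have hη0 : 0 ≤ η := (etaL_pos _ _).le.trans hη
  have key := iF_rel_le (D := X.c.D.par Y) (ρ := X.c.rr) (b := u.B) (pr := u.A) (c := 1)
    (b' := u.B) (pr' := u.A) (c' := 1) (A := A) (A' := A) (X.ok.rad Y) h.B_pos h.B_pos h.fit h.fit
    (node_wts h Y) (node_wts h Y) (one_dvd _) (one_dvd _) (RC X Y p u τ) e h1 h2
    (C := u.B * X.c.γ) (C' := u.B * X.c.γ) (δ := η * DA u.A (RB X u) e) (mul_nonneg hη0 hDA)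
    (fun x hx _ _ i1 i2 y a a' l1 l2 l3 l4 => by
      have hw : (X.c.world p x.1.1).1 = (X.c.world p x.2.1).1 := congrArg Prod.fst (RC_world hx)
      have i1' : x.1.1.1 = e.1 := i1
      have i2' : x.2.1.1 = e.2 := i2
      rw [← i1'] at l1 l2 h1 hs
      rw [← i2'] at l3 l4 h2 hs'
      have k := rel_none h hp hlam hw h1 h2 hs hs' l1 l2 l3 l4
      rw [i1', i2'] at k
      exact k.trans (mul_le_mul_of_nonneg_right hη hDA))
  rw [Nat.cast_one, div_one] at key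
  exact key

/-- **energy of a labelled pair** -/
theorem F_some_kid (h : NDt X.par (w X.ψ) X.c.t u τ) {Y : Finset (ℕ × ℕ × Finset ℕ)} {p : ℕ}
    (hp : p ≤ top X.S) (hlam : X.c.lam p = 0) {A : Finset X.c.Lam} {e : ℕ × ℕ}
    (h1 : e.1 ∈ τ.items) (h2 : e.2 ∈ τ.items) {σ σ' : ℚ}
    (hs : X.c.st p e.1 = some σ)
    (hs' : X.c.st p e.2 = some σ') :
    (X.c.D.par Y).iF (RC X Y p u τ) (Uv X Y u τ A) (Uv X Y u τ A) e ≤
      2 * ((RB X u e.1 * RB X u e.2) / DA u.A (RB X u) e) := by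
  have key := iF_rel_le (D := X.c.D.par Y) (ρ := X.c.rr) (b := u.B) (pr := u.A) (c := 1)
    (b' := u.B) (pr' := u.A) (c' := 1) (A := A) (A' := A) (X.ok.rad Y) h.B_pos h.B_pos h.fit h.fit
    (node_wts h Y) (node_wts h Y) (one_dvd _) (one_dvd _) (RC X Y p u τ) e h1 h2
    (C := ((u.B * σ : ℚ) : ℝ)) (C' := ((u.B * σ' : ℚ) : ℝ)) (δ := 0) le_rfl
    (fun x hx _ _ i1 i2 y a a' l1 l2 l3 l4 => by
      have hw : (X.c.world p x.1.1).1 = (X.c.world p x.2.1).1 := congrArg Prod.fst (RC_world hx)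
      have i1' : x.1.1.1 = e.1 := i1
      have i2' : x.2.1.1 = e.2 := i2
      rw [← i1'] at l1 l2 h1 hs
      rw [← i2'] at l3 l4 h2 hs'
      have k := (rel_some h hp hlam hw h1 h2 hs hs' l1 l2 l3 l4).2
      rw [i1', i2'] at k
      rw [k, sub_self, abs_zero])
  rw [Nat.cast_one, div_one, mul_zero, zero_add, mul_one] at key
  exact key

/-! ### the data -/

open Classical in
/-- **the data of a child on its circle** -/
noncomputable def cdK (X : Ctx N γ p0 P₀) (Y : Finset (ℕ × ℕ × Finset ℕ)) (A : Finset X.c.Lam)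
    (V : IT) (u : NS) (τ : IT) (Λ : Finset ℚ) : CD where
  m := lvl u τ
  p := tp V
  θ := u.B * X.c.γ
  η := Real.exp (-(Real.log (tp V) ^ (4/5:ℝ)))
  T := thK X u τ
  S := (al X τ A).image (· / u.A)
  E := ((X.c.D.par Y).PE (RC X Y (tp V) u τ) (Uv X Y u τ A) (Uv X Y u τ A)).image
    (fun e => (e.1 / u.A, e.2 / u.A))
  R := fun v => RB X u (u.A * v)
  F := fun e => (X.c.D.par Y).iF (RC X Y (tp V) u τ) (Uv X Y u τ A) (Uv X Y u τ A)
    (u.A * e.1, u.A * e.2)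
  s := fun v => (X.c.st (tp V) (u.A * v)).map fun σ => (u.B : ℚ) * σ
  s' := fun v => (stK X τ (u.A * v)).map fun σ => (u.B : ℚ) * σ
  Λf := Λ
  cr := crK u V τ

lemma al_dvd (h : NDt X.par (w X.ψ) X.c.t u τ) {A : Finset X.c.Lam} :
    ∀ q ∈ al X τ A, u.A ∣ q := fun q hq => by
  classical
  unfold al at hq
  exact h.bk.dvd q (Finset.mem_filter.1 hq).1

lemma al_mem {A : Finset X.c.Lam} {q : ℕ} (hq : q ∈ al X τ A) : q ∈ τ.items ∧ q ∈ X.S' := by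
  classical
  unfold al at hq
  exact ⟨(Finset.mem_filter.1 hq).1, (Finset.mem_filter.1 hq).2.1⟩

lemma PE_sub (h : NDt X.par (w X.ψ) X.c.t u τ) {Y : Finset (ℕ × ℕ × Finset ℕ)}
    {A : Finset X.c.Lam} :
    (X.c.D.par Y).PE (RC X Y (tp V) u τ) (Uv X Y u τ A) (Uv X Y u τ A) ⊆ al X τ A ×ˢ al X τ A := by
  classical
  intro e he
  obtain ⟨j, j', y, z, z', a, a', k⟩ := PE_kid h he
  unfold al
  exact Finset.mem_product.2 ⟨Finset.mem_filter.2 ⟨k.i1, k.s1, j, k.mA, k.e1⟩,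
    Finset.mem_filter.2 ⟨k.i2, k.s2, j', k.mA', k.e2⟩⟩

/-- **the energy of the child** -/
theorem cdK_sum (h : NDt X.par (w X.ψ) X.c.t u τ) {Y : Finset (ℕ × ℕ × Finset ℕ)}
    {A : Finset X.c.Lam} {Λ : Finset ℚ} :
    ChE X Y A (tp V) u τ = ∑ e ∈ (cdK X Y A V u τ Λ).E, (cdK X Y A V u τ Λ).F e := by
  classical
  unfold ChE
  rw [(X.c.D.par Y).Q_eq]
  show _ = ∑ e ∈ ((X.c.D.par Y).PE (RC X Y (tp V) u τ) (Uv X Y u τ A) (Uv X Y u τ A)).image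
    (fun e => (e.1 / u.A, e.2 / u.A)), (cdK X Y A V u τ Λ).F e
  rw [sum_tr2 (al_dvd h) (PE_sub h)]
  refine Finset.sum_congr rfl fun e he => ?_
  obtain ⟨a1, a2⟩ := Finset.mem_product.1 (PE_sub h he)
  show _ = (X.c.D.par Y).iF (RC X Y (tp V) u τ) (Uv X Y u τ A) (Uv X Y u τ A)
    (u.A * (e.1 / u.A), u.A * (e.2 / u.A))
  rw [Nat.mul_div_cancel' (al_dvd h _ a1), Nat.mul_div_cancel' (al_dvd h _ a2)]

/-- a sum over the moduli -/
lemma cdK_S (h : NDt X.par (w X.ψ) X.c.t u τ) {Y : Finset (ℕ × ℕ × Finset ℕ)}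
    {A : Finset X.c.Lam} {Λ : Finset ℚ} (g : ℕ → ℝ) :
    ∑ v ∈ (cdK X Y A V u τ Λ).S, wt (cdK X Y A V u τ Λ).R v * g v =
      ∑ q ∈ al X τ A, wA u.A (RB X u) q * g (q / u.A) := by
  classical
  show ∑ v ∈ (al X τ A).image (· / u.A), _ = _
  rw [sum_tr1 (al_dvd h)]
  refine Finset.sum_congr rfl fun q hq => ?_
  congr 1
  exact wt_tr u.A (RB X u) (al_dvd h q hq)


end ctx

end Crest.Agent.R4P.ChU17
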