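import Crest.Agent.R4P.ChU1_17

/-!
R4 (S0004), powers pass, helper17 ([chokU], TgtCrs): the copy of `DseLk_23`, `DseOk_23` (helper23) for
the children which may be `up` nodes.
-/

set_option autoImplicit false
set_option linter.unusedSectionVars false
set_option linter.unusedVariables false

open MeasureTheory Filter

namespace Crest.Agent.R4P.ChU17

open Crest.Agent.R4P.Cnt588 Crest.Agent.R4P.Item758 Crest.Agent.R4P.W363
open Crest.Agent.R4P.Data758 Crest.Agent.R4P.LfDat734 Crest.Agent.R4P.OmSt532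
open Crest.Agent.R4P.OmData532 Crest.Agent.R4P.WPex189
open Crest.Agent.R4P.Bld532 (NS All NodeOk Bk)
open Crest.Agent.R4P.Step588 (NDt ND1 ctx_NDt uq_lt)
open Crest.Agent.R4P.WalkIT579 (tp isL nodeOk_hi top_of_nodeOk)
open Crest.Agent.R4P.Skel189 Crest.Agent.R4P.RseSt23 Crest.Agent.R4P.RseNd23
open Crest.Agent.R4.ClosL758 Crest.Agent.R4.ClosR758 Crest.Agent.R4.Tour104 Crest.Agent.R4.Fam464
open Crest.Agent.R4.Tour758 Crest.Agent.R4.Avg758 Crest.Agent.R4.ClosG758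
open Crest.Agent.R4P.Frame758
open Crest.Agent.R4.Soft104 (w)
open Crest.Agent.R4.LF363 (Lab)
open Crest.Agent.R4.HVW560 (cof wt)
open Crest.Agent.R4.InX944 (DP)
open Crest.Agent.R4.ClsB (Tame)
open Crest.Agent.R4.DensAcc33 (Accd)
open Crest.Agent.R4P.BadB16 (BadB)
open Crest.Agent.R4.AvgItem710 (Dp mul_cof mul_cof' cof_coprime exists_of_I_ne)
open Crest.Agent.R4P.StB21
open Crest.Agent.R4P.DseCh23 (hd hu hu_c hu_A hu_B lvl cE eD)
open Crest.Agent.R4P.DseN23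
open Crest.Agent.R4P.DseKid23 (KB DH stK wpK thK stK_leaf stK_node wpK_leaf wpK_node lvl_node
  thK_leaf thK_node isL_iff crK ret_sep ixK ixK_kept ixK_same pt_kid AQ)
open Crest.Agent.R4

section ctx
variable {N : Skel189.Num} {γ : ℝ} {p0 P₀ : ℕ} {X : Ctx N γ p0 P₀} {v u : NS} {V τ : IT}
  {Y : Finset (ℕ × ℕ × Finset ℕ)} {A : Finset X.c.Lam} {Λ : Finset ℚ}

section pt
variable {e : ℕ × ℕ} {j j' : X.c.Lam} {y z z' : ℝ} {a a' : ℤ}

lemma PtK.rr1 (k : PtK X Y A V u τ e j j' y z z' a a') : X.c.rr e.1 = X.c.r e.1 := by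
  rw [← k.e1]; exact Cf.rr_eq j

lemma PtK.rr2 (k : PtK X Y A V u τ e j j' y z z' a a') : X.c.rr e.2 = X.c.r e.2 := by
  rw [← k.e2]; exact Cf.rr_eq j'

/-- index equality at the column, at the points -/
lemma PtK.ixp (h : Kid X v V u τ) (k : PtK X Y A V u τ e j j' y z z' a a') :
    X.c.wp.ix X.c.γ (tp V) e.1 (X.c.st (tp V) e.1) z =
      X.c.wp.ix X.c.γ (tp V) e.2 (X.c.st (tp V) e.2) z' := by
  have h1 := X.ok.ix_point h.tpVt j k.za k.zb
  have h2 := X.ok.ix_point h.tpVt j' k.za' k.zb'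
  rw [k.e1] at h1
  rw [k.e2] at h2
  have h3 : (X.c.world (tp V) j.1).1 = (X.c.world (tp V) j'.1).1 :=
    congrArg Prod.fst (RC_world k.rc)
  unfold Cf.world at h3
  simp only at h3
  rw [k.e1, k.e2] at h3
  rw [h1, h2, h3]

/-- the exact relation on the moduli -/
lemma ex_mul {A' q r : ℕ} {ρ ρ' : ℚ} (hq : 0 < q) (h : Ex a a' ρ ρ' (q, r)) :
    ((a:ℝ) + ρ) * (r:ℕ) = (a' + ρ') * (q:ℕ) := by
  unfold Ex at h
  simp only at h
  have ew : (q:ℝ) = (q.gcd r : ℕ) * (cof q r : ℕ) := by exact_mod_cast (mul_cof).symm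
  have ew' : (r:ℝ) = (q.gcd r : ℕ) * (cof r q : ℕ) := by exact_mod_cast (mul_cof').symm
  rw [ew, ew']
  linear_combination ((q.gcd r : ℕ) : ℝ) * h

/-- separation of a pair with equal indices at the child -/
lemma PtK.sep (hD : DH X) (h : Kid X v V u τ) (k : PtK X Y A V u τ e j j' y z z' a a')
    (hix : ixK X u τ e.1 z = ixK X u τ e.2 z') :
    (cdK X Y A V u τ Λ).Sep (e.1 / u.A, e.2 / u.A) := by
  have h1 := kid_sep hD h (x := (j, j')) k.rc (by show j.1.1 ∈ _; rw [k.e1]; exact k.i1)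
    (by show j'.1.1 ∈ _; rw [k.e2]; exact k.i2) (by show j.1.1 ∈ _; rw [k.e1]; exact k.s1)
    (by show j'.1.1 ∈ _; rw [k.e2]; exact k.s2) k.za k.zb k.za' k.zb'
    (by show ixK X u τ j.1.1 z = ixK X u τ j'.1.1 z'; rw [k.e1, k.e2]; exact hix)
  simp only at h1
  rw [k.e1, k.e2] at h1
  rcases h1 with ⟨b, hb, h2, h3, h4⟩ | ⟨h2, h3⟩
  · left
    exact ⟨b, mem_dif.2 ⟨⟨h2, h3⟩, hb, h4⟩⟩
  · right
    exact ⟨h2, h3⟩

lemma etaL_le (hD : DH X) (h : Kid X v V u τ) :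
    etaL X.c.wp (tp V) ≤ Real.exp (-(Real.log (tp V) ^ (4/5:ℝ))) := by
  have hdep := hD.rse.dep (tp V) h.tpV.2.1 h.tpVt
  unfold etaL
  rw [Real.exp_neg, ← one_div, div_le_div_iff₀ (by positivity) (Real.exp_pos _)]
  linarith

lemma map_none {B : ℕ} {o : Option ℚ} : (o.map fun σ => (B : ℚ) * σ) = none ↔ o = none := by
  cases o <;> simp

lemma map_some {B : ℕ} {o : Option ℚ} {ρ : ℚ} (h : (o.map fun σ => (B : ℚ) * σ) = some ρ) :
    ∃ σ, o = some σ ∧ ρ = (B : ℚ) * σ := by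
  cases o with
  | none => simp at h
  | some σ => exact ⟨σ, rfl, (Option.some.inj h).symm⟩

lemma map_inj {B : ℕ} (hB : 0 < B) {o o' : Option ℚ}
    (h : (o.map fun σ => (B : ℚ) * σ) = o'.map fun σ => (B : ℚ) * σ) : o = o' := by
  have hB' : (B : ℚ) ≠ 0 := by exact_mod_cast hB.ne'
  refine Option.map_injective (fun x y hxy => ?_) h
  exact mul_left_cancel₀ hB' hxy

/-- **a pair of pieces of a child with a common point** -/
theorem lkA_kid (hD : DH X) (h : Kid X v V u τ) (k : PtK X Y A V u τ e j j' y z z' a a') :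
    (cdK X Y A V u τ Λ).LkA (e.1 / u.A, e.2 / u.A) a a' := by
  have hnd := h.hu.nd
  have hB0 : (0:ℝ) < u.B := h.B_pos
  have hBn : 0 < u.B := hnd.B_pos
  have hA0 : 0 < u.A := hnd.A_pos
  have d1 : u.A ∣ e.1 := hnd.bk.dvd _ k.i1
  have d2 : u.A ∣ e.2 := hnd.bk.dvd _ k.i2
  have m1 : u.A * (e.1 / u.A) = e.1 := Nat.mul_div_cancel' d1
  have m2 : u.A * (e.2 / u.A) = e.2 := Nat.mul_div_cancel' d2
  have w1 : 0 < e.1 / u.A := Nat.pos_of_ne_zero (hnd.div_ne k.i1)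
  have w2 : 0 < e.2 / u.A := Nat.pos_of_ne_zero (hnd.div_ne k.i2)
  have hlam : X.c.lam (tp V) = 0 := hD.th.lam _
  have hix := k.ixp h
  have hw : (X.c.world (tp V) j.1).1 = (X.c.world (tp V) j'.1).1 :=
    congrArg Prod.fst (RC_world k.rc)
  have hsome : (X.c.st (tp V) e.1).isSome = (X.c.st (tp V) e.2).isSome := WP.isSome_eq _ hix
  have i1' : j.1.1 ∈ τ.items := by rw [k.e1]; exact k.i1
  have i2' : j'.1.1 ∈ τ.items := by rw [k.e2]; exact k.i2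
  have l1' : (u.B : ℝ) / (1 : ℕ) * X.c.bp j.1.1 j.1.2 ≤
      ((j.1.1 / u.A : ℕ) : ℝ) * y - (u.B : ℝ) / (1 : ℕ) * X.c.γ - a := by rw [k.e1]; have := k.l1; rw [k.e1] at this; exact this
  have l2' : ((j.1.1 / u.A : ℕ) : ℝ) * y - (u.B : ℝ) / (1 : ℕ) * X.c.γ - a <
      (u.B : ℝ) / (1 : ℕ) * X.c.bp j.1.1 (j.1.2 + 1) := by rw [k.e1]; have := k.l2; rw [k.e1] at this; exact this
  have l3' : (u.B : ℝ) / (1 : ℕ) * X.c.bp j'.1.1 j'.1.2 ≤
      ((j'.1.1 / u.A : ℕ) : ℝ) * y - (u.B : ℝ) / (1 : ℕ) * X.c.γ - a' := by rw [k.e2]; have := k.l3; rw [k.e2] at this; exact this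
  have l4' : ((j'.1.1 / u.A : ℕ) : ℝ) * y - (u.B : ℝ) / (1 : ℕ) * X.c.γ - a' <
      (u.B : ℝ) / (1 : ℕ) * X.c.bp j'.1.1 (j'.1.2 + 1) := by rw [k.e2]; have := k.l4; rw [k.e2] at this; exact this
  have es : ∀ q, (cdK X Y A V u τ Λ).s q =
      (X.c.st (tp V) (u.A * q)).map fun σ => (u.B : ℚ) * σ := fun q => rfl
  have es' : ∀ q, (cdK X Y A V u τ Λ).s' q =
      (stK X τ (u.A * q)).map fun σ => (u.B : ℚ) * σ := fun q => rfl
  have eR : ∀ q, (cdK X Y A V u τ Λ).R q = RB X u (u.A * q) := fun q => rfl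
  refine
    { pt := ?_
      lkn := ?_
      lks := ?_
      kept := ?_
      same := ?_
      al1 := ?_
      al2 := ?_ }
  · -- windows
    unfold dv Crest.Agent.R4.InX944.DP
    simp only
    rw [eR, eR, m1, m2]
    show |((a:ℝ) + u.B * X.c.γ) * _ - (a' + u.B * X.c.γ) * _| ≤ _
    set c1 : ℝ := ((cof (e.2 / u.A) (e.1 / u.A) : ℕ) : ℝ) with hc1
    set c2 : ℝ := ((cof (e.1 / u.A) (e.2 / u.A) : ℕ) : ℝ) with hc2
    have c10 : 0 ≤ c1 := by positivity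
    have c20 : 0 ≤ c2 := by positivity
    have ew : ((e.1 / u.A : ℕ) : ℝ) = ((e.1 / u.A).gcd (e.2 / u.A) : ℕ) * c2 := by
      rw [hc2]; exact_mod_cast (mul_cof).symm
    have ew' : ((e.2 / u.A : ℕ) : ℝ) = ((e.1 / u.A).gcd (e.2 / u.A) : ℕ) * c1 := by
      rw [hc1]; exact_mod_cast (mul_cof').symm
    have g1 : ((a:ℝ) + u.B * X.c.γ) * c1 - (a' + u.B * X.c.γ) * c2 =
        u.B * z' * c2 - u.B * z * c1 := by
      rw [k.hz, k.hz', ew, ew']; ring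
    rw [g1]
    have g2 : |u.B * z' * c2 - u.B * z * c1| ≤ u.B * X.c.r e.2 * c2 + u.B * X.c.r e.1 * c1 := by
      refine (abs_sub _ _).trans (add_le_add ?_ ?_)
      · rw [abs_mul, abs_mul, abs_of_nonneg c20, abs_of_pos hB0]
        exact mul_le_mul_of_nonneg_right (mul_le_mul_of_nonneg_left k.zr' hB0.le) c20
      · rw [abs_mul, abs_mul, abs_of_nonneg c10, abs_of_pos hB0]
        exact mul_le_mul_of_nonneg_right (mul_le_mul_of_nonneg_left k.zr hB0.le) c10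
    refine g2.trans ?_
    have g3 : RB X u e.1 = u.B * X.c.r e.1 := by show (u.B:ℝ) * X.c.rr e.1 = _; rw [k.rr1]
    have g4 : RB X u e.2 = u.B * X.c.r e.2 := by show (u.B:ℝ) * X.c.rr e.2 = _; rw [k.rr2]
    rw [g3, g4]
    have g5 := le_max_left (c1 * (u.B * X.c.r e.1)) (c2 * (u.B * X.c.r e.2))
    have g6 := le_max_right (c1 * (u.B * X.c.r e.1)) (c2 * (u.B * X.c.r e.2))
    linarith
  · -- unlabelled
    intro hs
    have hs1 : X.c.st (tp V) e.1 = none := by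
      rw [es, m1] at hs; exact map_none.1 hs
    have hs2 : X.c.st (tp V) e.2 = none := by
      rw [hs1] at hsome
      cases h5 : X.c.st (tp V) e.2 with
      | none => rfl
      | some σ => rw [h5] at hsome; simp at hsome
    refine ⟨by show (cdK X Y A V u τ Λ).s (e.2 / u.A) = none; rw [es, m2, hs2]; rfl, ?_⟩
    have key := rel_none hnd h.tpVt hlam hw i1' i2' (by rw [k.e1]; exact hs1)
      (by rw [k.e2]; exact hs2) l1' l2' l3' l4'
    rw [k.e1, k.e2] at key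
    have e3 : DP (cdK X Y A V u τ Λ).R (cdK X Y A V u τ Λ).R (e.1 / u.A, e.2 / u.A) =
        DA u.A (RB X u) (e.1, e.2) := DP_eq u.A (RB X u) d1 d2
    rw [e3]
    refine key.trans (mul_le_mul_of_nonneg_right (etaL_le hD h) ?_)
    unfold DA Crest.Agent.R4.AvgItem710.Dp
    refine le_max_of_le_left ?_
    have := ((X.ok.rad Y).pos e.1).le
    positivity
  · -- labelled
    intro ρ hs
    rw [es] at hs
    simp only at hs
    rw [m1] at hs
    obtain ⟨σ, hσ, rfl⟩ := map_some hs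
    rw [hσ] at hsome
    obtain ⟨σ', hσ'⟩ := Option.isSome_iff_exists.1 (hsome.symm.trans rfl : (X.c.st (tp V) e.2).isSome = true)
    refine ⟨(u.B : ℚ) * σ', by show (cdK X Y A V u τ Λ).s (e.2 / u.A) = _; rw [es, m2, hσ']; rfl, ?_⟩
    have key := (rel_some hnd h.tpVt hlam hw i1' i2' (by rw [k.e1]; exact hσ)
      (by rw [k.e2]; exact hσ') l1' l2' l3' l4').2
    rw [k.e1, k.e2] at key
    exact key
  · -- kept
    intro h1 h2
    rw [es', es] at h1 h2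
    simp only at h1 h2
    rw [m1] at h1
    rw [m2] at h2
    have g1 := map_inj hBn h1
    have g2 := map_inj hBn h2
    have hdep : (wpK X τ).dep (lvl u τ) ≤ X.c.wp.dep (tp V) := by
      have h0 := h.lvl_ge k.i1
      by_cases hl : isL τ
      · obtain ⟨S, rfl⟩ := isL_iff.1 hl
        rw [wpK_leaf]
        exact hD.depL _ _ h0 h.lvl_le
      · rw [wpK_node hl, lvl_node hl]
        exact hD.dep _ _ (h.node hl).2.1 (h.node hl).2.2.2
    exact k.sep hD h (ixK_kept hdep hix g1 g2)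
  · -- one exact label
    intro ρ h1 h2 hx
    rw [es'] at h1 h2
    simp only at h1 h2
    rw [m1] at h1
    rw [m2] at h2
    obtain ⟨σ, hσ, r1⟩ := map_some h1
    obtain ⟨σ', hσ', r2⟩ := map_some h2
    refine k.sep hD h (ixK_same (W := e.1 / u.A) (W' := e.2 / u.A) hA0 hBn w1 w2 m1.symm m2.symm
      k.hz k.hz' hσ hσ' ?_)
    have g1 := ex_mul (A' := 1) w1 hx
    have w1' : ((e.1 / u.A : ℕ) : ℝ) ≠ 0 := by exact_mod_cast w1.ne'
    have w2' : ((e.2 / u.A : ℕ) : ℝ) ≠ 0 := by exact_mod_cast w2.ne'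
    have e5 : (ρ:ℝ) = u.B * σ := by rw [r1]; push_cast; ring
    have e6 : (ρ:ℝ) = u.B * σ' := by rw [r2]; push_cast; ring
    rw [← e5, ← e6, div_eq_div_iff w1' w2']
    exact g1
  · -- alive, first item
    intro b hb hlt h1 h2 ρ ρ' h3 hx
    simp only at h1 h2
    rw [es'] at h3
    simp only at h3
    rw [m1] at h3
    obtain ⟨σ, hσ, r1⟩ := map_some h3
    have g1 := ex_mul (A' := 1) w1 hx
    refine kid_alive h k.i1 hσ hb hlt h1 k.o1 h2 (a' := a') ?_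
    rw [← r1]
    exact g1
  · intro b hb hlt h1 h2 ρ ρ' h3 hx
    simp only at h1 h2
    rw [es'] at h3
    simp only at h3
    rw [m2] at h3
    obtain ⟨σ, hσ, r1⟩ := map_some h3
    have g1 := ex_mul (A' := 1) w1 hx
    refine kid_alive h k.i2 hσ hb hlt h1 k.o2 h2 (a' := a) ?_
    rw [← r1]
    exact g1.symm

/-- **the items of a pair are different** -/
theorem ne_kid (hD : DH X) (h : Kid X v V u τ) (k : PtK X Y A V u τ e j j' y z z' a a')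
    (hη : Real.exp (-(Real.log (tp V) ^ (4/5:ℝ))) * RB X u e.1 < 1) : e.1 ≠ e.2 := by
  intro heq
  have L : (cdK X Y A V u τ ∅).LkA (e.1 / u.A, e.2 / u.A) a a' := lkA_kid hD h k
  have hnd := h.hu.nd
  have d1 : u.A ∣ e.1 := hnd.bk.dvd _ k.i1
  have m1 : u.A * (e.1 / u.A) = e.1 := Nat.mul_div_cancel' d1
  have w1 : 0 < e.1 / u.A := Nat.pos_of_ne_zero (hnd.div_ne k.i1)
  have hc : cof (e.1 / u.A) (e.1 / u.A) = 1 := by
    unfold Crest.Agent.R4.HVW560.cof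
    rw [Nat.gcd_self, Nat.div_self w1]
  rw [← heq] at L
  have haa : a = a' := by
    cases hs : X.c.st (tp V) e.1 with
    | none =>
      have h1 := (L.lkn (by
        show (X.c.st (tp V) (u.A * (e.1 / u.A))).map _ = none
        rw [m1, hs]; rfl)).2
      unfold dv Crest.Agent.R4.InX944.DP at h1
      simp only at h1
      rw [hc] at h1
      have e3 : (cdK X Y A V u τ ∅).R (e.1 / u.A) = RB X u e.1 := by
        show RB X u (u.A * (e.1 / u.A)) = _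
        rw [m1]
      rw [e3] at h1
      simp only [Nat.cast_one, mul_one, one_mul, max_self, add_sub_add_right_eq_sub] at h1
      have h2 : |((a - a' : ℤ) : ℝ)| < 1 := by
        push_cast
        exact lt_of_le_of_lt h1 hη
      rw [← Int.cast_abs] at h2
      have h3 : |a - a'| < 1 := by exact_mod_cast h2
      have h4 : a - a' = 0 := Int.abs_lt_one_iff.1 h3
      omega
    | some σ =>
      obtain ⟨ρ', h1, h2⟩ := L.lks ((u.B:ℚ) * σ) (by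
        show (X.c.st (tp V) (u.A * (e.1 / u.A))).map _ = _
        rw [m1, hs]; rfl)
      have h3 : (X.c.st (tp V) (u.A * (e.1 / u.A))).map (fun σ => (u.B:ℚ) * σ) = some ρ' := h1
      rw [m1, hs] at h3
      have h4 : (u.B:ℚ) * σ = ρ' := Option.some.inj h3
      unfold Ex at h2
      simp only at h2
      rw [hc, h4, Nat.cast_one, mul_one, mul_one] at h2
      have h5 : (a:ℝ) = a' := by linarith
      exact_mod_cast h5
  have hB0 : (0:ℝ) < u.B := h.B_pos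
  have hzz : z = z' := by
    have h1 := k.hz
    have h2 := k.hz'
    rw [← heq, ← haa, ← h1] at h2
    exact (mul_left_cancel₀ hB0.ne' h2).symm
  have hjj : j = j' := by
    by_contra hne
    have hit : X.c.D.it j = X.c.D.it j' := by
      show j.1.1 = j'.1.1
      rw [k.e1, k.e2, heq]
    rcases X.ok.disj' j j' hne hit with h1 | h1
    · have := k.zb; have := k.za'; rw [hzz] at *; linarith
    · have := k.za; have := k.zb'; rw [hzz] at *; linarith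
  have hrc := k.rc
  rw [← hjj] at hrc
  unfold RC at hrc
  rw [Finset.mem_sdiff] at hrc
  apply hrc.2
  unfold Dr
  rw [Finset.mem_filter]
  exact ⟨Finset.mem_univ _, rfl⟩

/-- **the primes of the cofactors** -/
theorem sm_kid (h : Kid X v V u τ) (k : PtK X Y A V u τ e j j' y z z' a a') {l : ℕ}
    (hl : l.Prime) (hd : l ∣ cof (e.1 / u.A) (e.2 / u.A) ∨ l ∣ cof (e.2 / u.A) (e.1 / u.A)) :
    l ≤ lvl u τ ∨ l ∈ (cdK X Y A V u τ Λ).dif (e.1 / u.A, e.2 / u.A) := by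
  by_cases hlt : l ≤ lvl u τ
  · exact Or.inl hlt
  rw [not_le] at hlt
  right
  have hnd := h.hu.nd
  have hrp : W363.ret X.c.t (tp V) e.1 = W363.ret X.c.t (tp V) e.2 := by
    have hw := RC_world k.rc
    have h3 := congrArg (fun t => t.2.1) hw
    unfold Cf.world at h3
    simp only at h3
    rw [k.e1, k.e2] at h3
    exact h3
  have key : ∀ q r : ℕ, q ∈ τ.items → r ∈ τ.items →
      W363.ret X.c.t (tp V) q = W363.ret X.c.t (tp V) r →
      l ∣ cof (q / u.A) (r / u.A) → l ≤ tp V ∧ l ∣ q / u.A ∧ ¬ l ∣ r / u.A := by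
    intro q r hq hr he hd
    have h1 : cof (q / u.A) (r / u.A) * Nat.gcd (q / u.A) (r / u.A) = q / u.A :=
      Nat.div_mul_cancel (Nat.gcd_dvd_left _ _)
    have h2 : l ∣ q / u.A := by rw [← h1]; exact hd.mul_right _
    have h3 : ¬ l ∣ r / u.A := by
      intro h3
      have h4 : l ∣ Nat.gcd (q / u.A) (r / u.A) := Nat.dvd_gcd h2 h3
      refine hnd.self.rad q hq l hl (h.prime_ge hl hlt) ?_
      rw [← h1, pow_two]
      exact Nat.mul_dvd_mul hd h4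
    refine ⟨?_, h2, h3⟩
    by_contra hc
    have h5 := h.uq_of hq hl hlt h2
    have h6 := (dvd_ret X.tOk hl (p := tp V) (q := q)).2 ⟨h5, not_le.1 hc⟩
    rw [he] at h6
    exact h3 (hnd.rt_dvd hr ((dvd_ret X.tOk hl).1 h6).1)
  rcases hd with hd | hd
  · obtain ⟨g1, g2, g3⟩ := key _ _ k.i1 k.i2 hrp hd
    exact mem_dif.2 ⟨⟨hlt, g1⟩, hl, Or.inl ⟨g2, g3⟩⟩
  · obtain ⟨g1, g2, g3⟩ := key _ _ k.i2 k.i1 hrp.symm hd
    exact mem_dif.2 ⟨⟨hlt, g1⟩, hl, Or.inr ⟨g2, g3⟩⟩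

end pt

end ctx


section ctx
variable {N : Skel189.Num} {γ : ℝ} {p0 P₀ : ℕ} {X : Ctx N γ p0 P₀} {v u : NS} {V τ : IT}
  {Y : Finset (ℕ × ℕ × Finset ℕ)} {A : Finset X.c.Lam} {Λ : Finset ℚ}

lemma rr_al {q : ℕ} (hq : q ∈ al X τ A) : X.c.rr q = X.c.r q := if_pos (X.rpos (al_mem hq).2)

lemma RB_al {q : ℕ} (hq : q ∈ al X τ A) : RB X u q = u.B * X.c.r q := by
  show (u.B:ℝ) * X.c.rr q = _
  rw [rr_al hq]

/-- **`CD.Ok` of a child** -/
theorem okK (hD : DH X) (h : Kid X v V u τ) (hm : p0 ≤ lvl u τ) {CL C2 : ℝ}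
    (hq : ∀ q ∈ al X τ A, AQ X V u τ CL q)
    (hM : ∑ q ∈ al X τ A, wA u.A (RB X u) q ≤ Real.log (lvl u τ) ^ C2) (hΛ : Λ.card ≤ 1)
    (hΛ2 : ∀ q ∈ al X τ A, ∀ σ : ℚ, X.c.st (tp V) q = some σ →
      thK X u τ < (u.B:ℝ) * X.c.r q →
        Lab (u.B * X.c.γ) (u.B * X.c.r q) (u.B * σ) ∨ (u.B : ℚ) * σ ∈ Λ) :
    (cdK X Y A V u τ Λ).Ok CL C2 := by
  classical
  have hnd := h.hu.nd
  have hB0 : (0:ℝ) < u.B := h.B_pos
  have hBn : 0 < u.B := hnd.B_pos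
  have hlam : X.c.lam (tp V) = 0 := hD.th.lam _
  have hS : ∀ x ∈ (cdK X Y A V u τ Λ).S, ∃ q ∈ al X τ A, x = q / u.A ∧ u.A * x = q := by
    intro x hx
    obtain ⟨q, hq1, rfl⟩ := Finset.mem_image.1 hx
    exact ⟨q, hq1, rfl, Nat.mul_div_cancel' (al_dvd hnd q hq1)⟩
  have hE : ∀ x ∈ (cdK X Y A V u τ Λ).E, ∃ (e : ℕ × ℕ) (j j' : X.c.Lam) (y z z' : ℝ) (a a' : ℤ),
      PtK X Y A V u τ e j j' y z z' a a' ∧ x = (e.1 / u.A, e.2 / u.A) ∧
      e.1 ∈ al X τ A ∧ e.2 ∈ al X τ A := by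
    intro x hx
    obtain ⟨e, he, rfl⟩ := Finset.mem_image.1 hx
    obtain ⟨j, j', y, z, z', a, a', k⟩ := PE_kid hnd he
    obtain ⟨a1, a2⟩ := Finset.mem_product.1 (PE_sub hnd he)
    exact ⟨e, j, j', y, z, z', a, a', k, rfl, a1, a2⟩
  have es : ∀ q, (cdK X Y A V u τ Λ).s q =
      (X.c.st (tp V) (u.A * q)).map fun σ => (u.B : ℚ) * σ := fun q => rfl
  have es' : ∀ q, (cdK X Y A V u τ Λ).s' q =
      (stK X τ (u.A * q)).map fun σ => (u.B : ℚ) * σ := fun q => rfl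
  have eR : ∀ q, (cdK X Y A V u τ Λ).R q = RB X u (u.A * q) := fun q => rfl
  have eF : ∀ e : ℕ × ℕ, e.1 ∈ al X τ A → e.2 ∈ al X τ A →
      (cdK X Y A V u τ Λ).F (e.1 / u.A, e.2 / u.A) =
      (X.c.D.par Y).iF (RC X Y (tp V) u τ) (Uv X Y u τ A) (Uv X Y u τ A) e := by
    intro e h1 h2
    show (X.c.D.par Y).iF (RC X Y (tp V) u τ) (Uv X Y u τ A) (Uv X Y u τ A)
      (u.A * (e.1 / u.A), u.A * (e.2 / u.A)) = _
    rw [Nat.mul_div_cancel' (al_dvd hnd _ h1), Nat.mul_div_cancel' (al_dvd hnd _ h2)]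
  have eDP : ∀ e : ℕ × ℕ, e.1 ∈ al X τ A → e.2 ∈ al X τ A →
      DP (cdK X Y A V u τ Λ).R (cdK X Y A V u τ Λ).R (e.1 / u.A, e.2 / u.A) =
        DA u.A (RB X u) e := fun e h1 h2 => DP_eq u.A (RB X u) (al_dvd hnd _ h1) (al_dvd hnd _ h2)
  have eRq : ∀ q ∈ al X τ A, (cdK X Y A V u τ Λ).R (q / u.A) = RB X u q := fun q hq => by
    rw [eR, Nat.mul_div_cancel' (al_dvd hnd _ hq)]
  refine
    { mp := h.lvl_le
      sub := sub_tr (PE_sub hnd)
      ne := ?_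
      pos := ?_
      lo := ?_
      tame := ?_
      mass := ?_
      eta0 := Real.exp_pos _
      eta := le_rfl
      T0 := ?_
      T1 := ?_
      sm := ?_
      F0 := ?_
      Fn := ?_
      Fs := ?_
      lk := ?_
      card := hΛ
      thinL := ?_
      thinN := ?_
      fatL := ?_
      keep := ?_ }
  · -- ne
    intro x hx
    obtain ⟨e, j, j', y, z, z', a, a', k, rfl, h1, h2⟩ := hE x hx
    intro heq
    have heq' : e.1 / u.A = e.2 / u.A := heq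
    refine ne_kid hD h k (hq _ h1).hi ?_
    rw [← Nat.mul_div_cancel' (al_dvd hnd _ h1), heq', Nat.mul_div_cancel' (al_dvd hnd _ h2)]
  · -- pos
    intro x hx
    obtain ⟨q, hq1, rfl, hq3⟩ := hS x hx
    refine ⟨Nat.pos_of_ne_zero (hnd.div_ne (al_mem hq1).1), ?_⟩
    rw [eRq q hq1]
    exact (hq q hq1).R0
  · -- lo
    intro x hx
    obtain ⟨q, hq1, rfl, hq3⟩ := hS x hx
    rw [eRq q hq1]
    refine (hq q hq1).lo.trans (le_of_eq ?_)
    congr 1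
    exact (wt_tr u.A (RB X u) (al_dvd hnd q hq1)).symm
  · -- tame
    intro z hz x hx
    obtain ⟨q, hq1, rfl, hq3⟩ := hS x hx
    exact (hq q hq1).tame z hz
  · -- mass
    have := cdK_S (V := V) hnd (Y := Y) (A := A) (Λ := Λ) (fun _ => 1)
    simp only [mul_one] at this
    rw [this]
    exact hM
  · -- T0
    show ((lvl u τ : ℕ) : ℝ) ^ (-(1/2:ℝ)) ≤ thK X u τ
    by_cases hl : isL τ
    · obtain ⟨S, rfl⟩ := isL_iff.1 hl
      rw [thK_leaf]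
      exact hD.thrL0 _ hm
    · rw [thK_node hl, lvl_node hl]
      exact hD.rse.thr _ (h.node hl).2.1
  · -- T1
    show thK X u τ ≤ 1 / 10
    by_cases hl : isL τ
    · obtain ⟨S, rfl⟩ := isL_iff.1 hl
      rw [thK_leaf]
      exact hD.thrL1 _ hm
    · rw [thK_node hl]
      exact hD.thr1 _ (h.node hl).2.1
  · -- sm
    intro x hx l hl hd
    obtain ⟨e, j, j', y, z, z', a, a', k, rfl, h1, h2⟩ := hE x hx
    exact sm_kid h k hl hd
  · -- F0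
    intro x hx
    obtain ⟨e, j, j', y, z, z', a, a', k, rfl, h1, h2⟩ := hE x hx
    rw [eF e h1 h2]
    have hU : ∀ (i : X.c.Lam) (t : ℝ), 0 ≤ Uv X Y u τ A i t := by
      intro i t
      have hpb := PB_rv (fun i => FT.pb hBn
        ((X.c.D.par Y).toFT_Adm τ u.B u.A hBn hnd.fit (node_wts hnd Y)) (one_dvd u.B) i) A i
      exact hpb.nonneg t
    exact (X.c.D.par Y).iF_nonneg _ hU hU e
  · -- Fn
    intro x hx hs
    obtain ⟨e, j, j', y, z, z', a, a', k, rfl, h1, h2⟩ := hE x hx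
    have L : (cdK X Y A V u τ Λ).LkA (e.1 / u.A, e.2 / u.A) a a' := lkA_kid hD h k
    have hs2 := (L.lkn hs).1
    have hs' : X.c.st (tp V) e.1 = none := by
      rw [es] at hs
      simp only at hs
      rw [Nat.mul_div_cancel' (al_dvd hnd _ h1)] at hs
      exact map_none.1 hs
    have hs2' : X.c.st (tp V) e.2 = none := by
      rw [es] at hs2
      simp only at hs2
      rw [Nat.mul_div_cancel' (al_dvd hnd _ h2)] at hs2
      exact map_none.1 hs2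
    rw [eF e h1 h2, eDP e h1 h2]
    simp only
    rw [eRq _ h1, eRq _ h2]
    exact F_none_kid hnd h.tpVt hlam k.i1 k.i2 (etaL_le hD h) hs' hs2'
  · -- Fs
    intro x hx ρ hs
    obtain ⟨e, j, j', y, z, z', a, a', k, rfl, h1, h2⟩ := hE x hx
    have L : (cdK X Y A V u τ Λ).LkA (e.1 / u.A, e.2 / u.A) a a' := lkA_kid hD h k
    obtain ⟨ρ', hs2, -⟩ := L.lks ρ hs
    rw [es] at hs hs2
    simp only at hs hs2
    rw [Nat.mul_div_cancel' (al_dvd hnd _ h1)] at hs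
    rw [Nat.mul_div_cancel' (al_dvd hnd _ h2)] at hs2
    obtain ⟨σ, hσ, -⟩ := map_some hs
    obtain ⟨σ', hσ', -⟩ := map_some hs2
    rw [eF e h1 h2, eDP e h1 h2]
    simp only
    rw [eRq _ h1, eRq _ h2]
    exact F_some_kid hnd h.tpVt hlam k.i1 k.i2 hσ hσ'
  · -- lk
    intro x hx
    obtain ⟨e, j, j', y, z, z', a, a', k, rfl, h1, h2⟩ := hE x hx
    exact ⟨a, a', lkA_kid hD h k⟩
  · -- thinL
    intro x hx ρ hs hT
    obtain ⟨q, hq1, rfl, hq3⟩ := hS x hx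
    rw [es', hq3] at hs
    rw [eRq q hq1, RB_al hq1] at hT ⊢
    obtain ⟨σ, hσ, rfl⟩ := map_some hs
    rw [K_thin hD.th h (al_mem hq1).1 hT] at hσ
    exact lab0_spec hBn hσ
  · -- thinN
    intro x hx hs hT ρ
    obtain ⟨q, hq1, rfl, hq3⟩ := hS x hx
    rw [es', hq3] at hs
    rw [eRq q hq1, RB_al hq1] at hT ⊢
    have hs2 := map_none.1 hs
    rw [K_thin hD.th h (al_mem hq1).1 hT] at hs2
    exact lab0_none hs2 ρ
  · -- fatL
    intro x hx ρ hs hT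
    obtain ⟨q, hq1, rfl, hq3⟩ := hS x hx
    rw [es', hq3] at hs
    rw [eRq q hq1, RB_al hq1] at hT ⊢
    obtain ⟨σ, hσ, rfl⟩ := map_some hs
    have hqi := al_mem hq1
    cases hv : X.c.st (tp V) q with
    | none =>
      left
      rcases h.B with hB | hB
      · rw [K_none hD.th h hqi.1 hqi.2 hB hv] at hσ
        exact absurd hσ (by simp)
      · exact lab0_spec hBn (K_fatN hD.th h hqi.1 hqi.2 hB hT hv hσ)
    | some σ' =>
      have h5 := K_keep hD.th h hqi.1 hqi.2 hT hv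
      rw [hσ] at h5
      rw [Option.some.inj h5]
      exact hΛ2 q hq1 σ' hv hT
  · -- keep
    intro x hx ρ hs hT
    obtain ⟨q, hq1, rfl, hq3⟩ := hS x hx
    rw [es, hq3] at hs
    rw [es', hq3]
    rw [eRq q hq1, RB_al hq1] at hT
    obtain ⟨σ, hσ, rfl⟩ := map_some hs
    rw [K_keep hD.th h (al_mem hq1).1 (al_mem hq1).2 hT hσ]
    rfl

/-- **`CD.NM`**: a child of the same stage -/
theorem nmK (hD : DH X) (h : Kid X v V u τ) (hB : u.B = v.B) {A' : ℝ}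
    (hvl : ∀ q ∈ al X τ A, ∀ σ : ℚ, X.c.st (tp V) q = some σ →
        Lab (u.B * X.c.γ) (u.B * X.c.r q) (u.B * σ) ∨ (u.B : ℚ) * σ ∈ Λ)
    (hacc : ∀ q ∈ al X τ A, ∀ b : ℕ, b.Prime → lvl u τ < b → b ≤ tp V → b ∣ q / u.A →
      ¬ Accd (u.B * X.c.γ) (Real.log b ^ A') b)
    (hbad : ∀ q ∈ al X τ A, ∀ b : ℕ, b.Prime → lvl u τ < b → b ≤ tp V →
      ¬ (BadB X.c.γ u.B b ∧ ¬ b ∣ u.B) → ∀ σ : ℚ, stK X τ q = some σ →
      b ∣ ((u.B:ℚ) * σ).den → Real.exp ((b:ℝ) ^ (1/20:ℝ)) < ((u.B:ℚ) * σ).den) :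
    (cdK X Y A V u τ Λ).NM A' (fun b => BadB X.c.γ u.B b ∧ ¬ b ∣ u.B) := by
  classical
  have hnd := h.hu.nd
  have hS : ∀ x ∈ (cdK X Y A V u τ Λ).S, ∃ q ∈ al X τ A, x = q / u.A ∧ u.A * x = q := by
    intro x hx
    obtain ⟨q, hq1, rfl⟩ := Finset.mem_image.1 hx
    exact ⟨q, hq1, rfl, Nat.mul_div_cancel' (al_dvd hnd q hq1)⟩
  have es : ∀ q, (cdK X Y A V u τ Λ).s q =
      (X.c.st (tp V) (u.A * q)).map fun σ => (u.B : ℚ) * σ := fun q => rfl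
  have es' : ∀ q, (cdK X Y A V u τ Λ).s' q =
      (stK X τ (u.A * q)).map fun σ => (u.B : ℚ) * σ := fun q => rfl
  have eR : ∀ q, (cdK X Y A V u τ Λ).R q = RB X u (u.A * q) := fun q => rfl
  refine
    { nn := ?_
      vl := ?_
      acc := ?_
      bad := ?_ }
  · intro x hx hs
    obtain ⟨q, hq1, rfl, hq3⟩ := hS x hx
    rw [es, hq3] at hs
    rw [es', hq3, K_none hD.th h (al_mem hq1).1 (al_mem hq1).2 hB (map_none.1 hs)]
    rfl
  · intro x hx ρ hs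
    obtain ⟨q, hq1, rfl, hq3⟩ := hS x hx
    rw [es, hq3] at hs
    rw [eR, hq3, RB_al hq1]
    obtain ⟨σ, hσ, rfl⟩ := map_some hs
    exact hvl q hq1 σ hσ
  · intro x hx b hb h1 h2 h3
    obtain ⟨q, hq1, rfl, hq3⟩ := hS x hx
    exact hacc q hq1 b hb h1 h2 h3
  · intro b hb h1 h2 h3 x hx ρ hs h4
    obtain ⟨q, hq1, rfl, hq3⟩ := hS x hx
    rw [es', hq3] at hs
    obtain ⟨σ, hσ, rfl⟩ := map_some hs
    exact hbad q hq1 b hb h1 h2 h3 σ hσ h4

/-- **`CD.MM`**: the missing child of a tie -/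
theorem mmK (hD : DH X) (h : Kid X v V u τ) (hB : u.B = v.B * tp V) {C2 A' : ℝ}
    (hhi : ∀ q ∈ al X τ A, RB X u q ≤ Real.log (tp V) ^ C2)
    (hacc : (al X τ A).Nonempty → ¬ Accd (v.B * X.c.γ) (Real.log (tp V) ^ A') (tp V))
    (hbad : (al X τ A).Nonempty → ∀ (ρ : ℚ) (a : ℝ), Lab (v.B * X.c.γ) a ρ → tp V ∣ ρ.den →
      Real.exp ((tp V : ℝ) ^ (1/20:ℝ)) < ρ.den) :
    (cdK X Y A V u τ Λ).MM C2 A' := by
  classical
  have hnd := h.hu.nd
  have hp := h.tpV.1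
  have hp0 : (tp V : ℝ) ≠ 0 := by exact_mod_cast hp.ne_zero
  have hpq : (tp V : ℚ) ≠ 0 := by exact_mod_cast hp.ne_zero
  have hvB : 0 < v.B := h.hv.nd.B_pos
  have hS : ∀ x ∈ (cdK X Y A V u τ Λ).S, ∃ q ∈ al X τ A, x = q / u.A ∧ u.A * x = q := by
    intro x hx
    obtain ⟨q, hq1, rfl⟩ := Finset.mem_image.1 hx
    exact ⟨q, hq1, rfl, Nat.mul_div_cancel' (al_dvd hnd q hq1)⟩
  have hne : (cdK X Y A V u τ Λ).S.Nonempty → (al X τ A).Nonempty := by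
    rintro ⟨x, hx⟩
    obtain ⟨q, hq1, -⟩ := hS x hx
    exact ⟨q, hq1⟩
  have es : ∀ q, (cdK X Y A V u τ Λ).s q =
      (X.c.st (tp V) (u.A * q)).map fun σ => (u.B : ℚ) * σ := fun q => rfl
  have eR : ∀ q, (cdK X Y A V u τ Λ).R q = RB X u (u.A * q) := fun q => rfl
  have eθ : (cdK X Y A V u τ Λ).θ / (cdK X Y A V u τ Λ).p = v.B * X.c.γ := by
    show (u.B * X.c.γ) / (tp V : ℝ) = _
    rw [hB]
    push_cast
    field_simp
  have eRp : ∀ q ∈ al X τ A, RB X u q / (tp V : ℝ) = v.B * X.c.r q := by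
    intro q hq
    rw [RB_al hq, hB]
    push_cast
    field_simp
  refine
    { pp := hp
      hi := ?_
      nl := ?_
      vl := ?_
      acc := ?_
      bad := ?_ }
  · intro x hx
    obtain ⟨q, hq1, rfl, hq3⟩ := hS x hx
    rw [eR, hq3]
    exact hhi q hq1
  · intro x hx hs ρ
    obtain ⟨q, hq1, rfl, hq3⟩ := hS x hx
    rw [es, hq3] at hs
    have h1 := map_none.1 hs
    rw [(K_miss hD.th h (al_mem hq1).1 (al_mem hq1).2 hB).2] at h1
    rw [eθ, eR, hq3]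
    show ¬ Lab _ (RB X u q / (tp V : ℝ)) ρ
    rw [eRp q hq1]
    exact lab0_none h1 ρ
  · intro x hx ρ hs
    obtain ⟨q, hq1, rfl, hq3⟩ := hS x hx
    rw [es, hq3] at hs
    obtain ⟨σ, hσ, rfl⟩ := map_some hs
    rw [(K_miss hD.th h (al_mem hq1).1 (al_mem hq1).2 hB).2] at hσ
    rw [eθ, eR, hq3]
    show Lab _ (RB X u q / (tp V : ℝ)) ((u.B:ℚ) * σ / (tp V : ℚ))
    rw [eRp q hq1]
    have e1 : (u.B:ℚ) * σ / (tp V : ℚ) = (v.B : ℚ) * σ := by
      rw [hB]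
      push_cast
      field_simp
    rw [e1]
    exact lab0_spec hvB hσ
  · intro hn
    rw [eθ]
    exact hacc (hne hn)
  · intro hn ρ a hL hd
    rw [eθ] at hL
    exact hbad (hne hn) ρ a hL hd

/-! ### the common fat label -/

/-- **same stage** -/
theorem lamS (N : Skel189.Num) : ∃ p₁ : ℕ, ∀ p0 ≥ p₁, ∀ (γ : ℝ) (P₀ : ℕ) (X : Ctx N γ p0 P₀),
    DH X → ∀ (v u : NS) (V τ : IT), Kid X v V u τ → u.B = v.B →
    ∃ Λ : Finset ℚ, Λ.card ≤ 1 ∧ ∀ q ∈ τ.items, q ∈ X.S' → ∀ σ : ℚ,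
      X.c.st (tp V) q = some σ →
        Lab (u.B * X.c.γ) (u.B * X.c.r q) (u.B * σ) ∨ (u.B : ℚ) * σ ∈ Λ := by
  obtain ⟨p5, h5⟩ := num_p (N.c2 + 2)
  refine ⟨p5, fun p0 hp0 γ P₀ X hD v u V τ h hB => ?_⟩
  obtain ⟨k1, k2, k3⟩ := h.tpV
  set p := tp V with hp
  obtain ⟨n1, n2, n3, n4, n5⟩ := h5 p (by omega)
  have hpR : (0:ℝ) < p := by exact_mod_cast (by omega : 0 < p)
  have hthr := hD.rse.thr p k2
  have hK : ∀ s : ℕ, tp V < s → Real.log p ^ (N.c2 + 2) ≤ s * X.c.wp.thr s := by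
    intro s hs
    have hsR : (0:ℝ) < s := by
      have : 0 < s := by omega
      exact_mod_cast this
    have hps : (p:ℝ) ≤ s := by exact_mod_cast hs.le
    have h6 := hD.rse.thr s (k2.trans hs)
    have h7 : (s:ℝ) ^ (1/2:ℝ) = s * (s:ℝ) ^ (-(1/2:ℝ)) := by
      conv_rhs => rw [← Real.rpow_one (s:ℝ), ← Real.rpow_mul hsR.le, ← Real.rpow_add hsR]
      norm_num
    calc Real.log p ^ (N.c2 + 2) ≤ (p:ℝ) ^ (1/2:ℝ) := n5
      _ ≤ (s:ℝ) ^ (1/2:ℝ) := Real.rpow_le_rpow hpR.le hps (by norm_num)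
      _ = s * (s:ℝ) ^ (-(1/2:ℝ)) := h7
      _ ≤ s * X.c.wp.thr s := mul_le_mul_of_nonneg_left h6 hsR.le
  have hthr0 : 0 < X.c.wp.thr (tp V) := (Real.rpow_pos_of_pos hpR _).trans_le hthr
  have hK4 : 32 * (Real.log p ^ (N.c2 + 2)) ^ 4 < (tp V : ℝ) ^ 2 * X.c.wp.thr (tp V) ^ 2 := by
    refine n4.trans_le ?_
    have h7 : ((p:ℝ) ^ (-(1/2:ℝ))) ^ 2 ≤ X.c.wp.thr (tp V) ^ 2 :=
      pow_le_pow_left₀ (Real.rpow_nonneg hpR.le _) hthr 2
    have h8 : ((p:ℝ) ^ (-(1/2:ℝ))) ^ 2 = (p:ℝ)⁻¹ := by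
      rw [← Real.rpow_natCast, ← Real.rpow_mul hpR.le, ← Real.rpow_neg_one]
      norm_num
    rw [h8] at h7
    calc (p:ℝ) = (p:ℝ) ^ 2 * (p:ℝ)⁻¹ := by field_simp
      _ ≤ (p:ℝ) ^ 2 * X.c.wp.thr (tp V) ^ 2 := mul_le_mul_of_nonneg_left h7 (sq_nonneg _)
  obtain ⟨Λf, hΛ, hlab⟩ := lab_nodeB h.hv.nd X.tOk h.lV (wp := X.c.wp) (wpL := X.c.wpL)
    (lam := X.c.lam) (lv := X.c.lv) (γ := X.c.γ) (r := X.c.r) hK hthr0 hK4
  refine ⟨Λf, hΛ, fun q hq hqs σ hσ => ?_⟩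
  have hcol := h.hv.rd.col h.lV q (h.sub hq) hqs
  have hrr : X.c.rr q = X.c.r q := if_pos (X.rpos hqs)
  rw [hrr] at hcol
  rw [hB]
  rcases hlab q (h.sub hq) hcol σ hσ with h6 | h6
  · exact Or.inl h6
  · exact Or.inr h6.1

/-- **missing child** -/
theorem lamM (N : Skel189.Num) : ∃ p₁ : ℕ, ∀ p0 ≥ p₁, ∀ (γ : ℝ) (P₀ : ℕ) (X : Ctx N γ p0 P₀),
    DH X → ∀ (v u : NS) (V τ : IT), Kid X v V u τ → u.B = v.B * tp V → p0 ≤ lvl u τ →
    ∃ Λ : Finset ℚ, Λ.card ≤ 1 ∧ ∀ q ∈ τ.items, q ∈ X.S' → ∀ σ : ℚ,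
      X.c.st (tp V) q = some σ → thK X u τ < (u.B:ℝ) * X.c.r q → (u.B : ℚ) * σ ∈ Λ := by
  classical
  obtain ⟨p5, h5⟩ := num_p (N.B + N.c2 + 2)
  refine ⟨p5 + 2, fun p0 hp0 γ P₀ X hD v u V τ h hB hm => ?_⟩
  obtain ⟨k1, k2, k3⟩ := h.tpV
  set p := tp V with hp
  obtain ⟨n1, n2, n3, n4, n5⟩ := h5 p (by omega)
  have hpR : (0:ℝ) < p := by exact_mod_cast (by omega : 0 < p)
  have hun : u.n ≤ p := h.hu.nd.bk.geB p k1 ⟨v.B, by rw [hB, mul_comm]⟩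
  have hlvl := h.lvl_le
  have hT : (p:ℝ) ^ (-(1/2:ℝ)) ≤ thK X u τ := by
    have hm0 : (0:ℝ) < ((lvl u τ : ℕ) : ℝ) := by exact_mod_cast (by omega : 0 < lvl u τ)
    have h1 : (p:ℝ) ^ (-(1/2:ℝ)) ≤ ((lvl u τ : ℕ) : ℝ) ^ (-(1/2:ℝ)) := by
      refine Real.rpow_le_rpow_of_nonpos hm0 ?_ (by norm_num)
      exact_mod_cast hlvl
    refine h1.trans ?_
    by_cases hl : isL τ
    · obtain ⟨S, rfl⟩ := isL_iff.1 hl
      rw [thK_leaf]
      exact hD.thrL0 _ hm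
    · rw [thK_node hl, lvl_node hl]
      exact hD.rse.thr _ (h.node hl).2.1
  have hB' : (u.B:ℝ) = v.B * p := by rw [hB]; push_cast; ring
  have key : ∀ q ∈ τ.items, q ∈ X.S' → ∀ σ : ℚ, X.c.st p q = some σ →
      thK X u τ < (u.B:ℝ) * X.c.r q →
      Lab (v.B * X.c.γ) (v.B * X.c.r q) (v.B * σ) ∧ thK X u τ / p ≤ v.B * X.c.r q ∧
        v.B * X.c.r q ≤ Real.log p ^ (N.B + N.c2 + 2) / p := by
    intro q hq hqs σ hσ hfat
    rw [(K_miss hD.th h hq hqs hB).2] at hσ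
    refine ⟨lab0_spec h.hv.nd.B_pos hσ, ?_, ?_⟩
    · rw [div_le_iff₀ hpR]
      rw [hB'] at hfat
      nlinarith
    · rw [le_div_iff₀ hpR]
      have h6 := h.hu.rd.gen q hq hqs p k2 hun
      have hrr : X.c.rr q = X.c.r q := if_pos (X.rpos hqs)
      rw [hrr, hB'] at h6
      nlinarith
  by_cases hex : ∃ q ∈ τ.items, q ∈ X.S' ∧ ∃ σ : ℚ, X.c.st p q = some σ ∧
      thK X u τ < (u.B:ℝ) * X.c.r q
  · obtain ⟨q₀, hq₀, hqs₀, σ₀, hσ₀, hf₀⟩ := hex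
    refine ⟨{(u.B : ℚ) * σ₀}, by simp, fun q hq hqs σ hσ hf => ?_⟩
    obtain ⟨a1, a2, a3⟩ := key q hq hqs σ hσ hf
    obtain ⟨b1, b2, b3⟩ := key q₀ hq₀ hqs₀ σ₀ hσ₀ hf₀
    have hT0 : 0 < thK X u τ / p := div_pos ((Real.rpow_pos_of_pos hpR _).trans_le hT) hpR
    have he := lab_unique_of a1 b1 hT0 a2 b2 a3 b3 (by
      rw [div_pow, div_pow, mul_div_assoc', div_lt_div_iff₀ (by positivity) (by positivity)]
      have h7 : ((p:ℝ) ^ (-(1/2:ℝ))) ^ 2 ≤ thK X u τ ^ 2 :=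
        pow_le_pow_left₀ (Real.rpow_nonneg hpR.le _) hT 2
      have h8 : ((p:ℝ) ^ (-(1/2:ℝ))) ^ 2 = (p:ℝ)⁻¹ := by
        rw [← Real.rpow_natCast, ← Real.rpow_mul hpR.le, ← Real.rpow_neg_one]
        norm_num
      rw [h8] at h7
      calc 32 * (Real.log p ^ (N.B + N.c2 + 2)) ^ 4 * (p:ℝ) ^ 2 < p * (p:ℝ) ^ 2 :=
            mul_lt_mul_of_pos_right n4 (by positivity)
        _ = (p:ℝ)⁻¹ * (p:ℝ) ^ 4 := by field_simp
        _ ≤ thK X u τ ^ 2 * (p:ℝ) ^ 4 := mul_le_mul_of_nonneg_right h7 (by positivity))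
    have hvq : (v.B : ℚ) ≠ 0 := by exact_mod_cast h.hv.nd.B_pos.ne'
    rw [Finset.mem_singleton, mul_left_cancel₀ hvq he]
  · refine ⟨∅, by simp, fun q hq hqs σ hσ hf => ?_⟩
    exact absurd ⟨q, hq, hqs, σ, hσ, hf⟩ hex

end ctx


end Crest.Agent.R4P.ChU17
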