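import Crest.Agent.R4P.ChU2_17

/-!
R4 (S0004), powers pass, helper17 ([chokU], TgtCrs): **the energy of every non-leaf child which may be
an `up` node**: the copy of `DseChk_23` (helper23) and `DseAl_28` (helper28).
-/

set_option autoImplicit false
set_option linter.unusedSectionVars false
set_option linter.unusedVariables false

open MeasureTheory Filter

namespace Crest.Agent.R4P.ChU17

open Crest.Agent.R4P.Cnt588 Crest.Agent.R4P.Item758 Crest.Agent.R4P.W363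
open Crest.Agent.R4P.Data758 Crest.Agent.R4P.LfDat734 Crest.Agent.R4P.OmSt532
open Crest.Agent.R4P.OmData532 Crest.Agent.R4P.WPex189
open Crest.Agent.R4P.Bld532 (NS All NodeOk Bk)
open Crest.Agent.R4P.Step588 (NDt ND1 ctx_NDt uq_lt)
open Crest.Agent.R4P.WalkIT579 (tp isL nodeOk_hi top_of_nodeOk)
open Crest.Agent.R4P.Skel189 Crest.Agent.R4P.RseSt23 Crest.Agent.R4P.RseNd23
open Crest.Agent.R4.ClosL758 Crest.Agent.R4.ClosR758 Crest.Agent.R4.Tour104 Crest.Agent.R4.Fam464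
open Crest.Agent.R4.Tour758 Crest.Agent.R4.Avg758 Crest.Agent.R4.ClosG758
open Crest.Agent.R4.Item758 (IL)
open Crest.Agent.R4.Soft104 (w)
open Crest.Agent.R4.LF363 (Lab)
open Crest.Agent.R4.HVW560 (cof)
open Crest.Agent.R4.ClsB (Tame)
open Crest.Agent.R4.DensAcc33 (Accd)
open Crest.Agent.R4P.BadB16 (BadB BadL LabT LabF lab_usedB Bab_node)
open Crest.Agent.R4P.PruneAcc17 (NoAcc Bab)
open Crest.Agent.R4P.PruneBad17 (NoBad)
open Crest.Agent.R4P.StB21
open Crest.Agent.R4P.DseCh23 (hd hu hu_c hu_A hu_B lvl cE eD)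
open Crest.Agent.R4P.DseN23
open Crest.Agent.R4P.DseKid23 (KB DH stK wpK thK stK_leaf stK_node wpK_leaf wpK_node lvl_node
  thK_leaf thK_node isL_iff crK ret_sep ixK ixK_kept ixK_same pt_kid AQ eQ eD_eq eQ_nonneg log_nn
  cE_nonneg KQ TN num_log num_eta)
open Crest.Agent.R4P.DseAl28 (AlK log_succ)
open Crest.Agent.R4

section ctx
variable {N : Skel189.Num} {γ : ℝ} {p0 P₀ : ℕ} {X : Ctx N γ p0 P₀} {v u : NS} {V τ : IT}
  {Y : Finset (ℕ × ℕ × Finset ℕ)} {A : Finset X.c.Lam} {Λ : Finset ℚ}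

/-- the charges of the primes of `(m, p]` -/
lemma pr_cE (h : Kid X v V u τ) {K : ℝ} {q : ℕ} (hq : q ∈ τ.items) :
    (cdK X Y A V u τ Λ).pr K (fun b => BadB X.c.γ u.B b ∧ ¬ b ∣ u.B) (q / u.A) =
      cE K X.c.γ (lvl u τ) (tp V) u.B (X.c.t.uq q) := by
  classical
  unfold CD.pr cE CD.PI
  refine Finset.sum_congr rfl fun b hb => ?_
  obtain ⟨hb1, hb2⟩ := Finset.mem_filter.1 hb
  obtain ⟨hb3, hb4⟩ := Finset.mem_Ioc.1 hb1
  have hlt : lvl u τ < b := hb3
  have e1 : b ∣ q / u.A ↔ b ∈ X.c.t.uq q :=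
    ⟨fun hd => h.uq_of hq hb2 hlt hd, fun hd => h.hu.nd.rt_dvd hq hd⟩
  have e2 : (if b ∣ q / u.A then (1:ℝ) else 0) = if b ∈ X.c.t.uq q then 1 else 0 := by
    by_cases hc : b ∈ X.c.t.uq q
    · rw [if_pos hc, if_pos (e1.2 hc)]
    · rw [if_neg hc, if_neg fun hd => hc (e1.1 hd)]
  rw [e2]
  by_cases hc : BadB X.c.γ u.B b ∧ ¬ b ∣ u.B
  · simp only [if_pos hc]
  · simp only [if_neg hc]

/-- from the circle to the pieces -/
lemma to_ch (h : Kid X v V u τ) (hA : IL X.c.D.it A) {K κ a : ℝ} (ha : 0 ≤ a) {A' : ℝ}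
    (hQ : KQ X v V u τ A') (g : ℕ → ℝ)
    (hg : ∀ q ∈ al X τ A, 0 ≤ g (q / u.A) ∧ g (q / u.A) ≤ eQ X K κ a (tp V) u τ q)
    (hs : ∑ e ∈ (cdK X Y A V u τ Λ).E, (cdK X Y A V u τ Λ).F e ≤
      ∑ x ∈ (cdK X Y A V u τ Λ).S, HVW560.wt (cdK X Y A V u τ Λ).R x * g x) :
    ChOk X Y A (Frame758.wt X.c.D) (eD X K κ a) (tp V) u τ := by
  classical
  unfold ChOk
  rw [cdK_sum h.hu.nd (Λ := Λ)]
  refine hs.trans ?_
  rw [cdK_S h.hu.nd]
  have h1 : ∑ q ∈ al X τ A, wA u.A (RB X u) q * g (q / u.A) ≤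
      u.c * ∑ q ∈ al X τ A, w X.ψ q * eQ X K κ a (tp V) u τ q := by
    rw [Finset.mul_sum]
    refine Finset.sum_le_sum fun q hq => ?_
    obtain ⟨g1, g2⟩ := hg q hq
    have h2 := hQ.wle q (al_mem hq).1 (al_mem hq).2
    have h3 : 0 ≤ u.c * w X.ψ q := mul_nonneg h.hu.c0.le (X.hW q)
    calc wA u.A (RB X u) q * g (q / u.A) ≤ (u.c * w X.ψ q) * g (q / u.A) :=
          mul_le_mul_of_nonneg_right h2 g1
      _ ≤ (u.c * w X.ψ q) * eQ X K κ a (tp V) u τ q := mul_le_mul_of_nonneg_left g2 h3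
      _ = u.c * (w X.ψ q * eQ X K κ a (tp V) u τ q) := by ring
  refine h1.trans ?_
  exact AddPay7.mass_alF h.hu.c0.le hA (f := eQ X K κ a (tp V) u τ)
    (fun q => eQ_nonneg ha (tp V) q)

/-- no energy -/
lemma ch_zero (h : Kid X v V u τ) {K κ a : ℝ} (ha : 0 ≤ a) (h0 : ChE X Y A (tp V) u τ ≤ 0) :
    ChOk X Y A (Frame758.wt X.c.D) (eD X K κ a) (tp V) u τ := by
  classical
  unfold ChOk
  refine h0.trans (mul_nonneg h.hu.c0.le (Finset.sum_nonneg fun j _ => mul_nonneg ?_ ?_))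
  · exact Skel189.wt_nonneg X j
  · exact eQ_nonneg ha (tp V) _

end ctx

open Classical in
set_option maxHeartbeats 2000000 in
/-- **the energy of every child** -/
theorem chok (N : Skel189.Num) {Cu C6 K κ A' : ℝ} (hA' : 0 ≤ A') (hκ : 0 ≤ κ) (hK0 : 0 ≤ K)
    (hu3 : KL (2 * Step588.CT) (N.B + N.c2 + 3) Cu 3) (hw3 : WL (2 * Step588.CT) (N.B + N.c2 + 3) Cu 3)
    (huκ : KL (2 * Step588.CT) (N.B + N.c2 + 3) Cu κ)
    (h61 : KL (2 * Step588.CT) (N.B + N.c2 + 3) C6 1)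
    (hw61 : WL (2 * Step588.CT) (N.B + N.c2 + 3) C6 1) :
    ∃ p₁ : ℕ, ∀ p0 ≥ p₁, ∀ (γ : ℝ) (P₀ : ℕ) (X : Ctx N γ p0 P₀), DH X → TN X Cu C6 →
    ∀ (Y : Finset (ℕ × ℕ × Finset ℕ)) (A : Finset X.c.Lam), IL X.c.D.it A →
    ∀ (v : NS) (V : IT) (u : NS) (τ : IT), Kid X v V u τ → KQ X v V u τ A' →
      ChOk X Y A (Frame758.wt X.c.D) (eD X K κ 1) (tp V) u τ := by
  have hB1 := N.hB
  have hC1 := N.hC1
  have hc2 := N.hc2
  have hCT := Step588.CT_pos
  have hCL : (0:ℝ) ≤ 2 * Step588.CT := by positivity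
  have hC2 : 0 ≤ N.B + N.c2 + 3 := by linarith
  obtain ⟨p1, h1⟩ := nm_tot A' K hCL hC2 hu3 hw3
  obtain ⟨p2, h2⟩ := nm_same (CL := 2 * Step588.CT) (C2 := N.B + N.c2 + 3) A' K hCL hC2
  obtain ⟨p3, h3⟩ := mm_tot A' (K + 1) hCL hC2 hA' huκ
  obtain ⟨p4, h4⟩ := nm_tot A' K hCL hC2 h61 hw61
  obtain ⟨p5, h5⟩ := mm_tot A' (K + 1) hCL hC2 hA' h61
  obtain ⟨p6, h6⟩ := lamS N
  obtain ⟨p7, h7⟩ := lamM N
  obtain ⟨p8, h8⟩ := num_eta
  obtain ⟨p9, h9⟩ := num_log
  refine ⟨p1 + p2 + p3 + p4 + p5 + p6 + p7 + p8 + p9 + 1,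
    fun p0 hp0 γ P₀ X hD hT Y A hA v V u τ h hQ => ?_⟩
  obtain ⟨k1, k2, k3⟩ := h.tpV
  rcases Finset.eq_empty_or_nonempty (al X τ A) with h0 | ⟨q₀, hq₀⟩
  · refine ch_zero h zero_le_one (le_of_eq ?_)
    rw [cdK_sum h.hu.nd (Λ := ∅)]
    have hPE : (X.c.D.par Y).PE (RC X Y (tp V) u τ) (Uv X Y u τ A) (Uv X Y u τ A) = ∅ := by
      rw [Finset.eq_empty_iff_forall_notMem]
      intro e he
      have := (Finset.mem_product.1 (PE_sub h.hu.nd he)).1
      rw [h0] at this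
      simp at this
    have hE : (cdK X Y A V u τ ∅).E = ∅ := by
      show Finset.image _ _ = ∅
      rw [hPE, Finset.image_empty]
    rw [hE, Finset.sum_empty]
  have hq₀i := (al_mem hq₀).1
  have hm : p0 ≤ lvl u τ := h.lvl_ge hq₀i
  have hmp : lvl u τ ≤ tp V := h.lvl_le
  have hlm : 4 ≤ Real.log (lvl u τ) := h9 _ (by omega)
  have hlp : 4 ≤ Real.log (tp V) := h9 _ (by omega)
  have hM : ∑ q ∈ al X τ A, wA u.A (RB X u) q ≤
      Real.log (lvl u τ) ^ (N.B + N.c2 + 3) := by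
    refine le_trans ?_ (hQ.ms ⟨q₀, hq₀i⟩)
    unfold Ws
    rw [Finset.mul_sum]
    calc ∑ q ∈ al X τ A, wA u.A (RB X u) q ≤ ∑ q ∈ al X τ A, u.c * w X.ψ q :=
          Finset.sum_le_sum fun q hq => hQ.wle q (al_mem hq).1 (al_mem hq).2
      _ ≤ ∑ q ∈ τ.items, u.c * w X.ψ q :=
          Finset.sum_le_sum_of_subset_of_nonneg (fun q hq => (al_mem hq).1)
            fun q _ _ => mul_nonneg h.hu.c0.le (X.hW q)
  have hnd := h.hu.nd
  -- labels which do not change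
  have hSm : ∀ (Λ : Finset ℚ) (x : ℕ), x ∈ (cdK X Y A V u τ Λ).S →
      ∃ q ∈ al X τ A, x = q / u.A ∧ u.A * x = q := by
    intro Λ x hx
    obtain ⟨q, hq1, rfl⟩ := Finset.mem_image.1 hx
    exact ⟨q, hq1, rfl, Nat.mul_div_cancel' (al_dvd hnd q hq1)⟩
  -- numbers
  have r1 : ∀ x : ℝ, 4 ≤ x → 3 * x ^ (-(3:ℝ)) ≤ x ^ (-(2:ℝ)) := fun x hx => by
    have hx0 : 0 < x := by linarith
    have e : x ^ (-(2:ℝ)) = x ^ (-(3:ℝ)) * x := by
      conv_rhs => rw [← Real.rpow_one x, ← Real.rpow_mul hx0.le, ← Real.rpow_add hx0]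
      norm_num
    rw [e, mul_comm]
    exact mul_le_mul_of_nonneg_left (by linarith) (Real.rpow_nonneg hx0.le _)
  have r2 : ∀ x : ℝ, 4 ≤ x → 2 * x ^ (-(K + 1)) ≤ x ^ (-K) := fun x hx => by
    have hx0 : 0 < x := by linarith
    have e : x ^ (-K) = x ^ (-(K + 1)) * x := by
      conv_rhs => rw [← Real.rpow_one x, ← Real.rpow_mul hx0.le, ← Real.rpow_add hx0]
      congr 1; ring
    rw [e, mul_comm]
    exact mul_le_mul_of_nonneg_left (by linarith) (Real.rpow_nonneg hx0.le _)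
  have r3 : ∀ x : ℝ, 4 ≤ x → x ^ (-(1:ℝ)) ≤ 1 / 4 := fun x hx => by
    rw [Real.rpow_neg_one, ← one_div]
    exact one_div_le_one_div_of_le (by norm_num) hx
  have r4 : ∀ x : ℝ, 4 ≤ x → 0 ≤ x ^ (-(K + 1)) := fun x hx => Real.rpow_nonneg (by linarith) _
  have hη : (((cdK X Y A V u τ ∅).p : ℕ) : ℝ) ^ (-(1/10):ℝ) ≤ (cdK X Y A V u τ ∅).η :=
    h8 (tp V) (by omega)
  have hcEn : 0 ≤ cE K X.c.γ (lvl u τ) (tp V) u.B ∅ := cE_nonneg _ _ _ _ _ _
  rcases h.B with hB | hB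
  · -- same stage
    obtain ⟨Λ, hΛ1, hΛ2⟩ := h6 p0 (by omega) γ P₀ X hD v u V τ h hB
    have hOk : (cdK X Y A V u τ Λ).Ok (2 * Step588.CT) (N.B + N.c2 + 3) :=
      okK hD h hm (fun q hq => hQ.aq q (al_mem hq).1 (al_mem hq).2) hM hΛ1
        (fun q hq σ hσ _ => hΛ2 q (al_mem hq).1 (al_mem hq).2 σ hσ)
    have hNM : (cdK X Y A V u τ Λ).NM A' (fun b => BadB X.c.γ u.B b ∧ ¬ b ∣ u.B) :=
      nmK hD h hB (fun q hq σ hσ => hΛ2 q (al_mem hq).1 (al_mem hq).2 σ hσ)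
        (fun q hq => hQ.acc hB q (al_mem hq).1 (al_mem hq).2)
        (fun q hq => hQ.bad hB q (al_mem hq).1 (al_mem hq).2)
    by_cases hl : isL τ
    · -- leaf
      have hTL : (cdK X Y A V u τ Λ).T ≤ Real.log (lvl u τ) ^ (-C6) := by
        show thK X u τ ≤ _
        obtain ⟨S, rfl⟩ := isL_iff.1 hl
        rw [thK_leaf]
        exact hT.hiL _ hm
      have key := h4 _ hOk _ hNM (show p4 ≤ lvl u τ by omega) hTL
      refine to_ch h hA zero_le_one hQ _ (fun q hq => ?_) key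
      have e1 : (cdK X Y A V u τ Λ).pr K (fun b => BadB X.c.γ u.B b ∧ ¬ b ∣ u.B) (q / u.A) =
        cE K X.c.γ (lvl u τ) (tp V) u.B (X.c.t.uq q) := pr_cE h (al_mem hq).1
      have e2 : ¬ (cdK X Y A V u τ Λ).cr := fun hc => hc.1 hl
      have e3 := cE_nonneg K X.c.γ (lvl u τ) (tp V) u.B (X.c.t.uq q)
      have e4 := r3 _ hlm
      have e5 : 0 ≤ Real.log (lvl u τ) ^ (-(1:ℝ)) := Real.rpow_nonneg (by linarith) _
      have e6 : eQ X K κ 1 (tp V) u τ q =
          4 * cE K X.c.γ (lvl u τ) (tp V) u.B (X.c.t.uq q) + 1 := by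
        unfold eQ
        rw [if_pos (al_mem hq).2, if_pos hl, max_eq_left hm]
      rw [e1, if_neg e2, e6]
      show 0 ≤ 4 * _ + 0 + 3 * Real.log (lvl u τ) ^ (-(1:ℝ)) ∧
        4 * _ + 0 + 3 * Real.log (lvl u τ) ^ (-(1:ℝ)) ≤ _
      constructor <;> linarith
    · -- a node
      obtain ⟨n1, n2, n3, n4⟩ := h.node hl
      have hlv : lvl u τ = tp τ := lvl_node hl
      by_cases hlt : tp τ < tp V
      · have hcr : (cdK X Y A V u τ Λ).cr ↔ Nat.log 2 (tp τ) < Nat.log 2 (tp V) :=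
          ⟨fun hc => hc.2, fun hc => ⟨hl, hc⟩⟩
        have e6 : ∀ q ∈ al X τ A, eQ X K κ 1 (tp V) u τ q =
            4 * cE K X.c.γ (tp τ) (tp V) u.B (X.c.t.uq q) +
            (if tp V ∣ u.B then Real.log (tp V) ^ (-K) + Real.log (tp τ) ^ (-κ) else 0) +
            (if X.c.wp.thr (tp V) ≠ X.c.wp.thr (tp τ) then Real.log (tp τ) ^ (-(2:ℝ)) else 0) +
            (if Nat.log 2 (tp τ) < Nat.log 2 (tp V) then Real.log (tp τ) ^ (-K) else 0) := by
          intro q hq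
          unfold eQ
          rw [if_pos (al_mem hq).2, if_neg hl, if_pos hlt]
        have i2 : 0 ≤ (if tp V ∣ u.B then Real.log (tp V) ^ (-K) + Real.log (tp τ) ^ (-κ) else 0) := by
          split_ifs
          · exact add_nonneg (Real.rpow_nonneg (log_nn _) _) (Real.rpow_nonneg (log_nn _) _)
          · exact le_rfl
        have i3 : 0 ≤ (if Nat.log 2 (tp τ) < Nat.log 2 (tp V) then Real.log (tp τ) ^ (-K) else 0) := by
          split_ifs
          · exact Real.rpow_nonneg (log_nn _) _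
          · exact le_rfl
        by_cases hthr : X.c.wp.thr (tp V) = X.c.wp.thr (tp τ)
        · have key := h2 _ hOk _ hNM (show p2 ≤ lvl u τ by omega) (fun x hx => by
            obtain ⟨q, hq1, rfl, hq3⟩ := hSm Λ x hx
            show (stK X τ (u.A * (q / u.A))).map _ = (X.c.st (tp V) (u.A * (q / u.A))).map _
            rw [hq3, stK_node hl, node_range hD.th h.hv.nd h.hu.nd h.lV hl (h.sub (al_mem hq1).1)
              (al_mem hq1).1 hB n4 hthr.symm])
          refine to_ch h hA zero_le_one hQ _ (fun q hq => ?_) key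
          have e1 : (cdK X Y A V u τ Λ).pr K (fun b => BadB X.c.γ u.B b ∧ ¬ b ∣ u.B) (q / u.A) =
            cE K X.c.γ (tp τ) (tp V) u.B (X.c.t.uq q) := by
            rw [← hlv]; exact pr_cE h (al_mem hq).1
          have e3 := cE_nonneg K X.c.γ (tp τ) (tp V) u.B (X.c.t.uq q)
          have e7 : (if (cdK X Y A V u τ Λ).cr then
              Real.log ((cdK X Y A V u τ Λ).m : ℝ) ^ (-K) else 0) =
              (if Nat.log 2 (tp τ) < Nat.log 2 (tp V) then Real.log (tp τ) ^ (-K) else 0) := by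
            show (if (cdK X Y A V u τ Λ).cr then Real.log ((lvl u τ : ℕ) : ℝ) ^ (-K) else 0) = _
            rw [hlv]
            by_cases hc : Nat.log 2 (tp τ) < Nat.log 2 (tp V)
            · rw [if_pos hc, if_pos (hcr.2 hc)]
            · rw [if_neg hc, if_neg fun h' => hc (hcr.1 h')]
          rw [e1, e7, e6 q hq]
          have i4 : 0 ≤ (if X.c.wp.thr (tp V) ≠ X.c.wp.thr (tp τ) then
              Real.log (tp τ) ^ (-(2:ℝ)) else 0) := by
            split_ifs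
            · exact Real.rpow_nonneg (log_nn _) _
            · exact le_rfl
          constructor <;> linarith
        · have hTL : (cdK X Y A V u τ Λ).T ≤ Real.log (lvl u τ) ^ (-Cu) := by
            show thK X u τ ≤ _
            rw [thK_node hl, hlv]
            exact hT.hi _ n2
          have key := h1 _ hOk _ hNM (show p1 ≤ lvl u τ by omega) hTL
          refine to_ch h hA zero_le_one hQ _ (fun q hq => ?_) key
          have e1 : (cdK X Y A V u τ Λ).pr K (fun b => BadB X.c.γ u.B b ∧ ¬ b ∣ u.B) (q / u.A) =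
            cE K X.c.γ (tp τ) (tp V) u.B (X.c.t.uq q) := by
            rw [← hlv]; exact pr_cE h (al_mem hq).1
          have e3 := cE_nonneg K X.c.γ (tp τ) (tp V) u.B (X.c.t.uq q)
          have e7 : (if (cdK X Y A V u τ Λ).cr then
              Real.log ((cdK X Y A V u τ Λ).m : ℝ) ^ (-K) else 0) =
              (if Nat.log 2 (tp τ) < Nat.log 2 (tp V) then Real.log (tp τ) ^ (-K) else 0) := by
            show (if (cdK X Y A V u τ Λ).cr then Real.log ((lvl u τ : ℕ) : ℝ) ^ (-K) else 0) = _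
            rw [hlv]
            by_cases hc : Nat.log 2 (tp τ) < Nat.log 2 (tp V)
            · rw [if_pos hc, if_pos (hcr.2 hc)]
            · rw [if_neg hc, if_neg fun h' => hc (hcr.1 h')]
          have e8 : Real.log ((cdK X Y A V u τ Λ).m : ℝ) = Real.log (tp τ) := by
            show Real.log ((lvl u τ : ℕ) : ℝ) = _
            rw [hlv]
          rw [e1, e7, e6 q hq, e8, if_pos hthr]
          rw [hlv] at hlm
          have i4 := r1 _ hlm
          have i5 : 0 ≤ Real.log (tp τ) ^ (-(3:ℝ)) := Real.rpow_nonneg (log_nn _) _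
          constructor <;> linarith
      · have he : tp τ = tp V := le_antisymm n4 (not_lt.1 hlt)
        refine ch_zero h zero_le_one (le_of_eq ?_)
        rw [← he]
        exact ChE_same
  · -- missing child
    obtain ⟨Λ, hΛ1, hΛ2⟩ := h7 p0 (by omega) γ P₀ X hD v u V τ h hB hm
    have hOk : (cdK X Y A V u τ Λ).Ok (2 * Step588.CT) (N.B + N.c2 + 3) :=
      okK hD h hm (fun q hq => hQ.aq q (al_mem hq).1 (al_mem hq).2) hM hΛ1
        (fun q hq σ hσ hf => Or.inr (hΛ2 q (al_mem hq).1 (al_mem hq).2 σ hσ hf))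
    have hMM : (cdK X Y A V u τ Λ).MM (N.B + N.c2 + 3) A' :=
      mmK hD h hB (fun q hq => hQ.hi q (al_mem hq).1 (al_mem hq).2)
        (fun hn => hQ.accM hB q₀ hq₀i (al_mem hq₀).2)
        (fun hn => hQ.badM hB q₀ hq₀i (al_mem hq₀).2)
    by_cases hl : isL τ
    · have hTL : (cdK X Y A V u τ Λ).T ≤ Real.log (lvl u τ) ^ (-C6) := by
        show thK X u τ ≤ _
        obtain ⟨S, rfl⟩ := isL_iff.1 hl
        rw [thK_leaf]
        exact hT.hiL _ hm
      have key := h5 _ hOk hMM hη (show p5 ≤ lvl u τ by omega) hTL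
      refine to_ch h hA zero_le_one hQ _ (fun q hq => ?_) key
      have e2 : ¬ (cdK X Y A V u τ Λ).cr := fun hc => hc.1 hl
      have e3 := cE_nonneg K X.c.γ (lvl u τ) (tp V) u.B (X.c.t.uq q)
      have e4 := r3 _ hlm
      have e5 : 0 ≤ Real.log (lvl u τ) ^ (-(1:ℝ)) := Real.rpow_nonneg (by linarith) _
      have e6 : eQ X K κ 1 (tp V) u τ q =
          4 * cE K X.c.γ (lvl u τ) (tp V) u.B (X.c.t.uq q) + 1 := by
        unfold eQ
        rw [if_pos (al_mem hq).2, if_pos hl, max_eq_left hm]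
      have e7 : Real.log (tp V) ^ (-(K + 1)) ≤ Real.log (tp V) ^ (-(1:ℝ)) :=
        Real.rpow_le_rpow_of_exponent_le (by linarith) (by linarith)
      have e8 := r3 _ hlp
      have e9 := r4 _ hlp
      rw [if_neg e2, e6]
      show 0 ≤ 2 * Real.log (tp V) ^ (-(K + 1)) + 0 + Real.log (lvl u τ) ^ (-(1:ℝ)) ∧
        2 * Real.log (tp V) ^ (-(K + 1)) + 0 + Real.log (lvl u τ) ^ (-(1:ℝ)) ≤ _
      constructor <;> linarith
    · obtain ⟨n1, n2, n3, n4⟩ := h.node hl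
      have hlv : lvl u τ = tp τ := lvl_node hl
      by_cases hlt : tp τ < tp V
      · have hcr : (cdK X Y A V u τ Λ).cr ↔ Nat.log 2 (tp τ) < Nat.log 2 (tp V) :=
          ⟨fun hc => hc.2, fun hc => ⟨hl, hc⟩⟩
        have e6 : ∀ q ∈ al X τ A, eQ X K κ 1 (tp V) u τ q =
            4 * cE K X.c.γ (tp τ) (tp V) u.B (X.c.t.uq q) +
            (if tp V ∣ u.B then Real.log (tp V) ^ (-K) + Real.log (tp τ) ^ (-κ) else 0) +
            (if X.c.wp.thr (tp V) ≠ X.c.wp.thr (tp τ) then Real.log (tp τ) ^ (-(2:ℝ)) else 0) +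
            (if Nat.log 2 (tp τ) < Nat.log 2 (tp V) then Real.log (tp τ) ^ (-K) else 0) := by
          intro q hq
          unfold eQ
          rw [if_pos (al_mem hq).2, if_neg hl, if_pos hlt]
        have hTL : (cdK X Y A V u τ Λ).T ≤ Real.log (lvl u τ) ^ (-Cu) := by
          show thK X u τ ≤ _
          rw [thK_node hl, hlv]
          exact hT.hi _ n2
        have key := h3 _ hOk hMM hη (show p3 ≤ lvl u τ by omega) hTL
        refine to_ch h hA zero_le_one hQ _ (fun q hq => ?_) key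
        have e3 := cE_nonneg K X.c.γ (tp τ) (tp V) u.B (X.c.t.uq q)
        have e8 : Real.log ((cdK X Y A V u τ Λ).m : ℝ) = Real.log (tp τ) := by
          show Real.log ((lvl u τ : ℕ) : ℝ) = _
          rw [hlv]
        have e9 : Real.log ((cdK X Y A V u τ Λ).p : ℝ) = Real.log (tp V) := rfl
        rw [hlv] at hlm
        have e7 : (if (cdK X Y A V u τ Λ).cr then Real.log (tp τ) ^ (-(K + 1)) else 0) ≤
            (if Nat.log 2 (tp τ) < Nat.log 2 (tp V) then Real.log (tp τ) ^ (-K) else 0) := by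
          by_cases hc : Nat.log 2 (tp τ) < Nat.log 2 (tp V)
          · rw [if_pos hc, if_pos (hcr.2 hc)]
            exact Real.rpow_le_rpow_of_exponent_le (by linarith) (by linarith)
          · rw [if_neg hc, if_neg fun h' => hc (hcr.1 h')]
        have e7' : 0 ≤ (if (cdK X Y A V u τ Λ).cr then Real.log (tp τ) ^ (-(K + 1)) else 0) := by
          split_ifs
          · exact r4 _ hlm
          · exact le_rfl
        have hdv : tp V ∣ u.B := ⟨v.B, by rw [hB, mul_comm]⟩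
        have i4 : 0 ≤ (if X.c.wp.thr (tp V) ≠ X.c.wp.thr (tp τ) then
            Real.log (tp τ) ^ (-(2:ℝ)) else 0) := by
          split_ifs
          · exact Real.rpow_nonneg (log_nn _) _
          · exact le_rfl
        rw [e8, e9, e6 q hq, if_pos hdv]
        have i5 := r2 _ hlp
        have i6 := r4 _ hlp
        have i7 : 0 ≤ Real.log (tp τ) ^ (-κ) := Real.rpow_nonneg (log_nn _) _
        constructor <;> linarith
      · have he : tp τ = tp V := le_antisymm n4 (not_lt.1 hlt)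
        refine ch_zero h zero_le_one (le_of_eq ?_)
        rw [← he]
        exact ChE_same


section ctx
variable {N : Skel189.Num} {γ : ℝ} {p0 P₀ : ℕ} {X : Ctx N γ p0 P₀} {v u : NS} {V τ : IT}

/-- **alive facts of the children** -/
theorem kid_al (N : Skel189.Num) : ∃ p₁ : ℕ, ∀ p0 ≥ p₁, ∀ (γ : ℝ) (P₀ : ℕ), 2 ≤ P₀ →
    ∀ X : Ctx N γ p0 P₀, ∀ (v : NS) (V : IT) (u : NS) (τ : IT), Kid X v V u τ →
      (∀ q ∈ τ.items, q ∈ X.S' → AlK X u V τ q) ∧
      (τ.items.Nonempty → u.c * Ws (w X.ψ) τ.items ≤ Real.log (lvl u τ) ^ (N.B + N.c2 + 1)) := by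
  have hB1 := N.hB
  have hC1 := N.hC1
  have hc2 := N.hc2
  obtain ⟨p1, h1⟩ := Step588.tot_ge N.B (N.C1 + N.c2) (by linarith)
  obtain ⟨p2, h2⟩ := LeafA734.rt_half N.B (N.C1 + N.c2) (by linarith)
  obtain ⟨p3, h3⟩ := PrTame579.tame_of_Pr N.B (N.C1 + N.c2) (by linarith)
  obtain ⟨p4, h4⟩ := DseAl28.num_log (N.B + N.c2) (by linarith)
  obtain ⟨p5, h5⟩ := DseAl28.num_log (N.B + N.c2 + 2) (by linarith)
  refine ⟨p1 + p2 + p3 + p4 + p5 + 2, fun p0 hp0 γ P₀ hP X v V u τ hk => ⟨fun q hq hqs => ?_, ?_⟩⟩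
  · have h := hk.hu.nd
    have hml : p0 ≤ lvl u τ := hk.lvl_ge hq
    set m := lvl u τ with hm
    have hpr : PrunePar33.Pr X.c.t p0 (N.C1 + N.c2) N.B q := X.pr' hqs
    have hcols : ∀ b, (b ∈ X.c.t.mt q ∨ b ∈ X.c.t.sp q ∨ b ∈ X.c.t.uq q) → p0 < b :=
      fun b hb => (Bld532.cols_of_All _ _ _ _ X.nodes q b hb).2.1
    have hs := (h2 p0 (by omega) X.c.t q hpr hcols).2
    have hd := h.bk.dvd q hq
    have hpos : 0 < q / u.A := Nat.pos_of_ne_zero (h.div_ne hq)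
    have hr0 := X.rpos hqs
    have hrr : X.c.rr q = X.c.r q := if_pos hr0
    have hrψ := Step588.ctx_rr X hqs
    have hB0 : (0 : ℝ) < u.B := by exact_mod_cast h.B_pos
    have hR0 : 0 < RB X u q := mul_pos hB0 (by rw [hrr]; exact hr0)
    have hge : ∀ l : ℕ, l.Prime → m < l → u.n ≤ l := fun l hl1 hl2 => hk.prime_ge hl1 hl2
    have hm2 : (2 : ℝ) ≤ m := by exact_mod_cast (by omega : 2 ≤ m)
    have hlm0 : 0 < Real.log m := Real.log_pos (by linarith)
    refine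
      { dvd := hd
        pos := hpos
        R0 := hR0
        lo := ?_
        tame := ?_
        wle := ?_
        rr := hrr
        hi := ?_ }
    · have key := h1 p0 (by omega) X.c.t q hpr (fun l hl => (rt_prime X.c.t X.tOk q l hl).1) (m + 1)
        (by omega) (q / u.A) hpos (fun l hl1 hl2 hl3 => h.self.ge q hq l hl1
          (hge l hl1 (by omega)) hl2)
      have hlog2 : Real.log ((m + 1 : ℕ) : ℝ) ≤ 2 * Real.log m := log_succ (by omega)
      have hCT := Step588.CT_pos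
      set tt : ℝ := ((q / u.A).totient : ℝ) / ((q / u.A : ℕ) : ℝ) with htt
      have htt0 : 0 ≤ tt := by rw [htt]; positivity
      have h8 : 1 ≤ 2 * Step588.CT * Real.log m * tt := by
        refine key.trans ?_
        refine mul_le_mul_of_nonneg_right ?_ htt0
        nlinarith
      have h9 : RB X u q * 1 ≤ RB X u q * (2 * Step588.CT * Real.log m * tt) :=
        mul_le_mul_of_nonneg_left h8 hR0.le
      unfold wA
      rw [← htt]
      linarith
    · intro z hz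
      have hpz : (m : ℝ) ≤ z := by nlinarith
      have hp0z : (p0 : ℝ) ≤ z := by
        have : (p0 : ℝ) ≤ m := by exact_mod_cast hml
        linarith
      refine ⟨one_dvd _, ?_⟩
      rw [Nat.div_one]
      refine le_trans (Finset.sum_le_sum_of_subset_of_nonneg ?_ fun i _ _ => by positivity)
        (h3 p0 (by omega) X.c.t q hpr z hp0z).1
      intro l hl
      obtain ⟨hl1, hl2⟩ := Finset.mem_filter.1 hl
      have hlp := Nat.prime_of_mem_primeFactors hl1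
      have hld := Nat.dvd_of_mem_primeFactors hl1
      have hpl : m < l := by exact_mod_cast lt_of_le_of_lt hpz hl2
      exact Finset.mem_filter.2 ⟨h.self.ge q hq l hlp (hge l hlp hpl) hld, hl2⟩
    · have h5 := hk.hu.ms.ms X.tOk h.fit hq hs
      have e1 : wA u.A (RB X u) q = X.c.rr q * (u.B * R4.DeepSt579.tq (q / u.A)) := by
        unfold wA R4.DeepSt579.tq
        ring
      have e2 : u.c * w X.ψ q = X.c.rr q * (2 * (u.c * R4.DeepSt579.tq q)) := by
        rw [hrψ]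
        unfold R4.DeepSt579.tq R4.Soft104.w
        ring
      rw [e1, e2]
      exact mul_le_mul_of_nonneg_left h5 (by rw [hrr]; exact hr0.le)
    · have hpV := hk.tpV.2.1
      have h6 := hk.hu.rd.gen q hq hqs (tp V + 1) (by omega) hk.n
      have h7 := (h5 (tp V) (by omega)).2
      have e1 : N.B + N.c2 + 2 + 1 = N.B + N.c2 + 3 := by ring
      rw [e1] at h7
      have h8 : 0 ≤ Real.log ((tp V + 1 : ℕ) : ℝ) ^ (N.B + N.c2 + 2) :=
        Real.rpow_nonneg (Real.log_natCast_nonneg _) _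
      linarith
  · rintro ⟨q, hq⟩
    have hml : p0 ≤ lvl u τ := hk.lvl_ge hq
    obtain ⟨hl1, hl2⟩ := h4 (lvl u τ) (by omega)
    by_cases hl : isL τ
    · obtain ⟨S, rfl⟩ := isL_iff.1 hl
      have hml' : p0 ≤ u.n - 1 := hml
      have e1 : lvl u (.leaf S) + 1 = u.n := by
        show u.n - 1 + 1 = u.n
        omega
      rw [e1] at hl2
      exact hk.ms.trans hl2
    · have hm := (nodeOk_hi hk.hu.nd.self.node hl).1
      refine hm.trans ?_
      rw [lvl_node hl] at hl1 ⊢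
      show Real.log (tp τ) ^ N.c2 ≤ _
      exact Real.rpow_le_rpow_of_exponent_le hl1 (by linarith)

/-! ### missing ties above the level of a child -/

/-- **the missing ties above the level of a child** -/
lemma kid_mt (hk : Kid X v V u τ) {q : ℕ} (hq : q ∈ τ.items) :
    (X.c.t.mt q).filter (lvl u τ < ·) = u.B.primeFactors := by
  by_cases hl : isL τ
  · obtain ⟨S, rfl⟩ := isL_iff.1 hl
    rw [(hk.lf S rfl).mt q hq]
    refine Finset.filter_true_of_mem fun b hb => ?_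
    have h1 := Nat.prime_of_mem_primeFactors hb
    have h2 := hk.hu.nd.bk.geB b h1 (Nat.dvd_of_mem_primeFactors hb)
    have h3 := h1.two_le
    show u.n - 1 < b
    omega
  · rw [lvl_node hl]
    exact mt_node hk.hu.nd X.tOk hl hq

/-- same stage: the missing product above a prime of `(m, p]` -/
lemma kid_Bab (hk : Kid X v V u τ) (hB : u.B = v.B) {q b : ℕ} (hq : q ∈ τ.items)
    (h1 : lvl u τ < b) (h2 : b ≤ tp V) : Bab X.c.t q b = u.B := by
  have e1 := kid_mt hk hq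
  have e2 := mt_node hk.hv.nd X.tOk hk.lV (hk.sub hq)
  have e3 : (X.c.t.mt q).filter (b < ·) = u.B.primeFactors := by
    refine Finset.Subset.antisymm ?_ ?_
    · rw [← e1]
      intro l hl
      obtain ⟨a1, a2⟩ := Finset.mem_filter.1 hl
      exact Finset.mem_filter.2 ⟨a1, h1.trans a2⟩
    · rw [hB, ← e2]
      intro l hl
      obtain ⟨a1, a2⟩ := Finset.mem_filter.1 hl
      exact Finset.mem_filter.2 ⟨a1, h2.trans_lt a2⟩
  unfold PruneAcc17.Bab
  rw [e3]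
  exact Nat.prod_primeFactors_of_squarefree hk.hu.nd.bk.sfB

/-- missing child: the column is a missing tie -/
lemma kid_miss (hk : Kid X v V u τ) (hB : u.B = v.B * tp V) {q : ℕ} (hq : q ∈ τ.items) :
    tp V ∈ X.c.t.mt q := by
  have e1 := kid_mt hk hq
  have h1 : tp V ∈ u.B.primeFactors :=
    Nat.mem_primeFactors.2 ⟨hk.tpV.1, hB ▸ Dvd.intro_left _ rfl, hk.hu.nd.bk.sfB.ne_zero⟩
  rw [← e1] at h1
  exact (Finset.mem_filter.1 h1).1

/-! ### accidents -/

/-- **no accidents**, same stage -/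
theorem kid_acc {A : ℝ} (hA : ∀ q ∈ X.S', NoAcc X.c.γ A X.c.t q) (hk : Kid X v V u τ)
    (hB : u.B = v.B) {q : ℕ} (hq : q ∈ τ.items) (hqs : q ∈ X.S') {b : ℕ} (hb : b.Prime)
    (h1 : lvl u τ < b) (h2 : b ≤ tp V) (hd : b ∣ q / u.A) :
    ¬ Accd (u.B * X.c.γ) (Real.log b ^ A) b := by
  have h3 := hA q hqs b (Or.inr (hk.uq_of hq hb h1 hd))
  rwa [kid_Bab hk hB hq h1 h2] at h3

/-- **no accidents**, missing child -/
theorem kid_accM {A : ℝ} (hA : ∀ q ∈ X.S', NoAcc X.c.γ A X.c.t q) (hk : Kid X v V u τ)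
    (hB : u.B = v.B * tp V) {q : ℕ} (hq : q ∈ τ.items) (hqs : q ∈ X.S') :
    ¬ Accd (v.B * X.c.γ) (Real.log (tp V) ^ A) (tp V) := by
  have h3 := hA q hqs (tp V) (Or.inl (kid_miss hk hB hq))
  rwa [Bab_node hk.hv.nd X.tOk hk.lV (hk.sub hq)] at h3

/-! ### bad primes -/

/-- **the missing tie is not bad** -/
theorem kid_badM (hN : ∀ q ∈ X.S', NoBad X.c.γ X.c.t q) (hk : Kid X v V u τ)
    (hB : u.B = v.B * tp V) {q : ℕ} (hq : q ∈ τ.items) (hqs : q ∈ X.S') :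
    ¬ BadB X.c.γ v.B (tp V) := by
  have h3 := hN q hqs (tp V) (Or.inl (kid_miss hk hB hq))
  rwa [Bab_node hk.hv.nd X.tOk hk.lV (hk.sub hq)] at h3

/-- the labels with a denominator divisible by the missing tie are large -/
theorem kid_badM_lab (hN : ∀ q ∈ X.S', NoBad X.c.γ X.c.t q) (hk : Kid X v V u τ)
    (hB : u.B = v.B * tp V) {q : ℕ} (hq : q ∈ τ.items) (hqs : q ∈ X.S') {ρ : ℚ} {a : ℝ}
    (hL : Lab (v.B * X.c.γ) a ρ) (hd : tp V ∣ ρ.den) :
    Real.exp ((tp V : ℝ) ^ (1/20:ℝ)) < ρ.den := by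
  by_contra hc
  exact kid_badM hN hk hB hq hqs (Or.inl ⟨ρ, ⟨a, hL⟩, hd, not_lt.1 hc⟩)

/-- **same stage**: the state of an alive item at the child is a label of the stage or the fat one -/
theorem kid_lab (N : Skel189.Num) : ∃ p₁ : ℕ, ∀ p0 ≥ p₁, ∀ (γ : ℝ) (P₀ : ℕ), 2 ≤ P₀ →
    ∀ X : Ctx N γ p0 P₀, RseH X → TH X → ∀ (v : NS) (V : IT) (u : NS) (τ : IT), Kid X v V u τ →
      u.B = v.B → ∀ q ∈ τ.items, q ∈ X.S' → ∀ σ : ℚ, stK X τ q = some σ →
        (u.B : ℚ) * σ ∈ LabT (u.B * X.c.γ) ∨ (u.B : ℚ) * σ ∈ LabF X.c.γ u.B := by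
  obtain ⟨p1, h1⟩ := alive_facts N
  obtain ⟨p5, h5⟩ := num_p (N.c2 + 2)
  have hev : ∀ᶠ x : ℝ in atTop, Real.log x ^ (N.c2 + 2) ≤ 1 * x ^ (1/10:ℝ) := by
    have e2 := (isLittleO_log_rpow_rpow_atTop (N.c2 + 2) (show (0:ℝ) < 1/10 by norm_num)).bound
      (show (0:ℝ) < 1 by norm_num)
    filter_upwards [e2, eventually_ge_atTop (1:ℝ)] with x hx hx1
    have h3 : 0 ≤ Real.log x ^ (N.c2 + 2) := Real.rpow_nonneg (Real.log_nonneg hx1) _
    have h4 : 0 ≤ x ^ (1 / 10 : ℝ) := Real.rpow_nonneg (by linarith) _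
    rwa [Real.norm_of_nonneg h3, Real.norm_of_nonneg h4] at hx
  obtain ⟨x₁, hx₁⟩ := Filter.eventually_atTop.1 hev
  refine ⟨p1 + p5 + ⌈x₁⌉₊ + 2, fun p0 hp0 γ P₀ hP X hX hT v V u τ hk hB q hq hqs σ hσ => ?_⟩
  rcases le_or_gt ((u.B : ℝ) * X.c.r q) (thK X u τ) with hth | hth
  · rw [K_thin hT hk hq hth] at hσ
    exact Or.inl ⟨_, lab0_spec hk.hu.nd.B_pos hσ⟩
  · -- the label of the column
    have hσV : X.c.st (tp V) q = some σ := by
      cases hs : X.c.st (tp V) q with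
      | none =>
        rw [K_none hT hk hq hqs hB hs] at hσ
        exact absurd hσ (by simp)
      | some ρ =>
        rw [K_keep hT hk hq hqs hth hs] at hσ
        exact hσ
    have hN := hk.hv
    have h := hN.nd
    have hl := hk.lV
    obtain ⟨k1, k2, k3⟩ := hk.tpV
    set b := tp V with hb
    obtain ⟨n1, n2, n3, n4, n5⟩ := h5 b (by omega)
    have hpR : (0:ℝ) < b := by exact_mod_cast (by omega : 0 < b)
    have hthr := hX.thr b k2
    have hK : ∀ s : ℕ, tp V < s → Real.log b ^ (N.c2 + 2) ≤ s * X.c.wp.thr s := by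
      intro s hs
      have hs' : b < s := hs
      have hsR : (0:ℝ) < s := by
        have : 0 < s := by omega
        exact_mod_cast this
      have hps : (b:ℝ) ≤ s := by exact_mod_cast hs'.le
      have h6 := hX.thr s (k2.trans hs')
      have h7 : (s:ℝ) ^ (1/2:ℝ) = s * (s:ℝ) ^ (-(1/2:ℝ)) := by
        conv_rhs => rw [← Real.rpow_one (s:ℝ), ← Real.rpow_mul hsR.le, ← Real.rpow_add hsR]
        norm_num
      calc Real.log b ^ (N.c2 + 2) ≤ (b:ℝ) ^ (1/2:ℝ) := n5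
        _ ≤ (s:ℝ) ^ (1/2:ℝ) := Real.rpow_le_rpow hpR.le hps (by norm_num)
        _ = s * (s:ℝ) ^ (-(1/2:ℝ)) := h7
        _ ≤ s * X.c.wp.thr s := mul_le_mul_of_nonneg_left h6 hsR.le
    have hK' : Real.log b ^ (N.c2 + 2) ≤ (tp V : ℝ) ^ (1 / 10 : ℝ) := by
      have := hx₁ b ((Nat.le_ceil _).trans (by exact_mod_cast (by omega : ⌈x₁⌉₊ ≤ b)))
      rw [one_mul] at this
      exact this
    have hf := h1 p0 (by omega) γ P₀ hP X v V hN hl q (hk.sub hq) hqs
    have key := lab_usedB h X.tOk hl (wp := X.c.wp) (wpL := X.c.wpL) (lam := X.c.lam)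
      (lv := X.c.lv) (γ := X.c.γ) (r := X.c.r)
      (K := Real.log b ^ (N.c2 + 2)) hK hK' (by
        have : -(1/2:ℝ) = -(1 / 2 : ℝ) := rfl
        exact hthr) (hk.sub hq) hf.hi hσV
    rw [hB]
    exact key

/-- **same stage: bad primes of the child** -/
theorem kid_bad (N : Skel189.Num) : ∃ p₁ : ℕ, ∀ p0 ≥ p₁, ∀ (γ : ℝ) (P₀ : ℕ), 2 ≤ P₀ →
    ∀ X : Ctx N γ p0 P₀, RseH X → TH X → ∀ (v : NS) (V : IT) (u : NS) (τ : IT), Kid X v V u τ →
      u.B = v.B → ∀ q ∈ τ.items, q ∈ X.S' → ∀ b : ℕ, b.Prime → lvl u τ < b → b ≤ tp V →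
        ¬ (BadB X.c.γ u.B b ∧ ¬ b ∣ u.B) → ∀ σ : ℚ, stK X τ q = some σ →
          b ∣ ((u.B : ℚ) * σ).den →
            Real.exp ((b:ℝ) ^ (1/20:ℝ)) < ((((u.B : ℚ) * σ).den : ℕ) : ℝ) := by
  obtain ⟨p₁, h1⟩ := kid_lab N
  refine ⟨p₁, fun p0 hp0 γ P₀ hP X hX hT v V u τ hk hB q hq hqs b hb hlt hle hbad σ hσ hd => ?_⟩
  by_contra hc
  have hnB : ¬ b ∣ u.B := by
    intro h2
    rw [hB] at h2
    have h3 := hk.hv.nd.bk.geB b hb h2
    have h4 := hk.tpV.2.2
    omega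
  refine hbad ⟨?_, hnB⟩
  rcases h1 p0 hp0 γ P₀ hP X hX hT v V u τ hk hB q hq hqs σ hσ with h3 | h3
  · exact Or.inl ⟨_, h3, hd, not_lt.1 hc⟩
  · exact Or.inr ⟨_, h3, hd, not_lt.1 hc⟩

/-- **the facts of the children** -/
theorem kid_KQ (N : Skel189.Num) (A' : ℝ) : ∃ p₁ : ℕ, ∀ p0 ≥ p₁, ∀ (γ : ℝ) (P₀ : ℕ), 2 ≤ P₀ →
    ∀ X : Ctx N γ p0 P₀, DH X → (∀ q ∈ X.S', NoAcc X.c.γ A' X.c.t q) →
    (∀ q ∈ X.S', NoBad X.c.γ X.c.t q) →
    ∀ (v : NS) (V : IT) (u : NS) (τ : IT), Kid X v V u τ → KQ X v V u τ A' := by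
  obtain ⟨p1, h1⟩ := kid_al N
  obtain ⟨p2, h2⟩ := kid_bad N
  obtain ⟨p3, h3⟩ := exp45 2 (N.B + N.c2 + 3)
  obtain ⟨p4, h4⟩ := num_log
  refine ⟨p1 + p2 + p3 + p4, fun p0 hp0 γ P₀ hP X hD hA hN v V u τ hk => ?_⟩
  obtain ⟨k1, k2, k3⟩ := hk.tpV
  obtain ⟨a1, a2⟩ := h1 p0 (by omega) γ P₀ hP X v V u τ hk
  refine
    { aq := fun q hq hqs => ?_
      wle := fun q hq hqs => (a1 q hq hqs).wle
      hi := fun q hq hqs => (a1 q hq hqs).hi
      ms := fun hne => ?_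
      acc := fun hB q hq hqs b hb hb1 hb2 hd => kid_acc hA hk hB hq hqs hb hb1 hb2 hd
      bad := fun hB q hq hqs b hb hb1 hb2 hbad σ hσ hd =>
        h2 p0 (by omega) γ P₀ hP X hD.rse hD.th v V u τ hk hB q hq hqs b hb hb1 hb2 hbad σ hσ hd
      accM := fun hB q hq hqs => kid_accM hA hk hB hq hqs
      badM := fun hB q hq hqs ρ a hL hd => kid_badM_lab hN hk hB hq hqs hL hd }
  · have h := a1 q hq hqs
    refine ⟨h.R0, h.lo, h.tame, ?_⟩
    obtain ⟨e1, e2⟩ := h3 (tp V) (by omega)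
    have hex : 0 < Real.exp (-(Real.log (tp V) ^ (4/5:ℝ))) := Real.exp_pos _
    have hl : 0 < Real.log (tp V) ^ (N.B + N.c2 + 3) := Real.rpow_pos_of_pos (by linarith) _
    have e3 : Real.exp (-(Real.log (tp V) ^ (4/5:ℝ))) * RB X u q ≤
        Real.exp (-(Real.log (tp V) ^ (4/5:ℝ))) * Real.log (tp V) ^ (N.B + N.c2 + 3) :=
      mul_le_mul_of_nonneg_left h.hi hex.le
    nlinarith
  · obtain ⟨q, hq⟩ := id hne
    have hl := h4 (lvl u τ) (by have := hk.lvl_ge hq; omega)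
    refine (a2 hne).trans (Real.rpow_le_rpow_of_exponent_le (by linarith) (by linarith))

end ctx

end Crest.Agent.R4P.ChU17
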