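import Crest.Agent.R4P.EKa_17
import Crest.Agent.R4P.ExL_26

/-!
R4 (S0004), powers pass, helper17: **the target `TgtEK`** of `ExK_26` and the target `TgtL` of the
terminal exits, for the final numbers.
-/

set_option autoImplicit false
set_option linter.unusedVariables false

namespace Crest.Agent.R4P.EK17

open Crest.Agent.R4P.Bld532 (NS All NodeOk Ws_nonneg)
open Crest.Agent.R4P.Skel189 Crest.Agent.R4P.FinE26 Crest.Agent.R4P.ExK26
open Crest.Agent.R4P.RseSt23 Crest.Agent.R4P.RseNd23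

/-- **[EK] for the final numbers** -/
theorem tgtEK_fin : ForN ParT21.thF NumG23.SxF TgtEK := by
  obtain ⟨c, h⟩ := ek_fin
  refine ⟨c, fun N Ct C₀ γ h1 h2 h3 => ?_⟩
  obtain ⟨K, hK, hE⟩ := h N Ct C₀ γ h1 h2 h3
  refine ⟨K, hK, hE.mono fun p0 P₀ X hh hC => ?_⟩
  refine All.mono (fun u τ h => ?_) ((hh hC).and (ctx_cpos X))
  obtain ⟨⟨g1, g2⟩, hc⟩ := h
  intro hl
  have hm : 0 ≤ u.c * Cnt588.Ws (R4.Soft104.w X.ψ) τ.items := mul_nonneg hc.le (Ws_nonneg X.hW _)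
  have k : K * (u.c * Cnt588.Ws (R4.Soft104.w X.ψ) τ.items) ≤
      K * (u.c * Cnt588.Ws (R4.Soft104.w X.ψ) τ.items +
        u.c * Cnt588.Ws (R4.Soft104.w X.ψ) τ.items * (u.c * Cnt588.Ws (R4.Soft104.w X.ψ) τ.items)) :=
    mul_le_mul_of_nonneg_left (by nlinarith) hK
  exact ⟨(g1 hl).trans k, fun a1 a2 a3 => (g2 a1 a2 a3).trans k⟩

/-- **the terminal exits for the final numbers** -/
theorem tgtL_end : ForN ParT21.thF NumG23.SxF TgtL := ExL26.tgtL_fin tgtEK_fin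

end Crest.Agent.R4P.EK17
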