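import Crest.Agent.R4P.ChU3_17
import Crest.Agent.R4P.EKb_17

/-!
R4 (S0004), powers pass, helper17 ([chokU], TgtCrs): **the class changes at all the raw children**
(possibly `up` nodes), for the final numbers.

* `ChU X K κ A p u t` : `Q (Dr (rho p) \ Dr (rho (tp t)))` of the (non-leaf) raw child `(u, t)` of a
  node with column `p` is at most the charges `eD`;
* `KidsU X K κ A u τ` : `ChU` at all the raw children of `(u, τ)`;
* `tgtChU_fin` : for the final numbers.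
-/

set_option autoImplicit false
set_option linter.unusedSectionVars false
set_option linter.unusedVariables false

open MeasureTheory Filter

namespace Crest.Agent.R4P.ChU17

open Crest.Agent.R4P.Cnt588 Crest.Agent.R4P.Item758 Crest.Agent.R4P.W363
open Crest.Agent.R4P.Data758 Crest.Agent.R4P.LfDat734
open Crest.Agent.R4P.Bld532 (NS All NodeOk Ws_nonneg)
open Crest.Agent.R4P.Step588 (NDt)
open Crest.Agent.R4P.WalkIT579 (tp isL nodeOk_hi top_of_nodeOk)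
open Crest.Agent.R4P.Skel189 Crest.Agent.R4P.RseSt23 Crest.Agent.R4P.RseNd23
open Crest.Agent.R4P.DseCh23 (hd hu hu_c hu_A hu_B lvl cE eD)
open Crest.Agent.R4P.DseKid23 (KB DH ctx_KB KQ TN)
open Crest.Agent.R4P.DseTk23 (ctx_DH ctx_TN)
open Crest.Agent.R4P.FinE26 (ForN)
open Crest.Agent.R4P.FinAll26 (NumFin Ev_P2)
open Crest.Agent.R4P.Fin5 (CF)
open Crest.Agent.R4P.ParF5 Crest.Agent.R4P.NumX34 Crest.Agent.R4P.ParT21
open Crest.Agent.R4P.NumG23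
open Crest.Agent.R4P.PruneAcc17 (NoAcc NoAcc.of SxA)
open Crest.Agent.R4P.PruneBad17 (NoBad NoBad.of SxB)
open Crest.Agent.R4P.Frame758 (wt)
open Crest.Agent.R4P.DseN23
open Crest.Agent.R4.Soft104 (w)
open Crest.Agent.R4.Item758 (IL AdI)
open Crest.Agent.R4.ClosR758 (rv Ro)
open Crest.Agent.R4.ClosL758 (Rr Dr)
open Crest.Agent.R4.Tour104 (Q)

variable {N : Skel189.Num} {γ : ℝ} {p0 P₀ : ℕ}

/-- the class changes of a raw child (not a leaf) -/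
def ChU (X : Ctx N γ p0 P₀) (K κ : ℝ) (A : Finset X.c.Lam) (p : ℕ) (u : NS) (t : IT) : Prop :=
  ¬ isL t → Q (Dr ((X.c.D.par X.Y).rho p) \ Dr ((X.c.D.par X.Y).rho (tp t)))
    (rv A (X.g u t).val) (rv A (X.g u t).val) ≤
      u.c * ∑ j ∈ A.filter (fun j => X.c.D.it j ∈ t.items), wt X.c.D j * eD X K κ 1 p u t j

/-- at all the raw children -/
def KidsU (X : Ctx N γ p0 P₀) (K κ : ℝ) (A : Finset X.c.Lam) (u : NS) : IT → Prop
  | .leaf _ => True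
  | .br p _ t₁ t₀ => ChU X K κ A p ⟨p, u.c / (1 - 1 / (p : ℝ)), u.A * p, u.B⟩ t₁ ∧
      ChU X K κ A p ⟨p, u.c * p, u.A, u.B * p⟩ t₀
  | .add b t₁ t₀ => ChU X K κ A b ⟨b + 1, u.c, u.A, u.B⟩ t₁ ∧
      ChU X K κ A b ⟨b + 1, u.c, u.A, u.B⟩ t₀
  | .up b _ t => ChU X K κ A b ⟨b, u.c, u.A, u.B⟩ t
  | .pl b t => ChU X K κ A b ⟨b + 1, u.c, u.A * b, u.B⟩ t
  | .far b t₁ t₀ => ChU X K κ A b ⟨b + 1, u.c, u.A, u.B⟩ t₁ ∧
      ChU X K κ A b ⟨b + 1, u.c, u.A, u.B⟩ t₀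

/-- the values of a node -/
lemma val_Uv' {X : Ctx N γ p0 P₀} {u : NS} {t : IT} (hn : NDt X.par (w X.ψ) X.c.t u t)
    (A : Finset X.c.Lam) : rv A (X.g u t).val = Uv X X.Y u t A := by
  have hval : ((X.c.D.par X.Y).toG u.B u.A t).val =
      fun j => ((X.c.D.par X.Y).toFT u.B u.A t).U 1 j :=
    Par.toG_val _ hn.B_pos hn.fit (node_wts hn X.Y)
  unfold Uv
  rw [← hval]
  rfl

/-- from `ChOk` to `ChU` -/
lemma chU_of {X : Ctx N γ p0 P₀} {K κ : ℝ} {A : Finset X.c.Lam} {v : NS} {V : IT} {u : NS} {t : IT}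
    (h : ∀ v V u τ, Kid X v V u τ → ChOk X X.Y A (wt X.c.D) (eD X K κ 1) (tp V) u τ)
    (hv : KB X v V) (lV : ¬ isL V) (hu : KB X u t) (hsub : t.items ⊆ V.items)
    (hB : u.B = v.B ∨ u.B = v.B * tp V) (hn : u.n ≤ tp V + 1) : ChU X K κ A (tp V) u t := by
  intro lU
  rw [val_Uv' hu.nf.nd]
  exact h v V u t (kid_of hv lV hu lU hsub hB hn)

/-- **at all the nodes** -/
theorem kidsU_all {X : Ctx N γ p0 P₀} {K κ : ℝ} {A : Finset X.c.Lam}
    (h : ∀ v V u τ, Kid X v V u τ → ChOk X X.Y A (wt X.c.D) (eD X K κ 1) (tp V) u τ)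
    (t : IT) : ∀ u : NS, All (KB X) u t → All (KidsU X K κ A) u t := by
  induction t with
  | leaf S => intro u _; exact trivial
  | br p Sp t₁ t₀ ih₁ ih₀ =>
    intro u hh
    have hl : ¬ isL (.br p Sp t₁ t₀) := fun h => h
    have a1 : ChU X K κ A p ⟨p, u.c / (1 - 1 / (p : ℝ)), u.A * p, u.B⟩ t₁ :=
      chU_of (V := .br p Sp t₁ t₀) h hh.1 hl hh.2.1.self Finset.subset_union_left (Or.inl rfl)
        (Nat.le_succ p)
    have a2 : ChU X K κ A p ⟨p, u.c * p, u.A, u.B * p⟩ t₀ :=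
      chU_of (V := .br p Sp t₁ t₀) h hh.1 hl hh.2.2.self Finset.subset_union_right (Or.inr rfl)
        (Nat.le_succ p)
    exact ⟨⟨a1, a2⟩, ih₁ _ hh.2.1, ih₀ _ hh.2.2⟩
  | add b t₁ t₀ ih₁ ih₀ =>
    intro u hh
    have hl : ¬ isL (.add b t₁ t₀) := fun h => h
    have a1 : ChU X K κ A b ⟨b + 1, u.c, u.A, u.B⟩ t₁ :=
      chU_of (V := .add b t₁ t₀) h hh.1 hl hh.2.1.self Finset.subset_union_left (Or.inl rfl) le_rfl
    have a2 : ChU X K κ A b ⟨b + 1, u.c, u.A, u.B⟩ t₀ :=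
      chU_of (V := .add b t₁ t₀) h hh.1 hl hh.2.2.self Finset.subset_union_right (Or.inl rfl) le_rfl
    exact ⟨⟨a1, a2⟩, ih₁ _ hh.2.1, ih₀ _ hh.2.2⟩
  | up b Sp t ih =>
    intro u hh
    have hl : ¬ isL (.up b Sp t) := fun h => h
    have a1 : ChU X K κ A b ⟨b, u.c, u.A, u.B⟩ t :=
      chU_of (V := .up b Sp t) h hh.1 hl hh.2.self (Finset.Subset.refl _) (Or.inl rfl)
        (Nat.le_succ b)
    exact ⟨a1, ih _ hh.2⟩
  | pl b t ih =>
    intro u hh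
    have hl : ¬ isL (.pl b t) := fun h => h
    have a1 : ChU X K κ A b ⟨b + 1, u.c, u.A * b, u.B⟩ t :=
      chU_of (V := .pl b t) h hh.1 hl hh.2.self (Finset.Subset.refl _) (Or.inl rfl) le_rfl
    exact ⟨a1, ih _ hh.2⟩
  | far b t₁ t₀ ih₁ ih₀ =>
    intro u hh
    have hl : ¬ isL (.far b t₁ t₀) := fun h => h
    have a1 : ChU X K κ A b ⟨b + 1, u.c, u.A, u.B⟩ t₁ :=
      chU_of (V := .far b t₁ t₀) h hh.1 hl hh.2.1.self Finset.subset_union_left (Or.inl rfl) le_rfl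
    have a2 : ChU X K κ A b ⟨b + 1, u.c, u.A, u.B⟩ t₀ :=
      chU_of (V := .far b t₁ t₀) h hh.1 hl hh.2.2.self Finset.subset_union_right (Or.inl rfl) le_rfl
    exact ⟨⟨a1, a2⟩, ih₁ _ hh.2.1, ih₀ _ hh.2.2⟩

/-- **the class changes at all the raw children**, all item populations -/
def TgtChU (K κ : ℝ) (N : Skel189.Num) (γ : ℝ) : Prop :=
  Ev N γ fun p0 P₀ X => ∀ A : Finset X.c.Lam, IL X.c.D.it A →
    All (KidsU X K κ A) ⟨top X.S, 1, 1, 1⟩ X.c.t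

/-- **the class changes at all the raw children, for the final numbers** -/
theorem chU_fin : ForN ParT21.thF NumG23.SxF fun N γ => TgtChU (N.B + 2) (N.C1 + 3) N γ := by
  obtain ⟨K₁, hK⟩ := kL
  obtain ⟨K₂, hW⟩ := DseW7.wL
  refine ⟨3000 + |K₁| + |K₂|, fun N Ct C₀ γ h hN hG => ?_⟩
  have c1 := hN.C1
  have c2 := hN.c2
  have cB := hN.B
  have cCt := hN.Ct
  have a1 := le_abs_self K₁
  have a2 := le_abs_self K₂
  have a3 := abs_nonneg K₁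
  have a4 := abs_nonneg K₂
  have hC1 : 3000 ≤ N.C1 := by linarith
  have hCT : (0:ℝ) ≤ 2 * Step588.CT := by have := Step588.CT_pos; positivity
  have hC2 : (0:ℝ) ≤ N.B + N.c2 + 3 := by linarith
  have u3 : KL (2 * Step588.CT) (N.B + N.c2 + 3) (Ct - 1) 3 :=
    hK _ _ _ _ hCT hC2 (by norm_num) (by linarith) (by rw [cB, c2, cCt]; linarith)
  have w3 : WL (2 * Step588.CT) (N.B + N.c2 + 3) (Ct - 1) 3 :=
    hW _ _ _ _ hCT hC2 (by norm_num) (by linarith) (by rw [cB, c2, cCt]; linarith)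
  have uκ : KL (2 * Step588.CT) (N.B + N.c2 + 3) (Ct - 1) (N.C1 + 3) :=
    hK _ _ _ _ hCT hC2 (by linarith) (by linarith) (by rw [cB, c2, cCt]; linarith)
  have u1 : KL (2 * Step588.CT) (N.B + N.c2 + 3) (N.C1 - 2) 1 :=
    hK _ _ _ _ hCT hC2 (by norm_num) (by linarith) (by rw [cB, c2]; linarith)
  have w1 : WL (2 * Step588.CT) (N.B + N.c2 + 3) (N.C1 - 2) 1 :=
    hW _ _ _ _ hCT hC2 (by norm_num) (by linarith) (by rw [cB, c2]; linarith)
  have hA' : 0 ≤ aAcc N.C1 := by unfold aAcc; linarith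
  have s1 : ∀ p0 ψ S, SxF γ N.C1 p0 ψ S ⊆ SxA γ (aAcc N.C1) N.B N.C1 N.c2 p0 ψ S := by
    intro p0 ψ S
    rw [cB, c2]
    exact Finset.inter_subset_left
  have s2 : ∀ p0 ψ S, SxF γ N.C1 p0 ψ S ⊆ SxB γ N.B N.C1 N.c2 p0 ψ S := by
    intro p0 ψ S
    rw [cB, c2]
    exact Finset.inter_subset_right
  obtain ⟨p1, h1⟩ := chok N (Cu := Ct - 1) (C6 := N.C1 - 2) (K := N.B + 2) (κ := N.C1 + 3)
    (A' := aAcc N.C1) hA' (by linarith) (by linarith) u3 w3 uκ u1 w1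
  obtain ⟨p2, h2⟩ := kid_KQ N (aAcc N.C1)
  obtain ⟨p3, h3⟩ := ctx_DH h hG (by linarith) (by linarith) (by linarith)
  obtain ⟨p4, h4⟩ := ctx_TN h hG (by linarith)
  obtain ⟨p5, h5⟩ := ctx_KB N
  refine ⟨p1 + p2 + p3 + p4 + p5, fun p0 hp0 => ⟨2, fun P₀ hP X A hIL => ?_⟩⟩
  have hD := h3 p0 (by omega) γ P₀ X
  have hT := h4 p0 (by omega) γ P₀ X
  have hS : N.S2 p0 X.ψ X.S ⊆ SxF γ N.C1 p0 X.ψ X.S := by
    rw [h.S2]; exact Finset.inter_subset_right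
  have hγ : X.c.γ = γ := X.hγ
  refine kidsU_all (fun v V u τ hk => h1 p0 (by omega) γ P₀ X hD hT X.Y A hIL v V u τ hk
    (h2 p0 (by omega) γ P₀ hP X hD ?_ ?_ v V u τ hk)) _ _ (h5 p0 (by omega) γ P₀ hP X)
  · intro q hq
    rw [hγ]
    exact NoAcc.of X (hS.trans (s1 _ _ _)) hq
  · intro q hq
    rw [hγ]
    exact NoBad.of X (hS.trans (s2 _ _ _)) hq

end Crest.Agent.R4P.ChU17
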