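import Crest.Agent.R4P.ChU4_17

/-!
R4 (S0004), powers pass, helper17 (TgtCrs): **sums over all the raw steps** (up chains included).

* `RawAll P u τ` : `P p u' t'` at all the raw children of a node of column `p`;
* `TS f u τ` : tree sum, linear weights, of `f p u' t'` over all the raw steps;
* `rE it e u τ j` : sum of `e` along the raw path of the item of `j`; `TS_le` : `TS f ≤ c Σ W rE`;
* `path_raw` : the charges `eD` along the raw path are at most `Phi`;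
* `ts_fin` : the class changes at all the raw steps, tree sum at most `13` times the mass, for the final
  numbers.
-/

set_option autoImplicit false
set_option linter.unusedSectionVars false
set_option linter.unusedVariables false

open MeasureTheory Filter

namespace Crest.Agent.R4P.ChU17

open Crest.Agent.R4P.Cnt588 Crest.Agent.R4P.Item758 Crest.Agent.R4P.W363
open Crest.Agent.R4P.Data758 Crest.Agent.R4P.LfDat734
open Crest.Agent.R4P.Bld532 (NS All NodeOk Ws_nonneg)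
open Crest.Agent.R4P.Step588 (NDt)
open Crest.Agent.R4P.WalkIT579 (tp isL nodeOk_hi top_of_nodeOk)
open Crest.Agent.R4P.Skel189 Crest.Agent.R4P.RseSt23 Crest.Agent.R4P.RseNd23
open Crest.Agent.R4P.AvgItem710
open Crest.Agent.R4P.DseCh23 (hd hu hu_c hu_A hu_B lvl cE eD)
open Crest.Agent.R4P.DseKid23 (KB DH ctx_KB KQ TN isL_iff eQ_nonneg eD_eq)
open Crest.Agent.R4P.DseFin21
open Crest.Agent.R4P.DseTk23 (ctx_DH ctx_TN)
open Crest.Agent.R4P.FinE26 (ForN)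
open Crest.Agent.R4P.FinAll26 (NumFin Ev_P2)
open Crest.Agent.R4P.Fin5 (CF)
open Crest.Agent.R4P.ParF5 Crest.Agent.R4P.NumX34 Crest.Agent.R4P.ParT21
open Crest.Agent.R4P.NumG23
open Crest.Agent.R4P.Frame758 (wt)
open Crest.Agent.R4P.DseN23
open Crest.Agent.R4.Soft104 (w)
open Crest.Agent.R4.Item758 (IL AdI)
open Crest.Agent.R4.ClosR758 (rv Ro)
open Crest.Agent.R4.ClosL758 (Rr Dr)
open Crest.Agent.R4.Tour104 (Q)

/-! ### raw children -/

/-- a property of all the raw children -/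
def RawAll (P : ℕ → NS → IT → Prop) (u : NS) : IT → Prop
  | .leaf _ => True
  | .br p _ t₁ t₀ => P p ⟨p, u.c / (1 - 1 / (p : ℝ)), u.A * p, u.B⟩ t₁ ∧
      P p ⟨p, u.c * p, u.A, u.B * p⟩ t₀
  | .add b t₁ t₀ => P b ⟨b + 1, u.c, u.A, u.B⟩ t₁ ∧ P b ⟨b + 1, u.c, u.A, u.B⟩ t₀
  | .up b _ t => P b ⟨b, u.c, u.A, u.B⟩ t
  | .pl b t => P b ⟨b + 1, u.c, u.A * b, u.B⟩ t
  | .far b t₁ t₀ => P b ⟨b + 1, u.c, u.A, u.B⟩ t₁ ∧ P b ⟨b + 1, u.c, u.A, u.B⟩ t₀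

lemma RawAll.mono {P P' : ℕ → NS → IT → Prop} (h : ∀ p u t, P p u t → P' p u t) {u : NS} {τ : IT}
    (hh : RawAll P u τ) : RawAll P' u τ := by
  cases τ with
  | leaf S => trivial
  | br p Sp t₁ t₀ => exact ⟨h _ _ _ hh.1, h _ _ _ hh.2⟩
  | add b t₁ t₀ => exact ⟨h _ _ _ hh.1, h _ _ _ hh.2⟩
  | up b Sp t => exact h _ _ _ hh
  | pl b t => exact h _ _ _ hh
  | far b t₁ t₀ => exact ⟨h _ _ _ hh.1, h _ _ _ hh.2⟩

lemma RawAll.and {P P' : ℕ → NS → IT → Prop} {u : NS} {τ : IT} (h : RawAll P u τ)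
    (h' : RawAll P' u τ) : RawAll (fun p u t => P p u t ∧ P' p u t) u τ := by
  cases τ with
  | leaf S => trivial
  | br p Sp t₁ t₀ => exact ⟨⟨h.1, h'.1⟩, h.2, h'.2⟩
  | add b t₁ t₀ => exact ⟨⟨h.1, h'.1⟩, h.2, h'.2⟩
  | up b Sp t => exact ⟨h, h'⟩
  | pl b t => exact ⟨h, h'⟩
  | far b t₁ t₀ => exact ⟨⟨h.1, h'.1⟩, h.2, h'.2⟩

/-- **tree sum over all the raw steps**, linear weights -/
noncomputable def TS (f : ℕ → NS → IT → ℝ) : NS → IT → ℝ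
  | _, .leaf _ => 0
  | u, .br p _ t₁ t₀ =>
      (1 - 1 / (p:ℝ)) * (f p ⟨p, u.c / (1 - 1 / (p : ℝ)), u.A * p, u.B⟩ t₁ +
        TS f ⟨p, u.c / (1 - 1 / (p : ℝ)), u.A * p, u.B⟩ t₁) +
      1 / (p:ℝ) * (f p ⟨p, u.c * p, u.A, u.B * p⟩ t₀ + TS f ⟨p, u.c * p, u.A, u.B * p⟩ t₀)
  | u, .add b t₁ t₀ =>
      (f b ⟨b + 1, u.c, u.A, u.B⟩ t₁ + TS f ⟨b + 1, u.c, u.A, u.B⟩ t₁) +
      (f b ⟨b + 1, u.c, u.A, u.B⟩ t₀ + TS f ⟨b + 1, u.c, u.A, u.B⟩ t₀)
  | u, .up b _ t => f b ⟨b, u.c, u.A, u.B⟩ t + TS f ⟨b, u.c, u.A, u.B⟩ t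
  | u, .pl b t => f b ⟨b + 1, u.c, u.A * b, u.B⟩ t + TS f ⟨b + 1, u.c, u.A * b, u.B⟩ t
  | u, .far b t₁ t₀ =>
      (f b ⟨b + 1, u.c, u.A, u.B⟩ t₁ + TS f ⟨b + 1, u.c, u.A, u.B⟩ t₁) +
      (f b ⟨b + 1, u.c, u.A, u.B⟩ t₀ + TS f ⟨b + 1, u.c, u.A, u.B⟩ t₀)

section gen
variable {Λ κ : Type*} [Fintype Λ] [DecidableEq Λ] [Fintype κ] [DecidableEq κ]

/-- **charges summed along the raw path of an item** -/
noncomputable def rE (it : Λ → ℕ) (e : ℕ → NS → IT → Λ → ℝ) : NS → IT → Λ → ℝ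
  | _, .leaf _, _ => 0
  | u, .br p _ t₁ t₀, j =>
      if it j ∈ t₀.items then
        e p ⟨p, u.c * p, u.A, u.B * p⟩ t₀ j + rE it e ⟨p, u.c * p, u.A, u.B * p⟩ t₀ j
      else e p ⟨p, u.c / (1 - 1 / (p : ℝ)), u.A * p, u.B⟩ t₁ j +
        rE it e ⟨p, u.c / (1 - 1 / (p : ℝ)), u.A * p, u.B⟩ t₁ j
  | u, .add b t₁ t₀, j =>
      if it j ∈ t₀.items then
        e b ⟨b + 1, u.c, u.A, u.B⟩ t₀ j + rE it e ⟨b + 1, u.c, u.A, u.B⟩ t₀ j
      else e b ⟨b + 1, u.c, u.A, u.B⟩ t₁ j + rE it e ⟨b + 1, u.c, u.A, u.B⟩ t₁ j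
  | u, .up b _ t, j => e b ⟨b, u.c, u.A, u.B⟩ t j + rE it e ⟨b, u.c, u.A, u.B⟩ t j
  | u, .pl b t, j =>
      e b ⟨b + 1, u.c, u.A * b, u.B⟩ t j + rE it e ⟨b + 1, u.c, u.A * b, u.B⟩ t j
  | u, .far b t₁ t₀, j =>
      if it j ∈ t₀.items then
        e b ⟨b + 1, u.c, u.A, u.B⟩ t₀ j + rE it e ⟨b + 1, u.c, u.A, u.B⟩ t₀ j
      else e b ⟨b + 1, u.c, u.A, u.B⟩ t₁ j + rE it e ⟨b + 1, u.c, u.A, u.B⟩ t₁ j

/-- the local bound of a raw child -/
def LB (D : Par Λ κ) (W : Λ → ℝ) (A : Finset Λ) (f : ℕ → NS → IT → ℝ)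
    (e : ℕ → NS → IT → Λ → ℝ) (p : ℕ) (u : NS) (t : IT) : Prop :=
  f p u t ≤ u.c * ∑ j ∈ A.filter (fun j => D.it j ∈ t.items), W j * e p u t j

/-- **the tree sum and the sums along the paths** -/
theorem TS_le (D : Par Λ κ) (W : Λ → ℝ) (A : Finset Λ) (f : ℕ → NS → IT → ℝ)
    (e : ℕ → NS → IT → Λ → ℝ) (t : IT) : ∀ u : NS, Fit u.B u.A t →
    All (RawAll (LB D W A f e)) u t →
    TS f u t ≤ u.c * ∑ j ∈ A.filter (fun j => D.it j ∈ t.items), W j * rE D.it e u t j := by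
  have two : ∀ (u v₁ v₀ : NS) (t₁ t₀ : IT) (b : ℕ), Disjoint t₁.items t₀.items →
      v₁.c = u.c → v₀.c = u.c →
      LB D W A f e b v₁ t₁ → LB D W A f e b v₀ t₀ →
      TS f v₁ t₁ ≤ v₁.c * ∑ j ∈ A.filter (fun j => D.it j ∈ t₁.items), W j * rE D.it e v₁ t₁ j →
      TS f v₀ t₀ ≤ v₀.c * ∑ j ∈ A.filter (fun j => D.it j ∈ t₀.items), W j * rE D.it e v₀ t₀ j →
      (f b v₁ t₁ + TS f v₁ t₁) + (f b v₀ t₀ + TS f v₀ t₀) ≤
        u.c * ∑ j ∈ A.filter (fun j => D.it j ∈ t₁.items ∪ t₀.items),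
          W j * (if D.it j ∈ t₀.items then e b v₀ t₀ j + rE D.it e v₀ t₀ j
            else e b v₁ t₁ j + rE D.it e v₁ t₁ j) := by
    intro u v₁ v₀ t₁ t₀ b hdj h1 h0 k1 k0 s1 s0
    have e3 : ∀ j, W j * (if D.it j ∈ t₀.items then e b v₀ t₀ j + rE D.it e v₀ t₀ j
            else e b v₁ t₁ j + rE D.it e v₁ t₁ j) =
        (if D.it j ∈ t₀.items then W j * (e b v₀ t₀ j + rE D.it e v₀ t₀ j)
            else W j * (e b v₁ t₁ j + rE D.it e v₁ t₁ j)) := fun j => by split_ifs <;> rfl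
    rw [Finset.sum_congr rfl fun j _ => e3 j, Dse22.sum_children D hdj]
    unfold LB at k1 k0
    rw [h1] at k1 s1
    rw [h0] at k0 s0
    have e1 : ∑ j ∈ A.filter (fun j => D.it j ∈ t₁.items), W j * (e b v₁ t₁ j + rE D.it e v₁ t₁ j) =
        ∑ j ∈ A.filter (fun j => D.it j ∈ t₁.items), W j * e b v₁ t₁ j +
        ∑ j ∈ A.filter (fun j => D.it j ∈ t₁.items), W j * rE D.it e v₁ t₁ j := by
      rw [← Finset.sum_add_distrib]
      exact Finset.sum_congr rfl fun j _ => mul_add _ _ _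
    have e0 : ∑ j ∈ A.filter (fun j => D.it j ∈ t₀.items), W j * (e b v₀ t₀ j + rE D.it e v₀ t₀ j) =
        ∑ j ∈ A.filter (fun j => D.it j ∈ t₀.items), W j * e b v₀ t₀ j +
        ∑ j ∈ A.filter (fun j => D.it j ∈ t₀.items), W j * rE D.it e v₀ t₀ j := by
      rw [← Finset.sum_add_distrib]
      exact Finset.sum_congr rfl fun j _ => mul_add _ _ _
    rw [e1, e0, mul_add, mul_add, mul_add]
    linarith
  have one : ∀ (u v : NS) (t : IT) (b : ℕ), v.c = u.c → LB D W A f e b v t →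
      TS f v t ≤ v.c * ∑ j ∈ A.filter (fun j => D.it j ∈ t.items), W j * rE D.it e v t j →
      f b v t + TS f v t ≤ u.c * ∑ j ∈ A.filter (fun j => D.it j ∈ t.items),
          W j * (e b v t j + rE D.it e v t j) := by
    intro u v t b h1 k1 s1
    unfold LB at k1
    rw [h1] at k1 s1
    have e1 : ∑ j ∈ A.filter (fun j => D.it j ∈ t.items), W j * (e b v t j + rE D.it e v t j) =
        ∑ j ∈ A.filter (fun j => D.it j ∈ t.items), W j * e b v t j +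
        ∑ j ∈ A.filter (fun j => D.it j ∈ t.items), W j * rE D.it e v t j := by
      rw [← Finset.sum_add_distrib]
      exact Finset.sum_congr rfl fun j _ => mul_add _ _ _
    rw [e1, mul_add]
    linarith
  induction t with
  | leaf S =>
    intro u _ _
    show (0 : ℝ) ≤ u.c * ∑ j ∈ A.filter (fun j => D.it j ∈ (IT.leaf S).items), W j * 0
    rw [Finset.sum_eq_zero fun j _ => mul_zero _, mul_zero]
  | br p Sp t₁ t₀ ih₁ ih₀ =>
    intro u hF h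
    obtain ⟨hp, hpb, hdj, f1, f0⟩ := hF
    have s1 := ih₁ ⟨p, u.c / (1 - 1 / (p : ℝ)), u.A * p, u.B⟩ f1 h.2.1
    have s0 := ih₀ ⟨p, u.c * p, u.A, u.B * p⟩ f0 h.2.2
    have k1 : LB D W A f e p ⟨p, u.c / (1 - 1 / (p : ℝ)), u.A * p, u.B⟩ t₁ := h.1.1
    have k0 : LB D W A f e p ⟨p, u.c * p, u.A, u.B * p⟩ t₀ := h.1.2
    unfold LB at k1 k0
    have hw1 : 0 ≤ 1 - 1 / (p : ℝ) := one_sub_inv_nonneg p
    have hw0 : 0 ≤ 1 / (p : ℝ) := by positivity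
    have a1 := mul_le_mul_of_nonneg_left (add_le_add k1 s1) hw1
    have a0 := mul_le_mul_of_nonneg_left (add_le_add k0 s0) hw0
    simp only at a1 a0
    rw [← mul_add, ← mul_assoc, cf_present' hp] at a1
    rw [← mul_add, ← mul_assoc, cf_missing' hp] at a0
    have e3 : ∀ j, W j * (if D.it j ∈ t₀.items then
          e p ⟨p, u.c * p, u.A, u.B * p⟩ t₀ j + rE D.it e ⟨p, u.c * p, u.A, u.B * p⟩ t₀ j
        else e p ⟨p, u.c / (1 - 1 / (p : ℝ)), u.A * p, u.B⟩ t₁ j +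
          rE D.it e ⟨p, u.c / (1 - 1 / (p : ℝ)), u.A * p, u.B⟩ t₁ j) =
        (if D.it j ∈ t₀.items then W j * (e p ⟨p, u.c * p, u.A, u.B * p⟩ t₀ j +
          rE D.it e ⟨p, u.c * p, u.A, u.B * p⟩ t₀ j)
        else W j * (e p ⟨p, u.c / (1 - 1 / (p : ℝ)), u.A * p, u.B⟩ t₁ j +
          rE D.it e ⟨p, u.c / (1 - 1 / (p : ℝ)), u.A * p, u.B⟩ t₁ j)) := fun j => by
      split_ifs <;> rfl
    show _ ≤ u.c * ∑ j ∈ A.filter (fun j => D.it j ∈ t₁.items ∪ t₀.items),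
      W j * (if D.it j ∈ t₀.items then
          e p ⟨p, u.c * p, u.A, u.B * p⟩ t₀ j + rE D.it e ⟨p, u.c * p, u.A, u.B * p⟩ t₀ j
        else e p ⟨p, u.c / (1 - 1 / (p : ℝ)), u.A * p, u.B⟩ t₁ j +
          rE D.it e ⟨p, u.c / (1 - 1 / (p : ℝ)), u.A * p, u.B⟩ t₁ j)
    rw [Finset.sum_congr rfl fun j _ => e3 j, Dse22.sum_children D hdj, mul_add]
    refine add_le_add (a1.trans (le_of_eq ?_)) (a0.trans (le_of_eq ?_))
    · rw [← Finset.sum_add_distrib]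
      exact congrArg _ (Finset.sum_congr rfl fun j _ => (mul_add _ _ _).symm)
    · rw [← Finset.sum_add_distrib]
      exact congrArg _ (Finset.sum_congr rfl fun j _ => (mul_add _ _ _).symm)
  | add b t₁ t₀ ih₁ ih₀ =>
    intro u hF h
    obtain ⟨hdj, f1, f0⟩ := hF
    exact two u ⟨b + 1, u.c, u.A, u.B⟩ ⟨b + 1, u.c, u.A, u.B⟩ t₁ t₀ b hdj rfl rfl h.1.1 h.1.2
      (ih₁ ⟨b + 1, u.c, u.A, u.B⟩ f1 h.2.1) (ih₀ ⟨b + 1, u.c, u.A, u.B⟩ f0 h.2.2)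
  | up b Sp t ih =>
    intro u hF h
    exact one u ⟨b, u.c, u.A, u.B⟩ t b rfl h.1 (ih ⟨b, u.c, u.A, u.B⟩ hF h.2)
  | pl b t ih =>
    intro u hF h
    exact one u ⟨b + 1, u.c, u.A * b, u.B⟩ t b rfl h.1
      (ih ⟨b + 1, u.c, u.A * b, u.B⟩ (by first | exact hF | exact hF.2 | exact hF.1 | exact hF.2.2) h.2)
  | far b t₁ t₀ ih₁ ih₀ =>
    intro u hF h
    obtain ⟨hdj, f1, f0⟩ := hF
    exact two u ⟨b + 1, u.c, u.A, u.B⟩ ⟨b + 1, u.c, u.A, u.B⟩ t₁ t₀ b hdj rfl rfl h.1.1 h.1.2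
      (ih₁ ⟨b + 1, u.c, u.A, u.B⟩ f1 h.2.1) (ih₀ ⟨b + 1, u.c, u.A, u.B⟩ f0 h.2.2)

end gen

section ctx
variable {N : Skel189.Num} {γ : ℝ} {p0 P₀ : ℕ} {X : Ctx N γ p0 P₀}

/-! ### the path sum -/

/-- the claim at a node -/
def PCr (X : Ctx N γ p0 P₀) (K κ a : ℝ) (u : NS) (t : IT) : Prop :=
  ∀ j : X.c.Lam, j.1.1 ∈ t.items →
    (isL t → rE X.c.D.it (eD X K κ a) u t j = 0) ∧
    (¬ isL t → rE X.c.D.it (eD X K κ a) u t j + Real.log (tp t) ^ (-κ) ≤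
      Phi X K κ a j.1.1 (tp t))

lemma kidR {K κ a : ℝ} (hK : 0 ≤ K) (hk0 : 0 ≤ κ) (hkK : κ ≤ K) (ha : 0 ≤ a) (h0 : 3 ≤ p0)
    (hR : RG X) {p : ℕ} (hpp : p.Prime)
    (hp : p0 < p) {u : NS} {t : IT} (h : PF X u t) (hn : p ≤ u.n) (hn' : u.n ≤ p + 1)
    (ih : PCr X K κ a u t) {j : X.c.Lam} (hj : j.1.1 ∈ t.items) :
    eD X K κ a p u t j + rE X.c.D.it (eD X K κ a) u t j + Real.log p ^ (-κ) ≤
      Phi X K κ a j.1.1 p := by
  obtain ⟨i1, i2⟩ := ih j hj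
  have hge : ∀ l ∈ u.B.primeFactors, p ≤ l := by
    intro l hl
    exact hn.trans (h.nd.bk.geB l (Nat.prime_of_mem_primeFactors hl)
      (Nat.dvd_of_mem_primeFactors hl))
  by_cases hl : isL t
  · rw [i1 hl]
    obtain ⟨S, hS⟩ := isL_iff.1 hl
    have hL := h.lf S hS
    have hjS : j.1.1 ∈ S := by rw [hS] at hj; exact hj
    have key := step_leaf (X := X) (u := u) (S := S) (j := j) hK hk0 ha h0 rfl hpp hp (by omega)
      h.nd.bk.sfB (hL.mt _ hjS) (fun l hl => ⟨hge l hl, h.nd.bk.geB l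
        (Nat.prime_of_mem_primeFactors hl) (Nat.dvd_of_mem_primeFactors hl)⟩)
    rw [hS, add_zero]
    exact key
  · have i3 := i2 hl
    have k := nodeOk_hi h.nd.self.node hl
    have key := step_col (X := X) (u := u) (τ := t) (j := j) hK hk0 hkK (by omega) hR rfl hl
      (K := K) (κ := κ) (a := a) (p := p) k.2.1 (by have := k.2.2.1; omega) hpp h.nd.bk.sfB
      (mt_node h.nd X.tOk hl hj) hge
    linarith

theorem path_raw {K κ a : ℝ} (hK : 0 ≤ K) (hk0 : 0 ≤ κ) (hkK : κ ≤ K) (ha : 0 ≤ a) (h0 : 3 ≤ p0)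
    (hR : RG X) : ∀ (t : IT) (u : NS), All (PF X) u t → All (PCr X K κ a) u t := by
  intro t
  induction t with
  | leaf S =>
    intro u h j hj
    exact ⟨fun _ => rfl, fun h' => absurd trivial h'⟩
  | br p Sp t₁ t₀ ih₁ ih₀ =>
    intro u h
    have hO := h.1.nd.self.node
    have j1 := ih₁ _ h.2.1
    have j0 := ih₀ _ h.2.2
    refine ⟨fun j hj => ⟨fun h' => h'.elim, fun _ => ?_⟩, j1, j0⟩
    have hpp : p.Prime := hO.1
    have hp0 : p0 < p := hO.2.2.1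
    by_cases hin : j.1.1 ∈ t₀.items
    · have key := kidR hK hk0 hkK ha h0 hR hpp hp0 h.2.2.self (le_refl p) (Nat.le_succ p) j0.self hin
      have e : rE X.c.D.it (eD X K κ a) u (.br p Sp t₁ t₀) j =
          eD X K κ a p ⟨p, u.c * p, u.A, u.B * p⟩ t₀ j +
          rE X.c.D.it (eD X K κ a) ⟨p, u.c * p, u.A, u.B * p⟩ t₀ j := if_pos hin
      rw [e]
      exact key
    · have hin1 : j.1.1 ∈ t₁.items := (Finset.mem_union.1 hj).resolve_right hin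
      have key := kidR hK hk0 hkK ha h0 hR hpp hp0 h.2.1.self (le_refl p) (Nat.le_succ p) j1.self
        hin1
      have e : rE X.c.D.it (eD X K κ a) u (.br p Sp t₁ t₀) j =
          eD X K κ a p ⟨p, u.c / (1 - 1 / (p : ℝ)), u.A * p, u.B⟩ t₁ j +
          rE X.c.D.it (eD X K κ a) ⟨p, u.c / (1 - 1 / (p : ℝ)), u.A * p, u.B⟩ t₁ j := if_neg hin
      rw [e]
      exact key
  | add p t₁ t₀ ih₁ ih₀ =>
    intro u h
    have hO := h.1.nd.self.node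
    have j1 := ih₁ _ h.2.1
    have j0 := ih₀ _ h.2.2
    refine ⟨fun j hj => ⟨fun h' => h'.elim, fun _ => ?_⟩, j1, j0⟩
    have hpp : p.Prime := hO.1
    have hp0 : p0 < p := hO.2.2.1
    by_cases hin : j.1.1 ∈ t₀.items
    · have key := kidR hK hk0 hkK ha h0 hR hpp hp0 h.2.2.self (Nat.le_succ p) (le_refl (p+1))
        j0.self hin
      have e : rE X.c.D.it (eD X K κ a) u (.add p t₁ t₀) j =
          eD X K κ a p ⟨p + 1, u.c, u.A, u.B⟩ t₀ j +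
          rE X.c.D.it (eD X K κ a) ⟨p + 1, u.c, u.A, u.B⟩ t₀ j := if_pos hin
      rw [e]
      exact key
    · have hin1 : j.1.1 ∈ t₁.items := (Finset.mem_union.1 hj).resolve_right hin
      have key := kidR hK hk0 hkK ha h0 hR hpp hp0 h.2.1.self (Nat.le_succ p) (le_refl (p+1))
        j1.self hin1
      have e : rE X.c.D.it (eD X K κ a) u (.add p t₁ t₀) j =
          eD X K κ a p ⟨p + 1, u.c, u.A, u.B⟩ t₁ j +
          rE X.c.D.it (eD X K κ a) ⟨p + 1, u.c, u.A, u.B⟩ t₁ j := if_neg hin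
      rw [e]
      exact key
  | up p Sp t ih =>
    intro u h
    have j1 := ih _ h.2
    refine ⟨fun j hj => ⟨fun h' => h'.elim, fun _ => ?_⟩, j1⟩
    obtain ⟨k1, k2, -⟩ := top_of_nodeOk h.1.nd.self.node (fun hh => hh)
    have k3 := (nodeOk_hi h.1.nd.self.node (fun hh => hh)).2.1
    exact kidR hK hk0 hkK ha h0 hR k1 k3 h.2.self (le_refl p) (Nat.le_succ p) j1.self hj
  | pl p t ih =>
    intro u h
    have hO := h.1.nd.self.node
    have j1 := ih _ h.2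
    refine ⟨fun j hj => ⟨fun h' => h'.elim, fun _ => ?_⟩, j1⟩
    exact kidR hK hk0 hkK ha h0 hR hO.1 hO.2.2.1 h.2.self (Nat.le_succ p) (le_refl (p+1)) j1.self hj
  | far p t₁ t₀ ih₁ ih₀ =>
    intro u h
    have hO := h.1.nd.self.node
    have j1 := ih₁ _ h.2.1
    have j0 := ih₀ _ h.2.2
    refine ⟨fun j hj => ⟨fun h' => h'.elim, fun _ => ?_⟩, j1, j0⟩
    have hpp : p.Prime := hO.1
    have hp0 : p0 < p := hO.2.2.1
    by_cases hin : j.1.1 ∈ t₀.items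
    · have key := kidR hK hk0 hkK ha h0 hR hpp hp0 h.2.2.self (Nat.le_succ p) (le_refl (p+1))
        j0.self hin
      have e : rE X.c.D.it (eD X K κ a) u (.far p t₁ t₀) j =
          eD X K κ a p ⟨p + 1, u.c, u.A, u.B⟩ t₀ j +
          rE X.c.D.it (eD X K κ a) ⟨p + 1, u.c, u.A, u.B⟩ t₀ j := if_pos hin
      rw [e]
      exact key
    · have hin1 : j.1.1 ∈ t₁.items := (Finset.mem_union.1 hj).resolve_right hin
      have key := kidR hK hk0 hkK ha h0 hR hpp hp0 h.2.1.self (Nat.le_succ p) (le_refl (p+1))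
        j1.self hin1
      have e : rE X.c.D.it (eD X K κ a) u (.far p t₁ t₀) j =
          eD X K κ a p ⟨p + 1, u.c, u.A, u.B⟩ t₁ j +
          rE X.c.D.it (eD X K κ a) ⟨p + 1, u.c, u.A, u.B⟩ t₁ j := if_neg hin
      rw [e]
      exact key

/-- the charge of a dead item is zero -/
lemma eD_dead' {K κ a : ℝ} {p : ℕ} {u : NS} {t : IT} {j : X.c.Lam} (h : j.1.1 ∉ X.S') :
    eD X K κ a p u t j = 0 := by
  unfold DseCh23.eD
  rw [if_neg h]

lemma rE_dead {K κ a : ℝ} {j : X.c.Lam} (h : j.1.1 ∉ X.S') (t : IT) : ∀ u : NS,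
    rE X.c.D.it (eD X K κ a) u t j = 0 := by
  induction t with
  | leaf S => intro u; rfl
  | br p Sp t₁ t₀ ih₁ ih₀ =>
    intro u
    simp only [rE]
    split_ifs
    · rw [ih₀, eD_dead' h, add_zero]
    · rw [ih₁, eD_dead' h, add_zero]
  | add p t₁ t₀ ih₁ ih₀ =>
    intro u
    simp only [rE]
    split_ifs
    · rw [ih₀, eD_dead' h, add_zero]
    · rw [ih₁, eD_dead' h, add_zero]
  | up p Sp t ih => intro u; simp only [rE]; rw [ih, eD_dead' h, add_zero]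
  | pl p t ih => intro u; simp only [rE]; rw [ih, eD_dead' h, add_zero]
  | far p t₁ t₀ ih₁ ih₀ =>
    intro u
    simp only [rE]
    split_ifs
    · rw [ih₀, eD_dead' h, add_zero]
    · rw [ih₁, eD_dead' h, add_zero]

/-- **the sum of the charges along a raw path** -/
theorem rE_le {K κ a K₀ : ℝ} (hK : 0 ≤ K) (hk0 : 0 ≤ κ) (hkK : κ ≤ K) (ha : 0 ≤ a) (h0 : 3 ≤ p0)
    (hR : RG X) (hPhi : ∀ q ∈ X.S', ∀ m : ℕ, Phi X K κ a q m ≤ K₀) (hK0 : 0 ≤ K₀) {u : NS} {t : IT}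
    (h : All (PF X) u t) {j : X.c.Lam} (hj : j.1.1 ∈ t.items) :
    rE X.c.D.it (eD X K κ a) u t j ≤ K₀ := by
  by_cases hs : j.1.1 ∈ X.S'
  · obtain ⟨i1, i2⟩ := (path_raw hK hk0 hkK ha h0 hR t u h).self j hj
    by_cases hl : isL t
    · rw [i1 hl]; exact hK0
    · have k1 := i2 hl
      have k2 := hPhi _ hs (tp t)
      have k3 : 0 ≤ Real.log (tp t) ^ (-κ) := Real.rpow_nonneg (DseFin21.log_nn _) _
      linarith
  · rw [rE_dead hs]; exact hK0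

/-- the class changes of a raw child -/
noncomputable def chD (X : Ctx N γ p0 P₀) (A : Finset X.c.Lam) (p : ℕ) (u : NS) (t : IT) : ℝ := by
  classical
  exact if isL t then 0 else Q (Dr ((X.c.D.par X.Y).rho p) \ Dr ((X.c.D.par X.Y).rho (tp t)))
    (rv A (X.g u t).val) (rv A (X.g u t).val)

/-- **the tree sum of the class changes** -/
theorem TS_chD {K κ K₀ : ℝ} (hK : 0 ≤ K) (hk0 : 0 ≤ κ) (hkK : κ ≤ K) (h0 : 3 ≤ p0)
    (hR : RG X) (hPhi : ∀ q ∈ X.S', ∀ m : ℕ, Phi X K κ 1 q m ≤ K₀) (hK0 : 0 ≤ K₀)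
    {A : Finset X.c.Lam} (t : IT) : ∀ u : NS, All (PF X) u t → All (KB X) u t →
    All (KidsU X K κ A) u t →
    TS (chD X A) u t ≤ K₀ * (u.c * ∑ j ∈ A.filter (fun j => X.c.D.it j ∈ t.items), wt X.c.D j) := by
  intro u hP hB hU
  have hnd := hP.self.nd
  have hloc : All (RawAll (LB (X.c.D.par X.Y) (wt X.c.D) A (chD X A) (eD X K κ 1))) u t := by
    have hc : ∀ p u t, (0 ≤ u.c ∧ ChU X K κ A p u t) →
        LB (X.c.D.par X.Y) (wt X.c.D) A (chD X A) (eD X K κ 1) p u t := by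
      intro p u t ⟨hc, h⟩
      unfold LB chD
      by_cases hl : isL t
      · simp only [hl, if_true]
        refine mul_nonneg hc (Finset.sum_nonneg fun j _ => mul_nonneg (wt_nonneg X j) ?_)
        exact eQ_nonneg zero_le_one p _
      · simp only [hl, if_false]
        exact h hl
    -- nonnegative constants of the children
    have gen : ∀ (t : IT) (u : NS), All (KB X) u t → All (KidsU X K κ A) u t →
        All (RawAll (LB (X.c.D.par X.Y) (wt X.c.D) A (chD X A) (eD X K κ 1))) u t := by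
      intro t
      induction t with
      | leaf S => intro u _ _; exact trivial
      | br p Sp t₁ t₀ ih₁ ih₀ =>
        intro u hb hh
        exact ⟨⟨hc _ _ _ ⟨hb.2.1.self.nf.c0.le, hh.1.1⟩, hc _ _ _ ⟨hb.2.2.self.nf.c0.le, hh.1.2⟩⟩,
          ih₁ _ hb.2.1 hh.2.1, ih₀ _ hb.2.2 hh.2.2⟩
      | add b t₁ t₀ ih₁ ih₀ =>
        intro u hb hh
        exact ⟨⟨hc _ _ _ ⟨hb.2.1.self.nf.c0.le, hh.1.1⟩, hc _ _ _ ⟨hb.2.2.self.nf.c0.le, hh.1.2⟩⟩,
          ih₁ _ hb.2.1 hh.2.1, ih₀ _ hb.2.2 hh.2.2⟩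
      | up b Sp t ih =>
        intro u hb hh
        exact ⟨hc _ _ _ ⟨hb.2.self.nf.c0.le, hh.1⟩, ih _ hb.2 hh.2⟩
      | pl b t ih =>
        intro u hb hh
        exact ⟨hc _ _ _ ⟨hb.2.self.nf.c0.le, hh.1⟩, ih _ hb.2 hh.2⟩
      | far b t₁ t₀ ih₁ ih₀ =>
        intro u hb hh
        exact ⟨⟨hc _ _ _ ⟨hb.2.1.self.nf.c0.le, hh.1.1⟩, hc _ _ _ ⟨hb.2.2.self.nf.c0.le, hh.1.2⟩⟩,
          ih₁ _ hb.2.1 hh.2.1, ih₀ _ hb.2.2 hh.2.2⟩
    exact gen t u hB hU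
  have hc : 0 ≤ u.c := hB.self.nf.c0.le
  refine (TS_le (X.c.D.par X.Y) (wt X.c.D) A (chD X A) (eD X K κ 1) t u hnd.fit hloc).trans ?_
  have e : K₀ * (u.c * ∑ j ∈ A.filter (fun j => X.c.D.it j ∈ t.items), wt X.c.D j) =
      u.c * ∑ j ∈ A.filter (fun j => X.c.D.it j ∈ t.items), wt X.c.D j * K₀ := by
    rw [← Finset.sum_mul]; ring
  rw [e]
  refine mul_le_mul_of_nonneg_left (Finset.sum_le_sum fun j hj => ?_) hc
  exact mul_le_mul_of_nonneg_left (rE_le hK hk0 hkK zero_le_one h0 hR hPhi hK0 hP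
    (Finset.mem_filter.1 hj).2) (wt_nonneg X j)

end ctx

/-- **the tree sum of the class changes of all the raw steps, for the final numbers** -/
def TgtTS (N : Skel189.Num) (γ : ℝ) : Prop :=
  Ev N γ fun p0 P₀ X => ∀ A : Finset X.c.Lam, IL X.c.D.it A →
    All (fun u τ => TS (chD X A) u τ ≤
      13 * (u.c * ∑ j ∈ A.filter (fun j => X.c.D.it j ∈ τ.items), wt X.c.D j))
      ⟨top X.S, 1, 1, 1⟩ X.c.t

/-- a property of all the subtrees -/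
lemma All.sub {Q P : NS → IT → Prop} (t : IT) (h : ∀ u t, All Q u t → P u t) : ∀ u : NS,
    All Q u t → All P u t := by
  induction t with
  | leaf S => intro u hh; exact h _ _ hh
  | br p Sp t₁ t₀ ih₁ ih₀ => intro u hh; exact ⟨h _ _ hh, ih₁ _ hh.2.1, ih₀ _ hh.2.2⟩
  | add b t₁ t₀ ih₁ ih₀ => intro u hh; exact ⟨h _ _ hh, ih₁ _ hh.2.1, ih₀ _ hh.2.2⟩
  | up b Sp t ih => intro u hh; exact ⟨h _ _ hh, ih _ hh.2⟩
  | pl b t ih => intro u hh; exact ⟨h _ _ hh, ih _ hh.2⟩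
  | far b t₁ t₀ ih₁ ih₀ => intro u hh; exact ⟨h _ _ hh, ih₁ _ hh.2.1, ih₀ _ hh.2.2⟩

theorem ts_fin : ForN ParT21.thF NumG23.SxF TgtTS := by
  obtain ⟨c0, h0⟩ := chU_fin
  refine ⟨max c0 10, fun N Ct C₀ γ h hN hG => ?_⟩
  have n0 : NumFin N (thF Ct) Ct c0 := EndD23.NumFin.weaken hN (le_max_left _ _)
  have hU := h0 N Ct C₀ γ h n0 hG
  have e1 : 10 ≤ N.C1 := (le_max_right _ _).trans hN.C1
  have ec := hN.c2
  have eB := hN.B
  have hB := N.hB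
  obtain ⟨q1, H1⟩ := Phi_le N (K := N.B + 2) (κ := N.C1 + 3) le_rfl (by rw [ec]; linarith)
  obtain ⟨q2, H2⟩ := ctx_KB N
  obtain ⟨q3, hU⟩ := hU
  refine ⟨q1 + q2 + q3 + 3, fun p0 hp0 => ?_⟩
  obtain ⟨P1, hU⟩ := hU p0 (by omega)
  refine ⟨P1 + 2, fun P₀ hP X A hIL => ?_⟩
  have k1 := hU P₀ (by omega) X A hIL
  have k2 := H2 p0 (by omega) γ P₀ (by omega) X
  have k3 := ctx_PF X
  have hRG := ctx_RG h X
  have hPhi : ∀ q ∈ X.S', ∀ m : ℕ, Phi X (N.B + 2) (N.C1 + 3) 1 q m ≤ 13 := fun q hq m => by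
    have := H1 p0 (by omega) γ P₀ X 1 q hq m
    linarith
  refine All.sub X.c.t (Q := fun u τ => PF X u τ ∧ KB X u τ ∧ KidsU X (N.B + 2) (N.C1 + 3) A u τ)
    (fun u t hh => ?_) _ (k3.and (k2.and k1))
  exact TS_chD (K := N.B + 2) (κ := N.C1 + 3) (by linarith) (by linarith) (by rw [eB]; linarith)
    (by omega) hRG hPhi (by norm_num) t u (hh.mono fun _ _ k => k.1)
    (hh.mono fun _ _ k => k.2.1) (hh.mono fun _ _ k => k.2.2)

end Crest.Agent.R4P.ChU17
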