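import Crest.Agent.R4P.SkelNodeA_2
import Crest.Agent.R4P.ClosP542
import Crest.Agent.R4P.WalkS560

/-!
R4 (S0004), powers pass, group [K] (helper3): **THE NODE ASSEMBLY OF A CONTEXT** (port of helper189's
`R4/SkelNode189`).

* `Ctx.Y`, `Ctx.Sta`, `Ctx.STP`, `Ctx.g`, `Ctx.mu`, `Ctx.self`, `Ctx.Boot`.
* `Part X j₀ Hb E η` : the error `E` of a node is at most `η (μ + μ ν)`, at every node which is not a
  pull (`¬ PulG`), every admissible nonempty population, under the hypothesis `Hb u τ`.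
* `PartW X j₀ Hb stp loc η` : the same for the walk sum of the local error `loc`.
* `NodeParts` : the seven errors of a node (`dseR`, `rseR` and the walk sums of `eNM`, `eOS`, `eSHR`,
  `eX`, `eSTOP`); `nodeE_of_parts` : they give `NodeE` at all the nodes.
-/

set_option autoImplicit false

open MeasureTheory Filter

namespace Crest.Agent.R4P.Skel189

open Crest.Agent.R4P.Cnt588 Crest.Agent.R4.Max709 Crest.Agent.R4.Tour104 Crest.Agent.R4P.Item758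
open Crest.Agent.R4P.Bld532 Crest.Agent.R4P.PrunePar33 Crest.Agent.R4P.PruneSep532
open Crest.Agent.R4P.Data758 Crest.Agent.R4P.OmData532 Crest.Agent.R4P.LfDat734
open Crest.Agent.R4P.W363 Crest.Agent.R4P.WPex189 Crest.Agent.R4P.Asm532 Crest.Agent.R4P.Walk560
open Crest.Agent.R4.Soft104 Crest.Agent.R4P.Frame758
open Crest.Agent.R4.ClosR758 Crest.Agent.R4.Avg758 Crest.Agent.R4.Clos758 Crest.Agent.R4.ClosL758
open Crest.Agent.R4.ClosG758 Crest.Agent.R4.Tour758 Crest.Agent.R4.Fam464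
open Crest.Agent.R4P.ClosP542 (PulG)
open Crest.Agent.R4.Item758 (AdI)

section part
variable {N : Num} {γ : ℝ} {p0 P₀ : ℕ}

/-- the leaf data of a context -/
abbrev Ctx.Y (X : Ctx N γ p0 P₀) : Finset (ℕ × ℕ × Finset ℕ) := leafs 1 1 X.c.t

/-- the states of the walk of a context -/
abbrev Ctx.Sta (X : Ctx N γ p0 P₀) : Type := St X.c.Lam (Lb (WL X.c.Lam) X.Y)

/-- the walk rules of a context (stop rule and strategy) -/
abbrev Ctx.STP (X : Ctx N γ p0 P₀) : Type := Stp X.c.Lam (Lb (WL X.c.Lam) X.Y)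

/-- the closure tree of a node -/
noncomputable abbrev Ctx.g (X : Ctx N γ p0 P₀) (u : NS) (τ : IT) : TrG X.c.Lam (Lb (WL X.c.Lam) X.Y) :=
  tG X.c.D X.Y u.B u.A τ

/-- raw mass of a population of a tree -/
noncomputable abbrev Ctx.tm (X : Ctx N γ p0 P₀) (j₀ : X.c.Lam) :
    TrG X.c.Lam (Lb (WL X.c.Lam) X.Y) → Finset X.c.Lam → ℝ :=
  tM X.c.D (wt X.c.D) X.cx j₀ X.Y

/-- raw mass of a tree -/
noncomputable abbrev Ctx.tn (X : Ctx N γ p0 P₀) (j₀ : X.c.Lam) :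
    TrG X.c.Lam (Lb (WL X.c.Lam) X.Y) → ℝ :=
  tN X.c.D (wt X.c.D) X.cx j₀ X.Y

/-- raw mass of a population at a node -/
noncomputable abbrev Ctx.mu (X : Ctx N γ p0 P₀) (j₀ : X.c.Lam) (u : NS) (τ : IT)
    (A : Finset X.c.Lam) : ℝ :=
  tM X.c.D (wt X.c.D) X.cx j₀ X.Y (X.g u τ) A

/-- the self state of a node -/
noncomputable abbrev Ctx.self (X : Ctx N γ p0 P₀) (u : NS) (τ : IT) (A : Finset X.c.Lam) : X.Sta :=
  selfSt (tD X.c.D X.Y X.c.sp u.B u.A τ) A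

/-- the bootstrap hypothesis of a node: second moments of the nodes strictly below -/
def Ctx.Boot (X : Ctx N γ p0 P₀) (j₀ : X.c.Lam)
    (δ : TrG X.c.Lam (Lb (WL X.c.Lam) X.Y) → Finset X.c.Lam → ℝ) (Kb : ℝ) (u : NS) (τ : IT) : Prop :=
  Below (SMR (AdI X.c.D.it) (X.tm j₀) (X.tn j₀) δ Kb) (X.g u τ)

/-- **a part of the error of the nodes** -/
def Part (X : Ctx N γ p0 P₀) (j₀ : X.c.Lam) (Hb : NS → IT → Prop)
    (E : NS → IT → Finset X.c.Lam → ℝ) (η : ℝ) : Prop :=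
  All (fun u τ => ¬ PulG (X.g u τ) → Hb u τ → ∀ A, AdI X.c.D.it (X.g u τ) A → A.Nonempty →
    E u τ A ≤ η * (X.mu j₀ u τ A + X.mu j₀ u τ A * X.mu j₀ u τ Finset.univ))
    ⟨top X.S, 1, 1, 1⟩ X.c.t

/-- a part of the walk error -/
def PartW (X : Ctx N γ p0 P₀) (j₀ : X.c.Lam) (Hb : NS → IT → Prop)
    (stp : X.STP) (loc : X.Sta → ℝ) (η : ℝ) : Prop :=
  Part X j₀ Hb (fun u τ A => WS stp loc (X.self u τ A)) η

variable {X : Ctx N γ p0 P₀} {j₀ : X.c.Lam} {Hb Hb' : NS → IT → Prop}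
  {E E' : NS → IT → Finset X.c.Lam → ℝ} {η η' : ℝ} {stp : X.STP} {loc loc' : X.Sta → ℝ}

/-- `0 ≤ μ + μ ν` -/
theorem ctx_mumu (X : Ctx N γ p0 P₀) (j₀ : X.c.Lam) :
    All (fun u τ => ∀ A, 0 ≤ X.mu j₀ u τ A ∧
      0 ≤ X.mu j₀ u τ A * X.mu j₀ u τ Finset.univ) ⟨top X.S, 1, 1, 1⟩ X.c.t :=
  All.mono (fun u τ hh A => by
    have h1 := (hh A A (Finset.Subset.refl _)).1
    have h2 := (hh Finset.univ Finset.univ (Finset.Subset.refl _)).1
    exact ⟨h1, mul_nonneg h1 h2⟩) (ctx_tM_mono X j₀)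

lemma Part.add (h : Part X j₀ Hb E η) (h' : Part X j₀ Hb E' η') :
    Part X j₀ Hb (fun u τ A => E u τ A + E' u τ A) (η + η') :=
  All.mono (fun u τ hh hp hb A hA hn => by
    have h1 := hh.1 hp hb A hA hn
    have h2 := hh.2 hp hb A hA hn
    rw [add_mul]
    exact add_le_add h1 h2) (All.and h h')

lemma Part.mono (h : Part X j₀ Hb E η) (hη : η ≤ η') : Part X j₀ Hb E η' :=
  All.mono (fun u τ hh hp hb A hA hn => by
    refine (hh.1 hp hb A hA hn).trans (mul_le_mul_of_nonneg_right hη ?_)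
    exact add_nonneg (hh.2 A).1 (hh.2 A).2) (All.and h (ctx_mumu X j₀))

/-- smaller errors, stronger hypothesis -/
lemma Part.weaken (h : Part X j₀ Hb E η) (hH : ∀ u τ, Hb' u τ → Hb u τ)
    (hE : ∀ u τ A, E' u τ A ≤ E u τ A) : Part X j₀ Hb' E' η :=
  All.mono (fun u τ hh hp hb A hA hn => (hE u τ A).trans (hh hp (hH u τ hb) A hA hn)) h

/-- errors which vanish -/
lemma Part.zero (hη : 0 ≤ η) (h : All (fun u τ => ¬ PulG (X.g u τ) →
    ∀ A, AdI X.c.D.it (X.g u τ) A → A.Nonempty → E u τ A ≤ 0) ⟨top X.S, 1, 1, 1⟩ X.c.t) :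
    Part X j₀ Hb E η :=
  All.mono (fun u τ hh hp _ A hA hn => by
    refine (hh.1 hp A hA hn).trans (mul_nonneg hη ?_)
    exact add_nonneg (hh.2 A).1 (hh.2 A).2) (All.and h (ctx_mumu X j₀))

/-- a part from a bound by something which is at most `η (μ + μ ν)` -/
lemma Part.of_le {F : NS → IT → Finset X.c.Lam → ℝ}
    (hm : All (fun u τ => ∀ A, F u τ A ≤ η * (X.mu j₀ u τ A + X.mu j₀ u τ A *
      X.mu j₀ u τ Finset.univ)) ⟨top X.S, 1, 1, 1⟩ X.c.t)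
    (h : All (fun u τ => ¬ PulG (X.g u τ) → Hb u τ → ∀ A, AdI X.c.D.it (X.g u τ) A →
      A.Nonempty → E u τ A ≤ F u τ A) ⟨top X.S, 1, 1, 1⟩ X.c.t) : Part X j₀ Hb E η :=
  All.mono (fun u τ hh hp hb A hA hn => (hh.1 hp hb A hA hn).trans (hh.2 A)) (All.and h hm)

/-- errors bounded by `K` times the integral mass (`hm` = `ctx_sum_mI`) -/
lemma Part.of_mI {K : ℝ} (hK : 0 ≤ K)
    (hm : All (fun u τ => ∀ A : Finset X.c.Lam,
        ∑ j ∈ A, GInst194.mI (tD X.c.D (leafs 1 1 X.c.t) X.c.sp u.B u.A τ) j ≤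
          4 * tM X.c.D (wt X.c.D) X.cx j₀ (leafs 1 1 X.c.t)
            (tG X.c.D (leafs 1 1 X.c.t) u.B u.A τ) A) ⟨top X.S, 1, 1, 1⟩ X.c.t)
    (h : All (fun u τ => ¬ PulG (X.g u τ) → Hb u τ → ∀ A, AdI X.c.D.it (X.g u τ) A →
      A.Nonempty → E u τ A ≤ K * ∑ j ∈ A, GInst194.mI (tD X.c.D X.Y X.c.sp u.B u.A τ) j)
      ⟨top X.S, 1, 1, 1⟩ X.c.t) :
    Part X j₀ Hb E (4 * K) :=
  All.mono (fun u τ hh hp hb A hA hn => by
    obtain ⟨⟨k1, k2⟩, k3⟩ := hh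
    refine (k1 hp hb A hA hn).trans ?_
    obtain ⟨h1, h2⟩ := k3 A
    have h3 := mul_le_mul_of_nonneg_left (k2 A) hK
    have h4 : 0 ≤ 4 * K * (X.mu j₀ u τ A * X.mu j₀ u τ Finset.univ) :=
      mul_nonneg (by positivity) h2
    have e : 4 * K * (X.mu j₀ u τ A + X.mu j₀ u τ A * X.mu j₀ u τ Finset.univ) =
      K * (4 * X.mu j₀ u τ A) + 4 * K * (X.mu j₀ u τ A * X.mu j₀ u τ Finset.univ) := by ring
    rw [e]
    linarith) (All.and (All.and h hm) (ctx_mumu X j₀))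

lemma PartW.add (h : PartW X j₀ Hb stp loc η) (h' : PartW X j₀ Hb stp loc' η') :
    PartW X j₀ Hb stp (fun s => loc s + loc' s) (η + η') := by
  have := Part.add h h'
  refine All.mono (fun u τ hh hp hb A hA hn => ?_) this
  have h1 := hh hp hb A hA hn
  show WS stp (fun s => loc s + loc' s) (X.self u τ A) ≤ _
  rw [WS_add]
  exact h1

end part

/-- **the seven errors of the nodes of a context** -/
structure NodeParts {N : Num} {γ : ℝ} {p0 P₀ : ℕ} (X : Ctx N γ p0 P₀) (j₀ : X.c.Lam)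
    (Hb : NS → IT → Prop) (stp : X.STP) (B η : ℝ) : Prop where
  parts : ∃ a₁ a₂ a₃ a₄ a₅ a₆ a₇ : ℝ, a₁ + a₂ + a₃ + a₄ + a₅ + a₆ + a₇ ≤ η ∧
    Part X j₀ Hb (fun u τ A => dseR A (X.g u τ)) a₁ ∧
    Part X j₀ Hb (fun u τ A => rseR A (X.g u τ)) a₂ ∧
    PartW X j₀ Hb stp (eNM stp) a₃ ∧
    PartW X j₀ Hb stp (eOS stp) a₄ ∧
    PartW X j₀ Hb stp (eSHR stp) a₅ ∧
    PartW X j₀ Hb stp (eX stp (X.tm j₀) B) a₆ ∧
    PartW X j₀ Hb stp (eSTOP stp (X.tm j₀) (X.tn j₀) B) a₇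

/-- **the errors of the nodes from the seven parts** -/
theorem nodeE_of_parts {N : Num} {γ : ℝ} {p0 P₀ : ℕ} {X : Ctx N γ p0 P₀} {j₀ : X.c.Lam}
    {δ : TrG X.c.Lam (Lb (WL X.c.Lam) X.Y) → Finset X.c.Lam → ℝ}
    (hδ : ∀ u τ A, AdI X.c.D.it (X.g u τ) A → 0 ≤ δ (X.g u τ) A)
    {stp : X.STP} {B η Kb : ℝ} (h : NodeParts X j₀ (X.Boot j₀ δ Kb) stp B η) :
    All (fun s t' => NodeE X.c.D (leafs 1 1 X.c.t) X.c.sp (wt X.c.D) (clf X.c.t 1) j₀ stp δ B η Kb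
      s.B s.A t') ⟨top X.S, 1, 1, 1⟩ X.c.t := by
  obtain ⟨a₁, a₂, a₃, a₄, a₅, a₆, a₇, ha, h1, h2, h3, h4, h5, h6, h7⟩ := h.parts
  have k := ((h1.add h2).add ((((h3.add h4).add h5).add h6).add h7)).mono
    (η' := η) (by linarith)
  refine All.mono (fun u τ hh hp hb A hA hn => ?_) k
  have key := hh hp hb A hA hn
  have e0 := hδ u τ A hA
  refine le_trans ?_ (le_add_of_nonneg_right e0)
  exact key

/-- slack `0` -/
lemma slack_zero {Λ κ : Type*} [Fintype Λ] [DecidableEq Λ] [Fintype κ] [DecidableEq κ]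
    (Ad : TrG Λ κ → Finset Λ → Prop) : ∀ t : TrG Λ κ, t.All (SlackR Ad fun _ _ => 0) := by
  have hB : ∀ t : TrG Λ κ, SlackB Ad (fun _ _ => 0) t := fun t =>
    ⟨fun _ _ => le_rfl, fun _ _ _ _ _ => by simp⟩
  intro t
  induction t with
  | leaf r f => exact hB _
  | br P w r t₁ t₀ v B G ih₁ ih₀ => exact ⟨⟨hB _, fun A _ => by simp⟩, ih₁, ih₀⟩
  | add r t₁ t₀ ih₁ ih₀ => exact ⟨⟨hB _, fun A _ => by simp⟩, ih₁, ih₀⟩

end Crest.Agent.R4P.Skel189
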