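import Crest.Agent.R4P.NMCtx_10
import Crest.Agent.R4P.SkelPart_3

/-!
R4 powers (S0004), helper10: **the near misses as a part of the errors of the nodes** (`PartW` of
`SkelPart_3`), with the constant `4 (1 + κ)`.
-/

set_option autoImplicit false
set_option linter.unusedSectionVars false
set_option linter.unusedVariables false

namespace Crest.Agent.R4P.NMPart10

open Crest.Agent.R4P.Bld532 (NS All)
open Crest.Agent.R4P.Cnt588 Crest.Agent.R4P.Walk560 Crest.Agent.R4P.Skel189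
open Crest.Agent.R4P.NI927 Crest.Agent.R4P.NMCtx927 Crest.Agent.R4P.OSWS245
open Crest.Agent.R4P

/-- **the part `eNM`** -/
theorem part_eNM (N : Skel189.Num) {κ : ℝ} (hκ : 0 < κ) : ∃ p₁ : ℕ, ∀ p0 ≥ p₁, ∀ (γ : ℝ) (P₀ : ℕ),
    2 ≤ P₀ → ∀ X : Ctx N γ p0 P₀, WNM X → ∀ (j₀ : X.c.Lam) (Hb : NS → IT → Prop) (stp : X.STP),
    (∀ s : X.Sta, ¬ stp s → ¬ stpN s) → PartW X j₀ Hb stp (eNM stp) (4 * (1 + κ)) := by
  obtain ⟨a2, h2⟩ := nm_ctx N (c₀ := 1 / 2) (κ' := κ) (by norm_num) hκ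
  obtain ⟨a3, h3⟩ := Skel189.ctx_mean N
  obtain ⟨a4, h4⟩ := Skel189.ctx_sum_mI N
  refine ⟨a2 + a3 + a4, fun p0 hp0 γ P₀ hP X hw j₀ Hb stp hst => ?_⟩
  have hm : Mean X (1 / 2) := fun q hq z => (h3 p0 (by omega) γ P₀ hP X).1 q hq z
  have key := h2 p0 (by omega) γ P₀ X X.Y hm hw stp hst
  exact Part.of_mI (by linarith) (h4 p0 (by omega) γ P₀ hP X j₀)
    (All.mono (fun u τ hh _ _ A hA _ => hh A hA) key)

end Crest.Agent.R4P.NMPart10
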