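import Crest.Agent.R4P.OSDef710
import Crest.Agent.R4P.IMI194

/-!
R4 powers pass (S0004), helper16 (after helper710's `R4/OSFin710`): **the local cost of a one-sided column**.

* `NumO`, `exists_NumO` : numbers; `EPaid` : the `[E]` pairs are paid (`ColE710.col_E`);
* `cL`, `cR` : the costs of the items in the form of `OSWS16.WS_eOS2`; `os_local`.
-/

set_option autoImplicit false
set_option linter.unusedSectionVars false
set_option linter.unusedVariables false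
open Finset

namespace Crest.Agent.R4P.OSFin710

open Crest.Agent.R4.Tour104 Crest.Agent.R4.Tour758 Crest.Agent.R4.Avg758 Crest.Agent.R4.Clos758
open Crest.Agent.R4.ClosL758 Crest.Agent.R4.ClosG758 Crest.Agent.R4.ClosR758
open Crest.Agent.R4.Fam464 Crest.Agent.R4P.Cnt588 Crest.Agent.R4P.Walk560 Crest.Agent.R4.Piece464
open Crest.Agent.R4P.GInst194 Crest.Agent.R4P.WalkIT579 Crest.Agent.R4P.GSt927
open Crest.Agent.R4P.AvgItem710 Crest.Agent.R4.DeepSt579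
open Crest.Agent.R4P.Item758 Crest.Agent.R4P.NMW710 Crest.Agent.R4P.Rad800
open Crest.Agent.R4P.ColW710 Crest.Agent.R4P.ColY710
open Crest.Agent.R4P.Res927 Crest.Agent.R4P.OSWS245 Crest.Agent.R4P.OSWS16
open Crest.Agent.R4P.OF927 (OF)
open Crest.Agent.R4P.IMI194 (dvM)
open Crest.Agent.R4.OSCore709 (om om_nonneg om_le_one)
open Crest.Agent.R4P.GFinC927 (nn)
open Crest.Agent.R4P.StopFF95 (NF)
open Crest.Agent.R4P.Bld532 (NS All NodeOk Bk)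
open Crest.Agent.R4P

/-! ### numbers -/

/-- numbers of the one-sided columns -/
structure NumO (CL C1 c₀ K : ℝ) (p0 : ℕ) : Prop where
  big : 2 ^ 40 ≤ p0
  ck : CKX CL C1 (1 / c₀) p0
  cy : CKY CL C1 (1 / c₀) p0
  num : ∀ p : ℕ, p0 ≤ p → (p:ℝ)^(-(1/6000):ℝ) + K * (p:ℝ)^(-(1/3):ℝ) ≤ (p:ℝ)^(-(1/7000):ℝ)
  half : ∀ l : ℕ, p0 ≤ l → (l:ℝ)^(-(1/30):ℝ) ≤ 1/2

theorem exists_NumO {CL c₀ K : ℝ} (hCL : 1 ≤ CL) (C1 : ℝ) (hc₀ : 0 < c₀) (hK : 0 ≤ K) :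
    ∃ p₁ : ℕ, ∀ p0 ≥ p₁, NumO CL C1 c₀ K p0 := by
  obtain ⟨a1, h1⟩ := exists_CKX hCL C1 (1 / c₀) (by positivity)
  obtain ⟨a2, h2⟩ := exists_CKY hCL C1 (1 / c₀) (by positivity)
  have tend : ∀ c : ℝ, 0 < c → Filter.Tendsto (fun x : ℝ => x ^ (-c)) Filter.atTop (nhds 0) :=
    fun c hc => tendsto_rpow_neg_atTop hc
  have e2 := (tend (1/42000) (by norm_num)).eventually_lt_const (show (0:ℝ) < 1/2 by norm_num)
  have e3 := (tend (1/30) (by norm_num)).eventually_lt_const (show (0:ℝ) < 1/2 by norm_num)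
  have e4 := (tend (1/12) (by norm_num)).eventually_lt_const
    (show (0:ℝ) < 1/(2 * (K + 1)) by positivity)
  obtain ⟨x0, hx0⟩ := Filter.eventually_atTop.1
    ((e2.and e3).and (e4.and (Filter.eventually_ge_atTop (1:ℝ))))
  refine ⟨max (max a1 a2) (max (2^40) ⌈x0⌉₊), fun p0 hp0 => ?_⟩
  have q1 : a1 ≤ p0 := ((le_max_left _ _).trans (le_max_left _ _)).trans hp0
  have q1' : a2 ≤ p0 := ((le_max_right _ _).trans (le_max_left _ _)).trans hp0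
  have q2 : 2^40 ≤ p0 := (le_max_left _ _).trans ((le_max_right _ _).trans hp0)
  have q3 : ∀ p : ℕ, p0 ≤ p → x0 ≤ (p : ℝ) := fun p hp => (Nat.le_ceil x0).trans (by
    exact_mod_cast ((le_max_right _ _).trans ((le_max_right _ _).trans hp0)).trans hp)
  refine ⟨q2, h1.mono q1, h2.mono q1', fun p hp => ?_, fun l hl => ?_⟩
  · obtain ⟨⟨g2, -⟩, g4, g5⟩ := hx0 p (q3 p hp)
    have hp0' : (0:ℝ) < p := by linarith
    have e5 : (p:ℝ)^(-(1/6000):ℝ) = (p:ℝ)^(-(1/7000):ℝ) * (p:ℝ)^(-(1/42000):ℝ) := by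
      rw [← Real.rpow_add hp0']; norm_num
    have e6 : (p:ℝ)^(-(1/3):ℝ) ≤ (p:ℝ)^(-(1/7000):ℝ) * (p:ℝ)^(-(1/12):ℝ) := by
      rw [← Real.rpow_add hp0']
      exact Real.rpow_le_rpow_of_exponent_le g5 (by norm_num)
    have h7 : 0 < (p:ℝ)^(-(1/7000):ℝ) := Real.rpow_pos_of_pos hp0' _
    have h8 : K * (p:ℝ)^(-(1/12):ℝ) ≤ 1/2 := by
      calc K * (p:ℝ)^(-(1/12):ℝ) ≤ (K + 1) * (1/(2 * (K + 1))) :=
            mul_le_mul (by linarith) g4.le (by positivity) (by linarith)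
        _ = 1/2 := by field_simp
    have h9 : K * (p:ℝ)^(-(1/3):ℝ) ≤ (p:ℝ)^(-(1/7000):ℝ) * (1/2) := by
      calc K * (p:ℝ)^(-(1/3):ℝ) ≤ K * ((p:ℝ)^(-(1/7000):ℝ) * (p:ℝ)^(-(1/12):ℝ)) :=
            mul_le_mul_of_nonneg_left e6 hK
        _ = (p:ℝ)^(-(1/7000):ℝ) * (K * (p:ℝ)^(-(1/12):ℝ)) := by ring
        _ ≤ _ := mul_le_mul_of_nonneg_left h8 h7.le
    rw [e5]
    nlinarith
  · obtain ⟨⟨-, g3⟩, -⟩ := hx0 l (q3 l hl)
    exact g3.le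

/-! ### bookkeeping of the two sides -/

section book
variable {Λ : Type*}

lemma sum_tie {A B : Finset Λ} {m a : Λ → ℝ} {δ : ℝ} (hm : ∀ j, 0 ≤ m j)
    (ha : ∀ j, 0 ≤ a j) (hB : B ⊆ A) (h : ∀ j ∈ B, m j ≠ 0 → δ ≤ a j) :
    δ * ∑ j ∈ B, m j ≤ ∑ j ∈ A, m j * a j := by
  rw [Finset.mul_sum]
  refine (Finset.sum_le_sum (g := fun j => m j * a j) fun j hj => ?_).trans
    (Finset.sum_le_sum_of_subset_of_nonneg hB fun j _ _ => mul_nonneg (hm j) (ha j))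
  rw [mul_comm]
  by_cases h0 : m j = 0
  · rw [h0]; simp
  · exact mul_le_mul_of_nonneg_left (h j hj h0) (hm j)

open Classical in
lemma sum_oth {A B BQ BR : Finset Λ} {m a o : Λ → ℝ} {β δ ε C : ℝ}
    (hm : ∀ j, 0 ≤ m j) (ha : ∀ j, 0 ≤ a j) (hB : B ⊆ A) (hQ : BQ ⊆ B) (hR : BR ⊆ B)
    (h0 : ∀ j ∈ B, β + δ * o j + (if j ∈ BQ then ε else 0) + (if j ∈ BR then C else 0) ≤ a j) :
    β * (∑ j ∈ B, m j) + δ * (∑ j ∈ B, o j * m j) + ε * (∑ j ∈ BQ, m j) +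
      C * (∑ j ∈ BR, m j) ≤ ∑ j ∈ A, m j * a j := by
  have e1 : ∀ T ⊆ B, ∑ j ∈ T, m j = ∑ j ∈ B, if j ∈ T then m j else 0 := fun T hT => by
    rw [← Finset.sum_filter, Finset.filter_mem_eq_inter, Finset.inter_eq_right.2 hT]
  rw [e1 BQ hQ, e1 BR hR]
  refine le_trans (b := ∑ j ∈ B, m j * a j) ?_
    (Finset.sum_le_sum_of_subset_of_nonneg hB fun j _ _ => mul_nonneg (hm j) (ha j))
  rw [Finset.mul_sum, Finset.mul_sum, Finset.mul_sum, Finset.mul_sum, ← Finset.sum_add_distrib,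
    ← Finset.sum_add_distrib, ← Finset.sum_add_distrib]
  refine Finset.sum_le_sum fun j hj => ?_
  have h3 := mul_le_mul_of_nonneg_left (h0 j hj) (hm j)
  refine le_trans (le_of_eq ?_) h3
  split_ifs <;> ring

/-- products of numbers `≤ 1` -/
lemma prod_le_of_subset {S T : Finset ℕ} (h : S ⊆ T) {f : ℕ → ℝ} (hf : ∀ l ∈ T, 0 ≤ f l ∧ f l ≤ 1) :
    ∏ l ∈ T, f l ≤ ∏ l ∈ S, f l := by
  classical
  rw [← Finset.prod_sdiff h]
  refine mul_le_of_le_one_left (Finset.prod_nonneg fun l hl => (hf l (h hl)).1) ?_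
  exact Finset.prod_le_one (fun l hl => (hf l (Finset.sdiff_subset hl)).1)
    fun l hl => (hf l (Finset.sdiff_subset hl)).2

end book

/-! ### the costs -/

section loc
variable {Λ κ : Type*} [Fintype Λ] [DecidableEq Λ] [Fintype κ] [DecidableEq κ] [WRel κ]
  {D : Par Λ κ} {sp : ℕ → Finset Λ} {ρ : ℕ → ℝ} {Al : Finset ℕ} {P : Bld532.Par}
  {W : ℕ → ℝ} {U : ℕ → Finset ℕ} {CL C1 c₀ K : ℝ} {p0 : ℕ} {stp : Stp Λ κ}
  {Qp : NS → IT → Prop}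

/-- constants of the one-sided columns -/
structure GOS (D : Par Λ κ) (ρ : ℕ → ℝ) (Al : Finset ℕ) (P : Bld532.Par) (W : ℕ → ℝ)
    (U : ℕ → Finset ℕ) (CL C1 c₀ K : ℝ) (p0 : ℕ) (stp : Stp Λ κ) : Prop where
  num : NumO CL C1 c₀ K p0
  CL0 : 0 ≤ CL
  ni : ∀ p, p0 ≤ p → NI D ρ Al P W C1 c₀ p
  Ut : ∀ p, p0 ≤ p → ∀ q ∈ Al, ∀ z : ℝ, (p:ℝ) ≤ z →
    ∑ l ∈ (U q).filter (fun l : ℕ => z < (l : ℝ)), (1 : ℝ) / l ≤ z ^ (-(1 / 2 : ℝ))
  hi : ∀ p, p0 ≤ p → ∀ k : ℕ, P.p0 < k → k ≤ p → 2 * P.hi k ≤ (Real.log p) ^ C1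
  pp0 : p0 ≤ P.p0
  st : ∀ s : St Λ κ, ¬ stp s → ¬ stpN s

open Classical in
/-- **the `[E]` pairs of a one-sided column are paid** (`ColE710.col_E`) -/
def EPaid (D : Par Λ κ) (sp : ℕ → Finset Λ) (ρ : ℕ → ℝ) (Al : Finset ℕ) (P : Bld532.Par)
    (W : ℕ → ℝ) (CL c₀ K : ℝ) (p0 : ℕ) : Prop :=
  ∀ (p : ℕ), p0 ≤ p → ∀ (u u' : NS) (Sp : Finset ℕ) (t₁ t₀ τ' : IT) (M M' : ℕ)
    (A A' : Finset Λ) (d d' : DT Λ κ),
    SideI D sp u.B u.A (.br p Sp t₁ t₀) A d → NSd D Al P W CL c₀ p 1 M u (.br p Sp t₁ t₀) A →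
    SideI D sp u'.B u'.A τ' A' d' → NSd D Al P W CL c₀ p 1 M' u' τ' A' →
    0 < M → 0 < M' → ¬ p ∣ M →
    ∑ l ∈ M.primeFactors, 1 / (l : ℝ) ≤ 2 * (p:ℝ)^(-(1/3):ℝ) →
    ∑ l ∈ M'.primeFactors, 1 / (l : ℝ) ≤ 2 * (p:ℝ)^(-(1/3):ℝ) →
    (∀ q ∈ τ'.items, p ∣ q / u'.A → ¬ p ^ 2 ∣ q / u'.A) →
    ∑ e ∈ KR D ρ Al (nn p) p M (u.B * p) u.A p t₀ A M' u'.B u'.A 1 τ' A' (fun _ => False),
      D.iF (Ro (D.rho p)) (D.uA M (u.B * p) u.A t₀ A p) (D.uA M' u'.B u'.A τ' A' 1) e ≤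
      K * (p:ℝ)^(-(1/3):ℝ) * (∑ j ∈ A.filter (fun j => D.it j ∈ t₀.items), mI d j) +
      K * (p:ℝ)^(-(1/3):ℝ) * (∑ j ∈ A'.filter (fun j => D.it j ∈ τ'.items ∧
        p ∣ D.it j / u'.A), mI d' j) +
      2 * (∑ j ∈ A'.filter (fun j => D.it j ∈ τ'.items ∧ M' ∣ D.it j / u'.A ∧
        (¬ p ∣ D.it j / u'.A ∨ p ∣ M')), mI d' j)

/-- the budgets -/
noncomputable def βo (p : ℕ) : ℝ := (p:ℝ)^(-(11/12):ℝ)
noncomputable def εo (j : Λ) (p : ℕ) : ℝ := (p:ℝ)^(-(1/7000):ℝ)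
noncomputable def ρo (p : ℕ) : ℝ := (p:ℝ)^(1/10:ℝ)
noncomputable def ωo (l : ℕ) : ℝ := (l:ℝ)^(-(1/30):ℝ)

/-- the prime is retained in the item -/
def duo (D : Par Λ κ) (U : ℕ → Finset ℕ) (l : ℕ) (j : Λ) : Prop := l ∈ U (D.it j)
/-- the retained primes of the item -/
def reo (D : Par Λ κ) (U : ℕ → Finset ℕ) (j : Λ) : Finset ℕ := U (D.it j)

lemma ωo_nn (l : ℕ) : 0 ≤ ωo l := by unfold ωo; positivity

lemma ωo_le (l : ℕ) : 0 ≤ ωo l ∧ ωo l ≤ 1 := by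
  refine ⟨ωo_nn l, ?_⟩
  unfold ωo
  rcases Nat.eq_zero_or_pos l with h | h
  · subst h
    rw [Nat.cast_zero, Real.zero_rpow (by norm_num)]
    exact zero_le_one
  · exact Real.rpow_le_one_of_one_le_of_nonpos (by exact_mod_cast h) (by norm_num)

lemma aG_nn (j : Λ) (x : XSt Λ κ) : 0 ≤ aG stp βo j x := by
  unfold aG βo; split_ifs <;> positivity
lemma aTR_nn (j : Λ) (x : XSt Λ κ) : 0 ≤ aTR (dvM mI) εo j x := by
  unfold aTR εo; split_ifs <;> positivity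
lemma aTL_nn (j : Λ) (x : XSt Λ κ) : 0 ≤ aTL (dvM mI) εo j x := by
  unfold aTL εo; split_ifs <;> positivity
lemma aER_nn (j : Λ) (x : XSt Λ κ) : 0 ≤ aER (reo D U) εo j x := by
  unfold aER εo; split_ifs <;> positivity
lemma aEL_nn (j : Λ) (x : XSt Λ κ) : 0 ≤ aEL (reo D U) εo j x := by
  unfold aEL εo; split_ifs <;> positivity
lemma aCR_nn (j : Λ) (x : XSt Λ κ) : 0 ≤ aCR stp (duo D U) ((p0:ℝ)^(-(1/7000):ℝ)) ωo j x := by
  unfold aCR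
  split_ifs
  · exact mul_nonneg (by positivity) (gO_nonneg ωo_nn _ _)
  · exact le_rfl
lemma aCL_nn (j : Λ) (x : XSt Λ κ) : 0 ≤ aCL stp (duo D U) ((p0:ℝ)^(-(1/7000):ℝ)) ωo j x := by
  unfold aCL
  split_ifs
  · exact mul_nonneg (by positivity) (gO_nonneg ωo_nn _ _)
  · exact le_rfl
lemma aDR_nn (j : Λ) (x : XSt Λ κ) : 0 ≤ aDR2 stp (duo D U) 2 j x := by
  unfold aDR2; split_ifs <;> norm_num
lemma aDL_nn (j : Λ) (x : XSt Λ κ) : 0 ≤ aDL2 stp (duo D U) 2 j x := by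
  unfold aDL2; split_ifs <;> norm_num
lemma aFR_nn (j : Λ) (x : XSt Λ κ) : 0 ≤ aFR εo j x := by
  unfold aFR εo; split_ifs <;> positivity
lemma aFL_nn (j : Λ) (x : XSt Λ κ) : 0 ≤ aFL εo j x := by
  unfold aFL εo; split_ifs <;> positivity
lemma aHL_nn (j : Λ) (x : XSt Λ κ) : 0 ≤ aHL (dvM mI) ρo j x := by
  unfold aHL ρo; split_ifs <;> positivity
lemma aHR_nn (j : Λ) (x : XSt Λ κ) : 0 ≤ aHR (dvM mI) ρo j x := by
  unfold aHR ρo; split_ifs <;> positivity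

/-- the cost of a right item -/
noncomputable def cR (D : Par Λ κ) (U : ℕ → Finset ℕ) (stp : Stp Λ κ) (p0 : ℕ) (j : Λ)
    (x : XSt Λ κ) : ℝ :=
  costR2 stp (dvM mI) (duo D U) (reo D U) βo εo εo ρo ((p0:ℝ)^(-(1/7000):ℝ)) 2 ωo j x

/-- the cost of a left item -/
noncomputable def cL (D : Par Λ κ) (U : ℕ → Finset ℕ) (stp : Stp Λ κ) (p0 : ℕ) (j : Λ)
    (x : XSt Λ κ) : ℝ :=
  costL2 stp (dvM mI) (duo D U) (reo D U) βo εo εo ρo ((p0:ℝ)^(-(1/7000):ℝ)) 2 ωo j x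

lemma cR_nn (j : Λ) (x : XSt Λ κ) : 0 ≤ cR D U stp p0 j x := by
  unfold cR costR2
  have := aG_nn (stp := stp) j x
  have := aTR_nn j x
  have := aER_nn (D := D) (U := U) j x
  have := aCR_nn (D := D) (U := U) (stp := stp) (p0 := p0) j x
  have := aDR_nn (D := D) (U := U) (stp := stp) j x
  have := aFR_nn j x
  have := aHR_nn j x
  linarith

lemma cL_nn (j : Λ) (x : XSt Λ κ) : 0 ≤ cL D U stp p0 j x := by
  unfold cL costL2
  have := aG_nn (stp := stp) j x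
  have := aTL_nn j x
  have := aEL_nn (D := D) (U := U) j x
  have := aCL_nn (D := D) (U := U) (stp := stp) (p0 := p0) j x
  have := aDL_nn (D := D) (U := U) (stp := stp) j x
  have := aFL_nn j x
  have := aHL_nn j x
  linarith

/-- `om` is at most `gO` over the settled columns -/
lemma om_gO {O : Finset ℕ} {w p : ℕ} {j : Λ}
    (h : ∀ l ∈ O.erase p, l ∣ w → l ∈ U (D.it j)) :
    om O w ≤ gO (duo D U) ωo (O.erase p) j := by
  classical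
  unfold om gO
  refine prod_le_of_subset ?_ fun l _ => ωo_le l
  intro l hl
  obtain ⟨h1, h2⟩ := Finset.mem_filter.1 hl
  exact Finset.mem_filter.2 ⟨Finset.mem_of_mem_erase h1, fun hd => h2 (h l h1 hd)⟩

/-- the condition of the cost paid once, right items -/
def BR (D : Par Λ κ) (U : ℕ → Finset ℕ) (O : Finset ℕ) (p M : ℕ) (j : Λ) : Prop :=
  (∀ P ∈ O.erase p, P ∈ U (D.it j) ∧ ¬ P ^ 2 ∣ M) ∧ (p ∉ U (D.it j) ∨ p ∣ M)

open Classical in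
/-- cost of a right item at a tie of the left side -/
lemma cR_ge (hN : NumO CL C1 c₀ K p0) (hK : 0 ≤ K) {x : XSt Λ κ}
    (hl : ¬ (x.s.t.isLeaf ∨ x.s.t'.isLeaf))
    (hs : ¬ stp x.s) (hO : OSL x) (hp : p0 ≤ x.s.p) {j : Λ} {o : ℝ} (ho0 : 0 ≤ o) (ho1 : o ≤ 1)
    (ho : o ≤ gO (duo D U) ωo (x.s.O.erase x.s.p) j) :
    (x.s.p:ℝ)^(-(11/12):ℝ) + (x.s.p:ℝ)^(-(1/6000):ℝ) * o +
      (if x.s.p ∈ U (D.it j) then K * (x.s.p:ℝ)^(-(1/3):ℝ) else 0) +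
      (if BR D U x.s.O x.s.p x.s.M' j then 2 else 0) ≤ cR D U stp p0 j x := by
  have h40 : (2:ℝ)^40 ≤ x.s.p := by exact_mod_cast hN.big.trans hp
  have hx1 : (1:ℝ) ≤ x.s.p := le_trans (by norm_num) h40
  have hx0 : (0:ℝ) < x.s.p := by linarith
  have hnum := hN.num _ hp
  have i1 : 0 ≤ (x.s.p:ℝ)^(-(1/3):ℝ) := by positivity
  have i2 : 0 ≤ (x.s.p:ℝ)^(-(1/6000):ℝ) := by positivity
  have hG : aG stp βo j x = (x.s.p:ℝ)^(-(11/12):ℝ) := by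
    unfold aG βo
    exact if_pos ⟨⟨hl, hs⟩, Or.inl hO⟩
  have n1 := aTR_nn j x
  have n2 := aER_nn (D := D) (U := U) j x
  have n3 := aCR_nn (D := D) (U := U) (stp := stp) (p0 := p0) j x
  have n4 := aDR_nn (D := D) (U := U) (stp := stp) j x
  have n5 := aFR_nn j x
  have n6 := aHR_nn j x
  have hD : (if BR D U x.s.O x.s.p x.s.M' j then (2:ℝ) else 0) ≤ aDR2 stp (duo D U) 2 j x := by
    by_cases hb : BR D U x.s.O x.s.p x.s.M' j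
    · rw [if_pos hb]
      unfold aDR2
      rw [if_pos ⟨⟨hl, hs⟩, hO, hb.1, hb.2⟩]
    · rw [if_neg hb]; exact n4
  unfold cR costR2
  rw [hG]
  by_cases hd : x.s.p ∈ U (D.it j)
  · have hU : aER (reo D U) εo j x = (x.s.p:ℝ)^(-(1/7000):ℝ) := by
      unfold aER εo
      exact if_pos ⟨hO, hd⟩
    rw [if_pos hd, hU]
    have h1 : (x.s.p:ℝ)^(-(1/6000):ℝ) * o ≤ (x.s.p:ℝ)^(-(1/6000):ℝ) :=
      mul_le_of_le_one_right i2 ho1
    linarith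
  · have hC : aCR stp (duo D U) ((p0:ℝ)^(-(1/7000):ℝ)) ωo j x =
        (p0:ℝ)^(-(1/7000):ℝ) * gO (duo D U) ωo (x.s.O.erase x.s.p) j := by
      unfold aCR
      exact if_pos ⟨⟨hl, hs⟩, hO, hd⟩
    have h1 : (x.s.p:ℝ)^(-(1/6000):ℝ) * o ≤
        (p0:ℝ)^(-(1/7000):ℝ) * gO (duo D U) ωo (x.s.O.erase x.s.p) j := by
      have hp00 : (0:ℝ) < p0 := by
        have : 0 < p0 := lt_of_lt_of_le (by norm_num) hN.big
        exact_mod_cast this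
      refine mul_le_mul ?_ ho ho0 (by positivity)
      calc (x.s.p:ℝ)^(-(1/6000):ℝ) ≤ (x.s.p:ℝ)^(-(1/7000):ℝ) :=
            Real.rpow_le_rpow_of_exponent_le hx1 (by norm_num)
        _ ≤ _ := Real.rpow_le_rpow_of_nonpos hp00 (by exact_mod_cast hp) (by norm_num)
    rw [if_neg hd, hC]
    linarith

open Classical in
/-- cost of a left item at a tie of the right side -/
lemma cL_ge (hN : NumO CL C1 c₀ K p0) (hK : 0 ≤ K) {x : XSt Λ κ}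
    (hl : ¬ (x.s.t.isLeaf ∨ x.s.t'.isLeaf))
    (hs : ¬ stp x.s) (hO : OSR x) (hp : p0 ≤ x.s.p) {j : Λ} {o : ℝ} (ho0 : 0 ≤ o) (ho1 : o ≤ 1)
    (ho : o ≤ gO (duo D U) ωo (x.s.O'.erase x.s.p) j) :
    (x.s.p:ℝ)^(-(11/12):ℝ) + (x.s.p:ℝ)^(-(1/6000):ℝ) * o +
      (if x.s.p ∈ U (D.it j) then K * (x.s.p:ℝ)^(-(1/3):ℝ) else 0) +
      (if BR D U x.s.O' x.s.p x.s.M j then 2 else 0) ≤ cL D U stp p0 j x := by
  have h40 : (2:ℝ)^40 ≤ x.s.p := by exact_mod_cast hN.big.trans hp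
  have hx1 : (1:ℝ) ≤ x.s.p := le_trans (by norm_num) h40
  have hx0 : (0:ℝ) < x.s.p := by linarith
  have hnum := hN.num _ hp
  have i1 : 0 ≤ (x.s.p:ℝ)^(-(1/3):ℝ) := by positivity
  have i2 : 0 ≤ (x.s.p:ℝ)^(-(1/6000):ℝ) := by positivity
  have hG : aG stp βo j x = (x.s.p:ℝ)^(-(11/12):ℝ) := by
    unfold aG βo
    exact if_pos ⟨⟨hl, hs⟩, Or.inr hO⟩
  have n1 := aTL_nn j x
  have n2 := aEL_nn (D := D) (U := U) j x
  have n3 := aCL_nn (D := D) (U := U) (stp := stp) (p0 := p0) j x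
  have n4 := aDL_nn (D := D) (U := U) (stp := stp) j x
  have n5 := aFL_nn j x
  have n6 := aHL_nn j x
  have hD : (if BR D U x.s.O' x.s.p x.s.M j then (2:ℝ) else 0) ≤ aDL2 stp (duo D U) 2 j x := by
    by_cases hb : BR D U x.s.O' x.s.p x.s.M j
    · rw [if_pos hb]
      unfold aDL2
      rw [if_pos ⟨⟨hl, hs⟩, hO, hb.1, hb.2⟩]
    · rw [if_neg hb]; exact n4
  unfold cL costL2
  rw [hG]
  by_cases hd : x.s.p ∈ U (D.it j)
  · have hU : aEL (reo D U) εo j x = (x.s.p:ℝ)^(-(1/7000):ℝ) := by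
      unfold aEL εo
      exact if_pos ⟨hO, hd⟩
    rw [if_pos hd, hU]
    have h1 : (x.s.p:ℝ)^(-(1/6000):ℝ) * o ≤ (x.s.p:ℝ)^(-(1/6000):ℝ) :=
      mul_le_of_le_one_right i2 ho1
    linarith
  · have hC : aCL stp (duo D U) ((p0:ℝ)^(-(1/7000):ℝ)) ωo j x =
        (p0:ℝ)^(-(1/7000):ℝ) * gO (duo D U) ωo (x.s.O'.erase x.s.p) j := by
      unfold aCL
      exact if_pos ⟨⟨hl, hs⟩, hO, hd⟩
    have h1 : (x.s.p:ℝ)^(-(1/6000):ℝ) * o ≤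
        (p0:ℝ)^(-(1/7000):ℝ) * gO (duo D U) ωo (x.s.O'.erase x.s.p) j := by
      have hp00 : (0:ℝ) < p0 := by
        have : 0 < p0 := lt_of_lt_of_le (by norm_num) hN.big
        exact_mod_cast this
      refine mul_le_mul ?_ ho ho0 (by positivity)
      calc (x.s.p:ℝ)^(-(1/6000):ℝ) ≤ (x.s.p:ℝ)^(-(1/7000):ℝ) :=
            Real.rpow_le_rpow_of_exponent_le hx1 (by norm_num)
        _ ≤ _ := Real.rpow_le_rpow_of_nonpos hp00 (by exact_mod_cast hp) (by norm_num)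
    rw [if_neg hd, hC]
    linarith

lemma pow200 {p : ℕ} (hp : 1 ≤ p) : (p:ℝ)^(-(1/200):ℝ) ≤ (p:ℝ)^(-(1/7000):ℝ) :=
  Real.rpow_le_rpow_of_exponent_le (by exact_mod_cast hp) (by norm_num)

open Classical in
/-- cost of a right item at a tie of the left side, the right side has missed the tie -/
lemma cR_geY (hN : NumO CL C1 c₀ K p0) (hK : 0 ≤ K) {x : XSt Λ κ}
    (hl : ¬ (x.s.t.isLeaf ∨ x.s.t'.isLeaf))
    (hs : ¬ stp x.s) (hO : OSL x) (hp : p0 ≤ x.s.p) (hf : x.s.p ∈ x.u') {j : Λ} :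
    (x.s.p:ℝ)^(-(1/200):ℝ) +
      (if x.s.p ∈ U (D.it j) then K * (x.s.p:ℝ)^(-(1/3):ℝ) else 0) +
      (if BR D U x.s.O x.s.p x.s.M' j then 2 else 0) ≤ cR D U stp p0 j x := by
  have h40 : (2:ℝ)^40 ≤ x.s.p := by exact_mod_cast hN.big.trans hp
  have hx1 : (1:ℝ) ≤ x.s.p := le_trans (by norm_num) h40
  have hnum := hN.num _ hp
  have i1 : 0 ≤ (x.s.p:ℝ)^(-(1/3):ℝ) := by positivity
  have i2 : 0 ≤ (x.s.p:ℝ)^(-(1/6000):ℝ) := by positivity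
  have n0 := aG_nn (stp := stp) j x
  have n1 := aTR_nn j x
  have n2 := aER_nn (D := D) (U := U) j x
  have n3 := aCR_nn (D := D) (U := U) (stp := stp) (p0 := p0) j x
  have n4 := aDR_nn (D := D) (U := U) (stp := stp) j x
  have n6 := aHR_nn j x
  have hF : aFR εo j x = (x.s.p:ℝ)^(-(1/7000):ℝ) := by
    unfold aFR εo
    exact if_pos ⟨hO, hf⟩
  have h200 := pow200 (p := x.s.p) (by exact_mod_cast hx1)
  have hD : (if BR D U x.s.O x.s.p x.s.M' j then (2:ℝ) else 0) ≤ aDR2 stp (duo D U) 2 j x := by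
    by_cases hb : BR D U x.s.O x.s.p x.s.M' j
    · rw [if_pos hb]
      unfold aDR2
      rw [if_pos ⟨⟨hl, hs⟩, hO, hb.1, hb.2⟩]
    · rw [if_neg hb]; exact n4
  unfold cR costR2
  rw [hF]
  by_cases hd : x.s.p ∈ U (D.it j)
  · have hU : aER (reo D U) εo j x = (x.s.p:ℝ)^(-(1/7000):ℝ) := by
      unfold aER εo
      exact if_pos ⟨hO, hd⟩
    rw [if_pos hd, hU]
    linarith
  · rw [if_neg hd]
    linarith

open Classical in
/-- cost of a left item at a tie of the right side, the left side has missed the tie -/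
lemma cL_geY (hN : NumO CL C1 c₀ K p0) (hK : 0 ≤ K) {x : XSt Λ κ}
    (hl : ¬ (x.s.t.isLeaf ∨ x.s.t'.isLeaf))
    (hs : ¬ stp x.s) (hO : OSR x) (hp : p0 ≤ x.s.p) (hf : x.s.p ∈ x.u) {j : Λ} :
    (x.s.p:ℝ)^(-(1/200):ℝ) +
      (if x.s.p ∈ U (D.it j) then K * (x.s.p:ℝ)^(-(1/3):ℝ) else 0) +
      (if BR D U x.s.O' x.s.p x.s.M j then 2 else 0) ≤ cL D U stp p0 j x := by
  have h40 : (2:ℝ)^40 ≤ x.s.p := by exact_mod_cast hN.big.trans hp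
  have hx1 : (1:ℝ) ≤ x.s.p := le_trans (by norm_num) h40
  have hnum := hN.num _ hp
  have i1 : 0 ≤ (x.s.p:ℝ)^(-(1/3):ℝ) := by positivity
  have i2 : 0 ≤ (x.s.p:ℝ)^(-(1/6000):ℝ) := by positivity
  have n0 := aG_nn (stp := stp) j x
  have n1 := aTL_nn j x
  have n2 := aEL_nn (D := D) (U := U) j x
  have n3 := aCL_nn (D := D) (U := U) (stp := stp) (p0 := p0) j x
  have n4 := aDL_nn (D := D) (U := U) (stp := stp) j x
  have n6 := aHL_nn j x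
  have hF : aFL εo j x = (x.s.p:ℝ)^(-(1/7000):ℝ) := by
    unfold aFL εo
    exact if_pos ⟨hO, hf⟩
  have h200 := pow200 (p := x.s.p) (by exact_mod_cast hx1)
  have hD : (if BR D U x.s.O' x.s.p x.s.M j then (2:ℝ) else 0) ≤ aDL2 stp (duo D U) 2 j x := by
    by_cases hb : BR D U x.s.O' x.s.p x.s.M j
    · rw [if_pos hb]
      unfold aDL2
      rw [if_pos ⟨⟨hl, hs⟩, hO, hb.1, hb.2⟩]
    · rw [if_neg hb]; exact n4
  unfold cL costL2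
  rw [hF]
  by_cases hd : x.s.p ∈ U (D.it j)
  · have hU : aEL (reo D U) εo j x = (x.s.p:ℝ)^(-(1/7000):ℝ) := by
      unfold aEL εo
      exact if_pos ⟨hO, hd⟩
    rw [if_pos hd, hU]
    linarith
  · rw [if_neg hd]
    linarith

/-- cost of the items which miss the tie -/
lemma cL_tie (hN : NumO CL C1 c₀ K p0) {x : XSt Λ κ} (hO : OSL x) (hp : p0 ≤ x.s.p) {j : Λ}
    (hd : ¬ dvM mI x.s.t j) :
    (x.s.p:ℝ)^(-(1/6000):ℝ) + K * (x.s.p:ℝ)^(-(1/3):ℝ) ≤ cL D U stp p0 j x ∧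
      (x.s.p ∈ x.u' → (x.s.p:ℝ)^(1/10:ℝ) + K * (x.s.p:ℝ)^(-(1/3):ℝ) ≤ cL D U stp p0 j x) := by
  have h1 : aTL (dvM mI) εo j x = (x.s.p:ℝ)^(-(1/7000):ℝ) := by
    unfold aTL εo
    exact if_pos ⟨OSL_tie hO, hd⟩
  have n0 := aG_nn (stp := stp) j x
  have n2 := aEL_nn (D := D) (U := U) j x
  have n3 := aCL_nn (D := D) (U := U) (stp := stp) (p0 := p0) j x
  have n4 := aDL_nn (D := D) (U := U) (stp := stp) j x
  have n5 := aFL_nn j x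
  have n6 := aHL_nn j x
  have hnum := hN.num _ hp
  have i2 : 0 ≤ (x.s.p:ℝ)^(-(1/6000):ℝ) := by positivity
  unfold cL costL2
  rw [h1]
  refine ⟨by linarith, fun hf => ?_⟩
  have h2 : aHL (dvM mI) ρo j x = (x.s.p:ℝ)^(1/10:ℝ) := by
    unfold aHL ρo
    exact if_pos ⟨⟨hO, hd⟩, hf⟩
  rw [h2]
  linarith

lemma cR_tie (hN : NumO CL C1 c₀ K p0) {x : XSt Λ κ} (hO : OSR x) (hp : p0 ≤ x.s.p) {j : Λ}
    (hd : ¬ dvM mI x.s.t' j) :
    (x.s.p:ℝ)^(-(1/6000):ℝ) + K * (x.s.p:ℝ)^(-(1/3):ℝ) ≤ cR D U stp p0 j x ∧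
      (x.s.p ∈ x.u → (x.s.p:ℝ)^(1/10:ℝ) + K * (x.s.p:ℝ)^(-(1/3):ℝ) ≤ cR D U stp p0 j x) := by
  have h1 : aTR (dvM mI) εo j x = (x.s.p:ℝ)^(-(1/7000):ℝ) := by
    unfold aTR εo
    exact if_pos ⟨OSR_tie hO, hd⟩
  have n0 := aG_nn (stp := stp) j x
  have n2 := aER_nn (D := D) (U := U) j x
  have n3 := aCR_nn (D := D) (U := U) (stp := stp) (p0 := p0) j x
  have n4 := aDR_nn (D := D) (U := U) (stp := stp) j x
  have n5 := aFR_nn j x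
  have n6 := aHR_nn j x
  have hnum := hN.num _ hp
  have i2 : 0 ≤ (x.s.p:ℝ)^(-(1/6000):ℝ) := by positivity
  unfold cR costR2
  rw [h1]
  refine ⟨by linarith, fun hf => ?_⟩
  have h2 : aHR (dvM mI) ρo j x = (x.s.p:ℝ)^(1/10:ℝ) := by
    unfold aHR ρo
    exact if_pos ⟨⟨hO, hd⟩, hf⟩
  rw [h2]
  linarith

end loc

end Crest.Agent.R4P.OSFin710
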