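import Crest.Agent.R4P.ColE_943
import Crest.Agent.R4P.OSLoc710

/-!
R4 powers pass (S0004), group [O] (helper14, after helper943's `ColE_943`): the `[E]` pairs of a one-sided
column with arbitrary moduli (`M`, `M'` positive, small sums over the prime factors).

* `col_E2` : `ColE710.col_E` without `MS`; `ePaid` : helper16's `EPaid` with `K = 5`.
-/

set_option autoImplicit false
set_option linter.unusedSectionVars false
set_option linter.unusedVariables false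
open Finset

namespace Crest.Agent.R4P.ColE14

open Crest.Agent.R4.HVW560 Crest.Agent.R4.Schur709 Crest.Agent.R4.StopHvw709
open Crest.Agent.R4.StopAsm709 Crest.Agent.R4P.AvgItem710 Crest.Agent.R4.DeepSt579
open Crest.Agent.R4P.Rad800 Crest.Agent.R4P.Item758 Crest.Agent.R4P.NMW710
open Crest.Agent.R4.OSCore709 (om om_nonneg om_le_one mm)
open Crest.Agent.R4.Tour104 Crest.Agent.R4.Tour758 Crest.Agent.R4.Avg758 Crest.Agent.R4.Clos758
open Crest.Agent.R4.ClosL758 Crest.Agent.R4.ClosG758 Crest.Agent.R4.ClosR758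
open Crest.Agent.R4.Fam464 Crest.Agent.R4P.Cnt588 Crest.Agent.R4P.Walk560 Crest.Agent.R4.Piece464
open Crest.Agent.R4P.GInst194 Crest.Agent.R4P.WalkIT579 Crest.Agent.R4P.GSt927
open Crest.Agent.R4P.OSCol710 Crest.Agent.R4P.ColW710 Crest.Agent.R4P.ColE710
open Crest.Agent.R4P.OSFin710 (EPaid)
open Crest.Agent.R4P.GFinC927 (nn two_nn)
open Crest.Agent.R4P.Bld532 (NS All NodeOk Bk)
open Crest.Agent.R4P

variable {Λ κ : Type*} [Fintype Λ] [DecidableEq Λ] [Fintype κ] [DecidableEq κ] [WRel κ]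
  {D : Par Λ κ} {ρ : ℕ → ℝ} {Al : Finset ℕ} {sp : ℕ → Finset Λ} {P : Bld532.Par}
  {W : ℕ → ℝ} {CL C1 c₀ : ℝ} {p₁ : ℕ}

open Classical in
/-- **`[E]` PAIRS OF A ONE-SIDED COLUMN** -/
theorem col_E2 (hce : CEn CL c₀ p₁) {p n G : ℕ} (hni : NI D ρ Al P W C1 c₀ p)
    (hCL : 0 ≤ CL) (hp : p₁ ≤ p) (hn1 : 1 ≤ n)
    {u : NS} {Sp : Finset ℕ} {t₁ t₀ : IT} {M : ℕ} {A : Finset Λ} {d : DT Λ κ}
    (h : SideI D sp u.B u.A (.br p Sp t₁ t₀) A d)
    (hL : NSd D Al P W CL c₀ p G M u (.br p Sp t₁ t₀) A)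
    (hM0 : 0 < M)
    {u' : NS} {τ' : IT} {M' G' : ℕ} {A' : Finset Λ} {d' : DT Λ κ}
    (h' : SideI D sp u'.B u'.A τ' A' d')
    (hR : NSd D Al P W CL c₀ p G' M' u' τ' A') (hM0' : 0 < M')
    (hs : ∑ l ∈ M.primeFactors, 1/(l:ℝ) ≤ 2 * (p:ℝ)^(-(1/3):ℝ))
    (hs' : ∑ l ∈ M'.primeFactors, 1/(l:ℝ) ≤ 2 * (p:ℝ)^(-(1/3):ℝ)) :
    ∑ e ∈ KR D ρ Al n p M (u.B * p) u.A p t₀ A M' u'.B u'.A 1 τ' A' (fun _ => False),
        D.iF (Ro (D.rho p)) (D.uA M (u.B * p) u.A t₀ A p) (D.uA M' u'.B u'.A τ' A' 1) e ≤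
      5 * (p:ℝ)^(-(1/3):ℝ) * (∑ j ∈ A.filter (fun j => D.it j ∈ t₀.items), mI d j) +
      2 * (p:ℝ)^(-(1/3):ℝ) *
        (∑ j ∈ A'.filter (fun j => D.it j ∈ τ'.items ∧ (p ∣ D.it j / u'.A ∧ ¬ p ∣ M') ∧
          M' ∣ D.it j / u'.A), mI d' j) +
      2 * ∑ j ∈ A'.filter (fun j => D.it j ∈ τ'.items ∧ ¬ (p ∣ D.it j / u'.A ∧ ¬ p ∣ M') ∧
        M' ∣ D.it j / u'.A), mI d' j := by
  have hpp : p.Prime := h.hF.1
  have hp0 : 0 < p := hpp.pos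
  have hpR0 : (0:ℝ) < p := by exact_mod_cast hp0
  have hL0 := h.br₀
  have hb0' : 0 < u'.B := h'.hb
  have p40 : (2:ℝ)^40 ≤ p := by exact_mod_cast hce.big.trans hp
  have hp1 : (1:ℝ) ≤ p := le_trans (by norm_num) p40
  -- the small number
  set ε : ℝ := (p:ℝ)^(-(1/3):ℝ) with hε
  have hε0 : 0 < ε := Real.rpow_pos_of_pos hpR0 _
  have hε1 : ε ≤ 1 / 8 := by
    have h1 : ((2:ℝ)^40)^(1/3:ℝ) ≤ (p:ℝ)^(1/3:ℝ) :=
      Real.rpow_le_rpow (by positivity) p40 (by norm_num)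
    have h2 : (8:ℝ) ≤ ((2:ℝ)^40)^(1/3:ℝ) := by
      rw [← Real.rpow_natCast, ← Real.rpow_mul (by norm_num)]
      calc (8:ℝ) = (2:ℝ)^(3:ℝ) := by norm_num
        _ ≤ _ := Real.rpow_le_rpow_of_exponent_le (by norm_num) (by norm_num)
    rw [hε, Real.rpow_neg hpR0.le, ← one_div]
    exact one_div_le_one_div_of_le (by norm_num) (h2.trans h1)
  set V := Qi D Al t₀ A with hV
  set Wt := Qi D Al τ' A' with hWt
  set F : ℕ × ℕ → ℝ := D.iF (Ro (D.rho p)) (D.uA M (u.B * p) u.A t₀ A p)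
    (D.uA M' u'.B u'.A τ' A' 1) with hFdef
  set K := KR D ρ Al n p M (u.B * p) u.A p t₀ A M' u'.B u'.A 1 τ' A' (fun _ => False) with hK
  have memK : ∀ e ∈ K, e.1 ∈ V ∧ e.2 ∈ Wt ∧ 0 < F e ∧
      Dq ρ M (u.B * p) u.A p M' u'.B u'.A 1 e ≤ 1/2^n ∧
      EP (fun t => t^(1/20:ℝ)) D.γ ρ M (u.B * p) u.A p M' u'.B u'.A 1 e := by
    intro e he
    obtain ⟨⟨k5, k6⟩, k2, k3, k4⟩ := mem_KR he
    refine ⟨k5, k6, k2, k3, ?_⟩
    rcases k4 with k4 | k4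
    · exact ESI_EP (hL0.hF.item _ (mem_Qi.1 k5).1).2.1 (h'.hF.item _ (mem_Qi.1 k6).1).2.1 k4
    · exact absurd k4 id
  have mnn : ∀ j, 0 ≤ mI d j := mI_nn h
  have mnn' : ∀ j, 0 ≤ mI d' j := mI_nn h'
  have subL : t₀.items ⊆ (IT.br p Sp t₁ t₀).items := Finset.subset_union_right
  -- item masses
  have k1 : ∀ q ∈ t₀.items, mU D (u.B * p) u.A p t₀ A q = mq D d A q := fun q hq => by
    rw [mU_col hni.ab h.hb h.hF h.hW A hq]
    exact Finset.sum_congr rfl fun j _ => (SideI_mI h j).symm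
  have k2 : ∀ r, mU D u'.B u'.A 1 τ' A' r = mq D d' A' r := fun r =>
    Finset.sum_congr rfl fun j _ => (SideI_mI h' j).symm
  have a0 : ∀ q, 0 ≤ mq D d A q := fun q => Finset.sum_nonneg fun j _ => mnn j
  have a0' : ∀ q, 0 ≤ mq D d' A' q := fun q => Finset.sum_nonneg fun j _ => mnn' j
  have x1 : xs M' ≤ 4 * ε := (xs_le hM0' (hs'.trans (by linarith))).trans (by linarith)
  have x2 : xs M ≤ 4 * ε := (xs_le hM0 (hs.trans (by linarith))).trans (by linarith)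
  have xn1 := xs_nonneg M'
  have xn2 := xs_nonneg M
  set κ₀ : ℝ := 2 / Real.sqrt ((p:ℝ)/2) with hκ₀
  have hκ0 : 0 ≤ κ₀ := by positivity
  set L : ℝ := CL * Real.log p * (1 / c₀) with hLdef
  have hrad : ∀ q ∈ V, (u.B : ℝ) * ρ q ≤ L * mq D d A q := fun q hq =>
    rad_mq hni hCL h hL subL hq
  have hrad' : ∀ q ∈ Wt, (u'.B : ℝ) * ρ q ≤ L * mq D d' A' q := fun q hq =>
    rad_mq hni hCL h' hR (Finset.Subset.refl _) hq
  have key := os_match (V := V) (W := Wt) (P := K) (f := F) (a := fun q => mq D d A q)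
    (a' := fun r => mq D d' A' r) (x := fun q => (u.B:ℝ) * ρ q) (x' := fun r => (u'.B:ℝ) * ρ r)
    (m := fun q => rf (q / u.A) M) (m' := fun r => rf (r / u'.A) M') (N := M)
    (N' := M') (κ := κ₀) (fun r => p ∣ r / u'.A ∧ ¬ p ∣ M') hM0 hM0' hκ0
    (fun e he => Finset.mem_product.2 ⟨(memK e he).1, (memK e he).2.1⟩)
    (fun q _ => a0 q) (fun r _ => a0' r)
    (fun q _ => mul_nonneg (Nat.cast_nonneg _) (hni.rad.pos q).le)
    (fun q _ => mul_nonneg (Nat.cast_nonneg _) (hni.rad.pos q).le)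
    (fun e he => rf_dvd)
    (fun e he => rf_dvd)
    (fun e he => by
      obtain ⟨m1, m2, m3, m4, m5⟩ := memK e he
      have i1 := (mem_Qi.1 m1).1
      have i2 := (mem_Qi.1 m2).1
      have := iF_le_left hni.rad hM0 hM0' hL0.hb hb0' hL0.hF h'.hF hL0.hW h'.hW
        (Dvd.intro_left u.B rfl) (one_dvd _) (Ro (D.rho p)) A A' e i2
        (m5.small (hL0.hF.item _ i1).2.1 (h'.hF.item _ i2).2.1).2
      rwa [k1 _ i1] at this)
    (fun e he => by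
      obtain ⟨m1, m2, m3, m4, m5⟩ := memK e he
      have i1 := (mem_Qi.1 m1).1
      have i2 := (mem_Qi.1 m2).1
      have := iF_le_right hni.rad hM0 hM0' hL0.hb hb0' hL0.hF h'.hF hL0.hW h'.hW
        (Dvd.intro_left u.B rfl) (one_dvd _) (Ro (D.rho p)) A A' e i1
        (m5.small (hL0.hF.item _ i1).2.1 (h'.hF.item _ i2).2.1).1
      rwa [k2] at this)
    (fun e he hr hQ => by
      obtain ⟨m1, m2, m3, m4, m5⟩ := memK e he
      have i1 := (mem_Qi.1 m1).1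
      have i2 := (mem_Qi.1 m2).1
      obtain ⟨b1, b2, b3⟩ := hL0.hF.item _ i1
      obtain ⟨b1', b2', b3'⟩ := h'.hF.item _ i2
      have w0 : 0 < e.1 / u.A := Nat.div_pos (Nat.le_of_dvd b1 b2) (Nat.pos_of_dvd_of_pos b2 b1)
      have w0' : 0 < e.2 / u'.A :=
        Nat.div_pos (Nat.le_of_dvd b1' b2') (Nat.pos_of_dvd_of_pos b2' b1')
      refine (iF_le hni.rad hM0 hM0' hL0.hb hb0' hL0.hF h'.hF hL0.hW h'.hW
        (Dvd.intro_left u.B rfl) (one_dvd _) (Ro (D.rho p)) A A' e i1 i2).trans ?_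
      have c1 : ((u.B * p : ℕ) : ℝ) / p * ρ e.1 = (u.B:ℝ) * ρ e.1 := rd_col hp0 ρ e.1
      have c2 : ((u'.B : ℕ) : ℝ) / (1:ℕ) * ρ e.2 = (u'.B:ℝ) * ρ e.2 := rd_one u'.B ρ e.2
      -- `p` is in the cofactor
      have np : ¬ p ∣ e.1 / u.A := fun hd => by
        have := Nat.Coprime.coprime_mul_left_right b3
        exact (Nat.Prime.coprime_iff_not_dvd hpp).1 this.symm hd
      have np1 : ¬ p ∣ e.1 / u.A / M.gcd (e.1 / u.A) := fun hd =>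
        np (hd.trans (Nat.div_dvd_of_dvd (Nat.gcd_dvd_right _ _)))
      have hp2 : p ∣ e.2 / u'.A := hQ.1
      have hp3 : p ∣ e.2 / u'.A / M'.gcd (e.2 / u'.A) := by
        have h1 : p ∣ M'.gcd (e.2 / u'.A) * (e.2 / u'.A / M'.gcd (e.2 / u'.A)) := by
          rw [Nat.mul_div_cancel' (Nat.gcd_dvd_right _ _)]; exact hp2
        rcases hpp.dvd_mul.1 h1 with h2 | h2
        · exact absurd (h2.trans (Nat.gcd_dvd_left _ _)) hQ.2
        · exact h2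
      have g0 := Crest.Agent.R4.GSplit194.gcd_pos hM0 w0
      have g0' := Crest.Agent.R4.GSplit194.gcd_pos hM0' w0'
      have hpc : p ∣ cof (e.2 / u'.A / M'.gcd (e.2 / u'.A)) (e.1 / u.A / M.gcd (e.1 / u.A)) := by
        unfold cof
        set g := (e.2 / u'.A / M'.gcd (e.2 / u'.A)).gcd (e.1 / u.A / M.gcd (e.1 / u.A)) with hg
        have h1 : p ∣ g * ((e.2 / u'.A / M'.gcd (e.2 / u'.A)) / g) := by
          rw [Nat.mul_div_cancel' (Nat.gcd_dvd_left _ _)]; exact hp3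
        rcases hpp.dvd_mul.1 h1 with h2 | h2
        · exact absurd (h2.trans (Nat.gcd_dvd_right _ _)) np1
        · exact h2
      have hc1 : (p:ℝ) ≤ cof (e.2 / u'.A / M'.gcd (e.2 / u'.A)) (e.1 / u.A / M.gcd (e.1 / u.A)) := by
        exact_mod_cast Nat.le_of_dvd (Crest.Agent.R4.AvgItem710.cof_pos g0') hpc
      have hc2 : (1:ℝ) ≤ cof (e.1 / u.A / M.gcd (e.1 / u.A)) (e.2 / u'.A / M'.gcd (e.2 / u'.A)) := by
        exact_mod_cast Crest.Agent.R4.AvgItem710.cof_pos g0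
      have hD2 : Da (e.1 / u.A) M (e.2 / u'.A) M' (((u.B * p : ℕ) : ℝ) / p * ρ e.1)
          ((u'.B : ℝ) / (1:ℕ) * ρ e.2) ≤ 1 / 2 := by
        refine le_trans m4 ?_
        refine one_div_le_one_div_of_le (by norm_num) ?_
        calc (2:ℝ) = 2^1 := (pow_one _).symm
          _ ≤ 2^n := pow_le_pow_right₀ (by norm_num) hn1
      have r0 : 0 < ((u.B * p : ℕ) : ℝ) / p * ρ e.1 := by
        rw [c1]; exact mul_pos (by exact_mod_cast h.hb) (hni.rad.pos _)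
      have r0' : 0 < (u'.B : ℝ) / (1:ℕ) * ρ e.2 := by
        rw [c2]; exact mul_pos (by exact_mod_cast hb0') (hni.rad.pos _)
      have kk := pbd_raised (θ := ((u.B * p : ℕ) : ℝ) / p * D.γ) (θ' := (u'.B : ℝ) / (1:ℕ) * D.γ)
        (Z := (p:ℝ)/2) hM0 hM0' w0 w0' r0 r0' hD2 (by linarith) (by nlinarith)
      unfold Item758.Par.pb
      refine kk.trans (le_of_eq ?_)
      rw [c1, c2, hr, Nat.cast_one, div_one])
    (fun q r₁ r₂ z1 z2 z3 => Crest.Agent.R4.GInst194.EP.uniq hM0'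
      (h'.hF.item _ (mem_Qi.1 (memK _ z1).2.1).1).2.1
      (h'.hF.item _ (mem_Qi.1 (memK _ z2).2.1).1).2.1 (memK _ z1).2.2.2.2 (memK _ z2).2.2.2.2 z3)
    (fun q₁ q₂ r z1 z2 z3 => Crest.Agent.R4.GInst194.EP.uniq' hM0
      (hL0.hF.item _ (mem_Qi.1 (memK _ z1).1).1).2.1
      (hL0.hF.item _ (mem_Qi.1 (memK _ z2).1).1).2.1 (memK _ z1).2.2.2.2 (memK _ z2).2.2.2.2 z3)
  refine key.trans ?_
  -- the matching with raising factors one
  have b1 : ∑ e ∈ K.filter (fun e => rf (e.1 / u.A) M = 1 ∧ rf (e.2 / u'.A) M' = 1 ∧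
        ¬ (p ∣ e.2 / u'.A ∧ ¬ p ∣ M')),
      min (mq D d A e.1) (mq D d' A' e.2) ≤
      ∑ r ∈ Wt.filter (fun r => rf (r / u'.A) M' = 1 ∧ ¬ (p ∣ r / u'.A ∧ ¬ p ∣ M')),
        mq D d' A' r := by
    have inj : Set.InjOn (fun e : ℕ × ℕ => e.2) (K.filter (fun e => rf (e.1 / u.A) M = 1 ∧
        rf (e.2 / u'.A) M' = 1 ∧ ¬ (p ∣ e.2 / u'.A ∧ ¬ p ∣ M')) : Set (ℕ × ℕ)) := by
      rintro ⟨x1, y1⟩ hx ⟨x2, y2⟩ hy hxy
      simp only at hxy
      subst hxy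
      obtain ⟨z1, z2, z3, z4⟩ := Finset.mem_filter.1 hx
      obtain ⟨w1, w2, w3, w4⟩ := Finset.mem_filter.1 hy
      exact Prod.ext (Crest.Agent.R4.GInst194.EP.uniq' hM0
        (hL0.hF.item _ (mem_Qi.1 (memK _ z1).1).1).2.1
        (hL0.hF.item _ (mem_Qi.1 (memK _ w1).1).1).2.1 (memK _ z1).2.2.2.2 (memK _ w1).2.2.2.2
        (z2.trans w2.symm)) rfl
    calc _ ≤ ∑ e ∈ K.filter (fun e => rf (e.1 / u.A) M = 1 ∧ rf (e.2 / u'.A) M' = 1 ∧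
            ¬ (p ∣ e.2 / u'.A ∧ ¬ p ∣ M')),
          mq D d' A' e.2 := Finset.sum_le_sum fun e _ => min_le_right _ _
      _ = ∑ r ∈ (K.filter (fun e => rf (e.1 / u.A) M = 1 ∧ rf (e.2 / u'.A) M' = 1 ∧
            ¬ (p ∣ e.2 / u'.A ∧ ¬ p ∣ M'))).image (fun e => e.2), mq D d' A' r :=
          (Finset.sum_image (f := fun r => mq D d' A' r) inj).symm
      _ ≤ _ := by
          refine Finset.sum_le_sum_of_subset_of_nonneg (fun r hr => ?_) fun r _ _ => a0' r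
          obtain ⟨e, he, rfl⟩ := Finset.mem_image.1 hr
          obtain ⟨z1, z2, z3, z4⟩ := Finset.mem_filter.1 he
          exact Finset.mem_filter.2 ⟨(memK _ z1).2.1, z3, z4⟩
  have dM : ∀ r, rf (r / u'.A) M' = 1 → M' ∣ r / u'.A := fun r z2 => by
    have h1 := Crest.Agent.R4.GSplit194.gcd_of_rf_one hM0' z2
    exact h1 ▸ Nat.gcd_dvd_right _ _
  have b2 : ∑ q ∈ V, mq D d A q ≤ ∑ j ∈ A.filter (fun j => D.it j ∈ t₀.items), mI d j :=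
    sum_mq_le mnn fun j hj hq => Finset.mem_filter.2 ⟨hj, (mem_Qi.1 hq).1⟩
  have b3 : ∑ r ∈ Wt.filter (fun r => rf (r / u'.A) M' = 1 ∧ (p ∣ r / u'.A ∧ ¬ p ∣ M')),
        mq D d' A' r ≤
      ∑ j ∈ A'.filter (fun j => D.it j ∈ τ'.items ∧ (p ∣ D.it j / u'.A ∧ ¬ p ∣ M') ∧
          M' ∣ D.it j / u'.A), mI d' j :=
    sum_mq_le mnn' fun j hj hq => by
      obtain ⟨z1, z2, z3⟩ := Finset.mem_filter.1 hq
      exact Finset.mem_filter.2 ⟨hj, (mem_Qi.1 z1).1, z3, dM _ z2⟩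
  have b4 : ∑ r ∈ Wt.filter (fun r => rf (r / u'.A) M' = 1 ∧ ¬ (p ∣ r / u'.A ∧ ¬ p ∣ M')),
        mq D d' A' r ≤
      ∑ j ∈ A'.filter (fun j => D.it j ∈ τ'.items ∧ ¬ (p ∣ D.it j / u'.A ∧ ¬ p ∣ M') ∧
        M' ∣ D.it j / u'.A), mI d' j :=
    sum_mq_le mnn' fun j hj hq => by
      obtain ⟨z1, z2, z3⟩ := Finset.mem_filter.1 hq
      exact Finset.mem_filter.2 ⟨hj, (mem_Qi.1 z1).1, z3, dM _ z2⟩
  have s1 : ∑ q ∈ V, (u.B:ℝ) * ρ q ≤ L * ∑ q ∈ V, mq D d A q := by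
    rw [Finset.mul_sum]; exact Finset.sum_le_sum hrad
  have s3 : ∑ r ∈ Wt.filter (fun r => rf (r / u'.A) M' = 1 ∧ (p ∣ r / u'.A ∧ ¬ p ∣ M')),
        (u'.B:ℝ) * ρ r ≤
      L * ∑ r ∈ Wt.filter (fun r => rf (r / u'.A) M' = 1 ∧ (p ∣ r / u'.A ∧ ¬ p ∣ M')),
        mq D d' A' r := by
    rw [Finset.mul_sum]
    exact Finset.sum_le_sum fun r hr => hrad' r (Finset.mem_filter.1 hr).1
  have n1 : 0 ≤ ∑ q ∈ V, mq D d A q := Finset.sum_nonneg fun q _ => a0 q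
  have n3 : 0 ≤ ∑ r ∈ Wt.filter (fun r => rf (r / u'.A) M' = 1 ∧ (p ∣ r / u'.A ∧ ¬ p ∣ M')),
      mq D d' A' r :=
    Finset.sum_nonneg fun q _ => a0' q
  have n4 : 0 ≤ ∑ r ∈ Wt.filter (fun r => rf (r / u'.A) M' = 1 ∧ ¬ (p ∣ r / u'.A ∧ ¬ p ∣ M')),
      mq D d' A' r :=
    Finset.sum_nonneg fun q _ => a0' q
  have nn := hce.num p hp
  rw [← hLdef, ← hκ₀, ← hε] at nn
  generalize ∑ q ∈ V, mq D d A q = S1 at *
  generalize ∑ r ∈ Wt.filter (fun r => rf (r / u'.A) M' = 1 ∧ (p ∣ r / u'.A ∧ ¬ p ∣ M')),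
    mq D d' A' r = S3 at *
  generalize ∑ r ∈ Wt.filter (fun r => rf (r / u'.A) M' = 1 ∧ ¬ (p ∣ r / u'.A ∧ ¬ p ∣ M')),
    mq D d' A' r = S4 at *
  generalize xs M' = y1 at *
  generalize xs M = y2 at *
  have t1 : y1 * S1 ≤ 4 * ε * S1 := mul_le_mul_of_nonneg_right x1 n1
  have t2 : y2 * S4 ≤ 1 * S4 := mul_le_mul_of_nonneg_right (x2.trans (by linarith)) n4
  have t3 := mul_le_mul_of_nonneg_left s1 hκ0
  have t4 : κ₀ * (L * S1) ≤ ε * S1 := by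
    rw [← mul_assoc]; exact mul_le_mul_of_nonneg_right nn n1
  have t5 := mul_le_mul_of_nonneg_left s3 (mul_nonneg hκ0 (by linarith : 0 ≤ 1 + y2))
  have t6 : κ₀ * (1 + y2) * (L * S3) ≤ 2 * ε * S3 := by
    calc κ₀ * (1 + y2) * (L * S3) = (1 + y2) * (κ₀ * L) * S3 := by ring
      _ ≤ (1 + y2) * ε * S3 := mul_le_mul_of_nonneg_right
          (mul_le_mul_of_nonneg_left nn (by linarith)) n3
      _ ≤ 2 * ε * S3 := mul_le_mul_of_nonneg_right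
          (mul_le_mul_of_nonneg_right (by linarith) hε0.le) n3
  have t7 := mul_le_mul_of_nonneg_left b2 (by positivity : 0 ≤ 5 * ε)
  have t8 := mul_le_mul_of_nonneg_left b3 (by positivity : 0 ≤ 2 * ε)
  rw [mul_add]
  nlinarith

/-- **helper16's `EPaid`** -/
theorem ePaid (hce : CEn CL c₀ p₁) (hCL : 0 ≤ CL)
    (hni : ∀ p, p₁ ≤ p → NI D ρ Al P W C1 c₀ p) : EPaid D sp ρ Al P W CL c₀ 5 p₁ := by
  classical
  intro p hp u u' Sp t₁ t₀ τ' M M' A A' d d' h hL h' hR hM0 hM0' hpM hs hs' hsq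
  have hpp : p.Prime := h.hF.1
  have hpR0 : (0:ℝ) < p := by exact_mod_cast hpp.pos
  have hn1 : 1 ≤ nn p := by
    by_contra hn
    have h0 : nn p = 0 := by omega
    have h1 := two_nn (hce.big.trans hp)
    rw [h0, pow_zero] at h1
    have h2 : (p:ℝ)^(-(1/5):ℝ) ≤ 1 := Real.rpow_le_one_of_one_le_of_nonpos
      (by exact_mod_cast hpp.one_le) (by norm_num)
    norm_num at h1
    norm_num at h2
    linarith
  have key := col_E2 hce (hni p hp) hCL hp hn1 h hL hM0 h' hR hM0' hs hs'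
  refine key.trans ?_
  have mnn := mI_nn h
  have mnn' := mI_nn h'
  have e0 : 0 ≤ (p:ℝ)^(-(1/3):ℝ) := Real.rpow_nonneg hpR0.le _
  have s2 : ∑ j ∈ A'.filter (fun j => D.it j ∈ τ'.items ∧ (p ∣ D.it j / u'.A ∧ ¬ p ∣ M') ∧
      M' ∣ D.it j / u'.A), mI d' j ≤ ∑ j ∈ A'.filter (fun j => D.it j ∈ τ'.items ∧
        p ∣ D.it j / u'.A), mI d' j := by
    refine Finset.sum_le_sum_of_subset_of_nonneg (fun j hj => ?_) fun j _ _ => mnn' j
    obtain ⟨k1, k2, k3, k4⟩ := Finset.mem_filter.1 hj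
    exact Finset.mem_filter.2 ⟨k1, k2, k3.1⟩
  have s3 : ∑ j ∈ A'.filter (fun j => D.it j ∈ τ'.items ∧ ¬ (p ∣ D.it j / u'.A ∧ ¬ p ∣ M') ∧
      M' ∣ D.it j / u'.A), mI d' j ≤ ∑ j ∈ A'.filter (fun j => D.it j ∈ τ'.items ∧
        M' ∣ D.it j / u'.A ∧ (¬ p ∣ D.it j / u'.A ∨ p ∣ M')), mI d' j := by
    refine Finset.sum_le_sum_of_subset_of_nonneg (fun j hj => ?_) fun j _ _ => mnn' j
    obtain ⟨k1, k2, k3, k4⟩ := Finset.mem_filter.1 hj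
    refine Finset.mem_filter.2 ⟨k1, k2, k4, ?_⟩
    by_cases c : p ∣ D.it j / u'.A
    · exact Or.inr (by by_contra c2; exact k3 ⟨c, c2⟩)
    · exact Or.inl c
  have n2 : 0 ≤ ∑ j ∈ A'.filter (fun j => D.it j ∈ τ'.items ∧ (p ∣ D.it j / u'.A ∧ ¬ p ∣ M') ∧
      M' ∣ D.it j / u'.A), mI d' j := Finset.sum_nonneg fun j _ => mnn' j
  have t2 : 2 * (p:ℝ)^(-(1/3):ℝ) * ∑ j ∈ A'.filter (fun j => D.it j ∈ τ'.items ∧
      (p ∣ D.it j / u'.A ∧ ¬ p ∣ M') ∧ M' ∣ D.it j / u'.A), mI d' j ≤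
      5 * (p:ℝ)^(-(1/3):ℝ) * ∑ j ∈ A'.filter (fun j => D.it j ∈ τ'.items ∧
        p ∣ D.it j / u'.A), mI d' j :=
    mul_le_mul (mul_le_mul_of_nonneg_right (by norm_num) e0) s2 n2 (by positivity)
  have t3 := mul_le_mul_of_nonneg_left s3 (by norm_num : (0:ℝ) ≤ 2)
  exact add_le_add (add_le_add le_rfl t2) t3

end Crest.Agent.R4P.ColE14
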