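import Crest.Agent.R4P.OSLoc710

/-!
R4 powers pass (S0004), helper16 (after helper710's `R4/OSFin710`): **the one-sided columns are paid**.

* `os_left`, `os_right`, `os_local` : the cost of a column;
* `eOS_final` : `WS stp (eOS stp) s ≤ (5 κ₀ + 2) (∑ m + ∑ m')` at a self state.
-/

set_option autoImplicit false
set_option linter.unusedSectionVars false
set_option linter.unusedVariables false
open Finset

namespace Crest.Agent.R4P.OSFin710

open Crest.Agent.R4.Tour104 Crest.Agent.R4.Tour758 Crest.Agent.R4.Avg758 Crest.Agent.R4.Clos758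
open Crest.Agent.R4.ClosL758 Crest.Agent.R4.ClosG758 Crest.Agent.R4.ClosR758
open Crest.Agent.R4.Fam464 Crest.Agent.R4P.Cnt588 Crest.Agent.R4P.Walk560 Crest.Agent.R4.Piece464
open Crest.Agent.R4P.GInst194 Crest.Agent.R4P.WalkIT579 Crest.Agent.R4P.GSt927
open Crest.Agent.R4P.AvgItem710 Crest.Agent.R4.DeepSt579
open Crest.Agent.R4P.Item758 Crest.Agent.R4P.NMW710 Crest.Agent.R4P.Rad800
open Crest.Agent.R4P.ColW710 Crest.Agent.R4P.ColY710
open Crest.Agent.R4P.Res927 Crest.Agent.R4P.OSWS245 Crest.Agent.R4P.OSWS16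
open Crest.Agent.R4P.OF927 (OF sum_le_third)
open Crest.Agent.R4P.IMI194 (dvM)
open Crest.Agent.R4P.OSWI245 (DvAt_of OSN)
open Crest.Agent.R4.OSCore709 (om om_nonneg om_le_one)
open Crest.Agent.R4P.GFinC927 (nn)
open Crest.Agent.R4P.StopFF95 (NF)
open Crest.Agent.R4P.Bld532 (NS All NodeOk Bk)
open Crest.Agent.R4P

variable {Λ κ : Type*} [Fintype Λ] [DecidableEq Λ] [Fintype κ] [DecidableEq κ] [WRel κ]
  {D : Par Λ κ} {sp : ℕ → Finset Λ} {ρ : ℕ → ℝ} {Al : Finset ℕ} {P : Bld532.Par}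
  {W : ℕ → ℝ} {U : ℕ → Finset ℕ} {CL C1 c₀ K : ℝ} {p0 : ℕ} {stp : Stp Λ κ}
  {Qp : NS → IT → Prop}

/-- the items of the missing side go there -/
lemma ndv (hab : ∀ j, D.al j ≤ D.be j) {b pr p : ℕ} {Sp : Finset ℕ} {t₁ t₀ : IT} {A : Finset Λ}
    {d : DT Λ κ} (h : SideI D sp b pr (.br p Sp t₁ t₀) A d) {j : Λ} (hj : D.it j ∈ t₀.items)
    (hm : mI d j ≠ 0) : ¬ dvM mI d j := by
  have h1 : mI (D.toDT sp b pr (.br p Sp t₁ t₀)) j ≠ 0 := by rwa [← h.eq]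
  have h2 := DvAt_of (dv := dvM mI) hab (fun _ _ _ _ _ _ _ _ => Iff.rfl)
    (fun _ _ _ _ => Iff.rfl) h.hb h.hF h.hW h1
  rw [h.eq]
  exact fun hd => (h2.1.1 hd) hj

/-- **the cost of a one-sided column, left tie** -/
theorem os_left (H : GOS D ρ Al P W U CL C1 c₀ K p0 stp) (hK : 0 ≤ K)
    (hE : EPaid D sp ρ Al P W CL c₀ K p0)
    (hQ : ∀ u τ, Qp u τ → OB D Al P W U CL c₀ p0 u τ) {B₀ B₀' : ℕ} {x : XSt Λ κ} (hX : XI x)
    {u u' : NS} {τ τ' : IT} (h : HI D sp Qp B₀ B₀' x u u' τ τ') (hj : JS x.s u u')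
    (of : OF p0 x) (hub' : x.s.p.Prime → x.s.p ∣ u'.B → x.s.p ∈ x.u')
    (fs : ¬ stp x.s → FSL D sp ρ Qp B₀ B₀' x)
    (hl : ¬ (x.s.t.isLeaf ∨ x.s.t'.isLeaf)) (hs : ¬ stp x.s) (hOS : OSL x) :
    eOS stp x.s ≤ ∑ j ∈ x.s.A, mI x.s.t j * cL D U stp p0 j x +
      ∑ j ∈ x.s.A', mI x.s.t' j * cR D U stp p0 j x := by
  classical
  obtain ⟨⟨w, r, t₁, t₀, v, B, G, hv⟩, ⟨Sv, dd, hv'⟩, hPL⟩ := id hOS
  have mL0 : ∀ j, 0 ≤ mI x.s.t j := mI_nn h.L
  have mR0 : ∀ j, 0 ≤ mI x.s.t' j := mI_nn h.R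
  have hlL : ¬ x.s.t.isLeaf := fun h => hl (Or.inl h)
  have hlR : ¬ x.s.t'.isLeaf := fun h => hl (Or.inr h)
  obtain ⟨hpM, hw⟩ := St.not_isPL_up hPL hv hv'
  rcases toDT_br (h.L.eq.symm.trans (vw_br hv)) with
    ⟨Sq, τ₁, τ₀, hτ, -⟩ | ⟨τ₁, hτ, -, -, -, hw0, -⟩
  swap
  · exact absurd hw0 hw
  subst hτ
  have hB : Blw x.s.p τ' := Blw_of (sp := sp) (by rw [← h.R.eq]; exact hv')
    (by rw [← h.R.eq]; exact le_max_right _ _)
  have hIS := IS_of (fun u τ hq => (hQ u τ hq).nq) h hj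
  obtain ⟨hpp, lv⟩ := hIS.lvp hlL hlR
  have hp0 : p0 ≤ x.s.p := of.oi.p_ge hl
  have hp40 : 2^40 ≤ x.s.p := H.num.big.trans hp0
  have hni := H.ni _ hp0
  have n1 := hQ _ _ h.qL.self
  have n2 := hQ _ _ h.qR.self
  have fL : NF D Al CL c₀ x.s.p u (.br x.s.p Sq τ₁ τ₀) x.s.A :=
    ⟨h.ilL, n1.lg x.s.p hp0 lv.le, n1.mean, n1.ph, n1.ms⟩
  have fR : NF D Al CL c₀ x.s.p u' τ' x.s.A' :=
    ⟨h.ilR, n2.lg x.s.p hp0 lv.le', n2.mean, n2.ph, n2.ms⟩
  have nsL := ns_left hIS hlL hlR (Or.inl hpM) fL (H.Ut _ hp0)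
  have nsR := ns_right hIS hlL hlR (Or.inr hB) fR (H.Ut _ hp0)
  have hle : ¬ stp x.s → ∑ l ∈ x.s.M.primeFactors, (l:ℝ)^(-(11/12):ℝ) ≤ 1 ∧
      ∑ l ∈ x.s.M'.primeFactors, (l:ℝ)^(-(11/12):ℝ) ≤ 1 := fun _ => by
    have := of.le_one hX (by omega)
    rw [h.mL.eq, h.mR.eq]
    exact ⟨this.2, this.1⟩
  have hthird := sum_le_third of.oi (H.st x.s hs) hpp.pos
  have hbk := bk_of_nodeOk n2.nq.1
  have hc' : 0 ≤ u'.c := le_trans zero_le_one hbk.one_le_c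
  have hnl' := hIS.nl' hlR
  have hhi : 2 * (u'.c * Ws W τ'.items) ≤ (Real.log x.s.p)^C1 := by
    obtain ⟨k1, k2, k3, -⟩ := nodeOk_hi n2.nq.1 hnl'
    have k4 : tp τ' ≤ x.s.p := by rw [← hIS.top']; exact le_max_right _ _
    have := H.hi _ hp0 _ k2 k4
    linarith
  have fsl := (fs hs).1 u u' x.s.p Sq τ₁ τ₀ τ' h hj rfl hB
  have key2 := hE x.s.p hp0 u u' Sq τ₁ τ₀ τ' x.s.M x.s.M' x.s.A x.s.A' x.s.t x.s.t' h.L nsL h.R
    nsR h.mL.pos h.mR.pos hpM (by rw [h.mL.eq]; exact hthird.2) (by rw [h.mR.eq]; exact hthird.1)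
    (fun q hq hd => (blw_rd hIS.qR hB hnl' hpp hq hd).2)
  -- the items
  have pO : ∀ l ∈ x.s.O, 0 < l := fun l hl => (h.mR.prime hl).pos
  have pM : ∀ l ∈ x.s.M'.primeFactors, 0 < l := by rw [h.mR.eq]; exact pO
  have ret : ∀ l ∈ x.s.O.erase x.s.p, ∀ q ∈ τ'.items, l ∣ q / u'.A →
      l ∈ U q ∧ ¬ l ^ 2 ∣ q / u'.A := by
    intro l hl' q hq hd
    obtain ⟨hne, hlO⟩ := Finset.mem_erase.1 hl'
    have hlp := h.mR.prime hlO
    have hgt : x.s.p < l := lt_of_le_of_ne (h.mR.ge l hlO) (Ne.symm hne)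
    exact (hIS.qR.self.2 q hq).1 l hlp (hIS.gt_level hlL hlR hlp hgt).2 hd
  have hBR : ∀ j, D.it j ∈ τ'.items → x.s.M' ∣ D.it j / u'.A →
      (¬ x.s.p ∣ D.it j / u'.A ∨ x.s.p ∣ x.s.M') → BR D U x.s.O x.s.p x.s.M' j := by
    intro j hjt h1 h2
    refine ⟨fun l hl' => ?_, ?_⟩
    · have hlO := Finset.mem_of_mem_erase hl'
      have hlM : l ∣ x.s.M' := by
        have : l ∈ x.s.M'.primeFactors := by rw [h.mR.eq]; exact hlO
        exact Nat.dvd_of_mem_primeFactors this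
      obtain ⟨k1, k2⟩ := ret l hl' _ hjt (hlM.trans h1)
      exact ⟨k1, fun hd => k2 (hd.trans h1)⟩
    · rcases h2 with h2 | h2
      · exact Or.inl fun hd => h2 (blw_upc h.qR hQ hB hnl' hpp hjt hd)
      · exact Or.inr h2
  have hQU : ∀ j, D.it j ∈ τ'.items → x.s.p ∣ D.it j / u'.A → x.s.p ∈ U (D.it j) :=
    fun j hjt hd => (blw_rd hIS.qR hB hnl' hpp hjt hd).1
  have i1 : 0 ≤ (x.s.p:ℝ)^(-(1/3):ℝ) := by positivity
  have hKi : 0 ≤ K * (x.s.p:ℝ)^(-(1/3):ℝ) := mul_nonneg hK i1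
  by_cases hf : x.s.p ∣ u'.B
  · -- the right side has missed the tie
    have hfu := hub' hpp hf
    rw [if_pos hf] at fsl
    have key1 := os_stateY (stp := stp) H.num.cy hni h.st hB one_pos nsL nsR hc' hhi H.CL0 hp0
      (n := nn x.s.p) rfl hle fsl
    have s1 := sum_tie (A := x.s.A) (B := x.s.A.filter (fun j => D.it j ∈ τ₀.items))
      (a := fun j => cL D U stp p0 j x)
      (δ := (x.s.p:ℝ)^(1/10:ℝ) + K * (x.s.p:ℝ)^(-(1/3):ℝ)) mL0 (fun j => cL_nn j x)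
      (Finset.filter_subset _ _) fun j hj' hm =>
        (cL_tie H.num hOS hp0 (ndv hni.ab h.L (Finset.mem_filter.1 hj').2 hm)).2 hfu
    have s2 := sum_oth (A := x.s.A')
      (B := x.s.A'.filter (fun j => D.it j ∈ τ'.items))
      (BQ := x.s.A'.filter (fun j => D.it j ∈ τ'.items ∧ x.s.p ∣ D.it j / u'.A))
      (BR := x.s.A'.filter (fun j => D.it j ∈ τ'.items ∧ x.s.M' ∣ D.it j / u'.A ∧
        (¬ x.s.p ∣ D.it j / u'.A ∨ x.s.p ∣ x.s.M')))
      (a := fun j => cR D U stp p0 j x) (o := fun _ => 0)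
      (β := (x.s.p:ℝ)^(-(1/200):ℝ)) (δ := 0)
      (ε := K * (x.s.p:ℝ)^(-(1/3):ℝ)) (C := 2) mR0 (fun j => cR_nn j x) (Finset.filter_subset _ _)
      (fun j hj => by
        obtain ⟨k1, k2, k3⟩ := Finset.mem_filter.1 hj
        exact Finset.mem_filter.2 ⟨k1, k2⟩)
      (fun j hj => by
        obtain ⟨k1, k2, k3⟩ := Finset.mem_filter.1 hj
        exact Finset.mem_filter.2 ⟨k1, k2⟩)
      (fun j hj => by
        obtain ⟨k1, k2⟩ := Finset.mem_filter.1 hj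
        refine le_trans ?_ (cR_geY (D := D) (U := U) (p0 := p0) H.num hK hl hs hOS hp0 hfu (j := j))
        rw [zero_mul, add_zero]
        refine add_le_add (add_le_add le_rfl ?_) ?_
        · by_cases k3 : j ∈ x.s.A'.filter (fun j => D.it j ∈ τ'.items ∧ x.s.p ∣ D.it j / u'.A)
          · rw [if_pos k3, if_pos (hQU j k2 (Finset.mem_filter.1 k3).2.2)]
          · rw [if_neg k3]; split_ifs <;> first | exact hKi | exact le_rfl
        · by_cases k3 : j ∈ x.s.A'.filter (fun j => D.it j ∈ τ'.items ∧ x.s.M' ∣ D.it j / u'.A ∧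
              (¬ x.s.p ∣ D.it j / u'.A ∨ x.s.p ∣ x.s.M'))
          · obtain ⟨-, -, k4, k5⟩ := Finset.mem_filter.1 k3
            rw [if_pos k3, if_pos (hBR j k2 k4 k5)]
          · rw [if_neg k3]; split_ifs <;> norm_num)
    rw [zero_mul, add_zero] at s2
    linarith
  · -- the right side has not missed the tie
    rw [if_neg hf] at fsl
    have key1 := os_state3 (stp := stp) H.num.ck hni h.st hB one_pos nsL nsR hc' hhi H.CL0 hp0
      (n := nn x.s.p) rfl hle fsl.one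
    have s1 := sum_tie (A := x.s.A) (B := x.s.A.filter (fun j => D.it j ∈ τ₀.items))
      (a := fun j => cL D U stp p0 j x)
      (δ := (x.s.p:ℝ)^(-(1/6000):ℝ) + K * (x.s.p:ℝ)^(-(1/3):ℝ)) mL0 (fun j => cL_nn j x)
      (Finset.filter_subset _ _) fun j hj' hm =>
        (cL_tie H.num hOS hp0 (ndv hni.ab h.L (Finset.mem_filter.1 hj').2 hm)).1
    have s2 := sum_oth (A := x.s.A')
      (B := x.s.A'.filter (fun j => D.it j ∈ τ'.items))
      (BQ := x.s.A'.filter (fun j => D.it j ∈ τ'.items ∧ x.s.p ∣ D.it j / u'.A))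
      (BR := x.s.A'.filter (fun j => D.it j ∈ τ'.items ∧ x.s.M' ∣ D.it j / u'.A ∧
        (¬ x.s.p ∣ D.it j / u'.A ∨ x.s.p ∣ x.s.M')))
      (a := fun j => cR D U stp p0 j x)
      (o := fun j => om x.s.M'.primeFactors (D.it j / u'.A))
      (β := (x.s.p:ℝ)^(-(11/12):ℝ)) (δ := (x.s.p:ℝ)^(-(1/6000):ℝ))
      (ε := K * (x.s.p:ℝ)^(-(1/3):ℝ)) (C := 2) mR0 (fun j => cR_nn j x) (Finset.filter_subset _ _)
      (fun j hj => by
        obtain ⟨k1, k2, k3⟩ := Finset.mem_filter.1 hj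
        exact Finset.mem_filter.2 ⟨k1, k2⟩)
      (fun j hj => by
        obtain ⟨k1, k2, k3⟩ := Finset.mem_filter.1 hj
        exact Finset.mem_filter.2 ⟨k1, k2⟩)
      (fun j hj => by
        obtain ⟨k1, k2⟩ := Finset.mem_filter.1 hj
        refine le_trans ?_ (cR_ge (D := D) (U := U) (p0 := p0) H.num hK hl hs hOS hp0 (j := j)
          (o := om x.s.M'.primeFactors (D.it j / u'.A)) (om_nonneg _ _) (om_le_one pM _)
          (by
            rw [h.mR.eq]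
            exact om_gO (D := D) (U := U) fun l hl' hd => (ret l hl' _ k2 hd).1))
        refine add_le_add (add_le_add le_rfl ?_) ?_
        · by_cases k3 : j ∈ x.s.A'.filter (fun j => D.it j ∈ τ'.items ∧ x.s.p ∣ D.it j / u'.A)
          · rw [if_pos k3, if_pos (hQU j k2 (Finset.mem_filter.1 k3).2.2)]
          · rw [if_neg k3]; split_ifs <;> first | exact hKi | exact le_rfl
        · by_cases k3 : j ∈ x.s.A'.filter (fun j => D.it j ∈ τ'.items ∧ x.s.M' ∣ D.it j / u'.A ∧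
              (¬ x.s.p ∣ D.it j / u'.A ∨ x.s.p ∣ x.s.M'))
          · obtain ⟨-, -, k4, k5⟩ := Finset.mem_filter.1 k3
            rw [if_pos k3, if_pos (hBR j k2 k4 k5)]
          · rw [if_neg k3]; split_ifs <;> norm_num)
    linarith

/-- **the cost of a one-sided column, right tie** -/
theorem os_right (H : GOS D ρ Al P W U CL C1 c₀ K p0 stp) (hK : 0 ≤ K)
    (hE : EPaid D sp ρ Al P W CL c₀ K p0)
    (hQ : ∀ u τ, Qp u τ → OB D Al P W U CL c₀ p0 u τ) {B₀ B₀' : ℕ} {x : XSt Λ κ} (hX : XI x)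
    {u u' : NS} {τ τ' : IT} (h : HI D sp Qp B₀ B₀' x u u' τ τ') (hj : JS x.s u u')
    (of : OF p0 x) (hub : x.s.p.Prime → x.s.p ∣ u.B → x.s.p ∈ x.u)
    (fs : ¬ stp x.s → FSL D sp ρ Qp B₀ B₀' x)
    (hl : ¬ (x.s.t.isLeaf ∨ x.s.t'.isLeaf)) (hs : ¬ stp x.s) (hOS : OSR x) :
    eOS stp x.s ≤ ∑ j ∈ x.s.A, mI x.s.t j * cL D U stp p0 j x +
      ∑ j ∈ x.s.A', mI x.s.t' j * cR D U stp p0 j x := by
  classical
  obtain ⟨⟨w, r, t₁, t₀, v, B, G, hv'⟩, ⟨Sv, dd, hv⟩, hPR⟩ := id hOS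
  have mL0 : ∀ j, 0 ≤ mI x.s.t j := mI_nn h.L
  have mR0 : ∀ j, 0 ≤ mI x.s.t' j := mI_nn h.R
  have hlL : ¬ x.s.t.isLeaf := fun h => hl (Or.inl h)
  have hlR : ¬ x.s.t'.isLeaf := fun h => hl (Or.inr h)
  obtain ⟨hpM, hw⟩ := St.not_isPR_up hPR hv hv'
  rcases toDT_br (h.R.eq.symm.trans (vw_br hv')) with
    ⟨Sq, τ₁, τ₀, hτ, -⟩ | ⟨τ₁, hτ, -, -, -, hw0, -⟩
  swap
  · exact absurd hw0 hw
  subst hτ
  have hB : Blw x.s.p τ := Blw_of (sp := sp) (by rw [← h.L.eq]; exact hv)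
    (by rw [← h.L.eq]; exact le_max_left _ _)
  have hIS := IS_of (fun u τ hq => (hQ u τ hq).nq) h hj
  obtain ⟨hpp, lv⟩ := hIS.lvp hlL hlR
  have hp0 : p0 ≤ x.s.p := of.oi.p_ge hl
  have hp40 : 2^40 ≤ x.s.p := H.num.big.trans hp0
  have hni := H.ni _ hp0
  have n1 := hQ _ _ h.qL.self
  have n2 := hQ _ _ h.qR.self
  have fL : NF D Al CL c₀ x.s.p u τ x.s.A :=
    ⟨h.ilL, n1.lg x.s.p hp0 lv.le, n1.mean, n1.ph, n1.ms⟩
  have fR : NF D Al CL c₀ x.s.p u' (.br x.s.p Sq τ₁ τ₀) x.s.A' :=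
    ⟨h.ilR, n2.lg x.s.p hp0 lv.le', n2.mean, n2.ph, n2.ms⟩
  have nsL := ns_left hIS hlL hlR (Or.inr hB) fL (H.Ut _ hp0)
  have nsR := ns_right hIS hlL hlR (Or.inl hpM) fR (H.Ut _ hp0)
  have hle : ¬ stp x.s → ∑ l ∈ x.s.M.primeFactors, (l:ℝ)^(-(11/12):ℝ) ≤ 1 ∧
      ∑ l ∈ x.s.M'.primeFactors, (l:ℝ)^(-(11/12):ℝ) ≤ 1 := fun _ => by
    have := of.le_one hX (by omega)
    rw [h.mL.eq, h.mR.eq]
    exact ⟨this.2, this.1⟩
  have hthird := sum_le_third of.oi (H.st x.s hs) hpp.pos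
  have hbk := bk_of_nodeOk n1.nq.1
  have hc : 0 ≤ u.c := le_trans zero_le_one hbk.one_le_c
  have hnl := hIS.nl hlL
  have hhi : 2 * (u.c * Ws W τ.items) ≤ (Real.log x.s.p)^C1 := by
    obtain ⟨k1, k2, k3, -⟩ := nodeOk_hi n1.nq.1 hnl
    have k4 : tp τ ≤ x.s.p := by rw [← hIS.top]; exact le_max_left _ _
    have := H.hi _ hp0 _ k2 k4
    linarith
  have fsl := (fs hs).2 u u' x.s.p Sq τ τ₁ τ₀ h hj rfl hB
  have key2 := hE x.s.p hp0 u' u Sq τ₁ τ₀ τ x.s.M' x.s.M x.s.A' x.s.A x.s.t' x.s.t h.R nsR h.L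
    nsL h.mR.pos h.mL.pos hpM (by rw [h.mR.eq]; exact hthird.1) (by rw [h.mL.eq]; exact hthird.2)
    (fun q hq hd => (blw_rd hIS.qL hB hnl hpp hq hd).2)
  -- the items
  have pO : ∀ l ∈ x.s.O', 0 < l := fun l hl => (h.mL.prime hl).pos
  have pM : ∀ l ∈ x.s.M.primeFactors, 0 < l := by rw [h.mL.eq]; exact pO
  have ret : ∀ l ∈ x.s.O'.erase x.s.p, ∀ q ∈ τ.items, l ∣ q / u.A →
      l ∈ U q ∧ ¬ l ^ 2 ∣ q / u.A := by
    intro l hl' q hq hd
    obtain ⟨hne, hlO⟩ := Finset.mem_erase.1 hl'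
    have hlp := h.mL.prime hlO
    have hgt : x.s.p < l := lt_of_le_of_ne (h.mL.ge l hlO) (Ne.symm hne)
    exact (hIS.qL.self.2 q hq).1 l hlp (hIS.gt_level hlL hlR hlp hgt).1 hd
  have hBR : ∀ j, D.it j ∈ τ.items → x.s.M ∣ D.it j / u.A →
      (¬ x.s.p ∣ D.it j / u.A ∨ x.s.p ∣ x.s.M) → BR D U x.s.O' x.s.p x.s.M j := by
    intro j hjt h1 h2
    refine ⟨fun l hl' => ?_, ?_⟩
    · have hlO := Finset.mem_of_mem_erase hl'
      have hlM : l ∣ x.s.M := by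
        have : l ∈ x.s.M.primeFactors := by rw [h.mL.eq]; exact hlO
        exact Nat.dvd_of_mem_primeFactors this
      obtain ⟨k1, k2⟩ := ret l hl' _ hjt (hlM.trans h1)
      exact ⟨k1, fun hd => k2 (hd.trans h1)⟩
    · rcases h2 with h2 | h2
      · exact Or.inl fun hd => h2 (blw_upc h.qL hQ hB hnl hpp hjt hd)
      · exact Or.inr h2
  have hQU : ∀ j, D.it j ∈ τ.items → x.s.p ∣ D.it j / u.A → x.s.p ∈ U (D.it j) :=
    fun j hjt hd => (blw_rd hIS.qL hB hnl hpp hjt hd).1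
  have i1 : 0 ≤ (x.s.p:ℝ)^(-(1/3):ℝ) := by positivity
  have hKi : 0 ≤ K * (x.s.p:ℝ)^(-(1/3):ℝ) := mul_nonneg hK i1
  by_cases hf : x.s.p ∣ u.B
  · -- the left side has missed the tie
    have hfu := hub hpp hf
    rw [if_pos hf] at fsl
    have key1 := os_stateY' (stp := stp) H.num.cy hni h.st hB one_pos nsL nsR hc hhi H.CL0 hp0
      (n := nn x.s.p) rfl hle fsl
    have s1 := sum_tie (A := x.s.A') (B := x.s.A'.filter (fun j => D.it j ∈ τ₀.items))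
      (a := fun j => cR D U stp p0 j x)
      (δ := (x.s.p:ℝ)^(1/10:ℝ) + K * (x.s.p:ℝ)^(-(1/3):ℝ)) mR0 (fun j => cR_nn j x)
      (Finset.filter_subset _ _) fun j hj' hm =>
        (cR_tie H.num hOS hp0 (ndv hni.ab h.R (Finset.mem_filter.1 hj').2 hm)).2 hfu
    have s2 := sum_oth (A := x.s.A)
      (B := x.s.A.filter (fun j => D.it j ∈ τ.items))
      (BQ := x.s.A.filter (fun j => D.it j ∈ τ.items ∧ x.s.p ∣ D.it j / u.A))
      (BR := x.s.A.filter (fun j => D.it j ∈ τ.items ∧ x.s.M ∣ D.it j / u.A ∧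
        (¬ x.s.p ∣ D.it j / u.A ∨ x.s.p ∣ x.s.M)))
      (a := fun j => cL D U stp p0 j x) (o := fun _ => 0)
      (β := (x.s.p:ℝ)^(-(1/200):ℝ)) (δ := 0)
      (ε := K * (x.s.p:ℝ)^(-(1/3):ℝ)) (C := 2) mL0 (fun j => cL_nn j x) (Finset.filter_subset _ _)
      (fun j hj => by
        obtain ⟨k1, k2, k3⟩ := Finset.mem_filter.1 hj
        exact Finset.mem_filter.2 ⟨k1, k2⟩)
      (fun j hj => by
        obtain ⟨k1, k2, k3⟩ := Finset.mem_filter.1 hj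
        exact Finset.mem_filter.2 ⟨k1, k2⟩)
      (fun j hj => by
        obtain ⟨k1, k2⟩ := Finset.mem_filter.1 hj
        refine le_trans ?_ (cL_geY (D := D) (U := U) (p0 := p0) H.num hK hl hs hOS hp0 hfu (j := j))
        rw [zero_mul, add_zero]
        refine add_le_add (add_le_add le_rfl ?_) ?_
        · by_cases k3 : j ∈ x.s.A.filter (fun j => D.it j ∈ τ.items ∧ x.s.p ∣ D.it j / u.A)
          · rw [if_pos k3, if_pos (hQU j k2 (Finset.mem_filter.1 k3).2.2)]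
          · rw [if_neg k3]; split_ifs <;> first | exact hKi | exact le_rfl
        · by_cases k3 : j ∈ x.s.A.filter (fun j => D.it j ∈ τ.items ∧ x.s.M ∣ D.it j / u.A ∧
              (¬ x.s.p ∣ D.it j / u.A ∨ x.s.p ∣ x.s.M))
          · obtain ⟨-, -, k4, k5⟩ := Finset.mem_filter.1 k3
            rw [if_pos k3, if_pos (hBR j k2 k4 k5)]
          · rw [if_neg k3]; split_ifs <;> norm_num)
    rw [zero_mul, add_zero] at s2
    linarith
  · -- the left side has not missed the tie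
    rw [if_neg hf] at fsl
    have key1 := os_state3' (stp := stp) H.num.ck hni h.st hB one_pos nsL nsR hc hhi H.CL0 hp0
      (n := nn x.s.p) rfl hle fsl.one
    have s1 := sum_tie (A := x.s.A') (B := x.s.A'.filter (fun j => D.it j ∈ τ₀.items))
      (a := fun j => cR D U stp p0 j x)
      (δ := (x.s.p:ℝ)^(-(1/6000):ℝ) + K * (x.s.p:ℝ)^(-(1/3):ℝ)) mR0 (fun j => cR_nn j x)
      (Finset.filter_subset _ _) fun j hj' hm =>
        (cR_tie H.num hOS hp0 (ndv hni.ab h.R (Finset.mem_filter.1 hj').2 hm)).1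
    have s2 := sum_oth (A := x.s.A)
      (B := x.s.A.filter (fun j => D.it j ∈ τ.items))
      (BQ := x.s.A.filter (fun j => D.it j ∈ τ.items ∧ x.s.p ∣ D.it j / u.A))
      (BR := x.s.A.filter (fun j => D.it j ∈ τ.items ∧ x.s.M ∣ D.it j / u.A ∧
        (¬ x.s.p ∣ D.it j / u.A ∨ x.s.p ∣ x.s.M)))
      (a := fun j => cL D U stp p0 j x)
      (o := fun j => om x.s.M.primeFactors (D.it j / u.A))
      (β := (x.s.p:ℝ)^(-(11/12):ℝ)) (δ := (x.s.p:ℝ)^(-(1/6000):ℝ))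
      (ε := K * (x.s.p:ℝ)^(-(1/3):ℝ)) (C := 2) mL0 (fun j => cL_nn j x) (Finset.filter_subset _ _)
      (fun j hj => by
        obtain ⟨k1, k2, k3⟩ := Finset.mem_filter.1 hj
        exact Finset.mem_filter.2 ⟨k1, k2⟩)
      (fun j hj => by
        obtain ⟨k1, k2, k3⟩ := Finset.mem_filter.1 hj
        exact Finset.mem_filter.2 ⟨k1, k2⟩)
      (fun j hj => by
        obtain ⟨k1, k2⟩ := Finset.mem_filter.1 hj
        refine le_trans ?_ (cL_ge (D := D) (U := U) (p0 := p0) H.num hK hl hs hOS hp0 (j := j)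
          (o := om x.s.M.primeFactors (D.it j / u.A)) (om_nonneg _ _) (om_le_one pM _)
          (by
            rw [h.mL.eq]
            exact om_gO (D := D) (U := U) fun l hl' hd => (ret l hl' _ k2 hd).1))
        refine add_le_add (add_le_add le_rfl ?_) ?_
        · by_cases k3 : j ∈ x.s.A.filter (fun j => D.it j ∈ τ.items ∧ x.s.p ∣ D.it j / u.A)
          · rw [if_pos k3, if_pos (hQU j k2 (Finset.mem_filter.1 k3).2.2)]
          · rw [if_neg k3]; split_ifs <;> first | exact hKi | exact le_rfl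
        · by_cases k3 : j ∈ x.s.A.filter (fun j => D.it j ∈ τ.items ∧ x.s.M ∣ D.it j / u.A ∧
              (¬ x.s.p ∣ D.it j / u.A ∨ x.s.p ∣ x.s.M))
          · obtain ⟨-, -, k4, k5⟩ := Finset.mem_filter.1 k3
            rw [if_pos k3, if_pos (hBR j k2 k4 k5)]
          · rw [if_neg k3]; split_ifs <;> norm_num)
    linarith

/-- **THE COST OF A ONE-SIDED COLUMN** -/
theorem os_local (H : GOS D ρ Al P W U CL C1 c₀ K p0 stp) (hK : 0 ≤ K)
    (hE : EPaid D sp ρ Al P W CL c₀ K p0)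
    (hQ : ∀ u τ, Qp u τ → OB D Al P W U CL c₀ p0 u τ) {B₀ B₀' : ℕ} {x : XSt Λ κ} (hX : XI x)
    {u u' : NS} {τ τ' : IT} (h : HI D sp Qp B₀ B₀' x u u' τ τ') (hj : JS x.s u u')
    (of : OF p0 x) (hub : x.s.p.Prime → x.s.p ∣ u.B → x.s.p ∈ x.u)
    (hub' : x.s.p.Prime → x.s.p ∣ u'.B → x.s.p ∈ x.u')
    (fs : ¬ stp x.s → FSL D sp ρ Qp B₀ B₀' x) :
    eOS stp x.s ≤ ∑ j ∈ x.s.A, mI x.s.t j * cL D U stp p0 j x +
      ∑ j ∈ x.s.A', mI x.s.t' j * cR D U stp p0 j x := by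
  classical
  have mL0 : ∀ j, 0 ≤ mI x.s.t j := mI_nn h.L
  have mR0 : ∀ j, 0 ≤ mI x.s.t' j := mI_nn h.R
  have nL : 0 ≤ ∑ j ∈ x.s.A, mI x.s.t j * cL D U stp p0 j x :=
    Finset.sum_nonneg fun j _ => mul_nonneg (mL0 j) (cL_nn j x)
  have nR : 0 ≤ ∑ j ∈ x.s.A', mI x.s.t' j * cR D U stp p0 j x :=
    Finset.sum_nonneg fun j _ => mul_nonneg (mR0 j) (cR_nn j x)
  by_cases hl : x.s.t.isLeaf ∨ x.s.t'.isLeaf
  · have : eOS stp x.s = 0 := by unfold eOS; rw [if_pos hl]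
    linarith
  by_cases hs : stp x.s
  · have : eOS stp x.s = 0 := by unfold eOS; rw [if_neg hl, if_pos hs]
    linarith
  by_cases hP : x.s.isPL ∨ x.s.isPR
  · have : eOS stp x.s = 0 := by unfold eOS; rw [if_neg hl, if_neg hs, if_pos hP]
    linarith
  rw [not_or] at hP
  by_cases h1 : OSL x
  · exact os_left H hK hE hQ hX h hj of hub' fs hl hs h1
  by_cases h2 : OSR x
  · exact os_right H hK hE hQ hX h hj of hub fs hl hs h2
  have : eOS stp x.s = 0 := by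
    unfold eOS
    rw [if_neg hl, if_neg hs, if_neg (not_or.2 hP)]
    rcases hv : vw x.s.p x.s.t with ⟨w, r, t₁, t₀, v, B₁, G⟩ | ⟨r, t₁, t₀⟩ | ⟨Sp, d⟩ <;>
    rcases hv' : vw x.s.p x.s.t' with ⟨w', r', t₁', t₀', v', B', G'⟩ | ⟨r', t₁', t₀'⟩ | ⟨Sp', d'⟩ <;>
    try rfl
    · exact absurd ⟨⟨_, _, _, _, _, _, _, hv⟩, ⟨_, _, hv'⟩, hP.1⟩ h1
    · exact absurd ⟨⟨_, _, _, _, _, _, _, hv'⟩, ⟨_, _, hv⟩, hP.2⟩ h2
  linarith

/-! ### the walk -/

lemma Mv_u {dv : DT Λ κ → Λ → Prop} {p : ℕ} {t t₁ : DT Λ κ} {A A₁ : Finset Λ} {v v₁ : Finset ℕ}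
    {a : ℝ} {f : Λ → Prop} (h : Mv dv p t A v a f t₁ A₁ v₁) : v₁ = v ∨ v₁ = insert p v := by
  cases h <;> first | exact Or.inl rfl | exact Or.inr rfl

/-- the missing ties are primes, the column is below the level of the start -/
structure JU (n₀ : ℕ) (x : XSt Λ κ) : Prop where
  p : x.s.p.Prime → x.s.p < n₀
  u : ∀ i ∈ x.u, i.Prime
  u' : ∀ i ∈ x.u', i.Prime

lemma JU.next {dv : DT Λ κ → Λ → Prop} {n₀ : ℕ} {x : XSt Λ κ} (hX : XI x) (h : JU n₀ x) :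
    ∀ e ∈ steps stp dv x, JU n₀ e.y := by
  intro e he
  obtain ⟨hpp, -⟩ := steps_p hX he
  obtain ⟨hm, -, -⟩ := steps_mv he
  have hs := steps_O hX e he
  refine ⟨fun _ => hs.pe.trans_lt (h.p hpp), fun i hi => ?_, fun i hi => ?_⟩
  · rcases Mv_u hm.L with k | k <;> rw [k] at hi
    · exact h.u i hi
    · rcases Finset.mem_insert.1 hi with rfl | hi
      · exact hpp
      · exact h.u i hi
  · rcases Mv_u hm.R with k | k <;> rw [k] at hi
    · exact h.u' i hi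
    · rcases Finset.mem_insert.1 hi with rfl | hi
      · exact hpp
      · exact h.u' i hi

lemma mem_of_dvd {B b p : ℕ} {v : Finset ℕ} (hb : b = B * ∏ i ∈ v, i) (hp : p.Prime)
    (hv : ∀ i ∈ v, i.Prime) (hB : ¬ p ∣ B) (hd : p ∣ b) : p ∈ v := by
  rw [hb] at hd
  rcases (hp.dvd_mul).1 hd with h | h
  · exact absurd h hB
  · obtain ⟨i, hi, h2⟩ := (hp.prime.dvd_finsetProd_iff _).1 h
    have := (Nat.prime_dvd_prime_iff_eq hp (hv i hi)).1 h2
    rw [this]; exact hi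

lemma topGe_toDT {s : NS} {t : IT} (hpp : p0 ≤ P.p0) (h : All (NodeOk P W) s t) :
    (D.toDT sp s.B s.A t).All (TopGe p0) := by
  refine D.toDT_All sp (Qp := NodeOk P W) (fun s t ht => ?_) (fun r hl => absurd trivial hl) t s h
  intro hl
  have hl2 : ¬ isL t := fun h2 => hl ((toDT_leaf D sp _ _ t).2 h2)
  have h1 := (nodeOk_hi ht hl2).2.1
  rw [toDT_top D sp _ _ t]
  omega

/-- **THE ONE-SIDED COLUMNS OF A SELF STATE** -/
theorem eOS_final (H : GOS D ρ Al P W U CL C1 c₀ K p0 stp) (hK : 0 ≤ K)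
    (hE : EPaid D sp ρ Al P W CL c₀ K p0) (spo : D.SpOk sp) (il : ∀ b, IL D.it (sp b))
    (hQ : ∀ u τ, Qp u τ → OB D Al P W U CL c₀ p0 u τ)
    {u : NS} {τ : IT} {A : Finset Λ} (hs : SideI D sp u.B u.A τ A (D.toDT sp u.B u.A τ))
    (hq : All Qp u τ) (hilA : IL D.it A) (hO : τ.Ok u.n)
    (fs : ∀ x, XI x → ¬ stp x.s → FSL D sp ρ Qp u.B u.B x)
    {Dm E K' κ₀ : ℝ} (hN : OSN (1/7000) Dm E K' κ₀ p0)
    (hsp : ∀ j ∈ A, mI (D.toDT sp u.B u.A τ) j ≠ 0 →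
      Spr p0 Dm (mtD (dvM mI) j (D.toDT sp u.B u.A τ)) ∧ Spr p0 Dm (U (D.it j))) :
    WS stp (eOS stp) (selfSt (D.toDT sp u.B u.A τ) A) ≤
      (5 * κ₀ + 2) * (2 * ∑ j ∈ A, mI (D.toDT sp u.B u.A τ) j) := by
  classical
  have hnq : ∀ u τ, Qp u τ → NQ P W U u τ := fun u τ h => (hQ u τ h).nq
  have hN' : ∀ u τ, Qp u τ → NodeOk P W u τ := fun u τ h => (hQ u τ h).nq.1
  have hp1 : 1 ≤ p0 := le_trans (by norm_num) H.num.big
  have hni := H.ni p0 le_rfl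
  set d := D.toDT sp u.B u.A τ with hd
  set I : XSt Λ κ → Prop := fun x => XI x ∧ OF p0 x ∧ JU u.n x ∧
    ∃ v v' σ σ', HI D sp Qp u.B u.B x v v' σ σ' ∧ JS x.s v v' with hIdef
  have hI : ∀ x, I x → IX p0 (dvM mI) mI x → ∀ e ∈ steps stp (dvM mI) x, I e.y := by
    intro x hx _ e he
    obtain ⟨h1, h2, h3, v, v', σ, σ', h5, h6⟩ := hx
    exact ⟨h1.next e he, h2.next hp1 H.st h1 e he, h3.next h1 e he,
      HJ.next spo il hN' h1 h5 h6 e he⟩
  have colD : d.Col u.n := D.toDT_Col sp τ u.n u.B u.A hO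
  have imD : d.All (Res927.IM (dvM mI) mI) :=
    IMI194.IM_toDT hni.ab τ u.B u.A u.n hs.hb hO hs.hF hs.hW
  have tgD : d.All (TopGe p0) := topGe_toDT H.pp0 (hq.mono hN')
  have hn : (selfSt d A).p < max u.n (d.top + 1) := by
    show max d.top d.top < _
    rw [max_self]
    exact lt_of_lt_of_le (Nat.lt_succ_self _) (le_max_right _ _)
  have colD' : d.Col (max u.n (d.top + 1)) := colD.mono (le_max_left _ _)
  have hX : IX p0 (dvM mI) mI (XSt.st (max u.n (d.top + 1)) (selfSt d A)) :=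
    IX_start (s := selfSt d A) colD' colD' hn imD imD tgD tgD rfl rfl
  have hJU : JU u.n (XSt.st (max u.n (d.top + 1)) (selfSt d A)) := by
    refine ⟨fun hp => ?_, by simp [XSt.st], by simp [XSt.st]⟩
    have e1 : (XSt.st (max u.n (d.top + 1)) (selfSt d A)).s.p = tp τ := by
      show max d.top d.top = _
      rw [max_self, hd]; exact WalkIT579.toDT_top D sp _ _ τ
    rw [e1] at hp ⊢
    have hl : ¬ isL τ := by
      intro h
      cases τ with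
      | leaf S => exact Nat.not_prime_zero hp
      | _ => exact absurd h id
    exact (top_of_nodeOk (hN' _ _ hq.self) hl).2.1
  have hx : I (XSt.st (max u.n (d.top + 1)) (selfSt d A)) :=
    ⟨hX.xi, OF.start hX.oi rfl rfl, hJU, u, u, τ, τ, HI.self hs hO hq hilA, JS.self u d A⟩
  have hbk := bk_of_nodeOk (hN' _ _ hq.self)
  have key := WS_eOS2 (stp := stp) (dv := dvM mI) (m := mI) (p0 := p0) (I := I) hp1 H.st hI (K := 1)
    zero_le_one (β := βo) (fun p _ => ⟨by unfold βo; positivity, by unfold βo; rw [one_mul]⟩)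
    (re := reo D U) (ε := εo) (ε'' := εo) (fun j p => by unfold εo; positivity)
    (fun j p => by unfold εo; positivity) (ρ := ρo) (fun p => by unfold ρo; positivity)
    (fun j p hp => by
      have hp0 : (0:ℝ) < p := by
        have : 0 < p := by omega
        exact_mod_cast this
      have hp1' : (1:ℝ) ≤ p := by
        have : 1 ≤ p := by omega
        exact_mod_cast this
      unfold ρo εo
      rw [one_div, ← Real.rpow_neg_one, ← Real.rpow_add hp0]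
      exact Real.rpow_le_rpow_of_exponent_le hp1' (by norm_num))
    (ε₀ := (p0:ℝ)^(-(1/7000):ℝ)) (by positivity) (ω := ωo) ωo_le (fun l hl => H.num.half l hl)
    (C := 2) (by norm_num) (loc := eOS stp)
    (fun x hx hX => by
      obtain ⟨h1, h2, h3, v, v', σ, σ', h4, h5⟩ := hx
      have hnd : x.s.p.Prime → ¬ x.s.p ∣ u.B := fun hp hdv =>
        absurd (hbk.geB _ hp hdv) (not_le.2 (h3.p hp))
      exact os_local H hK hE hQ h1 h4 h5 h2
        (fun hp hdv => mem_of_dvd h4.bL hp h3.u (hnd hp) hdv)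
        (fun hp hdv => mem_of_dvd h4.bR hp h3.u' (hnd hp) hdv) fun hs => fs x h1 hs)
    hx hX rfl rfl
  have hsm := hN.sm
  have e1 : ∀ j ∈ A, mI d j * (4 * 1 * (p0 : ℝ) ^ (-(1/4) : ℝ) +
      3 * ∑ q ∈ mtD (dvM mI) j d, εo j q +
      ∑ q ∈ (reo D U j).filter (fun q => q ≤ (selfSt d A).p), εo j q +
      2 * (p0:ℝ)^(-(1/7000):ℝ) + 2) ≤ mI d j * (5 * κ₀ + 2) := by
    intro j hj
    by_cases h0 : mI d j = 0
    · rw [h0]; simp
    · obtain ⟨k1, k2⟩ := hsp j hj h0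
      have g1 := hN.tail _ k1.1 k1.2
      have g2 : ∑ q ∈ (reo D U j).filter (fun q => q ≤ (selfSt d A).p), (q : ℝ) ^ (-(1/7000) : ℝ) ≤
          κ₀ := by
        refine le_trans ?_ (hN.tail _ k2.1 k2.2)
        exact Finset.sum_le_sum_of_subset_of_nonneg (Finset.filter_subset _ _)
          fun q _ _ => by positivity
      refine mul_le_mul_of_nonneg_left ?_ (hX.tc.L.self.nn j)
      unfold εo
      linarith
  refine key.trans ?_
  have e2 : ∑ j ∈ A, mI d j * (4 * 1 * (p0 : ℝ) ^ (-(1/4) : ℝ) +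
      3 * ∑ q ∈ mtD (dvM mI) j d, εo j q +
      ∑ q ∈ (reo D U j).filter (fun q => q ≤ (selfSt d A).p), εo j q +
      2 * (p0:ℝ)^(-(1/7000):ℝ) + 2) ≤ (5 * κ₀ + 2) * ∑ j ∈ A, mI d j := by
    rw [Finset.mul_sum]
    refine Finset.sum_le_sum fun j hj => (e1 j hj).trans (le_of_eq (mul_comm _ _))
  have e3 : (5 * κ₀ + 2) * (2 * ∑ j ∈ A, mI d j) = (5 * κ₀ + 2) * ∑ j ∈ A, mI d j +
      (5 * κ₀ + 2) * ∑ j ∈ A, mI d j := by ring
  rw [e3]
  exact add_le_add e2 e2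

end Crest.Agent.R4P.OSFin710
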