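import Crest.Agent.R4P.StepCut588
import Crest.Agent.R4P.NS161

/-!
R4 (S0004), powers pass: port of helper588's `R4/StepNC588` (helper6): the cut below `y` from the root
is the cut from the node.

With powers the children of an SEP / `pl` / `far` node with column `b` have the level `b + 1`, so the
cut level must be **strictly** below the level of the node (`y < u.n`).
-/

set_option autoImplicit false
set_option linter.unusedSectionVars false
set_option linter.unusedVariables false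

namespace Crest.Agent.R4P.Step588

open Crest.Agent.R4P.Cnt588 Crest.Agent.R4P.Item758
open Crest.Agent.R4P.Bld532 (NS All)

/-- the cut from the root `T` (level `n0`) is the cut from the node -/
structure NC (T : IT) (n0 : ℕ) (u : NS) (τ : IT) : Prop where
  lev : u.n ≤ n0
  ok : τ.Ok u.n
  B0 : 0 < u.B
  A0 : 0 < u.A
  mem : τ.items ⊆ T.items
  mt : ∀ q ∈ τ.items, τ.mt q ⊆ T.mt q
  cut : ∀ q ∈ τ.items, ∀ y < u.n, subt y T q = subt y τ q ∧ ppc y T q = u.A * ppc y τ q ∧
    mpc y T q = u.B * mpc y τ q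

lemma All_NC {T : IT} {n0 : ℕ} (t : IT) : ∀ (u : NS), NC T n0 u t → All (NC T n0) u t := by
  induction t with
  | leaf S => intro u h; exact h
  | br p Sp t₁ t₀ ih₁ ih₀ =>
    intro u h
    obtain ⟨hp, hn, hd, -, h1, h0⟩ := h.ok
    refine ⟨h, ih₁ _ ⟨hn.le.trans h.lev, h1, h.B0, Nat.mul_pos h.A0 hp.pos,
      fun q hq => h.mem (Finset.mem_union_left _ hq), fun q hq => ?_, fun q hq y hy => ?_⟩,
      ih₀ _ ⟨hn.le.trans h.lev, h0, Nat.mul_pos h.B0 hp.pos, h.A0,
      fun q hq => h.mem (Finset.mem_union_right _ hq), fun q hq => ?_, fun q hq y hy => ?_⟩⟩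
    · have hn : q ∉ t₀.items := Finset.disjoint_left.1 hd hq
      have := h.mt q (Finset.mem_union_left _ hq)
      simp only [IT.mt, if_neg hn] at this
      exact this
    · have hy' : y < p := hy
      have hpy : ¬ p < y := not_lt.2 hy'.le
      have hq0 : q ∉ t₀.items := Finset.disjoint_left.1 hd hq
      obtain ⟨e1, e2, e3⟩ := h.cut q (Finset.mem_union_left _ hq) y (hy'.trans hn)
      rw [subt_br1 hpy hq0] at e1
      rw [ppc_br1 hpy hq0] at e2
      rw [mpc_br1 hpy hq0] at e3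
      exact ⟨e1, by rw [e2]; show _ = u.A * p * _; ring, e3⟩
    · have := h.mt q (Finset.mem_union_right _ hq)
      simp only [IT.mt, if_pos hq] at this
      exact (Finset.subset_insert _ _).trans this
    · have hy' : y < p := hy
      have hpy : ¬ p < y := not_lt.2 hy'.le
      obtain ⟨e1, e2, e3⟩ := h.cut q (Finset.mem_union_right _ hq) y (hy'.trans hn)
      rw [subt_br0 hpy hq] at e1
      rw [ppc_br0 hpy hq] at e2
      rw [mpc_br0 hpy hq] at e3
      exact ⟨e1, e2, by rw [e3]; show _ = u.B * p * _; ring⟩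
  | add p t₁ t₀ ih₁ ih₀ =>
    intro u h
    obtain ⟨hp, hn, hd, h1, h0⟩ := h.ok
    refine ⟨h, ih₁ _ ⟨(Nat.succ_le_of_lt hn).trans h.lev, h1, h.B0, h.A0,
      fun q hq => h.mem (Finset.mem_union_left _ hq), fun q hq => ?_, fun q hq y hy => ?_⟩,
      ih₀ _ ⟨(Nat.succ_le_of_lt hn).trans h.lev, h0, h.B0, h.A0,
      fun q hq => h.mem (Finset.mem_union_right _ hq), fun q hq => ?_, fun q hq y hy => ?_⟩⟩
    · have hn : q ∉ t₀.items := Finset.disjoint_left.1 hd hq
      have := h.mt q (Finset.mem_union_left _ hq)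
      simp only [IT.mt, if_neg hn] at this
      exact this
    · have hy' : y ≤ p := Nat.lt_succ_iff.1 hy
      have hpy : ¬ p < y := not_lt.2 hy'
      have hq0 : q ∉ t₀.items := Finset.disjoint_left.1 hd hq
      obtain ⟨e1, e2, e3⟩ := h.cut q (Finset.mem_union_left _ hq) y (hy'.trans_lt hn)
      rw [subt_add1 hpy hq0] at e1
      rw [ppc_add1 hpy hq0] at e2
      rw [mpc_add1 hpy hq0] at e3
      exact ⟨e1, e2, e3⟩
    · have := h.mt q (Finset.mem_union_right _ hq)
      simp only [IT.mt, if_pos hq] at this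
      exact this
    · have hy' : y ≤ p := Nat.lt_succ_iff.1 hy
      have hpy : ¬ p < y := not_lt.2 hy'
      obtain ⟨e1, e2, e3⟩ := h.cut q (Finset.mem_union_right _ hq) y (hy'.trans_lt hn)
      rw [subt_add0 hpy hq] at e1
      rw [ppc_add0 hpy hq] at e2
      rw [mpc_add0 hpy hq] at e3
      exact ⟨e1, e2, e3⟩
  | up p Sp t ih =>
    intro u h
    obtain ⟨hp, hn, -, h1⟩ := h.ok
    refine ⟨h, ih _ ⟨hn.le.trans h.lev, h1, h.B0, h.A0, h.mem, h.mt, fun q hq y hy => ?_⟩⟩
    have hy' : y < p := hy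
    have hpy : ¬ p < y := not_lt.2 hy'.le
    obtain ⟨e1, e2, e3⟩ := h.cut q hq y (hy'.trans hn)
    rw [subt_up hpy] at e1
    rw [ppc_up hpy] at e2
    rw [mpc_up hpy] at e3
    exact ⟨e1, e2, e3⟩
  | pl p t ih =>
    intro u h
    obtain ⟨hp, hn, h1⟩ := h.ok
    refine ⟨h, ih _ ⟨(Nat.succ_le_of_lt hn).trans h.lev, h1, h.B0, Nat.mul_pos h.A0 hp.pos, h.mem,
      h.mt, fun q hq y hy => ?_⟩⟩
    have hy' : y ≤ p := Nat.lt_succ_iff.1 hy
    have hpy : ¬ p < y := not_lt.2 hy'
    obtain ⟨e1, e2, e3⟩ := h.cut q hq y (hy'.trans_lt hn)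
    rw [subt_pl hpy] at e1
    rw [ppc_pl hpy] at e2
    rw [mpc_pl hpy] at e3
    exact ⟨e1, by rw [e2]; show _ = u.A * p * _; ring, e3⟩
  | far p t₁ t₀ ih₁ ih₀ =>
    intro u h
    obtain ⟨hp, hn, hd, h1, h0⟩ := h.ok
    refine ⟨h, ih₁ _ ⟨(Nat.succ_le_of_lt hn).trans h.lev, h1, h.B0, h.A0,
      fun q hq => h.mem (Finset.mem_union_left _ hq), fun q hq => ?_, fun q hq y hy => ?_⟩,
      ih₀ _ ⟨(Nat.succ_le_of_lt hn).trans h.lev, h0, h.B0, h.A0,
      fun q hq => h.mem (Finset.mem_union_right _ hq), fun q hq => ?_, fun q hq y hy => ?_⟩⟩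
    · have hn : q ∉ t₀.items := Finset.disjoint_left.1 hd hq
      have := h.mt q (Finset.mem_union_left _ hq)
      simp only [IT.mt, if_neg hn] at this
      exact this
    · have hy' : y ≤ p := Nat.lt_succ_iff.1 hy
      have hpy : ¬ p < y := not_lt.2 hy'
      have hq0 : q ∉ t₀.items := Finset.disjoint_left.1 hd hq
      obtain ⟨e1, e2, e3⟩ := h.cut q (Finset.mem_union_left _ hq) y (hy'.trans_lt hn)
      rw [subt_far1 hpy hq0] at e1
      rw [ppc_far1 hpy hq0] at e2
      rw [mpc_far1 hpy hq0] at e3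
      exact ⟨e1, e2, e3⟩
    · have := h.mt q (Finset.mem_union_right _ hq)
      simp only [IT.mt, if_pos hq] at this
      exact this
    · have hy' : y ≤ p := Nat.lt_succ_iff.1 hy
      have hpy : ¬ p < y := not_lt.2 hy'
      obtain ⟨e1, e2, e3⟩ := h.cut q (Finset.mem_union_right _ hq) y (hy'.trans_lt hn)
      rw [subt_far0 hpy hq] at e1
      rw [ppc_far0 hpy hq] at e2
      rw [mpc_far0 hpy hq] at e3
      exact ⟨e1, e2, e3⟩

theorem All_NC_root {T : IT} {n0 : ℕ} {c : ℝ} (h : T.Ok n0) : All (NC T n0) ⟨n0, c, 1, 1⟩ T :=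
  All_NC T _ ⟨le_rfl, h, one_pos, one_pos, Finset.Subset.refl _, fun _ _ => Finset.Subset.refl _, fun q hq y hy =>
    ⟨rfl, (one_mul _).symm, (one_mul _).symm⟩⟩

end Crest.Agent.R4P.Step588
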