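import Crest.Agent.R4P.OSCtxB_14
import Crest.Agent.R4P.OSFin710
import Crest.Agent.R4P.ColE_14
import Crest.Agent.R4P.SkelPart_3
import Crest.Agent.R4P.StepNC_6

/-!
R4 (S0004), powers pass, group [O] (helper14, after helper710's `R4/OSCtx710`, `R4/OSCtxF710`):
**the one-sided columns of a context.**

* `ctx_GOS` : constants; `ctx_eOS` : at every node of the tree, for every admissible population `A`, the walk
  sum of `eOS` is at most `(4 + κ') Σ_{j ∈ A} mI j`; `part_eOS` : the fourth part of the node errors.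

Hypotheses on the world: 927's `WNM`; on the walk: `¬ stp s → ¬ stpN s`.
-/

set_option autoImplicit false
set_option linter.unusedSectionVars false
set_option linter.unusedVariables false
open Finset

namespace Crest.Agent.R4P.OSCtxF710

open Crest.Agent.R4.Tour104 Crest.Agent.R4.Tour758 Crest.Agent.R4.Avg758 Crest.Agent.R4.Clos758
open Crest.Agent.R4.ClosL758 Crest.Agent.R4.ClosG758 Crest.Agent.R4.ClosR758
open Crest.Agent.R4.Fam464 Crest.Agent.R4P.Cnt588 Crest.Agent.R4P.Walk560 Crest.Agent.R4.Piece464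
open Crest.Agent.R4P.Item758 Crest.Agent.R4P.AvgItem710 Crest.Agent.R4P.PrunePar33
open Crest.Agent.R4P.Data758 Crest.Agent.R4P.WalkIT579
open Crest.Agent.R4P.Bld532 (NS All NodeOk Bk)
open Crest.Agent.R4P.GInst194 Crest.Agent.R4P.NMW710 Crest.Agent.R4P.GSt927
open Crest.Agent.R4P.ColW710 Crest.Agent.R4P.ColY710 Crest.Agent.R4P.OSFin710
open Crest.Agent.R4P.NI927 Crest.Agent.R4P.Res927 Crest.Agent.R4P.OSWS245
open Crest.Agent.R4P.OSWI245 Crest.Agent.R4P.OSCtx710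
open Crest.Agent.R4P.Link758 Crest.Agent.R4P.LinkG758
open Crest.Agent.R4P.GFinC927 (nn)
open Crest.Agent.R4P.NMCtx927 (WNM All_lvl)
open Crest.Agent.R4P.Step588 (NDt ND1 ctx_NDt CT CT_pos tot_ge ctx_rr ctx_MsN All_All)
open Crest.Agent.R4P.Skel189 (Ctx top Part PartW ctx_sum_mI)
open Crest.Agent.R4.DeepSt579 (tq tq_nonneg tq_le_one)
open Crest.Agent.R4.Item758 (AdI)
open Crest.Agent.R4P

variable {N : Skel189.Num} {γ : ℝ} {p0 P₀ : ℕ}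

lemma CT_ge : (1 : ℝ) ≤ 2 * CT := by
  have h1 : (1 : ℝ) ≤ Real.exp (22 / Real.log 2) := Real.one_le_exp (by positivity)
  have h2 : Real.log 2 ≤ 1 := (Real.log_two_lt_d9.le).trans (by norm_num)
  have h3 : 0 < Real.log 2 := Real.log_pos one_lt_two
  unfold CT
  rw [← mul_div_assoc, le_div_iff₀ h3]
  nlinarith

/-- **constants of a context** -/
theorem ctx_GOS (N : Skel189.Num) {c₀ : ℝ} (hc₀ : 0 < c₀) :
    ∃ p₁ : ℕ, ∀ p0 ≥ p₁, ∀ (γ : ℝ) (P₀ : ℕ)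
    (X : Ctx N γ p0 P₀) (Y : Finset (ℕ × ℕ × Finset ℕ))
    (stp : Stp X.c.Lam (Lb (WL X.c.Lam) Y)),
    (∀ s : St X.c.Lam (Lb (WL X.c.Lam) Y), ¬ stp s → ¬ stpN s) →
    GOS (X.c.D.par Y) X.c.rr X.S' X.par (Crest.Agent.R4.Soft104.w X.ψ) X.c.t.uq (2 * CT)
      (N.B + N.c2 + 1) c₀ 5 p0 stp := by
  obtain ⟨p1, h1⟩ := exists_NumO CT_ge (N.B + N.c2 + 1) hc₀ (show (0:ℝ) ≤ 5 by norm_num)
  obtain ⟨p3, h3⟩ := ctx_NI N hc₀
  obtain ⟨p6, h6⟩ := ctx_Ut N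
  have hB1 := N.hB
  have hC1 := N.hC1
  have hc2 := N.hc2
  have hCT : (0 : ℝ) ≤ 2 * CT := by have := CT_pos; linarith
  refine ⟨p1 + p3 + p6 + 3 + ⌈Real.exp 2⌉₊, fun p0 hp0 γ P₀ X Y stp hst => ?_⟩
  refine ⟨h1 p0 (by omega), hCT, fun p hp => h3 p0 (by omega) γ P₀ X Y p hp,
    fun p hp => h6 p0 (by omega) γ P₀ X p hp, fun p hp k hk hkp => ?_, le_refl p0, hst⟩
  have hk0 : 3 ≤ k := by
    have : p0 < k := hk
    omega
  have hlk := Bld532.one_le_log_nat hk0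
  have hp2 : 2 ≤ Real.log p := by
    have a1 : Real.exp 2 ≤ ⌈Real.exp 2⌉₊ := Nat.le_ceil _
    have a2 : ((⌈Real.exp 2⌉₊ : ℕ) : ℝ) ≤ p := by exact_mod_cast (by omega : ⌈Real.exp 2⌉₊ ≤ p)
    have a3 : (0 : ℝ) < p := lt_of_lt_of_le (Real.exp_pos _) (a1.trans a2)
    rw [Real.le_log_iff_exp_le a3]
    linarith
  have hlp : Real.log k ≤ Real.log p :=
    Real.log_le_log (by exact_mod_cast (by omega : 0 < k)) (by exact_mod_cast hkp)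
  show 2 * Real.log k ^ N.c2 ≤ Real.log p ^ (N.B + N.c2 + 1)
  have e1 : Real.log p ^ (N.c2 + 1) = Real.log p * Real.log p ^ N.c2 := by
    rw [Real.rpow_add (by linarith), Real.rpow_one, mul_comm]
  have e2 : Real.log p ^ (N.c2 + 1) ≤ Real.log p ^ (N.B + N.c2 + 1) :=
    Real.rpow_le_rpow_of_exponent_le (by linarith) (by linarith)
  refine le_trans ?_ e2
  rw [e1]
  have h7 : Real.log k ^ N.c2 ≤ Real.log p ^ N.c2 :=
    Real.rpow_le_rpow (by linarith) hlp hc2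
  have h8 : 0 ≤ Real.log k ^ N.c2 := Real.rpow_nonneg (by linarith) _
  nlinarith

/-- the node predicate -/
def QO (X : Ctx N γ p0 P₀) (Y : Finset (ℕ × ℕ × Finset ℕ)) (c₀ : ℝ) (u : NS) (τ : IT) : Prop :=
  OB (X.c.D.par Y) X.S' X.par (Crest.Agent.R4.Soft104.w X.ψ) X.c.t.uq (2 * CT) c₀ p0 u τ ∧
    MF X.c.t u τ ∧ u.n ≤ top X.S

/-- **ONE-SIDED COLUMNS OF A CONTEXT** -/
theorem ctx_eOS (N : Skel189.Num) {c₀ κ' : ℝ} (hc₀ : 0 < c₀) (hκ : 0 < κ') : ∃ p₁ : ℕ, ∀ p0 ≥ p₁,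
    ∀ (γ : ℝ) (P₀ : ℕ) (X : Ctx N γ p0 P₀) (Y : Finset (ℕ × ℕ × Finset ℕ)), Mean X c₀ → WNM X →
    ∀ stp : Stp X.c.Lam (Lb (WL X.c.Lam) Y),
    (∀ s : St X.c.Lam (Lb (WL X.c.Lam) Y), ¬ stp s → ¬ stpN s) →
    All (fun u τ => ∀ A, AdI (X.c.D.par Y).it ((X.c.D.par Y).toG u.B u.A τ) A →
      WS stp (eOS stp) (selfSt ((X.c.D.par Y).toDT X.c.sp u.B u.A τ) A) ≤
        (4 + κ') * ∑ j ∈ A, mI ((X.c.D.par Y).toDT X.c.sp u.B u.A τ) j)
      ⟨top X.S, 1, 1, 1⟩ X.c.t := by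
  obtain ⟨a1, h1⟩ := ctx_GOS N hc₀
  obtain ⟨a2, h2⟩ := ctx_OB N (c₀ := c₀)
  obtain ⟨a3, h3⟩ := exists_OSN (1/7000) (N.B + 1) 0 0 (κ' / 10) (by norm_num) le_rfl (by positivity)
  obtain ⟨a4, h4⟩ := ColE710.exists_CEn CT_ge hc₀
  refine ⟨a1 + a2 + a3 + a4 + 3, fun p0 hp0 γ P₀ X Y hm hw stp hst => ?_⟩
  have hG := h1 p0 (by omega) γ P₀ X Y stp hst
  have hE : EPaid (X.c.D.par Y) X.c.sp X.c.rr X.S' X.par (Crest.Agent.R4.Soft104.w X.ψ) (2 * CT)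
      c₀ 5 p0 := ColE14.ePaid (h4 p0 (by omega)) hG.CL0 hG.ni
  have hQ : All (QO X Y c₀) ⟨top X.S, 1, 1, 1⟩ X.c.t := by
    refine All.mono (fun u τ hh => ?_)
      (((h2 p0 (by omega) γ P₀ X Y hm).and (MF_root X.tOk 1)).and
        (All_lvl X.c.t ⟨top X.S, 1, 1, 1⟩ X.tOk le_rfl
          (by show 0 < top X.S; unfold Skel189.top; omega)))
    exact ⟨hh.1.1, hh.1.2, hh.2.1⟩
  have hall := (((ctx_NDt X).and (ctx_mt X)).and (All_lvl X.c.t ⟨top X.S, 1, 1, 1⟩ X.tOk le_rfl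
    (by show 0 < top X.S; unfold Skel189.top; omega))).and (All_All _ _ hQ)
  refine All.mono (fun u τ hh A hA => ?_) hall
  obtain ⟨⟨⟨hND, hmt⟩, hlv, hn0, -⟩, hq⟩ := hh
  obtain ⟨hB, hF, hW, hno⟩ := ctx_side X Y hND
  have hs : SideI (X.c.D.par Y) X.c.sp u.B u.A τ A ((X.c.D.par Y).toDT X.c.sp u.B u.A τ) :=
    ⟨rfl, hB, hF, hW, hA.1, u.n, hND.self.ok⟩
  have key := eOS_final (Qp := QO X Y c₀) hG (by norm_num) hE (X.ok.spok.spOk Y)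
    (fun b => X.c.IL_sp b) (fun u τ h => h.1) hs hq hA.2 hND.self.ok
    (fun x _ _ => fsl_data X.ok Y (fun u τ h => ⟨h.2.1, h.2.2⟩) fun u τ h p Sp t₁ t₀ e => by
      have hp : p0 ≤ p := by
        subst e
        have h5 : p0 < p := h.1.nq.1.2.2.1
        exact h5.le
      exact ⟨hw.thr p hp, fun q => hw.ac p q hp⟩)
    (h3 p0 (by omega)) (fun j hj hm0 => by
      obtain ⟨k1, k2, k3⟩ := ctx_mtD X hND.self.ok hB hF hW hs hm0
      rw [k3]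
      exact ⟨ctx_mtP X (by omega) k1 (hmt _ k2), ctx_uqP X k1 (Finset.Subset.refl _)⟩)
  refine key.trans (le_of_eq ?_)
  ring

/-- **the fourth part of the node errors** -/
theorem part_eOS (N : Skel189.Num) : ∃ p₁ : ℕ, ∀ p0 ≥ p₁, ∀ (γ : ℝ) (P₀ : ℕ), 2 ≤ P₀ →
    ∀ X : Ctx N γ p0 P₀, WNM X →
    ∀ (j₀ : X.c.Lam) (Hb : NS → IT → Prop) (stp : X.STP),
    (∀ s : X.Sta, ¬ stp s → ¬ stpN s) →
    PartW X j₀ Hb stp (eOS stp) 20 := by
  obtain ⟨a2, h2⟩ := ctx_eOS N (c₀ := 1 / 2) (κ' := 1) (by norm_num) one_pos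
  obtain ⟨a3, h3⟩ := Skel189.ctx_mean N
  obtain ⟨a4, h4⟩ := ctx_sum_mI N
  refine ⟨a2 + a3 + a4, fun p0 hp0 γ P₀ hP X hw j₀ Hb stp hst => ?_⟩
  have hm : Mean X (1 / 2) := fun q hq z => (h3 p0 (by omega) γ P₀ hP X).1 q hq z
  have key := h2 p0 (by omega) γ P₀ X X.Y hm hw stp hst
  have h5 := Part.of_mI (X := X) (j₀ := j₀) (Hb := Hb)
    (E := fun u τ A => WS stp (eOS stp) (X.self u τ A)) (K := 4 + 1) (by norm_num)
    (h4 p0 (by omega) γ P₀ hP X j₀) (All.mono (fun u τ hh _ _ A hA _ => hh A hA) key)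
  exact h5.mono (by norm_num)

end Crest.Agent.R4P.OSCtxF710
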