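import Crest.Agent.R4P.SkelMain_2

/-!
R4 (S0004), POWERS (helper2): **the concrete factorisation, tags and pruned set** of the main theorem.

One shift `s = sft p0 ψ S` (`PowTag83.exists_shift`, scales `log2 p0 .. clog2 (top S)`) gives

* `N.fac = Fac.blk s`, `N.tg p q = tagN s (top S) p q`, `N.S2 = S \ Bad`.
* `TagN N` : these three choices; `TagN.hS2 : HS2 N`; `TagN.notBad`, `TagN.sep`.
* `PV_le_Kc` : `PV (top S) ≤ Kc S` for any factorisation.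
-/

set_option autoImplicit false

namespace Crest.Agent.R4P.Skel189

open Crest.Agent.R4P.Cnt588 Crest.Agent.R4.Max709 Crest.Agent.R4.Tour104
open Crest.Agent.R4.Soft104
open Crest.Agent.R4P.PowTag83
open Crest.Agent.R4P.Fac393 (Fac)

/-- bottom scale of the tags -/
def kB (p0 : ℕ) : ℕ := Nat.log 2 p0

/-- top scale of the tags -/
def kT (S : Finset ℕ) : ℕ := Nat.clog 2 (top S)

open Classical in
/-- **the shifts** -/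
noncomputable def sft (p0 : ℕ) (ψ : ℕ → ℝ) (S : Finset ℕ) : ℕ → ℕ :=
  if h : ∀ q ∈ S, 0 ≤ w ψ q then Classical.choose (exists_shift S (w ψ) h (kB p0) (kT S))
  else fun _ => 0

open Classical in
lemma sft_spec {p0 : ℕ} {ψ : ℕ → ℝ} {S : Finset ℕ} (h : ∀ q ∈ S, 0 ≤ w ψ q) :
    ∑ q ∈ S.filter (Bad (sft p0 ψ S) (kB p0) (kT S)), w ψ q ≤
      8 / 2 ^ kB p0 * ∑ q ∈ S, w ψ q := by
  unfold sft
  rw [dif_pos h]
  convert Classical.choose_spec (exists_shift S (w ψ) h (kB p0) (kT S))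

open Classical in
/-- **the further pruned set** -/
noncomputable def S2t (p0 : ℕ) (ψ : ℕ → ℝ) (S : Finset ℕ) : Finset ℕ :=
  S.filter fun q => ¬ Bad (sft p0 ψ S) (kB p0) (kT S) q

/-- the parameters use the concrete tags -/
structure TagN (N : Num) : Prop where
  fac : N.fac = fun p0 ψ S => Fac.blk (sft p0 ψ S)
  tg : N.tg = fun p0 ψ S p q => tagN (sft p0 ψ S) (top S) p q
  S2 : ∀ p0 ψ S, N.S2 p0 ψ S ⊆ S2t p0 ψ S

/-- a prune of mass `≤ 1/4 - θ` of the system can be added to the tags -/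
theorem S2t_mass {p0 : ℕ} {ψ : ℕ → ℝ} {S : Finset ℕ} (h : ∀ q ∈ S, 0 ≤ w ψ q) {k : ℕ}
    (hp : 2 ^ (3 + k) ≤ p0) :
    (1 - 1 / 2 ^ k) * Ws (w ψ) S ≤ Ws (w ψ) (S2t p0 ψ S) := by
  classical
  have h1 := sft_spec (p0 := p0) h
  have hk : 3 + k ≤ kB p0 := Nat.le_log_of_pow_le (by norm_num) hp
  have hm : 0 ≤ ∑ q ∈ S, w ψ q := Finset.sum_nonneg h
  have h2 : (8 : ℝ) / 2 ^ kB p0 ≤ 1 / 2 ^ k := by
    rw [div_le_div_iff₀ (by positivity) (by positivity), one_mul]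
    calc (8 : ℝ) * 2 ^ k = 2 ^ (3 + k) := by rw [pow_add]; norm_num
      _ ≤ 2 ^ kB p0 := pow_le_pow_right₀ (by norm_num) hk
  have h3 : ∑ q ∈ S.filter (Bad (sft p0 ψ S) (kB p0) (kT S)), w ψ q ≤
      1 / 2 ^ k * ∑ q ∈ S, w ψ q := h1.trans (mul_le_mul_of_nonneg_right h2 hm)
  have h4 := Finset.sum_filter_add_sum_filter_not S (Bad (sft p0 ψ S) (kB p0) (kT S)) (w ψ)
  unfold Ws S2t
  have e1 : (1 - 1 / 2 ^ k : ℝ) * ∑ q ∈ S, w ψ q =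
    ∑ q ∈ S, w ψ q - 1 / 2 ^ k * ∑ q ∈ S, w ψ q := by ring
  rw [e1]
  linarith

/-- `N.S2` = the tags only -/
theorem TagN.hS2 {N : Num} (h2 : N.S2 = S2t) : HS2 N := by
  classical
  refine ⟨32, fun p0 hp0 => ⟨0, fun P₀ _ ψ S hS => ?_⟩⟩
  rw [h2]
  refine ⟨Finset.filter_subset _ _, ?_⟩
  have h3 := S2t_mass (p0 := p0) (ψ := ψ) (S := S)
    (fun q _ => w_nonneg hS.nonneg q) (k := 2) (by norm_num; exact hp0)
  have e : (1 - 1 / 2 ^ 2 : ℝ) = 1 - 1 / 4 := by norm_num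
  rwa [e] at h3

/-- a further prune `Sx` of mass `≥ 7/8` -/
theorem TagN.hS2' {N : Num} {Sx : ℕ → (ℕ → ℝ) → Finset ℕ → Finset ℕ}
    (h2 : ∀ p0 ψ S, N.S2 p0 ψ S = S2t p0 ψ S ∩ Sx p0 ψ S)
    (hx : ∃ p₁ : ℕ, ∀ p0 ≥ p₁, ∃ Q₁ : ℕ, ∀ P₀ ≥ Q₁, ∀ (ψ : ℕ → ℝ) (S : Finset ℕ),
      SysM P₀ ψ S → Sx p0 ψ S ⊆ S ∧ (1 - 1 / 8) * Ws (w ψ) S ≤ Ws (w ψ) (Sx p0 ψ S)) :
    HS2 N := by
  classical
  obtain ⟨p₁, hx⟩ := hx
  refine ⟨p₁ + 64, fun p0 hp0 => ?_⟩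
  obtain ⟨Q₁, hx⟩ := hx p0 (by omega)
  refine ⟨Q₁, fun P₀ hP ψ S hS => ?_⟩
  obtain ⟨x1, x2⟩ := hx P₀ hP ψ S hS
  rw [h2]
  have hw0 : ∀ q, 0 ≤ w ψ q := fun q => w_nonneg hS.nonneg q
  have hs : S2t p0 ψ S ⊆ S := Finset.filter_subset _ _
  refine ⟨Finset.inter_subset_left.trans hs, ?_⟩
  have h3 := S2t_mass (p0 := p0) (ψ := ψ) (S := S)
    (fun q _ => w_nonneg hS.nonneg q) (k := 3) (by norm_num; omega)
  have h4 := Crest.Agent.R4P.PruneSep532.inter_mass hw0 hs x1 (ε₁ := 1 / 8) (ε₂ := 1 / 8) (by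
    have e : (1 - 1 / 2 ^ 3 : ℝ) = 1 - 1 / 8 := by norm_num
    rwa [e] at h3) x2
  have e : (1 - (1 / 8 + 1 / 8) : ℝ) = 1 - 1 / 4 := by norm_num
  rwa [e] at h4

/-- the items of `S2t` are not bad -/
lemma not_bad_S2t {p0 : ℕ} {ψ : ℕ → ℝ} {S : Finset ℕ} {q : ℕ} (h : q ∈ S2t p0 ψ S) :
    ¬ Bad (sft p0 ψ S) (kB p0) (kT S) q := by
  classical
  exact (Finset.mem_filter.1 h).2

/-- **the alive items of a context are not bad** -/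
theorem TagN.notBad {N : Num} (h : TagN N) {γ : ℝ} {p0 P₀ : ℕ} (X : Ctx N γ p0 P₀) {q : ℕ}
    (hq : q ∈ X.S') : ¬ Bad (sft p0 X.ψ X.S) (kB p0) (kT X.S) q :=
  not_bad_S2t (h.S2 p0 X.ψ X.S (X.prn.sub2 hq))

lemma TagN.fac_eq {N : Num} (h : TagN N) {γ : ℝ} {p0 P₀ : ℕ} (X : Ctx N γ p0 P₀) :
    X.fac = Fac.blk (sft p0 X.ψ X.S) := by
  show N.fac p0 X.ψ X.S = _
  rw [h.fac]

lemma TagN.tg_eq {N : Num} (h : TagN N) {γ : ℝ} {p0 P₀ : ℕ} (X : Ctx N γ p0 P₀) (p q : ℕ) :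
    X.c.tg p q = tagN (sft p0 X.ψ X.S) (top X.S) p q := by
  rw [X.tg, h.tg]

/-- `p0 ≤ p`: the bottom scale -/
lemma kB_le {p0 p : ℕ} (h : p0 ≤ p) : kB p0 ≤ Nat.log 2 p := Nat.log_mono_right h

lemma kT_ge {S : Finset ℕ} {n : ℕ} (h : n ≤ top S) : Nat.clog 2 n ≤ kT S :=
  Nat.clog_mono_right 2 h

lemma kT_ge' {S : Finset ℕ} {n : ℕ} (h : n ≤ top S) : Nat.log 2 n ≤ kT S :=
  (Nat.log_le_clog 2 n).trans (kT_ge h)

/-- **different tags: a cofactor `≥ 2 ^ p`** -/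
theorem TagN.sep {N : Num} (h : TagN N) {γ : ℝ} {p0 P₀ : ℕ} (X : Ctx N γ p0 P₀) {p q r : ℕ}
    (hq : q ∈ X.S') (hr : r ∈ X.S') (hp : p0 ≤ p) (hpt : p ≤ top X.S)
    (hne : X.c.tg p q ≠ X.c.tg p r) :
    2 ^ p ≤ q / Nat.gcd q r ∨ 2 ^ p ≤ r / Nat.gcd r q := by
  rw [h.tg_eq, h.tg_eq] at hne
  exact tagN_sep (X.sys.pos q (X.prn.sub hq)).ne' (X.sys.pos r (X.prn.sub hr)).ne'
    (h.notBad X hq) (h.notBad X hr) (kB_le hp) (kT_ge' hpt) (kT_ge' le_rfl) hne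

/-- `PV (top S) ≤ Kc S` -/
theorem PV_top_le (Fc : Fac) (S : Finset ℕ) : Fc.PV (top S) ≤ Kc S := by
  have h1 := Fc.size (top S) (by unfold top; omega)
  refine h1.trans ?_
  unfold Kc
  refine Nat.le_mul_of_pos_left _ ?_
  exact Finset.prod_pos fun i hi => by have := (Finset.mem_Icc.1 hi).1; omega

end Crest.Agent.R4P.Skel189
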