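import Crest.Agent.R4P.PruneAcc_17
import Crest.Agent.R4P.TagFac_2

/-!
R4 (S0004), POWERS (helper17): the prune of the accidents for the contexts.

* `SxA γ A B C1 c2 p0 ψ S` : the items without accidental missing ties / up primes (`NoAcc`).
* `SxA_mass` : its mass is `≥ (1 - ε)`, for `p0` large.
* `NoAcc.of` : the items of a context whose `S2` is contained in `SxA` have `NoAcc` for the tree of the
  context.
-/

set_option autoImplicit false

namespace Crest.Agent.R4P.PruneAcc17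

open Crest.Agent.R4P.Cnt588 Crest.Agent.R4P.Bld532 Crest.Agent.R4.Max709 Crest.Agent.R4.Soft104
open Crest.Agent.R4P.Skel189
open Crest.Agent.R4.DensAcc33 (Accd acc_dens)

open Classical in
/-- **the pruned set**: no accidental missing ties and up primes, target `γ`, scales `≥ (log p)^A` -/
noncomputable def SxA (γ A B C1 c2 : ℝ) (p0 : ℕ) (ψ : ℕ → ℝ) (S : Finset ℕ) : Finset ℕ :=
  S.filter fun q => NoAcc γ A (bld (Bld532.par B C1 c2 p0) (w ψ) (top S) 1 1 S) q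

/-- **mass of the pruned set** (form of `TagN.hS2'`) -/
theorem SxA_mass (γ A B C1 c2 ε : ℝ) (hε : 0 < ε) (hB : 0 ≤ B) (hC1 : 0 ≤ C1) (hc2 : 0 ≤ c2)
    (hA : 3 * (B + C1 + c2 + 3) ≤ A) :
    ∃ p₁ : ℕ, ∀ p0 ≥ p₁, ∃ Q₁ : ℕ, ∀ P₀ ≥ Q₁, ∀ (ψ : ℕ → ℝ) (S : Finset ℕ), SysM P₀ ψ S →
      SxA γ A B C1 c2 p0 ψ S ⊆ S ∧
        (1 - ε) * Ws (w ψ) S ≤ Ws (w ψ) (SxA γ A B C1 c2 p0 ψ S) := by
  classical
  obtain ⟨p1, h1⟩ := prune_ev B C1 c2 ε hε hB hC1 hc2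
  obtain ⟨p2, h2⟩ := acc_log (B + C1 + c2 + 2) (by positivity)
  refine ⟨p1 + p2, fun p0 hp0 => ⟨0, fun P₀ _ ψ S hS => ⟨Finset.filter_subset _ _, ?_⟩⟩⟩
  have key := (h1 p0 (by omega)).2 (fun B' p => Accd ((B' : ℝ) * γ) (Real.log p ^ A) p)
    (fun B' P hP => by
      have := h2 A (by linarith) P (by omega) ((B' : ℝ) * γ)
      convert this using 2)
    (w ψ) (fun q => w_nonneg hS.nonneg q) (top S) S hS.pos
  exact key

/-- **the items of a context are not accidental** -/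
theorem NoAcc.of {N : Skel189.Num} {γ : ℝ} {p0 P₀ : ℕ} {A : ℝ} (X : Ctx N γ p0 P₀)
    (h : N.S2 p0 X.ψ X.S ⊆ SxA γ A N.B N.C1 N.c2 p0 X.ψ X.S) {q : ℕ} (hq : q ∈ X.S') :
    NoAcc γ A X.c.t q := by
  classical
  have h1 := h (X.prn.sub2 hq)
  have h2 := (Finset.mem_filter.1 h1).2
  rw [X.ht]
  exact h2

end Crest.Agent.R4P.PruneAcc17
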