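import Crest.Agent.R4.StepFinNum588

/-!
R4 (S0004), powers pass, helper7 (port of helper588's `R4/StepFinNum588`): the numbers of the final item
statement of T9', with the common denominators `PV y ≤ 4 ^ (8 y ^ 4)` instead of `pml y ≤ 4 ^ y`.
-/

set_option autoImplicit false
open Filter Real

namespace Crest.Agent.R4P.StepFin588

open Crest.Agent.R4.StepNum442

/-- exponent of the cut -/
noncomputable def cc (B : ℝ) : ℝ := 1 / (64 * (B + 3))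

lemma cc_pos {B : ℝ} (hB : 0 ≤ B) : 0 < cc B := by unfold cc; positivity

lemma cc_le {B : ℝ} (hB : 0 ≤ B) : cc B ≤ 1 / 64 := by
  unfold cc
  rw [div_le_div_iff₀ (by positivity) (by norm_num)]
  nlinarith

lemma cc_mul {B : ℝ} (hB : 0 ≤ B) : 8 * (cc B * (B + 2)) ≤ 1 / 8 := by
  unfold cc
  rw [div_mul_eq_mul_div, ← mul_div_assoc, div_le_div_iff₀ (by positivity) (by norm_num)]
  nlinarith

/-- the numbers at the column `p` -/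
structure FN (B C c2 : ℝ) (p : ℕ) : Prop where
  y2 : 2 ≤ yn (cc B) p
  yp : yn (cc B) p ≤ p
  ratio : log ((p + 1 : ℕ) : ℝ) / log (yn (cc B) p) ≤ 4 / cc B
  pY : (p : ℝ) ≤ exp ((yn (cc B) p : ℝ) ^ 8)
  V : ((4 ^ (8 * yn (cc B) p ^ 4) : ℕ) : ℝ) * exp ((2 * (yn (cc B) p : ℝ) ^ 8) ^ (B + 2)) ≤
    exp ((p : ℝ) ^ (1 / 4 : ℝ))
  E : log p ^ (c2 + 2) ≤ exp ((p : ℝ) ^ (1 / 8 : ℝ))
  M : exp (log ((p + 1 : ℕ) : ℝ) ^ (C + 2)) * ((4 ^ (8 * yn (cc B) p ^ 4) : ℕ) : ℝ) ≤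
    exp ((p : ℝ) ^ (1 / 4 : ℝ))
  R : (2 * exp ((p : ℝ) ^ (1 / 8 : ℝ))) * ((4 ^ (8 * yn (cc B) p ^ 4) : ℕ) : ℝ) ≤
    exp ((p : ℝ) ^ (1 / 4 : ℝ))
  d : (yn (cc B) p : ℝ) ≤ exp ((p : ℝ) ^ (1 / 4 : ℝ))
  E1 : 1 ≤ exp ((p : ℝ) ^ (1 / 8 : ℝ))
  lg : 1 ≤ log p

theorem exists_FN (B C c2 : ℝ) (hB : 0 ≤ B) (hC : 0 ≤ C) (hc2 : 0 ≤ c2) :
    ∃ N0 : ℕ, ∀ p : ℕ, N0 ≤ p → FN B C c2 p := by
  have hc := cc_pos hB
  have hc64 := cc_le hB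
  have hcm := cc_mul hB
  set c := cc B with hcdef
  obtain ⟨N1, h1⟩ := num_y hc (by linarith) 2
  obtain ⟨N2, h2⟩ := num_ratio hc (by linarith)
  set k1 : ℕ := ⌈c2 + 2⌉₊ with hk1
  set k2 : ℕ := ⌈C + 2⌉₊ with hk2
  have a1 : ∀ᶠ N : ℕ in atTop, 1 * (log N) ^ 1 ≤ (N : ℝ) ^ (c / 2) := ev_log 1 (by linarith) 1
  have a2 : ∀ᶠ N : ℕ in atTop, (2 * (2 : ℝ) ^ (B + 2)) * (N : ℝ) ^ (1 / 8 : ℝ) ≤
      (N : ℝ) ^ (1 / 4 : ℝ) := ev_pow (by norm_num) _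
  have a3 : ∀ᶠ N : ℕ in atTop, 32 * (N : ℝ) ^ (1 / 16 : ℝ) ≤ (N : ℝ) ^ (1 / 4 : ℝ) :=
    ev_pow (by norm_num) _
  have a4 : ∀ᶠ N : ℕ in atTop, 1 * (log N) ^ k1 ≤ (N : ℝ) ^ (1 / 8 : ℝ) :=
    ev_log k1 (by norm_num) 1
  have a5 : ∀ᶠ N : ℕ in atTop, (2 * 2 ^ k2) * (log N) ^ k2 ≤ (N : ℝ) ^ (1 / 4 : ℝ) :=
    ev_log k2 (by norm_num) _
  have a6 : ∀ᶠ N : ℕ in atTop, 4 * (N : ℝ) ^ (1 / 8 : ℝ) ≤ (N : ℝ) ^ (1 / 4 : ℝ) :=
    ev_pow (by norm_num) _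
  have a8 : ∀ᶠ N : ℕ in atTop, (4 : ℝ) ≤ (N : ℝ) ^ (1 / 4 : ℝ) := ev_const (by norm_num) _
  have a9 : ∀ᶠ N : ℕ in atTop, (exp 1 : ℝ) ≤ N :=
    tendsto_natCast_atTop_atTop.eventually_ge_atTop _
  obtain ⟨N3, h3⟩ := eventually_atTop.1 (a1.and (a2.and (a3.and (a4.and (a5.and (a6.and
    (a8.and a9)))))))
  refine ⟨N1 + N2 + N3, fun p hp => ?_⟩
  obtain ⟨y1, y2, y3, y4, y5, y6⟩ := h1 p (by omega)
  obtain ⟨-, r2, r3⟩ := h2 p (by omega)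
  obtain ⟨b1, b2, b3, b4, b5, b6, b8, b9⟩ := h3 p (by omega)
  set y := yn c p with hy
  have hp0 : (0 : ℝ) < p := (exp_pos 1).trans_le b9
  have hp1 : (1 : ℝ) ≤ p := by
    have := Real.add_one_le_exp (1 : ℝ)
    linarith
  have hlg : 1 ≤ log p := by
    rw [Real.le_log_iff_exp_le hp0]; exact b9
  have hyR : (y : ℝ) ≤ (p : ℝ) ^ (1 / 64 : ℝ) :=
    y4.trans (Real.rpow_le_rpow_of_exponent_le hp1 hc64)
  have hy0 : (0 : ℝ) ≤ y := Nat.cast_nonneg _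
  have hy4 : (y : ℝ) ^ 4 ≤ (p : ℝ) ^ (1 / 16 : ℝ) := by
    calc (y : ℝ) ^ 4 ≤ ((p : ℝ) ^ (1 / 64 : ℝ)) ^ 4 := pow_le_pow_left₀ hy0 hyR 4
      _ = (p : ℝ) ^ (1 / 16 : ℝ) := by
        rw [← Real.rpow_natCast, ← Real.rpow_mul hp0.le]
        norm_num
  have hlog4 : log 4 ≤ 2 := by
    have := Real.log_two_lt_d9
    have e : log 4 = 2 * log 2 := by
      rw [show (4 : ℝ) = 2 ^ 2 by norm_num, Real.log_pow]; norm_num
    linarith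
  have e4 : ((4 ^ (8 * y ^ 4) : ℕ) : ℝ) = exp ((8 * y ^ 4 : ℝ) * log 4) := by
    push_cast
    rw [show (8 * (y : ℝ) ^ 4) = ((8 * y ^ 4 : ℕ) : ℝ) by push_cast; ring, Real.exp_nat_mul,
      Real.exp_log (by norm_num)]
  have h4y : (8 * (y : ℝ) ^ 4) * log 4 ≤ (p : ℝ) ^ (1 / 4 : ℝ) / 2 := by
    have h0 : (0 : ℝ) ≤ 8 * (y : ℝ) ^ 4 := by positivity
    have : (8 * (y : ℝ) ^ 4) * log 4 ≤ (8 * (y : ℝ) ^ 4) * 2 := mul_le_mul_of_nonneg_left hlog4 h0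
    linarith
  have hlp1 : log ((p + 1 : ℕ) : ℝ) ≤ 2 * log p := by
    have e : 2 * log p = log ((p : ℝ) ^ 2) := by rw [Real.log_pow]; norm_num
    rw [e]
    refine Real.log_le_log (by positivity) ?_
    push_cast
    have h2p : (2 : ℝ) ≤ p := by
      have := Real.add_one_le_exp (1 : ℝ)
      linarith
    nlinarith
  refine ⟨y1, y3, ?_, ?_, ?_, ?_, ?_, ?_, ?_, ?_, hlg⟩
  · have h5 : log ((p + 1 : ℕ) : ℝ) / log y ≤ 2 * log p / log y :=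
      div_le_div_of_nonneg_right hlp1 r2.le
    have h6 : 2 * log p / log y = 2 * (log p / log y) := by ring
    have h7 : 4 / c = 2 * (2 / c) := by ring
    rw [h7]
    rw [h6] at h5
    linarith
  · have h5 : log p ≤ (y : ℝ) ^ 8 := by
      have h6 : log p ≤ y := by
        have := b1.trans y6
        simpa using this
      have h7 : (1 : ℝ) ≤ y := hlg.trans h6
      have h8 : (y : ℝ) ≤ (y : ℝ) ^ 8 := le_self_pow₀ h7 (by norm_num)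
      linarith
    calc (p : ℝ) = exp (log p) := (Real.exp_log hp0).symm
      _ ≤ _ := Real.exp_le_exp.2 h5
  · rw [e4, ← Real.exp_add]
    apply Real.exp_le_exp.2
    have h5 : (2 * (y : ℝ) ^ 8) ^ (B + 2) ≤ (p : ℝ) ^ (1 / 4 : ℝ) / 2 := by
      have h6 : (2 * (y : ℝ) ^ 8) ^ (B + 2) = 2 ^ (B + 2) * ((y : ℝ) ^ 8) ^ (B + 2) :=
        Real.mul_rpow (by norm_num) (by positivity)
      have h7 : ((y : ℝ) ^ 8) ^ (B + 2) ≤ (p : ℝ) ^ (1 / 8 : ℝ) := by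
        calc ((y : ℝ) ^ 8) ^ (B + 2) ≤ (((p : ℝ) ^ c) ^ 8) ^ (B + 2) :=
              Real.rpow_le_rpow (by positivity) (pow_le_pow_left₀ (Nat.cast_nonneg _) y4 8)
                (by linarith)
          _ = (p : ℝ) ^ (8 * (c * (B + 2))) := by
              rw [← Real.rpow_natCast ((p : ℝ) ^ c) 8, ← Real.rpow_mul hp0.le,
                ← Real.rpow_mul hp0.le]
              congr 1
              push_cast
              ring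
          _ ≤ _ := Real.rpow_le_rpow_of_exponent_le hp1 hcm
      rw [h6]
      have h8 : (2 : ℝ) ^ (B + 2) * ((y : ℝ) ^ 8) ^ (B + 2) ≤
          2 ^ (B + 2) * (p : ℝ) ^ (1 / 8 : ℝ) :=
        mul_le_mul_of_nonneg_left h7 (by positivity)
      linarith
    linarith
  · have h5 : log p ^ (c2 + 2) ≤ log p ^ k1 := by
      rw [← Real.rpow_natCast]
      exact Real.rpow_le_rpow_of_exponent_le hlg (Nat.le_ceil _)
    have h6 : (p : ℝ) ^ (1 / 8 : ℝ) ≤ exp ((p : ℝ) ^ (1 / 8 : ℝ)) := by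
      have := Real.add_one_le_exp ((p : ℝ) ^ (1 / 8 : ℝ))
      linarith
    linarith
  · rw [e4, ← Real.exp_add]
    apply Real.exp_le_exp.2
    have h5 : log ((p + 1 : ℕ) : ℝ) ^ (C + 2) ≤ (p : ℝ) ^ (1 / 4 : ℝ) / 2 := by
      have h0 : 0 ≤ log ((p + 1 : ℕ) : ℝ) := Real.log_natCast_nonneg _
      calc log ((p + 1 : ℕ) : ℝ) ^ (C + 2) ≤ (2 * log p) ^ (C + 2) :=
            Real.rpow_le_rpow h0 hlp1 (by linarith)
        _ ≤ (2 * log p) ^ (k2 : ℝ) :=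
            Real.rpow_le_rpow_of_exponent_le (by linarith) (Nat.le_ceil _)
        _ = 2 ^ k2 * log p ^ k2 := by rw [Real.rpow_natCast, mul_pow]
        _ ≤ _ := by linarith
    linarith
  · have e3 : (2 : ℝ) * exp ((p : ℝ) ^ (1 / 8 : ℝ)) =
        exp (log 2 + (p : ℝ) ^ (1 / 8 : ℝ)) := by
      rw [Real.exp_add, Real.exp_log (by norm_num)]
    rw [e3, e4, ← Real.exp_add]
    apply Real.exp_le_exp.2
    have hl2 : log 2 ≤ 1 := by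
      have := Real.log_two_lt_d9
      linarith
    linarith
  · have h5 : (y : ℝ) ≤ (p : ℝ) ^ (1 / 4 : ℝ) :=
      hyR.trans (Real.rpow_le_rpow_of_exponent_le hp1 (by norm_num))
    have := Real.add_one_le_exp ((p : ℝ) ^ (1 / 4 : ℝ))
    linarith
  · exact Real.one_le_exp (by positivity)

end Crest.Agent.R4P.StepFin588
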