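import Crest.Agent.R4.StepItem2_588
import Crest.Agent.R4P.StepItem95
import Crest.Agent.R4P.StepGood463
import Crest.Agent.R4P.StepItemZ693

/-!
R4 (S0004), powers pass, helper7: port of helper588's `R4/StepItem2_588` (and `R4/StepFat588`, which is
tree-free) to the item tree with powers: `item_step` with fat items (raised radii up to `E0`), with a general
common multiple `B = mpc * pv`, `pml y ∣ pv` (`pv = Fac.PV y`).

* `good_badE`, `item_step2`.
-/

set_option autoImplicit false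
set_option linter.unusedSectionVars false
set_option linter.unusedVariables false
open MeasureTheory Filter

namespace Crest.Agent.R4P.Step588

open Crest.Agent.R4.Tour104 Crest.Agent.R4.Tour758 Crest.Agent.R4.Avg758 Crest.Agent.R4.Clos758
open Crest.Agent.R4.ClosL758 Crest.Agent.R4.ClosG758 Crest.Agent.R4.Lam368
open Crest.Agent.R4.Piece464 Crest.Agent.R4.Fam464 Crest.Agent.R4P.Cnt588 Crest.Agent.R4P.Item758
open Crest.Agent.R4P.W363

export Crest.Agent.R4.Step588 (pc_half pc_le_card maj2 IZ2 Da_scale Da_pos'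
  badcount30E)

section
variable {Λ κ : Type*} [Fintype Λ] [DecidableEq κ] [DecidableEq Λ]

/-- **outside few windows the item sum is constant** -/
theorem good_badE {D : Par Λ κ} {P : WP} {stt : ℕ → ℕ → Option ℚ} {rtt : ℕ → ℕ → ℕ}
    {C : Finset ℕ} {dm sn : ℕ} {b pr c B : ℕ} {R : ℕ → ℝ} {t : IT} (hC : Cov D R)
    (hw : Wld D P stt rtt C) (ho : WOk D P stt C t.items dm (B * sn)) (hb : 0 < b)
    (hF : Fit b pr t) (hW : D.Wts pr t) (hbc : b = sn * c) (hB : 0 < B) (hNB : NB B t c)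
    (hfine : ∀ j, (sn : ℝ) * (D.be j - D.al j) * B ≤ 1) (hpr : 0 < pr) (hcols : cols t ⊆ C)
    {rp : ℕ → ℕ} (hrp : ∀ p ∈ cols t, ∀ q ∈ t.items, ∀ r ∈ t.items, rtt p q = rtt p r → rp q = rp r)
    {q : ℕ} (hq : q ∈ t.items) (homc : OmC D P t dm c sn pr B R rp q) (hρ₀ : 0 < P.ρ₀)
    {u v K V0 w : ℕ} (hv : 0 < v) (hK : 0 < K) {E0 : ℝ} (hE0 : 1 / 2 ≤ E0)
    (hvV : v ≤ V0) {θ ρ : ℝ} (hρ : 0 < ρ) (hρ2 : ρ ≤ 1 / 2) (hwu : w = u * v) {vr : ℕ → ℕ}
    (hvr : ∀ r ∈ t.items, rp r = rp q → 0 < vr r ∧ vr r ≤ V0 ∧ r / pr = u * vr r)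
    (hR : ∀ r ∈ t.items, rp r = rp q → 0 ≤ sn * R r ∧ sn * R r ≤ E0) :
    ∃ bad : Finset (ℕ × ℕ), bad ⊆ Finset.range K ×ˢ Finset.range v ∧
      (bad.card : ℝ) ≤ 60 * E0 * (t.items.filter (fun r => rp r = rp q)).card * B * (V0 : ℝ) ^ 2 *
        (2 ^ (dm + 2) + 1) * √K ∧
      ∀ i < K, ∀ a < v, (i, a) ∉ bad → ∀ x x' : ℝ, inw θ ρ K w i a x → inw θ ρ K w i a x' →
        Fq D b pr t c q x = Fq D b pr t c q x' := by
  classical
  have hsn : 0 < sn := Nat.pos_of_ne_zero (by rintro rfl; simp at hbc; omega)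
  have hsnR : (0 : ℝ) < sn := by exact_mod_cast hsn
  obtain ⟨bad, h1, h2, h3⟩ := badcount30E u v B K V0 hv hB hK hvV E0 hE0 θ ρ hρ hρ2 w hwu
    (t.items.filter (fun r => rp r = rp q)) vr
    (fun r hr => by
      rw [Finset.mem_filter] at hr
      exact ⟨(hvr r hr.1 hr.2).1, (hvr r hr.1 hr.2).2.1⟩)
    (fun r => crit P dm sn (R r) r) (2 ^ (dm + 2)) (by positivity)
    (fun r hr e he => by
      rw [Finset.mem_filter] at hr
      obtain ⟨a1, a2⟩ := hR r hr.1 hr.2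
      exact (crit_abs a1 he).trans a2)
    (fun r hr => by
      rw [Finset.mem_filter] at hr
      exact crit_reg hρ₀ dm hsnR (hF.item r hr.1).1)
    (fun _ => sn * D.γ)
  refine ⟨bad, h1, h2, ?_⟩
  intro i hi a ha hia x x' hx hx'
  refine good_const hC hw ho hb hF hW hbc hB hNB hfine hpr hcols hrp hq homc ?_
  intro r hr hrq e he
  have h4 := h3 i hi a ha hia x x' hx hx' r (Finset.mem_filter.2 ⟨hr, hrq⟩) e he
  rw [(hvr r hr hrq).2.2]
  exact h4


/-- **(F2)** with fat items: the item sum of a node is majorised by window functions (`IZ2`) -/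
theorem item_step2 {D : Par Λ κ} {P : WP} {stt : ℕ → ℕ → Option ℚ} {rtt : ℕ → ℕ → ℕ}
    {C : Finset ℕ} {dm b pr N y K V0 u NR q pv : ℕ} {R : ℕ → ℝ} {t : IT}
    (hpv0 : 0 < pv) (hpv : pml y ∣ pv) (hC : Cov D R)
    (hom : ∀ j a, D.om j a ≤ 1)
    (hab : ∀ j, D.al j ≤ D.be j) (hw : Wld D P stt rtt C) (hρ : 0 < P.ρ₀) (hb : 0 < b)
    (hF : Fit b pr t) (hW : D.Wts pr t) (hO : t.Ok N) (hy : y ≤ N) (hq : q ∈ t.items)
    (ho : WOk D P stt C (subt y t q).items dm (mpc y t q * pv * b))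
    (hfine : ∀ j, (b : ℝ) * (D.be j - D.al j) * ((mpc y t q * pv : ℕ) : ℝ) ≤ 1)
    (hcols : cols (subt y t q) ⊆ C)
    {rp : ℕ → ℕ} (hrp : ∀ p ∈ cols (subt y t q), ∀ q' ∈ (subt y t q).items,
      ∀ r ∈ (subt y t q).items, rtt p q' = rtt p r → rp q' = rp r)
    (hK : 0 < K) (hu : 0 < u) {v : ℕ → ℕ}
    (hv : ∀ r ∈ (subt y t q).items, rp r = rp q → r / (pr * ppc y t q) = u * v r)
    (hV : ∀ r ∈ (subt y t q).items, rp r = rp q → v r ≤ V0)
    (hper : ∀ j, D.it j ∈ (subt y t q).items → rp (D.it j) = rp q →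
      ∀ a, D.om j (a + v (D.it j)) = D.om j a) {E0 : ℝ} (hE0 : 1 / 2 ≤ E0)
    (hR : ∀ r ∈ (subt y t q).items, rp r = rp q → 0 < R r ∧ (b : ℝ) * R r ≤ E0)
    (hNR : ((subt y t q).items.filter (fun r => rp r = rp q)).card ≤ NR)
    (homc : OmC D P (subt y t q) dm (mpc y t q) b (pr * ppc y t q) (mpc y t q * pv) R rp q) :
    IZ2 (Fq D b pr t 1 q) (b * R q) K (v q) (q / pr) (b * D.γ)
      (I (Fq D b pr t 1 q) / prfc y t q +
          60 * E0 * NR * ((mpc y t q * pv : ℕ) : ℝ) * (V0 : ℝ) ^ 2 * (2 ^ (dm + 2) + 1) * √K *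
            (2 * (3 * (b * R q)) / (K * v q))) (2 * E0) := by
  classical
  set m := mpc y t q with hm_def
  set ϖ := ppc y t q with hϖ_def
  set t2 := subt y t q with ht2_def
  have hm : 0 < m := mpc_pos y t q hO
  have hϖ : 0 < ϖ := ppc_pos y t q hO
  have hq2 : q ∈ t2.items := mem_subt y t hq
  have hF2 : Fit (b * m) (pr * ϖ) t2 := Fit_subt y t q hF
  have hW2 : D.Wts (pr * ϖ) t2 := Wts_subt y t q (Fit_dj hF) hW
  have hO2 : t2.Ok y := Ok_subt y t q hO hy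
  have hb2 : 0 < b * m := Nat.mul_pos hb hm
  have hc2 : m ∣ b * m := Dvd.intro_left b rfl
  obtain ⟨hq0, hprq, -⟩ := hF2.item q hq2
  have hpr2 : 0 < pr * ϖ := Nat.pos_of_dvd_of_pos hprq hq0
  have hpr : 0 < pr := Nat.pos_of_mul_pos_right hpr2
  have hB : 0 < m * pv := Nat.mul_pos hm hpv0
  have hbR : (0 : ℝ) < b := by exact_mod_cast hb
  -- moduli
  have hvpos : ∀ r ∈ t2.items, rp r = rp q → 0 < v r := by
    intro r hr hrq
    obtain ⟨hr0, hprr, -⟩ := hF2.item r hr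
    have h1 : 0 < r / (pr * ϖ) := Nat.div_pos (Nat.le_of_dvd hr0 hprr) hpr2
    rw [hv r hr hrq] at h1
    exact Nat.pos_of_ne_zero (by rintro h; rw [h] at h1; simp at h1)
  have hvq : 0 < v q := hvpos q hq2 rfl
  have hw0 : q / (pr * ϖ) = u * v q := hv q hq2 rfl
  have hRq := hR q hq2 rfl
  have hbRq : 0 < (b : ℝ) * R q := mul_pos hbR hRq.1
  -- bad windows
  have hρ1 : 0 < min ((b : ℝ) * R q) (1/2) := lt_min hbRq (by norm_num)
  obtain ⟨bad, -, hcard, hgood⟩ := good_badE (B := m * pv) (sn := b) (θ := b * D.γ)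
    (ρ := min (b * R q) (1/2)) hC hw ho hb2 hF2 hW2 rfl hB (NB_of_Ok t2 hO2 (Nat.mul_dvd_mul_left m hpv)) hfine
    hpr2 hcols hrp
    hq2 homc hρ hvq hK hE0 (hV q hq2 rfl) hρ1 (min_le_right _ _) hw0
    (fun r hr hrq => ⟨hvpos r hr hrq, hV r hr hrq, hv r hr hrq⟩)
    (fun r hr hrq => ⟨(mul_pos hbR (hR r hr hrq).1).le, (hR r hr hrq).2⟩)
  -- majorant on the subtree
  obtain ⟨n, κ', hn1, hnR, hOk, hmaj, hI⟩ := maj2 (PB_Fq D q hb2 hF2 hW2 hc2) hu hvq hK hbRq hw0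
    (per_const hw hb2 hF2 hW2 hc2 hcols hrp hq2 hu hv hper)
    (Fq_le_arc hC hom hb2 hF2 hW2 rfl hq2) bad hgood
  have hdiv : ϖ * (q / (pr * ϖ)) = q / pr := by
    obtain ⟨k, hk⟩ := hprq
    rw [hk, Nat.mul_div_cancel_left k hpr2, mul_assoc pr ϖ k, Nat.mul_div_cancel_left _ hpr]
  have hRH : (b : ℝ) * R q ≤ 2 * E0 * min ((b : ℝ) * R q) (1/2) := by
    rcases le_or_gt ((b : ℝ) * R q) (1/2) with h | h
    · rw [min_eq_left h]
      exact le_mul_of_one_le_left hbRq.le (by linarith)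
    · rw [min_eq_right h.le]
      have := hRq.2
      linarith
  refine ⟨min ((b : ℝ) * R q) (1/2), n, wl (min ((b : ℝ) * R q) (1/2)) K,
    fun i => wl (min ((b : ℝ) * R q) (1/2)) K (i + 1), κ', hρ1, min_le_left _ _, hRH, hn1, hnR,
    ?_, ?_, ?_⟩
  · have := hOk.push hϖ
    rwa [hdiv] at this
  · intro x
    have h1 := Fq_cut (y := y) D hb hF hW hq x
    refine h1.trans ((hmaj _).trans (le_of_eq ?_))
    rw [← WF_push, hdiv]
  · have hprf0 : 0 < prfc y t q := prfc_pos y t q hO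
    have e2 : I (Fq D (b * m) (pr * ϖ) t2 m q) = I (Fq D b pr t 1 q) / prfc y t q := by
      rw [eq_div_iff hprf0.ne']
      exact I_Fq_cut D hab hb hF hW hO hq
    rw [← hdiv, I_WF_push hϖ hOk.w0 hOk.vw hOk.wt]
    refine hI.trans ?_
    rw [e2]
    have hx0 : 0 ≤ 2 * (3 * (b * R q)) / (K * v q) := by
      have := hbRq.le
      positivity
    have hcard' : (bad.card : ℝ) ≤ 60 * E0 * NR * ((m * pv : ℕ) : ℝ) * (V0 : ℝ) ^ 2 *
        (2 ^ (dm + 2) + 1) * √K := by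
      refine hcard.trans ?_
      have hNR' : ((t2.items.filter (fun r => rp r = rp q)).card : ℝ) ≤ NR := by exact_mod_cast hNR
      have h3 : (60 * E0 : ℝ) * ((t2.items.filter (fun r => rp r = rp q)).card : ℝ) ≤
          60 * E0 * NR := mul_le_mul_of_nonneg_left hNR' (by linarith)
      have h4 : (0 : ℝ) ≤ ((m * pv : ℕ) : ℝ) := Nat.cast_nonneg _
      have h5 := mul_le_mul_of_nonneg_right h3 h4
      have h6 := mul_le_mul_of_nonneg_right h5 (sq_nonneg (V0 : ℝ))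
      have h7 := mul_le_mul_of_nonneg_right h6 (show (0 : ℝ) ≤ 2 ^ (dm + 2) + 1 by positivity)
      exact mul_le_mul_of_nonneg_right h7 (Real.sqrt_nonneg _)
    have := mul_le_mul_of_nonneg_right hcard' hx0
    linarith

end

end Crest.Agent.R4P.Step588
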