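import Crest.Agent.R4.StepState2_693
import Crest.Agent.R4P.StepState_7
import Crest.Agent.R4P.StepItem2_7

/-!
R4 (S0004), helper693, **T9', (G): high_state on `IZ2`** (fat items) and its numbers.

* `pairBd_IZ2` : `PairBd` for 588's `IZ2` (`Cp = 18 H`); `ItHi2`, `ItHi2.of_flat`.
* `high_state2` : the hypothesis `hhigh` of 95's `stop_state` with `Ch = C1 ^ 2`.
* `num_high` : the error term.
-/

set_option autoImplicit false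
set_option linter.unusedSectionVars false
set_option linter.unusedVariables false
open MeasureTheory Filter

namespace Crest.Agent.R4P.Step588

open Crest.Agent.R4.Tour104 Crest.Agent.R4.Tour758 Crest.Agent.R4.Avg758 Crest.Agent.R4.Clos758
open Crest.Agent.R4.ClosL758 Crest.Agent.R4.ClosG758 Crest.Agent.R4.ClosR758 Crest.Agent.R4.Lam368
open Crest.Agent.R4.Piece464 Crest.Agent.R4.Fam464 Crest.Agent.R4P.Cnt588 Crest.Agent.R4P.Item758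
open Crest.Agent.R4P.AvgItem710 Crest.Agent.R4P.Walk560 Crest.Agent.R4P.NMW710 Crest.Agent.R4.DeepSt579
open Crest.Agent.R4P.GInst194 Crest.Agent.R4.StepNum442
open Crest.Agent.R4P.Bld532 (NS)

export Crest.Agent.R4.Step588 (pairBd_IZ2 num_high
  num_high' num_Tstop)

section
variable {Λ κ : Type*} [Fintype Λ] [DecidableEq Λ] [Fintype κ] [DecidableEq κ]

/-- **item data of the high part**, fat items -/
def ItHi2 (D : Par Λ κ) (ρ : ℕ → ℝ) (b pr : ℕ) (t : IT) (K V0 : ℕ) (C1 η H : ℝ) (q : ℕ) : Prop :=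
  ∃ k v : ℕ, k ≤ K ∧ v ≤ V0 ∧ IZ2 (Fq D b pr t 1 q) (b * ρ q) k v (q / pr) (b * D.γ)
    (C1 * (I (Fq D b pr t 1 q) + η * (b * ρ q))) H

lemma ItHi2.itHi {D : Par Λ κ} {ρ : ℕ → ℝ} {b pr : ℕ} {t : IT} {K V0 : ℕ} {C1 η H : ℝ} {q : ℕ}
    (hb : 0 < b) (hF : Fit b pr t) (hW : D.Wts pr t) (h : ItHi2 D ρ b pr t K V0 C1 η H q) :
    ItHi (fun F R K v w θ μ => PB F ∧ IZ2 F R K v w θ μ H) D ρ b pr t K V0 C1 η q := by
  obtain ⟨k, v, hk, hv, h⟩ := h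
  exact ⟨k, v, hk, hv, PB_Fq D q hb hF hW (one_dvd _), h⟩

/-- from a flat family `Db` -/
theorem ItHi2.of_flat {D Db : Par Λ κ} (hγ : Db.γ = D.γ) {ρ : ℕ → ℝ} {b pr y k v K V0 q : ℕ}
    {t : IT} {H C1 η err : ℝ} {N : ℕ} (hO : t.Ok N)
    (hiz : IZ2 (Fq Db b pr t 1 q) (b * ρ q) k v (q / pr) (b * Db.γ)
      (I (Fq Db b pr t 1 q) / prfc y t q + err) H)
    (hle : ∀ x, Fq D b pr t 1 q x ≤ Fq Db b pr t 1 q x)
    (h2 : I (Fq Db b pr t 1 q) ≤ 2 * I (Fq D b pr t 1 q)) (hnn : 0 ≤ I (Fq D b pr t 1 q))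
    (hk : k ≤ K) (hv : v ≤ V0) (hC1 : 1 ≤ C1) (hC : 2 / prfc y t q ≤ C1) (hη : 0 ≤ η)
    (herr : err ≤ η * (b * ρ q)) : ItHi2 D ρ b pr t K V0 C1 η H q := by
  refine ⟨k, v, hk, hv, ?_⟩
  rw [← hγ]
  refine hiz.mono hle ?_ le_rfl
  have hp := prfc_pos y t q hO
  have h0 : 0 ≤ (b : ℝ) * ρ q := hiz.pos.1.le
  have e1 : I (Fq Db b pr t 1 q) / prfc y t q ≤ C1 * I (Fq D b pr t 1 q) := by
    calc I (Fq Db b pr t 1 q) / prfc y t q ≤ (2 * I (Fq D b pr t 1 q)) / prfc y t q :=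
          div_le_div_of_nonneg_right h2 hp.le
      _ = (2 / prfc y t q) * I (Fq D b pr t 1 q) := by ring
      _ ≤ _ := mul_le_mul_of_nonneg_right hC hnn
  have e2 : err ≤ C1 * (η * (b * ρ q)) :=
    herr.trans (le_mul_of_one_le_left (mul_nonneg hη h0) hC1)
  calc I (Fq Db b pr t 1 q) / prfc y t q + err ≤ C1 * I (Fq D b pr t 1 q) + C1 * (η * (b * ρ q)) :=
        add_le_add e1 e2
    _ = _ := by ring

variable [WRel κ]

open Classical in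
/-- **high_state** for `IZ2` -/
theorem high_state2 {D : Par Λ κ} {ρ : ℕ → ℝ} (hR : D.Rad ρ) {sp : ℕ → Finset Λ} {s : St Λ κ}
    {u u' : NS} {τ τ' : IT} (h : StI D sp s u.B u.A τ u'.B u'.A τ') (hil : IL D.it s.A)
    (hil' : IL D.it s.A') (Al : Finset ℕ) {K V0 : ℕ} {C1 η T H : ℝ} (hT : 0 < T) (hη : 0 ≤ η)
    (hH : 0 ≤ H)
    (hI : ∀ q ∈ Qi D Al τ s.A, ItHi2 D ρ u.B u.A τ K V0 C1 η H q)
    (hI' : ∀ r ∈ Qi D Al τ' s.A', ItHi2 D ρ u'.B u'.A τ' K V0 C1 η H r) :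
    ∑ e ∈ (Qi D Al τ s.A ×ˢ Qi D Al τ' s.A').filter
        (fun e => T < Dq ρ s.M u.B u.A 1 s.M' u'.B u'.A 1 e),
        D.iF s.R (D.uA s.M u.B u.A τ s.A 1) (D.uA s.M' u'.B u'.A τ' s.A' 1) e ≤
      C1 ^ 2 * ((∑ j ∈ s.A, mI s.t j) * ∑ j ∈ s.A', mI s.t' j) +
        (C1 ^ 2 * (4 * η + η ^ 2) +
          18 * H / T * ((V0 : ℝ) * V0 * ((K * (V0 + 2)) * (K * (V0 + 2))))) *
          ((∑ q ∈ Qi D Al τ s.A, rd u.B 1 ρ q) * ∑ r ∈ Qi D Al τ' s.A', rd u'.B 1 ρ r) :=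
  high_stateQ (pairBd_IZ2 H) (by linarith) hR h hil hil' Al hT hη
    (fun q hq => (hI q hq).itHi h.L.hb h.L.hF h.L.hW)
    (fun r hr => (hI' r hr).itHi h.R.hb h.R.hF h.R.hW)

open Classical in
/-- **hhigh** of 95's `stop_state2` / `eSTOP_le2` -/
theorem high_stop2 {D : Par Λ κ} {ρ : ℕ → ℝ} (hR : D.Rad ρ) {sp : ℕ → Finset Λ} {s : St Λ κ}
    {u u' : NS} {τ τ' : IT} (h : StI D sp s u.B u.A τ u'.B u'.A τ') (hil : IL D.it s.A)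
    (hil' : IL D.it s.A') (Al : Finset ℕ) {K V0 : ℕ} {C1 η T H : ℝ} (hT : 0 < T) (hη : 0 ≤ η)
    (hH : 0 ≤ H)
    (hI : ∀ q ∈ Qi D Al τ s.A, ItHi2 D ρ u.B u.A τ K V0 C1 η H q)
    (hI' : ∀ r ∈ Qi D Al τ' s.A', ItHi2 D ρ u'.B u'.A τ' K V0 C1 η H r) :
    ∑ e ∈ (Qi D Al τ s.A ×ˢ Qi D Al τ' s.A').filter
        (fun e => T < Dq ρ s.M u.B u.A 1 s.M' u'.B u'.A 1 e),
        D.iF s.R (D.uA s.M u.B u.A τ s.A 1) (D.uA s.M' u'.B u'.A τ' s.A' 1) e ≤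
      C1 ^ 2 * ((∑ j ∈ s.A, mI s.t j) * ∑ j ∈ s.A', mI s.t' j) +
        (C1 ^ 2 * (4 * η + η ^ 2) +
          18 * H / T * ((V0 : ℝ) * V0 * ((K * (V0 + 2)) * (K * (V0 + 2))))) *
          ((∑ q ∈ Qi D Al τ s.A, (u.B : ℝ) * ρ q) * ∑ q ∈ Qi D Al τ' s.A', (u'.B : ℝ) * ρ q) := by
  have erd : ∀ (b q : ℕ), rd b 1 ρ q = (b : ℝ) * ρ q := fun b q => by
    unfold rd; rw [Nat.cast_one, div_one]
  have key := high_state2 hR h hil hil' Al hT hη hH hI hI'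
  simp only [erd] at key
  exact key

end

end Crest.Agent.R4P.Step588
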