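import Crest.Agent.R4P.StopWalk_9
import Crest.Agent.R4P.NMDef_10
import Crest.Agent.R4P.StepFin3_7
import Crest.Agent.R4P.SkelPart_3

/-!
R4 powers pass (S0004), helper9 (after helper693's `R4/StopCtx693`): **the stop symbol of a context is zero**.

* `IHi` : the item statement of T9' at all the nodes; `ctx_IHi` : it holds (helper7's `ctx_ItHi2`).
* `ctx_SB`, `ctx_GSP` : node facts and constants of a context; `ctx_eSTOP`, `part_eSTOP`.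
-/

set_option autoImplicit false
set_option linter.unusedSectionVars false
set_option linter.unusedVariables false

namespace Crest.Agent.R4P.StopCtx9

open Crest.Agent.R4.Tour104 Crest.Agent.R4.Tour758 Crest.Agent.R4.Avg758 Crest.Agent.R4.Clos758
open Crest.Agent.R4.ClosL758 Crest.Agent.R4.ClosG758 Crest.Agent.R4.ClosR758
open Crest.Agent.R4.Fam464 Crest.Agent.R4P.Cnt588 Crest.Agent.R4P.Walk560 Crest.Agent.R4.Piece464
open Crest.Agent.R4P.Item758 Crest.Agent.R4P.AvgItem710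
open Crest.Agent.R4P.Data758 Crest.Agent.R4P.WalkIT579
open Crest.Agent.R4P.Bld532 (NS All NodeOk Bk)
open Crest.Agent.R4P.GInst194 Crest.Agent.R4P.NMW710 Crest.Agent.R4P.GSt927
open Crest.Agent.R4P.Res927 Crest.Agent.R4P.OSWS245
open Crest.Agent.R4P.StopW95 Crest.Agent.R4P.StopFF95
open Crest.Agent.R4P.Link758 Crest.Agent.R4P.LinkG758
open Crest.Agent.R4P.NI927 Crest.Agent.R4P.GFinC927 Crest.Agent.R4P.NMCtx927
open Crest.Agent.R4.DeepSt579 (tq tq_nonneg tq_le_one rd)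
open Crest.Agent.R4P.Step588 (NDt ND1 ctx_NDt CT CT_pos tot_ge ctx_rr All_All ItHi2 high_stop2
  num_high' num_Tstop TagOk ctx_ItHi2)
open Crest.Agent.R4.StepNum442 (Kn)
open Crest.Agent.R4P.Skel189 (Ctx top Kc Part PartW ctx_sum_mI)
open Crest.Agent.R4P.ClosP542 (PulG)
open Crest.Agent.R4.Item758 (AdI)
open Crest.Agent.R4P

section ctx
variable {N : Skel189.Num} {γ : ℝ} {p0 P₀ : ℕ}

/-- **the item statement of T9' at all the nodes of a context** -/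
def IHi (X : Ctx N γ p0 P₀) (Y : Finset (ℕ × ℕ × Finset ℕ)) (Ch : ℝ) : Prop :=
  All (fun u τ => ¬ isL τ → ∀ q ∈ X.S', q ∈ τ.items →
    ItHi2 (X.c.D.par Y) X.c.rr u.B u.A τ (Kn (tp τ)) (Vn (tp τ)) Ch (ηn (tp τ)) (Hn (tp τ)) q)
    ⟨top X.S, 1, 1, 1⟩ X.c.t

theorem ctx_IHi (N : Skel189.Num) : ∃ Ch : ℝ, 0 < Ch ∧ ∃ p₁ : ℕ, ∀ p0 ≥ p₁, ∀ (γ : ℝ) (P₀ : ℕ),
    2 ≤ P₀ → ∀ X : Ctx N γ p0 P₀, TagOk X → X.c.d1 * Kc X.S ≤ 1 →
    (∀ p, p0 ≤ p → (2 : ℝ) ^ X.c.wp.dep p ≤ p) → ∀ Y : Finset (ℕ × ℕ × Finset ℕ), IHi X Y Ch :=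
  ctx_ItHi2 N

theorem ctx_SB (N : Skel189.Num) {c₀ : ℝ} : ∃ p₁ : ℕ, ∀ p0 ≥ p₁, ∀ (γ : ℝ) (P₀ : ℕ)
    (X : Ctx N γ p0 P₀) (Y : Finset (ℕ × ℕ × Finset ℕ)) (Ch : ℝ), Mean X c₀ → IHi X Y Ch →
    All (SB (X.c.D.par Y) X.c.rr X.S' X.par (Crest.Agent.R4.Soft104.w X.ψ) X.c.t.uq (2 * CT) c₀ Ch)
      ⟨top X.S, 1, 1, 1⟩ X.c.t := by
  have hB1 := N.hB
  have hC1 := N.hC1
  have hc2 := N.hc2
  obtain ⟨p1, h1⟩ := tot_ge N.B (N.C1 + N.c2) (by linarith)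
  obtain ⟨p2, h2⟩ := ctx_NB N (c₀ := c₀)
  refine ⟨p1 + p2 + 3, fun p0 hp0 γ P₀ X Y Ch hm hi => ?_⟩
  refine All.mono (fun u τ hh => ?_) (((ctx_NDt X).and (h2 p0 (by omega) γ P₀ X Y hm)).and hi)
  obtain ⟨⟨hN, hNB⟩, hh3⟩ := hh
  have lg : ∀ p : ℕ, p0 < p → (∀ r : ℕ, r.Prime → r < u.n → r ≤ p) → ∀ q ∈ X.S', q ∈ τ.items →
      1 ≤ 2 * CT * Real.log p * tq (q / u.A) := by
    intro p hpp h4 q hq hqt
    have key := h1 p0 (by omega) X.c.t q (ctx_pr X hq)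
      (fun l hl => (rt_prime X.c.t X.tOk q l hl).1) (p + 1) (by omega) (q / u.A)
      (Nat.pos_of_ne_zero (hN.div_ne hqt)) fun l hl1 hl2 hl3 =>
        hN.self.ge q hqt l hl1 (by
          by_contra hlt
          have := h4 l hl1 (not_le.1 hlt)
          omega) hl2
    have hlog2 : Real.log ((p + 1 : ℕ) : ℝ) ≤ 2 * Real.log p := by
      have hp2 : (2 : ℝ) ≤ p := by exact_mod_cast (by omega : 2 ≤ p)
      have h5 : ((p + 1 : ℕ) : ℝ) ≤ (p : ℝ) ^ 2 := by push_cast; nlinarith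
      have h6 : (0 : ℝ) < ((p + 1 : ℕ) : ℝ) := by push_cast; linarith
      have h7 := Real.log_le_log h6 h5
      rw [Real.log_pow] at h7
      exact_mod_cast h7
    refine key.trans ?_
    have e : ((q / u.A).totient : ℝ) / ((q / u.A : ℕ) : ℝ) = tq (q / u.A) := rfl
    rw [e]
    refine mul_le_mul_of_nonneg_right ?_ (tq_nonneg _)
    have := mul_le_mul_of_nonneg_left hlog2 CT_pos.le
    linarith
  refine ⟨hNB.nq, fun hl q hq hqt => ?_, hNB.mean, hNB.ph, hNB.ms, hh3⟩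
  have hn := nodeOk_hi hN.self.node hl
  exact lg (tp τ) hn.2.1 hn.2.2.2 q hq hqt

lemma num_Y : ∀ p : ℕ, 768 ≤ p → 2 * (p : ℝ) ≤ Real.exp (p * ((p:ℝ)^(-(1/3):ℝ)/4)) := by
  intro p hp
  have h0 : (768 : ℝ) ≤ p := by exact_mod_cast hp
  have h1 : (0 : ℝ) < p := by linarith
  set t : ℝ := p * ((p:ℝ)^(-(1/3):ℝ)/4) with ht
  have t0 : 0 ≤ t := by positivity
  have h2 := Real.pow_div_factorial_le_exp t t0 3
  have h3 : t ^ 3 = (p : ℝ) ^ 2 / 64 := by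
    have e1 : ((p : ℝ) ^ (-(1/3) : ℝ)) ^ 3 = (p : ℝ)⁻¹ := by
      rw [← Real.rpow_natCast, ← Real.rpow_mul h1.le, ← Real.rpow_neg_one]
      norm_num
    calc t ^ 3 = (p : ℝ) ^ 3 * (((p:ℝ)^(-(1/3):ℝ)) ^ 3) / 64 := by rw [ht]; ring
      _ = (p : ℝ) ^ 2 / 64 := by rw [e1]; field_simp
  have h4 : ((3 : ℕ).factorial : ℝ) = 6 := by norm_num [Nat.factorial]
  rw [h3, h4] at h2
  refine le_trans ?_ h2
  rw [div_div, le_div_iff₀ (by norm_num)]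
  nlinarith

/-- **constants of a context** -/
theorem ctx_GSP (N : Skel189.Num) {c₀ : ℝ} (hc₀ : 0 < c₀) (Ch : ℝ) :
    ∃ (N0 : ℝ) (p₁ : ℕ), ∀ p0 ≥ p₁, ∀ (γ : ℝ) (P₀ : ℕ)
    (X : Ctx N γ p0 P₀) (Y : Finset (ℕ × ℕ × Finset ℕ)),
    GSP (X.c.D.par Y) X.c.rr X.S' X.par (Crest.Agent.R4.Soft104.w X.ψ) X.c.t.uq (2 * CT)
      (N.B + N.c2 + 1) (N.c2 + 1) c₀ N0 Ch p0 := by
  obtain ⟨N0, -, h0⟩ := exists_StopCls2
  have hCT : (0 : ℝ) ≤ 2 * CT := by have := CT_pos; linarith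
  obtain ⟨p1, h1⟩ := exists_SC N0 (2 * CT) (N.c2 + 1) (c₀ / 2) hCT (by positivity)
  obtain ⟨p2, h2⟩ := exists_SF (2 * CT)
  obtain ⟨p3, h3⟩ := ctx_NI N hc₀
  obtain ⟨p4, h4⟩ := num_Tstop
  obtain ⟨p5, h5⟩ := num_high' Ch (2 * CT) (c₀ / 2)
  obtain ⟨p6, h6⟩ := ctx_Ut N
  have hB1 := N.hB
  have hC1 := N.hC1
  have hc2 := N.hc2
  refine ⟨N0, p1 + p2 + p3 + p4 + p5 + p6 + 768 + ⌈Real.exp 2⌉₊, fun p0 hp0 γ P₀ X Y => ?_⟩
  refine ⟨h0, h1.mono (by omega), h2.mono (by omega), hCT,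
    fun p hp => h3 p0 (by omega) γ P₀ X Y p hp, fun p hp k hk hkp => ?_, le_refl p0,
    fun p hp => h6 p0 (by omega) γ P₀ X p hp,
    fun p hp => h4 p (by omega), fun p hp => ?_, fun p hp => num_Y p (by omega), by omega⟩
  · have hk0 : 3 ≤ k := by
      have : p0 < k := hk
      omega
    have hlk := Bld532.one_le_log_nat hk0
    have hp2 : 2 ≤ Real.log p := by
      have a1 : Real.exp 2 ≤ ⌈Real.exp 2⌉₊ := Nat.le_ceil _
      have a2 : ((⌈Real.exp 2⌉₊ : ℕ) : ℝ) ≤ p := by exact_mod_cast (by omega : ⌈Real.exp 2⌉₊ ≤ p)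
      have a3 : (0 : ℝ) < p := lt_of_lt_of_le (Real.exp_pos _) (a1.trans a2)
      rw [Real.le_log_iff_exp_le a3]
      linarith
    have hlp : Real.log k ≤ Real.log p :=
      Real.log_le_log (by exact_mod_cast (by omega : 0 < k)) (by exact_mod_cast hkp)
    show 2 * Real.log k ^ N.c2 ≤ Real.log p ^ (N.c2 + 1)
    have e1 : Real.log p ^ (N.c2 + 1) = Real.log p * Real.log p ^ N.c2 := by
      rw [Real.rpow_add (by linarith), Real.rpow_one, mul_comm]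
    rw [e1]
    have h7 : Real.log k ^ N.c2 ≤ Real.log p ^ N.c2 :=
      Real.rpow_le_rpow (by linarith) hlp hc2
    have h8 : 0 ≤ Real.log k ^ N.c2 := Real.rpow_nonneg (by linarith) _
    nlinarith
  · have h7 := h5 p (by omega) (Vn p) (Hn p) (Tn p) (Vn_le p) (by unfold Hn; positivity) le_rfl
      le_rfl
    have e12 : 1/(2*(c₀/2)) = 1/c₀ := by congr 1; ring
    rw [e12] at h7
    exact h7

/-- the node predicate -/
def QS (X : Ctx N γ p0 P₀) (Y : Finset (ℕ × ℕ × Finset ℕ)) (c₀ Ch : ℝ)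
    (Q' : NS → IT → Prop) (u : NS) (τ : IT) : Prop :=
  SB (X.c.D.par Y) X.c.rr X.S' X.par (Crest.Agent.R4.Soft104.w X.ψ) X.c.t.uq (2 * CT) c₀ Ch u τ ∧
    MF X.c.t u τ ∧ Q' u τ

/-- **THE STOP SYMBOL OF A CONTEXT IS ZERO** -/
theorem ctx_eSTOP (N : Skel189.Num) {c₀ : ℝ} (hc₀ : 0 < c₀) (Ch : ℝ) : ∃ p₁ : ℕ, ∀ p0 ≥ p₁,
    ∀ (γ : ℝ) (P₀ : ℕ) (X : Ctx N γ p0 P₀) (Y : Finset (ℕ × ℕ × Finset ℕ)), Mean X c₀ → WNM X →
    IHi X Y Ch →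
    ∀ stp : Stp X.c.Lam (Lb (WL X.c.Lam) Y), (∀ s, stp s → stpN s) →
    (∀ s : St X.c.Lam (Lb (WL X.c.Lam) Y), ¬ stp s → ¬ stpN s) →
    ∀ (μ : TrG X.c.Lam (Lb (WL X.c.Lam) Y) → Finset X.c.Lam → ℝ)
      (ν : TrG X.c.Lam (Lb (WL X.c.Lam) Y) → ℝ) (B cμ : ℝ), 1 ≤ cμ → cμ ^ 2 * (Ch ^ 2 + 2) ≤ B →
    All (fun u τ => ∀ A, ∑ j ∈ A, mI ((X.c.D.par Y).toDT X.c.sp u.B u.A τ) j ≤
      cμ * μ ((X.c.D.par Y).toG u.B u.A τ) A) ⟨top X.S, 1, 1, 1⟩ X.c.t →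
    All (fun u τ => 0 ≤ ν ((X.c.D.par Y).toG u.B u.A τ)) ⟨top X.S, 1, 1, 1⟩ X.c.t →
    All (fun u τ => ∀ A, AdI (X.c.D.par Y).it ((X.c.D.par Y).toG u.B u.A τ) A →
      WS stp (eSTOP stp μ ν B) (selfSt ((X.c.D.par Y).toDT X.c.sp u.B u.A τ) A) ≤ 0)
      ⟨top X.S, 1, 1, 1⟩ X.c.t := by
  obtain ⟨a2, h2⟩ := ctx_SB N (c₀ := c₀)
  obtain ⟨N0, a1, h1⟩ := ctx_GSP N hc₀ Ch
  refine ⟨a1 + a2 + 3, fun p0 hp0 γ P₀ X Y hm hw hi stp hstp hst μ ν B cμ hc hB hμ hν => ?_⟩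
  have hG := h1 p0 (by omega) γ P₀ X Y
  set Q' : NS → IT → Prop := fun u τ =>
    (∀ A, ∑ j ∈ A, mI ((X.c.D.par Y).toDT X.c.sp u.B u.A τ) j ≤
      cμ * μ ((X.c.D.par Y).toG u.B u.A τ) A) ∧ 0 ≤ ν ((X.c.D.par Y).toG u.B u.A τ) with hQ'
  have hQ : All (QS X Y c₀ Ch Q') ⟨top X.S, 1, 1, 1⟩ X.c.t := by
    refine All.mono (fun u τ hh => ?_)
      (((h2 p0 (by omega) γ P₀ X Y Ch hm hi).and (MF_root X.tOk 1)).and (hμ.and hν))
    exact ⟨hh.1.1, hh.1.2, hh.2⟩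
  have hall := ((ctx_NDt X).and (All_lvl X.c.t ⟨top X.S, 1, 1, 1⟩ X.tOk le_rfl
    (by show 0 < top X.S; unfold Skel189.top; omega))).and (All_All _ _ hQ)
  refine All.mono (fun u τ hh A hA => ?_) hall
  obtain ⟨⟨hND, hlv, hn0, -⟩, hq⟩ := hh
  have hnodes := Bld532.All.mono (fun s t h => h.node) hND.all
  have hF : Fit u.B u.A τ := Bld532.Fit_of_NodeOk hnodes
  have hB' : 0 < u.B := Nat.pos_of_ne_zero hND.bk.sfB.ne_zero
  have hW : (X.c.D.par Y).Wts u.A τ := by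
    intro j hj
    rw [← hND.self.pp _ hj]
    exact X.ok.wt _ (Cf.mem_S j) _
  have hs : SideI (X.c.D.par Y) X.c.sp u.B u.A τ A ((X.c.D.par Y).toDT X.c.sp u.B u.A τ) :=
    ⟨rfl, hB', hF, hW, hA.1, u.n, hND.self.ok⟩
  refine eSTOP_final (Qp := QS X Y c₀ Ch Q') hG (X.ok.spok.spOk Y) (fun b => X.c.IL_sp b)
    (fun u τ h => h.1) hstp hst hs hq hA.2 hND.self.ok hn0 ?_ hc hB ?_ ?_
  · intro x v v' σ σ' hi hj hxn hl hl' hp hpn hbig hpr hmax ht ht' hR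
    have q1 := hi.qL.self
    have q2 := hi.qR.self
    have n1 : x.s.p < v.n := by
      have h5 := (nodeOk_hi q1.1.nq.1 (IS.nl (IS_of (Qp := QS X Y c₀ Ch Q')
        (fun u τ h => h.1.nq) hi hj) hl)).2.2.1
      rwa [ht] at h5
    have n2 : x.s.p < v'.n := by
      have h5 := (nodeOk_hi q2.1.nq.1 (IS.nl' (IS_of (Qp := QS X Y c₀ Ch Q')
        (fun u τ h => h.1.nq) hi hj) hl')).2.2.1
      rwa [ht'] at h5
    have mt1 : ∀ q, ∀ s ∈ σ.mt q, s ≤ x.n := by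
      intro q s hs
      have h5 : σ.Ok (tp σ + 1) := Step588.Ok_tp (IS.nl (IS_of (Qp := QS X Y c₀ Ch Q')
        (fun u τ h => h.1.nq) hi hj) hl) hi.okL
      have := mt_lt σ h5 q s hs
      omega
    have mt2 : ∀ q, ∀ s ∈ σ'.mt q, s ≤ x.n := by
      intro q s hs
      have h5 : σ'.Ok (tp σ' + 1) := Step588.Ok_tp (IS.nl' (IS_of (Qp := QS X Y c₀ Ch Q')
        (fun u τ h => h.1.nq) hi hj) hl') hi.okR
      have := mt_lt σ' h5 q s hs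
      omega
    have hthr : (1 : ℝ) / 2 ^ nS x.s.p ≤ X.c.wp.thr x.n := by
      refine le_trans ?_ (hw.thr x.n (by omega))
      refine one_div_le_one_div_of_le (by positivity) (pow_le_pow_right₀ (by norm_num) ?_)
      unfold nn nS
      refine Nat.floor_mono ?_
      have hlog2 : 0 < Real.log 2 := Real.log_pos (by norm_num)
      refine div_le_div_of_nonneg_right ?_ hlog2.le
      have h5 := hG.Y x.s.p hp
      have hx0 : (0 : ℝ) < x.n := by exact_mod_cast hpr.pos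
      have hx1 : (1 : ℝ) ≤ x.n := by exact_mod_cast hpr.one_le
      have h6 : (x.n : ℝ) ≤ 2 * x.s.p := by exact_mod_cast hbig
      have h7 : Real.log x.n ≤ x.s.p * ((x.s.p:ℝ)^(-(1/3):ℝ)/4) := by
        rw [Real.log_le_iff_le_exp hx0]
        exact h6.trans h5
      have h8 : 0 ≤ Real.log x.n := Real.log_nonneg hx1
      linarith
    exact fsy_data X.ok Y hi.st hj.circ q1.2.1 q2.2.1 hpr
      (fun l h1 h2 => (hmax l h1 h2).trans_lt n1) (fun l h1 h2 => (hmax l h1 h2).trans_lt n2)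
      mt1 mt2 (hxn.trans hlv) hR hthr fun q => hw.ac x.n q (by omega)
  · intro v σ A d hq hsd
    have h5 := hq.self.2.2.1 A
    rw [hsd.eq, Par.toDT_g]
    exact h5
  · intro v σ A d hq hsd
    have h5 := hq.self.2.2.2
    rw [hsd.eq, Par.toDT_g]
    exact h5

/-- **the seventh part of the node errors** -/
theorem part_eSTOP (N : Skel189.Num) : ∃ B₀ : ℝ, ∃ p₁ : ℕ, ∀ p0 ≥ p₁, ∀ (γ : ℝ) (P₀ : ℕ), 2 ≤ P₀ →
    ∀ X : Ctx N γ p0 P₀, TagOk X → X.c.d1 * Kc X.S ≤ 1 →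
    (∀ p, p0 ≤ p → (2 : ℝ) ^ X.c.wp.dep p ≤ p) → WNM X →
    ∀ (j₀ : X.c.Lam) (Hb : NS → IT → Prop) (stp : X.STP), (∀ s, stp s → stpN s) →
    (∀ s : X.Sta, ¬ stp s → ¬ stpN s) → ∀ (B η : ℝ), B₀ ≤ B → 0 ≤ η →
    PartW X j₀ Hb stp (eSTOP stp (X.tm j₀) (X.tn j₀) B) η := by
  obtain ⟨Ch, hCh, a1, h1⟩ := ctx_IHi N
  obtain ⟨a2, h2⟩ := ctx_eSTOP N (c₀ := 1 / 2) (by norm_num) Ch
  obtain ⟨a3, h3⟩ := Skel189.ctx_mean N
  obtain ⟨a4, h4⟩ := ctx_sum_mI N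
  refine ⟨4 ^ 2 * (Ch ^ 2 + 2), a1 + a2 + a3 + a4, fun p0 hp0 γ P₀ hP X hT hd1 hdep hw j₀ Hb stp
    hstp hst B η hB hη => ?_⟩
  have hm : Mean X (1 / 2) := fun q hq z => (h3 p0 (by omega) γ P₀ hP X).1 q hq z
  have hi := h1 p0 (by omega) γ P₀ hP X hT hd1 hdep X.Y
  have key := h2 p0 (by omega) γ P₀ X X.Y hm hw hi stp hstp hst (X.tm j₀) (X.tn j₀) B 4
    (by norm_num) hB (h4 p0 (by omega) γ P₀ hP X j₀) ?_
  · refine Part.zero hη (All.mono (fun u τ hh _ A hA _ => hh A hA) key)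
  · refine All.mono (fun u τ hh => ?_) (Skel189.ctx_tM_mono X j₀)
    exact (hh Finset.univ Finset.univ (Finset.Subset.refl _)).1

end ctx

end Crest.Agent.R4P.StopCtx9
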