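import Crest.Agent.R4P.Skel189

/-!
R4 (S0004), powers pass (helper6, interface of helper4): **the properties of the factorisation and
the tags of a context** used in T9'.
-/

set_option autoImplicit false

namespace Crest.Agent.R4P.Step588

open Crest.Agent.R4P.Skel189

/-- **properties of the factorisation and the tags of a context** -/
structure TagOk {N : Skel189.Num} {γ : ℝ} {p0 P₀ : ℕ} (X : Ctx N γ p0 P₀) : Prop where
  /-- equal tags at `p < y` and equal exponents at the primes `≥ y`: equal common parts -/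
  uc : ∀ ⦃p y q r A : ℕ⦄, p < y → y ≤ top X.S → q ∈ X.S → r ∈ X.S → A ∣ q → A ∣ r →
    (∀ b : ℕ, b.Prime → b ∣ A → y ≤ b) →
    (∀ l : ℕ, l.Prime → y ≤ l → (q / A).factorization l = (r / A).factorization l) →
    X.c.tg p q = X.c.tg p r → X.fac.uc y (q / A) = X.fac.uc y (r / A)
  /-- the lower parts of the alive items contain all the primes `< y` -/
  low : ∀ ⦃y q A l : ℕ⦄, p0 ≤ y → y ≤ top X.S → q ∈ X.S' → A ∣ q →
    (∀ b : ℕ, b.Prime → b ∣ A → y ≤ b) → l.Prime → l < y → l ∣ q / A → l ∣ X.fac.vc y (q / A)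

end Crest.Agent.R4P.Step588
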