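import Crest.Agent.R4P.Fac393
import Crest.Agent.R4P.PowTag83
import Crest.Agent.R4P.TagOkDef_6
import Crest.Agent.R4P.TagFac_2

/-!
R4 (S0004), powers pass, helper4: **tags and exponent blocks** (T9', tree-free).

For `Fc = Fac.blk σ` and the tags `PowTag83.tagN σ n p`:

* `blk_uc_eq` : equal tags at a column `p < y` and equal exponents at the primes `≥ y` give equal common
  parts `uc y (q / A)` (`A` composed of primes `≥ y`);
* `blk_low` : if `q` is not bad, every prime `l < y` of `q / A` divides the lower part `vc y (q / A)`.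
* `tagOk_of`, `TagN.tagOk` : `TagOk X` (the hypothesis of T9').
-/

set_option autoImplicit false

namespace Crest.Agent.R4P.TagOk4

open Crest.Agent.R4P.Fac393 Crest.Agent.R4P.PowTag83

/-- the exponent of a small prime in `q / A` -/
lemma fac_div_low {A q l y : ℕ} (hAq : A ∣ q) (hA : ∀ b : ℕ, b.Prime → b ∣ A → y ≤ b) (hly : l < y)
    (hl : l.Prime) : (q / A).factorization l = q.factorization l := by
  rw [Nat.factorization_div hAq, Finsupp.tsub_apply,
    Nat.factorization_eq_zero_of_not_dvd fun h => absurd (hA l hl h) (not_le.2 hly), Nat.sub_zero]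

/-- equal tags: equal block starts at the scale of `y` -/
lemma bst_of_tag {σ : ℕ → ℕ} {n p y q r l : ℕ} (hpy : p ≤ y) (hyn : y ≤ n) (hly : l < y)
    (hl : l.Prime) (h : tagN σ n p q = tagN σ n p r) :
    bst (σ l) (Nat.clog 2 y) (q.factorization l) = bst (σ l) (Nat.clog 2 y) (r.factorization l) := by
  have h1 : tagv σ p q l = tagv σ p r l := tagN_inj.1 h l hl (hly.trans_le hyn)
  have hy1 : y ≤ 2 ^ Nat.clog 2 y := Nat.le_pow_clog (by norm_num) y
  have h2 : scl p l ≤ Nat.clog 2 y := by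
    unfold scl
    refine max_le ?_ ?_
    · rcases Nat.eq_zero_or_pos p with h0 | h0
      · subst h0; simp
      · exact (Nat.pow_le_pow_iff_right (a := 2) (by norm_num)).1
          ((Nat.pow_log_le_self 2 h0.ne').trans (hpy.trans hy1))
    · exact (Nat.pow_le_pow_iff_right (a := 2) (by norm_num)).1
          ((Nat.pow_log_le_self 2 hl.ne_zero).trans (hly.le.trans hy1))
  have h3 : blk σ (scl p l) l q = blk σ (scl p l) l r := h1
  exact bst_eq_iff.2 (blk_nested h2 h3)

/-- **equal tags at a column of the cut tree: equal common parts** -/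
theorem blk_uc_eq {σ : ℕ → ℕ} {n p y q r A : ℕ} (hpy : p ≤ y) (hyn : y ≤ n) (hAq : A ∣ q)
    (hAr : A ∣ r) (hA : ∀ b : ℕ, b.Prime → b ∣ A → y ≤ b)
    (hge : ∀ l : ℕ, l.Prime → y ≤ l → (q / A).factorization l = (r / A).factorization l)
    (h : tagN σ n p q = tagN σ n p r) :
    (Fac.blk σ).uc y (q / A) = (Fac.blk σ).uc y (r / A) := by
  show ucB σ y (q / A) = ucB σ y (r / A)
  refine Nat.eq_of_factorization_eq (ucB_ne_zero σ _ _) (ucB_ne_zero σ _ _) fun l => ?_
  rw [factorization_ucB, factorization_ucB]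
  unfold ee
  by_cases hl : l.Prime
  · by_cases hyl : y ≤ l
    · rw [if_pos hyl, if_pos hyl, hge l hl hyl]
    · rw [if_neg hyl, if_neg hyl, fac_div_low hAq hA (not_le.1 hyl) hl,
        fac_div_low hAr hA (not_le.1 hyl) hl]
      exact bst_of_tag hpy hyn (not_le.1 hyl) hl h
  · rw [Nat.factorization_eq_zero_of_not_prime _ hl, Nat.factorization_eq_zero_of_not_prime _ hl]

/-- **the block starts leave one factor `l`** of the items which are not bad -/
theorem blk_low {σ : ℕ → ℕ} {k0 K y q A l : ℕ} (hq : q ≠ 0) (hb : ¬ Bad σ k0 K q)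
    (h0 : k0 ≤ Nat.clog 2 y) (h1 : Nat.clog 2 y ≤ K) (hAq : A ∣ q)
    (hA : ∀ b : ℕ, b.Prime → b ∣ A → y ≤ b) (hl : l.Prime) (hly : l < y) (hd : l ∣ q / A) :
    l ∣ (Fac.blk σ).vc y (q / A) := by
  show l ∣ vcB σ y (q / A)
  have hA0 : A ≠ 0 := fun h => hq (Nat.eq_zero_of_zero_dvd (h ▸ hAq))
  have hw : q / A ≠ 0 := (Nat.div_pos (Nat.le_of_dvd (Nat.pos_of_ne_zero hq) hAq)
    (Nat.pos_of_ne_zero hA0)).ne'
  rw [Nat.Prime.dvd_iff_one_le_factorization hl (vcB_ne_zero σ y hw), factorization_vcB σ y l hw]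
  have hv : 1 ≤ (q / A).factorization l := (Nat.Prime.dvd_iff_one_le_factorization hl hw).1 hd
  unfold ee
  rw [if_neg (not_le.2 hly), fac_div_low hAq hA hly hl] at *
  have hlk : l < 2 ^ (Nat.clog 2 y + 1) :=
    hly.trans_le ((Nat.le_pow_clog (by norm_num) y).trans
      (Nat.pow_le_pow_right (by norm_num) (Nat.le_succ _)))
  have h2 := not_bad hb h0 h1 hlk
  have h3 : 0 < 2 ^ (Nat.clog 2 y + 1) := by positivity
  unfold bst
  have h4 := Nat.div_add_mod (q.factorization l + σ l) (8 ^ Nat.clog 2 y)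
  omega

open Crest.Agent.R4P.Skel189 Crest.Agent.R4P.Step588 in
/-- **`TagOk`** for the exponent blocks `Fac.blk σ` and the tags `tagN σ (top S)` -/
theorem tagOk_of {N : Skel189.Num} {γ : ℝ} {p0 P₀ : ℕ} {X : Ctx N γ p0 P₀} {σ : ℕ → ℕ} {k0 K : ℕ}
    (hf : X.fac = Fac.blk σ) (ht : ∀ p q, X.c.tg p q = tagN σ (top X.S) p q)
    (hb : ∀ q ∈ X.S', ¬ Bad σ k0 K q) (h0 : k0 ≤ Nat.clog 2 p0)
    (h1 : Nat.clog 2 (top X.S) ≤ K) : TagOk X where
  uc := by
    intro p y q r A hpy hyn _ _ hAq hAr hA hge h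
    rw [ht, ht] at h
    rw [hf]
    exact blk_uc_eq hpy.le hyn hAq hAr hA hge h
  low := by
    intro y q A l hpy hyn hq hAq hA hl hly hd
    rw [hf]
    exact blk_low (X.spos (X.prn.sub hq)).ne' (hb q hq) (h0.trans (Nat.clog_mono_right 2 hpy))
      ((Nat.clog_mono_right 2 hyn).trans h1) hAq hA hl hly hd

open Crest.Agent.R4P.Skel189 Crest.Agent.R4P.Step588 in
/-- **`TagOk`** of the concrete parameters of `TagFac_2` -/
theorem TagN.tagOk {N : Skel189.Num} (h : Skel189.TagN N) {γ : ℝ} {p0 P₀ : ℕ} (X : Ctx N γ p0 P₀) :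
    TagOk X :=
  tagOk_of (h.fac_eq X) (h.tg_eq X) (fun _ hq => h.notBad X hq) (Nat.log_le_clog 2 p0) le_rfl

end Crest.Agent.R4P.TagOk4
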