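import Crest.Agent.R4P.RsTie_19

/-!
R4 (S0004), [W-eSHR] / TgtCrs, helper19: **the linear sum of the in-node one-index energies** (the number
side of the height reserve), abstract part.

* `Ix r` : pairs of one index; `chg wr p c` : pairs of the child `c` of the column `p` which are in one
  index at `p` and not at the column of `c` (all the pairs if `c` is a leaf);
* `SSg wr ch d` : ties `w * Q RS t₁ t₀`, adds `2 * Q Ix t₁ t₀`, changes `ch p c` of the children, summed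
  with the linear weights; `SSd wr` = the sum with `ch = chg wr`; `TDs F` : tree sum of `F p c` over all the steps;
* `SSg_le` : `SSg ≤ Q RS (first column) + dseR + μ (CL + fut)`;
* `chg_le` : `chg ≤ chR + chD`; `SSd_le_add` : `SSd ≤ SSg chR + TDs chD`.
-/

set_option autoImplicit false
set_option linter.unusedSectionVars false
set_option linter.unusedVariables false
open MeasureTheory Filter Set

namespace Crest.Agent.R4P.RsSum19

open Crest.Agent.R4.Tour104 Crest.Agent.R4.Tour758 Crest.Agent.R4.Avg758 Crest.Agent.R4.Clos758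
open Crest.Agent.R4.ClosL758 Crest.Agent.R4.ClosG758 Crest.Agent.R4.ClosR758
open Crest.Agent.R4P.Walk560
open Crest.Agent.R4P.TWc17 Crest.Agent.R4P.RsTie19

variable {Λ κ : Type*} [Fintype Λ] [DecidableEq Λ] [DecidableEq κ] [WRel κ] [Fintype κ]
  {wr : ℕ → Λ → κ} {Ad : TrG Λ κ → Finset Λ → Prop}
  {μ : TrG Λ κ → Finset Λ → ℝ} {ν : TrG Λ κ → ℝ} {n : ℕ}

/-! ### trees -/

/-- first column which is not an up column (= `TgSelf10.cl`) -/
def cl : DT Λ κ → ℕ
  | .leaf _ _ => 0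
  | .br p _ _ _ _ _ _ _ => p
  | .add b _ _ _ => b
  | .up _ _ t => cl t

/-- the core is a leaf (= `TgSelf10.lf`) -/
def lf : DT Λ κ → Prop
  | .leaf _ _ => True
  | .up _ _ t => lf t
  | _ => False

/-- pairs of one index -/
noncomputable def Ix (r : Λ → κ) : Finset (Λ × Λ) := Finset.univ \ Ro r

open Classical in
/-- pairs of the child `c` of the column `p` which are new at `p` -/
noncomputable def chg (wr : ℕ → Λ → κ) (p : ℕ) (c : DT Λ κ) : ℝ :=
  if c.isLeaf then Q (Ix (wr p)) c.g.val c.g.val else Q (Ix (wr p) \ Ix (wr c.top)) c.g.val c.g.val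

/-- **the linear sum of the one-index energies**, changes `ch` -/
noncomputable def SSg (wr : ℕ → Λ → κ) (ch : ℕ → DT Λ κ → ℝ) : DT Λ κ → ℝ
  | .leaf _ _ => 0
  | .br p w r t₁ t₀ _ _ _ => w * Q (Rr r \ Ro r) t₁.g.val t₀.g.val +
      ((1 - w) * (ch p t₁ + SSg wr ch t₁) + w * (ch p t₀ + SSg wr ch t₀))
  | .add b _ t₁ t₀ => 2 * Q (Ix (wr b)) t₁.g.val t₀.g.val +
      ((ch b t₁ + SSg wr ch t₁) + (ch b t₀ + SSg wr ch t₀))
  | .up b _ t => ch b t + SSg wr ch t

/-- **the linear sum of the one-index energies** -/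
noncomputable def SSd (wr : ℕ → Λ → κ) : DT Λ κ → ℝ
  | .leaf _ _ => 0
  | .br p w r t₁ t₀ _ _ _ => w * Q (Rr r \ Ro r) t₁.g.val t₀.g.val +
      ((1 - w) * (chg wr p t₁ + SSd wr t₁) + w * (chg wr p t₀ + SSd wr t₀))
  | .add b _ t₁ t₀ => 2 * Q (Ix (wr b)) t₁.g.val t₀.g.val +
      ((chg wr b t₁ + SSd wr t₁) + (chg wr b t₀ + SSd wr t₀))
  | .up b _ t => chg wr b t + SSd wr t

/-- tree sum over all the steps -/
noncomputable def TDs (F : ℕ → DT Λ κ → ℝ) : DT Λ κ → ℝ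
  | .leaf _ _ => 0
  | .br p w _ t₁ t₀ _ _ _ => (1 - w) * (F p t₁ + TDs F t₁) + w * (F p t₀ + TDs F t₀)
  | .add b _ t₁ t₀ => (F b t₁ + TDs F t₁) + (F b t₀ + TDs F t₀)
  | .up b _ t => F b t + TDs F t

open Classical in
/-- pairs of one index and different worlds at the first column -/
noncomputable def Sc (wr : ℕ → Λ → κ) (d : DT Λ κ) : ℝ :=
  if lf d then 0 else Q (Rr (wr (cl d)) \ Ro (wr (cl d))) d.g.val d.g.val

/-- the index does not split between the first column of `c` and the column `p` -/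
def NoEv (wr : ℕ → Λ → κ) (p : ℕ) (c : DT Λ κ) : Prop :=
  ∀ j j' : Λ, c.g.val j ≠ (fun _ => 0) → c.g.val j' ≠ (fun _ => 0) →
    (j, j') ∈ Ro (wr p) → (j, j') ∈ Ro (wr (cl c))

/-- **future costs** -/
structure FutS (p0 : ℕ) (κf κt fut sg : ℕ → ℝ) (rg : ℕ → ℕ) : Prop where
  k0 : ∀ p, 0 ≤ κf p
  t0 : ∀ p, 0 ≤ κt p
  f0 : ∀ p, 0 ≤ fut p
  s0 : ∀ p, 0 ≤ sg p
  mono : ∀ {p' p : ℕ}, p' ≤ p → fut p' ≤ fut p
  rgm : ∀ {p' p : ℕ}, p' ≤ p → rg p' ≤ rg p
  jump : ∀ {p' p : ℕ}, p0 < p' → p' ≤ p → rg p' < rg p → κf p' + fut p' ≤ fut p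
  tie : ∀ {p' p : ℕ}, p.Prime → p0 < p → p' < p → sg p * κt p + fut p' ≤ fut p
  tij : ∀ {p' p : ℕ}, p.Prime → p0 < p' → p' < p → rg p' < rg p →
    κf p' + sg p * κt p + fut p' ≤ fut p

/-- a child `c` of the column `p` -/
structure HC (ch : ℕ → DT Λ κ → ℝ) (μ : TrG Λ κ → Finset Λ → ℝ) (p0 : ℕ) (κc : ℕ → ℝ)
    (rg : ℕ → ℕ) (CL : ℝ) (p : ℕ) (c : DT Λ κ) : Prop where
  lfc : c.isLeaf → ch p c ≤ CL * μ c.g Finset.univ
  top : ¬ c.isLeaf → p0 < c.top
  core : ¬ lf c → p0 < cl c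
  chg : ¬ c.isLeaf → rg c.top < rg p → ch p c ≤ κc c.top * μ c.g Finset.univ

/-- a missing child `c` of the column `p` -/
def HM (ch : ℕ → DT Λ κ → ℝ) (μ : TrG Λ κ → Finset Λ → ℝ) (κn : ℕ → ℝ) (rg : ℕ → ℕ)
    (p : ℕ) (c : DT Λ κ) : Prop :=
  ¬ c.isLeaf → rg c.top = rg p → ch p c ≤ κn p * μ c.g Finset.univ

/-- a child `c` of the column `p` without a missing tie -/
structure HP (wr : ℕ → Λ → κ) (ch : ℕ → DT Λ κ → ℝ) (rg : ℕ → ℕ) (p : ℕ) (c : DT Λ κ) : Prop where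
  noev : ¬ lf c → rg (cl c) = rg p → NoEv wr p c
  zero : ¬ c.isLeaf → rg c.top = rg p → ch p c ≤ 0

/-- the hypotheses at the nodes -/
def HS (wr : ℕ → Λ → κ) (ch : ℕ → DT Λ κ → ℝ) (μ : TrG Λ κ → Finset Λ → ℝ) (p0 : ℕ) (κf κc κn sg : ℕ → ℝ) (rg : ℕ → ℕ)
    (CL : ℝ) : DT Λ κ → Prop
  | .leaf _ _ => True
  | .br p w r t₁ t₀ v B G => p0 < p ∧ w ≤ 1 / 2 ∧ TD p w r t₁.g.val t₀.g.val B G ∧
      Q (Rr r \ Ro r) v v ≤ κf p * μ (DT.br p w r t₁ t₀ v B G).g Finset.univ ∧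
      HC ch μ p0 κc rg CL p t₁ ∧ HP wr ch rg p t₁ ∧ (w ≠ 0 → HC ch μ p0 κc rg CL p t₀ ∧ HM ch μ κn rg p t₀) ∧
      w * μ t₀.g Finset.univ + 12 * w * μ (DT.br p w r t₁ t₀ v B G).g Finset.univ ≤
        sg p * μ (DT.br p w r t₁ t₀ v B G).g Finset.univ
  | .add b r t₁ t₀ => r = wr b ∧
      Q (Rr r \ Ro r) (DT.add b r t₁ t₀).g.val (DT.add b r t₁ t₀).g.val ≤
        κf b * μ (DT.add b r t₁ t₀).g Finset.univ ∧
      (HC ch μ p0 κc rg CL b t₁ ∧ HP wr ch rg b t₁) ∧ (HC ch μ p0 κc rg CL b t₀ ∧ HP wr ch rg b t₀)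
  | .up b _ t => HC ch μ p0 κc rg CL b t ∧ HP wr ch rg b t

variable {ch : ℕ → DT Λ κ → ℝ} {p0 : ℕ} {κf κc κn f1 f2 sg : ℕ → ℝ} {rg : ℕ → ℕ} {CL : ℝ}

lemma cl_lt {d : DT Λ κ} (h : d.Col n) (hl : ¬ lf d) : cl d < n := by
  induction d generalizing n with
  | leaf r f => exact absurd trivial hl
  | br p w r t₁ t₀ v B G ih₁ ih₀ => exact h.2.1
  | add b r t₁ t₀ ih₁ ih₀ => exact h.2.1
  | up b Sp t ih => exact (ih h.2.2 hl).trans h.2.1

lemma top_lt {d : DT Λ κ} (h : d.Col n) (hl : ¬ d.isLeaf) : d.top < n := by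
  cases d with
  | leaf r f => exact absurd trivial hl
  | br p w r t₁ t₀ v B G => exact h.2.1
  | add b r t₁ t₀ => exact h.2.1
  | up b Sp t => exact h.2.1

lemma lf_leaf {d : DT Λ κ} (h : d.isLeaf) : lf d := by
  cases d with
  | leaf r f => trivial
  | br p w r t₁ t₀ v B G => exact h
  | add b r t₁ t₀ => exact h
  | up b Sp t => exact absurd h (fun h => h)

lemma top_leaf {d : DT Λ κ} (h : d.isLeaf) : d.top = 0 := by
  cases d with
  | leaf r f => rfl
  | br p w r t₁ t₀ v B G => exact absurd h (fun h => h)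
  | add b r t₁ t₀ => exact absurd h (fun h => h)
  | up b Sp t => exact absurd h (fun h => h)

lemma cl_lf {d : DT Λ κ} (hl : lf d) : cl d = 0 := by
  induction d with
  | leaf r f => rfl
  | br p w r t₁ t₀ v B G ih₁ ih₀ => exact absurd hl (fun h => h)
  | add b r t₁ t₀ ih₁ ih₀ => exact absurd hl (fun h => h)
  | up b Sp t ih => exact ih hl

lemma part_core {d : DT Λ κ} (hw : d.All (NodeOk wr Ad μ ν))
    (h : d.All (HS wr ch μ p0 κf κc κn sg rg CL)) (hl : ¬ lf d) : d.g.part = wr (cl d) := by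
  induction d with
  | leaf r f => exact absurd trivial hl
  | br p w r t₁ t₀ v B G ih₁ ih₀ => exact hw.1.wrn
  | add b r t₁ t₀ ih₁ ih₀ => exact h.1.1
  | up b Sp t ih => exact ih hw.2 h.2 hl

lemma Sc_le {d : DT Λ κ} (hw : d.All (NodeOk wr Ad μ ν))
    (h : d.All (HS wr ch μ p0 κf κc κn sg rg CL)) (hl : ¬ lf d) :
    Sc wr d ≤ κf (cl d) * μ d.g Finset.univ := by
  induction d with
  | leaf r f => exact absurd trivial hl
  | br p w r t₁ t₀ v B G ih₁ ih₀ =>
    have e : r = wr p := hw.1.wrn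
    have := h.1.2.2.2.1
    unfold Sc
    rw [if_neg hl]
    show Q (Rr (wr p) \ Ro (wr p)) v v ≤ κf p * μ (DT.br p w r t₁ t₀ v B G).g Finset.univ
    rw [← e]
    exact this
  | add b r t₁ t₀ ih₁ ih₀ =>
    have e : r = wr b := h.1.1
    have := h.1.2.1
    unfold Sc
    rw [if_neg hl]
    show Q (Rr (wr b) \ Ro (wr b)) (DT.add b r t₁ t₀).g.val (DT.add b r t₁ t₀).g.val ≤
      κf b * μ (DT.add b r t₁ t₀).g Finset.univ
    rw [← e]
    exact this
  | up b Sp t ih => exact ih hw.2 h.2 hl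

lemma Sc_nonneg {d : DT Λ κ} (ok : d.g.Ok) : 0 ≤ Sc wr d := by
  unfold Sc
  split_ifs
  · exact le_rfl
  · exact Q_nonneg (fun j => ok.pb j) (fun j => ok.pb j)

lemma Q_congr0 {R : Finset (Λ × Λ)} {f f' : Λ → ℝ → ℝ}
    (h : ∀ e ∈ R, f e.1 = (fun _ => 0) ∨ f' e.2 = fun _ => 0) : Q R f f' = 0 := by
  unfold Q
  refine Finset.sum_eq_zero fun e he => ?_
  rcases h e he with h1 | h1
  · rw [h1]; simp [I]
  · rw [h1]; simp [I]

/-- **no event** : the pairs which leave `RS` are in one world at `p` -/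
lemma Sc_noev {p : ℕ} {c : DT Λ κ} (ok : c.g.Ok) (hw : c.All (NodeOk wr Ad μ ν))
    (h : c.All (HS wr ch μ p0 κf κc κn sg rg CL)) (hl : ¬ lf c) (hne : NoEv wr p c) :
    Sc wr c ≤ Q (Rr (wr p) \ Ro (wr p)) c.g.val c.g.val + ic (wr p) c.g.part c.g.val := by
  classical
  have pv : ∀ j, PB (c.g.val j) := fun j => ok.pb j
  have hp := part_core hw h hl
  unfold Sc ic
  rw [if_neg hl, hp]
  have s1 := Q_le_sdiff (Rr (wr (cl c)) \ Ro (wr (cl c))) (Rr (wr p) \ Ro (wr p)) pv pv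
  have s2 := Q_le_sdiff ((Rr (wr (cl c)) \ Ro (wr (cl c))) \ (Rr (wr p) \ Ro (wr p)))
    (Dr (wr p) \ Dr (wr (cl c))) pv pv
  have s3 : Q (((Rr (wr (cl c)) \ Ro (wr (cl c))) \ (Rr (wr p) \ Ro (wr p))) \
      (Dr (wr p) \ Dr (wr (cl c)))) c.g.val c.g.val = 0 := by
    refine Q_congr0 fun e he => ?_
    by_contra hc
    rw [not_or] at hc
    have hh := hne e.1 e.2 hc.1 hc.2
    unfold Rr Dr at he
    simp only [Finset.mem_sdiff, Finset.mem_filter, Finset.mem_univ, true_and, not_and,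
      not_not] at he
    obtain ⟨⟨⟨h1, h2⟩, h3⟩, h4⟩ := he
    by_cases h5 : wr p e.1 = wr p e.2
    · exact h1 (h4 h5)
    · exact h2 (hh (h3 h5))
  linarith

/-! ### the children -/

/-- a bound of the future costs of a child of the column `p` with column `x` -/
structure FB (κf f : ℕ → ℝ) (rg : ℕ → ℕ) (p x : ℕ) (F : ℝ) : Prop where
  eq : rg x = rg p → f x ≤ F
  lt : rg x < rg p → κf x + f x ≤ F

lemma icn (r r' : Λ → κ) {f : Λ → ℝ → ℝ} (hf : ∀ j, PB (f j)) : 0 ≤ ic r r' f := by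
  unfold ic Q
  exact Finset.sum_nonneg fun d _ => I_nonneg ((hf d.1).mul (hf d.2)).nonneg

lemma dseR_nonneg {t : TrG Λ κ} (h : t.Ok) (A : Finset Λ) : 0 ≤ dseR A t := by
  induction t with
  | leaf r f => exact le_rfl
  | add r t₁ t₀ ih₁ ih₀ =>
    have q1 := PB_rv (fun j => h.1.pb j) A
    have q0 := PB_rv (fun j => h.2.pb j) A
    have a1 := icn r t₁.part q1
    have a0 := icn r t₀.part q0
    have b1 := ih₁ h.1
    have b0 := ih₀ h.2
    have c := Q_nonneg (R := Dr r) q1 q0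
    show 0 ≤ (dseR A t₁ + ic r t₁.part (rv A t₁.val)) + (dseR A t₀ + ic r t₀.part (rv A t₀.val)) +
      2 * Q (Dr r) (rv A t₁.val) (rv A t₀.val)
    linarith
  | br P w r t₁ t₀ v B G ih₁ ih₀ =>
    obtain ⟨h1, h0, hb⟩ := h
    have hw : 0 ≤ 1 - w := by linarith [hb.w1]
    have a1 := icn r t₁.part (PB_rv (fun j => h1.pb j) A)
    have a0 := icn r t₀.part (PB_rv (fun j => h0.pb j) A)
    exact add_nonneg (mul_nonneg hw (add_nonneg (ih₁ h1) a1))
      (mul_nonneg hb.w0 (add_nonneg (ih₀ h0) a0))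

lemma SSg_leaf {c : DT Λ κ} (h : c.isLeaf) : SSg wr ch c = 0 := by
  cases c with
  | leaf r f => rfl
  | br p w r t₁ t₀ v B G => exact absurd h (fun h => h)
  | add b r t₁ t₀ => exact absurd h (fun h => h)
  | up b Sp t => exact absurd h (fun h => h)

/-- **a child without a missing tie** -/
lemma child_P (k0 : ∀ p, 0 ≤ κc p) (rgm : ∀ {p' p : ℕ}, p' ≤ p → rg p' ≤ rg p)
    {p : ℕ} {c : DT Λ κ} {m : ℕ} (hs : Side wr Ad μ ν m c Finset.univ)
    (hh : c.All (HS wr ch μ p0 κf κc κn sg rg CL)) (hc : HC ch μ p0 κc rg CL p c) (hp : HP wr ch rg p c)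
    {F1 F2 : ℝ} (z1 : f1 0 ≤ F1) (z1' : 0 ≤ F1) (z2 : 0 ≤ F2) (hCL : 0 ≤ CL)
    (l1 : ¬ lf c → cl c ≤ p) (l2 : ¬ c.isLeaf → c.top ≤ p)
    (b1 : ¬ lf c → FB κf f1 rg p (cl c) F1) (b2 : ¬ c.isLeaf → FB κc f2 rg p c.top F2)
    (ih : SSg wr ch c ≤ Sc wr c + dseR Finset.univ c.g +
      μ c.g Finset.univ * (CL + f1 (cl c) + f2 c.top)) :
    ch p c + SSg wr ch c ≤ Q (Rr (wr p) \ Ro (wr p)) c.g.val c.g.val +
      (dseR Finset.univ c.g + ic (wr p) c.g.part c.g.val) +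
        μ c.g Finset.univ * (CL + F1 + F2) := by
  classical
  have pv : ∀ j, PB (c.g.val j) := fun j => hs.ok.pb j
  have n1 : 0 ≤ Q (Rr (wr p) \ Ro (wr p)) c.g.val c.g.val := Q_nonneg pv pv
  have n2 := dseR_nonneg hs.ok (Finset.univ : Finset Λ)
  have n3 := icn (wr p) c.g.part pv
  have m0 : 0 ≤ μ c.g Finset.univ := hs.wf.self.mass.base.nn _ hs.ad
  by_cases hl : c.isLeaf
  · rw [SSg_leaf hl]
    have h1 := hc.lfc hl
    have h2 := mul_nonneg m0 z1'
    have h3 := mul_nonneg m0 z2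
    nlinarith
  · -- the change
    have h2 := b2 hl
    have key : ch p c + μ c.g Finset.univ * f2 c.top ≤ μ c.g Finset.univ * F2 := by
      rcases (rgm (l2 hl)).lt_or_eq with hlt | heq
      · have h3 := hc.chg hl hlt
        have h4 := mul_le_mul_of_nonneg_left (h2.lt hlt) m0
        nlinarith
      · have h3 := hp.zero hl heq
        have h4 := mul_le_mul_of_nonneg_left (h2.eq heq) m0
        linarith
    -- the pairs of `RS`
    have key2 : Sc wr c + μ c.g Finset.univ * f1 (cl c) ≤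
        Q (Rr (wr p) \ Ro (wr p)) c.g.val c.g.val + ic (wr p) c.g.part c.g.val +
          μ c.g Finset.univ * F1 := by
      by_cases hlc : lf c
      · have e : Sc wr c = 0 := if_pos hlc
        rw [e, cl_lf hlc]
        have := mul_le_mul_of_nonneg_left z1 m0
        linarith
      · have h1 := b1 hlc
        rcases (rgm (l1 hlc)).lt_or_eq with hlt | heq
        · have h3 := Sc_le hs.wf hh hlc
          have h4 := mul_le_mul_of_nonneg_left (h1.lt hlt) m0
          nlinarith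
        · have h3 := Sc_noev hs.ok hs.wf hh hlc (hp.noev hlc heq)
          have h4 := mul_le_mul_of_nonneg_left (h1.eq heq) m0
          linarith
    nlinarith

/-- **a missing child** -/
lemma child_N (k0 : ∀ p, 0 ≤ κn p) (k1 : ∀ p, 0 ≤ κf p)
    (kr : ∀ {p' p : ℕ}, rg p' = rg p → κf p' = κf p)
    (rgm : ∀ {p' p : ℕ}, p' ≤ p → rg p' ≤ rg p)
    {p : ℕ} {c : DT Λ κ} {m : ℕ} (hs : Side wr Ad μ ν m c Finset.univ)
    (hh : c.All (HS wr ch μ p0 κf κc κn sg rg CL)) (hc : HC ch μ p0 κc rg CL p c)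
    (hM : HM ch μ κn rg p c) {F1 F2 : ℝ} (z1 : f1 0 ≤ F1) (z1' : 0 ≤ F1) (z2 : 0 ≤ F2) (hCL : 0 ≤ CL)
    (l1 : ¬ lf c → cl c ≤ p) (l2 : ¬ c.isLeaf → c.top ≤ p)
    (b1 : ¬ lf c → FB κf f1 rg p (cl c) F1) (b2 : ¬ c.isLeaf → FB κc f2 rg p c.top F2)
    (ih : SSg wr ch c ≤ Sc wr c + dseR Finset.univ c.g +
      μ c.g Finset.univ * (CL + f1 (cl c) + f2 c.top)) :
    ch p c + SSg wr ch c ≤ (dseR Finset.univ c.g + ic (wr p) c.g.part c.g.val) +
        μ c.g Finset.univ * (CL + F1 + F2) + μ c.g Finset.univ * (κf p + κn p) := by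
  classical
  have pv : ∀ j, PB (c.g.val j) := fun j => hs.ok.pb j
  have n2 := dseR_nonneg hs.ok (Finset.univ : Finset Λ)
  have n3 := icn (wr p) c.g.part pv
  have m0 : 0 ≤ μ c.g Finset.univ := hs.wf.self.mass.base.nn _ hs.ad
  have e1 := mul_nonneg m0 (k1 p)
  have e2 := mul_nonneg m0 (k0 p)
  by_cases hl : c.isLeaf
  · rw [SSg_leaf hl]
    have h1 := hc.lfc hl
    have h2 := mul_nonneg m0 z1'
    have h3 := mul_nonneg m0 z2
    nlinarith
  · have h2 := b2 hl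
    have key : ch p c + μ c.g Finset.univ * f2 c.top ≤
        μ c.g Finset.univ * F2 + μ c.g Finset.univ * κn p := by
      rcases (rgm (l2 hl)).lt_or_eq with hlt | heq
      · have h3 := hc.chg hl hlt
        have h4 := mul_le_mul_of_nonneg_left (h2.lt hlt) m0
        nlinarith
      · have h3 := hM hl heq
        have h4 := mul_le_mul_of_nonneg_left (h2.eq heq) m0
        nlinarith
    have key2 : Sc wr c + μ c.g Finset.univ * f1 (cl c) ≤
          μ c.g Finset.univ * F1 + μ c.g Finset.univ * κf p := by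
      by_cases hlc : lf c
      · have e : Sc wr c = 0 := if_pos hlc
        rw [e, cl_lf hlc]
        have := mul_le_mul_of_nonneg_left z1 m0
        linarith
      · have h1 := b1 hlc
        have h3 := Sc_le hs.wf hh hlc
        rcases (rgm (l1 hlc)).lt_or_eq with hlt | heq
        · have h4 := mul_le_mul_of_nonneg_left (h1.lt hlt) m0
          nlinarith
        · rw [kr heq] at h3
          have h4 := mul_le_mul_of_nonneg_left (h1.eq heq) m0
          nlinarith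
    nlinarith

lemma fb_col {κf κt f : ℕ → ℝ} (hf : FutS p0 κf κt f sg rg) {p x : ℕ} (h0 : p0 < x) (h : x ≤ p) :
    FB κf f rg p x (f p) :=
  ⟨fun _ => hf.mono h, fun hlt => hf.jump h0 h hlt⟩

lemma fb_tie {κf κt f : ℕ → ℝ} (hf : FutS p0 κf κt f sg rg) {p x : ℕ} (hp : p.Prime) (h0 : p0 < x)
    (h : x < p) : FB κf f rg p x (f p - sg p * κt p) :=
  ⟨fun _ => by linarith [hf.tie hp (h0.trans h) h], fun hlt => by linarith [hf.tij hp h0 h hlt]⟩

set_option maxHeartbeats 1600000 in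
/-- **the linear sum of the one-index energies** -/
theorem SSg_le (hf : FutS p0 κf κf f1 sg rg) (kr : ∀ {p' p : ℕ}, rg p' = rg p → κf p' = κf p)
    (hg : FutS p0 κc κn f2 sg rg) (hCL : 0 ≤ CL)
    (d : DT Λ κ) : ∀ n : ℕ, Side wr Ad μ ν n d Finset.univ →
      d.All (HS wr ch μ p0 κf κc κn sg rg CL) →
      SSg wr ch d ≤ Sc wr d + dseR Finset.univ d.g +
        μ d.g Finset.univ * (CL + f1 (cl d) + f2 d.top) := by
  classical
  induction d with
  | leaf r f =>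
    intro n h hn
    have m0 : 0 ≤ μ (DT.leaf r f : DT Λ κ).g Finset.univ := h.wf.self.mass.base.nn _ h.ad
    have h1 := Sc_nonneg (wr := wr) h.ok
    have h2 := dseR_nonneg h.ok (Finset.univ : Finset Λ)
    have h3 := hf.f0 (cl (DT.leaf r f : DT Λ κ))
    have h4 := hg.f0 (DT.leaf r f : DT Λ κ).top
    have e : SSg wr ch (DT.leaf r f : DT Λ κ) = 0 := rfl
    rw [e]
    positivity
  | up b Sp t ih =>
    intro n h hn
    obtain ⟨c1, -, -⟩ := h.vwup (p := b) (by simp [vw] : vw b (DT.up b Sp t : DT Λ κ) = .up Sp t)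
      le_rfl h.col.1.pos
    have hcol : t.Col b := h.col.2.2
    have key := ih b c1 hn.2
    obtain ⟨hc, hp⟩ := hn.1
    have m0 : 0 ≤ μ t.g Finset.univ := c1.wf.self.mass.base.nn _ c1.ad
    have e1 : SSg wr ch (DT.up b Sp t : DT Λ κ) = ch b t + SSg wr ch t := rfl
    have e2 : Sc wr (DT.up b Sp t : DT Λ κ) = Sc wr t := rfl
    have e3 : (DT.up b Sp t : DT Λ κ).g = t.g := rfl
    have e4 : cl (DT.up b Sp t : DT Λ κ) = cl t := rfl
    have e5 : (DT.up b Sp t : DT Λ κ).top = b := rfl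
    rw [e1, e2, e3, e4, e5]
    by_cases hl : t.isLeaf
    · rw [SSg_leaf hl]
      have h1 := hc.lfc hl
      have h2 := mul_nonneg m0 (hf.f0 (cl t))
      have h3 := mul_nonneg m0 (hg.f0 b)
      have h4 := Sc_nonneg (wr := wr) c1.ok
      have h5 := dseR_nonneg c1.ok (Finset.univ : Finset Λ)
      nlinarith
    · have hle : t.top ≤ b := (top_lt hcol hl).le
      have hfb := fb_col hg (hc.top hl) hle
      have k2 : ch b t + μ t.g Finset.univ * f2 t.top ≤ μ t.g Finset.univ * f2 b := by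
        rcases (hg.rgm hle).lt_or_eq with hlt | heq
        · have h3 := hc.chg hl hlt
          have h4 := mul_le_mul_of_nonneg_left (hfb.lt hlt) m0
          nlinarith
        · have h3 := hp.zero hl heq
          have h4 := mul_le_mul_of_nonneg_left (hfb.eq heq) m0
          linarith
      nlinarith
  | add b r t₁ t₀ ih₁ ih₀ =>
    intro n h hn
    obtain ⟨s1, s0⟩ := h.add
    obtain ⟨hr, hrse, ⟨c1, q1⟩, ⟨c0, q0⟩⟩ := hn.1
    have i1 := ih₁ b s1 hn.2.1
    have i0 := ih₀ b s0 hn.2.2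
    have p1 : ∀ j, PB (t₁.g.val j) := fun j => s1.ok.pb j
    have p2 : ∀ j, PB (t₀.g.val j) := fun j => s0.ok.pb j
    have m1 : 0 ≤ μ t₁.g Finset.univ := s1.wf.self.mass.base.nn _ s1.ad
    have m0 : 0 ≤ μ t₀.g Finset.univ := s0.wf.self.mass.base.nn _ s0.ad
    have mm : μ t₁.g Finset.univ + μ t₀.g Finset.univ ≤
        μ (DT.add b r t₁ t₀ : DT Λ κ).g Finset.univ := h.wf.1.mass.2.1 _ h.ad
    have k1 := child_P (f1 := f1) (f2 := f2) (F1 := f1 b) (F2 := f2 b) hg.k0 hg.rgm s1 hn.2.1 c1 q1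
      (hf.mono (Nat.zero_le b)) (hf.f0 b) (hg.f0 b) hCL
      (fun hl => Nat.lt_succ_iff.1 (cl_lt s1.col hl)) (fun hl => Nat.lt_succ_iff.1 (top_lt s1.col hl))
      (fun hl => fb_col hf (c1.core hl) (Nat.lt_succ_iff.1 (cl_lt s1.col hl)))
      (fun hl => fb_col hg (c1.top hl) (Nat.lt_succ_iff.1 (top_lt s1.col hl))) i1
    have k0 := child_P (f1 := f1) (f2 := f2) (F1 := f1 b) (F2 := f2 b) hg.k0 hg.rgm s0 hn.2.2 c0 q0
      (hf.mono (Nat.zero_le b)) (hf.f0 b) (hg.f0 b) hCL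
      (fun hl => Nat.lt_succ_iff.1 (cl_lt s0.col hl)) (fun hl => Nat.lt_succ_iff.1 (top_lt s0.col hl))
      (fun hl => fb_col hf (c0.core hl) (Nat.lt_succ_iff.1 (cl_lt s0.col hl)))
      (fun hl => fb_col hg (c0.top hl) (Nat.lt_succ_iff.1 (top_lt s0.col hl))) i0
    have eS : Sc wr (DT.add b r t₁ t₀ : DT Λ κ) = Q (Rr (wr b) \ Ro (wr b)) t₁.g.val t₁.g.val +
        Q (Rr (wr b) \ Ro (wr b)) t₀.g.val t₀.g.val +
        2 * Q (Rr (wr b) \ Ro (wr b)) t₁.g.val t₀.g.val := by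
      have e : Sc wr (DT.add b r t₁ t₀ : DT Λ κ) = Q (Rr (wr b) \ Ro (wr b))
        (fun j x => t₁.g.val j x + t₀.g.val j x) (fun j x => t₁.g.val j x + t₀.g.val j x) :=
        if_neg (fun h => h)
      rw [e]
      refine Q_add_self (fun e he => ?_) p1 p2
      rw [← Rz_zs, mem_Rz] at he ⊢
      exact ZS_zs _ he
    have eI : Q (Ix (wr b)) t₁.g.val t₀.g.val ≤ Q (Dr (wr b)) t₁.g.val t₀.g.val +
        Q (Rr (wr b) \ Ro (wr b)) t₁.g.val t₀.g.val := by
      have h1 := Q_le_sdiff (Ix (wr b)) (Dr (wr b)) p1 p2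
      have h2 : Q (Ix (wr b) \ Dr (wr b)) t₁.g.val t₀.g.val ≤
          Q (Rr (wr b) \ Ro (wr b)) t₁.g.val t₀.g.val := by
        refine Q_mono_set (fun e he => ?_) p1 p2
        unfold Ix Dr at he
        unfold Rr
        simp only [Finset.mem_sdiff, Finset.mem_univ, true_and, Finset.mem_filter] at he ⊢
        exact ⟨he.2, he.1⟩
      linarith
    have eD : dseR Finset.univ (DT.add b r t₁ t₀ : DT Λ κ).g =
        (dseR Finset.univ t₁.g + ic (wr b) t₁.g.part t₁.g.val) +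
        (dseR Finset.univ t₀.g + ic (wr b) t₀.g.part t₀.g.val) +
          2 * Q (Dr (wr b)) t₁.g.val t₀.g.val := by
      show (dseR Finset.univ t₁.g + ic r t₁.g.part (rv Finset.univ t₁.g.val)) +
        (dseR Finset.univ t₀.g + ic r t₀.g.part (rv Finset.univ t₀.g.val)) +
          2 * Q (Dr r) (rv Finset.univ t₁.g.val) (rv Finset.univ t₀.g.val) = _
      rw [rv_univ, rv_univ, hr]
    have e1 : SSg wr ch (DT.add b r t₁ t₀ : DT Λ κ) = 2 * Q (Ix (wr b)) t₁.g.val t₀.g.val +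
      ((ch b t₁ + SSg wr ch t₁) + (ch b t₀ + SSg wr ch t₀)) := rfl
    have e4 : cl (DT.add b r t₁ t₀ : DT Λ κ) = b := rfl
    have e5 : (DT.add b r t₁ t₀ : DT Λ κ).top = b := rfl
    rw [e1, eS, eD, e4, e5]
    have hmf := mul_le_mul_of_nonneg_right mm
      (add_nonneg (add_nonneg hCL (hf.f0 b)) (hg.f0 b))
    nlinarith
  | br p w r t₁ t₀ v B G ih₁ ih₀ =>
    intro n h hn
    obtain ⟨s1, s0, hb, hr, hsat⟩ := h.br
    obtain ⟨hp0, hw2, hT, hrse, c1, q1, c0, hsg⟩ := hn.1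
    have hpp : p.Prime := h.col.1
    have w0 := hb.w0
    have w1 : 0 ≤ 1 - w := by linarith [hb.w1]
    have i1 := ih₁ p s1 hn.2.1
    have i0 := ih₀ p s0 hn.2.2
    have p1 : ∀ j, PB (t₁.g.val j) := fun j => s1.ok.pb j
    have p2 : ∀ j, PB (t₀.g.val j) := fun j => s0.ok.pb j
    have m1 : 0 ≤ μ t₁.g Finset.univ := s1.wf.self.mass.base.nn _ s1.ad
    have m0 : 0 ≤ μ t₀.g Finset.univ := s0.wf.self.mass.base.nn _ s0.ad
    have mV : 0 ≤ μ (DT.br p w r t₁ t₀ v B G : DT Λ κ).g Finset.univ :=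
      h.wf.self.mass.base.nn _ h.ad
    have mm : (1 - w) * μ t₁.g Finset.univ + w * μ t₀.g Finset.univ ≤
        μ (DT.br p w r t₁ t₀ v B G : DT Λ κ).g Finset.univ := h.wf.1.mass.2.1 _ h.ad
    set mu := μ (DT.br p w r t₁ t₀ v B G : DT Λ κ).g Finset.univ with hmu
    have hloc := tie_RS hT hb p1 p2 hw2
    have eS : Sc wr (DT.br p w r t₁ t₀ v B G : DT Λ κ) = Q (Rr r \ Ro r) v v := by
      rw [hr]
      exact if_neg (fun h => h)
    have eD : dseR Finset.univ (DT.br p w r t₁ t₀ v B G : DT Λ κ).g =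
        (1 - w) * (dseR Finset.univ t₁.g + ic (wr p) t₁.g.part t₁.g.val) +
          w * (dseR Finset.univ t₀.g + ic (wr p) t₀.g.part t₀.g.val) := by
      show (1 - w) * (dseR Finset.univ t₁.g + ic r t₁.g.part (rv Finset.univ t₁.g.val)) +
        w * (dseR Finset.univ t₀.g + ic r t₀.g.part (rv Finset.univ t₀.g.val)) = _
      rw [rv_univ, rv_univ, hr]
    have e1 : SSg wr ch (DT.br p w r t₁ t₀ v B G : DT Λ κ) = w * Q (Rr r \ Ro r) t₁.g.val t₀.g.val +
      ((1 - w) * (ch p t₁ + SSg wr ch t₁) + w * (ch p t₀ + SSg wr ch t₀)) := rfl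
    have e4 : cl (DT.br p w r t₁ t₀ v B G : DT Λ κ) = p := rfl
    have e5 : (DT.br p w r t₁ t₀ v B G : DT Λ κ).top = p := rfl
    rw [e1, eS, eD, e4, e5]
    rw [hr] at hloc hrse ⊢
    by_cases hw0 : w = 0
    · have k1 := child_P (f1 := f1) (f2 := f2) (F1 := f1 p) (F2 := f2 p) hg.k0 hg.rgm s1 hn.2.1 c1
        q1 (hf.mono (Nat.zero_le p)) (hf.f0 p) (hg.f0 p) hCL
        (fun hl => Nat.lt_succ_iff.1 (cl_lt s1.col hl))
        (fun hl => Nat.lt_succ_iff.1 (top_lt s1.col hl))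
        (fun hl => fb_col hf (c1.core hl) (Nat.lt_succ_iff.1 (cl_lt s1.col hl)))
        (fun hl => fb_col hg (c1.top hl) (Nat.lt_succ_iff.1 (top_lt s1.col hl))) i1
      rw [hw0] at hloc mm ⊢
      have hmf := mul_le_mul_of_nonneg_right mm
        (add_nonneg (add_nonneg hCL (hf.f0 p)) (hg.f0 p))
      simp only [sub_zero, one_mul, zero_mul, add_zero, mul_zero, zero_add] at hloc hmf ⊢
      linarith
    · have hcol := h.col.2.2.2.2 hw0
      have F1n : 0 ≤ f1 p - sg p * κf p := by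
        have := hf.tie hpp hp0 hpp.pos
        linarith [hf.f0 0]
      have F2n : 0 ≤ f2 p - sg p * κn p := by
        have := hg.tie hpp hp0 hpp.pos
        linarith [hg.f0 0]
      have z1 : f1 0 ≤ f1 p - sg p * κf p := by
        have := hf.tie hpp hp0 hpp.pos
        linarith
      have k1 := child_P (f1 := f1) (f2 := f2) (F1 := f1 p - sg p * κf p)
        (F2 := f2 p - sg p * κn p) hg.k0 hg.rgm s1 hn.2.1 c1 q1 z1 F1n F2n hCL
        (fun hl => (cl_lt hcol.1 hl).le) (fun hl => (top_lt hcol.1 hl).le)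
        (fun hl => fb_tie hf hpp (c1.core hl) (cl_lt hcol.1 hl))
        (fun hl => fb_tie hg hpp (c1.top hl) (top_lt hcol.1 hl)) i1
      have k0 := child_N (f1 := f1) (f2 := f2) (F1 := f1 p - sg p * κf p)
        (F2 := f2 p - sg p * κn p) hg.t0 hf.k0 kr hg.rgm s0 hn.2.2 (c0 hw0).1 (c0 hw0).2 z1 F1n F2n hCL
        (fun hl => (cl_lt hcol.2 hl).le) (fun hl => (top_lt hcol.2 hl).le)
        (fun hl => fb_tie hf hpp ((c0 hw0).1.core hl) (cl_lt hcol.2 hl))
        (fun hl => fb_tie hg hpp ((c0 hw0).1.top hl) (top_lt hcol.2 hl)) i0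
      have j1 := mul_le_mul_of_nonneg_left k1 w1
      have j0 := mul_le_mul_of_nonneg_left k0 w0
      have hmf := mul_le_mul_of_nonneg_right mm
        (add_nonneg (add_nonneg hCL F1n) F2n)
      have g1 := mul_le_mul_of_nonneg_left hrse (by linarith : (0:ℝ) ≤ 12 * w)
      have g2 := mul_le_mul_of_nonneg_right hsg (hf.k0 p)
      have g3 := mul_le_mul_of_nonneg_right hsg (hg.t0 p)
      have g4 : 0 ≤ 12 * w * mu * κn p := by
        have := hg.t0 p
        positivity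
      nlinarith

/-! ### the same world part of the changes -/

open Classical in
/-- the pairs of one world of a change -/
noncomputable def chD (wr : ℕ → Λ → κ) (p : ℕ) (c : DT Λ κ) : ℝ :=
  if c.isLeaf then 0 else Q (Dr (wr p) \ Dr (wr c.top)) c.g.val c.g.val

open Classical in
/-- the other pairs of a change -/
noncomputable def chR (wr : ℕ → Λ → κ) (p : ℕ) (c : DT Λ κ) : ℝ :=
  if c.isLeaf then Q (Ix (wr p)) c.g.val c.g.val
  else Q ((Rr (wr p) \ Ro (wr p)) \ Ix (wr c.top)) c.g.val c.g.val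

lemma chg_le {p : ℕ} {c : DT Λ κ} (ok : c.g.Ok) : chg wr p c ≤ chR wr p c + chD wr p c := by
  classical
  have pv : ∀ j, PB (c.g.val j) := fun j => ok.pb j
  unfold chg chR chD
  by_cases hl : c.isLeaf
  · rw [if_pos hl, if_pos hl, if_pos hl, add_zero]
  · rw [if_neg hl, if_neg hl, if_neg hl]
    have s1 := Q_le_sdiff (Ix (wr p) \ Ix (wr c.top)) (Dr (wr p) \ Dr (wr c.top)) pv pv
    have s2 : Q ((Ix (wr p) \ Ix (wr c.top)) \ (Dr (wr p) \ Dr (wr c.top))) c.g.val c.g.val ≤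
        Q ((Rr (wr p) \ Ro (wr p)) \ Ix (wr c.top)) c.g.val c.g.val := by
      refine Q_mono_set (fun e he => ?_) pv pv
      unfold Ix Dr at he
      unfold Ix Rr
      simp only [Finset.mem_sdiff, Finset.mem_univ, true_and, Finset.mem_filter, not_and,
        not_not] at he ⊢
      obtain ⟨⟨h1, h2⟩, h3⟩ := he
      refine ⟨⟨fun h4 => ?_, h1⟩, h2⟩
      have h5 := h3 h4
      rw [mem_Ro, h5] at h2
      exact WRel.irr _ h2
    linarith

/-- **the split of the sum** -/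
theorem SSd_le_add (d : DT Λ κ) (ok : d.g.Ok) : SSd wr d ≤ SSg wr (chR wr) d + TDs (chD wr) d := by
  induction d with
  | leaf r f =>
    show (0:ℝ) ≤ 0 + 0
    norm_num
  | up b Sp t ih =>
    have h1 := ih ok
    have h2 := chg_le (wr := wr) (p := b) (c := t) ok
    show chg wr b t + SSd wr t ≤ (chR wr b t + SSg wr (chR wr) t) + (chD wr b t + TDs (chD wr) t)
    linarith
  | add b r t₁ t₀ ih₁ ih₀ =>
    have h1 := ih₁ ok.1
    have h0 := ih₀ ok.2
    have k1 := chg_le (wr := wr) (p := b) (c := t₁) ok.1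
    have k0 := chg_le (wr := wr) (p := b) (c := t₀) ok.2
    show 2 * Q (Ix (wr b)) t₁.g.val t₀.g.val +
      ((chg wr b t₁ + SSd wr t₁) + (chg wr b t₀ + SSd wr t₀)) ≤
      (2 * Q (Ix (wr b)) t₁.g.val t₀.g.val +
      ((chR wr b t₁ + SSg wr (chR wr) t₁) + (chR wr b t₀ + SSg wr (chR wr) t₀))) +
      ((chD wr b t₁ + TDs (chD wr) t₁) + (chD wr b t₀ + TDs (chD wr) t₀))
    linarith
  | br p w r t₁ t₀ v B G ih₁ ih₀ =>
    obtain ⟨o1, o0, hb⟩ := ok
    have w1 : 0 ≤ 1 - w := by linarith [hb.w1]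
    have h1 := mul_le_mul_of_nonneg_left (add_le_add (chg_le (wr := wr) (p := p) (c := t₁) o1)
      (ih₁ o1)) w1
    have h0 := mul_le_mul_of_nonneg_left (add_le_add (chg_le (wr := wr) (p := p) (c := t₀) o0)
      (ih₀ o0)) hb.w0
    show w * Q (Rr r \ Ro r) t₁.g.val t₀.g.val +
      ((1 - w) * (chg wr p t₁ + SSd wr t₁) + w * (chg wr p t₀ + SSd wr t₀)) ≤
      (w * Q (Rr r \ Ro r) t₁.g.val t₀.g.val +
      ((1 - w) * (chR wr p t₁ + SSg wr (chR wr) t₁) + w * (chR wr p t₀ + SSg wr (chR wr) t₀))) +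
      ((1 - w) * (chD wr p t₁ + TDs (chD wr) t₁) + w * (chD wr p t₀ + TDs (chD wr) t₀))
    nlinarith

end Crest.Agent.R4P.RsSum19
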