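import Crest.Agent.R4P.ChU5_17
import Crest.Agent.R4P.RsSum_19

/-!
R4 (S0004), powers pass, helper17 (TgtCrs, height reserve): **the tree sum `TDs` of `RsSum_19` is the
raw tree sum `TS` of `ChU5_17`**.

* `TDs_le` : `TDs F (toDT u τ) ≤ TS f u τ` when `F p (toDT u' t') ≤ f p u' t'` at all the raw children;
* `chD_eq` : `RsSum19.chD` of a raw child;
* `tds_fin` : `TDs (chD (rho)) (toDT u τ) ≤ 13 c W` at all the nodes, for the final numbers.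
-/

set_option autoImplicit false
set_option linter.unusedSectionVars false
set_option linter.unusedVariables false

open MeasureTheory Filter

namespace Crest.Agent.R4P.ChU17

open Crest.Agent.R4P.Cnt588 Crest.Agent.R4P.Item758 Crest.Agent.R4P.W363
open Crest.Agent.R4P.Data758 Crest.Agent.R4P.LfDat734
open Crest.Agent.R4P.Bld532 (NS All NodeOk Ws_nonneg)
open Crest.Agent.R4P.Step588 (NDt)
open Crest.Agent.R4P.WalkIT579 (tp isL nodeOk_hi top_of_nodeOk)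
open Crest.Agent.R4P.Skel189 Crest.Agent.R4P.RseSt23 Crest.Agent.R4P.RseNd23
open Crest.Agent.R4P.AvgItem710
open Crest.Agent.R4P.DseCh23 (hd hu hu_c hu_A hu_B lvl cE eD)
open Crest.Agent.R4P.DseKid23 (KB DH ctx_KB KQ TN isL_iff eQ_nonneg eD_eq)
open Crest.Agent.R4P.DseFin21
open Crest.Agent.R4P.DseInd21 (ma Wa ma_le ma_nonneg ma_mul Wa_nonneg)
open Crest.Agent.R4P.EK17 (al_le)
open Crest.Agent.R4P.FinE26 (ForN)
open Crest.Agent.R4P.FinAll26 (NumFin Ev_P2)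
open Crest.Agent.R4P.ParF5 Crest.Agent.R4P.NumX34 Crest.Agent.R4P.ParT21
open Crest.Agent.R4P.NumG23
open Crest.Agent.R4P.Frame758 (wt)
open Crest.Agent.R4P.Walk560 (DT)
open Crest.Agent.R4.Soft104 (w)
open Crest.Agent.R4.Item758 (IL AdI)
open Crest.Agent.R4.ClosR758 (rv Ro rv_univ)
open Crest.Agent.R4.ClosL758 (Rr Dr)
open Crest.Agent.R4.Tour104 (Q)
open Crest.Agent.R4P.RsSum19 (TDs)

/-! ### the tree sums -/

section gen
variable {Λ κ : Type*} [Fintype Λ] [DecidableEq Λ] [Fintype κ] [DecidableEq κ]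

/-- **the tree sum of a decorated tree is the raw tree sum** -/
theorem TDs_le (D : Par Λ κ) (sp : ℕ → Finset Λ) (F : ℕ → DT Λ κ → ℝ) (f : ℕ → NS → IT → ℝ)
    (t : IT) : ∀ u : NS,
    All (RawAll fun p u t => F p (D.toDT sp u.B u.A t) ≤ f p u t) u t →
    TDs F (D.toDT sp u.B u.A t) ≤ TS f u t := by
  induction t with
  | leaf S => intro u _; exact le_rfl
  | br p Sp t₁ t₀ ih₁ ih₀ =>
    intro u h
    have s1 := ih₁ ⟨p, u.c / (1 - 1 / (p : ℝ)), u.A * p, u.B⟩ h.2.1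
    have s0 := ih₀ ⟨p, u.c * p, u.A, u.B * p⟩ h.2.2
    have k1 : F p (D.toDT sp u.B (u.A * p) t₁) ≤ f p ⟨p, u.c / (1 - 1 / (p : ℝ)), u.A * p, u.B⟩ t₁ :=
      h.1.1
    have k0 : F p (D.toDT sp (u.B * p) u.A t₀) ≤ f p ⟨p, u.c * p, u.A, u.B * p⟩ t₀ := h.1.2
    have hw1 : 0 ≤ 1 - 1 / (p : ℝ) := one_sub_inv_nonneg p
    have hw0 : 0 ≤ 1 / (p : ℝ) := by positivity
    exact add_le_add (mul_le_mul_of_nonneg_left (add_le_add k1 s1) hw1)
      (mul_le_mul_of_nonneg_left (add_le_add k0 s0) hw0)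
  | add b t₁ t₀ ih₁ ih₀ =>
    intro u h
    have s1 := ih₁ ⟨b + 1, u.c, u.A, u.B⟩ h.2.1
    have s0 := ih₀ ⟨b + 1, u.c, u.A, u.B⟩ h.2.2
    have k1 : F b (D.toDT sp u.B u.A t₁) ≤ f b ⟨b + 1, u.c, u.A, u.B⟩ t₁ := h.1.1
    have k0 : F b (D.toDT sp u.B u.A t₀) ≤ f b ⟨b + 1, u.c, u.A, u.B⟩ t₀ := h.1.2
    exact add_le_add (add_le_add k1 s1) (add_le_add k0 s0)
  | up b Sp t ih =>
    intro u h
    have s1 := ih ⟨b, u.c, u.A, u.B⟩ h.2
    have k1 : F b (D.toDT sp u.B u.A t) ≤ f b ⟨b, u.c, u.A, u.B⟩ t := h.1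
    exact add_le_add k1 s1
  | pl b t ih =>
    intro u h
    have s1 := ih ⟨b + 1, u.c, u.A * b, u.B⟩ h.2
    have k1 : F b (D.toDT sp u.B (u.A * b) t) ≤ f b ⟨b + 1, u.c, u.A * b, u.B⟩ t := h.1
    have e : TDs F (D.toDT sp u.B u.A (.pl b t)) =
        (1 - 0) * (F b (D.toDT sp u.B (u.A * b) t) + TDs F (D.toDT sp u.B (u.A * b) t)) +
          0 * (F b (.leaf (D.rho b) fun _ _ => 0) + TDs F (.leaf (D.rho b) fun _ _ => 0)) := rfl
    rw [e, zero_mul, add_zero, sub_zero, one_mul]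
    exact add_le_add k1 s1
  | far b t₁ t₀ ih₁ ih₀ =>
    intro u h
    have s1 := ih₁ ⟨b + 1, u.c, u.A, u.B⟩ h.2.1
    have s0 := ih₀ ⟨b + 1, u.c, u.A, u.B⟩ h.2.2
    have k1 : F b (D.toDT sp u.B u.A t₁) ≤ f b ⟨b + 1, u.c, u.A, u.B⟩ t₁ := h.1.1
    have k0 : F b (D.toDT sp u.B u.A t₀) ≤ f b ⟨b + 1, u.c, u.A, u.B⟩ t₀ := h.1.2
    exact add_le_add (add_le_add k1 s1) (add_le_add k0 s0)

/-- a property of the states holds at all the raw children -/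
lemma rawAll_of {P : ℕ → NS → IT → Prop} (h : ∀ p u t, P p u t) (t : IT) : ∀ u : NS,
    All (RawAll P) u t := by
  induction t with
  | leaf S => intro u; exact trivial
  | br p Sp t₁ t₀ ih₁ ih₀ => intro u; exact ⟨⟨h _ _ _, h _ _ _⟩, ih₁ _, ih₀ _⟩
  | add b t₁ t₀ ih₁ ih₀ => intro u; exact ⟨⟨h _ _ _, h _ _ _⟩, ih₁ _, ih₀ _⟩
  | up b Sp t ih => intro u; exact ⟨h _ _ _, ih _⟩
  | pl b t ih => intro u; exact ⟨h _ _ _, ih _⟩
  | far b t₁ t₀ ih₁ ih₀ => intro u; exact ⟨⟨h _ _ _, h _ _ _⟩, ih₁ _, ih₀ _⟩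

lemma toDT_isLeaf (D : Par Λ κ) (sp : ℕ → Finset Λ) (b pr : ℕ) (t : IT) :
    (D.toDT sp b pr t).isLeaf ↔ isL t := by
  cases t <;> exact Iff.rfl

lemma toDT_tp (D : Par Λ κ) (sp : ℕ → Finset Λ) (b pr : ℕ) (t : IT) :
    (D.toDT sp b pr t).top = tp t := by
  cases t <;> rfl

end gen

section ctx
variable {N : Skel189.Num} {γ : ℝ} {p0 P₀ : ℕ} {X : Ctx N γ p0 P₀}

/-- **the class change of a raw child** -/
lemma chD_eq (p : ℕ) (u : NS) (t : IT) :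
    RsSum19.chD ((X.c.D.par X.Y).rho) p ((X.c.D.par X.Y).toDT X.c.sp u.B u.A t) =
      chD X Finset.univ p u t := by
  classical
  unfold RsSum19.chD chD
  rw [toDT_tp, rv_univ, Par.toDT_g]
  by_cases hl : isL t
  · have h2 := (toDT_isLeaf (X.c.D.par X.Y) X.c.sp u.B u.A t).2 hl
    simp only [h2, hl, if_true]
  · have h2 : ¬ ((X.c.D.par X.Y).toDT X.c.sp u.B u.A t).isLeaf :=
      fun h => hl ((toDT_isLeaf (X.c.D.par X.Y) X.c.sp u.B u.A t).1 h)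
    simp only [h2, hl, if_false]
    rfl

/-- **the tree sum of the class changes**, alive mass -/
theorem TS_chDa {K κ K₀ : ℝ} (hK : 0 ≤ K) (hk0 : 0 ≤ κ) (hkK : κ ≤ K) (h0 : 3 ≤ p0)
    (hR : RG X) (hPhi : ∀ q ∈ X.S', ∀ m : ℕ, Phi X K κ 1 q m ≤ K₀) (hK0 : 0 ≤ K₀)
    {A : Finset X.c.Lam} (t : IT) : ∀ u : NS, All (PF X) u t → All (KB X) u t →
    All (KidsU X K κ A) u t → TS (chD X A) u t ≤ K₀ * ma X A u t := by
  classical
  intro u hP hB hU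
  have hnd := hP.self.nd
  have hloc : All (RawAll (LB (X.c.D.par X.Y) (wt X.c.D) A (chD X A) (eD X K κ 1))) u t := by
    have hc : ∀ p u t, (0 ≤ u.c ∧ ChU X K κ A p u t) →
        LB (X.c.D.par X.Y) (wt X.c.D) A (chD X A) (eD X K κ 1) p u t := by
      intro p u t ⟨hc, h⟩
      unfold LB chD
      by_cases hl : isL t
      · simp only [hl, if_true]
        refine mul_nonneg hc (Finset.sum_nonneg fun j _ => mul_nonneg (wt_nonneg X j) ?_)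
        exact eQ_nonneg zero_le_one p _
      · simp only [hl, if_false]
        exact h hl
    have gen : ∀ (t : IT) (u : NS), All (KB X) u t → All (KidsU X K κ A) u t →
        All (RawAll (LB (X.c.D.par X.Y) (wt X.c.D) A (chD X A) (eD X K κ 1))) u t := by
      intro t
      induction t with
      | leaf S => intro u _ _; exact trivial
      | br p Sp t₁ t₀ ih₁ ih₀ =>
        intro u hb hh
        exact ⟨⟨hc _ _ _ ⟨hb.2.1.self.nf.c0.le, hh.1.1⟩, hc _ _ _ ⟨hb.2.2.self.nf.c0.le, hh.1.2⟩⟩,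
          ih₁ _ hb.2.1 hh.2.1, ih₀ _ hb.2.2 hh.2.2⟩
      | add b t₁ t₀ ih₁ ih₀ =>
        intro u hb hh
        exact ⟨⟨hc _ _ _ ⟨hb.2.1.self.nf.c0.le, hh.1.1⟩, hc _ _ _ ⟨hb.2.2.self.nf.c0.le, hh.1.2⟩⟩,
          ih₁ _ hb.2.1 hh.2.1, ih₀ _ hb.2.2 hh.2.2⟩
      | up b Sp t ih =>
        intro u hb hh
        exact ⟨hc _ _ _ ⟨hb.2.self.nf.c0.le, hh.1⟩, ih _ hb.2 hh.2⟩
      | pl b t ih =>
        intro u hb hh
        exact ⟨hc _ _ _ ⟨hb.2.self.nf.c0.le, hh.1⟩, ih _ hb.2 hh.2⟩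
      | far b t₁ t₀ ih₁ ih₀ =>
        intro u hb hh
        exact ⟨⟨hc _ _ _ ⟨hb.2.1.self.nf.c0.le, hh.1.1⟩, hc _ _ _ ⟨hb.2.2.self.nf.c0.le, hh.1.2⟩⟩,
          ih₁ _ hb.2.1 hh.2.1, ih₀ _ hb.2.2 hh.2.2⟩
    exact gen t u hB hU
  have hc : 0 ≤ u.c := hB.self.nf.c0.le
  refine (TS_le (X.c.D.par X.Y) (wt X.c.D) A (chD X A) (eD X K κ 1) t u hnd.fit hloc).trans ?_
  rw [ma_mul]
  refine mul_le_mul_of_nonneg_left (Finset.sum_le_sum fun j hj => ?_) hc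
  by_cases hs : j.1.1 ∈ X.S'
  · have e : Wa X j = wt X.c.D j := if_pos hs
    rw [e, mul_comm]
    exact mul_le_mul_of_nonneg_right (rE_le hK hk0 hkK zero_le_one h0 hR hPhi hK0 hP
      (Finset.mem_filter.1 hj).2) (wt_nonneg X j)
  · have e : rE (X.c.D.par X.Y).it (eD X K κ 1) u t j = 0 := rE_dead hs t u
    rw [e, mul_zero]
    exact mul_nonneg hK0 (Wa_nonneg j)

end ctx

/-- **the target**: raw tree sums of the class changes -/
def TgtTSa (N : Skel189.Num) (γ : ℝ) : Prop :=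
  Ev N γ fun p0 P₀ X => ∀ A : Finset X.c.Lam, IL X.c.D.it A →
    All (fun u τ => TS (chD X A) u τ ≤ 13 * ma X A u τ) ⟨top X.S, 1, 1, 1⟩ X.c.t

theorem tsa_fin : ForN ParT21.thF NumG23.SxF TgtTSa := by
  obtain ⟨c0, h0⟩ := chU_fin
  refine ⟨max c0 10, fun N Ct C₀ γ h hN hG => ?_⟩
  have n0 : NumFin N (thF Ct) Ct c0 := EndD23.NumFin.weaken hN (le_max_left _ _)
  have hU := h0 N Ct C₀ γ h n0 hG
  have e1 : 10 ≤ N.C1 := (le_max_right _ _).trans hN.C1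
  have ec := hN.c2
  have eB := hN.B
  have hB := N.hB
  obtain ⟨q1, H1⟩ := Phi_le N (K := N.B + 2) (κ := N.C1 + 3) le_rfl (by rw [ec]; linarith)
  obtain ⟨q2, H2⟩ := ctx_KB N
  obtain ⟨q3, hU⟩ := hU
  refine ⟨q1 + q2 + q3 + 3, fun p0 hp0 => ?_⟩
  obtain ⟨P1, hU⟩ := hU p0 (by omega)
  refine ⟨P1 + 2, fun P₀ hP X A hIL => ?_⟩
  have k1 := hU P₀ (by omega) X A hIL
  have k2 := H2 p0 (by omega) γ P₀ (by omega) X
  have k3 := ctx_PF X
  have hRG := ctx_RG h X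
  have hPhi : ∀ q ∈ X.S', ∀ m : ℕ, Phi X (N.B + 2) (N.C1 + 3) 1 q m ≤ 13 := fun q hq m => by
    have := H1 p0 (by omega) γ P₀ X 1 q hq m
    linarith
  refine All.sub X.c.t (Q := fun u τ => PF X u τ ∧ KB X u τ ∧ KidsU X (N.B + 2) (N.C1 + 3) A u τ)
    (fun u t hh => ?_) _ (k3.and (k2.and k1))
  exact TS_chDa (K := N.B + 2) (κ := N.C1 + 3) (by linarith) (by linarith) (by rw [eB]; linarith)
    (by omega) hRG hPhi (by norm_num) t u (hh.mono fun _ _ k => k.1)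
    (hh.mono fun _ _ k => k.2.1) (hh.mono fun _ _ k => k.2.2)

/-- **the target**: the tree sums of the decorated trees -/
def TgtTDs (N : Skel189.Num) (γ : ℝ) : Prop :=
  Ev N γ fun p0 P₀ X =>
    All (fun u τ => TDs (RsSum19.chD ((X.c.D.par X.Y).rho))
        ((X.c.D.par X.Y).toDT X.c.sp u.B u.A τ) ≤ 13 * ma X Finset.univ u τ ∧
      TDs (RsSum19.chD ((X.c.D.par X.Y).rho))
        ((X.c.D.par X.Y).toDT X.c.sp u.B u.A τ) ≤ 13 * (u.c * Ws (w X.ψ) τ.items))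
      ⟨top X.S, 1, 1, 1⟩ X.c.t

theorem tds_fin : ForN ParT21.thF NumG23.SxF TgtTDs := by
  obtain ⟨c0, h0⟩ := tsa_fin
  refine ⟨c0, fun N Ct C₀ γ h hN hG => ?_⟩
  obtain ⟨q2, H2⟩ := ctx_KB N
  obtain ⟨q3, hU⟩ := h0 N Ct C₀ γ h hN hG
  refine ⟨q2 + q3, fun p0 hp0 => ?_⟩
  obtain ⟨P1, hU⟩ := hU p0 (by omega)
  refine ⟨P1 + 2, fun P₀ hP X => ?_⟩
  have k2 := H2 p0 (by omega) γ P₀ (by omega) X
  have ilu : IL X.c.D.it (Finset.univ : Finset X.c.Lam) := fun j j' _ =>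
    ⟨fun _ => Finset.mem_univ _, fun _ => Finset.mem_univ _⟩
  refine ((hU P₀ (by omega) X Finset.univ ilu).and k2).mono
    fun u τ hh => ?_
  have h1 : TDs (RsSum19.chD ((X.c.D.par X.Y).rho))
      ((X.c.D.par X.Y).toDT X.c.sp u.B u.A τ) ≤ TS (chD X Finset.univ) u τ :=
    TDs_le (X.c.D.par X.Y) X.c.sp _ _ τ u (rawAll_of (fun p u t => (chD_eq p u t).le) τ u)
  have h2 := (ma_le (X := X) hh.2.nf.c0.le Finset.univ τ).trans
    (al_le (X := X) hh.2.nf.c0.le τ Finset.univ)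
  exact ⟨h1.trans hh.1, h1.trans (hh.1.trans (mul_le_mul_of_nonneg_left h2 (by norm_num)))⟩

end Crest.Agent.R4P.ChU17
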