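import Crest.Agent.R4P.TWc_17

/-!
R4 (S0004) with powers, helper26: **the closure with absorption**: the error of a node may contain
`1/8` of its own energy (`closureZE`, copy of `TWc17.closureZ`).
-/

set_option autoImplicit false
set_option linter.unusedSectionVars false
set_option linter.unusedVariables false
open MeasureTheory Filter Set

namespace Crest.Agent.R4P.ClE26

open Crest.Agent.R4.Tour104 Crest.Agent.R4.Tour758 Crest.Agent.R4.Avg758 Crest.Agent.R4.Clos758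
open Crest.Agent.R4.ClosL758 Crest.Agent.R4.ClosG758 Crest.Agent.R4.ClosR758
open Crest.Agent.R4P.ClosR442 Crest.Agent.R4P.ClosP542
variable {Λ κ : Type*} [Fintype Λ] [DecidableEq Λ] [Fintype κ] [DecidableEq κ]
open Crest.Agent.R4P.TWc17

lemma node_closeE [WRel κ] {Ad : TrG Λ κ → Finset Λ → Prop} {μ : TrG Λ κ → Finset Λ → ℝ}
    {ν : TrG Λ κ → ℝ} {δ : TrG Λ κ → Finset Λ → ℝ} {C₀ η K β e : ℝ} (hC₀ : 0 ≤ C₀)
    (hβ0 : 0 ≤ β) (hK2 : C₀ + η + 3 * β ≤ 7 / 8 * K) (hK3 : 1 + β ≤ 7 / 8 * K)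
    (t : TrG Λ κ) (h : t.Ok) (hN : t.All (AdN Ad)) (hM : t.All (MassOk Ad μ ν))
    (hl0 : t.All (LeafIn Ad μ C₀)) {A : Finset Λ} (hA : Ad t A) (hd0 : 0 ≤ δ t A)
    (herr : dseR A t + Q (Rr t.part \ Ro t.part) (rv A t.val) (rv A t.val) + e ≤
      η * (μ t A + μ t A * (ν t)) + δ t A + 1 / 8 * I (fun x => tt A t x ^ 2))
    (hQ : Q (Ro t.part) (rv A t.val) (rv A t.val) ≤ β * Po μ ν δ t A t A + e) :
    I (fun x => tt A t x ^ 2) ≤ K * (μ t A + μ t A * (ν t) + δ t A) := by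
  have hd := din_leR hC₀ t h hN hA hM (LeafIn.all hl0 (AdN.all hN hA))
  have hm0 := hM.self.base.nn _ hA
  have hh0 := hM.self.base.nu
  have hle := hM.self.base.le _ hA
  have hsp : I (fun x => tt A t x ^ 2) = Q (Dr t.part) (rv A t.val) (rv A t.val) +
      Q (Rr t.part) (rv A t.val) (rv A t.val) :=
    I_tot_sq_split t.part fun j => PB_rv (fun j => h.pb j) A j
  have hRo : Q (Rr t.part) (rv A t.val) (rv A t.val) =
      Q (Rr t.part \ Ro t.part) (rv A t.val) (rv A t.val) +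
      Q (Ro t.part) (rv A t.val) (rv A t.val) :=
    (Finset.sum_sdiff (Ro_subset t.part)).symm
  unfold Po at hQ
  have hLm : Lh (μ t A) (ν t) (μ t A) (ν t) ≤ 2 * (μ t A + μ t A * (ν t)) := by
    unfold Lh; nlinarith [mul_le_mul_of_nonneg_left hle hm0]
  have hP : gh (μ t A) (ν t) * Real.sqrt (δ t A) + gh (μ t A) (ν t) * Real.sqrt (δ t A) ≤
      (μ t A + μ t A * (ν t)) + δ t A := by
    have a1 := Real.sq_sqrt hd0
    have a2 := gh_sq hm0 hh0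
    have a3 := sq_nonneg (gh (μ t A) (ν t) - Real.sqrt (δ t A))
    nlinarith
  have hS : Lh (μ t A) (ν t) (μ t A) (ν t) + gh (μ t A) (ν t) * Real.sqrt (δ t A) +
      gh (μ t A) (ν t) * Real.sqrt (δ t A) ≤ 3 * (μ t A + μ t A * (ν t)) + δ t A := by
    linarith
  have hP' := mul_le_mul_of_nonneg_left hS hβ0
  have hmm : 0 ≤ μ t A * (ν t) := mul_nonneg hm0 hh0
  have h3 : (C₀ + η + 3 * β) * (μ t A + μ t A * (ν t)) ≤ 7 / 8 * K * (μ t A + μ t A * (ν t)) :=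
    mul_le_mul_of_nonneg_right hK2 (by positivity)
  have h5 : (1 + β) * δ t A ≤ 7 / 8 * K * δ t A := mul_le_mul_of_nonneg_right hK3 hd0
  have h4 : C₀ * μ t A ≤ C₀ * (μ t A + μ t A * (ν t)) :=
    mul_le_mul_of_nonneg_left (by linarith) hC₀
  set E := I (fun x => tt A t x ^ 2) with hE
  nlinarith

set_option maxHeartbeats 1000000 in
/-- **closure with restricted populations**; the error hypothesis may use the conclusion at all
proper descendants; nothing is required at the free pulls. -/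
theorem closureZE [WRel κ] {Ad : TrG Λ κ → Finset Λ → Prop} {μ : TrG Λ κ → Finset Λ → ℝ}
    {ν : TrG Λ κ → ℝ} {δ : TrG Λ κ → Finset Λ → ℝ} {C C₀ η K B β : ℝ} (hC : 0 ≤ C)
    (hK : 0 ≤ K) (hCK : C ≤ K) (hβ : Real.sqrt (C * K) ≤ β) (hB : B ≤ β) (hC₀ : 0 ≤ C₀)
    (hη : 0 ≤ η) (hK2 : C₀ + η + 3 * β ≤ 7 / 8 * K) (hK3 : 1 + β ≤ 7 / 8 * K)
    (t : TrG Λ κ) (h : t.Ok) (hN : t.All (AdN Ad)) (hM : t.All (MassOk Ad μ ν))
    (hd : t.All (SlackR Ad δ)) (hl : t.All (LeafSMR Ad μ ν C)) (hl0 : t.All (LeafIn Ad μ C₀))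
    (herr : t.All fun r => ¬ PulG r → Below (SMR Ad μ ν δ K) r → ∀ A, Ad r A → A.Nonempty →
      ∃ e, SelfZ Ad μ ν B r A e ∧
        dseR A r + rseR A r + e ≤ η * (μ r A + μ r A * (ν r)) + δ r A + 1 / 8 * I (fun x => tt A r x ^ 2)) :
    t.All (SMR Ad μ ν δ K) := by
  have hβ0 : 0 ≤ β := (Real.sqrt_nonneg _).trans hβ
  have hempty : ∀ (r : TrG Λ κ), MassB Ad μ ν r → (∀ A, Ad r A → 0 ≤ δ r A) → Ad r ∅ →
      I (fun x => tt (∅ : Finset Λ) r x ^ 2) ≤ K * (μ r ∅ + μ r ∅ * ν r + δ r ∅) := by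
    intro r hr hδ had
    have e : (fun x => tt (∅ : Finset Λ) r x ^ 2) = fun _ => (0 : ℝ) := by
      funext x; simp [tt, rv]
    have e0 : I (fun _ : ℝ => (0 : ℝ)) = 0 := by simp [I]
    rw [e, e0]
    have := hr.nn _ had
    have h2 := hr.nu
    have h3 := hδ ∅ had
    positivity
  induction t with
  | leaf r f =>
    intro A hA
    have hl' := hl A hA
    have hm := hM.base.nn A hA
    have hh := hM.base.nu
    have hd0 := hd.base.1 A hA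
    have h1 := mul_le_mul_of_nonneg_right hCK
      (by positivity : 0 ≤ μ (TrG.leaf r f) A +
        μ (TrG.leaf r f) A * ν (TrG.leaf r f))
    have h2 := mul_nonneg hK hd0
    linarith
  | br Pc w r t₁ t₀ v B₁ G ih₁ ih₀ =>
    have hOk := h
    obtain ⟨k1, k0, hb⟩ := h
    have s1 := ih₁ k1 hN.2.1 hM.2.1 hd.2.1 hl.2.1 hl0.2.1 herr.2.1
    have s0 := ih₀ k0 hN.2.2 hM.2.2 hd.2.2 hl.2.2 hl0.2.2 herr.2.2
    refine ⟨?_, s1, s0⟩
    by_cases hpul : PulG (TrG.br Pc w r t₁ t₀ v B₁ G)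
    · exact pull_SMR hK hpul hOk hN hM hd s1.self
    intro A hA
    rcases A.eq_empty_or_nonempty with rfl | hne
    · exact hempty _ hM.1.1 hd.1.1.1 hA
    obtain ⟨sA, A1, A0⟩ := hN.1 A hA
    have hr := BrOk.res hb sA
    obtain ⟨e, ⟨e₁₁, e₁₀, e₀₁, e₀₀, c11, c10, c01, c00, he⟩, herr1⟩ :=
      herr.1 hpul ⟨s1, s0⟩ A hA hne
    have i11 := pair_boundZ hC hK hβ hB c11 one_pos one_pos k1 k1 hN.2.1 hN.2.1 A1 A1
      hM.2.1 hM.2.1 hd.2.1 hd.2.1 hl.2.1 hl.2.1 s1 s1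
    have i10 := pair_boundZ hC hK hβ hB c10 one_pos one_pos k1 k0 hN.2.1 hN.2.2 A1 A0
      hM.2.1 hM.2.2 hd.2.1 hd.2.2 hl.2.1 hl.2.2 s1 s0
    have i01 := pair_boundZ hC hK hβ hB c01 one_pos one_pos k0 k1 hN.2.2 hN.2.1 A0 A1
      hM.2.2 hM.2.1 hd.2.2 hd.2.1 hl.2.2 hl.2.1 s0 s1
    have i00 := pair_boundZ hC hK hβ hB c00 one_pos one_pos k0 k0 hN.2.2 hN.2.2 A0 A0
      hM.2.2 hM.2.2 hd.2.2 hd.2.2 hl.2.2 hl.2.2 s0 s0
    rw [avg_one] at i11 i00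
    rw [avg_one, avg_one] at i10 i01
    have p1 := PB_rv (fun j => k1.pb j) A
    have p0 := PB_rv (fun j => k0.pb j) A
    have key := Q_col2_le (R := orel κ) hb.hP hb.w0 hb.w1 hb.w0 hb.w1 hr.col hr.col
      (PB_sm p1 r) (PB_sm p0 r) (PB_sm p1 r) (PB_sm p0 r) hr.mean hr.mean
    rw [Q_orel_sm r hr.pv hr.pv, Q_orel_sm r p1 p1, Q_orel_sm r p1 p0, Q_orel_sm r p0 p1,
      Q_orel_sm r p0 p0] at key
    have hq : 0 ≤ 1 - w := by linarith [hb.w1]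
    have w11 := mul_le_mul_of_nonneg_left i11 (mul_nonneg hq hq)
    have w10 := mul_le_mul_of_nonneg_left i10 (mul_nonneg hq hb.w0)
    have w01 := mul_le_mul_of_nonneg_left i01 (mul_nonneg hb.w0 hq)
    have w00 := mul_le_mul_of_nonneg_left i00 (mul_nonneg hb.w0 hb.w0)
    have hPot := Po_col2 (δ := δ) (t := .br Pc w r t₁ t₀ v B₁ G) (t' := .br Pc w r t₁ t₀ v B₁ G)
      hb.w0 hb.w1 hb.w0 hb.w1 (hM.2.1.self.base.nn _ A1) (hM.2.2.self.base.nn _ A0)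
      (hM.2.1.self.base.nn _ A1) (hM.2.2.self.base.nn _ A0) hM.2.1.self.base.nu
      hM.2.2.self.base.nu hM.2.1.self.base.nu hM.2.2.self.base.nu (hM.1.2.1 _ hA) hM.1.2.2
      (hM.1.2.1 _ hA) hM.1.2.2
      (hd.2.1.self.base.1 _ A1) (hd.2.2.self.base.1 _ A0) (hd.2.1.self.base.1 _ A1)
      (hd.2.2.self.base.1 _ A0) (hd.1.2 _ hA) (hd.1.2 _ hA)
    have hPot' := mul_le_mul_of_nonneg_left hPot hβ0
    refine node_closeE hC₀ hβ0 hK2 hK3 _ hOk hN hM hl0 hA (hd.1.1.1 A hA) herr1 ?_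
    show Q (Ro r) (rv A v) (rv A v) ≤ _
    linarith
  | add r t₁ t₀ ih₁ ih₀ =>
    have hOk := h
    obtain ⟨k1, k0⟩ := h
    have s1 := ih₁ k1 hN.2.1 hM.2.1 hd.2.1 hl.2.1 hl0.2.1 herr.2.1
    have s0 := ih₀ k0 hN.2.2 hM.2.2 hd.2.2 hl.2.2 hl0.2.2 herr.2.2
    refine ⟨?_, s1, s0⟩
    intro A hA
    rcases A.eq_empty_or_nonempty with rfl | hne
    · exact hempty _ hM.1.1 hd.1.1.1 hA
    obtain ⟨sA, A1, A0⟩ := hN.1 A hA
    obtain ⟨e, ⟨e₁, e₀, x₁₀, x₀₁, c1, c0, hx, hy, he⟩, herr1⟩ := herr.1 (fun h => h) ⟨s1, s0⟩ A hA hne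
    have i1 := pair_boundZ hC hK hβ hB c1 one_pos one_pos k1 k1 hN.2.1 hN.2.1 A1 A1
      hM.2.1 hM.2.1 hd.2.1 hd.2.1 hl.2.1 hl.2.1 s1 s1
    have i0 := pair_boundZ hC hK hβ hB c0 one_pos one_pos k0 k0 hN.2.2 hN.2.2 A0 A0
      hM.2.2 hM.2.2 hd.2.2 hd.2.2 hl.2.2 hl.2.2 s0 s0
    rw [avg_one] at i1 i0
    have p1 := PB_rv (fun j => k1.pb j) A
    have p0 := PB_rv (fun j => k0.pb j) A
    have eQ : Q (Ro r) (rv A (TrG.add r t₁ t₀).val) (rv A (TrG.add r t₁ t₀).val) =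
        Q (Ro r) (rv A t₁.val) (rv A t₁.val) + Q (Ro r) (rv A t₁.val) (rv A t₀.val) +
        (Q (Ro r) (rv A t₀.val) (rv A t₁.val) + Q (Ro r) (rv A t₀.val) (rv A t₀.val)) := by
      have e : rv A (TrG.add r t₁ t₀).val = fun j x => rv A t₁.val j x + rv A t₀.val j x :=
        rv_add A t₁.val t₀.val
      rw [e, Q_add_left p1 p0 (fun j => (p1 j).add (p0 j)), Q_add_right p1 p1 p0,
        Q_add_right p0 p1 p0]
    have m1 := hM.2.1.self.base.nn _ A1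
    have m0 := hM.2.2.self.base.nn _ A0
    have y10 := mul_le_mul_of_nonneg_right hB (mul_nonneg m1 m0)
    have y01 := mul_le_mul_of_nonneg_right hB (mul_nonneg m0 m1)
    have hdc : Dec Ad (TrG.add r t₁ t₀) A t₁ A t₀ A := Dec.add
    have hPot := Po_dec (δ := δ) hdc hdc hM hM hd hd hN hN hA hA
    have hPot' := mul_le_mul_of_nonneg_left hPot hβ0
    refine node_closeE hC₀ hβ0 hK2 hK3 _ hOk hN hM hl0 hA (hd.1.1.1 A hA) herr1 ?_
    show Q (Ro r) (rv A (TrG.add r t₁ t₀).val) (rv A (TrG.add r t₁ t₀).val) ≤ _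
    rw [eQ]
    linarith

/-- version at the root: `K = 16 (C + C₀ + η + B + 1)` works. -/
theorem closureZE_root [WRel κ] {Ad : TrG Λ κ → Finset Λ → Prop} {μ : TrG Λ κ → Finset Λ → ℝ}
    {ν : TrG Λ κ → ℝ} {δ : TrG Λ κ → Finset Λ → ℝ}
    {C C₀ η B : ℝ} (hC : 0 ≤ C) (hC₀ : 0 ≤ C₀) (hη : 0 ≤ η) (hB : 0 ≤ B)
    (t : TrG Λ κ) (h : t.Ok) (hN : t.All (AdN Ad)) (hM : t.All (MassOk Ad μ ν))
    (hd : t.All (SlackR Ad δ)) (hl : t.All (LeafSMR Ad μ ν C)) (hl0 : t.All (LeafIn Ad μ C₀))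
    (herr : t.All fun r => ¬ PulG r → Below (SMR Ad μ ν δ (16 * (C + C₀ + η + B + 1))) r →
      ∀ A, Ad r A → A.Nonempty →
      ∃ e, SelfZ Ad μ ν B r A e ∧
        dseR A r + rseR A r + e ≤ η * (μ r A + μ r A * ν r) + δ r A + 1 / 8 * I (fun x => tt A r x ^ 2))
    (hU : Ad t Finset.univ) :
    I (fun x => t.tot x ^ 2) ≤ (16 * (C + C₀ + η + B + 1)) *
      (μ t Finset.univ + μ t Finset.univ * ν t + δ t Finset.univ) := by
  set K := 16 * (C + C₀ + η + B + 1) with hKdef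
  have hK : 0 ≤ K := by positivity
  have hsq : Real.sqrt (C * K) ≤ K / 4 := by
    rw [show K / 4 = Real.sqrt ((K / 4) ^ 2) from (Real.sqrt_sq (by positivity)).symm]
    refine Real.sqrt_le_sqrt ?_
    have : C ≤ K / 16 := by rw [hKdef]; linarith
    nlinarith
  have := (closureZE (β := K / 4) hC hK (by rw [hKdef]; linarith) hsq (by rw [hKdef]; linarith) hC₀
    hη (by rw [hKdef]; linarith) (by rw [hKdef]; linarith) t h hN hM hd hl hl0 herr).self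
      Finset.univ hU
  rw [tt_univ] at this
  exact this


end Crest.Agent.R4P.ClE26
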