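import Crest.Agent.R4P.Walk560

/-!
R4 (S0004) with powers, helper26: **dead nodes** of a decorated tree: a leaf, or pulls above a leaf.
-/

set_option autoImplicit false
set_option linter.unusedSectionVars false
set_option linter.unusedVariables false

namespace Crest.Agent.R4P.Dd26

open Crest.Agent.R4.Tour104 Crest.Agent.R4.Tour758 Crest.Agent.R4.Avg758 Crest.Agent.R4.Clos758
open Crest.Agent.R4.ClosL758 Crest.Agent.R4.ClosG758 Crest.Agent.R4.ClosR758
open Crest.Agent.R4P.Walk560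

variable {Λ κ : Type*}

/-- dead: a leaf or pulls (`w = 0`) above a leaf -/
def dd : DT Λ κ → Prop
  | .leaf _ _ => True
  | .br _ w _ t₁ _ _ _ _ => w = 0 ∧ dd t₁
  | .add _ _ _ _ => False
  | .up _ _ _ => False

lemma dd_of_leaf {t : DT Λ κ} (h : t.isLeaf) : dd t := by
  cases t with
  | leaf r f => trivial
  | br _ _ _ _ _ _ _ _ => exact absurd h id
  | add _ _ _ _ => exact absurd h id
  | up _ _ _ => exact absurd h id

lemma not_dd_add {b : ℕ} {r : Λ → κ} {t₁ t₀ : DT Λ κ} : ¬ dd (.add b r t₁ t₀) := fun h => h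

lemma not_dd_up {b : ℕ} {Sp : Finset Λ} {t : DT Λ κ} : ¬ dd (.up b Sp t) := fun h => h

lemma dd_br {p : ℕ} {w : ℝ} {r : Λ → κ} {t₁ t₀ : DT Λ κ} {v : Λ → ℝ → ℝ} {B G : κ → ℝ → ℝ}
    (h : dd (.br p w r t₁ t₀ v B G)) : w = 0 ∧ dd t₁ := h

end Crest.Agent.R4P.Dd26
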