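import Crest.Agent.R4P.WalkB560
import Crest.Agent.R4P.ItemDT758

/-!
R4 (S0004), POWERS, helper29: **walks which never split a population**.

If the strategy never processes an (add, up) state jointly and does not look at the sets `Sp`, then
the walk sums do not depend on the sets `Sp` of the `up` nodes (`WS_strip`).  Hence the closure theorem
may be applied to the tree with `Sp = ∅` and the family `AdF` of populations `∅`, `univ`.
-/

set_option autoImplicit false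
set_option linter.unusedSectionVars false
set_option linter.unusedVariables false
set_option linter.unusedSimpArgs false
open MeasureTheory Filter

namespace Crest.Agent.R4P.Strip29

open Crest.Agent.R4.Tour104 Crest.Agent.R4.Tour758 Crest.Agent.R4.Avg758 Crest.Agent.R4.Clos758
open Crest.Agent.R4.ClosL758 Crest.Agent.R4.ClosG758 Crest.Agent.R4.ClosR758
open Crest.Agent.R4.Fam464 Crest.Agent.R4P.Cnt588 Crest.Agent.R4P.Walk560 Crest.Agent.R4P.Item758

section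
variable {Λ κ : Type*}

/-- forget the sets `Sp` -/
def strip : DT Λ κ → DT Λ κ
  | .leaf r f => .leaf r f
  | .br p w r t₁ t₀ v B G => .br p w r (strip t₁) (strip t₀) v B G
  | .add b r t₁ t₀ => .add b r (strip t₁) (strip t₀)
  | .up b _ t => .up b ∅ (strip t)

@[simp] lemma strip_g (t : DT Λ κ) : (strip t).g = t.g := by
  induction t with
  | leaf r f => rfl
  | br p w r t₁ t₀ v B G ih₁ ih₀ => simp only [strip, DT.g, ih₁, ih₀]
  | add b r t₁ t₀ ih₁ ih₀ => simp only [strip, DT.g, ih₁, ih₀]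
  | up b Sp t ih => simpa only [strip, DT.g] using ih

@[simp] lemma strip_size (t : DT Λ κ) : (strip t).size = t.size := by
  induction t with
  | leaf r f => rfl
  | br p w r t₁ t₀ v B G ih₁ ih₀ => simp only [strip, DT.size, ih₁, ih₀]
  | add b r t₁ t₀ ih₁ ih₀ => simp only [strip, DT.size, ih₁, ih₀]
  | up b Sp t ih => simp only [strip, DT.size, ih]

@[simp] lemma strip_top (t : DT Λ κ) : (strip t).top = t.top := by
  cases t <;> rfl

@[simp] lemma strip_isLeaf (t : DT Λ κ) : (strip t).isLeaf ↔ t.isLeaf := by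
  cases t <;> exact Iff.rfl

@[simp] lemma strip_strip (t : DT Λ κ) : strip (strip t) = strip t := by
  induction t with
  | leaf r f => rfl
  | br p w r t₁ t₀ v B G ih₁ ih₀ => simp only [strip, ih₁, ih₀]
  | add b r t₁ t₀ ih₁ ih₀ => simp only [strip, ih₁, ih₀]
  | up b Sp t ih => simp only [strip, ih]

end

section
variable {Λ κ : Type*} [Fintype Λ] [DecidableEq Λ]

/-- forget the sets `Sp` of a view -/
def Vst : Vw Λ κ → Vw Λ κ
  | .br w r t₁ t₀ v B G => .br w r (strip t₁) (strip t₀) v B G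
  | .add r t₁ t₀ => .add r (strip t₁) (strip t₀)
  | .up _ u => .up ∅ (strip u)

lemma vw_strip (p : ℕ) (t : DT Λ κ) : vw p (strip t) = Vst (vw p t) := by
  cases t with
  | leaf r f => rfl
  | br q w r t₁ t₀ v B G =>
    simp only [strip, vw]
    split_ifs <;> rfl
  | add q r t₁ t₀ =>
    simp only [strip, vw]
    split_ifs <;> rfl
  | up q Sp u =>
    simp only [strip, vw]
    split_ifs <;> rfl

/-- the stripped state -/
def stS (s : St Λ κ) : St Λ κ := { s with t := strip s.t, t' := strip s.t' }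

@[simp] lemma stS_p (s : St Λ κ) : (stS s).p = s.p := by
  simp [stS, St.p]

@[simp] lemma stS_rank (s : St Λ κ) : (stS s).rank = s.rank := by
  simp [stS, St.rank]

lemma stS_stS (s : St Λ κ) : stS (stS s) = stS s := by
  simp [stS]

/-- the strategy does not look at the sets `Sp` -/
structure Blind (stp : Stp Λ κ) : Prop where
  st : ∀ s, stp (stS s) ↔ stp s
  jt : ∀ s, stp.jt (stS s) ↔ stp.jt s
  lf : ∀ s, stp.lf (stS s) ↔ stp.lf s
  on : ∀ s, stp.on (stS s) ↔ stp.on s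

/-- the strategy never splits a population -/
def NoSplit (stp : Stp Λ κ) : Prop :=
  (∀ (s : St Λ κ) (r : Λ → κ) (t₁ t₀ u : DT Λ κ) (Sp : Finset Λ),
    vw s.p s.t = .add r t₁ t₀ → vw s.p s.t' = .up Sp u → ¬ stp.jt s) ∧
  (∀ (s : St Λ κ) (r : Λ → κ) (t₁ t₀ u : DT Λ κ) (Sp : Finset Λ),
    vw s.p s.t = .up Sp u → vw s.p s.t' = .add r t₁ t₀ → ¬ stp.jt s)

lemma Blind.c {stp : Stp Λ κ} (h : Blind stp) (s : St Λ κ) (t₁ t₀ : DT Λ κ) :
    stp.c (stS s) (strip t₁) (strip t₀) = strip (stp.c s t₁ t₀) := by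
  unfold Stp.c
  by_cases h1 : stp.on s
  · rw [if_pos h1, if_pos ((h.on s).2 h1)]
  · rw [if_neg h1, if_neg (fun h2 => h1 ((h.on s).1 h2))]

lemma Blind.x {stp : Stp Λ κ} (h : Blind stp) (s : St Λ κ) (t₁ t₀ : DT Λ κ) :
    stp.x (stS s) (strip t₁) (strip t₀) = strip (stp.x s t₁ t₀) := by
  unfold Stp.x
  by_cases h1 : stp.on s
  · rw [if_pos h1, if_pos ((h.on s).2 h1)]
  · rw [if_neg h1, if_neg (fun h2 => h1 ((h.on s).1 h2))]

variable [DecidableEq κ] [WRel κ]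

lemma isPL_stS (s : St Λ κ) : (stS s).isPL ↔ s.isPL := by
  unfold St.isPL
  have e1 : vw (stS s).p (stS s).t = Vst (vw s.p s.t) := by
    rw [stS_p]; exact vw_strip _ _
  have e2 : vw (stS s).p (stS s).t' = Vst (vw s.p s.t') := by
    rw [stS_p]; exact vw_strip _ _
  rw [e1, e2, stS_p]
  rcases hv : vw s.p s.t with ⟨w, r, t₁, t₀, v, B, G⟩ | ⟨r, t₁, t₀⟩ | ⟨Sp, u⟩ <;>
  rcases hv' : vw s.p s.t' with ⟨w', r', t₁', t₀', v', B', G'⟩ | ⟨r', t₁', t₀'⟩ | ⟨Sp', u'⟩ <;>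
  exact Iff.rfl

lemma isPR_stS (s : St Λ κ) : (stS s).isPR ↔ s.isPR := by
  unfold St.isPR
  have e1 : vw (stS s).p (stS s).t = Vst (vw s.p s.t) := by
    rw [stS_p]; exact vw_strip _ _
  have e2 : vw (stS s).p (stS s).t' = Vst (vw s.p s.t') := by
    rw [stS_p]; exact vw_strip _ _
  rw [e1, e2, stS_p]
  rcases hv : vw s.p s.t with ⟨w, r, t₁, t₀, v, B, G⟩ | ⟨r, t₁, t₀⟩ | ⟨Sp, u⟩ <;>
  rcases hv' : vw s.p s.t' with ⟨w', r', t₁', t₀', v', B', G'⟩ | ⟨r', t₁', t₀'⟩ | ⟨Sp', u'⟩ <;>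
  exact Iff.rfl

/-- strip a weighted state -/
def qS (q : ℝ × St Λ κ) : ℝ × St Λ κ := (q.1, stS q.2)

lemma stL_stS (s : St Λ κ) : (stS s).stL = s.stL.map qS := by
  unfold St.stL
  have e1 : vw (stS s).p (stS s).t = Vst (vw s.p s.t) := by
    rw [stS_p]; exact vw_strip _ _
  rw [e1, stS_p]
  rcases hv : vw s.p s.t with ⟨w, r, t₁, t₀, v, B, G⟩ | ⟨r, t₁, t₀⟩ | ⟨Sp, u⟩
  · simp only [Vst]
    have eM : (stS s).M = s.M := rfl
    rw [eM]
    split_ifs with h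
    · simp only [List.map_cons, List.map_nil, qS, stS, St.fL, St.p, strip_top]
    · simp only [List.map_cons, List.map_nil, qS, stS, St.pL, St.p, strip_top]
  · rfl
  · rfl

lemma stR_stS (s : St Λ κ) : (stS s).stR = s.stR.map qS := by
  unfold St.stR
  have e1 : vw (stS s).p (stS s).t' = Vst (vw s.p s.t') := by
    rw [stS_p]; exact vw_strip _ _
  rw [e1, stS_p]
  rcases hv : vw s.p s.t' with ⟨w, r, t₁, t₀, v, B, G⟩ | ⟨r, t₁, t₀⟩ | ⟨Sp, u⟩
  · simp only [Vst]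
    have eM : (stS s).M' = s.M' := rfl
    rw [eM]
    split_ifs with h
    · simp only [List.map_cons, List.map_nil, qS, stS, St.fR, St.p, strip_top]
    · simp only [List.map_cons, List.map_nil, qS, stS, St.pR, St.p, strip_top]
  · rfl
  · rfl

variable {stp : Stp Λ κ}

/-- the continuing states of the stripped state -/
lemma nxt0_stS (hb : Blind stp) (hn : NoSplit stp) (s : St Λ κ) :
    nxt0 stp (stS s) = (nxt0 stp s).map qS := by
  have e1 : vw (stS s).p (stS s).t = Vst (vw s.p s.t) := by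
    rw [stS_p]; exact vw_strip _ _
  have e2 : vw (stS s).p (stS s).t' = Vst (vw s.p s.t') := by
    rw [stS_p]; exact vw_strip _ _
  have hl : ((stS s).t.isLeaf ∨ (stS s).t'.isLeaf) ↔ (s.t.isLeaf ∨ s.t'.isLeaf) := by
    simp [stS]
  by_cases h1 : s.t.isLeaf ∨ s.t'.isLeaf
  · have h1' := hl.2 h1
    simp [nxt0, h1, h1']
  have h1' : ¬ ((stS s).t.isLeaf ∨ (stS s).t'.isLeaf) := fun h => h1 (hl.1 h)
  by_cases h2 : stp s
  · have h2' := (hb.st s).2 h2
    simp [nxt0, h1, h1', h2, h2']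
  have h2' : ¬ stp (stS s) := fun h => h2 ((hb.st s).1 h)
  by_cases hPL : s.isPL
  · have hPL' := (isPL_stS s).2 hPL
    simp only [nxt0, if_neg h1, if_neg h1', if_neg h2, if_neg h2', if_pos hPL, if_pos hPL']
    exact stL_stS s
  have hPL' : ¬ (stS s).isPL := fun h => hPL ((isPL_stS s).1 h)
  by_cases hPR : s.isPR
  · have hPR' := (isPR_stS s).2 hPR
    simp only [nxt0, if_neg h1, if_neg h1', if_neg h2, if_neg h2', if_neg hPL, if_neg hPL',
      if_pos hPR, if_pos hPR']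
    exact stR_stS s
  have hPR' : ¬ (stS s).isPR := fun h => hPR ((isPR_stS s).1 h)
  simp only [nxt0, if_neg h1, if_neg h1', if_neg h2, if_neg h2', if_neg hPL, if_neg hPL',
      if_neg hPR, if_neg hPR', e1, e2]
  rcases hv : vw s.p s.t with ⟨w, r, t₁, t₀, v, B, G⟩ | ⟨r, t₁, t₀⟩ | ⟨Sp, u⟩ <;>
  rcases hv' : vw s.p s.t' with ⟨w', r', t₁', t₀', v', B', G'⟩ | ⟨r', t₁', t₀'⟩ | ⟨Sp', u'⟩ <;>
  simp only [Vst, List.map_cons, List.map_nil, qS]
  · rfl
  · rw [hb.c]; rfl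
  · rw [stS_p]; rfl
  · rw [hb.c]; rfl
  · have hj := hb.jt s
    have hf := hb.lf s
    by_cases h3 : stp.jt s
    · rw [if_pos h3, if_pos (hj.2 h3)]; rfl
    · rw [if_neg h3, if_neg (fun h => h3 (hj.1 h))]
      by_cases h4 : stp.lf s
      · rw [if_pos h4, if_pos (hf.2 h4), hb.c]; rfl
      · rw [if_neg h4, if_neg (fun h => h4 (hf.1 h)), hb.c]; rfl
  · have h3 := hn.1 s r t₁ t₀ u' Sp' hv hv'
    rw [if_neg h3, if_neg (fun h => h3 ((hb.jt s).1 h)), hb.c]; rfl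
  · rw [stS_p]; rfl
  · have h3 := hn.2 s r' t₁' t₀' u Sp hv hv'
    rw [if_neg h3, if_neg (fun h => h3 ((hb.jt s).1 h)), hb.c]; rfl
  · rfl

variable [Fintype κ]

lemma Qs_stS (s : St Λ κ) : Qs (stS s) = Qs s := by
  simp [Qs, stS]

lemma Xs_stS (μ : TrG Λ κ → Finset Λ → ℝ) (B : ℝ) (s : St Λ κ) : Xs μ B (stS s) = Xs μ B s := by
  simp [Xs, Qs, stS]

lemma Xs_stS' (μ : TrG Λ κ → Finset Λ → ℝ) (B : ℝ) (s : St Λ κ) (t : DT Λ κ) :
    Xs μ B { stS s with t := strip t } = Xs μ B { s with t := t } := by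
  simp [Xs, Qs, stS]

lemma Xs_stS'' (μ : TrG Λ κ → Finset Λ → ℝ) (B : ℝ) (s : St Λ κ) (t : DT Λ κ) :
    Xs μ B { stS s with t' := strip t } = Xs μ B { s with t' := t } := by
  simp [Xs, Qs, stS]

set_option maxHeartbeats 1000000 in
/-- the local errors of the stripped state -/
lemma eAll_stS (hb : Blind stp) (hn : NoSplit stp) (μ : TrG Λ κ → Finset Λ → ℝ)
    (ν : TrG Λ κ → ℝ) (B : ℝ) (s : St Λ κ) :
    eNM stp (stS s) = eNM stp s ∧ eOS stp (stS s) = eOS stp s ∧ eSHR stp (stS s) = eSHR stp s ∧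
      eX stp μ B (stS s) = eX stp μ B s ∧ eSTOP stp μ ν B (stS s) = eSTOP stp μ ν B s := by
  have e1 : vw (stS s).p (stS s).t = Vst (vw s.p s.t) := by
    rw [stS_p]; exact vw_strip _ _
  have e2 : vw (stS s).p (stS s).t' = Vst (vw s.p s.t') := by
    rw [stS_p]; exact vw_strip _ _
  have hl : ((stS s).t.isLeaf ∨ (stS s).t'.isLeaf) ↔ (s.t.isLeaf ∨ s.t'.isLeaf) := by
    simp [stS]
  by_cases h1 : s.t.isLeaf ∨ s.t'.isLeaf
  · have h1' := hl.2 h1
    simp [eNM, eOS, eSHR, eX, eSTOP, h1, h1']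
  have h1' : ¬ ((stS s).t.isLeaf ∨ (stS s).t'.isLeaf) := fun h => h1 (hl.1 h)
  by_cases h2 : stp s
  · have h2' := (hb.st s).2 h2
    refine ⟨by simp [eNM, h1, h1', h2, h2'], by simp [eOS, h1, h1', h2, h2'],
      by simp [eSHR, h1, h1', h2, h2'], by simp [eX, h1, h1', h2, h2'], ?_⟩
    simp only [eSTOP, if_neg h1, if_neg h1', if_pos h2, if_pos h2', Qs_stS]
    simp [stS]
  have h2' : ¬ stp (stS s) := fun h => h2 ((hb.st s).1 h)
  have eS : eSTOP stp μ ν B (stS s) = eSTOP stp μ ν B s := by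
    simp only [eSTOP, if_neg h1, if_neg h1', if_neg h2, if_neg h2']
  have shr : ∀ V : Vw Λ κ, (stS s).shr (Vst V) = s.shr V := by
    intro V
    rcases V with ⟨w, r, t₁, t₀, v, B, G⟩ | ⟨r, t₁, t₀⟩ | ⟨Sp, u⟩
    · show Qs _ = Qs _
      simp [Qs, stS]
    · rfl
    · rfl
  by_cases hPL : s.isPL
  · have hPL' := (isPL_stS s).2 hPL
    refine ⟨by simp [eNM, h1, h1', h2, h2', hPL, hPL'], by simp [eOS, h1, h1', h2, h2', hPL, hPL'],
      ?_, by simp [eX, h1, h1', h2, h2', hPL, hPL'], eS⟩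
    simp only [eSHR, if_neg h1, if_neg h1', if_neg h2, if_neg h2', if_pos hPL, if_pos hPL', e1]
    exact shr _
  have hPL' : ¬ (stS s).isPL := fun h => hPL ((isPL_stS s).1 h)
  by_cases hPR : s.isPR
  · have hPR' := (isPR_stS s).2 hPR
    refine ⟨by simp [eNM, h1, h1', h2, h2', hPR, hPR'], by simp [eOS, h1, h1', h2, h2', hPR, hPR'],
      ?_, by simp [eX, h1, h1', h2, h2', hPR, hPR'], eS⟩
    simp only [eSHR, if_neg h1, if_neg h1', if_neg h2, if_neg h2', if_neg hPL, if_neg hPL',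
      if_pos hPR, if_pos hPR', e2]
    exact shr _
  have hPR' : ¬ (stS s).isPR := fun h => hPR ((isPR_stS s).1 h)
  have hP : ¬ (s.isPL ∨ s.isPR) := by rw [not_or]; exact ⟨hPL, hPR⟩
  have hP' : ¬ ((stS s).isPL ∨ (stS s).isPR) := by rw [not_or]; exact ⟨hPL', hPR'⟩
  have eA : (stS s).A = s.A := rfl
  have eA' : (stS s).A' = s.A' := rfl
  have eM : (stS s).M = s.M := rfl
  have eM' : (stS s).M' = s.M' := rfl
  have eR : (stS s).R = s.R := rfl
  have eg : (stS s).t.g = s.t.g := strip_g _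
  have eg' : (stS s).t'.g = s.t'.g := strip_g _
  have qR : ∀ R : Finset (Λ × Λ), Qs { stS s with R := R } = Qs { s with R := R } := by
    intro R; simp [Qs, stS]
  refine ⟨?_, ?_, ?_, ?_, eS⟩
  · simp only [eNM, if_neg h1, if_neg h1', if_neg h2, if_neg h2', if_neg hP, if_neg hP', e1, e2]
    rcases hv : vw s.p s.t with ⟨w, r, t₁, t₀, v, B, G⟩ | ⟨r, t₁, t₀⟩ | ⟨Sp, u⟩ <;>
    rcases hv' : vw s.p s.t' with ⟨w', r', t₁', t₀', v', B', G'⟩ | ⟨r', t₁', t₀'⟩ | ⟨Sp', u'⟩ <;>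
    rfl
  · simp only [eOS, if_neg h1, if_neg h1', if_neg h2, if_neg h2', if_neg hP, if_neg hP', e1, e2]
    rcases hv : vw s.p s.t with ⟨w, r, t₁, t₀, v, B, G⟩ | ⟨r, t₁, t₀⟩ | ⟨Sp, u⟩ <;>
    rcases hv' : vw s.p s.t' with ⟨w', r', t₁', t₀', v', B', G'⟩ | ⟨r', t₁', t₀'⟩ | ⟨Sp', u'⟩ <;>
    simp only [Vst, stS_p, eA, eA', eM, eM', eg, eg']
  · simp only [eSHR, if_neg h1, if_neg h1', if_neg h2, if_neg h2', if_neg hPL, if_neg hPL',
      if_neg hPR, if_neg hPR', e1, e2]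
    rcases hv : vw s.p s.t with ⟨w, r, t₁, t₀, v, B, G⟩ | ⟨r, t₁, t₀⟩ | ⟨Sp, u⟩ <;>
    rcases hv' : vw s.p s.t' with ⟨w', r', t₁', t₀', v', B', G'⟩ | ⟨r', t₁', t₀'⟩ | ⟨Sp', u'⟩ <;>
    simp only [Vst, eR, qR]
  · simp only [eX, if_neg h1, if_neg h1', if_neg h2, if_neg h2', if_neg hP, if_neg hP', e1, e2]
    rcases hv : vw s.p s.t with ⟨w, r, t₁, t₀, v, B, G⟩ | ⟨r, t₁, t₀⟩ | ⟨Sp, u⟩ <;>
    rcases hv' : vw s.p s.t' with ⟨w', r', t₁', t₀', v', B', G'⟩ | ⟨r', t₁', t₀'⟩ | ⟨Sp', u'⟩ <;>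
    simp only [Vst]
    · rw [hb.x, Xs_stS'']
    · rw [hb.x, Xs_stS']
    · have hj := hb.jt s
      have hf := hb.lf s
      by_cases h3 : stp.jt s
      · rw [if_pos h3, if_pos (hj.2 h3)]
        simp [Xs, Qs, stS]
      · rw [if_neg h3, if_neg (fun h => h3 (hj.1 h))]
        by_cases h4 : stp.lf s
        · rw [if_pos h4, if_pos (hf.2 h4), hb.x, Xs_stS']
        · rw [if_neg h4, if_neg (fun h => h4 (hf.1 h)), hb.x, Xs_stS'']
    · have h3 := hn.1 s r t₁ t₀ u' Sp' hv hv'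
      rw [if_neg h3, if_neg (fun h => h3 ((hb.jt s).1 h)), hb.x, Xs_stS']
    · have h3 := hn.2 s r' t₁' t₀' u Sp hv hv'
      rw [if_neg h3, if_neg (fun h => h3 ((hb.jt s).1 h)), hb.x, Xs_stS'']

/-- **walk sums of stripped states** -/
theorem WS_stS (hb : Blind stp) (hn : NoSplit stp) {loc : St Λ κ → ℝ}
    (hloc : ∀ s, loc (stS s) = loc s) :
    ∀ (k : ℕ) (s : St Λ κ), s.rank < k → WS stp loc (stS s) = WS stp loc s := by
  intro k
  induction k with
  | zero => intro s hs; omega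
  | succ k ih =>
    intro s hs
    rw [WS_eq0, WS_eq0, hloc, nxt0_stS hb hn, List.map_map]
    congr 2
    refine List.map_congr_left fun q hq => ?_
    have h1 := nxt0_rank stp s q hq
    show q.1 * WS stp loc (stS q.2) = q.1 * WS stp loc q.2
    rw [ih q.2 (by omega)]

theorem WS_strip (hb : Blind stp) (hn : NoSplit stp) (μ : TrG Λ κ → Finset Λ → ℝ)
    (ν : TrG Λ κ → ℝ) (B : ℝ) (s : St Λ κ) :
    WS stp (eAll stp μ ν B) (stS s) = WS stp (eAll stp μ ν B) s := by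
  refine WS_stS hb hn (fun s => ?_) (s.rank + 1) s (Nat.lt_succ_self _)
  obtain ⟨h1, h2, h3, h4, h5⟩ := eAll_stS hb hn μ ν B s
  unfold eAll
  rw [h1, h2, h3, h4, h5]

end

section
variable {Λ κ : Type*} [Fintype Λ] [DecidableEq Λ] [Fintype κ] [DecidableEq κ]

/-- the item tree with `Sp = ∅` -/
lemma strip_toDT (D : Item758.Par Λ κ) (sp : ℕ → Finset Λ) (t : IT) : ∀ b pr : ℕ,
    strip (D.toDT sp b pr t) = D.toDT (fun _ => ∅) b pr t := by
  induction t with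
  | leaf S => intro b pr; rfl
  | br p Sp t₁ t₀ ih₁ ih₀ => intro b pr; simp only [Item758.Par.toDT, strip, ih₁, ih₀]
  | add p t₁ t₀ ih₁ ih₀ => intro b pr; simp only [Item758.Par.toDT, strip, ih₁, ih₀]
  | up b' Sp t ih => intro b pr; simp only [Item758.Par.toDT, strip, ih]
  | pl p t ih => intro b pr; simp only [Item758.Par.toDT, strip, ih]
  | far p t₁ t₀ ih₁ ih₀ => intro b pr; simp only [Item758.Par.toDT, strip, ih₁, ih₀]

variable [WRel κ]

lemma selfSt_strip (d : DT Λ κ) (A : Finset Λ) : stS (selfSt d A) = selfSt (strip d) A := by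
  unfold stS selfSt
  simp

end

/-! ### full populations -/

section
variable {Λ κ : Type*} [Fintype Λ] [DecidableEq Λ] [Fintype κ] [DecidableEq κ]

/-- the populations `∅` and `univ` -/
def AdF (t : TrG Λ κ) (A : Finset Λ) : Prop := A = ∅ ∨ A = Finset.univ

lemma AdF_empty (t : TrG Λ κ) : AdF t ∅ := Or.inl rfl

lemma AdF_univ (t : TrG Λ κ) : AdF t Finset.univ := Or.inr rfl

lemma AdF_sat {t : TrG Λ κ} {A : Finset Λ} (h : AdF t A) (r : Λ → κ) : Sat A r := by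
  rcases h with rfl | rfl
  · exact Item758.Sat_empty r
  · exact Item758.Sat_univ r

lemma AdF_AdN (t : TrG Λ κ) : AdN AdF t := by
  cases t with
  | leaf r f => intro A h; exact AdF_sat h r
  | br P w r t₁ t₀ v B G => intro A h; exact ⟨AdF_sat h r, h, h⟩
  | add r t₁ t₀ => intro A h; exact ⟨AdF_sat h r, h, h⟩

/-- **node conditions for the full populations** -/
theorem toDT_NodeOkF (D : Item758.Par Λ κ) {dec : κ → Finset Λ → ℝ} (h0 : ∀ k A, 0 ≤ dec k A)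
    (h1 : ∀ k A A', Disjoint A A' → dec k A + dec k A' = dec k (A ∪ A')) (j₀ : Λ) (t : IT) :
    ∀ n b pr : ℕ, 0 < b → t.Ok n → Fit b pr t → D.Wts pr t →
    (D.toDT (fun _ => ∅) b pr t).All
      (NodeOk D.rho AdF (muR dec j₀) fun t => muR dec j₀ t Finset.univ) := by
  have key : ∀ (t : IT) (b pr : ℕ), 0 < b → Fit b pr t → D.Wts pr t →
      MassOk AdF (muR dec j₀) (fun t => muR dec j₀ t Finset.univ)
        (D.toDT (fun _ => ∅) b pr t).g := by
    intro t b pr hb hF hW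
    rw [D.toDT_g]
    exact (MassOk_muR h0 h1 j₀ (D.toG_Ok hb hF hW)).self
  have keyz : ∀ r : Λ → κ, NodeOk D.rho AdF (muR dec j₀) (fun t => muR dec j₀ t Finset.univ)
      (.leaf r fun _ _ => 0) := fun r =>
    ⟨trivial, trivial, AdF_AdN _, trivial, AdF_empty _, (MassOk_muR h0 h1 j₀
      (t := .leaf r fun _ _ => 0) (fun _ => PB.const le_rfl)).self⟩
  induction t with
  | leaf S =>
    intro n b pr hb hO hF hW
    exact ⟨trivial, trivial, AdF_AdN _, trivial, AdF_empty _, key _ b pr hb hF hW⟩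
  | br p Sp t₁ t₀ ih₁ ih₀ =>
    intro n b pr hb hO hF hW
    have hF' := hF
    have hW' := hW
    obtain ⟨hp, hpb, hd, h1', h0'⟩ := hF
    exact ⟨⟨rfl, fun h => absurd h (one_div_ne_zero (Nat.cast_ne_zero.2 hp.ne_zero)),
        AdF_AdN _, trivial, AdF_empty _, key _ b pr hb hF' hW'⟩,
      ih₁ p b (pr * p) hb hO.2.2.2.2.1 h1' (hW.br₁ hd),
      ih₀ p (b * p) pr (Nat.mul_pos hb hp.pos) hO.2.2.2.2.2 h0' hW.br₀⟩
  | add p t₁ t₀ ih₁ ih₀ =>
    intro n b pr hb hO hF hW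
    have hF' := hF
    have hW' := hW
    obtain ⟨hd, h1', h0'⟩ := hF
    exact ⟨⟨trivial, trivial, AdF_AdN _, trivial, AdF_empty _, key _ b pr hb hF' hW'⟩,
      ih₁ _ b pr hb hO.2.2.2.1 h1' (hW.add₁ hd), ih₀ _ b pr hb hO.2.2.2.2 h0' hW.add₀⟩
  | up b' Sp t ih =>
    intro n b pr hb hO hF hW
    refine ⟨⟨trivial, trivial, AdF_AdN _, fun A hA => ?_, AdF_empty _, key _ b pr hb hF hW⟩,
      ih b' b pr hb hO.2.2.2 hF hW⟩
    simp only [Finset.inter_empty, Finset.sdiff_empty]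
    exact ⟨AdF_empty _, hA⟩
  | pl p t ih =>
    intro n b pr hb hO hF hW
    have hF' := hF
    have hW' := hW
    obtain ⟨hp, hpb, h1'⟩ := hF
    exact ⟨⟨rfl, fun _ => ⟨rfl, rfl⟩, AdF_AdN _, trivial, AdF_empty _, key _ b pr hb hF' hW'⟩,
      ih _ b (pr * p) hb hO.2.2 h1' hW.pl, keyz _⟩
  | far p t₁ t₀ ih₁ ih₀ =>
    intro n b pr hb hO hF hW
    have hF' := hF
    have hW' := hW
    obtain ⟨hd, h1', h0'⟩ := hF
    exact ⟨⟨trivial, trivial, AdF_AdN _, trivial, AdF_empty _, key _ b pr hb hF' hW'⟩,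
      ih₁ _ b pr hb hO.2.2.2.1 h1' (hW.far₁ hd), ih₀ _ b pr hb hO.2.2.2.2 h0' hW.far₀⟩

end

end Crest.Agent.R4P.Strip29
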