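import Crest.Agent.R4P.VWalkM_36
import Crest.Agent.R4P.Strip_29
import Crest.Agent.R4P.Dd_26

/-!
R4 (S0004), POWERS, module D, helper29: **the outer sum of `eX`** (full populations).

* `decr stp Φ s = Φ s - Σ_{nxt} w Φ` : what a potential pays at a state.
* `step_cases` : a state of the walk is not an add step (`crs = []`), or one-sided left / right, or
  joint, with explicit lists `nxt0`, `crs`.
* `TieN F` : node functions which are supermartingales at ties; `decr_nonadd` : products of such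
  functions have `0 ≤ decr` at the non-add steps.
* the potentials `ΦK` (masses, zero at dead states, `Dd_26.dd`), `ΦS` (square root), `ΦG` (node functions with
  gaps at add nodes) and what they pay at add steps.
* `cross_sum` : if the crossing states at every add step are paid then the outer sum is bounded.
-/

set_option autoImplicit false
set_option linter.unusedSectionVars false
set_option linter.unusedVariables false
set_option linter.unusedSimpArgs false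
open MeasureTheory Filter

namespace Crest.Agent.R4P.CrossSum29

open Crest.Agent.R4.Tour104 Crest.Agent.R4.Tour758 Crest.Agent.R4.Avg758 Crest.Agent.R4.Clos758
open Crest.Agent.R4.ClosL758 Crest.Agent.R4.ClosG758 Crest.Agent.R4.ClosR758
open Crest.Agent.R4P.ClosR442 Crest.Agent.R4P.Walk560 Crest.Agent.R4P.VWalk36
open Crest.Agent.R4P.Strip29 Crest.Agent.R4P.Dd26

variable {Λ κ : Type*} [Fintype Λ] [DecidableEq Λ] [DecidableEq κ] [WRel κ]

/-- what the potential pays at a state -/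
noncomputable def decr (stp : Stp Λ κ) (Φ : St Λ κ → ℝ) (s : St Λ κ) : ℝ :=
  Φ s - ((nxt0 stp s).map fun q => q.1 * Φ q.2).sum

lemma decr_add (stp : Stp Λ κ) (Φ Ψ : St Λ κ → ℝ) (s : St Λ κ) :
    decr stp (fun s => Φ s + Ψ s) s = decr stp Φ s + decr stp Ψ s := by
  unfold decr
  have : ((nxt0 stp s).map fun q => q.1 * (Φ q.2 + Ψ q.2)).sum =
      ((nxt0 stp s).map fun q => q.1 * Φ q.2).sum + ((nxt0 stp s).map fun q => q.1 * Ψ q.2).sum := by
    induction nxt0 stp s with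
    | nil => simp
    | cons a l ih => simp only [List.map_cons, List.sum_cons, ih]; ring
  rw [this]; ring

lemma decr_smul (stp : Stp Λ κ) (c : ℝ) (Φ : St Λ κ → ℝ) (s : St Λ κ) :
    decr stp (fun s => c * Φ s) s = c * decr stp Φ s := by
  unfold decr
  have : ((nxt0 stp s).map fun q => q.1 * (c * Φ q.2)).sum =
      c * ((nxt0 stp s).map fun q => q.1 * Φ q.2).sum := by
    induction nxt0 stp s with
    | nil => simp
    | cons a l ih => simp only [List.map_cons, List.sum_cons, ih]; ring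
  rw [this]; ring

/-- no continuing states -/
lemma decr_end {stp : Stp Λ κ} {Φ : St Λ κ → ℝ} {s : St Λ κ}
    (h : (s.t.isLeaf ∨ s.t'.isLeaf) ∨ stp s) : decr stp Φ s = Φ s := by
  unfold decr
  have e : nxt0 stp s = [] := by
    rcases h with h | h
    · simp [nxt0, h]
    · by_cases h1 : s.t.isLeaf ∨ s.t'.isLeaf
      · simp [nxt0, h1]
      · simp [nxt0, h1, h]
  rw [e]; simp

/-- **supersolution principle** -/
theorem WS_le_of_decr {stp : Stp Λ κ} {Iv : St Λ κ → Prop} {loc Φ : St Λ κ → ℝ}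
    (hI : ∀ s, Iv s → ∀ q ∈ nxt stp s, Iv q.2 ∧ 0 ≤ q.1)
    (h : ∀ s, Iv s → loc s ≤ decr stp Φ s) : ∀ s, Iv s → WS stp loc s ≤ Φ s := by
  refine W_le_super (fun s => nxt_rank stp s) hI fun s hs => ?_
  have := h s hs
  unfold decr at this
  rw [nxt_sum]
  linarith

/-! ### the steps -/

/-- a proper state: no leaf, no stop, no pre-step -/
structure Prp (stp : Stp Λ κ) (s : St Λ κ) : Prop where
  nl : ¬ s.t.isLeaf
  nl' : ¬ s.t'.isLeaf
  ns : ¬ stp s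
  npl : ¬ s.isPL
  npr : ¬ s.isPR

/-- one-sided step on the left: `c` goes on, `x` is crossing, the partner is not touched -/
structure OneL (stp : Stp Λ κ) (s : St Λ κ) (r : Λ → κ) (t₁ t₀ : DT Λ κ) : Prop where
  prp : Prp stp s
  et : s.t = .add s.p r t₁ t₀
  nx : nxt0 stp s = [(1, { s with t := stp.c s t₁ t₀ })]
  cr : crs stp s = [{ s with t := stp.x s t₁ t₀ }]
  /-- the partner: not an add node, or an add node which waits (`lf`) -/
  wt : (∀ r' t₁' t₀', s.t' ≠ .add s.p r' t₁' t₀') ∨ (¬ stp.jt s ∧ stp.lf s)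

/-- one-sided step on the right -/
structure OneR (stp : Stp Λ κ) (s : St Λ κ) (r : Λ → κ) (t₁ t₀ : DT Λ κ) : Prop where
  prp : Prp stp s
  et : s.t' = .add s.p r t₁ t₀
  nx : nxt0 stp s = [(1, { s with t' := stp.c s t₁ t₀ })]
  cr : crs stp s = [{ s with t' := stp.x s t₁ t₀ }]
  wt : (∀ r' t₁' t₀', s.t ≠ .add s.p r' t₁' t₀') ∨ (¬ stp.jt s ∧ ¬ stp.lf s)

/-- joint step -/
structure Jnt (stp : Stp Λ κ) (s : St Λ κ) (r : Λ → κ) (t₁ t₀ : DT Λ κ) (r' : Λ → κ)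
    (t₁' t₀' : DT Λ κ) : Prop where
  prp : Prp stp s
  et : s.t = .add s.p r t₁ t₀
  et' : s.t' = .add s.p r' t₁' t₀'
  jt : stp.jt s
  nx : nxt0 stp s = [(1, { s with t := t₁, t' := t₁' }), (1, { s with t := t₀, t' := t₀' })]
  cr : crs stp s = [{ s with t := t₁, t' := t₀' }, { s with t := t₀, t' := t₁' }]

/-- the other steps: pre-steps and columns -/
inductive Oth (stp : Stp Λ κ) (s : St Λ κ) : Prop
  | fl (h : (s.t.isLeaf ∨ s.t'.isLeaf) ∨ stp s) (e : nxt0 stp s = [])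
  | pl (w : ℝ) (r : Λ → κ) (t₁ t₀ : DT Λ κ) (v : Λ → ℝ → ℝ) (B G : κ → ℝ → ℝ) (q₁ q₀ : St Λ κ)
      (et : s.t = .br s.p w r t₁ t₀ v B G) (e : nxt0 stp s = [(1 - w, q₁), (w, q₀)])
      (a₁ : q₁.t = t₁) (a₀ : q₀.t = t₀) (b₁ : q₁.t' = s.t') (b₀ : q₀.t' = s.t')
  | pr (w : ℝ) (r : Λ → κ) (t₁ t₀ : DT Λ κ) (v : Λ → ℝ → ℝ) (B G : κ → ℝ → ℝ) (q₁ q₀ : St Λ κ)
      (et : s.t' = .br s.p w r t₁ t₀ v B G) (e : nxt0 stp s = [(1 - w, q₁), (w, q₀)])
      (a₁ : q₁.t' = t₁) (a₀ : q₀.t' = t₀) (b₁ : q₁.t = s.t) (b₀ : q₀.t = s.t)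
  | bb (w : ℝ) (r : Λ → κ) (t₁ t₀ : DT Λ κ) (v : Λ → ℝ → ℝ) (B G : κ → ℝ → ℝ)
      (w' : ℝ) (r' : Λ → κ) (t₁' t₀' : DT Λ κ) (v' : Λ → ℝ → ℝ) (B' G' : κ → ℝ → ℝ)
      (et : s.t = .br s.p w r t₁ t₀ v B G) (et' : s.t' = .br s.p w' r' t₁' t₀' v' B' G')
      (e : nxt0 stp s = [((1 - w) * (1 - w'), { s with R := Ro r, t := t₁, t' := t₁' }),
       ((1 - w) * w', { s with R := Ro r, t := t₁, t' := t₀' }),
       (w * (1 - w'), { s with R := Ro r, t := t₀, t' := t₁' }),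
       (w * w', { s with R := Ro r, t := t₀, t' := t₀' })])
  | bu (w : ℝ) (r : Λ → κ) (t₁ t₀ : DT Λ κ) (v : Λ → ℝ → ℝ) (B G : κ → ℝ → ℝ) (q₁ q₀ : St Λ κ)
      (Sp : Finset Λ) (u : DT Λ κ) (hu : vw s.p s.t' = .up Sp u)
      (et : s.t = .br s.p w r t₁ t₀ v B G) (e : nxt0 stp s = [(1 - w, q₁), (w, q₀)])
      (a₁ : q₁.t = t₁) (a₀ : q₀.t = t₀) (b₁ : q₁.t' = u) (b₀ : q₀.t' = u)
  | ub (w : ℝ) (r : Λ → κ) (t₁ t₀ : DT Λ κ) (v : Λ → ℝ → ℝ) (B G : κ → ℝ → ℝ) (q₁ q₀ : St Λ κ)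
      (Sp : Finset Λ) (u : DT Λ κ) (hu : vw s.p s.t = .up Sp u)
      (et : s.t' = .br s.p w r t₁ t₀ v B G) (e : nxt0 stp s = [(1 - w, q₁), (w, q₀)])
      (a₁ : q₁.t' = t₁) (a₀ : q₀.t' = t₀) (b₁ : q₁.t = u) (b₀ : q₀.t = u)
  | uu (Sp : Finset Λ) (u : DT Λ κ) (Sp' : Finset Λ) (u' : DT Λ κ) (hu : vw s.p s.t = .up Sp u)
      (hu' : vw s.p s.t' = .up Sp' u') (q : St Λ κ)
      (e : nxt0 stp s = [(1, q)]) (a : q.t = u) (a' : q.t' = u')

/-- **classification of the steps** -/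
theorem step_cases {stp : Stp Λ κ} (hns : NoSplit stp) (s : St Λ κ) :
    (∃ r t₁ t₀, OneL stp s r t₁ t₀) ∨ (∃ r t₁ t₀, OneR stp s r t₁ t₀) ∨
    (∃ r t₁ t₀ r' t₁' t₀', Jnt stp s r t₁ t₀ r' t₁' t₀') ∨ (Oth stp s ∧ crs stp s = []) := by
  by_cases h1 : s.t.isLeaf ∨ s.t'.isLeaf
  · exact Or.inr (Or.inr (Or.inr ⟨.fl (Or.inl h1) (by simp [nxt0, h1]), by simp [crs, h1]⟩))
  by_cases h2 : stp s
  · exact Or.inr (Or.inr (Or.inr ⟨.fl (Or.inr h2) (by simp [nxt0, h1, h2]), by simp [crs, h1, h2]⟩))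
  by_cases hPL : s.isPL
  · refine Or.inr (Or.inr (Or.inr ⟨?_, by simp [crs, h1, h2, hPL]⟩))
    obtain ⟨w, r, t₁, t₀, v, B, G, hv, et, h3⟩ := St.isPL_cases hPL
    have en : nxt0 stp s = s.stL := by simp [nxt0, h1, h2, hPL]
    rcases h3 with ⟨-, e⟩ | ⟨-, -, e⟩
    · exact .pl w r t₁ t₀ v B G _ _ et (en.trans e) rfl rfl rfl rfl
    · exact .pl w r t₁ t₀ v B G _ _ et (en.trans e) rfl rfl rfl rfl
  by_cases hPR : s.isPR
  · refine Or.inr (Or.inr (Or.inr ⟨?_, by simp [crs, h1, h2, hPR]⟩))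
    obtain ⟨w, r, t₁, t₀, v, B, G, hv, et, h3⟩ := St.isPR_cases hPR
    have en : nxt0 stp s = s.stR := by simp [nxt0, h1, h2, hPL, hPR]
    rcases h3 with ⟨-, e⟩ | ⟨-, -, e⟩
    · exact .pr w r t₁ t₀ v B G _ _ et (en.trans e) rfl rfl rfl rfl
    · exact .pr w r t₁ t₀ v B G _ _ et (en.trans e) rfl rfl rfl rfl
  have hp : Prp stp s := ⟨(not_or.1 h1).1, (not_or.1 h1).2, h2, hPL, hPR⟩
  have nadd : ∀ {t : DT Λ κ}, (∀ r t₁ t₀, vw s.p t ≠ .add r t₁ t₀) →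
      ∀ r t₁ t₀, t ≠ .add s.p r t₁ t₀ := by
    intro t h r t₁ t₀ e
    refine h r t₁ t₀ ?_
    rw [e]; simp [vw]
  rcases hv : vw s.p s.t with ⟨w, r, t₁, t₀, v, B, G⟩ | ⟨r, t₁, t₀⟩ | ⟨Sp, u⟩ <;>
  rcases hv' : vw s.p s.t' with ⟨w', r', t₁', t₀', v', B', G'⟩ | ⟨r', t₁', t₀'⟩ | ⟨Sp', u'⟩
  · refine Or.inr (Or.inr (Or.inr ⟨?_, by simp [crs, h1, h2, hPL, hPR, hv, hv']⟩))
    exact .bb w r t₁ t₀ v B G w' r' t₁' t₀' v' B' G' (vw_br hv) (vw_br hv')
      (by simp [nxt0, h1, h2, hPL, hPR, hv, hv'])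
  · exact Or.inr (Or.inl ⟨r', t₁', t₀', hp, vw_add hv',
      by simp [nxt0, h1, h2, hPL, hPR, hv, hv'], by simp [crs, h1, h2, hPL, hPR, hv, hv'],
      Or.inl (nadd (by simp [hv]))⟩)
  · refine Or.inr (Or.inr (Or.inr ⟨?_, by simp [crs, h1, h2, hPL, hPR, hv, hv']⟩))
    exact .bu w r t₁ t₀ v B G
      { s with M' := s.p * s.M', O := insert s.p s.O, R := Ro r, t := t₁, t' := u' }
      { s with M' := s.p * s.M', O := insert s.p s.O, R := Ro r, t := t₀, t' := u' }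
      Sp' u' hv' (vw_br hv) (by simp [nxt0, h1, h2, hPL, hPR, hv, hv']) rfl rfl rfl rfl
  · exact Or.inl ⟨r, t₁, t₀, hp, vw_add hv,
      by simp [nxt0, h1, h2, hPL, hPR, hv, hv'], by simp [crs, h1, h2, hPL, hPR, hv, hv'],
      Or.inl (nadd (by simp [hv']))⟩
  · by_cases hj : stp.jt s
    · exact Or.inr (Or.inr (Or.inl ⟨r, t₁, t₀, r', t₁', t₀', hp, vw_add hv, vw_add hv', hj,
        by simp [nxt0, h1, h2, hPL, hPR, hv, hv', hj],
        by simp [crs, h1, h2, hPL, hPR, hv, hv', hj]⟩))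
    · by_cases hl : stp.lf s
      · exact Or.inl ⟨r, t₁, t₀, hp, vw_add hv,
          by simp [nxt0, h1, h2, hPL, hPR, hv, hv', hj, hl],
          by simp [crs, h1, h2, hPL, hPR, hv, hv', hj, hl], Or.inr ⟨hj, hl⟩⟩
      · exact Or.inr (Or.inl ⟨r', t₁', t₀', hp, vw_add hv',
          by simp [nxt0, h1, h2, hPL, hPR, hv, hv', hj, hl],
          by simp [crs, h1, h2, hPL, hPR, hv, hv', hj, hl], Or.inr ⟨hj, hl⟩⟩)
  · have hj : ¬ stp.jt s := hns.1 s r t₁ t₀ u' Sp' hv hv'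
    exact Or.inl ⟨r, t₁, t₀, hp, vw_add hv,
      by simp [nxt0, h1, h2, hPL, hPR, hv, hv', hj], by simp [crs, h1, h2, hPL, hPR, hv, hv', hj],
      Or.inl (nadd (by simp [hv']))⟩
  · refine Or.inr (Or.inr (Or.inr ⟨?_, by simp [crs, h1, h2, hPL, hPR, hv, hv']⟩))
    exact .ub w' r' t₁' t₀' v' B' G'
      { s with M := s.p * s.M, O' := insert s.p s.O', R := Ro r', t := u, t' := t₁' }
      { s with M := s.p * s.M, O' := insert s.p s.O', R := Ro r', t := u, t' := t₀' }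
      Sp u hv (vw_br hv') (by simp [nxt0, h1, h2, hPL, hPR, hv, hv']) rfl rfl rfl rfl
  · have hj : ¬ stp.jt s := hns.2 s r' t₁' t₀' u Sp hv hv'
    exact Or.inr (Or.inl ⟨r', t₁', t₀', hp, vw_add hv',
      by simp [nxt0, h1, h2, hPL, hPR, hv, hv', hj], by simp [crs, h1, h2, hPL, hPR, hv, hv', hj],
      Or.inl (nadd (by simp [hv]))⟩)
  · refine Or.inr (Or.inr (Or.inr ⟨?_, by simp [crs, h1, h2, hPL, hPR, hv, hv']⟩))
    exact .uu Sp u Sp' u' hv hv' { s with t := u, t' := u' }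
      (by simp [nxt0, h1, h2, hPL, hPR, hv, hv']) rfl rfl

/-! ### products of supermartingales at the other steps -/

/-- supermartingale at ties, monotone at `up` nodes (no condition at add nodes) -/
def TieN (F : DT Λ κ → ℝ) : DT Λ κ → Prop
  | .br p w r t₁ t₀ v B G => 0 ≤ w ∧ w ≤ 1 ∧ 0 ≤ F t₁ ∧ 0 ≤ F t₀ ∧
      0 ≤ F (.br p w r t₁ t₀ v B G) ∧ (1 - w) * F t₁ + w * F t₀ ≤ F (.br p w r t₁ t₀ v B G)
  | .up b Sp t => 0 ≤ F t ∧ F t ≤ F (.up b Sp t)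
  | .leaf r f => 0 ≤ F (.leaf r f)
  | .add b r t₁ t₀ => 0 ≤ F (.add b r t₁ t₀)

lemma TieN.nn {F : DT Λ κ → ℝ} {t : DT Λ κ} (h : TieN F t) : 0 ≤ F t := by
  cases t with
  | leaf r f => exact h
  | br p w r t₁ t₀ v B G => exact h.2.2.2.2.1
  | add b r t₁ t₀ => exact h
  | up b Sp t => exact h.1.trans h.2

lemma TieN.vwup {F : DT Λ κ → ℝ} {t : DT Λ κ} (h : TieN F t) {p : ℕ} {Sp : Finset Λ}
    {u : DT Λ κ} (hv : vw p t = .up Sp u) : 0 ≤ F u ∧ F u ≤ F t := by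
  rcases vw_up hv with rfl | ⟨-, rfl, -⟩
  · exact h
  · exact ⟨h.nn, le_rfl⟩

/-- products of `TieN` functions pay nothing, but cost nothing, at the other steps -/
theorem decr_oth {stp : Stp Λ κ} {s : St Λ κ} (h : Oth stp s) {F G : DT Λ κ → ℝ}
    (hF : TieN F s.t) (hG : TieN G s.t') : 0 ≤ decr stp (fun s => F s.t * G s.t') s := by
  unfold decr
  cases h with
  | fl h e =>
    rw [e]; simpa using mul_nonneg hF.nn hG.nn
  | pl w r t₁ t₀ v B G₁ q₁ q₀ et e a₁ a₀ b₁ b₀ =>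
    rw [e]
    simp only [List.map_cons, List.map_nil, List.sum_cons, List.sum_nil, a₁, a₀, b₁, b₀]
    have g0 := hG.nn
    rw [et] at hF
    obtain ⟨w0, w1, f1, f0, ff, hh⟩ := hF
    rw [et]
    nlinarith [mul_le_mul_of_nonneg_right hh g0]
  | pr w r t₁ t₀ v B G₁ q₁ q₀ et e a₁ a₀ b₁ b₀ =>
    rw [e]
    simp only [List.map_cons, List.map_nil, List.sum_cons, List.sum_nil, a₁, a₀, b₁, b₀]
    have g0 := hF.nn
    rw [et] at hG
    obtain ⟨w0, w1, f1, f0, ff, hh⟩ := hG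
    rw [et]
    nlinarith [mul_le_mul_of_nonneg_left hh g0]
  | bb w r t₁ t₀ v B G₁ w' r' t₁' t₀' v' B' G' et et' e =>
    rw [e]
    simp only [List.map_cons, List.map_nil, List.sum_cons, List.sum_nil]
    rw [et] at hF
    rw [et'] at hG
    obtain ⟨w0, w1, f1, f0, ff, hh⟩ := hF
    obtain ⟨w0', w1', f1', f0', ff', hh'⟩ := hG
    rw [et, et']
    have h1 : ((1 - w) * F t₁ + w * F t₀) * ((1 - w') * G t₁' + w' * G t₀') ≤
        F (.br s.p w r t₁ t₀ v B G₁) * G (.br s.p w' r' t₁' t₀' v' B' G') := by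
      refine mul_le_mul hh hh' ?_ ff
      have : 0 ≤ 1 - w' := by linarith
      positivity
    nlinarith [h1]
  | bu w r t₁ t₀ v B G₁ q₁ q₀ Sp u hu et e a₁ a₀ b₁ b₀ =>
    rw [e]
    simp only [List.map_cons, List.map_nil, List.sum_cons, List.sum_nil, a₁, a₀, b₁, b₀]
    obtain ⟨g0, g1⟩ := hG.vwup hu
    rw [et] at hF
    obtain ⟨w0, w1, f1, f0, ff, hh⟩ := hF
    rw [et]
    have h1 := mul_le_mul hh g1 g0 ff
    nlinarith [h1]
  | ub w r t₁ t₀ v B G₁ q₁ q₀ Sp u hu et e a₁ a₀ b₁ b₀ =>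
    rw [e]
    simp only [List.map_cons, List.map_nil, List.sum_cons, List.sum_nil, a₁, a₀, b₁, b₀]
    obtain ⟨g0, g1⟩ := hF.vwup hu
    rw [et] at hG
    obtain ⟨w0, w1, f1, f0, ff, hh⟩ := hG
    rw [et]
    have w1' : 0 ≤ 1 - w := by linarith
    have h1 := mul_le_mul g1 hh (by positivity) (g0.trans g1)
    nlinarith [h1]
  | uu Sp u Sp' u' hu hu' q e a a' =>
    rw [e]
    simp only [List.map_cons, List.map_nil, List.sum_cons, List.sum_nil, a, a']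
    obtain ⟨g0, g1⟩ := hF.vwup hu
    obtain ⟨g0', g1'⟩ := hG.vwup hu'
    have h1 := mul_le_mul g1 g1' g0' (g0.trans g1)
    nlinarith [h1]

/-! ### masses -/

/-- masses: supermartingale at ties, superadditive at add nodes -/
def MassN (m : DT Λ κ → ℝ) : DT Λ κ → Prop
  | .br p w r t₁ t₀ v B G => 0 ≤ w ∧ w ≤ 1 ∧ 0 ≤ m t₁ ∧ 0 ≤ m t₀ ∧
      (1 - w) * m t₁ + w * m t₀ ≤ m (.br p w r t₁ t₀ v B G)
  | .up b Sp t => 0 ≤ m t ∧ m t ≤ m (.up b Sp t)
  | .leaf r f => 0 ≤ m (.leaf r f)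
  | .add b r t₁ t₀ => 0 ≤ m t₁ ∧ 0 ≤ m t₀ ∧ m t₁ + m t₀ ≤ m (.add b r t₁ t₀)

lemma MassN.nn {m : DT Λ κ → ℝ} {t : DT Λ κ} (h : MassN m t) : 0 ≤ m t := by
  cases t with
  | leaf r f => exact h
  | br p w r t₁ t₀ v B G =>
    obtain ⟨w0, w1, h1, h0, hh⟩ := h
    have : 0 ≤ 1 - w := by linarith
    exact le_trans (by positivity) hh
  | add b r t₁ t₀ => obtain ⟨h1, h0, hh⟩ := h; linarith
  | up b Sp t => exact h.1.trans h.2

lemma MassN.tie {m : DT Λ κ → ℝ} {t : DT Λ κ} (h : MassN m t) : TieN m t := by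
  cases t with
  | leaf r f => exact h
  | br p w r t₁ t₀ v B G => exact ⟨h.1, h.2.1, h.2.2.1, h.2.2.2.1, h.nn, h.2.2.2.2⟩
  | add b r t₁ t₀ => exact h.nn
  | up b Sp t => exact h

lemma MassN.xc {m : DT Λ κ → ℝ} {stp : Stp Λ κ} {s : St Λ κ} {b : ℕ} {r : Λ → κ}
    {t₁ t₀ : DT Λ κ} (h : MassN m (.add b r t₁ t₀)) :
    0 ≤ m (stp.c s t₁ t₀) ∧ 0 ≤ m (stp.x s t₁ t₀) ∧
      m (stp.c s t₁ t₀) + m (stp.x s t₁ t₀) ≤ m (.add b r t₁ t₀) := by
  obtain ⟨h1, h0, hh⟩ := h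
  rcases stp.c_or s t₁ t₀ with ⟨hc, hx⟩ | ⟨hc, hx⟩ <;> rw [hc, hx]
  · exact ⟨h1, h0, hh⟩
  · exact ⟨h0, h1, by linarith⟩

/-- masses of the invariant -/
lemma massN_of_side [Fintype κ] {wr : ℕ → Λ → κ} {Ad : TrG Λ κ → Finset Λ → Prop}
    {μ : TrG Λ κ → Finset Λ → ℝ} {ν : TrG Λ κ → ℝ} {n : ℕ} {t : DT Λ κ} {A : Finset Λ}
    (h : Side wr Ad μ ν n t A) : MassN (fun d => ν d.g) t := by
  cases t with
  | leaf r f => exact h.wf.self.mass.base.nu
  | br p w r t₁ t₀ v B G =>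
    have hb := h.br.2.2.1
    exact ⟨hb.w0, hb.w1, h.wf.2.1.self.mass.base.nu, h.wf.2.2.self.mass.base.nu,
      h.wf.self.mass.2.2⟩
  | add b r t₁ t₀ =>
    exact ⟨h.wf.2.1.self.mass.base.nu, h.wf.2.2.self.mass.base.nu, h.wf.self.mass.2.2⟩
  | up b Sp t => exact ⟨h.wf.2.self.mass.base.nu, le_rfl⟩

open Classical in
/-- zero at dead nodes (leaves and pulls above leaves) -/
noncomputable def nL (F : DT Λ κ → ℝ) (d : DT Λ κ) : ℝ := if dd d then 0 else F d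

lemma nL_dd {F : DT Λ κ → ℝ} {d : DT Λ κ} (h : dd d) : nL F d = 0 := if_pos h
lemma nL_nl {F : DT Λ κ → ℝ} {d : DT Λ κ} (h : ¬ dd d) : nL F d = F d := if_neg h

lemma nL_nn {F : DT Λ κ → ℝ} {d : DT Λ κ} (h : 0 ≤ F d) : 0 ≤ nL F d := by
  unfold nL; split_ifs
  · exact le_rfl
  · exact h

lemma nL_le {F : DT Λ κ → ℝ} {d : DT Λ κ} (h : 0 ≤ F d) : nL F d ≤ F d := by
  unfold nL; split_ifs
  · exact h
  · exact le_rfl

/-- cutting at the dead nodes keeps `TieN` -/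
lemma TieN.nL {F : DT Λ κ → ℝ} {t : DT Λ κ} (h : TieN F t) : TieN (nL F) t := by
  cases t with
  | leaf r f => exact nL_nn h
  | br p w r t₁ t₀ v B G =>
    obtain ⟨w0, w1, h1, h0, hh, hs⟩ := h
    have w1' : 0 ≤ 1 - w := by linarith
    refine ⟨w0, w1, nL_nn h1, nL_nn h0, nL_nn hh, ?_⟩
    by_cases hd : dd (.br p w r t₁ t₀ v B G)
    · rw [nL_dd hd, (dd_br hd).1, nL_dd (dd_br hd).2]; simp
    · rw [nL_nl (F := F) (d := .br p w r t₁ t₀ v B G) hd]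
      have := mul_le_mul_of_nonneg_left (nL_le h1) w1'
      have := mul_le_mul_of_nonneg_left (nL_le h0) w0
      linarith
  | add b r t₁ t₀ => exact nL_nn h
  | up b Sp t =>
    refine ⟨nL_nn h.1, ?_⟩
    rw [nL_nl (F := F) (d := .up b Sp t) not_dd_up]
    exact (nL_le h.1).trans h.2

lemma tieN_const {c : ℝ} (hc : 0 ≤ c) {F : DT Λ κ → ℝ} {t : DT Λ κ} (h : TieN F t) :
    TieN (fun _ => c) t := by
  cases t with
  | leaf r f => exact hc
  | br p w r t₁ t₀ v B G => exact ⟨h.1, h.2.1, hc, hc, hc, by simp only; linarith [h.1]⟩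
  | add b r t₁ t₀ => exact hc
  | up b Sp t => exact ⟨hc, le_rfl⟩

/-- square roots -/
lemma MassN.sqrt {m : DT Λ κ → ℝ} {t : DT Λ κ} (h : MassN m t) :
    TieN (fun d => Real.sqrt (m d)) t := by
  cases t with
  | leaf r f => exact Real.sqrt_nonneg _
  | br p w r t₁ t₀ v B G =>
    obtain ⟨w0, w1, h1, h0, hh⟩ := h
    refine ⟨w0, w1, Real.sqrt_nonneg _, Real.sqrt_nonneg _, Real.sqrt_nonneg _, ?_⟩
    refine Real.le_sqrt_of_sq_le (le_trans ?_ hh)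
    have e1 := Real.sq_sqrt h1
    have e0 := Real.sq_sqrt h0
    have : ((1 - w) * Real.sqrt (m t₁) + w * Real.sqrt (m t₀)) ^ 2 =
        (1 - w) * Real.sqrt (m t₁) ^ 2 + w * Real.sqrt (m t₀) ^ 2 -
          w * (1 - w) * (Real.sqrt (m t₁) - Real.sqrt (m t₀)) ^ 2 := by ring
    rw [this, e1, e0]
    have : 0 ≤ w * (1 - w) * (Real.sqrt (m t₁) - Real.sqrt (m t₀)) ^ 2 :=
      mul_nonneg (mul_nonneg w0 (by linarith)) (sq_nonneg _)
    linarith
  | add b r t₁ t₀ => exact Real.sqrt_nonneg _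
  | up b Sp t => exact ⟨Real.sqrt_nonneg _, Real.sqrt_le_sqrt h.2⟩

/-! ### the mass potential -/

/-- masses, zero at dead states -/
noncomputable def PhK (m : DT Λ κ → ℝ) (s : St Λ κ) : ℝ :=
  nL m s.t * nL (fun _ => 1) s.t' + nL (fun _ => 1) s.t * nL m s.t'

open Classical in
lemma PhK_eq (m : DT Λ κ → ℝ) (s : St Λ κ) :
    PhK m s = if dd s.t ∨ dd s.t' then 0 else m s.t + m s.t' := by
  unfold PhK nL
  by_cases h : dd s.t <;> by_cases h' : dd s.t' <;> simp [h, h']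

open Classical in
/-- the mass of a dead state -/
noncomputable def pm (m : DT Λ κ → ℝ) (a b : DT Λ κ) : ℝ :=
  if dd a ∨ dd b then m a + m b else 0

lemma PhK_pm (m : DT Λ κ → ℝ) (s : St Λ κ) : PhK m s = m s.t + m s.t' - pm m s.t s.t' := by
  rw [PhK_eq]; unfold pm
  split_ifs <;> ring

lemma pm_nn {m : DT Λ κ → ℝ} {a b : DT Λ κ} (ha : 0 ≤ m a) (hb : 0 ≤ m b) : 0 ≤ pm m a b := by
  unfold pm; split_ifs
  · linarith
  · exact le_rfl

theorem PhK_oth {stp : Stp Λ κ} {s : St Λ κ} (h : Oth stp s) {m : DT Λ κ → ℝ}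
    (hm : MassN m s.t) (hm' : MassN m s.t') : 0 ≤ decr stp (PhK m) s := by
  have h1 := decr_oth h hm.tie.nL (tieN_const zero_le_one hm'.tie).nL
  have h2 := decr_oth h (tieN_const zero_le_one hm.tie).nL hm'.tie.nL
  have := decr_add stp (fun s => nL m s.t * nL (fun _ => (1 : ℝ)) s.t')
    (fun s => nL (fun _ => (1 : ℝ)) s.t * nL m s.t') s
  calc (0 : ℝ) ≤ _ := add_nonneg h1 h2
    _ = _ := this.symm
    _ = _ := rfl

/-- what the masses pay at a one-sided step -/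
theorem PhK_L {stp : Stp Λ κ} {s : St Λ κ} {r : Λ → κ} {t₁ t₀ : DT Λ κ}
    (h : OneL stp s r t₁ t₀) (hd : ¬ dd s.t') {m : DT Λ κ → ℝ} (hm : MassN m s.t) :
    m (stp.x s t₁ t₀) + pm m (stp.c s t₁ t₀) s.t' ≤ decr stp (PhK m) s := by
  unfold decr
  rw [h.nx]
  simp only [List.map_cons, List.map_nil, List.sum_cons, List.sum_nil]
  rw [PhK_pm, PhK_pm]
  have e0 : pm m s.t s.t' = 0 := by
    unfold pm; rw [if_neg (by rw [h.et]; exact not_or.2 ⟨not_dd_add, hd⟩)]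
  rw [e0]
  have h2 := h.et
  rw [h2] at hm
  have h3 := hm.xc (stp := stp) (s := s)
  rw [← h2] at h3
  simp only
  linarith [h3.2.2]

theorem PhK_R {stp : Stp Λ κ} {s : St Λ κ} {r : Λ → κ} {t₁ t₀ : DT Λ κ}
    (h : OneR stp s r t₁ t₀) (hd : ¬ dd s.t) {m : DT Λ κ → ℝ} (hm : MassN m s.t') :
    m (stp.x s t₁ t₀) + pm m s.t (stp.c s t₁ t₀) ≤ decr stp (PhK m) s := by
  unfold decr
  rw [h.nx]
  simp only [List.map_cons, List.map_nil, List.sum_cons, List.sum_nil]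
  rw [PhK_pm, PhK_pm]
  have e0 : pm m s.t s.t' = 0 := by
    unfold pm; rw [if_neg (by rw [h.et]; exact not_or.2 ⟨hd, not_dd_add⟩)]
  rw [e0]
  have h2 := h.et
  rw [h2] at hm
  have h3 := hm.xc (stp := stp) (s := s)
  rw [← h2] at h3
  simp only
  linarith [h3.2.2]

theorem PhK_J {stp : Stp Λ κ} {s : St Λ κ} {r : Λ → κ} {t₁ t₀ : DT Λ κ} {r' : Λ → κ}
    {t₁' t₀' : DT Λ κ} (h : Jnt stp s r t₁ t₀ r' t₁' t₀') {m : DT Λ κ → ℝ} (hm : MassN m s.t)
    (hm' : MassN m s.t') : pm m t₁ t₁' + pm m t₀ t₀' ≤ decr stp (PhK m) s := by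
  unfold decr
  rw [h.nx]
  simp only [List.map_cons, List.map_nil, List.sum_cons, List.sum_nil]
  rw [PhK_pm, PhK_pm, PhK_pm]
  have e0 : pm m s.t s.t' = 0 := by
    unfold pm; rw [if_neg (by rw [h.et, h.et']; exact not_or.2 ⟨not_dd_add, not_dd_add⟩)]
  rw [e0]
  have h2 := h.et
  have h2' := h.et'
  rw [h2] at hm
  rw [h2'] at hm'
  have h3 := hm.2.2
  have h3' := hm'.2.2
  rw [← h2] at h3
  rw [← h2'] at h3'
  simp only
  linarith

/-! ### the square root potential -/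

/-- geometric mean, zero at dead states -/
noncomputable def PhS (m : DT Λ κ → ℝ) (s : St Λ κ) : ℝ :=
  nL (fun d => Real.sqrt (m d)) s.t * nL (fun d => Real.sqrt (m d)) s.t'

theorem PhS_oth {stp : Stp Λ κ} {s : St Λ κ} (h : Oth stp s) {m : DT Λ κ → ℝ}
    (hm : MassN m s.t) (hm' : MassN m s.t') : 0 ≤ decr stp (PhS m) s :=
  decr_oth h hm.sqrt.nL hm'.sqrt.nL

lemma PhS_nn (m : DT Λ κ → ℝ) (s : St Λ κ) : 0 ≤ PhS m s :=
  mul_nonneg (nL_nn (Real.sqrt_nonneg _)) (nL_nn (Real.sqrt_nonneg _))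

lemma PhS_le (m : DT Λ κ → ℝ) (s : St Λ κ) :
    PhS m s ≤ Real.sqrt (m s.t) * Real.sqrt (m s.t') :=
  mul_le_mul (nL_le (F := fun d => Real.sqrt (m d)) (Real.sqrt_nonneg _))
    (nL_le (F := fun d => Real.sqrt (m d)) (Real.sqrt_nonneg _))
    (nL_nn (Real.sqrt_nonneg _)) (Real.sqrt_nonneg _)

/-- `x √(y / t) ≤ 2 √y (√t - √c)` if `c + x ≤ t` -/
lemma sqrt_pay {x c t y : ℝ} (hx : 0 ≤ x) (hc : 0 ≤ c) (hy : 0 ≤ y) (h : c + x ≤ t) :
    x * Real.sqrt (y / t) ≤ 2 * (Real.sqrt t * Real.sqrt y - Real.sqrt c * Real.sqrt y) := by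
  have ht : 0 ≤ t := by linarith
  rcases ht.eq_or_lt with h0 | h0
  · have hx0 : x = 0 := by linarith
    have hc0 : c = 0 := by linarith
    rw [← h0, hx0, hc0]; simp
  · have hs : 0 < Real.sqrt t := Real.sqrt_pos.2 h0
    have hcs : Real.sqrt c ≤ Real.sqrt t := Real.sqrt_le_sqrt (by linarith)
    have e : Real.sqrt (y / t) = Real.sqrt y / Real.sqrt t := Real.sqrt_div hy t
    rw [e, mul_div_assoc', div_le_iff₀ hs]
    have k1 : x ≤ (Real.sqrt t - Real.sqrt c) * (Real.sqrt t + Real.sqrt c) := by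
      have := Real.mul_self_sqrt ht
      have := Real.mul_self_sqrt hc
      nlinarith
    have k2 : x ≤ 2 * (Real.sqrt t - Real.sqrt c) * Real.sqrt t := by
      refine k1.trans ?_
      nlinarith [Real.sqrt_nonneg c]
    have := mul_le_mul_of_nonneg_right k2 (Real.sqrt_nonneg y)
    nlinarith

/-- what the square root pays at a one-sided step -/
theorem PhS_L {stp : Stp Λ κ} {s : St Λ κ} {r : Λ → κ} {t₁ t₀ : DT Λ κ}
    (h : OneL stp s r t₁ t₀) (hd : ¬ dd s.t') {m : DT Λ κ → ℝ} (hm : MassN m s.t)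
    (hm' : 0 ≤ m s.t') :
    m (stp.x s t₁ t₀) * Real.sqrt (m s.t' / m s.t) ≤ 2 * decr stp (PhS m) s := by
  unfold decr
  rw [h.nx]
  simp only [List.map_cons, List.map_nil, List.sum_cons, List.sum_nil]
  have h2 := h.et
  have hm2 := hm
  rw [h2] at hm2
  have h3 := hm2.xc (stp := stp) (s := s)
  rw [← h2] at h3
  have h4 := sqrt_pay h3.2.1 h3.1 hm' h3.2.2
  have h5 := PhS_le m { s with t := stp.c s t₁ t₀ }
  have h6 : PhS m s = Real.sqrt (m s.t) * Real.sqrt (m s.t') := by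
    unfold PhS; rw [nL_nl (by rw [h.et]; exact not_dd_add), nL_nl hd]
  rw [h6]
  simp only at h5
  linarith

theorem PhS_R {stp : Stp Λ κ} {s : St Λ κ} {r : Λ → κ} {t₁ t₀ : DT Λ κ}
    (h : OneR stp s r t₁ t₀) (hd : ¬ dd s.t) {m : DT Λ κ → ℝ} (hm : MassN m s.t')
    (hm' : 0 ≤ m s.t) :
    m (stp.x s t₁ t₀) * Real.sqrt (m s.t / m s.t') ≤ 2 * decr stp (PhS m) s := by
  unfold decr
  rw [h.nx]
  simp only [List.map_cons, List.map_nil, List.sum_cons, List.sum_nil]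
  have h2 := h.et
  have hm2 := hm
  rw [h2] at hm2
  have h3 := hm2.xc (stp := stp) (s := s)
  rw [← h2] at h3
  have h4 := sqrt_pay h3.2.1 h3.1 hm' h3.2.2
  have h5 := PhS_le m { s with t' := stp.c s t₁ t₀ }
  have h6 : PhS m s = Real.sqrt (m s.t) * Real.sqrt (m s.t') := by
    unfold PhS; rw [nL_nl hd, nL_nl (d := s.t') (by rw [h.et]; exact not_dd_add)]
  rw [h6]
  simp only at h5
  linarith [mul_comm (Real.sqrt (m s.t)) (Real.sqrt (m s.t')),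
    mul_comm (Real.sqrt (m s.t)) (Real.sqrt (m (stp.c s t₁ t₀)))]

theorem PhS_J {stp : Stp Λ κ} {s : St Λ κ} {r : Λ → κ} {t₁ t₀ : DT Λ κ} {r' : Λ → κ}
    {t₁' t₀' : DT Λ κ} (h : Jnt stp s r t₁ t₀ r' t₁' t₀') {m : DT Λ κ → ℝ} (hm : MassN m s.t)
    (hm' : MassN m s.t') : 0 ≤ decr stp (PhS m) s := by
  unfold decr
  rw [h.nx]
  simp only [List.map_cons, List.map_nil, List.sum_cons, List.sum_nil]
  have h2 := h.et
  have h2' := h.et'
  have hm2 := hm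
  have hm2' := hm'
  rw [h2] at hm2
  rw [h2'] at hm2'
  obtain ⟨a1, a0, aa⟩ := hm2
  obtain ⟨b1, b0, bb⟩ := hm2'
  rw [← h2] at aa
  rw [← h2'] at bb
  have h5 := PhS_le m { s with t := t₁, t' := t₁' }
  have h5' := PhS_le m { s with t := t₀, t' := t₀' }
  have h6 : PhS m s = Real.sqrt (m s.t) * Real.sqrt (m s.t') := by
    unfold PhS; rw [nL_nl (d := s.t) (by rw [h.et]; exact not_dd_add),
      nL_nl (d := s.t') (by rw [h.et']; exact not_dd_add)]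
  rw [h6]
  simp only at h5 h5'
  have key : Real.sqrt (m t₁) * Real.sqrt (m t₁') + Real.sqrt (m t₀) * Real.sqrt (m t₀') ≤
      Real.sqrt (m s.t) * Real.sqrt (m s.t') := by
    rw [← Real.sqrt_mul (by linarith : (0 : ℝ) ≤ m s.t)]
    refine Real.le_sqrt_of_sq_le ?_
    have e1 := Real.sq_sqrt a1
    have e0 := Real.sq_sqrt a0
    have f1 := Real.sq_sqrt b1
    have f0 := Real.sq_sqrt b0
    have : (Real.sqrt (m t₁) * Real.sqrt (m t₁') + Real.sqrt (m t₀) * Real.sqrt (m t₀')) ^ 2 =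
        (Real.sqrt (m t₁) ^ 2 + Real.sqrt (m t₀) ^ 2) *
          (Real.sqrt (m t₁') ^ 2 + Real.sqrt (m t₀') ^ 2) -
        (Real.sqrt (m t₁) * Real.sqrt (m t₀') - Real.sqrt (m t₀) * Real.sqrt (m t₁')) ^ 2 := by
      ring
    rw [this, e1, e0, f1, f0]
    have h7 : (m t₁ + m t₀) * (m t₁' + m t₀') ≤ m s.t * m s.t' :=
      mul_le_mul aa bb (by linarith) (by linarith)
    nlinarith [sq_nonneg (Real.sqrt (m t₁) * Real.sqrt (m t₀') -
      Real.sqrt (m t₀) * Real.sqrt (m t₁'))]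
  linarith

/-! ### node functions with gaps -/

/-- superadditive with the gap `g` at add nodes, monotone children -/
def GapN (L g : DT Λ κ → ℝ) : DT Λ κ → Prop
  | .add b r t₁ t₀ => 0 ≤ L t₁ ∧ 0 ≤ L t₀ ∧ 0 ≤ g (.add b r t₁ t₀) ∧
      L t₁ + L t₀ + g (.add b r t₁ t₀) ≤ L (.add b r t₁ t₀)
  | t => TieN L t

lemma GapN.tie {L g : DT Λ κ → ℝ} {t : DT Λ κ} (h : GapN L g t) : TieN L t := by
  cases t with
  | leaf r f => exact h
  | br p w r t₁ t₀ v B G => exact h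
  | add b r t₁ t₀ =>
    obtain ⟨h1, h0, hg, hh⟩ := h
    show 0 ≤ L (.add b r t₁ t₀)
    linarith
  | up b Sp t => exact h

/-- sum of the node function over the two sides -/
def PhG (L : DT Λ κ → ℝ) (s : St Λ κ) : ℝ := L s.t * 1 + 1 * L s.t'

theorem PhG_oth {stp : Stp Λ κ} {s : St Λ κ} (h : Oth stp s) {L g : DT Λ κ → ℝ}
    (hL : GapN L g s.t) (hL' : GapN L g s.t') : 0 ≤ decr stp (PhG L) s := by
  have h1 := decr_oth h hL.tie (tieN_const zero_le_one hL'.tie)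
  have h2 := decr_oth h (tieN_const zero_le_one hL.tie) hL'.tie
  have := decr_add stp (fun s => L s.t * (fun _ => (1 : ℝ)) s.t')
    (fun s => (fun _ => (1 : ℝ)) s.t * L s.t') s
  calc (0 : ℝ) ≤ _ := add_nonneg h1 h2
    _ = _ := this.symm
    _ = _ := rfl

theorem PhG_L {stp : Stp Λ κ} {s : St Λ κ} {r : Λ → κ} {t₁ t₀ : DT Λ κ}
    (h : OneL stp s r t₁ t₀) {L g : DT Λ κ → ℝ} (hL : GapN L g s.t) :
    g s.t + L (stp.x s t₁ t₀) ≤ decr stp (PhG L) s := by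
  unfold decr PhG
  rw [h.nx]
  simp only [List.map_cons, List.map_nil, List.sum_cons, List.sum_nil]
  have h2 := h.et
  have hL2 := hL
  rw [h2] at hL2
  obtain ⟨h1, h0, hg, hh⟩ := hL2
  rw [← h2] at hh
  rcases stp.c_or s t₁ t₀ with ⟨hc, hx⟩ | ⟨hc, hx⟩ <;> rw [hc, hx] <;> linarith

theorem PhG_R {stp : Stp Λ κ} {s : St Λ κ} {r : Λ → κ} {t₁ t₀ : DT Λ κ}
    (h : OneR stp s r t₁ t₀) {L g : DT Λ κ → ℝ} (hL : GapN L g s.t') :
    g s.t' + L (stp.x s t₁ t₀) ≤ decr stp (PhG L) s := by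
  unfold decr PhG
  rw [h.nx]
  simp only [List.map_cons, List.map_nil, List.sum_cons, List.sum_nil]
  have h2 := h.et
  have hL2 := hL
  rw [h2] at hL2
  obtain ⟨h1, h0, hg, hh⟩ := hL2
  rw [← h2] at hh
  rcases stp.c_or s t₁ t₀ with ⟨hc, hx⟩ | ⟨hc, hx⟩ <;> rw [hc, hx] <;> linarith

theorem PhG_J {stp : Stp Λ κ} {s : St Λ κ} {r : Λ → κ} {t₁ t₀ : DT Λ κ} {r' : Λ → κ}
    {t₁' t₀' : DT Λ κ} (h : Jnt stp s r t₁ t₀ r' t₁' t₀') {L g : DT Λ κ → ℝ}
    (hL : GapN L g s.t) (hL' : GapN L g s.t') : g s.t + g s.t' ≤ decr stp (PhG L) s := by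
  unfold decr PhG
  rw [h.nx]
  simp only [List.map_cons, List.map_nil, List.sum_cons, List.sum_nil]
  have h2 := h.et
  have h2' := h.et'
  have hL2 := hL
  have hL2' := hL'
  rw [h2] at hL2
  rw [h2'] at hL2'
  obtain ⟨h1, h0, hg, hh⟩ := hL2
  obtain ⟨h1', h0', hg', hh'⟩ := hL2'
  rw [← h2] at hh
  rw [← h2'] at hh'
  linarith

/-! ### the outer sum -/

/-- **OUTER SUM OF `eX`** (full populations; `Ψ` = any further potential, e.g. products). -/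
theorem cross_sum [Fintype κ] {wr : ℕ → Λ → κ} {Ad : TrG Λ κ → Finset Λ → Prop}
    {μ : TrG Λ κ → Finset Λ → ℝ} {ν : TrG Λ κ → ℝ} {stp : Stp Λ κ} (hns : NoSplit stp)
    {Iv : St Λ κ → Prop} (hInv : ∀ s, Iv s → ∃ n, Inv wr Ad μ ν n s)
    (hcl : ∀ s, Iv s → ∀ q ∈ nxt stp s, Iv q.2)
    (hdL : ∀ s, Iv s → ∀ r t₁ t₀, OneL stp s r t₁ t₀ → ¬ dd s.t')
    (hdR : ∀ s, Iv s → ∀ r t₁ t₀, OneR stp s r t₁ t₀ → ¬ dd s.t)
    {B K K₂ : ℝ} (hK : 0 ≤ K) (hK₂ : 0 ≤ K₂) {L g : DT Λ κ → ℝ}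
    (hL : ∀ s, Iv s → GapN L g s.t ∧ GapN L g s.t')
    {Ψ : St Λ κ → ℝ} (hΨ : ∀ s, Iv s → Oth stp s → 0 ≤ decr stp Ψ s)
    (HL : ∀ s, Iv s → ∀ r t₁ t₀, OneL stp s r t₁ t₀ →
      Xs μ B { s with t := stp.x s t₁ t₀ } ≤
        K * (ν (stp.x s t₁ t₀).g + pm (fun d => ν d.g) (stp.c s t₁ t₀) s.t') +
        K₂ * (ν (stp.x s t₁ t₀).g * Real.sqrt (ν s.t'.g / ν s.t.g)) + g s.t + decr stp Ψ s)
    (HR : ∀ s, Iv s → ∀ r t₁ t₀, OneR stp s r t₁ t₀ →
      Xs μ B { s with t' := stp.x s t₁ t₀ } ≤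
        K * (ν (stp.x s t₁ t₀).g + pm (fun d => ν d.g) s.t (stp.c s t₁ t₀)) +
        K₂ * (ν (stp.x s t₁ t₀).g * Real.sqrt (ν s.t.g / ν s.t'.g)) + g s.t' + decr stp Ψ s)
    (HJ : ∀ s, Iv s → ∀ r t₁ t₀ r' t₁' t₀', Jnt stp s r t₁ t₀ r' t₁' t₀' →
      Xs μ B { s with t := t₁, t' := t₀' } + Xs μ B { s with t := t₀, t' := t₁' } ≤
        K * (pm (fun d => ν d.g) t₁ t₁' + pm (fun d => ν d.g) t₀ t₀') + g s.t + g s.t' +
        decr stp Ψ s) :
    ∀ s, Iv s → WS stp (eX stp μ B) s ≤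
      K * (ν s.t.g + ν s.t'.g) + 2 * K₂ * Real.sqrt (ν s.t.g * ν s.t'.g) +
        (L s.t + L s.t') + Ψ s := by
  intro s hs
  have hmass : ∀ s, Iv s → MassN (fun d => ν d.g) s.t ∧ MassN (fun d => ν d.g) s.t' := by
    intro s hs
    obtain ⟨n, hn⟩ := hInv s hs
    exact ⟨massN_of_side hn.L, massN_of_side hn.R⟩
  have key : WS stp (eX stp μ B) s ≤ K * PhK (fun d => ν d.g) s +
      2 * K₂ * PhS (fun d => ν d.g) s + PhG L s + Ψ s := by
    refine WS_le_of_decr (Iv := Iv) (Φ := fun s => K * PhK (fun d => ν d.g) s +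
      2 * K₂ * PhS (fun d => ν d.g) s + PhG L s + Ψ s)
      (fun s hs q hq => ⟨hcl s hs q hq, ?_⟩) (fun s hs => ?_) s hs
    · obtain ⟨n, hn⟩ := hInv s hs
      exact (hn.next0 (stp := stp) q (mem_nxt.1 hq).1).2
    · have ed : decr stp (fun s => K * PhK (fun d => ν d.g) s +
          2 * K₂ * PhS (fun d => ν d.g) s + PhG L s + Ψ s) s =
          K * decr stp (PhK fun d => ν d.g) s + 2 * K₂ * decr stp (PhS fun d => ν d.g) s +
            decr stp (PhG L) s + decr stp Ψ s := by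
        rw [decr_add stp (fun s => K * PhK (fun d => ν d.g) s +
          2 * K₂ * PhS (fun d => ν d.g) s + PhG L s) Ψ, decr_add stp (fun s =>
          K * PhK (fun d => ν d.g) s + 2 * K₂ * PhS (fun d => ν d.g) s) (PhG L),
          decr_add stp (fun s => K * PhK (fun d => ν d.g) s)
            (fun s => 2 * K₂ * PhS (fun d => ν d.g) s), decr_smul, decr_smul]
      rw [ed, eX_eq]
      obtain ⟨m1, m1'⟩ := hmass s hs
      obtain ⟨g1, g1'⟩ := hL s hs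
      rcases step_cases hns s with ⟨r, t₁, t₀, h⟩ | ⟨r, t₁, t₀, h⟩ |
        ⟨r, t₁, t₀, r', t₁', t₀', h⟩ | ⟨h, hc⟩
      · rw [h.cr]
        simp only [List.map_cons, List.map_nil, List.sum_cons, List.sum_nil, add_zero]
        have hd := hdL s hs r t₁ t₀ h
        have a1 := mul_le_mul_of_nonneg_left (PhK_L h hd m1) hK
        have a2 := mul_le_mul_of_nonneg_left (PhS_L h hd m1 m1'.nn) hK₂
        have a3 := PhG_L h g1
        have a4 : 0 ≤ L (stp.x s t₁ t₀) := by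
          have h2 := h.et
          rw [h2] at g1
          rcases stp.c_or s t₁ t₀ with ⟨-, hx⟩ | ⟨-, hx⟩ <;> rw [hx]
          · exact g1.2.1
          · exact g1.1
        have a5 := HL s hs r t₁ t₀ h
        linarith
      · rw [h.cr]
        simp only [List.map_cons, List.map_nil, List.sum_cons, List.sum_nil, add_zero]
        have hd := hdR s hs r t₁ t₀ h
        have a1 := mul_le_mul_of_nonneg_left (PhK_R h hd m1') hK
        have a2 := mul_le_mul_of_nonneg_left (PhS_R h hd m1' m1.nn) hK₂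
        have a3 := PhG_R h g1'
        have a4 : 0 ≤ L (stp.x s t₁ t₀) := by
          have h2 := h.et
          rw [h2] at g1'
          rcases stp.c_or s t₁ t₀ with ⟨-, hx⟩ | ⟨-, hx⟩ <;> rw [hx]
          · exact g1'.2.1
          · exact g1'.1
        have a5 := HR s hs r t₁ t₀ h
        linarith
      · rw [h.cr]
        simp only [List.map_cons, List.map_nil, List.sum_cons, List.sum_nil, add_zero]
        have a1 := mul_le_mul_of_nonneg_left (PhK_J h m1 m1') hK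
        have a2 := mul_nonneg hK₂ (PhS_J h m1 m1')
        have a3 := PhG_J h g1 g1'
        have a5 := HJ s hs r t₁ t₀ r' t₁' t₀' h
        linarith
      · rw [hc]
        simp only [List.map_nil, List.sum_nil]
        have a1 := mul_nonneg hK (PhK_oth h m1 m1')
        have a2 := mul_nonneg hK₂ (PhS_oth h m1 m1')
        have a3 := PhG_oth h g1 g1'
        have a5 := hΨ s hs h
        linarith
  obtain ⟨m1, m1'⟩ := hmass s hs
  have k1 : PhK (fun d => ν d.g) s ≤ ν s.t.g + ν s.t'.g := by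
    rw [PhK_pm]
    have := pm_nn (m := fun d : DT Λ κ => ν d.g) m1.nn m1'.nn
    linarith
  have k2 := PhS_le (fun d => ν d.g) s
  rw [← Real.sqrt_mul m1.nn] at k2
  have k3 := mul_le_mul_of_nonneg_left k1 hK
  have k4 := mul_le_mul_of_nonneg_left k2 (mul_nonneg two_pos.le hK₂)
  have k5 : PhG L s = L s.t + L s.t' := by unfold PhG; ring
  linarith

end Crest.Agent.R4P.CrossSum29
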