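import Crest.Agent.R4P.StratX_36
import Crest.Agent.R4P.GSt927
import Crest.Agent.R4P.CrossSum_29

/-!
R4 (S0004), powers, helper36: **facts at the crossing states** of the pair walk with the strategy `StX`
(full populations).

* `XF P W b k T X C Y dX dC` : one-sided step at the column `b`, `T` = items of the processed node, `X` =
  items of the crossing child (it leaves the walk), `C` = items of the continuing child, `Y` = items of the
  partner, `k` = exponent of `b` in the missing product of the partner (**effective** exponents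
  `ex b q + k` on the side `Y`; the side `T` has shift `0`), `dX`, `dC` : the child is dead.
* `one_left`, `one_right`, `joint_add` : the three kinds of add steps.
* `oneL_facts`, `oneR_facts`, `jnt_facts` : over the steps `OneL`, `OneR`, `Jnt` of CrossSum_29.
* `crs_facts` : list form; `HJ_BS.next`, `crs_facts_x` : for the states with history of GSt927.
-/

set_option autoImplicit false
set_option linter.unusedSectionVars false
set_option linter.unusedVariables false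
open MeasureTheory Filter Set

namespace Crest.Agent.R4P.StratX36

open Crest.Agent.R4.Tour104 Crest.Agent.R4.Tour758 Crest.Agent.R4.Avg758 Crest.Agent.R4.Clos758
open Crest.Agent.R4.ClosL758 Crest.Agent.R4.ClosG758 Crest.Agent.R4.ClosR758
open Crest.Agent.R4P.Cnt588 Crest.Agent.R4P.Walk560 Crest.Agent.R4P.Item758
open Crest.Agent.R4P.Bld532 (NS All NodeOk Bk dv nd mem_dv mem_nd Ws_mono Ws_nonneg)
open Crest.Agent.R4 Crest.Agent.R4P
open Crest.Agent.R4P.StratN36 Crest.Agent.R4P.Strip29 Crest.Agent.R4P.VWalk36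
open Crest.Agent.R4P.WalkIT579 (tp isL top_of_nodeOk)
open Crest.Agent.R4P.Dd26

/-- **one-sided step**: `T` = processed node, `X` = crossing child, `C` = continuing child, `Y` =
partner (sets of items), `b` = column, `k` = exponent of `b` in the missing product of the partner,
`dX`, `dC` : the crossing / continuing child is dead -/
inductive XF (P : Bld532.Par) (W : ℕ → ℝ) (b k : ℕ) (T X C Y : Finset ℕ) (dX dC : Prop) : Prop
  /-- the part below the threshold leaves -/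
  | low (J : ℕ) (hN : CutN P W b J T C X)
      (hY : Ws W (Y.filter (fun q => ex b q + k < J)) ≤ 4 * P.sg b * Ws W Y) :
      XF P W b k T X C Y dX dC
  /-- the part above the threshold leaves -/
  | high (J : ℕ) (hN : CutN P W b J T X C)
      (hY : Ws W (Y.filter (fun q => J ≤ ex b q + k)) ≤ 4 * P.sg b * Ws W Y) :
      XF P W b k T X C Y dX dC
  /-- the far leaf leaves; the near child is dead or the partner is dominated by the same exponent -/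
  | far (K : ℕ) (hN : FarN P W b K T X C) (hY : dC ∨ DomE P W b k K Y) :
      XF P W b k T X C Y dX dC
  /-- the near child leaves (alive), the far leaf goes on; the partner is dominated by another
  exponent -/
  | near (K K' : ℕ) (hN : FarN P W b K T C X) (hne : K' ≠ K) (hX : ¬ dX)
      (hY : Ws W (Y.filter (fun q => ex b q + k ≠ K')) ≤ 4 * P.sg b * Ws W Y) :
      XF P W b k T X C Y dX dC

section
variable {Λ κ : Type*} [Fintype Λ] [DecidableEq Λ]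
  {P : Bld532.Par} {W : ℕ → ℝ} {μ : TrG Λ κ → Finset Λ → ℝ} {it : Λ → ℕ} {rB : DT Λ κ → ℕ}

/-- class of the processed node -/
inductive TC (P : Bld532.Par) (W : ℕ → ℝ) (μ : TrG Λ κ → Finset Λ → ℝ) (it : Λ → ℕ) (p : ℕ)
    (T : DT Λ κ) (S S₁ S₀ : Finset ℕ) : Prop
  | cut (J : ℕ) (hN : CutN P W p J S S₁ S₀) (hc : cd (P.sg p) p (mm μ it T) = .inl J) :
      TC P W μ it p T S S₁ S₀
  | far (K : ℕ) (hN : FarN P W p K S S₁ S₀) (hc : cd (P.sg p) p (mm μ it T) = .inr K)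
      (hk : dK (P.sg p) p (mm μ it T) = K) : TC P W μ it p T S S₁ S₀

/-- class of the partner -/
inductive YC (P : Bld532.Par) (W : ℕ → ℝ) (μ : TrG Λ κ → Finset Λ → ℝ) (it : Λ → ℕ) (p : ℕ)
    (Y : DT Λ κ) (S : Finset ℕ) : Prop
  | cut (J : ℕ) (ha : isAdd p Y) (hc : cd (P.sg p) p (mm μ it Y) = .inl J)
      (low : ∀ J', J' < J → Ws W (S.filter (fun q => ex p q < J')) ≤ P.sg p * Ws W S) :
      YC P W μ it p Y S
  | far (K : ℕ) (ha : isAdd p Y) (hc : cd (P.sg p) p (mm μ it Y) = .inr K)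
      (hk : dK (P.sg p) p (mm μ it Y) = K)
      (tail : Ws W (S.filter (fun q => ex p q ≠ K)) ≤ 4 * P.sg p * Ws W S) : YC P W μ it p Y S
  | dom (K : ℕ) (ha : ¬ isAdd p Y) (hD : DomN P W p K S) : YC P W μ it p Y S

/-- the dominant exponent of the partner -/
lemma YC.dK_tail (hG : PG P W) {p : ℕ} {Y : DT Λ κ} {S : Finset ℕ} {c : ℝ}
    (hm : MsOf W c S (mm μ it Y)) (hc : 0 < c) {K : ℕ}
    (hK : Ws W (S.filter (fun q => ex p q ≠ K)) ≤ 4 * P.sg p * Ws W S) :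
    Ws W (S.filter (fun q => ex p q ≠ dK (P.sg p) p (mm μ it Y))) ≤ 4 * P.sg p * Ws W S :=
  dK_spec hm hc hK

theorem xf_step (hG : PG P W) {p : ℕ} (hs8 : 8 * P.sg p < 1) {T Y : DT Λ κ} {r : Λ → κ}
    {d₁ d₀ : DT Λ κ} (hv : vw p T = .add r d₁ d₀)
    {S S₁ S₀ SY : Finset ℕ} {c : ℝ} (hT : TC P W μ it p T S S₁ S₀) (hY : YC P W μ it p Y SY)
    (hm : MsOf W c SY (mm μ it Y)) (hc : 0 < c) {k : ℕ} (hk : ex p (rB Y) = k)
    (hk0 : isAdd p Y → k = 0)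
    (h1 : ∀ J J', cd (P.sg p) p (mm μ it T) = .inl J → isAdd p Y →
      cd (P.sg p) p (mm μ it Y) = .inl J' → J < J')
    (h2 : ∀ K, cd (P.sg p) p (mm μ it T) = .inr K → isAdd p Y →
      ∃ K', cd (P.sg p) p (mm μ it Y) = .inr K' ∧ K' ≠ K) :
    (onF μ it rB P.sg p T Y → XF P W p k S S₀ S₁ SY (dd d₀) (dd d₁)) ∧
      (¬ onF μ it rB P.sg p T Y → XF P W p k S S₁ S₀ SY (dd d₁) (dd d₀)) := by
  have hsg := hG.sg0 p
  have hSY := Ws_nonneg hG.w0 SY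
  have h14 : P.sg p * Ws W SY ≤ 4 * P.sg p * Ws W SY := by
    have := mul_nonneg hsg hSY
    linarith
  rcases hT with ⟨J, hN, hcT⟩ | ⟨K, hN, hcT, hkT⟩
  · -- cut node
    have eon : onF μ it rB P.sg p T Y ↔
        ((isAdd p Y ∧ ∃ J', cd (P.sg p) p (mm μ it Y) = .inl J') ∨
        J ≤ dK (P.sg p) p (mm μ it Y) + k) := by
      unfold onF; rw [hcT, hk]
    rw [eon]
    rcases hY with ⟨J', ha, hcY, hlow⟩ | ⟨K', ha, hcY, hkY, htail⟩ | ⟨K', ha, hD⟩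
    · have hJ := h1 J J' hcT ha hcY
      have k0 := hk0 ha
      refine ⟨fun _ => XF.low J hN ?_, fun h => absurd (Or.inl ⟨ha, J', hcY⟩) h⟩
      rw [k0]
      exact (hlow J hJ).trans h14
    · have k0 := hk0 ha
      constructor
      · rintro (⟨-, J', hJ'⟩ | hle)
        · rw [hcY] at hJ'; cases hJ'
        · refine XF.low J hN (le_trans (Ws_mono hG.w0 ?_) htail)
          intro q hq
          obtain ⟨hq, hlt⟩ := Finset.mem_filter.1 hq
          rw [hkY] at hle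
          exact Finset.mem_filter.2 ⟨hq, by omega⟩
      · intro h
        rw [not_or, not_le, hkY] at h
        refine XF.high J hN (le_trans (Ws_mono hG.w0 ?_) htail)
        intro q hq
        obtain ⟨hq, hlt⟩ := Finset.mem_filter.1 hq
        exact Finset.mem_filter.2 ⟨hq, by have := h.2; omega⟩
    · have htail := YC.dK_tail (p := p) hG hm hc hD.tail
      constructor
      · rintro (⟨ha', -⟩ | hle)
        · exact absurd ha' ha
        · refine XF.low J hN (le_trans (Ws_mono hG.w0 ?_) htail)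
          intro q hq
          obtain ⟨hq, hlt⟩ := Finset.mem_filter.1 hq
          exact Finset.mem_filter.2 ⟨hq, by omega⟩
      · intro h
        rw [not_or, not_le] at h
        refine XF.high J hN (le_trans (Ws_mono hG.w0 ?_) htail)
        intro q hq
        obtain ⟨hq, hlt⟩ := Finset.mem_filter.1 hq
        exact Finset.mem_filter.2 ⟨hq, by have := h.2; omega⟩
  · -- far node
    have eon : onF μ it rB P.sg p T Y ↔ ¬ nDead p T ∧ dK (P.sg p) p (mm μ it Y) + k ≠ K := by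
      unfold onF; rw [hcT, hk]
    have end0 : nDead p T ↔ dd d₀ := by
      constructor
      · rintro ⟨r', a, b, h, hd⟩
        rw [hv] at h
        injection h with _ _ e
        rw [e]; exact hd
      · intro hd; exact ⟨r, d₁, d₀, hv, hd⟩
    rw [eon, end0]
    rcases hY with ⟨J', ha, hcY, hlow⟩ | ⟨K', ha, hcY, hkY, htail⟩ | ⟨K', ha, hD⟩
    · obtain ⟨K', hK', -⟩ := h2 K hcT ha
      rw [hcY] at hK'; cases hK'
    · obtain ⟨K'', hK'', hne⟩ := h2 K hcT ha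
      rw [hcY] at hK''
      injection hK'' with e
      subst e
      have k0 := hk0 ha
      refine ⟨fun h => XF.near K K' hN hne h.1 ?_, fun h => ?_⟩
      · rw [k0]; exact htail
      · refine XF.far K hN (Or.inl ?_)
        by_contra hnd
        refine h ⟨hnd, ?_⟩
        rw [hkY, k0]
        exact hne
    · have htail := YC.dK_tail (p := p) hG hm hc hD.tail
      refine ⟨fun h => XF.near K _ hN h.2 h.1 (le_of_eq_of_le ?_ htail), fun h => ?_⟩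
      · congr 1
        refine Finset.filter_congr fun q _ => ?_
        rw [ne_eq, ne_eq, Nat.add_right_cancel_iff]
      by_cases hnd : dd d₀
      · exact XF.far K hN (Or.inl hnd)
      refine XF.far K hN (Or.inr ?_)
      have h' : dK (P.sg p) p (mm μ it Y) + k = K := by
        by_contra hne
        exact h ⟨hnd, hne⟩
      rcases hSY.eq_or_lt with h0 | hpos
      · -- no items of positive weight
        have he : ∀ q ∈ SY, W q = 0 :=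
          (Finset.sum_eq_zero_iff_of_nonneg fun q _ => hG.w0 q).1 h0.symm
        refine ⟨fun q hq hq0 => ?_, ?_⟩
        · rw [he q hq] at hq0; exact absurd hq0 (lt_irrefl _)
        · have e1 : Ws W (SY.filter (fun q => ex p q + k ≠ K)) = 0 :=
            Finset.sum_eq_zero fun q hq => he q (Finset.mem_filter.1 hq).1
          rw [e1, ← h0, mul_zero]
      · have e := dK_eq hG.w0 hs8 hm hc hpos hD.tail
        have := hD.eff k
        rw [← e, h'] at this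
        exact this

end

section
variable {Λ κ : Type*} [Fintype Λ] [DecidableEq Λ] [Fintype κ] [DecidableEq κ] [WRel κ]
  {D : Par Λ κ} {sp : ℕ → Finset Λ} {P : Bld532.Par} {W : ℕ → ℝ} {Qp : NS → IT → Prop}
  {μ : TrG Λ κ → Finset Λ → ℝ} {rB : DT Λ κ → ℕ} {p : ℕ} {u u' : NS} {τ τ' : IT}

/-- an open node has shift `0` -/
lemma exB_zero (h : NodeOk P W u τ) (hp : p.Prime) (hpn : p < u.n) : ex p u.B = 0 := by
  have hB : Bk τ.items u := by
    cases τ with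
    | leaf S => exact h.1
    | br q Sp t₁ t₀ => exact h.2.2.2.2.1
    | add b t₁ t₀ => exact h.2.2.2.2.1
    | up b Sp t => exact h.2.2.2.2.1
    | pl b t => exact h.2.2.2.2.1
    | far b t₁ t₀ => exact h.2.2.2.2.1
  refine Nat.factorization_eq_zero_of_not_dvd fun hd => ?_
  exact absurd (hB.geB p hp hd) (not_le.2 hpn)

/-- the shift is at most one -/
lemma exB_le (h : NodeOk P W u τ) (p : ℕ) : ex p u.B ≤ 1 := by
  have hB : Bk τ.items u := by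
    cases τ with
    | leaf S => exact h.1
    | br q Sp t₁ t₀ => exact h.2.2.2.2.1
    | add b t₁ t₀ => exact h.2.2.2.2.1
    | up b Sp t => exact h.2.2.2.2.1
    | pl b t => exact h.2.2.2.2.1
    | far b t₁ t₀ => exact h.2.2.2.2.1
  exact hB.sfB.natFactorization_le_one p

/-- the column of an add node is open -/
lemma add_open (h : NodeOk P W u τ) {r : Λ → κ} {d₁ d₀ : DT Λ κ}
    (hd : D.toDT sp u.B u.A τ = .add p r d₁ d₀) : p.Prime ∧ p < u.n := by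
  obtain ⟨t₁, t₀, ht, -, -, -⟩ := AvgItem710.toDT_add hd
  rcases ht with rfl | rfl
  · exact ⟨h.1, h.2.1⟩
  · exact ⟨h.1, h.2.1⟩

/-- the children of an add view -/
structure AC (D : Par Λ κ) (sp : ℕ → Finset Λ) (Qp : NS → IT → Prop) (p : ℕ) (u : NS) (τ σ₁ σ₀ : IT)
    (d₁ d₀ : DT Λ κ) : Prop where
  e1 : d₁ = D.toDT sp u.B u.A σ₁
  e0 : d₀ = D.toDT sp u.B u.A σ₀
  q1 : All Qp ⟨p + 1, u.c, u.A, u.B⟩ σ₁
  q0 : All Qp ⟨p + 1, u.c, u.A, u.B⟩ σ₀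
  it : τ = .add p σ₁ σ₀ ∨ (τ = .far p σ₁ σ₀ ∧ ∃ F, σ₁ = .leaf F)

lemma AC.items {σ₁ σ₀ : IT} {d₁ d₀ : DT Λ κ} (h : AC D sp Qp p u τ σ₁ σ₀ d₁ d₀) :
    τ.items = σ₁.items ∪ σ₀.items := by
  rcases h.it with rfl | ⟨rfl, -⟩ <;> rfl

lemma tc_of (hG : PG P W) (hQ : ∀ u τ, Qp u τ → NF D P W μ rB u τ) {r : Λ → κ} {d₁ d₀ : DT Λ κ}
    (hd : D.toDT sp u.B u.A τ = .add p r d₁ d₀) (hq : All Qp u τ) :
    ∃ σ₁ σ₀, AC D sp Qp p u τ σ₁ σ₀ d₁ d₀ ∧
      TC P W μ D.it p (D.toDT sp u.B u.A τ) τ.items σ₁.items σ₀.items := by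
  obtain ⟨t₁, t₀, ht, -, rfl, rfl⟩ := AvgItem710.toDT_add hd
  have hN := hQ _ _ hq.self
  rcases ht with rfl | rfl
  · obtain ⟨J, hJ⟩ := cutN_of hG.w0 hN.ok
    refine ⟨t₁, t₀, ⟨rfl, rfl, hq.2.1, hq.2.2, Or.inl rfl⟩, TC.cut J hJ ?_⟩
    exact cd_cut hG.w0 (hN.msOf sp) hN.c0 hJ
  · obtain ⟨K, hK, F, hF⟩ := farN_of hG.w0 hN.ok
    have hok := hN.ok
    have hp := hok.1
    have hp0 := hok.2.2.1
    have hlo : P.lo p ≤ u.c * Ws W (IT.far p t₁ t₀).items := hok.2.2.2.2.2.2.1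
    have hpos : 0 < Ws W (IT.far p t₁ t₀).items :=
      pos_of_mul_pos_right ((hG.lo0 p hp hp0).trans_le hlo) hN.c0.le
    obtain ⟨c1, c2⟩ := cd_far hG.w0 (hG.sg0 p) (hG.sg8 p hp hp0) (hN.msOf sp) hN.c0 hpos hK
    exact ⟨t₁, t₀, ⟨rfl, rfl, hq.2.1, hq.2.2, Or.inr ⟨rfl, F, hF⟩⟩, TC.far K hK c1 c2⟩

lemma TC.yc (hG : PG P W) {Y : DT Λ κ} {S S₁ S₀ : Finset ℕ} (ha : isAdd p Y)
    (h : TC P W μ D.it p Y S S₁ S₀) : YC P W μ D.it p Y S := by
  rcases h with ⟨J, hN, hc⟩ | ⟨K, hN, hc, hk⟩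
  · exact YC.cut J ha hc hN.low
  · refine YC.far K ha hc hk ((hN.tail hG.w0).trans ?_)
    have := mul_nonneg (hG.sg0 p) (Ws_nonneg hG.w0 S)
    linarith

/-- class of the partner: add node, or dominated -/
lemma yc_of (hG : PG P W) (hQ : ∀ u τ, Qp u τ → NF D P W μ rB u τ) (hq : All Qp u τ)
    (hw : ∀ w r t₁ t₀ v B G, vw p (D.toDT sp u.B u.A τ) = .br w r t₁ t₀ v B G → w ≠ 0)
    (hb : (D.toDT sp u.B u.A τ).top ≠ p → BSide P.sg μ D.it p (D.toDT sp u.B u.A τ))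
    (hl : ¬ (D.toDT sp u.B u.A τ).isLeaf) :
    YC P W μ D.it p (D.toDT sp u.B u.A τ) τ.items := by
  have hN := hQ _ _ hq.self
  rcases hv : vw p (D.toDT sp u.B u.A τ) with ⟨w, r, t₁, t₀, v, B, G⟩ | ⟨r, t₁, t₀⟩ | ⟨Sp, d⟩
  · have hna : ¬ isAdd p (D.toDT sp u.B u.A τ) := by
      rintro ⟨r', a, b, h⟩; rw [hv] at h; cases h
    have hw' := hw _ _ _ _ _ _ _ hv
    have hd := vw_br hv
    rcases AvgItem710.toDT_br hd with ⟨S, t₁, t₀, rfl, -, -, -, -, -⟩ | ⟨t₁, rfl, -, -, -, hw0, -⟩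
    · obtain ⟨K, k, -, -⟩ := domN_br hG.w0 hG.sg0 hN.ok
      exact YC.dom _ hna k
    · exact absurd hw0 hw'
  · obtain ⟨σ₁, σ₀, -, hTC⟩ := tc_of hG hQ (vw_add hv) hq
    exact hTC.yc hG ⟨r, t₁, t₀, hv⟩
  · have hna : ¬ isAdd p (D.toDT sp u.B u.A τ) := by
      rintro ⟨r', a, b, h⟩; rw [hv] at h; cases h
    rcases vw_up hv with h | ⟨-, -, h⟩
    · obtain ⟨S, t₁, rfl, -, -⟩ := AvgItem710.toDT_up h
      obtain ⟨K, k⟩ := domN_up hG.w0 hG.sg0 hN.ok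
      exact YC.dom K hna k
    · rcases h with h | h
      · exact absurd h hl
      · obtain ⟨K, k⟩ := bside_dom hG.w0 hN (hb h)
        exact YC.dom K hna k

variable {s : St Λ κ}

lemma top_eq_p (h : isAdd s.p s.t) : s.t.top = s.p := by
  obtain ⟨r, t₁, t₀, h⟩ := h
  exact top_eq_of_vw fun Sp u h' => by rw [h] at h'; cases h'

lemma top_eq_p' (h : isAdd s.p s.t') : s.t'.top = s.p := by
  obtain ⟨r, t₁, t₀, h⟩ := h
  exact top_eq_of_vw fun Sp u h' => by rw [h] at h'; cases h'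

/-- class of the right side against a left add node -/
lemma WT.ycR (hG : PG P W) (hQ : ∀ u τ, Qp u τ → NF D P W μ rB u τ)
    (h : WT D sp Qp s u u' τ τ') (hB : BS P.sg μ D.it s) (hl : ¬ s.t.isLeaf) (hl' : ¬ s.t'.isLeaf)
    (hPR : ¬ s.isPR) (ha : isAdd s.p s.t) : YC P W μ D.it s.p s.t' τ'.items := by
  have e := h.tR
  have htop := top_eq_p ha
  have hle : s.t'.top ≤ s.p := le_max_right _ _
  obtain ⟨r, t₁, t₀, hv⟩ := ha
  rw [e]
  refine yc_of hG hQ h.qR ?_ ?_ (by rw [← e]; exact hl')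
  · intro w r' t₁' t₀' v B G hv'
    rw [← e] at hv'
    exact (St.not_isPR_add hPR hv hv').2
  · intro hne
    rw [← e] at hne ⊢
    have hlt : s.t'.top < s.t.top := by rw [htop]; exact lt_of_le_of_ne hle hne
    have := (hB hl hl').1 hlt
    rwa [htop] at this

/-- class of the left side against a right add node -/
lemma WT.ycL (hG : PG P W) (hQ : ∀ u τ, Qp u τ → NF D P W μ rB u τ)
    (h : WT D sp Qp s u u' τ τ') (hB : BS P.sg μ D.it s) (hl : ¬ s.t.isLeaf) (hl' : ¬ s.t'.isLeaf)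
    (hPL : ¬ s.isPL) (ha : isAdd s.p s.t') : YC P W μ D.it s.p s.t τ.items := by
  have e := h.tL
  have htop := top_eq_p' ha
  have hle : s.t.top ≤ s.p := le_max_left _ _
  obtain ⟨r, t₁, t₀, hv⟩ := ha
  rw [e]
  refine yc_of hG hQ h.qL ?_ ?_ (by rw [← e]; exact hl)
  · intro w r' t₁' t₀' v B G hv'
    rw [← e] at hv'
    exact (St.not_isPL_add hPL hv' hv).2
  · intro hne
    rw [← e] at hne ⊢
    have hlt : s.t.top < s.t'.top := by rw [htop]; exact lt_of_le_of_ne hle hne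
    have := (hB hl hl').2 hlt
    rwa [htop] at this

variable {st : St Λ κ → Prop}

lemma StX_on_left {sg : ℕ → ℝ} (ha : isAdd s.p s.t)
    (h : ¬ isAdd s.p s.t' ∨ lfF μ D.it sg s.p s.t s.t') :
    (StX st μ D.it rB sg).on s ↔ onF μ D.it rB sg s.p s.t s.t' := by
  unfold StX
  simp only
  rw [if_pos ⟨ha, h⟩]

lemma StX_on_right {sg : ℕ → ℝ}
    (h : ¬ isAdd s.p s.t ∨ (isAdd s.p s.t' ∧ ¬ lfF μ D.it sg s.p s.t s.t')) :
    (StX st μ D.it rB sg).on s ↔ onF μ D.it rB sg s.p s.t' s.t := by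
  unfold StX
  simp only
  rw [if_neg]
  rintro ⟨h1, h2⟩
  rcases h with h | ⟨h3, h4⟩
  · exact h h1
  · exact h2.elim (fun h => h h3) h4

/-- **one-sided step, the left add node is processed** -/
theorem one_left (hG : PG P W) (hQ : ∀ u τ, Qp u τ → NF D P W μ rB u τ)
    (h : WT D sp Qp s u u' τ τ') (hB : BS P.sg μ D.it s) (hl : ¬ s.t.isLeaf) (hl' : ¬ s.t'.isLeaf)
    (hPR : ¬ s.isPR) {r : Λ → κ} {t₁ t₀ : DT Λ κ} (hv : vw s.p s.t = .add r t₁ t₀)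
    (hpr : ¬ isAdd s.p s.t' ∨
      (isAdd s.p s.t' ∧ ¬ (StX st μ D.it rB P.sg).jt s ∧ (StX st μ D.it rB P.sg).lf s)) :
    ∃ σ₁ σ₀, AC D sp Qp s.p u τ σ₁ σ₀ t₁ t₀ ∧ ex s.p u.B = 0 ∧
      (((StX st μ D.it rB P.sg).on s ∧ XF P W s.p (ex s.p u'.B) τ.items σ₀.items σ₁.items τ'.items
          (dd t₀) (dd t₁)) ∨
        (¬ (StX st μ D.it rB P.sg).on s ∧ XF P W s.p (ex s.p u'.B) τ.items σ₁.items σ₀.items
          τ'.items (dd t₁) (dd t₀))) := by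
  have ha : isAdd s.p s.t := ⟨r, t₁, t₀, hv⟩
  obtain ⟨hp, hp0⟩ := h.prime hQ hl hl'
  have hY := h.ycR hG hQ hB hl hl' hPR ha
  have hd : D.toDT sp u.B u.A τ = .add s.p r t₁ t₀ := by rw [← h.tL]; exact vw_add hv
  obtain ⟨σ₁, σ₀, hAC, hTC⟩ := tc_of hG hQ hd h.qL
  rw [← h.tL] at hTC
  have hNR := hQ _ _ h.qR.self
  have hm := hNR.msOf sp
  have hrb : ex s.p (rB s.t') = ex s.p u'.B := by rw [h.tR, hNR.rb]
  have hT0 : ex s.p u.B = 0 := by
    obtain ⟨a1, a2⟩ := add_open (hQ _ _ h.qL.self).ok hd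
    exact exB_zero (hQ _ _ h.qL.self).ok a1 a2
  have hY0 : isAdd s.p s.t' → ex s.p u'.B = 0 := by
    rintro ⟨r', a, b, hv'⟩
    rw [h.tR] at hv'
    obtain ⟨a1, a2⟩ := add_open hNR.ok (vw_add hv')
    exact exB_zero hNR.ok a1 a2
  rw [← h.tR] at hm
  have key := xf_step hG (hG.sg8 _ hp hp0) hv hTC hY hm hNR.c0 hrb hY0
    (fun J J' c1 ha' c2 => by
      rcases hpr with h' | ⟨-, hj, hlf⟩
      · exact absurd ha' h'
      · have hlf' : lfF μ D.it P.sg s.p s.t s.t' := hlf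
        unfold lfF at hlf'
        rw [c1, c2] at hlf'
        exact hlf')
    (fun K c1 ha' => by
      rcases hpr with h' | ⟨-, hj, hlf⟩
      · exact absurd ha' h'
      · have hlf' : lfF μ D.it P.sg s.p s.t s.t' := hlf
        unfold lfF at hlf'
        rw [c1] at hlf'
        rcases c2 : cd (P.sg s.p) s.p (mm μ D.it s.t') with J' | K'
        · rw [c2] at hlf'
          exact absurd hlf' id
        · refine ⟨K', rfl, fun e => hj ⟨?_, ?_, ?_⟩⟩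
          · rintro ⟨-, h2⟩; exact not_add_up ⟨ha', h2⟩
          · rintro ⟨h2, -⟩; exact not_add_up ⟨ha, h2⟩
          · rw [c1, c2, e])
  have eon := StX_on_left (st := st) (D := D) (μ := μ) (rB := rB) (sg := P.sg) ha
    (hpr.imp_right fun h' => h'.2.2)
  refine ⟨σ₁, σ₀, hAC, hT0, ?_⟩
  rw [eon]
  by_cases ho : onF μ D.it rB P.sg s.p s.t s.t'
  · exact Or.inl ⟨ho, key.1 ho⟩
  · exact Or.inr ⟨ho, key.2 ho⟩

/-- **one-sided step, the right add node is processed** -/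
theorem one_right (hG : PG P W) (hQ : ∀ u τ, Qp u τ → NF D P W μ rB u τ)
    (h : WT D sp Qp s u u' τ τ') (hB : BS P.sg μ D.it s) (hl : ¬ s.t.isLeaf) (hl' : ¬ s.t'.isLeaf)
    (hPL : ¬ s.isPL) {r : Λ → κ} {t₁ t₀ : DT Λ κ} (hv : vw s.p s.t' = .add r t₁ t₀)
    (hpr : ¬ isAdd s.p s.t ∨
      (isAdd s.p s.t ∧ ¬ (StX st μ D.it rB P.sg).jt s ∧ ¬ (StX st μ D.it rB P.sg).lf s)) :
    ∃ σ₁ σ₀, AC D sp Qp s.p u' τ' σ₁ σ₀ t₁ t₀ ∧ ex s.p u'.B = 0 ∧
      (((StX st μ D.it rB P.sg).on s ∧ XF P W s.p (ex s.p u.B) τ'.items σ₀.items σ₁.items τ.items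
          (dd t₀) (dd t₁)) ∨
        (¬ (StX st μ D.it rB P.sg).on s ∧ XF P W s.p (ex s.p u.B) τ'.items σ₁.items σ₀.items
          τ.items (dd t₁) (dd t₀))) := by
  have ha : isAdd s.p s.t' := ⟨r, t₁, t₀, hv⟩
  obtain ⟨hp, hp0⟩ := h.prime hQ hl hl'
  have hY := h.ycL hG hQ hB hl hl' hPL ha
  have hd : D.toDT sp u'.B u'.A τ' = .add s.p r t₁ t₀ := by rw [← h.tR]; exact vw_add hv
  obtain ⟨σ₁, σ₀, hAC, hTC⟩ := tc_of hG hQ hd h.qR
  rw [← h.tR] at hTC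
  have hNL := hQ _ _ h.qL.self
  have hm := hNL.msOf sp
  have hrb : ex s.p (rB s.t) = ex s.p u.B := by rw [h.tL, hNL.rb]
  have hT0 : ex s.p u'.B = 0 := by
    obtain ⟨a1, a2⟩ := add_open (hQ _ _ h.qR.self).ok hd
    exact exB_zero (hQ _ _ h.qR.self).ok a1 a2
  have hY0 : isAdd s.p s.t → ex s.p u.B = 0 := by
    rintro ⟨r', a, b, hv'⟩
    rw [h.tL] at hv'
    obtain ⟨a1, a2⟩ := add_open hNL.ok (vw_add hv')
    exact exB_zero hNL.ok a1 a2
  rw [← h.tL] at hm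
  have key := xf_step hG (hG.sg8 _ hp hp0) hv hTC hY hm hNL.c0 hrb hY0
    (fun J J' c1 ha' c2 => by
      rcases hpr with h' | ⟨-, hj, hlf⟩
      · exact absurd ha' h'
      · have hlf' : ¬ lfF μ D.it P.sg s.p s.t s.t' := hlf
        unfold lfF at hlf'
        rw [c1, c2] at hlf'
        have hne : J ≠ J' := fun e => hj ⟨by
          rintro ⟨-, h2⟩; exact not_add_up ⟨ha, h2⟩, by
          rintro ⟨h2, -⟩; exact not_add_up ⟨ha', h2⟩, by rw [c1, c2, e]⟩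
        exact lt_of_le_of_ne (not_lt.1 hlf') hne)
    (fun K c1 ha' => by
      rcases hpr with h' | ⟨-, hj, hlf⟩
      · exact absurd ha' h'
      · exfalso
        have hlf' : ¬ lfF μ D.it P.sg s.p s.t s.t' := hlf
        unfold lfF at hlf'
        rw [c1] at hlf'
        rcases c2 : cd (P.sg s.p) s.p (mm μ D.it s.t) with J' | K' <;> rw [c2] at hlf' <;>
          exact hlf' trivial)
  have eon := StX_on_right (st := st) (D := D) (μ := μ) (rB := rB) (sg := P.sg) (s := s)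
    (hpr.imp_right fun h' => ⟨ha, h'.2.2⟩)
  refine ⟨σ₁, σ₀, hAC, hT0, ?_⟩
  rw [eon]
  by_cases ho : onF μ D.it rB P.sg s.p s.t' s.t
  · exact Or.inl ⟨ho, key.1 ho⟩
  · exact Or.inr ⟨ho, key.2 ho⟩

/-- **joint step**: two SEP nodes with the same threshold or two far nodes with the same dominant
exponent -/
inductive JF (P : Bld532.Par) (W : ℕ → ℝ) (b : ℕ) (T T₁ T₀ T' T₁' T₀' : Finset ℕ) : Prop
  | cut (J : ℕ) (hN : CutN P W b J T T₁ T₀) (hN' : CutN P W b J T' T₁' T₀') :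
      JF P W b T T₁ T₀ T' T₁' T₀'
  | far (K : ℕ) (hN : FarN P W b K T T₁ T₀) (hN' : FarN P W b K T' T₁' T₀') :
      JF P W b T T₁ T₀ T' T₁' T₀'

theorem joint_add (hG : PG P W) (hQ : ∀ u τ, Qp u τ → NF D P W μ rB u τ)
    (h : WT D sp Qp s u u' τ τ') {r r' : Λ → κ} {t₁ t₀ t₁' t₀' : DT Λ κ}
    (hv : vw s.p s.t = .add r t₁ t₀) (hv' : vw s.p s.t' = .add r' t₁' t₀')
    (hj : (StX st μ D.it rB P.sg).jt s) :
    ∃ σ₁ σ₀ σ₁' σ₀', AC D sp Qp s.p u τ σ₁ σ₀ t₁ t₀ ∧ AC D sp Qp s.p u' τ' σ₁' σ₀' t₁' t₀' ∧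
      ex s.p u.B = 0 ∧ ex s.p u'.B = 0 ∧
      JF P W s.p τ.items σ₁.items σ₀.items τ'.items σ₁'.items σ₀'.items := by
  have hd : D.toDT sp u.B u.A τ = .add s.p r t₁ t₀ := by rw [← h.tL]; exact vw_add hv
  have hd' : D.toDT sp u'.B u'.A τ' = .add s.p r' t₁' t₀' := by rw [← h.tR]; exact vw_add hv'
  obtain ⟨σ₁, σ₀, hAC, hTC⟩ := tc_of hG hQ hd h.qL
  obtain ⟨σ₁', σ₀', hAC', hTC'⟩ := tc_of hG hQ hd' h.qR
  rw [← h.tL] at hTC
  rw [← h.tR] at hTC'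
  have hc : cd (P.sg s.p) s.p (mm μ D.it s.t) = cd (P.sg s.p) s.p (mm μ D.it s.t') := hj.2.2
  have o1 := add_open (hQ _ _ h.qL.self).ok hd
  have o2 := add_open (hQ _ _ h.qR.self).ok hd'
  refine ⟨σ₁, σ₀, σ₁', σ₀', hAC, hAC', exB_zero (hQ _ _ h.qL.self).ok o1.1 o1.2,
    exB_zero (hQ _ _ h.qR.self).ok o2.1 o2.2, ?_⟩
  rcases hTC with ⟨J, hN, c1⟩ | ⟨K, hN, c1, -⟩ <;> rcases hTC' with ⟨J', hN', c2⟩ | ⟨K', hN', c2, -⟩
  · rw [c1, c2] at hc
    injection hc with e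
    subst e
    exact JF.cut J hN hN'
  · rw [c1, c2] at hc; cases hc
  · rw [c1, c2] at hc; cases hc
  · rw [c1, c2] at hc
    injection hc with e
    subst e
    exact JF.far K hN hN'

/-! ### list form -/

/-- the kinds of crossing states: `L`, `R` = items of the two sides of the state, `X`, `Y` = items of
the two sides of the crossing state, `k`, `k'` = exponents of `b` in the missing products of the two
sides, `dX`, `dY` : the sides of the crossing state are dead -/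
inductive CK (P : Bld532.Par) (W : ℕ → ℝ) (b k k' : ℕ) (L R X Y : Finset ℕ) (dX dY : Prop) : Prop
  | left (C : Finset ℕ) (dC : Prop) (h : XF P W b k' L X C Y dX dC) (h0 : k = 0) (e : Y = R) :
      CK P W b k k' L R X Y dX dY
  | right (C : Finset ℕ) (dC : Prop) (h : XF P W b k R Y C X dY dC) (h0 : k' = 0) (e : X = L) :
      CK P W b k k' L R X Y dX dY
  | j10 (L₀ R₁ : Finset ℕ) (h : JF P W b L X L₀ R R₁ Y) (h0 : k = 0) (h0' : k' = 0) :
      CK P W b k k' L R X Y dX dY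
  | j01 (L₁ R₀ : Finset ℕ) (h : JF P W b L L₁ X R Y R₀) (h0 : k = 0) (h0' : k' = 0) :
      CK P W b k k' L R X Y dX dY

/-- item form of a crossing state -/
structure CI (D : Par Λ κ) (sp : ℕ → Finset Λ) (Qp : NS → IT → Prop) (s : St Λ κ) (u u' : NS)
    (τ τ' : IT) (q : St Λ κ) (v v' : NS) (σ σ' : IT) : Prop where
  M : q.M = s.M
  M' : q.M' = s.M'
  O : q.O = s.O
  O' : q.O' = s.O'
  R : q.R = s.R
  A : q.A = s.A
  A' : q.A' = s.A'
  tL : q.t = D.toDT sp v.B v.A σ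
  tR : q.t' = D.toDT sp v'.B v'.A σ'
  qL : All Qp v σ
  qR : All Qp v' σ'
  /-- left side: not moved, or a child of the add node -/
  mL : (v = u ∧ σ = τ) ∨ (v = ⟨s.p + 1, u.c, u.A, u.B⟩ ∧ ∃ σ₂,
    ((τ = .add s.p σ σ₂ ∨ τ = .add s.p σ₂ σ) ∨ (τ = .far s.p σ σ₂ ∧ ∃ F, σ = .leaf F) ∨
      (τ = .far s.p σ₂ σ ∧ ∃ F, σ₂ = .leaf F)))
  mR : (v' = u' ∧ σ' = τ') ∨ (v' = ⟨s.p + 1, u'.c, u'.A, u'.B⟩ ∧ ∃ σ₂,
    ((τ' = .add s.p σ' σ₂ ∨ τ' = .add s.p σ₂ σ') ∨ (τ' = .far s.p σ' σ₂ ∧ ∃ F, σ' = .leaf F) ∨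
      (τ' = .far s.p σ₂ σ' ∧ ∃ F, σ₂ = .leaf F)))

lemma AC.m1 {σ₁ σ₀ : IT} {d₁ d₀ : DT Λ κ} (h : AC D sp Qp p u τ σ₁ σ₀ d₁ d₀) :
    ∃ σ₂, ((τ = .add p σ₁ σ₂ ∨ τ = .add p σ₂ σ₁) ∨ (τ = .far p σ₁ σ₂ ∧ ∃ F, σ₁ = .leaf F) ∨
      (τ = .far p σ₂ σ₁ ∧ ∃ F, σ₂ = .leaf F)) := by
  rcases h.it with e | ⟨e, h⟩
  · exact ⟨σ₀, Or.inl (Or.inl e)⟩
  · exact ⟨σ₀, Or.inr (Or.inl ⟨e, h⟩)⟩

lemma AC.m0 {σ₁ σ₀ : IT} {d₁ d₀ : DT Λ κ} (h : AC D sp Qp p u τ σ₁ σ₀ d₁ d₀) :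
    ∃ σ₂, ((τ = .add p σ₀ σ₂ ∨ τ = .add p σ₂ σ₀) ∨ (τ = .far p σ₀ σ₂ ∧ ∃ F, σ₀ = .leaf F) ∨
      (τ = .far p σ₂ σ₀ ∧ ∃ F, σ₂ = .leaf F)) := by
  rcases h.it with e | ⟨e, h⟩
  · exact ⟨σ₁, Or.inl (Or.inr e)⟩
  · exact ⟨σ₁, Or.inr (Or.inr ⟨e, h⟩)⟩

/-- **facts at the crossing states** -/
theorem crs_facts (hG : PG P W) (hQ : ∀ u τ, Qp u τ → NF D P W μ rB u τ)
    (h : WT D sp Qp s u u' τ τ') (hB : BS P.sg μ D.it s) :
    ∀ q ∈ crs (StX st μ D.it rB P.sg) s, ∃ v v' σ σ', CI D sp Qp s u u' τ τ' q v v' σ σ' ∧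
      CK P W s.p (ex s.p u.B) (ex s.p u'.B) τ.items τ'.items σ.items σ'.items (dd q.t) (dd q.t') := by
  classical
  intro q hq
  unfold crs at hq
  by_cases h1 : s.t.isLeaf ∨ s.t'.isLeaf
  · simp [h1] at hq
  by_cases h2 : (StX st μ D.it rB P.sg) s
  · simp [h1, h2] at hq
  by_cases h3 : s.isPL ∨ s.isPR
  · simp [h1, h2, h3] at hq
  rw [if_neg h1, if_neg h2, if_neg h3] at hq
  rw [not_or] at h1 h3
  have left : ∀ {r : Λ → κ} {t₁ t₀ : DT Λ κ}, vw s.p s.t = .add r t₁ t₀ →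
      (¬ isAdd s.p s.t' ∨
        (isAdd s.p s.t' ∧ ¬ (StX st μ D.it rB P.sg).jt s ∧ (StX st μ D.it rB P.sg).lf s)) →
      ∃ v v' σ σ', CI D sp Qp s u u' τ τ' { s with t := (StX st μ D.it rB P.sg).x s t₁ t₀ } v v' σ σ' ∧
        CK P W s.p (ex s.p u.B) (ex s.p u'.B) τ.items τ'.items σ.items σ'.items
          (dd ((StX st μ D.it rB P.sg).x s t₁ t₀)) (dd s.t') := by
    intro r t₁ t₀ hv hpr
    obtain ⟨σ₁, σ₀, hAC, h0, hx⟩ := one_left (st := st) hG hQ h hB h1.1 h1.2 h3.2 hv hpr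
    rcases hx with ⟨ho, hx⟩ | ⟨ho, hx⟩
    · have e : (StX st μ D.it rB P.sg).x s t₁ t₀ = t₀ := by unfold Stp.x; rw [if_pos ho]
      rw [e]
      exact ⟨⟨s.p + 1, u.c, u.A, u.B⟩, u', σ₀, τ', ⟨rfl, rfl, rfl, rfl, rfl, rfl, rfl, hAC.e0, h.tR,
        hAC.q0, h.qR, Or.inr ⟨rfl, hAC.m0⟩, Or.inl ⟨rfl, rfl⟩⟩, CK.left _ _ hx h0 rfl⟩
    · have e : (StX st μ D.it rB P.sg).x s t₁ t₀ = t₁ := by unfold Stp.x; rw [if_neg ho]
      rw [e]
      exact ⟨⟨s.p + 1, u.c, u.A, u.B⟩, u', σ₁, τ', ⟨rfl, rfl, rfl, rfl, rfl, rfl, rfl, hAC.e1, h.tR,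
        hAC.q1, h.qR, Or.inr ⟨rfl, hAC.m1⟩, Or.inl ⟨rfl, rfl⟩⟩, CK.left _ _ hx h0 rfl⟩
  have right : ∀ {r : Λ → κ} {t₁ t₀ : DT Λ κ}, vw s.p s.t' = .add r t₁ t₀ →
      (¬ isAdd s.p s.t ∨
        (isAdd s.p s.t ∧ ¬ (StX st μ D.it rB P.sg).jt s ∧ ¬ (StX st μ D.it rB P.sg).lf s)) →
      ∃ v v' σ σ', CI D sp Qp s u u' τ τ' { s with t' := (StX st μ D.it rB P.sg).x s t₁ t₀ } v v' σ σ' ∧
        CK P W s.p (ex s.p u.B) (ex s.p u'.B) τ.items τ'.items σ.items σ'.items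
          (dd s.t) (dd ((StX st μ D.it rB P.sg).x s t₁ t₀)) := by
    intro r t₁ t₀ hv hpr
    obtain ⟨σ₁, σ₀, hAC, h0, hx⟩ := one_right (st := st) hG hQ h hB h1.1 h1.2 h3.1 hv hpr
    rcases hx with ⟨ho, hx⟩ | ⟨ho, hx⟩
    · have e : (StX st μ D.it rB P.sg).x s t₁ t₀ = t₀ := by unfold Stp.x; rw [if_pos ho]
      rw [e]
      exact ⟨u, ⟨s.p + 1, u'.c, u'.A, u'.B⟩, τ, σ₀, ⟨rfl, rfl, rfl, rfl, rfl, rfl, rfl, h.tL, hAC.e0,
        h.qL, hAC.q0, Or.inl ⟨rfl, rfl⟩, Or.inr ⟨rfl, hAC.m0⟩⟩, CK.right _ _ hx h0 rfl⟩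
    · have e : (StX st μ D.it rB P.sg).x s t₁ t₀ = t₁ := by unfold Stp.x; rw [if_neg ho]
      rw [e]
      exact ⟨u, ⟨s.p + 1, u'.c, u'.A, u'.B⟩, τ, σ₁, ⟨rfl, rfl, rfl, rfl, rfl, rfl, rfl, h.tL, hAC.e1,
        h.qL, hAC.q1, Or.inl ⟨rfl, rfl⟩, Or.inr ⟨rfl, hAC.m1⟩⟩, CK.right _ _ hx h0 rfl⟩
  rcases hv : vw s.p s.t with ⟨w, r, t₁, t₀, v, B, G⟩ | ⟨r, t₁, t₀⟩ | ⟨Sp, d⟩ <;>
  rcases hv' : vw s.p s.t' with ⟨w', r', t₁', t₀', v', B', G'⟩ | ⟨r', t₁', t₀'⟩ | ⟨Sp', d'⟩ <;>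
  simp only [hv, hv'] at hq
  · simp at hq
  · simp only [List.mem_cons, List.not_mem_nil, or_false] at hq
    subst hq
    exact right hv' (Or.inl fun ⟨r, a, b, h⟩ => by rw [hv] at h; cases h)
  · simp at hq
  · simp only [List.mem_cons, List.not_mem_nil, or_false] at hq
    subst hq
    exact left hv (Or.inl fun ⟨r, a, b, h⟩ => by rw [hv'] at h; cases h)
  · have a1 : isAdd s.p s.t := ⟨r, t₁, t₀, hv⟩
    have a2 : isAdd s.p s.t' := ⟨r', t₁', t₀', hv'⟩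
    split_ifs at hq with hj hl <;>
      simp only [List.mem_cons, List.not_mem_nil, or_false] at hq
    · obtain ⟨σ₁, σ₀, σ₁', σ₀', hAC, hAC', j0, j0', hJ⟩ := joint_add (st := st) hG hQ h hv hv' hj
      rcases hq with rfl | rfl
      · exact ⟨⟨s.p + 1, u.c, u.A, u.B⟩, ⟨s.p + 1, u'.c, u'.A, u'.B⟩, σ₁, σ₀', ⟨rfl, rfl, rfl, rfl,
          rfl, rfl, rfl, hAC.e1, hAC'.e0, hAC.q1, hAC'.q0, Or.inr ⟨rfl, hAC.m1⟩,
          Or.inr ⟨rfl, hAC'.m0⟩⟩, CK.j10 _ _ hJ j0 j0'⟩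
      · exact ⟨⟨s.p + 1, u.c, u.A, u.B⟩, ⟨s.p + 1, u'.c, u'.A, u'.B⟩, σ₀, σ₁', ⟨rfl, rfl, rfl, rfl,
          rfl, rfl, rfl, hAC.e0, hAC'.e1, hAC.q0, hAC'.q1, Or.inr ⟨rfl, hAC.m0⟩,
          Or.inr ⟨rfl, hAC'.m1⟩⟩, CK.j01 _ _ hJ j0 j0'⟩
    · subst hq
      exact left hv (Or.inr ⟨a2, hj, hl⟩)
    · subst hq
      exact right hv' (Or.inr ⟨a1, hj, hl⟩)
  · have a1 : isAdd s.p s.t := ⟨r, t₁, t₀, hv⟩
    have a2 : ¬ isAdd s.p s.t' := fun ⟨r, a, b, h⟩ => by rw [hv'] at h; cases h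
    split_ifs at hq with hj
    · exact absurd ⟨a1, ⟨Sp', d', hv'⟩⟩ hj.1
    · simp only [List.mem_cons, List.not_mem_nil, or_false] at hq
      subst hq
      exact left hv (Or.inl a2)
  · simp at hq
  · have a1 : ¬ isAdd s.p s.t := fun ⟨r, a, b, h⟩ => by rw [hv] at h; cases h
    have a2 : isAdd s.p s.t' := ⟨r', t₁', t₀', hv'⟩
    split_ifs at hq with hj
    · exact absurd ⟨⟨Sp, d, hv⟩, a2⟩ hj.2.1
    · simp only [List.mem_cons, List.not_mem_nil, or_false] at hq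
      subst hq
      exact right hv' (Or.inl a1)
  · simp at hq

/-! ### over the steps of CrossSum_29 -/

open Crest.Agent.R4P.CrossSum29 (OneL OneR Jnt)

/-- the processed node of a one-sided step: `X` = crossing child, `C` = continuing child -/
structure OC (D : Par Λ κ) (sp : ℕ → Finset Λ) (Qp : NS → IT → Prop) (p : ℕ) (u : NS) (τ σX σC : IT)
    (X C : DT Λ κ) : Prop where
  eX : X = D.toDT sp u.B u.A σX
  eC : C = D.toDT sp u.B u.A σC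
  qX : All Qp ⟨p + 1, u.c, u.A, u.B⟩ σX
  qC : All Qp ⟨p + 1, u.c, u.A, u.B⟩ σC
  it : (τ = .add p σX σC ∨ τ = .add p σC σX) ∨ (τ = .far p σX σC ∧ ∃ F, σX = .leaf F) ∨
    (τ = .far p σC σX ∧ ∃ F, σC = .leaf F)
  b0 : ex p u.B = 0

lemma OC.items {σX σC : IT} {X C : DT Λ κ} (h : OC D sp Qp p u τ σX σC X C) :
    τ.items = σX.items ∪ σC.items := by
  rcases h.it with (rfl | rfl) | ⟨rfl, -⟩ | ⟨rfl, -⟩
  · rfl
  · exact Finset.union_comm _ _
  · rfl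
  · exact Finset.union_comm _ _

/-- **left one-sided step** -/
theorem oneL_facts (hG : PG P W) (hQ : ∀ u τ, Qp u τ → NF D P W μ rB u τ)
    (h : WT D sp Qp s u u' τ τ') (hB : BS P.sg μ D.it s) {r : Λ → κ} {t₁ t₀ : DT Λ κ}
    (ho : OneL (StX st μ D.it rB P.sg) s r t₁ t₀) :
    ∃ σX σC, OC D sp Qp s.p u τ σX σC ((StX st μ D.it rB P.sg).x s t₁ t₀)
        ((StX st μ D.it rB P.sg).c s t₁ t₀) ∧
      XF P W s.p (ex s.p u'.B) τ.items σX.items σC.items τ'.items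
        (dd ((StX st μ D.it rB P.sg).x s t₁ t₀)) (dd ((StX st μ D.it rB P.sg).c s t₁ t₀)) := by
  have hv : vw s.p s.t = .add r t₁ t₀ := by
    conv_lhs => rw [ho.et]
    simp [vw]
  have hpr : ¬ isAdd s.p s.t' ∨
      (isAdd s.p s.t' ∧ ¬ (StX st μ D.it rB P.sg).jt s ∧ (StX st μ D.it rB P.sg).lf s) := by
    by_cases ha : isAdd s.p s.t'
    · rcases ho.wt with hw | hw
      · obtain ⟨r', a, b, h'⟩ := ha
        exact absurd (vw_add h') (hw r' a b)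
      · exact Or.inr ⟨ha, hw⟩
    · exact Or.inl ha
  obtain ⟨σ₁, σ₀, hAC, h0, hx⟩ := one_left (st := st) hG hQ h hB ho.prp.nl ho.prp.nl' ho.prp.npr hv hpr
  rcases hx with ⟨hon, hx⟩ | ⟨hon, hx⟩
  · have e : (StX st μ D.it rB P.sg).x s t₁ t₀ = t₀ := by unfold Stp.x; rw [if_pos hon]
    have e' : (StX st μ D.it rB P.sg).c s t₁ t₀ = t₁ := by unfold Stp.c; rw [if_pos hon]
    rw [e, e']
    refine ⟨σ₀, σ₁, ⟨hAC.e0, hAC.e1, hAC.q0, hAC.q1, ?_, h0⟩, hx⟩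
    rcases hAC.it with h | ⟨h, h'⟩
    · exact Or.inl (Or.inr h)
    · exact Or.inr (Or.inr ⟨h, h'⟩)
  · have e : (StX st μ D.it rB P.sg).x s t₁ t₀ = t₁ := by unfold Stp.x; rw [if_neg hon]
    have e' : (StX st μ D.it rB P.sg).c s t₁ t₀ = t₀ := by unfold Stp.c; rw [if_neg hon]
    rw [e, e']
    refine ⟨σ₁, σ₀, ⟨hAC.e1, hAC.e0, hAC.q1, hAC.q0, ?_, h0⟩, hx⟩
    rcases hAC.it with h | ⟨h, h'⟩
    · exact Or.inl (Or.inl h)
    · exact Or.inr (Or.inl ⟨h, h'⟩)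

/-- **right one-sided step** -/
theorem oneR_facts (hG : PG P W) (hQ : ∀ u τ, Qp u τ → NF D P W μ rB u τ)
    (h : WT D sp Qp s u u' τ τ') (hB : BS P.sg μ D.it s) {r : Λ → κ} {t₁ t₀ : DT Λ κ}
    (ho : OneR (StX st μ D.it rB P.sg) s r t₁ t₀) :
    ∃ σX σC, OC D sp Qp s.p u' τ' σX σC ((StX st μ D.it rB P.sg).x s t₁ t₀)
        ((StX st μ D.it rB P.sg).c s t₁ t₀) ∧
      XF P W s.p (ex s.p u.B) τ'.items σX.items σC.items τ.items
        (dd ((StX st μ D.it rB P.sg).x s t₁ t₀)) (dd ((StX st μ D.it rB P.sg).c s t₁ t₀)) := by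
  have hv : vw s.p s.t' = .add r t₁ t₀ := by
    conv_lhs => rw [ho.et]
    simp [vw]
  have hpr : ¬ isAdd s.p s.t ∨
      (isAdd s.p s.t ∧ ¬ (StX st μ D.it rB P.sg).jt s ∧ ¬ (StX st μ D.it rB P.sg).lf s) := by
    by_cases ha : isAdd s.p s.t
    · rcases ho.wt with hw | hw
      · obtain ⟨r', a, b, h'⟩ := ha
        exact absurd (vw_add h') (hw r' a b)
      · exact Or.inr ⟨ha, hw⟩
    · exact Or.inl ha
  obtain ⟨σ₁, σ₀, hAC, h0, hx⟩ := one_right (st := st) hG hQ h hB ho.prp.nl ho.prp.nl' ho.prp.npl hv hpr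
  rcases hx with ⟨hon, hx⟩ | ⟨hon, hx⟩
  · have e : (StX st μ D.it rB P.sg).x s t₁ t₀ = t₀ := by unfold Stp.x; rw [if_pos hon]
    have e' : (StX st μ D.it rB P.sg).c s t₁ t₀ = t₁ := by unfold Stp.c; rw [if_pos hon]
    rw [e, e']
    refine ⟨σ₀, σ₁, ⟨hAC.e0, hAC.e1, hAC.q0, hAC.q1, ?_, h0⟩, hx⟩
    rcases hAC.it with h | ⟨h, h'⟩
    · exact Or.inl (Or.inr h)
    · exact Or.inr (Or.inr ⟨h, h'⟩)
  · have e : (StX st μ D.it rB P.sg).x s t₁ t₀ = t₁ := by unfold Stp.x; rw [if_neg hon]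
    have e' : (StX st μ D.it rB P.sg).c s t₁ t₀ = t₀ := by unfold Stp.c; rw [if_neg hon]
    rw [e, e']
    refine ⟨σ₁, σ₀, ⟨hAC.e1, hAC.e0, hAC.q1, hAC.q0, ?_, h0⟩, hx⟩
    rcases hAC.it with h | ⟨h, h'⟩
    · exact Or.inl (Or.inl h)
    · exact Or.inr (Or.inl ⟨h, h'⟩)

/-- **joint step** -/
theorem jnt_facts (hG : PG P W) (hQ : ∀ u τ, Qp u τ → NF D P W μ rB u τ)
    (h : WT D sp Qp s u u' τ τ') {r r' : Λ → κ} {t₁ t₀ t₁' t₀' : DT Λ κ}
    (ho : Jnt (StX st μ D.it rB P.sg) s r t₁ t₀ r' t₁' t₀') :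
    ∃ σ₁ σ₀ σ₁' σ₀', AC D sp Qp s.p u τ σ₁ σ₀ t₁ t₀ ∧ AC D sp Qp s.p u' τ' σ₁' σ₀' t₁' t₀' ∧
      ex s.p u.B = 0 ∧ ex s.p u'.B = 0 ∧
      JF P W s.p τ.items σ₁.items σ₀.items τ'.items σ₁'.items σ₀'.items := by
  have hv : vw s.p s.t = .add r t₁ t₀ := by
    conv_lhs => rw [ho.et]
    simp [vw]
  have hv' : vw s.p s.t' = .add r' t₁' t₀' := by
    conv_lhs => rw [ho.et']
    simp [vw]
  exact joint_add (st := st) hG hQ h hv hv' ho.jt

end

end Crest.Agent.R4P.StratX36
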