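import Crest.Agent.R4P.KindPay_36
import Crest.Agent.R4P.StratF_36

/-!
R4P (S0004), helper36, group [X]: **the kind table of the payments at a crossing**, in the letters of the
strategy (`XF`, `JF` of StratF_36).

* `cm` : masses of the effective classes; `pair_split` : a sum over item pairs = different + equal classes.
* `FarN.it`, `FarN.itA` : a far split comes from a far node.
* `KTab` : the table; `kind_table` : it holds for all large columns.
-/

set_option autoImplicit false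
set_option linter.unusedVariables false
set_option linter.unusedSectionVars false
open Finset Filter

namespace Crest.Agent.R4P.KindTab36

open Crest.Agent.R4P.ClsSum Crest.Agent.R4P.Pay35 Crest.Agent.R4.HVW560 Crest.Agent.R4P.KindPay36
open Crest.Agent.R4P.Cnt588 Crest.Agent.R4P.StratN36 Crest.Agent.R4P.StratX36
open Crest.Agent.R4P.Bld532 (NS All NodeOk Bk Ws_mono Ws_nonneg)
open Crest.Agent.R4P

/-! ### class masses -/

/-- mass of the effective class `i` of the items `S` (`k` = shift) -/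
noncomputable def cm (W : ℕ → ℝ) (c : ℝ) (b k : ℕ) (S : Finset ℕ) (i : ℕ) : ℝ :=
  c * Ws W (S.filter (fun q => ex b q + k = i))

section
variable {P : Bld532.Par} {W : ℕ → ℝ} {c c' : ℝ} {b k n : ℕ} {S : Finset ℕ}

lemma cm_nonneg (hW : ∀ q, 0 ≤ W q) (hc : 0 ≤ c) (i : ℕ) : 0 ≤ cm W c b k S i :=
  mul_nonneg hc (Ws_nonneg hW _)

lemma cm_le (hW : ∀ q, 0 ≤ W q) (hc : 0 ≤ c) (i : ℕ) : cm W c b k S i ≤ c * Ws W S :=
  mul_le_mul_of_nonneg_left (Ws_mono hW (Finset.filter_subset _ _)) hc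

lemma cm_zero (i : ℕ) (h : ∀ q ∈ S, 0 < W q → ex b q + k ≠ i) (hW : ∀ q, 0 ≤ W q) :
    cm W c b k S i = 0 := by
  unfold cm Ws
  rw [Finset.sum_eq_zero, mul_zero]
  intro q hq
  obtain ⟨h1, h2⟩ := Finset.mem_filter.1 hq
  by_contra h0
  exact h q h1 (lt_of_le_of_ne (hW q) (Ne.symm h0)) h2

lemma cm_sumE (hW : ∀ q, 0 ≤ W q) (hc : 0 ≤ c) (E : ℕ → Prop) [DecidablePred E] (n : ℕ) :
    ∑ i ∈ range n, (if E i then cm W c b k S i else 0) ≤
      c * Ws W (S.filter (fun q => E (ex b q + k))) := by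
  have e : ∑ i ∈ range n, (if E i then cm W c b k S i else 0) =
      c * ∑ i ∈ range n, ∑ q ∈ (S.filter (fun q => E (ex b q + k))).filter (fun q => ex b q + k = i), W q := by
    rw [Finset.mul_sum]
    refine Finset.sum_congr rfl fun i _ => ?_
    unfold cm Ws
    by_cases h : E i
    · rw [if_pos h]
      congr 2
      ext q
      simp only [Finset.mem_filter]
      constructor
      · rintro ⟨h1, h2⟩; exact ⟨⟨h1, by rw [h2]; exact h⟩, h2⟩
      · rintro ⟨⟨h1, -⟩, h2⟩; exact ⟨h1, h2⟩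
    · rw [if_neg h]
      have : (S.filter (fun q => E (ex b q + k))).filter (fun q => ex b q + k = i) = ∅ := by
        rw [Finset.filter_eq_empty_iff]
        intro q hq he
        rw [← he] at h
        exact h (Finset.mem_filter.1 hq).2
      rw [this, Finset.sum_empty, mul_zero]
  rw [e]
  refine mul_le_mul_of_nonneg_left ?_ hc
  rw [← Finset.sum_biUnion (fun i _ j _ hij => by
    rw [Function.onFun, Finset.disjoint_left]
    intro q h1 h2
    exact hij ((Finset.mem_filter.1 h1).2.symm.trans (Finset.mem_filter.1 h2).2))]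
  unfold Ws
  refine Finset.sum_le_sum_of_subset_of_nonneg (fun q hq => ?_) fun q _ _ => hW q
  obtain ⟨i, -, h⟩ := Finset.mem_biUnion.1 hq
  exact (Finset.mem_filter.1 h).1

lemma cm_sum (hW : ∀ q, 0 ≤ W q) (hc : 0 ≤ c) (n : ℕ) :
    ∑ i ∈ range n, cm W c b k S i ≤ c * Ws W S := by
  have h := cm_sumE (b := b) (k := k) (S := S) hW hc (fun _ => True) n
  simpa using h

end

/-- **a sum over item pairs by effective classes** -/
theorem pair_split {X Y : Finset ℕ} (f g : ℕ → ℕ) (F : ℕ × ℕ → ℝ) {n : ℕ} (hX : ∀ q ∈ X, f q < n)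
    (hY : ∀ q ∈ Y, g q < n) :
    ∑ e ∈ X ×ˢ Y, F e =
      offS n (fun i j => ∑ e ∈ (X.filter (fun q => f q = i)) ×ˢ (Y.filter (fun q => g q = j)), F e) +
      eqS n (fun i j => ∑ e ∈ (X.filter (fun q => f q = i)) ×ˢ (Y.filter (fun q => g q = j)), F e) := by
  rw [← split_S, Finset.sum_product]
  have h1 : ∑ x ∈ X, ∑ y ∈ Y, F (x, y) =
      ∑ i ∈ range n, ∑ x ∈ X.filter (fun q => f q = i), ∑ y ∈ Y, F (x, y) :=
    (Finset.sum_fiberwise_of_maps_to (fun q hq => Finset.mem_range.2 (hX q hq)) _).symm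
  rw [h1]
  refine Finset.sum_congr rfl fun i _ => ?_
  have h2 : ∀ x ∈ X.filter (fun q => f q = i), ∑ y ∈ Y, F (x, y) =
      ∑ j ∈ range n, ∑ y ∈ Y.filter (fun q => g q = j), F (x, y) := fun x _ =>
    (Finset.sum_fiberwise_of_maps_to (fun q hq => Finset.mem_range.2 (hY q hq)) _).symm
  rw [Finset.sum_congr rfl h2, Finset.sum_comm]
  refine Finset.sum_congr rfl fun j _ => ?_
  rw [Finset.sum_product]

/-! ### far splits come from far nodes -/

section
variable {P : Bld532.Par} {W : ℕ → ℝ} {b K : ℕ} {u : NS} {τ σ₁ σ₀ : IT}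

/-- a far split is not a cut -/
lemma no_cut_far (hW : ∀ q, 0 ≤ W q) {J : ℕ} {S S₁ S₀ R₁ R₀ : Finset ℕ} (hc : CutN P W b J S S₁ S₀)
    (hf : FarN P W b K S R₁ R₀) : False := by
  rcases Nat.lt_or_ge K J with h | h
  · have h1 := hc.s1
    rw [hc.t1] at h1
    have h2 : Ws W (S.filter (fun q => J ≤ ex b q)) ≤ Ws W (S.filter (fun q => K < ex b q)) :=
      Ws_mono hW fun q hq => by
        obtain ⟨h3, h4⟩ := Finset.mem_filter.1 hq
        exact Finset.mem_filter.2 ⟨h3, by omega⟩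
    exact absurd (h1.trans_le (h2.trans hf.hi)) (lt_irrefl _)
  · have h1 := hc.s0
    rw [hc.t0] at h1
    have h2 : Ws W (S.filter (fun q => ex b q < J)) ≤ Ws W (S.filter (fun q => ex b q < K)) :=
      Ws_mono hW fun q hq => by
        obtain ⟨h3, h4⟩ := Finset.mem_filter.1 hq
        exact Finset.mem_filter.2 ⟨h3, by omega⟩
    exact absurd (h1.trans_le (h2.trans hf.lo)) (lt_irrefl _)

/-- masses of the two parts of a far split -/
lemma FarN.s1 (hW : ∀ q, 0 ≤ W q) {S S₁ S₀ : Finset ℕ} (h : FarN P W b K S S₁ S₀) :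
    Ws W S₁ ≤ 2 * P.sg b * Ws W S := by
  refine le_trans (Ws_mono hW ?_) (h.tail hW)
  rw [h.t1]
  intro q hq
  obtain ⟨h3, h4⟩ := Finset.mem_filter.1 hq
  exact Finset.mem_filter.2 ⟨h3, by omega⟩

lemma FarN.sum (hW : ∀ q, 0 ≤ W q) {S S₁ S₀ : Finset ℕ} (h : FarN P W b K S S₁ S₀) :
    Ws W S ≤ Ws W S₁ + Ws W S₀ := by
  have hu : Ws W (S₁ ∪ S₀) ≤ Ws W S₁ + Ws W S₀ := by
    unfold Ws
    rw [← Finset.sum_union_inter]
    have : 0 ≤ ∑ q ∈ S₁ ∩ S₀, W q := Finset.sum_nonneg fun q _ => hW q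
    linarith
  refine le_trans (Ws_mono hW ?_) hu
  intro q hq
  rw [h.t1, h.t0, Finset.mem_union, Finset.mem_filter, Finset.mem_filter]
  by_cases hc : K ≤ ex b q + 1 ∧ ex b q ≤ K + 1
  · exact Or.inr ⟨hq, hc⟩
  · exact Or.inl ⟨hq, by omega⟩

/-- **the far child of a far split is the leaf of a far node** (one-sided step) -/
theorem far_it (hG : PG P W) (hN : NodeOk P W u τ) (hc0 : 0 < u.c)
    (hf : FarN P W b K τ.items σ₁.items σ₀.items)
    (hit : (τ = .add b σ₁ σ₀ ∨ τ = .add b σ₀ σ₁) ∨ (τ = .far b σ₁ σ₀ ∧ ∃ F, σ₁ = .leaf F) ∨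
      (τ = .far b σ₀ σ₁ ∧ ∃ F, σ₀ = .leaf F)) :
    τ = .far b σ₁ σ₀ ∧ ∃ F, σ₁ = .leaf F := by
  rcases hit with (rfl | rfl) | h | ⟨rfl, F, rfl⟩
  · obtain ⟨J, hJ⟩ := cutN_of hG.w0 hN
    exact (no_cut_far hG.w0 hJ hf).elim
  · obtain ⟨J, hJ⟩ := cutN_of hG.w0 hN
    exact (no_cut_far hG.w0 hJ hf).elim
  · exact h
  · exfalso
    obtain ⟨K₁, hK₁, -⟩ := farN_of hG.w0 hN
    have hN' := hN
    obtain ⟨hb, -, hp0, -, -, -, hlo, -⟩ := hN'
    have hsg := hG.sg8 b hb hp0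
    have hsg0 := hG.sg0 b
    have hpos : 0 < Ws W (IT.far b (.leaf F) σ₁).items :=
      pos_of_mul_pos_right ((hG.lo0 b hb hp0).trans_le hlo) hc0.le
    have h1 := FarN.s1 hG.w0 hf
    have h2 := FarN.s1 hG.w0 hK₁
    have h3 := FarN.sum hG.w0 hK₁
    have e : (IT.far b (.leaf F) σ₁).items = (IT.leaf F).items ∪ σ₁.items := rfl
    rw [← e] at h2 h3
    have h4 : Ws W (IT.far b (.leaf F) σ₁).items ≤ 4 * P.sg b * Ws W (IT.far b (.leaf F) σ₁).items := by
      linarith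
    have h5 : 8 * P.sg b * Ws W (IT.far b (.leaf F) σ₁).items < 1 * Ws W (IT.far b (.leaf F) σ₁).items :=
      mul_lt_mul_of_pos_right hsg hpos
    have h6 : 0 ≤ P.sg b * Ws W (IT.far b (.leaf F) σ₁).items := mul_nonneg hsg0 hpos.le
    linarith

/-- the same at a joint step -/
theorem far_itA (hG : PG P W) (hN : NodeOk P W u τ)
    (hf : FarN P W b K τ.items σ₁.items σ₀.items)
    (hit : τ = .add b σ₁ σ₀ ∨ (τ = .far b σ₁ σ₀ ∧ ∃ F, σ₁ = .leaf F)) :
    τ = .far b σ₁ σ₀ ∧ ∃ F, σ₁ = .leaf F := by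
  rcases hit with rfl | h
  · obtain ⟨J, hJ⟩ := cutN_of hG.w0 hN
    exact (no_cut_far hG.w0 hJ hf).elim
  · exact h

/-- the near child of a far split is dominated -/
lemma FarN.dom (hG : PG P W) (h8 : 8 * P.sg b < 1) {S S₁ S₀ : Finset ℕ} (h : FarN P W b K S S₁ S₀) :
    Ws W S ≤ 2 * Ws W S₀ ∧ Ws W (S₀.filter (fun q => ex b q ≠ K)) ≤ 4 * P.sg b * Ws W S₀ := by
  have hW := hG.w0
  have hsg := hG.sg0 b
  have hS := Ws_nonneg hW S
  have hS0 := Ws_nonneg hW S₀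
  have h1 := FarN.s1 hW h
  have h2 := FarN.sum hW h
  have h3 : 2 * P.sg b * Ws W S ≤ 1/4 * Ws W S := mul_le_mul_of_nonneg_right (by linarith) hS
  have h4 : Ws W S ≤ 2 * Ws W S₀ := by linarith
  refine ⟨h4, ?_⟩
  have h5 : Ws W (S₀.filter (fun q => ex b q ≠ K)) ≤ Ws W (S.filter (fun q => ex b q ≠ K)) := by
    refine Ws_mono hW ?_
    rw [h.t0]
    intro q hq
    obtain ⟨h6, h7⟩ := Finset.mem_filter.1 hq
    exact Finset.mem_filter.2 ⟨(Finset.mem_filter.1 h6).1, h7⟩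
  calc _ ≤ 2 * P.sg b * Ws W S := h5.trans (h.tail hW)
    _ ≤ 2 * P.sg b * (2 * Ws W S₀) := mul_le_mul_of_nonneg_left h4 (by linarith)
    _ = _ := by ring

end

/-! ### the table -/

/-- the accident term of a pair of classes: `al` = adjacent factor, `y` = mass of the class of the partner -/
noncomputable def acT (C Ch s₂ : ℝ) (b : ℕ) (al y : ℝ) : ℝ :=
  (Real.log b)^(CA C Ch s₂) * al^(1/(1-s₂)) * (b:ℝ)^(-1:ℝ) * y

/-- the blocks of a crossing pair: different and equal classes -/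
structure BL (b : ℕ) (C s₁ s₂ a : ℝ) (al : ℕ → ℕ → ℝ) (x y : ℕ → ℝ) (φ : ℕ → ℕ → ℝ) : Prop where
  co : CO b C s₁ s₂ al x y φ
  cw : CW b C s₁ s₂ x y φ
  al : ∀ i j, al i j ≤ (b:ℝ)^a

lemma BL.swap {b : ℕ} {C s₁ s₂ a : ℝ} {al : ℕ → ℕ → ℝ} {x y : ℕ → ℝ} {φ : ℕ → ℕ → ℝ}
    (h : BL b C s₁ s₂ a al x y φ) :
    BL b C s₁ s₂ a (fun i j => al j i) y x (fun i j => φ j i) :=
  ⟨h.co.swap, h.cw.swap, fun i j => h.al j i⟩

/-- **the kind table at the column `b`** -/
structure KTab (C Cl Ch B K₁ δ s₁ s₂ a η : ℝ) (b : ℕ) : Prop where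
  /-- the part below the threshold leaves, dead or alive (exact equal classes) -/
  low : ∀ (P : Bld532.Par) (W : ℕ → ℝ), PG P W → P.sg b = (Real.log b)^B / b →
    ∀ (k n J : ℕ) (T X X' Y : Finset ℕ) (c c' : ℝ) (al : ℕ → ℕ → ℝ) (φ : ℕ → ℕ → ℝ) (tw : ℕ → ℝ),
    0 < c → 0 < c' →
    CutN P W b J T X' X → Ws W (Y.filter (fun q => ex b q + k < J)) ≤ 4 * P.sg b * Ws W Y →
    BL b C s₁ s₂ a al (cm W c b 0 X) (cm W c' b k Y) φ →
    CE b C K₁ δ s₁ tw (cm W c b 0 X) (cm W c' b k Y) φ →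
    (Real.log b)^(-Cl) ≤ c * Ws W T → c' * Ws W Y ≤ (Real.log b)^Ch →
    offS n φ + eqS n φ ≤ (58 + K₁) * (c * Ws W X) +
      2 * K₁ * (c * Ws W X * Real.sqrt (c' * Ws W Y / (c * Ws W T))) +
      acT C Ch s₂ b (al (J-1) J) (cm W c' b k Y J)
  /-- the part below the threshold leaves, alive -/
  lowA : ∀ (P : Bld532.Par) (W : ℕ → ℝ), PG P W → P.sg b = (Real.log b)^B / b →
    ∀ (k n J : ℕ) (T X X' Y : Finset ℕ) (c c' : ℝ) (al : ℕ → ℕ → ℝ) (φ : ℕ → ℕ → ℝ), 0 < c → 0 < c' →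
    CutN P W b J T X' X → Ws W (Y.filter (fun q => ex b q + k < J)) ≤ 4 * P.sg b * Ws W Y →
    BL b C s₁ s₂ a al (cm W c b 0 X) (cm W c' b k Y) φ →
    (Real.log b)^(-Cl) ≤ c * Ws W X → (Real.log b)^(-Cl) ≤ c' * Ws W Y →
    offS n φ + eqS n φ ≤ η * (c * Ws W X * (c' * Ws W Y))
  /-- the part above the threshold leaves, dead or alive (exact equal classes) -/
  high : ∀ (P : Bld532.Par) (W : ℕ → ℝ), PG P W → P.sg b = (Real.log b)^B / b →
    ∀ (k n J : ℕ) (T X X' Y : Finset ℕ) (c c' : ℝ) (al : ℕ → ℕ → ℝ) (φ : ℕ → ℕ → ℝ) (tw : ℕ → ℝ),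
    0 < c → 0 < c' →
    CutN P W b J T X X' → Ws W (Y.filter (fun q => J ≤ ex b q + k)) ≤ 4 * P.sg b * Ws W Y →
    BL b C s₁ s₂ a al (cm W c b 0 X) (cm W c' b k Y) φ →
    CE b C K₁ δ s₁ tw (cm W c b 0 X) (cm W c' b k Y) φ →
    (Real.log b)^(-Cl) ≤ c * Ws W T → c' * Ws W Y ≤ (Real.log b)^Ch →
    offS n φ + eqS n φ ≤ (58 + K₁) * (c * Ws W X) +
      2 * K₁ * (c * Ws W X * Real.sqrt (c' * Ws W Y / (c * Ws W T))) +
      acT C Ch s₂ b (al J (J-1)) (cm W c' b k Y (J-1))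
  /-- the part above the threshold leaves, alive -/
  highA : ∀ (P : Bld532.Par) (W : ℕ → ℝ), PG P W → P.sg b = (Real.log b)^B / b →
    ∀ (k n J : ℕ) (T X X' Y : Finset ℕ) (c c' : ℝ) (al : ℕ → ℕ → ℝ) (φ : ℕ → ℕ → ℝ), 0 < c → 0 < c' →
    CutN P W b J T X X' → Ws W (Y.filter (fun q => J ≤ ex b q + k)) ≤ 4 * P.sg b * Ws W Y →
    BL b C s₁ s₂ a al (cm W c b 0 X) (cm W c' b k Y) φ →
    (Real.log b)^(-Cl) ≤ c * Ws W X → (Real.log b)^(-Cl) ≤ c' * Ws W Y →
    offS n φ + eqS n φ ≤ η * (c * Ws W X * (c' * Ws W Y))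
  /-- the far leaf leaves, the near child is dead (no condition on the partner) -/
  farC : ∀ (P : Bld532.Par) (W : ℕ → ℝ), PG P W → P.sg b = (Real.log b)^B / b →
    ∀ (k n K : ℕ) (T X X' Y : Finset ℕ) (c c' : ℝ) (al : ℕ → ℕ → ℝ) (φ : ℕ → ℕ → ℝ), 0 < c → 0 < c' →
    FarN P W b K T X X' →
    BL b C s₁ s₂ a al (cm W c b 0 X) (cm W c' b k Y) φ →
    c * Ws W T ≤ (Real.log b)^Ch → (Real.log b)^(-Cl) ≤ c' * Ws W Y → c' * Ws W Y ≤ (Real.log b)^Ch →
    offS n φ + eqS n φ ≤ η * (c' * Ws W Y)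
  /-- the far leaf leaves, the partner is dominated by the same exponent -/
  farD : ∀ (P : Bld532.Par) (W : ℕ → ℝ), PG P W → P.sg b = (Real.log b)^B / b →
    ∀ (k n K : ℕ) (T X X' Y : Finset ℕ) (c c' : ℝ) (al : ℕ → ℕ → ℝ) (φ : ℕ → ℕ → ℝ), 0 < c → 0 < c' →
    FarN P W b K T X X' → DomE P W b k K Y →
    BL b C s₁ s₂ a al (cm W c b 0 X) (cm W c' b k Y) φ →
    (Real.log b)^(-Cl) ≤ c * Ws W T → c' * Ws W Y ≤ (Real.log b)^Ch →
    offS n φ + eqS n φ ≤ 7 * (c * Ws W X + (b:ℝ)^(-(3/2):ℝ) * (c * Ws W T))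
  /-- the near child leaves, alive -/
  near : ∀ (P : Bld532.Par) (W : ℕ → ℝ), PG P W → P.sg b = (Real.log b)^B / b →
    ∀ (k n K K' : ℕ) (T X X' Y : Finset ℕ) (c c' : ℝ) (al : ℕ → ℕ → ℝ) (φ : ℕ → ℕ → ℝ), 0 < c → 0 < c' →
    FarN P W b K T X' X → K' ≠ K →
    Ws W (Y.filter (fun q => ex b q + k ≠ K')) ≤ 4 * P.sg b * Ws W Y → 8 * P.sg b < 1 →
    BL b C s₁ s₂ a al (cm W c b 0 X) (cm W c' b k Y) φ →
    (Real.log b)^(-Cl) ≤ c * Ws W X → (Real.log b)^(-Cl) ≤ c' * Ws W Y →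
    offS n φ + eqS n φ ≤ η * (c * Ws W X * (c' * Ws W Y))
  /-- joint cut, the part above is dead -/
  jHi : ∀ (P : Bld532.Par) (W : ℕ → ℝ), PG P W → P.sg b = (Real.log b)^B / b →
    ∀ (n J : ℕ) (T X X' T' Y Y' : Finset ℕ) (c c' : ℝ) (al : ℕ → ℕ → ℝ) (φ : ℕ → ℕ → ℝ), 0 < c → 0 < c' →
    CutN P W b J T X X' → CutN P W b J T' Y' Y →
    BL b C s₁ s₂ a al (cm W c b 0 X) (cm W c' b 0 Y) φ →
    (Real.log b)^(-Cl) ≤ c * Ws W T → c' * Ws W Y ≤ (Real.log b)^Ch →
    offS n φ + eqS n φ ≤ 56 * (c * Ws W X) +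
      acT C Ch s₂ b (al J (J-1)) (cm W c' b 0 Y (J-1))
  /-- joint cut, the part below is dead -/
  jLo : ∀ (P : Bld532.Par) (W : ℕ → ℝ), PG P W → P.sg b = (Real.log b)^B / b →
    ∀ (n J : ℕ) (T X X' T' Y Y' : Finset ℕ) (c c' : ℝ) (al : ℕ → ℕ → ℝ) (φ : ℕ → ℕ → ℝ), 0 < c → 0 < c' →
    CutN P W b J T X X' → CutN P W b J T' Y' Y →
    BL b C s₁ s₂ a al (cm W c b 0 X) (cm W c' b 0 Y) φ →
    (Real.log b)^(-Cl) ≤ c' * Ws W T' → c * Ws W X ≤ (Real.log b)^Ch →
    offS n φ + eqS n φ ≤ 56 * (c' * Ws W Y) +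
      acT C Ch s₂ b (al J (J-1)) (cm W c b 0 X J)
  /-- joint cut, both parts are alive -/
  jAl : ∀ (P : Bld532.Par) (W : ℕ → ℝ), PG P W → P.sg b = (Real.log b)^B / b →
    ∀ (n J : ℕ) (T X X' T' Y Y' : Finset ℕ) (c c' : ℝ) (al : ℕ → ℕ → ℝ) (φ : ℕ → ℕ → ℝ), 0 < c → 0 < c' →
    CutN P W b J T X X' → CutN P W b J T' Y' Y →
    BL b C s₁ s₂ a al (cm W c b 0 X) (cm W c' b 0 Y) φ →
    (Real.log b)^(-Cl) ≤ c * Ws W X → (Real.log b)^(-Cl) ≤ c' * Ws W Y →
    offS n φ + eqS n φ ≤ η * (c * Ws W X * (c' * Ws W Y))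
  /-- joint far: the far leaf on the left -/
  jFL : ∀ (P : Bld532.Par) (W : ℕ → ℝ), PG P W → P.sg b = (Real.log b)^B / b →
    ∀ (n K : ℕ) (T X X' T' Y Y' : Finset ℕ) (c c' : ℝ) (al : ℕ → ℕ → ℝ) (φ : ℕ → ℕ → ℝ), 0 < c → 0 < c' →
    FarN P W b K T X X' → FarN P W b K T' Y' Y → 8 * P.sg b < 1 →
    BL b C s₁ s₂ a al (cm W c b 0 X) (cm W c' b 0 Y) φ →
    (Real.log b)^(-Cl) ≤ c * Ws W T → c' * Ws W Y ≤ (Real.log b)^Ch →
    offS n φ + eqS n φ ≤ 7 * (c * Ws W X + (b:ℝ)^(-(3/2):ℝ) * (c * Ws W T))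
  /-- joint far: the far leaf on the right -/
  jFR : ∀ (P : Bld532.Par) (W : ℕ → ℝ), PG P W → P.sg b = (Real.log b)^B / b →
    ∀ (n K : ℕ) (T X X' T' Y Y' : Finset ℕ) (c c' : ℝ) (al : ℕ → ℕ → ℝ) (φ : ℕ → ℕ → ℝ), 0 < c → 0 < c' →
    FarN P W b K T X' X → FarN P W b K T' Y Y' → 8 * P.sg b < 1 →
    BL b C s₁ s₂ a al (cm W c b 0 X) (cm W c' b 0 Y) φ →
    (Real.log b)^(-Cl) ≤ c' * Ws W T' → c * Ws W X ≤ (Real.log b)^Ch →
    offS n φ + eqS n φ ≤ 7 * (c' * Ws W Y + (b:ℝ)^(-(3/2):ℝ) * (c' * Ws W T'))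

/-- joint cut: the equal classes are empty -/
lemma cm_hi {W : ℕ → ℝ} (hW : ∀ q, 0 ≤ W q) {c : ℝ} {b J i : ℕ} {T X : Finset ℕ}
    (h : X = T.filter (fun q => J ≤ ex b q)) (hi : i < J) : cm W c b 0 X i = 0 :=
  cm_zero i (fun q hq _ => by
    rw [h] at hq
    have := (Finset.mem_filter.1 hq).2
    omega) hW

lemma cm_lo {W : ℕ → ℝ} (hW : ∀ q, 0 ≤ W q) {c : ℝ} {b J i : ℕ} {T X : Finset ℕ}
    (h : X = T.filter (fun q => ex b q < J)) (hi : J ≤ i) : cm W c b 0 X i = 0 :=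
  cm_zero i (fun q hq _ => by
    rw [h] at hq
    have := (Finset.mem_filter.1 hq).2
    omega) hW

lemma cm_far {P : Bld532.Par} {W : ℕ → ℝ} (hW : ∀ q, 0 ≤ W q) {c : ℝ} {b K i : ℕ} {T X X' : Finset ℕ}
    (h : FarN P W b K T X X') (hi : dst i K ≤ 1) : cm W c b 0 X i = 0 :=
  cm_zero i (fun q hq _ => by
    rw [h.t1] at hq
    have := (Finset.mem_filter.1 hq).2
    unfold dst at hi
    omega) hW

lemma cm_dom {P : Bld532.Par} {W : ℕ → ℝ} (hW : ∀ q, 0 ≤ W q) {c : ℝ} {b k K j : ℕ} {Y : Finset ℕ}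
    (h : DomE P W b k K Y) (hj : 2 ≤ dst j K) : cm W c b k Y j = 0 :=
  cm_zero j (fun q hq h0 => by
    have := h.near q hq h0
    unfold dst at hj
    omega) hW

lemma cm_near {P : Bld532.Par} {W : ℕ → ℝ} (hW : ∀ q, 0 ≤ W q) {c : ℝ} {b K j : ℕ} {T X X' : Finset ℕ}
    (h : FarN P W b K T X' X) (hj : 2 ≤ dst j K) : cm W c b 0 X j = 0 :=
  cm_zero j (fun q hq h0 => by
    rw [h.t0] at hq
    have := (Finset.mem_filter.1 hq).2
    unfold dst at hj
    omega) hW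

lemma mul_tail {c : ℝ} (hc : 0 ≤ c) {s A Bn : ℝ} (h : A ≤ 4 * s * Bn) : c * A ≤ 4 * s * (c * Bn) := by
  calc c * A ≤ c * (4 * s * Bn) := mul_le_mul_of_nonneg_left h hc
    _ = _ := by ring

/-- **the kind table holds for all large columns** -/
theorem kind_table {C Cl Ch B K₁ δ s₁ s₂ a : ℝ} (hk : KOk C Cl Ch B K₁ δ s₁ s₂ a) {η : ℝ} (hη : 0 < η) :
    ∃ b₁ : ℕ, 16 ≤ b₁ ∧ ∀ b : ℕ, b₁ ≤ b → KTab C Cl Ch B K₁ δ s₁ s₂ a η b := by
  obtain ⟨b1, g1, h1⟩ := off_leaf C Cl Ch B K₁ δ s₁ s₂ a hk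
  obtain ⟨b2, g2, h2⟩ := off_alive C Cl Ch B K₁ δ s₁ s₂ a hk (η := η/2) (by positivity)
  obtain ⟨b3, g3, h3⟩ := off_tiny C Cl Ch B K₁ δ s₁ s₂ a hk (η := η/2) (by positivity)
  obtain ⟨b4, g4, h4⟩ := off_far C Cl Ch B K₁ δ s₁ s₂ a hk
  obtain ⟨b5, g5, h5⟩ := eq_leaf C Cl Ch B K₁ δ s₁ s₂ a hk
  obtain ⟨b6, g6, h6⟩ := eq_aliveW C Cl Ch B K₁ δ s₁ s₂ a hk (η := η/2) (by positivity)
  obtain ⟨b7, g7, h7⟩ := eq_tinyW C Cl Ch B K₁ δ s₁ s₂ a hk (η := η/2) (by positivity)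
  refine ⟨max (max (max b1 b2) (max b3 b4)) (max (max b5 b6) b7),
    g1.trans ((le_max_left _ _).trans ((le_max_left _ _).trans (le_max_left _ _))), fun b hb => ?_⟩
  have hA := (le_max_left _ _).trans hb
  have hB := (le_max_right _ _).trans hb
  replace h1 := h1 b (((le_max_left _ _).trans (le_max_left _ _)).trans hA)
  replace h2 := h2 b (((le_max_right _ _).trans (le_max_left _ _)).trans hA)
  replace h3 := h3 b (((le_max_left _ _).trans (le_max_right _ _)).trans hA)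
  replace h4 := h4 b (((le_max_right _ _).trans (le_max_right _ _)).trans hA)
  replace h5 := h5 b (((le_max_left _ _).trans (le_max_left _ _)).trans hB)
  replace h6 := h6 b (((le_max_right _ _).trans (le_max_left _ _)).trans hB)
  replace h7 := h7 b ((le_max_right _ _).trans hB)
  have hs10 : 0 < s₁ := by have := hk.s1; linarith
  have hs20 : 0 < s₂ := by have := hk.s2; linarith
  have hB0 := hk.Bn
  have hb16 : 16 ≤ b := g1.trans (((le_max_left _ _).trans (le_max_left _ _)).trans hA)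
  have hl1 := log_ge_one (b := b) (by omega)
  have hb0 : (0:ℝ) < b := by
    have : (0:ℕ) < b := by omega
    exact_mod_cast this
  have hK0 := hk.K0
  have hal2 : ∀ {X : ℝ}, 0 ≤ X → (0:ℝ) ≤ K₁ * X := fun h => mul_nonneg hK0 h
  refine ⟨?_, ?_, ?_, ?_, ?_, ?_, ?_, ?_, ?_, ?_, ?_, ?_⟩
  · -- low
    intro P W hG hsg k n J T X X' Y c c' al φ tw hc hc' hN hY hB hE ht hYh
    have hX : X = T.filter (fun q => ex b q < J) := hN.t0
    have hXt : (Real.log b)^B / b * (c * Ws W T) ≤ c * Ws W X := by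
      have := mul_le_mul_of_nonneg_left hN.s0.le hc.le
      rw [← hsg]; linarith
    have k1 := h1 n al _ _ φ (c * Ws W T) (c * Ws W X) (c' * Ws W Y) (J-1) J (fun j => j < J) hB.co hB.al
      (cm_sum hG.w0 hc.le n) (cm_sum hG.w0 hc'.le n) (cm_le hG.w0 hc.le _) (cm_le hG.w0 hc'.le _) ht hXt hYh
      (fun i j hd hne => by
        by_cases hi : i < J
        · by_cases hj : j < J
          · exact Or.inr (Or.inr hj)
          · exfalso; unfold dst at hd; exact hne (by omega)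
        · exact Or.inl (cm_lo hG.w0 hX (not_lt.1 hi)))
      ((cm_sumE hG.w0 hc'.le _ n).trans (by rw [← hsg]; exact mul_tail hc'.le hY))
    have k2 := h5 n tw _ _ φ (c * Ws W T) (c * Ws W X) (c' * Ws W Y) (fun j => j < J) hE
      (cm_sum hG.w0 hc.le n) (cm_sum hG.w0 hc'.le n) ht hXt hYh
      (fun i => by
        by_cases hi : i < J
        · exact Or.inr hi
        · exact Or.inl (cm_lo hG.w0 hX (not_lt.1 hi)))
      ((cm_sumE hG.w0 hc'.le _ n).trans (by rw [← hsg]; exact mul_tail hc'.le hY))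
    unfold acT
    linarith
  · -- low, alive
    intro P W hG hsg k n J T X X' Y c c' al φ hc hc' hN hY hB hXl hYl
    have hX : X = T.filter (fun q => ex b q < J) := hN.t0
    have k1 := h2 n al _ _ φ (c * Ws W X) (c' * Ws W Y) hB.co hB.al
      (cm_sum hG.w0 hc.le n) (cm_sum hG.w0 hc'.le n) hXl hYl
    have hz : 0 ≤ 4 * ((Real.log b)^B / b) * (c * Ws W X) := by
      have : 0 < Real.log b := by linarith
      have := Ws_nonneg hG.w0 X
      positivity
    have k2 := h6 n _ _ φ (c * Ws W X) (c' * Ws W Y) (fun j => j < J) (fun j => J ≤ j) hB.cw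
      (cm_sum hG.w0 hc.le n) (cm_sum hG.w0 hc'.le n) hXl hYl
      (fun i => by
        by_cases hi : i < J
        · exact Or.inr hi
        · exact Or.inl (not_lt.1 hi))
      (by
        refine le_trans (le_of_eq (Finset.sum_eq_zero fun j _ => ?_)) hz
        split_ifs with h
        · exact cm_lo hG.w0 hX h
        · rfl)
      ((cm_sumE hG.w0 hc'.le _ n).trans (by rw [← hsg]; exact mul_tail hc'.le hY))
    linarith
  · -- high
    intro P W hG hsg k n J T X X' Y c c' al φ tw hc hc' hN hY hB hE ht hYh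
    have hX : X = T.filter (fun q => J ≤ ex b q) := hN.t1
    have hXt : (Real.log b)^B / b * (c * Ws W T) ≤ c * Ws W X := by
      have := mul_le_mul_of_nonneg_left hN.s1.le hc.le
      rw [← hsg]; linarith
    have k1 := h1 n al _ _ φ (c * Ws W T) (c * Ws W X) (c' * Ws W Y) J (J-1) (fun j => J ≤ j) hB.co hB.al
      (cm_sum hG.w0 hc.le n) (cm_sum hG.w0 hc'.le n) (cm_le hG.w0 hc.le _) (cm_le hG.w0 hc'.le _) ht hXt hYh
      (fun i j hd hne => by
        by_cases hi : i < J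
        · exact Or.inl (cm_hi hG.w0 hX hi)
        · by_cases hj : J ≤ j
          · exact Or.inr (Or.inr hj)
          · exfalso; unfold dst at hd; exact hne (by omega))
      ((cm_sumE hG.w0 hc'.le _ n).trans (by rw [← hsg]; exact mul_tail hc'.le hY))
    have k2 := h5 n tw _ _ φ (c * Ws W T) (c * Ws W X) (c' * Ws W Y) (fun j => J ≤ j) hE
      (cm_sum hG.w0 hc.le n) (cm_sum hG.w0 hc'.le n) ht hXt hYh
      (fun i => by
        by_cases hi : i < J
        · exact Or.inl (cm_hi hG.w0 hX hi)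
        · exact Or.inr (not_lt.1 hi))
      ((cm_sumE hG.w0 hc'.le _ n).trans (by rw [← hsg]; exact mul_tail hc'.le hY))
    unfold acT
    linarith
  · -- high, alive
    intro P W hG hsg k n J T X X' Y c c' al φ hc hc' hN hY hB hXl hYl
    have hX : X = T.filter (fun q => J ≤ ex b q) := hN.t1
    have k1 := h2 n al _ _ φ (c * Ws W X) (c' * Ws W Y) hB.co hB.al
      (cm_sum hG.w0 hc.le n) (cm_sum hG.w0 hc'.le n) hXl hYl
    have hz : 0 ≤ 4 * ((Real.log b)^B / b) * (c * Ws W X) := by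
      have : 0 < Real.log b := by linarith
      have := Ws_nonneg hG.w0 X
      positivity
    have k2 := h6 n _ _ φ (c * Ws W X) (c' * Ws W Y) (fun j => J ≤ j) (fun j => j < J) hB.cw
      (cm_sum hG.w0 hc.le n) (cm_sum hG.w0 hc'.le n) hXl hYl
      (fun i => by
        by_cases hi : i < J
        · exact Or.inl hi
        · exact Or.inr (not_lt.1 hi))
      (by
        refine le_trans (le_of_eq (Finset.sum_eq_zero fun j _ => ?_)) hz
        split_ifs with h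
        · exact cm_hi hG.w0 hX h
        · rfl)
      ((cm_sumE hG.w0 hc'.le _ n).trans (by rw [← hsg]; exact mul_tail hc'.le hY))
    linarith
  · -- far, near child dead
    intro P W hG hsg k n K T X X' Y c c' al φ hc hc' hN hB hT hYl hYh
    have hXs : c * Ws W X ≤ 2 * ((Real.log b)^B / b) * (Real.log b)^Ch := by
      have h8 := FarN.s1 hG.w0 hN
      rw [hsg] at h8
      have h9 : 0 ≤ (Real.log b)^B / b := by
        have : 0 < Real.log b := by linarith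
        positivity
      calc c * Ws W X ≤ c * (2 * ((Real.log b)^B / b) * Ws W T) := mul_le_mul_of_nonneg_left h8 hc.le
        _ = 2 * ((Real.log b)^B / b) * (c * Ws W T) := by ring
        _ ≤ _ := mul_le_mul_of_nonneg_left hT (by linarith)
    have k1 := h3 n al _ _ φ (c * Ws W X) (c' * Ws W Y) hB.co hB.al
      (cm_sum hG.w0 hc.le n) (cm_sum hG.w0 hc'.le n) hXs hYl hYh
    have k2 := h7 n _ _ φ (c * Ws W X) (c' * Ws W Y) hB.cw
      (cm_sum hG.w0 hc.le n) (cm_sum hG.w0 hc'.le n) hXs hYl hYh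
    linarith
  · -- far, partner dominated
    intro P W hG hsg k n K T X X' Y c c' al φ hc hc' hN hD hB ht hYh
    have k1 := h4 n al _ _ φ (c * Ws W T) (c * Ws W X) (c' * Ws W Y) K hB.co hB.al
      (cm_sum hG.w0 hc.le n) (cm_sum hG.w0 hc'.le n) ht hYh
      (fun i hi => cm_far hG.w0 hN hi)
      ((cm_sumE hG.w0 hc'.le _ n).trans (by rw [← hsg]; exact mul_tail hc'.le hD.tail))
    have k2 := eq_noneW (n := n) hs10 hs20 hB.cw (fun i => by
      by_cases hi : dst i K ≤ 1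
      · exact Or.inl (cm_far hG.w0 hN hi)
      · exact Or.inr (cm_dom hG.w0 hD (by omega)))
    linarith
  · -- near
    intro P W hG hsg k n K K' T X X' Y c c' al φ hc hc' hN hne hY h8 hB hXl hYl
    obtain ⟨-, hX⟩ := FarN.dom hG h8 hN
    have k1 := h2 n al _ _ φ (c * Ws W X) (c' * Ws W Y) hB.co hB.al
      (cm_sum hG.w0 hc.le n) (cm_sum hG.w0 hc'.le n) hXl hYl
    have k2 := h6 n _ _ φ (c * Ws W X) (c' * Ws W Y) (fun j => j ≠ K') (fun j => j ≠ K) hB.cw
      (cm_sum hG.w0 hc.le n) (cm_sum hG.w0 hc'.le n) hXl hYl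
      (fun i => by
        by_cases hi : i = K
        · right; rw [hi]; exact hne.symm
        · exact Or.inl hi)
      ((cm_sumE hG.w0 hc.le _ n).trans (by rw [← hsg]; exact mul_tail hc.le hX))
      ((cm_sumE hG.w0 hc'.le _ n).trans (by rw [← hsg]; exact mul_tail hc'.le hY))
    linarith
  · -- joint cut, upper part dead
    intro P W hG hsg n J T X X' T' Y Y' c c' al φ hc hc' hN hN' hB ht hYh
    have hX : X = T.filter (fun q => J ≤ ex b q) := hN.t1
    have hY : Y = T'.filter (fun q => ex b q < J) := hN'.t0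
    have hXt : (Real.log b)^B / b * (c * Ws W T) ≤ c * Ws W X := by
      have := mul_le_mul_of_nonneg_left hN.s1.le hc.le
      rw [← hsg]; linarith
    have hz : ∀ S : ℝ, 0 ≤ 4 * ((Real.log b)^B / b) * (c' * Ws W Y) := fun _ => by
      have : 0 < Real.log b := by linarith
      have := Ws_nonneg hG.w0 Y
      positivity
    have k1 := h1 n al _ _ φ (c * Ws W T) (c * Ws W X) (c' * Ws W Y) J (J-1) (fun j => False) hB.co hB.al
      (cm_sum hG.w0 hc.le n) (cm_sum hG.w0 hc'.le n) (cm_le hG.w0 hc.le _) (cm_le hG.w0 hc'.le _) ht hXt hYh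
      (fun i j hd hne => by
        by_cases hi : i < J
        · exact Or.inl (cm_hi hG.w0 hX hi)
        · by_cases hj : J ≤ j
          · exact Or.inr (Or.inl (cm_lo hG.w0 hY hj))
          · exfalso; unfold dst at hd; exact hne (by omega))
      (by
        simp only [if_false, Finset.sum_const_zero]
        exact hz 0)
    have k2 := eq_noneW (n := n) hs10 hs20 hB.cw (fun i => by
      by_cases hi : i < J
      · exact Or.inl (cm_hi hG.w0 hX hi)
      · exact Or.inr (cm_lo hG.w0 hY (not_lt.1 hi)))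
    unfold acT
    linarith
  · -- joint cut, lower part dead
    intro P W hG hsg n J T X X' T' Y Y' c c' al φ hc hc' hN hN' hB ht hXh
    have hX : X = T.filter (fun q => J ≤ ex b q) := hN.t1
    have hY : Y = T'.filter (fun q => ex b q < J) := hN'.t0
    have hYt : (Real.log b)^B / b * (c' * Ws W T') ≤ c' * Ws W Y := by
      have := mul_le_mul_of_nonneg_left hN'.s0.le hc'.le
      rw [← hsg]; linarith
    have hz : 0 ≤ 4 * ((Real.log b)^B / b) * (c * Ws W X) := by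
      have : 0 < Real.log b := by linarith
      have := Ws_nonneg hG.w0 X
      positivity
    have k1 := h1 n (fun i j => al j i) _ _ (fun i j => φ j i) (c' * Ws W T') (c' * Ws W Y) (c * Ws W X)
      (J-1) J (fun j => False) hB.co.swap (fun i j => hB.al j i)
      (cm_sum hG.w0 hc'.le n) (cm_sum hG.w0 hc.le n) (cm_le hG.w0 hc'.le _) (cm_le hG.w0 hc.le _) ht hYt hXh
      (fun i j hd hne => by
        by_cases hi : J ≤ i
        · exact Or.inl (cm_lo hG.w0 hY hi)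
        · by_cases hj : j < J
          · exact Or.inr (Or.inl (cm_hi hG.w0 hX hj))
          · exfalso; unfold dst at hd; exact hne (by omega))
      (by
        simp only [if_false, Finset.sum_const_zero]
        exact hz)
    rw [offS_swap] at k1
    have k2 := eq_noneW (n := n) hs10 hs20 hB.cw (fun i => by
      by_cases hi : i < J
      · exact Or.inl (cm_hi hG.w0 hX hi)
      · exact Or.inr (cm_lo hG.w0 hY (not_lt.1 hi)))
    unfold acT
    linarith
  · -- joint cut, alive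
    intro P W hG hsg n J T X X' T' Y Y' c c' al φ hc hc' hN hN' hB hXl hYl
    have hX : X = T.filter (fun q => J ≤ ex b q) := hN.t1
    have hY : Y = T'.filter (fun q => ex b q < J) := hN'.t0
    have k1 := h2 n al _ _ φ (c * Ws W X) (c' * Ws W Y) hB.co hB.al
      (cm_sum hG.w0 hc.le n) (cm_sum hG.w0 hc'.le n) hXl hYl
    have k2 := eq_noneW (n := n) hs10 hs20 hB.cw (fun i => by
      by_cases hi : i < J
      · exact Or.inl (cm_hi hG.w0 hX hi)
      · exact Or.inr (cm_lo hG.w0 hY (not_lt.1 hi)))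
    have hp : 0 ≤ η/2 * (c * Ws W X * (c' * Ws W Y)) := by
      have := Ws_nonneg hG.w0 X
      have := Ws_nonneg hG.w0 Y
      positivity
    linarith
  · -- joint far, left
    intro P W hG hsg n K T X X' T' Y Y' c c' al φ hc hc' hN hN' h8 hB ht hYh
    obtain ⟨-, hY⟩ := FarN.dom hG h8 hN'
    have k1 := h4 n al _ _ φ (c * Ws W T) (c * Ws W X) (c' * Ws W Y) K hB.co hB.al
      (cm_sum hG.w0 hc.le n) (cm_sum hG.w0 hc'.le n) ht hYh
      (fun i hi => cm_far hG.w0 hN hi)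
      ((cm_sumE hG.w0 hc'.le _ n).trans (by rw [← hsg]; exact mul_tail hc'.le hY))
    have k2 := eq_noneW (n := n) hs10 hs20 hB.cw (fun i => by
      by_cases hi : dst i K ≤ 1
      · exact Or.inl (cm_far hG.w0 hN hi)
      · exact Or.inr (cm_near hG.w0 hN' (by omega)))
    linarith
  · -- joint far, right
    intro P W hG hsg n K T X X' T' Y Y' c c' al φ hc hc' hN hN' h8 hB ht hXh
    obtain ⟨-, hX⟩ := FarN.dom hG h8 hN
    have k1 := h4 n (fun i j => al j i) _ _ (fun i j => φ j i) (c' * Ws W T') (c' * Ws W Y)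
      (c * Ws W X) K hB.co.swap (fun i j => hB.al j i)
      (cm_sum hG.w0 hc'.le n) (cm_sum hG.w0 hc.le n) ht hXh
      (fun i hi => cm_far hG.w0 hN' hi)
      ((cm_sumE hG.w0 hc.le _ n).trans (by rw [← hsg]; exact mul_tail hc.le hX))
    rw [offS_swap] at k1
    have k2 := eq_noneW (n := n) hs10 hs20 hB.cw (fun i => by
      by_cases hi : dst i K ≤ 1
      · exact Or.inr (cm_far hG.w0 hN' hi)
      · exact Or.inl (cm_near hG.w0 hN (by omega)))
    linarith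

end Crest.Agent.R4P.KindTab36
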