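import Crest.Agent.R4.CrossInv709

/-!
R4 (S0004), powers, module D, helper28: the cofactors of an item pair only drop (for divisibility) along
the cross walk; the predicate `Lo` (scale at most `2^24` or bad anatomy above the scale) is monotone.

`Mv p true` = drop `p`, `Mv p false` = raise; identity moves need nothing.
-/

set_option autoImplicit false
open Finset

namespace Crest.Agent.R4P.CofMono28

open Crest.Agent.R4.HVW560 Crest.Agent.R4.AvgItem710 Crest.Agent.R4.Deg709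
open Crest.Agent.R4.CrossInv709

/-- one step: both cofactors divide the old ones (both sides raise: they are equal) -/
theorem cof_mv {p : ℕ} (hp : p.Prime) {i i' : Bool} {a a' c c' : ℕ × ℝ} (h : Mv p i a c)
    (h' : Mv p i' a' c') : cof c.1 c'.1 ∣ cof a.1 a'.1 ∧ cof c'.1 c.1 ∣ cof a'.1 a.1 := by
  cases h with
  | drop u g =>
    cases h' with
    | drop u' g' =>
      simp only [cof_mul_mul hp.pos]
      exact ⟨dvd_rfl, dvd_rfl⟩
    | raise u' g' hu' =>
      simp only [cof_mul_r hp hu', cof_mul_l hp hu']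
      exact ⟨Dvd.intro_left p rfl, dvd_rfl⟩
  | raise u g hu =>
    cases h' with
    | drop u' g' =>
      simp only [cof_mul_r hp hu, cof_mul_l hp hu]
      exact ⟨dvd_rfl, Dvd.intro_left p rfl⟩
    | raise u' g' hu' => exact ⟨dvd_rfl, dvd_rfl⟩

/-- the first components stay positive -/
lemma mv_pos {p : ℕ} {i : Bool} {a c : ℕ × ℝ} (h : Mv p i a c) (ha : 0 < a.1) : 0 < c.1 := by
  cases h with
  | drop u g => exact Nat.pos_of_mul_pos_left ha
  | raise u g hu => exact ha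

/-- `∑_{l ∣ x y, l > T} 1/l` -/
noncomputable def SD (x y : ℕ) (T : ℝ) : ℝ :=
  ∑ l ∈ (x * y).primeFactors.filter (fun l : ℕ => T < (l : ℝ)), 1 / (l : ℝ)

lemma SD_nonneg (x y : ℕ) (T : ℝ) : 0 ≤ SD x y T := Finset.sum_nonneg fun l _ => by positivity

lemma SD_mono {x y x' y' : ℕ} (hx : 0 < x) (hy : 0 < y) (h : x' ∣ x) (h' : y' ∣ y) {T T' : ℝ}
    (hT : T ≤ T') : SD x' y' T' ≤ SD x y T := by
  unfold SD
  refine Finset.sum_le_sum_of_subset_of_nonneg (fun l hl => ?_) fun l _ _ => by positivity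
  rw [Finset.mem_filter] at hl ⊢
  exact ⟨Nat.primeFactors_mono (mul_dvd_mul h h') (Nat.mul_pos hx hy).ne' hl.1,
    lt_of_le_of_lt hT hl.2⟩

/-- the scale of a pair of sides (`= CrossLoc709.Dsc r r' (sc a a')`) -/
noncomputable def Ds (r r' : ℝ) (a a' : ℕ × ℝ) : ℝ := max ((sc a a').1 * r) ((sc a a').2 * r')

/-- **low pairs**: scale at most `2^24`, or bad anatomy above the scale -/
def Lo (r r' : ℝ) (a a' : ℕ × ℝ) : Prop :=
  Ds r r' a a' ≤ 2 ^ 24 ∨ 1 ≤ SD (cof a.1 a'.1) (cof a'.1 a.1) (Ds r r' a a')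

lemma not_Lo {r r' : ℝ} {a a' : ℕ × ℝ} (h : ¬ Lo r r' a a') :
    2 ^ 24 < Ds r r' a a' ∧ SD (cof a.1 a'.1) (cof a'.1 a.1) (Ds r r' a a') < 1 := by
  unfold Lo at h
  push Not at h
  exact h

lemma Ds_swap (r r' : ℝ) (a a' : ℕ × ℝ) : Ds r' r a' a = Ds r r' a a' := by
  unfold Ds sc; exact max_comm _ _

lemma Lo_swap {r r' : ℝ} {a a' : ℕ × ℝ} : Lo r' r a' a ↔ Lo r r' a a' := by
  unfold Lo
  rw [Ds_swap]
  have e : SD (cof a'.1 a.1) (cof a.1 a'.1) (Ds r r' a a') =
      SD (cof a.1 a'.1) (cof a'.1 a.1) (Ds r r' a a') := by unfold SD; rw [mul_comm]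
  rw [e]

/-- the scale is invariant unless both raise -/
lemma Ds_inv {p : ℕ} (hp : p.Prime) {i i' : Bool} {a a' c c' : ℕ × ℝ} (r r' : ℝ) (h : Mv p i a c)
    (h' : Mv p i' a' c') (hi : i = true ∨ i' = true) : Ds r r' c c' = Ds r r' a a' := by
  unfold Ds; rw [sc_inv hp h h' hi]

/-- **`Lo` is monotone along the cross walk** -/
theorem Lo_mono {p : ℕ} (hp : p.Prime) {i i' : Bool} {a a' c c' : ℕ × ℝ} {r r' : ℝ}
    (h : Mv p i a c) (h' : Mv p i' a' c') (hi : i = true ∨ i' = true) (ha : 0 < a.1)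
    (ha' : 0 < a'.1) (hl : Lo r r' c c') : Lo r r' a a' := by
  unfold Lo at hl ⊢
  rw [Ds_inv hp r r' h h' hi] at hl
  rcases hl with hl | hl
  · exact Or.inl hl
  · right
    obtain ⟨h1, h2⟩ := cof_mv hp h h'
    exact hl.trans (SD_mono (Crest.Agent.R4.HVW560.cof_pos ha) (Crest.Agent.R4.HVW560.cof_pos ha') h1 h2 le_rfl)

/-- at an exit: the scale is multiplied by `p`, the cofactors are the same -/
theorem Ds_exit {p : ℕ} {a a' c c' : ℕ × ℝ} (r r' : ℝ) (h : Mv p false a c) (h' : Mv p false a' c') :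
    Ds r r' c c' = p * Ds r r' a a' := by
  unfold Ds
  rw [sc_exit h h', mul_max_of_nonneg _ _ (Nat.cast_nonneg p)]
  congr 1 <;> ring

end Crest.Agent.R4P.CofMono28
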