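import Mathlib
import Crest.Agent.R4.LLNum709

/-!
R4P (S0004), helper35, group [X]: PLAIN (no crossing prime) anatomy numbers in the `uu`-form, general thresholds.
`Dc` = the `D` of a pair on the averaged circle, `SA O O' T e = Σ_{l ∣ x y, l > T} 1/l` (cofactors `x, y`).
`Zm` is the common factor (Rankin factor times power of the masses).

* `mid_xP`    : HVW with any admissible anatomy weight, two thresholds `T₁, T₂`.
* `anat_P`    : pairs `D ≤ T` whose cofactors have `Σ_{l > z} 1/l ≥ S` cost `T^(1-2ε) e^{-z S}` (`z ≥ e^16`).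
* `bad_anatP`, `bad_allP` : pairs with `D > T`, `SA(D) ≥ 1` and weight `e^{2 SA(D)}` cost `e^{-T/4}` (`T ≥ e^16`).
* `ll_allP`   : pairs with `D ≤ T` (weight 1) or `SA(D) ≥ 1` (weight `e^{2 SA(D)}`).
* `ll_allPR`  : the same with raw masses `R R'`.
-/

set_option autoImplicit false
open Finset

namespace Crest.Agent.R4P.LLNumP
open Crest.Agent.R4.HVW560 Crest.Agent.R4.HVWX793
open Crest.Agent.R4.Schur709 Crest.Agent.R4.StopHvw709 Crest.Agent.R4.StopAsm709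
open Crest.Agent.R4.LLNum709 (SA SA_mono SA_nonneg AT AT_ge rank_num CA CA_pos)

/-- the common factor of all bounds: Rankin factor of the one-sided ties times the power of the masses -/
noncomputable def Zm (ε : ℝ) (N : ℕ) (c c' : ℝ) (O O' V W : Finset ℕ) (R R' : ℕ → ℝ) : ℝ :=
  Real.exp ((1/2-ε) * (-(N*c) + 3 * (∑ p ∈ O, 1/(p:ℝ)) + (-(N*c') + 3 * ∑ p ∈ O', 1/(p:ℝ)))) *
      ((∑ q ∈ V, mu O' R q) * (∑ r ∈ W, mu O R' r))^(1/2+ε)

lemma Zm_nonneg {ε : ℝ} {N : ℕ} {c c' : ℝ} {O O' V W : Finset ℕ} {R R' : ℕ → ℝ}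
    (hR : ∀ w ∈ V, 0 ≤ R w) (hR' : ∀ w ∈ W, 0 ≤ R' w) : 0 ≤ Zm ε N c c' O O' V W R R' := by
  apply mul_nonneg (Real.exp_nonneg _)
  apply Real.rpow_nonneg
  exact mul_nonneg (Finset.sum_nonneg fun q hq => mu_nonneg (hR q hq))
    (Finset.sum_nonneg fun q hq => mu_nonneg (hR' q hq))

/-- **HVW with anatomy weight, all scales `≤ T₁, T₂`**, on the averaged circle (no crossing prime) -/
theorem mid_xP {A : ℕ →* ℝ} {L Λ : ℝ} (hA : GoodWt A L Λ) {ε : ℝ} (hε : 0 < ε) (hε4 : ε ≤ 1/4) {N : ℕ}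
    {O O' V W : Finset ℕ} {E : Finset (ℕ × ℕ)}
    {R R' : ℕ → ℝ} (hO : ∀ p ∈ O, p.Prime ∧ N ≤ p) (hO' : ∀ p ∈ O', p.Prime ∧ N ≤ p)
    (hV : ∀ w ∈ V, 0 < w) (hW : ∀ w ∈ W, 0 < w) (hR : ∀ w ∈ V, 0 ≤ R w) (hR' : ∀ w ∈ W, 0 ≤ R' w)
    (hE : E ⊆ V ×ˢ W) {c c' : ℝ}
    (hc : ∀ r ∈ W, c ≤ ∑ p ∈ O.filter (fun p => ¬ p ∣ r), 1/(p:ℝ))
    (hc' : ∀ q ∈ V, c' ≤ ∑ p ∈ O'.filter (fun p => ¬ p ∣ q), 1/(p:ℝ))
    {T₁ T₂ K : ℝ} (hT₁ : 0 < T₁) (hT₂ : 0 < T₂) (hK : 0 ≤ K) {F : ℕ × ℕ → ℝ}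
    (h1 : ∀ e ∈ E, (cof (uu O' e.1) (uu O e.2) : ℝ) * Rc O R' e.2 ≤ T₁)
    (h2 : ∀ e ∈ E, (cof (uu O e.2) (uu O' e.1) : ℝ) * Rc O' R e.1 ≤ T₂)
    (hF : ∀ e ∈ E, F e ≤ K * ((mu O' R e.1 * mu O R' e.2) *
      (A (cof (uu O' e.1) (uu O e.2)) * A (cof (uu O e.2) (uu O' e.1))))) :
    ∑ e ∈ E, F e ≤ K * (KH L Λ ε * (T₁ * T₂)^(1/2-ε)) * Zm ε N c c' O O' V W R R' := by
  classical
  have hOp : ∀ p ∈ O, p.Prime := fun p hp => (hO p hp).1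
  have hOp' : ∀ p ∈ O', p.Prime := fun p hp => (hO' p hp).1
  have hKH := (KH_pos L Λ ε).le
  have hG : 0 ≤ K * (KH L Λ ε * (T₁ * T₂)^(1/2-ε)) := by positivity
  unfold Zm
  rw [← mul_assoc]
  apply group_sum (α := 1/2-ε) (β := 1/2+ε) (by linarith) (by linarith) (by ring)
    (fun p hp => ⟨(hO p hp).1.pos, (hO p hp).2⟩) (fun p hp => ⟨(hO' p hp).1.pos, (hO' p hp).2⟩) hE
    (fun q hq => mu_nonneg (hR q hq)) (fun q hq => mu_nonneg (hR' q hq)) hG hc hc'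
  intro S hS S' hS'
  rw [filter_eq_Eg]
  have ha : 0 < ∏ p ∈ S, (1/(p:ℝ)) := Finset.prod_pos fun p hp => by
    have := (hOp p (hS hp)).pos; positivity
  have hb : 0 < ∏ p ∈ S', (1/(p:ℝ)) := Finset.prod_pos fun p hp => by
    have := (hOp' p (hS' hp)).pos; positivity
  set a := ∏ p ∈ S, (1/(p:ℝ)) with had
  set b := ∏ p ∈ S', (1/(p:ℝ)) with hbd
  have hs : Sys2 (Vu O' V S') (Vu O W S) (Eu O O' E S S') (ψu O' S' R) (ψu O S R') T₁ T₂ :=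
    { hδ₁ := hT₁
      hδ₂ := hT₂
      hV := by
        intro v hv
        obtain ⟨w, hw, rfl⟩ := Finset.mem_image.1 hv
        exact uu_pos hOp' (hV w (Finset.mem_filter.1 hw).1)
      hW := by
        intro v hv
        obtain ⟨w, hw, rfl⟩ := Finset.mem_image.1 hv
        exact uu_pos hOp (hW w (Finset.mem_filter.1 hw).1)
      hψ := by
        intro v hv
        obtain ⟨w, hw, rfl⟩ := Finset.mem_image.1 hv
        rw [ψu_eq hOp' (Finset.mem_filter.1 hw).2]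
        exact div_nonneg (hR w (Finset.mem_filter.1 hw).1) (al_nonneg _ _)
      hθ := by
        intro v hv
        obtain ⟨w, hw, rfl⟩ := Finset.mem_image.1 hv
        rw [ψu_eq hOp (Finset.mem_filter.1 hw).2]
        exact div_nonneg (hR' w (Finset.mem_filter.1 hw).1) (al_nonneg _ _)
      hE := Eu_sub hE S S'
      h1 := by
        intro e he
        obtain ⟨f, hf, rfl⟩ := Finset.mem_image.1 he
        have hf' := Finset.mem_filter.1 hf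
        show (cof (uu O' f.1) (uu O f.2) : ℝ) * ψu O S R' (uu O f.2) ≤ T₁
        rw [ψu_eq hOp hf'.2.1]
        exact h1 f hf'.1
      h2 := by
        intro e he
        obtain ⟨f, hf, rfl⟩ := Finset.mem_image.1 he
        have hf' := Finset.mem_filter.1 hf
        show (cof (uu O f.2) (uu O' f.1) : ℝ) * ψu O' S' R (uu O' f.1) ≤ T₂
        rw [ψu_eq hOp' hf'.2.2]
        exact h2 f hf'.1 }
  have key := hvw2 hA hε hε4 hs
  rw [sum_Eu hOp hOp' hE] at key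
  set x := ∑ q ∈ Vg O' V S', mu O' R q with hx
  set y := ∑ r ∈ Vg O W S, mu O R' r with hy
  have hx0 : 0 ≤ x := Finset.sum_nonneg fun q hq => mu_nonneg (hR q (Finset.mem_filter.1 hq).1)
  have hy0 : 0 ≤ y := Finset.sum_nonneg fun q hq => mu_nonneg (hR' q (Finset.mem_filter.1 hq).1)
  have ex : ∑ v ∈ Vu O' V S', wt (ψu O' S' R) v = x / b := by
    rw [eq_div_iff hb.ne']; exact sum_Vu hOp' R
  have ey : ∑ v ∈ Vu O W S, wt (ψu O S R') v = y / a := by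
    rw [eq_div_iff ha.ne']; exact sum_Vu hOp R'
  rw [ex, ey] at key
  calc ∑ e ∈ Eg O O' E S S', F e
      ≤ ∑ e ∈ Eg O O' E S S', (K * (a * b)) *
          (wt (ψu O' S' R) (uu O' e.1) * wt (ψu O S R') (uu O e.2) *
          (A (cof (uu O' e.1) (uu O e.2)) * A (cof (uu O e.2) (uu O' e.1)))) := by
        apply Finset.sum_le_sum
        intro e he
        have he' := Finset.mem_filter.1 he
        refine (hF e he'.1).trans (le_of_eq ?_)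
        rw [mu_eq hOp', mu_eq hOp, al_eq he'.2.1, al_eq he'.2.2]
        unfold wt
        rw [ψu_eq hOp he'.2.1, ψu_eq hOp' he'.2.2]
        ring
    _ = (K * (a * b)) * ∑ e ∈ Eg O O' E S S',
          (wt (ψu O' S' R) (uu O' e.1) * wt (ψu O S R') (uu O e.2) *
          (A (cof (uu O' e.1) (uu O e.2)) * A (cof (uu O e.2) (uu O' e.1)))) := by rw [Finset.mul_sum]
    _ ≤ (K * (a * b)) * (KH L Λ ε * ((T₁ * T₂)^(1/2-ε) * (x/b * (y/a))^(1/2+ε))) :=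
        mul_le_mul_of_nonneg_left key (by positivity)
    _ = (KH L Λ ε * (T₁ * T₂)^(1/2-ε)) * ((K * (a * b)) * (x/b * (y/a))^(1/2+ε)) := by ring
    _ = _ := by
        rw [group_alg (α := 1/2-ε) (β := 1/2+ε) ha hb hx0 hy0 (by ring)]
        show _ = K * (KH L Λ ε * (T₁ * T₂)^(1/2-ε)) *
          ((a^(1/2-ε) * y^(1/2+ε)) * (b^(1/2-ε) * x^(1/2+ε)))
        ring

lemma sq_half {T ε : ℝ} (hT : 0 < T) : (T * T)^(1/2-ε) = T^(1-2*ε) := by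
  rw [Real.mul_rpow hT.le hT.le, ← Real.rpow_add hT]; congr 1; ring

/-- `mid_xP` with one threshold for `Dc` and weight 1 -/
theorem mid_P {ε : ℝ} (hε : 0 < ε) (hε4 : ε ≤ 1/4) {N : ℕ} {O O' V W : Finset ℕ} {E : Finset (ℕ × ℕ)}
    {R R' : ℕ → ℝ} (hO : ∀ p ∈ O, p.Prime ∧ N ≤ p) (hO' : ∀ p ∈ O', p.Prime ∧ N ≤ p)
    (hV : ∀ w ∈ V, 0 < w) (hW : ∀ w ∈ W, 0 < w) (hR : ∀ w ∈ V, 0 ≤ R w) (hR' : ∀ w ∈ W, 0 ≤ R' w)
    (hE : E ⊆ V ×ˢ W) {c c' : ℝ}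
    (hc : ∀ r ∈ W, c ≤ ∑ p ∈ O.filter (fun p => ¬ p ∣ r), 1/(p:ℝ))
    (hc' : ∀ q ∈ V, c' ≤ ∑ p ∈ O'.filter (fun p => ¬ p ∣ q), 1/(p:ℝ))
    {T K : ℝ} (hT : 0 < T) (hK : 0 ≤ K) {F : ℕ × ℕ → ℝ}
    (h1 : ∀ e ∈ E, Dc O O' R R' e ≤ T)
    (hF : ∀ e ∈ E, F e ≤ K * (mu O' R e.1 * mu O R' e.2)) :
    ∑ e ∈ E, F e ≤ K * (KH 1 0 ε * T^(1-2*ε)) * Zm ε N c c' O O' V W R R' := by
  have h := mid_xP goodWt_one hε hε4 (N := N) (K := K) (F := F) hO hO' hV hW hR hR' hE hc hc' hT hT hK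
    (fun e he => (le_max_right _ _).trans (h1 e he)) (fun e he => (le_max_left _ _).trans (h1 e he))
    (fun e he => by simpa using hF e he)
  rwa [sq_half hT] at h

/-! ### anatomy -/

lemma goodAT {z : ℝ} (hz : Real.exp 16 ≤ z) : GoodWt (AT z) (Real.exp 1) (2 * 1 * Real.exp 1) :=
  goodWt_anatomy zero_le_one (by rw [mul_one]; exact hz)

/-- **anatomy gain**: pairs with `D ≤ T` whose cofactors have `Σ_{l > z} 1/l ≥ S` gain `e^{-z S}` -/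
theorem anat_P {ε : ℝ} (hε : 0 < ε) (hε4 : ε ≤ 1/4) {N : ℕ} {O O' V W : Finset ℕ} {E : Finset (ℕ × ℕ)}
    {R R' : ℕ → ℝ} (hO : ∀ p ∈ O, p.Prime ∧ N ≤ p) (hO' : ∀ p ∈ O', p.Prime ∧ N ≤ p)
    (hV : ∀ w ∈ V, 0 < w) (hW : ∀ w ∈ W, 0 < w) (hR : ∀ w ∈ V, 0 ≤ R w) (hR' : ∀ w ∈ W, 0 ≤ R' w)
    (hE : E ⊆ V ×ˢ W) {c c' : ℝ}
    (hc : ∀ r ∈ W, c ≤ ∑ p ∈ O.filter (fun p => ¬ p ∣ r), 1/(p:ℝ))
    (hc' : ∀ q ∈ V, c' ≤ ∑ p ∈ O'.filter (fun p => ¬ p ∣ q), 1/(p:ℝ))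
    {T z S K : ℝ} (hT : 0 < T) (hz : Real.exp 16 ≤ z) (hK : 0 ≤ K) {F : ℕ × ℕ → ℝ}
    (h1 : ∀ e ∈ E, Dc O O' R R' e ≤ T) (hS : ∀ e ∈ E, S ≤ SA O O' z e)
    (hF : ∀ e ∈ E, F e ≤ K * (mu O' R e.1 * mu O R' e.2)) :
    ∑ e ∈ E, F e ≤ K * Real.exp (-(z * S)) * (CA ε * T^(1-2*ε)) * Zm ε N c c' O O' V W R R' := by
  have hOp : ∀ p ∈ O, p.Prime := fun p hp => (hO p hp).1
  have hOp' : ∀ p ∈ O', p.Prime := fun p hp => (hO' p hp).1
  have hz0 : 0 < z := (Real.exp_pos _).trans_le hz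
  have hZ := Zm_nonneg (ε := ε) (N := N) (c := c) (c' := c') (O := O) (O' := O') hR hR'
  have h := mid_xP (goodAT hz) hε hε4 (N := N) (K := K * Real.exp (-(z*S))) (F := F) hO hO' hV hW hR hR' hE
    hc hc' hT hT (by positivity)
    (fun e he => (le_max_right _ _).trans (h1 e he)) (fun e he => (le_max_left _ _).trans (h1 e he))
    (fun e he => by
      have hm := Finset.mem_product.1 (hE he)
      have p1 := uu_pos hOp' (hV _ hm.1)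
      have p2 := uu_pos hOp (hW _ hm.2)
      have g1 := AT_ge (O := O) (O' := O') hz0 p1 p2
      have g2 : Real.exp (z * S) ≤ Real.exp (z * SA O O' z e) :=
        Real.exp_le_exp.2 (mul_le_mul_of_nonneg_left (hS e he) hz0.le)
      have m1 : 0 ≤ mu O' R e.1 := mu_nonneg (hR _ hm.1)
      have m2 : 0 ≤ mu O R' e.2 := mu_nonneg (hR' _ hm.2)
      refine (hF e he).trans ?_
      have g3 : (1:ℝ) ≤ Real.exp (-(z*S)) *
          (AT z (cof (uu O' e.1) (uu O e.2)) * AT z (cof (uu O e.2) (uu O' e.1))) := by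
        have := mul_le_mul_of_nonneg_left (g2.trans g1) (Real.exp_nonneg (-(z*S)))
        rwa [← Real.exp_add, neg_add_cancel, Real.exp_zero] at this
      calc K * (mu O' R e.1 * mu O R' e.2) ≤ K * (mu O' R e.1 * mu O R' e.2) * (Real.exp (-(z*S)) *
          (AT z (cof (uu O' e.1) (uu O e.2)) * AT z (cof (uu O e.2) (uu O' e.1)))) :=
            le_mul_of_one_le_right (by positivity) g3
        _ = _ := by ring)
  rw [sq_half hT] at h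
  refine h.trans (mul_le_mul_of_nonneg_right ?_ hZ)
  have hK' : 0 ≤ K * Real.exp (-(z*S)) := by positivity
  apply mul_le_mul_of_nonneg_left _ hK'
  unfold CA
  have h2 : 0 ≤ KH (Real.exp 1) (2 * 1 * Real.exp 1) ε * T^(1-2*ε) :=
    mul_nonneg (KH_pos _ _ _).le (Real.rpow_nonneg hT.le _)
  have h3 : (1:ℝ) ≤ Real.exp 1 := Real.one_le_exp (by norm_num)
  calc KH (Real.exp 1) (2 * 1 * Real.exp 1) ε * T^(1-2*ε)
      ≤ Real.exp 1 * (KH (Real.exp 1) (2 * 1 * Real.exp 1) ε * T^(1-2*ε)) := le_mul_of_one_le_left h2 h3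
    _ = _ := by ring

/-- **bad anatomy**, one dyadic level `T < D ≤ 2T` -/
theorem bad_anatP {ε : ℝ} (hε : 0 < ε) (hε4 : ε ≤ 1/4) {N : ℕ} {O O' V W : Finset ℕ}
    {R R' : ℕ → ℝ} (hO : ∀ p ∈ O, p.Prime ∧ N ≤ p) (hO' : ∀ p ∈ O', p.Prime ∧ N ≤ p)
    (hV : ∀ w ∈ V, 0 < w) (hW : ∀ w ∈ W, 0 < w) (hR : ∀ w ∈ V, 0 ≤ R w) (hR' : ∀ w ∈ W, 0 ≤ R' w)
    {c c' : ℝ}
    (hc : ∀ r ∈ W, c ≤ ∑ p ∈ O.filter (fun p => ¬ p ∣ r), 1/(p:ℝ))
    (hc' : ∀ q ∈ V, c' ≤ ∑ p ∈ O'.filter (fun p => ¬ p ∣ q), 1/(p:ℝ))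
    {K : ℝ} (hK : 0 ≤ K) {F : ℕ × ℕ → ℝ} {T : ℝ} (hT : Real.exp 16 ≤ T) (E : Finset (ℕ × ℕ))
    (hE : E ⊆ V ×ˢ W) (h1 : ∀ e ∈ E, T < Dc O O' R R' e)
    (h2 : ∀ e ∈ E, Dc O O' R R' e ≤ 2 * T)
    (hS : ∀ e ∈ E, 1 ≤ SA O O' (Dc O O' R R' e) e)
    (hF : ∀ e ∈ E, F e ≤ K * ((mu O' R e.1 * mu O R' e.2) *
      Real.exp (2 * SA O O' (Dc O O' R R' e) e))) :
    ∑ e ∈ E, F e ≤ K * Real.exp (-(T/2)) * (CA ε * (2*T)^(1-2*ε)) * Zm ε N c c' O O' V W R R' := by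
  have hOp : ∀ p ∈ O, p.Prime := fun p hp => (hO p hp).1
  have hOp' : ∀ p ∈ O', p.Prime := fun p hp => (hO' p hp).1
  have hT0 : (0:ℝ) < T := (Real.exp_pos _).trans_le hT
  have hT4 : (4:ℝ) ≤ T := by
    have h3 : (16:ℝ) + 1 ≤ Real.exp 16 := Real.add_one_le_exp 16
    linarith
  have hZ := Zm_nonneg (ε := ε) (N := N) (c := c) (c' := c') (O := O) (O' := O') hR hR'
  have h := mid_xP (goodAT hT) hε hε4 (N := N) (T₁ := 2*T) (T₂ := 2*T) (K := K * Real.exp (-(T/2))) (F := F)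
    hO hO' hV hW hR hR' hE hc hc' (by linarith) (by linarith) (by positivity)
    (fun e he => (le_max_right _ _).trans (h2 e he)) (fun e he => (le_max_left _ _).trans (h2 e he))
    (fun e he => by
      have hm := Finset.mem_product.1 (hE he)
      have p1 := uu_pos hOp' (hV _ hm.1)
      have p2 := uu_pos hOp (hW _ hm.2)
      have s1 : SA O O' (Dc O O' R R' e) e ≤ SA O O' T e := SA_mono (h1 e he).le e
      have s2 : 1 ≤ SA O O' T e := (hS e he).trans s1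
      have g1 := AT_ge (O := O) (O' := O') hT0 p1 p2
      have g2 := rank_num hT4 s2
      have g3 : Real.exp (2 * SA O O' (Dc O O' R R' e) e) ≤ Real.exp (-(T/2)) *
          (AT T (cof (uu O' e.1) (uu O e.2)) * AT T (cof (uu O e.2) (uu O' e.1))) := by
        refine (Real.exp_le_exp.2 (by linarith)).trans (g2.trans ?_)
        exact mul_le_mul_of_nonneg_left g1 (Real.exp_nonneg _)
      have m1 : 0 ≤ mu O' R e.1 := mu_nonneg (hR _ hm.1)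
      have m2 : 0 ≤ mu O R' e.2 := mu_nonneg (hR' _ hm.2)
      refine (hF e he).trans ?_
      have g4 := mul_le_mul_of_nonneg_left g3 (mul_nonneg m1 m2)
      refine (mul_le_mul_of_nonneg_left g4 hK).trans (le_of_eq ?_)
      ring)
  rw [sq_half (by linarith)] at h
  refine h.trans (mul_le_mul_of_nonneg_right ?_ hZ)
  have hK' : 0 ≤ K * Real.exp (-(T/2)) := by positivity
  apply mul_le_mul_of_nonneg_left _ hK'
  unfold CA
  have h2 : 0 ≤ KH (Real.exp 1) (2 * 1 * Real.exp 1) ε * (2*T)^(1-2*ε) :=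
    mul_nonneg (KH_pos _ _ _).le (Real.rpow_nonneg (by linarith) _)
  have h3 : (1:ℝ) ≤ Real.exp 1 := Real.one_le_exp (by norm_num)
  calc KH (Real.exp 1) (2 * 1 * Real.exp 1) ε * (2*T)^(1-2*ε)
      ≤ Real.exp 1 * (KH (Real.exp 1) (2 * 1 * Real.exp 1) ε * (2*T)^(1-2*ε)) := le_mul_of_one_le_left h2 h3
    _ = _ := by ring

lemma exp16_ge : (200:ℝ) ≤ Real.exp 16 := by
  have h2 := Real.pow_div_factorial_le_exp (16:ℝ) (by norm_num) 3
  norm_num [Nat.factorial] at h2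
  linarith

lemma lev_expP {ε : ℝ} (hε : 0 < ε) {T : ℝ} (hT : Real.exp 16 ≤ T) (n : ℕ) :
    Real.exp (-((T*2^n)/2)) * (2*(T*2^n))^(1-2*ε) ≤ Real.exp (-(T/4)) * (1/2)^(n+1) := by
  have h2n : (1:ℝ) ≤ (2:ℝ)^n := one_le_pow₀ (by norm_num)
  have hT200 : (200:ℝ) ≤ T := exp16_ge.trans hT
  set x : ℝ := T*2^n with hx
  have hxT : T ≤ x := by rw [hx]; nlinarith
  have hx2 : 2 * (2:ℝ)^n ≤ x := by rw [hx]; nlinarith
  have hxb : (200:ℝ) ≤ x := hT200.trans hxT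
  have hx1 : (1:ℝ) ≤ 2*x := by linarith
  have h1 : (2*x)^(1-2*ε) ≤ 2 * x := by
    calc (2*x)^(1-2*ε) ≤ (2*x)^(1:ℝ) :=
          Real.rpow_le_rpow_of_exponent_le hx1 (by linarith)
      _ = 2 * x := by rw [Real.rpow_one]
  have hxp : 0 < x := by linarith
  have h2 : 2 * x ^ 2 ≤ Real.exp (x/4) := by
    have h3 := Real.pow_div_factorial_le_exp (x/4) (by positivity) 4
    norm_num [Nat.factorial] at h3
    refine le_trans ?_ h3
    have : (x/4)^4/24 = x^2 * (x^2/6144) := by ring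
    rw [this]
    have : (2:ℝ) ≤ x^2/6144 := by nlinarith
    nlinarith [sq_nonneg x]
  have h3 : Real.exp (-(x/2)) = Real.exp (-(x/4)) * Real.exp (-(x/4)) := by
    rw [← Real.exp_add]; congr 1; ring
  have h4 : Real.exp (-(x/4)) * (2 * x) ≤ (1/2)^(n+1) := by
    have e1 : (1/x : ℝ) ≤ (1/2)^(n+1) := by
      rw [one_div_pow]
      apply one_div_le_one_div_of_le (by positivity)
      rw [pow_succ]; linarith
    refine le_trans ?_ e1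
    rw [Real.exp_neg, le_div_iff₀ hxp, inv_mul_eq_div, div_mul_eq_mul_div, div_le_one (Real.exp_pos _)]
    nlinarith
  have h5 : Real.exp (-(x/4)) ≤ Real.exp (-(T/4)) := Real.exp_le_exp.2 (by linarith)
  calc Real.exp (-(x/2)) * (2*x)^(1-2*ε) ≤ Real.exp (-(x/2)) * (2 * x) :=
        mul_le_mul_of_nonneg_left h1 (Real.exp_nonneg _)
    _ = Real.exp (-(x/4)) * (Real.exp (-(x/4)) * (2 * x)) := by rw [h3]; ring
    _ ≤ Real.exp (-(T/4)) * (1/2)^(n+1) :=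
        mul_le_mul h5 h4 (by positivity) (Real.exp_nonneg _)

open Classical in
/-- **bad anatomy, all scales `> T`** -/
theorem bad_allP {ε : ℝ} (hε : 0 < ε) (hε4 : ε ≤ 1/4) {N : ℕ} {O O' V W : Finset ℕ}
    {R R' : ℕ → ℝ} (hO : ∀ p ∈ O, p.Prime ∧ N ≤ p) (hO' : ∀ p ∈ O', p.Prime ∧ N ≤ p)
    (hV : ∀ w ∈ V, 0 < w) (hW : ∀ w ∈ W, 0 < w) (hR : ∀ w ∈ V, 0 ≤ R w) (hR' : ∀ w ∈ W, 0 ≤ R' w)
    {c c' : ℝ}
    (hc : ∀ r ∈ W, c ≤ ∑ p ∈ O.filter (fun p => ¬ p ∣ r), 1/(p:ℝ))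
    (hc' : ∀ q ∈ V, c' ≤ ∑ p ∈ O'.filter (fun p => ¬ p ∣ q), 1/(p:ℝ))
    {K : ℝ} (hK : 0 ≤ K) {F : ℕ × ℕ → ℝ} {T : ℝ} (hT : Real.exp 16 ≤ T)
    (E : Finset (ℕ × ℕ)) (hE : E ⊆ V ×ˢ W) (h1 : ∀ e ∈ E, T < Dc O O' R R' e)
    (hS : ∀ e ∈ E, 1 ≤ SA O O' (Dc O O' R R' e) e)
    (hF : ∀ e ∈ E, F e ≤ K * ((mu O' R e.1 * mu O R' e.2) *
      Real.exp (2 * SA O O' (Dc O O' R R' e) e))) :
    ∑ e ∈ E, F e ≤ K * CA ε * Real.exp (-(T/4)) * Zm ε N c c' O O' V W R R' := by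
  have hZ := Zm_nonneg (ε := ε) (N := N) (c := c) (c' := c') (O := O) (O' := O') hR hR'
  set Z := Zm ε N c c' O O' V W R R' with hZd
  have hCA := (CA_pos ε).le
  have hT0 : (0:ℝ) < T := (Real.exp_pos _).trans_le hT
  set G := K * CA ε * Real.exp (-(T/4)) * Z with hG
  have hG0 : 0 ≤ G := by positivity
  have key : ∀ n : ℕ, ∀ E : Finset (ℕ × ℕ), E ⊆ V ×ˢ W → (∀ e ∈ E, T < Dc O O' R R' e) →
      (∀ e ∈ E, Dc O O' R R' e ≤ T * 2^n) → (∀ e ∈ E, 1 ≤ SA O O' (Dc O O' R R' e) e) →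
      (∀ e ∈ E, F e ≤ K * ((mu O' R e.1 * mu O R' e.2) *
        Real.exp (2 * SA O O' (Dc O O' R R' e) e))) → ∑ e ∈ E, F e ≤ G * (1 - (1/2)^n) := by
    intro n
    induction n with
    | zero =>
      intro E hE h1 h2 _ _
      have : E = ∅ := by
        rw [Finset.eq_empty_iff_forall_notMem]
        intro e he
        have a := h1 e he
        have b := h2 e he
        rw [pow_zero, mul_one] at b
        linarith
      rw [this]; simp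
    | succ n ih =>
      intro E hE h1 h2 h3 h4
      set E1 := E.filter (fun e => Dc O O' R R' e ≤ T * 2^n) with hE1
      set E2 := E.filter (fun e => ¬ Dc O O' R R' e ≤ T * 2^n) with hE2
      have hsplit : ∑ e ∈ E, F e = ∑ e ∈ E1, F e + ∑ e ∈ E2, F e := by
        rw [hE1, hE2, Finset.sum_filter_add_sum_filter_not]
      have s1 : ∀ e ∈ E1, e ∈ E := fun e he => (Finset.mem_filter.1 he).1
      have s2 : ∀ e ∈ E2, e ∈ E := fun e he => (Finset.mem_filter.1 he).1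
      have b1 := ih E1 (fun e he => hE (s1 e he)) (fun e he => h1 e (s1 e he))
        (fun e he => (Finset.mem_filter.1 he).2) (fun e he => h3 e (s1 e he))
        (fun e he => h4 e (s1 e he))
      have h2n : (1:ℝ) ≤ (2:ℝ)^n := one_le_pow₀ (by norm_num)
      have hTn : Real.exp 16 ≤ T * 2^n := hT.trans (by nlinarith)
      have b2 := bad_anatP hε hε4 (N := N) hO hO' hV hW hR hR' hc hc' hK hTn E2
        (fun e he => hE (s2 e he)) (fun e he => not_le.1 (Finset.mem_filter.1 he).2)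
        (fun e he => by have := h2 e (s2 e he); rw [pow_succ] at this; linarith)
        (fun e he => h3 e (s2 e he)) (fun e he => h4 e (s2 e he))
      have e3 := lev_expP hε hT n
      have b3 : ∑ e ∈ E2, F e ≤ G * (1/2)^(n+1) := by
        refine b2.trans ?_
        rw [← hZd]
        have e4 : K * Real.exp (-((T*2^n)/2)) * (CA ε * (2*(T*2^n))^(1-2*ε)) * Z =
            (K * CA ε * Z) * (Real.exp (-((T*2^n)/2)) * (2*(T*2^n))^(1-2*ε)) := by ring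
        rw [e4]
        refine (mul_le_mul_of_nonneg_left e3 (by positivity)).trans (le_of_eq ?_)
        rw [hG]; ring
      rw [hsplit]
      have e6 : G * (1 - (1/2)^n) + G * (1/2)^(n+1) = G * (1 - (1/2)^(n+1)) := by
        rw [pow_succ]; ring
      linarith
  obtain ⟨n, hn⟩ := pow_unbounded_of_one_lt (∑ e ∈ E, |Dc O O' R R' e|) (by norm_num : (1:ℝ) < 2)
  have h2 : ∀ e ∈ E, Dc O O' R R' e ≤ T * 2^n := by
    intro e he
    have a1 := Finset.single_le_sum (f := fun e => |Dc O O' R R' e|) (fun e _ => abs_nonneg _) he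
    have a3 := le_abs_self (Dc O O' R R' e)
    have a4 : |Dc O O' R R' e| ≤ ∑ e ∈ E, |Dc O O' R R' e| := a1
    have hT1 : (1:ℝ) ≤ T := by have := exp16_ge; linarith
    have a5 : (2:ℝ)^n ≤ T * 2^n := by
      have : (0:ℝ) ≤ (2:ℝ)^n := by positivity
      nlinarith
    linarith
  have fin := key n E hE h1 h2 hS hF
  have : G * (1 - (1/2)^n) ≤ G := by
    have : (0:ℝ) ≤ (1/2)^n := by positivity
    nlinarith
  exact fin.trans this

/-- the weight of a pair of (leaf, leaf') type, threshold `T` -/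
noncomputable def wP (O O' : Finset ℕ) (T D : ℝ) (e : ℕ × ℕ) : ℝ :=
  if D ≤ T then 1 else Real.exp (2 * SA O O' D e)

lemma wP_pos (O O' : Finset ℕ) (T D : ℝ) (e : ℕ × ℕ) : 0 < wP O O' T D e := by
  unfold wP; split_ifs
  · exact one_pos
  · exact Real.exp_pos _

open Classical in
/-- **pairs with `D ≤ T` (weight 1) or bad anatomy (weight `e^{2 SA(D)}`)** -/
theorem ll_allP {ε : ℝ} (hε : 0 < ε) (hε4 : ε ≤ 1/4) {N : ℕ} {O O' V W : Finset ℕ}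
    {R R' : ℕ → ℝ} (hO : ∀ p ∈ O, p.Prime ∧ N ≤ p) (hO' : ∀ p ∈ O', p.Prime ∧ N ≤ p)
    (hV : ∀ w ∈ V, 0 < w) (hW : ∀ w ∈ W, 0 < w) (hR : ∀ w ∈ V, 0 ≤ R w) (hR' : ∀ w ∈ W, 0 ≤ R' w)
    {c c' : ℝ}
    (hc : ∀ r ∈ W, c ≤ ∑ p ∈ O.filter (fun p => ¬ p ∣ r), 1/(p:ℝ))
    (hc' : ∀ q ∈ V, c' ≤ ∑ p ∈ O'.filter (fun p => ¬ p ∣ q), 1/(p:ℝ))
    {K : ℝ} (hK : 0 ≤ K) {F : ℕ × ℕ → ℝ} {T : ℝ} (hT : Real.exp 16 ≤ T)
    (E : Finset (ℕ × ℕ)) (hE : E ⊆ V ×ˢ W)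
    (hcase : ∀ e ∈ E, Dc O O' R R' e ≤ T ∨ 1 ≤ SA O O' (Dc O O' R R' e) e)
    (hF : ∀ e ∈ E, F e ≤ K * ((mu O' R e.1 * mu O R' e.2) * wP O O' T (Dc O O' R R' e) e)) :
    ∑ e ∈ E, F e ≤ K * (KH 1 0 ε * T^(1-2*ε) + CA ε * Real.exp (-(T/4))) *
      Zm ε N c c' O O' V W R R' := by
  have hT0 : (0:ℝ) < T := (Real.exp_pos _).trans_le hT
  set E1 := E.filter (fun e => Dc O O' R R' e ≤ T) with hE1
  set E2 := E.filter (fun e => ¬ Dc O O' R R' e ≤ T) with hE2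
  have hsplit : ∑ e ∈ E, F e = ∑ e ∈ E1, F e + ∑ e ∈ E2, F e := by
    rw [hE1, hE2, Finset.sum_filter_add_sum_filter_not]
  have b1 := mid_P hε hε4 (N := N) (E := E1) (T := T) (K := K) (F := F) hO hO' hV hW
    hR hR' (fun e he => hE (Finset.mem_filter.1 he).1) hc hc' hT0 hK
    (fun e he => (Finset.mem_filter.1 he).2)
    (fun e he => by
      have h1 := hF e (Finset.mem_filter.1 he).1
      unfold wP at h1
      rwa [if_pos (Finset.mem_filter.1 he).2, mul_one] at h1)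
  have b2 := bad_allP hε hε4 (N := N) (K := K) (F := F) (T := T) hO hO' hV hW hR hR' hc hc' hK hT E2
    (fun e he => hE (Finset.mem_filter.1 he).1)
    (fun e he => not_le.1 (Finset.mem_filter.1 he).2)
    (fun e he => by
      rcases hcase e (Finset.mem_filter.1 he).1 with h | h
      · exact absurd h (Finset.mem_filter.1 he).2
      · exact h)
    (fun e he => by
      have h1 := hF e (Finset.mem_filter.1 he).1
      unfold wP at h1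
      rwa [if_neg (Finset.mem_filter.1 he).2] at h1)
  rw [hsplit]
  refine (add_le_add b1 b2).trans (le_of_eq ?_)
  ring

open Classical in
/-- `ll_allP` with raw masses and the Rankin factor bounded (`Σ 1/p ≤ 1` on both sides) -/
theorem ll_allPR {ε : ℝ} (hε : 0 < ε) (hε4 : ε ≤ 1/4) {N : ℕ} {O O' V W : Finset ℕ}
    {R R' : ℕ → ℝ} (hO : ∀ p ∈ O, p.Prime ∧ N ≤ p) (hO' : ∀ p ∈ O', p.Prime ∧ N ≤ p)
    (hsO : ∑ p ∈ O, 1/(p:ℝ) ≤ 1) (hsO' : ∑ p ∈ O', 1/(p:ℝ) ≤ 1)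
    (hV : ∀ w ∈ V, 0 < w) (hW : ∀ w ∈ W, 0 < w) (hR : ∀ w ∈ V, 0 ≤ R w) (hR' : ∀ w ∈ W, 0 ≤ R' w)
    {K L L' : ℝ} (hK : 0 ≤ K) (hL : 0 ≤ L) (hL' : 0 ≤ L')
    (hLV : ∀ w ∈ V, R w ≤ L * mu O' R w) (hLW : ∀ w ∈ W, R' w ≤ L' * mu O R' w)
    {F : ℕ × ℕ → ℝ} {T : ℝ} (hT : Real.exp 16 ≤ T)
    (E : Finset (ℕ × ℕ)) (hE : E ⊆ V ×ˢ W)
    (hcase : ∀ e ∈ E, Dc O O' R R' e ≤ T ∨ 1 ≤ SA O O' (Dc O O' R R' e) e)
    (hF : ∀ e ∈ E, F e ≤ K * ((R e.1 * R' e.2) * wP O O' T (Dc O O' R R' e) e)) :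
    ∑ e ∈ E, F e ≤ K * (L * L') * (Real.exp 3 * (KH 1 0 ε * T^(1-2*ε) + CA ε)) *
      ((∑ q ∈ V, mu O' R q) * (∑ r ∈ W, mu O R' r))^(1/2+ε) := by
  have c0 : ∀ r ∈ W, (0:ℝ) ≤ ∑ p ∈ O.filter (fun p => ¬ p ∣ r), 1/(p:ℝ) := fun r _ =>
    Finset.sum_nonneg fun p _ => by positivity
  have c0' : ∀ r ∈ V, (0:ℝ) ≤ ∑ p ∈ O'.filter (fun p => ¬ p ∣ r), 1/(p:ℝ) := fun r _ =>
    Finset.sum_nonneg fun p _ => by positivity
  have hT0 : (0:ℝ) < T := (Real.exp_pos _).trans_le hT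
  have h := ll_allP hε hε4 (N := N) (K := K * (L * L')) (F := F) (T := T) hO hO' hV hW hR hR' c0 c0'
    (by positivity) hT E hE hcase (fun e he => by
      have h := Finset.mem_product.1 (hE he)
      have w0 := (wP_pos O O' T (Dc O O' R R' e) e).le
      have m1 : 0 ≤ mu O' R e.1 := mu_nonneg (hR _ h.1)
      have a1 := mul_le_mul (hLV _ h.1) (hLW _ h.2) (hR' _ h.2) (mul_nonneg hL m1)
      refine (hF e he).trans ?_
      have a2 := mul_le_mul_of_nonneg_left (mul_le_mul_of_nonneg_right a1 w0) hK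
      refine a2.trans (le_of_eq ?_)
      ring)
  refine h.trans ?_
  unfold Zm
  have hmm : 0 ≤ (∑ q ∈ V, mu O' R q) * (∑ r ∈ W, mu O R' r) :=
    mul_nonneg (Finset.sum_nonneg fun q hq => mu_nonneg (hR q hq))
      (Finset.sum_nonneg fun q hq => mu_nonneg (hR' q hq))
  set Z0 := ((∑ q ∈ V, mu O' R q) * (∑ r ∈ W, mu O R' r))^(1/2+ε) with hZ0
  have hZ00 : 0 ≤ Z0 := Real.rpow_nonneg hmm _
  have hexp1 : Real.exp ((1/2-ε) * (-(N*0) + 3 * (∑ p ∈ O, 1/(p:ℝ)) + (-(N*0) + 3 * ∑ p ∈ O', 1/(p:ℝ)))) ≤ Real.exp 3 := by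
    apply Real.exp_le_exp.2
    nlinarith [hsO, hsO']
  have h9 : Real.exp (-(T/4)) ≤ 1 := Real.exp_le_one_iff.2 (by linarith)
  have hCA := (CA_pos ε).le
  have hKH := (KH_pos 1 0 ε).le
  set X := Real.exp ((1/2-ε) * (-(N*0) + 3 * (∑ p ∈ O, 1/(p:ℝ)) + (-(N*0) + 3 * ∑ p ∈ O', 1/(p:ℝ)))) with hX
  have hX0 : 0 ≤ X := Real.exp_nonneg _
  calc K * (L * L') * (KH 1 0 ε * T^(1-2*ε) + CA ε * Real.exp (-(T/4))) * (X * Z0)
      ≤ K * (L * L') * (KH 1 0 ε * T^(1-2*ε) + CA ε * 1) * (Real.exp 3 * Z0) := by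
        gcongr
    _ = _ := by ring

end Crest.Agent.R4P.LLNumP
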