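import Mathlib
import Crest.Agent.R4P.LLNumP_35

/-!
R4P (S0004), helper35, group [X]: plain anatomy numbers with the anatomy threshold `√D`
(`SA O O' (√D) e = Σ_{l ∣ x y, l > √D} 1/l`).
* `bad_anatQ`, `bad_allQ` : pairs with `D > T`, `SA(√D) ≥ 1` and weight `e^{2 SA(√D)}` cost `e^{-√T/4}` (`T ≥ e^32`).
* `ll_allQ` : pairs with `D ≤ T` (weight 1) or `SA(√D) ≥ 1` (weight `e^{2 SA(√D)}`).
* `ll_allQR` : the same with raw masses.
-/

set_option autoImplicit false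
open Finset

namespace Crest.Agent.R4P.LLNumP
open Crest.Agent.R4.HVW560 Crest.Agent.R4.HVWX793
open Crest.Agent.R4.Schur709 Crest.Agent.R4.StopHvw709 Crest.Agent.R4.StopAsm709
open Crest.Agent.R4.LLNum709 (SA SA_mono SA_nonneg AT AT_ge rank_num CA CA_pos)

lemma sqrt_ge {T : ℝ} (hT : Real.exp 32 ≤ T) : Real.exp 16 ≤ Real.sqrt T := by
  apply Real.le_sqrt_of_sq_le
  calc (Real.exp 16)^2 = Real.exp 32 := by rw [← Real.exp_nat_mul]; norm_num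
    _ ≤ T := hT

/-- **bad anatomy at `√D`**, one dyadic level `T < D ≤ 2T` -/
theorem bad_anatQ {ε : ℝ} (hε : 0 < ε) (hε4 : ε ≤ 1/4) {N : ℕ} {O O' V W : Finset ℕ}
    {R R' : ℕ → ℝ} (hO : ∀ p ∈ O, p.Prime ∧ N ≤ p) (hO' : ∀ p ∈ O', p.Prime ∧ N ≤ p)
    (hV : ∀ w ∈ V, 0 < w) (hW : ∀ w ∈ W, 0 < w) (hR : ∀ w ∈ V, 0 ≤ R w) (hR' : ∀ w ∈ W, 0 ≤ R' w)
    {c c' : ℝ}
    (hc : ∀ r ∈ W, c ≤ ∑ p ∈ O.filter (fun p => ¬ p ∣ r), 1/(p:ℝ))
    (hc' : ∀ q ∈ V, c' ≤ ∑ p ∈ O'.filter (fun p => ¬ p ∣ q), 1/(p:ℝ))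
    {K : ℝ} (hK : 0 ≤ K) {F : ℕ × ℕ → ℝ} {T : ℝ} (hT : Real.exp 32 ≤ T) (E : Finset (ℕ × ℕ))
    (hE : E ⊆ V ×ˢ W) (h1 : ∀ e ∈ E, T < Dc O O' R R' e)
    (h2 : ∀ e ∈ E, Dc O O' R R' e ≤ 2 * T)
    (hS : ∀ e ∈ E, 1 ≤ SA O O' (Real.sqrt (Dc O O' R R' e)) e)
    (hF : ∀ e ∈ E, F e ≤ K * ((mu O' R e.1 * mu O R' e.2) *
      Real.exp (2 * SA O O' (Real.sqrt (Dc O O' R R' e)) e))) :
    ∑ e ∈ E, F e ≤ K * Real.exp (-(Real.sqrt T/2)) * (CA ε * (2*T)^(1-2*ε)) *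
      Zm ε N c c' O O' V W R R' := by
  have hOp : ∀ p ∈ O, p.Prime := fun p hp => (hO p hp).1
  have hOp' : ∀ p ∈ O', p.Prime := fun p hp => (hO' p hp).1
  have hT0 : (0:ℝ) < T := (Real.exp_pos _).trans_le hT
  have hz := sqrt_ge hT
  set z := Real.sqrt T with hzd
  have hz0 : (0:ℝ) < z := (Real.exp_pos _).trans_le hz
  have hz4 : (4:ℝ) ≤ z := by
    have h3 : (16:ℝ) + 1 ≤ Real.exp 16 := Real.add_one_le_exp 16
    linarith
  have hZ := Zm_nonneg (ε := ε) (N := N) (c := c) (c' := c') (O := O) (O' := O') hR hR'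
  have h := mid_xP (goodAT hz) hε hε4 (N := N) (T₁ := 2*T) (T₂ := 2*T) (K := K * Real.exp (-(z/2))) (F := F)
    hO hO' hV hW hR hR' hE hc hc' (by linarith) (by linarith) (by positivity)
    (fun e he => (le_max_right _ _).trans (h2 e he)) (fun e he => (le_max_left _ _).trans (h2 e he))
    (fun e he => by
      have hm := Finset.mem_product.1 (hE he)
      have p1 := uu_pos hOp' (hV _ hm.1)
      have p2 := uu_pos hOp (hW _ hm.2)
      have s1 : SA O O' (Real.sqrt (Dc O O' R R' e)) e ≤ SA O O' z e :=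
        SA_mono (Real.sqrt_le_sqrt (h1 e he).le) e
      have s2 : 1 ≤ SA O O' z e := (hS e he).trans s1
      have g1 := AT_ge (O := O) (O' := O') hz0 p1 p2
      have g2 := rank_num hz4 s2
      have g3 : Real.exp (2 * SA O O' (Real.sqrt (Dc O O' R R' e)) e) ≤ Real.exp (-(z/2)) *
          (AT z (cof (uu O' e.1) (uu O e.2)) * AT z (cof (uu O e.2) (uu O' e.1))) := by
        refine (Real.exp_le_exp.2 (by linarith)).trans (g2.trans ?_)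
        exact mul_le_mul_of_nonneg_left g1 (Real.exp_nonneg _)
      have m1 : 0 ≤ mu O' R e.1 := mu_nonneg (hR _ hm.1)
      have m2 : 0 ≤ mu O R' e.2 := mu_nonneg (hR' _ hm.2)
      refine (hF e he).trans ?_
      have g4 := mul_le_mul_of_nonneg_left g3 (mul_nonneg m1 m2)
      refine (mul_le_mul_of_nonneg_left g4 hK).trans (le_of_eq ?_)
      ring)
  rw [sq_half (by linarith)] at h
  refine h.trans (mul_le_mul_of_nonneg_right ?_ hZ)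
  have hK' : 0 ≤ K * Real.exp (-(z/2)) := by positivity
  apply mul_le_mul_of_nonneg_left _ hK'
  unfold CA
  have h2 : 0 ≤ KH (Real.exp 1) (2 * 1 * Real.exp 1) ε * (2*T)^(1-2*ε) :=
    mul_nonneg (KH_pos _ _ _).le (Real.rpow_nonneg (by linarith) _)
  have h3 : (1:ℝ) ≤ Real.exp 1 := Real.one_le_exp (by norm_num)
  calc KH (Real.exp 1) (2 * 1 * Real.exp 1) ε * (2*T)^(1-2*ε)
      ≤ Real.exp 1 * (KH (Real.exp 1) (2 * 1 * Real.exp 1) ε * (2*T)^(1-2*ε)) := le_mul_of_one_le_left h2 h3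
    _ = _ := by ring

lemma lev_expQ {ε : ℝ} (hε : 0 < ε) {T : ℝ} (hT : Real.exp 32 ≤ T) (n : ℕ) :
    Real.exp (-(Real.sqrt (T*2^n)/2)) * (2*(T*2^n))^(1-2*ε) ≤
      Real.exp (-(Real.sqrt T/4)) * (1/2)^(n+1) := by
  have h2n : (1:ℝ) ≤ (2:ℝ)^n := one_le_pow₀ (by norm_num)
  have hT0 : (0:ℝ) < T := (Real.exp_pos _).trans_le hT
  have hxT : T ≤ T*2^n := by nlinarith
  set x : ℝ := T*2^n with hx
  set y : ℝ := Real.sqrt x with hy
  have hx0 : 0 < x := hT0.trans_le hxT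
  have hyx : y^2 = x := Real.sq_sqrt hx0.le
  have hy16 : Real.exp 16 ≤ y := sqrt_ge (hT.trans hxT)
  have e3000 : (3000:ℝ) ≤ Real.exp 16 := by
    have h2 := Real.pow_div_factorial_le_exp (16:ℝ) (by norm_num) 6
    norm_num [Nat.factorial] at h2
    linarith
  have hyb : (3000:ℝ) ≤ y := e3000.trans hy16
  have hyp : 0 < y := by linarith
  have hT2 : (2:ℝ) ≤ T := by
    have : (32:ℝ) + 1 ≤ Real.exp 32 := Real.add_one_le_exp 32
    linarith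
  have hx2 : 2 * (2:ℝ)^n ≤ x := by rw [hx]; nlinarith
  have hx1 : (1:ℝ) ≤ 2*x := by linarith
  have h1 : (2*x)^(1-2*ε) ≤ 2 * x := by
    calc (2*x)^(1-2*ε) ≤ (2*x)^(1:ℝ) :=
          Real.rpow_le_rpow_of_exponent_le hx1 (by linarith)
      _ = 2 * x := by rw [Real.rpow_one]
  have h2 : 2 * x ^ 2 ≤ Real.exp (y/4) := by
    have h3 := Real.pow_div_factorial_le_exp (y/4) (by positivity) 6
    norm_num [Nat.factorial] at h3
    refine le_trans ?_ h3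
    have e1 : (y/4)^6/720 = y^4 * (y^2/2949120) := by ring
    have e2 : 2 * x^2 = y^4 * 2 := by rw [← hyx]; ring
    rw [e1, e2]
    apply mul_le_mul_of_nonneg_left _ (by positivity)
    nlinarith
  have h3 : Real.exp (-(y/2)) = Real.exp (-(y/4)) * Real.exp (-(y/4)) := by
    rw [← Real.exp_add]; congr 1; ring
  have h4 : Real.exp (-(y/4)) * (2 * x) ≤ (1/2)^(n+1) := by
    have e1 : (1/x : ℝ) ≤ (1/2)^(n+1) := by
      rw [one_div_pow]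
      apply one_div_le_one_div_of_le (by positivity)
      rw [pow_succ]; linarith
    refine le_trans ?_ e1
    rw [Real.exp_neg, le_div_iff₀ hx0, inv_mul_eq_div, div_mul_eq_mul_div, div_le_one (Real.exp_pos _)]
    nlinarith
  have h5 : Real.exp (-(y/4)) ≤ Real.exp (-(Real.sqrt T/4)) := by
    apply Real.exp_le_exp.2
    have := Real.sqrt_le_sqrt hxT
    linarith
  calc Real.exp (-(y/2)) * (2*x)^(1-2*ε) ≤ Real.exp (-(y/2)) * (2 * x) :=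
        mul_le_mul_of_nonneg_left h1 (Real.exp_nonneg _)
    _ = Real.exp (-(y/4)) * (Real.exp (-(y/4)) * (2 * x)) := by rw [h3]; ring
    _ ≤ Real.exp (-(Real.sqrt T/4)) * (1/2)^(n+1) :=
        mul_le_mul h5 h4 (by positivity) (Real.exp_nonneg _)

open Classical in
/-- **bad anatomy at `√D`, all scales `> T`** -/
theorem bad_allQ {ε : ℝ} (hε : 0 < ε) (hε4 : ε ≤ 1/4) {N : ℕ} {O O' V W : Finset ℕ}
    {R R' : ℕ → ℝ} (hO : ∀ p ∈ O, p.Prime ∧ N ≤ p) (hO' : ∀ p ∈ O', p.Prime ∧ N ≤ p)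
    (hV : ∀ w ∈ V, 0 < w) (hW : ∀ w ∈ W, 0 < w) (hR : ∀ w ∈ V, 0 ≤ R w) (hR' : ∀ w ∈ W, 0 ≤ R' w)
    {c c' : ℝ}
    (hc : ∀ r ∈ W, c ≤ ∑ p ∈ O.filter (fun p => ¬ p ∣ r), 1/(p:ℝ))
    (hc' : ∀ q ∈ V, c' ≤ ∑ p ∈ O'.filter (fun p => ¬ p ∣ q), 1/(p:ℝ))
    {K : ℝ} (hK : 0 ≤ K) {F : ℕ × ℕ → ℝ} {T : ℝ} (hT : Real.exp 32 ≤ T)
    (E : Finset (ℕ × ℕ)) (hE : E ⊆ V ×ˢ W) (h1 : ∀ e ∈ E, T < Dc O O' R R' e)
    (hS : ∀ e ∈ E, 1 ≤ SA O O' (Real.sqrt (Dc O O' R R' e)) e)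
    (hF : ∀ e ∈ E, F e ≤ K * ((mu O' R e.1 * mu O R' e.2) *
      Real.exp (2 * SA O O' (Real.sqrt (Dc O O' R R' e)) e))) :
    ∑ e ∈ E, F e ≤ K * CA ε * Real.exp (-(Real.sqrt T/4)) * Zm ε N c c' O O' V W R R' := by
  have hZ := Zm_nonneg (ε := ε) (N := N) (c := c) (c' := c') (O := O) (O' := O') hR hR'
  set Z := Zm ε N c c' O O' V W R R' with hZd
  have hCA := (CA_pos ε).le
  have hT0 : (0:ℝ) < T := (Real.exp_pos _).trans_le hT
  set G := K * CA ε * Real.exp (-(Real.sqrt T/4)) * Z with hG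
  have hG0 : 0 ≤ G := by positivity
  have key : ∀ n : ℕ, ∀ E : Finset (ℕ × ℕ), E ⊆ V ×ˢ W → (∀ e ∈ E, T < Dc O O' R R' e) →
      (∀ e ∈ E, Dc O O' R R' e ≤ T * 2^n) →
      (∀ e ∈ E, 1 ≤ SA O O' (Real.sqrt (Dc O O' R R' e)) e) →
      (∀ e ∈ E, F e ≤ K * ((mu O' R e.1 * mu O R' e.2) *
        Real.exp (2 * SA O O' (Real.sqrt (Dc O O' R R' e)) e))) → ∑ e ∈ E, F e ≤ G * (1 - (1/2)^n) := by
    intro n
    induction n with
    | zero =>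
      intro E hE h1 h2 _ _
      have : E = ∅ := by
        rw [Finset.eq_empty_iff_forall_notMem]
        intro e he
        have a := h1 e he
        have b := h2 e he
        rw [pow_zero, mul_one] at b
        linarith
      rw [this]; simp
    | succ n ih =>
      intro E hE h1 h2 h3 h4
      set E1 := E.filter (fun e => Dc O O' R R' e ≤ T * 2^n) with hE1
      set E2 := E.filter (fun e => ¬ Dc O O' R R' e ≤ T * 2^n) with hE2
      have hsplit : ∑ e ∈ E, F e = ∑ e ∈ E1, F e + ∑ e ∈ E2, F e := by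
        rw [hE1, hE2, Finset.sum_filter_add_sum_filter_not]
      have s1 : ∀ e ∈ E1, e ∈ E := fun e he => (Finset.mem_filter.1 he).1
      have s2 : ∀ e ∈ E2, e ∈ E := fun e he => (Finset.mem_filter.1 he).1
      have b1 := ih E1 (fun e he => hE (s1 e he)) (fun e he => h1 e (s1 e he))
        (fun e he => (Finset.mem_filter.1 he).2) (fun e he => h3 e (s1 e he))
        (fun e he => h4 e (s1 e he))
      have h2n : (1:ℝ) ≤ (2:ℝ)^n := one_le_pow₀ (by norm_num)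
      have hTn : Real.exp 32 ≤ T * 2^n := hT.trans (by nlinarith)
      have b2 := bad_anatQ hε hε4 (N := N) hO hO' hV hW hR hR' hc hc' hK hTn E2
        (fun e he => hE (s2 e he)) (fun e he => not_le.1 (Finset.mem_filter.1 he).2)
        (fun e he => by have := h2 e (s2 e he); rw [pow_succ] at this; linarith)
        (fun e he => h3 e (s2 e he)) (fun e he => h4 e (s2 e he))
      have e3 := lev_expQ hε hT n
      have b3 : ∑ e ∈ E2, F e ≤ G * (1/2)^(n+1) := by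
        refine b2.trans ?_
        rw [← hZd]
        have e4 : K * Real.exp (-(Real.sqrt (T*2^n)/2)) * (CA ε * (2*(T*2^n))^(1-2*ε)) * Z =
            (K * CA ε * Z) * (Real.exp (-(Real.sqrt (T*2^n)/2)) * (2*(T*2^n))^(1-2*ε)) := by ring
        rw [e4]
        refine (mul_le_mul_of_nonneg_left e3 (by positivity)).trans (le_of_eq ?_)
        rw [hG]; ring
      rw [hsplit]
      have e6 : G * (1 - (1/2)^n) + G * (1/2)^(n+1) = G * (1 - (1/2)^(n+1)) := by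
        rw [pow_succ]; ring
      linarith
  obtain ⟨n, hn⟩ := pow_unbounded_of_one_lt (∑ e ∈ E, |Dc O O' R R' e|) (by norm_num : (1:ℝ) < 2)
  have h2 : ∀ e ∈ E, Dc O O' R R' e ≤ T * 2^n := by
    intro e he
    have a1 := Finset.single_le_sum (f := fun e => |Dc O O' R R' e|) (fun e _ => abs_nonneg _) he
    have a3 := le_abs_self (Dc O O' R R' e)
    have a4 : |Dc O O' R R' e| ≤ ∑ e ∈ E, |Dc O O' R R' e| := a1
    have hT1 : (1:ℝ) ≤ T := by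
      have : (32:ℝ) + 1 ≤ Real.exp 32 := Real.add_one_le_exp 32
      linarith
    have a5 : (2:ℝ)^n ≤ T * 2^n := by
      have : (0:ℝ) ≤ (2:ℝ)^n := by positivity
      nlinarith
    linarith
  have fin := key n E hE h1 h2 hS hF
  have : G * (1 - (1/2)^n) ≤ G := by
    have : (0:ℝ) ≤ (1/2)^n := by positivity
    nlinarith
  exact fin.trans this

/-- the weight of a pair, threshold `T`, anatomy at `√D` -/
noncomputable def wQ (O O' : Finset ℕ) (T D : ℝ) (e : ℕ × ℕ) : ℝ :=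
  if D ≤ T then 1 else Real.exp (2 * SA O O' (Real.sqrt D) e)

lemma wQ_pos (O O' : Finset ℕ) (T D : ℝ) (e : ℕ × ℕ) : 0 < wQ O O' T D e := by
  unfold wQ; split_ifs
  · exact one_pos
  · exact Real.exp_pos _

open Classical in
/-- **pairs with `D ≤ T` (weight 1) or bad anatomy at `√D` (weight `e^{2 SA(√D)}`)** -/
theorem ll_allQ {ε : ℝ} (hε : 0 < ε) (hε4 : ε ≤ 1/4) {N : ℕ} {O O' V W : Finset ℕ}
    {R R' : ℕ → ℝ} (hO : ∀ p ∈ O, p.Prime ∧ N ≤ p) (hO' : ∀ p ∈ O', p.Prime ∧ N ≤ p)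
    (hV : ∀ w ∈ V, 0 < w) (hW : ∀ w ∈ W, 0 < w) (hR : ∀ w ∈ V, 0 ≤ R w) (hR' : ∀ w ∈ W, 0 ≤ R' w)
    {c c' : ℝ}
    (hc : ∀ r ∈ W, c ≤ ∑ p ∈ O.filter (fun p => ¬ p ∣ r), 1/(p:ℝ))
    (hc' : ∀ q ∈ V, c' ≤ ∑ p ∈ O'.filter (fun p => ¬ p ∣ q), 1/(p:ℝ))
    {K : ℝ} (hK : 0 ≤ K) {F : ℕ × ℕ → ℝ} {T : ℝ} (hT : Real.exp 32 ≤ T)
    (E : Finset (ℕ × ℕ)) (hE : E ⊆ V ×ˢ W)
    (hcase : ∀ e ∈ E, Dc O O' R R' e ≤ T ∨ 1 ≤ SA O O' (Real.sqrt (Dc O O' R R' e)) e)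
    (hF : ∀ e ∈ E, F e ≤ K * ((mu O' R e.1 * mu O R' e.2) * wQ O O' T (Dc O O' R R' e) e)) :
    ∑ e ∈ E, F e ≤ K * (KH 1 0 ε * T^(1-2*ε) + CA ε * Real.exp (-(Real.sqrt T/4))) *
      Zm ε N c c' O O' V W R R' := by
  have hT0 : (0:ℝ) < T := (Real.exp_pos _).trans_le hT
  set E1 := E.filter (fun e => Dc O O' R R' e ≤ T) with hE1
  set E2 := E.filter (fun e => ¬ Dc O O' R R' e ≤ T) with hE2
  have hsplit : ∑ e ∈ E, F e = ∑ e ∈ E1, F e + ∑ e ∈ E2, F e := by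
    rw [hE1, hE2, Finset.sum_filter_add_sum_filter_not]
  have b1 := mid_P hε hε4 (N := N) (E := E1) (T := T) (K := K) (F := F) hO hO' hV hW
    hR hR' (fun e he => hE (Finset.mem_filter.1 he).1) hc hc' hT0 hK
    (fun e he => (Finset.mem_filter.1 he).2)
    (fun e he => by
      have h1 := hF e (Finset.mem_filter.1 he).1
      unfold wQ at h1
      rwa [if_pos (Finset.mem_filter.1 he).2, mul_one] at h1)
  have b2 := bad_allQ hε hε4 (N := N) (K := K) (F := F) (T := T) hO hO' hV hW hR hR' hc hc' hK hT E2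
    (fun e he => hE (Finset.mem_filter.1 he).1)
    (fun e he => not_le.1 (Finset.mem_filter.1 he).2)
    (fun e he => by
      rcases hcase e (Finset.mem_filter.1 he).1 with h | h
      · exact absurd h (Finset.mem_filter.1 he).2
      · exact h)
    (fun e he => by
      have h1 := hF e (Finset.mem_filter.1 he).1
      unfold wQ at h1
      rwa [if_neg (Finset.mem_filter.1 he).2] at h1)
  rw [hsplit]
  refine (add_le_add b1 b2).trans (le_of_eq ?_)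
  ring

open Classical in
/-- `ll_allQ` with raw masses and the Rankin factor bounded (`Σ 1/p ≤ 1` on both sides) -/
theorem ll_allQR {ε : ℝ} (hε : 0 < ε) (hε4 : ε ≤ 1/4) {N : ℕ} {O O' V W : Finset ℕ}
    {R R' : ℕ → ℝ} (hO : ∀ p ∈ O, p.Prime ∧ N ≤ p) (hO' : ∀ p ∈ O', p.Prime ∧ N ≤ p)
    (hsO : ∑ p ∈ O, 1/(p:ℝ) ≤ 1) (hsO' : ∑ p ∈ O', 1/(p:ℝ) ≤ 1)
    (hV : ∀ w ∈ V, 0 < w) (hW : ∀ w ∈ W, 0 < w) (hR : ∀ w ∈ V, 0 ≤ R w) (hR' : ∀ w ∈ W, 0 ≤ R' w)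
    {K L L' : ℝ} (hK : 0 ≤ K) (hL : 0 ≤ L) (hL' : 0 ≤ L')
    (hLV : ∀ w ∈ V, R w ≤ L * mu O' R w) (hLW : ∀ w ∈ W, R' w ≤ L' * mu O R' w)
    {F : ℕ × ℕ → ℝ} {T : ℝ} (hT : Real.exp 32 ≤ T)
    (E : Finset (ℕ × ℕ)) (hE : E ⊆ V ×ˢ W)
    (hcase : ∀ e ∈ E, Dc O O' R R' e ≤ T ∨ 1 ≤ SA O O' (Real.sqrt (Dc O O' R R' e)) e)
    (hF : ∀ e ∈ E, F e ≤ K * ((R e.1 * R' e.2) * wQ O O' T (Dc O O' R R' e) e)) :
    ∑ e ∈ E, F e ≤ K * (L * L') * (Real.exp 3 * (KH 1 0 ε * T^(1-2*ε) + CA ε)) *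
      ((∑ q ∈ V, mu O' R q) * (∑ r ∈ W, mu O R' r))^(1/2+ε) := by
  have c0 : ∀ r ∈ W, (0:ℝ) ≤ ∑ p ∈ O.filter (fun p => ¬ p ∣ r), 1/(p:ℝ) := fun r _ =>
    Finset.sum_nonneg fun p _ => by positivity
  have c0' : ∀ r ∈ V, (0:ℝ) ≤ ∑ p ∈ O'.filter (fun p => ¬ p ∣ r), 1/(p:ℝ) := fun r _ =>
    Finset.sum_nonneg fun p _ => by positivity
  have hT0 : (0:ℝ) < T := (Real.exp_pos _).trans_le hT
  have h := ll_allQ hε hε4 (N := N) (K := K * (L * L')) (F := F) (T := T) hO hO' hV hW hR hR' c0 c0'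
    (by positivity) hT E hE hcase (fun e he => by
      have h := Finset.mem_product.1 (hE he)
      have w0 := (wQ_pos O O' T (Dc O O' R R' e) e).le
      have m1 : 0 ≤ mu O' R e.1 := mu_nonneg (hR _ h.1)
      have a1 := mul_le_mul (hLV _ h.1) (hLW _ h.2) (hR' _ h.2) (mul_nonneg hL m1)
      refine (hF e he).trans ?_
      have a2 := mul_le_mul_of_nonneg_left (mul_le_mul_of_nonneg_right a1 w0) hK
      refine a2.trans (le_of_eq ?_)
      ring)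
  refine h.trans ?_
  unfold Zm
  have hmm : 0 ≤ (∑ q ∈ V, mu O' R q) * (∑ r ∈ W, mu O R' r) :=
    mul_nonneg (Finset.sum_nonneg fun q hq => mu_nonneg (hR q hq))
      (Finset.sum_nonneg fun q hq => mu_nonneg (hR' q hq))
  set Z0 := ((∑ q ∈ V, mu O' R q) * (∑ r ∈ W, mu O R' r))^(1/2+ε) with hZ0
  have hZ00 : 0 ≤ Z0 := Real.rpow_nonneg hmm _
  have hexp1 : Real.exp ((1/2-ε) * (-(N*0) + 3 * (∑ p ∈ O, 1/(p:ℝ)) + (-(N*0) + 3 * ∑ p ∈ O', 1/(p:ℝ)))) ≤ Real.exp 3 := by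
    apply Real.exp_le_exp.2
    nlinarith [hsO, hsO']
  have h9 : Real.exp (-(Real.sqrt T/4)) ≤ 1 :=
    Real.exp_le_one_iff.2 (by have := Real.sqrt_nonneg T; linarith)
  have hCA := (CA_pos ε).le
  have hKH := (KH_pos 1 0 ε).le
  set X := Real.exp ((1/2-ε) * (-(N*0) + 3 * (∑ p ∈ O, 1/(p:ℝ)) + (-(N*0) + 3 * ∑ p ∈ O', 1/(p:ℝ)))) with hX
  have hX0 : 0 ≤ X := Real.exp_nonneg _
  calc K * (L * L') * (KH 1 0 ε * T^(1-2*ε) + CA ε * Real.exp (-(Real.sqrt T/4))) * (X * Z0)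
      ≤ K * (L * L') * (KH 1 0 ε * T^(1-2*ε) + CA ε * 1) * (Real.exp 3 * Z0) := by
        gcongr
    _ = _ := by ring

end Crest.Agent.R4P.LLNumP
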