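import Mathlib
import Crest.Agent.R4.HVWNum560

/-!
R4P (S0004), helper35, group [X]: sums over the exact classes (valuations `i ≠ j` of the two sides).
* `off_pairs`, `adj_pairs`, `two_sided` : Schur sums over pairs of classes `i ≠ j`, `|i-j| = 1`.
* `cls_split` : a sum over `V ×ˢ W` is the sum over the pairs of classes.
* `cls_sum`   : class bounds `A₁ q₁^|i-j| (x_i y_j)^s₁ + ... + [|i-j|=1] A₃ (x_i y_j)^s₃` give the bound of the whole sum.
-/

set_option autoImplicit false
open Finset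

namespace Crest.Agent.R4P.ClsSum
open Crest.Agent.R4.HVW560

lemma dst_eq_zero {k l : ℕ} : dst k l = 0 ↔ k = l := by unfold dst; omega

/-- Schur sum over pairs of different classes -/
theorem off_pairs {q s : ℝ} (h0 : 0 ≤ q) (h1 : q ≤ 8/9) (hs : 1/2 ≤ s) (n : ℕ) (S T : Finset ℕ)
    (hS : S ⊆ range n) (hT : T ⊆ range n) (a b : ℕ → ℝ) (ha : ∀ k ∈ S, 0 ≤ a k) (hb : ∀ k ∈ T, 0 ≤ b k) :
    ∑ k ∈ S, ∑ l ∈ T, (if k = l then 0 else q^(dst k l)) * (a k * b l)^s
      ≤ 18 * q * ((∑ k ∈ S, a k) * (∑ l ∈ T, b l))^s := by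
  classical
  refine schur_rpow S T (fun k l => if k = l then 0 else q^(dst k l)) a b hs ?_ ?_ ?_ (by positivity) ha hb
  · intro i _ j _; split_ifs
    · exact le_refl _
    · positivity
  · intro k _
    calc ∑ l ∈ T, (if k = l then 0 else q^(dst k l))
        ≤ ∑ l ∈ range n, (if k = l then 0 else q^(dst k l)) := by
          apply Finset.sum_le_sum_of_subset_of_nonneg hT
          intro i _ _; split_ifs
          · exact le_refl _
          · positivity
      _ ≤ ∑ l ∈ (range n).erase k, q^(dst k l) := by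
          rw [← Finset.sum_filter_add_sum_filter_not (range n) (fun l => k = l)]
          have e1 : ∑ l ∈ (range n).filter (fun l => k = l), (if k = l then 0 else q^(dst k l)) = 0 := by
            apply Finset.sum_eq_zero; intro l hl; rw [if_pos (Finset.mem_filter.1 hl).2]
          rw [e1, zero_add]
          refine le_trans (le_of_eq (Finset.sum_congr rfl fun l hl => if_neg (Finset.mem_filter.1 hl).2)) ?_
          apply Finset.sum_le_sum_of_subset_of_nonneg
          · intro l hl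
            rw [Finset.mem_filter] at hl
            rw [Finset.mem_erase]
            exact ⟨fun h => hl.2 h.symm, hl.1⟩
          · intro i _ _; positivity
      _ ≤ 18 * q := offrow h0 h1 n k
  · intro l _
    calc ∑ k ∈ S, (if k = l then 0 else q^(dst k l))
        ≤ ∑ k ∈ range n, (if k = l then 0 else q^(dst k l)) := by
          apply Finset.sum_le_sum_of_subset_of_nonneg hS
          intro i _ _; split_ifs
          · exact le_refl _
          · positivity
      _ ≤ ∑ k ∈ (range n).erase l, q^(dst k l) := by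
          rw [← Finset.sum_filter_add_sum_filter_not (range n) (fun k => k = l)]
          have e1 : ∑ k ∈ (range n).filter (fun k => k = l), (if k = l then 0 else q^(dst k l)) = 0 := by
            apply Finset.sum_eq_zero; intro k hk; rw [if_pos (Finset.mem_filter.1 hk).2]
          rw [e1, zero_add]
          refine le_trans (le_of_eq (Finset.sum_congr rfl fun k hk => if_neg (Finset.mem_filter.1 hk).2)) ?_
          apply Finset.sum_le_sum_of_subset_of_nonneg
          · intro k hk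
            rw [Finset.mem_filter] at hk
            rw [Finset.mem_erase]
            exact ⟨hk.2, hk.1⟩
          · intro i _ _; positivity
      _ ≤ 18 * q := offrow' h0 h1 n l

/-- sum over neighbouring classes -/
theorem adj_pairs {s : ℝ} (hs : 1/2 ≤ s) (S T : Finset ℕ) (a b : ℕ → ℝ)
    (ha : ∀ k ∈ S, 0 ≤ a k) (hb : ∀ k ∈ T, 0 ≤ b k) :
    ∑ k ∈ S, ∑ l ∈ T, (if dst k l = 1 then 1 else 0) * (a k * b l)^s
      ≤ 2 * ((∑ k ∈ S, a k) * (∑ l ∈ T, b l))^s := by
  classical
  have key : ∀ (U : Finset ℕ) (k : ℕ), ∑ l ∈ U, (if dst k l = 1 then (1:ℝ) else 0) ≤ 2 := by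
    intro U k
    rw [← Finset.sum_filter, Finset.sum_const, nsmul_eq_mul, mul_one]
    have : U.filter (fun l => dst k l = 1) ⊆ {k - 1, k + 1} := by
      intro l hl
      rw [Finset.mem_filter] at hl
      have h := hl.2
      unfold dst at h
      rw [Finset.mem_insert, Finset.mem_singleton]
      omega
    have h2 := (Finset.card_le_card this).trans Finset.card_le_two
    exact_mod_cast h2
  refine schur_rpow S T (fun k l => if dst k l = 1 then 1 else 0) a b hs ?_ ?_ ?_ (by norm_num) ha hb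
  · intro i _ j _; split_ifs <;> norm_num
  · intro k _; exact key T k
  · intro l _
    refine le_trans (le_of_eq (Finset.sum_congr rfl fun k _ => ?_)) (key S l)
    rw [dst_comm]

/-- a sum over `V ×ˢ W` by classes -/
theorem cls_split {α β : Type*} (V : Finset α) (W : Finset β) (f : α → ℕ) (g : β → ℕ)
    (F : α → β → ℝ) :
    ∑ v ∈ V, ∑ w ∈ W, F v w =
      ∑ i ∈ V.image f, ∑ j ∈ W.image g, ∑ v ∈ V.filter (fun v => f v = i), ∑ w ∈ W.filter (fun w => g w = j), F v w := by
  classical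
  rw [← Finset.sum_fiberwise_of_maps_to (s := V) (t := V.image f) (g := f)
    (fun v hv => Finset.mem_image_of_mem f hv) (fun v => ∑ w ∈ W, F v w)]
  refine Finset.sum_congr rfl fun i _ => ?_
  rw [Finset.sum_comm (s := W.image g)]
  refine Finset.sum_congr rfl fun v _ => ?_
  rw [← Finset.sum_fiberwise_of_maps_to (s := W) (t := W.image g) (g := g)
    (fun w hw => Finset.mem_image_of_mem g hw) (fun w => F v w)]

lemma image_sub_range {α : Type*} (V : Finset α) (f : α → ℕ) : V.image f ⊆ range (V.sup f + 1) := by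
  classical
  intro i hi
  obtain ⟨v, hv, rfl⟩ := Finset.mem_image.1 hi
  rw [Finset.mem_range]
  exact Nat.lt_succ_of_le (Finset.le_sup (f := f) hv)

lemma sum_image_cls {α : Type*} (V : Finset α) (f : α → ℕ) (x : α → ℝ) :
    ∑ i ∈ V.image f, ∑ v ∈ V.filter (fun v => f v = i), x v = ∑ v ∈ V, x v := by
  classical
  exact Finset.sum_fiberwise_of_maps_to (fun v hv => Finset.mem_image_of_mem f hv) x

/-- **sum over the classes**: pair sums bounded class by class, with three kinds of terms -/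
theorem cls_sum {α β : Type*} (V : Finset α) (W : Finset β) (f : α → ℕ) (g : β → ℕ)
    (F : α → β → ℝ) (x x1 : α → ℝ) (y y1 : β → ℝ)
    (hx : ∀ v ∈ V, 0 ≤ x v) (hy : ∀ w ∈ W, 0 ≤ y w) (hx1 : ∀ v ∈ V, 0 ≤ x1 v) (hy1 : ∀ w ∈ W, 0 ≤ y1 w)
    {q₁ q₂ A₁ A₂ A₃ s₁ s₂ s₃ : ℝ} (hq₁ : 0 ≤ q₁) (hq₁' : q₁ ≤ 8/9) (hq₂ : 0 ≤ q₂) (hq₂' : q₂ ≤ 8/9)
    (hA₁ : 0 ≤ A₁) (hA₂ : 0 ≤ A₂) (hA₃ : 0 ≤ A₃) (hs₁ : 1/2 ≤ s₁) (hs₂ : 1/2 ≤ s₂) (hs₃ : 1/2 ≤ s₃)
    (hF : ∀ v ∈ V, ∀ w ∈ W, f v = g w → F v w = 0)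
    (h : ∀ i j : ℕ, i ≠ j → ∑ v ∈ V.filter (fun v => f v = i), ∑ w ∈ W.filter (fun w => g w = j), F v w ≤
      A₁ * q₁^(dst i j) * ((∑ v ∈ V.filter (fun v => f v = i), x v) *
        (∑ w ∈ W.filter (fun w => g w = j), y w))^s₁ +
      A₂ * q₂^(dst i j) * ((∑ v ∈ V.filter (fun v => f v = i), x1 v) *
        (∑ w ∈ W.filter (fun w => g w = j), y1 w))^s₂ +
      (if dst i j = 1 then A₃ else 0) * ((∑ v ∈ V.filter (fun v => f v = i), x v) *
        (∑ w ∈ W.filter (fun w => g w = j), y w))^s₃) :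
    ∑ v ∈ V, ∑ w ∈ W, F v w ≤
      18 * q₁ * A₁ * ((∑ v ∈ V, x v) * (∑ w ∈ W, y w))^s₁ +
      18 * q₂ * A₂ * ((∑ v ∈ V, x1 v) * (∑ w ∈ W, y1 w))^s₂ +
      2 * A₃ * ((∑ v ∈ V, x v) * (∑ w ∈ W, y w))^s₃ := by
  classical
  set n := max (V.sup f + 1) (W.sup g + 1) with hn
  have hSn : V.image f ⊆ range n := (image_sub_range V f).trans (range_subset_range.2 (le_max_left _ _))
  have hTn : W.image g ⊆ range n := (image_sub_range W g).trans (range_subset_range.2 (le_max_right _ _))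
  set a : ℕ → ℝ := fun i => ∑ v ∈ V.filter (fun v => f v = i), x v with ha
  set b : ℕ → ℝ := fun j => ∑ w ∈ W.filter (fun w => g w = j), y w with hb
  set a1 : ℕ → ℝ := fun i => ∑ v ∈ V.filter (fun v => f v = i), x1 v with ha1
  set b1 : ℕ → ℝ := fun j => ∑ w ∈ W.filter (fun w => g w = j), y1 w with hb1
  have ea : ∑ i ∈ V.image f, a i = ∑ v ∈ V, x v := sum_image_cls V f x
  have eb : ∑ j ∈ W.image g, b j = ∑ w ∈ W, y w := sum_image_cls W g y
  have ea1 : ∑ i ∈ V.image f, a1 i = ∑ v ∈ V, x1 v := sum_image_cls V f x1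
  have eb1 : ∑ j ∈ W.image g, b1 j = ∑ w ∈ W, y1 w := sum_image_cls W g y1
  have ha0 : ∀ i, 0 ≤ a i := fun i => Finset.sum_nonneg fun v hv => hx v (Finset.mem_filter.1 hv).1
  have hb0 : ∀ i, 0 ≤ b i := fun i => Finset.sum_nonneg fun v hv => hy v (Finset.mem_filter.1 hv).1
  have ha10 : ∀ i, 0 ≤ a1 i := fun i => Finset.sum_nonneg fun v hv => hx1 v (Finset.mem_filter.1 hv).1
  have hb10 : ∀ i, 0 ≤ b1 i := fun i => Finset.sum_nonneg fun v hv => hy1 v (Finset.mem_filter.1 hv).1
  have k1 := off_pairs hq₁ hq₁' hs₁ n (V.image f) (W.image g) hSn hTn a b (fun k _ => ha0 k) (fun k _ => hb0 k)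
  have k2 := off_pairs hq₂ hq₂' hs₂ n (V.image f) (W.image g) hSn hTn a1 b1 (fun k _ => ha10 k) (fun k _ => hb10 k)
  have k3 := adj_pairs hs₃ (V.image f) (W.image g) a b (fun k _ => ha0 k) (fun k _ => hb0 k)
  rw [ea, eb] at k1 k3
  rw [ea1, eb1] at k2
  rw [cls_split V W f g F]
  have step : ∀ i ∈ V.image f, ∀ j ∈ W.image g,
      ∑ v ∈ V.filter (fun v => f v = i), ∑ w ∈ W.filter (fun w => g w = j), F v w ≤
      A₁ * ((if i = j then 0 else q₁^(dst i j)) * (a i * b j)^s₁) +
      A₂ * ((if i = j then 0 else q₂^(dst i j)) * (a1 i * b1 j)^s₂) +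
      A₃ * ((if dst i j = 1 then 1 else 0) * (a i * b j)^s₃) := by
    intro i _ j _
    by_cases hij : i = j
    · have e0 : ∑ v ∈ V.filter (fun v => f v = i), ∑ w ∈ W.filter (fun w => g w = j), F v w = 0 := by
        refine Finset.sum_eq_zero fun v hv => Finset.sum_eq_zero fun w hw => ?_
        rw [Finset.mem_filter] at hv hw
        exact hF v hv.1 w hw.1 (by rw [hv.2, hw.2, hij])
      rw [e0, if_pos hij, if_pos hij]
      have h3 : 0 ≤ (a i * b j)^s₃ := Real.rpow_nonneg (mul_nonneg (ha0 i) (hb0 j)) _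
      have : (0:ℝ) ≤ (if dst i j = 1 then 1 else 0) := by split_ifs <;> norm_num
      simp only [zero_mul, mul_zero, zero_add]
      positivity
    · rw [if_neg hij, if_neg hij]
      refine (h i j hij).trans (le_of_eq ?_)
      show A₁ * q₁^(dst i j) * (a i * b j)^s₁ + A₂ * q₂^(dst i j) * (a1 i * b1 j)^s₂ +
        (if dst i j = 1 then A₃ else 0) * (a i * b j)^s₃ = _
      by_cases hd : dst i j = 1
      · rw [if_pos hd, if_pos hd]; ring
      · rw [if_neg hd, if_neg hd]; ring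
  refine (Finset.sum_le_sum fun i hi => Finset.sum_le_sum fun j hj => step i hi j hj).trans ?_
  simp only [Finset.sum_add_distrib, ← Finset.mul_sum]
  have m1 := mul_le_mul_of_nonneg_left k1 hA₁
  have m2 := mul_le_mul_of_nonneg_left k2 hA₂
  have m3 := mul_le_mul_of_nonneg_left k3 hA₃
  linarith

end Crest.Agent.R4P.ClsSum
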