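import Crest.Agent.R4P.LinkG223

/-!
R4P (S0004), helper35, group [X]: link of the `[F]` pairs of a crossing level with the index below, when the
crossing factor may sit in the averaging factor `rf` (pending pull) or in `β`.
`xm f m ρ` = the factor which is left of `m = β * rf w M` when `f ∣ m` is removed (if `f` divides the numerator
of the label). Generalises `LinkG223.side_st / same_of_FG / FG_lower / PE_FG_lower` (there `f = β`).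
`PE_FG_s` : the final form for `ShotP_33` (factor `P * P' = s ^ ex`, `s` the crossing prime).
-/

set_option autoImplicit false
set_option linter.unusedSectionVars false
set_option linter.unusedVariables false
open MeasureTheory Filter

namespace Crest.Agent.R4P.LinkF35

open Crest.Agent.R4.Tour104 Crest.Agent.R4.Tour758 Crest.Agent.R4.Avg758 Crest.Agent.R4.Clos758
open Crest.Agent.R4.ClosL758 Crest.Agent.R4.ClosG758 Crest.Agent.R4.ClosR758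
open Crest.Agent.R4.Fam464 Crest.Agent.R4P.Cnt588 Crest.Agent.R4P.Walk560 Crest.Agent.R4P.Item758
open Crest.Agent.R4.Piece464 Crest.Agent.R4P.W363 Crest.Agent.R4P.AvgItem710
open Crest.Agent.R4P.Data758
open Crest.Agent.R4.LF363 (Lab lab_unique)
open Crest.Agent.R4.Dich579 (FF)
open Crest.Agent.R4P.Link758
open Crest.Agent.R4.Bad223
open Crest.Agent.R4.LinkG223 (lab_good)

variable {c : Cf} {n : ℕ}

/-- the factor of a side which is left: `m / f` if `f` divides the numerator of the label -/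
noncomputable def xm (f m : ℕ) (ρ : ℚ) : ℕ := if (f : ℤ) ∣ ρ.num then m / f else m

lemma xm_le {f m : ℕ} (ρ : ℚ) : xm f m ρ ≤ m := by
  unfold xm; split_ifs
  · exact Nat.div_le_self _ _
  · exact le_rfl

/-- the state of one side -/
lemma side_st {l : ℕ} {t : ℝ} (ht : 1 ≤ t) {q B w M k₀ y₁ β f : ℕ} {ρ : ℚ} (b0 : 0 < Bl c l q)
    (k0 : 0 < k₀) (r0 : 0 < rf w M) (y0 : 0 < y₁) (β0 : 0 < β) (hf : f ∣ β * rf w M)
    (hB : B = k₀ * Bl c l q)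
    (hm : ((xm f (β * rf w M) ρ * k₀ : ℕ) : ℝ) ≤ t ^ (1/10 : ℝ))
    (hyr : (y₁ : ℝ) * (β * (rf w M * (B * c.r q))) ≤ 1 / t)
    (hL : Lab (β * (rf w M * (B * c.γ))) (β * (rf w M * (B * c.r q))) ρ)
    (hd : (ρ.den : ℝ) ≤ t ^ (21/200 : ℝ))
    (hn : |β * (rf w M * (B * c.γ)) - ρ| ≤ t ^ (39/200 : ℝ) * (β * (rf w M * (B * c.r q))))
    (hth : (Bl c l q : ℝ) * c.r q ≤ c.wp.thr l) :
    ∃ σ : ℚ, c.wp.st c.γ c.r c.t l q = some σ ∧ (β : ℝ) * ((rf w M : ℝ) * (B * σ)) = ρ := by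
  -- the case of a general factor `m`
  have key : ∀ {m : ℕ} {ρ : ℚ}, 0 < m → ((m * k₀ : ℕ) : ℝ) ≤ t ^ (1/10 : ℝ) →
      (y₁ : ℝ) * (m * (B * c.r q)) ≤ 1 / t →
      Lab (m * (B * c.γ)) (m * (B * c.r q)) ρ →
      (ρ.den : ℝ) ≤ t ^ (21/200 : ℝ) →
      |m * (B * c.γ) - ρ| ≤ t ^ (39/200 : ℝ) * (m * (B * c.r q)) →
      ∃ σ : ℚ, c.wp.st c.γ c.r c.t l q = some σ ∧ (m : ℝ) * (B * σ) = ρ := by
    intro m ρ m0 hm hyr hL hd hn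
    have e1 : (m : ℝ) * (B * c.γ) = ((m * k₀ : ℕ) : ℝ) * (Bl c l q * c.γ) := by
      rw [hB]; push_cast; ring
    have e2 : (m : ℝ) * (B * c.r q) = ((m * k₀ : ℕ) : ℝ) * (Bl c l q * c.r q) := by
      rw [hB]; push_cast; ring
    rw [e1, e2] at hL hn
    rw [e2] at hyr
    have hpos := hL.pos
    have hy1 : (1 : ℝ) ≤ y₁ := by exact_mod_cast y0
    have hr1 : ((m * k₀ : ℕ) : ℝ) * (Bl c l q * c.r q) ≤ 1 / t :=
      (le_mul_of_one_le_left hpos.le hy1).trans hyr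
    have hlab := lab_div (Nat.mul_pos m0 k0) ht hm hL hd hn hr1
    refine ⟨_, st_of_lab hth hlab, ?_⟩
    have b0' : (Bl c l q : ℝ) ≠ 0 := by exact_mod_cast b0.ne'
    have k0' : (k₀ : ℝ) ≠ 0 := by exact_mod_cast k0.ne'
    have m0' : (m : ℝ) ≠ 0 := by exact_mod_cast m0.ne'
    rw [hB]
    push_cast
    field_simp
  have m0 : 0 < β * rf w M := Nat.mul_pos β0 r0
  have eγ : (β : ℝ) * (rf w M * (B * c.γ)) = ((β * rf w M : ℕ) : ℝ) * (B * c.γ) := by push_cast; ring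
  have er : (β : ℝ) * (rf w M * (B * c.r q)) = ((β * rf w M : ℕ) : ℝ) * (B * c.r q) := by push_cast; ring
  rw [eγ, er] at hL hn
  rw [er] at hyr
  have fin : ∀ σ : ℚ, (β : ℝ) * ((rf w M : ℝ) * (B * σ)) = ((β * rf w M : ℕ) : ℝ) * (B * σ) := by
    intro σ; push_cast; ring
  by_cases hdv : (f : ℤ) ∣ ρ.num
  · have f0 : 0 < f := Nat.pos_of_dvd_of_pos hf m0
    obtain ⟨m₁, hm₁⟩ := hf
    have m10 : 0 < m₁ := by
      rcases Nat.eq_zero_or_pos m₁ with h | h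
      · rw [h, mul_zero] at hm₁; omega
      · exact h
    have ex : xm f (β * rf w M) ρ = m₁ := by
      unfold xm; rw [if_pos hdv, hm₁]; exact Nat.mul_div_cancel_left _ f0
    rw [ex] at hm
    have c1 : ∀ z : ℝ, ((β * rf w M : ℕ) : ℝ) * z = f * (m₁ * z) := by
      intro z; rw [hm₁]; push_cast; ring
    rw [c1, c1] at hL hn
    rw [c1] at hyr
    obtain ⟨l1, l2, l3⟩ := lab_good (t := t) f0 hdv hL hd hn
    have hf0 : (0 : ℝ) < f := by exact_mod_cast f0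
    have hf1 : (1 : ℝ) ≤ f := by exact_mod_cast f0
    have hr : 0 < (m₁ : ℝ) * (B * c.r q) := pos_of_mul_pos_right hL.pos hf0.le
    obtain ⟨σ, s1, s2⟩ := key m10 hm (by
      refine le_trans ?_ hyr
      exact mul_le_mul_of_nonneg_left (le_mul_of_one_le_left hr.le hf1) (by positivity))
      l1 l2 l3
    refine ⟨σ, s1, ?_⟩
    rw [fin, c1, s2]
    push_cast
    field_simp
  · have ex : xm f (β * rf w M) ρ = β * rf w M := by unfold xm; rw [if_neg hdv]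
    rw [ex] at hm
    obtain ⟨σ, s1, s2⟩ := key m0 hm hyr hL hd hn
    exact ⟨σ, s1, by rw [fin]; exact s2⟩

/-- **[F] pairs of a crossing level have the same index below.** -/
theorem same_of_FG (h : c.Ok n) {l : ℕ} (hl : l ≤ n) {j j' : c.Lam} {B w M B' w' M' : ℕ}
    {κ κ' : ℤ → ℝ} {y z z' : ℝ} {i a i' a' : ℤ}
    (hP : Pt c.γ (c.D.al j) (c.D.be j) B w M κ y i a z)
    (hP' : Pt c.γ (c.D.al j') (c.D.be j') B' w' M' κ' y i' a' z')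
    (hM : 0 < M) (hM' : 0 < M') (hB : 0 < B) (hB' : 0 < B') (hw : 0 < w) (hw' : 0 < w')
    {x y₁ pr pr' β₁ β₂ : ℕ} (hβ₁ : 0 < β₁) (hβ₂ : 0 < β₂)
    (hx : 0 < x) (hy : 0 < y₁) (hpr : 0 < pr) (hpr' : 0 < pr') (hq : j.1.1 = pr * w)
    (hq' : j'.1.1 = pr' * w') (hcirc : pr * M * B = pr' * M' * B')
    (hxy : (w / M.gcd w) * (β₁ * y₁) = (w' / M'.gcd w') * (β₂ * x))
    {k₀ k₀' : ℕ} (hk : B = k₀ * Bl c l j.1.1) (hk' : B' = k₀' * Bl c l j'.1.1)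
    (hthin : (Bl c l j.1.1 : ℝ) * c.r j.1.1 ≤ c.wp.thr l)
    (hthin' : (Bl c l j'.1.1 : ℝ) * c.r j'.1.1 ≤ c.wp.thr l)
    (hac : ¬ Ac c l j.1.1) (hac' : ¬ Ac c l j'.1.1)
    {t : ℝ} (ht : 1 ≤ t) {ρ ρ' : ℚ} {f₁ f₂ : ℕ} (hf₁ : f₁ ∣ β₁ * rf w M) (hf₂ : f₂ ∣ β₂ * rf w' M')
    (hm : ((xm f₁ (β₁ * rf w M) ρ * k₀ : ℕ) : ℝ) ≤ t ^ (1/10 : ℝ))
    (hm' : ((xm f₂ (β₂ * rf w' M') ρ' * k₀' : ℕ) : ℝ) ≤ t ^ (1/10 : ℝ))
    (hyr : (y₁ : ℝ) * (β₁ * (rf w M * (B * c.r j.1.1))) ≤ 1 / t)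
    (hxr : (x : ℝ) * (β₂ * (rf w' M' * (B' * c.r j'.1.1))) ≤ 1 / t)
    (hFF : FF (β₁ * (rf w M * (B * c.γ))) (β₂ * (rf w' M' * (B' * c.γ))) t
      (β₁ * (rf w M * (B * c.r j.1.1))) (β₂ * (rf w' M' * (B' * c.r j'.1.1))) x y₁ ρ ρ') :
    (j, j') ∉ Ro (c.D.rho l) := by
  have hb0 : 0 < Bl c l j.1.1 := Nat.pos_of_ne_zero fun h0 => by rw [hk, h0] at hB; simp at hB
  have hb0' : 0 < Bl c l j'.1.1 := Nat.pos_of_ne_zero fun h0 => by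
    rw [hk', h0] at hB'; simp at hB'
  have hk0 : 0 < k₀ := Nat.pos_of_ne_zero fun h0 => by rw [hk, h0] at hB; simp at hB
  have hk0' : 0 < k₀' := Nat.pos_of_ne_zero fun h0 => by rw [hk', h0] at hB'; simp at hB'
  have hr0 := rf_pos (w := w) hM
  have hr0' := rf_pos (w := w') hM'
  have ht0 : 0 < t := lt_of_lt_of_le one_pos ht
  obtain ⟨σ, s1, s2⟩ := side_st ht hb0 hk0 hr0 hy hβ₁ hf₁ hk hm hyr hFF.lab hFF.den hFF.near hthin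
  obtain ⟨τ, s1', s2'⟩ := side_st ht hb0' hk0' hr0' hx hβ₂ hf₂ hk' hm' hxr hFF.lab' hFF.den' hFF.near' hthin'
  intro hR
  rw [h.Ro_iff hl j j' hP.z1 hP.z2 hP'.z1 hP'.z2, st_of_not_Ac hac s1,
    st_of_not_Ac hac' s1'] at hR
  apply hR
  apply WP.ix_same_some
  refine off_eq_of_exact hP hP' hM hM' hB hw hw' (Nat.mul_pos hβ₂ hx) (Nat.mul_pos hβ₁ hy)
    hpr hpr' hq hq' hcirc hxy ?_
  have hz : |z| ≤ c.r j.1.1 := by
    rw [abs_le]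
    exact ⟨(h.bp_ge j _).trans hP.z1, (hP.z2.le).trans (h.bp_le j (Cf.k_lt j))⟩
  have hz' : |z'| ≤ c.r j'.1.1 := by
    rw [abs_le]
    exact ⟨(h.bp_ge j' _).trans hP'.z1, (hP'.z2.le).trans (h.bp_le j' (Cf.k_lt j'))⟩
  have hrel := rel_pts hP hP' hM hM' hw hw' hxy
  have hex := hFF.exact ((β₁ : ℤ) * num w M i a) ((β₂ : ℤ) * num w' M' i' a') (by
    have u1 : ((β₁ * y₁ : ℕ) : ℝ) * (rf w M * (B * |z|)) ≤
        y₁ * (β₁ * (rf w M * (B * c.r j.1.1))) := by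
      push_cast
      calc (β₁ : ℝ) * y₁ * (rf w M * (B * |z|)) ≤ (β₁ : ℝ) * y₁ * (rf w M * (B * c.r j.1.1)) := by gcongr
        _ = _ := by ring
    have u2 : ((β₂ * x : ℕ) : ℝ) * (rf w' M' * (B' * |z'|)) ≤
        x * (β₂ * (rf w' M' * (B' * c.r j'.1.1))) := by
      push_cast
      calc (β₂ : ℝ) * x * (rf w' M' * (B' * |z'|)) ≤ (β₂ : ℝ) * x * (rf w' M' * (B' * c.r j'.1.1)) := by
            gcongr
        _ = _ := by ring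
    have e : ((((β₁ : ℤ) * num w M i a : ℤ) : ℝ) + β₁ * (rf w M * (B * c.γ))) * y₁ -
        ((((β₂ : ℤ) * num w' M' i' a' : ℤ) : ℝ) + β₂ * (rf w' M' * (B' * c.γ))) * x =
        (num w M i a + rf w M * (B * c.γ)) * ((β₁ * y₁ : ℕ) : ℝ) -
        (num w' M' i' a' + rf w' M' * (B' * c.γ)) * ((β₂ * x : ℕ) : ℝ) := by
      push_cast; ring
    rw [e]
    calc _ ≤ 1 / t + 1 / t := hrel.trans (add_le_add (u1.trans hyr) (u2.trans hxr))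
      _ = 2 / t := by ring)
  rw [← s2, ← s2'] at hex
  push_cast at hex ⊢
  linear_combination hex

open Crest.Agent.R4.StopAsm709 (FS)

/-- **[F] pairs of a crossing level which are related below have large factors**: `1 < 2 m^10 D` -/
theorem FG_lower (h : c.Ok n) {l : ℕ} (hl : l ≤ n) {j j' : c.Lam} {B w M B' w' M' : ℕ}
    {κ κ' : ℤ → ℝ} {y z z' : ℝ} {i a i' a' : ℤ}
    (hP : Pt c.γ (c.D.al j) (c.D.be j) B w M κ y i a z)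
    (hP' : Pt c.γ (c.D.al j') (c.D.be j') B' w' M' κ' y i' a' z')
    (hM : 0 < M) (hM' : 0 < M') (hB : 0 < B) (hB' : 0 < B') (hw : 0 < w) (hw' : 0 < w')
    {x y₁ pr pr' β₁ β₂ : ℕ} (hβ₁ : 0 < β₁) (hβ₂ : 0 < β₂)
    (hx : 0 < x) (hy : 0 < y₁) (hpr : 0 < pr) (hpr' : 0 < pr') (hq : j.1.1 = pr * w)
    (hq' : j'.1.1 = pr' * w') (hcirc : pr * M * B = pr' * M' * B')
    (hxy : (w / M.gcd w) * (β₁ * y₁) = (w' / M'.gcd w') * (β₂ * x))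
    {k₀ k₀' : ℕ} (hk : B = k₀ * Bl c l j.1.1) (hk' : B' = k₀' * Bl c l j'.1.1)
    (hthin : (Bl c l j.1.1 : ℝ) * c.r j.1.1 ≤ c.wp.thr l)
    (hthin' : (Bl c l j'.1.1 : ℝ) * c.r j'.1.1 ≤ c.wp.thr l)
    (hac : ¬ Ac c l j.1.1) (hac' : ¬ Ac c l j'.1.1)
    (hR : (j, j') ∈ Ro (c.D.rho l)) {f₁ f₂ : ℕ} (hf₁ : f₁ ∣ β₁ * rf w M) (hf₂ : f₂ ∣ β₂ * rf w' M')
    {N : ℕ}
    (hFS : FS N (β₁ * (rf w M * (B * c.γ))) (β₂ * (rf w' M' * (B' * c.γ))) x y₁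
      (β₁ * (rf w M * (B * c.r j.1.1))) (β₂ * (rf w' M' * (B' * c.r j'.1.1)))) :
    ∃ (t : ℝ) (ρ ρ' : ℚ), (2:ℝ) ^ N ≤ t ∧
      1 / (2 * t) < max ((y₁ : ℝ) * (β₁ * (rf w M * (B * c.r j.1.1))))
        ((x : ℝ) * (β₂ * (rf w' M' * (B' * c.r j'.1.1)))) ∧
      max ((y₁ : ℝ) * (β₁ * (rf w M * (B * c.r j.1.1))))
        ((x : ℝ) * (β₂ * (rf w' M' * (B' * c.r j'.1.1)))) ≤ 1 / t ∧
      FF (β₁ * (rf w M * (B * c.γ))) (β₂ * (rf w' M' * (B' * c.γ))) t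
        (β₁ * (rf w M * (B * c.r j.1.1))) (β₂ * (rf w' M' * (B' * c.r j'.1.1))) x y₁ ρ ρ' ∧
      1 < 2 * ((max (xm f₁ (β₁ * rf w M) ρ * k₀) (xm f₂ (β₂ * rf w' M') ρ' * k₀') : ℕ) : ℝ) ^ 10 *
      max ((y₁ : ℝ) * (β₁ * (rf w M * (B * c.r j.1.1))))
        ((x : ℝ) * (β₂ * (rf w' M' * (B' * c.r j'.1.1)))) := by
  obtain ⟨t, m, m', ρ, ρ', h1, h2, h3, h4, h5, h6⟩ := hFS
  have ht : 1 ≤ t := le_trans (one_le_pow₀ (by norm_num)) h1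
  have ht0 : 0 < t := lt_of_lt_of_le one_pos ht
  refine ⟨t, ρ, ρ', h1, h2, h3, h5, ?_⟩
  set mx : ℕ := max (xm f₁ (β₁ * rf w M) ρ * k₀) (xm f₂ (β₂ * rf w' M') ρ' * k₀') with hmx
  set Dm := max ((y₁ : ℝ) * (β₁ * (rf w M * (B * c.r j.1.1))))
    ((x : ℝ) * (β₂ * (rf w' M' * (B' * c.r j'.1.1)))) with hDm
  by_contra hcon
  push Not at hcon
  have h7 : ((mx : ℕ) : ℝ) ^ 10 ≤ t := by
    have a1 : ((mx : ℕ) : ℝ) ^ 10 / t ≤ 1 := by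
      calc ((mx : ℕ) : ℝ) ^ 10 / t = 2 * ((mx : ℕ) : ℝ) ^ 10 * (1 / (2 * t)) := by
            field_simp
        _ ≤ 2 * ((mx : ℕ) : ℝ) ^ 10 * Dm := mul_le_mul_of_nonneg_left h2.le (by positivity)
        _ ≤ 1 := hcon
    rwa [div_le_one ht0] at a1
  have h8 : ((mx : ℕ) : ℝ) ≤ t ^ (1/10 : ℝ) := by
    have a2 : (((mx : ℕ) : ℝ) ^ 10) ^ (1/10 : ℝ) ≤ t ^ (1/10 : ℝ) :=
      Real.rpow_le_rpow (by positivity) h7 (by norm_num)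
    have a3 : (((mx : ℕ) : ℝ) ^ 10) ^ (1/10 : ℝ) = ((mx : ℕ) : ℝ) := by
      rw [← Real.rpow_natCast, ← Real.rpow_mul (Nat.cast_nonneg _)]
      norm_num
    rwa [a3] at a2
  refine same_of_FG h hl hP hP' hM hM' hB hB' hw hw' hβ₁ hβ₂ hx hy hpr hpr' hq hq' hcirc hxy hk hk' hthin
    hthin' hac hac' ht hf₁ hf₂ (le_trans ?_ h8) (le_trans ?_ h8) ((le_max_left _ _).trans h3)
    ((le_max_right _ _).trans h3) h5 hR
  · exact_mod_cast le_max_left _ _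
  · exact_mod_cast le_max_right _ _

/-- **for item pairs of a state** -/
theorem PE_FG_lower (h : c.Ok n) {l : ℕ} (hl : l ≤ n) (X : Finset (ℕ × ℕ × Finset ℕ))
    {M M' b pr c₁ b' pr' c₁' : ℕ} {t t' : IT} {A A' : Finset c.Lam}
    (hM : 0 < M) (hM' : 0 < M') (hb : 0 < b) (hb' : 0 < b') (hF : Fit b pr t)
    (hF' : Fit b' pr' t') (hW : (c.D.par X).Wts pr t) (hW' : (c.D.par X).Wts pr' t')
    (hc : c₁ ∣ b) (hc' : c₁' ∣ b') {R : Finset (c.Lam × c.Lam)} (hR : R ⊆ Ro (c.D.rho l))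
    {e : ℕ × ℕ}
    (he : e ∈ (c.D.par X).PE R ((c.D.par X).uA M b pr t A c₁) ((c.D.par X).uA M' b' pr' t' A' c₁'))
    (hcirc : pr * M * (b / c₁) = pr' * M' * (b' / c₁')) {x y₁ β₁ β₂ : ℕ} (hβ₁ : 0 < β₁) (hβ₂ : 0 < β₂)
    (hx : 0 < x) (hy : 0 < y₁)
    (hxy : (e.1 / pr / M.gcd (e.1 / pr)) * (β₁ * y₁) = (e.2 / pr' / M'.gcd (e.2 / pr')) * (β₂ * x))
    {k₀ k₀' : ℕ} (hk : b / c₁ = k₀ * Bl c l e.1) (hk' : b' / c₁' = k₀' * Bl c l e.2)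
    (hthin : (Bl c l e.1 : ℝ) * c.r e.1 ≤ c.wp.thr l)
    (hthin' : (Bl c l e.2 : ℝ) * c.r e.2 ≤ c.wp.thr l)
    (hac : ¬ Ac c l e.1) (hac' : ¬ Ac c l e.2) {f₁ f₂ : ℕ}
    (hf₁ : f₁ ∣ β₁ * rf (e.1 / pr) M) (hf₂ : f₂ ∣ β₂ * rf (e.2 / pr') M') {N : ℕ}
    (hFS : FS N (β₁ * (rf (e.1 / pr) M * ((b : ℝ) / c₁ * c.γ)))
      (β₂ * (rf (e.2 / pr') M' * ((b' : ℝ) / c₁' * c.γ)))
      x y₁ (β₁ * (rf (e.1 / pr) M * ((b : ℝ) / c₁ * c.rr e.1)))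
      (β₂ * (rf (e.2 / pr') M' * ((b' : ℝ) / c₁' * c.rr e.2)))) :
    ∃ (t : ℝ) (ρ ρ' : ℚ), (2:ℝ) ^ N ≤ t ∧
      1 / (2 * t) < max ((y₁ : ℝ) * (β₁ * (rf (e.1 / pr) M * ((b : ℝ) / c₁ * c.rr e.1))))
        ((x : ℝ) * (β₂ * (rf (e.2 / pr') M' * ((b' : ℝ) / c₁' * c.rr e.2)))) ∧
      max ((y₁ : ℝ) * (β₁ * (rf (e.1 / pr) M * ((b : ℝ) / c₁ * c.rr e.1))))
        ((x : ℝ) * (β₂ * (rf (e.2 / pr') M' * ((b' : ℝ) / c₁' * c.rr e.2)))) ≤ 1 / t ∧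
      FF (β₁ * (rf (e.1 / pr) M * ((b : ℝ) / c₁ * c.γ)))
        (β₂ * (rf (e.2 / pr') M' * ((b' : ℝ) / c₁' * c.γ))) t
        (β₁ * (rf (e.1 / pr) M * ((b : ℝ) / c₁ * c.rr e.1)))
        (β₂ * (rf (e.2 / pr') M' * ((b' : ℝ) / c₁' * c.rr e.2))) x y₁ ρ ρ' ∧
      1 < 2 * ((max (xm f₁ (β₁ * rf (e.1 / pr) M) ρ * k₀) (xm f₂ (β₂ * rf (e.2 / pr') M') ρ' * k₀') : ℕ) : ℝ) ^ 10 *
      max ((y₁ : ℝ) * (β₁ * (rf (e.1 / pr) M * ((b : ℝ) / c₁ * c.rr e.1))))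
        ((x : ℝ) * (β₂ * (rf (e.2 / pr') M' * ((b' : ℝ) / c₁' * c.rr e.2)))) := by
  obtain ⟨j, j', hj, hA, hA', e1, e2, i1, i2, y, i, a, i', a', z, z', hP, hP'⟩ :=
    PE_pts hM hM' hb hb' hF hF' hW hW' hc hc' he
  have e1' : j.1.1 = e.1 := e1
  have e2' : j'.1.1 = e.2 := e2
  have hpr : pr ∣ e.1 := (hF.item _ i1).2.1
  have hpr' : pr' ∣ e.2 := (hF'.item _ i2).2.1
  have q0 : 0 < e.1 := by rw [← e1']; exact h.pos _ (Cf.mem_S j)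
  have q0' : 0 < e.2 := by rw [← e2']; exact h.pos _ (Cf.mem_S j')
  have p0 : 0 < pr := Nat.pos_of_dvd_of_pos hpr q0
  have p0' : 0 < pr' := Nat.pos_of_dvd_of_pos hpr' q0'
  have c0 : 0 < c₁ := Nat.pos_of_dvd_of_pos hc hb
  have c0' : 0 < c₁' := Nat.pos_of_dvd_of_pos hc' hb'
  have r1 : c.rr e.1 = c.r e.1 := by rw [← e1']; exact Cf.rr_eq j
  have r2 : c.rr e.2 = c.r e.2 := by rw [← e2']; exact Cf.rr_eq j'
  have B1 : ((b : ℝ) / c₁) = ((b / c₁ : ℕ) : ℝ) := (cast_div' hc hb).symm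
  have B2 : ((b' : ℝ) / c₁') = ((b' / c₁' : ℕ) : ℝ) := (cast_div' hc' hb').symm
  rw [B1, B2, r1, r2, ← e1', ← e2'] at hFS ⊢
  rw [← e1'] at hk hthin hac hf₁
  rw [← e2'] at hk' hthin' hac' hf₂
  rw [← e1', ← e2'] at hxy
  rw [← e1'] at hP
  rw [← e2'] at hP'
  refine FG_lower h hl hP hP' hM hM' (Nat.div_pos (Nat.le_of_dvd hb hc) c0)
    (Nat.div_pos (Nat.le_of_dvd hb' hc') c0')
    (Nat.div_pos (Nat.le_of_dvd (by rw [e1']; exact q0) (by rw [e1']; exact hpr)) p0)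
    (Nat.div_pos (Nat.le_of_dvd (by rw [e2']; exact q0') (by rw [e2']; exact hpr')) p0') hβ₁ hβ₂ hx hy
    p0 p0' ?_ ?_ hcirc hxy hk hk' hthin hthin' hac hac' (hR hj) hf₁ hf₂ hFS
  · exact (Nat.mul_div_cancel' (by rw [e1']; exact hpr)).symm
  · exact (Nat.mul_div_cancel' (by rw [e2']; exact hpr')).symm

/-! ### the final form -/

lemma xm_mul {P r : ℕ} (hP : 0 < P) (ρ : ℚ) :
    xm P (P * r) ρ = if (P : ℤ) ∣ ρ.num then r else P * r := by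
  unfold xm; split_ifs
  · exact Nat.mul_div_cancel_left _ hP
  · rfl

/-- `BadS` from one side of an `[F]` pair -/
lemma bad_side {s y₁ : ℕ} {θ R D t : ℝ} {ρ : ℚ} {m : ℕ} (ht : 1 ≤ t) (hs : m = s) (y0 : 0 < y₁)
    (hR : 0 < (m : ℝ) * R) (hnd : ¬ (s : ℤ) ∣ ρ.num)
    (hd : (ρ.den : ℝ) ≤ t ^ (21/200 : ℝ)) (hn : |(m : ℝ) * θ - ρ| ≤ t ^ (39/200 : ℝ) * (m * R))
    (hD : (y₁ : ℝ) * (m * R) ≤ D) (hDt : D ≤ 1 / t) : BadS s θ t := by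
  subst hs
  have hy1 : (1 : ℝ) ≤ y₁ := by exact_mod_cast y0
  exact BadS.of_label ht hnd hd hn (((le_mul_of_one_le_left hR.le hy1).trans hD).trans hDt)

/-- **[F] pairs of a crossing with the prime `s`**: total factor `P * P' = s ^ ex`; either the pair has
large factors without `s`, or with them, and then for `ex = 1` (and no other missing ties) `s` is accidental
for the target of the side which carries it. -/
theorem PE_FG_s (h : c.Ok n) {l : ℕ} (hl : l ≤ n) (X : Finset (ℕ × ℕ × Finset ℕ))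
    {M M' b pr c₁ b' pr' c₁' : ℕ} {t t' : IT} {A A' : Finset c.Lam}
    (hM : 0 < M) (hM' : 0 < M') (hb : 0 < b) (hb' : 0 < b') (hF : Fit b pr t)
    (hF' : Fit b' pr' t') (hW : (c.D.par X).Wts pr t) (hW' : (c.D.par X).Wts pr' t')
    (hc : c₁ ∣ b) (hc' : c₁' ∣ b') {R : Finset (c.Lam × c.Lam)} (hR : R ⊆ Ro (c.D.rho l))
    {e : ℕ × ℕ}
    (he : e ∈ (c.D.par X).PE R ((c.D.par X).uA M b pr t A c₁) ((c.D.par X).uA M' b' pr' t' A' c₁'))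
    (hcirc : pr * M * (b / c₁) = pr' * M' * (b' / c₁')) {x y₁ β₁ β₂ : ℕ} (hβ₁ : 0 < β₁) (hβ₂ : 0 < β₂)
    (hx : 0 < x) (hy : 0 < y₁)
    (hxy : (e.1 / pr / M.gcd (e.1 / pr)) * (β₁ * y₁) = (e.2 / pr' / M'.gcd (e.2 / pr')) * (β₂ * x))
    {k₀ k₀' : ℕ} (hk : b / c₁ = k₀ * Bl c l e.1) (hk' : b' / c₁' = k₀' * Bl c l e.2)
    (hthin : (Bl c l e.1 : ℝ) * c.r e.1 ≤ c.wp.thr l)
    (hthin' : (Bl c l e.2 : ℝ) * c.r e.2 ≤ c.wp.thr l)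
    (hac : ¬ Ac c l e.1) (hac' : ¬ Ac c l e.2) {N : ℕ}
    (hFS : FS N (β₁ * (rf (e.1 / pr) M * ((b : ℝ) / c₁ * c.γ)))
      (β₂ * (rf (e.2 / pr') M' * ((b' : ℝ) / c₁' * c.γ)))
      x y₁ (β₁ * (rf (e.1 / pr) M * ((b : ℝ) / c₁ * c.rr e.1)))
      (β₂ * (rf (e.2 / pr') M' * ((b' : ℝ) / c₁' * c.rr e.2))))
    {s P P' r₀ r₀' ex a₀ : ℕ} (hs : s.Prime)
    (hP : β₁ * rf (e.1 / pr) M = P * r₀) (hP' : β₂ * rf (e.2 / pr') M' = P' * r₀')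
    (hPP : P * P' = s ^ ex) (hex : 1 ≤ ex) (hka : k₀ ≤ a₀) (hka' : k₀' ≤ a₀)
    (hr₀ : 1 ≤ r₀) (hr₀' : 1 ≤ r₀') :
    1 < 2 * ((a₀ * r₀ * r₀' : ℕ) : ℝ) ^ 10 *
      max ((y₁ : ℝ) * (β₁ * (rf (e.1 / pr) M * ((b : ℝ) / c₁ * c.rr e.1))))
        ((x : ℝ) * (β₂ * (rf (e.2 / pr') M' * ((b' : ℝ) / c₁' * c.rr e.2)))) ∨
    (1 < 2 * ((s ^ ex * a₀ * r₀ * r₀' : ℕ) : ℝ) ^ 10 *
      max ((y₁ : ℝ) * (β₁ * (rf (e.1 / pr) M * ((b : ℝ) / c₁ * c.rr e.1))))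
        ((x : ℝ) * (β₂ * (rf (e.2 / pr') M' * ((b' : ℝ) / c₁' * c.rr e.2)))) ∧
      (ex = 1 → r₀ * r₀' = 1 → ∃ t : ℝ, 0 < t ∧ (2:ℝ) ^ N ≤ t ∧
        1 / (2 * t) < max ((y₁ : ℝ) * (β₁ * (rf (e.1 / pr) M * ((b : ℝ) / c₁ * c.rr e.1))))
          ((x : ℝ) * (β₂ * (rf (e.2 / pr') M' * ((b' : ℝ) / c₁' * c.rr e.2)))) ∧
        max ((y₁ : ℝ) * (β₁ * (rf (e.1 / pr) M * ((b : ℝ) / c₁ * c.rr e.1))))
          ((x : ℝ) * (β₂ * (rf (e.2 / pr') M' * ((b' : ℝ) / c₁' * c.rr e.2)))) ≤ 1 / t ∧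
        ((P = s ∧ BadS s ((b : ℝ) / c₁ * c.γ) t) ∨ (P' = s ∧ BadS s ((b' : ℝ) / c₁' * c.γ) t)))) := by
  have hsp : 0 < s ^ ex := pow_pos hs.pos _
  have P0 : 0 < P := Nat.pos_of_ne_zero fun h0 => by rw [h0, zero_mul] at hPP; omega
  have P0' : 0 < P' := Nat.pos_of_ne_zero fun h0 => by rw [h0, mul_zero] at hPP; omega
  obtain ⟨t, ρ, ρ', h1, h2, h3, hFF, h5⟩ := PE_FG_lower h hl X hM hM' hb hb' hF hF' hW hW' hc hc' hR he hcirc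
    hβ₁ hβ₂ hx hy hxy hk hk' hthin hthin' hac hac' (f₁ := P) (f₂ := P')
    (by rw [hP]; exact dvd_mul_right _ _) (by rw [hP']; exact dvd_mul_right _ _) hFS
  rw [hP, hP', xm_mul P0, xm_mul P0'] at h5
  set D := max ((y₁ : ℝ) * (β₁ * (rf (e.1 / pr) M * ((b : ℝ) / c₁ * c.rr e.1))))
        ((x : ℝ) * (β₂ * (rf (e.2 / pr') M' * ((b' : ℝ) / c₁' * c.rr e.2)))) with hD
  have ht : 1 ≤ t := le_trans (one_le_pow₀ (by norm_num)) h1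
  have ht0 : 0 < t := lt_of_lt_of_le one_pos ht
  have D0 : 0 < D := lt_trans (by positivity) h2
  have mono : ∀ {m m' : ℕ}, m ≤ m' → 1 < 2 * (m : ℝ) ^ 10 * D → 1 < 2 * (m' : ℝ) ^ 10 * D := by
    intro m m' hmm h1
    refine lt_of_lt_of_le h1 ?_
    have : (m : ℝ) ≤ m' := by exact_mod_cast hmm
    gcongr
  by_cases hd : (P : ℤ) ∣ ρ.num ∧ (P' : ℤ) ∣ ρ'.num
  · left
    rw [if_pos hd.1, if_pos hd.2] at h5
    refine mono ?_ h5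
    apply max_le
    · calc r₀ * k₀ ≤ r₀ * a₀ := Nat.mul_le_mul_left _ hka
        _ ≤ r₀ * a₀ * r₀' := Nat.le_mul_of_pos_right _ hr₀'
        _ = a₀ * r₀ * r₀' := by ring
    · calc r₀' * k₀' ≤ r₀' * a₀ := Nat.mul_le_mul_left _ hka'
        _ ≤ r₀' * a₀ * r₀ := Nat.le_mul_of_pos_right _ hr₀
        _ = a₀ * r₀ * r₀' := by ring
  · right
    refine ⟨mono ?_ h5, ?_⟩
    · have c1 : (if (P : ℤ) ∣ ρ.num then r₀ else P * r₀) ≤ P * r₀ := by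
        split_ifs
        · exact Nat.le_mul_of_pos_left _ P0
        · exact le_rfl
      have c2 : (if (P' : ℤ) ∣ ρ'.num then r₀' else P' * r₀') ≤ P' * r₀' := by
        split_ifs
        · exact Nat.le_mul_of_pos_left _ P0'
        · exact le_rfl
      apply max_le
      · calc (if (P : ℤ) ∣ ρ.num then r₀ else P * r₀) * k₀ ≤ (P * r₀) * a₀ := Nat.mul_le_mul c1 hka
          _ ≤ (P * r₀) * a₀ * (P' * r₀') := Nat.le_mul_of_pos_right _ (Nat.mul_pos P0' hr₀')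
          _ = (P * P') * a₀ * r₀ * r₀' := by ring
          _ = _ := by rw [hPP]
      · calc (if (P' : ℤ) ∣ ρ'.num then r₀' else P' * r₀') * k₀' ≤ (P' * r₀') * a₀ := Nat.mul_le_mul c2 hka'
          _ ≤ (P' * r₀') * a₀ * (P * r₀) := Nat.le_mul_of_pos_right _ (Nat.mul_pos P0 hr₀)
          _ = (P * P') * a₀ * r₀ * r₀' := by ring
          _ = _ := by rw [hPP]
    · intro hex1 hrr
      refine ⟨t, ht0, h1, h2, h3, ?_⟩
      rw [hex1, pow_one] at hPP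
      have r1 : r₀ = 1 := Nat.eq_one_of_mul_eq_one_right hrr
      have r1' : r₀' = 1 := Nat.eq_one_of_mul_eq_one_left hrr
      rw [r1, mul_one] at hP
      rw [r1', mul_one] at hP'
      have cases : (P = s ∧ P' = 1) ∨ (P = 1 ∧ P' = s) := by
        rcases (Nat.dvd_prime hs).1 (Dvd.intro _ hPP) with h | h
        · right; rw [h, one_mul] at hPP; exact ⟨h, hPP⟩
        · left; rw [h] at hPP
          exact ⟨h, Nat.eq_of_mul_eq_mul_left hs.pos (by rw [hPP, mul_one])⟩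
      rcases cases with ⟨c1, c2⟩ | ⟨c1, c2⟩
      · left
        refine ⟨c1, ?_⟩
        have hnd : ¬ (s : ℤ) ∣ ρ.num := by
          intro hh
          apply hd
          rw [c1, c2]
          exact ⟨hh, by simp⟩
        have e1 : ∀ z : ℝ, (β₁ : ℝ) * (rf (e.1 / pr) M * z) = ((β₁ * rf (e.1 / pr) M : ℕ) : ℝ) * z := by
          intro z; push_cast; ring
        refine bad_side (m := β₁ * rf (e.1 / pr) M) (R := (b : ℝ) / c₁ * c.rr e.1) (D := D) ht (by rw [hP, c1]) hy ?_ hnd hFF.den ?_ ?_ h3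
        · rw [← e1]; exact hFF.lab.pos
        · rw [← e1, ← e1]; exact hFF.near
        · rw [← e1]; exact le_max_left _ _
      · right
        refine ⟨c2, ?_⟩
        have hnd : ¬ (s : ℤ) ∣ ρ'.num := by
          intro hh
          apply hd
          rw [c1, c2]
          exact ⟨by simp, hh⟩
        have e1 : ∀ z : ℝ, (β₂ : ℝ) * (rf (e.2 / pr') M' * z) = ((β₂ * rf (e.2 / pr') M' : ℕ) : ℝ) * z := by
          intro z; push_cast; ring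
        refine bad_side (m := β₂ * rf (e.2 / pr') M') (R := (b' : ℝ) / c₁' * c.rr e.2) (D := D) ht (by rw [hP', c2]) hx ?_ hnd hFF.den' ?_ ?_ h3
        · rw [← e1]; exact hFF.lab'.pos
        · rw [← e1, ← e1]; exact hFF.near'
        · rw [← e1]; exact le_max_right _ _

end Crest.Agent.R4P.LinkF35
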