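import Mathlib
import Crest.Agent.R4.ShotG223

/-!
R4 powers pass (S0004), helper33: PLAIN (no crossing prime) versions of helper709's / helper223's one-shot numbers,
with numbers in a parameter `b`: in the powers pass the crossing prime is stripped from the items and from the
averages (`StripP_33`), the gain comes from the scaled radii.
* `low_core`, `low_cls` : all pairs with `D ≤ 1`, classified (`[F]` pairs are left);
* `ffp_all` : `[F]` pairs with large factors; `accp_all` : accidental pairs;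
* `shot_p` : numbers in `b`.
-/

set_option autoImplicit false
open Finset

namespace Crest.Agent.R4P.LowP33
open Crest.Agent.R4.HVW560 Crest.Agent.R4.HVWX793
open Crest.Agent.R4.Schur709 Crest.Agent.R4.StopHvw709 Crest.Agent.R4.StopAsm709
open Crest.Agent.R4.ClsS (eps1)
open Crest.Agent.R4.OSCore709 Crest.Agent.R4.CrossShot709 Crest.Agent.R4.Bad223 Crest.Agent.R4.ShotG223

open Classical Crest.Agent.R4.ClsS in
/-- **LOW part, plain** (averaged circle; `O = O' = ∅` allowed). -/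
theorem low_core {Gen : ℝ → ℝ → ℝ → ℕ → ℕ → ℝ → ℝ → Prop} {κ : ℝ} (hGen : DeepHyp Gen κ) :
    ∃ C c0 : ℝ, 1 ≤ C ∧ 0 < c0 ∧ ∀ c1 : ℝ, 0 < c1 → c1 ≤ c0 → ∃ T0 : ℝ, 1 ≤ T0 ∧
    ∀ (X K2 L : ℝ) (n N G : ℕ) (O O' V W : Finset ℕ) (R R' : ℕ → ℝ)
    (γ γ' : Finset ℕ → ℝ) (F : ℕ × ℕ → ℝ) (PG PE : ℕ × ℕ → Prop),
    T0 ≤ (2:ℝ)^n → X ≤ Real.exp (((2:ℝ)^n)^c1) → 0 < G → 0 ≤ K2 →
    (∀ p ∈ O, p.Prime ∧ N ≤ p) → (∀ p ∈ O', p.Prime ∧ N ≤ p) →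
    (∀ w ∈ V, 0 < w ∧ 0 < R w) → (∀ w ∈ W, 0 < w ∧ 0 < R' w) →
    (∀ w ∈ V, R w ≤ L * mu O' R w) → (∀ w ∈ W, R' w ≤ L * mu O R' w) →
    (∀ z : ℝ, X ≤ z → ∀ w ∈ V, Crest.Agent.R4.ClsB.Tame z G (uu O' w)) →
    (∀ z : ℝ, X ≤ z → ∀ w ∈ W, Crest.Agent.R4.ClsB.Tame z G (uu O w)) →
    (∀ e ∈ V ×ˢ W, Dc O O' R R' e ≤ 1 → F e ≤ K2 * ((R e.1 * R' e.2) / Dc O O' R R' e)) →
    (∀ e ∈ V ×ˢ W, PG e → ∀ t : ℝ, (2:ℝ)^n ≤ t → 1/(2*t) < Dc O O' R R' e →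
      Dc O O' R R' e ≤ 1/t → 0 < F e →
      Gen (γ (miss O' e.1)) (γ' (miss O e.2)) t (cof (uu O' e.1) (uu O e.2))
        (cof (uu O e.2) (uu O' e.1)) (Rc O' R e.1) (Rc O R' e.2)) →
    (∀ e ∈ V ×ˢ W, ∀ f ∈ V ×ˢ W, PE e → PE f → miss O e.2 = miss O f.2 → e.1 = f.1 → e.2 = f.2) →
    (∀ e ∈ V ×ˢ W, ∀ f ∈ V ×ˢ W, PE e → PE f → miss O' e.1 = miss O' f.1 → e.2 = f.2 → e.1 = f.1) →
    ∑ e ∈ (V ×ˢ W).filter (fun e => Dc O O' R R' e ≤ 1), F e ≤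
      K2 * L^2 * (n * (2 * KH 1 0 eps1 * (2:ℝ)^(2*eps1*n)) + C * ((2:ℝ)^n)^(-κ)) *
        (Real.exp ((1/2-eps1) * (3 * (∑ p ∈ O, 1/(p:ℝ)) + 3 * ∑ p ∈ O', 1/(p:ℝ))) *
        ((∑ q ∈ V, mu O' R q) * (∑ r ∈ W, mu O R' r))^(1/2+eps1)) +
      K2 * Real.exp ((1/2) * (3 * (∑ p ∈ O, 1/(p:ℝ)) + 3 * ∑ p ∈ O', 1/(p:ℝ))) *
        ((∑ q ∈ V, R q) * (∑ r ∈ W, R' r))^(1/2:ℝ) +
      ∑ e ∈ (V ×ˢ W).filter (fun e => Dc O O' R R' e ≤ 1/2^n ∧ ¬ PG e ∧ ¬ PE e), F e := by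
  obtain ⟨C, c0, hC1, hc0, hC⟩ := deepB_of hGen
  refine ⟨C, c0, hC1, hc0, ?_⟩
  intro c1 hc1 hc10
  obtain ⟨T0, hT01, hT0⟩ := hC c1 hc1 hc10
  refine ⟨T0, hT01, ?_⟩
  intro X K2 L n N G O O' V W R R' γ γ' F PG PE hTn hX hG hK20 hO hO' hV hW hLV hLW hVt hWt
    hsmall hgen hm1 hm2
  have he1 : eps1 = 1/1000 := rfl
  have h2n : (0:ℝ) < (2:ℝ)^n := by positivity
  set D : ℕ × ℕ → ℝ := Dc O O' R R' with hDdef
  have hDpos : ∀ e ∈ V ×ˢ W, 0 < D e := by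
    intro e he
    have h := Finset.mem_product.1 he
    exact Dc_pos hO hO' (hV _ h.1).2 (hW _ h.2).1
  have hc : ∀ r ∈ W, (0:ℝ) ≤ ∑ p ∈ O.filter (fun p => ¬ p ∣ r), 1/(p:ℝ) := fun r _ =>
    Finset.sum_nonneg fun p _ => by positivity
  have hc' : ∀ q ∈ V, (0:ℝ) ≤ ∑ p ∈ O'.filter (fun p => ¬ p ∣ q), 1/(p:ℝ) := fun q _ =>
    Finset.sum_nonneg fun p _ => by positivity
  set P := V ×ˢ W with hP
  set EN := P.filter (fun e => D e ≤ 1) with hEN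
  set EY := EN.filter (fun e => (1/2:ℝ)^n < D e) with hEY
  set EX := EN.filter (fun e => ¬ (1/2:ℝ)^n < D e) with hEX
  set EG := EX.filter (fun e => PG e) with hEG
  set EH := EX.filter (fun e => ¬ PG e) with hEH
  set EE := EH.filter (fun e => PE e) with hEE
  set ER := EH.filter (fun e => ¬ PE e) with hER
  have hsplit : ∑ e ∈ EN, F e = ∑ e ∈ EY, F e +
      (∑ e ∈ EG, F e + (∑ e ∈ EE, F e + ∑ e ∈ ER, F e)) := by
    rw [hEE, hER, Finset.sum_filter_add_sum_filter_not, hEG, hEH, Finset.sum_filter_add_sum_filter_not,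
      hEY, hEX, Finset.sum_filter_add_sum_filter_not]
  have hENP : ∀ e ∈ EN, e ∈ P ∧ D e ≤ 1 := fun e he => Finset.mem_filter.1 he
  have hEYP : ∀ e ∈ EY, e ∈ EN := fun e he => (Finset.mem_filter.1 he).1
  have hEXP : ∀ e ∈ EX, e ∈ EN := fun e he => (Finset.mem_filter.1 he).1
  have hEGP : ∀ e ∈ EG, e ∈ EX := fun e he => (Finset.mem_filter.1 he).1
  have hEHP : ∀ e ∈ EH, e ∈ EX := fun e he => (Finset.mem_filter.1 he).1
  have hEEP : ∀ e ∈ EE, e ∈ EH := fun e he => (Finset.mem_filter.1 he).1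
  have hERP : ∀ e ∈ ER, e ∈ EH := fun e he => (Finset.mem_filter.1 he).1
  have hRR : ∀ e ∈ P, R e.1 * R' e.2 ≤ L^2 * (mu O' R e.1 * mu O R' e.2) := by
    intro e he
    have h := Finset.mem_product.1 he
    have h1 := hLV _ h.1
    have h2 := hLW _ h.2
    have h3 := (hW _ h.2).2
    have h5 : 0 ≤ L * mu O' R e.1 := (hV _ h.1).2.le.trans h1
    calc R e.1 * R' e.2 ≤ (L * mu O' R e.1) * (L * mu O R' e.2) :=
          mul_le_mul h1 h2 h3.le h5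
      _ = _ := by ring
  have hFmu : ∀ e ∈ EN, F e ≤ K2 * L^2 * ((mu O' R e.1 * mu O R' e.2) / D e) := by
    intro e he
    have heP := hENP e he
    calc F e ≤ K2 * ((R e.1 * R' e.2) / D e) := hsmall e heP.1 heP.2
      _ ≤ K2 * ((L^2 * (mu O' R e.1 * mu O R' e.2)) / D e) :=
          mul_le_mul_of_nonneg_left (div_le_div_of_nonneg_right (hRR e heP.1) (hDpos e heP.1).le) hK20
      _ = K2 * L^2 * ((mu O' R e.1 * mu O R' e.2) / D e) := by ring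
  have boundY := mid_dyadic (ε := eps1) (by rw [he1]; norm_num) (by rw [he1]; norm_num) (N := N) hO hO'
    hV hW (c := 0) (c' := 0) hc hc' (K := K2 * L^2) (by positivity) (F := F) n EY
    (fun e he => (hENP e (hEYP e he)).1)
    (fun e he => (hENP e (hEYP e he)).2)
    (fun e he => (Finset.mem_filter.1 he).2)
    (fun e he => hFmu e (hEYP e he))
  have hpow : (1/2:ℝ)^n = 1/2^n := by rw [div_pow, one_pow]
  have hEXD : ∀ e ∈ EX, D e ≤ 1/2^n := by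
    intro e he
    have := not_lt.1 (Finset.mem_filter.1 he).2
    rw [hpow] at this
    exact this
  have boundG := hT0 ((2:ℝ)^n) X (K2 * L^2) N G O O' V W EG R R' γ γ' F 0 0 hTn hX (by positivity)
    hG hO hO' hV hW hVt hWt (fun e he => (hENP e (hEXP e (hEGP e he))).1) hc hc'
    (fun e he => hEXD e (hEGP e he))
    (fun e he => hFmu e (hEXP e (hEGP e he)))
    (by
      intro e he t ht h1 h2 h3
      exact hgen e (hENP e (hEXP e (hEGP e he))).1 (Finset.mem_filter.1 he).2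
        t ht h1 h2 h3)
  have boundE := match_sum (E := EE) hO hO' hV hW
    (fun e he => (hENP e (hEXP e (hEHP e (hEEP e he)))).1) (c := 0) (c' := 0) hc hc'
    (by
      intro e he f hf
      exact hm1 e (hENP e (hEXP e (hEHP e (hEEP e he)))).1 f
        (hENP f (hEXP f (hEHP f (hEEP f hf)))).1 (Finset.mem_filter.1 he).2
        (Finset.mem_filter.1 hf).2)
    (by
      intro e he f hf
      exact hm2 e (hENP e (hEXP e (hEHP e (hEEP e he)))).1 f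
        (hENP f (hEXP f (hEHP f (hEEP f hf)))).1 (Finset.mem_filter.1 he).2
        (Finset.mem_filter.1 hf).2) (K := K2) hK20 (F := F)
    (by
      intro e he
      have h := hENP e (hEXP e (hEHP e (hEEP e he)))
      exact hsmall e h.1 h.2)
  have eR : ER = P.filter (fun e => D e ≤ 1/2^n ∧ ¬ PG e ∧ ¬ PE e) := by
    ext e
    constructor
    · intro he
      have h1 := hEHP e (hERP e he)
      exact Finset.mem_filter.2 ⟨(hENP e (hEXP e h1)).1, hEXD e h1,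
        (Finset.mem_filter.1 (hERP e he)).2, (Finset.mem_filter.1 he).2⟩
    · intro he
      obtain ⟨h0, h2, h3, h4⟩ := Finset.mem_filter.1 he
      have h2' : D e ≤ 1/2^n := h2
      have h5 : D e ≤ 1 := by
        refine h2'.trans ?_
        rw [div_le_one h2n]
        exact one_le_pow₀ (by norm_num)
      exact Finset.mem_filter.2 ⟨Finset.mem_filter.2 ⟨Finset.mem_filter.2 ⟨Finset.mem_filter.2
        ⟨h0, h5⟩, not_lt.2 (by rw [hpow]; exact h2')⟩, h3⟩, h4⟩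
  have z1 : -(N * (0:ℝ)) + 3 * (∑ p ∈ O, 1/(p:ℝ)) + (-(N * (0:ℝ)) + 3 * ∑ p ∈ O', 1/(p:ℝ))
      = 3 * (∑ p ∈ O, 1/(p:ℝ)) + 3 * ∑ p ∈ O', 1/(p:ℝ) := by ring
  rw [z1] at boundY boundG boundE
  rw [hsplit, ← eR]
  set X1 := Real.exp ((1/2-eps1) * (3 * (∑ p ∈ O, 1/(p:ℝ)) + 3 * ∑ p ∈ O', 1/(p:ℝ))) with hX1
  set Y1 := ((∑ q ∈ V, mu O' R q) * (∑ r ∈ W, mu O R' r))^(1/2+eps1) with hY1
  have hfin : K2 * L^2 * (n * (2 * KH 1 0 eps1 * (2:ℝ)^(2*eps1*n)) + C * ((2:ℝ)^n)^(-κ)) * (X1 * Y1)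
      = (n * (2 * (K2 * L^2) * KH 1 0 eps1 * (2:ℝ)^(2*eps1*n)) * (X1 * Y1) +
        C * (K2 * L^2) * ((2:ℝ)^n)^(-κ) * X1 * Y1) := by
    ring
  rw [hfin]
  linarith

open Classical in
/-- **LOW part, plain, classified**: the rest is the sum over the `[F]` pairs with `D ≤ 2^{-n}`. -/
theorem low_cls :
    ∃ C c0 : ℝ, 1 ≤ C ∧ 0 < c0 ∧ ∀ c1 : ℝ, 0 < c1 → c1 ≤ c0 → ∃ T0 : ℝ, 1 ≤ T0 ∧
    ∀ (X K2 L : ℝ) (n N G : ℕ) (O O' V W : Finset ℕ) (R R' : ℕ → ℝ)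
    (γ γ' : Finset ℕ → ℝ) (F : ℕ × ℕ → ℝ),
    400 ≤ n → T0 ≤ (2:ℝ)^n → X ≤ Real.exp (((2:ℝ)^n)^c1) → 0 < G → 0 ≤ K2 →
    (∀ p ∈ O, p.Prime ∧ N ≤ p) → (∀ p ∈ O', p.Prime ∧ N ≤ p) →
    (∀ w ∈ V, 0 < w ∧ 0 < R w) → (∀ w ∈ W, 0 < w ∧ 0 < R' w) →
    (∀ w ∈ V, R w ≤ L * mu O' R w) → (∀ w ∈ W, R' w ≤ L * mu O R' w) →
    (∀ z : ℝ, X ≤ z → ∀ w ∈ V, Crest.Agent.R4.ClsB.Tame z G (uu O' w)) →
    (∀ z : ℝ, X ≤ z → ∀ w ∈ W, Crest.Agent.R4.ClsB.Tame z G (uu O w)) →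
    (∀ e ∈ V ×ˢ W, Dc O O' R R' e ≤ 1 → F e ≤ K2 * ((R e.1 * R' e.2) / Dc O O' R R' e)) →
    (∀ e ∈ V ×ˢ W, Dc O O' R R' e ≤ 1/2^n → 0 < F e → RelG O O' R R' γ γ' e) →
    ∑ e ∈ (V ×ˢ W).filter (fun e => Dc O O' R R' e ≤ 1), F e ≤
      K2 * L^2 * (n * (2 * KH 1 0 eps1 * (2:ℝ)^(2*eps1*n)) + C * ((2:ℝ)^n)^(-(1/1000):ℝ)) *
        (Real.exp ((1/2-eps1) * (3 * (∑ p ∈ O, 1/(p:ℝ)) + 3 * ∑ p ∈ O', 1/(p:ℝ))) *
        ((∑ q ∈ V, mu O' R q) * (∑ r ∈ W, mu O R' r))^(1/2+eps1)) +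
      K2 * Real.exp ((1/2) * (3 * (∑ p ∈ O, 1/(p:ℝ)) + 3 * ∑ p ∈ O', 1/(p:ℝ))) *
        ((∑ q ∈ V, R q) * (∑ r ∈ W, R' r))^(1/2:ℝ) +
      ∑ e ∈ (V ×ˢ W).filter (fun e => 0 < F e ∧ (Dc O O' R R' e ≤ 1/2^n ∧
        FG O O' R R' γ γ' n e)), F e := by
  obtain ⟨C, c0, hC1, hc0, hC⟩ := low_core Crest.Agent.R4.ClsT2.deepHyp_Gen3
  refine ⟨C, c0, hC1, hc0, ?_⟩
  intro c1 hc1 hc10
  obtain ⟨T0, hT01, hT0⟩ := hC c1 hc1 hc10
  refine ⟨T0, hT01, ?_⟩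
  intro X K2 L n N G O O' V W R R' γ γ' F hn400 hTn hX hG hK20 hO hO' hV hW hLV hLW hVt hWt
    hsmall hrel
  have hOp : ∀ p ∈ O, p.Prime := fun q hq => (hO q hq).1
  have hOp' : ∀ p ∈ O', p.Prime := fun q hq => (hO' q hq).1
  have main := hT0 X K2 L n N G O O' V W R R' γ γ' F (AltG O O' R R' γ γ' n)
    (EG O O' R R' γ γ') hTn hX hG hK20 hO hO' hV hW hLV hLW hVt hWt hsmall (by
      intro e he hA t ht h1 h2 hF
      obtain ⟨m, m', hm⟩ := hrel e he (inv_le_of ht h2) hF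
      exact gen3_of hm hA ht h1 h2)
    (fun e _ f _ he hf hm h1 => EG_partner hOp hOp' he hf hm h1)
    (fun e _ f _ he hf hm h1 => EG_partner' hOp hOp' he hf hm h1)
  refine main.trans (add_le_add ?_ ?_)
  · norm_num
  apply rest_le
  intro e he hQ hF
  have h := Finset.mem_product.1 he
  obtain ⟨hD, hnG, hnE⟩ := hQ
  refine ⟨hD, ?_⟩
  rcases classify_G hn400 hOp hOp' (hV _ h.1) (hW _ h.2) (hrel e he hD hF) with h1 | h1 | h1
  · exact absurd h1 hnG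
  · exact absurd h1 hnE
  · exact h1

/-! ### the `[F]` pairs -/

/-- the exact-false pairs of a group, condition `1 < 2 (A mm^j)^10 D` -/
theorem ffp_g {N : ℕ} {O O' V W : Finset ℕ} {E : Finset (ℕ × ℕ)}
    {R R' : ℕ → ℝ} (hO : ∀ p ∈ O, p.Prime ∧ N ≤ p) (hO' : ∀ p ∈ O', p.Prime ∧ N ≤ p)
    (hV : ∀ w ∈ V, 0 < w ∧ 0 < R w) (hW : ∀ w ∈ W, 0 < w ∧ 0 < R' w)
    (hE : E ⊆ V ×ˢ W)
    {S S' : Finset ℕ} (hS : S ⊆ O) (hS' : S' ⊆ O')
    (hES : ∀ e ∈ E, miss O e.2 = S ∧ miss O' e.1 = S') (j : ℕ)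
    {K A : ℝ} (hK : 0 ≤ K) (hA : 1 ≤ A) {F : ℕ × ℕ → ℝ} (h1 : ∀ e ∈ E, Dc O O' R R' e ≤ 1)
    (hm : ∀ e ∈ E, 1 < 2 * (A * (mm O O' e)^j)^10 * Dc O O' R R' e)
    (hF : ∀ e ∈ E, F e ≤ K * ((mu O' R e.1 * mu O R' e.2) / Dc O O' R R' e)) :
    ∑ e ∈ E, F e ≤ K * (120000 * KH 1 0 eps2 * A^(6/1000:ℝ)) *
      ((∏ p ∈ S, (p:ℝ))^(6*j/1000:ℝ) * (∏ p ∈ S', (p:ℝ))^(6*j/1000:ℝ)) *
      ZG (1/2-eps2) (1/2+eps2) O O' V W S S' (mu O' R) (mu O R') := by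
  have he1 : eps2 = 1/4000 := rfl
  have hA0 : 0 ≤ A := by linarith
  have hp1 : 0 ≤ ∏ p ∈ S, (p:ℝ) := Finset.prod_nonneg fun p _ => by positivity
  have hp2 : 0 ≤ ∏ p ∈ S', (p:ℝ) := Finset.prod_nonneg fun p _ => by positivity
  rcases E.eq_empty_or_nonempty with h0 | ⟨e0, he0⟩
  · rw [h0, Finset.sum_empty]
    have := ZG_nonneg (α := 1/2-eps2) (β := 1/2+eps2) (O := O) (O' := O') (S := S) (S' := S') (V := V) (W := W)
      (μ := mu O' R) (μ' := mu O R') (fun q hq => mu_nonneg (hV q hq).2.le) (fun q hq => mu_nonneg (hW q hq).2.le)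
    have := (KH_pos 1 0 eps2).le
    positivity
  set m : ℝ := A * (mm O O' e0)^j with hmd
  have hmm1 : 1 ≤ mm O O' e0 := one_le_mm (fun p hp => (hO p hp).1.pos) (fun p hp => (hO' p hp).1.pos) e0
  have hmj : 1 ≤ (mm O O' e0)^j := one_le_pow₀ hmm1
  have hm1 : 1 ≤ m := by rw [hmd]; nlinarith
  have hmE : ∀ e ∈ E, mm O O' e = mm O O' e0 := by
    intro e he
    unfold mm
    rw [(hES e he).1, (hES e he).2, (hES e0 he0).1, (hES e0 he0).2]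
  have hme : m = A * ((∏ p ∈ S, (p:ℝ)) * (∏ p ∈ S', (p:ℝ)))^j := by
    rw [hmd]; unfold mm
    rw [(hES e0 he0).1, (hES e0 he0).2]
  obtain ⟨n, hn1, hn2⟩ := pow_near2 hm1
  have key := mid_dyadic_g (ε := eps2) (by rw [he1]; norm_num) (by rw [he1]; norm_num) hO hO' hV hW
    hS hS'
    hK (F := F) n E hE hES h1 (by
      intro e he
      have h3 := hm e he
      rw [hmE e he] at h3
      rw [div_pow, one_pow, div_lt_iff₀ (by positivity)]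
      have hD : 0 < Dc O O' R R' e := by
        by_contra hneg
        have : 2 * (A * (mm O O' e0)^j)^10 * Dc O O' R R' e ≤ 0 :=
          mul_nonpos_of_nonneg_of_nonpos (by positivity) (not_lt.1 hneg)
        linarith
      rw [← hmd] at h3
      nlinarith) hF
  refine key.trans ?_
  have hZ := ZG_nonneg (α := 1/2-eps2) (β := 1/2+eps2) (O := O) (O' := O') (S := S) (S' := S') (V := V) (W := W)
      (μ := mu O' R) (μ' := mu O R') (fun q hq => mu_nonneg (hV q hq).2.le) (fun q hq => mu_nonneg (hW q hq).2.le)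
  apply mul_le_mul_of_nonneg_right _ hZ
  have hKH := (KH_pos 1 0 eps2).le
  have e3 : A^(6/1000:ℝ) * ((∏ p ∈ S, (p:ℝ))^(6*j/1000:ℝ) * (∏ p ∈ S', (p:ℝ))^(6*j/1000:ℝ)) =
      m^(6/1000:ℝ) := by
    rw [← Real.mul_rpow hp1 hp2, hme, Real.mul_rpow hA0 (by positivity)]
    congr 1
    rw [← Real.rpow_natCast, ← Real.rpow_mul (mul_nonneg hp1 hp2)]
    congr 1
    ring
  calc (n:ℝ) * (2 * K * KH 1 0 eps2 * (2:ℝ)^(2*eps2*n))
      = (2 * K * KH 1 0 eps2) * ((n:ℝ) * (2:ℝ)^(2*eps2*n)) := by ring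
    _ ≤ (2 * K * KH 1 0 eps2) * (60000 * m^(6/1000:ℝ)) :=
        mul_le_mul_of_nonneg_left hn2 (by positivity)
    _ = K * (120000 * KH 1 0 eps2) *
          (A^(6/1000:ℝ) * ((∏ p ∈ S, (p:ℝ))^(6*j/1000:ℝ) * (∏ p ∈ S', (p:ℝ))^(6*j/1000:ℝ))) := by
        rw [e3]; ring
    _ = _ := by ring

/-- all exact-false pairs with `1 < 2 (A mm^j)^10 D`, `j ≤ 2` -/
theorem ffp_all {N : ℕ} {O O' V W : Finset ℕ} {E : Finset (ℕ × ℕ)}
    {R R' : ℕ → ℝ} (hO : ∀ p ∈ O, p.Prime ∧ N ≤ p) (hO' : ∀ p ∈ O', p.Prime ∧ N ≤ p)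
    (hV : ∀ w ∈ V, 0 < w ∧ 0 < R w) (hW : ∀ w ∈ W, 0 < w ∧ 0 < R' w)
    (hE : E ⊆ V ×ˢ W) {j : ℕ} (hj : j ≤ 2)
    {K A : ℝ} (hK : 0 ≤ K) (hA : 1 ≤ A) {F : ℕ × ℕ → ℝ} (h1 : ∀ e ∈ E, Dc O O' R R' e ≤ 1)
    (hm : ∀ e ∈ E, 1 < 2 * (A * (mm O O' e)^j)^10 * Dc O O' R R' e)
    (hF : ∀ e ∈ E, F e ≤ K * ((mu O' R e.1 * mu O R' e.2) / Dc O O' R R' e))
    (hs : ∑ p ∈ O, (p:ℝ)^(-(11/12):ℝ) ≤ 1) (hs' : ∑ p ∈ O', (p:ℝ)^(-(11/12):ℝ) ≤ 1) :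
    ∑ e ∈ E, F e ≤ K * (120000 * KH 1 0 eps2 * A^(6/1000:ℝ)) *
      Real.exp 1 * ((∑ q ∈ V, mu O' R q) * (∑ r ∈ W, mu O R' r))^(1/2+eps2) := by
  have he1 : eps2 = 1/4000 := rfl
  have hα : (0:ℝ) < 1/2-eps2 := by rw [he1]; norm_num
  have hβ : (0:ℝ) < 1/2+eps2 := by rw [he1]; norm_num
  have hKH := (KH_pos 1 0 eps2).le
  have hjR : (j:ℝ) ≤ 2 := by exact_mod_cast hj
  have sE : ∀ {E : Finset (ℕ × ℕ)} {S S' : Finset ℕ} (e : ℕ × ℕ), e ∈ Eg O O' E S S' → e ∈ E :=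
    fun e he => (Finset.mem_filter.1 he).1
  have hmu : ∀ q ∈ V, 0 ≤ mu O' R q := fun q hq => mu_nonneg (hV q hq).2.le
  have hmu' : ∀ q ∈ W, 0 ≤ mu O R' q := fun q hq => mu_nonneg (hW q hq).2.le
  have main := group_sum_t (E := E) (F := F)
    (G := K * (120000 * KH 1 0 eps2 * A^(6/1000:ℝ))) (τ := 6*j/1000)
    hα hβ (by ring) (by rw [he1]; linarith) (fun p hp => (hO p hp).1.pos) (fun p hp => (hO' p hp).1.pos)
    hE hmu hmu' (by positivity) (by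
      intro S hS S' hS'
      exact ffp_g hO hO' hV hW (fun e he => hE (sE e he)) hS hS' sub_ES j
        hK hA (fun e he => h1 e (sE e he)) (fun e he => hm e (sE e he)) (fun e he => hF e (sE e he)))
  refine main.trans ?_
  apply mul_le_mul
  · apply mul_le_mul_of_nonneg_left _ (by positivity)
    apply Real.exp_le_exp.2
    rw [he1]; linarith
  · apply Real.rpow_le_rpow _ _ hβ.le
    · exact mul_nonneg (Finset.sum_nonneg fun q hq => mul_nonneg (om_nonneg _ _) (hmu q hq))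
        (Finset.sum_nonneg fun q hq => mul_nonneg (om_nonneg _ _) (hmu' q hq))
    · apply mul_le_mul
      · exact Finset.sum_le_sum fun q hq => mul_le_of_le_one_left (hmu q hq)
          (om_le_one (fun p hp => (hO' p hp).1.pos) q)
      · exact Finset.sum_le_sum fun q hq => mul_le_of_le_one_left (hmu' q hq)
          (om_le_one (fun p hp => (hO p hp).1.pos) q)
      · exact Finset.sum_nonneg fun q hq => mul_nonneg (om_nonneg _ _) (hmu' q hq)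
      · exact Finset.sum_nonneg hmu
  · apply Real.rpow_nonneg
    exact mul_nonneg (Finset.sum_nonneg fun q hq => mul_nonneg (om_nonneg _ _) (hmu q hq))
        (Finset.sum_nonneg fun q hq => mul_nonneg (om_nonneg _ _) (hmu' q hq))
  · positivity

open Classical in
/-- **accidental pairs**: one HVW bound per accidental scale -/
theorem accp_all {N : ℕ} {O O' V W : Finset ℕ} {E : Finset (ℕ × ℕ)}
    {R R' : ℕ → ℝ} (hO : ∀ p ∈ O, p.Prime ∧ N ≤ p) (hO' : ∀ p ∈ O', p.Prime ∧ N ≤ p)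
    (hV : ∀ w ∈ V, 0 < w ∧ 0 < R w) (hW : ∀ w ∈ W, 0 < w ∧ 0 < R' w)
    {b₀ : ℕ} (hE : E ⊆ V ×ˢ W)
    {K A θ : ℝ} (hK : 0 ≤ K) {F : ℕ × ℕ → ℝ} (hF0 : ∀ e ∈ E, 0 ≤ F e)
    (hm : ∀ e ∈ E, ∃ k ∈ Finset.range (Kmx b₀), BadK A b₀ θ k ∧
      1/2^(k+2) < Dc O O' R R' e ∧ Dc O O' R R' e ≤ 1/2^k)
    (hF : ∀ e ∈ E, F e ≤ K * ((mu O' R e.1 * mu O R' e.2) / Dc O O' R R' e))
    (hs : ∑ p ∈ O, 1/(p:ℝ) ≤ 1) (hs' : ∑ p ∈ O', 1/(p:ℝ) ≤ 1) :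
    ∑ e ∈ E, F e ≤ K * (4 * KH 1 0 eps2) * Real.exp 3 * acc A b₀ θ *
      ((∑ q ∈ V, mu O' R q) * (∑ r ∈ W, mu O R' r))^(1/2+eps2) := by
  have he1 : eps2 = 1/4000 := rfl
  have hKH := (KH_pos 1 0 eps2).le
  have hmu : ∀ q ∈ V, 0 ≤ mu O' R q := fun q hq => mu_nonneg (hV q hq).2.le
  have hmu' : ∀ q ∈ W, 0 ≤ mu O R' q := fun q hq => mu_nonneg (hW q hq).2.le
  set Z := ((∑ q ∈ V, mu O' R q) * (∑ r ∈ W, mu O R' r))^(1/2+eps2) with hZ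
  have hZ0 : 0 ≤ Z := Real.rpow_nonneg (mul_nonneg (Finset.sum_nonneg hmu) (Finset.sum_nonneg hmu')) _
  set Ek : ℕ → Finset (ℕ × ℕ) := fun k => E.filter (fun e => BadK A b₀ θ k ∧
      1/2^(k+2) < Dc O O' R R' e ∧ Dc O O' R R' e ≤ 1/2^k) with hEk
  have h1 : ∑ e ∈ E, F e ≤ ∑ k ∈ Finset.range (Kmx b₀), ∑ e ∈ Ek k, F e := by
    have h2 : ∑ k ∈ Finset.range (Kmx b₀), ∑ e ∈ Ek k, F e =
        ∑ e ∈ E, ∑ k ∈ Finset.range (Kmx b₀), if (BadK A b₀ θ k ∧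
          1/2^(k+2) < Dc O O' R R' e ∧ Dc O O' R R' e ≤ 1/2^k) then F e else 0 := by
      rw [Finset.sum_comm]
      apply Finset.sum_congr rfl
      intro k _
      rw [hEk, Finset.sum_filter]
    rw [h2]
    apply Finset.sum_le_sum
    intro e he
    obtain ⟨k, hk, h3⟩ := hm e he
    have h4 := Finset.single_le_sum (f := fun k => if (BadK A b₀ θ k ∧
          1/2^(k+2) < Dc O O' R R' e ∧ Dc O O' R R' e ≤ 1/2^k) then F e else 0)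
      (s := Finset.range (Kmx b₀)) (fun i _ => by
        show 0 ≤ if _ then F e else 0
        split_ifs
        · exact hF0 e he
        · exact le_rfl) hk
    refine le_trans (le_of_eq ?_) h4
    show F e = if _ then F e else 0
    rw [if_pos h3]
  refine h1.trans ?_
  have h5 : ∀ k ∈ Finset.range (Kmx b₀), ∑ e ∈ Ek k, F e ≤
      K * (4 * KH 1 0 eps2) * Real.exp 3 *
        (if BadK A b₀ θ k then (2:ℝ)^(2*eps2*k) else 0) * Z := by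
    intro k _
    by_cases hk : BadK A b₀ θ k
    · rw [if_pos hk]
      have hmem : ∀ e ∈ Ek k, e ∈ E ∧ 1/2^(k+2) < Dc O O' R R' e ∧ Dc O O' R R' e ≤ 1/2^k := by
        intro e he
        obtain ⟨a1, _, a2, a3⟩ := Finset.mem_filter.1 he
        exact ⟨a1, a2, a3⟩
      have T0 : (0:ℝ) < 1/2^k := by positivity
      have key := mid (ε := eps2) (by rw [he1]; norm_num) (by rw [he1]; norm_num) (E := Ek k) (F := F)
        hO hO' (fun w hw => (hV w hw).1) (fun w hw => (hW w hw).1) (fun w hw => (hV w hw).2.le)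
        (fun w hw => (hW w hw).2.le) (fun e he => hE (hmem e he).1) (c := 0) (c' := 0)
        (fun r _ => Finset.sum_nonneg fun p _ => by positivity)
        (fun r _ => Finset.sum_nonneg fun p _ => by positivity) (T := 1/2^k) (K := K * 2^(k+2)) T0
        (by positivity)
        (fun e he => (le_max_right _ _).trans (hmem e he).2.2)
        (fun e he => (le_max_left _ _).trans (hmem e he).2.2)
        (by
          intro e he
          obtain ⟨a1, a2, a3⟩ := hmem e he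
          have hD0 : 0 < Dc O O' R R' e := lt_trans (by positivity) a2
          have hmm0 : 0 ≤ mu O' R e.1 * mu O R' e.2 := by
            have := Finset.mem_product.1 (hE a1)
            exact mul_nonneg (hmu _ this.1) (hmu' _ this.2)
          refine (hF e a1).trans ?_
          have h6 : (mu O' R e.1 * mu O R' e.2) / Dc O O' R R' e ≤
              2^(k+2) * (mu O' R e.1 * mu O R' e.2) := by
            rw [div_le_iff₀ hD0]
            have h7 : 1 ≤ 2^(k+2) * Dc O O' R R' e := by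
              rw [div_lt_iff₀ (by positivity)] at a2
              linarith
            nlinarith
          calc K * ((mu O' R e.1 * mu O R' e.2) / Dc O O' R R' e)
              ≤ K * (2^(k+2) * (mu O' R e.1 * mu O R' e.2)) := mul_le_mul_of_nonneg_left h6 hK
            _ = _ := by ring)
      refine key.trans ?_
      rw [← hZ]
      have hpw : (2:ℝ)^(k+2) * ((1/2^k : ℝ))^(1-2*eps2) = 4 * (2:ℝ)^(2*eps2*k) := by
        have h8 : (1/2^k : ℝ) = (2:ℝ)^(-(k:ℝ)) := by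
          rw [Real.rpow_neg (by norm_num), Real.rpow_natCast, one_div]
        rw [h8, ← Real.rpow_mul (by norm_num), pow_add, ← Real.rpow_natCast, mul_right_comm,
          ← Real.rpow_add (by norm_num)]
        rw [mul_comm]
        congr 1
        · norm_num
        · congr 1; ring
      have hex : Real.exp ((1/2-eps2) * (-(N*0) + 3 * (∑ p ∈ O, 1/(p:ℝ)) +
          (-(N*0) + 3 * ∑ p ∈ O', 1/(p:ℝ)))) ≤ Real.exp 3 := by
        apply Real.exp_le_exp.2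
        rw [he1]
        linarith
      calc K * 2^(k+2) * (KH 1 0 eps2 * ((1/2^k : ℝ))^(1-2*eps2)) *
            Real.exp ((1/2-eps2) * (-(N*0) + 3 * (∑ p ∈ O, 1/(p:ℝ)) +
              (-(N*0) + 3 * ∑ p ∈ O', 1/(p:ℝ)))) * Z
          = K * KH 1 0 eps2 * (2^(k+2) * ((1/2^k : ℝ))^(1-2*eps2)) *
            Real.exp ((1/2-eps2) * (-(N*0) + 3 * (∑ p ∈ O, 1/(p:ℝ)) +
              (-(N*0) + 3 * ∑ p ∈ O', 1/(p:ℝ)))) * Z := by ring
        _ = K * KH 1 0 eps2 * (4 * (2:ℝ)^(2*eps2*k)) *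
            Real.exp ((1/2-eps2) * (-(N*0) + 3 * (∑ p ∈ O, 1/(p:ℝ)) +
              (-(N*0) + 3 * ∑ p ∈ O', 1/(p:ℝ)))) * Z := by rw [hpw]
        _ ≤ K * KH 1 0 eps2 * (4 * (2:ℝ)^(2*eps2*k)) * Real.exp 3 * Z := by
            apply mul_le_mul_of_nonneg_right _ hZ0
            exact mul_le_mul_of_nonneg_left hex (by positivity)
        _ = _ := by ring
    · have h9 : Ek k = ∅ := by
        rw [Finset.eq_empty_iff_forall_notMem]
        intro e he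
        exact hk (Finset.mem_filter.1 he).2.1
      rw [h9, Finset.sum_empty, if_neg hk]
      simp
  calc ∑ k ∈ Finset.range (Kmx b₀), ∑ e ∈ Ek k, F e
      ≤ ∑ k ∈ Finset.range (Kmx b₀), K * (4 * KH 1 0 eps2) * Real.exp 3 *
        (if BadK A b₀ θ k then (2:ℝ)^(2*eps2*k) else 0) * Z := Finset.sum_le_sum h5
    _ = _ := by
        rw [← Finset.sum_mul, ← Finset.mul_sum]
        rfl

/-! ### numbers in `b` -/

open Classical in
lemma three_split {ι : Type*} (s : Finset ι) (c1 c2 c3 : ι → Prop) (F : ι → ℝ)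
    (h0 : ∀ e ∈ s, 0 ≤ F e) (hc : ∀ e ∈ s, c1 e ∨ c2 e ∨ c3 e) :
    ∑ e ∈ s, F e ≤ ∑ e ∈ s.filter c1, F e + ∑ e ∈ s.filter c2, F e +
      ∑ e ∈ s.filter c3, F e := by
  rw [Finset.sum_filter, Finset.sum_filter, Finset.sum_filter,
    ← Finset.sum_add_distrib, ← Finset.sum_add_distrib]
  apply Finset.sum_le_sum
  intro e he
  have f0 := h0 e he
  have g1 : (0:ℝ) ≤ if c1 e then F e else 0 := by split_ifs <;> [exact f0; exact le_rfl]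
  have g2 : (0:ℝ) ≤ if c2 e then F e else 0 := by split_ifs <;> [exact f0; exact le_rfl]
  have g3 : (0:ℝ) ≤ if c3 e then F e else 0 := by split_ifs <;> [exact f0; exact le_rfl]
  rcases hc e he with h | h | h
  · rw [if_pos h]; linarith
  · rw [if_pos h]; linarith
  · rw [if_pos h]; linarith

set_option maxHeartbeats 1000000 in
open Classical in
/-- **the one-shot number, plain**: `[F]` pairs have large factors (`A₁ mm²`), or are accidental, or `Q`. -/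
theorem shot_p {CL C0 : ℝ} (hCL : 1 ≤ CL) (hC0 : 0 ≤ C0) : ∃ (cl C1 : ℝ) (b₁ : ℕ), 0 ≤ C1 ∧ 2 ≤ b₁ ∧
    (∀ b : ℕ, b₁ ≤ b → (2:ℝ)^(lev cl b) ≤ (Real.log b)^C1) ∧
    (∀ b : ℕ, b₁ ≤ b → 400 ≤ lev cl b) ∧ (∀ b : ℕ, b₁ ≤ b → 1 ≤ Real.log b) ∧
    ∀ (N G b : ℕ) (O O' V W : Finset ℕ) (R R' : ℕ → ℝ)
    (γ γ' : Finset ℕ → ℝ) (F : ℕ × ℕ → ℝ) (Q : ℕ × ℕ → Prop) (A A₁ θ : ℝ),
    b₁ ≤ b → 0 < G → 1 ≤ A₁ →
    (∀ p ∈ O, p.Prime ∧ N ≤ p) → (∀ p ∈ O', p.Prime ∧ N ≤ p) →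
    ∑ p ∈ O, (p:ℝ)^(-(11/12):ℝ) ≤ 1 → ∑ p ∈ O', (p:ℝ)^(-(11/12):ℝ) ≤ 1 →
    (∀ w ∈ V, 0 < w ∧ 0 < R w) → (∀ w ∈ W, 0 < w ∧ 0 < R' w) →
    (∀ w ∈ V, R w ≤ (CL * Real.log b) * mu O' R w) → (∀ w ∈ W, R' w ≤ (CL * Real.log b) * mu O R' w) →
    (∀ z : ℝ, (b:ℝ) ≤ z → ∀ w ∈ V, Crest.Agent.R4.ClsB.Tame z G (uu O' w)) →
    (∀ z : ℝ, (b:ℝ) ≤ z → ∀ w ∈ W, Crest.Agent.R4.ClsB.Tame z G (uu O w)) →
    (∀ e ∈ V ×ˢ W, Dc O O' R R' e ≤ 1 →
      F e ≤ (Real.log b)^C0 * ((R e.1 * R' e.2) / Dc O O' R R' e)) →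
    (∀ e ∈ V ×ˢ W, Dc O O' R R' e ≤ 1/2^(lev cl b) → 0 < F e → RelG O O' R R' γ γ' e) →
    (∀ e ∈ V ×ˢ W, Dc O O' R R' e ≤ 1/2^(lev cl b) → 0 < F e →
      FG O O' R R' γ γ' (lev cl b) e →
      1 < 2 * (A₁ * (mm O O' e)^2)^10 * Dc O O' R R' e ∨
      (∃ k ∈ Finset.range (Kmx b), BadK A b θ k ∧
        1/2^(k+2) < Dc O O' R R' e ∧ Dc O O' R R' e ≤ 1/2^k) ∨ Q e) →
    ∑ e ∈ (V ×ˢ W).filter (fun e => Dc O O' R R' e ≤ 1), F e ≤
      (Real.log b)^C1 * (((∑ q ∈ V, mu O' R q) * (∑ r ∈ W, mu O R' r))^(1/2+eps1) +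
        ((∑ q ∈ V, R q) * (∑ r ∈ W, R' r))^(1/2:ℝ)) +
      (Real.log b)^C1 * (A₁^(6/1000:ℝ) + acc A b θ) *
        ((∑ q ∈ V, mu O' R q) * (∑ r ∈ W, mu O R' r))^(1/2+eps2) +
      ∑ e ∈ (V ×ˢ W).filter (fun e => 0 < F e ∧ (Dc O O' R R' e ≤ 1/2^(lev cl b) ∧ Q e)), F e := by
  obtain ⟨C, c0, hC1, hc0, hC⟩ := low_cls
  obtain ⟨T0, hT01, hT0⟩ := hC c0 hc0 le_rfl
  obtain ⟨x0, hx0⟩ := lev_num c0 T0 hc0
  have hKH := (KH_pos 1 0 eps1).le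
  have hKH2 := (KH_pos 1 0 eps2).le
  have he1 : eps1 = 1/1000 := rfl
  have he2 : eps2 = 1/4000 := rfl
  set C2 : ℝ := 2/c0+1 with hC2
  have hC20 : 0 < C2 := by positivity
  obtain ⟨x1, hx1⟩ := Filter.eventually_atTop.1
    ((Real.tendsto_log_atTop.eventually_ge_atTop
      (1 + CL^2 * (2 * KH 1 0 eps1 + C) * Real.exp 3 + Real.exp 3 +
        CL^2 * (120000 * KH 1 0 eps2) * Real.exp 1 + CL^2 * (4 * KH 1 0 eps2) * Real.exp 3)))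
  have hbig : ∀ b : ℕ, max 2 ⌈max x0 x1⌉₊ ≤ b → 1 ≤ Real.log b ∧
      CL^2 * (2 * KH 1 0 eps1 + C) * Real.exp 3 ≤ Real.log b ∧ Real.exp 3 ≤ Real.log b ∧
      CL^2 * (120000 * KH 1 0 eps2) * Real.exp 1 ≤ Real.log b ∧
      CL^2 * (4 * KH 1 0 eps2) * Real.exp 3 ≤ Real.log b := by
    intro b hb
    have hbx : max x0 x1 ≤ (b:ℝ) := (Nat.le_ceil _).trans (by exact_mod_cast (le_max_right _ _).trans hb)
    have hlog := hx1 b ((le_max_right _ _).trans hbx)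
    have a1 : 0 ≤ CL^2 * (2 * KH 1 0 eps1 + C) * Real.exp 3 := by positivity
    have a2 := Real.exp_nonneg 3
    have a3 : 0 ≤ CL^2 * (120000 * KH 1 0 eps2) * Real.exp 1 := by positivity
    have a4 : 0 ≤ CL^2 * (4 * KH 1 0 eps2) * Real.exp 3 := by positivity
    refine ⟨by linarith, by linarith, by linarith, by linarith, by linarith⟩
  refine ⟨2/c0, C0 + 3 + 2 * C2, max 2 ⌈max x0 x1⌉₊, by positivity, le_max_left _ _, ?_, ?_,
    fun b hb => (hbig b hb).1, ?_⟩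
  · intro b hb
    have hbx : max x0 x1 ≤ (b:ℝ) := (Nat.le_ceil _).trans (by exact_mod_cast (le_max_right _ _).trans hb)
    obtain ⟨_, _, _, g4⟩ := hx0 b ((le_max_left _ _).trans hbx)
    refine g4.trans (Real.rpow_le_rpow_of_exponent_le (hbig b hb).1 ?_)
    linarith
  · intro b hb
    have hbx : max x0 x1 ≤ (b:ℝ) := (Nat.le_ceil _).trans (by exact_mod_cast (le_max_right _ _).trans hb)
    exact (hx0 b ((le_max_left _ _).trans hbx)).1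
  intro N G b O O' V W R R' γ γ' F Q A A₁ θ hb hG hA₁ hO hO' hsO hsO' hV hW hLV hLW hVt hWt hsmall hrel hFG
  have hbx : max x0 x1 ≤ (b:ℝ) := (Nat.le_ceil _).trans (by exact_mod_cast (le_max_right _ _).trans hb)
  obtain ⟨g1, g2, g3, g4⟩ := hx0 b ((le_max_left _ _).trans hbx)
  obtain ⟨hl1, hlc, hle, hlf, hla⟩ := hbig b hb
  have hl0 : 0 < Real.log b := by linarith
  have hs1 : ∑ p ∈ O, 1/(p:ℝ) ≤ 1 :=
    (Finset.sum_le_sum fun p hp => Crest.Agent.R4.ShotFF223.inv_le_pow (hO p hp).1.one_lt.le).trans hsO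
  have hs1' : ∑ p ∈ O', 1/(p:ℝ) ≤ 1 :=
    (Finset.sum_le_sum fun p hp => Crest.Agent.R4.ShotFF223.inv_le_pow (hO' p hp).1.one_lt.le).trans hsO'
  set n := lev (2/c0) b with hn
  set ℓ := Real.log b with hℓ
  have main := hT0 b (ℓ^C0) (CL * ℓ) n N G O O' V W R R' γ γ' F g1 g2 g3 hG (by positivity)
    hO hO' hV hW hLV hLW hVt hWt hsmall hrel
  have hmu : ∀ q ∈ V, 0 ≤ mu O' R q := fun q hq => mu_nonneg (hV q hq).2.le
  have hmu' : ∀ q ∈ W, 0 ≤ mu O R' q := fun q hq => mu_nonneg (hW q hq).2.le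
  have hmm : 0 ≤ (∑ q ∈ V, mu O' R q) * (∑ r ∈ W, mu O R' r) :=
    mul_nonneg (Finset.sum_nonneg hmu) (Finset.sum_nonneg hmu')
  have hRR : 0 ≤ (∑ q ∈ V, R q) * (∑ r ∈ W, R' r) :=
    mul_nonneg (Finset.sum_nonneg fun q hq => (hV q hq).2.le)
      (Finset.sum_nonneg fun q hq => (hW q hq).2.le)
  have hZ := Real.rpow_nonneg hmm (1/2+eps1)
  have hZ' := Real.rpow_nonneg hRR (1/2:ℝ)
  have hZ2 := Real.rpow_nonneg hmm (1/2+eps2)
  -- the `[F]` part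
  set P := V ×ˢ W with hP
  set EA := P.filter (fun e => 0 < F e ∧ (Dc O O' R R' e ≤ 1/2^n ∧
        FG O O' R R' γ γ' n e)) with hEA
  obtain ⟨c1, hc1⟩ : ∃ c : ℕ × ℕ → Prop, c = fun e =>
      1 < 2 * (A₁ * (mm O O' e)^2)^10 * Dc O O' R R' e := ⟨_, rfl⟩
  obtain ⟨c2, hc2⟩ : ∃ c : ℕ × ℕ → Prop, c = fun e =>
      ∃ k ∈ Finset.range (Kmx b), BadK A b θ k ∧
      1/2^(k+2) < Dc O O' R R' e ∧ Dc O O' R R' e ≤ 1/2^k := ⟨_, rfl⟩
  have hAP : ∀ e ∈ EA, e ∈ P := fun e he => (Finset.mem_filter.1 he).1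
  have hFpos : ∀ e ∈ EA, 0 < F e := fun e he => (Finset.mem_filter.1 he).2.1
  have hD1 : ∀ e ∈ EA, Dc O O' R R' e ≤ 1 := by
    intro e he
    have h := (Finset.mem_filter.1 he).2.2.1
    refine h.trans ?_
    rw [div_le_one (by positivity)]
    exact one_le_pow₀ (by norm_num)
  have hDpos : ∀ e ∈ P, 0 < Dc O O' R R' e := by
    intro e he
    have h := Finset.mem_product.1 he
    exact Dc_pos hO hO' (hV _ h.1).2 (hW _ h.2).1
  have hcase : ∀ e ∈ EA, c1 e ∨ c2 e ∨ Q e := by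
    intro e he
    obtain ⟨h3, h4, h5, h6⟩ := Finset.mem_filter.1 he
    rw [hc1, hc2]
    exact hFG e h3 h5 h4 h6
  have hsum := three_split EA c1 c2 Q F (fun e he => (hFpos e he).le) hcase
  have hRRm : ∀ e ∈ P, R e.1 * R' e.2 ≤ (CL * ℓ)^2 * (mu O' R e.1 * mu O R' e.2) := by
    intro e he
    have h := Finset.mem_product.1 he
    have h1 := hLV _ h.1
    have h2 := hLW _ h.2
    have h3 := (hW _ h.2).2
    have h5 : 0 ≤ CL * ℓ * mu O' R e.1 := (hV _ h.1).2.le.trans h1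
    calc R e.1 * R' e.2 ≤ (CL * ℓ * mu O' R e.1) * (CL * ℓ * mu O R' e.2) :=
          mul_le_mul h1 h2 h3.le h5
      _ = _ := by ring
  have hFmu : ∀ e ∈ EA, F e ≤ ℓ^C0 * (CL * ℓ)^2 * ((mu O' R e.1 * mu O R' e.2) / Dc O O' R R' e) := by
    intro e he
    have heP := hAP e he
    calc F e ≤ ℓ^C0 * ((R e.1 * R' e.2) / Dc O O' R R' e) := hsmall e heP (hD1 e he)
      _ ≤ ℓ^C0 * (((CL * ℓ)^2 * (mu O' R e.1 * mu O R' e.2)) / Dc O O' R R' e) :=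
          mul_le_mul_of_nonneg_left (div_le_div_of_nonneg_right (hRRm e heP) (hDpos e heP).le) (by positivity)
      _ = _ := by ring
  have fA : ∀ {c : ℕ × ℕ → Prop} (e : ℕ × ℕ), e ∈ EA.filter c → e ∈ EA :=
    fun e he => (Finset.mem_filter.1 he).1
  set Z := ((∑ q ∈ V, mu O' R q) * (∑ r ∈ W, mu O R' r))^(1/2+eps1) with hZd
  set Z' := ((∑ q ∈ V, R q) * (∑ r ∈ W, R' r))^(1/2:ℝ) with hZd'
  set Z2 := ((∑ q ∈ V, mu O' R q) * (∑ r ∈ W, mu O R' r))^(1/2+eps2) with hZd2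
  have bound1 := ffp_all (E := EA.filter c1) (F := F) (K := ℓ^C0 * (CL * ℓ)^2) (A := A₁) (j := 2)
    hO hO' hV hW (fun e he => hAP e (fA e he)) (by norm_num) (by positivity) hA₁
    (fun e he => hD1 e (fA e he)) (fun e he => by have := (Finset.mem_filter.1 he).2; rwa [hc1] at this)
    (fun e he => hFmu e (fA e he)) hsO hsO'
  have bound2 := accp_all (E := EA.filter c2) (F := F) (K := ℓ^C0 * (CL * ℓ)^2) (A := A) (θ := θ)
    hO hO' hV hW (fun e he => hAP e (fA e he)) (by positivity)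
    (fun e he => (hFpos e (fA e he)).le) (fun e he => by have := (Finset.mem_filter.1 he).2; rwa [hc2] at this)
    (fun e he => hFmu e (fA e he)) hs1 hs1'
  have boundQ : ∑ e ∈ EA.filter Q, F e ≤
      ∑ e ∈ P.filter (fun e => 0 < F e ∧ (Dc O O' R R' e ≤ 1/2^n ∧ Q e)), F e := by
    apply Finset.sum_le_sum_of_subset_of_nonneg
    · intro e he
      obtain ⟨h1, h2⟩ := Finset.mem_filter.1 he
      obtain ⟨h3, h4, h5, h6⟩ := Finset.mem_filter.1 h1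
      exact Finset.mem_filter.2 ⟨h3, h4, h5, h2⟩
    · intro e he _
      exact (Finset.mem_filter.1 he).2.1.le
  rw [← hZd2] at bound1 bound2
  -- numbers
  have h2n : (0:ℝ) < (2:ℝ)^n := by positivity
  have h2n1 : (1:ℝ) ≤ (2:ℝ)^n := one_le_pow₀ (by norm_num)
  have hnn : (n:ℝ) * (2:ℝ)^(2*eps1*n) ≤ ℓ^(2*C2) := by
    have a1 : (n:ℝ) ≤ (2:ℝ)^n := by exact_mod_cast Nat.lt_two_pow_self.le
    have a2 : (2:ℝ)^(2*eps1*n) ≤ (2:ℝ)^n := by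
      rw [← Real.rpow_natCast 2 n]
      apply Real.rpow_le_rpow_of_exponent_le (by norm_num)
      rw [he1]
      have : (0:ℝ) ≤ n := Nat.cast_nonneg _
      linarith
    calc (n:ℝ) * (2:ℝ)^(2*eps1*n) ≤ (2:ℝ)^n * (2:ℝ)^n := mul_le_mul a1 a2 (by positivity) h2n.le
      _ ≤ ℓ^C2 * ℓ^C2 := mul_le_mul g4 g4 h2n.le (by positivity)
      _ = ℓ^(2*C2) := by rw [← Real.rpow_add (by linarith)]; congr 1; ring
  have hpow : ((2:ℝ)^n)^(-(1/1000):ℝ) ≤ 1 :=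
    Real.rpow_le_one_of_one_le_of_nonpos h2n1 (by norm_num)
  have hℓ1 : 1 ≤ ℓ^(2*C2) := Real.one_le_rpow hl1 (by positivity)
  have hC0' : 0 ≤ C := by linarith
  have hcoef : n * (2 * KH 1 0 eps1 * (2:ℝ)^(2*eps1*n)) + C * ((2:ℝ)^n)^(-(1/1000):ℝ)
      ≤ (2 * KH 1 0 eps1 + C) * ℓ^(2*C2) := by
    have q1 : n * (2 * KH 1 0 eps1 * (2:ℝ)^(2*eps1*n)) ≤ 2 * KH 1 0 eps1 * ℓ^(2*C2) := by
      calc n * (2 * KH 1 0 eps1 * (2:ℝ)^(2*eps1*n))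
          = 2 * KH 1 0 eps1 * ((n:ℝ) * (2:ℝ)^(2*eps1*n)) := by ring
        _ ≤ 2 * KH 1 0 eps1 * ℓ^(2*C2) := mul_le_mul_of_nonneg_left hnn (by positivity)
    have q2 : C * ((2:ℝ)^n)^(-(1/1000):ℝ) ≤ C * ℓ^(2*C2) :=
      mul_le_mul_of_nonneg_left (hpow.trans hℓ1) hC0'
    linarith
  have hexp1 : Real.exp ((1/2-eps1) * (3 * (∑ p ∈ O, 1/(p:ℝ)) + 3 * ∑ p ∈ O', 1/(p:ℝ))) ≤ Real.exp 3 := by
    apply Real.exp_le_exp.2
    rw [he1]; linarith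
  have hexp2 : Real.exp ((1/2) * (3 * (∑ p ∈ O, 1/(p:ℝ)) + 3 * ∑ p ∈ O', 1/(p:ℝ))) ≤ Real.exp 3 := by
    apply Real.exp_le_exp.2
    linarith
  have hT1 : (0:ℝ) ≤ ((2:ℝ)^n)^(-(1/1000):ℝ) := by positivity
  have hfirst : ℓ^C0 * (CL * ℓ)^2 * (n * (2 * KH 1 0 eps1 * (2:ℝ)^(2*eps1*n)) +
        C * ((2:ℝ)^n)^(-(1/1000):ℝ)) *
        (Real.exp ((1/2-eps1) * (3 * (∑ p ∈ O, 1/(p:ℝ)) + 3 * ∑ p ∈ O', 1/(p:ℝ))) * Z)
      ≤ ℓ^(C0 + 3 + 2*C2) * Z := by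
    calc _ ≤ ℓ^C0 * (CL * ℓ)^2 * ((2 * KH 1 0 eps1 + C) * ℓ^(2*C2)) *
          (Real.exp 3 * Z) := by
          apply mul_le_mul _ (mul_le_mul_of_nonneg_right hexp1 hZ) (by positivity) (by positivity)
          exact mul_le_mul_of_nonneg_left hcoef (by positivity)
      _ = (ℓ^C0 * ℓ^2 * ℓ^(2*C2) * (CL^2 * (2 * KH 1 0 eps1 + C) * Real.exp 3)) * Z := by ring
      _ ≤ (ℓ^C0 * ℓ^2 * ℓ^(2*C2) * ℓ) * Z := by
          apply mul_le_mul_of_nonneg_right _ hZ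
          exact mul_le_mul_of_nonneg_left hlc (by positivity)
      _ = _ := by
          congr 1
          rw [show C0 + 3 + 2*C2 = C0 + 2 + 2*C2 + 1 by ring, Real.rpow_add hl0, Real.rpow_add hl0,
            Real.rpow_add hl0, Real.rpow_one, Real.rpow_two]
  have hsecond : ℓ^C0 *
        Real.exp ((1/2) * (3 * (∑ p ∈ O, 1/(p:ℝ)) + 3 * ∑ p ∈ O', 1/(p:ℝ))) * Z'
      ≤ ℓ^(C0 + 3 + 2*C2) * Z' := by
    apply mul_le_mul_of_nonneg_right _ hZ'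
    calc _ ≤ ℓ^C0 * Real.exp 3 := mul_le_mul_of_nonneg_left hexp2 (by positivity)
      _ ≤ ℓ^C0 * ℓ := mul_le_mul_of_nonneg_left hle (by positivity)
      _ = ℓ^(C0+1) := by rw [Real.rpow_add hl0, Real.rpow_one]
      _ ≤ _ := Real.rpow_le_rpow_of_exponent_le hl1 (by linarith)
  have hll : ℓ^C0 * ℓ^2 * ℓ ≤ ℓ^(C0 + 3 + 2*C2) := by
    have e : ℓ^C0 * ℓ^2 * ℓ = ℓ^(C0+3) := by
      rw [show C0 + 3 = C0 + 2 + 1 by ring, Real.rpow_add hl0, Real.rpow_add hl0, Real.rpow_one,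
        Real.rpow_two]
    rw [e]
    exact Real.rpow_le_rpow_of_exponent_le hl1 (by linarith)
  have hA6 : (0:ℝ) ≤ A₁^(6/1000:ℝ) := Real.rpow_nonneg (by linarith) _
  have hacc := acc_nonneg A b θ
  have b1 : ∑ e ∈ EA.filter c1, F e ≤ ℓ^(C0 + 3 + 2*C2) * (A₁^(6/1000:ℝ) * Z2) := by
    refine bound1.trans ?_
    calc ℓ^C0 * (CL * ℓ)^2 * (120000 * KH 1 0 eps2 * A₁^(6/1000:ℝ)) * Real.exp 1 * Z2
        = (ℓ^C0 * ℓ^2) * (CL^2 * (120000 * KH 1 0 eps2) * Real.exp 1) * (A₁^(6/1000:ℝ) * Z2) := by ring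
      _ ≤ (ℓ^C0 * ℓ^2) * ℓ * (A₁^(6/1000:ℝ) * Z2) := by
          apply mul_le_mul_of_nonneg_right _ (by positivity)
          exact mul_le_mul_of_nonneg_left hlf (by positivity)
      _ ≤ _ := mul_le_mul_of_nonneg_right hll (by positivity)
  have b2 : ∑ e ∈ EA.filter c2, F e ≤ ℓ^(C0 + 3 + 2*C2) * (acc A b θ * Z2) := by
    refine bound2.trans ?_
    calc ℓ^C0 * (CL * ℓ)^2 * (4 * KH 1 0 eps2) * Real.exp 3 * acc A b θ * Z2
        = (ℓ^C0 * ℓ^2) * (CL^2 * (4 * KH 1 0 eps2) * Real.exp 3) * (acc A b θ * Z2) := by ring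
      _ ≤ (ℓ^C0 * ℓ^2) * ℓ * (acc A b θ * Z2) := by
          apply mul_le_mul_of_nonneg_right _ (by positivity)
          exact mul_le_mul_of_nonneg_left hla (by positivity)
      _ ≤ _ := mul_le_mul_of_nonneg_right hll (by positivity)
  have hfin : ℓ^(C0 + 3 + 2*C2) * (A₁^(6/1000:ℝ) + acc A b θ) * Z2 =
      ℓ^(C0 + 3 + 2*C2) * (A₁^(6/1000:ℝ) * Z2) + ℓ^(C0 + 3 + 2*C2) * (acc A b θ * Z2) := by ring
  have hfin2 : ℓ^(C0 + 3 + 2*C2) * (Z + Z') = ℓ^(C0 + 3 + 2*C2) * Z + ℓ^(C0 + 3 + 2*C2) * Z' := by ring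
  rw [hfin, hfin2]
  linarith

end Crest.Agent.R4P.LowP33
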