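import Mathlib
import Crest.Agent.R4P.LowP_33

/-!
R4 powers pass (S0004), helper33, group [X]: `LowP33.shot_p` with a free level exponent `cl` and the explicit
loss `(log b)^(C0 + 5 + cl/500)`.
-/

set_option autoImplicit false
open Finset

namespace Crest.Agent.R4P.LowT33
open Crest.Agent.R4.HVW560 Crest.Agent.R4.HVWX793
open Crest.Agent.R4.Schur709 Crest.Agent.R4.StopHvw709 Crest.Agent.R4.StopAsm709
open Crest.Agent.R4.ClsS (eps1)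
open Crest.Agent.R4.OSCore709 Crest.Agent.R4.CrossShot709 Crest.Agent.R4.Bad223 Crest.Agent.R4.ShotG223
open Crest.Agent.R4P.LowP33

/-- numbers of a level -/
lemma lev_numT (cl T0 : ℝ) (hcl : 0 < cl) : ∃ x0 : ℝ, ∀ b : ℕ, x0 ≤ (b:ℝ) →
    400 ≤ lev cl b ∧ T0 ≤ (2:ℝ)^(lev cl b) ∧
    (b:ℝ) ≤ Real.exp (((2:ℝ)^(lev cl b))^(2/cl)) ∧
    (2:ℝ)^(lev cl b) ≤ (Real.log b)^(cl+1) ∧ (Real.log b)^cl ≤ (2:ℝ)^(lev cl b) ∧
    ((lev cl b : ℕ) : ℝ) ≤ Real.log b ∧ 2 ≤ Real.log b := by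
  have h2 : 2/(2/cl) = cl := by field_simp
  obtain ⟨x0, hx0⟩ := lev_num (2/cl) T0 (by positivity)
  rw [h2] at hx0
  have hl2 : 0 < Real.log 2 := Real.log_pos (by norm_num)
  set k : ℝ := cl / Real.log 2 with hk
  have hk0 : 0 < k := by positivity
  have tl := Real.tendsto_log_atTop
  have e0 : ∀ᶠ y : ℝ in Filter.atTop, ‖Real.log y‖ ≤ (1/(2*k)) * ‖(id y : ℝ)‖ :=
    Real.isLittleO_log_id_atTop.def (by positivity)
  have e1 : ∀ᶠ x : ℝ in Filter.atTop, k * Real.log (Real.log x) + 1 ≤ Real.log x := by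
    have e2 : ∀ᶠ y : ℝ in Filter.atTop, k * Real.log y + 1 ≤ y := by
      filter_upwards [e0, Filter.eventually_ge_atTop (2:ℝ)] with y hy h2
      have hy1 : Real.log y ≤ (1/(2*k)) * y := by
        have := (le_abs_self _).trans (by simpa [Real.norm_eq_abs] using hy)
        refine this.trans (le_of_eq ?_)
        rw [abs_of_nonneg (by linarith : (0:ℝ) ≤ y)]
        field_simp
      have h3 : k * Real.log y ≤ y / 2 := by
        calc k * Real.log y ≤ k * ((1/(2*k)) * y) := mul_le_mul_of_nonneg_left hy1 hk0.le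
          _ = y / 2 := by field_simp
      linarith
    exact tl.eventually e2
  obtain ⟨x1, hx1⟩ := Filter.eventually_atTop.1 (e1.and (tl.eventually_ge_atTop 2))
  refine ⟨max x0 x1, fun b hb => ?_⟩
  obtain ⟨g1, g2, g3, g4⟩ := hx0 b ((le_max_left _ _).trans hb)
  obtain ⟨g5, g6⟩ := hx1 b ((le_max_right _ _).trans hb)
  have hlp : 0 < Real.log b := by linarith
  have hll : 0 ≤ Real.log (Real.log b) := Real.log_nonneg (by linarith)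
  refine ⟨g1, g2, g3, g4, ?_, ?_, g6⟩
  · have hn1 : cl * Real.log (Real.log b) / Real.log 2 ≤ (lev cl b : ℕ) := Nat.le_ceil _
    have e2n : (2:ℝ)^(lev cl b) = Real.exp ((lev cl b : ℕ) * Real.log 2) := by
      rw [Real.exp_nat_mul, Real.exp_log (by norm_num)]
    rw [e2n, Real.rpow_def_of_pos hlp]
    apply Real.exp_le_exp.2
    rw [div_le_iff₀ hl2] at hn1
    linarith
  · have hn2 : ((lev cl b : ℕ) : ℝ) < cl * Real.log (Real.log b) / Real.log 2 + 1 :=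
      Nat.ceil_lt_add_one (by positivity)
    have : cl * Real.log (Real.log b) / Real.log 2 = k * Real.log (Real.log b) := by rw [hk]; ring
    rw [this] at hn2
    linarith

/-- the absolute constant of the levels -/
noncomputable def clT : ℝ := 2 / low_cls.choose_spec.choose

lemma clT_pos : 0 < clT := by
  have := low_cls.choose_spec.choose_spec.2.1
  unfold clT; positivity

open Classical in
/-- the conclusion of `shot_T` at the level exponent `cl` -/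
def PT (CL C0 cl : ℝ) : Prop :=
    ∃ b₁ : ℕ, 3 ≤ b₁ ∧
    (∀ b : ℕ, b₁ ≤ b → 400 ≤ lev cl b ∧ (Real.log b)^cl ≤ (2:ℝ)^(lev cl b) ∧
      (2:ℝ)^(lev cl b) ≤ (Real.log b)^(cl+1) ∧ 2 ≤ Real.log b) ∧
    ∀ (N G b : ℕ) (O O' V W : Finset ℕ) (R R' : ℕ → ℝ)
    (γ γ' : Finset ℕ → ℝ) (F : ℕ × ℕ → ℝ) (Q : ℕ × ℕ → Prop) (A A₁ θ : ℝ),
    b₁ ≤ b → 0 < G → 1 ≤ A₁ →
    (∀ p ∈ O, p.Prime ∧ N ≤ p) → (∀ p ∈ O', p.Prime ∧ N ≤ p) →
    ∑ p ∈ O, (p:ℝ)^(-(11/12):ℝ) ≤ 1 → ∑ p ∈ O', (p:ℝ)^(-(11/12):ℝ) ≤ 1 →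
    (∀ w ∈ V, 0 < w ∧ 0 < R w) → (∀ w ∈ W, 0 < w ∧ 0 < R' w) →
    (∀ w ∈ V, R w ≤ (CL * Real.log b) * mu O' R w) → (∀ w ∈ W, R' w ≤ (CL * Real.log b) * mu O R' w) →
    (∀ z : ℝ, (b:ℝ) ≤ z → ∀ w ∈ V, Crest.Agent.R4.ClsB.Tame z G (uu O' w)) →
    (∀ z : ℝ, (b:ℝ) ≤ z → ∀ w ∈ W, Crest.Agent.R4.ClsB.Tame z G (uu O w)) →
    (∀ e ∈ V ×ˢ W, Dc O O' R R' e ≤ 1 →
      F e ≤ (Real.log b)^C0 * ((R e.1 * R' e.2) / Dc O O' R R' e)) →
    (∀ e ∈ V ×ˢ W, Dc O O' R R' e ≤ 1/2^(lev cl b) → 0 < F e → RelG O O' R R' γ γ' e) →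
    (∀ e ∈ V ×ˢ W, Dc O O' R R' e ≤ 1/2^(lev cl b) → 0 < F e →
      FG O O' R R' γ γ' (lev cl b) e →
      1 < 2 * (A₁ * (mm O O' e)^2)^10 * Dc O O' R R' e ∨
      (∃ k ∈ Finset.range (Kmx b), BadK A b θ k ∧
        1/2^(k+2) < Dc O O' R R' e ∧ Dc O O' R R' e ≤ 1/2^k) ∨ Q e) →
    ∑ e ∈ (V ×ˢ W).filter (fun e => Dc O O' R R' e ≤ 1), F e ≤
      (Real.log b)^(C0 + 5 + cl/500) * (((∑ q ∈ V, mu O' R q) * (∑ r ∈ W, mu O R' r))^(1/2+eps1) +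
        ((∑ q ∈ V, R q) * (∑ r ∈ W, R' r))^(1/2:ℝ)) +
      (Real.log b)^(C0 + 5 + cl/500) * (A₁^(6/1000:ℝ) + acc A b θ) *
        ((∑ q ∈ V, mu O' R q) * (∑ r ∈ W, mu O R' r))^(1/2+eps2) +
      ∑ e ∈ (V ×ˢ W).filter (fun e => 0 < F e ∧ (Dc O O' R R' e ≤ 1/2^(lev cl b) ∧ Q e)), F e

set_option maxHeartbeats 1000000 in
open Classical in
/-- **the one-shot number, plain, free level**: `[F]` pairs have large factors (`A₁ mm²`), or are accidental, or `Q`. -/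
theorem shot_T' {CL C0 : ℝ} (hCL : 1 ≤ CL) (hC0 : 0 ≤ C0) {cl : ℝ} (hcl : clT ≤ cl) :
    PT CL C0 cl := by
  obtain ⟨hC1, hc0, hC⟩ := low_cls.choose_spec.choose_spec
  unfold clT at hcl
  set C : ℝ := low_cls.choose with hCd
  set c0 : ℝ := low_cls.choose_spec.choose with hc0d
  have hcl0 : 0 < cl := lt_of_lt_of_le (by positivity) hcl
  have hc1' : 2/cl ≤ c0 := by
    rw [div_le_iff₀ hcl0]; rw [div_le_iff₀ hc0] at hcl; linarith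
  obtain ⟨T0, hT01, hT0⟩ := hC (2/cl) (by positivity) hc1'
  obtain ⟨x0, hx0⟩ := lev_numT cl T0 hcl0
  have hKH := (KH_pos 1 0 eps1).le
  have hKH2 := (KH_pos 1 0 eps2).le
  have he1 : eps1 = 1/1000 := rfl
  have he2 : eps2 = 1/4000 := rfl
  set C2 : ℝ := cl/500 + 1/500 + 1 with hC2
  have hC20 : 0 < C2 := by positivity
  obtain ⟨x1, hx1⟩ := Filter.eventually_atTop.1
    ((Real.tendsto_log_atTop.eventually_ge_atTop
      (1 + CL^2 * (2 * KH 1 0 eps1 + C) * Real.exp 3 + Real.exp 3 +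
        CL^2 * (120000 * KH 1 0 eps2) * Real.exp 1 + CL^2 * (4 * KH 1 0 eps2) * Real.exp 3)))
  have hbig : ∀ b : ℕ, max 3 ⌈max x0 x1⌉₊ ≤ b → 1 ≤ Real.log b ∧
      CL^2 * (2 * KH 1 0 eps1 + C) * Real.exp 3 ≤ Real.log b ∧ Real.exp 3 ≤ Real.log b ∧
      CL^2 * (120000 * KH 1 0 eps2) * Real.exp 1 ≤ Real.log b ∧
      CL^2 * (4 * KH 1 0 eps2) * Real.exp 3 ≤ Real.log b := by
    intro b hb
    have hbx : max x0 x1 ≤ (b:ℝ) := (Nat.le_ceil _).trans (by exact_mod_cast (le_max_right _ _).trans hb)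
    have hlog := hx1 b ((le_max_right _ _).trans hbx)
    have a1 : 0 ≤ CL^2 * (2 * KH 1 0 eps1 + C) * Real.exp 3 := by positivity
    have a2 := Real.exp_nonneg 3
    have a3 : 0 ≤ CL^2 * (120000 * KH 1 0 eps2) * Real.exp 1 := by positivity
    have a4 : 0 ≤ CL^2 * (4 * KH 1 0 eps2) * Real.exp 3 := by positivity
    refine ⟨by linarith, by linarith, by linarith, by linarith, by linarith⟩
  refine ⟨max 3 ⌈max x0 x1⌉₊, le_max_left _ _, ?_, ?_⟩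
  · intro b hb
    have hbx : max x0 x1 ≤ (b:ℝ) := (Nat.le_ceil _).trans (by exact_mod_cast (le_max_right _ _).trans hb)
    obtain ⟨g1, _, _, g4, g5, _, g7⟩ := hx0 b ((le_max_left _ _).trans hbx)
    exact ⟨g1, g5, g4, g7⟩
  intro N G b O O' V W R R' γ γ' F Q A A₁ θ hb hG hA₁ hO hO' hsO hsO' hV hW hLV hLW hVt hWt hsmall hrel hFG
  have hbx : max x0 x1 ≤ (b:ℝ) := (Nat.le_ceil _).trans (by exact_mod_cast (le_max_right _ _).trans hb)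
  obtain ⟨g1, g2, g3, g4, g5, g6, g7⟩ := hx0 b ((le_max_left _ _).trans hbx)
  obtain ⟨hl1, hlc, hle, hlf, hla⟩ := hbig b hb
  have hl0 : 0 < Real.log b := by linarith
  have hs1 : ∑ p ∈ O, 1/(p:ℝ) ≤ 1 :=
    (Finset.sum_le_sum fun p hp => Crest.Agent.R4.ShotFF223.inv_le_pow (hO p hp).1.one_lt.le).trans hsO
  have hs1' : ∑ p ∈ O', 1/(p:ℝ) ≤ 1 :=
    (Finset.sum_le_sum fun p hp => Crest.Agent.R4.ShotFF223.inv_le_pow (hO' p hp).1.one_lt.le).trans hsO'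
  set n := lev cl b with hn
  set ℓ := Real.log b with hℓ
  have main := hT0 b (ℓ^C0) (CL * ℓ) n N G O O' V W R R' γ γ' F g1 g2 g3 hG (by positivity)
    hO hO' hV hW hLV hLW hVt hWt hsmall hrel
  have hmu : ∀ q ∈ V, 0 ≤ mu O' R q := fun q hq => mu_nonneg (hV q hq).2.le
  have hmu' : ∀ q ∈ W, 0 ≤ mu O R' q := fun q hq => mu_nonneg (hW q hq).2.le
  have hmm : 0 ≤ (∑ q ∈ V, mu O' R q) * (∑ r ∈ W, mu O R' r) :=
    mul_nonneg (Finset.sum_nonneg hmu) (Finset.sum_nonneg hmu')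
  have hRR : 0 ≤ (∑ q ∈ V, R q) * (∑ r ∈ W, R' r) :=
    mul_nonneg (Finset.sum_nonneg fun q hq => (hV q hq).2.le)
      (Finset.sum_nonneg fun q hq => (hW q hq).2.le)
  have hZ := Real.rpow_nonneg hmm (1/2+eps1)
  have hZ' := Real.rpow_nonneg hRR (1/2:ℝ)
  have hZ2 := Real.rpow_nonneg hmm (1/2+eps2)
  -- the `[F]` part
  set P := V ×ˢ W with hP
  set EA := P.filter (fun e => 0 < F e ∧ (Dc O O' R R' e ≤ 1/2^n ∧
        FG O O' R R' γ γ' n e)) with hEA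
  obtain ⟨c1, hc1⟩ : ∃ c : ℕ × ℕ → Prop, c = fun e =>
      1 < 2 * (A₁ * (mm O O' e)^2)^10 * Dc O O' R R' e := ⟨_, rfl⟩
  obtain ⟨c2, hc2⟩ : ∃ c : ℕ × ℕ → Prop, c = fun e =>
      ∃ k ∈ Finset.range (Kmx b), BadK A b θ k ∧
      1/2^(k+2) < Dc O O' R R' e ∧ Dc O O' R R' e ≤ 1/2^k := ⟨_, rfl⟩
  have hAP : ∀ e ∈ EA, e ∈ P := fun e he => (Finset.mem_filter.1 he).1
  have hFpos : ∀ e ∈ EA, 0 < F e := fun e he => (Finset.mem_filter.1 he).2.1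
  have hD1 : ∀ e ∈ EA, Dc O O' R R' e ≤ 1 := by
    intro e he
    have h := (Finset.mem_filter.1 he).2.2.1
    refine h.trans ?_
    rw [div_le_one (by positivity)]
    exact one_le_pow₀ (by norm_num)
  have hDpos : ∀ e ∈ P, 0 < Dc O O' R R' e := by
    intro e he
    have h := Finset.mem_product.1 he
    exact Dc_pos hO hO' (hV _ h.1).2 (hW _ h.2).1
  have hcase : ∀ e ∈ EA, c1 e ∨ c2 e ∨ Q e := by
    intro e he
    obtain ⟨h3, h4, h5, h6⟩ := Finset.mem_filter.1 he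
    rw [hc1, hc2]
    exact hFG e h3 h5 h4 h6
  have hsum := three_split EA c1 c2 Q F (fun e he => (hFpos e he).le) hcase
  have hRRm : ∀ e ∈ P, R e.1 * R' e.2 ≤ (CL * ℓ)^2 * (mu O' R e.1 * mu O R' e.2) := by
    intro e he
    have h := Finset.mem_product.1 he
    have h1 := hLV _ h.1
    have h2 := hLW _ h.2
    have h3 := (hW _ h.2).2
    have h5 : 0 ≤ CL * ℓ * mu O' R e.1 := (hV _ h.1).2.le.trans h1
    calc R e.1 * R' e.2 ≤ (CL * ℓ * mu O' R e.1) * (CL * ℓ * mu O R' e.2) :=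
          mul_le_mul h1 h2 h3.le h5
      _ = _ := by ring
  have hFmu : ∀ e ∈ EA, F e ≤ ℓ^C0 * (CL * ℓ)^2 * ((mu O' R e.1 * mu O R' e.2) / Dc O O' R R' e) := by
    intro e he
    have heP := hAP e he
    calc F e ≤ ℓ^C0 * ((R e.1 * R' e.2) / Dc O O' R R' e) := hsmall e heP (hD1 e he)
      _ ≤ ℓ^C0 * (((CL * ℓ)^2 * (mu O' R e.1 * mu O R' e.2)) / Dc O O' R R' e) :=
          mul_le_mul_of_nonneg_left (div_le_div_of_nonneg_right (hRRm e heP) (hDpos e heP).le) (by positivity)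
      _ = _ := by ring
  have fA : ∀ {c : ℕ × ℕ → Prop} (e : ℕ × ℕ), e ∈ EA.filter c → e ∈ EA :=
    fun e he => (Finset.mem_filter.1 he).1
  set Z := ((∑ q ∈ V, mu O' R q) * (∑ r ∈ W, mu O R' r))^(1/2+eps1) with hZd
  set Z' := ((∑ q ∈ V, R q) * (∑ r ∈ W, R' r))^(1/2:ℝ) with hZd'
  set Z2 := ((∑ q ∈ V, mu O' R q) * (∑ r ∈ W, mu O R' r))^(1/2+eps2) with hZd2
  have bound1 := ffp_all (E := EA.filter c1) (F := F) (K := ℓ^C0 * (CL * ℓ)^2) (A := A₁) (j := 2)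
    hO hO' hV hW (fun e he => hAP e (fA e he)) (by norm_num) (by positivity) hA₁
    (fun e he => hD1 e (fA e he)) (fun e he => by have := (Finset.mem_filter.1 he).2; rwa [hc1] at this)
    (fun e he => hFmu e (fA e he)) hsO hsO'
  have bound2 := accp_all (E := EA.filter c2) (F := F) (K := ℓ^C0 * (CL * ℓ)^2) (A := A) (θ := θ)
    hO hO' hV hW (fun e he => hAP e (fA e he)) (by positivity)
    (fun e he => (hFpos e (fA e he)).le) (fun e he => by have := (Finset.mem_filter.1 he).2; rwa [hc2] at this)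
    (fun e he => hFmu e (fA e he)) hs1 hs1'
  have boundQ : ∑ e ∈ EA.filter Q, F e ≤
      ∑ e ∈ P.filter (fun e => 0 < F e ∧ (Dc O O' R R' e ≤ 1/2^n ∧ Q e)), F e := by
    apply Finset.sum_le_sum_of_subset_of_nonneg
    · intro e he
      obtain ⟨h1, h2⟩ := Finset.mem_filter.1 he
      obtain ⟨h3, h4, h5, h6⟩ := Finset.mem_filter.1 h1
      exact Finset.mem_filter.2 ⟨h3, h4, h5, h2⟩
    · intro e he _
      exact (Finset.mem_filter.1 he).2.1.le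
  rw [← hZd2] at bound1 bound2
  -- numbers
  have h2n : (0:ℝ) < (2:ℝ)^n := by positivity
  have h2n1 : (1:ℝ) ≤ (2:ℝ)^n := one_le_pow₀ (by norm_num)
  have hnn : (n:ℝ) * (2:ℝ)^(2*eps1*n) ≤ ℓ^C2 := by
    have a2 : (2:ℝ)^(2*eps1*n) ≤ ℓ^((cl+1)*(2*eps1)) := by
      calc (2:ℝ)^(2*eps1*n) = ((2:ℝ)^n)^(2*eps1) := by
            rw [← Real.rpow_natCast 2 n, ← Real.rpow_mul (by norm_num)]; congr 1; ring
        _ ≤ (ℓ^(cl+1))^(2*eps1) := Real.rpow_le_rpow h2n.le g4 (by rw [he1]; norm_num)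
        _ = _ := by rw [← Real.rpow_mul hl0.le]
    calc (n:ℝ) * (2:ℝ)^(2*eps1*n) ≤ ℓ * ℓ^((cl+1)*(2*eps1)) := mul_le_mul g6 a2 (by positivity) hl0.le
      _ = ℓ^(1 + (cl+1)*(2*eps1)) := by rw [Real.rpow_add hl0, Real.rpow_one]
      _ = ℓ^C2 := by rw [hC2, he1]; congr 1; ring
  have hpow : ((2:ℝ)^n)^(-(1/1000):ℝ) ≤ 1 :=
    Real.rpow_le_one_of_one_le_of_nonpos h2n1 (by norm_num)
  have hℓ1 : 1 ≤ ℓ^C2 := Real.one_le_rpow hl1 (by positivity)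
  have hC0' : 0 ≤ C := by linarith
  have hcoef : n * (2 * KH 1 0 eps1 * (2:ℝ)^(2*eps1*n)) + C * ((2:ℝ)^n)^(-(1/1000):ℝ)
      ≤ (2 * KH 1 0 eps1 + C) * ℓ^C2 := by
    have q1 : n * (2 * KH 1 0 eps1 * (2:ℝ)^(2*eps1*n)) ≤ 2 * KH 1 0 eps1 * ℓ^C2 := by
      calc n * (2 * KH 1 0 eps1 * (2:ℝ)^(2*eps1*n))
          = 2 * KH 1 0 eps1 * ((n:ℝ) * (2:ℝ)^(2*eps1*n)) := by ring
        _ ≤ 2 * KH 1 0 eps1 * ℓ^C2 := mul_le_mul_of_nonneg_left hnn (by positivity)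
    have q2 : C * ((2:ℝ)^n)^(-(1/1000):ℝ) ≤ C * ℓ^C2 :=
      mul_le_mul_of_nonneg_left (hpow.trans hℓ1) hC0'
    linarith
  have hexp1 : Real.exp ((1/2-eps1) * (3 * (∑ p ∈ O, 1/(p:ℝ)) + 3 * ∑ p ∈ O', 1/(p:ℝ))) ≤ Real.exp 3 := by
    apply Real.exp_le_exp.2
    rw [he1]; linarith
  have hexp2 : Real.exp ((1/2) * (3 * (∑ p ∈ O, 1/(p:ℝ)) + 3 * ∑ p ∈ O', 1/(p:ℝ))) ≤ Real.exp 3 := by
    apply Real.exp_le_exp.2
    linarith
  have hT1 : (0:ℝ) ≤ ((2:ℝ)^n)^(-(1/1000):ℝ) := by positivity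
  have hfirst : ℓ^C0 * (CL * ℓ)^2 * (n * (2 * KH 1 0 eps1 * (2:ℝ)^(2*eps1*n)) +
        C * ((2:ℝ)^n)^(-(1/1000):ℝ)) *
        (Real.exp ((1/2-eps1) * (3 * (∑ p ∈ O, 1/(p:ℝ)) + 3 * ∑ p ∈ O', 1/(p:ℝ))) * Z)
      ≤ ℓ^(C0 + 5 + cl/500) * Z := by
    calc _ ≤ ℓ^C0 * (CL * ℓ)^2 * ((2 * KH 1 0 eps1 + C) * ℓ^C2) *
          (Real.exp 3 * Z) := by
          apply mul_le_mul _ (mul_le_mul_of_nonneg_right hexp1 hZ) (by positivity) (by positivity)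
          exact mul_le_mul_of_nonneg_left hcoef (by positivity)
      _ = (ℓ^C0 * ℓ^2 * ℓ^C2 * (CL^2 * (2 * KH 1 0 eps1 + C) * Real.exp 3)) * Z := by ring
      _ ≤ (ℓ^C0 * ℓ^2 * ℓ^C2 * ℓ) * Z := by
          apply mul_le_mul_of_nonneg_right _ hZ
          exact mul_le_mul_of_nonneg_left hlc (by positivity)
      _ = ℓ^(C0 + 2 + C2 + 1) * Z := by
          have e1 : ℓ^(C0 + 2 + C2 + 1) = ℓ^(C0 + 2 + C2) * ℓ := by rw [Real.rpow_add hl0, Real.rpow_one]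
          have e2 : ℓ^(C0 + 2 + C2) = ℓ^(C0 + 2) * ℓ^C2 := Real.rpow_add hl0 _ _
          have e3 : ℓ^(C0 + 2) = ℓ^C0 * ℓ^2 := by rw [Real.rpow_add hl0, Real.rpow_two]
          rw [e1, e2, e3]
      _ ≤ _ := by
          apply mul_le_mul_of_nonneg_right _ hZ
          exact Real.rpow_le_rpow_of_exponent_le hl1 (by rw [hC2]; linarith)
  have hsecond : ℓ^C0 *
        Real.exp ((1/2) * (3 * (∑ p ∈ O, 1/(p:ℝ)) + 3 * ∑ p ∈ O', 1/(p:ℝ))) * Z'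
      ≤ ℓ^(C0 + 5 + cl/500) * Z' := by
    apply mul_le_mul_of_nonneg_right _ hZ'
    calc _ ≤ ℓ^C0 * Real.exp 3 := mul_le_mul_of_nonneg_left hexp2 (by positivity)
      _ ≤ ℓ^C0 * ℓ := mul_le_mul_of_nonneg_left hle (by positivity)
      _ = ℓ^(C0+1) := by rw [Real.rpow_add hl0, Real.rpow_one]
      _ ≤ _ := Real.rpow_le_rpow_of_exponent_le hl1 (by linarith)
  have hll : ℓ^C0 * ℓ^2 * ℓ ≤ ℓ^(C0 + 5 + cl/500) := by
    have e : ℓ^C0 * ℓ^2 * ℓ = ℓ^(C0+3) := by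
      rw [show C0 + 3 = C0 + 2 + 1 by ring, Real.rpow_add hl0, Real.rpow_add hl0, Real.rpow_one,
        Real.rpow_two]
    rw [e]
    exact Real.rpow_le_rpow_of_exponent_le hl1 (by linarith)
  have hA6 : (0:ℝ) ≤ A₁^(6/1000:ℝ) := Real.rpow_nonneg (by linarith) _
  have hacc := acc_nonneg A b θ
  have b1 : ∑ e ∈ EA.filter c1, F e ≤ ℓ^(C0 + 5 + cl/500) * (A₁^(6/1000:ℝ) * Z2) := by
    refine bound1.trans ?_
    calc ℓ^C0 * (CL * ℓ)^2 * (120000 * KH 1 0 eps2 * A₁^(6/1000:ℝ)) * Real.exp 1 * Z2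
        = (ℓ^C0 * ℓ^2) * (CL^2 * (120000 * KH 1 0 eps2) * Real.exp 1) * (A₁^(6/1000:ℝ) * Z2) := by ring
      _ ≤ (ℓ^C0 * ℓ^2) * ℓ * (A₁^(6/1000:ℝ) * Z2) := by
          apply mul_le_mul_of_nonneg_right _ (by positivity)
          exact mul_le_mul_of_nonneg_left hlf (by positivity)
      _ ≤ _ := mul_le_mul_of_nonneg_right hll (by positivity)
  have b2 : ∑ e ∈ EA.filter c2, F e ≤ ℓ^(C0 + 5 + cl/500) * (acc A b θ * Z2) := by
    refine bound2.trans ?_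
    calc ℓ^C0 * (CL * ℓ)^2 * (4 * KH 1 0 eps2) * Real.exp 3 * acc A b θ * Z2
        = (ℓ^C0 * ℓ^2) * (CL^2 * (4 * KH 1 0 eps2) * Real.exp 3) * (acc A b θ * Z2) := by ring
      _ ≤ (ℓ^C0 * ℓ^2) * ℓ * (acc A b θ * Z2) := by
          apply mul_le_mul_of_nonneg_right _ (by positivity)
          exact mul_le_mul_of_nonneg_left hla (by positivity)
      _ ≤ _ := mul_le_mul_of_nonneg_right hll (by positivity)
  have hfin : ℓ^(C0 + 5 + cl/500) * (A₁^(6/1000:ℝ) + acc A b θ) * Z2 =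
      ℓ^(C0 + 5 + cl/500) * (A₁^(6/1000:ℝ) * Z2) + ℓ^(C0 + 5 + cl/500) * (acc A b θ * Z2) := by ring
  have hfin2 : ℓ^(C0 + 5 + cl/500) * (Z + Z') = ℓ^(C0 + 5 + cl/500) * Z + ℓ^(C0 + 5 + cl/500) * Z' := by ring
  rw [hfin, hfin2]
  linarith


theorem shot_T {CL C0 : ℝ} (hCL : 1 ≤ CL) (hC0 : 0 ≤ C0) : ∃ cl₀ : ℝ, 0 < cl₀ ∧ ∀ cl : ℝ, cl₀ ≤ cl →
    PT CL C0 cl := ⟨clT, clT_pos, fun _ h => shot_T' hCL hC0 h⟩

end Crest.Agent.R4P.LowT33
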