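import Mathlib
import Crest.Agent.R4P.BrP_33
import Crest.Agent.R4P.LowT_33

/-!
R4 powers pass (S0004), helper33, group [X]: **the one-shot number at a crossing prime `s`, in item letters**.

* `shot_cls` : one class (exact valuations `a`, `a'` of the items at `s`, effective exponents different).
-/

set_option autoImplicit false
open Finset

namespace Crest.Agent.R4P.ShotP33

open Crest.Agent.R4.HVW560 Crest.Agent.R4.Schur709 Crest.Agent.R4.StopHvw709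
open Crest.Agent.R4.StopAsm709 Crest.Agent.R4.AvgItem710 Crest.Agent.R4.DeepSt579
open Crest.Agent.R4P.Rad800 Crest.Agent.R4P.StripP33 Crest.Agent.R4P.BrP33
open Crest.Agent.R4.ClsS (eps1)
open Crest.Agent.R4.OSCore709 Crest.Agent.R4.CrossShot709 Crest.Agent.R4.Bad223 Crest.Agent.R4.ShotG223
open Crest.Agent.R4.NMW710 (Dq)

/-! ### numbers -/

lemma pow_split {P Z δ : ℝ} (hP : 0 < P) (hZ : 0 ≤ Z) :
    (P * Z)^(1/2+δ) = P * (P^(-(1/2-δ)) * Z^(1/2+δ)) := by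
  rw [Real.mul_rpow hP.le hZ, ← mul_assoc]
  congr 1
  have : P^(1/2+δ) = P^(1 + -(1/2-δ)) := by congr 1; ring
  rw [this, Real.rpow_add hP, Real.rpow_one]

/-- the gain of one class -/
lemma gain_le {s e : ℕ} {E δ : ℝ} (hs : 2 ≤ s) (he : 1 ≤ e) (hE : 1 ≤ E) (hδ' : δ ≤ 1/100) :
    (E * (s:ℝ)^e)^(-(1/2-δ)) ≤ (s:ℝ)^(-(48/100)*((e:ℝ)-1)) * (s:ℝ)^(-(1/2-δ)) := by
  have hs0 : (0:ℝ) < s := by positivity
  have hs1 : (1:ℝ) ≤ s := by exact_mod_cast (by omega : 1 ≤ s)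
  have he1 : (1:ℝ) ≤ e := by exact_mod_cast he
  rw [Real.mul_rpow (by linarith) (by positivity)]
  have h1 : E^(-(1/2-δ)) ≤ 1 := Real.rpow_le_one_of_one_le_of_nonpos hE (by linarith)
  have h2 : ((s:ℝ)^e)^(-(1/2-δ)) = (s:ℝ)^((e:ℝ) * -(1/2-δ)) := by
    rw [← Real.rpow_natCast, ← Real.rpow_mul hs0.le]
  rw [h2, ← Real.rpow_add hs0]
  calc E^(-(1/2-δ)) * (s:ℝ)^((e:ℝ) * -(1/2-δ)) ≤ 1 * (s:ℝ)^((e:ℝ) * -(1/2-δ)) :=
        mul_le_mul_of_nonneg_right h1 (by positivity)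
    _ = (s:ℝ)^((e:ℝ) * -(1/2-δ)) := one_mul _
    _ ≤ _ := Real.rpow_le_rpow_of_exponent_le hs1 (by nlinarith)

/-- the gain against the factor of the `[F]` pairs -/
lemma gain2_le {s e : ℕ} {E : ℝ} (hs : 2 ≤ s) (he : 1 ≤ e) (hE : 1 ≤ E) :
    (E^2 * (if e = 1 then (1:ℝ) else (s:ℝ)^e))^(6/1000:ℝ) * (E * (s:ℝ)^e)^(-(1/2-eps2)) ≤
      (s:ℝ)^(-(48/100)*((e:ℝ)-1)) * (s:ℝ)^(-(1/2-eps2)) := by
  have he2 : eps2 = 1/4000 := rfl
  have hs0 : (0:ℝ) < s := by positivity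
  have hs1 : (1:ℝ) ≤ s := by exact_mod_cast (by omega : 1 ≤ s)
  have he1 : (1:ℝ) ≤ e := by exact_mod_cast he
  have hE0 : 0 < E := by linarith
  have hS0 : (0:ℝ) < (if e = 1 then (1:ℝ) else (s:ℝ)^e) := by split_ifs <;> positivity
  rw [Real.mul_rpow (by positivity) hS0.le, Real.mul_rpow hE0.le (by positivity)]
  have h0 : (E^2)^(6/1000:ℝ) * E^(-(1/2-eps2)) ≤ 1 := by
    have : (E^2)^(6/1000:ℝ) = E^(12/1000:ℝ) := by
      rw [← Real.rpow_natCast, ← Real.rpow_mul hE0.le]; norm_num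
    rw [this, ← Real.rpow_add hE0]
    exact Real.rpow_le_one_of_one_le_of_nonpos hE (by rw [he2]; norm_num)
  have h2 : ((s:ℝ)^e)^(-(1/2-eps2)) = (s:ℝ)^((e:ℝ) * -(1/2-eps2)) := by
    rw [← Real.rpow_natCast, ← Real.rpow_mul hs0.le]
  have h3 : (if e = 1 then (1:ℝ) else (s:ℝ)^e)^(6/1000:ℝ) * ((s:ℝ)^e)^(-(1/2-eps2)) ≤
      (s:ℝ)^(-(48/100)*((e:ℝ)-1)) * (s:ℝ)^(-(1/2-eps2)) := by
    rw [h2, ← Real.rpow_add hs0]
    by_cases h : e = 1
    · rw [if_pos h, Real.one_rpow, one_mul, h]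
      apply le_of_eq; congr 1; push_cast; ring
    · rw [if_neg h]
      have he2' : (2:ℝ) ≤ e := by exact_mod_cast (by omega : 2 ≤ e)
      rw [← Real.rpow_natCast (s:ℝ) e, ← Real.rpow_mul hs0.le, ← Real.rpow_add hs0]
      exact Real.rpow_le_rpow_of_exponent_le hs1 (by rw [he2]; nlinarith)
  calc _ = ((E^2)^(6/1000:ℝ) * E^(-(1/2-eps2))) *
        ((if e = 1 then (1:ℝ) else (s:ℝ)^e)^(6/1000:ℝ) * ((s:ℝ)^e)^(-(1/2-eps2))) := by ring
    _ ≤ 1 * _ := mul_le_mul h0 h3 (by positivity) zero_le_one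
    _ = _ := one_mul _

/-- the gain against the factors of the `[F]` pairs: `a₀` is absorbed unless `e = 1` -/
lemma gain3_le {s e a₀ : ℕ} {E : ℝ} (hs : 2 ≤ s) (he : 1 ≤ e) (hE : 1 ≤ E) (ha : 1 ≤ a₀) (ha' : a₀ ≤ s) :
    (a₀:ℝ)^(6/1000:ℝ) * ((E^2 * (if e = 1 then (1:ℝ) else (s:ℝ)^e))^(6/1000:ℝ) *
        (E * (s:ℝ)^e)^(-(1/2-eps2))) ≤
      (if e = 1 then (a₀:ℝ)^(6/1000:ℝ) else 1) *
        ((s:ℝ)^(-(48/100)*((e:ℝ)-1)) * (s:ℝ)^(-(1/2-eps2))) := by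
  by_cases h : e = 1
  · have h2 := gain2_le hs he hE
    rw [if_pos h] at h2 ⊢
    rw [if_pos h]
    exact mul_le_mul_of_nonneg_left h2 (by positivity)
  have he2 : eps2 = 1/4000 := rfl
  have hs0 : (0:ℝ) < s := by positivity
  have hs1 : (1:ℝ) ≤ s := by exact_mod_cast (by omega : 1 ≤ s)
  have hE0 : 0 < E := by linarith
  have ha1 : (a₀:ℝ) ≤ s := by exact_mod_cast ha'
  rw [if_neg h, if_neg h, one_mul, Real.mul_rpow (by positivity) (by positivity),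
    Real.mul_rpow hE0.le (by positivity)]
  have h0 : (E^2)^(6/1000:ℝ) * E^(-(1/2-eps2)) ≤ 1 := by
    have : (E^2)^(6/1000:ℝ) = E^(12/1000:ℝ) := by
      rw [← Real.rpow_natCast, ← Real.rpow_mul hE0.le]; norm_num
    rw [this, ← Real.rpow_add hE0]
    exact Real.rpow_le_one_of_one_le_of_nonpos hE (by rw [he2]; norm_num)
  have h1 : (a₀:ℝ)^(6/1000:ℝ) ≤ (s:ℝ)^(6/1000:ℝ) :=
    Real.rpow_le_rpow (by positivity) ha1 (by norm_num)
  have h2 : ((s:ℝ)^e)^(-(1/2-eps2)) = (s:ℝ)^((e:ℝ) * -(1/2-eps2)) := by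
    rw [← Real.rpow_natCast, ← Real.rpow_mul hs0.le]
  have h3 : ((s:ℝ)^e)^(6/1000:ℝ) = (s:ℝ)^((e:ℝ) * (6/1000)) := by
    rw [← Real.rpow_natCast, ← Real.rpow_mul hs0.le]
  have he2' : (2:ℝ) ≤ e := by exact_mod_cast (by omega : 2 ≤ e)
  calc _ = (a₀:ℝ)^(6/1000:ℝ) * (((E^2)^(6/1000:ℝ) * E^(-(1/2-eps2))) *
        (((s:ℝ)^e)^(6/1000:ℝ) * ((s:ℝ)^e)^(-(1/2-eps2)))) := by ring
    _ ≤ (s:ℝ)^(6/1000:ℝ) * (1 * (((s:ℝ)^e)^(6/1000:ℝ) * ((s:ℝ)^e)^(-(1/2-eps2)))) := by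
        gcongr
    _ = (s:ℝ)^((6/1000:ℝ) + ((e:ℝ) * (6/1000) + (e:ℝ) * -(1/2-eps2))) := by
        rw [one_mul, h2, h3, ← Real.rpow_add hs0, ← Real.rpow_add hs0]
    _ ≤ (s:ℝ)^((-(48/100)*((e:ℝ)-1)) + -(1/2-eps2)) :=
        Real.rpow_le_rpow_of_exponent_le hs1 (by rw [he2]; nlinarith)
    _ = _ := Real.rpow_add hs0 _ _

/-- no accident for the target `0` -/
lemma acc_zero {b : ℕ} (h : 2 ≤ Real.log b) : acc 1 b 0 = 0 := by
  classical
  unfold acc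
  refine Finset.sum_eq_zero fun k _ => if_neg ?_
  rintro ⟨t, _, _, h1, k', hk1, hk2, h', hn, hh⟩
  rw [Real.rpow_one] at h1
  have ht : 1 < t := by linarith
  rw [mul_zero, zero_sub, abs_neg] at hh
  have h2 : t^(-(7/10):ℝ) < 1 := Real.rpow_lt_one_of_one_lt_of_neg ht (by norm_num)
  have h3 : |(h':ℝ)| < 1 := lt_of_le_of_lt hh h2
  have h4 : |h'| < 1 := by exact_mod_cast h3
  have h5 : h' = 0 := Int.abs_lt_one_iff.1 h4
  exact hn (by rw [h5]; exact dvd_zero _)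

/-- primes of the stripped average -/
lemma pf_st {s M : ℕ} (hs : s.Prime) (hM : 0 < M) : (st s M).primeFactors = M.primeFactors.erase s := by
  ext l
  simp only [Finset.mem_erase, Nat.mem_primeFactors]
  constructor
  · rintro ⟨h1, h2, h3⟩
    refine ⟨?_, h1, h2.trans (st_dvd s M), hM.ne'⟩
    rintro rfl; exact st_ndvd hs hM h2
  · rintro ⟨h1, h2, h3, _⟩
    refine ⟨h2, ?_, (st_pos hM).ne'⟩
    have h4 : l ∣ s ^ M.factorization s * st s M := by rw [st_mul]; exact h3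
    rcases (Nat.Prime.dvd_mul h2).1 h4 with h5 | h5
    · exact absurd ((Nat.prime_dvd_prime_iff_eq h2 hs).1 (h2.dvd_of_dvd_pow h5)) h1
    · exact h5

/-- the missing factor is `1` or at least `s` -/
lemma rf_one_or {s M w : ℕ} (hs : s.Prime) (hM : 0 < M)
    (hMs : ∀ l : ℕ, l.Prime → l ∣ M → l ≠ s → s ≤ l) : rf w (st s M) = 1 ∨ s ≤ rf w (st s M) := by
  by_cases h : rf w (st s M) = 1
  · exact Or.inl h
  right
  have h1 := Nat.minFac_prime h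
  have h2 := Nat.minFac_dvd (rf w (st s M))
  have h3 : (rf w (st s M)).minFac ∣ st s M := h2.trans (Nat.div_dvd_of_dvd (Nat.gcd_dvd_left _ _))
  have h4 : (rf w (st s M)).minFac ≠ s := by
    intro h5; rw [h5] at h3; exact st_ndvd hs hM h3
  exact (hMs _ h1 (h3.trans (st_dvd s M)) h4).trans (Nat.minFac_le (rf_pos (st_pos hM)))

/-! ### item letters -/

/-- the averaged stripped item -/
def ui (s M pr q : ℕ) : ℕ := itm s pr q / (st s M).gcd (itm s pr q)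

/-- relation of an item pair (conclusion of `Link758.PE_rel`) -/
def RelI (γ : ℝ) (ρ : ℕ → ℝ) (M b pr c M' b' pr' c' : ℕ) (e : ℕ × ℕ) : Prop :=
  ∃ m m' : ℤ, |(m + rf (e.1 / pr) M * ((b : ℝ) / c * γ)) *
      (cof (e.2 / pr' / M'.gcd (e.2 / pr')) (e.1 / pr / M.gcd (e.1 / pr)) : ℕ) -
      (m' + rf (e.2 / pr') M' * ((b' : ℝ) / c' * γ)) *
      (cof (e.1 / pr / M.gcd (e.1 / pr)) (e.2 / pr' / M'.gcd (e.2 / pr')) : ℕ)| ≤
    2 * Dq ρ M b pr c M' b' pr' c' e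

/-- class `[F]` of an item pair at the crossing prime, in the letters of the link (`β₁ = bL`, `x y₁` = the
cofactors of the stripped items) -/
def FSs (s : ℕ) (γ : ℝ) (ρ : ℕ → ℝ) (n M b pr c M' b' pr' c' a a' : ℕ) (e : ℕ × ℕ) : Prop :=
  FS n (bL s a (M.factorization s) a' (M'.factorization s) * (rf (e.1 / pr) M * ((b : ℝ) / c * γ)))
    (bL s a' (M'.factorization s) a (M.factorization s) * (rf (e.2 / pr') M' * ((b' : ℝ) / c' * γ)))
    (cof (ui s M pr e.1) (ui s M' pr' e.2)) (cof (ui s M' pr' e.2) (ui s M pr e.1))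
    (bL s a (M.factorization s) a' (M'.factorization s) * (rf (e.1 / pr) M * ((b : ℝ) / c * ρ e.1)))
    (bL s a' (M'.factorization s) a (M.factorization s) * (rf (e.2 / pr') M' * ((b' : ℝ) / c' * ρ e.2)))

/-- the outcome of the link for an `[F]` pair of crossing exponent `ex` -/
def FLow (s ex a₀ r₀ r₀' : ℕ) (θ₁ D : ℝ) : Prop :=
  1 < 2 * ((a₀ * r₀ * r₀' : ℕ) : ℝ)^10 * D ∨
  (1 < 2 * ((s ^ ex * a₀ * r₀ * r₀' : ℕ) : ℝ)^10 * D ∧
    (ex = 1 → r₀ * r₀' = 1 → ∃ t : ℝ, 0 < t ∧ 1/(2*t) < D ∧ D ≤ 1/t ∧ BadS s θ₁ t))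

/-- the `[F]` alternative in the letters of the averaged circle -/
lemma FLow.alt {s ex a₀ r₀ r₀' : ℕ} {θ₁ D A E mmv : ℝ} (hs : 2 ≤ s) (hex : 1 ≤ ex) (ha₀ : 1 ≤ a₀)
    (ha₀' : a₀ ≤ s) (hA : 0 ≤ A) (hl : 2 ≤ Real.log s) (hr0 : 0 < r₀) (hr0' : 0 < r₀')
    (hr : r₀ = 1 ∨ s ≤ r₀) (hr' : r₀' = 1 ∨ s ≤ r₀')
    (hE : 1 ≤ E) (hmm : 1 ≤ mmv) (hrr : ((r₀ * r₀' : ℕ) : ℝ) = E * mmv) (hD : 0 < D)
    (h : FLow s ex a₀ r₀ r₀' θ₁ D) :
    1 < 2 * ((a₀ * (Real.log s)^A * (E^2 * (if ex = 1 then (1:ℝ) else (s:ℝ)^ex))) * mmv^2)^10 * D ∨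
    ∃ k ∈ Finset.range (Kmx s), BadK (if ex = 1 then A else 1) s (if ex = 1 then θ₁ else 0) k ∧
        1/2^(k+2) < D ∧ D ≤ 1/2^k := by
  set ℓ := Real.log s with hℓ
  have hs2 : (2:ℝ) ≤ s := by exact_mod_cast hs
  have hs0 : (0:ℝ) < s := by linarith
  have ha1 : (1:ℝ) ≤ a₀ := by exact_mod_cast ha₀
  have ha2 : (a₀:ℝ) ≤ s := by exact_mod_cast ha₀'
  have hℓA : 1 ≤ ℓ^A := Real.one_le_rpow (by linarith) hA
  set S₁ : ℝ := if ex = 1 then (1:ℝ) else (s:ℝ)^ex with hS₁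
  have hS1 : 1 ≤ S₁ := by
    rw [hS₁]; split_ifs
    · exact le_rfl
    · exact one_le_pow₀ (by linarith)
  have hE0 : 0 < E := by linarith
  have hm0 : 0 < mmv := by linarith
  have hEm : 1 ≤ E * mmv := by nlinarith
  have hEE : E * mmv ≤ E^2 * mmv^2 := by nlinarith [mul_pos hE0 hm0]
  have mono : ∀ {x y : ℝ}, 0 ≤ x → x ≤ y → 1 < 2 * x^10 * D → 1 < 2 * y^10 * D := by
    intro x y hx hxy h1
    refine lt_of_lt_of_le h1 ?_
    have := pow_le_pow_left₀ hx hxy 10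
    gcongr
  have base : (a₀:ℝ) * (E * mmv) ≤ (a₀ * ℓ^A * (E^2 * S₁)) * mmv^2 := by
    calc (a₀:ℝ) * (E * mmv) ≤ (a₀:ℝ) * (E^2 * mmv^2) := mul_le_mul_of_nonneg_left hEE (by positivity)
      _ = (a₀:ℝ) * 1 * (E^2 * 1) * mmv^2 := by ring
      _ ≤ _ := by gcongr
  rcases h with h | ⟨h, h1⟩
  · left
    refine mono (by positivity) ?_ h
    have e1 : ((a₀ * r₀ * r₀' : ℕ) : ℝ) = a₀ * (E * mmv) := by rw [← hrr]; push_cast; ring
    rw [e1]; exact base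
  by_cases hex1 : ex = 1
  swap
  · left
    refine mono (by positivity) ?_ h
    have e1 : ((s ^ ex * a₀ * r₀ * r₀' : ℕ) : ℝ) = (s:ℝ)^ex * (a₀ * (E * mmv)) := by
      rw [← hrr]; push_cast; ring
    have e2 : S₁ = (s:ℝ)^ex := by rw [hS₁, if_neg hex1]
    rw [e1, e2]
    calc (s:ℝ)^ex * (a₀ * (E * mmv)) ≤ (s:ℝ)^ex * (a₀ * (E^2 * mmv^2)) := by gcongr
      _ = (a₀:ℝ) * 1 * (E^2 * (s:ℝ)^ex) * mmv^2 := by ring
      _ ≤ _ := by gcongr
  by_cases hr1 : r₀ * r₀' = 1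
  swap
  · left
    refine mono (by positivity) ?_ h
    have hsr : (s:ℝ) ≤ E * mmv := by
      rw [← hrr]
      have : s ≤ r₀ * r₀' := by
        rcases hr with h2 | h2
        · rcases hr' with h3 | h3
          · exact absurd (by rw [h2, h3]) hr1
          · calc s ≤ r₀' := h3
              _ ≤ r₀ * r₀' := Nat.le_mul_of_pos_left _ hr0
        · calc s ≤ r₀ := h2
            _ ≤ r₀ * r₀' := Nat.le_mul_of_pos_right _ hr0'
      exact_mod_cast this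
    have e1 : ((s ^ ex * a₀ * r₀ * r₀' : ℕ) : ℝ) = (s:ℝ) * (a₀ * (E * mmv)) := by
      rw [← hrr, hex1]; push_cast; ring
    rw [e1]
    calc (s:ℝ) * (a₀ * (E * mmv)) ≤ (E * mmv) * (a₀ * (E * mmv)) := by gcongr
      _ = (a₀:ℝ) * 1 * (E^2 * 1) * mmv^2 := by ring
      _ ≤ _ := by gcongr
  obtain ⟨t, ht0, ht1, ht2, hB⟩ := h1 hex1 hr1
  by_cases htA : t < ℓ^A
  · left
    have h3 : 1 < 2 * ℓ^A * D := by
      have : 1 < 2 * t * D := by
        rw [div_lt_iff₀ (by positivity)] at ht1; linarith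
      nlinarith
    have h4 : ℓ^A ≤ (a₀ * ℓ^A * (E^2 * S₁)) * mmv^2 := by
      have h5 : 1 ≤ E^2 * mmv^2 := hEm.trans hEE
      calc ℓ^A = 1 * ℓ^A * (1 * 1) := by ring
        _ ≤ a₀ * ℓ^A * ((E^2 * mmv^2) * S₁) := by gcongr
        _ = _ := by ring
    set Y := (a₀ * ℓ^A * (E^2 * S₁)) * mmv^2 with hY
    have hY1 : 1 ≤ Y := hℓA.trans h4
    have h6 : Y ≤ Y^10 := le_self_pow₀ hY1 (by norm_num)
    have h7 : ℓ^A ≤ Y^10 := h4.trans h6
    refine lt_of_lt_of_le h3 ?_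
    gcongr
  · right
    have htA' := not_lt.1 htA
    have ht1' : 1 ≤ t := hℓA.trans htA'
    set k := Nat.log 2 ⌊t⌋₊ with hk
    have hfl : ⌊t⌋₊ ≠ 0 := (Nat.floor_pos.2 ht1').ne'
    have hk1 : (2:ℝ)^k ≤ t := by
      have h2 : 2^k ≤ ⌊t⌋₊ := Nat.pow_log_le_self 2 hfl
      calc (2:ℝ)^k = ((2^k : ℕ) : ℝ) := by push_cast; ring
        _ ≤ (⌊t⌋₊ : ℝ) := by exact_mod_cast h2
        _ ≤ t := Nat.floor_le ht0.le
    have hk2 : t < (2:ℝ)^(k+1) := by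
      have h2 : ⌊t⌋₊ < 2^(k+1) := Nat.lt_pow_succ_log_self (by norm_num) _
      calc t < (⌊t⌋₊ : ℝ) + 1 := Nat.lt_floor_add_one t
        _ ≤ ((2^(k+1) : ℕ) : ℝ) := by exact_mod_cast h2
        _ = _ := by push_cast; ring
    have hDs : 1 < 2 * ((s:ℝ)^2)^10 * D := by
      refine mono (by positivity) ?_ h
      have e1 : ((s ^ ex * a₀ * r₀ * r₀' : ℕ) : ℝ) = (s:ℝ) * a₀ := by
        have : s ^ ex * a₀ * r₀ * r₀' = s * a₀ * (r₀ * r₀') := by rw [hex1]; ring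
        rw [this, hr1]; push_cast; ring
      rw [e1, sq]
      gcongr
    refine ⟨k, Finset.mem_range.2 (lt_Kmx (by omega) hk1 ht2 hDs ht0), ⟨t, hk1, hk2, ?_, ?_⟩, ?_, ?_⟩
    · rw [if_pos hex1]; exact htA'
    · rw [if_pos hex1]; exact hB
    · refine lt_of_le_of_lt ?_ ht1
      apply one_div_le_one_div_of_le (by positivity)
      calc 2 * t ≤ 2 * 2^(k+1) := by linarith
        _ = 2^(k+2) := by ring
    · refine ht2.trans ?_
      exact one_div_le_one_div_of_le (by positivity) hk1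

open Crest.Agent.R4.ClsB (Tame) in
open Classical in
/-- the conclusion of `shot_cls` at the level exponent `cl` -/
def PCls (CL C0 cl : ℝ) : Prop :=
    ∃ s₁ : ℕ, 3 ≤ s₁ ∧
    (∀ s : ℕ, s₁ ≤ s → 400 ≤ lev cl s ∧ (Real.log s)^cl ≤ (2:ℝ)^(lev cl s) ∧
      (2:ℝ)^(lev cl s) ≤ (Real.log s)^(cl+1) ∧ 2 ≤ Real.log s) ∧
    ∀ (s M b pr c M' b' pr' c' a a' a₀ : ℕ) (γ : ℝ) (ρ : ℕ → ℝ) (V W : Finset ℕ) (F : ℕ × ℕ → ℝ)
    (Q : ℕ × ℕ → Prop) (A θ₁ : ℝ),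
    s₁ ≤ s → s.Prime → 1 ≤ a₀ → a₀ ≤ s → 0 ≤ A → (∀ q, 0 < ρ q) →
    0 < b → 0 < c → 0 < b' → 0 < c' → 0 < M → 0 < M' →
    (∀ l : ℕ, l.Prime → l ∣ M → l ≠ s → s ≤ l) → (∀ l : ℕ, l.Prime → l ∣ M' → l ≠ s → s ≤ l) →
    ∑ l ∈ M.primeFactors.erase s, (l:ℝ)^(-(11/12):ℝ) ≤ 1 →
    ∑ l ∈ M'.primeFactors.erase s, (l:ℝ)^(-(11/12):ℝ) ≤ 1 →
    a + M'.factorization s ≠ a' + M.factorization s →
    (∀ q ∈ V, Sd s M pr a q) → (∀ q ∈ W, Sd s M' pr' a' q) →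
    (∀ z : ℝ, (s:ℝ) ≤ z → ∀ q ∈ V, Tame z 1 (q / pr / M.gcd (q / pr))) →
    (∀ z : ℝ, (s:ℝ) ≤ z → ∀ q ∈ W, Tame z 1 (q / pr' / M'.gcd (q / pr'))) →
    (∀ q ∈ V, 1 ≤ CL * Real.log s * tq (q / pr / M.gcd (q / pr))) →
    (∀ q ∈ W, 1 ≤ CL * Real.log s * tq (q / pr' / M'.gcd (q / pr'))) →
    (∀ e ∈ V ×ˢ W, Dq ρ M b pr c M' b' pr' c' e ≤ 1 →
      F e ≤ (Real.log s)^C0 * (rd b c ρ e.1 * rd b' c' ρ e.2 / Dq ρ M b pr c M' b' pr' c' e)) →
    (∀ e ∈ V ×ˢ W, Dq ρ M b pr c M' b' pr' c' e ≤ 1/2^(lev cl s) → 0 < F e →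
      RelI γ ρ M b pr c M' b' pr' c' e) →
    (∀ e ∈ V ×ˢ W, Dq ρ M b pr c M' b' pr' c' e ≤ 1/2^(lev cl s) → 0 < F e →
      FSs s γ ρ (lev cl s) M b pr c M' b' pr' c' a a' e →
      FLow s (dex a (M.factorization s) a' (M'.factorization s)) a₀ (rf (itm s pr e.1) (st s M))
        (rf (itm s pr' e.2) (st s M')) θ₁ (Dq ρ M b pr c M' b' pr' c' e) ∨ Q e) →
    ∑ e ∈ (V ×ˢ W).filter (fun e => Dq ρ M b pr c M' b' pr' c' e ≤ 1), F e ≤
      (s:ℝ)^(-(48/100)*((dex a (M.factorization s) a' (M'.factorization s) : ℝ)-1)) *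
        ((Real.log s)^(C0 + 7 + cl/500) * ((s:ℝ)^(-(1/2-eps1)) *
            ((∑ q ∈ V, rd b c ρ q * tq (q / pr)) * (∑ q ∈ W, rd b' c' ρ q * tq (q / pr')))^(1/2+eps1) +
          (s:ℝ)^(-(1/2):ℝ) *
            ((∑ q ∈ V, rd b c ρ q * tq (q / pr)) * (∑ q ∈ W, rd b' c' ρ q * tq (q / pr')))^(1/2:ℝ)) +
        (Real.log s)^(C0 + 7 + cl/500) * ((Real.log s)^(A*(6/1000)) *
              (if dex a (M.factorization s) a' (M'.factorization s) = 1 then (a₀:ℝ)^(6/1000:ℝ) else 1) +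
            (if dex a (M.factorization s) a' (M'.factorization s) = 1 then acc A s θ₁ else 0)) *
          ((s:ℝ)^(-(1/2-eps2)) *
            ((∑ q ∈ V, rd b c ρ q * tq (q / pr)) * (∑ q ∈ W, rd b' c' ρ q * tq (q / pr')))^(1/2+eps2))) +
      ∑ e ∈ (V ×ˢ W).filter (fun e => 0 < F e ∧ (Dq ρ M b pr c M' b' pr' c' e ≤ 1/2^(lev cl s) ∧ Q e)),
        F e

open Crest.Agent.R4.ClsB (Tame) in
set_option maxHeartbeats 2000000 in
open Classical in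
/-- **the one-shot number of one class** -/
theorem shot_cls' {CL C0 : ℝ} (hCL : 1 ≤ CL) (hC0 : 0 ≤ C0) {cl : ℝ}
    (hcl : Crest.Agent.R4P.LowT33.clT ≤ cl) : PCls CL C0 cl := by
  have he1 : eps1 = 1/1000 := rfl
  have he2 : eps2 = 1/4000 := rfl
  obtain ⟨b₁, hb₁, hlev, hmain⟩ := Crest.Agent.R4P.LowT33.shot_T' hCL hC0 hcl
  obtain ⟨x1, hx1⟩ := Filter.eventually_atTop.1
    (Real.tendsto_log_atTop.eventually_ge_atTop (256 * CL))
  refine ⟨max b₁ ⌈x1⌉₊, hb₁.trans (le_max_left _ _), fun s hs => hlev s ((le_max_left _ _).trans hs), ?_⟩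
  intro s M b pr c M' b' pr' c' a a' a₀ γ ρ V W F Q A θ₁ hs₁ hs ha₀ ha₀' hA hρ hb hc hb' hc' hM hM' hMs hMs'
    hsM hsM' hne hV hW tV tW lV lW hF hrel hFG
  have hsb : b₁ ≤ s := (le_max_left _ _).trans hs₁
  obtain ⟨hl400, hl1, hl2, hlog⟩ := hlev s hsb
  have hl256 : 256 * CL ≤ Real.log s := hx1 s ((Nat.le_ceil _).trans (by exact_mod_cast (le_max_right _ _).trans hs₁))
  set ℓ := Real.log s with hℓ
  have hℓ0 : 0 < ℓ := by linarith
  have hℓ1 : 1 ≤ ℓ := by linarith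
  have hs2 : 2 ≤ s := hs.two_le
  have hs0 : (0:ℝ) < s := by exact_mod_cast hs.pos
  set m := M.factorization s with hm
  set m' := M'.factorization s with hm'
  set P := PL s a m a' m' with hP
  set P' := PL s a' m' a m with hP'
  set ex' := dex a m a' m' with hex'
  have hPP : P * P' = s ^ ex' := PL_mul s a m a' m'
  have hex1 : 1 ≤ ex' := dex_pos hne
  have hP0 : 0 < P := PL_pos hs.pos
  have hP0' : 0 < P' := PL_pos hs.pos
  have hP0r : (0:ℝ) < P := by exact_mod_cast hP0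
  have hP0r' : (0:ℝ) < P' := by exact_mod_cast hP0'
  have hst := st_pos (s := s) hM
  have hst' := st_pos (s := s) hM'
  have xM : (1:ℝ) ≤ ex (st s M) := by exact_mod_cast ex_pos hst
  have xM' : (1:ℝ) ≤ ex (st s M') := by exact_mod_cast ex_pos hst'
  set E : ℝ := (ex (st s M) : ℝ) * ex (st s M') with hE
  have hE1 : 1 ≤ E := by rw [hE]; nlinarith
  have hrd : ∀ q, 0 < rd b c ρ q := fun q => mul_pos (div_pos (by exact_mod_cast hb) (by exact_mod_cast hc)) (hρ q)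
  have hrd' : ∀ q, 0 < rd b' c' ρ q := fun q =>
    mul_pos (div_pos (by exact_mod_cast hb') (by exact_mod_cast hc')) (hρ q)
  set O' := (st s M).primeFactors with hO'
  set O := (st s M').primeFactors with hO
  have hOp : ∀ l ∈ O, l.Prime ∧ s ≤ l := fun l hl => by
    rw [hO, pf_st hs hM', Finset.mem_erase] at hl
    have h2 := Nat.prime_of_mem_primeFactors hl.2
    exact ⟨h2, hMs' l h2 (Nat.dvd_of_mem_primeFactors hl.2) hl.1⟩
  have hOp' : ∀ l ∈ O', l.Prime ∧ s ≤ l := fun l hl => by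
    rw [hO', pf_st hs hM, Finset.mem_erase] at hl
    have h2 := Nat.prime_of_mem_primeFactors hl.2
    exact ⟨h2, hMs l h2 (Nat.dvd_of_mem_primeFactors hl.2) hl.1⟩
  have hsO : ∑ p ∈ O, (p:ℝ)^(-(11/12):ℝ) ≤ 1 := by rw [hO, pf_st hs hM']; exact hsM'
  have hsO' : ∑ p ∈ O', (p:ℝ)^(-(11/12):ℝ) ≤ 1 := by rw [hO', pf_st hs hM]; exact hsM
  have hs1 : ∑ p ∈ O, 1/(p:ℝ) ≤ 1 :=
    (Finset.sum_le_sum fun p hp => Crest.Agent.R4.ShotFF223.inv_le_pow (hOp p hp).1.one_lt.le).trans hsO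
  have hs1' : ∑ p ∈ O', 1/(p:ℝ) ≤ 1 :=
    (Finset.sum_le_sum fun p hp => Crest.Agent.R4.ShotFF223.inv_le_pow (hOp' p hp).1.one_lt.le).trans hsO'
  set V0 := V.image (itm s pr) with hV0
  set W0 := W.image (itm s pr') with hW0
  set R := Rb s M P b pr c a ρ with hR
  set R' := Rb s M' P' b' pr' c' a' ρ with hR'
  set gL := gb s M P ((b : ℝ) / c * γ) with hgL
  set gR := gb s M' P' ((b' : ℝ) / c' * γ) with hgR
  set κ : ℝ := ((ex (st s M) : ℝ) * P) * ((ex (st s M') : ℝ) * P') with hκ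
  have hκ0 : 0 < κ := by rw [hκ]; positivity
  have hκE : κ = E * (s:ℝ)^ex' := by
    have : ((P * P' : ℕ) : ℝ) = (s:ℝ)^ex' := by rw [hPP]; push_cast; ring
    rw [hκ, hE, ← this]; push_cast; ring
  set F0 : ℕ × ℕ → ℝ := fun f => κ * F (bk s pr a f.1, bk s pr' a' f.2) with hF0
  have hDc : ∀ e ∈ V ×ˢ W, Dc O O' R R' (itm s pr e.1, itm s pr' e.2) = Dq ρ M b pr c M' b' pr' c' e := fun e he =>
    Dc_br hs hM hM' (hV _ (Finset.mem_product.1 he).1) (hW _ (Finset.mem_product.1 he).2) b c b' c' ρ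
  have hF0e : ∀ e ∈ V ×ˢ W, F0 (itm s pr e.1, itm s pr' e.2) = κ * F e := fun e he => by
    rw [hF0]; simp only
    rw [(hV _ (Finset.mem_product.1 he).1).bk_eq, (hW _ (Finset.mem_product.1 he).2).bk_eq]
  have mem0 : ∀ f ∈ V0 ×ˢ W0, ∃ e ∈ V ×ˢ W, f = (itm s pr e.1, itm s pr' e.2) := fun f hf => by
    rw [hV0, hW0, prod_img] at hf
    obtain ⟨e, he, rfl⟩ := Finset.mem_image.1 hf
    exact ⟨e, he, rfl⟩
  have hRe : ∀ q ∈ V, R (itm s pr q) = (ex (st s M) : ℝ) * (P * rd b c ρ q) := fun q hq => (hV q hq).Rb_eq P b c ρ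
  have hRe' : ∀ q ∈ W, R' (itm s pr' q) = (ex (st s M') : ℝ) * (P' * rd b' c' ρ q) := fun q hq =>
    (hW q hq).Rb_eq P' b' c' ρ
  have muV : ∀ q ∈ V, mu O' R (itm s pr q) =
      (ex (st s M) : ℝ) * (P * rd b c ρ q) * tq (itm s pr q / (st s M).gcd (itm s pr q)) := fun q hq =>
    (hV q hq).mu_eq hs hM P b c ρ
  have muW : ∀ q ∈ W, mu O R' (itm s pr' q) =
      (ex (st s M') : ℝ) * (P' * rd b' c' ρ q) * tq (itm s pr' q / (st s M').gcd (itm s pr' q)) := fun q hq =>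
    (hW q hq).mu_eq hs hM' P' b' c' ρ
  have gV : ∀ q ∈ V, gL (miss O' (itm s pr q)) = (rf (itm s pr q) (st s M) : ℕ) * ((P : ℝ) * ((b : ℝ) / c * γ)) :=
    fun q hq => (hV q hq).gb_eq hs hM P _
  have gW : ∀ q ∈ W, gR (miss O (itm s pr' q)) =
      (rf (itm s pr' q) (st s M') : ℕ) * ((P' : ℝ) * ((b' : ℝ) / c' * γ)) :=
    fun q hq => (hW q hq).gb_eq hs hM' P' _
  have uV : ∀ q ∈ V, uu O' (itm s pr q) = ui s M pr q := fun q hq => (hV q hq).uu_eq hs hM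
  have uW : ∀ q ∈ W, uu O (itm s pr' q) = ui s M' pr' q := fun q hq => (hW q hq).uu_eq hs hM'
  have cV : ∀ q ∈ V, Rc O' R (itm s pr q) = (rf (itm s pr q) (st s M) : ℕ) * ((P : ℝ) * rd b c ρ q) :=
    fun q hq => (hV q hq).Rc_eq hs hM P b c ρ
  have cW : ∀ q ∈ W, Rc O R' (itm s pr' q) = (rf (itm s pr' q) (st s M') : ℕ) * ((P' : ℝ) * rd b' c' ρ q) :=
    fun q hq => (hW q hq).Rc_eq hs hM' P' b' c' ρ
  set A' : ℝ := if ex' = 1 then A else 1 with hA'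
  set θ' : ℝ := if ex' = 1 then θ₁ else 0 with hθ'
  set A₁ : ℝ := a₀ * ℓ^A * (E^2 * (if ex' = 1 then (1:ℝ) else (s:ℝ)^ex')) with hA₁
  have ha1 : (1:ℝ) ≤ a₀ := by exact_mod_cast ha₀
  have hℓA : 1 ≤ ℓ^A := Real.one_le_rpow hℓ1 hA
  have hS1 : (1:ℝ) ≤ (if ex' = 1 then (1:ℝ) else (s:ℝ)^ex') := by
    split_ifs
    · exact le_rfl
    · exact one_le_pow₀ (by exact_mod_cast hs.one_le)
  have hE21 : 1 ≤ E^2 := one_le_pow₀ hE1
  have hA₁1 : 1 ≤ A₁ := by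
    rw [hA₁]
    calc (1:ℝ) = 1 * 1 * (1 * 1) := by ring
      _ ≤ _ := by gcongr
  -- the plain theorem
  have key := hmain s 1 s O O' V0 W0 R R' gL gR F0 (fun f => Q (bk s pr a f.1, bk s pr' a' f.2)) A' A₁ θ'
    hsb one_pos hA₁1 hOp hOp' hsO hsO'
    (by
      intro w hw
      obtain ⟨q, hq, rfl⟩ := Finset.mem_image.1 hw
      refine ⟨(hV q hq).i0, ?_⟩
      rw [hRe q hq]; have := hrd q; positivity)
    (by
      intro w hw
      obtain ⟨q, hq, rfl⟩ := Finset.mem_image.1 hw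
      refine ⟨(hW q hq).i0, ?_⟩
      rw [hRe' q hq]; have := hrd' q; positivity)
    (by
      intro w hw
      obtain ⟨q, hq, rfl⟩ := Finset.mem_image.1 hw
      rw [hRe q hq, muV q hq]
      have h1 := lV q hq
      have h2 := (hV q hq).tq_ge hs hM
      have h3 : 1 ≤ CL * ℓ * tq (itm s pr q / (st s M).gcd (itm s pr q)) :=
        h1.trans (mul_le_mul_of_nonneg_left h2 (by positivity))
      have h4 : 0 ≤ (ex (st s M) : ℝ) * (P * rd b c ρ q) := by have := hrd q; positivity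
      calc (ex (st s M) : ℝ) * (P * rd b c ρ q) = (ex (st s M) : ℝ) * (P * rd b c ρ q) * 1 := (mul_one _).symm
        _ ≤ _ := mul_le_mul_of_nonneg_left h3 h4
        _ = _ := by ring)
    (by
      intro w hw
      obtain ⟨q, hq, rfl⟩ := Finset.mem_image.1 hw
      rw [hRe' q hq, muW q hq]
      have h1 := lW q hq
      have h2 := (hW q hq).tq_ge hs hM'
      have h3 : 1 ≤ CL * ℓ * tq (itm s pr' q / (st s M').gcd (itm s pr' q)) :=
        h1.trans (mul_le_mul_of_nonneg_left h2 (by positivity))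
      have h4 : 0 ≤ (ex (st s M') : ℝ) * (P' * rd b' c' ρ q) := by have := hrd' q; positivity
      calc (ex (st s M') : ℝ) * (P' * rd b' c' ρ q) =
          (ex (st s M') : ℝ) * (P' * rd b' c' ρ q) * 1 := (mul_one _).symm
        _ ≤ _ := mul_le_mul_of_nonneg_left h3 h4
        _ = _ := by ring)
    (by
      intro z hz w hw
      obtain ⟨q, hq, rfl⟩ := Finset.mem_image.1 hw
      exact (hV q hq).tame hs hM (tV z hz q hq))
    (by
      intro z hz w hw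
      obtain ⟨q, hq, rfl⟩ := Finset.mem_image.1 hw
      exact (hW q hq).tame hs hM' (tW z hz q hq))
    (by
      intro f hf h1
      obtain ⟨e, he, rfl⟩ := mem0 f hf
      obtain ⟨k1, k2⟩ := Finset.mem_product.1 he
      rw [hDc e he] at h1 ⊢
      rw [hF0e e he]
      simp only
      rw [hRe _ k1, hRe' _ k2]
      calc κ * F e ≤ κ * (ℓ^C0 * (rd b c ρ e.1 * rd b' c' ρ e.2 / Dq ρ M b pr c M' b' pr' c' e)) :=
            mul_le_mul_of_nonneg_left (hF e he h1) hκ0.le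
        _ = _ := by rw [hκ]; ring)
    (by
      intro f hf h1 h2
      obtain ⟨e, he, rfl⟩ := mem0 f hf
      obtain ⟨k1, k2⟩ := Finset.mem_product.1 he
      rw [hDc e he] at h1
      rw [hF0e e he] at h2
      have h2 : 0 < F e := (mul_pos_iff_of_pos_left hκ0).1 h2
      obtain ⟨j, j', hj⟩ := hrel e he h1 h2
      refine ⟨bL s a m a' m' * j, bL s a' m' a m * j', ?_⟩
      rw [hDc e he]
      simp only
      rw [gV _ k1, gW _ k2, uV _ k1, uW _ k2]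
      refine le_trans (le_of_eq ?_) hj
      have c1 := cof_st hs (hV _ k1).w0 hM (hW _ k2).w0 hM'
      have c2 := cof_st hs (hW _ k2).w0 hM' (hV _ k1).w0 hM
      rw [(hV _ k1).fa, (hW _ k2).fa] at c1 c2
      have r1 : ((bL s a m a' m' : ℕ) : ℝ) * (rf (e.1 / pr) M : ℕ) = (P : ℝ) * (rf (itm s pr e.1) (st s M) : ℕ) := by
        exact_mod_cast (hV _ k1).brf hs hM a' m'
      have r2 : ((bL s a' m' a m : ℕ) : ℝ) * (rf (e.2 / pr') M' : ℕ) =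
          (P' : ℝ) * (rf (itm s pr' e.2) (st s M') : ℕ) := by
        exact_mod_cast (hW _ k2).brf hs hM' a m
      rw [c1, c2]
      congr 1
      have q1 : (rf (itm s pr e.1) (st s M) : ℕ) * ((P : ℝ) * ((b : ℝ) / c * γ)) =
          (bL s a m a' m' : ℝ) * ((rf (e.1 / pr) M : ℕ) * ((b : ℝ) / c * γ)) := by
        linear_combination (-((b : ℝ) / c * γ)) * r1
      have q2 : (rf (itm s pr' e.2) (st s M') : ℕ) * ((P' : ℝ) * ((b' : ℝ) / c' * γ)) =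
          (bL s a' m' a m : ℝ) * ((rf (e.2 / pr') M' : ℕ) * ((b' : ℝ) / c' * γ)) := by
        linear_combination (-((b' : ℝ) / c' * γ)) * r2
      rw [q1, q2]
      have bl1 : bL s a m a' m' = s ^ (a' - M'.factorization s - (a - M.factorization s)) := rfl
      have bl2 : bL s a' m' a m = s ^ (a - M.factorization s - (a' - M'.factorization s)) := rfl
      rw [← bl1, ← bl2]
      unfold ui itm
      push_cast
      ring)
    (by
      intro f hf h1 h2 h3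
      obtain ⟨e, he, rfl⟩ := mem0 f hf
      obtain ⟨k1, k2⟩ := Finset.mem_product.1 he
      have hd0 : 0 < Dc O O' R R' (itm s pr e.1, itm s pr' e.2) := by
        refine Dc_pos (N := s) hOp hOp' ?_ (hW _ k2).i0
        rw [hRe _ k1]; have := hrd e.1; positivity
      rw [hDc e he] at h1 hd0 ⊢
      rw [hF0e e he] at h2
      have h2 : 0 < F e := (mul_pos_iff_of_pos_left hκ0).1 h2
      have r1 : ((bL s a m a' m' : ℕ) : ℝ) * (rf (e.1 / pr) M : ℕ) = (P : ℝ) * (rf (itm s pr e.1) (st s M) : ℕ) := by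
        exact_mod_cast (hV _ k1).brf hs hM a' m'
      have r2 : ((bL s a' m' a m : ℕ) : ℝ) * (rf (e.2 / pr') M' : ℕ) =
          (P' : ℝ) * (rf (itm s pr' e.2) (st s M') : ℕ) := by
        exact_mod_cast (hW _ k2).brf hs hM' a m
      have hFS : FSs s γ ρ (lev cl s) M b pr c M' b' pr' c' a a' e := by
        have h3' : FS (lev cl s) (gL (miss O' (itm s pr e.1))) (gR (miss O (itm s pr' e.2)))
          (cof (uu O' (itm s pr e.1)) (uu O (itm s pr' e.2))) (cof (uu O (itm s pr' e.2)) (uu O' (itm s pr e.1)))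
          (Rc O' R (itm s pr e.1)) (Rc O R' (itm s pr' e.2)) := h3
        rw [gV _ k1, gW _ k2, uV _ k1, uW _ k2, cV _ k1, cW _ k2] at h3'
        unfold FSs
        have q : ∀ x : ℝ, (rf (itm s pr e.1) (st s M) : ℕ) * ((P : ℝ) * x) =
            (bL s a m a' m' : ℝ) * ((rf (e.1 / pr) M : ℕ) * x) := fun x => by linear_combination (-x) * r1
        have q' : ∀ x : ℝ, (rf (itm s pr' e.2) (st s M') : ℕ) * ((P' : ℝ) * x) =
            (bL s a' m' a m : ℝ) * ((rf (e.2 / pr') M' : ℕ) * x) := fun x => by linear_combination (-x) * r2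
        rw [q, q, q', q'] at h3'
        exact h3'
      rcases hFG e he h1 h2 hFS with h4 | h4
      swap
      · right; right
        simp only
        rw [(hV _ k1).bk_eq, (hW _ k2).bk_eq]
        exact h4
      have hmm := one_le_mm (O := O) (O' := O') (fun p hp => (hOp p hp).1.pos) (fun p hp => (hOp' p hp).1.pos)
        (itm s pr e.1, itm s pr' e.2)
      have hrr : ((rf (itm s pr e.1) (st s M) * rf (itm s pr' e.2) (st s M') : ℕ) : ℝ) =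
          E * mm O O' (itm s pr e.1, itm s pr' e.2) := by
        have g1 := ((hV _ k1).once hs hM).miss hst (hV _ k1).i0
        have g2 := ((hW _ k2).once hs hM').miss hst' (hW _ k2).i0
        rw [← g1, ← g2, hE]
        unfold mm
        push_cast
        ring
      rcases FLow.alt hs2 hex1 ha₀ ha₀' hA hlog (rf_pos hst) (rf_pos hst') (rf_one_or hs hM hMs)
        (rf_one_or hs hM' hMs') hE1 hmm hrr hd0 h4 with h5 | h5
      · exact Or.inl h5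
      · exact Or.inr (Or.inl h5))
  -- the sums
  have hsumL : ∑ f ∈ (V0 ×ˢ W0).filter (fun f => Dc O O' R R' f ≤ 1), F0 f =
      κ * ∑ e ∈ (V ×ˢ W).filter (fun e => Dq ρ M b pr c M' b' pr' c' e ≤ 1), F e := by
    have := sum_br hV hW κ F (fun e => Dq ρ M b pr c M' b' pr' c' e ≤ 1) (fun f => Dc O O' R R' f ≤ 1)
      (fun e he => by rw [hDc e he])
    convert this
  have hsumQ : ∑ f ∈ (V0 ×ˢ W0).filter (fun f => 0 < F0 f ∧ (Dc O O' R R' f ≤ 1/2^(lev cl s) ∧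
        Q (bk s pr a f.1, bk s pr' a' f.2))), F0 f =
      κ * ∑ e ∈ (V ×ˢ W).filter (fun e => 0 < F e ∧ (Dq ρ M b pr c M' b' pr' c' e ≤ 1/2^(lev cl s) ∧ Q e)),
        F e := by
    have := sum_br hV hW κ F (fun e => 0 < F e ∧ (Dq ρ M b pr c M' b' pr' c' e ≤ 1/2^(lev cl s) ∧ Q e))
      (fun f => 0 < F0 f ∧ (Dc O O' R R' f ≤ 1/2^(lev cl s) ∧ Q (bk s pr a f.1, bk s pr' a' f.2)))
      (fun e he => by
        rw [hDc e he, hF0e e he, mul_pos_iff_of_pos_left hκ0]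
        simp only
        rw [(hV _ (Finset.mem_product.1 he).1).bk_eq, (hW _ (Finset.mem_product.1 he).2).bk_eq])
    convert this
  rw [hsumL, hsumQ] at key
  -- numbers
  set x := ∑ q ∈ V, rd b c ρ q * tq (q / pr) with hx
  set y := ∑ q ∈ W, rd b' c' ρ q * tq (q / pr') with hy
  have x0 : 0 ≤ x := Finset.sum_nonneg fun q _ => mul_nonneg (hrd q).le (tq_nonneg _)
  have y0 : 0 ≤ y := Finset.sum_nonneg fun q _ => mul_nonneg (hrd' q).le (tq_nonneg _)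
  have xy0 : 0 ≤ x * y := mul_nonneg x0 y0
  have sV := mass_br hs hM hV P b c (fun q => (hρ q).le) hs1'
  have sW := mass_br hs hM' hW P' b' c' (fun q => (hρ q).le) hs1
  have nV := mass_nonneg hs hM hV P b c (fun q => (hρ q).le)
  have nW := mass_nonneg hs hM' hW P' b' c' (fun q => (hρ q).le)
  set SV := ∑ w ∈ V0, mu O' R w with hSV
  set SW := ∑ w ∈ W0, mu O R' w with hSW
  have sV' : SV ≤ (ex (st s M) * P : ℝ) * (16 * x) := sV
  have sW' : SW ≤ (ex (st s M') * P' : ℝ) * (16 * y) := sW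
  have nV' : 0 ≤ SV := nV
  have nW' : 0 ≤ SW := nW
  have hprod : SV * SW ≤ κ * (256 * (x * y)) := by
    calc SV * SW ≤ ((ex (st s M) * P : ℝ) * (16 * x)) * ((ex (st s M') * P' : ℝ) * (16 * y)) :=
          mul_le_mul sV' sW' nW' (nV'.trans sV')
      _ = _ := by rw [hκ]; ring
  have rV : ∑ w ∈ V0, R w ≤ CL * ℓ * SV := by
    rw [hSV, Finset.mul_sum]
    refine Finset.sum_le_sum fun w hw => ?_
    obtain ⟨q, hq, rfl⟩ := Finset.mem_image.1 hw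
    rw [hRe q hq, muV q hq]
    have h3 : 1 ≤ CL * ℓ * tq (itm s pr q / (st s M).gcd (itm s pr q)) :=
      (lV q hq).trans (mul_le_mul_of_nonneg_left ((hV q hq).tq_ge hs hM) (by positivity))
    have h4 : 0 ≤ (ex (st s M) : ℝ) * (P * rd b c ρ q) := by have := hrd q; positivity
    calc (ex (st s M) : ℝ) * (P * rd b c ρ q) = (ex (st s M) : ℝ) * (P * rd b c ρ q) * 1 := (mul_one _).symm
      _ ≤ _ := mul_le_mul_of_nonneg_left h3 h4
      _ = _ := by ring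
  have rW : ∑ w ∈ W0, R' w ≤ CL * ℓ * SW := by
    rw [hSW, Finset.mul_sum]
    refine Finset.sum_le_sum fun w hw => ?_
    obtain ⟨q, hq, rfl⟩ := Finset.mem_image.1 hw
    rw [hRe' q hq, muW q hq]
    have h3 : 1 ≤ CL * ℓ * tq (itm s pr' q / (st s M').gcd (itm s pr' q)) :=
      (lW q hq).trans (mul_le_mul_of_nonneg_left ((hW q hq).tq_ge hs hM') (by positivity))
    have h4 : 0 ≤ (ex (st s M') : ℝ) * (P' * rd b' c' ρ q) := by have := hrd' q; positivity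
    calc (ex (st s M') : ℝ) * (P' * rd b' c' ρ q) =
        (ex (st s M') : ℝ) * (P' * rd b' c' ρ q) * 1 := (mul_one _).symm
      _ ≤ _ := mul_le_mul_of_nonneg_left h3 h4
      _ = _ := by ring
  have rV0 : 0 ≤ ∑ w ∈ V0, R w := Finset.sum_nonneg fun w hw => by
    obtain ⟨q, hq, rfl⟩ := Finset.mem_image.1 hw
    rw [hRe q hq]; have := hrd q; positivity
  have rW0 : 0 ≤ ∑ w ∈ W0, R' w := Finset.sum_nonneg fun w hw => by
    obtain ⟨q, hq, rfl⟩ := Finset.mem_image.1 hw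
    rw [hRe' q hq]; have := hrd' q; positivity
  set g := (s:ℝ)^(-(48/100)*((ex' : ℝ)-1)) with hg
  have hg0 : 0 < g := by positivity
  have gl : ∀ δ : ℝ, δ ≤ 1/100 → κ^(-(1/2-δ)) ≤ g * (s:ℝ)^(-(1/2-δ)) := fun δ hδ => by
    rw [hκE]; exact gain_le hs2 hex1 hE1 hδ
  have pwr : ∀ δ : ℝ, 0 ≤ δ → δ ≤ 1/100 →
      (κ * (256 * (x * y)))^(1/2+δ) ≤ κ * (κ^(-(1/2-δ)) * (256 * (x * y)^(1/2+δ))) := fun δ h1 h2 => by
    rw [pow_split hκ0 (by positivity), Real.mul_rpow (by norm_num) xy0]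
    have h3 : (256:ℝ)^(1/2+δ) ≤ 256 := by
      calc (256:ℝ)^(1/2+δ) ≤ (256:ℝ)^(1:ℝ) := Real.rpow_le_rpow_of_exponent_le (by norm_num) (by linarith)
        _ = 256 := Real.rpow_one _
    gcongr
  have T1 : (SV * SW)^(1/2+eps1) ≤ κ * (g * (256 * ((s:ℝ)^(-(1/2-eps1)) * (x * y)^(1/2+eps1)))) := by
    calc (SV * SW)^(1/2+eps1) ≤ (κ * (256 * (x * y)))^(1/2+eps1) :=
          Real.rpow_le_rpow (mul_nonneg nV' nW') hprod (by rw [he1]; norm_num)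
      _ ≤ κ * (κ^(-(1/2-eps1)) * (256 * (x * y)^(1/2+eps1))) := pwr eps1 (by rw [he1]; norm_num) (by rw [he1]; norm_num)
      _ ≤ κ * ((g * (s:ℝ)^(-(1/2-eps1))) * (256 * (x * y)^(1/2+eps1))) := by
          have := gl eps1 (by rw [he1]; norm_num)
          gcongr
      _ = _ := by ring
  have T2 : ((∑ w ∈ V0, R w) * (∑ w ∈ W0, R' w))^(1/2:ℝ) ≤
      κ * (g * (CL * ℓ * (256 * ((s:ℝ)^(-(1/2):ℝ) * (x * y)^(1/2:ℝ))))) := by
    have hp : (∑ w ∈ V0, R w) * (∑ w ∈ W0, R' w) ≤ (CL * ℓ)^2 * (κ * (256 * (x * y))) := by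
      calc _ ≤ (CL * ℓ * SV) * (CL * ℓ * SW) := mul_le_mul rV rW rW0 (by positivity)
        _ = (CL * ℓ)^2 * (SV * SW) := by ring
        _ ≤ _ := mul_le_mul_of_nonneg_left hprod (by positivity)
    have h0 := pwr 0 le_rfl (by norm_num)
    have h1 := gl 0 (by norm_num)
    simp only [add_zero, sub_zero] at h0 h1
    calc _ ≤ ((CL * ℓ)^2 * (κ * (256 * (x * y))))^(1/2:ℝ) :=
          Real.rpow_le_rpow (mul_nonneg rV0 rW0) hp (by norm_num)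
      _ = (CL * ℓ) * (κ * (256 * (x * y)))^(1/2:ℝ) := by
          rw [Real.mul_rpow (by positivity) (by positivity), ← Real.sqrt_eq_rpow, Real.sqrt_sq (by positivity)]
      _ ≤ (CL * ℓ) * (κ * (κ^(-(1/2):ℝ) * (256 * (x * y)^(1/2:ℝ)))) := by gcongr
      _ ≤ (CL * ℓ) * (κ * ((g * (s:ℝ)^(-(1/2):ℝ)) * (256 * (x * y)^(1/2:ℝ)))) := by gcongr
      _ = _ := by ring
  have hacc : acc A' s θ' = (if ex' = 1 then acc A s θ₁ else 0) := by
    rw [hA', hθ']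
    split_ifs
    · rfl
    · exact acc_zero hlog
  have hacc0 : 0 ≤ (if ex' = 1 then acc A s θ₁ else 0) := by
    split_ifs
    · exact acc_nonneg _ _ _
    · exact le_rfl
  set a6 : ℝ := if ex' = 1 then (a₀:ℝ)^(6/1000:ℝ) else 1 with ha6
  have ha60 : 0 < a6 := by rw [ha6]; split_ifs <;> positivity
  have hA₁6 : A₁^(6/1000:ℝ) * κ^(-(1/2-eps2)) ≤
      ℓ^(A*(6/1000)) * a6 * (g * (s:ℝ)^(-(1/2-eps2))) := by
    have h1 : A₁^(6/1000:ℝ) = (a₀:ℝ)^(6/1000:ℝ) * ℓ^(A*(6/1000)) *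
        (E^2 * (if ex' = 1 then (1:ℝ) else (s:ℝ)^ex'))^(6/1000:ℝ) := by
      rw [hA₁, Real.mul_rpow (by positivity) (by positivity), Real.mul_rpow (by positivity) (by positivity),
        ← Real.rpow_mul hℓ0.le]
    have h2 := gain3_le (s := s) hs2 hex1 hE1 ha₀ ha₀'
    rw [← hκE, ← ha6, ← hg] at h2
    rw [h1]
    calc _ = ℓ^(A*(6/1000)) * ((a₀:ℝ)^(6/1000:ℝ) *
          ((E^2 * (if ex' = 1 then (1:ℝ) else (s:ℝ)^ex'))^(6/1000:ℝ) * κ^(-(1/2-eps2)))) := by ring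
      _ ≤ ℓ^(A*(6/1000)) * (a6 * (g * (s:ℝ)^(-(1/2-eps2)))) :=
          mul_le_mul_of_nonneg_left h2 (by positivity)
      _ = _ := by ring
  have T3 : (A₁^(6/1000:ℝ) + acc A' s θ') * (SV * SW)^(1/2+eps2) ≤
      κ * (g * (256 * ((ℓ^(A*(6/1000)) * a6 + (if ex' = 1 then acc A s θ₁ else 0)) *
        ((s:ℝ)^(-(1/2-eps2)) * (x * y)^(1/2+eps2))))) := by
    rw [hacc]
    have hA₁0 : 0 ≤ A₁^(6/1000:ℝ) := Real.rpow_nonneg (by linarith) _
    have h1 : (SV * SW)^(1/2+eps2) ≤ κ * (κ^(-(1/2-eps2)) * (256 * (x * y)^(1/2+eps2))) :=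
      (Real.rpow_le_rpow (mul_nonneg nV' nW') hprod (by rw [he2]; norm_num)).trans
        (pwr eps2 (by rw [he2]; norm_num) (by rw [he2]; norm_num))
    have h2 := gl eps2 (by rw [he2]; norm_num)
    calc _ ≤ (A₁^(6/1000:ℝ) + (if ex' = 1 then acc A s θ₁ else 0)) *
          (κ * (κ^(-(1/2-eps2)) * (256 * (x * y)^(1/2+eps2)))) := mul_le_mul_of_nonneg_left h1 (by positivity)
      _ = κ * (256 * (x * y)^(1/2+eps2)) * (A₁^(6/1000:ℝ) * κ^(-(1/2-eps2))) +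
          κ * (256 * (x * y)^(1/2+eps2)) * (if ex' = 1 then acc A s θ₁ else 0) * κ^(-(1/2-eps2)) := by ring
      _ ≤ κ * (256 * (x * y)^(1/2+eps2)) *
            (ℓ^(A*(6/1000)) * a6 * (g * (s:ℝ)^(-(1/2-eps2)))) +
          κ * (256 * (x * y)^(1/2+eps2)) * (if ex' = 1 then acc A s θ₁ else 0) *
            (g * (s:ℝ)^(-(1/2-eps2))) := by
          refine add_le_add (mul_le_mul_of_nonneg_left hA₁6 (by positivity)) ?_
          exact mul_le_mul_of_nonneg_left h2 (by positivity)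
      _ = _ := by ring
  set K := C0 + 5 + cl/500 with hK
  have e7 : ℓ^(C0 + 7 + cl/500) = ℓ^K * ℓ^2 := by
    rw [hK, show C0 + 7 + cl/500 = (C0 + 5 + cl/500) + 2 by ring, Real.rpow_add hℓ0, Real.rpow_two]
  have hℓK : 0 < ℓ^K := by positivity
  have h256 : (256:ℝ) ≤ ℓ^2 := by nlinarith
  have h256' : CL * ℓ * 256 ≤ ℓ^2 := by nlinarith
  have t1 : ℓ^K * (SV * SW)^(1/2+eps1) ≤ κ * (g * (ℓ^(C0 + 7 + cl/500) * ((s:ℝ)^(-(1/2-eps1)) * (x * y)^(1/2+eps1)))) := by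
    calc ℓ^K * (SV * SW)^(1/2+eps1) ≤ ℓ^K * (κ * (g * (256 * ((s:ℝ)^(-(1/2-eps1)) * (x * y)^(1/2+eps1))))) :=
          mul_le_mul_of_nonneg_left T1 hℓK.le
      _ = (κ * (g * ((s:ℝ)^(-(1/2-eps1)) * (x * y)^(1/2+eps1)))) * ℓ^K * 256 := by ring
      _ ≤ (κ * (g * ((s:ℝ)^(-(1/2-eps1)) * (x * y)^(1/2+eps1)))) * ℓ^K * ℓ^2 :=
          mul_le_mul_of_nonneg_left h256 (by positivity)
      _ = _ := by rw [e7]; ring
  have t2 : ℓ^K * ((∑ w ∈ V0, R w) * (∑ w ∈ W0, R' w))^(1/2:ℝ) ≤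
      κ * (g * (ℓ^(C0 + 7 + cl/500) * ((s:ℝ)^(-(1/2):ℝ) * (x * y)^(1/2:ℝ)))) := by
    calc ℓ^K * ((∑ w ∈ V0, R w) * (∑ w ∈ W0, R' w))^(1/2:ℝ) ≤
          ℓ^K * (κ * (g * (CL * ℓ * (256 * ((s:ℝ)^(-(1/2):ℝ) * (x * y)^(1/2:ℝ)))))) :=
          mul_le_mul_of_nonneg_left T2 hℓK.le
      _ = (κ * (g * ((s:ℝ)^(-(1/2):ℝ) * (x * y)^(1/2:ℝ)))) * ℓ^K * (CL * ℓ * 256) := by ring
      _ ≤ (κ * (g * ((s:ℝ)^(-(1/2):ℝ) * (x * y)^(1/2:ℝ)))) * ℓ^K * ℓ^2 :=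
          mul_le_mul_of_nonneg_left h256' (by positivity)
      _ = _ := by rw [e7]; ring
  have t3 : ℓ^K * ((A₁^(6/1000:ℝ) + acc A' s θ') * (SV * SW)^(1/2+eps2)) ≤
      κ * (g * (ℓ^(C0 + 7 + cl/500) * ((ℓ^(A*(6/1000)) * a6 + (if ex' = 1 then acc A s θ₁ else 0)) *
        ((s:ℝ)^(-(1/2-eps2)) * (x * y)^(1/2+eps2))))) := by
    calc ℓ^K * ((A₁^(6/1000:ℝ) + acc A' s θ') * (SV * SW)^(1/2+eps2)) ≤
          ℓ^K * (κ * (g * (256 * ((ℓ^(A*(6/1000)) * a6 + (if ex' = 1 then acc A s θ₁ else 0)) *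
        ((s:ℝ)^(-(1/2-eps2)) * (x * y)^(1/2+eps2)))))) :=
          mul_le_mul_of_nonneg_left T3 hℓK.le
      _ = (κ * (g * ((ℓ^(A*(6/1000)) * a6 + (if ex' = 1 then acc A s θ₁ else 0)) *
        ((s:ℝ)^(-(1/2-eps2)) * (x * y)^(1/2+eps2))))) * ℓ^K * 256 := by ring
      _ ≤ (κ * (g * ((ℓ^(A*(6/1000)) * a6 + (if ex' = 1 then acc A s θ₁ else 0)) *
        ((s:ℝ)^(-(1/2-eps2)) * (x * y)^(1/2+eps2))))) * ℓ^K * ℓ^2 :=
          mul_le_mul_of_nonneg_left h256 (by positivity)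
      _ = _ := by rw [e7]; ring
  refine le_of_mul_le_mul_left ?_ hκ0
  calc _ ≤ _ := key
    _ = (ℓ^K * (SV * SW)^(1/2+eps1) + ℓ^K * ((∑ w ∈ V0, R w) * (∑ w ∈ W0, R' w))^(1/2:ℝ)) +
        ℓ^K * ((A₁^(6/1000:ℝ) + acc A' s θ') * (SV * SW)^(1/2+eps2)) +
        κ * ∑ e ∈ (V ×ˢ W).filter (fun e => 0 < F e ∧ (Dq ρ M b pr c M' b' pr' c' e ≤ 1/2^(lev cl s) ∧ Q e)),
          F e := by rw [hK]; ring
    _ ≤ _ := add_le_add (add_le_add (add_le_add t1 t2) t3) le_rfl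
    _ = _ := by ring


theorem shot_cls {CL C0 : ℝ} (hCL : 1 ≤ CL) (hC0 : 0 ≤ C0) : ∃ cl₀ : ℝ, 0 < cl₀ ∧ ∀ cl : ℝ, cl₀ ≤ cl →
    PCls CL C0 cl :=
  ⟨Crest.Agent.R4P.LowT33.clT, Crest.Agent.R4P.LowT33.clT_pos, fun _ h => shot_cls' hCL hC0 h⟩

end Crest.Agent.R4P.ShotP33
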