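import Mathlib
import Crest.Agent.R4P.ShotP_33
import Crest.Agent.R4P.ClsSum_35
import Crest.Agent.R4P.LinkF_35

/-!
R4 powers pass (S0004), helper33, group [X]: **the one-shot number at a crossing prime `s`, all classes**.

Effective exponents `fe s M' pr q = v_s(q/pr) + v_s(M')` (left), `fe s M pr' q'` (right). The pairs of different
effective exponents and scale `≤ 1`: `shot_tot`. The factor `a₀^(6/1000)` and the accident factor only for
neighbouring exponents.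
-/

set_option autoImplicit false
open Finset

namespace Crest.Agent.R4P.ShotTot33

open Crest.Agent.R4.HVW560 Crest.Agent.R4.Schur709 Crest.Agent.R4.StopHvw709
open Crest.Agent.R4.StopAsm709 Crest.Agent.R4.AvgItem710 Crest.Agent.R4.DeepSt579
open Crest.Agent.R4P.Rad800 Crest.Agent.R4P.StripP33 Crest.Agent.R4P.BrP33 Crest.Agent.R4P.ShotP33
open Crest.Agent.R4P.ClsSum
open Crest.Agent.R4.ClsS (eps1)
open Crest.Agent.R4.OSCore709 Crest.Agent.R4.CrossShot709 Crest.Agent.R4.Bad223 Crest.Agent.R4.ShotG223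
open Crest.Agent.R4.NMW710 (Dq)
open Crest.Agent.R4.ClsB (Tame)

/-- effective exponent of an item: `v_s(q/pr) + v_s(N)`, `N` = the average of the other side -/
def fe (s N pr q : ℕ) : ℕ := (q / pr).factorization s + N.factorization s

/-- the item mass of a class -/
noncomputable def mc (s N b pr c : ℕ) (ρ : ℕ → ℝ) (V : Finset ℕ) (i : ℕ) : ℝ :=
  ∑ q ∈ V.filter (fun q => fe s N pr q = i), rd b c ρ q * tq (q / pr)

lemma pow_q {s : ℕ} (hs : 2 ≤ s) {d x : ℕ} (hd : d ≤ x) :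
    (s:ℝ)^(-(48/100)*((x:ℝ)-1)) ≤ (s:ℝ)^(48/100:ℝ) * ((s:ℝ)^(-(48/100):ℝ))^d := by
  have hs0 : (0:ℝ) < s := by positivity
  have hs1 : (1:ℝ) ≤ s := by exact_mod_cast (by omega : 1 ≤ s)
  rw [← Real.rpow_natCast, ← Real.rpow_mul hs0.le, ← Real.rpow_add hs0]
  apply Real.rpow_le_rpow_of_exponent_le hs1
  have : (d:ℝ) ≤ x := by exact_mod_cast hd
  linarith

lemma q_le {s : ℕ} (hs : 3 ≤ s) : (s:ℝ)^(-(48/100):ℝ) ≤ 8/9 := by
  have hs3 : (3:ℝ) ≤ s := by exact_mod_cast hs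
  calc (s:ℝ)^(-(48/100):ℝ) ≤ (3:ℝ)^(-(48/100):ℝ) :=
        Real.rpow_le_rpow_of_nonpos (by norm_num) hs3 (by norm_num)
    _ ≤ (3:ℝ)^(-(1/4):ℝ) := Real.rpow_le_rpow_of_exponent_le (by norm_num) (by norm_num)
    _ ≤ 8/9 := by
        have h1 : ((3:ℝ)^(-(1/4):ℝ))^4 = 1/3 := by
          rw [← Real.rpow_natCast, ← Real.rpow_mul (by norm_num)]
          norm_num
        by_contra h
        have h2 := not_le.1 h
        have h3 := pow_lt_pow_left₀ h2 (by norm_num) (n := 4) (by norm_num)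
        rw [h1] at h3
        norm_num at h3

open Classical in
set_option maxHeartbeats 1000000 in
/-- **the one-shot number at a crossing prime** -/
theorem shot_tot {CL C0 : ℝ} (hCL : 1 ≤ CL) (hC0 : 0 ≤ C0) : ∃ cl₀ : ℝ, 0 < cl₀ ∧ ∀ cl : ℝ, cl₀ ≤ cl →
    ∃ s₁ : ℕ, 3 ≤ s₁ ∧
    (∀ s : ℕ, s₁ ≤ s → 400 ≤ lev cl s ∧ (Real.log s)^cl ≤ (2:ℝ)^(lev cl s) ∧
      (2:ℝ)^(lev cl s) ≤ (Real.log s)^(cl+1) ∧ 2 ≤ Real.log s) ∧
    ∀ (s M b pr c M' b' pr' c' a₀ : ℕ) (γ : ℝ) (ρ : ℕ → ℝ) (V W : Finset ℕ) (F : ℕ × ℕ → ℝ)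
    (Q : ℕ × ℕ → Prop) (A : ℝ),
    s₁ ≤ s → s.Prime → 1 ≤ a₀ → a₀ ≤ s → 0 ≤ A → (∀ q, 0 < ρ q) →
    0 < b → 0 < c → 0 < b' → 0 < c' → 0 < M → 0 < M' →
    (∀ l : ℕ, l.Prime → l ∣ M → l ≠ s → s ≤ l) → (∀ l : ℕ, l.Prime → l ∣ M' → l ≠ s → s ≤ l) →
    ∑ l ∈ M.primeFactors.erase s, (l:ℝ)^(-(11/12):ℝ) ≤ 1 →
    ∑ l ∈ M'.primeFactors.erase s, (l:ℝ)^(-(11/12):ℝ) ≤ 1 →
    (∀ q ∈ V, 0 < q ∧ pr ∣ q) → (∀ q ∈ W, 0 < q ∧ pr' ∣ q) →
    (∀ q ∈ V, ∀ l : ℕ, l.Prime → l ∣ M → l ≠ s → ¬ l ^ 2 ∣ q / pr) →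
    (∀ q ∈ W, ∀ l : ℕ, l.Prime → l ∣ M' → l ≠ s → ¬ l ^ 2 ∣ q / pr') →
    (∀ z : ℝ, (s:ℝ) ≤ z → ∀ q ∈ V, Tame z 1 (q / pr / M.gcd (q / pr))) →
    (∀ z : ℝ, (s:ℝ) ≤ z → ∀ q ∈ W, Tame z 1 (q / pr' / M'.gcd (q / pr'))) →
    (∀ q ∈ V, 1 ≤ CL * Real.log s * tq (q / pr / M.gcd (q / pr))) →
    (∀ q ∈ W, 1 ≤ CL * Real.log s * tq (q / pr' / M'.gcd (q / pr'))) →
    (∀ e ∈ V ×ˢ W, fe s M' pr e.1 ≠ fe s M pr' e.2 → Dq ρ M b pr c M' b' pr' c' e ≤ 1 →
      F e ≤ (Real.log s)^C0 * (rd b c ρ e.1 * rd b' c' ρ e.2 / Dq ρ M b pr c M' b' pr' c' e)) →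
    (∀ e ∈ V ×ˢ W, fe s M' pr e.1 ≠ fe s M pr' e.2 →
      Dq ρ M b pr c M' b' pr' c' e ≤ 1/2^(lev cl s) → 0 < F e → RelI γ ρ M b pr c M' b' pr' c' e) →
    (∀ e ∈ V ×ˢ W, fe s M' pr e.1 ≠ fe s M pr' e.2 →
      Dq ρ M b pr c M' b' pr' c' e ≤ 1/2^(lev cl s) → 0 < F e →
      FSs s γ ρ (lev cl s) M b pr c M' b' pr' c' ((e.1 / pr).factorization s) ((e.2 / pr').factorization s) e →
      FLow s (dex ((e.1 / pr).factorization s) (M.factorization s) ((e.2 / pr').factorization s)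
          (M'.factorization s)) a₀ (rf (itm s pr e.1) (st s M)) (rf (itm s pr' e.2) (st s M'))
        (if fe s M' pr e.1 < fe s M pr' e.2 then (b:ℝ)/c*γ else (b':ℝ)/c'*γ)
        (Dq ρ M b pr c M' b' pr' c' e) ∨ Q e) →
    ∑ e ∈ (V ×ˢ W).filter (fun e => fe s M' pr e.1 ≠ fe s M pr' e.2 ∧
        Dq ρ M b pr c M' b' pr' c' e ≤ 1), F e ≤
      (Real.log s)^(C0 + 8 + cl/500) * ((s:ℝ)^(-(1/2-eps1)) *
            ((∑ q ∈ V, rd b c ρ q * tq (q / pr)) * (∑ q ∈ W, rd b' c' ρ q * tq (q / pr')))^(1/2+eps1) +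
          (s:ℝ)^(-(1/2):ℝ) *
            ((∑ q ∈ V, rd b c ρ q * tq (q / pr)) * (∑ q ∈ W, rd b' c' ρ q * tq (q / pr')))^(1/2:ℝ) +
          (Real.log s)^(A*(6/1000)) * ((s:ℝ)^(-(1/2-eps2)) *
            ((∑ q ∈ V, rd b c ρ q * tq (q / pr)) * (∑ q ∈ W, rd b' c' ρ q * tq (q / pr')))^(1/2+eps2))) +
      (Real.log s)^(C0 + 8 + cl/500) * (s:ℝ)^(-(1/2-eps2)) *
        (∑ i ∈ V.image (fe s M' pr), ∑ j ∈ W.image (fe s M pr'),
          (if dst i j = 1 then (Real.log s)^(A*(6/1000)) * (a₀:ℝ)^(6/1000:ℝ) +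
            acc A s (if i < j then (b:ℝ)/c*γ else (b':ℝ)/c'*γ) else 0) *
          (mc s M' b pr c ρ V i * mc s M b' pr' c' ρ W j)^(1/2+eps2)) +
      ∑ e ∈ (V ×ˢ W).filter (fun e => fe s M' pr e.1 ≠ fe s M pr' e.2 ∧
        (0 < F e ∧ (Dq ρ M b pr c M' b' pr' c' e ≤ 1/2^(lev cl s) ∧ Q e))), F e := by
  have he1 : eps1 = 1/1000 := rfl
  have he2 : eps2 = 1/4000 := rfl
  obtain ⟨cl₀, hcl₀, hT⟩ := shot_cls hCL hC0
  refine ⟨cl₀, hcl₀, fun cl hcl => ?_⟩
  obtain ⟨b₁, hb₁, hlev, hmain⟩ := hT cl hcl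
  obtain ⟨x1, hx1⟩ := Filter.eventually_atTop.1
    (Real.tendsto_log_atTop.eventually_ge_atTop (18:ℝ))
  refine ⟨max b₁ ⌈x1⌉₊, hb₁.trans (le_max_left _ _), fun s hs => hlev s ((le_max_left _ _).trans hs), ?_⟩
  intro s M b pr c M' b' pr' c' a₀ γ ρ V W F Q A hs₁ hs ha₀ ha₀' hA hρ hb hc hb' hc' hM hM' hMs hMs'
    hsM hsM' hV hW oV oW tV tW lV lW hF hrel hFG
  have hsb : b₁ ≤ s := (le_max_left _ _).trans hs₁
  have hs3 : 3 ≤ s := hb₁.trans hsb
  obtain ⟨hl400, hl1, hl2, hlog⟩ := hlev s hsb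
  have hl18 : 18 ≤ Real.log s := hx1 s ((Nat.le_ceil _).trans (by exact_mod_cast (le_max_right _ _).trans hs₁))
  set ℓ := Real.log s with hℓ
  have hℓ0 : 0 < ℓ := by linarith
  have hs0 : (0:ℝ) < s := by exact_mod_cast hs.pos
  set f : ℕ → ℕ := fe s M' pr with hf
  set g : ℕ → ℕ := fe s M pr' with hg
  set m := M.factorization s with hm
  set m' := M'.factorization s with hm'
  have hrd : ∀ q, 0 < rd b c ρ q := fun q => mul_pos (div_pos (by exact_mod_cast hb) (by exact_mod_cast hc)) (hρ q)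
  have hrd' : ∀ q, 0 < rd b' c' ρ q := fun q =>
    mul_pos (div_pos (by exact_mod_cast hb') (by exact_mod_cast hc')) (hρ q)
  set x : ℕ → ℝ := mc s M' b pr c ρ V with hx
  set y : ℕ → ℝ := mc s M b' pr' c' ρ W with hy
  have x0 : ∀ i, 0 ≤ x i := fun i => Finset.sum_nonneg fun q _ => mul_nonneg (hrd q).le (tq_nonneg _)
  have y0 : ∀ i, 0 ≤ y i := fun i => Finset.sum_nonneg fun q _ => mul_nonneg (hrd' q).le (tq_nonneg _)
  set K1 := ℓ^(C0 + 7 + cl/500) with hK1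
  have hK10 : 0 < K1 := by positivity
  set q : ℝ := (s:ℝ)^(-(48/100):ℝ) with hq
  have hq0 : 0 < q := by positivity
  set r : ℝ := (s:ℝ)^(48/100:ℝ) with hr
  have hr0 : 0 < r := by positivity
  have hqr : q * r = 1 := by rw [hq, hr, ← Real.rpow_add hs0]; norm_num
  set L6 := ℓ^(A*(6/1000)) with hL6
  have hL60 : 0 < L6 := by positivity
  set s1 := (s:ℝ)^(-(1/2-eps1)) with hs1
  set s0 := (s:ℝ)^(-(1/2):ℝ) with hs0'
  set s2 := (s:ℝ)^(-(1/2-eps2)) with hs2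
  have hs10 : 0 < s1 := by positivity
  have hs00 : 0 < s0 := by positivity
  have hs20 : 0 < s2 := by positivity
  set th : ℕ → ℕ → ℝ := fun i j => if i < j then (b:ℝ)/c*γ else (b':ℝ)/c'*γ with hth
  set w4 : ℕ → ℕ → ℝ := fun i j => if dst i j = 1 then L6 * (a₀:ℝ)^(6/1000:ℝ) + acc A s (th i j) else 0 with hw4
  have hw40 : ∀ i j, 0 ≤ w4 i j := fun i j => by
    rw [hw4]; simp only
    split_ifs
    · have := acc_nonneg A s (th i j); positivity
    · exact le_rfl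
  set D : ℕ × ℕ → ℝ := Dq ρ M b pr c M' b' pr' c' with hD
  -- splitting of a filtered sum
  have split : ∀ P : ℕ × ℕ → Prop, ∑ e ∈ (V ×ˢ W).filter (fun e => f e.1 ≠ g e.2 ∧ P e), F e =
      ∑ i ∈ V.image f, ∑ j ∈ W.image g, (if i = j then 0 else
        ∑ e ∈ ((V.filter (fun v => f v = i)) ×ˢ (W.filter (fun w => g w = j))).filter P, F e) := fun P => by
    rw [Finset.sum_filter, Finset.sum_product,
      cls_split V W f g (fun v w => if f v ≠ g w ∧ P (v, w) then F (v, w) else 0)]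
    refine Finset.sum_congr rfl fun i _ => Finset.sum_congr rfl fun j _ => ?_
    by_cases hij : i = j
    · rw [if_pos hij]
      refine Finset.sum_eq_zero fun v hv => Finset.sum_eq_zero fun w hw => if_neg ?_
      rw [Finset.mem_filter] at hv hw
      rintro ⟨h1, _⟩
      exact h1 (by rw [hv.2, hw.2, hij])
    · have e3 : ∑ e ∈ ((V.filter (fun v => f v = i)) ×ˢ (W.filter (fun w => g w = j))).filter P, F e =
          ∑ v ∈ V.filter (fun v => f v = i), ∑ w ∈ W.filter (fun w => g w = j),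
            (if P (v, w) then F (v, w) else 0) := by
        rw [Finset.sum_filter P, Finset.sum_product]
      rw [if_neg hij, e3]
      refine Finset.sum_congr rfl fun v hv => Finset.sum_congr rfl fun w hw => ?_
      rw [Finset.mem_filter] at hv hw
      have h1 : f v ≠ g w := by rw [hv.2, hw.2]; exact hij
      simp only [h1, ne_eq, not_false_eq_true, true_and]
  rw [split (fun e => D e ≤ 1)]
  have hQ := split (fun e => 0 < F e ∧ (D e ≤ 1/2^(lev cl s) ∧ Q e))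
  -- one pair of classes
  have step : ∀ i ∈ V.image f, ∀ j ∈ W.image g,
      (if i = j then 0 else
        ∑ e ∈ ((V.filter (fun v => f v = i)) ×ˢ (W.filter (fun w => g w = j))).filter (fun e => D e ≤ 1), F e) ≤
      (K1 * r * s1) * ((if i = j then 0 else q^(dst i j)) * (x i * y j)^(1/2+eps1)) +
      (K1 * r * s0) * ((if i = j then 0 else q^(dst i j)) * (x i * y j)^(1/2:ℝ)) +
      (K1 * r * (L6 * s2)) * ((if i = j then 0 else q^(dst i j)) * (x i * y j)^(1/2+eps2)) +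
      (K1 * s2) * (w4 i j * (x i * y j)^(1/2+eps2)) +
      (if i = j then 0 else
        ∑ e ∈ ((V.filter (fun v => f v = i)) ×ˢ (W.filter (fun w => g w = j))).filter
          (fun e => 0 < F e ∧ (D e ≤ 1/2^(lev cl s) ∧ Q e)), F e) := by
    intro i hi j hj
    have z1 := Real.rpow_nonneg (mul_nonneg (x0 i) (y0 j)) (1/2+eps1)
    have z0 := Real.rpow_nonneg (mul_nonneg (x0 i) (y0 j)) (1/2:ℝ)
    have z2 := Real.rpow_nonneg (mul_nonneg (x0 i) (y0 j)) (1/2+eps2)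
    have w0 := hw40 i j
    by_cases hij : i = j
    · simp only [if_pos hij, zero_mul, mul_zero, zero_add, add_zero]
      positivity
    simp only [if_neg hij]
    obtain ⟨v₀, hv₀, hfi⟩ := Finset.mem_image.1 hi
    obtain ⟨w₀, hw₀, hgj⟩ := Finset.mem_image.1 hj
    set a := (v₀ / pr).factorization s with ha
    set a' := (w₀ / pr').factorization s with ha'
    have hai : a + m' = i := hfi
    have haj : a' + m = j := hgj
    have hne : a + m' ≠ a' + m := by rw [hai, haj]; exact hij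
    have fa : ∀ v ∈ V.filter (fun v => f v = i), (v / pr).factorization s = a := fun v hv => by
      have h1 : (v / pr).factorization s + m' = i := (Finset.mem_filter.1 hv).2
      omega
    have ga : ∀ v ∈ W.filter (fun w => g w = j), (v / pr').factorization s = a' := fun v hv => by
      have h1 : (v / pr').factorization s + m = j := (Finset.mem_filter.1 hv).2
      omega
    have hfg : ∀ e ∈ (V.filter (fun v => f v = i)) ×ˢ (W.filter (fun w => g w = j)), f e.1 ≠ g e.2 := fun e he => by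
      obtain ⟨h1, h2⟩ := Finset.mem_product.1 he
      rw [(Finset.mem_filter.1 h1).2, (Finset.mem_filter.1 h2).2]; exact hij
    have hsub : ∀ e ∈ (V.filter (fun v => f v = i)) ×ˢ (W.filter (fun w => g w = j)), e ∈ V ×ˢ W := fun e he => by
      obtain ⟨h1, h2⟩ := Finset.mem_product.1 he
      exact Finset.mem_product.2 ⟨(Finset.mem_filter.1 h1).1, (Finset.mem_filter.1 h2).1⟩
    have main := hmain s M b pr c M' b' pr' c' a a' a₀ γ ρ (V.filter (fun v => f v = i))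
      (W.filter (fun w => g w = j)) F Q A (th i j) hsb hs ha₀ ha₀' hA hρ hb hc hb' hc' hM hM' hMs hMs'
      hsM hsM' hne
      (fun v hv => ⟨(hV v (Finset.mem_filter.1 hv).1).1, (hV v (Finset.mem_filter.1 hv).1).2, fa v hv,
        oV v (Finset.mem_filter.1 hv).1⟩)
      (fun v hv => ⟨(hW v (Finset.mem_filter.1 hv).1).1, (hW v (Finset.mem_filter.1 hv).1).2, ga v hv,
        oW v (Finset.mem_filter.1 hv).1⟩)
      (fun z hz v hv => tV z hz v (Finset.mem_filter.1 hv).1)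
      (fun z hz v hv => tW z hz v (Finset.mem_filter.1 hv).1)
      (fun v hv => lV v (Finset.mem_filter.1 hv).1)
      (fun v hv => lW v (Finset.mem_filter.1 hv).1)
      (fun e he h1 => hF e (hsub e he) (hfg e he) h1)
      (fun e he h1 h2 => hrel e (hsub e he) (hfg e he) h1 h2)
      (fun e he h1 h2 h3 => by
        obtain ⟨k1, k2⟩ := Finset.mem_product.1 he
        have h4 := hFG e (hsub e he) (hfg e he) h1 h2
        rw [fa _ k1, ga _ k2] at h4
        have h5 : fe s M' pr e.1 = i := (Finset.mem_filter.1 k1).2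
        have h6 : fe s M pr' e.2 = j := (Finset.mem_filter.1 k2).2
        simp only [hf, hg] at h4
        rw [h5, h6] at h4
        exact h4 h3)
    set dx := dex a m a' m' with hdx
    have hd : dst i j ≤ dx := by rw [← hai, ← haj]; exact dst_le_dex a m a' m'
    have hpow := pow_q (s := s) hs.two_le hd
    rw [← hq, ← hr] at hpow
    have hxm : ∑ v ∈ V.filter (fun v => f v = i), rd b c ρ v * tq (v / pr) = x i := rfl
    have hym : ∑ v ∈ W.filter (fun w => g w = j), rd b' c' ρ v * tq (v / pr') = y j := rfl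
    rw [hxm, hym] at main
    refine main.trans ?_
    refine add_le_add ?_ le_rfl
    set gg := (s:ℝ)^(-(48/100)*((dx : ℝ)-1)) with hgg
    have hgg0 : 0 < gg := by positivity
    have hacc0 := acc_nonneg A s (th i j)
    have h6 : gg * (K1 * (L6 * (if dx = 1 then (a₀:ℝ)^(6/1000:ℝ) else 1) + (if dx = 1 then acc A s (th i j) else 0)) *
        (s2 * (x i * y j)^(1/2+eps2))) ≤
        (K1 * r * (L6 * s2)) * (q^(dst i j) * (x i * y j)^(1/2+eps2)) +
        (K1 * s2) * (w4 i j * (x i * y j)^(1/2+eps2)) := by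
      by_cases hd1 : dx = 1
      · rw [if_pos hd1, if_pos hd1]
        have hdst : dst i j = 1 := by rw [← hai, ← haj]; exact dex_one hd1
        have hw : w4 i j = L6 * (a₀:ℝ)^(6/1000:ℝ) + acc A s (th i j) := by
          rw [hw4]; simp only; rw [if_pos hdst]
        have hg1 : gg = 1 := by rw [hgg, hd1]; norm_num
        rw [hw, hg1]
        have : 0 ≤ (K1 * r * (L6 * s2)) * (q^(dst i j) * (x i * y j)^(1/2+eps2)) := by positivity
        nlinarith [this]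
      · rw [if_neg hd1, if_neg hd1]
        have h7 : 0 ≤ (K1 * s2) * (w4 i j * (x i * y j)^(1/2+eps2)) := by positivity
        calc gg * (K1 * (L6 * 1 + 0) * (s2 * (x i * y j)^(1/2+eps2)))
            = gg * (K1 * (L6 * s2) * (x i * y j)^(1/2+eps2)) := by ring
          _ ≤ (r * q^(dst i j)) * (K1 * (L6 * s2) * (x i * y j)^(1/2+eps2)) :=
              mul_le_mul_of_nonneg_right hpow (by positivity)
          _ = (K1 * r * (L6 * s2)) * (q^(dst i j) * (x i * y j)^(1/2+eps2)) := by ring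
          _ ≤ _ := by linarith
    have h7 : gg * (K1 * (s1 * (x i * y j)^(1/2+eps1) + s0 * (x i * y j)^(1/2:ℝ))) ≤
        (K1 * r * s1) * (q^(dst i j) * (x i * y j)^(1/2+eps1)) +
        (K1 * r * s0) * (q^(dst i j) * (x i * y j)^(1/2:ℝ)) := by
      calc _ ≤ (r * q^(dst i j)) * (K1 * (s1 * (x i * y j)^(1/2+eps1) + s0 * (x i * y j)^(1/2:ℝ))) :=
            mul_le_mul_of_nonneg_right hpow (by positivity)
        _ = _ := by ring
    calc _ = gg * (K1 * (s1 * (x i * y j)^(1/2+eps1) + s0 * (x i * y j)^(1/2:ℝ))) +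
          gg * (K1 * (L6 * (if dx = 1 then (a₀:ℝ)^(6/1000:ℝ) else 1) + (if dx = 1 then acc A s (th i j) else 0)) *
        (s2 * (x i * y j)^(1/2+eps2))) := by ring
      _ ≤ _ := add_le_add h7 h6
      _ = _ := by ring
  -- the sums
  set n := max (V.sup f + 1) (W.sup g + 1) with hn
  have hSn : V.image f ⊆ range n := (image_sub_range V f).trans (range_subset_range.2 (le_max_left _ _))
  have hTn : W.image g ⊆ range n := (image_sub_range W g).trans (range_subset_range.2 (le_max_right _ _))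
  have ea : ∑ i ∈ V.image f, x i = ∑ v ∈ V, rd b c ρ v * tq (v / pr) := sum_image_cls V f _
  have eb : ∑ j ∈ W.image g, y j = ∑ v ∈ W, rd b' c' ρ v * tq (v / pr') := sum_image_cls W g _
  have hq1 : q ≤ 8/9 := q_le hs3
  have k1 := off_pairs hq0.le hq1 (s := 1/2+eps1) (by rw [he1]; norm_num) n (V.image f) (W.image g) hSn hTn x y
    (fun k _ => x0 k) (fun k _ => y0 k)
  have k0 := off_pairs hq0.le hq1 (s := 1/2) le_rfl n (V.image f) (W.image g) hSn hTn x y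
    (fun k _ => x0 k) (fun k _ => y0 k)
  have k2 := off_pairs hq0.le hq1 (s := 1/2+eps2) (by rw [he2]; norm_num) n (V.image f) (W.image g) hSn hTn x y
    (fun k _ => x0 k) (fun k _ => y0 k)
  rw [ea, eb] at k1 k0 k2
  refine (Finset.sum_le_sum fun i hi => Finset.sum_le_sum fun j hj => step i hi j hj).trans ?_
  simp only [Finset.sum_add_distrib, ← Finset.mul_sum]
  set X := ∑ v ∈ V, rd b c ρ v * tq (v / pr) with hX
  set Y := ∑ v ∈ W, rd b' c' ρ v * tq (v / pr') with hY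
  have X0 : 0 ≤ X := Finset.sum_nonneg fun q _ => mul_nonneg (hrd q).le (tq_nonneg _)
  have Y0 : 0 ≤ Y := Finset.sum_nonneg fun q _ => mul_nonneg (hrd' q).le (tq_nonneg _)
  have e8 : ℓ^(C0 + 8 + cl/500) = K1 * ℓ := by
    rw [hK1, show C0 + 8 + cl/500 = (C0 + 7 + cl/500) + 1 by ring, Real.rpow_add hℓ0, Real.rpow_one]
  have Z1 := Real.rpow_nonneg (mul_nonneg X0 Y0) (1/2+eps1)
  have Z0 := Real.rpow_nonneg (mul_nonneg X0 Y0) (1/2:ℝ)
  have Z2 := Real.rpow_nonneg (mul_nonneg X0 Y0) (1/2+eps2)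
  have t1 : (K1 * r * s1) * (∑ i ∈ V.image f, ∑ j ∈ W.image g,
      (if i = j then 0 else q^(dst i j)) * (x i * y j)^(1/2+eps1)) ≤
      ℓ^(C0 + 8 + cl/500) * (s1 * (X * Y)^(1/2+eps1)) := by
    calc _ ≤ (K1 * r * s1) * (18 * q * (X * Y)^(1/2+eps1)) := mul_le_mul_of_nonneg_left k1 (by positivity)
      _ = 18 * (q * r) * (K1 * (s1 * (X * Y)^(1/2+eps1))) := by ring
      _ = 18 * (K1 * (s1 * (X * Y)^(1/2+eps1))) := by rw [hqr, mul_one]
      _ ≤ ℓ * (K1 * (s1 * (X * Y)^(1/2+eps1))) := mul_le_mul_of_nonneg_right hl18 (by positivity)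
      _ = _ := by rw [e8]; ring
  have t0 : (K1 * r * s0) * (∑ i ∈ V.image f, ∑ j ∈ W.image g,
      (if i = j then 0 else q^(dst i j)) * (x i * y j)^(1/2:ℝ)) ≤
      ℓ^(C0 + 8 + cl/500) * (s0 * (X * Y)^(1/2:ℝ)) := by
    calc _ ≤ (K1 * r * s0) * (18 * q * (X * Y)^(1/2:ℝ)) := mul_le_mul_of_nonneg_left k0 (by positivity)
      _ = 18 * (q * r) * (K1 * (s0 * (X * Y)^(1/2:ℝ))) := by ring
      _ = 18 * (K1 * (s0 * (X * Y)^(1/2:ℝ))) := by rw [hqr, mul_one]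
      _ ≤ ℓ * (K1 * (s0 * (X * Y)^(1/2:ℝ))) := mul_le_mul_of_nonneg_right hl18 (by positivity)
      _ = _ := by rw [e8]; ring
  have t2 : (K1 * r * (L6 * s2)) * (∑ i ∈ V.image f, ∑ j ∈ W.image g,
      (if i = j then 0 else q^(dst i j)) * (x i * y j)^(1/2+eps2)) ≤
      ℓ^(C0 + 8 + cl/500) * (L6 * (s2 * (X * Y)^(1/2+eps2))) := by
    calc _ ≤ (K1 * r * (L6 * s2)) * (18 * q * (X * Y)^(1/2+eps2)) := mul_le_mul_of_nonneg_left k2 (by positivity)
      _ = 18 * (q * r) * (K1 * (L6 * (s2 * (X * Y)^(1/2+eps2)))) := by ring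
      _ = 18 * (K1 * (L6 * (s2 * (X * Y)^(1/2+eps2)))) := by rw [hqr, mul_one]
      _ ≤ ℓ * (K1 * (L6 * (s2 * (X * Y)^(1/2+eps2)))) := mul_le_mul_of_nonneg_right hl18 (by positivity)
      _ = _ := by rw [e8]; ring
  have t4 : (K1 * s2) * (∑ i ∈ V.image f, ∑ j ∈ W.image g, w4 i j * (x i * y j)^(1/2+eps2)) ≤
      ℓ^(C0 + 8 + cl/500) * s2 * (∑ i ∈ V.image f, ∑ j ∈ W.image g, w4 i j * (x i * y j)^(1/2+eps2)) := by
    have h0 : 0 ≤ ∑ i ∈ V.image f, ∑ j ∈ W.image g, w4 i j * (x i * y j)^(1/2+eps2) :=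
      Finset.sum_nonneg fun i _ => Finset.sum_nonneg fun j _ =>
        mul_nonneg (hw40 i j) (Real.rpow_nonneg (mul_nonneg (x0 i) (y0 j)) _)
    apply mul_le_mul_of_nonneg_right _ h0
    apply mul_le_mul_of_nonneg_right _ hs20.le
    rw [e8]
    nlinarith
  have hQ' : ∑ e ∈ (V ×ˢ W).filter (fun e => f e.1 ≠ g e.2 ∧ (0 < F e ∧ (D e ≤ 1/2^(lev cl s) ∧ Q e))), F e =
      ∑ i ∈ V.image f, ∑ j ∈ W.image g, (if i = j then 0 else
        ∑ e ∈ ((V.filter (fun v => f v = i)) ×ˢ (W.filter (fun w => g w = j))).filter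
          (fun e => 0 < F e ∧ (D e ≤ 1/2^(lev cl s) ∧ Q e)), F e) := by convert hQ
  rw [hQ']
  have hfin : ℓ^(C0 + 8 + cl/500) * (s1 * (X * Y)^(1/2+eps1) + s0 * (X * Y)^(1/2:ℝ) +
      L6 * (s2 * (X * Y)^(1/2+eps2))) = ℓ^(C0 + 8 + cl/500) * (s1 * (X * Y)^(1/2+eps1)) +
      ℓ^(C0 + 8 + cl/500) * (s0 * (X * Y)^(1/2:ℝ)) + ℓ^(C0 + 8 + cl/500) * (L6 * (s2 * (X * Y)^(1/2+eps2))) := by
    ring
  rw [hfin]
  exact add_le_add (add_le_add (add_le_add (add_le_add t1 t0) t2) t4) le_rfl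

end Crest.Agent.R4P.ShotTot33
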