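import Mathlib
import Crest.Agent.R4P.ShotTot_33
import Crest.Agent.R4P.LLNumQ_35
import Crest.Agent.R4P.CofMono_28

/-!
R4 powers pass (S0004), helper33, group [X]: **pairs of a large scale at a crossing prime `s`, all classes**.

`anat_cls` : one class, pairs with `D ≤ T` and `Σ_{l ∣ x y, l > z} 1/l ≥ S` (raw cofactors);
`anat_tot` : all classes; `mid_tot` : no anatomy; `bad_tot` : bad anatomy at `√D`; `ll_tot`; `inv_tot` : weight `1/D`.
-/

set_option autoImplicit false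
open Finset

namespace Crest.Agent.R4P.LLTot33

open Crest.Agent.R4.HVW560 Crest.Agent.R4.Schur709 Crest.Agent.R4.StopHvw709
open Crest.Agent.R4.StopAsm709 Crest.Agent.R4.AvgItem710 Crest.Agent.R4.DeepSt579
open Crest.Agent.R4P.Rad800 Crest.Agent.R4P.StripP33 Crest.Agent.R4P.BrP33 Crest.Agent.R4P.ShotP33
open Crest.Agent.R4P.ClsSum Crest.Agent.R4P.ShotTot33
open Crest.Agent.R4.NMW710 (Dq)
open Crest.Agent.R4P.CofMono28 (SD)
open Crest.Agent.R4.HVWX793 (KH KH_pos)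
open Crest.Agent.R4.LLNum709 (SA CA CA_pos SA_nonneg)

/-- the raw cofactors of an item pair -/
def xR (M pr M' pr' : ℕ) (e : ℕ × ℕ) : ℕ :=
  cof (e.1 / pr / M.gcd (e.1 / pr)) (e.2 / pr' / M'.gcd (e.2 / pr'))

def yR (M pr M' pr' : ℕ) (e : ℕ × ℕ) : ℕ :=
  cof (e.2 / pr' / M'.gcd (e.2 / pr')) (e.1 / pr / M.gcd (e.1 / pr))

/-- raw anatomy against stripped anatomy -/
lemma SD_le_SA {s M pr a M' pr' a' : ℕ} {e : ℕ × ℕ} (hs : s.Prime) (hM : 0 < M) (hM' : 0 < M')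
    (h : Sd s M pr a e.1) (h' : Sd s M' pr' a' e.2) (z : ℝ) :
    SD (xR M pr M' pr' e) (yR M pr M' pr' e) z ≤
      (if z < s then 1 / (s:ℝ) else 0) +
        SA (st s M').primeFactors (st s M).primeFactors z (itm s pr e.1, itm s pr' e.2) := by
  have hs0 : (0:ℝ) < s := by exact_mod_cast hs.pos
  have u1 := h.uu_eq hs hM
  have u2 := h'.uu_eq hs hM'
  have c1 := cof_st hs h.w0 hM h'.w0 hM'
  have c2 := cof_st hs h'.w0 hM' h.w0 hM
  unfold SD SA xR yR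
  simp only
  rw [u1, u2, c1, c2]
  set k := (e.1 / pr).factorization s - M.factorization s - ((e.2 / pr').factorization s - M'.factorization s)
  set k' := (e.2 / pr').factorization s - M'.factorization s - ((e.1 / pr).factorization s - M.factorization s)
  set x := cof (st s (e.1 / pr) / (st s M).gcd (st s (e.1 / pr))) (st s (e.2 / pr') / (st s M').gcd (st s (e.2 / pr')))
    with hx
  set y := cof (st s (e.2 / pr') / (st s M').gcd (st s (e.2 / pr'))) (st s (e.1 / pr) / (st s M).gcd (st s (e.1 / pr)))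
    with hy
  have p1 : 0 < st s (e.1 / pr) / (st s M).gcd (st s (e.1 / pr)) := div_pos' (st_pos h.w0) (st_pos hM)
  have p2 : 0 < st s (e.2 / pr') / (st s M').gcd (st s (e.2 / pr')) := div_pos' (st_pos h'.w0) (st_pos hM')
  have hx0 : 0 < x := Crest.Agent.R4.HVW560.cof_pos p1
  have hy0 : 0 < y := Crest.Agent.R4.HVW560.cof_pos p2
  have hxy : itm s pr e.1 = st s (e.1 / pr) := rfl
  have hxy' : itm s pr' e.2 = st s (e.2 / pr') := rfl
  rw [hxy, hxy', ← hx, ← hy]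
  have e1 : s ^ k * x * (s ^ k' * y) = s ^ (k + k') * (x * y) := by rw [pow_add]; ring
  have cov : ∀ l ∈ (s ^ k * x * (s ^ k' * y)).primeFactors.filter (fun l : ℕ => z < (l : ℝ)), l = s ∨
      l ∈ (x * y).primeFactors.filter (fun l : ℕ => z < (l : ℝ)) := fun l hl => by
    rw [Finset.mem_filter, Nat.mem_primeFactors] at hl
    obtain ⟨⟨hl1, hl2, _⟩, hl3⟩ := hl
    rw [Finset.mem_filter, Nat.mem_primeFactors]
    by_cases hls : l = s
    · exact Or.inl hls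
    right
    refine ⟨⟨hl1, ?_, (Nat.mul_pos hx0 hy0).ne'⟩, hl3⟩
    rw [e1] at hl2
    rcases (Nat.Prime.dvd_mul hl1).1 hl2 with h5 | h5
    · exact absurd ((Nat.prime_dvd_prime_iff_eq hl1 hs).1 (hl1.dvd_of_dvd_pow h5)) hls
    · exact h5
  split_ifs with hz
  · have g1 : ∑ l ∈ (s ^ k * x * (s ^ k' * y)).primeFactors.filter (fun l : ℕ => z < (l : ℝ)), 1 / (l : ℝ)
        ≤ ∑ l ∈ insert s ((x * y).primeFactors.filter (fun l : ℕ => z < (l : ℝ))), 1 / (l : ℝ) := by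
      refine Finset.sum_le_sum_of_subset_of_nonneg (fun l hl => ?_) fun l _ _ => by positivity
      rw [Finset.mem_insert]; exact cov l hl
    refine g1.trans ?_
    by_cases hs' : s ∈ (x * y).primeFactors.filter (fun l : ℕ => z < (l : ℝ))
    · rw [Finset.insert_eq_of_mem hs']
      have : 0 ≤ 1 / (s:ℝ) := by positivity
      linarith
    · rw [Finset.sum_insert hs']
  · rw [zero_add]
    refine Finset.sum_le_sum_of_subset_of_nonneg (fun l hl => ?_) fun l _ _ => by positivity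
    rcases cov l hl with h5 | h5
    · have := (Finset.mem_filter.1 hl).2
      rw [h5] at this
      exact absurd this hz
    · exact h5

set_option maxHeartbeats 1000000 in
open Classical in
/-- **one class, pairs with `D ≤ T` and anatomy** -/
theorem anat_cls {ε : ℝ} (hε : 0 < ε) (hε' : ε ≤ 1/100)
    {s M b pr c M' b' pr' c' a a' : ℕ} {ρ : ℕ → ℝ} {V W : Finset ℕ} {F : ℕ × ℕ → ℝ} {T z S K L : ℝ}
    (hs : s.Prime) (hρ : ∀ q, 0 < ρ q) (hb : 0 < b) (hc : 0 < c) (hb' : 0 < b') (hc' : 0 < c')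
    (hM : 0 < M) (hM' : 0 < M')
    (hsM : ∑ l ∈ M.primeFactors.erase s, 1 / (l:ℝ) ≤ 1) (hsM' : ∑ l ∈ M'.primeFactors.erase s, 1 / (l:ℝ) ≤ 1)
    (hne : a + M'.factorization s ≠ a' + M.factorization s)
    (hV : ∀ q ∈ V, Sd s M pr a q) (hW : ∀ q ∈ W, Sd s M' pr' a' q) (hL : 0 ≤ L)
    (lV : ∀ q ∈ V, 1 ≤ L * tq (q / pr / M.gcd (q / pr)))
    (lW : ∀ q ∈ W, 1 ≤ L * tq (q / pr' / M'.gcd (q / pr')))
    {E : Finset (ℕ × ℕ)} (hE : E ⊆ V ×ˢ W) (hT : 0 < T) (hz : Real.exp 16 ≤ z) (hK : 0 ≤ K)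
    (h1 : ∀ e ∈ E, Dq ρ M b pr c M' b' pr' c' e ≤ T)
    (hS : ∀ e ∈ E, S ≤ SD (xR M pr M' pr' e) (yR M pr M' pr' e) z)
    (hF : ∀ e ∈ E, F e ≤ K * (rd b c ρ e.1 * rd b' c' ρ e.2)) :
    ∑ e ∈ E, F e ≤ (K * L^2 * Real.exp (1 - z * S) * (CA ε * T^(1-2*ε)) * (256 * Real.exp 3)) *
      ((s:ℝ)^(-(48/100)*((dex a (M.factorization s) a' (M'.factorization s) : ℝ)-1)) * (s:ℝ)^(-(1/2-ε))) *
      ((∑ q ∈ V, rd b c ρ q * tq (q / pr)) * (∑ q ∈ W, rd b' c' ρ q * tq (q / pr')))^(1/2+ε) := by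
  have hs2 : 2 ≤ s := hs.two_le
  have hs0 : (0:ℝ) < s := by exact_mod_cast hs.pos
  have hz0 : 0 < z := (Real.exp_pos _).trans_le hz
  set m := M.factorization s with hm
  set m' := M'.factorization s with hm'
  set P := PL s a m a' m' with hP
  set P' := PL s a' m' a m with hP'
  set ex' := dex a m a' m' with hex'
  have hPP : P * P' = s ^ ex' := PL_mul s a m a' m'
  have hex1 : 1 ≤ ex' := dex_pos hne
  have hP0 : 0 < P := PL_pos hs.pos
  have hP0' : 0 < P' := PL_pos hs.pos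
  have hP0r : (0:ℝ) < P := by exact_mod_cast hP0
  have hP0r' : (0:ℝ) < P' := by exact_mod_cast hP0'
  have hst := st_pos (s := s) hM
  have hst' := st_pos (s := s) hM'
  have xM : (1:ℝ) ≤ ex (st s M) := by exact_mod_cast ex_pos hst
  have xM' : (1:ℝ) ≤ ex (st s M') := by exact_mod_cast ex_pos hst'
  set Ee : ℝ := (ex (st s M) : ℝ) * ex (st s M') with hEe
  have hE1 : 1 ≤ Ee := by rw [hEe]; nlinarith
  have hrd : ∀ q, 0 < rd b c ρ q := fun q => mul_pos (div_pos (by exact_mod_cast hb) (by exact_mod_cast hc)) (hρ q)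
  have hrd' : ∀ q, 0 < rd b' c' ρ q := fun q =>
    mul_pos (div_pos (by exact_mod_cast hb') (by exact_mod_cast hc')) (hρ q)
  set O' := (st s M).primeFactors with hO'
  set O := (st s M').primeFactors with hO
  have hOp : ∀ l ∈ O, l.Prime ∧ 0 ≤ l := fun l hl => ⟨Nat.prime_of_mem_primeFactors hl, Nat.zero_le _⟩
  have hOp' : ∀ l ∈ O', l.Prime ∧ 0 ≤ l := fun l hl => ⟨Nat.prime_of_mem_primeFactors hl, Nat.zero_le _⟩
  have hs1 : ∑ p ∈ O, 1/(p:ℝ) ≤ 1 := by rw [hO, pf_st hs hM']; exact hsM'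
  have hs1' : ∑ p ∈ O', 1/(p:ℝ) ≤ 1 := by rw [hO', pf_st hs hM]; exact hsM
  set V0 := V.image (itm s pr) with hV0
  set W0 := W.image (itm s pr') with hW0
  set R := Rb s M P b pr c a ρ with hR
  set R' := Rb s M' P' b' pr' c' a' ρ with hR'
  set κ : ℝ := ((ex (st s M) : ℝ) * P) * ((ex (st s M') : ℝ) * P') with hκ
  have hκ0 : 0 < κ := by rw [hκ]; positivity
  have hκE : κ = Ee * (s:ℝ)^ex' := by
    have : ((P * P' : ℕ) : ℝ) = (s:ℝ)^ex' := by rw [hPP]; push_cast; ring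
    rw [hκ, hEe, ← this]; push_cast; ring
  set F0 : ℕ × ℕ → ℝ := fun f => κ * F (bk s pr a f.1, bk s pr' a' f.2) with hF0
  set E0 := (V0 ×ˢ W0).filter (fun f => (bk s pr a f.1, bk s pr' a' f.2) ∈ E) with hE0
  have hDc : ∀ e ∈ V ×ˢ W, Dc O O' R R' (itm s pr e.1, itm s pr' e.2) = Dq ρ M b pr c M' b' pr' c' e := fun e he =>
    Dc_br hs hM hM' (hV _ (Finset.mem_product.1 he).1) (hW _ (Finset.mem_product.1 he).2) b c b' c' ρ
  have hF0e : ∀ e ∈ V ×ˢ W, F0 (itm s pr e.1, itm s pr' e.2) = κ * F e := fun e he => by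
    rw [hF0]; simp only
    rw [(hV _ (Finset.mem_product.1 he).1).bk_eq, (hW _ (Finset.mem_product.1 he).2).bk_eq]
  have mem0 : ∀ f ∈ E0, ∃ e ∈ E, f = (itm s pr e.1, itm s pr' e.2) := fun f hf => by
    obtain ⟨h1, h2⟩ := Finset.mem_filter.1 hf
    rw [hV0, hW0, prod_img] at h1
    obtain ⟨e, he, rfl⟩ := Finset.mem_image.1 h1
    simp only at h2
    rw [(hV _ (Finset.mem_product.1 he).1).bk_eq, (hW _ (Finset.mem_product.1 he).2).bk_eq] at h2
    exact ⟨e, h2, rfl⟩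
  have hRe : ∀ q ∈ V, R (itm s pr q) = (ex (st s M) : ℝ) * (P * rd b c ρ q) := fun q hq => (hV q hq).Rb_eq P b c ρ
  have hRe' : ∀ q ∈ W, R' (itm s pr' q) = (ex (st s M') : ℝ) * (P' * rd b' c' ρ q) := fun q hq =>
    (hW q hq).Rb_eq P' b' c' ρ
  have muV : ∀ q ∈ V, mu O' R (itm s pr q) =
      (ex (st s M) : ℝ) * (P * rd b c ρ q) * tq (itm s pr q / (st s M).gcd (itm s pr q)) := fun q hq =>
    (hV q hq).mu_eq hs hM P b c ρ
  have muW : ∀ q ∈ W, mu O R' (itm s pr' q) =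
      (ex (st s M') : ℝ) * (P' * rd b' c' ρ q) * tq (itm s pr' q / (st s M').gcd (itm s pr' q)) := fun q hq =>
    (hW q hq).mu_eq hs hM' P' b' c' ρ
  have c0 : ∀ r ∈ W0, (0:ℝ) ≤ ∑ p ∈ O.filter (fun p => ¬ p ∣ r), 1/(p:ℝ) := fun r _ =>
    Finset.sum_nonneg fun p _ => by positivity
  have c0' : ∀ r ∈ V0, (0:ℝ) ≤ ∑ p ∈ O'.filter (fun p => ¬ p ∣ r), 1/(p:ℝ) := fun r _ =>
    Finset.sum_nonneg fun p _ => by positivity
  set δ : ℝ := if z < s then 1/(s:ℝ) else 0 with hδ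
  have hδz : z * δ ≤ 1 := by
    rw [hδ]; split_ifs with h5
    · rw [mul_one_div, div_le_one hs0]; exact h5.le
    · rw [mul_zero]; exact zero_le_one
  have hexpS : Real.exp (-(z * (S - δ))) ≤ Real.exp (1 - z * S) := by
    apply Real.exp_le_exp.2; nlinarith
  have key := Crest.Agent.R4P.LLNumP.anat_P (ε := ε) hε (by linarith) (N := 0) (O := O) (O' := O') (V := V0)
    (W := W0) (E := E0) (R := R) (R' := R') hOp hOp'
    (by
      intro w hw
      obtain ⟨q, hq, rfl⟩ := Finset.mem_image.1 hw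
      exact (hV q hq).i0)
    (by
      intro w hw
      obtain ⟨q, hq, rfl⟩ := Finset.mem_image.1 hw
      exact (hW q hq).i0)
    (by
      intro w hw
      obtain ⟨q, hq, rfl⟩ := Finset.mem_image.1 hw
      rw [hRe q hq]; have := hrd q; positivity)
    (by
      intro w hw
      obtain ⟨q, hq, rfl⟩ := Finset.mem_image.1 hw
      rw [hRe' q hq]; have := hrd' q; positivity)
    (Finset.filter_subset _ _) c0 c0' (T := T) (z := z) (S := S - δ) (K := K * L^2) (F := F0) hT hz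
    (by positivity)
    (by
      intro f hf
      obtain ⟨e, he, rfl⟩ := mem0 f hf
      rw [hDc e (hE he)]
      exact h1 e he)
    (by
      intro f hf
      obtain ⟨e, he, rfl⟩ := mem0 f hf
      obtain ⟨k1, k2⟩ := Finset.mem_product.1 (hE he)
      have h2 := hS e he
      have h3 := SD_le_SA hs hM hM' (hV _ k1) (hW _ k2) z
      linarith)
    (by
      intro f hf
      obtain ⟨e, he, rfl⟩ := mem0 f hf
      obtain ⟨k1, k2⟩ := Finset.mem_product.1 (hE he)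
      rw [hF0e e (hE he)]
      simp only
      rw [muV _ k1, muW _ k2]
      have g1 : 1 ≤ L * tq (itm s pr e.1 / (st s M).gcd (itm s pr e.1)) :=
        (lV _ k1).trans (mul_le_mul_of_nonneg_left ((hV _ k1).tq_ge hs hM) hL)
      have g2 : 1 ≤ L * tq (itm s pr' e.2 / (st s M').gcd (itm s pr' e.2)) :=
        (lW _ k2).trans (mul_le_mul_of_nonneg_left ((hW _ k2).tq_ge hs hM') hL)
      have g3 : 1 ≤ (L * tq (itm s pr e.1 / (st s M).gcd (itm s pr e.1))) *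
          (L * tq (itm s pr' e.2 / (st s M').gcd (itm s pr' e.2))) := by nlinarith
      have r1 := hrd e.1
      have r2 := hrd' e.2
      calc κ * F e ≤ κ * (K * (rd b c ρ e.1 * rd b' c' ρ e.2)) := mul_le_mul_of_nonneg_left (hF e he) hκ0.le
        _ = κ * (K * (rd b c ρ e.1 * rd b' c' ρ e.2)) * 1 := (mul_one _).symm
        _ ≤ κ * (K * (rd b c ρ e.1 * rd b' c' ρ e.2)) *
            ((L * tq (itm s pr e.1 / (st s M).gcd (itm s pr e.1))) *
          (L * tq (itm s pr' e.2 / (st s M').gcd (itm s pr' e.2)))) :=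
            mul_le_mul_of_nonneg_left g3 (by positivity)
        _ = _ := by rw [hκ]; ring)
  have hsumL : ∑ f ∈ E0, F0 f = κ * ∑ e ∈ E, F e := by
    have h2 := sum_br hV hW κ F (fun e => e ∈ E) (fun f => (bk s pr a f.1, bk s pr' a' f.2) ∈ E)
      (fun e he => by
        simp only
        rw [(hV _ (Finset.mem_product.1 he).1).bk_eq, (hW _ (Finset.mem_product.1 he).2).bk_eq])
    have e3 : ∑ e ∈ E, F e = ∑ e ∈ (V ×ˢ W).filter (fun e => e ∈ E), F e := by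
      refine Finset.sum_congr ?_ fun _ _ => rfl
      ext e; rw [Finset.mem_filter]; exact ⟨fun h => ⟨hE h, h⟩, fun h => h.2⟩
    rw [e3]
    convert h2
  rw [hsumL] at key
  -- numbers
  set x := ∑ q ∈ V, rd b c ρ q * tq (q / pr) with hx
  set y := ∑ q ∈ W, rd b' c' ρ q * tq (q / pr') with hy
  have x0 : 0 ≤ x := Finset.sum_nonneg fun q _ => mul_nonneg (hrd q).le (tq_nonneg _)
  have y0 : 0 ≤ y := Finset.sum_nonneg fun q _ => mul_nonneg (hrd' q).le (tq_nonneg _)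
  have xy0 : 0 ≤ x * y := mul_nonneg x0 y0
  have sV := mass_br hs hM hV P b c (fun q => (hρ q).le) hs1'
  have sW := mass_br hs hM' hW P' b' c' (fun q => (hρ q).le) hs1
  have nV := mass_nonneg hs hM hV P b c (fun q => (hρ q).le)
  have nW := mass_nonneg hs hM' hW P' b' c' (fun q => (hρ q).le)
  set SV := ∑ w ∈ V0, mu O' R w with hSV
  set SW := ∑ w ∈ W0, mu O R' w with hSW
  have sV' : SV ≤ (ex (st s M) * P : ℝ) * (16 * x) := sV
  have sW' : SW ≤ (ex (st s M') * P' : ℝ) * (16 * y) := sW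
  have nV' : 0 ≤ SV := nV
  have nW' : 0 ≤ SW := nW
  have hprod : SV * SW ≤ κ * (256 * (x * y)) := by
    calc SV * SW ≤ ((ex (st s M) * P : ℝ) * (16 * x)) * ((ex (st s M') * P' : ℝ) * (16 * y)) :=
          mul_le_mul sV' sW' nW' (nV'.trans sV')
      _ = _ := by rw [hκ]; ring
  set g := (s:ℝ)^(-(48/100)*((ex' : ℝ)-1)) with hg
  have hg0 : 0 < g := by positivity
  have gl : κ^(-(1/2-ε)) ≤ g * (s:ℝ)^(-(1/2-ε)) := by
    rw [hκE]; exact gain_le hs2 hex1 hE1 hε'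
  have pwr : (κ * (256 * (x * y)))^(1/2+ε) ≤ κ * (κ^(-(1/2-ε)) * (256 * (x * y)^(1/2+ε))) := by
    rw [pow_split hκ0 (by positivity), Real.mul_rpow (by norm_num) xy0]
    have h3 : (256:ℝ)^(1/2+ε) ≤ 256 := by
      calc (256:ℝ)^(1/2+ε) ≤ (256:ℝ)^(1:ℝ) := Real.rpow_le_rpow_of_exponent_le (by norm_num) (by linarith)
        _ = 256 := Real.rpow_one _
    gcongr
  have hexp : Real.exp ((1/2-ε) * (-((0:ℕ)*0) + 3 * (∑ p ∈ O, 1/(p:ℝ)) + (-((0:ℕ)*0) + 3 * ∑ p ∈ O', 1/(p:ℝ)))) ≤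
      Real.exp 3 := by
    apply Real.exp_le_exp.2
    have n1 : 0 ≤ ∑ p ∈ O, 1/(p:ℝ) := Finset.sum_nonneg fun p _ => by positivity
    have n2 : 0 ≤ ∑ p ∈ O', 1/(p:ℝ) := Finset.sum_nonneg fun p _ => by positivity
    push_cast
    nlinarith
  have hCA := (CA_pos ε).le
  have key' := key.trans (mul_le_mul_of_nonneg_right (mul_le_mul_of_nonneg_right
    (mul_le_mul_of_nonneg_left hexpS (by positivity : 0 ≤ K * L^2))
    (by positivity : 0 ≤ CA ε * T^(1-2*ε)))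
    (Crest.Agent.R4P.LLNumP.Zm_nonneg (by
      intro w hw
      obtain ⟨q, hq, rfl⟩ := Finset.mem_image.1 hw
      rw [hRe q hq]; have := hrd q; positivity) (by
      intro w hw
      obtain ⟨q, hq, rfl⟩ := Finset.mem_image.1 hw
      rw [hRe' q hq]; have := hrd' q; positivity)))
  set G := K * L^2 * Real.exp (1 - z * S) * (CA ε * T^(1-2*ε)) with hG
  have hG0 : 0 ≤ G := by rw [hG]; positivity
  refine le_of_mul_le_mul_left ?_ hκ0
  refine key'.trans ?_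
  unfold Crest.Agent.R4P.LLNumP.Zm
  calc G * (Real.exp ((1/2-ε) * (-((0:ℕ)*0) + 3 * (∑ p ∈ O, 1/(p:ℝ)) + (-((0:ℕ)*0) + 3 * ∑ p ∈ O', 1/(p:ℝ)))) *
        (SV * SW)^(1/2+ε))
      ≤ G * (Real.exp 3 * (κ * (κ^(-(1/2-ε)) * (256 * (x * y)^(1/2+ε))))) := by
        refine mul_le_mul_of_nonneg_left ?_ hG0
        refine mul_le_mul hexp ?_ (Real.rpow_nonneg (mul_nonneg nV' nW') _) (Real.exp_nonneg _)
        exact (Real.rpow_le_rpow (mul_nonneg nV' nW') hprod (by linarith)).trans pwr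
    _ ≤ G * (Real.exp 3 * (κ * ((g * (s:ℝ)^(-(1/2-ε))) * (256 * (x * y)^(1/2+ε))))) := by
        gcongr
    _ = _ := by rw [hG]; ring

/-! ### all classes -/

/-- facts of a pair of items at the crossing prime -/
structure XD (s M b pr c M' b' pr' c' : ℕ) (ρ : ℕ → ℝ) (V W : Finset ℕ) (L : ℝ) : Prop where
  hs : s.Prime
  hs3 : 3 ≤ s
  hρ : ∀ q, 0 < ρ q
  hb : 0 < b
  hc : 0 < c
  hb' : 0 < b'
  hc' : 0 < c'
  hM : 0 < M
  hM' : 0 < M'
  hsM : ∑ l ∈ M.primeFactors.erase s, 1 / (l:ℝ) ≤ 1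
  hsM' : ∑ l ∈ M'.primeFactors.erase s, 1 / (l:ℝ) ≤ 1
  hV : ∀ q ∈ V, 0 < q ∧ pr ∣ q
  hW : ∀ q ∈ W, 0 < q ∧ pr' ∣ q
  oV : ∀ q ∈ V, ∀ l : ℕ, l.Prime → l ∣ M → l ≠ s → ¬ l ^ 2 ∣ q / pr
  oW : ∀ q ∈ W, ∀ l : ℕ, l.Prime → l ∣ M' → l ≠ s → ¬ l ^ 2 ∣ q / pr'
  hL : 0 ≤ L
  lV : ∀ q ∈ V, 1 ≤ L * tq (q / pr / M.gcd (q / pr))
  lW : ∀ q ∈ W, 1 ≤ L * tq (q / pr' / M'.gcd (q / pr'))

/-- the constant of all classes -/
noncomputable def CB (ε : ℝ) : ℝ := 18 * CA ε * (256 * Real.exp 4)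

lemma CB_pos (ε : ℝ) : 0 < CB ε := by
  unfold CB; have := CA_pos ε; positivity

/-- the raw product of the masses -/
noncomputable def ZX (ε : ℝ) (s b pr c b' pr' c' : ℕ) (ρ : ℕ → ℝ) (V W : Finset ℕ) : ℝ :=
  (s:ℝ)^(-(1/2-ε)) * ((∑ q ∈ V, rd b c ρ q * tq (q / pr)) * (∑ q ∈ W, rd b' c' ρ q * tq (q / pr')))^(1/2+ε)

section tot
variable {s M b pr c M' b' pr' c' : ℕ} {ρ : ℕ → ℝ} {V W : Finset ℕ} {L : ℝ}

lemma XD.rd0 (h : XD s M b pr c M' b' pr' c' ρ V W L) (q : ℕ) : 0 < rd b c ρ q :=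
  mul_pos (div_pos (by exact_mod_cast h.hb) (by exact_mod_cast h.hc)) (h.hρ q)

lemma XD.rd0' (h : XD s M b pr c M' b' pr' c' ρ V W L) (q : ℕ) : 0 < rd b' c' ρ q :=
  mul_pos (div_pos (by exact_mod_cast h.hb') (by exact_mod_cast h.hc')) (h.hρ q)

lemma XD.Z0 (h : XD s M b pr c M' b' pr' c' ρ V W L) (ε : ℝ) : 0 ≤ ZX ε s b pr c b' pr' c' ρ V W := by
  unfold ZX
  have h1 : 0 ≤ ∑ q ∈ V, rd b c ρ q * tq (q / pr) :=
    Finset.sum_nonneg fun q _ => mul_nonneg (h.rd0 q).le (tq_nonneg _)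
  have h2 : 0 ≤ ∑ q ∈ W, rd b' c' ρ q * tq (q / pr') :=
    Finset.sum_nonneg fun q _ => mul_nonneg (h.rd0' q).le (tq_nonneg _)
  have := h.hs.pos
  positivity

open Classical in
set_option maxHeartbeats 1000000 in
/-- **all classes, pairs with `D ≤ T` and anatomy** -/
theorem anat_tot {ε : ℝ} (hε : 0 < ε) (hε' : ε ≤ 1/100) (h : XD s M b pr c M' b' pr' c' ρ V W L)
    {F : ℕ × ℕ → ℝ} {T z S K : ℝ} {E : Finset (ℕ × ℕ)} (hE : E ⊆ V ×ˢ W)
    (hne : ∀ e ∈ E, fe s M' pr e.1 ≠ fe s M pr' e.2) (hT : 0 < T) (hz : Real.exp 16 ≤ z) (hK : 0 ≤ K)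
    (h1 : ∀ e ∈ E, Dq ρ M b pr c M' b' pr' c' e ≤ T)
    (hS : ∀ e ∈ E, S ≤ SD (xR M pr M' pr' e) (yR M pr M' pr' e) z)
    (hF : ∀ e ∈ E, F e ≤ K * (rd b c ρ e.1 * rd b' c' ρ e.2)) :
    ∑ e ∈ E, F e ≤ K * L^2 * Real.exp (-(z * S)) * T^(1-2*ε) * (CB ε * ZX ε s b pr c b' pr' c' ρ V W) := by
  have hs0 : (0:ℝ) < s := by exact_mod_cast h.hs.pos
  set f : ℕ → ℕ := fe s M' pr with hf
  set g : ℕ → ℕ := fe s M pr' with hg
  set m := M.factorization s with hm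
  set m' := M'.factorization s with hm'
  set x : ℕ → ℝ := mc s M' b pr c ρ V with hx
  set y : ℕ → ℝ := mc s M b' pr' c' ρ W with hy
  have x0 : ∀ i, 0 ≤ x i := fun i => Finset.sum_nonneg fun q _ => mul_nonneg (h.rd0 q).le (tq_nonneg _)
  have y0 : ∀ i, 0 ≤ y i := fun i => Finset.sum_nonneg fun q _ => mul_nonneg (h.rd0' q).le (tq_nonneg _)
  have hCA := (CA_pos ε).le
  set G := K * L^2 * Real.exp (1 - z * S) * (CA ε * T^(1-2*ε)) * (256 * Real.exp 3) with hG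
  have hG0 : 0 ≤ G := by rw [hG]; positivity
  set q : ℝ := (s:ℝ)^(-(48/100):ℝ) with hq
  have hq0 : 0 < q := by positivity
  set r : ℝ := (s:ℝ)^(48/100:ℝ) with hr
  have hr0 : 0 < r := by positivity
  have hqr : q * r = 1 := by rw [hq, hr, ← Real.rpow_add hs0]; norm_num
  set s1 := (s:ℝ)^(-(1/2-ε)) with hs1
  have hs10 : 0 < s1 := by positivity
  have e0 : ∑ e ∈ E, F e = ∑ i ∈ V.image f, ∑ j ∈ W.image g, (if i = j then 0 else
        ∑ e ∈ ((V.filter (fun v => f v = i)) ×ˢ (W.filter (fun w => g w = j))).filter (fun e => e ∈ E), F e) := by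
    have e1 : ∑ e ∈ E, F e = ∑ e ∈ (V ×ˢ W).filter (fun e => e ∈ E), F e := by
      refine Finset.sum_congr ?_ fun _ _ => rfl
      ext e; rw [Finset.mem_filter]; exact ⟨fun h => ⟨hE h, h⟩, fun h => h.2⟩
    rw [e1, Finset.sum_filter, Finset.sum_product,
      cls_split V W f g (fun v w => if (v, w) ∈ E then F (v, w) else 0)]
    refine Finset.sum_congr rfl fun i _ => Finset.sum_congr rfl fun j _ => ?_
    by_cases hij : i = j
    · rw [if_pos hij]
      refine Finset.sum_eq_zero fun v hv => Finset.sum_eq_zero fun w hw => if_neg fun h1 => ?_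
      rw [Finset.mem_filter] at hv hw
      exact hne _ h1 (by show f v = g w; rw [hv.2, hw.2, hij])
    · rw [if_neg hij, Finset.sum_filter (fun e => e ∈ E), Finset.sum_product]
  rw [e0]
  have step : ∀ i ∈ V.image f, ∀ j ∈ W.image g,
      (if i = j then 0 else
        ∑ e ∈ ((V.filter (fun v => f v = i)) ×ˢ (W.filter (fun w => g w = j))).filter (fun e => e ∈ E), F e) ≤
      (G * r * s1) * ((if i = j then 0 else q^(dst i j)) * (x i * y j)^(1/2+ε)) := by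
    intro i hi j hj
    have z1 := Real.rpow_nonneg (mul_nonneg (x0 i) (y0 j)) (1/2+ε)
    by_cases hij : i = j
    · simp only [if_pos hij, zero_mul, mul_zero]; exact le_rfl
    simp only [if_neg hij]
    obtain ⟨v₀, hv₀, hfi⟩ := Finset.mem_image.1 hi
    obtain ⟨w₀, hw₀, hgj⟩ := Finset.mem_image.1 hj
    set a := (v₀ / pr).factorization s with ha
    set a' := (w₀ / pr').factorization s with ha'
    have hai : a + m' = i := hfi
    have haj : a' + m = j := hgj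
    have hne' : a + m' ≠ a' + m := by rw [hai, haj]; exact hij
    have fa : ∀ v ∈ V.filter (fun v => f v = i), (v / pr).factorization s = a := fun v hv => by
      have h1 : (v / pr).factorization s + m' = i := (Finset.mem_filter.1 hv).2
      omega
    have ga : ∀ v ∈ W.filter (fun w => g w = j), (v / pr').factorization s = a' := fun v hv => by
      have h1 : (v / pr').factorization s + m = j := (Finset.mem_filter.1 hv).2
      omega
    have main := anat_cls (E := ((V.filter (fun v => f v = i)) ×ˢ (W.filter (fun w => g w = j))).filter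
        (fun e => e ∈ E)) (F := F) (S := S) hε hε' h.hs h.hρ h.hb h.hc h.hb' h.hc' h.hM h.hM' h.hsM h.hsM' hne'
      (fun v hv => ⟨(h.hV v (Finset.mem_filter.1 hv).1).1, (h.hV v (Finset.mem_filter.1 hv).1).2, fa v hv,
        h.oV v (Finset.mem_filter.1 hv).1⟩)
      (fun v hv => ⟨(h.hW v (Finset.mem_filter.1 hv).1).1, (h.hW v (Finset.mem_filter.1 hv).1).2, ga v hv,
        h.oW v (Finset.mem_filter.1 hv).1⟩) h.hL
      (fun v hv => h.lV v (Finset.mem_filter.1 hv).1)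
      (fun v hv => h.lW v (Finset.mem_filter.1 hv).1)
      (Finset.filter_subset _ _) hT hz hK
      (fun e he => h1 e (Finset.mem_filter.1 he).2)
      (fun e he => hS e (Finset.mem_filter.1 he).2)
      (fun e he => hF e (Finset.mem_filter.1 he).2)
    set dx := dex a m a' m' with hdx
    have hd : dst i j ≤ dx := by rw [← hai, ← haj]; exact dst_le_dex a m a' m'
    have hpow := pow_q (s := s) h.hs.two_le hd
    rw [← hq, ← hr] at hpow
    have hxm : ∑ v ∈ V.filter (fun v => f v = i), rd b c ρ v * tq (v / pr) = x i := rfl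
    have hym : ∑ v ∈ W.filter (fun w => g w = j), rd b' c' ρ v * tq (v / pr') = y j := rfl
    rw [hxm, hym] at main
    refine main.trans ?_
    calc G * ((s:ℝ)^(-(48/100)*((dx : ℝ)-1)) * s1) * (x i * y j)^(1/2+ε)
        ≤ G * ((r * q^(dst i j)) * s1) * (x i * y j)^(1/2+ε) := by gcongr
      _ = _ := by ring
  set n := max (V.sup f + 1) (W.sup g + 1) with hn
  have hSn : V.image f ⊆ range n := (image_sub_range V f).trans (range_subset_range.2 (le_max_left _ _))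
  have hTn : W.image g ⊆ range n := (image_sub_range W g).trans (range_subset_range.2 (le_max_right _ _))
  have ea : ∑ i ∈ V.image f, x i = ∑ v ∈ V, rd b c ρ v * tq (v / pr) := sum_image_cls V f _
  have eb : ∑ j ∈ W.image g, y j = ∑ v ∈ W, rd b' c' ρ v * tq (v / pr') := sum_image_cls W g _
  have k1 := off_pairs hq0.le (q_le h.hs3) (s := 1/2+ε) (by linarith) n (V.image f) (W.image g) hSn hTn x y
    (fun k _ => x0 k) (fun k _ => y0 k)
  rw [ea, eb] at k1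
  refine (Finset.sum_le_sum fun i hi => Finset.sum_le_sum fun j hj => step i hi j hj).trans ?_
  simp only [← Finset.mul_sum]
  refine (mul_le_mul_of_nonneg_left k1 (by positivity)).trans (le_of_eq ?_)
  unfold CB ZX
  rw [← hs1]
  have e4 : Real.exp (1 - z * S) = Real.exp (-(z * S)) * Real.exp 1 := by
    rw [← Real.exp_add]; congr 1; ring
  have e5 : Real.exp 4 = Real.exp 1 * Real.exp 3 := by rw [← Real.exp_add]; norm_num
  rw [hG, e4, e5]
  set X := ((∑ v ∈ V, rd b c ρ v * tq (v / pr)) * ∑ v ∈ W, rd b' c' ρ v * tq (v / pr'))^(1/2+ε) with hX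
  calc _ = (q * r) * (K * L ^ 2 * Real.exp (-(z * S)) * T ^ (1 - 2 * ε) *
      (18 * CA ε * (256 * (Real.exp 1 * Real.exp 3)) * (s1 * X))) := by ring
    _ = _ := by rw [hqr, one_mul]

/-- pairs with `D ≤ T`, no anatomy -/
theorem mid_tot {ε : ℝ} (hε : 0 < ε) (hε' : ε ≤ 1/100) (h : XD s M b pr c M' b' pr' c' ρ V W L)
    {F : ℕ × ℕ → ℝ} {T K : ℝ} {E : Finset (ℕ × ℕ)} (hE : E ⊆ V ×ˢ W)
    (hne : ∀ e ∈ E, fe s M' pr e.1 ≠ fe s M pr' e.2) (hT : 0 < T) (hK : 0 ≤ K)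
    (h1 : ∀ e ∈ E, Dq ρ M b pr c M' b' pr' c' e ≤ T)
    (hF : ∀ e ∈ E, F e ≤ K * (rd b c ρ e.1 * rd b' c' ρ e.2)) :
    ∑ e ∈ E, F e ≤ K * L^2 * T^(1-2*ε) * (CB ε * ZX ε s b pr c b' pr' c' ρ V W) := by
  have h2 := anat_tot (S := 0) hε hε' h hE hne hT (le_refl (Real.exp 16)) hK h1
    (fun e _ => Crest.Agent.R4P.CofMono28.SD_nonneg _ _ _) hF
  rw [mul_zero, neg_zero, Real.exp_zero, mul_one] at h2
  exact h2

end tot

/-- dyadic summation -/
lemma dyadic_sum {α : Type*} (D F : α → ℝ) {T G B : ℝ} (g : ℕ → ℝ) (hT : 0 < T) (hG : 0 ≤ G)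
    (hB : ∀ n, ∑ k ∈ range n, g k ≤ B) (E : Finset α) (h1 : ∀ e ∈ E, T < D e)
    (hl : ∀ n, ∀ E' : Finset α, E' ⊆ E → (∀ e ∈ E', T * 2^n < D e) → (∀ e ∈ E', D e ≤ 2 * (T * 2^n)) →
      ∑ e ∈ E', F e ≤ G * g n) : ∑ e ∈ E, F e ≤ G * B := by
  classical
  have key : ∀ n : ℕ, ∀ E' : Finset α, E' ⊆ E → (∀ e ∈ E', D e ≤ T * 2^n) →
      ∑ e ∈ E', F e ≤ G * ∑ k ∈ range n, g k := by
    intro n
    induction n with
    | zero =>
      intro E' hE' h2
      have : E' = ∅ := by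
        rw [Finset.eq_empty_iff_forall_notMem]
        intro e he
        have a := h1 e (hE' he)
        have b := h2 e he
        rw [pow_zero, mul_one] at b
        linarith
      rw [this]; simp
    | succ n ih =>
      intro E' hE' h2
      rw [← Finset.sum_filter_add_sum_filter_not E' (fun e => D e ≤ T * 2^n), Finset.sum_range_succ, mul_add]
      refine add_le_add (ih _ ((Finset.filter_subset _ _).trans hE') fun e he => (Finset.mem_filter.1 he).2)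
        (hl n _ ((Finset.filter_subset _ _).trans hE') (fun e he => not_le.1 (Finset.mem_filter.1 he).2)
          fun e he => ?_)
      have := h2 e (Finset.mem_filter.1 he).1
      rw [pow_succ] at this; linarith
  obtain ⟨n, hn⟩ := pow_unbounded_of_one_lt (T⁻¹ * ∑ e ∈ E, |D e|) (by norm_num : (1:ℝ) < 2)
  have h2 : ∀ e ∈ E, D e ≤ T * 2^n := by
    intro e he
    have a1 := Finset.single_le_sum (f := fun e => |D e|) (fun e _ => abs_nonneg _) he
    have a3 := le_abs_self (D e)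
    have a4 : |D e| ≤ ∑ e ∈ E, |D e| := a1
    have a5 : ∑ e ∈ E, |D e| ≤ T * 2^n := by
      have := mul_le_mul_of_nonneg_left hn.le hT.le
      rwa [← mul_assoc, mul_inv_cancel₀ hT.ne', one_mul] at this
    linarith
  exact (key n E (Finset.Subset.refl _) h2).trans (mul_le_mul_of_nonneg_left (hB n) hG)

lemma half_sum (n : ℕ) : ∑ k ∈ range n, (1/2:ℝ)^(k+1) ≤ 1 := by
  have h : ∑ k ∈ range n, (1/2:ℝ)^(k+1) = 1 - (1/2)^n := by
    induction n with
    | zero => simp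
    | succ n ih => rw [Finset.sum_range_succ, ih, pow_succ]; ring
  rw [h]
  have : (0:ℝ) ≤ (1/2)^n := by positivity
  linarith

section tot
variable {s M b pr c M' b' pr' c' : ℕ} {ρ : ℕ → ℝ} {V W : Finset ℕ} {L : ℝ}

/-- **bad anatomy at `√D`**, all scales `> T ≥ e^32` -/
theorem bad_tot {ε : ℝ} (hε : 0 < ε) (hε' : ε ≤ 1/100) (h : XD s M b pr c M' b' pr' c' ρ V W L)
    {F : ℕ × ℕ → ℝ} {T K : ℝ} {E : Finset (ℕ × ℕ)} (hE : E ⊆ V ×ˢ W)
    (hne : ∀ e ∈ E, fe s M' pr e.1 ≠ fe s M pr' e.2) (hT : Real.exp 32 ≤ T) (hK : 0 ≤ K)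
    (h1 : ∀ e ∈ E, T < Dq ρ M b pr c M' b' pr' c' e)
    (hS : ∀ e ∈ E, 1 ≤ SD (xR M pr M' pr' e) (yR M pr M' pr' e)
      (Real.sqrt (Dq ρ M b pr c M' b' pr' c' e)))
    (hF : ∀ e ∈ E, F e ≤ K * (rd b c ρ e.1 * rd b' c' ρ e.2)) :
    ∑ e ∈ E, F e ≤ K * L^2 * (CB ε * ZX ε s b pr c b' pr' c' ρ V W) := by
  have hT0 : (0:ℝ) < T := (Real.exp_pos _).trans_le hT
  have hZ := h.Z0 ε
  have hCB := (CB_pos ε).le
  set G := K * L^2 * (CB ε * ZX ε s b pr c b' pr' c' ρ V W) with hG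
  have hG0 : 0 ≤ G := by positivity
  have := dyadic_sum (Dq ρ M b pr c M' b' pr' c') F (T := T) (G := G) (B := 1) (fun n => (1/2:ℝ)^(n+1)) hT0 hG0
    half_sum E h1 (fun n E' hE' g1 g2 => by
      have h2n : (1:ℝ) ≤ (2:ℝ)^n := one_le_pow₀ (by norm_num)
      have hTn : Real.exp 32 ≤ T * 2^n := hT.trans (by nlinarith)
      have hTn0 : 0 < T * 2^n := (Real.exp_pos _).trans_le hTn
      have a := anat_tot (S := 1) (z := Real.sqrt (T * 2^n)) (T := 2 * (T * 2^n)) hε hε' h (hE'.trans hE)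
        (fun e he => hne e (hE' he)) (by positivity) (Crest.Agent.R4P.LLNumP.sqrt_ge hTn) hK g2
        (fun e he => (hS e (hE' he)).trans (Crest.Agent.R4P.CofMono28.SD_mono
          (Crest.Agent.R4.HVW560.cof_pos (by
            obtain ⟨k1, k2⟩ := Finset.mem_product.1 (hE (hE' he))
            obtain ⟨w0, w1⟩ := h.hV _ k1
            exact div_pos' (Nat.div_pos (Nat.le_of_dvd w0 w1) (Nat.pos_of_dvd_of_pos w1 w0)) h.hM))
          (Crest.Agent.R4.HVW560.cof_pos (by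
            obtain ⟨k1, k2⟩ := Finset.mem_product.1 (hE (hE' he))
            obtain ⟨w0, w1⟩ := h.hW _ k2
            exact div_pos' (Nat.div_pos (Nat.le_of_dvd w0 w1) (Nat.pos_of_dvd_of_pos w1 w0)) h.hM'))
          dvd_rfl dvd_rfl (Real.sqrt_le_sqrt (g1 e he).le))) (fun e he => hF e (hE' he))
      refine a.trans ?_
      have bb := Crest.Agent.R4P.LLNumP.lev_expQ hε hT n
      have cc : Real.exp (-(Real.sqrt (T*2^n) * 1)) * (2*(T*2^n))^(1-2*ε) ≤ (1/2)^(n+1) := by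
        have c1 : Real.exp (-(Real.sqrt (T*2^n) * 1)) ≤ Real.exp (-(Real.sqrt (T*2^n)/2)) := by
          apply Real.exp_le_exp.2
          have := Real.sqrt_nonneg (T*2^n)
          linarith
        have c2 : Real.exp (-(Real.sqrt T/4)) ≤ 1 := by
          apply Real.exp_le_one_iff.2
          have := Real.sqrt_nonneg T
          linarith
        refine (mul_le_mul_of_nonneg_right c1 (by positivity)).trans (bb.trans ?_)
        have c3 : (0:ℝ) ≤ (1/2)^(n+1) := by positivity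
        nlinarith
      calc K * L ^ 2 * Real.exp (-(Real.sqrt (T * 2^n) * 1)) * (2 * (T * 2^n)) ^ (1 - 2 * ε) *
            (CB ε * ZX ε s b pr c b' pr' c' ρ V W)
          = G * (Real.exp (-(Real.sqrt (T*2^n) * 1)) * (2*(T*2^n))^(1-2*ε)) := by rw [hG]; ring
        _ ≤ _ := mul_le_mul_of_nonneg_left cc hG0)
  rwa [mul_one] at this

lemma q_sum {q : ℝ} (h0 : 0 ≤ q) (h1 : q < 1) (n : ℕ) : ∑ k ∈ range n, q^k ≤ 1/(1-q) := by
  have h2 : 0 < 1 - q := by linarith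
  rw [le_div_iff₀ h2]
  have h : (∑ k ∈ range n, q^k) * (1-q) = 1 - q^n := by
    induction n with
    | zero => simp
    | succ n ih => rw [Finset.sum_range_succ, add_mul, ih, pow_succ]; ring
  rw [h]
  have : (0:ℝ) ≤ q^n := by positivity
  linarith

/-- the constant of the weight `1/D` -/
noncomputable def CV (ε : ℝ) : ℝ := 2 / (1 - (2:ℝ)^(-(2*ε))) * CB ε

lemma two_lt {ε : ℝ} (hε : 0 < ε) : (2:ℝ)^(-(2*ε)) < 1 :=
  Real.rpow_lt_one_of_one_lt_of_neg (by norm_num) (by linarith)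

lemma CV_pos {ε : ℝ} (hε : 0 < ε) : 0 < CV ε := by
  unfold CV
  have h1 := two_lt hε
  have h2 := CB_pos ε
  have : 0 < 1 - (2:ℝ)^(-(2*ε)) := by linarith
  positivity

/-- **weight `1/D`**, all scales `> T ≥ 1` -/
theorem inv_tot {ε : ℝ} (hε : 0 < ε) (hε' : ε ≤ 1/100) (h : XD s M b pr c M' b' pr' c' ρ V W L)
    {F : ℕ × ℕ → ℝ} {T K : ℝ} {E : Finset (ℕ × ℕ)} (hE : E ⊆ V ×ˢ W)
    (hne : ∀ e ∈ E, fe s M' pr e.1 ≠ fe s M pr' e.2) (hT : 1 ≤ T) (hK : 0 ≤ K)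
    (h1 : ∀ e ∈ E, T < Dq ρ M b pr c M' b' pr' c' e)
    (hF : ∀ e ∈ E, F e ≤ K * (rd b c ρ e.1 * rd b' c' ρ e.2 / Dq ρ M b pr c M' b' pr' c' e)) :
    ∑ e ∈ E, F e ≤ K * L^2 * (CV ε * ZX ε s b pr c b' pr' c' ρ V W) := by
  have hT0 : (0:ℝ) < T := by linarith
  have hZ := h.Z0 ε
  have hCB := (CB_pos ε).le
  set q : ℝ := (2:ℝ)^(-(2*ε)) with hq
  have hq0 : 0 < q := Real.rpow_pos_of_pos two_pos _
  have hq1 : q < 1 := two_lt hε
  set G := K * L^2 * (2 * CB ε * ZX ε s b pr c b' pr' c' ρ V W) with hG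
  have hG0 : 0 ≤ G := by positivity
  have := dyadic_sum (Dq ρ M b pr c M' b' pr' c') F (T := T) (G := G) (B := 1/(1-q)) (fun n => q^n) hT0 hG0
    (q_sum hq0.le hq1) E h1 (fun n E' hE' g1 g2 => by
      have h2n : (1:ℝ) ≤ (2:ℝ)^n := one_le_pow₀ (by norm_num)
      have hTn : 1 ≤ T * 2^n := hT.trans (by nlinarith)
      have hTn0 : 0 < T * 2^n := by linarith
      have a := mid_tot (T := 2 * (T * 2^n)) (K := K * (1/(T*2^n))) hε hε' h (hE'.trans hE)
        (fun e he => hne e (hE' he)) (by positivity) (by positivity) g2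
        (fun e he => by
          have m0 : 0 ≤ rd b c ρ e.1 * rd b' c' ρ e.2 := mul_nonneg (h.rd0 _).le (h.rd0' _).le
          refine (hF e (hE' he)).trans ?_
          have : (rd b c ρ e.1 * rd b' c' ρ e.2) / Dq ρ M b pr c M' b' pr' c' e ≤
              (rd b c ρ e.1 * rd b' c' ρ e.2) / (T * 2^n) := div_le_div_of_nonneg_left m0 hTn0 (g1 e he).le
          refine (mul_le_mul_of_nonneg_left this hK).trans (le_of_eq ?_)
          ring)
      refine a.trans ?_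
      have e1 : (2 * (T * 2^n))^(1-2*ε) ≤ (2 * (T * 2^n)) * q^n := by
        rw [sub_eq_add_neg, Real.rpow_add (by positivity), Real.rpow_one]
        refine mul_le_mul_of_nonneg_left ?_ (by positivity)
        have a2 : ((2:ℝ)^n)^(-(2*ε)) = q^n := by
          rw [hq, ← Real.rpow_natCast, ← Real.rpow_natCast, ← Real.rpow_mul (by norm_num),
            ← Real.rpow_mul (by norm_num)]
          congr 1; ring
        rw [← a2]
        apply Real.rpow_le_rpow_of_nonpos (by positivity) (by nlinarith) (by linarith)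
      calc K * (1 / (T * 2^n)) * L ^ 2 * (2 * (T * 2^n)) ^ (1 - 2 * ε) * (CB ε * ZX ε s b pr c b' pr' c' ρ V W)
          ≤ K * (1 / (T * 2^n)) * L ^ 2 * ((2 * (T * 2^n)) * q^n) * (CB ε * ZX ε s b pr c b' pr' c' ρ V W) := by
            gcongr
        _ = G * q^n := by rw [hG]; field_simp)
  refine this.trans (le_of_eq ?_)
  rw [hG]; unfold CV; rw [← hq]; ring

end tot

/-! ### stops -/

/-- an absolute threshold -/
def Pst : ℕ := 80^6

/-- the number of the stop at the column `p` -/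
lemma stop_num {x ε : ℝ} (hε : 0 < ε) (hε' : ε ≤ 1/100) (hx : ((Pst : ℕ) : ℝ) ≤ x) :
    Real.exp (-(x * (x^(-(1/3):ℝ) / 2))) * (Real.exp (20 * x^(1/2:ℝ)))^(1-2*ε) ≤ 1/((x+1)*(x+2)) := by
  have hP : ((Pst : ℕ) : ℝ) = (80:ℝ)^6 := by unfold Pst; norm_num
  rw [hP] at hx
  have hx0 : 0 < x := lt_of_lt_of_le (by norm_num) hx
  have h6 : (80:ℝ) ≤ x^(1/6:ℝ) := by
    calc (80:ℝ) = ((80:ℝ)^6)^(1/6:ℝ) := by
          rw [← Real.rpow_natCast, ← Real.rpow_mul (by norm_num)]; norm_num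
      _ ≤ _ := Real.rpow_le_rpow (by norm_num) hx (by norm_num)
  have e1 : x * (x^(-(1/3):ℝ) / 2) = x^(2/3:ℝ) / 2 := by
    have : x^(2/3:ℝ) = x * x^(-(1/3):ℝ) := by
      rw [← Real.rpow_one_add' hx0.le (by norm_num)]; norm_num
    rw [this]; ring
  have e2 : x^(2/3:ℝ) = x^(1/2:ℝ) * x^(1/6:ℝ) := by
    rw [← Real.rpow_add hx0]; norm_num
  have r0 : 0 < x^(1/2:ℝ) := by positivity
  have e3 : 20 * x^(1/2:ℝ) ≤ x^(2/3:ℝ) / 4 := by rw [e2]; nlinarith
  have e4 : (Real.exp (20 * x^(1/2:ℝ)))^(1-2*ε) ≤ Real.exp (x^(2/3:ℝ)/4) := by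
    rw [← Real.exp_mul]
    apply Real.exp_le_exp.2
    nlinarith
  rw [e1]
  have e5 : (x^(2/3:ℝ))^6 = x^4 := by
    rw [← Real.rpow_natCast, ← Real.rpow_mul hx0.le, ← Real.rpow_natCast]; norm_num
  have h80 : (10000:ℝ) ≤ x := le_trans (by norm_num) hx
  have e6 : (x+1)*(x+2) ≤ Real.exp (x^(2/3:ℝ)/4) := by
    have h3 := Real.pow_div_factorial_le_exp (x^(2/3:ℝ)/4) (by positivity) 6
    norm_num [Nat.factorial] at h3
    refine le_trans ?_ h3
    have : (x^(2/3:ℝ)/4)^6/720 = x^4/2949120 := by rw [div_pow, e5]; ring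
    rw [this, le_div_iff₀ (by norm_num)]
    have h4 : (100000000:ℝ) ≤ x^2 := by nlinarith
    have h5 : (x+1)*(x+2) ≤ 6*x^2 := by nlinarith
    have h7 : x^4 = x^2*x^2 := by ring
    rw [h7]
    nlinarith
  have e7 : Real.exp (-(x^(2/3:ℝ)/2)) * Real.exp (x^(2/3:ℝ)/4) = (Real.exp (x^(2/3:ℝ)/4))⁻¹ := by
    rw [← Real.exp_add, ← Real.exp_neg]; congr 1; ring
  calc Real.exp (-(x^(2/3:ℝ)/2)) * (Real.exp (20 * x^(1/2:ℝ)))^(1-2*ε)
      ≤ Real.exp (-(x^(2/3:ℝ)/2)) * Real.exp (x^(2/3:ℝ)/4) :=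
        mul_le_mul_of_nonneg_left e4 (Real.exp_nonneg _)
    _ = (Real.exp (x^(2/3:ℝ)/4))⁻¹ := e7
    _ ≤ ((x+1)*(x+2))⁻¹ := inv_anti₀ (by positivity) e6
    _ = _ := (one_div _).symm

lemma tele (n : ℕ) : ∑ k ∈ range n, 1/(((k:ℝ)+1)*((k:ℝ)+2)) ≤ 1 := by
  have h : ∑ k ∈ range n, 1/(((k:ℝ)+1)*((k:ℝ)+2)) = 1 - 1/((n:ℝ)+1) := by
    induction n with
    | zero => simp
    | succ n ih =>
      rw [Finset.sum_range_succ, ih]
      push_cast
      have h1 : (0:ℝ) < (n:ℝ)+1 := by positivity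
      have h2 : (0:ℝ) < (n:ℝ)+2 := by positivity
      have h3 : (0:ℝ) < (n:ℝ)+1+1 := by positivity
      field_simp
      ring
  rw [h]
  have : (0:ℝ) ≤ 1/((n:ℝ)+1) := by positivity
  linarith

lemma exp16_le : Real.exp 16 ≤ ((Pst : ℕ) : ℝ) := by
  have h1 : Real.exp 1 ≤ 3 := by have := Real.exp_one_lt_d9; linarith
  have h2 : Real.exp 16 = (Real.exp 1)^16 := by rw [← Real.exp_nat_mul]; norm_num
  rw [h2]
  have : (Real.exp 1)^16 ≤ (3:ℝ)^16 := pow_le_pow_left₀ (Real.exp_nonneg _) h1 16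
  refine this.trans ?_
  unfold Pst; norm_num

/-- threshold of the stops -/
noncomputable def Tst : ℝ := Real.exp (20 * ((Pst : ℕ) : ℝ)^(1/2:ℝ))

section tot
variable {s M b pr c M' b' pr' c' : ℕ} {ρ : ℕ → ℝ} {V W : Finset ℕ} {L : ℝ}

open Classical in
/-- **stops at columns `p`**, all scales `> T ≥ Tst` -/
theorem stop_tot {ε : ℝ} (hε : 0 < ε) (hε' : ε ≤ 1/100) (h : XD s M b pr c M' b' pr' c' ρ V W L)
    {F : ℕ × ℕ → ℝ} {T K : ℝ} {E : Finset (ℕ × ℕ)} (hE : E ⊆ V ×ˢ W)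
    (hne : ∀ e ∈ E, fe s M' pr e.1 ≠ fe s M pr' e.2) (hT : Tst ≤ T) (hK : 0 ≤ K)
    (h1 : ∀ e ∈ E, T < Dq ρ M b pr c M' b' pr' c' e)
    (hS : ∀ e ∈ E, ∃ p : ℕ, Dq ρ M b pr c M' b' pr' c' e ≤ Real.exp (20 * (p:ℝ)^(1/2:ℝ)) ∧
      (p:ℝ)^(-(1/3):ℝ) / 2 ≤ SD (xR M pr M' pr' e) (yR M pr M' pr' e) p)
    (hF : ∀ e ∈ E, F e ≤ K * (rd b c ρ e.1 * rd b' c' ρ e.2)) :
    ∑ e ∈ E, F e ≤ K * L^2 * (CB ε * ZX ε s b pr c b' pr' c' ρ V W) := by
  have hZ := h.Z0 ε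
  have hCB := (CB_pos ε).le
  set G := K * L^2 * (CB ε * ZX ε s b pr c b' pr' c' ρ V W) with hG
  have hG0 : 0 ≤ G := by positivity
  set π : ℕ × ℕ → ℕ := fun e => if he : e ∈ E then (hS e he).choose else 0 with hπ
  have hπs : ∀ e ∈ E, Dq ρ M b pr c M' b' pr' c' e ≤ Real.exp (20 * (π e:ℝ)^(1/2:ℝ)) ∧
      (π e:ℝ)^(-(1/3):ℝ) / 2 ≤ SD (xR M pr M' pr' e) (yR M pr M' pr' e) (π e) := fun e he => by
    have : π e = (hS e he).choose := by rw [hπ]; simp only; rw [dif_pos he]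
    rw [this]; exact (hS e he).choose_spec
  have big : ∀ e ∈ E, Pst ≤ π e := fun e he => by
    by_contra hc
    have h2 : (π e : ℝ) ≤ (Pst : ℕ) := by exact_mod_cast (not_le.1 hc).le
    have h3 := (hπs e he).1
    have h4 : Real.exp (20 * (π e:ℝ)^(1/2:ℝ)) ≤ Tst := by
      unfold Tst
      apply Real.exp_le_exp.2
      have := Real.rpow_le_rpow (by positivity) h2 (by norm_num : (0:ℝ) ≤ 1/2)
      linarith
    have h5 := h1 e he
    linarith
  rw [← Finset.sum_fiberwise_of_maps_to (s := E) (t := E.image π) (g := π)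
    (fun e he => Finset.mem_image_of_mem π he) F]
  have lev : ∀ p ∈ E.image π, ∑ e ∈ E.filter (fun e => π e = p), F e ≤ G * (1/(((p:ℝ)+1)*((p:ℝ)+2))) := by
    intro p hp
    obtain ⟨e₀, he₀, hep⟩ := Finset.mem_image.1 hp
    have hpb : ((Pst : ℕ) : ℝ) ≤ p := by rw [← hep]; exact_mod_cast big e₀ he₀
    have a := anat_tot (S := (p:ℝ)^(-(1/3):ℝ) / 2) (z := p) (T := Real.exp (20 * (p:ℝ)^(1/2:ℝ)))
      (E := E.filter (fun e => π e = p)) hε hε' h
      ((Finset.filter_subset _ _).trans hE) (fun e he => hne e (Finset.mem_filter.1 he).1) (Real.exp_pos _)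
      (exp16_le.trans hpb) hK
      (fun e he => by
        obtain ⟨k1, k2⟩ := Finset.mem_filter.1 he
        have := (hπs e k1).1
        rwa [k2] at this)
      (fun e he => by
        obtain ⟨k1, k2⟩ := Finset.mem_filter.1 he
        have := (hπs e k1).2
        rwa [k2] at this)
      (fun e he => hF e (Finset.mem_filter.1 he).1)
    refine a.trans ?_
    calc K * L ^ 2 * Real.exp (-((p:ℝ) * ((p:ℝ)^(-(1/3):ℝ) / 2))) *
          (Real.exp (20 * (p:ℝ)^(1/2:ℝ))) ^ (1 - 2 * ε) * (CB ε * ZX ε s b pr c b' pr' c' ρ V W)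
        = G * (Real.exp (-((p:ℝ) * ((p:ℝ)^(-(1/3):ℝ) / 2))) *
          (Real.exp (20 * (p:ℝ)^(1/2:ℝ))) ^ (1 - 2 * ε)) := by rw [hG]; ring
      _ ≤ _ := mul_le_mul_of_nonneg_left (stop_num hε hε' hpb) hG0
  refine (Finset.sum_le_sum lev).trans ?_
  rw [← Finset.mul_sum]
  have h6 : ∑ p ∈ E.image π, 1/(((p:ℝ)+1)*((p:ℝ)+2)) ≤ 1 := by
    refine le_trans ?_ (tele (E.sup π + 1))
    refine Finset.sum_le_sum_of_subset_of_nonneg (fun p hp => ?_) fun p _ _ => by positivity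
    obtain ⟨e₀, he₀, hep⟩ := Finset.mem_image.1 hp
    rw [Finset.mem_range, ← hep]
    exact Nat.lt_succ_of_le (Finset.le_sup (f := π) he₀)
  calc G * _ ≤ G * 1 := mul_le_mul_of_nonneg_left h6 hG0
    _ = G := mul_one _

/-- the low pairs: scale at most `T`, bad anatomy at the root of the scale, or a stop -/
def LoA (T : ℝ) (ρ : ℕ → ℝ) (M b pr c M' b' pr' c' : ℕ) (e : ℕ × ℕ) : Prop :=
  Dq ρ M b pr c M' b' pr' c' e ≤ T ∨
  1 ≤ SD (xR M pr M' pr' e) (yR M pr M' pr' e) (Real.sqrt (Dq ρ M b pr c M' b' pr' c' e)) ∨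
  ∃ p : ℕ, Dq ρ M b pr c M' b' pr' c' e ≤ Real.exp (20 * (p:ℝ)^(1/2:ℝ)) ∧
      (p:ℝ)^(-(1/3):ℝ) / 2 ≤ SD (xR M pr M' pr' e) (yR M pr M' pr' e) p

open Classical in
/-- **the low pairs**, `F ≤ K rd rd'` -/
theorem ll_tot {ε : ℝ} (hε : 0 < ε) (hε' : ε ≤ 1/100) (h : XD s M b pr c M' b' pr' c' ρ V W L)
    {F : ℕ × ℕ → ℝ} {T K : ℝ} {E : Finset (ℕ × ℕ)} (hE : E ⊆ V ×ˢ W)
    (hne : ∀ e ∈ E, fe s M' pr e.1 ≠ fe s M pr' e.2) (hT : Tst ≤ T) (hT' : Real.exp 32 ≤ T) (hK : 0 ≤ K)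
    (hS : ∀ e ∈ E, LoA T ρ M b pr c M' b' pr' c' e)
    (hF : ∀ e ∈ E, F e ≤ K * (rd b c ρ e.1 * rd b' c' ρ e.2)) :
    ∑ e ∈ E, F e ≤ K * L^2 * (3 * T) * (CB ε * ZX ε s b pr c b' pr' c' ρ V W) := by
  have hZ := h.Z0 ε
  have hCB := (CB_pos ε).le
  have hT1 : 1 ≤ T := le_trans (Real.one_le_exp (by norm_num)) hT'
  set D := Dq ρ M b pr c M' b' pr' c' with hD
  set S2 : ℕ × ℕ → Prop := fun e => 1 ≤ SD (xR M pr M' pr' e) (yR M pr M' pr' e) (Real.sqrt (D e)) with hS2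
  rw [← Finset.sum_filter_add_sum_filter_not E (fun e => D e ≤ T)]
  set E1 := E.filter (fun e => ¬ D e ≤ T) with hE1
  rw [← Finset.sum_filter_add_sum_filter_not E1 S2]
  have a1 := mid_tot (E := E.filter (fun e => D e ≤ T)) (F := F) (T := T) (K := K) hε hε' h
    ((Finset.filter_subset _ _).trans hE) (fun e he => hne e (Finset.mem_filter.1 he).1) (by linarith) hK
    (fun e he => (Finset.mem_filter.1 he).2) (fun e he => hF e (Finset.mem_filter.1 he).1)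
  have s1 : ∀ e ∈ E1, e ∈ E ∧ T < D e := fun e he =>
    ⟨(Finset.mem_filter.1 he).1, not_le.1 (Finset.mem_filter.1 he).2⟩
  have a2 := bad_tot (E := E1.filter S2) (F := F) (T := T) (K := K) hε hε' h
    (fun e he => hE (s1 e (Finset.mem_filter.1 he).1).1)
    (fun e he => hne e (s1 e (Finset.mem_filter.1 he).1).1) hT' hK
    (fun e he => (s1 e (Finset.mem_filter.1 he).1).2)
    (fun e he => (Finset.mem_filter.1 he).2)
    (fun e he => hF e (s1 e (Finset.mem_filter.1 he).1).1)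
  have a3 := stop_tot (E := E1.filter (fun e => ¬ S2 e)) (F := F) (T := T) (K := K) hε hε' h
    (fun e he => hE (s1 e (Finset.mem_filter.1 he).1).1)
    (fun e he => hne e (s1 e (Finset.mem_filter.1 he).1).1) hT hK
    (fun e he => (s1 e (Finset.mem_filter.1 he).1).2)
    (fun e he => by
      obtain ⟨k1, k2⟩ := Finset.mem_filter.1 he
      obtain ⟨k3, k4⟩ := s1 e k1
      rcases hS e k3 with h5 | h5 | h5
      · exact absurd h5 (not_le.2 k4)
      · exact absurd h5 k2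
      · exact h5)
    (fun e he => hF e (s1 e (Finset.mem_filter.1 he).1).1)
  have e1 : T^(1-2*ε) ≤ T := by
    calc T^(1-2*ε) ≤ T^(1:ℝ) := Real.rpow_le_rpow_of_exponent_le hT1 (by linarith)
      _ = T := Real.rpow_one T
  have hG : 0 ≤ K * L^2 * (CB ε * ZX ε s b pr c b' pr' c' ρ V W) := by positivity
  calc _ ≤ K * L^2 * T^(1-2*ε) * (CB ε * ZX ε s b pr c b' pr' c' ρ V W) +
        (K * L^2 * (CB ε * ZX ε s b pr c b' pr' c' ρ V W) +
          K * L^2 * (CB ε * ZX ε s b pr c b' pr' c' ρ V W)) := add_le_add a1 (add_le_add a2 a3)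
    _ = (K * L^2 * (CB ε * ZX ε s b pr c b' pr' c' ρ V W)) * (T^(1-2*ε) + 2) := by ring
    _ ≤ (K * L^2 * (CB ε * ZX ε s b pr c b' pr' c' ρ V W)) * (3 * T) :=
        mul_le_mul_of_nonneg_left (by linarith) hG
    _ = _ := by ring

/-- the facts of `shot_tot` give `XD` -/
theorem XD.mk' {CL : ℝ} (hCL : 0 ≤ CL) (hs : s.Prime) (hs3 : 3 ≤ s) (hρ : ∀ q, 0 < ρ q)
    (hb : 0 < b) (hc : 0 < c) (hb' : 0 < b') (hc' : 0 < c') (hM : 0 < M) (hM' : 0 < M')
    (hsM : ∑ l ∈ M.primeFactors.erase s, (l:ℝ)^(-(11/12):ℝ) ≤ 1)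
    (hsM' : ∑ l ∈ M'.primeFactors.erase s, (l:ℝ)^(-(11/12):ℝ) ≤ 1)
    (hV : ∀ q ∈ V, 0 < q ∧ pr ∣ q) (hW : ∀ q ∈ W, 0 < q ∧ pr' ∣ q)
    (oV : ∀ q ∈ V, ∀ l : ℕ, l.Prime → l ∣ M → l ≠ s → ¬ l ^ 2 ∣ q / pr)
    (oW : ∀ q ∈ W, ∀ l : ℕ, l.Prime → l ∣ M' → l ≠ s → ¬ l ^ 2 ∣ q / pr')
    (lV : ∀ q ∈ V, 1 ≤ CL * Real.log s * tq (q / pr / M.gcd (q / pr)))
    (lW : ∀ q ∈ W, 1 ≤ CL * Real.log s * tq (q / pr' / M'.gcd (q / pr'))) :
    XD s M b pr c M' b' pr' c' ρ V W (CL * Real.log s) where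
  hs := hs
  hs3 := hs3
  hρ := hρ
  hb := hb
  hc := hc
  hb' := hb'
  hc' := hc'
  hM := hM
  hM' := hM'
  hsM := (Finset.sum_le_sum fun l hl => by
    have h1 : (1:ℝ) ≤ l := by
      exact_mod_cast (Nat.prime_of_mem_primeFactors (Finset.mem_of_mem_erase hl)).one_le
    rw [one_div, ← Real.rpow_neg_one]
    exact Real.rpow_le_rpow_of_exponent_le h1 (by norm_num)).trans hsM
  hsM' := (Finset.sum_le_sum fun l hl => by
    have h1 : (1:ℝ) ≤ l := by
      exact_mod_cast (Nat.prime_of_mem_primeFactors (Finset.mem_of_mem_erase hl)).one_le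
    rw [one_div, ← Real.rpow_neg_one]
    exact Real.rpow_le_rpow_of_exponent_le h1 (by norm_num)).trans hsM'
  hV := hV
  hW := hW
  oV := oV
  oW := oW
  hL := mul_nonneg hCL (Real.log_natCast_nonneg s)
  lV := lV
  lW := lW

end tot

/-- **the low pairs and the weight `1/D`, powers of `log s`**: for `D > 1`,
`F ≤ (log s)^C0 rd rd' / D`, or `F ≤ (log s)^C0 rd rd'` and the pair is low with `T = (log s)^CT` -/
theorem ll_log {CL C0 CT ε : ℝ} (hCT : 0 < CT) (hε : 0 < ε) (hε' : ε ≤ 1/100) :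
    ∃ s₁ : ℕ, 3 ≤ s₁ ∧ ∀ (s M b pr c M' b' pr' c' : ℕ) (ρ : ℕ → ℝ) (V W : Finset ℕ) (F : ℕ × ℕ → ℝ)
      (E : Finset (ℕ × ℕ)), s₁ ≤ s → XD s M b pr c M' b' pr' c' ρ V W (CL * Real.log s) →
      E ⊆ V ×ˢ W → (∀ e ∈ E, fe s M' pr e.1 ≠ fe s M pr' e.2) →
      (∀ e ∈ E, 1 < Dq ρ M b pr c M' b' pr' c' e) →
      (∀ e ∈ E, F e ≤ (Real.log s)^C0 * (rd b c ρ e.1 * rd b' c' ρ e.2 / Dq ρ M b pr c M' b' pr' c' e) ∨
        (LoA ((Real.log s)^CT) ρ M b pr c M' b' pr' c' e ∧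
          F e ≤ (Real.log s)^C0 * (rd b c ρ e.1 * rd b' c' ρ e.2))) →
      ∑ e ∈ E, F e ≤ (Real.log s)^(C0 + CT + 3) * ZX ε s b pr c b' pr' c' ρ V W := by
  classical
  have hCB := CB_pos ε
  have hCV := CV_pos hε
  have t1 := Real.tendsto_log_atTop.eventually_ge_atTop (CL^2 * (CV ε + 3 * CB ε))
  have t2 := Real.tendsto_log_atTop.eventually_ge_atTop (1:ℝ)
  have t3 := ((tendsto_rpow_atTop hCT).comp Real.tendsto_log_atTop).eventually_ge_atTop
    (max Tst (Real.exp 32))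
  obtain ⟨x1, hx1⟩ := Filter.eventually_atTop.1 (t1.and (t2.and t3))
  refine ⟨max 3 ⌈x1⌉₊, le_max_left _ _, ?_⟩
  intro s M b pr c M' b' pr' c' ρ V W F E hs₁ h hE hne hD1 hF
  obtain ⟨g1, g2, g3⟩ := hx1 s ((Nat.le_ceil _).trans (by exact_mod_cast (le_max_right _ _).trans hs₁))
  simp only [Function.comp] at g3
  set ℓ := Real.log s with hℓ
  have hℓ0 : 0 < ℓ := by linarith
  set T := ℓ^CT with hT
  have hT1 : Tst ≤ T := (le_max_left _ _).trans g3
  have hT2 : Real.exp 32 ≤ T := (le_max_right _ _).trans g3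
  have hT3 : 1 ≤ T := le_trans (Real.one_le_exp (by norm_num)) hT2
  set K := ℓ^C0 with hK
  have hK0 : 0 < K := by positivity
  have hZ := h.Z0 ε
  set Z := ZX ε s b pr c b' pr' c' ρ V W with hZd
  set Q : ℕ × ℕ → Prop := fun e => F e ≤ K * (rd b c ρ e.1 * rd b' c' ρ e.2 / Dq ρ M b pr c M' b' pr' c' e) with hQ
  rw [← Finset.sum_filter_add_sum_filter_not E Q]
  have a1 := inv_tot (E := E.filter Q) (F := F) (T := 1) (K := K) hε hε' h
    ((Finset.filter_subset _ _).trans hE) (fun e he => hne e (Finset.mem_filter.1 he).1) le_rfl hK0.le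
    (fun e he => hD1 e (Finset.mem_filter.1 he).1) (fun e he => (Finset.mem_filter.1 he).2)
  have a2 := ll_tot (E := E.filter (fun e => ¬ Q e)) (F := F) (T := T) (K := K) hε hε' h
    ((Finset.filter_subset _ _).trans hE) (fun e he => hne e (Finset.mem_filter.1 he).1) hT1 hT2 hK0.le
    (fun e he => by
      obtain ⟨k1, k2⟩ := Finset.mem_filter.1 he
      exact ((hF e k1).resolve_left k2).1)
    (fun e he => by
      obtain ⟨k1, k2⟩ := Finset.mem_filter.1 he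
      exact ((hF e k1).resolve_left k2).2)
  rw [← hZd] at a1 a2
  have e1 : ℓ^(C0 + CT + 3) = K * T * (ℓ^2 * ℓ) := by
    rw [show C0 + CT + 3 = C0 + CT + ((3:ℕ):ℝ) by norm_num, Real.rpow_add hℓ0, Real.rpow_add hℓ0,
      Real.rpow_natCast, hK, hT]; ring
  calc _ ≤ K * (CL * ℓ)^2 * (CV ε * Z) + K * (CL * ℓ)^2 * (3 * T) * (CB ε * Z) := add_le_add a1 a2
    _ = K * ℓ^2 * (CL^2 * CV ε * 1 + CL^2 * (3 * CB ε) * T) * Z := by ring
    _ ≤ K * ℓ^2 * (CL^2 * CV ε * T + CL^2 * (3 * CB ε) * T) * Z := by gcongr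
    _ = K * T * ℓ^2 * (CL^2 * (CV ε + 3 * CB ε)) * Z := by ring
    _ ≤ K * T * ℓ^2 * ℓ * Z := by gcongr
    _ = _ := by rw [e1]; ring

end Crest.Agent.R4P.LLTot33
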