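import Mathlib
import Crest.Agent.R4P.LLTot_33

/-!
R4 powers pass (S0004), helper32, group [X]: **the numbers of one pair of classes at a crossing prime**.

* `AN` : the anatomy bound with an abstract right side `Z`; `AN.bad`, `AN.inv`, `AN.stop`, `AN.low`,
  `AN.log` : pairs of a large scale (helper33's proofs with abstract `Z`);
* `AN_cls` : the instance for one pair of classes, with the decay `s^(-(48/100)(dex-1))`.
* `box_cls` : all pairs of one pair of classes (shot number + large scales).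
-/

set_option autoImplicit false
open Finset

namespace Crest.Agent.R4P.NumCls32

open Crest.Agent.R4.HVW560 Crest.Agent.R4.Schur709 Crest.Agent.R4.StopHvw709
open Crest.Agent.R4.StopAsm709 Crest.Agent.R4.AvgItem710 Crest.Agent.R4.DeepSt579
open Crest.Agent.R4P.Rad800 Crest.Agent.R4P.StripP33 Crest.Agent.R4P.BrP33 Crest.Agent.R4P.ShotP33
open Crest.Agent.R4P.ClsSum Crest.Agent.R4P.ShotTot33 Crest.Agent.R4P.LLTot33
open Crest.Agent.R4.NMW710 (Dq)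
open Crest.Agent.R4.ClsS (eps1)
open Crest.Agent.R4.OSCore709 Crest.Agent.R4.CrossShot709 Crest.Agent.R4.Bad223 Crest.Agent.R4.ShotG223
open Crest.Agent.R4P.CofMono28 (SD)
open Crest.Agent.R4.LLNum709 (SA CA CA_pos SA_nonneg)
open Crest.Agent.R4.ClsB (Tame)

/-! ### the anatomy bound, abstract -/

/-- the anatomy bound for the pairs in `P` with right side `Z` -/
def AN (ε : ℝ) (D : ℕ × ℕ → ℝ) (x y : ℕ × ℕ → ℕ) (rr : ℕ × ℕ → ℝ) (P : Finset (ℕ × ℕ)) (L Z : ℝ) : Prop :=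
  ∀ (F : ℕ × ℕ → ℝ) (T z S K : ℝ) (E : Finset (ℕ × ℕ)), E ⊆ P → 0 < T → Real.exp 16 ≤ z → 0 ≤ K →
    (∀ e ∈ E, D e ≤ T) → (∀ e ∈ E, S ≤ SD (x e) (y e) z) → (∀ e ∈ E, F e ≤ K * rr e) →
    ∑ e ∈ E, F e ≤ K * L^2 * Real.exp (-(z * S)) * T^(1-2*ε) * Z

section abs
variable {ε : ℝ} {D : ℕ × ℕ → ℝ} {x y : ℕ × ℕ → ℕ} {rr : ℕ × ℕ → ℝ} {P : Finset (ℕ × ℕ)} {L Z : ℝ}

/-- pairs with `D ≤ T`, no anatomy -/
theorem AN.mid (h : AN ε D x y rr P L Z) {F : ℕ × ℕ → ℝ} {T K : ℝ} {E : Finset (ℕ × ℕ)} (hE : E ⊆ P)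
    (hT : 0 < T) (hK : 0 ≤ K) (h1 : ∀ e ∈ E, D e ≤ T) (hF : ∀ e ∈ E, F e ≤ K * rr e) :
    ∑ e ∈ E, F e ≤ K * L^2 * T^(1-2*ε) * Z := by
  have h2 := h F T (Real.exp 16) 0 K E hE hT le_rfl hK h1
    (fun e _ => Crest.Agent.R4P.CofMono28.SD_nonneg _ _ _) hF
  rw [mul_zero, neg_zero, Real.exp_zero, mul_one] at h2
  exact h2

/-- **bad anatomy at `√D`**, all scales `> T ≥ e^32` -/
theorem AN.bad (h : AN ε D x y rr P L Z) (hε : 0 < ε) (hZ : 0 ≤ Z)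
    (hxy : ∀ e ∈ P, 0 < x e ∧ 0 < y e)
    {F : ℕ × ℕ → ℝ} {T K : ℝ} {E : Finset (ℕ × ℕ)} (hE : E ⊆ P)
    (hT : Real.exp 32 ≤ T) (hK : 0 ≤ K)
    (h1 : ∀ e ∈ E, T < D e)
    (hS : ∀ e ∈ E, 1 ≤ SD (x e) (y e) (Real.sqrt (D e)))
    (hF : ∀ e ∈ E, F e ≤ K * rr e) :
    ∑ e ∈ E, F e ≤ K * L^2 * Z := by
  have hT0 : (0:ℝ) < T := (Real.exp_pos _).trans_le hT
  set G := K * L^2 * Z with hG
  have hG0 : 0 ≤ G := by positivity
  have := dyadic_sum D F (T := T) (G := G) (B := 1) (fun n => (1/2:ℝ)^(n+1)) hT0 hG0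
    half_sum E h1 (fun n E' hE' g1 g2 => by
      have h2n : (1:ℝ) ≤ (2:ℝ)^n := one_le_pow₀ (by norm_num)
      have hTn : Real.exp 32 ≤ T * 2^n := hT.trans (by nlinarith)
      have hTn0 : 0 < T * 2^n := (Real.exp_pos _).trans_le hTn
      have a := h F (2 * (T * 2^n)) (Real.sqrt (T * 2^n)) 1 K E' (hE'.trans hE)
        (by positivity) (Crest.Agent.R4P.LLNumP.sqrt_ge hTn) hK g2
        (fun e he => (hS e (hE' he)).trans (Crest.Agent.R4P.CofMono28.SD_mono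
          (hxy e (hE (hE' he))).1 (hxy e (hE (hE' he))).2
          dvd_rfl dvd_rfl (Real.sqrt_le_sqrt (g1 e he).le))) (fun e he => hF e (hE' he))
      refine a.trans ?_
      have bb := Crest.Agent.R4P.LLNumP.lev_expQ hε hT n
      have cc : Real.exp (-(Real.sqrt (T*2^n) * 1)) * (2*(T*2^n))^(1-2*ε) ≤ (1/2)^(n+1) := by
        have c1 : Real.exp (-(Real.sqrt (T*2^n) * 1)) ≤ Real.exp (-(Real.sqrt (T*2^n)/2)) := by
          apply Real.exp_le_exp.2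
          have := Real.sqrt_nonneg (T*2^n)
          linarith
        have c2 : Real.exp (-(Real.sqrt T/4)) ≤ 1 := by
          apply Real.exp_le_one_iff.2
          have := Real.sqrt_nonneg T
          linarith
        refine (mul_le_mul_of_nonneg_right c1 (by positivity)).trans (bb.trans ?_)
        have c3 : (0:ℝ) ≤ (1/2)^(n+1) := by positivity
        nlinarith
      calc K * L ^ 2 * Real.exp (-(Real.sqrt (T * 2^n) * 1)) * (2 * (T * 2^n)) ^ (1 - 2 * ε) * Z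
          = G * (Real.exp (-(Real.sqrt (T*2^n) * 1)) * (2*(T*2^n))^(1-2*ε)) := by rw [hG]; ring
        _ ≤ _ := mul_le_mul_of_nonneg_left cc hG0)
  rwa [mul_one] at this

/-- **weight `1/D`**, all scales `> T ≥ 1` -/
theorem AN.inv (h : AN ε D x y rr P L Z) (hε : 0 < ε) (hZ : 0 ≤ Z) (hrr : ∀ e ∈ P, 0 ≤ rr e)
    {F : ℕ × ℕ → ℝ} {T K : ℝ} {E : Finset (ℕ × ℕ)} (hE : E ⊆ P)
    (hT : 1 ≤ T) (hK : 0 ≤ K)
    (h1 : ∀ e ∈ E, T < D e)
    (hF : ∀ e ∈ E, F e ≤ K * (rr e / D e)) :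
    ∑ e ∈ E, F e ≤ K * L^2 * (2 / (1 - (2:ℝ)^(-(2*ε))) * Z) := by
  have hT0 : (0:ℝ) < T := by linarith
  set q : ℝ := (2:ℝ)^(-(2*ε)) with hq
  have hq0 : 0 < q := Real.rpow_pos_of_pos two_pos _
  have hq1 : q < 1 := two_lt hε
  set G := K * L^2 * (2 * Z) with hG
  have hG0 : 0 ≤ G := by positivity
  have := dyadic_sum D F (T := T) (G := G) (B := 1/(1-q)) (fun n => q^n) hT0 hG0
    (q_sum hq0.le hq1) E h1 (fun n E' hE' g1 g2 => by
      have h2n : (1:ℝ) ≤ (2:ℝ)^n := one_le_pow₀ (by norm_num)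
      have hTn : 1 ≤ T * 2^n := hT.trans (by nlinarith)
      have hTn0 : 0 < T * 2^n := by linarith
      have a := h.mid (F := F) (T := 2 * (T * 2^n)) (K := K * (1/(T*2^n))) (hE'.trans hE)
        (by positivity) (by positivity) g2
        (fun e he => by
          have m0 : 0 ≤ rr e := hrr e (hE (hE' he))
          refine (hF e (hE' he)).trans ?_
          have : rr e / D e ≤ rr e / (T * 2^n) := div_le_div_of_nonneg_left m0 hTn0 (g1 e he).le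
          refine (mul_le_mul_of_nonneg_left this hK).trans (le_of_eq ?_)
          ring)
      refine a.trans ?_
      have e1 : (2 * (T * 2^n))^(1-2*ε) ≤ (2 * (T * 2^n)) * q^n := by
        rw [sub_eq_add_neg, Real.rpow_add (by positivity), Real.rpow_one]
        refine mul_le_mul_of_nonneg_left ?_ (by positivity)
        have a2 : ((2:ℝ)^n)^(-(2*ε)) = q^n := by
          rw [hq, ← Real.rpow_natCast, ← Real.rpow_natCast, ← Real.rpow_mul (by norm_num),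
            ← Real.rpow_mul (by norm_num)]
          congr 1; ring
        rw [← a2]
        apply Real.rpow_le_rpow_of_nonpos (by positivity) (by nlinarith) (by linarith)
      calc K * (1 / (T * 2^n)) * L ^ 2 * (2 * (T * 2^n)) ^ (1 - 2 * ε) * Z
          ≤ K * (1 / (T * 2^n)) * L ^ 2 * ((2 * (T * 2^n)) * q^n) * Z := by
            gcongr
        _ = G * q^n := by rw [hG]; field_simp)
  refine this.trans (le_of_eq ?_)
  rw [hG]; ring

open Classical in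
/-- **stops at columns `p`**, all scales `> T ≥ Tst` -/
theorem AN.stop (h : AN ε D x y rr P L Z) (hε : 0 < ε) (hε' : ε ≤ 1/100) (hZ : 0 ≤ Z)
    {F : ℕ × ℕ → ℝ} {T K : ℝ} {E : Finset (ℕ × ℕ)} (hE : E ⊆ P)
    (hT : Tst ≤ T) (hK : 0 ≤ K)
    (h1 : ∀ e ∈ E, T < D e)
    (hS : ∀ e ∈ E, ∃ p : ℕ, D e ≤ Real.exp (20 * (p:ℝ)^(1/2:ℝ)) ∧
      (p:ℝ)^(-(1/3):ℝ) / 2 ≤ SD (x e) (y e) p)
    (hF : ∀ e ∈ E, F e ≤ K * rr e) :
    ∑ e ∈ E, F e ≤ K * L^2 * Z := by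
  set G := K * L^2 * Z with hG
  have hG0 : 0 ≤ G := by positivity
  set π : ℕ × ℕ → ℕ := fun e => if he : e ∈ E then (hS e he).choose else 0 with hπ
  have hπs : ∀ e ∈ E, D e ≤ Real.exp (20 * (π e:ℝ)^(1/2:ℝ)) ∧
      (π e:ℝ)^(-(1/3):ℝ) / 2 ≤ SD (x e) (y e) (π e) := fun e he => by
    have : π e = (hS e he).choose := by rw [hπ]; simp only; rw [dif_pos he]
    rw [this]; exact (hS e he).choose_spec
  have big : ∀ e ∈ E, Pst ≤ π e := fun e he => by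
    by_contra hc
    have h2 : (π e : ℝ) ≤ (Pst : ℕ) := by exact_mod_cast (not_le.1 hc).le
    have h3 := (hπs e he).1
    have h4 : Real.exp (20 * (π e:ℝ)^(1/2:ℝ)) ≤ Tst := by
      unfold Tst
      apply Real.exp_le_exp.2
      have := Real.rpow_le_rpow (by positivity) h2 (by norm_num : (0:ℝ) ≤ 1/2)
      linarith
    have h5 := h1 e he
    linarith
  rw [← Finset.sum_fiberwise_of_maps_to (s := E) (t := E.image π) (g := π)
    (fun e he => Finset.mem_image_of_mem π he) F]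
  have lev : ∀ p ∈ E.image π, ∑ e ∈ E.filter (fun e => π e = p), F e ≤ G * (1/(((p:ℝ)+1)*((p:ℝ)+2))) := by
    intro p hp
    obtain ⟨e₀, he₀, hep⟩ := Finset.mem_image.1 hp
    have hpb : ((Pst : ℕ) : ℝ) ≤ p := by rw [← hep]; exact_mod_cast big e₀ he₀
    have a := h F (Real.exp (20 * (p:ℝ)^(1/2:ℝ))) p ((p:ℝ)^(-(1/3):ℝ) / 2) K
      (E.filter (fun e => π e = p))
      ((Finset.filter_subset _ _).trans hE) (Real.exp_pos _)
      (exp16_le.trans hpb) hK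
      (fun e he => by
        obtain ⟨k1, k2⟩ := Finset.mem_filter.1 he
        have := (hπs e k1).1
        rwa [k2] at this)
      (fun e he => by
        obtain ⟨k1, k2⟩ := Finset.mem_filter.1 he
        have := (hπs e k1).2
        rwa [k2] at this)
      (fun e he => hF e (Finset.mem_filter.1 he).1)
    refine a.trans ?_
    calc K * L ^ 2 * Real.exp (-((p:ℝ) * ((p:ℝ)^(-(1/3):ℝ) / 2))) *
          (Real.exp (20 * (p:ℝ)^(1/2:ℝ))) ^ (1 - 2 * ε) * Z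
        = G * (Real.exp (-((p:ℝ) * ((p:ℝ)^(-(1/3):ℝ) / 2))) *
          (Real.exp (20 * (p:ℝ)^(1/2:ℝ))) ^ (1 - 2 * ε)) := by rw [hG]; ring
      _ ≤ _ := mul_le_mul_of_nonneg_left (stop_num hε hε' hpb) hG0
  refine (Finset.sum_le_sum lev).trans ?_
  rw [← Finset.mul_sum]
  have h6 : ∑ p ∈ E.image π, 1/(((p:ℝ)+1)*((p:ℝ)+2)) ≤ 1 := by
    refine le_trans ?_ (tele (E.sup π + 1))
    refine Finset.sum_le_sum_of_subset_of_nonneg (fun p hp => ?_) fun p _ _ => by positivity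
    obtain ⟨e₀, he₀, hep⟩ := Finset.mem_image.1 hp
    rw [Finset.mem_range, ← hep]
    exact Nat.lt_succ_of_le (Finset.le_sup (f := π) he₀)
  calc G * _ ≤ G * 1 := mul_le_mul_of_nonneg_left h6 hG0
    _ = G := mul_one _

/-- the low pairs, abstract letters -/
def LoD (T : ℝ) (D : ℕ × ℕ → ℝ) (x y : ℕ × ℕ → ℕ) (e : ℕ × ℕ) : Prop :=
  D e ≤ T ∨ 1 ≤ SD (x e) (y e) (Real.sqrt (D e)) ∨
  ∃ p : ℕ, D e ≤ Real.exp (20 * (p:ℝ)^(1/2:ℝ)) ∧ (p:ℝ)^(-(1/3):ℝ) / 2 ≤ SD (x e) (y e) p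

open Classical in
/-- **the low pairs**, `F ≤ K rr` -/
theorem AN.low (h : AN ε D x y rr P L Z) (hε : 0 < ε) (hε' : ε ≤ 1/100) (hZ : 0 ≤ Z)
    (hxy : ∀ e ∈ P, 0 < x e ∧ 0 < y e)
    {F : ℕ × ℕ → ℝ} {T K : ℝ} {E : Finset (ℕ × ℕ)} (hE : E ⊆ P)
    (hT : Tst ≤ T) (hT' : Real.exp 32 ≤ T) (hK : 0 ≤ K)
    (hS : ∀ e ∈ E, LoD T D x y e) (hF : ∀ e ∈ E, F e ≤ K * rr e) :
    ∑ e ∈ E, F e ≤ K * L^2 * (3 * T) * Z := by
  have hT1 : 1 ≤ T := le_trans (Real.one_le_exp (by norm_num)) hT'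
  set S2 : ℕ × ℕ → Prop := fun e => 1 ≤ SD (x e) (y e) (Real.sqrt (D e)) with hS2
  rw [← Finset.sum_filter_add_sum_filter_not E (fun e => D e ≤ T)]
  set E1 := E.filter (fun e => ¬ D e ≤ T) with hE1
  rw [← Finset.sum_filter_add_sum_filter_not E1 S2]
  have a1 := h.mid (E := E.filter (fun e => D e ≤ T)) (F := F) (T := T) (K := K)
    ((Finset.filter_subset _ _).trans hE) (by linarith) hK
    (fun e he => (Finset.mem_filter.1 he).2) (fun e he => hF e (Finset.mem_filter.1 he).1)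
  have s1 : ∀ e ∈ E1, e ∈ E ∧ T < D e := fun e he =>
    ⟨(Finset.mem_filter.1 he).1, not_le.1 (Finset.mem_filter.1 he).2⟩
  have a2 := h.bad (E := E1.filter S2) (F := F) (T := T) (K := K) hε hZ hxy
    (fun e he => hE (s1 e (Finset.mem_filter.1 he).1).1) hT' hK
    (fun e he => (s1 e (Finset.mem_filter.1 he).1).2)
    (fun e he => (Finset.mem_filter.1 he).2)
    (fun e he => hF e (s1 e (Finset.mem_filter.1 he).1).1)
  have a3 := h.stop (E := E1.filter (fun e => ¬ S2 e)) (F := F) (T := T) (K := K) hε hε' hZ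
    (fun e he => hE (s1 e (Finset.mem_filter.1 he).1).1) hT hK
    (fun e he => (s1 e (Finset.mem_filter.1 he).1).2)
    (fun e he => by
      obtain ⟨k1, k2⟩ := Finset.mem_filter.1 he
      obtain ⟨k3, k4⟩ := s1 e k1
      rcases hS e k3 with h5 | h5 | h5
      · exact absurd h5 (not_le.2 k4)
      · exact absurd h5 k2
      · exact h5)
    (fun e he => hF e (s1 e (Finset.mem_filter.1 he).1).1)
  have e1 : T^(1-2*ε) ≤ T := by
    calc T^(1-2*ε) ≤ T^(1:ℝ) := Real.rpow_le_rpow_of_exponent_le hT1 (by linarith)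
      _ = T := Real.rpow_one T
  have hG : 0 ≤ K * L^2 * Z := by positivity
  calc _ ≤ K * L^2 * T^(1-2*ε) * Z + (K * L^2 * Z + K * L^2 * Z) := add_le_add a1 (add_le_add a2 a3)
    _ = (K * L^2 * Z) * (T^(1-2*ε) + 2) := by ring
    _ ≤ (K * L^2 * Z) * (3 * T) :=
        mul_le_mul_of_nonneg_left (by linarith) hG
    _ = _ := by ring

open Classical in
/-- **large scales**: weight `1/D`, or a low pair -/
theorem AN.big (h : AN ε D x y rr P L Z) (hε : 0 < ε) (hε' : ε ≤ 1/100) (hZ : 0 ≤ Z)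
    (hxy : ∀ e ∈ P, 0 < x e ∧ 0 < y e) (hrr : ∀ e ∈ P, 0 ≤ rr e)
    {F : ℕ × ℕ → ℝ} {T K : ℝ} {E : Finset (ℕ × ℕ)} (hE : E ⊆ P)
    (hT : Tst ≤ T) (hT' : Real.exp 32 ≤ T) (hK : 0 ≤ K) (h1 : ∀ e ∈ E, 1 < D e)
    (hF : ∀ e ∈ E, F e ≤ K * (rr e / D e) ∨ (LoD T D x y e ∧ F e ≤ K * rr e)) :
    ∑ e ∈ E, F e ≤ K * L^2 * ((2 / (1 - (2:ℝ)^(-(2*ε))) + 3 * T) * Z) := by
  set Q : ℕ × ℕ → Prop := fun e => F e ≤ K * (rr e / D e) with hQ
  rw [← Finset.sum_filter_add_sum_filter_not E Q]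
  have a1 := h.inv (E := E.filter Q) (F := F) (T := 1) (K := K) hε hZ hrr
    ((Finset.filter_subset _ _).trans hE) le_rfl hK
    (fun e he => h1 e (Finset.mem_filter.1 he).1) (fun e he => (Finset.mem_filter.1 he).2)
  have a2 := h.low (E := E.filter (fun e => ¬ Q e)) (F := F) (T := T) (K := K) hε hε' hZ hxy
    ((Finset.filter_subset _ _).trans hE) hT hT' hK
    (fun e he => by
      obtain ⟨k1, k2⟩ := Finset.mem_filter.1 he
      exact ((hF e k1).resolve_left k2).1)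
    (fun e he => by
      obtain ⟨k1, k2⟩ := Finset.mem_filter.1 he
      exact ((hF e k1).resolve_left k2).2)
  refine (add_le_add a1 a2).trans (le_of_eq ?_)
  ring

end abs

/-! ### one pair of classes -/

/-- the anatomy bound of one pair of classes, with the decay -/
theorem AN_cls {ε : ℝ} (hε : 0 < ε) (hε' : ε ≤ 1/100)
    {s M b pr c M' b' pr' c' a a' : ℕ} {ρ : ℕ → ℝ} {V W : Finset ℕ} {L : ℝ}
    (hs : s.Prime) (hρ : ∀ q, 0 < ρ q) (hb : 0 < b) (hc : 0 < c) (hb' : 0 < b') (hc' : 0 < c')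
    (hM : 0 < M) (hM' : 0 < M')
    (hsM : ∑ l ∈ M.primeFactors.erase s, 1 / (l:ℝ) ≤ 1) (hsM' : ∑ l ∈ M'.primeFactors.erase s, 1 / (l:ℝ) ≤ 1)
    (hne : a + M'.factorization s ≠ a' + M.factorization s)
    (hV : ∀ q ∈ V, Sd s M pr a q) (hW : ∀ q ∈ W, Sd s M' pr' a' q) (hL : 0 ≤ L)
    (lV : ∀ q ∈ V, 1 ≤ L * tq (q / pr / M.gcd (q / pr)))
    (lW : ∀ q ∈ W, 1 ≤ L * tq (q / pr' / M'.gcd (q / pr'))) :
    AN ε (Dq ρ M b pr c M' b' pr' c') (xR M pr M' pr') (yR M pr M' pr')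
      (fun e => rd b c ρ e.1 * rd b' c' ρ e.2) (V ×ˢ W) L
      (Real.exp 1 * CA ε * (256 * Real.exp 3) *
        ((s:ℝ)^(-(48/100)*((dex a (M.factorization s) a' (M'.factorization s) : ℝ)-1)) * ((s:ℝ)^(-(1/2-ε)) *
      ((∑ q ∈ V, rd b c ρ q * tq (q / pr)) * (∑ q ∈ W, rd b' c' ρ q * tq (q / pr')))^(1/2+ε)))) := by
  intro F T z S K E hE hT hz hK h1 hS hF
  refine (anat_cls (E := E) (F := F) (S := S) (z := z) (T := T) (K := K) (L := L) hε hε' hs hρ hb hc hb' hc'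
    hM hM' hsM hsM' hne hV hW hL lV lW hE hT hz hK h1 hS hF).trans (le_of_eq ?_)
  have e4 : Real.exp (1 - z * S) = Real.exp (-(z * S)) * Real.exp 1 := by
    rw [← Real.exp_add]; congr 1; ring
  rw [e4]; ring

/-- the item facts of one pair of classes at the crossing prime -/
structure BX (CL : ℝ) (s M b pr c M' b' pr' c' a a' : ℕ) (ρ : ℕ → ℝ) (V W : Finset ℕ) : Prop where
  hs : s.Prime
  hρ : ∀ q, 0 < ρ q
  hb : 0 < b
  hc : 0 < c
  hb' : 0 < b'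
  hc' : 0 < c'
  hM : 0 < M
  hM' : 0 < M'
  gM : ∀ l : ℕ, l.Prime → l ∣ M → l ≠ s → s ≤ l
  gM' : ∀ l : ℕ, l.Prime → l ∣ M' → l ≠ s → s ≤ l
  hsM : ∑ l ∈ M.primeFactors.erase s, (l:ℝ)^(-(11/12):ℝ) ≤ 1
  hsM' : ∑ l ∈ M'.primeFactors.erase s, (l:ℝ)^(-(11/12):ℝ) ≤ 1
  hV : ∀ q ∈ V, Sd s M pr a q
  hW : ∀ q ∈ W, Sd s M' pr' a' q
  tV : ∀ z : ℝ, (s:ℝ) ≤ z → ∀ q ∈ V, Tame z 1 (q / pr / M.gcd (q / pr))
  tW : ∀ z : ℝ, (s:ℝ) ≤ z → ∀ q ∈ W, Tame z 1 (q / pr' / M'.gcd (q / pr'))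
  lV : ∀ q ∈ V, 1 ≤ CL * Real.log s * tq (q / pr / M.gcd (q / pr))
  lW : ∀ q ∈ W, 1 ≤ CL * Real.log s * tq (q / pr' / M'.gcd (q / pr'))

section BX
variable {CL : ℝ} {s M b pr c M' b' pr' c' a a' : ℕ} {ρ : ℕ → ℝ} {V W V₁ W₁ : Finset ℕ}

lemma BX.mono (h : BX CL s M b pr c M' b' pr' c' a a' ρ V W) (h1 : V₁ ⊆ V) (h2 : W₁ ⊆ W) :
    BX CL s M b pr c M' b' pr' c' a a' ρ V₁ W₁ where
  hs := h.hs
  hρ := h.hρ
  hb := h.hb
  hc := h.hc
  hb' := h.hb'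
  hc' := h.hc'
  hM := h.hM
  hM' := h.hM'
  gM := h.gM
  gM' := h.gM'
  hsM := h.hsM
  hsM' := h.hsM'
  hV := fun q hq => h.hV q (h1 hq)
  hW := fun q hq => h.hW q (h2 hq)
  tV := fun z hz q hq => h.tV z hz q (h1 hq)
  tW := fun z hz q hq => h.tW z hz q (h2 hq)
  lV := fun q hq => h.lV q (h1 hq)
  lW := fun q hq => h.lW q (h2 hq)

lemma BX.raise (h : BX CL s M b pr c M' b' pr' c' a a' ρ V W) {l : ℕ} (hl : 0 < l) :
    BX CL s M (b * l) pr c M' (b' * l) pr' c' a a' ρ V W where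
  hs := h.hs
  hρ := h.hρ
  hb := Nat.mul_pos h.hb hl
  hc := h.hc
  hb' := Nat.mul_pos h.hb' hl
  hc' := h.hc'
  hM := h.hM
  hM' := h.hM'
  gM := h.gM
  gM' := h.gM'
  hsM := h.hsM
  hsM' := h.hsM'
  hV := h.hV
  hW := h.hW
  tV := h.tV
  tW := h.tW
  lV := h.lV
  lW := h.lW

lemma BX.rd0 (h : BX CL s M b pr c M' b' pr' c' a a' ρ V W) (q : ℕ) : 0 < rd b c ρ q :=
  mul_pos (div_pos (by exact_mod_cast h.hb) (by exact_mod_cast h.hc)) (h.hρ q)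

lemma BX.rd0' (h : BX CL s M b pr c M' b' pr' c' a a' ρ V W) (q : ℕ) : 0 < rd b' c' ρ q :=
  mul_pos (div_pos (by exact_mod_cast h.hb') (by exact_mod_cast h.hc')) (h.hρ q)

lemma BX.x0 (h : BX CL s M b pr c M' b' pr' c' a a' ρ V W) (U : Finset ℕ) :
    0 ≤ ∑ q ∈ U, rd b c ρ q * tq (q / pr) :=
  Finset.sum_nonneg fun q _ => mul_nonneg (h.rd0 q).le (tq_nonneg _)

lemma BX.y0 (h : BX CL s M b pr c M' b' pr' c' a a' ρ V W) (U : Finset ℕ) :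
    0 ≤ ∑ q ∈ U, rd b' c' ρ q * tq (q / pr') :=
  Finset.sum_nonneg fun q _ => mul_nonneg (h.rd0' q).le (tq_nonneg _)

end BX

/-- the decay -/
noncomputable def dcy (s m m' a a' : ℕ) : ℝ := (s:ℝ)^(-(48/100)*((dex a m a' m' : ℝ)-1))

open Classical in
/-- the conclusion of `box_cls` at the level exponent `cl` -/
def PBox (CL C0 CT cl : ℝ) : Prop :=
    ∃ s₁ : ℕ, 3 ≤ s₁ ∧
    (∀ s : ℕ, s₁ ≤ s → 400 ≤ lev cl s ∧ (Real.log s)^cl ≤ (2:ℝ)^(lev cl s) ∧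
      (2:ℝ)^(lev cl s) ≤ (Real.log s)^(cl+1) ∧ 2 ≤ Real.log s) ∧
    ∀ (s M b pr c M' b' pr' c' a a' a₀ : ℕ) (γ : ℝ) (ρ : ℕ → ℝ) (V W : Finset ℕ) (F : ℕ × ℕ → ℝ)
    (Q : ℕ × ℕ → Prop) (A θ₁ : ℝ),
    s₁ ≤ s → 1 ≤ a₀ → a₀ ≤ s → 0 ≤ A → BX CL s M b pr c M' b' pr' c' a a' ρ V W →
    a + M'.factorization s ≠ a' + M.factorization s →
    (∀ e ∈ V ×ˢ W, Dq ρ M b pr c M' b' pr' c' e ≤ 1 →
      F e ≤ (Real.log s)^C0 * (rd b c ρ e.1 * rd b' c' ρ e.2 / Dq ρ M b pr c M' b' pr' c' e)) →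
    (∀ e ∈ V ×ˢ W, 1 < Dq ρ M b pr c M' b' pr' c' e →
      F e ≤ (Real.log s)^C0 * (rd b c ρ e.1 * rd b' c' ρ e.2 / Dq ρ M b pr c M' b' pr' c' e) ∨
        (LoD ((Real.log s)^CT) (Dq ρ M b pr c M' b' pr' c') (xR M pr M' pr') (yR M pr M' pr') e ∧
          F e ≤ (Real.log s)^C0 * (rd b c ρ e.1 * rd b' c' ρ e.2))) →
    (∀ e ∈ V ×ˢ W, Dq ρ M b pr c M' b' pr' c' e ≤ 1/2^(lev cl s) → 0 < F e →
      RelI γ ρ M b pr c M' b' pr' c' e) →
    (∀ e ∈ V ×ˢ W, Dq ρ M b pr c M' b' pr' c' e ≤ 1/2^(lev cl s) → 0 < F e →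
      FSs s γ ρ (lev cl s) M b pr c M' b' pr' c' a a' e →
      FLow s (dex a (M.factorization s) a' (M'.factorization s)) a₀ (rf (itm s pr e.1) (st s M))
        (rf (itm s pr' e.2) (st s M')) θ₁ (Dq ρ M b pr c M' b' pr' c' e) ∨ Q e) →
    ∑ e ∈ V ×ˢ W, F e ≤
      dcy s (M.factorization s) (M'.factorization s) a a' *
        ((Real.log s)^(C0 + CT + 8 + cl/500) * ((s:ℝ)^(-(1/2-eps1)) *
            ((∑ q ∈ V, rd b c ρ q * tq (q / pr)) * (∑ q ∈ W, rd b' c' ρ q * tq (q / pr')))^(1/2+eps1) +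
          (s:ℝ)^(-(1/2):ℝ) *
            ((∑ q ∈ V, rd b c ρ q * tq (q / pr)) * (∑ q ∈ W, rd b' c' ρ q * tq (q / pr')))^(1/2:ℝ)) +
        (Real.log s)^(C0 + CT + 8 + cl/500) * ((Real.log s)^(A*(6/1000)) *
              (if dex a (M.factorization s) a' (M'.factorization s) = 1 then (a₀:ℝ)^(6/1000:ℝ) else 1) +
            (if dex a (M.factorization s) a' (M'.factorization s) = 1 then acc A s θ₁ else 0)) *
          ((s:ℝ)^(-(1/2-eps2)) *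
            ((∑ q ∈ V, rd b c ρ q * tq (q / pr)) * (∑ q ∈ W, rd b' c' ρ q * tq (q / pr')))^(1/2+eps2))) +
      ∑ e ∈ (V ×ˢ W).filter (fun e => 0 < F e ∧ (Dq ρ M b pr c M' b' pr' c' e ≤ 1/2^(lev cl s) ∧ Q e)),
        F e

open Classical in
set_option maxHeartbeats 1000000 in
/-- **all pairs of one pair of classes of different effective exponents** -/
theorem box_cls' {CL C0 CT : ℝ} (hCL : 1 ≤ CL) (hC0 : 0 ≤ C0) (hCT : 0 < CT) {cl : ℝ}
    (hcl : Crest.Agent.R4P.LowT33.clT ≤ cl) : PBox CL C0 CT cl := by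
  have he1 : eps1 = 1/1000 := rfl
  obtain ⟨b₁, hb₁, hlev, hmain⟩ := shot_cls' hCL hC0 hcl
  have hcl0 : 0 < cl := lt_of_lt_of_le Crest.Agent.R4P.LowT33.clT_pos hcl
  set CQ : ℝ := CL^2 * ((2 / (1 - (2:ℝ)^(-(2*eps1))) + 3) * (Real.exp 1 * CA eps1 * (256 * Real.exp 3))) with hCQ
  have t1 := Real.tendsto_log_atTop.eventually_ge_atTop (max 2 (1 + CQ))
  have t3 := ((tendsto_rpow_atTop hCT).comp Real.tendsto_log_atTop).eventually_ge_atTop
    (max Tst (Real.exp 32))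
  obtain ⟨x1, hx1⟩ := Filter.eventually_atTop.1 (t1.and t3)
  refine ⟨max b₁ ⌈x1⌉₊, hb₁.trans (le_max_left _ _), fun s hs => hlev s ((le_max_left _ _).trans hs), ?_⟩
  intro s M b pr c M' b' pr' c' a a' a₀ γ ρ V W F Q A θ₁ hs₁ ha₀ ha₀' hA hB hne hF1 hF2 hrel hFG
  have hsb : b₁ ≤ s := (le_max_left _ _).trans hs₁
  obtain ⟨g1, g3⟩ := hx1 s ((Nat.le_ceil _).trans (by exact_mod_cast (le_max_right _ _).trans hs₁))
  simp only [Function.comp] at g3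
  set ℓ := Real.log s with hℓ
  have hℓ2 : 2 ≤ ℓ := (le_max_left _ _).trans g1
  have hℓQ : 1 + CQ ≤ ℓ := (le_max_right _ _).trans g1
  have hℓ0 : 0 < ℓ := by linarith
  have hℓ1 : 1 ≤ ℓ := by linarith
  have hs0 : (0:ℝ) < s := by exact_mod_cast hB.hs.pos
  set T := ℓ^CT with hTd
  have hT1 : Tst ≤ T := (le_max_left _ _).trans g3
  have hT2 : Real.exp 32 ≤ T := (le_max_right _ _).trans g3
  have hT3 : 1 ≤ T := le_trans (Real.one_le_exp (by norm_num)) hT2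
  set D := Dq ρ M b pr c M' b' pr' c' with hD
  have key1 := hmain s M b pr c M' b' pr' c' a a' a₀ γ ρ V W F Q A θ₁ hsb hB.hs ha₀ ha₀' hA hB.hρ hB.hb hB.hc
    hB.hb' hB.hc' hB.hM hB.hM' hB.gM hB.gM' hB.hsM hB.hsM' hne hB.hV hB.hW hB.tV hB.tW hB.lV hB.lW hF1 hrel hFG
  have inv : ∀ l : ℕ, l.Prime → 1 / (l:ℝ) ≤ (l:ℝ)^(-(11/12):ℝ) := fun l hl => by
    have h1 : (1:ℝ) ≤ l := by exact_mod_cast hl.one_le
    rw [one_div, ← Real.rpow_neg_one]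
    exact Real.rpow_le_rpow_of_exponent_le h1 (by norm_num)
  have hAN := AN_cls (ε := eps1) (by rw [he1]; norm_num) (by rw [he1]; norm_num) hB.hs hB.hρ hB.hb hB.hc hB.hb'
    hB.hc' hB.hM hB.hM'
    ((Finset.sum_le_sum fun l hl => inv l (Nat.prime_of_mem_primeFactors (Finset.mem_of_mem_erase hl))).trans hB.hsM)
    ((Finset.sum_le_sum fun l hl => inv l (Nat.prime_of_mem_primeFactors (Finset.mem_of_mem_erase hl))).trans hB.hsM')
    hne hB.hV hB.hW (L := CL * ℓ) (by positivity) hB.lV hB.lW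
  have x0 := hB.x0 V
  have y0 := hB.y0 W
  set x := ∑ q ∈ V, rd b c ρ q * tq (q / pr) with hx
  set y := ∑ q ∈ W, rd b' c' ρ q * tq (q / pr') with hy
  have xy0 : 0 ≤ x * y := mul_nonneg x0 y0
  set g := dcy s (M.factorization s) (M'.factorization s) a a' with hg
  have hg0 : 0 < g := by rw [hg]; unfold dcy; positivity
  have hg' : (s:ℝ)^(-(48/100)*((dex a (M.factorization s) a' (M'.factorization s) : ℝ)-1)) = g := rfl
  rw [hg'] at key1 hAN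
  have hCA := (CA_pos eps1).le
  set Z1 := (s:ℝ)^(-(1/2-eps1)) * (x * y)^(1/2+eps1) with hZ1
  have hZ10 : 0 ≤ Z1 := by positivity
  have hcof : ∀ e ∈ V ×ˢ W, 0 < xR M pr M' pr' e ∧ 0 < yR M pr M' pr' e := fun e he => by
    obtain ⟨k1, k2⟩ := Finset.mem_product.1 he
    have w1 := (hB.hV _ k1).w0
    have w2 := (hB.hW _ k2).w0
    exact ⟨Crest.Agent.R4.HVW560.cof_pos (div_pos' w1 hB.hM),
      Crest.Agent.R4.HVW560.cof_pos (div_pos' w2 hB.hM')⟩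
  have key2 := hAN.big (F := F) (T := T) (K := ℓ^C0) (E := (V ×ˢ W).filter (fun e => ¬ D e ≤ 1))
    (by rw [he1]; norm_num) (by rw [he1]; norm_num) (by positivity) hcof
    (fun e _ => mul_nonneg (hB.rd0 _).le (hB.rd0' _).le) (Finset.filter_subset _ _) hT1 hT2 (by positivity)
    (fun e he => not_le.1 (Finset.mem_filter.1 he).2)
    (fun e he => hF2 e (Finset.mem_filter.1 he).1 (not_le.1 (Finset.mem_filter.1 he).2))
  -- numbers
  set K := ℓ^(C0 + CT + 8 + cl/500) with hK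
  have hK1 : ℓ^(C0 + 7 + cl/500) ≤ K := Real.rpow_le_rpow_of_exponent_le hℓ1 (by linarith)
  have hpos : 0 < 1 - (2:ℝ)^(-(2*eps1)) := by
    have := two_lt (ε := eps1) (by rw [he1]; norm_num)
    linarith
  have k2' : ℓ^C0 * (CL * ℓ)^2 * ((2 / (1 - (2:ℝ)^(-(2*eps1))) + 3 * T) * (Real.exp 1 * CA eps1 * (256 * Real.exp 3) *
        (g * Z1))) ≤ g * ((K - ℓ^(C0 + 7 + cl/500)) * Z1) := by
    have e1 : ℓ^(C0 + CT + 3) = ℓ^C0 * T * (ℓ^2 * ℓ) := by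
      rw [show C0 + CT + 3 = C0 + CT + ((3:ℕ):ℝ) by norm_num, Real.rpow_add hℓ0, Real.rpow_add hℓ0,
        Real.rpow_natCast, hTd]; ring
    have e2 : ℓ^C0 * (CL * ℓ)^2 * ((2 / (1 - (2:ℝ)^(-(2*eps1))) + 3 * T) *
        (Real.exp 1 * CA eps1 * (256 * Real.exp 3) * (g * Z1))) ≤ ℓ^(C0+CT+3) * (g * Z1) := by
      have p1 : 0 ≤ 2 / (1 - (2:ℝ)^(-(2*eps1))) := by positivity
      calc _ ≤ ℓ^C0 * (CL * ℓ)^2 * ((2 / (1 - (2:ℝ)^(-(2*eps1))) * T + 3 * T) *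
            (Real.exp 1 * CA eps1 * (256 * Real.exp 3) * (g * Z1))) := by
            have : 2 / (1 - (2:ℝ)^(-(2*eps1))) ≤ 2 / (1 - (2:ℝ)^(-(2*eps1))) * T :=
              le_mul_of_one_le_right p1 hT3
            gcongr
        _ = ℓ^C0 * T * ℓ^2 * CQ * (g * Z1) := by rw [hCQ]; ring
        _ ≤ ℓ^C0 * T * ℓ^2 * ℓ * (g * Z1) := by
            have : CQ ≤ ℓ := by linarith
            gcongr
        _ = _ := by rw [e1]; ring
    refine e2.trans ?_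
    have e3 : ℓ^(C0+CT+3) + ℓ^(C0 + 7 + cl/500) ≤ K := by
      have a1 : ℓ^(C0+CT+3) ≤ ℓ^(C0 + CT + 7 + cl/500) := Real.rpow_le_rpow_of_exponent_le hℓ1 (by linarith)
      have a2 : ℓ^(C0+7+cl/500) ≤ ℓ^(C0 + CT + 7 + cl/500) := Real.rpow_le_rpow_of_exponent_le hℓ1 (by linarith)
      have a3 : K = ℓ^(C0 + CT + 7 + cl/500) * ℓ := by
        rw [hK]; nth_rewrite 3 [← Real.rpow_one ℓ]; rw [← Real.rpow_add hℓ0]; congr 1; ring
      have a4 : 0 < ℓ^(C0 + CT + 7 + cl/500) := by positivity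
      rw [a3]; nlinarith
    calc ℓ^(C0+CT+3) * (g * Z1) ≤ (K - ℓ^(C0 + 7 + cl/500)) * (g * Z1) :=
          mul_le_mul_of_nonneg_right (by linarith) (by positivity)
      _ = _ := by ring
  have key2' := key2.trans k2'
  rw [← Finset.sum_filter_add_sum_filter_not (V ×ˢ W) (fun e => D e ≤ 1)]
  refine (add_le_add key1 key2').trans ?_
  set R := ∑ e ∈ (V ×ˢ W).filter (fun e => 0 < F e ∧ (D e ≤ 1/2^(lev cl s) ∧ Q e)), F e with hR
  set Z0 := (s:ℝ)^(-(1/2):ℝ) * (x * y)^(1/2:ℝ) with hZ0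
  set Z2 := (s:ℝ)^(-(1/2-eps2)) * (x * y)^(1/2+eps2) with hZ2
  have hZ00 : 0 ≤ Z0 := by positivity
  have hZ20 : 0 ≤ Z2 := by positivity
  set w := ℓ^(A*(6/1000)) *
              (if dex a (M.factorization s) a' (M'.factorization s) = 1 then (a₀:ℝ)^(6/1000:ℝ) else 1) +
            (if dex a (M.factorization s) a' (M'.factorization s) = 1 then acc A s θ₁ else 0) with hw
  have hw0 : 0 ≤ w := by
    rw [hw]
    have := acc_nonneg A s θ₁
    split_ifs <;> positivity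
  have b1 : ℓ^(C0 + 7 + cl/500) * Z0 ≤ K * Z0 := mul_le_mul_of_nonneg_right hK1 hZ00
  have b2 : ℓ^(C0 + 7 + cl/500) * w * Z2 ≤ K * w * Z2 := by gcongr
  calc g * (ℓ^(C0 + 7 + cl/500) * (Z1 + Z0) + ℓ^(C0 + 7 + cl/500) * w * Z2) + R +
        g * ((K - ℓ^(C0 + 7 + cl/500)) * Z1)
      = g * (K * Z1 + ℓ^(C0 + 7 + cl/500) * Z0 + ℓ^(C0 + 7 + cl/500) * w * Z2) + R := by ring
    _ ≤ g * (K * Z1 + K * Z0 + K * w * Z2) + R := by gcongr
    _ = _ := by ring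


theorem box_cls {CL C0 CT : ℝ} (hCL : 1 ≤ CL) (hC0 : 0 ≤ C0) (hCT : 0 < CT) : ∃ cl₀ : ℝ, 0 < cl₀ ∧ ∀ cl : ℝ, cl₀ ≤ cl →
    PBox CL C0 CT cl :=
  ⟨Crest.Agent.R4P.LowT33.clT, Crest.Agent.R4P.LowT33.clT_pos, fun _ h => box_cls' hCL hC0 hCT h⟩

end Crest.Agent.R4P.NumCls32
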