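import Crest.Agent.R4P.LLPair_30
import Crest.Agent.R4P.RseP_23
import Crest.Agent.R4P.LeafC734

/-!
R4 (S0004), powers pass, group [X] (helper30): **(leaf, leaf') states of the cross walk of a context**.

* `leafF_All`, `ctx_LeafF` : the leaf facts `LeafF` (with `G = 1`) at all the leaves of a context;
* `LfA` : weights (`OmL`, `K = 2`), densities, sifted masses of the alive items of a leaf; `ctx_LfA`;
* `lf_mass` : the sifted mass of an item-level population of a leaf is at most its raw mass;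
* `ctx_LL` : at a (leaf, leaf') state `Xs (tm) B s` is at most the sum of the low pairs.
-/

set_option autoImplicit false
set_option linter.unusedSectionVars false
set_option linter.unusedVariables false
open MeasureTheory

namespace Crest.Agent.R4P.LLCtx30

open Crest.Agent.R4P.Cnt588 Crest.Agent.R4P.Item758 Crest.Agent.R4P.W363 Crest.Agent.R4.LF363
open Crest.Agent.R4P.Bld532 (NS All NodeOk Bk)
open Crest.Agent.R4P.Data758 Crest.Agent.R4P.OmData532 Crest.Agent.R4P.LfDat734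
open Crest.Agent.R4P.Skel189
open Crest.Agent.R4P.Frame758 (wt)
open Crest.Agent.R4.Soft104 (w)
open Crest.Agent.R4.Ovl560 (nw CM dens_pos)
open Crest.Agent.R4.Item758 (IL)
open Crest.Agent.R4P.AvgItem710 Crest.Agent.R4P.NMW710 Crest.Agent.R4P.Walk560
open Crest.Agent.R4P.CrossLoc25 Crest.Agent.R4P.CrossLocC25 Crest.Agent.R4P.TBLeaf28
open Crest.Agent.R4P.LLPair30 Crest.Agent.R4P.LeafOs30

/-- densities of sets of primes -/
local notation "dens" => Crest.Agent.R4.Ovl560.dens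

/-- **every leaf of a tree with `All NodeOk` has all the facts** -/
theorem leafF_All {P : Bld532.Par} {W : ℕ → ℝ} {n : ℕ} {t : IT}
    (hN : All (NodeOk P W) ⟨n, 1, 1, 1⟩ t)
    (hn : ∀ q ∈ t.items, ∀ l : ℕ, l.Prime → l ∣ q → l < n) :
    All (fun u τ => ∀ S, τ = .leaf S → LeafF P W t n u S 1) ⟨n, 1, 1, 1⟩ t := by
  have hO : t.Ok n := Bld532.Ok_of_All P W t _ hN
  have h2 := All_lst (t' := t) (s₀ := ⟨n, 1, 1, 1⟩) t n ⟨n, 1, 1, 1⟩ hO (fun q hq => ⟨hq, rfl⟩)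
  have h3 := All_rt (t' := t) t n ⟨n, 1, 1, 1⟩ hO (Finset.Subset.refl _) le_rfl
    (fun q hq l hl => Or.inr hl)
  have h4 := All_ge (t' := t) t ⟨n, 1, 1, 1⟩ hN (fun q _ => Finset.Subset.refl _)
    (fun q hq l hl h5 h6 => by
      have h7 : l ∣ q := h6.trans (Nat.div_dvd_of_dvd (one_dvd _))
      have h8 : n ≤ l := h5
      exact absurd (hn q hq l hl h7) (not_lt.2 h8))
  have h := ((hN.and h2).and h3).and h4
  refine All.mono (fun u τ hQ Sl hτ => ?_) h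
  subst hτ
  obtain ⟨⟨⟨hnode, hl⟩, hr⟩, hg⟩ := hQ
  have hAq : ∀ q ∈ Sl, Bld532.lst t ⟨n, 1, 1, 1⟩ q = u := fun q hq => by
    have := (hl q hq).2
    simpa only [Bld532.lst] using this
  have hA : ∀ q ∈ Sl, pp t q = u.A := fun q hq => by
    have := BldF542.lst_A t ⟨n, 1, 1, 1⟩ q
    rw [hAq q hq] at this
    simpa using this.symm
  have hB : ∀ q ∈ Sl, mp t q = u.B := fun q hq => by
    have := BldF542.lst_Bmp t ⟨n, 1, 1, 1⟩ q
    rw [hAq q hq] at this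
    simpa using this.symm
  have bk : Bk Sl u := hnode.1
  refine
    { node := hnode
      pos := bk.pos
      it := fun q hq => (hl q hq).1
      lstA := hAq
      A := hA
      B := hB
      lvl := fun q hq => by unfold lv; rw [hAq q hq]
      mt := fun q hq => ?_
      G0 := Nat.one_pos
      Gd := fun q hq => one_dvd _
      Gc := fun q hq => Nat.coprime_one_left _
      Gr := fun q hq l hlG => by simp at hlG
      Gu := fun q hq l hlp hld hln => ?_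
      rtn := fun q hq l hlr => ?_ }
  · have h5 := BldF542.mp_eq_prod t n hO q
    rw [hB q hq] at h5
    rw [h5]
    exact (Nat.primeFactors_prod fun p hp => (BldF542.mt_lt t n hO q p hp).1).symm
  · exact hg q hq l hlp hln (by simpa using hld)
  · rcases hr q hq l hlr with h5 | h5
    · exact h5
    · exfalso
      unfold rt at h5
      simp [IT.uq] at h5

section ctx
variable {N : Skel189.Num} {γ : ℝ} {p0 P₀ : ℕ}

/-- **the leaf facts of a context** -/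
theorem ctx_LeafF (X : Ctx N γ p0 P₀) :
    All (fun u τ => ∀ S, τ = .leaf S → LeafF X.par (w X.ψ) X.c.t (top X.S) u S 1)
      ⟨top X.S, 1, 1, 1⟩ X.c.t :=
  leafF_All X.nodes fun q hq l _ h => X.lt (by rw [← X.items]; exact hq) h

/-- the label radius of an item of a context -/
noncomputable abbrev phC (X : Ctx N γ p0 P₀) : ℕ → ℝ :=
  phL X.c.wpL X.c.γ X.c.r X.c.t X.c.lv

/-- the leaf label of an item of a context -/
noncomputable abbrev labC (X : Ctx N γ p0 P₀) : ℕ → Option ℚ :=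
  labL X.c.wpL X.c.γ X.c.r X.c.t X.c.lv

/-- **facts of a leaf `(u, S)` of a context** -/
structure LfA (X : Ctx N γ p0 P₀) (Y : Finset (ℕ × ℕ × Finset ℕ)) (u : NS) (S : Finset ℕ) :
    Prop where
  lf : LeafF X.par (w X.ψ) X.c.t (top X.S) u S 1
  c0 : 0 < u.c
  om : ∀ q ∈ S, q ∈ X.S' → OmL (X.c.D.par Y) X.c.rr u.B u.A q 2 (q / u.A).primeFactors
    (phC X q) (labC X q)
  ds : ∀ q ∈ S, q ∈ X.S' → ∀ x : ℝ, 2 ≤ x → (∀ l : ℕ, l.Prime → l < u.n → (l : ℝ) ≤ x) →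
    1 ≤ 2 * (CM * Real.log x) * dens (q / u.A).primeFactors
  ms : ∀ q ∈ S, q ∈ X.S' → (u.B : ℝ) * X.c.rr q * dens (q / u.A).primeFactors ≤ u.c * w X.ψ q

/-- `φ(v)/v` as a density -/
lemma tot_eq_dens {v : ℕ} (hv : 0 < v) :
    ((v.totient : ℝ) / (v : ℝ)) = dens v.primeFactors := by
  rw [Crest.Agent.R4.Om532.phi_prod hv]
  rfl

/-- **the leaves of a context** -/
theorem ctx_LfA (N : Skel189.Num) : ∃ p₁ : ℕ, ∀ p0 ≥ p₁, ∀ (γ : ℝ) (P₀ : ℕ), 2 ≤ P₀ →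
    ∀ X : Ctx N γ p0 P₀, (∀ m, etaL X.c.wpL m ≤ 1) → ∀ Y : Finset (ℕ × ℕ × Finset ℕ),
      All (fun u τ => ∀ S, τ = .leaf S → LfA X Y u S) ⟨top X.S, 1, 1, 1⟩ X.c.t := by
  obtain ⟨p5, h5⟩ := LeafA734.rt_half N.B (N.C1 + N.c2) (by
    have := N.hB; have := N.hC1; have := N.hc2; linarith)
  refine ⟨p5, fun p0 hp0 γ P₀ hP X heta Y => ?_⟩
  refine All.mono (fun u τ hh S hτ => ?_) ((ctx_LeafF X).and (ctx_cpos X))
  obtain ⟨hl, hc⟩ := hh
  have hF := hl S hτ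
  have cf := LeafC734.cfL X hP
  have hgt : ∀ q b, (b ∈ X.c.t.mt q ∨ b ∈ X.c.t.sp q ∨ b ∈ X.c.t.uq q) → p0 < b := fun q b hb =>
    (Bld532.cols_of_All _ _ _ _ X.nodes q b hb).2.1
  have hrt : ∀ q, q ∈ X.S' → ∑ b ∈ rt X.c.t q, (1 : ℝ) / b ≤ 1 / 2 ∧
      ∑ b ∈ X.c.t.mt q ∪ X.c.t.sp q, (1 : ℝ) / b ≤ 1 / 2 := fun q hq =>
    h5 p0 hp0 X.c.t q (X.pr' hq) (hgt q)
  have hv : ∀ q ∈ S, 0 < q / u.A := fun q hq =>
    Nat.div_pos (Nat.le_of_dvd (hF.pos q hq) (hF.bk.dvd q hq))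
      (Nat.pos_of_dvd_of_pos (hF.bk.dvd q hq) (hF.pos q hq))
  have hB0 : (0 : ℝ) < u.B := by
    exact_mod_cast Nat.pos_of_ne_zero hF.bk.sfB.ne_zero
  refine ⟨hF, hc, fun q hq hq' => ?_, fun q hq hq' x hx hX => ?_, fun q hq hq' => ?_⟩
  · have hr0 : 0 < X.c.r q := X.rpos hq'
    have hrr : X.c.rr q = X.c.r q := by unfold Cf.rr; rw [if_pos hr0]
    have hmp : mp X.c.t q = u.B := hF.B q hq
    refine ⟨by norm_num, Finset.Subset.refl _, ?_, ?_, fun j hj a => ?_⟩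
    · unfold phC
      rcases hs : stL X.c.wpL X.c.γ X.c.r X.c.t X.c.lv q with _ | σ
      · rw [phL_none hs, hmp]
        exact mul_pos (etaL_pos _ _) (mul_pos hB0 hr0)
      · rw [phL_some hs, hmp]
        exact mul_pos hB0 hr0
    · unfold phC
      rw [hrr]
      rcases hs : stL X.c.wpL X.c.γ X.c.r X.c.t X.c.lv q with _ | σ
      · rw [phL_none hs, hmp]
        exact mul_le_of_le_one_left (mul_pos hB0 hr0).le (heta _)
      · rw [phL_some hs, hmp]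
    · have h1 := X.om_le (j.1.1) (X.c.bp j.1.1 j.1.2) a
      have e : j.1.1 = q := hj
      rw [e] at h1
      have h2 := hF.omL_le X.c.wp X.c.wpL X.c.γ X.c.r X.c.lv X.c.S' hq (hrt q hq').1 a
      rw [Nat.div_one] at h2
      show X.c.om j.1.1 (X.c.bp j.1.1 j.1.2) a ≤ _
      rw [e]
      exact h1.trans h2
  · have h1 := LeafA734.leaf_dens hF hq hx hX (fun l hl h1 h2 => by
      have h3 := hF.Gu q hq l hl (by rw [Nat.div_one]; exact h1) h2
      exact h3) (hrt q hq').1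
    rwa [tot_eq_dens (hv q hq)] at h1
  · have hr0 : 0 < X.c.r q := X.rpos hq'
    have hrr : X.c.rr q = X.c.r q := by unfold Cf.rr; rw [if_pos hr0]
    have h1 := cf.lmass X.gd hF hq (hrt q hq').2
    rw [tot_eq_dens (hv q hq)] at h1
    have h2 := mul_le_mul_of_nonneg_right h1 hr0.le
    rw [hrr]
    have h3 : X.c.r q = X.ψ q / 2 := X.hr q
    calc (u.B : ℝ) * X.c.r q * dens (q / u.A).primeFactors
        = u.B * dens (q / u.A).primeFactors * X.c.r q := by ring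
      _ ≤ 2 * (u.c * ((q.totient : ℝ) / q)) * X.c.r q := h2
      _ = u.c * w X.ψ q := by
        rw [h3]; unfold Crest.Agent.R4.Soft104.w; ring

/-- the alive items of a population at a leaf -/
lemma mem_Qi_leaf {X : Ctx N γ p0 P₀} {Y : Finset (ℕ × ℕ × Finset ℕ)} {S : Finset ℕ}
    {A : Finset X.c.Lam} {q : ℕ} (h : q ∈ Qi (X.c.D.par Y) X.S' (.leaf S) A) :
    q ∈ S ∧ q ∈ X.S' := by
  obtain ⟨h1, h2, -⟩ := mem_Qi.1 h
  exact ⟨h1, h2⟩

/-- **the sifted mass of a population of a leaf is at most its raw mass** -/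
theorem lf_mass {X : Ctx N γ p0 P₀} {Y : Finset (ℕ × ℕ × Finset ℕ)} {u : NS} {S : Finset ℕ}
    (h : LfA X Y u S) {A : Finset X.c.Lam} (hA : IL X.c.D.it A) :
    ∑ q ∈ Qi (X.c.D.par Y) X.S' (.leaf S) A,
        (u.B : ℝ) * X.c.rr q * dens (q / u.A).primeFactors ≤
      u.c * ∑ j ∈ A.filter (fun j => X.c.D.it j ∈ (IT.leaf S).items), wt X.c.D j := by
  classical
  refine le_trans (Finset.sum_le_sum fun q hq => h.ms q (mem_Qi_leaf hq).1 (mem_Qi_leaf hq).2) ?_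
  rw [← Finset.mul_sum]
  refine le_trans (le_of_eq ?_) (RseNd23.mass_al (τ := .leaf S) h.c0.le hA)
  congr 1
  refine Finset.sum_congr ?_ fun _ _ => rfl
  ext q
  unfold RseNd23.al
  rw [mem_Qi, Finset.mem_filter]
  rfl

/-- raw masses at a node (from `ctx_tM`) -/
def TmN (X : Ctx N γ p0 P₀) (j₀ : X.c.Lam) (u : NS) (τ : IT) : Prop :=
  ∀ A : Finset X.c.Lam, X.tm j₀ (X.g u τ) A =
    u.c * ∑ j ∈ A.filter (fun j => X.c.D.it j ∈ τ.items), wt X.c.D j

theorem ctx_TmN (X : Ctx N γ p0 P₀) (j₀ : X.c.Lam) :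
    All (TmN X j₀) ⟨top X.S, 1, 1, 1⟩ X.c.t := ctx_tM X j₀

lemma TmN.side {X : Ctx N γ p0 P₀} {j₀ : X.c.Lam} {u : NS} {τ : IT} (h : TmN X j₀ u τ)
    {A : Finset X.c.Lam} {d : DT X.c.Lam (Lb (WL X.c.Lam) X.Y)}
    (k : SideI (X.c.D.par X.Y) X.c.sp u.B u.A τ A d) :
    X.tm j₀ d.g A = u.c * ∑ j ∈ A.filter (fun j => X.c.D.it j ∈ τ.items), wt X.c.D j := by
  rw [← h A, k.eq, (X.c.D.par X.Y).toDT_g]
  rfl

open Classical in
/-- **(leaf, leaf') state of a context** : `Xs` is at most the sum over the low pairs. `x` is above the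
levels of both leaves, the pairs outside `Lo` have scale at least `(log x)²`. -/
theorem ctx_LL {X : Ctx N γ p0 P₀} {j₀ : X.c.Lam} {B : ℝ}
    (hB : 4 * (CLL * Real.exp 2 + 2 * (4 * CM ^ 2)) ≤ B) {s : X.Sta} {u u' : NS} {S S' : Finset ℕ}
    (hl : LfA X X.Y u S) (hl' : LfA X X.Y u' S')
    (h : StI (X.c.D.par X.Y) X.c.sp s u.B u.A (.leaf S) u'.B u'.A (.leaf S'))
    (hA : IL X.c.D.it s.A) (hA' : IL X.c.D.it s.A')
    (htm : TmN X j₀ u (.leaf S)) (htm' : TmN X j₀ u' (.leaf S'))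
    {x : ℝ} (hx : 2 ≤ x) (hX : ∀ l : ℕ, l.Prime → l < u.n → (l : ℝ) ≤ x)
    (hX' : ∀ l : ℕ, l.Prime → l < u'.n → (l : ℝ) ≤ x)
    {Lo : ℝ × ℝ → ℕ × ℕ → Prop} {x0 y0 : ℕ × ℕ → ℕ} (hL : LoX Lo X.c.rr x0 y0)
    (hT : ∀ z e, ¬ Lo z e → Real.log x ^ 2 ≤ Dsc (X.c.rr e.1) (X.c.rr e.2) z)
    (hJ : ∀ e ∈ Qi (X.c.D.par X.Y) X.S' (.leaf S) s.A ×ˢ Qi (X.c.D.par X.Y) X.S' (.leaf S') s.A',
      JC x0 y0 s.M u.A s.M' u'.A e) :
    Xs (X.tm j₀) B s ≤
      ∑ e ∈ Qi (X.c.D.par X.Y) X.S' (.leaf S) s.A ×ˢ Qi (X.c.D.par X.Y) X.S' (.leaf S') s.A',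
        (u.B : ℝ) * u'.B * FL Lo X.c.rr X.c.γ (SE s.M u.B u.A s.M' u'.B u'.A e) e := by
  have hm := htm.side h.L
  have hm' := htm'.side h.R
  have hR := X.ok.rad X.Y
  have hdead : ∀ j, (X.c.D.par X.Y).it j ∉ X.S' → ∀ a, (X.c.D.par X.Y).om j a = 0 :=
    fun j hj a => X.om_zero hj _ a
  have hlog : 0 < Real.log x := Real.log_pos (by linarith)
  have hCM : 0 < CM := Crest.Agent.R4.Ovl560.CM_pos
  have hpd : ∀ v : ℕ, 0 < dens v.primeFactors := fun v =>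
    dens_pos fun l hl => Nat.prime_of_mem_primeFactors hl
  have ma := lf_mass hl hA
  have ma' := lf_mass hl' hA'
  refine LL_Xs hL hT hR hdead h (K := 2) (K' := 2) (by norm_num) (by norm_num)
    (P := fun q => (q / u.A).primeFactors) (P' := fun q => (q / u'.A).primeFactors)
    (φ := phC X) (φ' := phC X) (lab := labC X) (lab' := labC X)
    (fun q hq => ⟨rfl, hl.om q (mem_Qi_leaf hq).1 (mem_Qi_leaf hq).2⟩)
    (fun q hq => ⟨rfl, hl'.om q (mem_Qi_leaf hq).1 (mem_Qi_leaf hq).2⟩) hJ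
    (T₂ := 4 * CM ^ 2) (by positivity) (fun e he => ?_) ?_
  · obtain ⟨h1, h2⟩ := Finset.mem_product.1 he
    have k1 := hl.ds e.1 (mem_Qi_leaf h1).1 (mem_Qi_leaf h1).2 x hx hX
    have k2 := hl'.ds e.2 (mem_Qi_leaf h2).1 (mem_Qi_leaf h2).2 x hx hX'
    have k3 := mul_le_mul k1 k2 zero_le_one (by linarith)
    rw [mul_one] at k3
    refine k3.trans (le_of_eq ?_)
    ring
  · have e1 : ∀ (u : NS) (S : Finset ℕ) (A : Finset X.c.Lam),
        0 ≤ ∑ q ∈ Qi (X.c.D.par X.Y) X.S' (.leaf S) A,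
          (u.B : ℝ) * X.c.rr q * dens (q / u.A).primeFactors := fun u S A =>
      Finset.sum_nonneg fun q _ =>
        mul_nonneg (mul_nonneg (Nat.cast_nonneg _) (hR.pos q).le) (hpd _).le
    have hC := CLL_ge
    have k1 := mul_le_mul ma ma' (e1 _ _ _) ((e1 _ _ _).trans ma)
    rw [← hm, ← hm'] at k1
    have k2 : 0 ≤ X.tm j₀ s.t.g s.A * X.tm j₀ s.t'.g s.A' :=
      le_trans (mul_nonneg (e1 _ _ _) (e1 _ _ _)) k1
    have k3 : 0 ≤ 4 * (CLL * Real.exp 2 + 2 * (4 * CM ^ 2)) := by positivity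
    calc 2 * 2 * (CLL * Real.exp 2 + 2 * (4 * CM ^ 2)) * _
        ≤ 2 * 2 * (CLL * Real.exp 2 + 2 * (4 * CM ^ 2)) *
          (X.tm j₀ s.t.g s.A * X.tm j₀ s.t'.g s.A') :=
          mul_le_mul_of_nonneg_left k1 (by positivity)
      _ ≤ B * (X.tm j₀ s.t.g s.A * X.tm j₀ s.t'.g s.A') := by
          refine mul_le_mul_of_nonneg_right ?_ k2
          linarith

end ctx

end Crest.Agent.R4P.LLCtx30
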