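import Crest.Agent.R4P.LeafFam_28
import Crest.Agent.R4P.CofMono_28
import Crest.Agent.R4P.NMS800

/-!
R4 (S0004), powers, module D, helper28: **leaf sides of the cross walk**.

The cross energy of (any side, side with sieve) is at most
`C K T (Σ_q R_q) (Σ_r R'_r dens P_r)` plus the `pb` of the pairs of a set `Lo`, when the pairs outside `Lo`
have scale `≥ 1` and anatomy factor `≤ T` (`side_block`).  `anF_le` : `T = e²` for good anatomy above `2^24`.
-/

set_option autoImplicit false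
set_option linter.unusedSectionVars false
set_option linter.unusedVariables false
open MeasureTheory
open Finset hiding dens

namespace Crest.Agent.R4P.LeafSide28

open Crest.Agent.R4.Tour104 Crest.Agent.R4.Piece464 Crest.Agent.R4.Avg758
open Crest.Agent.R4.HVW560 Crest.Agent.R4P.AvgItem710
open Crest.Agent.R4.Ovl560 (LW nw nw_nonneg nw_add exw dens dens_pos dens_mono)
open Crest.Agent.R4.Tour758 Crest.Agent.R4.Clos758
open Crest.Agent.R4.ClosL758 Crest.Agent.R4.ClosG758 Crest.Agent.R4.ClosR758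
open Crest.Agent.R4.Fam464 Crest.Agent.R4P.Cnt588 Crest.Agent.R4P.Item758
open Crest.Agent.R4P.GInst194 Crest.Agent.R4P.NMW710
open Crest.Agent.R4P.LeafFam28 Crest.Agent.R4P.CofMono28

/-! ### anatomy factor -/

lemma inv_le_exp {x : ℝ} (h0 : 0 ≤ x) (h1 : x ≤ 1 / 2) : (1 - x)⁻¹ ≤ Real.exp (2 * x) := by
  have h2 : 0 < 1 - x := by linarith
  rw [inv_le_comm₀ h2 (Real.exp_pos _), ← Real.exp_neg]
  have h3 : Real.exp (-(2 * x)) ≤ 1 - x := by
    have h4 : Real.exp (-(2 * x)) ≤ 1 / (1 + 2 * x) := by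
      rw [Real.exp_neg, ← one_div]
      apply one_div_le_one_div_of_le (by linarith)
      have := Real.add_one_le_exp (2 * x)
      linarith
    refine h4.trans ?_
    rw [div_le_iff₀ (by linarith)]
    nlinarith
  exact h3

/-- good anatomy above a scale `T ≥ 2` -/
theorem anF_le {x y : ℕ} {T : ℝ} (hT : 2 ≤ T) : anF x y T ≤ Real.exp (2 * SD x y T) := by
  unfold anF SD dens
  rw [← Finset.prod_inv_distrib, Finset.mul_sum, Real.exp_sum]
  refine Finset.prod_le_prod (fun l hl => ?_) fun l hl => ?_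
  · have hlp := Nat.prime_of_mem_primeFactors (Finset.mem_filter.1 hl).1
    have : (1 : ℝ) < l := by exact_mod_cast hlp.one_lt
    refine inv_nonneg.2 ?_
    rw [sub_nonneg, div_le_one (by linarith)]
    exact this.le
  · have hl2 : T < (l : ℝ) := (Finset.mem_filter.1 hl).2
    refine inv_le_exp (by positivity) ?_
    apply one_div_le_one_div_of_le (by norm_num)
    linarith

/-- monotonicity of the anatomy factor -/
lemma anF_mono {x y x' y' : ℕ} (hx : 0 < x) (hy : 0 < y) (h : x' ∣ x) (h' : y' ∣ y) {T T' : ℝ}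
    (hT : T ≤ T') : anF x' y' T' ≤ anF x y T := by
  unfold anF
  have h1 : ∀ l ∈ (x' * y').primeFactors.filter (fun l : ℕ => T' < (l : ℝ)), l.Prime := fun l hl =>
    Nat.prime_of_mem_primeFactors (Finset.mem_filter.1 hl).1
  have h2 : ∀ l ∈ (x * y).primeFactors.filter (fun l : ℕ => T < (l : ℝ)), l.Prime := fun l hl =>
    Nat.prime_of_mem_primeFactors (Finset.mem_filter.1 hl).1
  refine inv_anti₀ (dens_pos h2) (dens_mono h2 fun l hl => ?_)
  rw [Finset.mem_filter] at hl ⊢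
  exact ⟨Nat.primeFactors_mono (mul_dvd_mul h h') (Nat.mul_pos hx hy).ne' hl.1,
    lt_of_le_of_lt hT hl.2⟩

section
variable {Λ κ : Type*} [Fintype Λ] [DecidableEq Λ] [Fintype κ] [DecidableEq κ]
  {D : Item758.Par Λ κ} {ρ : ℕ → ℝ} {Al : Finset ℕ} {M M' b pr c b' pr' c' : ℕ} {t t' : IT}
  {A A' : Finset Λ}

open Classical in
/-- blocks of item pairs: the pairs outside `Lo` have a product bound -/
theorem block_core (hR : D.Rad ρ)
    (hdead : ∀ j, D.it j ∉ Al → ∀ a, D.om j a = 0) (hM : 0 < M) (hM' : 0 < M')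
    (hb : 0 < b) (hb' : 0 < b') (hF : Fit b pr t) (hF' : Fit b' pr' t') (hW : D.Wts pr t)
    (hW' : D.Wts pr' t') (hc : c ∣ b) (hc' : c' ∣ b') (R : Finset (Λ × Λ)) (A A' : Finset Λ)
    {Pw Lo : ℕ × ℕ → Prop} {f g : ℕ → ℝ} (hf : ∀ q ∈ Qi D Al t A, 0 ≤ f q)
    (hg : ∀ r ∈ Qi D Al t' A', 0 ≤ g r)
    (hP : ∀ e ∈ D.PE R (D.uA M b pr t A c) (D.uA M' b' pr' t' A' c'), Pw e)
    (hLo : ∀ e ∈ Qi D Al t A ×ˢ Qi D Al t' A', Pw e → ¬ Lo e →
      D.iF R (D.uA M b pr t A c) (D.uA M' b' pr' t' A' c') e ≤ f e.1 * g e.2) :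
    Q R (D.uA M b pr t A c) (D.uA M' b' pr' t' A' c') ≤
      (∑ q ∈ Qi D Al t A, f q) * ∑ r ∈ Qi D Al t' A', g r +
      ∑ e ∈ (Qi D Al t A ×ˢ Qi D Al t' A').filter (fun e => Pw e ∧ Lo e),
        D.pb ρ M b pr c e.1 M' b' pr' c' e.2 := by
  classical
  set V := Qi D Al t A with hV
  set W := Qi D Al t' A' with hWd
  have hsub := PE_sub hdead hM hM' hb hb' hF hF' hW hW' hc hc' R A A'
  rw [D.Q_eq]
  have hterm : ∀ e ∈ D.PE R (D.uA M b pr t A c) (D.uA M' b' pr' t' A' c'),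
      D.iF R (D.uA M b pr t A c) (D.uA M' b' pr' t' A' c') e ≤ f e.1 * g e.2 +
          (if Pw e ∧ Lo e then D.pb ρ M b pr c e.1 M' b' pr' c' e.2 else 0) := by
    intro e he
    have hm := Finset.mem_product.1 (hsub he)
    have i1 : e.1 ∈ t.items := (mem_Qi.1 hm.1).1
    have i2 : e.2 ∈ t'.items := (mem_Qi.1 hm.2).1
    by_cases hl : Pw e ∧ Lo e
    · rw [if_pos hl]
      have h1 := iF_le hR hM hM' hb hb' hF hF' hW hW' hc hc' R A A' e i1 i2
      have h2 := mul_nonneg (hf _ hm.1) (hg _ hm.2)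
      linarith
    · rw [if_neg hl, add_zero]
      have hPe := hP e he
      exact hLo e (hsub he) hPe fun h => hl ⟨hPe, h⟩
  refine (Finset.sum_le_sum hterm).trans ?_
  rw [Finset.sum_add_distrib]
  refine add_le_add ?_ ?_
  · refine (Finset.sum_le_sum_of_subset_of_nonneg hsub fun e he _ => ?_).trans (le_of_eq ?_)
    · have hm := Finset.mem_product.1 he
      exact mul_nonneg (hf _ hm.1) (hg _ hm.2)
    · rw [Finset.sum_mul_sum, ← Finset.sum_product']
  · rw [← Finset.sum_filter]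
    refine Finset.sum_le_sum_of_subset_of_nonneg ?_ fun e _ _ =>
      Par.pb_nonneg hR.pos _ _ _ _ _ _ _ _ _ _
    intro e he
    rw [Finset.mem_filter] at he ⊢
    exact ⟨hsub he.1, he.2⟩

/-- scale of a pair of items at two nodes -/
noncomputable def DaI (ρ : ℕ → ℝ) (M b pr c M' b' pr' c' : ℕ) (e : ℕ × ℕ) : ℝ :=
  Da (e.1 / pr) M (e.2 / pr') M' ((b : ℝ) / c * ρ e.1) ((b' : ℝ) / c' * ρ e.2)

/-- anatomy factor of a pair of items above its scale -/
noncomputable def anI (ρ : ℕ → ℝ) (M b pr c M' b' pr' c' : ℕ) (e : ℕ × ℕ) : ℝ :=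
  anF (cof (e.1 / pr / M.gcd (e.1 / pr)) (e.2 / pr' / M'.gcd (e.2 / pr')))
    (cof (e.2 / pr' / M'.gcd (e.2 / pr')) (e.1 / pr / M.gcd (e.1 / pr)))
    (DaI ρ M b pr c M' b' pr' c' e)

lemma Da_swap (w M w' M' : ℕ) (r r' : ℝ) : Da w' M' w M r' r = Da w M w' M' r r' := by
  unfold Da Crest.Agent.R4.AvgItem710.Dp; exact max_comm _ _

lemma anF_swap (x y : ℕ) (T : ℝ) : anF y x T = anF x y T := by unfold anF; rw [mul_comm]

open Classical in
/-- **a side with sieve** (right): the pairs outside `Lo` are generic with the mass of the right side -/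
theorem side_block {C : ℝ} (hC : PairO C) (hC0 : 0 ≤ C) (hR : D.Rad ρ)
    (hdead : ∀ j, D.it j ∉ Al → ∀ a, D.om j a = 0) (hM : 0 < M) (hM' : 0 < M')
    (hb : 0 < b) (hb' : 0 < b') (hF : Fit b pr t) (hF' : Fit b' pr' t') (hW : D.Wts pr t)
    (hW' : D.Wts pr' t') (hc : c ∣ b) (hc' : c' ∣ b') {K : ℝ} {P : ℕ → Finset ℕ}
    {u : ℕ → ℕ → ℤ → ℝ} (ho : OmW D b' pr' t' K P u) (R : Finset (Λ × Λ)) (A A' : Finset Λ)
    {Pw Lo : ℕ × ℕ → Prop} {T : ℝ} (hT : 0 ≤ T)
    (hP : ∀ e ∈ D.PE R (D.uA M b pr t A c) (D.uA M' b' pr' t' A' c'), Pw e)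
    (hLo : ∀ e ∈ Qi D Al t A ×ˢ Qi D Al t' A', Pw e → ¬ Lo e →
      1 ≤ DaI ρ M b pr c M' b' pr' c' e ∧ anI ρ M b pr c M' b' pr' c' e ≤ T) :
    Q R (D.uA M b pr t A c) (D.uA M' b' pr' t' A' c') ≤
      C * K * T * ((∑ q ∈ Qi D Al t A, (b : ℝ) / c * ρ q) *
        ∑ r ∈ Qi D Al t' A', (b' : ℝ) / c' * ρ r * dens (P r)) +
      ∑ e ∈ (Qi D Al t A ×ˢ Qi D Al t' A').filter (fun e => Pw e ∧ Lo e),
        D.pb ρ M b pr c e.1 M' b' pr' c' e.2 := by
  classical
  have hd : ∀ r ∈ Qi D Al t' A', 0 ≤ dens (P r) := fun r hr =>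
    (dens_pos (ho.pm _ (mem_Qi.1 hr).1)).le
  have hK := ho.K0
  have key := block_core hR hdead hM hM' hb hb' hF hF' hW hW' hc hc' R A A'
    (f := fun q => C * K * T * ((b : ℝ) / c * ρ q)) (g := fun r => (b' : ℝ) / c' * ρ r * dens (P r))
    (fun q _ => by
      have := (hR.pos q).le
      positivity)
    (fun r hr => by
      have := (hR.pos r).le
      have := hd r hr
      positivity) hP
    (fun e he h1 h2 => by
      have hm := Finset.mem_product.1 he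
      obtain ⟨k1, k2⟩ := hLo e he h1 h2
      refine (iF_one_sided hC hR hM hM' hb hb' hF hF' hW hW' hc hc' ho R A A' e
        (mem_Qi.1 hm.1).1 (mem_Qi.1 hm.2).1 k1).trans ?_
      have h4 : 0 ≤ C * K * ((b : ℝ) / c * ρ e.1 * ((b' : ℝ) / c' * ρ e.2 * dens (P e.2))) := by
        have := (hR.pos e.1).le
        have := (hR.pos e.2).le
        have := hd _ hm.2
        positivity
      calc _ ≤ C * K * ((b : ℝ) / c * ρ e.1 * ((b' : ℝ) / c' * ρ e.2 * dens (P e.2))) * T :=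
            mul_le_mul_of_nonneg_left k2 h4
        _ = _ := by ring)
  refine key.trans (le_of_eq ?_)
  rw [← Finset.mul_sum]
  ring

/-- **the energy of a pair of items, no sieve on the right side** -/
theorem iF_one_sided' {C : ℝ} (hC : PairO C) (hR : D.Rad ρ) (hM : 0 < M) (hM' : 0 < M')
    (hb : 0 < b) (hb' : 0 < b') (hF : Fit b pr t) (hF' : Fit b' pr' t') (hW : D.Wts pr t)
    (hW' : D.Wts pr' t') (hc : c ∣ b) (hc' : c' ∣ b') {K : ℝ} {P : ℕ → Finset ℕ}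
    {u : ℕ → ℕ → ℤ → ℝ} (ho : OmW D b pr t K P u) (R : Finset (Λ × Λ)) (A A' : Finset Λ)
    (e : ℕ × ℕ) (he : e.1 ∈ t.items) (he' : e.2 ∈ t'.items)
    (hD : 1 ≤ DaI ρ M b pr c M' b' pr' c' e) :
    D.iF R (D.uA M b pr t A c) (D.uA M' b' pr' t' A' c') e ≤
      C * K * (((b' : ℝ) / c' * ρ e.2) * (((b : ℝ) / c * ρ e.1) * dens (P e.1))) *
        anI ρ M b pr c M' b' pr' c' e := by
  obtain ⟨a1, a2, a3⟩ := hF.item _ he
  obtain ⟨a1', a2', a3'⟩ := hF'.item _ he'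
  have w0 : 0 < e.1 / pr := Nat.div_pos (Nat.le_of_dvd a1 a2) (Nat.pos_of_dvd_of_pos a2 a1)
  have w0' : 0 < e.2 / pr' :=
    Nat.div_pos (Nat.le_of_dvd a1' a2') (Nat.pos_of_dvd_of_pos a2' a1')
  have c0 : (0 : ℝ) < c := by exact_mod_cast Nat.pos_of_dvd_of_pos hc hb
  have c0' : (0 : ℝ) < c' := by exact_mod_cast Nat.pos_of_dvd_of_pos hc' hb'
  have b0 : (0 : ℝ) < b := by exact_mod_cast hb
  have b0' : (0 : ℝ) < b' := by exact_mod_cast hb'
  have r0 : 0 < (b : ℝ) / c * ρ e.1 := mul_pos (by positivity) (hR.pos _)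
  have r0' : 0 < (b' : ℝ) / c' * ρ e.2 := mul_pos (by positivity) (hR.pos _)
  have hx : ∀ l ∈ P e.1, ExF l (su (c * mp t e.1) (u e.1) l) := fun l hl =>
    (ho.ex _ he l hl).comp_mul (ho.pm _ he l hl) fun h => by
      have h1 : l ∣ c * mp t e.1 := by exact_mod_cast h
      exact ho.nb _ he l hl (h1.trans (mul_dvd_mul_right hc _))
  refine (iF_le_prod hM hM' hb hb' hF hF' hW hW' hc hc' R A A' e).trans ?_
  rw [Finset.sum_comm]
  have key := fam_one_sided hC (fam_node hR hb' hF' hW' hc' he' A')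
    (famW_node hR hb hF hW hc ho he A) hM' hM w0' w0 r0' r0 (ho.pm _ he) (ho.dv _ he) hx
    (by rw [Da_swap]; exact hD)
  rw [Da_swap, anF_swap] at key
  refine le_trans (le_of_eq ?_) key
  refine Finset.sum_congr rfl fun j' _ => Finset.sum_congr rfl fun j _ => ?_
  congr 1
  funext y
  exact mul_comm _ _

open Classical in
/-- **a side with sieve** (left) -/
theorem side_block' {C : ℝ} (hC : PairO C) (hC0 : 0 ≤ C) (hR : D.Rad ρ)
    (hdead : ∀ j, D.it j ∉ Al → ∀ a, D.om j a = 0) (hM : 0 < M) (hM' : 0 < M')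
    (hb : 0 < b) (hb' : 0 < b') (hF : Fit b pr t) (hF' : Fit b' pr' t') (hW : D.Wts pr t)
    (hW' : D.Wts pr' t') (hc : c ∣ b) (hc' : c' ∣ b') {K : ℝ} {P : ℕ → Finset ℕ}
    {u : ℕ → ℕ → ℤ → ℝ} (ho : OmW D b pr t K P u) (R : Finset (Λ × Λ)) (A A' : Finset Λ)
    {Pw Lo : ℕ × ℕ → Prop} {T : ℝ} (hT : 0 ≤ T)
    (hP : ∀ e ∈ D.PE R (D.uA M b pr t A c) (D.uA M' b' pr' t' A' c'), Pw e)
    (hLo : ∀ e ∈ Qi D Al t A ×ˢ Qi D Al t' A', Pw e → ¬ Lo e →
      1 ≤ DaI ρ M b pr c M' b' pr' c' e ∧ anI ρ M b pr c M' b' pr' c' e ≤ T) :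
    Q R (D.uA M b pr t A c) (D.uA M' b' pr' t' A' c') ≤
      C * K * T * ((∑ q ∈ Qi D Al t A, (b : ℝ) / c * ρ q * dens (P q)) *
        ∑ r ∈ Qi D Al t' A', (b' : ℝ) / c' * ρ r) +
      ∑ e ∈ (Qi D Al t A ×ˢ Qi D Al t' A').filter (fun e => Pw e ∧ Lo e),
        D.pb ρ M b pr c e.1 M' b' pr' c' e.2 := by
  classical
  have hd : ∀ q ∈ Qi D Al t A, 0 ≤ dens (P q) := fun q hq =>
    (dens_pos (ho.pm _ (mem_Qi.1 hq).1)).le
  have hK := ho.K0
  have key := block_core hR hdead hM hM' hb hb' hF hF' hW hW' hc hc' R A A'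
    (f := fun q => (b : ℝ) / c * ρ q * dens (P q)) (g := fun r => C * K * T * ((b' : ℝ) / c' * ρ r))
    (fun q hq => by
      have := (hR.pos q).le
      have := hd q hq
      positivity)
    (fun r hr => by
      have := (hR.pos r).le
      positivity) hP
    (fun e he h1 h2 => by
      have hm := Finset.mem_product.1 he
      obtain ⟨k1, k2⟩ := hLo e he h1 h2
      refine (iF_one_sided' hC hR hM hM' hb hb' hF hF' hW hW' hc hc' ho R A A' e
        (mem_Qi.1 hm.1).1 (mem_Qi.1 hm.2).1 k1).trans ?_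
      have h4 : 0 ≤ C * K * ((b' : ℝ) / c' * ρ e.2 * ((b : ℝ) / c * ρ e.1 * dens (P e.1))) := by
        have := (hR.pos e.1).le
        have := (hR.pos e.2).le
        have := hd _ hm.1
        positivity
      calc _ ≤ C * K * ((b' : ℝ) / c' * ρ e.2 * ((b : ℝ) / c * ρ e.1 * dens (P e.1))) * T :=
            mul_le_mul_of_nonneg_left k2 h4
        _ = _ := by ring)
  refine key.trans (le_of_eq ?_)
  rw [← Finset.mul_sum]
  ring

end

end Crest.Agent.R4P.LeafSide28
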