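import Crest.Agent.R4P.AwNw_28
import Crest.Agent.R4P.GInstA194

/-!
R4 (S0004), powers, module D, helper28: **one product function per item**.

* `ExF l f` : a local weight at `l`: constant `1 - 1/l` or the exclusion of one class;
* `PairO C` : the one-sided pair bound (arc against a product weight), see `LeafOs_30`;
* `fam_one_sided` : families of averaged pieces, one side without sieve;
* `iF_one_sided` : the energy of a pair of items, right side below a product weight (`iF_one_sided'`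
  mirrored).
-/

set_option autoImplicit false
set_option linter.unusedSectionVars false
set_option linter.unusedVariables false
open MeasureTheory
open Finset hiding dens

namespace Crest.Agent.R4P.LeafFam28

open Crest.Agent.R4.Tour104 Crest.Agent.R4.Piece464 Crest.Agent.R4.Avg758
open Crest.Agent.R4.HVW560 Crest.Agent.R4P.AvgItem710
open Crest.Agent.R4.Ovl560 (LW nw nw_nonneg nw_add exw dens dens_pos)
open Crest.Agent.R4.Item464 (mn)
open Crest.Agent.R4P.AwNw28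

/-- local weight at `l`: constant `1 - 1/l` or the exclusion of one class -/
def ExF (l : ℕ) (f : ℤ → ℝ) : Prop :=
  (∀ a, f a = 1 - 1 / (l : ℝ)) ∨ ∃ c : ℤ, ∀ a, f a = if a ≡ c [ZMOD l] then 0 else 1

lemma ExF.nonneg {l : ℕ} (hl : l.Prime) {f : ℤ → ℝ} (h : ExF l f) (a : ℤ) : 0 ≤ f a := by
  rcases h with h | ⟨c, h⟩
  · rw [h, sub_nonneg, div_le_one (by exact_mod_cast hl.pos)]
    exact_mod_cast hl.one_lt.le
  · rw [h]; split_ifs <;> norm_num

lemma ExF.le_one {l : ℕ} {f : ℤ → ℝ} (h : ExF l f) (a : ℤ) : f a ≤ 1 := by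
  rcases h with h | ⟨c, h⟩
  · rw [h]
    have : (0 : ℝ) ≤ 1 / (l : ℝ) := by positivity
    linarith
  · rw [h]; split_ifs <;> norm_num

lemma ExF.per {l : ℕ} {f : ℤ → ℝ} (h : ExF l f) (a : ℤ) : f (a + l) = f a := by
  rcases h with h | ⟨c, h⟩
  · rw [h, h]
  · rw [h, h]
    have : a + l ≡ c [ZMOD l] ↔ a ≡ c [ZMOD l] := by
      constructor
      · intro h'
        have h1 : a ≡ a + l [ZMOD l] := Int.modEq_iff_dvd.2 ⟨1, by ring⟩
        exact h1.trans h'
      · intro h'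
        have h1 : a + l ≡ a [ZMOD l] := Int.modEq_iff_dvd.2 ⟨-1, by ring⟩
        exact h1.trans h'
    simp only [this]

lemma LW_of {P : Finset ℕ} (hP : ∀ l ∈ P, l.Prime) {u : ℕ → ℤ → ℝ} (h : ∀ l ∈ P, ExF l (u l)) :
    LW P u := fun l hl => ⟨(h l hl).nonneg (hP l hl), (h l hl).per⟩

/-- raising or scaling by a number prime to `l` -/
lemma ExF.comp_mul {l : ℕ} (hl : l.Prime) {f : ℤ → ℝ} (h : ExF l f) {m : ℤ} (hm : ¬ (l : ℤ) ∣ m) :
    ExF l (fun a => f (a * m)) := by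
  rcases h with h | ⟨c, h⟩
  · exact Or.inl fun a => h _
  · right
    have hc : IsCoprime m (l : ℤ) := by
      refine ((Nat.prime_iff_prime_int.1 hl).coprime_iff_not_dvd.2 hm).symm
    obtain ⟨s, t, hst⟩ := hc
    refine ⟨c * s, fun a => ?_⟩
    show f (a * m) = _
    rw [h]
    have : a * m ≡ c [ZMOD l] ↔ a ≡ c * s [ZMOD l] := by
      constructor
      · intro h1
        have h2 := h1.mul_right s
        refine Int.ModEq.trans (Int.modEq_iff_dvd.2 ⟨-(a * t), ?_⟩) h2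
        linear_combination a * hst
      · intro h1
        have h2 := h1.mul_right m
        refine h2.trans (Int.modEq_iff_dvd.2 ⟨c * t, ?_⟩)
        linear_combination (-c) * hst
    simp only [this]

lemma ExF.mn {l : ℕ} (hl : l.Prime) {u : ℕ → ℤ → ℝ} (h : ExF l (u l)) :
    mn u l = 1 - 1 / (l : ℝ) := by
  have hl0 : (l : ℝ) ≠ 0 := by exact_mod_cast hl.ne_zero
  unfold Crest.Agent.R4.Item464.mn
  rcases h with h | ⟨c, h⟩
  · rw [Finset.sum_congr rfl fun j _ => h _, Finset.sum_const, Finset.card_range, nsmul_eq_mul]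
    field_simp
  · have hlz : (0 : ℤ) < l := by exact_mod_cast hl.pos
    have h1 := Int.emod_nonneg c hlz.ne'
    have h2 := Int.emod_lt_of_pos c hlz
    set c' := (c % l).toNat with hc'
    have h3 : (c' : ℤ) = c % l := Int.toNat_of_nonneg h1
    have h4 : c' ∈ Finset.range l := by rw [Finset.mem_range]; omega
    rw [← Finset.add_sum_erase _ _ h4]
    have e1 : u l (c' : ℤ) = 0 := by
      rw [h, if_pos]
      rw [h3]; exact Int.mod_modEq c l
    have e2 : ∀ j ∈ (Finset.range l).erase c', u l (j : ℤ) = 1 := by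
      intro j hj
      obtain ⟨hj1, hj2⟩ := Finset.mem_erase.1 hj
      rw [h, if_neg]
      intro h5
      apply hj1
      have h6 : (j : ℤ) % l = c % l := h5
      rw [Int.emod_eq_of_lt (by positivity) (by exact_mod_cast Finset.mem_range.1 hj2)] at h6
      rw [← h3] at h6
      exact_mod_cast h6
    rw [e1, Finset.sum_congr rfl e2, Finset.sum_const, Finset.card_erase_of_mem h4,
      Finset.card_range, nsmul_eq_mul, mul_one, zero_add, Nat.cast_sub hl.one_lt.le, Nat.cast_one]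
    field_simp

/-- anatomy factor of a pair above the scale `T` -/
noncomputable def anF (x y : ℕ) (T : ℝ) : ℝ :=
  (dens ((x * y).primeFactors.filter fun l : ℕ => T < (l : ℝ)))⁻¹

lemma anF_pos (x y : ℕ) (T : ℝ) : 0 < anF x y T :=
  inv_pos.2 (dens_pos fun l hl => Nat.prime_of_mem_primeFactors (Finset.mem_filter.1 hl).1)

/-- **the one-sided pair bound** -/
def PairO (C : ℝ) : Prop := ∀ (θ r θ' r' : ℝ) (w w' : ℕ) (P : Finset ℕ) (u : ℕ → ℤ → ℝ),
  0 < w → 0 < w' → 0 < r → 0 < r' → (∀ l ∈ P, l.Prime) → (∀ l ∈ P, l ∣ w') →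
  (∀ l ∈ P, ExF l (u l)) → 1 ≤ Dp w w' r r' →
  I (fun y => arc θ r w y * pc θ' (-r') r' w' (nw P u) y) ≤
    C * (r * (r' * dens P)) * anF (cof w w') (cof w' w) (Dp w w' r r')

lemma Wt_nw' {w : ℕ} {P : Finset ℕ} {u : ℕ → ℤ → ℝ} (hu : LW P u) (hP : ∀ l ∈ P, l ∣ w) :
    Wt w (nw P u) := ⟨fun a => nw_nonneg hu a, fun a => by
  have := nw_add hu (q := w) hP a 1
  rwa [mul_one] at this⟩

lemma gcdA_not_dvd {w m l : ℕ} (hl : l.Prime) (hc : Nat.Coprime m w) (hlw : l ∣ w) :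
    ¬ (l : ℤ) ∣ Int.gcdA m w := by
  intro h
  have h1 : (m : ℤ) * (1 * Int.gcdA m w) ≡ 1 [ZMOD w] := gcdA_mul hc 1
  have h2 : (m : ℤ) * (1 * Int.gcdA m w) ≡ 1 [ZMOD l] := h1.of_dvd (by exact_mod_cast hlw)
  have h3 : (m : ℤ) * (1 * Int.gcdA m w) ≡ 0 [ZMOD l] := by
    rw [one_mul]
    exact Int.modEq_zero_iff_dvd.2 (h.mul_left _)
  have h4 : (l : ℤ) ∣ 1 := by
    have := (h3.symm.trans h2)
    have := Int.modEq_iff_dvd.1 this
    simpa using this
  have h5 : l ∣ 1 := by exact_mod_cast h4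
  exact hl.one_lt.ne' (Nat.dvd_one.1 h5)

open Classical in
/-- **one side without sieve**, averaged families -/
theorem fam_one_sided {C : ℝ} (hC : PairO C) {ι ι' : Type*} {J : Finset ι} {J' : Finset ι'}
    {g : ι → ℝ → ℝ} {g' : ι' → ℝ → ℝ} {θ r θ' r' : ℝ} {w M w' M' : ℕ} {α β : ι → ℝ}
    {α' β' : ι' → ℝ} {κ : ι → ℤ → ℝ} {K : ℝ} {P : Finset ℕ} {u : ℕ → ℤ → ℝ}
    (h : Fam J g θ r w α β κ) (h' : FamW J' g' θ' r' w' α' β' K (nw P u))
    (hM : 0 < M) (hM' : 0 < M') (hw : 0 < w) (hw' : 0 < w') (hr : 0 < r) (hr' : 0 < r')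
    (hP : ∀ l ∈ P, l.Prime) (hPw : ∀ l ∈ P, l ∣ w') (hu : ∀ l ∈ P, ExF l (u l))
    (hD : 1 ≤ Da w M w' M' r r') :
    ∑ j ∈ J, ∑ j' ∈ J', I (fun y => Ep M (g j) y * Ep M' (g' j') y) ≤
      C * K * (r * (r' * dens P)) *
        anF (cof (w / M.gcd w) (w' / M'.gcd w')) (cof (w' / M'.gcd w') (w / M.gcd w))
          (Da w M w' M' r r') := by
  have m0 : (0 : ℝ) < rf w M := by exact_mod_cast rf_pos hM
  have m0' : (0 : ℝ) < rf w' M' := by exact_mod_cast rf_pos hM'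
  have w0 := div_pos' (M := M) hw hM
  have w0' := div_pos' (M := M') hw' hM'
  have hLW := LW_of hP hu
  have hW : FamW J g θ r w α β 1 (fun _ => (1 : ℝ)) :=
    Fam.toW h zero_le_one Wt_one fun j hj a => by rw [one_mul]; exact h.one j hj a
  refine (fam_pair_w hW h' hM hM' hw hw').trans ?_
  set P₁ := P.filter (fun p => p ∣ w' / M'.gcd w') with hP₁
  set P₂ := P.filter (fun p => ¬ p ∣ w' / M'.gcd w') with hP₂
  have e1 : aw w M (fun _ => (1 : ℝ)) = fun _ => 1 := aw_const hM 1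
  have e2 : aw w' M' (nw P u) = fun a => dens P₂ * nw P₁ (ru w' M' u) a := by
    funext a
    rw [aw_nw hM' hLW hP hPw a]
    congr 1
    unfold dens
    exact Finset.prod_congr rfl fun l hl => ExF.mn (hP l (Finset.mem_filter.1 hl).1)
      (hu l (Finset.mem_filter.1 hl).1)
  have e3 : ∀ y, pc (rf w' M' * θ') (-(rf w' M' * r')) (rf w' M' * r') (w' / M'.gcd w')
      (aw w' M' (nw P u)) y = dens P₂ * pc (rf w' M' * θ') (-(rf w' M' * r')) (rf w' M' * r')
        (w' / M'.gcd w') (nw P₁ (ru w' M' u)) y := by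
    intro y; rw [e2, AwNw28.pc_smul]
  have e4 : I (fun y => pc (rf w M * θ) (-(rf w M * r)) (rf w M * r) (w / M.gcd w)
        (aw w M fun _ => (1 : ℝ)) y *
        pc (rf w' M' * θ') (-(rf w' M' * r')) (rf w' M' * r') (w' / M'.gcd w')
          (aw w' M' (nw P u)) y) =
      dens P₂ * I (fun y => arc (rf w M * θ) (rf w M * r) (w / M.gcd w) y *
        pc (rf w' M' * θ') (-(rf w' M' * r')) (rf w' M' * r') (w' / M'.gcd w')
          (nw P₁ (ru w' M' u)) y) := by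
    rw [← I_smul]
    congr 1; funext y
    rw [e3, e1]
    unfold arc
    ring
  rw [e4]
  have d2 : 0 < dens P₂ := dens_pos fun l hl => hP l (Finset.mem_filter.1 hl).1
  have hP1 : ∀ l ∈ P₁, l.Prime := fun l hl => hP l (Finset.mem_filter.1 hl).1
  have hP1w : ∀ l ∈ P₁, l ∣ w' / M'.gcd w' := fun l hl => (Finset.mem_filter.1 hl).2
  have hu1 : ∀ l ∈ P₁, ExF l (ru w' M' u l) := fun l hl => by
    refine (hu l (Finset.mem_filter.1 hl).1).comp_mul (hP1 l hl) ?_
    exact gcdA_not_dvd (hP1 l hl) (cop' hM') (hP1w l hl)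
  have key := hC (rf w M * θ) (rf w M * r) (rf w' M' * θ') (rf w' M' * r') (w / M.gcd w)
    (w' / M'.gcd w') P₁ (ru w' M' u) w0 w0' (mul_pos m0 hr) (mul_pos m0' hr') hP1 hP1w hu1 hD
  have hd : dens P = dens P₂ * dens P₁ := by
    unfold dens
    rw [hP₁, hP₂, mul_comm]
    exact (Finset.prod_filter_mul_prod_filter_not P (fun p => p ∣ w' / M'.gcd w') _).symm
  have hK : 0 ≤ 1 * K / ((rf w M : ℝ) * rf w' M') := by
    have := h'.K0
    positivity
  refine (mul_le_mul_of_nonneg_left (mul_le_mul_of_nonneg_left key d2.le) hK).trans (le_of_eq ?_)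
  rw [hd]
  show _ = C * K * (r * (r' * (dens P₂ * dens P₁))) *
    anF (cof (w / M.gcd w) (w' / M'.gcd w')) (cof (w' / M'.gcd w') (w / M.gcd w))
      (Dp (w / M.gcd w) (w' / M'.gcd w') (rf w M * r) (rf w' M' * r'))
  field_simp

section state
open Crest.Agent.R4.Tour758 Crest.Agent.R4.Clos758
open Crest.Agent.R4.ClosL758 Crest.Agent.R4.ClosG758 Crest.Agent.R4.ClosR758
open Crest.Agent.R4.Fam464 Crest.Agent.R4P.Cnt588 Crest.Agent.R4P.Item758
open Crest.Agent.R4P.GInst194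

variable {Λ κ : Type*} [Fintype Λ] [DecidableEq Λ] [Fintype κ] [DecidableEq κ]
  {D : Item758.Par Λ κ} {ρ : ℕ → ℝ} {M M' b pr c b' pr' c' : ℕ} {t t' : IT} {A A' : Finset Λ}

/-- the weights of the item `q` at the node `(pr, t)` are below `K` times a product weight whose
primes divide the leaf modulus -/
structure OmW (D : Item758.Par Λ κ) (b pr : ℕ) (t : IT) (K : ℝ) (P : ℕ → Finset ℕ)
    (u : ℕ → ℕ → ℤ → ℝ) : Prop where
  K0 : 0 ≤ K
  pm : ∀ q ∈ t.items, ∀ l ∈ P q, l.Prime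
  dv : ∀ q ∈ t.items, ∀ l ∈ P q, l ∣ q / pr
  nb : ∀ q ∈ t.items, ∀ l ∈ P q, ¬ l ∣ b * mp t q
  ex : ∀ q ∈ t.items, ∀ l ∈ P q, ExF l (u q l)
  le : ∀ j, D.it j ∈ t.items → ∀ a, D.om j a ≤ K * nw (P (D.it j)) (u (D.it j)) a

/-- the scaled local weights -/
noncomputable def su (m : ℕ) (u : ℕ → ℤ → ℝ) : ℕ → ℤ → ℝ := fun l a => u l (a * m)

/-- the pieces of one item at a node, weights below a product -/
lemma famW_node (hR : D.Rad ρ) (hb : 0 < b) (hF : Fit b pr t) (hW : D.Wts pr t) (hc : c ∣ b)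
    {K : ℝ} {P : ℕ → Finset ℕ} {u : ℕ → ℕ → ℤ → ℝ} (ho : OmW D b pr t K P u)
    {q : ℕ} (hq : q ∈ t.items) (A : Finset Λ) :
    FamW (A.filter fun j => D.it j = q) (fun j => (D.toFT b pr t).U c j) ((b : ℝ) / c * D.γ)
      ((b : ℝ) / c * ρ q) (q / pr) (fun j => (b : ℝ) / c * D.al j) (fun j => (b : ℝ) / c * D.be j)
      K (nw (P q) (su (c * mp t q) (u q))) := by
  have hnd : ∀ l ∈ P q, ¬ (l : ℤ) ∣ ((c * mp t q : ℕ) : ℤ) := fun l hl h => by
    have h1 : l ∣ c * mp t q := by exact_mod_cast h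
    exact ho.nb q hq l hl (h1.trans (mul_dvd_mul_right hc _))
  have hx : ∀ l ∈ P q, ExF l (su (c * mp t q) (u q) l) := fun l hl =>
    (ho.ex q hq l hl).comp_mul (ho.pm q hq l hl) (hnd l hl)
  have hLW : LW (P q) (su (c * mp t q) (u q)) := LW_of (ho.pm q hq) hx
  refine Fam.toW (fam_node hR hb hF hW hc hq A) ho.K0 (Wt_nw' hLW (ho.dv q hq)) fun j hj a => ?_
  have e : D.it j = q := (Finset.mem_filter.1 hj).2
  have h1 := ho.le j (by rw [e]; exact hq) (((c * mp t q : ℕ) : ℤ) * a)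
  rw [e] at h1
  refine h1.trans (le_of_eq ?_)
  congr 1
  unfold nw su
  refine Finset.prod_congr rfl fun l _ => ?_
  rw [mul_comm a]

/-- **the energy of a pair of items, no sieve on the left side** -/
theorem iF_one_sided {C : ℝ} (hC : PairO C) (hR : D.Rad ρ) (hM : 0 < M) (hM' : 0 < M')
    (hb : 0 < b) (hb' : 0 < b') (hF : Fit b pr t) (hF' : Fit b' pr' t') (hW : D.Wts pr t)
    (hW' : D.Wts pr' t') (hc : c ∣ b) (hc' : c' ∣ b') {K : ℝ} {P : ℕ → Finset ℕ}
    {u : ℕ → ℕ → ℤ → ℝ} (ho : OmW D b' pr' t' K P u) (R : Finset (Λ × Λ)) (A A' : Finset Λ)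
    (e : ℕ × ℕ) (he : e.1 ∈ t.items) (he' : e.2 ∈ t'.items)
    (hD : 1 ≤ Da (e.1 / pr) M (e.2 / pr') M' ((b : ℝ) / c * ρ e.1) ((b' : ℝ) / c' * ρ e.2)) :
    D.iF R (D.uA M b pr t A c) (D.uA M' b' pr' t' A' c') e ≤
      C * K * (((b : ℝ) / c * ρ e.1) * (((b' : ℝ) / c' * ρ e.2) * dens (P e.2))) *
        anF (cof (e.1 / pr / M.gcd (e.1 / pr)) (e.2 / pr' / M'.gcd (e.2 / pr')))
          (cof (e.2 / pr' / M'.gcd (e.2 / pr')) (e.1 / pr / M.gcd (e.1 / pr)))
          (Da (e.1 / pr) M (e.2 / pr') M' ((b : ℝ) / c * ρ e.1) ((b' : ℝ) / c' * ρ e.2)) := by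
  obtain ⟨a1, a2, a3⟩ := hF.item _ he
  obtain ⟨a1', a2', a3'⟩ := hF'.item _ he'
  have w0 : 0 < e.1 / pr := Nat.div_pos (Nat.le_of_dvd a1 a2) (Nat.pos_of_dvd_of_pos a2 a1)
  have w0' : 0 < e.2 / pr' :=
    Nat.div_pos (Nat.le_of_dvd a1' a2') (Nat.pos_of_dvd_of_pos a2' a1')
  have c0 : (0 : ℝ) < c := by exact_mod_cast Nat.pos_of_dvd_of_pos hc hb
  have c0' : (0 : ℝ) < c' := by exact_mod_cast Nat.pos_of_dvd_of_pos hc' hb'
  have b0 : (0 : ℝ) < b := by exact_mod_cast hb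
  have b0' : (0 : ℝ) < b' := by exact_mod_cast hb'
  have r0 : 0 < (b : ℝ) / c * ρ e.1 := mul_pos (by positivity) (hR.pos _)
  have r0' : 0 < (b' : ℝ) / c' * ρ e.2 := mul_pos (by positivity) (hR.pos _)
  have hx : ∀ l ∈ P e.2, ExF l (su (c' * mp t' e.2) (u e.2) l) := fun l hl =>
    (ho.ex _ he' l hl).comp_mul (ho.pm _ he' l hl) fun h => by
      have h1 : l ∣ c' * mp t' e.2 := by exact_mod_cast h
      exact ho.nb _ he' l hl (h1.trans (mul_dvd_mul_right hc' _))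
  exact (iF_le_prod hM hM' hb hb' hF hF' hW hW' hc hc' R A A' e).trans
    (fam_one_sided hC (fam_node hR hb hF hW hc he A) (famW_node hR hb' hF' hW' hc' ho he' A')
      hM hM' w0 w0' r0 r0' (ho.pm _ he') (ho.dv _ he') hx hD)

end state

end Crest.Agent.R4P.LeafFam28
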