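import Crest.Agent.R4P.LeafOs_30
import Crest.Agent.R4P.LeafFam_28

/-!
R4 (S0004), powers, module D, helper28: the one-sided pair bound `PairO CV` of `LeafFam_28` from
`LeafOs30.pieces_one`.
-/

set_option autoImplicit false
open MeasureTheory
open Finset hiding dens

namespace Crest.Agent.R4P.PairO28

open Crest.Agent.R4.Tour104 Crest.Agent.R4.Piece464 Crest.Agent.R4.AvgItem710
open Crest.Agent.R4.HVW560
open Crest.Agent.R4.Ovl560 (LW nw nw_nonneg nw_add exw dens dens_pos)
open Crest.Agent.R4P.LeafFam28 Crest.Agent.R4P.LeafOs30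

theorem pairO : PairO CV := by
  classical
  intro θ r θ' r' w w' P u hw hw' hr hr' hPp hPd hu hD
  set B := P.filter fun l => ¬ ∀ a, u l a = 1 - 1 / (l : ℝ) with hB
  have hex : ∀ l, ∃ c : ℤ, l ∈ B → ∀ a, u l a = if a ≡ c [ZMOD l] then 0 else 1 := by
    intro l
    by_cases hl : l ∈ B
    · obtain ⟨h1, h2⟩ := Finset.mem_filter.1 hl
      rcases hu l h1 with h | ⟨c, h⟩
      · exact absurd h h2
      · exact ⟨c, fun _ => h⟩
    · exact ⟨0, fun h => absurd h hl⟩
  choose c' hc' using hex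
  have hnw : nw P u = nw P (vw B c') := by
    funext a
    unfold nw
    refine Finset.prod_congr rfl fun l hl => ?_
    by_cases hlB : l ∈ B
    · rw [vw_mem hlB, hc' l hlB]; rfl
    · rw [vw_not_mem hlB]
      by_contra hne
      refine hlB (Finset.mem_filter.2 ⟨hl, fun h => hne (h a)⟩)
  have hQ : P ⊆ w'.primeFactors := fun l hl =>
    Nat.mem_primeFactors.2 ⟨hPp l hl, hPd l hl, hw'.ne'⟩
  have key := pieces_one (B := B) (Q := P) (c' := c') (ι := Unit) (ι' := Unit)
    {((), ())} (Finset.filter_subset _ _) hw hw' hQ (θ := θ) (θ' := θ') hr hr'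
    (α := fun _ => -r) (β := fun _ => r) (α' := fun _ => -r') (β' := fun _ => r')
    (fun e _ => ⟨le_rfl, le_rfl⟩) (fun e _ => ⟨le_rfl, le_rfl⟩) (fun s s' e _ f _ _ _ _ _ => Subsingleton.elim e f)
  rw [Finset.sum_singleton] at key
  rw [hnw]
  have e1 : max 1 (1 / Dp w w' r r') = 1 :=
    max_eq_left ((div_le_one (by linarith)).2 hD)
  have e2 : AX (cof w w') (cof w' w) (Dp w w' r r') =
      anF (cof w w') (cof w' w) (Dp w w' r r') := by
    unfold AX anF
    rw [max_eq_right hD]
  rw [e1, e2, mul_one] at key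
  refine key.trans (le_of_eq ?_)
  ring

end Crest.Agent.R4P.PairO28
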