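import Crest.Agent.R4P.CrossLocC_25
import Crest.Agent.R4P.LeafSide_28
import Crest.Agent.R4P.PairO_28

/-!
R4 (S0004), powers, module D, helper28: **block bounds of `CrossLocC_25` when one side is sieved** (a leaf
of high level): `TB_leaf`, `TB'_leaf`.

`LoX` : the threshold predicate controls the anatomy of the crossing-level cofactors `x0 e`, `y0 e`;
`JC`  : the present cofactors divide the crossing-level ones (`JC.move` : invariance along the walk).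
-/

set_option autoImplicit false
set_option linter.unusedSectionVars false
set_option linter.unusedVariables false
open Finset hiding dens

namespace Crest.Agent.R4P.TBLeaf28

open Crest.Agent.R4.HVW560 Crest.Agent.R4P.AvgItem710 Crest.Agent.R4.Ovl560
open Crest.Agent.R4.Tour104 Crest.Agent.R4.Tour758 Crest.Agent.R4.Avg758 Crest.Agent.R4.Clos758
open Crest.Agent.R4.ClosL758 Crest.Agent.R4.ClosG758 Crest.Agent.R4.ClosR758
open Crest.Agent.R4.Lam368 (mult lamF DW BW fW Nested Dat)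
open Crest.Agent.R4.Fam464 Crest.Agent.R4P.Cnt588 Crest.Agent.R4P.Walk560 Crest.Agent.R4.Piece464
open Crest.Agent.R4P.GInst194 Crest.Agent.R4P.WalkIT579 Crest.Agent.R4P.Item758
open Crest.Agent.R4P.NMW710 Crest.Agent.R4P.CrossLoc25 Crest.Agent.R4P.CrossLocC25
open Crest.Agent.R4P.LeafFam28 Crest.Agent.R4P.LeafSide28 Crest.Agent.R4P.CofMono28

variable {Λ κ : Type*} [Fintype Λ] [DecidableEq Λ] [Fintype κ] [DecidableEq κ]
variable {D : Par Λ κ} {ρ : ℕ → ℝ} {Al : Finset ℕ}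

/-- the threshold predicate: pairs which are not in `Lo` have scale `≥ 2` and good anatomy -/
structure LoX (Lo : ℝ × ℝ → ℕ × ℕ → Prop) (ρ : ℕ → ℝ) (x0 y0 : ℕ × ℕ → ℕ) : Prop where
  two : ∀ s e, ¬ Lo s e → 2 ≤ Dsc (ρ e.1) (ρ e.2) s
  sd : ∀ s e, ¬ Lo s e → SD (x0 e) (y0 e) (Dsc (ρ e.1) (ρ e.2) s) ≤ 1

lemma LoX.ok {Lo : ℝ × ℝ → ℕ × ℕ → Prop} {x0 y0 : ℕ × ℕ → ℕ} (h : LoX Lo ρ x0 y0) : LoOk Lo ρ :=
  fun s e hn => by have := h.two s e hn; linarith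

/-- the standard threshold predicate: scale at most `T` or bad anatomy above the scale -/
def LoT (T : ℝ) (ρ : ℕ → ℝ) (x0 y0 : ℕ × ℕ → ℕ) (s : ℝ × ℝ) (e : ℕ × ℕ) : Prop :=
  Dsc (ρ e.1) (ρ e.2) s ≤ T ∨ 1 ≤ SD (x0 e) (y0 e) (Dsc (ρ e.1) (ρ e.2) s)

lemma LoX_LoT {T : ℝ} (hT : 2 ≤ T) (x0 y0 : ℕ × ℕ → ℕ) : LoX (LoT T ρ x0 y0) ρ x0 y0 := by
  refine ⟨fun s e h => ?_, fun s e h => ?_⟩ <;>
  · unfold LoT at h
    push Not at h
    linarith [h.1, h.2]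

/-- the present cofactors divide the crossing-level ones -/
structure JC (x0 y0 : ℕ × ℕ → ℕ) (M pr M' pr' : ℕ) (e : ℕ × ℕ) : Prop where
  px : 0 < x0 e
  py : 0 < y0 e
  x : cof (UI M pr e.1) (UI M' pr' e.2) ∣ x0 e
  y : cof (UI M' pr' e.2) (UI M pr e.1) ∣ y0 e

lemma JC.move {x0 y0 : ℕ × ℕ → ℕ} {p M b pr M' b' pr' M₂ b₂ pr₂ M₂' b₂' pr₂' : ℕ} {e : ℕ × ℕ}
    {i i' : Bool} (hp : p.Prime) (h : JC x0 y0 M pr M' pr' e)
    (k : SMv p i M b pr M₂ b₂ pr₂ e.1) (k' : SMv p i' M' b' pr' M₂' b₂' pr₂' e.2) :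
    JC x0 y0 M₂ pr₂ M₂' pr₂' e := by
  obtain ⟨h1, h2⟩ := cof_mv hp k k'
  exact ⟨h.px, h.py, h1.trans h.x, h2.trans h.y⟩

lemma JC.swap {x0 y0 : ℕ × ℕ → ℕ} {M pr M' pr' : ℕ} {e : ℕ × ℕ} (h : JC x0 y0 M pr M' pr' e) :
    JC (fun e => y0 e.swap) (fun e => x0 e.swap) M' pr' M pr e.swap := by
  obtain ⟨q, r⟩ := e
  exact ⟨h.py, h.px, h.y, h.x⟩

variable {Lo : ℝ × ℝ → ℕ × ℕ → Prop} {x0 y0 : ℕ × ℕ → ℕ}

lemma anI_le {M b pr c M' b' pr' c' : ℕ} {e : ℕ × ℕ} (hJ : JC x0 y0 M pr M' pr' e)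
    (hD : 2 ≤ DaI ρ M b pr c M' b' pr' c' e)
    (hS : SD (x0 e) (y0 e) (DaI ρ M b pr c M' b' pr' c' e) ≤ 1) :
    anI ρ M b pr c M' b' pr' c' e ≤ Real.exp 2 := by
  have h1 : anI ρ M b pr c M' b' pr' c' e ≤ anF (x0 e) (y0 e) (DaI ρ M b pr c M' b' pr' c' e) :=
    anF_mono hJ.px hJ.py hJ.x hJ.y le_rfl
  refine h1.trans ((anF_le hD).trans (Real.exp_le_exp.2 ?_))
  linarith

lemma good_pair (hL : LoX Lo ρ x0 y0) {M b pr c M' b' pr' c' : ℕ} {β β' : ℝ}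
    (hβ : (b : ℝ) / c = β) (hβ' : (b' : ℝ) / c' = β') {e : ℕ × ℕ} {s : ℝ × ℝ}
    (hs : sc (sd (e.1 / pr) M β) (sd (e.2 / pr') M' β') = s) (hn : ¬ Lo s e)
    (hJ : JC x0 y0 M pr M' pr' e) :
    1 ≤ DaI ρ M b pr c M' b' pr' c' e ∧ anI ρ M b pr c M' b' pr' c' e ≤ Real.exp 2 := by
  have hD : DaI ρ M b pr c M' b' pr' c' e = Dsc (ρ e.1) (ρ e.2) s := by
    unfold DaI
    rw [hβ, hβ']
    have := Da_eq_sc (e.1 / pr) M (e.2 / pr') M' β β' (ρ e.1) (ρ e.2)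
    rw [hs] at this
    exact this
  have h2 := hL.two s e hn
  have h3 := hL.sd s e hn
  rw [← hD] at h2 h3
  exact ⟨by linarith, anI_le hJ h2 h3⟩

open Classical in
/-- sums over the low pairs -/
lemma sum_lo_le {V W : Finset ℕ} {Pw Lw : ℕ × ℕ → Prop} {F G : ℕ × ℕ → ℝ}
    (hG : ∀ e, 0 ≤ G e) (h : ∀ e ∈ V ×ˢ W, Pw e → Lw e → F e ≤ G e) :
    ∑ e ∈ (V ×ˢ W).filter (fun e => Pw e ∧ Lw e), F e ≤ ∑ e ∈ V ×ˢ W, G e := by
  refine (Finset.sum_le_sum fun e he => ?_).trans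
    (Finset.sum_le_sum_of_subset_of_nonneg (Finset.filter_subset _ _) fun e _ _ => hG e)
  obtain ⟨h1, h2, h3⟩ := Finset.mem_filter.1 he
  exact h e h1 h2 h3

variable [WRel κ]

lemma vE_eqL {PP : ℕ → ℕ × ℕ → Prop} {γ : ℝ} {p M b pr M' b' pr' : ℕ} {e : ℕ × ℕ} (h : PP p e)
    (hl : Lo (SE M b pr M' b' pr' e) e) :
    vE γ ρ M b pr M' b' pr' e = (b : ℝ) * b' * VcL PP γ ρ Lo p (SE M b pr M' b' pr' e) e := by
  unfold vE VcL FL
  rw [if_pos h, if_pos ⟨hl, SE_pos M b pr M' b' pr' e⟩]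

lemma vX_eqL {PP : ℕ → ℕ × ℕ → Prop} {γ : ℝ} {p M b pr M' b' pr' : ℕ} {e : ℕ × ℕ} (h : PP p e)
    (hl : Lo (p * (SE M b pr M' b' pr' e).1, p * (SE M b pr M' b' pr' e).2) e) :
    vX γ ρ p M b pr M' b' pr' e = (b : ℝ) * b' * VxL PP γ ρ Lo p (SE M b pr M' b' pr' e) e := by
  unfold vX VxL FL
  rw [if_pos h, if_pos ⟨hl, mul_nonneg (Nat.cast_nonneg _) (SE_pos M b pr M' b' pr' e)⟩]

/-- scale pair after a one-sided exit (`z` : what is left of the other item) -/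
def scx (p z : ℕ) (s : ℝ × ℝ) : ℝ × ℝ := if p ∣ z then s else (p * s.1, p * s.2)

variable {sp : ℕ → Finset Λ} {p : ℕ}

open Classical in
/-- **left tie against a sieved side** -/
theorem TB_leaf {C : ℝ} (hC : PairO C) (hC0 : 0 ≤ C) (hL : LoX Lo ρ x0 y0) (hR : D.Rad ρ)
    (hdead : ∀ j, D.it j ∉ Al → ∀ a, D.om j a = 0)
    {M M' b pr b' pr' : ℕ} {S : Finset ℕ} {t₁ t₀ σ' : IT} {A A₂ : Finset Λ} {d u : DT Λ κ}
    (h : SideI D sp b pr (.br p S t₁ t₀) A d) (k : SideI D sp b' pr' σ' A₂ u)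
    (hM : 0 < M) (hM' : 0 < M') (f : ∀ q ∈ t₀.items, ¬ p ∣ q / pr)
    {K : ℝ} {P : ℕ → Finset ℕ} {v : ℕ → ℕ → ℤ → ℝ} (ho : OmW D b' pr' σ' K P v)
    (hJ : ∀ e ∈ Qi D Al t₀ A ×ˢ Qi D Al σ' A₂, JC x0 y0 M pr M' pr' e)
    {PP : ℕ → ℕ × ℕ → Prop}
    (hP₁ : ∀ e ∈ D.PE (Ro (D.rho p)) (D.uA M (b * p) pr t₀ A p) (D.uA M' b' pr' σ' A₂ 1), PP p e)
    (hP₂ : ∀ e ∈ D.PE (Ro (D.rho p)) (D.uA M (b * p) pr t₀ A 1) (D.uA (p * M') b' pr' σ' A₂ 1),
      PP p e) :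
    TB D Al (VcL PP D.γ ρ Lo) (VxL PP D.γ ρ Lo)
      (C * K * Real.exp 2 * (SR ρ b (Qi D Al t₀ A) *
        ∑ r ∈ Qi D Al σ' A₂, (b' : ℝ) * ρ r * dens (P r)))
      p M b pr t₀ A M' b' pr' σ' A₂ := by
  have hpp : p.Prime := h.hF.1
  have hp0 : 0 < p := hpp.pos
  have hpR : (0:ℝ) < p := by exact_mod_cast hp0
  have hM2 : 0 < p * M' := Nat.mul_pos hp0 hM'
  have hbp : ((b * p : ℕ) : ℝ) / p = b := by push_cast; field_simp
  have hb1 : (b' : ℝ) / (1 : ℕ) = b' := by simp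
  constructor
  · have key := side_block hC hC0 hR hdead hM hM' h.br₀.hb k.hb h.br₀.hF k.hF h.br₀.hW k.hW
      (Dvd.intro_left b rfl) (one_dvd _) ho (Ro (D.rho p)) A A₂ (Pw := PP p)
      (Lo := fun e => Lo (SE M b pr M' b' pr' e) e) (Real.exp_pos 2).le hP₁
      (fun e he _ hn => good_pair hL hbp hb1 rfl hn (hJ e he))
    refine key.trans (add_le_add (le_of_eq ?_) ?_)
    · unfold SR
      rw [hbp, hb1]
    · refine sum_lo_le (fun e => mul_nonneg (by positivity) (VcL_nonneg hR.pos _ _ _))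
        fun e _ h1 h2 => ?_
      rw [pb_colL hp0, vE_eqL h1 h2]
  · have h0 : (0:ℝ) ≤ 1 / (p:ℝ) := by positivity
    have hmv : ∀ e ∈ Qi D Al t₀ A ×ˢ Qi D Al σ' A₂,
        SMv p false M b pr M (b * p) pr e.1 := by
      intro e he
      have := smv_missing (M := M) (b := b) (f _ (mem_Qi.1 (Finset.mem_product.1 he).1).1)
      exact this
    have hsc : ∀ e ∈ Qi D Al t₀ A ×ˢ Qi D Al σ' A₂,
        JC x0 y0 M pr (p * M') pr' e ∧ SE M (b * p) pr (p * M') b' pr' e =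
          scx p (UI M' pr' e.2) (SE M b pr M' b' pr' e) := by
      intro e he
      obtain ⟨a1, a2⟩ := Finset.mem_product.1 he
      obtain ⟨q0, q1, -⟩ := k.hF.item _ (mem_Qi.1 a2).1
      have w0' : 0 < e.2 / pr' := Nat.div_pos (Nat.le_of_dvd q0 q1) (Nat.pos_of_dvd_of_pos q1 q0)
      unfold scx
      split_ifs with hd
      · have k2 := smv_avg_drop (b := b') hpp hM' w0' hd
        exact ⟨(hJ e he).move hpp (hmv e he) k2, SE_inv hpp (hmv e he) k2 (Or.inr rfl)⟩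
      · have k2 := smv_avg_raise (b := b') hpp hM' hd
        exact ⟨(hJ e he).move hpp (hmv e he) k2, SE_raise (hmv e he) k2⟩
    have key := side_block hC hC0 hR hdead hM hM2 h.br₀.hb k.hb h.br₀.hF k.hF h.br₀.hW k.hW
      (one_dvd _) (one_dvd _) ho (Ro (D.rho p)) A A₂ (Pw := PP p)
      (Lo := fun e => Lo (SE M (b * p) pr (p * M') b' pr' e) e) (Real.exp_pos 2).le
      hP₂
      (fun e he _ hn => good_pair hL (by simp) hb1 rfl hn (hsc e he).1)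
    refine (mul_le_mul_of_nonneg_left key h0).trans ?_
    rw [mul_add]
    refine add_le_add (le_of_eq ?_) ?_
    · have e1 : ∑ q ∈ Qi D Al t₀ A, (((b * p : ℕ) : ℝ)) / (1 : ℕ) * ρ q =
          p * SR ρ b (Qi D Al t₀ A) := by
        unfold SR
        rw [Finset.mul_sum]
        refine Finset.sum_congr rfl fun q _ => ?_
        push_cast
        ring
      rw [e1, hb1]
      field_simp
    · rw [Finset.mul_sum]
      refine sum_lo_le (fun e => mul_nonneg (by positivity)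
        (VT_nonneg (fun _ _ _ => VcL_nonneg hR.pos _ _ _) (fun _ _ _ => VxL_nonneg hR.pos _ _ _) _ _ _ _))
        fun e he h1 h2 => ?_
      obtain ⟨a1, a2⟩ := Finset.mem_product.1 he
      obtain ⟨q0, q1, -⟩ := k.hF.item _ (mem_Qi.1 a2).1
      have w0' : 0 < e.2 / pr' := Nat.div_pos (Nat.le_of_dvd q0 q1) (Nat.pos_of_dvd_of_pos q1 q0)
      have h3 := (hsc e he).2
      rw [h3] at h2
      rw [pb_one]
      unfold VT
      unfold scx at h2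
      split_ifs with hd
      · rw [if_pos hd] at h2
        rw [vE_drop hpp D.γ (hmv e he) (smv_avg_drop hpp hM' w0' hd) (Or.inr rfl)
          (by push_cast; ring), vE_eqL h1 h2]
      · rw [if_neg hd] at h2
        rw [vE_exit hpp D.γ (hmv e he) (smv_avg_raise hpp hM' hd) (by push_cast; ring),
          vX_eqL h1 h2]

open Classical in
/-- **right tie against a sieved side** -/
theorem TB'_leaf {C : ℝ} (hC : PairO C) (hC0 : 0 ≤ C) (hL : LoX Lo ρ x0 y0) (hR : D.Rad ρ)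
    (hdead : ∀ j, D.it j ∉ Al → ∀ a, D.om j a = 0)
    {M M' b pr b' pr' : ℕ} {S' : Finset ℕ} {t₁' t₀' σ : IT} {A' A₂ : Finset Λ} {d' u : DT Λ κ}
    (h' : SideI D sp b' pr' (.br p S' t₁' t₀') A' d') (k : SideI D sp b pr σ A₂ u)
    (hM : 0 < M) (hM' : 0 < M') (f' : ∀ q ∈ t₀'.items, ¬ p ∣ q / pr')
    {K : ℝ} {P : ℕ → Finset ℕ} {v : ℕ → ℕ → ℤ → ℝ} (ho : OmW D b pr σ K P v)
    (hJ : ∀ e ∈ Qi D Al σ A₂ ×ˢ Qi D Al t₀' A', JC x0 y0 M pr M' pr' e)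
    {PP : ℕ → ℕ × ℕ → Prop}
    (hP₁ : ∀ e ∈ D.PE (Ro (D.rho p)) (D.uA M b pr σ A₂ 1) (D.uA M' (b' * p) pr' t₀' A' p), PP p e)
    (hP₂ : ∀ e ∈ D.PE (Ro (D.rho p)) (D.uA (p * M) b pr σ A₂ 1) (D.uA M' (b' * p) pr' t₀' A' 1),
      PP p e) :
    TB' D Al (VcL PP D.γ ρ Lo) (VxL PP D.γ ρ Lo)
      (C * K * Real.exp 2 * ((∑ q ∈ Qi D Al σ A₂, (b : ℝ) * ρ q * dens (P q)) *
        SR ρ b' (Qi D Al t₀' A')))
      p M b pr σ A₂ M' b' pr' t₀' A' := by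
  have hpp : p.Prime := h'.hF.1
  have hp0 : 0 < p := hpp.pos
  have hpR : (0:ℝ) < p := by exact_mod_cast hp0
  have hM2 : 0 < p * M := Nat.mul_pos hp0 hM
  have hbp : ((b' * p : ℕ) : ℝ) / p = b' := by push_cast; field_simp
  have hb1 : (b : ℝ) / (1 : ℕ) = b := by simp
  have e0 : ∀ e : ℕ × ℕ, D.pb ρ M b pr 1 e.1 M' (b' * p) pr' p e.2 =
      vE D.γ ρ M b pr M' b' pr' e := by
    intro e
    rw [← pb_one (D := D)]
    unfold Par.pb
    have h : ((b' * p : ℕ):ℝ) / p = (b':ℝ) / (1:ℕ) := by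
      push_cast
      field_simp
    rw [h]
  constructor
  · have key := side_block' hC hC0 hR hdead hM hM' k.hb h'.br₀.hb k.hF h'.br₀.hF k.hW h'.br₀.hW
      (one_dvd _) (Dvd.intro_left b' rfl) ho (Ro (D.rho p)) A₂ A' (Pw := PP p)
      (Lo := fun e => Lo (SE M b pr M' b' pr' e) e) (Real.exp_pos 2).le hP₁
      (fun e he _ hn => good_pair hL hb1 hbp rfl hn (hJ e he))
    refine key.trans (add_le_add (le_of_eq ?_) ?_)
    · unfold SR
      rw [hbp, hb1]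
    · refine sum_lo_le (fun e => mul_nonneg (by positivity) (VcL_nonneg hR.pos _ _ _))
        fun e _ h1 h2 => ?_
      rw [e0, vE_eqL h1 h2]
  · have h0 : (0:ℝ) ≤ 1 / (p:ℝ) := by positivity
    have hmv : ∀ e ∈ Qi D Al σ A₂ ×ˢ Qi D Al t₀' A',
        SMv p false M' b' pr' M' (b' * p) pr' e.2 := by
      intro e he
      exact smv_missing (M := M') (b := b') (f' _ (mem_Qi.1 (Finset.mem_product.1 he).2).1)
    have hsc : ∀ e ∈ Qi D Al σ A₂ ×ˢ Qi D Al t₀' A',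
        JC x0 y0 (p * M) pr M' pr' e ∧ SE (p * M) b pr M' (b' * p) pr' e =
          scx p (UI M pr e.1) (SE M b pr M' b' pr' e) := by
      intro e he
      obtain ⟨a1, a2⟩ := Finset.mem_product.1 he
      obtain ⟨q0, q1, -⟩ := k.hF.item _ (mem_Qi.1 a1).1
      have w0 : 0 < e.1 / pr := Nat.div_pos (Nat.le_of_dvd q0 q1) (Nat.pos_of_dvd_of_pos q1 q0)
      unfold scx
      split_ifs with hd
      · have k2 := smv_avg_drop (b := b) hpp hM w0 hd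
        exact ⟨(hJ e he).move hpp k2 (hmv e he), SE_inv hpp k2 (hmv e he) (Or.inl rfl)⟩
      · have k2 := smv_avg_raise (b := b) hpp hM hd
        exact ⟨(hJ e he).move hpp k2 (hmv e he), SE_raise k2 (hmv e he)⟩
    have key := side_block' hC hC0 hR hdead hM2 hM' k.hb h'.br₀.hb k.hF h'.br₀.hF k.hW h'.br₀.hW
      (one_dvd _) (one_dvd _) ho (Ro (D.rho p)) A₂ A' (Pw := PP p)
      (Lo := fun e => Lo (SE (p * M) b pr M' (b' * p) pr' e) e) (Real.exp_pos 2).le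
      hP₂
      (fun e he _ hn => good_pair hL hb1 (by simp) rfl hn (hsc e he).1)
    refine (mul_le_mul_of_nonneg_left key h0).trans ?_
    rw [mul_add]
    refine add_le_add (le_of_eq ?_) ?_
    · have e1 : ∑ r ∈ Qi D Al t₀' A', (((b' * p : ℕ) : ℝ)) / (1 : ℕ) * ρ r =
          p * SR ρ b' (Qi D Al t₀' A') := by
        unfold SR
        rw [Finset.mul_sum]
        refine Finset.sum_congr rfl fun q _ => ?_
        push_cast
        ring
      rw [e1, hb1]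
      field_simp
    · rw [Finset.mul_sum]
      refine sum_lo_le (fun e => mul_nonneg (by positivity)
        (VT_nonneg (fun _ _ _ => VcL_nonneg hR.pos _ _ _) (fun _ _ _ => VxL_nonneg hR.pos _ _ _) _ _ _ _))
        fun e he h1 h2 => ?_
      obtain ⟨a1, a2⟩ := Finset.mem_product.1 he
      obtain ⟨q0, q1, -⟩ := k.hF.item _ (mem_Qi.1 a1).1
      have w0 : 0 < e.1 / pr := Nat.div_pos (Nat.le_of_dvd q0 q1) (Nat.pos_of_dvd_of_pos q1 q0)
      have h3 := (hsc e he).2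
      rw [h3] at h2
      rw [pb_one]
      unfold VT
      unfold scx at h2
      split_ifs with hd
      · rw [if_pos hd] at h2
        rw [vE_drop hpp D.γ (smv_avg_drop hpp hM w0 hd) (hmv e he) (Or.inl rfl)
          (by push_cast; ring), vE_eqL h1 h2]
      · rw [if_neg hd] at h2
        rw [vE_exit hpp D.γ (smv_avg_raise hpp hM hd) (hmv e he) (by push_cast; ring),
          vX_eqL h1 h2]

end Crest.Agent.R4P.TBLeaf28
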