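import Crest.Agent.R4P.NI_10
import Crest.Agent.R4P.ColS710
import Crest.Agent.R4P.TBLeaf_28

/-!
R4 (S0004), powers, module D, helper28: **leaf sides of a context**.

* `PL X A q` : the primes of `q / A` which are not retained; `uL X q` : the leaf rule of `q`;
* `ctx_OmW` : the weights of a leaf are below `nw (PL ..) (uL ..)`, `K = 1`;
* `dens_PL_le` : `dens (PL ..) ≤ 2 tq (q / A)`;
* `leaf_mass` : `Σ_r b ρ_r dens (P r) ≤ (2/c₀) Σ_j mI`.
-/

set_option autoImplicit false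
set_option linter.unusedSectionVars false
set_option linter.unusedVariables false
open Finset hiding dens

namespace Crest.Agent.R4P.LeafCtx28

open Crest.Agent.R4.HVW560 Crest.Agent.R4P.AvgItem710
open Crest.Agent.R4.Ovl560 (LW nw nw_nonneg nw_add exw dens dens_pos dens_mono)
open Crest.Agent.R4.Tour104 Crest.Agent.R4.Tour758 Crest.Agent.R4.Avg758 Crest.Agent.R4.Clos758
open Crest.Agent.R4.ClosL758 Crest.Agent.R4.ClosG758 Crest.Agent.R4.ClosR758
open Crest.Agent.R4.Fam464 Crest.Agent.R4P.Cnt588 Crest.Agent.R4P.Walk560 Crest.Agent.R4.Piece464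
open Crest.Agent.R4P.GInst194 Crest.Agent.R4P.WalkIT579 Crest.Agent.R4P.Item758
open Crest.Agent.R4P.NMW710 Crest.Agent.R4P.Data758 Crest.Agent.R4P.OmData532
open Crest.Agent.R4P.Bld532 (NS All NodeOk Bk)
open Crest.Agent.R4P.LfDat734 Crest.Agent.R4.LF363
open Crest.Agent.R4.Om532 (locw omw cls_le_one phi_prod prod_one_sub_ge LW_locw)
open Crest.Agent.R4.DeepSt579 (tq tq_nonneg tq_le_one rd)
open Crest.Agent.R4P.Step588 (NDt ND1)
open Crest.Agent.R4P.Skel189 (Ctx top)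
open Crest.Agent.R4P.LeafFam28 Crest.Agent.R4P.LeafSide28 Crest.Agent.R4P.TBLeaf28

/-! ### tree free -/

lemma ExF_uw (θ r : ℝ) (lab : Option ℚ) {l : ℕ} (hl : l.Prime) : ExF l (uw θ r lab l) := by
  cases lab with
  | none => exact Or.inl fun a => uw_none θ r l a
  | some ρ =>
    by_cases h : Act θ r ρ l
    · obtain ⟨c, -, hc⟩ := uw_eq_exw hl h
      exact Or.inr ⟨c, hc⟩
    · exact Or.inl fun a => uw_not_act h a

/-- the retained primes are dropped -/
theorem omw_le_nw {good : Prop} {ret : Finset ℕ} {T : ℕ → Finset ℚ} {u : ℕ → ℤ → ℝ} {w : ℕ}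
    (hu : LW w.primeFactors u) (a : ℤ) :
    omw good ret T u w a ≤ nw (w.primeFactors.filter (· ∉ ret)) u a := by
  classical
  have h0 : 0 ≤ nw (w.primeFactors.filter (· ∉ ret)) u a :=
    Finset.prod_nonneg fun l hl => (hu l (Finset.mem_filter.1 hl).1).1 a
  unfold omw
  split_ifs with hg
  swap
  · exact h0
  have e : nw w.primeFactors (locw ret T u) a =
      (∏ l ∈ w.primeFactors.filter (· ∈ ret), locw ret T u l a) *
        nw (w.primeFactors.filter (· ∉ ret)) u a := by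
    unfold nw
    rw [← Finset.prod_filter_mul_prod_filter_not w.primeFactors (· ∈ ret)]
    congr 1
    refine Finset.prod_congr rfl fun l hl => ?_
    unfold locw
    rw [if_neg (Finset.mem_filter.1 hl).2]
  rw [e]
  refine mul_le_of_le_one_left h0 (Finset.prod_le_one (fun l hl => ?_) fun l hl => ?_)
  · exact ((LW_locw hu) l (Finset.mem_filter.1 hl).1).1 a
  · unfold locw
    rw [if_pos (Finset.mem_filter.1 hl).2]
    exact cls_le_one _ _ _

lemma dens_nonret_le {ret : Finset ℕ} {w : ℕ} (hw : 0 < w) (hret : ∀ l ∈ ret, l.Prime)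
    (hs : ∑ b ∈ ret, (1 : ℝ) / b ≤ 1 / 2) :
    dens (w.primeFactors.filter (· ∉ ret)) ≤ 2 * tq w := by
  classical
  have e : tq w = dens (w.primeFactors.filter (· ∈ ret)) * dens (w.primeFactors.filter (· ∉ ret)) := by
    unfold tq
    rw [phi_prod hw]
    unfold dens
    exact (Finset.prod_filter_mul_prod_filter_not w.primeFactors (· ∈ ret) _).symm
  have h1 : (1 : ℝ) / 2 ≤ dens (w.primeFactors.filter (· ∈ ret)) := by
    have h2 : ∑ b ∈ w.primeFactors.filter (· ∈ ret), (1 : ℝ) / b ≤ 1 / 2 :=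
      le_trans (Finset.sum_le_sum_of_subset_of_nonneg
        (fun b hb => (Finset.mem_filter.1 hb).2) fun i _ _ => by positivity) hs
    have := prod_one_sub_ge (w.primeFactors.filter (· ∈ ret)) (fun l : ℕ => 1 / (l : ℝ))
      (fun l _ => by positivity) (fun l hl => by
        have hlp := Nat.prime_of_mem_primeFactors (Finset.mem_filter.1 hl).1
        have : (1 : ℝ) < l := by exact_mod_cast hlp.one_lt
        rw [div_le_one (by linarith)]; exact this.le)
    unfold dens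
    linarith
  have h2 : 0 < dens (w.primeFactors.filter (· ∉ ret)) :=
    dens_pos fun l hl => Nat.prime_of_mem_primeFactors (Finset.mem_filter.1 hl).1
  rw [e]
  nlinarith

/-! ### masses -/

section mass
variable {Λ κ : Type*} [Fintype Λ] [DecidableEq Λ] [Fintype κ] [DecidableEq κ] [WRel κ]
  {D : Par Λ κ} {ρ : ℕ → ℝ} {Al : Finset ℕ} {sp : ℕ → Finset Λ} {c₀ : ℝ}

/-- **the sieved mass of a leaf** -/
theorem leaf_mass {d : DT Λ κ} (hab : ∀ j, D.al j ≤ D.be j) {b pr : ℕ} {Sl : Finset ℕ}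
    {A : Finset Λ} (h : SideI D sp b pr (.leaf Sl) A d) (hc₀ : 0 < c₀) (hρ : ∀ q, 0 < ρ q)
    (hmean : ∀ j, D.it j ∈ Al → D.it j ∈ Sl →
      c₀ * tq (D.it j / pr) ≤ mnw (D.it j / pr) (D.om j))
    (hfull : ∀ q ∈ Al, 2 * ρ q ≤
      ∑ j ∈ Finset.univ.filter (fun j => D.it j = q), (D.be j - D.al j))
    (hil : IL D.it A) (hnn : ∀ j, 0 ≤ mI d j) {P : ℕ → Finset ℕ} {K : ℝ} (hK : 0 ≤ K)
    (hP : ∀ q ∈ Al, q ∈ Sl → dens (P q) ≤ K * tq (q / pr)) :
    ∑ r ∈ Qi D Al (.leaf Sl) A, (b : ℝ) * ρ r * dens (P r) ≤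
      K / c₀ * ∑ j ∈ A.filter (fun j => D.it j ∈ Sl), mI d j := by
  have key := ColW710.mass_node (τ := .leaf Sl) (f := fun _ => 1) hab h hc₀
    (fun q hq hq' => by
      have e1 : pp (.leaf Sl) q = 1 := rfl
      have e2 : prf (.leaf Sl) q = 1 := rfl
      rw [e1, e2, mul_one, one_mul]
      have := tq_nonneg (q / pr)
      linarith)
    (fun j hj hj' => by
      have e1 : pp (.leaf Sl) (D.it j) = 1 := rfl
      rw [e1, mul_one]
      exact hmean j hj hj') hfull hil hnn (fun _ => zero_le_one)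
  simp only [one_mul] at key
  have h2 : ∑ r ∈ Qi D Al (.leaf Sl) A, (b : ℝ) * ρ r * dens (P r) ≤
      K * ∑ q ∈ Qi D Al (.leaf Sl) A, rd b 1 ρ q * tq (q / pr) := by
    rw [Finset.mul_sum]
    refine Finset.sum_le_sum fun q hq => ?_
    obtain ⟨h3, h4, -⟩ := mem_Qi.1 hq
    rw [ColW710.rd_one]
    have := mul_le_mul_of_nonneg_left (hP q h4 h3)
      (mul_nonneg (Nat.cast_nonneg b : (0 : ℝ) ≤ b) (hρ q).le)
    linarith
  refine h2.trans ((mul_le_mul_of_nonneg_left key hK).trans (le_of_eq ?_))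
  show K * (1 / c₀ * ∑ j ∈ A.filter (fun j => D.it j ∈ Sl), mI d j) = _
  ring

end mass

/-! ### contexts -/

section ctx

variable {N : Skel189.Num} {γ : ℝ} {p0 P₀ : ℕ} (X : Ctx N γ p0 P₀)

/-- the sieved primes of an item at a leaf with product `A` -/
noncomputable def PL (A q : ℕ) : Finset ℕ := (q / A).primeFactors.filter (· ∉ rt X.c.t q)

/-- the leaf rule of an item -/
noncomputable def uL (q : ℕ) : ℕ → ℤ → ℝ :=
  uw (thL X.c.γ X.c.t q) (phL X.c.wpL X.c.γ X.c.r X.c.t X.c.lv q)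
    (labL X.c.wpL X.c.γ X.c.r X.c.t X.c.lv q)

variable {X}

/-- **the weights of a leaf** -/
theorem ctx_OmW {u : NS} {Sl : Finset ℕ} (h : NDt X.par (Crest.Agent.R4.Soft104.w X.ψ) X.c.t u (.leaf Sl))
    (Y : Finset (ℕ × ℕ × Finset ℕ)) :
    OmW (X.c.D.par Y) u.B u.A (.leaf Sl) 1 (PL X u.A) (uL X) where
  K0 := zero_le_one
  pm := fun q _ l hl => Nat.prime_of_mem_primeFactors (Finset.mem_filter.1 hl).1
  dv := fun q _ l hl => Nat.dvd_of_mem_primeFactors (Finset.mem_filter.1 hl).1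
  nb := by
    intro q hq l hl hd
    have e1 : mp (.leaf Sl) q = 1 := rfl
    rw [e1, mul_one] at hd
    obtain ⟨-, -, h3⟩ := (Bld532.Fit_of_NodeOk (All.mono (fun _ _ hh => hh.node) h.all)).item q hq
    have hlp := Nat.prime_of_mem_primeFactors (Finset.mem_filter.1 hl).1
    have h4 := Nat.dvd_of_mem_primeFactors (Finset.mem_filter.1 hl).1
    exact hlp.one_lt.ne' (Nat.eq_one_of_dvd_coprimes h3 h4 hd)
  ex := fun q _ l hl => ExF_uw _ _ _ (Nat.prime_of_mem_primeFactors (Finset.mem_filter.1 hl).1)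
  le := by
    intro j hj a
    have e : pp X.c.t ((X.c.D.par Y).it j) = u.A := by
      have h1 := h.all.self.pp _ hj
      have e1 : pp (.leaf Sl) ((X.c.D.par Y).it j) = 1 := rfl
      rw [h1, e1, mul_one]
    have h1 := X.om_le ((X.c.D.par Y).it j) (X.c.bp j.1.1 j.1.2) a
    rw [one_mul]
    refine h1.trans ?_
    unfold omL omT
    rw [e]
    exact omw_le_nw (LW_uw _ _ _ _) a

/-- the densities of the sieved primes of the alive items -/
theorem dens_PL_le {A q : ℕ} (hA : 0 < q / A)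
    (hs : ∑ b ∈ rt X.c.t q, (1 : ℝ) / b ≤ 1 / 2) : dens (PL X A q) ≤ 2 * tq (q / A) :=
  dens_nonret_le hA (fun l hl => (rt_prime X.c.t X.tOk q l hl).1) hs

/-- the sums over the retained primes -/
theorem ctx_half (N : Skel189.Num) : ∃ p₁ : ℕ, ∀ p0 ≥ p₁, ∀ (γ : ℝ) (P₀ : ℕ)
    (X : Ctx N γ p0 P₀), ∀ q ∈ X.S', ∑ b ∈ rt X.c.t q, (1 : ℝ) / b ≤ 1 / 2 := by
  have hB1 := N.hB
  have hC1 := N.hC1
  have hc2 := N.hc2
  obtain ⟨p2, hp2⟩ := LeafA734.rt_half N.B (N.C1 + N.c2) (by linarith)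
  exact ⟨p2, fun p0 hp0 γ P₀ X q hq => (hp2 p0 hp0 X.c.t q (NI927.ctx_pr X hq)
    fun b hb => NI927.ctx_cols X q b hb).1⟩

end ctx

end Crest.Agent.R4P.LeafCtx28
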