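import Crest.Agent.R4P.SameIx_30
import Crest.Agent.R4P.LLCtx_30
import Crest.Agent.R4P.LeafCtx_28

/-!
R4 (S0004), powers pass, group [X] (helper30): **pairs with one index, a leaf against any
node** (both cases of `SameIx_30` together).

* `LfA.omw`  : the weights of a leaf as product weights over all the primes of the rest, `K = 2`;
* `leaf_un`, `un_leaf` : the energy of the unlabelled pairs with one index, leaf left / right.
-/

set_option autoImplicit false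
set_option linter.unusedSectionVars false
set_option linter.unusedVariables false
open Finset hiding dens

namespace Crest.Agent.R4P.SameIx30

open Crest.Agent.R4.Tour104 Crest.Agent.R4.Piece464 Crest.Agent.R4P.AvgItem710
open Crest.Agent.R4.Avg758 Crest.Agent.R4.HVW560
open Crest.Agent.R4P.Item758 Crest.Agent.R4P.Cnt588 Crest.Agent.R4.ClosR758 Crest.Agent.R4.Fam464
open Crest.Agent.R4P.LeafSide28
open Crest.Agent.R4.Tour758 Crest.Agent.R4.Clos758 Crest.Agent.R4.ClosL758 Crest.Agent.R4.ClosG758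
open Crest.Agent.R4P.Data758 Crest.Agent.R4P.OmSt532 Crest.Agent.R4P.OmData532
open Crest.Agent.R4P.LfDat734 Crest.Agent.R4P.WPex189
open Crest.Agent.R4P.Bld532 (NS All NodeOk Bk)
open Crest.Agent.R4P.Step588 (NDt ND1 ctx_NDt uq_lt)
open Crest.Agent.R4P.Skel189 Crest.Agent.R4.LF363
open Crest.Agent.R4.Soft104 (w)
open Crest.Agent.R4P.CrossLoc25 Crest.Agent.R4P.CofMono28
open Crest.Agent.R4.Ovl560 (dens dens_pos CM nw nw_nonneg)
open Crest.Agent.R4P.LeafOs30 (CV AX CV_ge)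
open Crest.Agent.R4P.LeafFam28 (OmW ExF)
open Crest.Agent.R4P.LeafCtx28 (ExF_uw)
open Crest.Agent.R4P.LLCtx30 Crest.Agent.R4P.LLPair30
open Crest.Agent.R4P.TBLeaf28 (JC)
open Crest.Agent.R4P.HiLeafS28 (LoS)
open Crest.Agent.R4P.NMW710 (Qi mem_Qi)

variable {N : Skel189.Num} {γ : ℝ} {p0 P₀ : ℕ} {X : Ctx N γ p0 P₀} {u u' : NS} {τ τ' : IT}

/-- **the weights of a leaf** are at most `2 ×` the product weights over all the primes of the rest -/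
theorem LfA.omw {Y : Finset (ℕ × ℕ × Finset ℕ)} {S : Finset ℕ}
    (h : NDt X.par (w X.ψ) X.c.t u (.leaf S)) (hl : LfA X Y u S) :
    OmW (X.c.D.par Y) u.B u.A (.leaf S) 2 (fun q => (q / u.A).primeFactors)
      (fun q => uw (u.B * X.c.γ) (phC X q) (labC X q)) where
  K0 := by norm_num
  pm := fun q _ l hl => Nat.prime_of_mem_primeFactors hl
  dv := fun q _ l hl => Nat.dvd_of_mem_primeFactors hl
  nb := by
    intro q hq l hl hd
    have e1 : mp (.leaf S) q = 1 := rfl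
    rw [e1, mul_one] at hd
    obtain ⟨-, -, h3⟩ := (Bld532.Fit_of_NodeOk (All.mono (fun _ _ hh => hh.node) h.all)).item q hq
    have hlp := Nat.prime_of_mem_primeFactors hl
    have h4 := Nat.dvd_of_mem_primeFactors hl
    exact hlp.one_lt.ne' (Nat.eq_one_of_dvd_coprimes h3 h4 hd)
  ex := fun q _ l hl => ExF_uw _ _ _ (Nat.prime_of_mem_primeFactors hl)
  le := by
    intro j hj a
    by_cases ha : (X.c.D.par Y).it j ∈ X.S'
    · exact (hl.om _ hj ha).le j rfl a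
    · rw [dead_ctx Y j ha a]
      refine mul_nonneg (by norm_num) (Finset.prod_nonneg fun l hl => ?_)
      exact (ExF_uw _ _ _ (Nat.prime_of_mem_primeFactors hl)).nonneg
        (Nat.prime_of_mem_primeFactors hl) a

open Classical in
/-- the value of an unlabelled pair with one index at a state with a leaf -/
noncomputable def VU (PP : ℕ × ℕ → Prop) (Lo : ℝ × ℝ → ℕ × ℕ → Prop) (ρ : ℕ → ℝ) (γ : ℝ)
    (s : ℝ × ℝ) (e : ℕ × ℕ) : ℝ :=
  if PP e then FL Lo ρ γ s e + Vm PP ρ s e else 0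

lemma VU_nonneg {ρ : ℕ → ℝ} (hρ : ∀ q, 0 < ρ q) (PP : ℕ × ℕ → Prop)
    (Lo : ℝ × ℝ → ℕ × ℕ → Prop) (γ : ℝ) (s : ℝ × ℝ) (e : ℕ × ℕ) : 0 ≤ VU PP Lo ρ γ s e := by
  unfold VU
  split_ifs
  · exact add_nonneg (FL_nonneg hρ _ _ _) (Vm_nonneg hρ _ _ _)
  · exact le_rfl

lemma Vm_le_VU {ρ : ℕ → ℝ} (hρ : ∀ q, 0 < ρ q) (PP : ℕ × ℕ → Prop)
    (Lo : ℝ × ℝ → ℕ × ℕ → Prop) (γ : ℝ) (s : ℝ × ℝ) (e : ℕ × ℕ) :
    Vm PP ρ s e ≤ VU PP Lo ρ γ s e := by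
  by_cases h : PP e
  · unfold VU
    rw [if_pos h]
    exact le_add_of_nonneg_left (FL_nonneg hρ _ _ _)
  · unfold VU Vm
    rw [if_neg h, if_neg fun k => h k.1]

/-- the constant -/
noncomputable def CU : ℝ := 2 * (CV * Real.exp 2)

lemma CU_ge : 4 * 1 ≤ CU := by
  unfold CU
  have h1 := CV_ge
  have h2 : 1 ≤ Real.exp 2 := Real.one_le_exp (by norm_num)
  nlinarith

lemma eta_case {η L : ℝ} (hη : 0 < η) (hL : 0 < L) (h : ¬ Real.sqrt η ≤ 1 / L) :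
    (η ^ 2)⁻¹ ≤ L ^ 4 := by
  have h1 : 1 < Real.sqrt η * L := by
    rw [not_le, div_lt_iff₀ hL] at h
    exact h
  rw [inv_le_iff_one_le_mul₀ (by positivity)]
  have h2 : Real.sqrt η ^ 4 = η ^ 2 := by
    calc Real.sqrt η ^ 4 = (Real.sqrt η ^ 2) ^ 2 := by ring
      _ = η ^ 2 := by rw [Real.sq_sqrt hη.le]
  calc (1 : ℝ) ≤ (Real.sqrt η * L) ^ 4 := one_le_pow₀ h1.le
    _ = L ^ 4 * η ^ 2 := by rw [mul_pow, h2]; ring

open Classical in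
/-- **one pair of items, leaf against a node**: pieces with one index -/
theorem leaf_pair {S : Finset ℕ} (h : NDt X.par (w X.ψ) X.c.t u (.leaf S))
    (h' : NDt X.par (w X.ψ) X.c.t u' τ') {Y : Finset (ℕ × ℕ × Finset ℕ)} (hl : LfA X Y u S) {p : ℕ}
    (hp : p ≤ top X.S) {M M' : ℕ} (hM : 0 < M) (hM' : 0 < M')
    (circ : u.A * u.B * M = u'.A * u'.B * M')
    {R : Finset (X.c.Lam × X.c.Lam)} (hR : SX X p M M' R) (A A' : Finset X.c.Lam)
    {PP : ℕ × ℕ → Prop} (hη1 : etaL X.c.wp p ≤ 1) {x : ℝ} (hx : 2 ≤ x)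
    (hX : ∀ l : ℕ, l.Prime → l < u.n → (l : ℝ) ≤ x)
    {x0 y0 : ℕ × ℕ → ℕ} {Lo : ℝ × ℝ → ℕ × ℕ → Prop} {T : ℝ} (hL : LoS Lo X.c.rr x0 y0 T)
    (hT4 : 4 ≤ T) (hT : (2 * (CM * Real.log x)) ^ 4 ≤ T) {e : ℕ × ℕ} (he : e.1 ∈ S)
    (ha : e.1 ∈ X.S') (he' : e.2 ∈ τ'.items) (hJ : JC x0 y0 M u.A M' u'.A e) (hP : PP e) :
    (X.c.D.par Y).iF R ((X.c.D.par Y).uA M u.B u.A (.leaf S) A 1)
        ((X.c.D.par Y).uA M' u'.B u'.A τ' A' 1) e ≤
      CU * Real.sqrt (etaL X.c.wp p) *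
        (((u.B : ℝ) * X.c.rr e.1 * dens (e.1 / u.A).primeFactors) * ((u'.B : ℝ) * X.c.rr e.2)) +
      (u.B : ℝ) * u'.B * VU PP Lo X.c.rr X.c.γ (SE M u.B u.A M' u'.B u'.A e) e := by
  have hrr := (X.ok.rad Y).pos
  have hCM : 0 < CM := Crest.Agent.R4.Ovl560.CM_pos
  have hlog : 0 < Real.log x := Real.log_pos (by linarith)
  have hL0 : 0 < 2 * (CM * Real.log x) := by positivity
  have ho := LfA.omw h hl
  have hV := Vm_le_VU hrr PP Lo X.c.γ (SE M u.B u.A M' u'.B u'.A e) e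
  have hbb : (0 : ℝ) ≤ (u.B : ℝ) * u'.B := by positivity
  have hVb := mul_le_mul_of_nonneg_left hV hbb
  rw [Vm_eq hP] at hVb
  have hd : 0 ≤ dens (e.1 / u.A).primeFactors := (dens_pos (ho.pm _ he)).le
  have r1 := hrr e.1
  have r2 := hrr e.2
  have hCU : 0 ≤ CU := by have := CU_ge; linarith
  have hF0 : 0 ≤ CU * Real.sqrt (etaL X.c.wp p) *
        (((u.B : ℝ) * X.c.rr e.1 * dens (e.1 / u.A).primeFactors) * ((u'.B : ℝ) * X.c.rr e.2)) := by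
    positivity
  by_cases hc : Real.sqrt (etaL X.c.wp p) ≤ 1 / (2 * (CM * Real.log x))
  · have k := iF_sxL h h' hp hM hM' circ Y ho hR A A' (e := e) he he' hη1 CU_ge (C₂ := CU) le_rfl
      (x0 := fun _ => 1) (y0 := fun _ => 1) (Or.inl (by
        refine hc.trans ?_
        rw [div_le_iff₀ hL0, one_mul]
        have := hl.ds e.1 he ha x hx hX
        linarith))
    refine k.trans ?_
    linarith
  · have hT' := (eta_case (etaL_pos X.c.wp p) hL0 hc).trans hT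
    by_cases hlo : Lo (SE M u.B u.A M' u'.B u'.A e) e
    · have k := iF_le (X.ok.rad Y) hM hM' h.B_pos h'.B_pos h.fit h'.fit (wts_nd h Y)
          (wts_nd h' Y) (one_dvd _) (one_dvd _) R A A' e he he'
      rw [pb_one] at k
      have k2 : vE (X.c.D.par Y).γ X.c.rr M u.B u.A M' u'.B u'.A e =
          (u.B : ℝ) * u'.B * FL Lo X.c.rr X.c.γ (SE M u.B u.A M' u'.B u'.A e) e := by
        unfold vE FL
        rw [if_pos ⟨hlo, SE_pos M u.B u.A M' u'.B u'.A e⟩]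
        rfl
      rw [k2] at k
      refine k.trans ?_
      have k3 : (u.B : ℝ) * u'.B * FL Lo X.c.rr X.c.γ (SE M u.B u.A M' u'.B u'.A e) e ≤
          (u.B : ℝ) * u'.B * VU PP Lo X.c.rr X.c.γ (SE M u.B u.A M' u'.B u'.A e) e := by
        refine mul_le_mul_of_nonneg_left ?_ hbb
        unfold VU
        rw [if_pos hP]
        exact le_add_of_nonneg_right (Vm_nonneg hrr _ _ _)
      linarith
    · have g1 := hL.T _ e hlo
      have g2 := hL.sd _ e hlo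
      have k := iF_sxL h h' hp hM hM' circ Y ho hR A A' (e := e) he he' hη1 CU_ge (C₂ := CU) le_rfl
        (x0 := x0) (y0 := y0) (Or.inr ⟨hT'.trans g1, hT4.trans g1, g2, hJ⟩)
      refine k.trans ?_
      linarith

/-- **leaf against a node**: the energy of the pairs with one index. `x` is above the level
of the leaf, the threshold `T` is at least `(2 CM log x)⁴`. -/
theorem leaf_same {S : Finset ℕ} (h : NDt X.par (w X.ψ) X.c.t u (.leaf S))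
    (h' : NDt X.par (w X.ψ) X.c.t u' τ') {Y : Finset (ℕ × ℕ × Finset ℕ)} (hl : LfA X Y u S) {p : ℕ}
    (hp : p ≤ top X.S) {M M' : ℕ} (hM : 0 < M) (hM' : 0 < M')
    (circ : u.A * u.B * M = u'.A * u'.B * M')
    {R : Finset (X.c.Lam × X.c.Lam)} (hR : SX X p M M' R) (A A' : Finset X.c.Lam)
    {PP : ℕ × ℕ → Prop}
    (hP : ∀ e ∈ (X.c.D.par Y).PE R ((X.c.D.par Y).uA M u.B u.A (.leaf S) A 1)
      ((X.c.D.par Y).uA M' u'.B u'.A τ' A' 1), PP e)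
    (hη1 : etaL X.c.wp p ≤ 1) {x : ℝ} (hx : 2 ≤ x) (hX : ∀ l : ℕ, l.Prime → l < u.n → (l : ℝ) ≤ x)
    {x0 y0 : ℕ × ℕ → ℕ} {Lo : ℝ × ℝ → ℕ × ℕ → Prop} {T : ℝ} (hL : LoS Lo X.c.rr x0 y0 T)
    (hT4 : 4 ≤ T) (hT : (2 * (CM * Real.log x)) ^ 4 ≤ T)
    (hJ : ∀ e ∈ Qi (X.c.D.par Y) X.S' (.leaf S) A ×ˢ Qi (X.c.D.par Y) X.S' τ' A',
      JC x0 y0 M u.A M' u'.A e) :
    Q R ((X.c.D.par Y).uA M u.B u.A (.leaf S) A 1) ((X.c.D.par Y).uA M' u'.B u'.A τ' A' 1) ≤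
      CU * Real.sqrt (etaL X.c.wp p) *
        ((∑ q ∈ Qi (X.c.D.par Y) X.S' (.leaf S) A,
            (u.B : ℝ) * X.c.rr q * dens (q / u.A).primeFactors) *
          SR X.c.rr u'.B (Qi (X.c.D.par Y) X.S' τ' A')) +
      ∑ e ∈ Qi (X.c.D.par Y) X.S' (.leaf S) A ×ˢ Qi (X.c.D.par Y) X.S' τ' A', (u.B : ℝ) * u'.B *
        VU PP Lo X.c.rr X.c.γ (SE M u.B u.A M' u'.B u'.A e) e := by
  have hrr := (X.ok.rad Y).pos
  have hCM : 0 < CM := Crest.Agent.R4.Ovl560.CM_pos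
  have hlog : 0 < Real.log x := Real.log_pos (by linarith)
  have hL0 : 0 < 2 * (CM * Real.log x) := by positivity
  by_cases hc : Real.sqrt (etaL X.c.wp p) ≤ 1 / (2 * (CM * Real.log x))
  · refine (same_QL1 h h' hp hM hM' circ Y (LfA.omw h hl) hR A A' hP hη1 CU_ge (C₂ := CU) le_rfl
      (fun q hq => ?_)).trans (add_le_add_right (Finset.sum_le_sum fun e _ =>
        mul_le_mul_of_nonneg_left (Vm_le_VU hrr _ _ _ _ _) (by positivity)) _)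
    obtain ⟨h1, h2⟩ := mem_Qi_leaf hq
    refine hc.trans ?_
    rw [div_le_iff₀ hL0, one_mul]
    have := hl.ds q h1 h2 x hx hX
    linarith
  · exact same_QL2 h h' hp hM hM' circ Y (LfA.omw h hl) hR A A' hP hη1 (C₂ := CU) le_rfl hL hT4
      ((eta_case (etaL_pos _ _) hL0 hc).trans hT) hJ

/-- **node against a leaf**: the energy of the pairs with one index -/
theorem same_leaf {S : Finset ℕ} (h : NDt X.par (w X.ψ) X.c.t u τ)
    (h' : NDt X.par (w X.ψ) X.c.t u' (.leaf S)) {Y : Finset (ℕ × ℕ × Finset ℕ)} (hl : LfA X Y u' S)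
    {p : ℕ} (hp : p ≤ top X.S) {M M' : ℕ} (hM : 0 < M) (hM' : 0 < M')
    (circ : u.A * u.B * M = u'.A * u'.B * M')
    {R : Finset (X.c.Lam × X.c.Lam)} (hR : SX X p M M' R) (A A' : Finset X.c.Lam)
    {PP : ℕ × ℕ → Prop}
    (hP : ∀ e ∈ (X.c.D.par Y).PE R ((X.c.D.par Y).uA M u.B u.A τ A 1)
      ((X.c.D.par Y).uA M' u'.B u'.A (.leaf S) A' 1), PP e)
    (hη1 : etaL X.c.wp p ≤ 1) {x : ℝ} (hx : 2 ≤ x) (hX : ∀ l : ℕ, l.Prime → l < u'.n → (l : ℝ) ≤ x)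
    {x0 y0 : ℕ × ℕ → ℕ} {Lo : ℝ × ℝ → ℕ × ℕ → Prop} {T : ℝ} (hL : LoS Lo X.c.rr x0 y0 T)
    (hT4 : 4 ≤ T) (hT : (2 * (CM * Real.log x)) ^ 4 ≤ T)
    (hJ : ∀ e ∈ Qi (X.c.D.par Y) X.S' τ A ×ˢ Qi (X.c.D.par Y) X.S' (.leaf S) A',
      JC x0 y0 M u.A M' u'.A e) :
    Q R ((X.c.D.par Y).uA M u.B u.A τ A 1) ((X.c.D.par Y).uA M' u'.B u'.A (.leaf S) A' 1) ≤
      CU * Real.sqrt (etaL X.c.wp p) *
        (SR X.c.rr u.B (Qi (X.c.D.par Y) X.S' τ A) *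
          ∑ r ∈ Qi (X.c.D.par Y) X.S' (.leaf S) A',
            (u'.B : ℝ) * X.c.rr r * dens (r / u'.A).primeFactors) +
      ∑ e ∈ Qi (X.c.D.par Y) X.S' τ A ×ˢ Qi (X.c.D.par Y) X.S' (.leaf S) A', (u.B : ℝ) * u'.B *
        VU PP Lo X.c.rr X.c.γ (SE M u.B u.A M' u'.B u'.A e) e := by
  have hrr := (X.ok.rad Y).pos
  have hCM : 0 < CM := Crest.Agent.R4.Ovl560.CM_pos
  have hlog : 0 < Real.log x := Real.log_pos (by linarith)
  have hL0 : 0 < 2 * (CM * Real.log x) := by positivity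
  by_cases hc : Real.sqrt (etaL X.c.wp p) ≤ 1 / (2 * (CM * Real.log x))
  · refine (same_QR1 h h' hp hM hM' circ Y (LfA.omw h' hl) hR A A' hP hη1 CU_ge (C₂ := CU) le_rfl
      (fun q hq => ?_)).trans (add_le_add_right (Finset.sum_le_sum fun e _ =>
        mul_le_mul_of_nonneg_left (Vm_le_VU hrr _ _ _ _ _) (by positivity)) _)
    obtain ⟨h1, h2⟩ := mem_Qi_leaf hq
    refine hc.trans ?_
    rw [div_le_iff₀ hL0, one_mul]
    have := hl.ds q h1 h2 x hx hX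
    linarith
  · exact same_QR2 h h' hp hM hM' circ Y (LfA.omw h' hl) hR A A' hP hη1 (C₂ := CU) le_rfl hL hT4
      ((eta_case (etaL_pos _ _) hL0 hc).trans hT) hJ

/-- **leaf against a node**: the energy of the unlabelled pairs with one index. `x` is above the level
of the leaf, the threshold `T` is at least `(2 CM log x)⁴`. -/
theorem leaf_un {S : Finset ℕ} (h : NDt X.par (w X.ψ) X.c.t u (.leaf S))
    (h' : NDt X.par (w X.ψ) X.c.t u' τ') {Y : Finset (ℕ × ℕ × Finset ℕ)} (hl : LfA X Y u S) {p : ℕ}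
    (hp : p ≤ top X.S) {M M' : ℕ} (hM : 0 < M) (hM' : 0 < M')
    (circ : u.A * u.B * M = u'.A * u'.B * M')
    {R : Finset (X.c.Lam × X.c.Lam)} (hR : UN X p R) (A A' : Finset X.c.Lam)
    {PP : ℕ × ℕ → Prop}
    (hP : ∀ e ∈ (X.c.D.par Y).PE R ((X.c.D.par Y).uA M u.B u.A (.leaf S) A 1)
      ((X.c.D.par Y).uA M' u'.B u'.A τ' A' 1), PP e)
    (hη1 : etaL X.c.wp p ≤ 1) {x : ℝ} (hx : 2 ≤ x) (hX : ∀ l : ℕ, l.Prime → l < u.n → (l : ℝ) ≤ x)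
    {x0 y0 : ℕ × ℕ → ℕ} {Lo : ℝ × ℝ → ℕ × ℕ → Prop} {T : ℝ} (hL : LoS Lo X.c.rr x0 y0 T)
    (hT4 : 4 ≤ T) (hT : (2 * (CM * Real.log x)) ^ 4 ≤ T)
    (hJ : ∀ e ∈ Qi (X.c.D.par Y) X.S' (.leaf S) A ×ˢ Qi (X.c.D.par Y) X.S' τ' A',
      JC x0 y0 M u.A M' u'.A e) :
    Q R ((X.c.D.par Y).uA M u.B u.A (.leaf S) A 1) ((X.c.D.par Y).uA M' u'.B u'.A τ' A' 1) ≤
      CU * Real.sqrt (etaL X.c.wp p) *
        ((∑ q ∈ Qi (X.c.D.par Y) X.S' (.leaf S) A,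
            (u.B : ℝ) * X.c.rr q * dens (q / u.A).primeFactors) *
          SR X.c.rr u'.B (Qi (X.c.D.par Y) X.S' τ' A')) +
      ∑ e ∈ Qi (X.c.D.par Y) X.S' (.leaf S) A ×ˢ Qi (X.c.D.par Y) X.S' τ' A', (u.B : ℝ) * u'.B *
        VU PP Lo X.c.rr X.c.γ (SE M u.B u.A M' u'.B u'.A e) e :=
  leaf_same h h' hl hp hM hM' circ (hR.sx M M') A A' hP hη1 hx hX hL hT4 hT hJ

/-- **node against a leaf**: the energy of the unlabelled pairs with one index -/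
theorem un_leaf {S : Finset ℕ} (h : NDt X.par (w X.ψ) X.c.t u τ)
    (h' : NDt X.par (w X.ψ) X.c.t u' (.leaf S)) {Y : Finset (ℕ × ℕ × Finset ℕ)} (hl : LfA X Y u' S)
    {p : ℕ} (hp : p ≤ top X.S) {M M' : ℕ} (hM : 0 < M) (hM' : 0 < M')
    (circ : u.A * u.B * M = u'.A * u'.B * M')
    {R : Finset (X.c.Lam × X.c.Lam)} (hR : UN X p R) (A A' : Finset X.c.Lam)
    {PP : ℕ × ℕ → Prop}
    (hP : ∀ e ∈ (X.c.D.par Y).PE R ((X.c.D.par Y).uA M u.B u.A τ A 1)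
      ((X.c.D.par Y).uA M' u'.B u'.A (.leaf S) A' 1), PP e)
    (hη1 : etaL X.c.wp p ≤ 1) {x : ℝ} (hx : 2 ≤ x) (hX : ∀ l : ℕ, l.Prime → l < u'.n → (l : ℝ) ≤ x)
    {x0 y0 : ℕ × ℕ → ℕ} {Lo : ℝ × ℝ → ℕ × ℕ → Prop} {T : ℝ} (hL : LoS Lo X.c.rr x0 y0 T)
    (hT4 : 4 ≤ T) (hT : (2 * (CM * Real.log x)) ^ 4 ≤ T)
    (hJ : ∀ e ∈ Qi (X.c.D.par Y) X.S' τ A ×ˢ Qi (X.c.D.par Y) X.S' (.leaf S) A',
      JC x0 y0 M u.A M' u'.A e) :
    Q R ((X.c.D.par Y).uA M u.B u.A τ A 1) ((X.c.D.par Y).uA M' u'.B u'.A (.leaf S) A' 1) ≤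
      CU * Real.sqrt (etaL X.c.wp p) *
        (SR X.c.rr u.B (Qi (X.c.D.par Y) X.S' τ A) *
          ∑ r ∈ Qi (X.c.D.par Y) X.S' (.leaf S) A',
            (u'.B : ℝ) * X.c.rr r * dens (r / u'.A).primeFactors) +
      ∑ e ∈ Qi (X.c.D.par Y) X.S' τ A ×ˢ Qi (X.c.D.par Y) X.S' (.leaf S) A', (u.B : ℝ) * u'.B *
        VU PP Lo X.c.rr X.c.γ (SE M u.B u.A M' u'.B u'.A e) e :=
  same_leaf h h' hl hp hM hM' circ (hR.sx M M') A A' hP hη1 hx hX hL hT4 hT hJ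

end Crest.Agent.R4P.SameIx30
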