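import Crest.Agent.R4P.HiLeafR_28
import Crest.Agent.R4P.LeafCtx_28
import Crest.Agent.R4P.StopCtx_9

/-!
R4 (S0004), powers, module D, helper28: **stops of the leaf theorem**.

* `tie_dvd` / `tie_dvd'` : at a present tie `l` of the right (left) side which does not divide the rest of
  the item of the other side: `l ∣ y0 e` (`l ∣ x0 e`);
* `SD_of_list`, `SD_of_list2` : a heavy list of such primes makes the anatomy of the pair bad;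
* `HL_loc`, `HL_loc'` : `HL_Q`, `HL_Q'` with the threshold only for the pairs of the state;
* `HL_sb`, `HL_sb'` : the same with the node facts `SB` of the nonleaf side: product part
  `C K' e² / 2 (C1 + 1/c₀) (Σ_q b ρ_q dens P_q) Σ_j mI`, threshold `Tn p`, `p` = top column.
-/

set_option autoImplicit false
set_option linter.unusedSectionVars false
set_option linter.unusedVariables false
open Finset hiding dens

namespace Crest.Agent.R4P.StopLeaf28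

open Crest.Agent.R4.HVW560 Crest.Agent.R4P.AvgItem710
open Crest.Agent.R4.Ovl560 (LW nw nw_nonneg nw_add exw dens dens_pos dens_mono)
open Crest.Agent.R4.Tour104 Crest.Agent.R4.Tour758 Crest.Agent.R4.Avg758 Crest.Agent.R4.Clos758
open Crest.Agent.R4.ClosL758 Crest.Agent.R4.ClosG758 Crest.Agent.R4.ClosR758
open Crest.Agent.R4.Fam464 Crest.Agent.R4P.Cnt588 Crest.Agent.R4P.Walk560 Crest.Agent.R4.Piece464
open Crest.Agent.R4P.GInst194 Crest.Agent.R4P.WalkIT579 Crest.Agent.R4P.Item758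
open Crest.Agent.R4P.NMW710 Crest.Agent.R4P.CrossLoc25 Crest.Agent.R4P.CrossLocC25
open Crest.Agent.R4P.Step588 (Fq ItHi2 PB_Fq iF_le_Fq sum_IFq_le)
open Crest.Agent.R4P.LeafFam28 Crest.Agent.R4P.LeafSide28 Crest.Agent.R4P.CofMono28
open Crest.Agent.R4P.TBLeaf28 Crest.Agent.R4P.HiLeaf28 Crest.Agent.R4P.HiLeafS28
open Crest.Agent.R4P.LLPair30

/-! ### anatomy -/

section anat
variable {x0 y0 : ℕ × ℕ → ℕ} {M pr M' pr' : ℕ} {e : ℕ × ℕ} {l : ℕ}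

lemma dvd_cof {l a c : ℕ} (hl : l.Prime) (ha : l ∣ a) (hc : ¬ l ∣ c) (ha0 : 0 < a) : l ∣ cof a c := by
  unfold cof
  have hg : ¬ l ∣ a.gcd c := fun h => hc (h.trans (Nat.gcd_dvd_right _ _))
  have h1 : a = a.gcd c * (a / a.gcd c) := (Nat.mul_div_cancel' (Nat.gcd_dvd_left _ _)).symm
  rw [h1] at ha
  exact (hl.dvd_mul.1 ha).resolve_left hg

lemma dvd_UI {l M pr q : ℕ} (hl : l.Prime) (h : l ∣ q / pr) (hM : ¬ l ∣ M) (h0 : 0 < q / pr) :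
    l ∣ UI M pr q := by
  unfold UI
  have hg : ¬ l ∣ M.gcd (q / pr) := fun h => hM (h.trans (Nat.gcd_dvd_left _ _))
  have h1 : q / pr = M.gcd (q / pr) * ((q / pr) / M.gcd (q / pr)) :=
    (Nat.mul_div_cancel' (Nat.gcd_dvd_right _ _)).symm
  rw [h1] at h
  exact (hl.dvd_mul.1 h).resolve_left hg

lemma UI_dvd (M pr q : ℕ) : UI M pr q ∣ q / pr := Nat.div_dvd_of_dvd (Nat.gcd_dvd_right _ _)

lemma UI_pos {M pr q : ℕ} (hM : 0 < M) (h0 : 0 < q / pr) : 0 < UI M pr q := by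
  unfold UI
  exact Nat.div_pos (Nat.le_of_dvd h0 (Nat.gcd_dvd_right _ _)) (Nat.gcd_pos_of_pos_left _ hM)

/-- **a prime of the right item which the left item does not have** -/
theorem tie_dvd (hl : l.Prime) (hJ : JC x0 y0 M pr M' pr' e) (h : l ∣ e.2 / pr') (hM' : ¬ l ∣ M')
    (h0 : 0 < e.2 / pr') (hM0 : 0 < M') (hn : ¬ l ∣ e.1 / pr) : l ∣ y0 e :=
  (dvd_cof hl (dvd_UI hl h hM' h0) (fun h1 => hn (h1.trans (UI_dvd _ _ _)))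
    (UI_pos hM0 h0)).trans hJ.y

/-- **a prime of the left item which the right item does not have** -/
theorem tie_dvd' (hl : l.Prime) (hJ : JC x0 y0 M pr M' pr' e) (h : l ∣ e.1 / pr) (hM : ¬ l ∣ M)
    (h0 : 0 < e.1 / pr) (hM0 : 0 < M) (hn : ¬ l ∣ e.2 / pr') : l ∣ x0 e :=
  (dvd_cof hl (dvd_UI hl h hM h0) (fun h1 => hn (h1.trans (UI_dvd _ _ _)))
    (UI_pos hM0 h0)).trans hJ.x

/-- the same, in terms of what is left of the left item -/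
theorem tie_dvd2 (hl : l.Prime) (hJ : JC x0 y0 M pr M' pr' e) (h : l ∣ e.2 / pr') (hM' : ¬ l ∣ M')
    (h0 : 0 < e.2 / pr') (hM0 : 0 < M') (hn : ¬ l ∣ UI M pr e.1) : l ∣ y0 e :=
  (dvd_cof hl (dvd_UI hl h hM' h0) hn (UI_pos hM0 h0)).trans hJ.y

/-- the same, in terms of what is left of the right item -/
theorem tie_dvd2' (hl : l.Prime) (hJ : JC x0 y0 M pr M' pr' e) (h : l ∣ e.1 / pr) (hM : ¬ l ∣ M)
    (h0 : 0 < e.1 / pr) (hM0 : 0 < M) (hn : ¬ l ∣ UI M' pr' e.2) : l ∣ x0 e :=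
  (dvd_cof hl (dvd_UI hl h hM h0) hn (UI_pos hM0 h0)).trans hJ.x

/-- a list of primes `> p` of the cofactors -/
lemma SD_of_list {p : ℝ} {x y : ℕ} (hx : 0 < x) (hy : 0 < y) {O : Finset ℕ}
    (hO : ∀ l ∈ O, l.Prime ∧ p < l ∧ l ∣ x * y) : ∑ l ∈ O, (1 : ℝ) / l ≤ SD x y p := by
  unfold SD
  refine Finset.sum_le_sum_of_subset_of_nonneg (fun l hl => ?_) fun l _ _ => by positivity
  obtain ⟨h1, h2, h3⟩ := hO l hl
  rw [Finset.mem_filter, Nat.mem_primeFactors]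
  exact ⟨⟨h1, h3, (Nat.mul_pos hx hy).ne'⟩, h2⟩

/-- a list of primes `> p` of the cofactors or of a light list -/
lemma SD_of_list2 {p θ η : ℝ} {x y : ℕ} (hx : 0 < x) (hy : 0 < y) {O m : Finset ℕ}
    (hO : ∀ l ∈ O, l.Prime ∧ p < l ∧ (l ∣ x * y ∨ l ∈ m))
    (hm : ∑ l ∈ m.filter (fun l : ℕ => p < (l : ℝ)), (1 : ℝ) / l ≤ η)
    (hθ : θ + η ≤ ∑ l ∈ O, (1 : ℝ) / l) : θ ≤ SD x y p := by
  classical
  have h1 := SD_of_list (p := p) hx hy (O := O.filter (fun l => l ∣ x * y)) fun l hl => by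
    obtain ⟨h1, h2⟩ := Finset.mem_filter.1 hl
    exact ⟨(hO l h1).1, (hO l h1).2.1, h2⟩
  have h2 : ∑ l ∈ O.filter (fun l => ¬ l ∣ x * y), (1 : ℝ) / l ≤ η := by
    refine le_trans (Finset.sum_le_sum_of_subset_of_nonneg (fun l hl => ?_)
      fun l _ _ => by positivity) hm
    obtain ⟨h1, h2⟩ := Finset.mem_filter.1 hl
    rw [Finset.mem_filter]
    exact ⟨(hO l h1).2.2.resolve_left h2, (hO l h1).2.1⟩
  have h3 := Finset.sum_filter_add_sum_filter_not O (fun l => l ∣ x * y) (fun l => (1 : ℝ) / l)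
  linarith

end anat

/-! ### the threshold predicate of all the ends and stops -/

section lost
open Crest.Agent.R4P.StopCtx9
variable {ρ : ℕ → ℝ} {x0 y0 : ℕ × ℕ → ℕ} {T : ℝ} {p0 : ℕ} {s : ℝ × ℝ} {e : ℕ × ℕ}

/-- **the threshold predicate**: scale at most `T`, or bad anatomy above the square root of the scale, or
scale at most `Tn p` and bad anatomy above `p` for some `p ≥ p0` -/
def LoSt (T : ℝ) (p0 : ℕ) (ρ : ℕ → ℝ) (x0 y0 : ℕ × ℕ → ℕ) (s : ℝ × ℝ) (e : ℕ × ℕ) : Prop :=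
  Dsc (ρ e.1) (ρ e.2) s ≤ T ∨
  1 ≤ SD (x0 e) (y0 e) (Real.sqrt (Dsc (ρ e.1) (ρ e.2) s)) ∨
  ∃ p : ℕ, p0 ≤ p ∧ Dsc (ρ e.1) (ρ e.2) s ≤ Tn p ∧
    (p : ℝ) ^ (-(1 / 3) : ℝ) / 2 ≤ SD (x0 e) (y0 e) p

lemma not_LoSt (h : ¬ LoSt T p0 ρ x0 y0 s e) : T < Dsc (ρ e.1) (ρ e.2) s ∧
    SD (x0 e) (y0 e) (Real.sqrt (Dsc (ρ e.1) (ρ e.2) s)) < 1 ∧
    ∀ p : ℕ, p0 ≤ p → (p : ℝ) ^ (-(1 / 3) : ℝ) / 2 ≤ SD (x0 e) (y0 e) p →
      Tn p < Dsc (ρ e.1) (ρ e.2) s := by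
  unfold LoSt at h
  push Not at h
  refine ⟨h.1, h.2.1, fun p hp hS => ?_⟩
  by_contra hc
  have := h.2.2 p hp (not_lt.1 hc)
  linarith

lemma SD_anti (x y : ℕ) {T T' : ℝ} (h : T ≤ T') : SD x y T' ≤ SD x y T := by
  unfold SD
  refine Finset.sum_le_sum_of_subset_of_nonneg (fun l hl => ?_) fun l _ _ => by positivity
  obtain ⟨h1, h2⟩ := Finset.mem_filter.1 hl
  exact Finset.mem_filter.2 ⟨h1, h.trans_lt h2⟩

/-- for `LL_Q`, `TB_leaf` -/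
theorem LoX_LoSt (hT : 2 ≤ T) : LoX (LoSt T p0 ρ x0 y0) ρ x0 y0 where
  two := fun s e h => by have := (not_LoSt h).1; linarith
  sd := fun s e h => by
    obtain ⟨h1, h2, -⟩ := not_LoSt h
    refine (SD_anti _ _ ?_).trans h2.le
    rw [Real.sqrt_le_left (by linarith)]
    nlinarith

/-- for `HL_Q` -/
theorem LoS_LoSt : LoS (LoSt T p0 ρ x0 y0) ρ x0 y0 T where
  T := fun s e h => (not_LoSt h).1.le
  sd := fun s e h => (not_LoSt h).2.1.le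

lemma LoSt_T (s : ℝ × ℝ) (e : ℕ × ℕ) (h : ¬ LoSt T p0 ρ x0 y0 s e) : T ≤ Dsc (ρ e.1) (ρ e.2) s :=
  (not_LoSt h).1.le

/-- **at a stop at the column `p`** -/
theorem LoSt_stop {p : ℕ} (hp : p0 ≤ p) (hS : (p : ℝ) ^ (-(1 / 3) : ℝ) / 2 ≤ SD (x0 e) (y0 e) p)
    (h : ¬ LoSt T p0 ρ x0 y0 s e) : Tn p ≤ Dsc (ρ e.1) (ρ e.2) s ∧
    SD (x0 e) (y0 e) (Real.sqrt (Dsc (ρ e.1) (ρ e.2) s)) ≤ 1 :=
  ⟨((not_LoSt h).2.2 p hp hS).le, (not_LoSt h).2.1.le⟩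

end lost

/-! ### local thresholds -/

variable {Λ κ : Type*} [Fintype Λ] [DecidableEq Λ] [Fintype κ] [DecidableEq κ]
variable {D : Par Λ κ} {ρ : ℕ → ℝ} {Al : Finset ℕ} {M M' b pr b' pr' : ℕ} {t t' : IT}
variable {x0 y0 : ℕ × ℕ → ℕ} {Lo : ℝ × ℝ → ℕ × ℕ → Prop}

open Classical in
/-- **(nonleaf, leaf)**, thresholds only for the pairs of the block -/
theorem HL_loc {C : ℝ} (hC : PairO C) (hC0 : 0 ≤ C) (hR : D.Rad ρ)
    (hdead : ∀ j, D.it j ∉ Al → ∀ a, D.om j a = 0) (hM : 0 < M) (hM' : 0 < M')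
    (hb : 0 < b) (hb' : 0 < b') (hF : Fit b pr t) (hF' : Fit b' pr' t') (hW : D.Wts pr t)
    (hW' : D.Wts pr' t') {K' : ℝ} {P : ℕ → Finset ℕ} {v : ℕ → ℕ → ℤ → ℝ}
    (ho : OmW D b' pr' t' K' P v) (Rl : Finset (Λ × Λ)) (A A' : Finset Λ) {K V0 : ℕ}
    {C1 η H ε T : ℝ} (hε : 0 < ε) (hε1 : ε ≤ 2) (hH : 0 ≤ H)
    (hI : ∀ q ∈ Qi D Al t A, ItHi2 D ρ b pr t K V0 C1 η H q)
    (hJ : ∀ e ∈ Qi D Al t A ×ˢ Qi D Al t' A', JC x0 y0 M pr M' pr' e)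
    (hT4 : 4 ≤ T) (hV : (V0 : ℝ) ≤ Real.sqrt T) (hV2 : 2 * V0 * H / ε ≤ Real.sqrt T)
    (hL : ∀ e ∈ Qi D Al t A ×ˢ Qi D Al t' A', ¬ Lo (SE M b pr M' b' pr' e) e →
      T ≤ Dsc (ρ e.1) (ρ e.2) (SE M b pr M' b' pr' e) ∧
      SD (x0 e) (y0 e) (Real.sqrt (Dsc (ρ e.1) (ρ e.2) (SE M b pr M' b' pr' e))) ≤ 1) :
    Q Rl (D.uA M b pr t A 1) (D.uA M' b' pr' t' A' 1) ≤
      (C * K' * Real.exp 2 / 2 * (C1 * ∑ q ∈ Qi D Al t A, I (Fq D b pr t 1 q) +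
        (C1 * η + 3 * K * ε) * SR ρ b (Qi D Al t A))) *
        ∑ r ∈ Qi D Al t' A', (b' : ℝ) * ρ r * dens (P r) +
      ∑ e ∈ Qi D Al t A ×ˢ Qi D Al t' A',
        (b : ℝ) * b' * FL Lo ρ D.γ (SE M b pr M' b' pr' e) e := by
  have key := block_core (c := 1) (c' := 1) hR hdead hM hM' hb hb' hF hF' hW hW' (one_dvd _)
    (one_dvd _) Rl A A' (Pw := fun _ => True) (Lo := fun e => Lo (SE M b pr M' b' pr' e) e)
    (f := fun q => C * K' * Real.exp 2 / 2 * (C1 * (I (Fq D b pr t 1 q) + η * (b * ρ q)) +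
        3 * K * ε * (b * ρ q)))
    (g := fun r => (b' : ℝ) * ρ r * dens (P r))
    (fun q hq => by
      obtain ⟨k, w, hk, hw, hz⟩ := hI q hq
      have hmu : 0 ≤ C1 * (I (Fq D b pr t 1 q) + η * (b * ρ q)) := hz.pos.2.2
      have := (hR.pos q).le
      have := ho.K0
      positivity)
    (fun r hr => by
      have := (hR.pos r).le
      have := (dens_pos (ho.pm _ (mem_Qi.1 hr).1)).le
      positivity)
    (fun _ _ => trivial)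
    (fun e he _ hn => by
      have hm := Finset.mem_product.1 he
      obtain ⟨h1, h2⟩ := hL e he hn
      exact iF_HL hC hC0 hR hM hM' hb hb' hF hF' hW hW' ho Rl A A' hε hε1 hH
        (mem_Qi.1 hm.1).1 (mem_Qi.1 hm.2).1 (hI _ hm.1) (hJ e he) hT4 hV hV2 h1 h2)
  refine key.trans (add_le_add (le_of_eq ?_) ?_)
  · congr 1
    rw [← Finset.mul_sum, Finset.sum_add_distrib, ← Finset.mul_sum, ← Finset.mul_sum,
      Finset.sum_add_distrib, ← Finset.mul_sum]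
    unfold SR
    ring
  · refine sum_lo_le (fun e => mul_nonneg (by positivity) (FL_nonneg hR.pos _ _ _))
      fun e _ _ h2 => ?_
    rw [pb_one]
    unfold vE FL
    rw [if_pos ⟨h2, SE_pos M b pr M' b' pr' e⟩]

open Classical in
/-- **(leaf, nonleaf)**, thresholds only for the pairs of the block -/
theorem HL_loc' {C : ℝ} (hC : PairO C) (hC0 : 0 ≤ C) (hR : D.Rad ρ)
    (hdead : ∀ j, D.it j ∉ Al → ∀ a, D.om j a = 0) (hM : 0 < M) (hM' : 0 < M')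
    (hb : 0 < b) (hb' : 0 < b') (hF : Fit b pr t) (hF' : Fit b' pr' t') (hW : D.Wts pr t)
    (hW' : D.Wts pr' t') {K' : ℝ} {P : ℕ → Finset ℕ} {v : ℕ → ℕ → ℤ → ℝ}
    (ho : OmW D b pr t K' P v) (Rl : Finset (Λ × Λ)) (A A' : Finset Λ) {K V0 : ℕ}
    {C1 η H ε T : ℝ} (hε : 0 < ε) (hε1 : ε ≤ 2) (hH : 0 ≤ H)
    (hI : ∀ q ∈ Qi D Al t' A', ItHi2 D ρ b' pr' t' K V0 C1 η H q)
    (hJ : ∀ e ∈ Qi D Al t A ×ˢ Qi D Al t' A', JC x0 y0 M pr M' pr' e)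
    (hT4 : 4 ≤ T) (hV : (V0 : ℝ) ≤ Real.sqrt T) (hV2 : 2 * V0 * H / ε ≤ Real.sqrt T)
    (hL : ∀ e ∈ Qi D Al t A ×ˢ Qi D Al t' A', ¬ Lo (SE M b pr M' b' pr' e) e →
      T ≤ Dsc (ρ e.1) (ρ e.2) (SE M b pr M' b' pr' e) ∧
      SD (x0 e) (y0 e) (Real.sqrt (Dsc (ρ e.1) (ρ e.2) (SE M b pr M' b' pr' e))) ≤ 1) :
    Q Rl (D.uA M b pr t A 1) (D.uA M' b' pr' t' A' 1) ≤
      (∑ r ∈ Qi D Al t A, (b : ℝ) * ρ r * dens (P r)) *
      (C * K' * Real.exp 2 / 2 * (C1 * ∑ q ∈ Qi D Al t' A', I (Fq D b' pr' t' 1 q) +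
        (C1 * η + 3 * K * ε) * SR ρ b' (Qi D Al t' A'))) +
      ∑ e ∈ Qi D Al t A ×ˢ Qi D Al t' A',
        (b : ℝ) * b' * FL Lo ρ D.γ (SE M b pr M' b' pr' e) e := by
  have key := block_core (c := 1) (c' := 1) hR hdead hM hM' hb hb' hF hF' hW hW' (one_dvd _)
    (one_dvd _) Rl A A' (Pw := fun _ => True) (Lo := fun e => Lo (SE M b pr M' b' pr' e) e)
    (g := fun q => C * K' * Real.exp 2 / 2 * (C1 * (I (Fq D b' pr' t' 1 q) + η * (b' * ρ q)) +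
        3 * K * ε * (b' * ρ q)))
    (f := fun r => (b : ℝ) * ρ r * dens (P r))
    (fun r hr => by
      have := (hR.pos r).le
      have := (dens_pos (ho.pm _ (mem_Qi.1 hr).1)).le
      positivity)
    (fun q hq => by
      obtain ⟨k, w, hk, hw, hz⟩ := hI q hq
      have hmu : 0 ≤ C1 * (I (Fq D b' pr' t' 1 q) + η * (b' * ρ q)) := hz.pos.2.2
      have := (hR.pos q).le
      have := ho.K0
      positivity)
    (fun _ _ => trivial)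
    (fun e he _ hn => by
      have hm := Finset.mem_product.1 he
      obtain ⟨h1, h2⟩ := hL e he hn
      exact iF_HL' hC hC0 hR hM hM' hb hb' hF hF' hW hW' ho Rl A A' hε hε1 hH
        (mem_Qi.1 hm.1).1 (mem_Qi.1 hm.2).1 (hI _ hm.2) (hJ e he) hT4 hV hV2 h1 h2)
  refine key.trans (add_le_add (le_of_eq ?_) ?_)
  · congr 1
    rw [← Finset.mul_sum, Finset.sum_add_distrib, ← Finset.mul_sum, ← Finset.mul_sum,
      Finset.sum_add_distrib, ← Finset.mul_sum]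
    unfold SR
    ring
  · refine sum_lo_le (fun e => mul_nonneg (by positivity) (FL_nonneg hR.pos _ _ _))
      fun e _ _ h2 => ?_
    rw [pb_one]
    unfold vE FL
    rw [if_pos ⟨h2, SE_pos M b pr M' b' pr' e⟩]

/-! ### with the node facts -/

section nodes
open Crest.Agent.R4P.Bld532 (NS All NodeOk Bk)
open Crest.Agent.R4P.StopW95 Crest.Agent.R4P.GSt927 Crest.Agent.R4P.StopCtx9
open Crest.Agent.R4.StepNum442 (Kn Kn_le)
open Crest.Agent.R4.DeepSt579 (tq tq_nonneg tq_le_one rd)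
open Crest.Agent.R4P
variable {P' : Bld532.Par} {W : ℕ → ℝ} {U : ℕ → Finset ℕ} {CL c₀ Ch : ℝ} {u : NS} {τ : IT}
  {A : Finset Λ} {d : DT Λ κ} {sp : ℕ → Finset Λ} [WRel κ]

/-- the numbers of a nonleaf node -/
structure HLN (C1 CL : ℝ) (p : ℕ) : Prop where
  T4 : 4 ≤ Tn p
  V : (Vn p : ℝ) ≤ Real.sqrt (Tn p)
  V2 : 2 * Vn p * Hn p / Real.exp (-(2 * (p : ℝ) ^ (1 / 2 : ℝ))) ≤ Real.sqrt (Tn p)
  err : (C1 * ηn p + 3 * (Kn p : ℕ) * Real.exp (-(2 * (p : ℝ) ^ (1 / 2 : ℝ)))) *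
    (CL * Real.log p) ≤ 1

theorem exists_HLN (C1 CL : ℝ) : ∃ p₁ : ℕ, ∀ p ≥ p₁, HLN C1 CL p := by
  obtain ⟨N0, h⟩ := num_HL C1 CL
  refine ⟨N0, fun p hp => ?_⟩
  obtain ⟨h1, h2, h3, h4⟩ := h p hp (Vn p) (Hn p) (Vn_le p) (by unfold Hn; positivity) le_rfl
  exact ⟨h1, h2, h3, h4⟩

/-- **radius sums of a nonleaf node** -/
theorem SR_le_mass (hSB : SB D ρ Al P' W U CL c₀ Ch u τ) (hl : ¬ isL τ)
    (h : SideI D sp u.B u.A τ A d) (hab : ∀ j, D.al j ≤ D.be j) (hc₀ : 0 < c₀)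
    (hfull : ∀ q ∈ Al, 2 * ρ q ≤ ∑ j ∈ Finset.univ.filter (fun j => D.it j = q), (D.be j - D.al j))
    (hil : IL D.it A) (hnn : ∀ j, 0 ≤ mI d j) (hρ : ∀ q, 0 < ρ q) (hCL : 0 ≤ CL)
    (hp1 : 1 ≤ tp τ) :
    SR ρ u.B (Qi D Al τ A) ≤ CL * Real.log (tp τ) * (1 / c₀ * ∑ j ∈ A, mI d j) := by
  have key := rad_le_mass (Al := Al) (ρ := ρ) hab h hc₀ hSB.ph hSB.mean hfull hil hnn
  have hlog : 0 ≤ Real.log (tp τ) := Real.log_nonneg (by exact_mod_cast hp1)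
  refine le_trans ?_ (mul_le_mul_of_nonneg_left key (mul_nonneg hCL hlog))
  unfold SR
  rw [Finset.mul_sum]
  refine Finset.sum_le_sum fun q hq => ?_
  obtain ⟨h1, h2, -⟩ := mem_Qi.1 hq
  have h3 := hSB.lg hl q h2 h1
  rw [rd_one]
  have h4 : 0 ≤ (u.B : ℝ) * ρ q := mul_nonneg (Nat.cast_nonneg _) (hρ q).le
  calc (u.B : ℝ) * ρ q ≤ (u.B : ℝ) * ρ q * (CL * Real.log (tp τ) * tq (q / u.A)) :=
        le_mul_of_one_le_right h4 h3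
    _ = _ := by ring

open Classical in
/-- **(leaf, nonleaf)** with the node facts of the nonleaf side -/
theorem HL_sb' {C : ℝ} (hC : PairO C) (hC0 : 0 ≤ C) (hR : D.Rad ρ)
    (hdead : ∀ j, D.it j ∉ Al → ∀ a, D.om j a = 0) (hM : 0 < M) (hM' : 0 < M')
    {d' : DT Λ κ} (hL' : SideI D sp b pr t A d) {A' : Finset Λ}
    (hR' : SideI D sp u.B u.A τ A' d') (hSB : SB D ρ Al P' W U CL c₀ Ch u τ) (hl : ¬ isL τ)
    (hab : ∀ j, D.al j ≤ D.be j) (hc₀ : 0 < c₀)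
    (hfull : ∀ q ∈ Al, 2 * ρ q ≤ ∑ j ∈ Finset.univ.filter (fun j => D.it j = q), (D.be j - D.al j))
    (hil : IL D.it A') (hnn : ∀ j, 0 ≤ mI d' j) (hCL : 0 ≤ CL) (hp1 : 1 ≤ tp τ)
    (hCh : 0 ≤ Ch) (hN : HLN Ch CL (tp τ)) {K' : ℝ} {P : ℕ → Finset ℕ} {v : ℕ → ℕ → ℤ → ℝ}
    (ho : OmW D b pr t K' P v) (Rl : Finset (Λ × Λ))
    (hJ : ∀ e ∈ Qi D Al t A ×ˢ Qi D Al τ A', JC x0 y0 M pr M' u.A e)
    (hL : ∀ e ∈ Qi D Al t A ×ˢ Qi D Al τ A', ¬ Lo (SE M b pr M' u.B u.A e) e →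
      Tn (tp τ) ≤ Dsc (ρ e.1) (ρ e.2) (SE M b pr M' u.B u.A e) ∧
      SD (x0 e) (y0 e) (Real.sqrt (Dsc (ρ e.1) (ρ e.2) (SE M b pr M' u.B u.A e))) ≤ 1) :
    Q Rl (D.uA M b pr t A 1) (D.uA M' u.B u.A τ A' 1) ≤
      (C * K' * Real.exp 2 / 2 * (Ch + 1 / c₀)) *
        ((∑ r ∈ Qi D Al t A, (b : ℝ) * ρ r * dens (P r)) * ∑ j ∈ A', mI d' j) +
      ∑ e ∈ Qi D Al t A ×ˢ Qi D Al τ A',
        (b : ℝ) * u.B * FL Lo ρ D.γ (SE M b pr M' u.B u.A e) e := by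
  have hε : 0 < Real.exp (-(2 * (tp τ : ℝ) ^ (1 / 2 : ℝ))) := Real.exp_pos _
  have hε1 : Real.exp (-(2 * (tp τ : ℝ) ^ (1 / 2 : ℝ))) ≤ 2 := by
    have : Real.exp (-(2 * (tp τ : ℝ) ^ (1 / 2 : ℝ))) ≤ 1 :=
      Real.exp_le_one_iff.2 (by have : (0 : ℝ) ≤ (tp τ : ℝ) ^ (1 / 2 : ℝ) := by positivity
                                linarith)
    linarith
  refine (HL_loc' (A := A) (A' := A') hC hC0 hR hdead hM hM' hL'.hb hR'.hb hL'.hF hR'.hF hL'.hW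
    hR'.hW ho Rl hε hε1 (by unfold Hn; positivity) (fun q hq => hSB.ih hl q (mem_Qi.1 hq).2.1
    (mem_Qi.1 hq).1) hJ hN.T4 hN.V hN.V2 hL).trans (add_le_add ?_ le_rfl)
  set X := ∑ r ∈ Qi D Al t A, (b : ℝ) * ρ r * dens (P r) with hX
  have hX0 : 0 ≤ X := Finset.sum_nonneg fun r hr => by
    have := (hR.pos r).le
    have := (dens_pos (ho.pm _ (mem_Qi.1 hr).1)).le
    positivity
  set Y := ∑ j ∈ A', mI d' j with hY
  have hY0 : 0 ≤ Y := Finset.sum_nonneg fun j _ => hnn j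
  have h1 : ∑ q ∈ Qi D Al τ A', I (Fq D u.B u.A τ 1 q) ≤ Y := sum_IFq_le hR' hil Al hnn
  have h2 := SR_le_mass hSB hl hR' hab hc₀ hfull hil hnn hR.pos hCL hp1
  have herr0 : 0 ≤ Ch * ηn (tp τ) + 3 * (Kn (tp τ) : ℕ) *
      Real.exp (-(2 * (tp τ : ℝ) ^ (1 / 2 : ℝ))) := by
    have : 0 ≤ ηn (tp τ) := by unfold ηn; positivity
    positivity
  have h3 : (Ch * ηn (tp τ) + 3 * (Kn (tp τ) : ℕ) *
      Real.exp (-(2 * (tp τ : ℝ) ^ (1 / 2 : ℝ)))) * SR ρ u.B (Qi D Al τ A') ≤ 1 / c₀ * Y := by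
    refine (mul_le_mul_of_nonneg_left h2 herr0).trans ?_
    rw [← mul_assoc]
    exact mul_le_of_le_one_left (by positivity) hN.err
  have hK0 := ho.K0
  have h4 : Ch * ∑ q ∈ Qi D Al τ A', I (Fq D u.B u.A τ 1 q) ≤ Ch * Y :=
    mul_le_mul_of_nonneg_left h1 hCh
  calc X * (C * K' * Real.exp 2 / 2 * (Ch * ∑ q ∈ Qi D Al τ A', I (Fq D u.B u.A τ 1 q) +
        (Ch * ηn (tp τ) + 3 * (Kn (tp τ) : ℕ) *
          Real.exp (-(2 * (tp τ : ℝ) ^ (1 / 2 : ℝ)))) * SR ρ u.B (Qi D Al τ A')))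
      ≤ X * (C * K' * Real.exp 2 / 2 * (Ch * Y + 1 / c₀ * Y)) := by
        refine mul_le_mul_of_nonneg_left (mul_le_mul_of_nonneg_left (add_le_add h4 h3) ?_) hX0
        positivity
    _ = _ := by ring

open Classical in
/-- **(nonleaf, leaf)** with the node facts of the nonleaf side -/
theorem HL_sb {C : ℝ} (hC : PairO C) (hC0 : 0 ≤ C) (hR : D.Rad ρ)
    (hdead : ∀ j, D.it j ∉ Al → ∀ a, D.om j a = 0) (hM : 0 < M) (hM' : 0 < M')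
    {d' : DT Λ κ} (hR' : SideI D sp u.B u.A τ A d') {A' : Finset Λ}
    (hL' : SideI D sp b' pr' t' A' d) (hSB : SB D ρ Al P' W U CL c₀ Ch u τ) (hl : ¬ isL τ)
    (hab : ∀ j, D.al j ≤ D.be j) (hc₀ : 0 < c₀)
    (hfull : ∀ q ∈ Al, 2 * ρ q ≤ ∑ j ∈ Finset.univ.filter (fun j => D.it j = q), (D.be j - D.al j))
    (hil : IL D.it A) (hnn : ∀ j, 0 ≤ mI d' j) (hCL : 0 ≤ CL) (hp1 : 1 ≤ tp τ)
    (hCh : 0 ≤ Ch) (hN : HLN Ch CL (tp τ)) {K' : ℝ} {P : ℕ → Finset ℕ} {v : ℕ → ℕ → ℤ → ℝ}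
    (ho : OmW D b' pr' t' K' P v) (Rl : Finset (Λ × Λ))
    (hJ : ∀ e ∈ Qi D Al τ A ×ˢ Qi D Al t' A', JC x0 y0 M u.A M' pr' e)
    (hL : ∀ e ∈ Qi D Al τ A ×ˢ Qi D Al t' A', ¬ Lo (SE M u.B u.A M' b' pr' e) e →
      Tn (tp τ) ≤ Dsc (ρ e.1) (ρ e.2) (SE M u.B u.A M' b' pr' e) ∧
      SD (x0 e) (y0 e) (Real.sqrt (Dsc (ρ e.1) (ρ e.2) (SE M u.B u.A M' b' pr' e))) ≤ 1) :
    Q Rl (D.uA M u.B u.A τ A 1) (D.uA M' b' pr' t' A' 1) ≤
      (C * K' * Real.exp 2 / 2 * (Ch + 1 / c₀)) *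
        ((∑ j ∈ A, mI d' j) * ∑ r ∈ Qi D Al t' A', (b' : ℝ) * ρ r * dens (P r)) +
      ∑ e ∈ Qi D Al τ A ×ˢ Qi D Al t' A',
        (u.B : ℝ) * b' * FL Lo ρ D.γ (SE M u.B u.A M' b' pr' e) e := by
  have hε : 0 < Real.exp (-(2 * (tp τ : ℝ) ^ (1 / 2 : ℝ))) := Real.exp_pos _
  have hε1 : Real.exp (-(2 * (tp τ : ℝ) ^ (1 / 2 : ℝ))) ≤ 2 := by
    have : Real.exp (-(2 * (tp τ : ℝ) ^ (1 / 2 : ℝ))) ≤ 1 :=
      Real.exp_le_one_iff.2 (by have : (0 : ℝ) ≤ (tp τ : ℝ) ^ (1 / 2 : ℝ) := by positivity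
                                linarith)
    linarith
  refine (HL_loc (A := A) (A' := A') hC hC0 hR hdead hM hM' hR'.hb hL'.hb hR'.hF hL'.hF hR'.hW
    hL'.hW ho Rl hε hε1 (by unfold Hn; positivity) (fun q hq => hSB.ih hl q (mem_Qi.1 hq).2.1
    (mem_Qi.1 hq).1) hJ hN.T4 hN.V hN.V2 hL).trans (add_le_add ?_ le_rfl)
  set X := ∑ r ∈ Qi D Al t' A', (b' : ℝ) * ρ r * dens (P r) with hX
  have hX0 : 0 ≤ X := Finset.sum_nonneg fun r hr => by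
    have := (hR.pos r).le
    have := (dens_pos (ho.pm _ (mem_Qi.1 hr).1)).le
    positivity
  set Y := ∑ j ∈ A, mI d' j with hY
  have hY0 : 0 ≤ Y := Finset.sum_nonneg fun j _ => hnn j
  have h1 : ∑ q ∈ Qi D Al τ A, I (Fq D u.B u.A τ 1 q) ≤ Y := sum_IFq_le hR' hil Al hnn
  have h2 := SR_le_mass hSB hl hR' hab hc₀ hfull hil hnn hR.pos hCL hp1
  have herr0 : 0 ≤ Ch * ηn (tp τ) + 3 * (Kn (tp τ) : ℕ) *
      Real.exp (-(2 * (tp τ : ℝ) ^ (1 / 2 : ℝ))) := by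
    have : 0 ≤ ηn (tp τ) := by unfold ηn; positivity
    positivity
  have h3 : (Ch * ηn (tp τ) + 3 * (Kn (tp τ) : ℕ) *
      Real.exp (-(2 * (tp τ : ℝ) ^ (1 / 2 : ℝ)))) * SR ρ u.B (Qi D Al τ A) ≤ 1 / c₀ * Y := by
    refine (mul_le_mul_of_nonneg_left h2 herr0).trans ?_
    rw [← mul_assoc]
    exact mul_le_of_le_one_left (by positivity) hN.err
  have hK0 := ho.K0
  have h4 : Ch * ∑ q ∈ Qi D Al τ A, I (Fq D u.B u.A τ 1 q) ≤ Ch * Y :=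
    mul_le_mul_of_nonneg_left h1 hCh
  calc C * K' * Real.exp 2 / 2 * (Ch * ∑ q ∈ Qi D Al τ A, I (Fq D u.B u.A τ 1 q) +
        (Ch * ηn (tp τ) + 3 * (Kn (tp τ) : ℕ) *
          Real.exp (-(2 * (tp τ : ℝ) ^ (1 / 2 : ℝ)))) * SR ρ u.B (Qi D Al τ A)) * X
      ≤ C * K' * Real.exp 2 / 2 * (Ch * Y + 1 / c₀ * Y) * X := by
        refine mul_le_mul_of_nonneg_right (mul_le_mul_of_nonneg_left (add_le_add h4 h3) ?_) hX0
        positivity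
    _ = _ := by ring

end nodes

end Crest.Agent.R4P.StopLeaf28
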