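import Mathlib
import Crest.Agent.R4P.LLTot_33
import Crest.Agent.R4P.StopLeaf_28
import Crest.Agent.R4P.SameLf_30

/-!
R4 powers pass (S0004), helper33, group [X]: **the number of the clean pairs at a crossing prime** (all scales) and its
hypotheses for the values `b b' (FL + Vm)`.

* `num_tot` : `shot_tot` + `ll_log`, exponent `C0 + 9 + CT + cl/500` of `log s`;
* `rel_of_PE`, `rel_of_RelN` : the relation of a pair at `z` from a lower state with the same scale pair;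
* `FV_le_one`, `FV_gt` : `F ≤ b b' (FL Lo + Vm PP)` satisfies the size hypotheses with `C0 = 1`.
-/

set_option autoImplicit false
open Finset

namespace Crest.Agent.R4P.NumTot33

open Crest.Agent.R4.HVW560 Crest.Agent.R4.Schur709 Crest.Agent.R4.StopHvw709
open Crest.Agent.R4.StopAsm709 Crest.Agent.R4.AvgItem710 Crest.Agent.R4.DeepSt579
open Crest.Agent.R4P.Rad800 Crest.Agent.R4P.StripP33 Crest.Agent.R4P.BrP33 Crest.Agent.R4P.ShotP33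
open Crest.Agent.R4P.ClsSum Crest.Agent.R4P.ShotTot33 Crest.Agent.R4P.LLTot33
open Crest.Agent.R4.NMW710 (Dq)
open Crest.Agent.R4.ClsS (eps1)
open Crest.Agent.R4.OSCore709 Crest.Agent.R4.CrossShot709 Crest.Agent.R4.Bad223 Crest.Agent.R4.ShotG223
open Crest.Agent.R4.ClsB (Tame)
open Crest.Agent.R4.CrossInv709 Crest.Agent.R4.CrossLoc709
open Crest.Agent.R4P.CofMono28 (SD)

open Classical in
set_option maxHeartbeats 1000000 in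
/-- **the number of the clean pairs at a crossing prime**, all scales -/
theorem num_tot {CL C0 CT : ℝ} (hCL : 1 ≤ CL) (hC0 : 0 ≤ C0) (hCT : 0 < CT) :
    ∃ cl₀ : ℝ, 0 < cl₀ ∧ ∀ cl : ℝ, cl₀ ≤ cl →
    ∃ s₁ : ℕ, 3 ≤ s₁ ∧
    (∀ s : ℕ, s₁ ≤ s → 400 ≤ lev cl s ∧ (Real.log s)^cl ≤ (2:ℝ)^(lev cl s) ∧
      (2:ℝ)^(lev cl s) ≤ (Real.log s)^(cl+1) ∧ 2 ≤ Real.log s) ∧
    ∀ (s M b pr c M' b' pr' c' a₀ : ℕ) (γ : ℝ) (ρ : ℕ → ℝ) (V W : Finset ℕ) (F : ℕ × ℕ → ℝ)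
    (Q : ℕ × ℕ → Prop) (A : ℝ),
    s₁ ≤ s → s.Prime → 1 ≤ a₀ → a₀ ≤ s → 0 ≤ A → (∀ q, 0 < ρ q) →
    0 < b → 0 < c → 0 < b' → 0 < c' → 0 < M → 0 < M' →
    (∀ l : ℕ, l.Prime → l ∣ M → l ≠ s → s ≤ l) → (∀ l : ℕ, l.Prime → l ∣ M' → l ≠ s → s ≤ l) →
    ∑ l ∈ M.primeFactors.erase s, (l:ℝ)^(-(11/12):ℝ) ≤ 1 →
    ∑ l ∈ M'.primeFactors.erase s, (l:ℝ)^(-(11/12):ℝ) ≤ 1 →
    (∀ q ∈ V, 0 < q ∧ pr ∣ q) → (∀ q ∈ W, 0 < q ∧ pr' ∣ q) →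
    (∀ q ∈ V, ∀ l : ℕ, l.Prime → l ∣ M → l ≠ s → ¬ l ^ 2 ∣ q / pr) →
    (∀ q ∈ W, ∀ l : ℕ, l.Prime → l ∣ M' → l ≠ s → ¬ l ^ 2 ∣ q / pr') →
    (∀ z : ℝ, (s:ℝ) ≤ z → ∀ q ∈ V, Tame z 1 (q / pr / M.gcd (q / pr))) →
    (∀ z : ℝ, (s:ℝ) ≤ z → ∀ q ∈ W, Tame z 1 (q / pr' / M'.gcd (q / pr'))) →
    (∀ q ∈ V, 1 ≤ CL * Real.log s * tq (q / pr / M.gcd (q / pr))) →
    (∀ q ∈ W, 1 ≤ CL * Real.log s * tq (q / pr' / M'.gcd (q / pr'))) →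
    (∀ e ∈ V ×ˢ W, fe s M' pr e.1 ≠ fe s M pr' e.2 → Dq ρ M b pr c M' b' pr' c' e ≤ 1 →
      F e ≤ (Real.log s)^C0 * (rd b c ρ e.1 * rd b' c' ρ e.2 / Dq ρ M b pr c M' b' pr' c' e)) →
    (∀ e ∈ V ×ˢ W, fe s M' pr e.1 ≠ fe s M pr' e.2 → 1 < Dq ρ M b pr c M' b' pr' c' e →
      F e ≤ (Real.log s)^C0 * (rd b c ρ e.1 * rd b' c' ρ e.2 / Dq ρ M b pr c M' b' pr' c' e) ∨
      (LoA ((Real.log s)^CT) ρ M b pr c M' b' pr' c' e ∧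
        F e ≤ (Real.log s)^C0 * (rd b c ρ e.1 * rd b' c' ρ e.2))) →
    (∀ e ∈ V ×ˢ W, fe s M' pr e.1 ≠ fe s M pr' e.2 →
      Dq ρ M b pr c M' b' pr' c' e ≤ 1/2^(lev cl s) → 0 < F e → RelI γ ρ M b pr c M' b' pr' c' e) →
    (∀ e ∈ V ×ˢ W, fe s M' pr e.1 ≠ fe s M pr' e.2 →
      Dq ρ M b pr c M' b' pr' c' e ≤ 1/2^(lev cl s) → 0 < F e →
      FSs s γ ρ (lev cl s) M b pr c M' b' pr' c' ((e.1 / pr).factorization s) ((e.2 / pr').factorization s) e →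
      FLow s (dex ((e.1 / pr).factorization s) (M.factorization s) ((e.2 / pr').factorization s)
          (M'.factorization s)) a₀ (rf (itm s pr e.1) (st s M)) (rf (itm s pr' e.2) (st s M'))
        (if fe s M' pr e.1 < fe s M pr' e.2 then (b:ℝ)/c*γ else (b':ℝ)/c'*γ)
        (Dq ρ M b pr c M' b' pr' c' e) ∨ Q e) →
    ∑ e ∈ (V ×ˢ W).filter (fun e => fe s M' pr e.1 ≠ fe s M pr' e.2), F e ≤
      (Real.log s)^(C0 + 9 + CT + cl/500) * ((s:ℝ)^(-(1/2-eps1)) *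
            ((∑ q ∈ V, rd b c ρ q * tq (q / pr)) * (∑ q ∈ W, rd b' c' ρ q * tq (q / pr')))^(1/2+eps1) +
          (s:ℝ)^(-(1/2):ℝ) *
            ((∑ q ∈ V, rd b c ρ q * tq (q / pr)) * (∑ q ∈ W, rd b' c' ρ q * tq (q / pr')))^(1/2:ℝ) +
          (Real.log s)^(A*(6/1000)) * ((s:ℝ)^(-(1/2-eps2)) *
            ((∑ q ∈ V, rd b c ρ q * tq (q / pr)) * (∑ q ∈ W, rd b' c' ρ q * tq (q / pr')))^(1/2+eps2))) +
      (Real.log s)^(C0 + 9 + CT + cl/500) * (s:ℝ)^(-(1/2-eps2)) *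
        (∑ i ∈ V.image (fe s M' pr), ∑ j ∈ W.image (fe s M pr'),
          (if dst i j = 1 then (Real.log s)^(A*(6/1000)) * (a₀:ℝ)^(6/1000:ℝ) +
            acc A s (if i < j then (b:ℝ)/c*γ else (b':ℝ)/c'*γ) else 0) *
          (mc s M' b pr c ρ V i * mc s M b' pr' c' ρ W j)^(1/2+eps2)) +
      ∑ e ∈ (V ×ˢ W).filter (fun e => fe s M' pr e.1 ≠ fe s M pr' e.2 ∧
        (0 < F e ∧ (Dq ρ M b pr c M' b' pr' c' e ≤ 1/2^(lev cl s) ∧ Q e))), F e := by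
  have he1 : eps1 = 1/1000 := rfl
  obtain ⟨cl₀, hcl₀, hT⟩ := shot_tot hCL hC0
  obtain ⟨s₂, hs₂, hLL⟩ := ll_log (CL := CL) (C0 := C0) hCT (ε := eps1) (by rw [he1]; norm_num)
    (by rw [he1]; norm_num)
  refine ⟨cl₀, hcl₀, fun cl hcl => ?_⟩
  obtain ⟨s₁, hs₁, hlev, hmain⟩ := hT cl hcl
  have hcl0 : 0 ≤ cl := hcl₀.le.trans hcl
  refine ⟨max s₁ s₂, hs₁.trans (le_max_left _ _), fun s hs => hlev s ((le_max_left _ _).trans hs), ?_⟩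
  intro s M b pr c M' b' pr' c' a₀ γ ρ V W F Q A hss hs ha₀ ha₀' hA hρ hb hc hb' hc' hM hM' hMs hMs'
    hsM hsM' hV hW oV oW tV tW lV lW hF hF2 hrel hFG
  have h1 := hmain s M b pr c M' b' pr' c' a₀ γ ρ V W F Q A ((le_max_left _ _).trans hss) hs ha₀ ha₀' hA hρ
    hb hc hb' hc' hM hM' hMs hMs' hsM hsM' hV hW oV oW tV tW lV lW hF hrel hFG
  obtain ⟨-, -, -, hlog⟩ := hlev s ((le_max_left _ _).trans hss)
  have X : XD s M b pr c M' b' pr' c' ρ V W (CL * Real.log s) :=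
    XD.mk' (by linarith) hs (hs₁.trans ((le_max_left _ _).trans hss)) hρ hb hc hb' hc' hM hM' hsM hsM' hV hW
      oV oW lV lW
  set D := Dq ρ M b pr c M' b' pr' c' with hD
  set f : ℕ → ℕ := fe s M' pr with hf
  set g : ℕ → ℕ := fe s M pr' with hg
  have h2 := hLL s M b pr c M' b' pr' c' ρ V W F
    ((V ×ˢ W).filter (fun e => f e.1 ≠ g e.2 ∧ ¬ D e ≤ 1)) ((le_max_right _ _).trans hss) X
    (Finset.filter_subset _ _) (fun e he => (Finset.mem_filter.1 he).2.1)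
    (fun e he => not_le.1 (Finset.mem_filter.1 he).2.2)
    (fun e he => hF2 e (Finset.mem_filter.1 he).1 (Finset.mem_filter.1 he).2.1
      (not_le.1 (Finset.mem_filter.1 he).2.2))
  have hsplit : ∑ e ∈ (V ×ˢ W).filter (fun e => f e.1 ≠ g e.2), F e =
      ∑ e ∈ (V ×ˢ W).filter (fun e => f e.1 ≠ g e.2 ∧ D e ≤ 1), F e +
      ∑ e ∈ (V ×ˢ W).filter (fun e => f e.1 ≠ g e.2 ∧ ¬ D e ≤ 1), F e := by
    rw [← Finset.sum_filter_add_sum_filter_not ((V ×ˢ W).filter (fun e => f e.1 ≠ g e.2)) (fun e => D e ≤ 1),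
      Finset.filter_filter, Finset.filter_filter]
  rw [hsplit]
  set ℓ := Real.log s with hℓ
  have hℓ0 : 0 < ℓ := by linarith
  have hs0 : (0:ℝ) < s := by exact_mod_cast hs.pos
  have rd0 := X.rd0
  have rd0' := X.rd0'
  set x := ∑ q ∈ V, rd b c ρ q * tq (q / pr) with hx
  set y := ∑ q ∈ W, rd b' c' ρ q * tq (q / pr') with hy
  have x0 : 0 ≤ x := Finset.sum_nonneg fun q _ => mul_nonneg (rd0 q).le (tq_nonneg _)
  have y0 : 0 ≤ y := Finset.sum_nonneg fun q _ => mul_nonneg (rd0' q).le (tq_nonneg _)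
  have xy0 : 0 ≤ x * y := mul_nonneg x0 y0
  set Z1 := (s:ℝ)^(-(1/2-eps1)) * (x * y)^(1/2+eps1) with hZ1
  set Z0 := (s:ℝ)^(-(1/2):ℝ) * (x * y)^(1/2:ℝ) with hZ0
  set Z2 := (s:ℝ)^(-(1/2-eps2)) * (x * y)^(1/2+eps2) with hZ2
  have z1 : 0 ≤ Z1 := by positivity
  have z0 : 0 ≤ Z0 := by positivity
  have z2 : 0 ≤ Z2 := by positivity
  set KK := ∑ i ∈ V.image f, ∑ j ∈ W.image g,
          (if dst i j = 1 then ℓ^(A*(6/1000)) * (a₀:ℝ)^(6/1000:ℝ) +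
            acc A s (if i < j then (b:ℝ)/c*γ else (b':ℝ)/c'*γ) else 0) *
          (mc s M' b pr c ρ V i * mc s M b' pr' c' ρ W j)^(1/2+eps2) with hKK
  have kk0 : 0 ≤ KK := by
    rw [hKK]
    refine Finset.sum_nonneg fun i _ => Finset.sum_nonneg fun j _ => ?_
    have m1 : 0 ≤ mc s M' b pr c ρ V i := Finset.sum_nonneg fun q _ => mul_nonneg (rd0 q).le (tq_nonneg _)
    have m2 : 0 ≤ mc s M b' pr' c' ρ W j := Finset.sum_nonneg fun q _ => mul_nonneg (rd0' q).le (tq_nonneg _)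
    refine mul_nonneg ?_ (Real.rpow_nonneg (mul_nonneg m1 m2) _)
    split_ifs
    · have := acc_nonneg A s ((b:ℝ)/c*γ); positivity
    · have := acc_nonneg A s ((b':ℝ)/c'*γ); positivity
    · exact le_rfl
  set K0 := ℓ^(C0 + 8 + cl/500) with hK0
  set K1 := ℓ^(C0 + 9 + CT + cl/500) with hK1
  have k0 : 0 < K0 := by positivity
  have a1 : 2 * K0 ≤ K1 := by
    have : K1 = K0 * ℓ^(1+CT) := by
      rw [hK1, hK0, ← Real.rpow_add hℓ0]; congr 1; ring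
    rw [this]
    have h3 : 2 ≤ ℓ^(1+CT) := by
      calc (2:ℝ) ≤ ℓ := hlog
        _ = ℓ^(1:ℝ) := (Real.rpow_one _).symm
        _ ≤ _ := Real.rpow_le_rpow_of_exponent_le (by linarith) (by linarith)
    nlinarith
  have a2 : ℓ^(C0 + CT + 3) * 2 ≤ K1 := by
    have h4 : K1 = ℓ^(C0 + CT + 3) * ℓ^(6 + cl/500) := by
      rw [hK1, ← Real.rpow_add hℓ0]; congr 1; ring
    rw [h4]
    have h3 : 2 ≤ ℓ^(6 + cl/500) := by
      calc (2:ℝ) ≤ ℓ := hlog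
        _ = ℓ^(1:ℝ) := (Real.rpow_one _).symm
        _ ≤ _ := Real.rpow_le_rpow_of_exponent_le (by linarith) (by
            have : 0 ≤ cl/500 := by positivity
            linarith)
    exact mul_le_mul_of_nonneg_left h3 (by positivity)
  have h2' : ∑ e ∈ (V ×ˢ W).filter (fun e => f e.1 ≠ g e.2 ∧ ¬ D e ≤ 1), F e ≤ ℓ^(C0 + CT + 3) * Z1 := h2
  set L6 := ℓ^(A*(6/1000)) with hL6
  have l6 : 0 < L6 := by positivity
  have s2 : 0 < (s:ℝ)^(-(1/2-eps2)) := by positivity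
  have t1 : K0 * (Z1 + Z0 + L6 * Z2) + ℓ^(C0 + CT + 3) * Z1 ≤ K1 * (Z1 + Z0 + L6 * Z2) := by
    have : 0 ≤ L6 * Z2 := by positivity
    nlinarith
  have t2 : K0 * (s:ℝ)^(-(1/2-eps2)) * KK ≤ K1 * (s:ℝ)^(-(1/2-eps2)) * KK := by
    have : K0 ≤ K1 := by linarith
    gcongr
  linarith

/-! ### the relation -/

/-- the relation from the letters of the scale pair -/
theorem rel_of_n {γ : ℝ} {ρ : ℕ → ℝ} {M b pr c M' b' pr' c' : ℕ} {e : ℕ × ℕ} (hM : 0 < M)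
    (h0 : 0 < e.1 / pr)
    (h : ∃ n : ℤ, |(n:ℝ) + ((sc (sd (e.1 / pr) M ((b:ℝ)/c)) (sd (e.2 / pr') M' ((b':ℝ)/c'))).1 * γ -
        (sc (sd (e.1 / pr) M ((b:ℝ)/c)) (sd (e.2 / pr') M' ((b':ℝ)/c'))).2 * γ)| ≤
      2 * Dsc (ρ e.1) (ρ e.2) (sc (sd (e.1 / pr) M ((b:ℝ)/c)) (sd (e.2 / pr') M' ((b':ℝ)/c')))) :
    RelI γ ρ M b pr c M' b' pr' c' e := by
  obtain ⟨n, hn⟩ := h
  set U := e.1 / pr / M.gcd (e.1 / pr) with hU
  set U' := e.2 / pr' / M'.gcd (e.2 / pr') with hU'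
  have hU0 : 0 < U := div_pos' h0 hM
  have hcop : Nat.Coprime (cof U' U) (cof U U') := (Crest.Agent.R4.AvgItem710.cof_coprime hU0).symm
  set y := cof U' U with hy
  set x := cof U U' with hx
  obtain ⟨m, m', hmm⟩ : ∃ m m' : ℤ, m * y - m' * x = n := by
    have hb := Nat.gcd_eq_gcd_ab y x
    rw [hcop] at hb
    refine ⟨n * y.gcdA x, -(n * y.gcdB x), ?_⟩
    have : (1:ℤ) = y * y.gcdA x + x * y.gcdB x := by exact_mod_cast hb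
    linear_combination (-n) * this
  refine ⟨m, m', ?_⟩
  have e1 : (m + rf (e.1 / pr) M * ((b : ℝ) / c * γ)) * (y:ℕ) -
      (m' + rf (e.2 / pr') M' * ((b' : ℝ) / c' * γ)) * (x:ℕ) =
      (n:ℝ) + ((sc (sd (e.1 / pr) M ((b:ℝ)/c)) (sd (e.2 / pr') M' ((b':ℝ)/c'))).1 * γ -
        (sc (sd (e.1 / pr) M ((b:ℝ)/c)) (sd (e.2 / pr') M' ((b':ℝ)/c'))).2 * γ) := by
    have : (n:ℝ) = m * y - m' * x := by rw [← hmm]; push_cast; ring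
    rw [this]
    unfold sc sd
    simp only
    ring
  rw [e1]
  have hD : Dq ρ M b pr c M' b' pr' c' e =
      Dsc (ρ e.1) (ρ e.2) (sc (sd (e.1 / pr) M ((b:ℝ)/c)) (sd (e.2 / pr') M' ((b':ℝ)/c'))) :=
    Da_eq_sc _ _ _ _ _ _ _ _
  rw [hD]
  exact hn

/-- the relation of `Fsc` -/
theorem rel_of_RelN {γ : ℝ} {ρ : ℕ → ℝ} {M b pr c M' b' pr' c' : ℕ} {e : ℕ × ℕ} (hM : 0 < M)
    (h0 : 0 < e.1 / pr)
    (h : RelN γ (ρ e.1) (ρ e.2) (sc (sd (e.1 / pr) M ((b:ℝ)/c)) (sd (e.2 / pr') M' ((b':ℝ)/c')))) :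
    RelI γ ρ M b pr c M' b' pr' c' e := by
  obtain ⟨n, hn⟩ := h
  refine rel_of_n hM h0 ⟨n, ?_⟩
  have e1 : ∀ a d : ℝ, (n:ℝ) + (a - d) = n - (d - a) := fun a d => by ring
  rw [e1]
  refine hn.trans ?_
  unfold Dsc
  have h1 := le_max_left ((sc (sd (e.1 / pr) M ((b:ℝ)/c)) (sd (e.2 / pr') M' ((b':ℝ)/c'))).1 * ρ e.1)
    ((sc (sd (e.1 / pr) M ((b:ℝ)/c)) (sd (e.2 / pr') M' ((b':ℝ)/c'))).2 * ρ e.2)
  have h2 := le_max_right ((sc (sd (e.1 / pr) M ((b:ℝ)/c)) (sd (e.2 / pr') M' ((b':ℝ)/c'))).1 * ρ e.1)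
    ((sc (sd (e.1 / pr) M ((b:ℝ)/c)) (sd (e.2 / pr') M' ((b':ℝ)/c'))).2 * ρ e.2)
  linarith

lemma cof_cross_eq (U U' : ℕ) : U * cof U' U = U' * cof U U' := by
  have h1 : U.gcd U' * cof U U' = U := Crest.Agent.R4.AvgItem710.mul_cof
  have h2 : U'.gcd U * cof U' U = U' := Crest.Agent.R4.AvgItem710.mul_cof
  calc U * cof U' U = (U.gcd U' * cof U U') * cof U' U := by rw [h1]
    _ = (U'.gcd U * cof U' U) * cof U U' := by rw [Nat.gcd_comm]; ring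
    _ = _ := by rw [h2]

section rel
open Crest.Agent.R4P.GInst194 Crest.Agent.R4P.WalkIT579 Crest.Agent.R4P.Item758
open Crest.Agent.R4P.Walk560 Crest.Agent.R4.Fam464 Crest.Agent.R4P.Cnt588 Crest.Agent.R4.Avg758

/-- **the relation from any state** with the same scale pair whose pieces overlap -/
theorem rel_of_PE {Λ κ : Type*} [Fintype Λ] [DecidableEq Λ] [Fintype κ] [DecidableEq κ]
    {D : Par Λ κ} {ρ : ℕ → ℝ} (hρ : D.Rad ρ) {M M' b pr c b' pr' c' : ℕ} {t t' : IT}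
    {A A' : Finset Λ} (hM : 0 < M) (hM' : 0 < M') (hb : 0 < b) (hb' : 0 < b')
    (hF : Fit b pr t) (hF' : Fit b' pr' t') (hW : D.Wts pr t) (hW' : D.Wts pr' t') (hc : c ∣ b)
    (hc' : c' ∣ b')
    {R : Finset (Λ × Λ)} {e : ℕ × ℕ}
    (he : e ∈ D.PE R (D.uA M b pr t A c) (D.uA M' b' pr' t' A' c'))
    {M₀ b₀ pr₀ c₀ M₀' b₀' pr₀' c₀' : ℕ} (hM₀ : 0 < M₀) (h0 : 0 < e.1 / pr₀)
    (hsc : sc (sd (e.1 / pr) M ((b:ℝ)/c)) (sd (e.2 / pr') M' ((b':ℝ)/c')) =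
      sc (sd (e.1 / pr₀) M₀ ((b₀:ℝ)/c₀)) (sd (e.2 / pr₀') M₀' ((b₀':ℝ)/c₀'))) :
    RelI D.γ ρ M₀ b₀ pr₀ c₀ M₀' b₀' pr₀' c₀' e := by
  set U := e.1 / pr / M.gcd (e.1 / pr) with hU
  set U' := e.2 / pr' / M'.gcd (e.2 / pr') with hU'
  obtain ⟨m, m', hmm⟩ := Crest.Agent.R4P.Link758.PE_rel hρ hM hM' hb hb' hF hF' hW hW' hc hc' he (x := cof U U')
    (y₁ := cof U' U) (cof_cross_eq U U')
  refine rel_of_n hM₀ h0 ⟨m * cof U' U - m' * cof U U', ?_⟩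
  rw [← hsc]
  have e1 : (m + rf (e.1 / pr) M * ((b : ℝ) / c * D.γ)) * (cof U' U : ℕ) -
        (m' + rf (e.2 / pr') M' * ((b' : ℝ) / c' * D.γ)) * (cof U U' : ℕ) =
      ((m * cof U' U - m' * cof U U' : ℤ) : ℝ) +
      ((sc (sd (e.1 / pr) M ((b:ℝ)/c)) (sd (e.2 / pr') M' ((b':ℝ)/c'))).1 * D.γ -
        (sc (sd (e.1 / pr) M ((b:ℝ)/c)) (sd (e.2 / pr') M' ((b':ℝ)/c'))).2 * D.γ) := by
    unfold sc sd
    push_cast
    ring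
  rw [← e1]
  refine hmm.trans (le_of_eq ?_)
  unfold Dsc sc sd
  congr 2 <;> ring

end rel

/-! ### the values -/

/-- the scale in the letters of the scale pair -/
theorem Dq_one (ρ : ℕ → ℝ) (M b pr M' b' pr' : ℕ) (e : ℕ × ℕ) :
    Dq ρ M b pr 1 M' b' pr' 1 e = Dsc (ρ e.1) (ρ e.2) (SE M b pr M' b' pr' e) := by
  unfold Dq
  have : ∀ b q : ℕ, rd b 1 ρ q = (b:ℝ) * ρ q := fun b q => by unfold rd; rw [Nat.cast_one, div_one]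
  rw [this, this]
  exact Da_eq_sc _ _ _ _ _ _ _ _

/-- exits multiply the scale pair -/
theorem SE_mul (l M b pr M' b' pr' : ℕ) (e : ℕ × ℕ) :
    SE M (b * l) pr M' (b' * l) pr' e =
      (l * (SE M b pr M' b' pr' e).1, l * (SE M b pr M' b' pr' e).2) := by
  unfold SE
  have h : ∀ b : ℕ, ((b * l : ℕ):ℝ) = (l:ℝ) * b := fun b => by push_cast; ring
  rw [h, h, sc_raise2]

section val
open Crest.Agent.R4P.CrossLoc25 (FL)
open Crest.Agent.R4P.SameIx30 (Vm)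
variable {Lo : ℝ × ℝ → ℕ × ℕ → Prop} {PP : ℕ × ℕ → Prop} {ρ : ℕ → ℝ} {γ : ℝ} {M b pr M' b' pr' : ℕ}
variable {e : ℕ × ℕ} {F : ℕ × ℕ → ℝ}

lemma Fsc_le_one {γ r r' : ℝ} {s : ℝ × ℝ} (hr : 0 ≤ r) (hr' : 0 ≤ r') (hD : 0 < Dsc r r' s) (h1 : Dsc r r' s ≤ 1) :
    Fsc γ r r' s ≤ 6 * (r * r' / Dsc r r' s) := by
  have h0 : 0 ≤ r * r' := mul_nonneg hr hr'
  have h2 : 0 ≤ r * r' / Dsc r r' s := by positivity
  have h3 : r * r' ≤ r * r' / Dsc r r' s := by rw [le_div_iff₀ hD]; nlinarith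
  unfold Fsc
  split_ifs
  · linarith
  · linarith
  · linarith

lemma Fsc_le_gt {γ r r' : ℝ} {s : ℝ × ℝ} (hr : 0 ≤ r) (hr' : 0 ≤ r') (h1 : 1 < Dsc r r' s) :
    Fsc γ r r' s ≤ 6 * (r * r') := by
  have h0 : 0 ≤ r * r' := mul_nonneg hr hr'
  have h3 : r * r' / Dsc r r' s ≤ r * r' := by rw [div_le_iff₀ (by linarith)]; nlinarith
  unfold Fsc
  rw [if_neg (by linarith)]
  linarith

/-- sizes, `D ≤ 1` -/
theorem FV_le_one (hρ : ∀ q, 0 < ρ q) (hD : 0 < Dq ρ M b pr 1 M' b' pr' 1 e)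
    (h : F e ≤ (b:ℝ) * b' * (FL Lo ρ γ (SE M b pr M' b' pr' e) e + Vm PP ρ (SE M b pr M' b' pr' e) e))
    (h1 : Dq ρ M b pr 1 M' b' pr' 1 e ≤ 1) :
    F e ≤ 8 * (rd b 1 ρ e.1 * rd b' 1 ρ e.2 / Dq ρ M b pr 1 M' b' pr' 1 e) := by
  refine h.trans ?_
  have e1 : ∀ b q : ℕ, rd b 1 ρ q = (b:ℝ) * ρ q := fun b q => by unfold rd; rw [Nat.cast_one, div_one]
  rw [e1, e1]
  rw [Dq_one] at hD h1 ⊢
  set s := SE M b pr M' b' pr' e with hs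
  have h2 : FL Lo ρ γ s e ≤ 6 * (ρ e.1 * ρ e.2 / Dsc (ρ e.1) (ρ e.2) s) := by
    unfold Crest.Agent.R4P.CrossLoc25.FL
    split_ifs
    · exact Fsc_le_one (hρ _).le (hρ _).le hD h1
    · have := hρ e.1; have := hρ e.2; positivity
  have h3 : Vm PP ρ s e ≤ 2 * (ρ e.1 * ρ e.2 / Dsc (ρ e.1) (ρ e.2) s) := by
    unfold Crest.Agent.R4P.SameIx30.Vm
    split_ifs
    · exact le_rfl
    · have := hρ e.1; have := hρ e.2; positivity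
  calc (b:ℝ) * b' * (FL Lo ρ γ s e + Vm PP ρ s e)
      ≤ (b:ℝ) * b' * (6 * (ρ e.1 * ρ e.2 / Dsc (ρ e.1) (ρ e.2) s) + 2 * (ρ e.1 * ρ e.2 / Dsc (ρ e.1) (ρ e.2) s)) := by
        gcongr
    _ = _ := by ring

/-- sizes, `D > 1` -/
theorem FV_gt (hρ : ∀ q, 0 < ρ q)
    (h : F e ≤ (b:ℝ) * b' * (FL Lo ρ γ (SE M b pr M' b' pr' e) e + Vm PP ρ (SE M b pr M' b' pr' e) e))
    (h1 : 1 < Dq ρ M b pr 1 M' b' pr' 1 e) :
    F e ≤ 8 * (rd b 1 ρ e.1 * rd b' 1 ρ e.2 / Dq ρ M b pr 1 M' b' pr' 1 e) ∨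
    (Lo (SE M b pr M' b' pr' e) e ∧ F e ≤ 8 * (rd b 1 ρ e.1 * rd b' 1 ρ e.2)) := by
  have e1 : ∀ b q : ℕ, rd b 1 ρ q = (b:ℝ) * ρ q := fun b q => by unfold rd; rw [Nat.cast_one, div_one]
  rw [e1, e1]
  rw [Dq_one] at h1 ⊢
  set s := SE M b pr M' b' pr' e with hs
  have r1 := hρ e.1
  have r2 := hρ e.2
  have hD : 0 < Dsc (ρ e.1) (ρ e.2) s := by linarith
  have h3 : Vm PP ρ s e ≤ 2 * (ρ e.1 * ρ e.2 / Dsc (ρ e.1) (ρ e.2) s) := by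
    unfold Crest.Agent.R4P.SameIx30.Vm
    split_ifs
    · exact le_rfl
    · positivity
  by_cases hL : Lo s e
  · right
    refine ⟨hL, h.trans ?_⟩
    have h2 : FL Lo ρ γ s e ≤ 6 * (ρ e.1 * ρ e.2) := by
      unfold Crest.Agent.R4P.CrossLoc25.FL
      split_ifs
      · exact Fsc_le_gt r1.le r2.le h1
      · positivity
    have h4 : ρ e.1 * ρ e.2 / Dsc (ρ e.1) (ρ e.2) s ≤ ρ e.1 * ρ e.2 := by
      rw [div_le_iff₀ hD]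
      have : 0 < ρ e.1 * ρ e.2 := by positivity
      nlinarith
    calc (b:ℝ) * b' * (FL Lo ρ γ s e + Vm PP ρ s e)
        ≤ (b:ℝ) * b' * (6 * (ρ e.1 * ρ e.2) + 2 * (ρ e.1 * ρ e.2)) := by
          refine mul_le_mul_of_nonneg_left ?_ (by positivity)
          linarith
      _ = _ := by ring
  · left
    refine h.trans ?_
    have h2 : FL Lo ρ γ s e = 0 := by
      unfold Crest.Agent.R4P.CrossLoc25.FL
      rw [if_neg (fun h5 => hL h5.1)]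
    rw [h2, zero_add]
    calc (b:ℝ) * b' * Vm PP ρ s e ≤ (b:ℝ) * b' * (2 * (ρ e.1 * ρ e.2 / Dsc (ρ e.1) (ρ e.2) s)) := by gcongr
      _ ≤ (b:ℝ) * b' * (8 * (ρ e.1 * ρ e.2 / Dsc (ρ e.1) (ρ e.2) s)) := by
          have : 0 ≤ ρ e.1 * ρ e.2 / Dsc (ρ e.1) (ρ e.2) s := by positivity
          gcongr
          norm_num
      _ = _ := by ring

/-- helper28's threshold predicate gives `LoA` -/
theorem LoA_of_LoSt {T : ℝ} {p0 : ℕ} {x0 y0 : ℕ × ℕ → ℕ} (hx : x0 e = xR M pr M' pr' e)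
    (hy : y0 e = yR M pr M' pr' e)
    (h : Crest.Agent.R4P.StopLeaf28.LoSt T p0 ρ x0 y0 (SE M b pr M' b' pr' e) e) :
    LoA T ρ M b pr 1 M' b' pr' 1 e := by
  unfold Crest.Agent.R4P.StopLeaf28.LoSt at h
  unfold LoA
  rw [Dq_one, ← hx, ← hy]
  rcases h with h | h | ⟨p, -, h1, h2⟩
  · exact Or.inl h
  · exact Or.inr (Or.inl h)
  · exact Or.inr (Or.inr ⟨p, h1, h2⟩)

end val

end Crest.Agent.R4P.NumTot33
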