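import Crest.Agent.R4P.CrsFacts_26
import Crest.Agent.R4P.KindTab_36
import Crest.Agent.R4P.NumCls_32
import Crest.Agent.R4P.NumTot_33

/-!
R4P (S0004), helper36, group [X]: **the classes at a crossing state of a context**.

* `ec b B q = ex b q + ex b B` : effective exponent; `cls_dst`, `cls_eq`, `cls_lt` : effective exponents of
  the two sides and the letters `a + m'`, `a' + m` of `ShotP_33`.
* `CZ.bx` : the item facts `BX` (NumCls_32) of a pair of classes; `SFX.mass` : item masses of a class.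
-/

set_option autoImplicit false
set_option linter.unusedSectionVars false
set_option linter.unusedVariables false

namespace Crest.Agent.R4P.ClsCtx36

open Crest.Agent.R4.Tour104 Crest.Agent.R4.Tour758 Crest.Agent.R4.Avg758 Crest.Agent.R4.Clos758
open Crest.Agent.R4.ClosL758 Crest.Agent.R4.ClosG758 Crest.Agent.R4.ClosR758
open Crest.Agent.R4.Fam464 Crest.Agent.R4P.Cnt588 Crest.Agent.R4P.Walk560 Crest.Agent.R4.Piece464
open Crest.Agent.R4P.Item758 Crest.Agent.R4P.AvgItem710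
open Crest.Agent.R4P.Data758 Crest.Agent.R4P.WalkIT579
open Crest.Agent.R4P.Bld532 (NS All NodeOk Bk)
open Crest.Agent.R4P.Res927 Crest.Agent.R4P.GSt927 Crest.Agent.R4P.OSWS245
open Crest.Agent.R4P.Skel189 (Ctx top Part PartW)
open Crest.Agent.R4.Soft104
open Crest.Agent.R4P.StratX36 Crest.Agent.R4P.CrsFacts26 Crest.Agent.R4P.AsmX26
open Crest.Agent.R4P.StratN36 (ex)
open Crest.Agent.R4P.ClsSum
open Crest.Agent.R4.HVW560 (dst)
open Crest.Agent.R4P.NumCls32 Crest.Agent.R4P.StripP33 Crest.Agent.R4P.ShotP33 Crest.Agent.R4P.BrP33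
open Crest.Agent.R4P.KindTab36 (cm)
open Crest.Agent.R4.DeepSt579 (tq tq_nonneg tq_mono rd)
open Crest.Agent.R4.ClsB (Tame)
open Crest.Agent.R4P.OSFin710 (OB)
open Crest.Agent.R4P

/-- effective exponent of an item at a node with the product `B` of the missing primes -/
def ec (b B q : ℕ) : ℕ := ex b q + ex b B

lemma fac_div' {b A q : ℕ} (hA : A ∣ q) (hq : 0 < q) :
    (q / A).factorization b + ex b A = ex b q := by
  have hA0 : 0 < A := Nat.pos_of_dvd_of_pos hA hq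
  have h2 : A.factorization b ≤ q.factorization b :=
    (Nat.factorization_le_iff_dvd hA0.ne' hq.ne').2 hA b
  rw [Nat.factorization_div hA]
  unfold ex
  simp only [Finsupp.coe_tsub, Pi.sub_apply]
  omega

/-- the circle at the prime `b` -/
lemma circ_ex {b A B M A' B' M' : ℕ} (h : A * B * M = A' * B' * M') (hA : 0 < A) (hB : 0 < B)
    (hM : 0 < M) (hA' : 0 < A') (hB' : 0 < B') (hM' : 0 < M') :
    ex b A + ex b B + M.factorization b = ex b A' + ex b B' + M'.factorization b := by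
  have h1 : (A * B * M).factorization b = (A' * B' * M').factorization b := by rw [h]
  rw [Nat.factorization_mul (Nat.mul_pos hA hB).ne' hM.ne', Nat.factorization_mul hA.ne' hB.ne',
    Nat.factorization_mul (Nat.mul_pos hA' hB').ne' hM'.ne', Nat.factorization_mul hA'.ne' hB'.ne'] at h1
  simp only [Finsupp.coe_add, Pi.add_apply] at h1
  unfold ex
  exact h1

section vals
variable {b A B M A' B' M' q r a a' i j : ℕ} (h : A * B * M = A' * B' * M') (hB : 0 < B)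
  (hM : 0 < M) (hB' : 0 < B') (hM' : 0 < M') (hq : 0 < q) (hr : 0 < r) (hd : A ∣ q) (hd' : A' ∣ r)
  (ha : (q / A).factorization b = a) (ha' : (r / A').factorization b = a')
  (hi : ec b B q = i) (hj : ec b B' r = j)
include h hB hM hB' hM' hq hr hd hd' ha ha' hi hj

lemma vals_eq : a + M'.factorization b + j = a' + M.factorization b + i := by
  have h1 := circ_ex (b := b) h (Nat.pos_of_dvd_of_pos hd hq) hB hM (Nat.pos_of_dvd_of_pos hd' hr) hB' hM'
  have h2 := fac_div' (b := b) hd hq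
  have h3 := fac_div' (b := b) hd' hr
  unfold ec at hi hj
  omega

/-- the distance of the effective exponents -/
lemma cls_dst : dst (a + M'.factorization b) (a' + M.factorization b) = dst i j := by
  have := vals_eq h hB hM hB' hM' hq hr hd hd' ha ha' hi hj
  unfold dst
  omega

lemma cls_eq : a + M'.factorization b = a' + M.factorization b ↔ i = j := by
  have := vals_eq h hB hM hB' hM' hq hr hd hd' ha ha' hi hj
  omega

lemma cls_lt : a + M'.factorization b < a' + M.factorization b ↔ i < j := by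
  have := vals_eq h hB hM hB' hM' hq hr hd hd' ha ha' hi hj
  omega

end vals

section ctx
variable {N : Skel189.Num} {γ : ℝ} {p0 P₀ : ℕ} {X : Ctx N γ p0 P₀} {j₀ : X.c.Lam}
  {Q' : NS → IT → Prop} {b : ℕ} {z : X.Sta} {v v' : NS} {σ σ' : IT}

/-- the facts of the two sides of a crossing state which the numbers need -/
structure CF (X : Ctx N γ p0 P₀) (CL : ℝ) (b : ℕ) (z : X.Sta) (v v' : NS) (σ σ' : IT) : Prop where
  bp : b.Prime
  L : SFX X CL b z.M v σ
  R : SFX X CL b z.M' v' σ'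
  circ : v.A * v.B * z.M = v'.A * v'.B * z.M'
  M0 : 0 < z.M
  M0' : 0 < z.M'
  gM : ∀ l : ℕ, l.Prime → l ∣ z.M → b ≤ l
  gM' : ∀ l : ℕ, l.Prime → l ∣ z.M' → b ≤ l
  sM : ∑ l ∈ z.M.primeFactors, (l : ℝ) ^ (-(11 / 12) : ℝ) ≤ 1
  sM' : ∑ l ∈ z.M'.primeFactors, (l : ℝ) ^ (-(11 / 12) : ℝ) ≤ 1

/-- **the facts of a crossing state** -/
theorem cz_CF {CL c₀ : ℝ}
    (hQB : ∀ u τ, Q' u τ → OB (X.c.D.par X.Y) X.S' X.par (w X.ψ) X.c.t.uq CL c₀ p0 u τ)
    (hUt : ∀ q ∈ X.S', ∀ z : ℝ, (b : ℝ) ≤ z →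
      ∑ l ∈ (X.c.t.uq q).filter (fun l : ℕ => z < (l : ℝ)), (1 : ℝ) / l ≤ z ^ (-(1 / 2 : ℝ)))
    (hCL : 0 ≤ CL) (h : CZ X j₀ Q' b z v v' σ σ') : CF X CL b z v v' σ σ' where
  bp := h.bp
  L := h.L.sfx hQB hUt h.b0 hCL h.mL
  R := h.R.sfx hQB hUt h.b0 hCL h.mR
  circ := h.circ
  M0 := h.mL.pos
  M0' := h.mR.pos
  gM := fun l hl hd => h.mL.geM hl hd
  gM' := fun l hl hd => h.mR.geM hl hd
  sM := h.sM
  sM' := h.sM'

variable {CL : ℝ}

lemma erase_le {M b : ℕ} (h : ∑ l ∈ M.primeFactors, (l : ℝ) ^ (-(11 / 12) : ℝ) ≤ 1) :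
    ∑ l ∈ M.primeFactors.erase b, (l : ℝ) ^ (-(11 / 12) : ℝ) ≤ 1 :=
  (Finset.sum_le_sum_of_subset_of_nonneg (Finset.erase_subset _ _) fun l _ _ =>
    Real.rpow_nonneg (Nat.cast_nonneg _) _).trans h

/-- **the item facts of a pair of classes** -/
theorem CF.bx (h : CF X CL b z v v' σ σ') {a a' : ℕ} {V W : Finset ℕ}
    (hV : V ⊆ σ.items) (hW : W ⊆ σ'.items) (sV : ∀ q ∈ V, q ∈ X.S') (sW : ∀ q ∈ W, q ∈ X.S')
    (ha : ∀ q ∈ V, (q / v.A).factorization b = a) (ha' : ∀ q ∈ W, (q / v'.A).factorization b = a')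
    {ρ : ℕ → ℝ} (hρ : ∀ q, 0 < ρ q) :
    BX CL b z.M v.B v.A 1 z.M' v'.B v'.A 1 a a' ρ V W where
  hs := h.bp
  hρ := hρ
  hb := h.L.B0
  hc := one_pos
  hb' := h.R.B0
  hc' := one_pos
  hM := h.M0
  hM' := h.M0'
  gM := fun l hl hd _ => h.gM l hl hd
  gM' := fun l hl hd _ => h.gM' l hl hd
  hsM := erase_le h.sM
  hsM' := erase_le h.sM'
  hV := fun q hq => ⟨(h.L.q0 q (hV hq)).1, (h.L.q0 q (hV hq)).2, ha q hq, h.L.on q (hV hq)⟩
  hW := fun q hq => ⟨(h.R.q0 q (hW hq)).1, (h.R.q0 q (hW hq)).2, ha' q hq, h.R.on q (hW hq)⟩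
  tV := fun z hz q hq => h.L.tame z hz q (hV hq) (sV q hq)
  tW := fun z hz q hq => h.R.tame z hz q (hW hq) (sW q hq)
  lV := fun q hq => h.L.lg q (hV hq) (sV q hq)
  lW := fun q hq => h.R.lg q (hW hq) (sW q hq)

/-- the items of `S'` of the effective class `i` -/
def AI (X : Ctx N γ p0 P₀) (b B : ℕ) (S : Finset ℕ) (i : ℕ) : Finset ℕ :=
  S.filter (fun q => ec b B q = i ∧ q ∈ X.S')

lemma mem_AI {B i q : ℕ} {S : Finset ℕ} : q ∈ AI X b B S i ↔ q ∈ S ∧ ec b B q = i ∧ q ∈ X.S' := by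
  unfold AI; rw [Finset.mem_filter]

/-- the item mass of a class -/
theorem sfx_mass {M : ℕ} {u : NS} {τ : IT} (h : SFX X CL b M u τ) (hc : 0 ≤ u.c) {i : ℕ} {V : Finset ℕ}
    (hV : V ⊆ AI X b u.B τ.items i) :
    ∑ q ∈ V, rd u.B 1 X.c.rr q * tq (q / u.A) ≤ cm (w X.ψ) u.c b (ex b u.B) τ.items i := by
  have hsub : V ⊆ τ.items := fun q hq => (mem_AI.1 (hV hq)).1
  refine (h.ms V hsub fun q hq => (mem_AI.1 (hV hq)).2.2).trans ?_
  unfold cm
  refine mul_le_mul_of_nonneg_left (Bld532.Ws_mono X.hW fun q hq => ?_) hc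
  obtain ⟨h1, h2, -⟩ := mem_AI.1 (hV hq)
  exact Finset.mem_filter.2 ⟨h1, h2⟩

/-- the letters of a pair of classes -/
theorem CF.cls (h : CF X CL b z v v' σ σ') {i j : ℕ} {q r : ℕ} (hq : q ∈ σ.items) (hr : r ∈ σ'.items)
    (hi : ec b v.B q = i) (hj : ec b v'.B r = j) :
    (dst ((q / v.A).factorization b + z.M'.factorization b)
        ((r / v'.A).factorization b + z.M.factorization b) = dst i j) ∧
    ((q / v.A).factorization b + z.M'.factorization b =
      (r / v'.A).factorization b + z.M.factorization b ↔ i = j) ∧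
    ((q / v.A).factorization b + z.M'.factorization b <
      (r / v'.A).factorization b + z.M.factorization b ↔ i < j) := by
  obtain ⟨q0, q1⟩ := h.L.q0 q hq
  obtain ⟨r0, r1⟩ := h.R.q0 r hr
  exact ⟨cls_dst h.circ h.L.B0 h.M0 h.R.B0 h.M0' q0 r0 q1 r1 rfl rfl hi hj,
    cls_eq h.circ h.L.B0 h.M0 h.R.B0 h.M0' q0 r0 q1 r1 rfl rfl hi hj,
    cls_lt h.circ h.L.B0 h.M0 h.R.B0 h.M0' q0 r0 q1 r1 rfl rfl hi hj⟩

/-- the valuation is constant on a class -/
theorem CF.valL (h : CF X CL b z v v' σ σ') {i q q₀ : ℕ} (hq : q ∈ AI X b v.B σ.items i)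
    (hq₀ : q₀ ∈ AI X b v.B σ.items i) : (q / v.A).factorization b = (q₀ / v.A).factorization b := by
  obtain ⟨h1, h2, -⟩ := mem_AI.1 hq
  obtain ⟨h3, h4, -⟩ := mem_AI.1 hq₀
  have e1 := fac_div' (b := b) (h.L.q0 q h1).2 (h.L.q0 q h1).1
  have e2 := fac_div' (b := b) (h.L.q0 q₀ h3).2 (h.L.q0 q₀ h3).1
  unfold ec at h2 h4
  omega

theorem CF.valR (h : CF X CL b z v v' σ σ') {i q q₀ : ℕ} (hq : q ∈ AI X b v'.B σ'.items i)
    (hq₀ : q₀ ∈ AI X b v'.B σ'.items i) : (q / v'.A).factorization b = (q₀ / v'.A).factorization b := by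
  obtain ⟨h1, h2, -⟩ := mem_AI.1 hq
  obtain ⟨h3, h4, -⟩ := mem_AI.1 hq₀
  have e1 := fac_div' (b := b) (h.R.q0 q h1).2 (h.R.q0 q h1).1
  have e2 := fac_div' (b := b) (h.R.q0 q₀ h3).2 (h.R.q0 q₀ h3).1
  unfold ec at h2 h4
  omega

end ctx

end Crest.Agent.R4P.ClsCtx36
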