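import Mathlib
import Crest.Agent.R4P.NumCls_32
import Crest.Agent.R4P.AccSum_31

/-!
R4 powers pass (S0004), helper32, group [X]: **exits, Hölder in the missing tie**.

* `holder_l` : `∑_l l^(-(2-2σ)) a_l (x_l y)^σ ≤ (X y)^σ (∑_l l^(-21/20) a_l^(1/(1-σ)))^(1-σ)`;
* `mt_mass` : `∑_l l^(-11/12) x_l ≤ X` for the masses of the items which miss `l`;
* `acc_le` : `acc A s θ ≤ 200 (log s) s^(1/100)`.
* `Exc` : the accident factor of all exits.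
-/

set_option autoImplicit false
open Finset

namespace Crest.Agent.R4P.ExitSum32
open Crest.Agent.R4.ShotG223 Crest.Agent.R4.Bad223

/-- **Hölder over the missing ties** -/
theorem holder_l {T : Finset ℕ} {x a : ℕ → ℝ} {X y σ : ℝ} (hσ : 1/2 ≤ σ) (hσ' : σ ≤ 501/1000)
    (hT : ∀ l ∈ T, 1 ≤ l) (hx : ∀ l ∈ T, 0 ≤ x l) (ha : ∀ l ∈ T, 0 ≤ a l) (hy : 0 ≤ y)
    (hX : ∑ l ∈ T, (l:ℝ)^(-(11/12):ℝ) * x l ≤ X) :
    ∑ l ∈ T, (l:ℝ)^(-(2-2*σ)) * (a l * (x l * y)^σ) ≤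
      (X * y)^σ * (∑ l ∈ T, (l:ℝ)^(-(21/20):ℝ) * (a l)^(1/(1-σ)))^(1-σ) := by
  have hσ0 : 0 < σ := by linarith
  have hσ1 : 0 < 1 - σ := by linarith
  have hl1 : ∀ l ∈ T, (1:ℝ) ≤ l := fun l hl => by exact_mod_cast hT l hl
  have hl0 : ∀ l ∈ T, (0:ℝ) < l := fun l hl => by linarith [hl1 l hl]
  set f : ℕ → ℝ := fun l => ((l:ℝ)^(-(11/12):ℝ) * x l)^σ with hf
  set g : ℕ → ℝ := fun l => (l:ℝ)^((11/12)*σ - (2-2*σ)) * a l with hg
  have hf0 : ∀ l ∈ T, 0 ≤ f l := fun l hl => Real.rpow_nonneg (mul_nonneg (Real.rpow_nonneg (hl0 l hl).le _) (hx l hl)) _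
  have hg0 : ∀ l ∈ T, 0 ≤ g l := fun l hl => mul_nonneg (Real.rpow_nonneg (hl0 l hl).le _) (ha l hl)
  have hpq : (σ⁻¹).HolderConjugate (1-σ)⁻¹ := Real.HolderConjugate.inv_one_sub_inv hσ0 (by linarith)
  have key := Real.inner_le_Lp_mul_Lq_of_nonneg T hpq hf0 hg0
  have e1 : ∀ l ∈ T, (l:ℝ)^(-(2-2*σ)) * (a l * (x l * y)^σ) = y^σ * (f l * g l) := by
    intro l hl
    have h0 := hl0 l hl
    simp only [hf, hg]
    rw [Real.mul_rpow (hx l hl) hy, Real.mul_rpow (Real.rpow_nonneg h0.le _) (hx l hl), ← Real.rpow_mul h0.le]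
    have : (l:ℝ)^(-(2-2*σ)) = (l:ℝ)^(-(11/12)*σ) * (l:ℝ)^((11/12)*σ - (2-2*σ)) := by
      rw [← Real.rpow_add h0]; congr 1; ring
    rw [this]; ring
  rw [Finset.sum_congr rfl e1, ← Finset.mul_sum]
  have e2 : ∑ l ∈ T, (f l)^(σ⁻¹) ≤ X := by
    refine le_trans (le_of_eq (Finset.sum_congr rfl fun l hl => ?_)) hX
    simp only [hf]
    rw [← Real.rpow_mul (mul_nonneg (Real.rpow_nonneg (hl0 l hl).le _) (hx l hl)), mul_inv_cancel₀ hσ0.ne',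
      Real.rpow_one]
  have e3 : ∑ l ∈ T, (g l)^((1-σ)⁻¹) ≤ ∑ l ∈ T, (l:ℝ)^(-(21/20):ℝ) * (a l)^(1/(1-σ)) := by
    refine Finset.sum_le_sum fun l hl => ?_
    have h0 := hl0 l hl
    simp only [hg]
    rw [Real.mul_rpow (Real.rpow_nonneg h0.le _) (ha l hl), ← Real.rpow_mul h0.le, one_div]
    refine mul_le_mul_of_nonneg_right ?_ (Real.rpow_nonneg (ha l hl) _)
    refine Real.rpow_le_rpow_of_exponent_le (hl1 l hl) ?_
    rw [← div_eq_mul_inv, div_le_iff₀ hσ1]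
    linarith
  have s0 : 0 ≤ ∑ l ∈ T, (f l)^(σ⁻¹) := Finset.sum_nonneg fun l hl => Real.rpow_nonneg (hf0 l hl) _
  have s1 : 0 ≤ ∑ l ∈ T, (g l)^((1-σ)⁻¹) := Finset.sum_nonneg fun l hl => Real.rpow_nonneg (hg0 l hl) _
  have X0 : 0 ≤ X := s0.trans e2
  rw [one_div, one_div, inv_inv, inv_inv] at key
  calc y^σ * ∑ l ∈ T, f l * g l ≤ y^σ * ((∑ l ∈ T, (f l)^(σ⁻¹))^σ * (∑ l ∈ T, (g l)^((1-σ)⁻¹))^(1-σ)) :=
        mul_le_mul_of_nonneg_left key (Real.rpow_nonneg hy _)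
    _ ≤ y^σ * (X^σ * (∑ l ∈ T, (l:ℝ)^(-(21/20):ℝ) * (a l)^(1/(1-σ)))^(1-σ)) := by
        refine mul_le_mul_of_nonneg_left (mul_le_mul (Real.rpow_le_rpow s0 e2 hσ0.le)
          (Real.rpow_le_rpow s1 e3 hσ1.le) (Real.rpow_nonneg s1 _) (Real.rpow_nonneg X0 _)) (Real.rpow_nonneg hy _)
    _ = _ := by rw [Real.mul_rpow X0 hy]; ring

open Classical in
/-- masses of the items which miss `l` -/
theorem mt_mass {V : Finset ℕ} {w : ℕ → ℝ} {m : ℕ → Finset ℕ} {T : Finset ℕ} (hw : ∀ q ∈ V, 0 ≤ w q)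
    (hm : ∀ q ∈ V, ∑ l ∈ m q, (l:ℝ)^(-(11/12):ℝ) ≤ 1) :
    ∑ l ∈ T, (l:ℝ)^(-(11/12):ℝ) * ∑ q ∈ V.filter (fun q => l ∈ m q), w q ≤ ∑ q ∈ V, w q := by
  have e1 : ∀ l ∈ T, (l:ℝ)^(-(11/12):ℝ) * ∑ q ∈ V.filter (fun q => l ∈ m q), w q =
      ∑ q ∈ V, (if l ∈ m q then (l:ℝ)^(-(11/12):ℝ) * w q else 0) := by
    intro l _
    rw [Finset.sum_filter, Finset.mul_sum]
    refine Finset.sum_congr rfl fun q _ => ?_
    split_ifs
    · rfl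
    · exact mul_zero _
  rw [Finset.sum_congr rfl e1, Finset.sum_comm]
  refine Finset.sum_le_sum fun q hq => ?_
  rw [← Finset.sum_filter]
  have e2 : T.filter (fun l => l ∈ m q) ⊆ m q := fun l hl => (Finset.mem_filter.1 hl).2
  calc ∑ l ∈ T.filter (fun l => l ∈ m q), (l:ℝ)^(-(11/12):ℝ) * w q
      ≤ ∑ l ∈ m q, (l:ℝ)^(-(11/12):ℝ) * w q :=
        Finset.sum_le_sum_of_subset_of_nonneg e2 fun l _ _ => mul_nonneg (Real.rpow_nonneg (Nat.cast_nonneg _) _) (hw q hq)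
    _ = (∑ l ∈ m q, (l:ℝ)^(-(11/12):ℝ)) * w q := by rw [Finset.sum_mul]
    _ ≤ 1 * w q := mul_le_mul_of_nonneg_right (hm q hq) (hw q hq)
    _ = w q := one_mul _

/-- trivial bound of the accident factor -/
theorem acc_le (A : ℝ) {s : ℕ} (hs : 2 ≤ s) (θ : ℝ) : acc A s θ ≤ 200 * Real.log s * (s:ℝ)^(1/100:ℝ) := by
  classical
  have hs0 : (0:ℝ) < s := by exact_mod_cast (by omega : 0 < s)
  have hs2 : (2:ℝ) ≤ s := by exact_mod_cast hs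
  have hK : (Kmx s : ℝ) ≤ 100 * Real.log s := Crest.Agent.R4P.AccSum31.Kmx_le hs (by omega)
  have h2c : ((2:ℝ)^(Nat.clog 2 s)) ≤ 2 * s := by
    have h3 : 2 ^ (Nat.clog 2 s).pred < s := Nat.pow_pred_clog_lt_self (by norm_num) (by omega)
    have h4 : 0 < Nat.clog 2 s := Nat.clog_pos (by norm_num) (by omega)
    have h5 : 2 ^ (Nat.clog 2 s) = 2 * 2 ^ (Nat.clog 2 s).pred := by
      conv_lhs => rw [← Nat.succ_pred_eq_of_pos h4]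
      rw [pow_succ]; ring
    have h6 : 2 ^ (Nat.clog 2 s) ≤ 2 * s := by rw [h5]; omega
    exact_mod_cast h6
  have hmax : (2:ℝ)^(2*eps2*(Kmx s : ℝ)) ≤ 2 * (s:ℝ)^(1/100:ℝ) := by
    have he : eps2 = 1/4000 := rfl
    have e1 : 2*eps2*(Kmx s : ℝ) = (Nat.clog 2 s : ℝ) * (1/100) + 1/1000 := by
      unfold Kmx; rw [he]; push_cast; ring
    rw [e1, Real.rpow_add (by norm_num), Real.rpow_mul (by norm_num), Real.rpow_natCast]
    have h1 : ((2:ℝ)^(Nat.clog 2 s))^(1/100:ℝ) ≤ (2 * s)^(1/100:ℝ) :=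
      Real.rpow_le_rpow (by positivity) h2c (by norm_num)
    rw [Real.mul_rpow (by norm_num) hs0.le] at h1
    have h2 : (2:ℝ)^(1/100:ℝ) * (2:ℝ)^(1/1000:ℝ) ≤ 2 := by
      rw [← Real.rpow_add (by norm_num)]
      calc (2:ℝ)^((1/100:ℝ)+1/1000) ≤ (2:ℝ)^(1:ℝ) := Real.rpow_le_rpow_of_exponent_le (by norm_num) (by norm_num)
        _ = 2 := Real.rpow_one 2
    calc ((2:ℝ)^(Nat.clog 2 s))^(1/100:ℝ) * (2:ℝ)^(1/1000:ℝ)
        ≤ ((2:ℝ)^(1/100:ℝ) * (s:ℝ)^(1/100:ℝ)) * (2:ℝ)^(1/1000:ℝ) :=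
          mul_le_mul_of_nonneg_right h1 (by positivity)
      _ = ((2:ℝ)^(1/100:ℝ) * (2:ℝ)^(1/1000:ℝ)) * (s:ℝ)^(1/100:ℝ) := by ring
      _ ≤ _ := mul_le_mul_of_nonneg_right h2 (by positivity)
  have he0 : 0 ≤ 2 * eps2 := by unfold eps2; norm_num
  have h1 : acc A s θ ≤ ∑ _k ∈ Finset.range (Kmx s), (2:ℝ)^(2*eps2*(Kmx s : ℝ)) := by
    have e1 : acc A s θ = ∑ k ∈ Finset.range (Kmx s), if BadK A s θ k then (2:ℝ) ^ (2 * eps2 * k) else 0 := rfl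
    rw [e1]
    refine Finset.sum_le_sum fun k hk => ?_
    split_ifs
    · refine Real.rpow_le_rpow_of_exponent_le (by norm_num) (mul_le_mul_of_nonneg_left ?_ he0)
      exact_mod_cast (Finset.mem_range.1 hk).le
    · positivity
  refine h1.trans ?_
  rw [Finset.sum_const, Finset.card_range, nsmul_eq_mul]
  have hlog : 0 ≤ Real.log s := Real.log_natCast_nonneg s
  calc (Kmx s : ℝ) * (2:ℝ)^(2*eps2*(Kmx s : ℝ)) ≤ (100 * Real.log s) * (2 * (s:ℝ)^(1/100:ℝ)) :=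
        mul_le_mul hK hmax (by positivity) (by positivity)
    _ = _ := by ring

/-- the exponent of the accident factor -/
lemma eps_inv : (1:ℝ)/(1-(1/2+eps2)) ≤ 2002/1000 := by
  have : eps2 = 1/4000 := rfl
  rw [this]; norm_num

/-- the accident sum of the exits at the crossing prime `s`, target `θ` -/
noncomputable def Exa (A : ℝ) (s : ℕ) (θ : ℝ) : ℝ :=
  ∑ l ∈ (Finset.range s).filter Nat.Prime, (l:ℝ)^(-(21/20):ℝ) * (acc A s ((l:ℝ) * θ))^(1/(1-(1/2+eps2)))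

lemma Exa_nonneg (A : ℝ) (s : ℕ) (θ : ℝ) : 0 ≤ Exa A s θ :=
  Finset.sum_nonneg fun l _ => mul_nonneg (Real.rpow_nonneg (Nat.cast_nonneg _) _)
    (Real.rpow_nonneg (acc_nonneg _ _ _) _)

/-- `Exa` against helper31's sum of cubes -/
lemma Exa_le (A : ℝ) (s : ℕ) (θ : ℝ) : Exa A s θ ≤
    ∑ l ∈ (Finset.range s).filter Nat.Prime, (l:ℝ)^(-(21/20):ℝ) * (acc A s ((l:ℝ) * θ))^3 := by
  refine Finset.sum_le_sum fun l _ => mul_le_mul_of_nonneg_left ?_ (Real.rpow_nonneg (Nat.cast_nonneg _) _)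
  refine Crest.Agent.R4P.AccSum31.acc_rpow_le ?_ ?_
  · have : eps2 = 1/4000 := rfl
    rw [this]; norm_num
  · exact eps_inv.trans (by norm_num)

/-- the number of the exits at the crossing prime itself -/
lemma acc_self {s : ℕ} {A θ : ℝ} (hs : 2 ≤ s) (hl : (200 * Real.log s)^(3:ℝ) ≤ (s:ℝ)^(1:ℝ)) :
    (s:ℝ)^(-(21/20):ℝ) * (acc A s θ)^(1/(1-(1/2+eps2))) ≤ 1 := by
  have hs0 : (0:ℝ) < s := by exact_mod_cast (by omega : 0 < s)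
  have hs1 : (1:ℝ) ≤ s := by exact_mod_cast (by omega : 1 ≤ s)
  have h1 : (acc A s θ)^(1/(1-(1/2+eps2))) ≤ (acc A s θ)^3 := by
    refine Crest.Agent.R4P.AccSum31.acc_rpow_le ?_ ?_
    · have : eps2 = 1/4000 := rfl
      rw [this]; norm_num
    · exact eps_inv.trans (by norm_num)
  have h2 := pow_le_pow_left₀ (acc_nonneg A s θ) (acc_le A hs θ) 3
  have hl' : (200 * Real.log s)^3 ≤ s := by
    rw [Real.rpow_one] at hl
    exact_mod_cast hl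
  have h3 : (200 * Real.log s * (s:ℝ)^(1/100:ℝ))^3 ≤ (s:ℝ)^(21/20:ℝ) := by
    have e : ((s:ℝ)^(1/100:ℝ))^3 = (s:ℝ)^(3/100:ℝ) := by
      rw [← Real.rpow_natCast, ← Real.rpow_mul hs0.le]; norm_num
    rw [mul_pow, e]
    calc (200 * Real.log s)^3 * (s:ℝ)^(3/100:ℝ) ≤ (s:ℝ) * (s:ℝ)^(3/100:ℝ) :=
          mul_le_mul_of_nonneg_right hl' (by positivity)
      _ = (s:ℝ)^(1 + 3/100:ℝ) := by rw [Real.rpow_add hs0, Real.rpow_one]
      _ ≤ _ := Real.rpow_le_rpow_of_exponent_le hs1 (by norm_num)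
  calc (s:ℝ)^(-(21/20):ℝ) * (acc A s θ)^(1/(1-(1/2+eps2))) ≤ (s:ℝ)^(-(21/20):ℝ) * (s:ℝ)^(21/20:ℝ) :=
        mul_le_mul_of_nonneg_left ((h1.trans h2).trans h3) (by positivity)
    _ = 1 := by rw [← Real.rpow_add hs0]; norm_num

end Crest.Agent.R4P.ExitSum32
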