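import Crest.Agent.R4P.Pay_35
import Crest.Agent.R4P.ClsSum_35

/-!
R4P (S0004), helper36, group [X]: **the kind table of the payments at a crossing**, tree-free part.

`b` = column, `ℓ = log b`, classes = effective exponents at `b`: `x i` masses of the classes of the crossing
child, `y j` of the partner, `φ i j` = cost of the block of classes `(i, j)`.

* `CO` : the block bounds for different classes, `CE` : for equal classes (exact, dead leaves at cuts only),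
  `CW` : for equal classes with any log loss.
* `off_leaf`, `off_alive`, `off_far`, `off_tiny`, `eq_leaf`, `eq_alive`, `eq_tiny` : sums over the classes.
-/

set_option autoImplicit false
set_option linter.unusedVariables false
open Finset Filter

namespace Crest.Agent.R4P.KindPay36
open Crest.Agent.R4P.ClsSum Crest.Agent.R4P.Pay35 Crest.Agent.R4.HVW560

/-! ### numbers -/

/-- a share `4 ℓ^B / b` of the partner -/
lemma tail_le {s B : ℝ} (hs0 : 0 ≤ s) (hs1 : s ≤ 1) (hB : 0 ≤ B) {b : ℕ} (hb : 3 ≤ b) {x y : ℝ}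
    (hx : 0 ≤ x) (hy : 0 ≤ y) :
    (x * (4 * ((Real.log b)^B / b) * y))^s ≤ 4 * (Real.log b)^B * ((b:ℝ)^(-s) * (x*y)^s) := by
  have hl1 := log_ge_one hb
  have hl0 : 0 < Real.log b := by linarith
  have hb0 : (0:ℝ) < b := by positivity
  have e : x * (4 * ((Real.log b)^B / b) * y) = (4 * (Real.log b)^B) * ((b:ℝ)⁻¹ * (x * y)) := by ring
  have h1 : (1:ℝ) ≤ 4 * (Real.log b)^B := by
    have : 1 ≤ (Real.log b)^B := Real.one_le_rpow hl1 hB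
    linarith
  have e2 : ((b:ℝ)⁻¹ * (x * y))^s = (b:ℝ)^(-s) * (x*y)^s := by
    rw [Real.mul_rpow (by positivity) (by positivity), Real.inv_rpow hb0.le, ← Real.rpow_neg hb0.le]
  rw [e, Real.mul_rpow (by positivity) (by positivity), e2]
  refine mul_le_mul_of_nonneg_right ?_ (by positivity)
  calc (4 * (Real.log b)^B)^s ≤ (4 * (Real.log b)^B)^(1:ℝ) := Real.rpow_le_rpow_of_exponent_le h1 hs1
    _ = _ := Real.rpow_one _

/-- logs and small constants against a power of `b` -/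
lemma log_small (C c : ℝ) (hc : 0 ≤ c) {κ η : ℝ} (hκ : 0 < κ) (hη : 0 < η) :
    ∃ b₁ : ℕ, 3 ≤ b₁ ∧ ∀ b : ℕ, b₁ ≤ b → c * ((Real.log b)^C * (b:ℝ)^(-κ)) ≤ η := by
  obtain ⟨b₁, h3, h1⟩ := log_pow_le C hκ (η := η / (c + 1)) (by positivity)
  refine ⟨b₁, h3, fun b hb => ?_⟩
  have h2 := h1 b hb
  have hb0 : (0:ℝ) < b := by
    have : (0:ℕ) < b := by omega
    exact_mod_cast this
  have h4 : (Real.log b)^C * (b:ℝ)^(-κ) ≤ η / (c+1) := by
    rw [Real.rpow_neg hb0.le, ← div_eq_mul_inv, div_le_iff₀ (by positivity)]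
    exact h2
  calc c * ((Real.log b)^C * (b:ℝ)^(-κ)) ≤ c * (η / (c+1)) := mul_le_mul_of_nonneg_left h4 hc
    _ = η * (c / (c+1)) := by ring
    _ ≤ η * 1 := mul_le_mul_of_nonneg_left (by rw [div_le_one (by positivity)]; linarith) hη.le
    _ = η := mul_one _

/-- **`X` leaves, gain better than `b^(-(1-s))`** -/
lemma pay_leaf_eta {s C Cl Ch B κ : ℝ} (hs0 : 0 ≤ s) (hs1 : s < 1) (hB : Cl + (s*Ch)/(1-s) ≤ B)
    (hκ : 1 - s < κ) (c : ℝ) (hc : 0 ≤ c) {η : ℝ} (hη : 0 < η) :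
    ∃ b₁ : ℕ, 3 ≤ b₁ ∧ ∀ b : ℕ, b₁ ≤ b → ∀ x y t : ℝ, (Real.log b)^(-Cl) ≤ t →
      (Real.log b)^B / b * t ≤ x → 0 ≤ y → y ≤ (Real.log b)^Ch →
      c * ((Real.log b)^C * ((b:ℝ)^(-κ) * (x*y)^s)) ≤ η * x := by
  obtain ⟨b₁, h3, h1⟩ := log_small C c hc (κ := κ - (1-s)) (by linarith) hη
  refine ⟨b₁, h3, fun b hb x y t ht hx hy0 hy => ?_⟩
  have hb3 := h3.trans hb
  have hb0 : (0:ℝ) < b := by
    have : (0:ℕ) < b := by omega
    exact_mod_cast this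
  have hl1 := log_ge_one hb3
  have h4 := pay_leaf (C := 0) hs0 hs1 (by rw [zero_add]; exact hB) hb3 ht hx hy0 hy
  rw [Real.rpow_zero, one_mul] at h4
  have ht0 : 0 < t := lt_of_lt_of_le (Real.rpow_pos_of_pos (by linarith) _) ht
  have hx0 : 0 ≤ x := le_trans (by have : 0 < Real.log b := by linarith
                                   positivity) hx
  have e : (b:ℝ)^(-κ) = (b:ℝ)^(-(κ - (1-s))) * (b:ℝ)^(-(1-s)) := by
    rw [← Real.rpow_add hb0]; congr 1; ring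
  calc c * ((Real.log b)^C * ((b:ℝ)^(-κ) * (x*y)^s))
      = (c * ((Real.log b)^C * (b:ℝ)^(-(κ - (1-s))))) * ((b:ℝ)^(-(1-s)) * (x*y)^s) := by rw [e]; ring
    _ ≤ η * ((b:ℝ)^(-(1-s)) * (x*y)^s) := by
        refine mul_le_mul_of_nonneg_right (h1 b hb) ?_
        have : 0 ≤ x * y := mul_nonneg hx0 hy0
        positivity
    _ ≤ η * x := mul_le_mul_of_nonneg_left h4 hη.le

/-- **no lower bound for `x`** : paid by `x` and the static gap -/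
lemma pay_gap {s C Cl Ch κ : ℝ} (hs : 1/2 ≤ s) (hs1 : s < 1) (hκ : 3/2 * (1-s) < κ) (c : ℝ) (hc : 0 < c) :
    ∃ b₁ : ℕ, 3 ≤ b₁ ∧ ∀ b : ℕ, b₁ ≤ b → ∀ x y t : ℝ, (Real.log b)^(-Cl) ≤ t → 0 ≤ x → 0 ≤ y →
      y ≤ (Real.log b)^Ch →
      c * ((Real.log b)^C * ((b:ℝ)^(-κ) * (x*y)^s)) ≤ x + (b:ℝ)^(-(3/2):ℝ) * t := by
  have h1s : 0 < 1 - s := by linarith
  have hη : 0 < κ/(1-s) - 3/2 := by
    rw [sub_pos, lt_div_iff₀ h1s]; exact hκ
  obtain ⟨b₁, h3, h1⟩ := log_small ((C + Ch*(2*s-1))/(1-s) + Ch + Cl) (c^(1/(1-s))) (by positivity) hη one_pos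
  refine ⟨b₁, h3, fun b hb x y t ht hx hy0 hy => ?_⟩
  have hb3 := h3.trans hb
  have hl1 := log_ge_one hb3
  have h2 := h1 b hb
  have key := pay_acc (C := C) (Ch := Ch) hs hs1 hb3 (κ/(1-s)) hx hy0 hy hc.le
  have ek : κ/(1-s)*(1-s) = κ := div_mul_cancel₀ _ h1s.ne'
  rw [ek] at key
  set ℓ := Real.log b with hℓ
  have hl0 : 0 < ℓ := by linarith
  have hb0 : (0:ℝ) < b := by
    have : (0:ℕ) < b := by omega
    exact_mod_cast this
  have e1 : c * (ℓ^C * ((b:ℝ)^(-κ) * (x*y)^s)) = ℓ^C * ((b:ℝ)^(-κ) * (c * (x*y)^s)) := by ring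
  rw [e1]
  refine key.trans (add_le_add le_rfl ?_)
  have ht0 : 0 ≤ t := (Real.rpow_nonneg hl0.le _).trans ht
  calc ℓ^((C + Ch*(2*s-1))/(1-s)) * c^(1/(1-s)) * (b:ℝ)^(-(κ/(1-s))) * y
      ≤ ℓ^((C + Ch*(2*s-1))/(1-s)) * c^(1/(1-s)) * (b:ℝ)^(-(κ/(1-s))) * ℓ^Ch := by gcongr
    _ = (c^(1/(1-s)) * (ℓ^((C + Ch*(2*s-1))/(1-s) + Ch + Cl) * (b:ℝ)^(-(κ/(1-s) - 3/2)))) *
        ((b:ℝ)^(-(3/2):ℝ) * ℓ^(-Cl)) := by
        have f1 : ℓ^((C + Ch*(2*s-1))/(1-s) + Ch + Cl) * ℓ^(-Cl) = ℓ^((C + Ch*(2*s-1))/(1-s)) * ℓ^Ch := by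
          rw [← Real.rpow_add hl0, ← Real.rpow_add hl0]; congr 1; ring
        have f2 : (b:ℝ)^(-(κ/(1-s) - 3/2)) * (b:ℝ)^(-(3/2):ℝ) = (b:ℝ)^(-(κ/(1-s))) := by
          rw [← Real.rpow_add hb0]; congr 1; ring
        rw [← f2]
        linear_combination (-(c^(1/(1-s)) * (b:ℝ)^(-(κ/(1-s) - 3/2)) * (b:ℝ)^(-(3/2):ℝ))) * f1
    _ ≤ 1 * ((b:ℝ)^(-(3/2):ℝ) * t) := by gcongr
    _ = _ := one_mul _

/-- **`x` tiny, the partner alive** -/
lemma pay_tiny {s C Cl Ch κ : ℝ} (hs0 : 0 ≤ s) (hs1 : s ≤ 1) (hCh : 0 ≤ Ch) {B : ℝ} (hB : 0 ≤ B)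
    (hκ : 0 < κ + s) (c : ℝ) (hc : 0 ≤ c) {η : ℝ} (hη : 0 < η) :
    ∃ b₁ : ℕ, 3 ≤ b₁ ∧ ∀ b : ℕ, b₁ ≤ b → ∀ x y : ℝ, 0 ≤ x → x ≤ 2 * ((Real.log b)^B / b) * (Real.log b)^Ch →
      (Real.log b)^(-Cl) ≤ y → y ≤ (Real.log b)^Ch →
      c * ((Real.log b)^C * ((b:ℝ)^(-κ) * (x*y)^s)) ≤ η * y := by
  obtain ⟨b₁, h3, h1⟩ := log_small (C + B + 2*Ch + Cl) (c*2) (by positivity) hκ hη
  refine ⟨b₁, h3, fun b hb x y hx0 hx hy1 hy => ?_⟩
  have hb3 := h3.trans hb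
  have hl1 := log_ge_one hb3
  have h2 := h1 b hb
  set ℓ := Real.log b with hℓ
  have hl0 : 0 < ℓ := by linarith
  have hb0 : (0:ℝ) < b := by
    have : (0:ℕ) < b := by omega
    exact_mod_cast this
  have hy0 : 0 < y := lt_of_lt_of_le (Real.rpow_pos_of_pos hl0 _) hy1
  have h4 : x * y ≤ (2 * ℓ^(B + 2*Ch)) * (b:ℝ)⁻¹ := by
    calc x * y ≤ (2 * (ℓ^B / b) * ℓ^Ch) * ℓ^Ch := mul_le_mul hx hy hy0.le (by positivity)
      _ = _ := by rw [Real.rpow_add hl0, two_mul Ch, Real.rpow_add hl0]; ring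
  have h5 : (x*y)^s ≤ 2 * ℓ^(B + 2*Ch) * (b:ℝ)^(-s) := by
    calc (x*y)^s ≤ ((2 * ℓ^(B + 2*Ch)) * (b:ℝ)⁻¹)^s := Real.rpow_le_rpow (by positivity) h4 hs0
      _ = (2 * ℓ^(B + 2*Ch))^s * (b:ℝ)^(-s) := by
          rw [Real.mul_rpow (by positivity) (by positivity), Real.inv_rpow hb0.le, Real.rpow_neg hb0.le]
      _ ≤ (2 * ℓ^(B + 2*Ch))^(1:ℝ) * (b:ℝ)^(-s) := by
          refine mul_le_mul_of_nonneg_right (Real.rpow_le_rpow_of_exponent_le ?_ hs1) (by positivity)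
          have : 1 ≤ ℓ^(B + 2*Ch) := Real.one_le_rpow hl1 (by positivity)
          linarith
      _ = _ := by rw [Real.rpow_one]
  calc c * (ℓ^C * ((b:ℝ)^(-κ) * (x*y)^s)) ≤ c * (ℓ^C * ((b:ℝ)^(-κ) * (2 * ℓ^(B + 2*Ch) * (b:ℝ)^(-s)))) := by
        gcongr
    _ = (c*2 * (ℓ^(C + B + 2*Ch + Cl) * (b:ℝ)^(-(κ + s)))) * ℓ^(-Cl) := by
        have f1 : ℓ^(C + B + 2*Ch + Cl) * ℓ^(-Cl) = ℓ^C * ℓ^(B + 2*Ch) := by
          rw [← Real.rpow_add hl0, ← Real.rpow_add hl0]; congr 1; ring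
        have f2 : (b:ℝ)^(-(κ + s)) = (b:ℝ)^(-κ) * (b:ℝ)^(-s) := by
          rw [← Real.rpow_add hb0]; congr 1; ring
        rw [f2]
        linear_combination (-(c*2 * ((b:ℝ)^(-κ) * (b:ℝ)^(-s)))) * f1
    _ ≤ η * y := mul_le_mul h2 hy1 (by positivity) hη.le

/-! ### sums over the classes -/

/-- the sum over the pairs of different classes -/
def offS (n : ℕ) (φ : ℕ → ℕ → ℝ) : ℝ := ∑ i ∈ range n, ∑ j ∈ range n, if i = j then 0 else φ i j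

/-- the sum over the equal classes -/
def eqS (n : ℕ) (φ : ℕ → ℕ → ℝ) : ℝ := ∑ i ∈ range n, φ i i

lemma split_S (n : ℕ) (φ : ℕ → ℕ → ℝ) :
    ∑ i ∈ range n, ∑ j ∈ range n, φ i j = offS n φ + eqS n φ := by
  unfold offS eqS
  rw [← Finset.sum_add_distrib]
  refine Finset.sum_congr rfl fun i hi => ?_
  have h : ∀ j ∈ range n, φ i j = (if i = j then 0 else φ i j) + (if i = j then φ i j else 0) := by
    intro j _; split_ifs <;> simp
  rw [Finset.sum_congr rfl h, Finset.sum_add_distrib]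
  congr 1
  rw [Finset.sum_ite_eq, if_pos hi]

/-- **block bounds for different classes** (`al i j` = the adjacent factor: accidents, missed `b`) -/
structure CO (b : ℕ) (C s₁ s₂ : ℝ) (al : ℕ → ℕ → ℝ) (x y : ℕ → ℝ) (φ : ℕ → ℕ → ℝ) : Prop where
  x0 : ∀ i, 0 ≤ x i
  y0 : ∀ j, 0 ≤ y j
  al0 : ∀ i j, 0 ≤ al i j
  le : ∀ i j, i ≠ j → φ i j ≤ ((b:ℝ)^(-(47/100):ℝ))^(dst i j - 1) * ((Real.log b)^C *
      ((b:ℝ)^(-(1-1/2):ℝ) * (x i * y j)^(1/2:ℝ) + (b:ℝ)^(-(1-s₁)) * (x i * y j)^s₁ +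
        (b:ℝ)^(-(1-s₂)) * (x i * y j)^s₂)) +
    (if dst i j = 1 then (Real.log b)^C * ((b:ℝ)^(-(1-s₂)) * (al i j * (x i * y j)^s₂)) else 0)

/-- **block bounds for equal classes** (`tw` = twins) -/
structure CE (b : ℕ) (C K₁ δ s₁ : ℝ) (tw : ℕ → ℝ) (x y : ℕ → ℝ) (φ : ℕ → ℕ → ℝ) : Prop where
  x0 : ∀ i, 0 ≤ x i
  y0 : ∀ j, 0 ≤ y j
  le : ∀ i, φ i i ≤ (Real.log b)^C * ((b:ℝ)^δ * (x i * y i)^s₁ + x i * y i) +
    K₁ * (x i * y i)^(1/2:ℝ) + tw i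
  tx : ∀ i, tw i ≤ K₁ * x i
  ty : ∀ i, tw i ≤ (Real.log b)^C * y i

/-- **block bounds for equal classes, any log loss** (all cases except a dead leaf at a cut) -/
structure CW (b : ℕ) (C s₁ s₂ : ℝ) (x y : ℕ → ℝ) (φ : ℕ → ℕ → ℝ) : Prop where
  x0 : ∀ i, 0 ≤ x i
  y0 : ∀ j, 0 ≤ y j
  le : ∀ i, φ i i ≤ (Real.log b)^C * ((b:ℝ)^(1/10:ℝ) * ((x i * y i)^(1/2:ℝ) + (x i * y i)^s₁ +
    (x i * y i)^s₂) + x i * y i + min (x i) (y i))

lemma CW.swap {b : ℕ} {C s₁ s₂ : ℝ} {x y : ℕ → ℝ} {φ : ℕ → ℕ → ℝ} (h : CW b C s₁ s₂ x y φ) :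
    CW b C s₁ s₂ y x (fun i j => φ j i) where
  x0 := h.y0
  y0 := h.x0
  le := fun i => by
    have := h.le i
    rw [mul_comm (x i) (y i), min_comm] at this
    exact this

lemma CE.cw {b : ℕ} (hb : 3 ≤ b) {C K₁ δ s₁ s₂ : ℝ} {tw x y : ℕ → ℝ} {φ : ℕ → ℕ → ℝ} (h : CE b C K₁ δ s₁ tw x y φ)
    (hδ : δ ≤ 1/10) (hK : K₁ ≤ (Real.log b)^C) : CW b C s₁ s₂ x y φ where
  x0 := h.x0
  y0 := h.y0
  le := fun i => by
    have h1 := h.le i
    have h2 := h.tx i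
    have h3 := h.ty i
    have hx := h.x0 i
    have hy := h.y0 i
    have hl1 := log_ge_one hb
    have hb1 : (1:ℝ) ≤ b := by exact_mod_cast (by omega : 1 ≤ b)
    set ℓ := Real.log b with hℓ
    have hl0 : 0 < ℓ := by linarith
    have hL : 0 < ℓ^C := by positivity
    have p0 : 0 ≤ x i * y i := mul_nonneg hx hy
    have p1 : 0 ≤ (x i * y i)^(1/2:ℝ) := by positivity
    have p2 : 0 ≤ (x i * y i)^s₁ := by positivity
    have p3 : 0 ≤ (x i * y i)^s₂ := by positivity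
    have e1 : (b:ℝ)^δ ≤ (b:ℝ)^(1/10:ℝ) := Real.rpow_le_rpow_of_exponent_le hb1 hδ
    have e2 : 1 ≤ (b:ℝ)^(1/10:ℝ) := Real.one_le_rpow hb1 (by norm_num)
    have e3 : tw i ≤ ℓ^C * min (x i) (y i) := by
      rcases le_total (x i) (y i) with h4 | h4
      · rw [min_eq_left h4]
        exact h2.trans (mul_le_mul_of_nonneg_right hK hx)
      · rw [min_eq_right h4]
        exact h3
    have e4 : ℓ^C * ((b:ℝ)^δ * (x i * y i)^s₁) ≤ ℓ^C * ((b:ℝ)^(1/10:ℝ) * (x i * y i)^s₁) := by gcongr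
    have e5 : K₁ * (x i * y i)^(1/2:ℝ) ≤ ℓ^C * ((b:ℝ)^(1/10:ℝ) * (x i * y i)^(1/2:ℝ)) := by
      calc K₁ * (x i * y i)^(1/2:ℝ) ≤ ℓ^C * (1 * (x i * y i)^(1/2:ℝ)) := by
            rw [one_mul]; exact mul_le_mul_of_nonneg_right hK p1
        _ ≤ _ := by gcongr
    have e6 : 0 ≤ ℓ^C * ((b:ℝ)^(1/10:ℝ) * (x i * y i)^s₂) := by positivity
    nlinarith

lemma CO.swap {b : ℕ} {C s₁ s₂ : ℝ} {al : ℕ → ℕ → ℝ} {x y : ℕ → ℝ} {φ : ℕ → ℕ → ℝ}
    (h : CO b C s₁ s₂ al x y φ) :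
    CO b C s₁ s₂ (fun i j => al j i) y x (fun i j => φ j i) where
  x0 := h.y0
  y0 := h.x0
  al0 := fun i j => h.al0 j i
  le := fun i j hij => by
    have := h.le j i hij.symm
    rw [dst_comm j i, mul_comm (x j) (y i)] at this
    exact this

lemma offS_swap (n : ℕ) (φ : ℕ → ℕ → ℝ) : offS n (fun i j => φ j i) = offS n φ := by
  unfold offS
  rw [Finset.sum_comm]
  refine Finset.sum_congr rfl fun i _ => Finset.sum_congr rfl fun j _ => ?_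
  by_cases h : i = j
  · rw [if_pos h, if_pos h.symm]
  · rw [if_neg h, if_neg (Ne.symm h)]

lemma q_le {b : ℕ} (hb : 16 ≤ b) : (b:ℝ)^(-(47/100):ℝ) ≤ 1/2 := by
  have h16 : (16:ℝ) ≤ b := by exact_mod_cast hb
  calc (b:ℝ)^(-(47/100):ℝ) ≤ (16:ℝ)^(-(47/100):ℝ) :=
        Real.rpow_le_rpow_of_nonpos (by norm_num) h16 (by norm_num)
    _ ≤ (16:ℝ)^(-(1/4):ℝ) := Real.rpow_le_rpow_of_exponent_le (by norm_num) (by norm_num)
    _ = 1/2 := by
        rw [show (16:ℝ) = 2^(4:ℝ) by norm_num, ← Real.rpow_mul (by norm_num)]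
        norm_num

/-- the main part: all pairs of different classes -/
lemma main_off {b n : ℕ} (hb : 16 ≤ b) {s : ℝ} (hs : 1/2 ≤ s) {x y : ℕ → ℝ} (hx : ∀ i, 0 ≤ x i)
    (hy : ∀ j, 0 ≤ y j) :
    ∑ i ∈ range n, ∑ j ∈ range n, (if i = j then 0 else
      ((b:ℝ)^(-(47/100):ℝ))^(dst i j - 1) * (x i * y j)^s) ≤
      18 * ((∑ i ∈ range n, x i) * (∑ j ∈ range n, y j))^s := by
  have hb0 : (0:ℝ) < b := by
    have : (0:ℕ) < b := by omega
    exact_mod_cast this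
  set q := (b:ℝ)^(-(47/100):ℝ) with hq
  have hq0 : 0 < q := by positivity
  have hq1 : q ≤ 8/9 := (q_le hb).trans (by norm_num)
  have h := off_pairs hq0.le hq1 hs n (range n) (range n) (Finset.Subset.refl _) (Finset.Subset.refl _)
    x y (fun k _ => hx k) (fun k _ => hy k)
  have e : ∑ i ∈ range n, ∑ j ∈ range n, (if i = j then 0 else q^(dst i j - 1) * (x i * y j)^s) =
      q⁻¹ * ∑ i ∈ range n, ∑ j ∈ range n, (if i = j then 0 else q^(dst i j)) * (x i * y j)^s := by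
    rw [Finset.mul_sum]
    refine Finset.sum_congr rfl fun i _ => ?_
    rw [Finset.mul_sum]
    refine Finset.sum_congr rfl fun j _ => ?_
    by_cases hij : i = j
    · rw [if_pos hij, if_pos hij]; ring
    · rw [if_neg hij, if_neg hij]
      have hd : 1 ≤ dst i j := Nat.one_le_iff_ne_zero.2 fun h0 => hij (dst_eq_zero.1 h0)
      obtain ⟨k, hk⟩ := Nat.exists_eq_add_of_le hd
      rw [hk, Nat.add_sub_cancel_left, pow_add, pow_one]
      field_simp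
  rw [e]
  calc q⁻¹ * _ ≤ q⁻¹ * (18 * q * ((∑ i ∈ range n, x i) * (∑ j ∈ range n, y j))^s) :=
        mul_le_mul_of_nonneg_left h (by positivity)
    _ = _ := by field_simp

/-- the main part with a gap `≥ 2` -/
lemma main_gap {b n : ℕ} (hb : 16 ≤ b) {s : ℝ} (hs : 1/2 ≤ s) {x y : ℕ → ℝ} (hx : ∀ i, 0 ≤ x i)
    (hy : ∀ j, 0 ≤ y j) :
    ∑ i ∈ range n, ∑ j ∈ range n, (if 2 ≤ dst i j then
      ((b:ℝ)^(-(47/100):ℝ))^(dst i j - 1) * (x i * y j)^s else 0) ≤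
      36 * ((b:ℝ)^(-(47/100):ℝ) * ((∑ i ∈ range n, x i) * (∑ j ∈ range n, y j))^s) := by
  have hb0 : (0:ℝ) < b := by
    have : (0:ℕ) < b := by omega
    exact_mod_cast this
  set q := (b:ℝ)^(-(47/100):ℝ) with hq
  have hq0 : 0 < q := by positivity
  have hq1 : q ≤ 1/2 := q_le hb
  have h := off_pairs (q := 1/2) (by norm_num) (by norm_num) hs n (range n) (range n)
    (Finset.Subset.refl _) (Finset.Subset.refl _) x y (fun k _ => hx k) (fun k _ => hy k)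
  have e : ∀ i ∈ range n, ∀ j ∈ range n, (if 2 ≤ dst i j then q^(dst i j - 1) * (x i * y j)^s else 0) ≤
      4 * q * ((if i = j then 0 else (1/2)^(dst i j)) * (x i * y j)^s) := by
    intro i _ j _
    have hp : 0 ≤ (x i * y j)^s := Real.rpow_nonneg (mul_nonneg (hx i) (hy j)) _
    by_cases hd : 2 ≤ dst i j
    · have hij : i ≠ j := fun h0 => by rw [dst_eq_zero.2 h0] at hd; omega
      rw [if_pos hd, if_neg hij]
      obtain ⟨k, hk⟩ := Nat.exists_eq_add_of_le hd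
      have e2 : dst i j - 1 = k + 1 := by omega
      rw [e2, hk, pow_succ, pow_add]
      have : q^k ≤ (1/2)^k := pow_le_pow_left₀ hq0.le hq1 k
      calc q^k * q * (x i * y j)^s ≤ (1/2)^k * q * (x i * y j)^s := by gcongr
        _ = _ := by ring
    · rw [if_neg hd]
      have : (0:ℝ) ≤ (if i = j then 0 else (1/2)^(dst i j)) := by split_ifs <;> positivity
      positivity
  refine (Finset.sum_le_sum fun i hi => Finset.sum_le_sum fun j hj => e i hi j hj).trans ?_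
  simp only [← Finset.mul_sum]
  calc 4 * q * _ ≤ 4 * q * (18 * (1/2) * ((∑ i ∈ range n, x i) * (∑ j ∈ range n, y j))^s) :=
        mul_le_mul_of_nonneg_left h (by positivity)
    _ = _ := by ring

/-- adjacent classes, the factor is at most `A` -/
lemma main_adj {n : ℕ} {s A : ℝ} (hs : 1/2 ≤ s) (hA : 0 ≤ A) {al : ℕ → ℕ → ℝ} {x y : ℕ → ℝ}
    (hx : ∀ i, 0 ≤ x i) (hy : ∀ j, 0 ≤ y j) (hal : ∀ i j, al i j ≤ A) :
    ∑ i ∈ range n, ∑ j ∈ range n, (if dst i j = 1 then al i j * (x i * y j)^s else 0) ≤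
      2 * (A * ((∑ i ∈ range n, x i) * (∑ j ∈ range n, y j))^s) := by
  have h := adj_pairs hs (range n) (range n) x y (fun k _ => hx k) (fun k _ => hy k)
  have e : ∀ i ∈ range n, ∀ j ∈ range n, (if dst i j = 1 then al i j * (x i * y j)^s else 0) ≤
      A * ((if dst i j = 1 then 1 else 0) * (x i * y j)^s) := by
    intro i _ j _
    have hp : 0 ≤ (x i * y j)^s := Real.rpow_nonneg (mul_nonneg (hx i) (hy j)) _
    by_cases hd : dst i j = 1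
    · rw [if_pos hd, if_pos hd, one_mul]; exact mul_le_mul_of_nonneg_right (hal i j) hp
    · rw [if_neg hd, if_neg hd, zero_mul, mul_zero]
  refine (Finset.sum_le_sum fun i hi => Finset.sum_le_sum fun j hj => e i hi j hj).trans ?_
  simp only [← Finset.mul_sum]
  calc A * _ ≤ A * (2 * ((∑ i ∈ range n, x i) * (∑ j ∈ range n, y j))^s) :=
        mul_le_mul_of_nonneg_left h hA
    _ = _ := by ring

/-- equal classes -/
lemma main_eq {n : ℕ} {s : ℝ} (hs : 1/2 ≤ s) {x y : ℕ → ℝ} (hx : ∀ i, 0 ≤ x i) (hy : ∀ j, 0 ≤ y j) :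
    ∑ i ∈ range n, (x i * y i)^s ≤ ((∑ i ∈ range n, x i) * (∑ j ∈ range n, y j))^s := by
  have h := schur_rpow (range n) (range n) (fun i j => if i = j then (1:ℝ) else 0) x y (D := 1) hs
    (fun i _ j _ => by split_ifs <;> norm_num)
    (fun i hi => by rw [Finset.sum_ite_eq, if_pos hi])
    (fun j hj => by rw [Finset.sum_ite_eq', if_pos hj]) zero_le_one (fun i _ => hx i) (fun j _ => hy j)
  rw [one_mul] at h
  refine le_trans (le_of_eq ?_) h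
  refine Finset.sum_congr rfl fun i hi => ?_
  have : ∀ j ∈ range n, (if i = j then (1:ℝ) else 0) * (x i * y j)^s =
      if i = j then (x i * y j)^s else 0 := by
    intro j _; split_ifs <;> simp
  rw [Finset.sum_congr rfl this, Finset.sum_ite_eq, if_pos hi]

/-- the parameters: `C` log loss of the numbers, `ℓ^(-Cl) ≤` alive masses `≤ ℓ^Ch`, `sg = ℓ^B / b` -/
structure KOk (C Cl Ch B K₁ δ s₁ s₂ a : ℝ) : Prop where
  C0 : 0 ≤ C
  Cl0 : 0 ≤ Cl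
  Ch0 : 0 ≤ Ch
  B0 : Cl + (100/49) * (C + 51/100 * Ch) ≤ B
  K0 : 0 ≤ K₁
  s1 : 1/2 < s₁
  s1' : s₁ ≤ 51/100
  s2 : 1/2 < s₂
  s2' : s₂ ≤ 51/100
  del : δ < 2 * s₁ - 1
  a1 : a ≤ 1/50

section
variable {C Cl Ch B K₁ δ s₁ s₂ a : ℝ}

lemma KOk.B1 (h : KOk C Cl Ch B K₁ δ s₁ s₂ a) {s : ℝ} (hs : 1/2 ≤ s) (hs' : s ≤ 51/100) :
    Cl + (C + s*Ch)/(1-s) ≤ B := by
  have h1 : 0 < 1 - s := by linarith
  have h2 : (C + s*Ch)/(1-s) ≤ (100/49) * (C + 51/100 * Ch) := by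
    have h3 := h.C0
    have h4 := h.Ch0
    have h5 : C + s * Ch ≤ C + 51/100 * Ch := by
      have := mul_le_mul_of_nonneg_right hs' h4
      linarith
    have h6 : 0 ≤ C + 51/100 * Ch := by positivity
    rw [div_le_iff₀ h1]
    have h7 : (49/100 : ℝ) ≤ 1 - s := by linarith
    have h8 := mul_le_mul_of_nonneg_left h7 (by positivity : 0 ≤ (100/49) * (C + 51/100 * Ch))
    linarith
  have := h.B0
  linarith

lemma KOk.B2 (h : KOk C Cl Ch B K₁ δ s₁ s₂ a) {s : ℝ} (hs : 1/2 ≤ s) (hs' : s ≤ 51/100) :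
    Cl + (s*Ch)/(1-s) ≤ B := by
  have h0 := h.B1 hs hs'
  have h1 : 0 < 1 - s := by linarith
  have h2 : (s*Ch)/(1-s) ≤ (C + s*Ch)/(1-s) := by
    apply div_le_div_of_nonneg_right _ h1.le
    have := h.C0; linarith
  linarith

lemma KOk.Bn (h : KOk C Cl Ch B K₁ δ s₁ s₂ a) : 0 ≤ B := by
  have := h.B0; have := h.C0; have := h.Cl0; have := h.Ch0
  linarith

/-- the sum over the adjacent classes -/
noncomputable def adjS (n : ℕ) (s : ℝ) (al : ℕ → ℕ → ℝ) (x y : ℕ → ℝ) : ℝ :=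
  ∑ i ∈ range n, ∑ j ∈ range n, if dst i j = 1 then al i j * (x i * y j)^s else 0

/-- the sum over the different classes without any structure -/
lemma CO.sum {b n : ℕ} (hb : 16 ≤ b) (hk : KOk C Cl Ch B K₁ δ s₁ s₂ a) {al : ℕ → ℕ → ℝ}
    {x y : ℕ → ℝ} {φ : ℕ → ℕ → ℝ} (h : CO b C s₁ s₂ al x y φ) :
    offS n φ ≤ 18 * ((Real.log b)^C * ((b:ℝ)^(-(1-1/2):ℝ) *
        ((∑ i ∈ range n, x i) * (∑ j ∈ range n, y j))^(1/2:ℝ))) +
      18 * ((Real.log b)^C * ((b:ℝ)^(-(1-s₁)) * ((∑ i ∈ range n, x i) * (∑ j ∈ range n, y j))^s₁)) +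
      18 * ((Real.log b)^C * ((b:ℝ)^(-(1-s₂)) * ((∑ i ∈ range n, x i) * (∑ j ∈ range n, y j))^s₂)) +
      (Real.log b)^C * ((b:ℝ)^(-(1-s₂)) * adjS n s₂ al x y) := by
  have hl0 : 0 < Real.log b := by linarith [log_ge_one (b := b) (by omega)]
  have hb0 : (0:ℝ) < b := by
    have : (0:ℕ) < b := by omega
    exact_mod_cast this
  set q := (b:ℝ)^(-(47/100):ℝ) with hq
  set ℓ := Real.log b with hℓ
  have h1 := main_off (n := n) hb (s := 1/2) le_rfl h.x0 h.y0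
  have h2 := main_off (n := n) hb hk.s1.le h.x0 h.y0
  have h3 := main_off (n := n) hb hk.s2.le h.x0 h.y0
  have step : ∀ i ∈ range n, ∀ j ∈ range n, (if i = j then 0 else φ i j) ≤
      ℓ^C * (b:ℝ)^(-(1-1/2):ℝ) * (if i = j then 0 else q^(dst i j - 1) * (x i * y j)^(1/2:ℝ)) +
      ℓ^C * (b:ℝ)^(-(1-s₁)) * (if i = j then 0 else q^(dst i j - 1) * (x i * y j)^s₁) +
      ℓ^C * (b:ℝ)^(-(1-s₂)) * (if i = j then 0 else q^(dst i j - 1) * (x i * y j)^s₂) +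
      ℓ^C * (b:ℝ)^(-(1-s₂)) * (if dst i j = 1 then al i j * (x i * y j)^s₂ else 0) := by
    intro i _ j _
    by_cases hij : i = j
    · have hd : ¬ dst i j = 1 := by rw [dst_eq_zero.2 hij]; omega
      rw [if_pos hij, if_pos hij, if_pos hij, if_pos hij, if_neg hd]
      simp
    · rw [if_neg hij, if_neg hij, if_neg hij, if_neg hij]
      refine (h.le i j hij).trans (le_of_eq ?_)
      by_cases hd : dst i j = 1
      · rw [if_pos hd, if_pos hd]; ring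
      · rw [if_neg hd, if_neg hd]; ring
  unfold offS
  refine (Finset.sum_le_sum fun i hi => Finset.sum_le_sum fun j hj => step i hi j hj).trans ?_
  simp only [Finset.sum_add_distrib, ← Finset.mul_sum]
  have p0 : 0 ≤ ℓ^C * (b:ℝ)^(-(1-1/2):ℝ) := by positivity
  have p1 : 0 ≤ ℓ^C * (b:ℝ)^(-(1-s₁)) := by positivity
  have p2 : 0 ≤ ℓ^C * (b:ℝ)^(-(1-s₂)) := by positivity
  have m1 := mul_le_mul_of_nonneg_left h1 p0
  have m2 := mul_le_mul_of_nonneg_left h2 p1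
  have m3 := mul_le_mul_of_nonneg_left h3 p2
  unfold adjS
  calc _ ≤ ℓ^C * (b:ℝ)^(-(1-1/2):ℝ) * (18 * ((∑ i ∈ range n, x i) * (∑ j ∈ range n, y j))^(1/2:ℝ)) +
      ℓ^C * (b:ℝ)^(-(1-s₁)) * (18 * ((∑ i ∈ range n, x i) * (∑ j ∈ range n, y j))^s₁) +
      ℓ^C * (b:ℝ)^(-(1-s₂)) * (18 * ((∑ i ∈ range n, x i) * (∑ j ∈ range n, y j))^s₂) +
      ℓ^C * (b:ℝ)^(-(1-s₂)) * ∑ i ∈ range n, ∑ j ∈ range n,
        (if dst i j = 1 then al i j * (x i * y j)^s₂ else 0) :=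
        add_le_add (add_le_add (add_le_add m1 m2) m3) le_rfl
    _ = _ := by ring

/-- the adjacent sum with one main pair, the others on the exceptional set `E` of the partner -/
lemma adjS_le {n : ℕ} {s A : ℝ} (hs : 1/2 ≤ s) (hA : 0 ≤ A) {al : ℕ → ℕ → ℝ} {x y : ℕ → ℝ}
    (hx : ∀ i, 0 ≤ x i) (hy : ∀ j, 0 ≤ y j) (h0 : ∀ i j, 0 ≤ al i j) (hal : ∀ i j, al i j ≤ A)
    {i₀ j₀ : ℕ} (E : ℕ → Prop) [DecidablePred E]
    (hE : ∀ i j, dst i j = 1 → ¬ (i = i₀ ∧ j = j₀) → x i = 0 ∨ y j = 0 ∨ E j) :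
    adjS n s al x y ≤ al i₀ j₀ * (x i₀ * y j₀)^s +
      2 * (A * ((∑ i ∈ range n, x i) * (∑ j ∈ range n, if E j then y j else 0))^s) := by
  have hy' : ∀ j, 0 ≤ (if E j then y j else 0) := fun j => by split_ifs; exacts [hy j, le_rfl]
  have h1 := main_adj (n := n) (s := s) hs hA (al := al) hx hy' hal
  have hs0 : s ≠ 0 := by linarith
  have hp : ∀ i j, 0 ≤ al i j * (x i * y j)^s := fun i j =>
    mul_nonneg (h0 i j) (Real.rpow_nonneg (mul_nonneg (hx i) (hy j)) _)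
  have step : ∀ i ∈ range n, ∀ j ∈ range n, (if dst i j = 1 then al i j * (x i * y j)^s else 0) ≤
      (if i = i₀ then (if j = j₀ then al i j * (x i * y j)^s else 0) else 0) +
      (if dst i j = 1 then al i j * (x i * (if E j then y j else 0))^s else 0) := by
    intro i _ j _
    by_cases hd : dst i j = 1
    swap
    · rw [if_neg hd, if_neg hd, add_zero]
      split_ifs
      · exact hp i j
      · exact le_rfl
      · exact le_rfl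
    rw [if_pos hd, if_pos hd]
    have hq : 0 ≤ al i j * (x i * (if E j then y j else 0))^s :=
      mul_nonneg (h0 i j) (Real.rpow_nonneg (mul_nonneg (hx i) (hy' j)) _)
    by_cases hm : i = i₀ ∧ j = j₀
    · rw [if_pos hm.1, if_pos hm.2]; linarith
    · have hz : (0:ℝ) ≤ (if i = i₀ then (if j = j₀ then al i j * (x i * y j)^s else 0) else 0) := by
        split_ifs
        · exact hp i j
        · exact le_rfl
        · exact le_rfl
      rcases hE i j hd hm with h | h | h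
      · have e0 : al i j * (x i * y j)^s = 0 := by rw [h, zero_mul, Real.zero_rpow hs0, mul_zero]
        exact e0.le.trans (add_nonneg hz hq)
      · have e0 : al i j * (x i * y j)^s = 0 := by rw [h, mul_zero, Real.zero_rpow hs0, mul_zero]
        exact e0.le.trans (add_nonneg hz hq)
      · have e0 : al i j * (x i * y j)^s = al i j * (x i * (if E j then y j else 0))^s := by
          rw [if_pos h]
        exact e0.le.trans (le_add_of_nonneg_left hz)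
  unfold adjS
  refine (Finset.sum_le_sum fun i hi => Finset.sum_le_sum fun j hj => step i hi j hj).trans ?_
  simp only [Finset.sum_add_distrib]
  refine add_le_add ?_ h1
  by_cases hi : i₀ ∈ range n
  · rw [Finset.sum_eq_single_of_mem i₀ hi (fun i _ hne => by
      refine Finset.sum_eq_zero fun j _ => ?_
      rw [if_neg hne])]
    by_cases hj : j₀ ∈ range n
    · rw [Finset.sum_eq_single_of_mem j₀ hj (fun j _ hne => by rw [if_pos rfl, if_neg hne]),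
        if_pos rfl, if_pos rfl]
    · refine le_trans (le_of_eq (Finset.sum_eq_zero fun j hj' => ?_)) (hp i₀ j₀)
      rw [if_pos rfl, if_neg]
      rintro rfl; exact hj hj'
  · refine le_trans (le_of_eq (Finset.sum_eq_zero fun i hi' => Finset.sum_eq_zero fun j _ => ?_)) (hp i₀ j₀)
    rw [if_neg]
    rintro rfl; exact hi hi'

variable (C Cl Ch B K₁ δ s₁ s₂ a)

/-- the number of main-pair accidents -/
noncomputable def CA : ℝ := (C + Ch * (2*s₂ - 1)) / (1 - s₂)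

/-- **`X` leaves, share `≥ sg`** (dead or alive): different classes.  `E` = exceptional classes of the
partner (share `≤ 4 sg`); the adjacent classes are `(i₀, j₀)`, or exceptional -/
theorem off_leaf (hk : KOk C Cl Ch B K₁ δ s₁ s₂ a) :
    ∃ b₁ : ℕ, 16 ≤ b₁ ∧ ∀ b : ℕ, b₁ ≤ b → ∀ (n : ℕ) (al : ℕ → ℕ → ℝ) (x y : ℕ → ℝ)
      (φ : ℕ → ℕ → ℝ) (t X Y : ℝ) (i₀ j₀ : ℕ) (E : ℕ → Prop) [DecidablePred E],
      CO b C s₁ s₂ al x y φ → (∀ i j, al i j ≤ (b:ℝ)^a) →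
      ∑ i ∈ range n, x i ≤ X → ∑ j ∈ range n, y j ≤ Y → x i₀ ≤ X → y j₀ ≤ Y →
      (Real.log b)^(-Cl) ≤ t → (Real.log b)^B / b * t ≤ X → Y ≤ (Real.log b)^Ch →
      (∀ i j, dst i j = 1 → ¬ (i = i₀ ∧ j = j₀) → x i = 0 ∨ y j = 0 ∨ E j) →
      ∑ j ∈ range n, (if E j then y j else 0) ≤ 4 * ((Real.log b)^B / b) * Y →
      offS n φ ≤ 56 * X + (Real.log b)^(CA C Ch s₂) * (al i₀ j₀)^(1/(1-s₂)) * (b:ℝ)^(-1:ℝ) * y j₀ := by
  have hs2 : 0 < 1 - s₂ := by linarith [hk.s2']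
  obtain ⟨b₁, h3, h1⟩ := pay_leaf_eta (s := s₂) (C := C + B) (Cl := Cl) (Ch := Ch) (B := B) (κ := 1 - a)
    (by linarith [hk.s2]) (by linarith [hk.s2']) (hk.B2 hk.s2.le hk.s2')
    (by have := hk.a1; have := hk.s2; linarith) 8 (by norm_num) one_pos
  refine ⟨max 16 b₁, le_max_left _ _, fun b hb n al x y φ t X Y i₀ j₀ E _ h hal hX hY hxi hyj ht hXt hYh hE hEs => ?_⟩
  have hb16 : 16 ≤ b := (le_max_left _ _).trans hb
  have hb3 : 3 ≤ b := by omega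
  have h2 := h1 b ((le_max_right _ _).trans hb)
  have hl1 := log_ge_one hb3
  set ℓ := Real.log b with hℓ
  have hl0 : 0 < ℓ := by linarith
  have hb0 : (0:ℝ) < b := by
    have : (0:ℕ) < b := by omega
    exact_mod_cast this
  have hX0 : 0 ≤ X := le_trans (Finset.sum_nonneg fun i _ => h.x0 i) hX
  have hY0 : 0 ≤ Y := le_trans (Finset.sum_nonneg fun i _ => h.y0 i) hY
  have hSx : 0 ≤ ∑ i ∈ range n, x i := Finset.sum_nonneg fun i _ => h.x0 i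
  have hSy : 0 ≤ ∑ i ∈ range n, y i := Finset.sum_nonneg fun i _ => h.y0 i
  have mono : ∀ s : ℝ, 0 ≤ s → ((∑ i ∈ range n, x i) * (∑ j ∈ range n, y j))^s ≤ (X * Y)^s := fun s hs =>
    Real.rpow_le_rpow (mul_nonneg hSx hSy) (mul_le_mul hX hY hSy hX0) hs
  have key : ∀ s : ℝ, 1/2 ≤ s → s ≤ 51/100 → 18 * (ℓ^C * ((b:ℝ)^(-(1-s)) *
      ((∑ i ∈ range n, x i) * (∑ j ∈ range n, y j))^s)) ≤ 18 * X := by
    intro s hs hs'
    have h4 := pay_leaf (s := s) (by linarith) (by linarith) (hk.B1 hs hs') hb3 ht hXt hY0 hYh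
    have h5 := mono s (by linarith)
    calc _ ≤ 18 * (ℓ^C * ((b:ℝ)^(-(1-s)) * (X * Y)^s)) := by gcongr
      _ ≤ 18 * X := mul_le_mul_of_nonneg_left h4 (by norm_num)
  have s0 := CO.sum (n := n) hb16 hk h
  have a1 := adjS_le (n := n) hk.s2.le (by positivity : 0 ≤ (b:ℝ)^a) h.x0 h.y0 h.al0 hal
    (i₀ := i₀) (j₀ := j₀) E hE
  have k1 := key (1/2) le_rfl (by norm_num)
  have k2 := key s₁ hk.s1.le hk.s1'
  have k3 := key s₂ hk.s2.le hk.s2'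
  -- the main adjacent pair
  have k4 : ℓ^C * ((b:ℝ)^(-(1-s₂)) * (al i₀ j₀ * (x i₀ * y j₀)^s₂)) ≤ X +
      ℓ^(CA C Ch s₂) * (al i₀ j₀)^(1/(1-s₂)) * (b:ℝ)^(-1:ℝ) * y j₀ := by
    have h4 := pay_acc (C := C) (Ch := Ch) hk.s2.le (by linarith : s₂ < 1) hb3 1 (h.x0 i₀) (h.y0 j₀)
      (hyj.trans hYh) (h.al0 i₀ j₀)
    rw [one_mul] at h4
    exact h4.trans (add_le_add hxi le_rfl)
  -- the tail
  have k5 : ℓ^C * ((b:ℝ)^(-(1-s₂)) * (2 * ((b:ℝ)^a * ((∑ i ∈ range n, x i) *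
      (∑ j ∈ range n, if E j then y j else 0))^s₂))) ≤ X := by
    have hE0 : 0 ≤ ∑ j ∈ range n, (if E j then y j else 0) := Finset.sum_nonneg fun j _ => by
      split_ifs; exacts [h.y0 j, le_rfl]
    have h4 : ((∑ i ∈ range n, x i) * (∑ j ∈ range n, if E j then y j else 0))^s₂ ≤
        (X * (4 * (ℓ^B / b) * Y))^s₂ :=
      Real.rpow_le_rpow (mul_nonneg hSx hE0) (mul_le_mul hX hEs hE0 hX0) (by linarith [hk.s2])
    have h5 := tail_le (s := s₂) (by linarith [hk.s2]) (by linarith) hk.Bn hb3 hX0 hY0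
    have h6 := h2 X Y t ht hXt hY0 hYh
    have e1 : (b:ℝ)^(-(1-s₂)) * (b:ℝ)^a * (b:ℝ)^(-s₂) = (b:ℝ)^(-(1-a)) := by
      rw [← Real.rpow_add hb0, ← Real.rpow_add hb0]; congr 1; ring
    calc _ ≤ ℓ^C * ((b:ℝ)^(-(1-s₂)) * (2 * ((b:ℝ)^a * (4 * ℓ^B * ((b:ℝ)^(-s₂) * (X*Y)^s₂))))) := by
          have := h4.trans h5
          gcongr
      _ = 8 * ((ℓ^C * ℓ^B) * (((b:ℝ)^(-(1-s₂)) * (b:ℝ)^a * (b:ℝ)^(-s₂)) * (X*Y)^s₂)) := by ring
      _ = 8 * (ℓ^(C+B) * ((b:ℝ)^(-(1-a)) * (X*Y)^s₂)) := by rw [e1, Real.rpow_add hl0]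
      _ ≤ 1 * X := h6
      _ = X := one_mul _
  have k6 : ℓ^C * ((b:ℝ)^(-(1-s₂)) * adjS n s₂ al x y) ≤ 2 * X +
      ℓ^(CA C Ch s₂) * (al i₀ j₀)^(1/(1-s₂)) * (b:ℝ)^(-1:ℝ) * y j₀ := by
    have h7 : ℓ^C * ((b:ℝ)^(-(1-s₂)) * adjS n s₂ al x y) ≤
        ℓ^C * ((b:ℝ)^(-(1-s₂)) * (al i₀ j₀ * (x i₀ * y j₀)^s₂)) +
        ℓ^C * ((b:ℝ)^(-(1-s₂)) * (2 * ((b:ℝ)^a * ((∑ i ∈ range n, x i) *
          (∑ j ∈ range n, if E j then y j else 0))^s₂))) := by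
      rw [← mul_add, ← mul_add]
      gcongr
    linarith
  linarith

/-- the sum over the different classes with all adjacent factors at most `b^a` -/
lemma CO.sum_all {b n : ℕ} (hb : 16 ≤ b) (hk : KOk C Cl Ch B K₁ δ s₁ s₂ a) {al : ℕ → ℕ → ℝ}
    {x y : ℕ → ℝ} {φ : ℕ → ℕ → ℝ} (h : CO b C s₁ s₂ al x y φ) (hal : ∀ i j, al i j ≤ (b:ℝ)^a)
    {X Y : ℝ} (hX : ∑ i ∈ range n, x i ≤ X) (hY : ∑ j ∈ range n, y j ≤ Y) :
    offS n φ ≤ 18 * ((Real.log b)^C * ((b:ℝ)^(-(1-1/2):ℝ) * (X * Y)^(1/2:ℝ))) +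
      18 * ((Real.log b)^C * ((b:ℝ)^(-(1-s₁)) * (X * Y)^s₁)) +
      18 * ((Real.log b)^C * ((b:ℝ)^(-(1-s₂)) * (X * Y)^s₂)) +
      2 * ((Real.log b)^C * ((b:ℝ)^(-(1-s₂-a)) * (X * Y)^s₂)) := by
  have hb3 : 3 ≤ b := by omega
  have hl1 := log_ge_one hb3
  set ℓ := Real.log b with hℓ
  have hl0 : 0 < ℓ := by linarith
  have hb0 : (0:ℝ) < b := by
    have : (0:ℕ) < b := by omega
    exact_mod_cast this
  have hX0 : 0 ≤ X := le_trans (Finset.sum_nonneg fun i _ => h.x0 i) hX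
  have hY0 : 0 ≤ Y := le_trans (Finset.sum_nonneg fun i _ => h.y0 i) hY
  have hSx : 0 ≤ ∑ i ∈ range n, x i := Finset.sum_nonneg fun i _ => h.x0 i
  have hSy : 0 ≤ ∑ i ∈ range n, y i := Finset.sum_nonneg fun i _ => h.y0 i
  have mono : ∀ s : ℝ, 0 ≤ s → ((∑ i ∈ range n, x i) * (∑ j ∈ range n, y j))^s ≤ (X * Y)^s := fun s hs =>
    Real.rpow_le_rpow (mul_nonneg hSx hSy) (mul_le_mul hX hY hSy hX0) hs
  have s0 := CO.sum (n := n) hb hk h
  have a1 := main_adj (n := n) hk.s2.le (by positivity : 0 ≤ (b:ℝ)^a) h.x0 h.y0 hal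
  have m0 := mono (1/2) (by norm_num)
  have m1 := mono s₁ (by linarith [hk.s1])
  have m2 := mono s₂ (by linarith [hk.s2])
  have e1 : (b:ℝ)^(-(1-s₂-a)) = (b:ℝ)^(-(1-s₂)) * (b:ℝ)^a := by
    rw [← Real.rpow_add hb0]; congr 1; ring
  have k : ℓ^C * ((b:ℝ)^(-(1-s₂)) * adjS n s₂ al x y) ≤
      2 * (ℓ^C * ((b:ℝ)^(-(1-s₂-a)) * (X * Y)^s₂)) := by
    have a2 : adjS n s₂ al x y ≤ 2 * ((b:ℝ)^a * (X*Y)^s₂) := a1.trans (by gcongr)
    calc _ ≤ ℓ^C * ((b:ℝ)^(-(1-s₂)) * (2 * ((b:ℝ)^a * (X*Y)^s₂))) := by gcongr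
      _ = _ := by rw [e1]; ring
  refine s0.trans (add_le_add (add_le_add (add_le_add ?_ ?_) ?_) k)
  · gcongr
  · gcongr
  · gcongr

/-- **both sides alive** -/
theorem off_alive (hk : KOk C Cl Ch B K₁ δ s₁ s₂ a) {η : ℝ} (hη : 0 < η) :
    ∃ b₁ : ℕ, 16 ≤ b₁ ∧ ∀ b : ℕ, b₁ ≤ b → ∀ (n : ℕ) (al : ℕ → ℕ → ℝ) (x y : ℕ → ℝ)
      (φ : ℕ → ℕ → ℝ) (X Y : ℝ),
      CO b C s₁ s₂ al x y φ → (∀ i j, al i j ≤ (b:ℝ)^a) →
      ∑ i ∈ range n, x i ≤ X → ∑ j ∈ range n, y j ≤ Y →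
      (Real.log b)^(-Cl) ≤ X → (Real.log b)^(-Cl) ≤ Y → offS n φ ≤ η * (X * Y) := by
  have hs1 := hk.s1'
  have hs2 := hk.s2'
  have ha := hk.a1
  obtain ⟨b0, -, h0⟩ := pay_alive (1/2) C Cl (by norm_num) (κ := 1 - 1/2) (η := η/72) (by norm_num) (by positivity)
  obtain ⟨b1, -, h1⟩ := pay_alive s₁ C Cl (by linarith) (κ := 1 - s₁) (η := η/72) (by linarith) (by positivity)
  obtain ⟨b2, -, h2⟩ := pay_alive s₂ C Cl (by linarith) (κ := 1 - s₂) (η := η/72) (by linarith) (by positivity)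
  obtain ⟨b3, -, h3⟩ := pay_alive s₂ C Cl (by linarith) (κ := 1 - s₂ - a) (η := η/8) (by linarith) (by positivity)
  refine ⟨max 16 (max (max b0 b1) (max b2 b3)), le_max_left _ _, fun b hb n al x y φ X Y h hal hX hY hXl hYl => ?_⟩
  have hb16 : 16 ≤ b := (le_max_left _ _).trans hb
  have hb' := (le_max_right _ _).trans hb
  have k0 := h0 b (((le_max_left _ _).trans (le_max_left _ _)).trans hb') X Y hXl hYl
  have k1 := h1 b (((le_max_right _ _).trans (le_max_left _ _)).trans hb') X Y hXl hYl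
  have k2 := h2 b (((le_max_left _ _).trans (le_max_right _ _)).trans hb') X Y hXl hYl
  have k3 := h3 b (((le_max_right _ _).trans (le_max_right _ _)).trans hb') X Y hXl hYl
  have s0 := CO.sum_all C Cl Ch B K₁ δ s₁ s₂ a hb16 hk h hal hX hY
  linarith

/-- **the crossing child is tiny** (`≤ 2 sg t`), the partner is alive -/
theorem off_tiny (hk : KOk C Cl Ch B K₁ δ s₁ s₂ a) {η : ℝ} (hη : 0 < η) :
    ∃ b₁ : ℕ, 16 ≤ b₁ ∧ ∀ b : ℕ, b₁ ≤ b → ∀ (n : ℕ) (al : ℕ → ℕ → ℝ) (x y : ℕ → ℝ)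
      (φ : ℕ → ℕ → ℝ) (X Y : ℝ),
      CO b C s₁ s₂ al x y φ → (∀ i j, al i j ≤ (b:ℝ)^a) →
      ∑ i ∈ range n, x i ≤ X → ∑ j ∈ range n, y j ≤ Y →
      X ≤ 2 * ((Real.log b)^B / b) * (Real.log b)^Ch →
      (Real.log b)^(-Cl) ≤ Y → Y ≤ (Real.log b)^Ch → offS n φ ≤ η * Y := by
  have hs1 := hk.s1'
  have hs2 := hk.s2'
  have ha := hk.a1
  have hs1g := hk.s1
  have hs2g := hk.s2
  obtain ⟨b0, -, h0⟩ := pay_tiny (s := 1/2) (C := C) (Cl := Cl) (κ := 1 - 1/2) (by norm_num) (by norm_num)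
    hk.Ch0 hk.Bn (by norm_num) 18 (by norm_num) (η := η/4) (by positivity)
  obtain ⟨b1, -, h1⟩ := pay_tiny (s := s₁) (C := C) (Cl := Cl) (κ := 1 - s₁) (by linarith) (by linarith)
    hk.Ch0 hk.Bn (by linarith) 18 (by norm_num) (η := η/4) (by positivity)
  obtain ⟨b2, -, h2⟩ := pay_tiny (s := s₂) (C := C) (Cl := Cl) (κ := 1 - s₂) (by linarith) (by linarith)
    hk.Ch0 hk.Bn (by linarith) 18 (by norm_num) (η := η/4) (by positivity)
  obtain ⟨b3, -, h3⟩ := pay_tiny (s := s₂) (C := C) (Cl := Cl) (κ := 1 - s₂ - a) (by linarith) (by linarith)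
    hk.Ch0 hk.Bn (by linarith) 2 (by norm_num) (η := η/4) (by positivity)
  refine ⟨max 16 (max (max b0 b1) (max b2 b3)), le_max_left _ _,
    fun b hb n al x y φ X Y h hal hX hY hXt hYl hYh => ?_⟩
  have hb16 : 16 ≤ b := (le_max_left _ _).trans hb
  have hb' := (le_max_right _ _).trans hb
  have hX0 : 0 ≤ X := le_trans (Finset.sum_nonneg fun i _ => h.x0 i) hX
  have k0 := h0 b (((le_max_left _ _).trans (le_max_left _ _)).trans hb') X Y hX0 hXt hYl hYh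
  have k1 := h1 b (((le_max_right _ _).trans (le_max_left _ _)).trans hb') X Y hX0 hXt hYl hYh
  have k2 := h2 b (((le_max_left _ _).trans (le_max_right _ _)).trans hb') X Y hX0 hXt hYl hYh
  have k3 := h3 b (((le_max_right _ _).trans (le_max_right _ _)).trans hb') X Y hX0 hXt hYl hYh
  have s0 := CO.sum_all C Cl Ch B K₁ δ s₁ s₂ a hb16 hk h hal hX hY
  linarith

/-- **far leaf**: no lower bound for `x`; the partner is dominated by `K` (its other classes have share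
`≤ 4 sg`), the classes of `x` have distance `≥ 2` from `K` -/
theorem off_far (hk : KOk C Cl Ch B K₁ δ s₁ s₂ a) :
    ∃ b₁ : ℕ, 16 ≤ b₁ ∧ ∀ b : ℕ, b₁ ≤ b → ∀ (n : ℕ) (al : ℕ → ℕ → ℝ) (x y : ℕ → ℝ)
      (φ : ℕ → ℕ → ℝ) (t X Y : ℝ) (K : ℕ),
      CO b C s₁ s₂ al x y φ → (∀ i j, al i j ≤ (b:ℝ)^a) →
      ∑ i ∈ range n, x i ≤ X → ∑ j ∈ range n, y j ≤ Y →
      (Real.log b)^(-Cl) ≤ t → Y ≤ (Real.log b)^Ch →
      (∀ i, dst i K ≤ 1 → x i = 0) →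
      ∑ j ∈ range n, (if j ≠ K then y j else 0) ≤ 4 * ((Real.log b)^B / b) * Y →
      offS n φ ≤ 7 * (X + (b:ℝ)^(-(3/2):ℝ) * t) := by
  have hs1 := hk.s1'
  have hs2 := hk.s2'
  have ha := hk.a1
  have hs1g := hk.s1
  have hs2g := hk.s2
  obtain ⟨b0, -, h0⟩ := pay_gap (s := 1/2) (C := C) (Cl := Cl) (Ch := Ch) (κ := 1 - 1/2 + 47/100)
    le_rfl (by norm_num) (by norm_num) 36 (by norm_num)
  obtain ⟨b1, -, h1⟩ := pay_gap (s := s₁) (C := C) (Cl := Cl) (Ch := Ch) (κ := 1 - s₁ + 47/100)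
    (by linarith) (by linarith) (by linarith) 36 (by norm_num)
  obtain ⟨b2, -, h2⟩ := pay_gap (s := s₂) (C := C) (Cl := Cl) (Ch := Ch) (κ := 1 - s₂ + 47/100)
    (by linarith) (by linarith) (by linarith) 36 (by norm_num)
  obtain ⟨b3, -, h3⟩ := pay_gap (s := 1/2) (C := C + B) (Cl := Cl) (Ch := Ch) (κ := 1)
    le_rfl (by norm_num) (by norm_num) 72 (by norm_num)
  obtain ⟨b4, -, h4⟩ := pay_gap (s := s₁) (C := C + B) (Cl := Cl) (Ch := Ch) (κ := 1)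
    (by linarith) (by linarith) (by linarith) 72 (by norm_num)
  obtain ⟨b5, -, h5⟩ := pay_gap (s := s₂) (C := C + B) (Cl := Cl) (Ch := Ch) (κ := 1)
    (by linarith) (by linarith) (by linarith) 72 (by norm_num)
  obtain ⟨b6, -, h6⟩ := pay_gap (s := s₂) (C := C + B) (Cl := Cl) (Ch := Ch) (κ := 1 - a)
    (by linarith) (by linarith) (by linarith) 8 (by norm_num)
  refine ⟨max 16 (max (max (max b0 b1) (max b2 b3)) (max (max b4 b5) b6)), le_max_left _ _,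
    fun b hb n al x y φ t X Y K h hal hX hY ht hYh hK hEs => ?_⟩
  have hb16 : 16 ≤ b := (le_max_left _ _).trans hb
  have hb' := (le_max_right _ _).trans hb
  have hbA := (le_max_left _ _).trans hb'
  have hbB := (le_max_right _ _).trans hb'
  have hb3 : 3 ≤ b := by omega
  have hl1 := log_ge_one hb3
  set ℓ := Real.log b with hℓ
  have hl0 : 0 < ℓ := by linarith
  have hb0 : (0:ℝ) < b := by
    have : (0:ℕ) < b := by omega
    exact_mod_cast this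
  have hX0 : 0 ≤ X := le_trans (Finset.sum_nonneg fun i _ => h.x0 i) hX
  have hY0 : 0 ≤ Y := le_trans (Finset.sum_nonneg fun i _ => h.y0 i) hY
  have hSx : 0 ≤ ∑ i ∈ range n, x i := Finset.sum_nonneg fun i _ => h.x0 i
  have hSy : 0 ≤ ∑ i ∈ range n, y i := Finset.sum_nonneg fun i _ => h.y0 i
  have k0 := h0 b (((le_max_left _ _).trans (le_max_left _ _)).trans hbA) X Y t ht hX0 hY0 hYh
  have k1 := h1 b (((le_max_right _ _).trans (le_max_left _ _)).trans hbA) X Y t ht hX0 hY0 hYh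
  have k2 := h2 b (((le_max_left _ _).trans (le_max_right _ _)).trans hbA) X Y t ht hX0 hY0 hYh
  have k3 := h3 b (((le_max_right _ _).trans (le_max_right _ _)).trans hbA) X Y t ht hX0 hY0 hYh
  have k4 := h4 b (((le_max_left _ _).trans (le_max_left _ _)).trans hbB) X Y t ht hX0 hY0 hYh
  have k5 := h5 b (((le_max_right _ _).trans (le_max_left _ _)).trans hbB) X Y t ht hX0 hY0 hYh
  have k6 := h6 b ((le_max_right _ _).trans hbB) X Y t ht hX0 hY0 hYh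
  clear h0 h1 h2 h3 h4 h5 h6
  set q := (b:ℝ)^(-(47/100):ℝ) with hq
  have hq0 : 0 < q := by positivity
  -- the two parts of the partner
  set yE : ℕ → ℝ := fun j => if j ≠ K then y j else 0 with hyE
  have hyE0 : ∀ j, 0 ≤ yE j := fun j => by
    simp only [hyE]; split_ifs; exacts [h.y0 j, le_rfl]
  have hE0 : 0 ≤ ∑ j ∈ range n, yE j := Finset.sum_nonneg fun j _ => hyE0 j
  have step : ∀ i ∈ range n, ∀ j ∈ range n, (if i = j then 0 else φ i j) ≤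
      (ℓ^C * (b:ℝ)^(-(1-1/2):ℝ) * (if 2 ≤ dst i j then q^(dst i j - 1) * (x i * y j)^(1/2:ℝ) else 0) +
       ℓ^C * (b:ℝ)^(-(1-s₁)) * (if 2 ≤ dst i j then q^(dst i j - 1) * (x i * y j)^s₁ else 0) +
       ℓ^C * (b:ℝ)^(-(1-s₂)) * (if 2 ≤ dst i j then q^(dst i j - 1) * (x i * y j)^s₂ else 0)) +
      (ℓ^C * (b:ℝ)^(-(1-1/2):ℝ) * (if i = j then 0 else q^(dst i j - 1) * (x i * yE j)^(1/2:ℝ)) +
       ℓ^C * (b:ℝ)^(-(1-s₁)) * (if i = j then 0 else q^(dst i j - 1) * (x i * yE j)^s₁) +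
       ℓ^C * (b:ℝ)^(-(1-s₂)) * (if i = j then 0 else q^(dst i j - 1) * (x i * yE j)^s₂) +
       ℓ^C * (b:ℝ)^(-(1-s₂)) * (if dst i j = 1 then al i j * (x i * yE j)^s₂ else 0)) := by
    intro i _ j _
    have n1 : ∀ s : ℝ, 0 ≤ (if 2 ≤ dst i j then q^(dst i j - 1) * (x i * y j)^s else 0) := fun s => by
      have := Real.rpow_nonneg (mul_nonneg (h.x0 i) (h.y0 j)) s
      split_ifs <;> positivity
    have n2 : ∀ s : ℝ, 0 ≤ (if i = j then (0:ℝ) else q^(dst i j - 1) * (x i * yE j)^s) := fun s => by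
      have := Real.rpow_nonneg (mul_nonneg (h.x0 i) (hyE0 j)) s
      split_ifs <;> positivity
    have n3 : 0 ≤ (if dst i j = 1 then al i j * (x i * yE j)^s₂ else 0) := by
      have := Real.rpow_nonneg (mul_nonneg (h.x0 i) (hyE0 j)) s₂
      have := h.al0 i j
      split_ifs <;> positivity
    have c0 : 0 ≤ ℓ^C * (b:ℝ)^(-(1-1/2):ℝ) := by positivity
    have c1 : 0 ≤ ℓ^C * (b:ℝ)^(-(1-s₁)) := by positivity
    have c2 : 0 ≤ ℓ^C * (b:ℝ)^(-(1-s₂)) := by positivity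
    have P1 := add_nonneg (add_nonneg (mul_nonneg c0 (n1 (1/2))) (mul_nonneg c1 (n1 s₁))) (mul_nonneg c2 (n1 s₂))
    have P2 := add_nonneg (add_nonneg (add_nonneg (mul_nonneg c0 (n2 (1/2))) (mul_nonneg c1 (n2 s₁)))
      (mul_nonneg c2 (n2 s₂))) (mul_nonneg c2 n3)
    by_cases hij : i = j
    · rw [if_pos hij]
      exact add_nonneg P1 P2
    have z : ∀ s : ℝ, 1/2 ≤ s → (0:ℝ)^s = 0 := fun s hs => Real.zero_rpow (by linarith)
    have hle := h.le i j hij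
    by_cases hjK : j = K
    · by_cases hd : dst i j ≤ 1
      · have hx : x i = 0 := hK i (by rw [← hjK]; exact hd)
        rw [if_neg hij]
        refine le_trans (hle.trans (le_of_eq ?_)) (add_nonneg P1 P2)
        rw [hx, zero_mul, z _ le_rfl, z _ hs1g.le, z _ hs2g.le]
        simp
      · have hd2 : 2 ≤ dst i j := by omega
        have hd1 : ¬ dst i j = 1 := by omega
        refine le_trans ?_ (le_add_of_nonneg_right P2)
        rw [if_neg hij, if_pos hd2, if_pos hd2, if_pos hd2]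
        refine hle.trans (le_of_eq ?_)
        rw [if_neg hd1]; ring
    · refine le_trans ?_ (le_add_of_nonneg_left P1)
      have ey : yE j = y j := by simp only [hyE]; rw [if_pos hjK]
      rw [if_neg hij, if_neg hij, if_neg hij, if_neg hij, ey]
      refine hle.trans (le_of_eq ?_)
      by_cases hd : dst i j = 1
      · rw [if_pos hd, if_pos hd]; ring
      · rw [if_neg hd, if_neg hd]; ring
  have g0 := main_gap (n := n) hb16 (s := 1/2) le_rfl h.x0 h.y0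
  have g1 := main_gap (n := n) hb16 hs1g.le h.x0 h.y0
  have g2 := main_gap (n := n) hb16 hs2g.le h.x0 h.y0
  have o0 := main_off (n := n) hb16 (s := 1/2) le_rfl h.x0 hyE0
  have o1 := main_off (n := n) hb16 hs1g.le h.x0 hyE0
  have o2 := main_off (n := n) hb16 hs2g.le h.x0 hyE0
  have o3 := main_adj (n := n) hs2g.le (by positivity : 0 ≤ (b:ℝ)^a) h.x0 hyE0 hal
  have mono : ∀ s : ℝ, 0 ≤ s → ((∑ i ∈ range n, x i) * (∑ j ∈ range n, y j))^s ≤ (X * Y)^s := fun s hs =>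
    Real.rpow_le_rpow (mul_nonneg hSx hSy) (mul_le_mul hX hY hSy hX0) hs
  have monoE : ∀ s : ℝ, 0 ≤ s → s ≤ 1 → ((∑ i ∈ range n, x i) * (∑ j ∈ range n, yE j))^s ≤
      4 * ℓ^B * ((b:ℝ)^(-s) * (X*Y)^s) := fun s hs hs' =>
    (Real.rpow_le_rpow (mul_nonneg hSx hE0) (mul_le_mul hX hEs hE0 hX0) hs).trans
      (tail_le hs hs' hk.Bn hb3 hX0 hY0)
  have main : ∀ s : ℝ, 1/2 ≤ s → s ≤ 51/100 →
      ∑ i ∈ range n, ∑ j ∈ range n, (if 2 ≤ dst i j then q^(dst i j - 1) * (x i * y j)^s else 0) ≤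
        36 * (q * ((∑ i ∈ range n, x i) * (∑ j ∈ range n, y j))^s) →
      36 * (ℓ^C * ((b:ℝ)^(-(1 - s + 47/100)) * (X*Y)^s)) ≤ X + (b:ℝ)^(-(3/2):ℝ) * t →
      ℓ^C * (b:ℝ)^(-(1-s)) * ∑ i ∈ range n, ∑ j ∈ range n,
        (if 2 ≤ dst i j then q^(dst i j - 1) * (x i * y j)^s else 0) ≤ X + (b:ℝ)^(-(3/2):ℝ) * t := by
    intro s hs hs' hg hk'
    refine le_trans ?_ hk'
    have e1 : (b:ℝ)^(-(1 - s + 47/100)) = (b:ℝ)^(-(1-s)) * q := by
      rw [hq, ← Real.rpow_add hb0]; congr 1; ring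
    have m := mono s (by linarith)
    calc _ ≤ ℓ^C * (b:ℝ)^(-(1-s)) * (36 * (q * (X*Y)^s)) := by
          have := hg.trans (by gcongr : 36 * (q * ((∑ i ∈ range n, x i) * (∑ j ∈ range n, y j))^s) ≤
            36 * (q * (X*Y)^s))
          gcongr
      _ = _ := by rw [e1]; ring
  have tail : ∀ s : ℝ, 1/2 ≤ s → s ≤ 51/100 →
      ∑ i ∈ range n, ∑ j ∈ range n, (if i = j then 0 else q^(dst i j - 1) * (x i * yE j)^s) ≤
        18 * ((∑ i ∈ range n, x i) * (∑ j ∈ range n, yE j))^s →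
      72 * (ℓ^(C+B) * ((b:ℝ)^(-(1:ℝ)) * (X*Y)^s)) ≤ X + (b:ℝ)^(-(3/2):ℝ) * t →
      ℓ^C * (b:ℝ)^(-(1-s)) * ∑ i ∈ range n, ∑ j ∈ range n,
        (if i = j then 0 else q^(dst i j - 1) * (x i * yE j)^s) ≤ X + (b:ℝ)^(-(3/2):ℝ) * t := by
    intro s hs hs' hg hk'
    refine le_trans ?_ hk'
    have e1 : (b:ℝ)^(-(1-s)) * (b:ℝ)^(-s) = (b:ℝ)^(-(1:ℝ)) := by
      rw [← Real.rpow_add hb0]; congr 1; ring
    have m := monoE s (by linarith) (by linarith)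
    calc _ ≤ ℓ^C * (b:ℝ)^(-(1-s)) * (18 * (4 * ℓ^B * ((b:ℝ)^(-s) * (X*Y)^s))) := by
          have := hg.trans (mul_le_mul_of_nonneg_left m (by norm_num : (0:ℝ) ≤ 18))
          gcongr
      _ = 72 * ((ℓ^C * ℓ^B) * (((b:ℝ)^(-(1-s)) * (b:ℝ)^(-s)) * (X*Y)^s)) := by ring
      _ = _ := by rw [e1, Real.rpow_add hl0]
  have adj : ℓ^C * (b:ℝ)^(-(1-s₂)) * ∑ i ∈ range n, ∑ j ∈ range n,
      (if dst i j = 1 then al i j * (x i * yE j)^s₂ else 0) ≤ X + (b:ℝ)^(-(3/2):ℝ) * t := by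
    refine le_trans ?_ k6
    have e1 : (b:ℝ)^(-(1-s₂)) * (b:ℝ)^a * (b:ℝ)^(-s₂) = (b:ℝ)^(-(1-a)) := by
      rw [← Real.rpow_add hb0, ← Real.rpow_add hb0]; congr 1; ring
    have m := monoE s₂ (by linarith) (by linarith)
    calc _ ≤ ℓ^C * (b:ℝ)^(-(1-s₂)) * (2 * ((b:ℝ)^a * (4 * ℓ^B * ((b:ℝ)^(-s₂) * (X*Y)^s₂)))) := by
          have := o3.trans (by gcongr : 2 * ((b:ℝ)^a * ((∑ i ∈ range n, x i) *
            (∑ j ∈ range n, yE j))^s₂) ≤ 2 * ((b:ℝ)^a * (4 * ℓ^B * ((b:ℝ)^(-s₂) * (X*Y)^s₂))))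
          gcongr
      _ = 8 * ((ℓ^C * ℓ^B) * (((b:ℝ)^(-(1-s₂)) * (b:ℝ)^a * (b:ℝ)^(-s₂)) * (X*Y)^s₂)) := by ring
      _ = _ := by rw [e1, Real.rpow_add hl0]
  have r0 := main (1/2) le_rfl (by norm_num) g0 k0
  have r1 := main s₁ hs1g.le hs1 g1 k1
  have r2 := main s₂ hs2g.le hs2 g2 k2
  have r3 := tail (1/2) le_rfl (by norm_num) o0 k3
  have r4 := tail s₁ hs1g.le hs1 o1 k4
  have r5 := tail s₂ hs2g.le hs2 o2 k5
  unfold offS
  refine (Finset.sum_le_sum fun i hi => Finset.sum_le_sum fun j hj => step i hi j hj).trans ?_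
  simp only [Finset.sum_add_distrib, ← Finset.mul_sum]
  linarith

/-- **equal classes, `X` leaves with share `≥ sg`** : all classes of `x` are exceptional for the partner
(share `≤ 4 sg`) -/
theorem eq_leaf (hk : KOk C Cl Ch B K₁ δ s₁ s₂ a) :
    ∃ b₁ : ℕ, 16 ≤ b₁ ∧ ∀ b : ℕ, b₁ ≤ b → ∀ (n : ℕ) (tw : ℕ → ℝ) (x y : ℕ → ℝ)
      (φ : ℕ → ℕ → ℝ) (t X Y : ℝ) (E : ℕ → Prop) [DecidablePred E],
      CE b C K₁ δ s₁ tw x y φ →
      ∑ i ∈ range n, x i ≤ X → ∑ j ∈ range n, y j ≤ Y →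
      (Real.log b)^(-Cl) ≤ t → (Real.log b)^B / b * t ≤ X → Y ≤ (Real.log b)^Ch →
      (∀ i, x i = 0 ∨ E i) →
      ∑ j ∈ range n, (if E j then y j else 0) ≤ 4 * ((Real.log b)^B / b) * Y →
      eqS n φ ≤ (2 + K₁) * X + 2 * K₁ * (X * Real.sqrt (Y / t)) := by
  have hs1 := hk.s1'
  have hs1g := hk.s1
  obtain ⟨b₁, -, h1⟩ := pay_leaf_eta (s := s₁) (C := C + B) (Cl := Cl) (Ch := Ch) (B := B) (κ := s₁ - δ)
    (by linarith) (by linarith) (hk.B2 hs1g.le hs1) (by have := hk.del; linarith) 4 (by norm_num) one_pos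
  obtain ⟨b₂, -, h2⟩ := log_small (C + B + Ch) 4 (by norm_num) (κ := 1) one_pos one_pos
  refine ⟨max 16 (max b₁ b₂), le_max_left _ _,
    fun b hb n tw x y φ t X Y E _ h hX hY ht hXt hYh hE hEs => ?_⟩
  have hb16 : 16 ≤ b := (le_max_left _ _).trans hb
  have hb' := (le_max_right _ _).trans hb
  have k1 := h1 b ((le_max_left _ _).trans hb')
  have k2 := h2 b ((le_max_right _ _).trans hb')
  have hb3 : 3 ≤ b := by omega
  have hl1 := log_ge_one hb3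
  set ℓ := Real.log b with hℓ
  have hl0 : 0 < ℓ := by linarith
  have hb0 : (0:ℝ) < b := by
    have : (0:ℕ) < b := by omega
    exact_mod_cast this
  have ht0 : 0 < t := lt_of_lt_of_le (Real.rpow_pos_of_pos hl0 _) ht
  have hX0 : 0 ≤ X := le_trans (Finset.sum_nonneg fun i _ => h.x0 i) hX
  have hY0 : 0 ≤ Y := le_trans (Finset.sum_nonneg fun i _ => h.y0 i) hY
  have hSx : 0 ≤ ∑ i ∈ range n, x i := Finset.sum_nonneg fun i _ => h.x0 i
  set yE : ℕ → ℝ := fun j => if E j then y j else 0 with hyE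
  have hyE0 : ∀ j, 0 ≤ yE j := fun j => by
    simp only [hyE]; split_ifs; exacts [h.y0 j, le_rfl]
  have hE0 : 0 ≤ ∑ j ∈ range n, yE j := Finset.sum_nonneg fun j _ => hyE0 j
  have hK0 := hk.K0
  have step : ∀ i ∈ range n, φ i i ≤ ℓ^C * (b:ℝ)^δ * (x i * yE i)^s₁ + ℓ^C * (x i * yE i)^(1:ℝ) +
      K₁ * (x i * yE i)^(1/2:ℝ) + K₁ * x i := by
    intro i _
    have h3 := h.le i
    have h4 := h.tx i
    rcases hE i with hx | he
    · have z1 : (0:ℝ)^s₁ = 0 := Real.zero_rpow (ne_of_gt (by linarith))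
      have z2 : (0:ℝ)^(1/2:ℝ) = 0 := Real.zero_rpow (by norm_num)
      have z3 : (0:ℝ)^(1:ℝ) = 0 := Real.zero_rpow one_ne_zero
      rw [hx] at h3 h4 ⊢
      simp only [zero_mul, z1, z2, z3, mul_zero, add_zero, zero_add] at h3 h4 ⊢
      linarith
    · have e : yE i = y i := by simp only [hyE]; rw [if_pos he]
      rw [e, Real.rpow_one]
      linarith
  have m1 := main_eq (n := n) hs1g.le h.x0 hyE0
  have m2 := main_eq (n := n) (s := 1) (by norm_num) h.x0 hyE0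
  have m3 := main_eq (n := n) (s := 1/2) le_rfl h.x0 hyE0
  have mono : ∀ s : ℝ, 0 ≤ s → ((∑ i ∈ range n, x i) * (∑ j ∈ range n, yE j))^s ≤
      (X * (4 * (ℓ^B / b) * Y))^s := fun s hs =>
    Real.rpow_le_rpow (mul_nonneg hSx hE0) (mul_le_mul hX hEs hE0 hX0) hs
  have r1 : ℓ^C * (b:ℝ)^δ * ∑ i ∈ range n, (x i * yE i)^s₁ ≤ X := by
    have h5 := k1 X Y t ht hXt hY0 hYh
    have e1 : (b:ℝ)^δ * (b:ℝ)^(-s₁) = (b:ℝ)^(-(s₁-δ)) := by
      rw [← Real.rpow_add hb0]; congr 1; ring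
    calc _ ≤ ℓ^C * (b:ℝ)^δ * (4 * ℓ^B * ((b:ℝ)^(-s₁) * (X*Y)^s₁)) := by
          have := (m1.trans (mono s₁ (by linarith))).trans
            (tail_le (by linarith) (by linarith) hk.Bn hb3 hX0 hY0)
          gcongr
      _ = 4 * ((ℓ^C * ℓ^B) * (((b:ℝ)^δ * (b:ℝ)^(-s₁)) * (X*Y)^s₁)) := by ring
      _ = 4 * (ℓ^(C+B) * ((b:ℝ)^(-(s₁-δ)) * (X*Y)^s₁)) := by rw [e1, Real.rpow_add hl0]
      _ ≤ 1 * X := h5
      _ = X := one_mul _
  have r2 : ℓ^C * ∑ i ∈ range n, (x i * yE i)^(1:ℝ) ≤ X := by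
    have h5 := m2.trans (mono 1 zero_le_one)
    rw [Real.rpow_one (X * _)] at h5
    have e1 : ℓ^(C+B+Ch) = ℓ^C * ℓ^B * ℓ^Ch := by rw [Real.rpow_add hl0, Real.rpow_add hl0]
    rw [Real.rpow_neg hb0.le, Real.rpow_one, e1] at k2
    calc _ ≤ ℓ^C * (X * (4 * (ℓ^B / b) * ℓ^Ch)) := by
          have := h5.trans (by gcongr : X * (4 * (ℓ^B / b) * Y) ≤ X * (4 * (ℓ^B / b) * ℓ^Ch))
          gcongr
      _ = (4 * (ℓ^C * ℓ^B * ℓ^Ch * (b:ℝ)⁻¹)) * X := by ring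
      _ ≤ 1 * X := mul_le_mul_of_nonneg_right k2 hX0
      _ = X := one_mul _
  have r3 : K₁ * ∑ i ∈ range n, (x i * yE i)^(1/2:ℝ) ≤ 2 * K₁ * (X * Real.sqrt (Y / t)) := by
    have h5 := m3.trans (mono (1/2) (by norm_num))
    have h6 : (X * (4 * (ℓ^B / b) * Y))^(1/2:ℝ) ≤ 2 * (X * Real.sqrt (Y/t)) := by
      rw [← Real.sqrt_eq_rpow]
      refine Real.sqrt_le_iff.2 ⟨by positivity, ?_⟩
      rw [mul_pow, mul_pow, Real.sq_sqrt (by positivity)]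
      have h7 : ℓ^B / b ≤ X / t := by rw [le_div_iff₀ ht0]; exact hXt
      calc X * (4 * (ℓ^B / b) * Y) ≤ X * (4 * (X / t) * Y) := by gcongr
        _ = _ := by ring
    calc _ ≤ K₁ * (2 * (X * Real.sqrt (Y/t))) := mul_le_mul_of_nonneg_left (h5.trans h6) hK0
      _ = _ := by ring
  have r4 : K₁ * ∑ i ∈ range n, x i ≤ K₁ * X := mul_le_mul_of_nonneg_left hX hK0
  unfold eqS
  refine (Finset.sum_le_sum fun i hi => step i hi).trans ?_
  simp only [Finset.sum_add_distrib, ← Finset.mul_sum]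
  linarith

/-- **equal classes, both sides alive**: every class is exceptional for one of the sides -/
theorem eq_alive (hk : KOk C Cl Ch B K₁ δ s₁ s₂ a) {η : ℝ} (hη : 0 < η) :
    ∃ b₁ : ℕ, 16 ≤ b₁ ∧ ∀ b : ℕ, b₁ ≤ b → ∀ (n : ℕ) (tw : ℕ → ℝ) (x y : ℕ → ℝ)
      (φ : ℕ → ℕ → ℝ) (X Y : ℝ) (E F : ℕ → Prop) [DecidablePred E] [DecidablePred F],
      CE b C K₁ δ s₁ tw x y φ →
      ∑ i ∈ range n, x i ≤ X → ∑ j ∈ range n, y j ≤ Y →
      (Real.log b)^(-Cl) ≤ X → (Real.log b)^(-Cl) ≤ Y →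
      (∀ i, F i ∨ E i) →
      ∑ j ∈ range n, (if F j then x j else 0) ≤ 4 * ((Real.log b)^B / b) * X →
      ∑ j ∈ range n, (if E j then y j else 0) ≤ 4 * ((Real.log b)^B / b) * Y →
      eqS n φ ≤ η * (X * Y) := by
  have hs1 := hk.s1'
  have hs1g := hk.s1
  have hK0 := hk.K0
  obtain ⟨b₁, -, h1⟩ := pay_alive s₁ (C + B) Cl (by linarith) (κ := s₁ - δ) (η := η/32)
    (by have := hk.del; linarith) (by positivity)
  obtain ⟨b₂, -, h2⟩ := pay_alive 1 (C + B) Cl le_rfl (κ := 1) (η := η/32) one_pos (by positivity)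
  obtain ⟨b₃, -, h3⟩ := pay_alive (1/2) B Cl (by norm_num) (κ := 1/2) (η := η/(32*(K₁+1))) (by norm_num)
    (by positivity)
  obtain ⟨b₄, -, h4⟩ := log_small (C + B + Cl) (4 * (K₁ + 1)) (by positivity) (κ := 1) one_pos
    (η := η/8) (by positivity)
  refine ⟨max 16 (max (max b₁ b₂) (max b₃ b₄)), le_max_left _ _,
    fun b hb n tw x y φ X Y E F _ _ h hX hY hXl hYl hEF hFs hEs => ?_⟩
  have hb16 : 16 ≤ b := (le_max_left _ _).trans hb
  have hb' := (le_max_right _ _).trans hb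
  have k1 := h1 b (((le_max_left _ _).trans (le_max_left _ _)).trans hb') X Y hXl hYl
  have k2 := h2 b (((le_max_right _ _).trans (le_max_left _ _)).trans hb') X Y hXl hYl
  have k3 := h3 b (((le_max_left _ _).trans (le_max_right _ _)).trans hb') X Y hXl hYl
  have k4 := h4 b (((le_max_right _ _).trans (le_max_right _ _)).trans hb')
  have hb3 : 3 ≤ b := by omega
  have hl1 := log_ge_one hb3
  set ℓ := Real.log b with hℓ
  have hl0 : 0 < ℓ := by linarith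
  have hb0 : (0:ℝ) < b := by
    have : (0:ℕ) < b := by omega
    exact_mod_cast this
  have hX0 : 0 < X := lt_of_lt_of_le (Real.rpow_pos_of_pos hl0 _) hXl
  have hY0 : 0 < Y := lt_of_lt_of_le (Real.rpow_pos_of_pos hl0 _) hYl
  have hSx : 0 ≤ ∑ i ∈ range n, x i := Finset.sum_nonneg fun i _ => h.x0 i
  have hSy : 0 ≤ ∑ i ∈ range n, y i := Finset.sum_nonneg fun i _ => h.y0 i
  set yE : ℕ → ℝ := fun j => if E j then y j else 0 with hyE
  set xF : ℕ → ℝ := fun j => if F j then x j else 0 with hxF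
  have hyE0 : ∀ j, 0 ≤ yE j := fun j => by
    simp only [hyE]; split_ifs; exacts [h.y0 j, le_rfl]
  have hxF0 : ∀ j, 0 ≤ xF j := fun j => by
    simp only [hxF]; split_ifs; exacts [h.x0 j, le_rfl]
  have hE0 : 0 ≤ ∑ j ∈ range n, yE j := Finset.sum_nonneg fun j _ => hyE0 j
  have hF0 : 0 ≤ ∑ j ∈ range n, xF j := Finset.sum_nonneg fun j _ => hxF0 j
  have hC1 : 1 ≤ ℓ^C := Real.one_le_rpow hl1 hk.C0
  have step : ∀ i ∈ range n, φ i i ≤
      (ℓ^C * (b:ℝ)^δ * (x i * yE i)^s₁ + ℓ^C * (x i * yE i)^(1:ℝ) + K₁ * (x i * yE i)^(1/2:ℝ) +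
        ℓ^C * yE i) +
      (ℓ^C * (b:ℝ)^δ * (xF i * y i)^s₁ + ℓ^C * (xF i * y i)^(1:ℝ) + K₁ * (xF i * y i)^(1/2:ℝ) +
        K₁ * xF i) := by
    intro i _
    have h3 := h.le i
    have h4 := h.tx i
    have h5 := h.ty i
    have z1 := h.x0 i
    have z2 := h.y0 i
    have z3 := hyE0 i
    have z4 := hxF0 i
    rcases hEF i with he | he
    · have e : xF i = x i := by simp only [hxF]; rw [if_pos he]
      have p1 : 0 ≤ ℓ^C * (b:ℝ)^δ * (x i * yE i)^s₁ + ℓ^C * (x i * yE i)^(1:ℝ) +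
        K₁ * (x i * yE i)^(1/2:ℝ) + ℓ^C * yE i := by positivity
      refine le_trans ?_ (le_add_of_nonneg_left p1)
      rw [e, Real.rpow_one]
      linarith
    · have e : yE i = y i := by simp only [hyE]; rw [if_pos he]
      have p1 : 0 ≤ ℓ^C * (b:ℝ)^δ * (xF i * y i)^s₁ + ℓ^C * (xF i * y i)^(1:ℝ) +
        K₁ * (xF i * y i)^(1/2:ℝ) + K₁ * xF i := by positivity
      refine le_trans ?_ (le_add_of_nonneg_right p1)
      rw [e, Real.rpow_one]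
      linarith
  -- powers
  have monoE : ∀ s : ℝ, 1/2 ≤ s → s ≤ 1 → ∑ i ∈ range n, (x i * yE i)^s ≤
      4 * ℓ^B * ((b:ℝ)^(-s) * (X*Y)^s) := fun s hs hs' =>
    ((main_eq (n := n) hs h.x0 hyE0).trans (Real.rpow_le_rpow (mul_nonneg hSx hE0)
      (mul_le_mul hX hEs hE0 hX0.le) (by linarith))).trans
      (tail_le (by linarith) hs' hk.Bn hb3 hX0.le hY0.le)
  have monoF : ∀ s : ℝ, 1/2 ≤ s → s ≤ 1 → ∑ i ∈ range n, (xF i * y i)^s ≤
      4 * ℓ^B * ((b:ℝ)^(-s) * (X*Y)^s) := fun s hs hs' => by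
    have h6 := (main_eq (n := n) hs hxF0 h.y0).trans (Real.rpow_le_rpow (mul_nonneg hF0 hSy)
      (mul_le_mul hFs hY hSy (by positivity)) (by linarith : (0:ℝ) ≤ s))
    have h7 := tail_le (s := s) (B := B) (by linarith) hs' hk.Bn hb3 hY0.le hX0.le
    have e : 4 * (ℓ^B / b) * X * Y = Y * (4 * (ℓ^B / b) * X) := by ring
    rw [e] at h6
    rw [mul_comm X Y]
    exact h6.trans h7
  have A1 : ∀ S : ℝ, S ≤ 4 * ℓ^B * ((b:ℝ)^(-s₁) * (X*Y)^s₁) →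
      ℓ^C * (b:ℝ)^δ * S ≤ η/8 * (X*Y) := by
    intro S hS
    have e1 : (b:ℝ)^δ * (b:ℝ)^(-s₁) = (b:ℝ)^(-(s₁-δ)) := by
      rw [← Real.rpow_add hb0]; congr 1; ring
    calc _ ≤ ℓ^C * (b:ℝ)^δ * (4 * ℓ^B * ((b:ℝ)^(-s₁) * (X*Y)^s₁)) := by gcongr
      _ = 4 * ((ℓ^C * ℓ^B) * (((b:ℝ)^δ * (b:ℝ)^(-s₁)) * (X*Y)^s₁)) := by ring
      _ = 4 * (ℓ^(C+B) * ((b:ℝ)^(-(s₁-δ)) * (X*Y)^s₁)) := by rw [e1, Real.rpow_add hl0]
      _ ≤ 4 * (η/32 * (X*Y)) := mul_le_mul_of_nonneg_left k1 (by norm_num)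
      _ = _ := by ring
  have A2 : ∀ S : ℝ, S ≤ 4 * ℓ^B * ((b:ℝ)^(-(1:ℝ)) * (X*Y)^(1:ℝ)) → ℓ^C * S ≤ η/8 * (X*Y) := by
    intro S hS
    calc _ ≤ ℓ^C * (4 * ℓ^B * ((b:ℝ)^(-(1:ℝ)) * (X*Y)^(1:ℝ))) := by gcongr
      _ = 4 * ((ℓ^C * ℓ^B) * ((b:ℝ)^(-(1:ℝ)) * (X*Y)^(1:ℝ))) := by ring
      _ = 4 * (ℓ^(C+B) * ((b:ℝ)^(-(1:ℝ)) * (X*Y)^(1:ℝ))) := by rw [Real.rpow_add hl0]
      _ ≤ 4 * (η/32 * (X*Y)) := mul_le_mul_of_nonneg_left k2 (by norm_num)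
      _ = _ := by ring
  have A3 : ∀ S : ℝ, S ≤ 4 * ℓ^B * ((b:ℝ)^(-(1/2:ℝ)) * (X*Y)^(1/2:ℝ)) → K₁ * S ≤ η/8 * (X*Y) := by
    intro S hS
    have hK1 : 0 < K₁ + 1 := by linarith
    have hXY : 0 < X * Y := mul_pos hX0 hY0
    calc _ ≤ K₁ * (4 * ℓ^B * ((b:ℝ)^(-(1/2:ℝ)) * (X*Y)^(1/2:ℝ))) := by gcongr
      _ = 4 * K₁ * (ℓ^B * ((b:ℝ)^(-(1/2:ℝ)) * (X*Y)^(1/2:ℝ))) := by ring
      _ ≤ 4 * K₁ * (η/(32*(K₁+1)) * (X*Y)) := mul_le_mul_of_nonneg_left k3 (by positivity)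
      _ = η/8 * (K₁/(K₁+1)) * (X*Y) := by field_simp; ring
      _ ≤ η/8 * 1 * (X*Y) := by
          have : K₁/(K₁+1) ≤ 1 := by rw [div_le_one hK1]; linarith
          gcongr
      _ = _ := by ring
  have lo : ℓ^(-Cl) * ℓ^Cl = 1 := by rw [← Real.rpow_add hl0]; simp
  have hY' : 1 ≤ ℓ^Cl * Y := by
    calc (1:ℝ) = ℓ^(-Cl) * ℓ^Cl := lo.symm
      _ ≤ Y * ℓ^Cl := mul_le_mul_of_nonneg_right hYl (by positivity)
      _ = _ := mul_comm _ _
  have hX' : 1 ≤ ℓ^Cl * X := by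
    calc (1:ℝ) = ℓ^(-Cl) * ℓ^Cl := lo.symm
      _ ≤ X * ℓ^Cl := mul_le_mul_of_nonneg_right hXl (by positivity)
      _ = _ := mul_comm _ _
  have e3 : ℓ^(C+B+Cl) = ℓ^C * ℓ^B * ℓ^Cl := by rw [Real.rpow_add hl0, Real.rpow_add hl0]
  rw [Real.rpow_neg hb0.le, Real.rpow_one, e3] at k4
  have A4 : ℓ^C * ∑ i ∈ range n, yE i ≤ η/8 * (X*Y) := by
    calc _ ≤ ℓ^C * (4 * (ℓ^B / b) * Y) := by gcongr
      _ = (4 * 1 * (ℓ^C * ℓ^B * (b:ℝ)⁻¹)) * (1 * Y) := by ring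
      _ ≤ (4 * (K₁ + 1) * (ℓ^C * ℓ^B * (b:ℝ)⁻¹)) * ((ℓ^Cl * X) * Y) := by
          have : (1:ℝ) ≤ K₁ + 1 := by linarith
          gcongr
      _ = (4 * (K₁ + 1) * (ℓ^C * ℓ^B * ℓ^Cl * (b:ℝ)⁻¹)) * (X * Y) := by ring
      _ ≤ η/8 * (X*Y) := mul_le_mul_of_nonneg_right k4 (mul_pos hX0 hY0).le
  have A5 : K₁ * ∑ i ∈ range n, xF i ≤ η/8 * (X*Y) := by
    calc _ ≤ K₁ * (4 * (ℓ^B / b) * X) := by gcongr
      _ = (4 * K₁ * (1 * ℓ^B * (b:ℝ)⁻¹)) * (1 * X) := by ring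
      _ ≤ (4 * (K₁ + 1) * (ℓ^C * ℓ^B * (b:ℝ)⁻¹)) * ((ℓ^Cl * Y) * X) := by
          have : K₁ ≤ K₁ + 1 := by linarith
          gcongr
      _ = (4 * (K₁ + 1) * (ℓ^C * ℓ^B * ℓ^Cl * (b:ℝ)⁻¹)) * (X * Y) := by ring
      _ ≤ η/8 * (X*Y) := mul_le_mul_of_nonneg_right k4 (mul_pos hX0 hY0).le
  have q1 := A1 _ (monoE s₁ hs1g.le (by linarith))
  have q2 := A1 _ (monoF s₁ hs1g.le (by linarith))
  have q3 := A2 _ (monoE 1 (by norm_num) le_rfl)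
  have q4 := A2 _ (monoF 1 (by norm_num) le_rfl)
  have q5 := A3 _ (monoE (1/2) le_rfl (by norm_num))
  have q6 := A3 _ (monoF (1/2) le_rfl (by norm_num))
  unfold eqS
  refine (Finset.sum_le_sum fun i hi => step i hi).trans ?_
  simp only [Finset.sum_add_distrib, ← Finset.mul_sum]
  linarith

/-- **equal classes, `X` tiny** -/
theorem eq_tiny (hk : KOk C Cl Ch B K₁ δ s₁ s₂ a) {η : ℝ} (hη : 0 < η) :
    ∃ b₁ : ℕ, 16 ≤ b₁ ∧ ∀ b : ℕ, b₁ ≤ b → ∀ (n : ℕ) (tw : ℕ → ℝ) (x y : ℕ → ℝ)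
      (φ : ℕ → ℕ → ℝ) (X Y : ℝ),
      CE b C K₁ δ s₁ tw x y φ →
      ∑ i ∈ range n, x i ≤ X → ∑ j ∈ range n, y j ≤ Y →
      X ≤ 2 * ((Real.log b)^B / b) * (Real.log b)^Ch →
      (Real.log b)^(-Cl) ≤ Y → Y ≤ (Real.log b)^Ch → eqS n φ ≤ K₁ * X + η * Y := by
  have hs1 := hk.s1'
  have hs1g := hk.s1
  have hK0 := hk.K0
  obtain ⟨b₁, -, h1⟩ := pay_tiny (s := s₁) (C := C) (Cl := Cl) (κ := -δ) (by linarith) (by linarith)
    hk.Ch0 hk.Bn (by have := hk.del; linarith) 1 zero_le_one (η := η/3) (by positivity)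
  obtain ⟨b₂, -, h2⟩ := pay_tiny (s := 1) (C := C) (Cl := Cl) (κ := 0) zero_le_one le_rfl
    hk.Ch0 hk.Bn (by norm_num) 1 zero_le_one (η := η/3) (by positivity)
  obtain ⟨b₃, -, h3⟩ := pay_tiny (s := 1/2) (C := 0) (Cl := Cl) (κ := 0) (by norm_num) (by norm_num)
    hk.Ch0 hk.Bn (by norm_num) K₁ hK0 (η := η/3) (by positivity)
  refine ⟨max 16 (max b₁ (max b₂ b₃)), le_max_left _ _,
    fun b hb n tw x y φ X Y h hX hY hXt hYl hYh => ?_⟩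
  have hb16 : 16 ≤ b := (le_max_left _ _).trans hb
  have hb' := (le_max_right _ _).trans hb
  have hX0 : 0 ≤ X := le_trans (Finset.sum_nonneg fun i _ => h.x0 i) hX
  have k1 := h1 b ((le_max_left _ _).trans hb') X Y hX0 hXt hYl hYh
  have k2 := h2 b (((le_max_left _ _).trans (le_max_right _ _)).trans hb') X Y hX0 hXt hYl hYh
  have k3 := h3 b (((le_max_right _ _).trans (le_max_right _ _)).trans hb') X Y hX0 hXt hYl hYh
  have hb3 : 3 ≤ b := by omega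
  have hl1 := log_ge_one hb3
  set ℓ := Real.log b with hℓ
  have hl0 : 0 < ℓ := by linarith
  have hb0 : (0:ℝ) < b := by
    have : (0:ℕ) < b := by omega
    exact_mod_cast this
  have hY0 : 0 ≤ Y := le_trans (Finset.sum_nonneg fun i _ => h.y0 i) hY
  have hSx : 0 ≤ ∑ i ∈ range n, x i := Finset.sum_nonneg fun i _ => h.x0 i
  have hSy : 0 ≤ ∑ i ∈ range n, y i := Finset.sum_nonneg fun i _ => h.y0 i
  have mono : ∀ s : ℝ, 1/2 ≤ s → ∑ i ∈ range n, (x i * y i)^s ≤ (X * Y)^s := fun s hs =>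
    (main_eq (n := n) hs h.x0 h.y0).trans (Real.rpow_le_rpow (mul_nonneg hSx hSy)
      (mul_le_mul hX hY hSy hX0) (by linarith))
  have step : ∀ i ∈ range n, φ i i ≤ ℓ^C * (b:ℝ)^δ * (x i * y i)^s₁ + ℓ^C * (x i * y i)^(1:ℝ) +
      K₁ * (x i * y i)^(1/2:ℝ) + K₁ * x i := by
    intro i _
    have h3 := h.le i
    have h4 := h.tx i
    rw [Real.rpow_one]
    linarith
  rw [neg_neg, one_mul] at k1
  rw [neg_zero, Real.rpow_zero, one_mul, one_mul] at k2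
  rw [neg_zero, Real.rpow_zero, Real.rpow_zero, one_mul, one_mul] at k3
  have m1 := mono s₁ hs1g.le
  have m2 := mono 1 (by norm_num)
  have m3 := mono (1/2) le_rfl
  unfold eqS
  refine (Finset.sum_le_sum fun i hi => step i hi).trans ?_
  simp only [Finset.sum_add_distrib, ← Finset.mul_sum]
  have r1 : ℓ^C * (b:ℝ)^δ * ∑ i ∈ range n, (x i * y i)^s₁ ≤ η/3 * Y := by
    calc _ ≤ ℓ^C * (b:ℝ)^δ * (X*Y)^s₁ := by gcongr
      _ = ℓ^C * ((b:ℝ)^δ * (X*Y)^s₁) := by ring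
      _ ≤ _ := k1
  have r2 : ℓ^C * ∑ i ∈ range n, (x i * y i)^(1:ℝ) ≤ η/3 * Y :=
    (mul_le_mul_of_nonneg_left m2 (by positivity)).trans k2
  have r3 : K₁ * ∑ i ∈ range n, (x i * y i)^(1/2:ℝ) ≤ η/3 * Y :=
    (mul_le_mul_of_nonneg_left m3 hK0).trans k3
  have r4 : K₁ * ∑ i ∈ range n, x i ≤ K₁ * X := mul_le_mul_of_nonneg_left hX hK0
  linarith

/-- **no equal classes** -/
theorem eq_none {b n : ℕ} {C K₁ δ s₁ : ℝ} (hs : 0 < s₁) {tw x y : ℕ → ℝ} {φ : ℕ → ℕ → ℝ}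
    (h : CE b C K₁ δ s₁ tw x y φ) (hz : ∀ i, x i = 0 ∨ y i = 0) : eqS n φ ≤ 0 := by
  unfold eqS
  refine Finset.sum_nonpos fun i _ => ?_
  have h1 := h.le i
  have e : x i * y i = 0 := by
    rcases hz i with h | h
    · rw [h, zero_mul]
    · rw [h, mul_zero]
  have htw : tw i ≤ 0 := by
    rcases hz i with h' | h'
    · have := h.tx i; rwa [h', mul_zero] at this
    · have := h.ty i; rwa [h', mul_zero] at this
  rw [e, Real.zero_rpow hs.ne', Real.zero_rpow (by norm_num)] at h1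
  simp only [mul_zero, add_zero, zero_add] at h1
  linarith

/-- **equal classes, both sides alive**, any log loss: every class is exceptional for one of the sides -/
theorem eq_aliveW (hk : KOk C Cl Ch B K₁ δ s₁ s₂ a) {η : ℝ} (hη : 0 < η) :
    ∃ b₁ : ℕ, 16 ≤ b₁ ∧ ∀ b : ℕ, b₁ ≤ b → ∀ (n : ℕ) (x y : ℕ → ℝ)
      (φ : ℕ → ℕ → ℝ) (X Y : ℝ) (E F : ℕ → Prop) [DecidablePred E] [DecidablePred F],
      CW b C s₁ s₂ x y φ →
      ∑ i ∈ range n, x i ≤ X → ∑ j ∈ range n, y j ≤ Y →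
      (Real.log b)^(-Cl) ≤ X → (Real.log b)^(-Cl) ≤ Y →
      (∀ i, F i ∨ E i) →
      ∑ j ∈ range n, (if F j then x j else 0) ≤ 4 * ((Real.log b)^B / b) * X →
      ∑ j ∈ range n, (if E j then y j else 0) ≤ 4 * ((Real.log b)^B / b) * Y →
      eqS n φ ≤ η * (X * Y) := by
  have hs1 := hk.s1'
  have hs1g := hk.s1
  have hs2 := hk.s2'
  have hs2g := hk.s2
  obtain ⟨b₁, -, h1⟩ := pay_alive s₁ (C + B) Cl (by linarith) (κ := s₁ - 1/10) (η := η/40)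
    (by linarith) (by positivity)
  obtain ⟨b₂, -, h2⟩ := pay_alive s₂ (C + B) Cl (by linarith) (κ := s₂ - 1/10) (η := η/40)
    (by linarith) (by positivity)
  obtain ⟨b₃, -, h3⟩ := pay_alive (1/2) (C + B) Cl (by norm_num) (κ := 1/2 - 1/10) (η := η/40) (by norm_num)
    (by positivity)
  obtain ⟨b₄, -, h4⟩ := log_small (C + B + Cl) 4 (by positivity) (κ := 1) one_pos
    (η := η/10) (by positivity)
  obtain ⟨b₅, -, h5⟩ := pay_alive 1 (C + B) Cl le_rfl (κ := 1) (η := η/40) one_pos (by positivity)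
  refine ⟨max 16 (max (max b₁ b₂) (max (max b₃ b₅) b₄)), le_max_left _ _,
    fun b hb n x y φ X Y E F _ _ h hX hY hXl hYl hEF hFs hEs => ?_⟩
  have hb16 : 16 ≤ b := (le_max_left _ _).trans hb
  have hb' := (le_max_right _ _).trans hb
  have k1 := h1 b (((le_max_left _ _).trans (le_max_left _ _)).trans hb') X Y hXl hYl
  have k2 := h2 b (((le_max_right _ _).trans (le_max_left _ _)).trans hb') X Y hXl hYl
  have k3 := h3 b (((le_max_left _ _).trans ((le_max_left _ _).trans (le_max_right _ _))).trans hb') X Y hXl hYl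
  have k5 := h5 b (((le_max_right _ _).trans ((le_max_left _ _).trans (le_max_right _ _))).trans hb') X Y hXl hYl
  have k4 := h4 b (((le_max_right _ _).trans (le_max_right _ _)).trans hb')
  have hb3 : 3 ≤ b := by omega
  have hl1 := log_ge_one hb3
  set ℓ := Real.log b with hℓ
  have hl0 : 0 < ℓ := by linarith
  have hb0 : (0:ℝ) < b := by
    have : (0:ℕ) < b := by omega
    exact_mod_cast this
  have hX0 : 0 < X := lt_of_lt_of_le (Real.rpow_pos_of_pos hl0 _) hXl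
  have hY0 : 0 < Y := lt_of_lt_of_le (Real.rpow_pos_of_pos hl0 _) hYl
  have hSx : 0 ≤ ∑ i ∈ range n, x i := Finset.sum_nonneg fun i _ => h.x0 i
  have hSy : 0 ≤ ∑ i ∈ range n, y i := Finset.sum_nonneg fun i _ => h.y0 i
  set yE : ℕ → ℝ := fun j => if E j then y j else 0 with hyE
  set xF : ℕ → ℝ := fun j => if F j then x j else 0 with hxF
  have hyE0 : ∀ j, 0 ≤ yE j := fun j => by
    simp only [hyE]; split_ifs; exacts [h.y0 j, le_rfl]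
  have hxF0 : ∀ j, 0 ≤ xF j := fun j => by
    simp only [hxF]; split_ifs; exacts [h.x0 j, le_rfl]
  have hE0 : 0 ≤ ∑ j ∈ range n, yE j := Finset.sum_nonneg fun j _ => hyE0 j
  have hF0 : 0 ≤ ∑ j ∈ range n, xF j := Finset.sum_nonneg fun j _ => hxF0 j
  set β := (b:ℝ)^(1/10:ℝ) with hβ
  have hβ0 : 0 < β := by positivity
  have step : ∀ i ∈ range n, φ i i ≤
      (ℓ^C * β * (x i * yE i)^(1/2:ℝ) + ℓ^C * β * (x i * yE i)^s₁ + ℓ^C * β * (x i * yE i)^s₂ +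
        ℓ^C * (x i * yE i)^(1:ℝ) + ℓ^C * yE i) +
      (ℓ^C * β * (xF i * y i)^(1/2:ℝ) + ℓ^C * β * (xF i * y i)^s₁ + ℓ^C * β * (xF i * y i)^s₂ +
        ℓ^C * (xF i * y i)^(1:ℝ) + ℓ^C * xF i) := by
    intro i _
    have h3 := h.le i
    have z1 := h.x0 i
    have z2 := h.y0 i
    have z3 := hyE0 i
    have z4 := hxF0 i
    have hL : 0 < ℓ^C := by positivity
    rcases hEF i with he | he
    · have e : xF i = x i := by simp only [hxF]; rw [if_pos he]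
      have p1 : 0 ≤ ℓ^C * β * (x i * yE i)^(1/2:ℝ) + ℓ^C * β * (x i * yE i)^s₁ +
        ℓ^C * β * (x i * yE i)^s₂ + ℓ^C * (x i * yE i)^(1:ℝ) + ℓ^C * yE i := by positivity
      refine le_trans ?_ (le_add_of_nonneg_left p1)
      rw [e, Real.rpow_one]
      have h6 : ℓ^C * min (x i) (y i) ≤ ℓ^C * x i := mul_le_mul_of_nonneg_left (min_le_left _ _) hL.le
      linarith
    · have e : yE i = y i := by simp only [hyE]; rw [if_pos he]
      have p1 : 0 ≤ ℓ^C * β * (xF i * y i)^(1/2:ℝ) + ℓ^C * β * (xF i * y i)^s₁ +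
        ℓ^C * β * (xF i * y i)^s₂ + ℓ^C * (xF i * y i)^(1:ℝ) + ℓ^C * xF i := by positivity
      refine le_trans ?_ (le_add_of_nonneg_right p1)
      rw [e, Real.rpow_one]
      have h6 : ℓ^C * min (x i) (y i) ≤ ℓ^C * y i := mul_le_mul_of_nonneg_left (min_le_right _ _) hL.le
      linarith
  -- powers
  have monoE : ∀ s : ℝ, 1/2 ≤ s → s ≤ 1 → ∑ i ∈ range n, (x i * yE i)^s ≤
      4 * ℓ^B * ((b:ℝ)^(-s) * (X*Y)^s) := fun s hs hs' =>
    ((main_eq (n := n) hs h.x0 hyE0).trans (Real.rpow_le_rpow (mul_nonneg hSx hE0)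
      (mul_le_mul hX hEs hE0 hX0.le) (by linarith))).trans
      (tail_le (by linarith) hs' hk.Bn hb3 hX0.le hY0.le)
  have monoF : ∀ s : ℝ, 1/2 ≤ s → s ≤ 1 → ∑ i ∈ range n, (xF i * y i)^s ≤
      4 * ℓ^B * ((b:ℝ)^(-s) * (X*Y)^s) := fun s hs hs' => by
    have h6 := (main_eq (n := n) hs hxF0 h.y0).trans (Real.rpow_le_rpow (mul_nonneg hF0 hSy)
      (mul_le_mul hFs hY hSy (by positivity)) (by linarith : (0:ℝ) ≤ s))
    have h7 := tail_le (s := s) (B := B) (by linarith) hs' hk.Bn hb3 hY0.le hX0.le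
    have e : 4 * (ℓ^B / b) * X * Y = Y * (4 * (ℓ^B / b) * X) := by ring
    rw [e] at h6
    rw [mul_comm X Y]
    exact h6.trans h7
  have A1 : ∀ (s S : ℝ), ℓ^(C+B) * ((b:ℝ)^(-(s - 1/10)) * (X*Y)^s) ≤ η/40 * (X*Y) →
      S ≤ 4 * ℓ^B * ((b:ℝ)^(-s) * (X*Y)^s) → ℓ^C * β * S ≤ η/10 * (X*Y) := by
    intro s S hk' hS
    have e1 : β * (b:ℝ)^(-s) = (b:ℝ)^(-(s-1/10)) := by
      rw [hβ, ← Real.rpow_add hb0]; congr 1; ring
    calc _ ≤ ℓ^C * β * (4 * ℓ^B * ((b:ℝ)^(-s) * (X*Y)^s)) := by gcongr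
      _ = 4 * ((ℓ^C * ℓ^B) * ((β * (b:ℝ)^(-s)) * (X*Y)^s)) := by ring
      _ = 4 * (ℓ^(C+B) * ((b:ℝ)^(-(s-1/10)) * (X*Y)^s)) := by rw [e1, Real.rpow_add hl0]
      _ ≤ 4 * (η/40 * (X*Y)) := mul_le_mul_of_nonneg_left hk' (by norm_num)
      _ = _ := by ring
  have A2 : ∀ S : ℝ, S ≤ 4 * ℓ^B * ((b:ℝ)^(-(1:ℝ)) * (X*Y)^(1:ℝ)) → ℓ^C * S ≤ η/10 * (X*Y) := by
    intro S hS
    calc _ ≤ ℓ^C * (4 * ℓ^B * ((b:ℝ)^(-(1:ℝ)) * (X*Y)^(1:ℝ))) := by gcongr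
      _ = 4 * ((ℓ^C * ℓ^B) * ((b:ℝ)^(-(1:ℝ)) * (X*Y)^(1:ℝ))) := by ring
      _ = 4 * (ℓ^(C+B) * ((b:ℝ)^(-(1:ℝ)) * (X*Y)^(1:ℝ))) := by rw [Real.rpow_add hl0]
      _ ≤ 4 * (η/40 * (X*Y)) := mul_le_mul_of_nonneg_left k5 (by norm_num)
      _ = _ := by ring
  have lo : ℓ^(-Cl) * ℓ^Cl = 1 := by rw [← Real.rpow_add hl0]; simp
  have hY' : 1 ≤ ℓ^Cl * Y := by
    calc (1:ℝ) = ℓ^(-Cl) * ℓ^Cl := lo.symm
      _ ≤ Y * ℓ^Cl := mul_le_mul_of_nonneg_right hYl (by positivity)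
      _ = _ := mul_comm _ _
  have hX' : 1 ≤ ℓ^Cl * X := by
    calc (1:ℝ) = ℓ^(-Cl) * ℓ^Cl := lo.symm
      _ ≤ X * ℓ^Cl := mul_le_mul_of_nonneg_right hXl (by positivity)
      _ = _ := mul_comm _ _
  have e3 : ℓ^(C+B+Cl) = ℓ^C * ℓ^B * ℓ^Cl := by rw [Real.rpow_add hl0, Real.rpow_add hl0]
  rw [Real.rpow_neg hb0.le, Real.rpow_one, e3] at k4
  have A4 : ℓ^C * ∑ i ∈ range n, yE i ≤ η/10 * (X*Y) := by
    calc _ ≤ ℓ^C * (4 * (ℓ^B / b) * Y) := by gcongr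
      _ = (4 * (ℓ^C * ℓ^B * (b:ℝ)⁻¹)) * (1 * Y) := by ring
      _ ≤ (4 * (ℓ^C * ℓ^B * (b:ℝ)⁻¹)) * ((ℓ^Cl * X) * Y) := by gcongr
      _ = (4 * (ℓ^C * ℓ^B * ℓ^Cl * (b:ℝ)⁻¹)) * (X * Y) := by ring
      _ ≤ η/10 * (X*Y) := mul_le_mul_of_nonneg_right k4 (mul_pos hX0 hY0).le
  have A5 : ℓ^C * ∑ i ∈ range n, xF i ≤ η/10 * (X*Y) := by
    calc _ ≤ ℓ^C * (4 * (ℓ^B / b) * X) := by gcongr
      _ = (4 * (ℓ^C * ℓ^B * (b:ℝ)⁻¹)) * (1 * X) := by ring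
      _ ≤ (4 * (ℓ^C * ℓ^B * (b:ℝ)⁻¹)) * ((ℓ^Cl * Y) * X) := by gcongr
      _ = (4 * (ℓ^C * ℓ^B * ℓ^Cl * (b:ℝ)⁻¹)) * (X * Y) := by ring
      _ ≤ η/10 * (X*Y) := mul_le_mul_of_nonneg_right k4 (mul_pos hX0 hY0).le
  have q1 := A1 s₁ _ k1 (monoE s₁ hs1g.le (by linarith))
  have q2 := A1 s₁ _ k1 (monoF s₁ hs1g.le (by linarith))
  have q3 := A1 s₂ _ k2 (monoE s₂ hs2g.le (by linarith))
  have q4 := A1 s₂ _ k2 (monoF s₂ hs2g.le (by linarith))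
  have q5 := A1 (1/2) _ k3 (monoE (1/2) le_rfl (by norm_num))
  have q6 := A1 (1/2) _ k3 (monoF (1/2) le_rfl (by norm_num))
  have q7 := A2 _ (monoE 1 (by norm_num) le_rfl)
  have q8 := A2 _ (monoF 1 (by norm_num) le_rfl)
  unfold eqS
  refine (Finset.sum_le_sum fun i hi => step i hi).trans ?_
  simp only [Finset.sum_add_distrib, ← Finset.mul_sum]
  linarith

/-- **equal classes, `X` tiny**, any log loss -/
theorem eq_tinyW (hk : KOk C Cl Ch B K₁ δ s₁ s₂ a) {η : ℝ} (hη : 0 < η) :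
    ∃ b₁ : ℕ, 16 ≤ b₁ ∧ ∀ b : ℕ, b₁ ≤ b → ∀ (n : ℕ) (x y : ℕ → ℝ)
      (φ : ℕ → ℕ → ℝ) (X Y : ℝ),
      CW b C s₁ s₂ x y φ →
      ∑ i ∈ range n, x i ≤ X → ∑ j ∈ range n, y j ≤ Y →
      X ≤ 2 * ((Real.log b)^B / b) * (Real.log b)^Ch →
      (Real.log b)^(-Cl) ≤ Y → Y ≤ (Real.log b)^Ch → eqS n φ ≤ η * Y := by
  have hs1 := hk.s1'
  have hs1g := hk.s1
  have hs2 := hk.s2'
  have hs2g := hk.s2
  obtain ⟨b₁, -, h1⟩ := pay_tiny (s := s₁) (C := C) (Cl := Cl) (κ := -(1/10)) (by linarith) (by linarith)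
    hk.Ch0 hk.Bn (by linarith) 1 zero_le_one (η := η/5) (by positivity)
  obtain ⟨b₂, -, h2⟩ := pay_tiny (s := 1) (C := C) (Cl := Cl) (κ := 0) zero_le_one le_rfl
    hk.Ch0 hk.Bn (by norm_num) 1 zero_le_one (η := η/5) (by positivity)
  obtain ⟨b₃, -, h3⟩ := pay_tiny (s := 1/2) (C := C) (Cl := Cl) (κ := -(1/10)) (by norm_num) (by norm_num)
    hk.Ch0 hk.Bn (by norm_num) 1 zero_le_one (η := η/5) (by positivity)
  obtain ⟨b₄, -, h4⟩ := pay_tiny (s := s₂) (C := C) (Cl := Cl) (κ := -(1/10)) (by linarith) (by linarith)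
    hk.Ch0 hk.Bn (by linarith) 1 zero_le_one (η := η/5) (by positivity)
  obtain ⟨b₅, -, h5⟩ := log_small (C + B + Ch + Cl) 2 (by positivity) (κ := 1) one_pos
    (η := η/5) (by positivity)
  refine ⟨max 16 (max (max b₁ b₂) (max (max b₃ b₅) b₄)), le_max_left _ _,
    fun b hb n x y φ X Y h hX hY hXt hYl hYh => ?_⟩
  have hb16 : 16 ≤ b := (le_max_left _ _).trans hb
  have hb' := (le_max_right _ _).trans hb
  have hX0 : 0 ≤ X := le_trans (Finset.sum_nonneg fun i _ => h.x0 i) hX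
  have k1 := h1 b (((le_max_left _ _).trans (le_max_left _ _)).trans hb') X Y hX0 hXt hYl hYh
  have k2 := h2 b (((le_max_right _ _).trans (le_max_left _ _)).trans hb') X Y hX0 hXt hYl hYh
  have k3 := h3 b (((le_max_left _ _).trans ((le_max_left _ _).trans (le_max_right _ _))).trans hb') X Y
    hX0 hXt hYl hYh
  have k5 := h5 b (((le_max_right _ _).trans ((le_max_left _ _).trans (le_max_right _ _))).trans hb')
  have k4 := h4 b (((le_max_right _ _).trans (le_max_right _ _)).trans hb') X Y hX0 hXt hYl hYh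
  have hb3 : 3 ≤ b := by omega
  have hl1 := log_ge_one hb3
  set ℓ := Real.log b with hℓ
  have hl0 : 0 < ℓ := by linarith
  have hb0 : (0:ℝ) < b := by
    have : (0:ℕ) < b := by omega
    exact_mod_cast this
  have hY0 : 0 ≤ Y := le_trans (Finset.sum_nonneg fun i _ => h.y0 i) hY
  have hSx : 0 ≤ ∑ i ∈ range n, x i := Finset.sum_nonneg fun i _ => h.x0 i
  have hSy : 0 ≤ ∑ i ∈ range n, y i := Finset.sum_nonneg fun i _ => h.y0 i
  have mono : ∀ s : ℝ, 1/2 ≤ s → ∑ i ∈ range n, (x i * y i)^s ≤ (X * Y)^s := fun s hs =>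
    (main_eq (n := n) hs h.x0 h.y0).trans (Real.rpow_le_rpow (mul_nonneg hSx hSy)
      (mul_le_mul hX hY hSy hX0) (by linarith))
  set β := (b:ℝ)^(1/10:ℝ) with hβ
  have hβ0 : 0 < β := by positivity
  have hL : 0 < ℓ^C := by positivity
  have step : ∀ i ∈ range n, φ i i ≤ ℓ^C * β * (x i * y i)^(1/2:ℝ) + ℓ^C * β * (x i * y i)^s₁ +
      ℓ^C * β * (x i * y i)^s₂ + ℓ^C * (x i * y i)^(1:ℝ) + ℓ^C * x i := by
    intro i _
    have h3 := h.le i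
    have h6 : ℓ^C * min (x i) (y i) ≤ ℓ^C * x i := mul_le_mul_of_nonneg_left (min_le_left _ _) hL.le
    rw [Real.rpow_one]
    linarith
  have eβ : (b:ℝ)^(-(-(1/10)):ℝ) = β := by rw [neg_neg]
  rw [eβ, one_mul] at k1 k3 k4
  rw [neg_zero, Real.rpow_zero, one_mul, one_mul] at k2
  have m1 := mono s₁ hs1g.le
  have m2 := mono 1 (by norm_num)
  have m3 := mono (1/2) le_rfl
  have m4 := mono s₂ hs2g.le
  unfold eqS
  refine (Finset.sum_le_sum fun i hi => step i hi).trans ?_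
  simp only [Finset.sum_add_distrib, ← Finset.mul_sum]
  have R : ∀ (s S : ℝ), S ≤ (X*Y)^s → ℓ^C * (β * (X*Y)^s) ≤ η/5 * Y → ℓ^C * β * S ≤ η/5 * Y := by
    intro s S hS hk'
    calc _ ≤ ℓ^C * β * (X*Y)^s := by gcongr
      _ = ℓ^C * (β * (X*Y)^s) := by ring
      _ ≤ _ := hk'
  have r1 := R s₁ _ m1 k1
  have r3 := R (1/2) _ m3 k3
  have r4 := R s₂ _ m4 k4
  have r2 : ℓ^C * ∑ i ∈ range n, (x i * y i)^(1:ℝ) ≤ η/5 * Y :=
    (mul_le_mul_of_nonneg_left m2 (by positivity)).trans k2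
  have lo : ℓ^(-Cl) * ℓ^Cl = 1 := by rw [← Real.rpow_add hl0]; simp
  have hY' : 1 ≤ ℓ^Cl * Y := by
    calc (1:ℝ) = ℓ^(-Cl) * ℓ^Cl := lo.symm
      _ ≤ Y * ℓ^Cl := mul_le_mul_of_nonneg_right hYl (by positivity)
      _ = _ := mul_comm _ _
  have e3 : ℓ^(C+B+Ch+Cl) = ℓ^C * ℓ^B * ℓ^Ch * ℓ^Cl := by
    rw [Real.rpow_add hl0, Real.rpow_add hl0, Real.rpow_add hl0]
  rw [Real.rpow_neg hb0.le, Real.rpow_one, e3] at k5
  have r5 : ℓ^C * ∑ i ∈ range n, x i ≤ η/5 * Y := by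
    calc _ ≤ ℓ^C * (2 * (ℓ^B / b) * ℓ^Ch) := by
          have := hX.trans hXt
          gcongr
      _ = (2 * (ℓ^C * ℓ^B * ℓ^Ch * (b:ℝ)⁻¹)) * 1 := by ring
      _ ≤ (2 * (ℓ^C * ℓ^B * ℓ^Ch * (b:ℝ)⁻¹)) * (ℓ^Cl * Y) := by gcongr
      _ = (2 * (ℓ^C * ℓ^B * ℓ^Ch * ℓ^Cl * (b:ℝ)⁻¹)) * Y := by ring
      _ ≤ η/5 * Y := mul_le_mul_of_nonneg_right k5 hY0
  linarith

/-- **no equal classes** (weak form) -/
theorem eq_noneW {b n : ℕ} {C s₁ s₂ : ℝ} (hs : 0 < s₁) (hs' : 0 < s₂) {x y : ℕ → ℝ} {φ : ℕ → ℕ → ℝ}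
    (h : CW b C s₁ s₂ x y φ) (hz : ∀ i, x i = 0 ∨ y i = 0) : eqS n φ ≤ 0 := by
  unfold eqS
  refine Finset.sum_nonpos fun i _ => ?_
  have h1 := h.le i
  have e : x i * y i = 0 := by
    rcases hz i with h | h
    · rw [h, zero_mul]
    · rw [h, mul_zero]
  have hm : min (x i) (y i) = 0 := by
    rcases hz i with h' | h'
    · rw [h', min_eq_left (h.y0 i)]
    · rw [h', min_eq_right (h.x0 i)]
  rw [e, hm, Real.zero_rpow hs.ne', Real.zero_rpow hs'.ne', Real.zero_rpow (by norm_num)] at h1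
  simp only [mul_zero, add_zero] at h1
  linarith

end

end Crest.Agent.R4P.KindPay36
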