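import Mathlib
import Crest.Agent.R4P.ExitSum_32
import Crest.Agent.R4P.KindPay_36

/-!
R4 powers pass (S0004), helper32, group [X]: **the class numbers of the potentials at a crossing prime**.

* `FB` : what the summand must satisfy (bounds, relation, outcome of the link);
* `box1` : `box_cls` for `FB`; `exits` : the sum over the missing ties (letters `b l`, `b' l`, `a₀ = l`);
* `cls_total` : one pair of classes, `∑ (FA + ∑_l FX l)`;
* `CO_of` : the structure `KindPay36.CO`.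
-/

set_option autoImplicit false
open Finset

namespace Crest.Agent.R4P.PotSum32

open Crest.Agent.R4.HVW560 Crest.Agent.R4.Schur709 Crest.Agent.R4.StopHvw709
open Crest.Agent.R4.StopAsm709 Crest.Agent.R4.AvgItem710 Crest.Agent.R4.DeepSt579
open Crest.Agent.R4P.Rad800 Crest.Agent.R4P.StripP33 Crest.Agent.R4P.BrP33 Crest.Agent.R4P.ShotP33
open Crest.Agent.R4P.ClsSum Crest.Agent.R4P.ShotTot33 Crest.Agent.R4P.LLTot33
open Crest.Agent.R4.NMW710 (Dq)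
open Crest.Agent.R4.ClsS (eps1)
open Crest.Agent.R4.OSCore709 Crest.Agent.R4.CrossShot709 Crest.Agent.R4.Bad223 Crest.Agent.R4.ShotG223
open Crest.Agent.R4P.NumCls32 Crest.Agent.R4P.ExitSum32

/-- **what the summand must satisfy** for one pair of classes -/
structure FB (C0 CT cl : ℝ) (s M b pr c M' b' pr' c' a a' a₀ : ℕ) (γ θ : ℝ) (ρ : ℕ → ℝ) (V W : Finset ℕ)
    (F : ℕ × ℕ → ℝ) : Prop where
  f1 : ∀ e ∈ V ×ˢ W, Dq ρ M b pr c M' b' pr' c' e ≤ 1 →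
      F e ≤ (Real.log s)^C0 * (rd b c ρ e.1 * rd b' c' ρ e.2 / Dq ρ M b pr c M' b' pr' c' e)
  f2 : ∀ e ∈ V ×ˢ W, 1 < Dq ρ M b pr c M' b' pr' c' e →
      F e ≤ (Real.log s)^C0 * (rd b c ρ e.1 * rd b' c' ρ e.2 / Dq ρ M b pr c M' b' pr' c' e) ∨
        (LoD ((Real.log s)^CT) (Dq ρ M b pr c M' b' pr' c') (xR M pr M' pr') (yR M pr M' pr') e ∧
          F e ≤ (Real.log s)^C0 * (rd b c ρ e.1 * rd b' c' ρ e.2))
  rel : ∀ e ∈ V ×ˢ W, Dq ρ M b pr c M' b' pr' c' e ≤ 1/2^(lev cl s) → 0 < F e →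
      RelI γ ρ M b pr c M' b' pr' c' e
  fg : ∀ e ∈ V ×ˢ W, Dq ρ M b pr c M' b' pr' c' e ≤ 1/2^(lev cl s) → 0 < F e →
      FSs s γ ρ (lev cl s) M b pr c M' b' pr' c' a a' e →
      FLow s (dex a (M.factorization s) a' (M'.factorization s)) a₀ (rf (itm s pr e.1) (st s M))
        (rf (itm s pr' e.2) (st s M')) θ (Dq ρ M b pr c M' b' pr' c' e)

lemma FB.mono {C0 CT cl : ℝ} {s M b pr c M' b' pr' c' a a' a₀ : ℕ} {γ θ : ℝ} {ρ : ℕ → ℝ}
    {V W V₁ W₁ : Finset ℕ} {F : ℕ × ℕ → ℝ} (h : FB C0 CT cl s M b pr c M' b' pr' c' a a' a₀ γ θ ρ V W F)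
    (h1 : V₁ ⊆ V) (h2 : W₁ ⊆ W) : FB C0 CT cl s M b pr c M' b' pr' c' a a' a₀ γ θ ρ V₁ W₁ F where
  f1 := fun e he => h.f1 e (Finset.product_subset_product h1 h2 he)
  f2 := fun e he => h.f2 e (Finset.product_subset_product h1 h2 he)
  rel := fun e he => h.rel e (Finset.product_subset_product h1 h2 he)
  fg := fun e he => h.fg e (Finset.product_subset_product h1 h2 he)

lemma mass_raise {b c l : ℕ} (ρ : ℕ → ℝ) (pr : ℕ) (U : Finset ℕ) :
    ∑ q ∈ U, rd (b * l) c ρ q * tq (q / pr) = l * ∑ q ∈ U, rd b c ρ q * tq (q / pr) := by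
  rw [Finset.mul_sum]
  refine Finset.sum_congr rfl fun q _ => ?_
  unfold rd; push_cast; ring

/-- the three powers -/
noncomputable def Z3 (s : ℕ) (z : ℝ) : ℝ :=
  (s:ℝ)^(-(1/2-eps1)) * z^(1/2+eps1) + (s:ℝ)^(-(1/2):ℝ) * z^(1/2:ℝ)

noncomputable def Z2 (s : ℕ) (z : ℝ) : ℝ := (s:ℝ)^(-(1/2-eps2)) * z^(1/2+eps2)

/-- the factor of the `[F]` pairs -/
noncomputable def wf (A : ℝ) (s m m' a a' a₀ : ℕ) (θ : ℝ) : ℝ :=
  (Real.log s)^(A*(6/1000)) * (if dex a m a' m' = 1 then (a₀:ℝ)^(6/1000:ℝ) else 1) +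
    (if dex a m a' m' = 1 then acc A s θ else 0)

lemma wf_nonneg (A : ℝ) (s m m' a a' a₀ : ℕ) (θ : ℝ) : 0 ≤ wf A s m m' a a' a₀ θ := by
  unfold wf
  have := acc_nonneg A s θ
  have h2 : 0 ≤ Real.log s := Real.log_natCast_nonneg s
  split_ifs <;> positivity

/-- `box_cls` without escape -/
def Box (C0 CT cl : ℝ) (CL : ℝ) (s₁ : ℕ) (K : ℝ) : Prop :=
  ∀ (s M b pr c M' b' pr' c' a a' a₀ : ℕ) (γ θ : ℝ) (ρ : ℕ → ℝ) (V W : Finset ℕ) (F : ℕ × ℕ → ℝ) (A : ℝ),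
    s₁ ≤ s → 1 ≤ a₀ → a₀ ≤ s → 0 ≤ A → BX CL s M b pr c M' b' pr' c' a a' ρ V W →
    a + M'.factorization s ≠ a' + M.factorization s →
    FB C0 CT cl s M b pr c M' b' pr' c' a a' a₀ γ θ ρ V W F →
    ∑ e ∈ V ×ˢ W, F e ≤ dcy s (M.factorization s) (M'.factorization s) a a' *
      ((Real.log s)^K * Z3 s ((∑ q ∈ V, rd b c ρ q * tq (q / pr)) * (∑ q ∈ W, rd b' c' ρ q * tq (q / pr'))) +
        (Real.log s)^K * wf A s (M.factorization s) (M'.factorization s) a a' a₀ θ *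
          Z2 s ((∑ q ∈ V, rd b c ρ q * tq (q / pr)) * (∑ q ∈ W, rd b' c' ρ q * tq (q / pr'))))

open Classical in
/-- the conclusion of `box1` at the level exponent `cl` -/
def PBox1 (CL C0 CT cl : ℝ) : Prop :=
    ∃ s₁ : ℕ, 3 ≤ s₁ ∧
    (∀ s : ℕ, s₁ ≤ s → 400 ≤ lev cl s ∧ (Real.log s)^cl ≤ (2:ℝ)^(lev cl s) ∧
      (2:ℝ)^(lev cl s) ≤ (Real.log s)^(cl+1) ∧ 2 ≤ Real.log s) ∧ Box C0 CT cl CL s₁ (C0 + CT + 8 + cl/500)

theorem box1' {CL C0 CT : ℝ} (hCL : 1 ≤ CL) (hC0 : 0 ≤ C0) (hCT : 0 < CT) {cl : ℝ}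
    (hcl : Crest.Agent.R4P.LowT33.clT ≤ cl) : PBox1 CL C0 CT cl := by
  obtain ⟨s₁, h1, h2, h3⟩ := box_cls' hCL hC0 hCT hcl
  refine ⟨s₁, h1, h2, ?_⟩
  intro s M b pr c M' b' pr' c' a a' a₀ γ θ ρ V W F A hs ha ha' hA hB hne hF
  have := h3 s M b pr c M' b' pr' c' a a' a₀ γ ρ V W F (fun _ => False) A θ hs ha ha' hA hB hne hF.f1 hF.f2
    hF.rel (fun e he h4 h5 h6 => Or.inl (hF.fg e he h4 h5 h6))
  refine this.trans ?_
  refine (add_le_add le_rfl (le_of_eq (b := 0) ?_)).trans (le_of_eq (add_zero _))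
  refine Finset.sum_eq_zero fun e he => ?_
  simp at he


theorem box1 {CL C0 CT : ℝ} (hCL : 1 ≤ CL) (hC0 : 0 ≤ C0) (hCT : 0 < CT) : ∃ cl₀ : ℝ, 0 < cl₀ ∧ ∀ cl : ℝ, cl₀ ≤ cl →
    PBox1 CL C0 CT cl :=
  ⟨Crest.Agent.R4P.LowT33.clT, Crest.Agent.R4P.LowT33.clT_pos, fun _ h => box1' hCL hC0 hCT h⟩

/-! ### exits -/

lemma rp_scale {l : ℕ} (hl : 1 ≤ l) {z σ : ℝ} (hz : 0 ≤ z) :
    ((l:ℝ)^2)⁻¹ * ((l:ℝ) * (l:ℝ) * z)^σ = (l:ℝ)^(-(2-2*σ)) * z^σ := by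
  have hl0 : (0:ℝ) < l := by exact_mod_cast hl
  rw [Real.mul_rpow (by positivity) hz, ← mul_assoc]
  congr 1
  have e1 : ((l:ℝ)^2)⁻¹ = (l:ℝ)^(-(2:ℝ)) := by
    rw [Real.rpow_neg hl0.le]; congr 1; rw [← Real.rpow_natCast]; norm_num
  have e2 : ((l:ℝ) * (l:ℝ))^σ = (l:ℝ)^(2*σ) := by
    rw [← sq, ← Real.rpow_natCast, ← Real.rpow_mul hl0.le]; norm_num
  rw [e1, e2, ← Real.rpow_add hl0]
  congr 1; ring

lemma inv_sum {s : ℕ} {T : Finset ℕ} (hT : ∀ l ∈ T, l.Prime ∧ l ≤ s) :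
    ∑ l ∈ T, 1 / (l:ℝ) ≤ 1 + Real.log s := by
  have h1 : T ⊆ Finset.Icc 1 s := fun l hl => Finset.mem_Icc.2 ⟨(hT l hl).1.one_le, (hT l hl).2⟩
  have h2 : ∑ l ∈ Finset.Icc 1 s, 1 / (l:ℝ) ≤ 1 + Real.log s := by
    have h3 := harmonic_le_one_add_log s
    rw [harmonic_eq_sum_Icc] at h3
    push_cast at h3
    refine le_trans (le_of_eq (Finset.sum_congr rfl fun l _ => ?_)) h3
    rw [one_div]
  exact (Finset.sum_le_sum_of_subset_of_nonneg h1 fun l _ _ => by positivity).trans h2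

/-- the Hölder sum without accidents: the factor is at most `l^(6/1000)` -/
lemma holder_one {s : ℕ} {T : Finset ℕ} (hT : ∀ l ∈ T, l.Prime ∧ l ≤ s) {x a : ℕ → ℝ} {X y σ : ℝ}
    (hσ : 1/2 ≤ σ) (hσ' : σ ≤ 501/1000) (hx : ∀ l ∈ T, 0 ≤ x l) (ha : ∀ l ∈ T, 0 ≤ a l)
    (ha' : ∀ l ∈ T, a l ≤ (l:ℝ)^(6/1000:ℝ)) (hy : 0 ≤ y)
    (hX : ∑ l ∈ T, (l:ℝ)^(-(11/12):ℝ) * x l ≤ X) :
    ∑ l ∈ T, (l:ℝ)^(-(2-2*σ)) * (a l * (x l * y)^σ) ≤ (1 + Real.log s) * (X * y)^σ := by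
  have hσ1 : 0 < 1 - σ := by linarith
  have key := holder_l hσ hσ' (fun l hl => (hT l hl).1.one_le) hx ha hy hX
  refine key.trans ?_
  have hlog : 0 ≤ Real.log s := Real.log_natCast_nonneg s
  have h1 : ∑ l ∈ T, (l:ℝ)^(-(21/20):ℝ) * (a l)^(1/(1-σ)) ≤ 1 + Real.log s := by
    refine le_trans (Finset.sum_le_sum fun l hl => ?_) (inv_sum hT)
    have hl1 : (1:ℝ) ≤ l := by exact_mod_cast (hT l hl).1.one_le
    have hl0 : (0:ℝ) < l := by linarith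
    have h2 : (a l)^(1/(1-σ)) ≤ ((l:ℝ)^(6/1000:ℝ))^(1/(1-σ)) :=
      Real.rpow_le_rpow (ha l hl) (ha' l hl) (by positivity)
    rw [← Real.rpow_mul hl0.le] at h2
    calc (l:ℝ)^(-(21/20):ℝ) * (a l)^(1/(1-σ)) ≤ (l:ℝ)^(-(21/20):ℝ) * (l:ℝ)^((6/1000) * (1/(1-σ))) :=
          mul_le_mul_of_nonneg_left h2 (by positivity)
      _ = (l:ℝ)^(-(21/20) + (6/1000) * (1/(1-σ))) := by rw [← Real.rpow_add hl0]
      _ ≤ (l:ℝ)^(-1:ℝ) := by
          refine Real.rpow_le_rpow_of_exponent_le hl1 ?_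
          have : 1/(1-σ) ≤ 3 := by rw [div_le_iff₀ hσ1]; linarith
          nlinarith
      _ = 1 / (l:ℝ) := by rw [Real.rpow_neg_one, one_div]
  have S0 : 0 ≤ ∑ l ∈ T, (l:ℝ)^(-(21/20):ℝ) * (a l)^(1/(1-σ)) :=
    Finset.sum_nonneg fun l hl => mul_nonneg (Real.rpow_nonneg (Nat.cast_nonneg _) _) (Real.rpow_nonneg (ha l hl) _)
  have hXy : 0 ≤ (X * y)^σ := by
    apply Real.rpow_nonneg
    refine mul_nonneg (le_trans ?_ hX) hy
    exact Finset.sum_nonneg fun l hl => mul_nonneg (Real.rpow_nonneg (Nat.cast_nonneg _) _) (hx l hl)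
  have h3 : (∑ l ∈ T, (l:ℝ)^(-(21/20):ℝ) * (a l)^(1/(1-σ)))^(1-σ) ≤ 1 + Real.log s := by
    calc _ ≤ (1 + Real.log s)^(1-σ) := Real.rpow_le_rpow S0 h1 hσ1.le
      _ ≤ (1 + Real.log s)^(1:ℝ) := Real.rpow_le_rpow_of_exponent_le (by linarith) (by linarith)
      _ = _ := Real.rpow_one _
  rw [mul_comm]
  exact mul_le_mul_of_nonneg_right h3 hXy

/-- the Hölder sum of the accidents -/
lemma holder_acc {s : ℕ} (hs : 2 ≤ s) (hsl : (200 * Real.log s)^(3:ℝ) ≤ (s:ℝ)^(1:ℝ)) {A θ : ℝ}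
    {T : Finset ℕ} (hT : ∀ l ∈ T, l.Prime ∧ l ≤ s) {x : ℕ → ℝ} {X y : ℝ}
    (hx : ∀ l ∈ T, 0 ≤ x l) (hy : 0 ≤ y)
    (hX : ∑ l ∈ T, (l:ℝ)^(-(11/12):ℝ) * x l ≤ X) :
    ∑ l ∈ T, (l:ℝ)^(-(2-2*(1/2+eps2))) * (acc A s ((l:ℝ) * θ) * (x l * y)^(1/2+eps2)) ≤
      ((Exa A s θ)^(1-(1/2+eps2)) + 1) * (X * y)^(1/2+eps2) := by
  classical
  have he : eps2 = 1/4000 := rfl
  set σ : ℝ := 1/2 + eps2 with hσ
  have hσ1 : 0 < 1 - σ := by rw [hσ, he]; norm_num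
  have key := holder_l (σ := σ) (by rw [hσ, he]; norm_num) (by rw [hσ, he]; norm_num)
    (fun l hl => (hT l hl).1.one_le) hx (fun l _ => acc_nonneg A s ((l:ℝ) * θ)) hy hX
  refine key.trans ?_
  have h1 : ∑ l ∈ T, (l:ℝ)^(-(21/20):ℝ) * (acc A s ((l:ℝ) * θ))^(1/(1-σ)) ≤ Exa A s θ + 1 := by
    have h2 : T ⊆ insert s ((Finset.range s).filter Nat.Prime) := by
      intro l hl
      obtain ⟨k1, k2⟩ := hT l hl
      rcases k2.lt_or_eq with h | h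
      · exact Finset.mem_insert_of_mem (Finset.mem_filter.2 ⟨Finset.mem_range.2 h, k1⟩)
      · rw [h]; exact Finset.mem_insert_self _ _
    refine (Finset.sum_le_sum_of_subset_of_nonneg h2 fun l _ _ =>
      mul_nonneg (Real.rpow_nonneg (Nat.cast_nonneg _) _) (Real.rpow_nonneg (acc_nonneg _ _ _) _)).trans ?_
    rw [Finset.sum_insert (by rw [Finset.mem_filter, Finset.mem_range]; exact fun h => absurd h.1 (lt_irrefl _)),
      add_comm]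
    exact add_le_add le_rfl (acc_self hs hsl)
  have S0 : 0 ≤ ∑ l ∈ T, (l:ℝ)^(-(21/20):ℝ) * (acc A s ((l:ℝ) * θ))^(1/(1-σ)) :=
    Finset.sum_nonneg fun l _ => mul_nonneg (Real.rpow_nonneg (Nat.cast_nonneg _) _) (Real.rpow_nonneg (acc_nonneg _ _ _) _)
  have hE := Exa_nonneg A s θ
  have hXy : 0 ≤ (X * y)^σ := by
    apply Real.rpow_nonneg
    refine mul_nonneg (le_trans ?_ hX) hy
    exact Finset.sum_nonneg fun l hl => mul_nonneg (Real.rpow_nonneg (Nat.cast_nonneg _) _) (hx l hl)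
  have h3 : (∑ l ∈ T, (l:ℝ)^(-(21/20):ℝ) * (acc A s ((l:ℝ) * θ))^(1/(1-σ)))^(1-σ) ≤ (Exa A s θ)^(1-σ) + 1 := by
    calc _ ≤ (Exa A s θ + 1)^(1-σ) := Real.rpow_le_rpow S0 h1 hσ1.le
      _ ≤ (Exa A s θ)^(1-σ) + 1^(1-σ) :=
          Real.rpow_add_le_add_rpow hE zero_le_one hσ1.le (by rw [hσ, he]; norm_num)
      _ = _ := by rw [Real.one_rpow]
  rw [mul_comm]
  exact mul_le_mul_of_nonneg_right h3 hXy

lemma Z3_nonneg (s : ℕ) {z : ℝ} (hz : 0 ≤ z) : 0 ≤ Z3 s z := by unfold Z3; positivity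

lemma Z2_nonneg (s : ℕ) {z : ℝ} (hz : 0 ≤ z) : 0 ≤ Z2 s z := by unfold Z2; positivity

lemma Z3_mono (s : ℕ) {z w : ℝ} (hz : 0 ≤ z) (h : z ≤ w) : Z3 s z ≤ Z3 s w := by
  have he1 : eps1 = 1/1000 := rfl
  unfold Z3
  have h1 : z^(1/2+eps1) ≤ w^(1/2+eps1) := Real.rpow_le_rpow hz h (by rw [he1]; norm_num)
  have h2 : z^(1/2:ℝ) ≤ w^(1/2:ℝ) := Real.rpow_le_rpow hz h (by norm_num)
  gcongr

lemma Z2_mono (s : ℕ) {z w : ℝ} (hz : 0 ≤ z) (h : z ≤ w) : Z2 s z ≤ Z2 s w := by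
  have he2 : eps2 = 1/4000 := rfl
  unfold Z2
  have h1 : z^(1/2+eps2) ≤ w^(1/2+eps2) := Real.rpow_le_rpow hz h (by rw [he2]; norm_num)
  gcongr

/-- `Z3` at the letters of an exit -/
noncomputable def Y3 (s l : ℕ) (z : ℝ) : ℝ :=
  (s:ℝ)^(-(1/2-eps1)) * ((l:ℝ)^(-(2-2*(1/2+eps1))) * (1 * z^(1/2+eps1))) +
    (s:ℝ)^(-(1/2):ℝ) * ((l:ℝ)^(-(2-2*(1/2:ℝ))) * (1 * z^(1/2:ℝ)))

noncomputable def Y2 (s l : ℕ) (z : ℝ) : ℝ :=
  (s:ℝ)^(-(1/2-eps2)) * ((l:ℝ)^(-(2-2*(1/2+eps2))) * z^(1/2+eps2))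

lemma Z3_raise (s : ℕ) {l : ℕ} (hl : 1 ≤ l) {z : ℝ} (hz : 0 ≤ z) :
    ((l:ℝ)^2)⁻¹ * Z3 s ((l:ℝ) * l * z) = Y3 s l z := by
  unfold Z3 Y3
  rw [one_mul, one_mul, ← rp_scale hl hz, ← rp_scale hl hz]
  ring

lemma Z2_raise (s : ℕ) {l : ℕ} (hl : 1 ≤ l) {z : ℝ} (hz : 0 ≤ z) :
    ((l:ℝ)^2)⁻¹ * Z2 s ((l:ℝ) * l * z) = Y2 s l z := by
  unfold Z2 Y2
  rw [← rp_scale hl hz]
  ring

section ex
variable {C0 CT cl CL K : ℝ} {s₁ : ℕ} {s M b pr c M' b' pr' c' a a' : ℕ} {γ θ : ℝ} {ρ : ℕ → ℝ}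
  {V W : Finset ℕ} {A : ℝ}

/-- one rectangle at the letters of an exit -/
lemma exit_rect (hbox : Box C0 CT cl CL s₁ K) (hs₁ : s₁ ≤ s) (hA : 0 ≤ A)
    (hB : BX CL s M b pr c M' b' pr' c' a a' ρ V W)
    (hne : a + M'.factorization s ≠ a' + M.factorization s) {l : ℕ} (hl : 1 ≤ l) (hls : l ≤ s)
    {G : ℕ × ℕ → ℝ}
    (hF : FB C0 CT cl s M (b*l) pr c M' (b'*l) pr' c' a a' l γ ((l:ℝ) * θ) ρ V W (fun e => (l:ℝ)^2 * G e))
    {z : ℝ} (hz : (∑ q ∈ V, rd b c ρ q * tq (q / pr)) * (∑ q ∈ W, rd b' c' ρ q * tq (q / pr')) ≤ z) :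
    ∑ e ∈ V ×ˢ W, G e ≤ dcy s (M.factorization s) (M'.factorization s) a a' *
      ((Real.log s)^K * Y3 s l z +
        (Real.log s)^K * wf A s (M.factorization s) (M'.factorization s) a a' l ((l:ℝ) * θ) * Y2 s l z) := by
  have hl0 : (0:ℝ) < l := by exact_mod_cast hl
  have hx := hB.x0 V
  have hy := hB.y0 W
  have hxy := mul_nonneg hx hy
  have hz0 := hxy.trans hz
  have hb := hbox s M (b*l) pr c M' (b'*l) pr' c' a a' l γ ((l:ℝ) * θ) ρ V W _ A hs₁ hl hls hA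
    (hB.raise hl) hne hF
  rw [mass_raise, mass_raise] at hb
  set x := ∑ q ∈ V, rd b c ρ q * tq (q / pr) with hxd
  set y := ∑ q ∈ W, rd b' c' ρ q * tq (q / pr') with hyd
  have e1 : (l:ℝ) * x * (l * y) = (l:ℝ) * l * (x * y) := by ring
  rw [e1] at hb
  have hg : 0 ≤ dcy s (M.factorization s) (M'.factorization s) a a' := by unfold dcy; positivity
  have hw := wf_nonneg A s (M.factorization s) (M'.factorization s) a a' l ((l:ℝ) * θ)
  have hlog : 0 ≤ Real.log s := Real.log_natCast_nonneg s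
  have hmono : (l:ℝ) * l * (x * y) ≤ (l:ℝ) * l * z := mul_le_mul_of_nonneg_left hz (by positivity)
  have h3 := Z3_mono s (by positivity) hmono
  have h2 := Z2_mono s (by positivity) hmono
  rw [← Z3_raise s hl hz0, ← Z2_raise s hl hz0]
  rw [← Finset.mul_sum] at hb
  have hl2 : (0:ℝ) < (l:ℝ)^2 := by positivity
  have hb2 : (l:ℝ)^2 * ∑ e ∈ V ×ˢ W, G e ≤ dcy s (M.factorization s) (M'.factorization s) a a' *
      ((Real.log s)^K * Z3 s ((l:ℝ) * l * z) +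
        (Real.log s)^K * wf A s (M.factorization s) (M'.factorization s) a a' l ((l:ℝ) * θ) *
          Z2 s ((l:ℝ) * l * z)) := by
    refine hb.trans ?_
    gcongr
  have e2 : ∑ e ∈ V ×ˢ W, G e = ((l:ℝ)^2)⁻¹ * ((l:ℝ)^2 * ∑ e ∈ V ×ˢ W, G e) := by field_simp
  rw [e2]
  refine (mul_le_mul_of_nonneg_left hb2 (by positivity)).trans (le_of_eq ?_)
  ring

open Classical in
/-- **the exits of one pair of classes** -/
theorem exits (hbox : Box C0 CT cl CL s₁ K)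
    (hs₁ : s₁ ≤ s) (hsl : (200 * Real.log s)^(3:ℝ) ≤ (s:ℝ)^(1:ℝ)) (hA : 0 ≤ A)
    (hB : BX CL s M b pr c M' b' pr' c' a a' ρ V W)
    (hne : a + M'.factorization s ≠ a' + M.factorization s)
    {m m' : ℕ → Finset ℕ} (hm : ∀ q ∈ V, ∑ l ∈ m q, (l:ℝ)^(-(11/12):ℝ) ≤ 1)
    (hm' : ∀ q ∈ W, ∑ l ∈ m' q, (l:ℝ)^(-(11/12):ℝ) ≤ 1)
    {T : Finset ℕ} (hT : ∀ l ∈ T, l.Prime ∧ l ≤ s) {FX : ℕ → ℕ × ℕ → ℝ}
    (h0 : ∀ l ∈ T, ∀ e ∈ V ×ˢ W, l ∉ m e.1 → l ∉ m' e.2 → FX l e ≤ 0)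
    (hF : ∀ l ∈ T, FB C0 CT cl s M (b*l) pr c M' (b'*l) pr' c' a a' l γ ((l:ℝ) * θ) ρ V W
      (fun e => (l:ℝ)^2 * FX l e)) :
    ∑ l ∈ T, ∑ e ∈ V ×ˢ W, FX l e ≤ dcy s (M.factorization s) (M'.factorization s) a a' *
      ((Real.log s)^K * (2 * ((1 + Real.log s) * (Z3 s ((∑ q ∈ V, rd b c ρ q * tq (q / pr)) *
          (∑ q ∈ W, rd b' c' ρ q * tq (q / pr'))) +
        (Real.log s)^(A*(6/1000)) * Z2 s ((∑ q ∈ V, rd b c ρ q * tq (q / pr)) *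
          (∑ q ∈ W, rd b' c' ρ q * tq (q / pr')))) +
        (if dex a (M.factorization s) a' (M'.factorization s) = 1 then
          (Exa A s θ)^(1-(1/2+eps2)) + 1 else 0) * Z2 s ((∑ q ∈ V, rd b c ρ q * tq (q / pr)) *
          (∑ q ∈ W, rd b' c' ρ q * tq (q / pr')))))) := by
  have he1 : eps1 = 1/1000 := rfl
  have he2 : eps2 = 1/4000 := rfl
  have hs0 : (0:ℝ) < s := by exact_mod_cast hB.hs.pos
  have hlog : 0 ≤ Real.log s := Real.log_natCast_nonneg s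
  have hx0 := hB.x0 V
  have hy0 := hB.y0 W
  set x := ∑ q ∈ V, rd b c ρ q * tq (q / pr) with hxd
  set y := ∑ q ∈ W, rd b' c' ρ q * tq (q / pr') with hyd
  set x1 : ℕ → ℝ := fun l => ∑ q ∈ V.filter (fun q => l ∈ m q), rd b c ρ q * tq (q / pr) with hx1
  set y1 : ℕ → ℝ := fun l => ∑ q ∈ W.filter (fun q => l ∈ m' q), rd b' c' ρ q * tq (q / pr') with hy1
  have x10 : ∀ l, 0 ≤ x1 l := fun l => hB.x0 _
  have y10 : ∀ l, 0 ≤ y1 l := fun l => hB.y0 _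
  have hX : ∑ l ∈ T, (l:ℝ)^(-(11/12):ℝ) * x1 l ≤ x :=
    mt_mass (fun q _ => mul_nonneg (hB.rd0 q).le (tq_nonneg _)) hm
  have hY : ∑ l ∈ T, (l:ℝ)^(-(11/12):ℝ) * y1 l ≤ y :=
    mt_mass (fun q _ => mul_nonneg (hB.rd0' q).le (tq_nonneg _)) hm'
  set g := dcy s (M.factorization s) (M'.factorization s) a a' with hg
  have hg0 : 0 ≤ g := by rw [hg]; unfold dcy; positivity
  set w : ℕ → ℝ := fun l => wf A s (M.factorization s) (M'.factorization s) a a' l ((l:ℝ) * θ) with hw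
  set LK := (Real.log s)^K with hLK
  have hLK0 : 0 ≤ LK := by positivity
  -- one missing tie
  have one : ∀ l ∈ T, ∑ e ∈ V ×ˢ W, FX l e ≤
      g * (LK * (Y3 s l (x1 l * y) + Y3 s l (y1 l * x)) + LK * w l * (Y2 s l (x1 l * y) + Y2 s l (y1 l * x))) := by
    intro l hl
    obtain ⟨lp, lle⟩ := hT l hl
    have f1 := (hF l hl).mono (Finset.filter_subset (fun q => l ∈ m q) V) (Finset.Subset.refl W)
    have f2 := (hF l hl).mono (Finset.filter_subset (fun q => ¬ l ∈ m q) V)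
      (Finset.filter_subset (fun q => l ∈ m' q) W)
    have r1 := exit_rect hbox hs₁ hA (hB.mono (Finset.filter_subset (fun q => l ∈ m q) V) (Finset.Subset.refl W))
      hne lp.one_le lle f1 (z := x1 l * y) le_rfl
    have r2 := exit_rect hbox hs₁ hA (hB.mono (Finset.filter_subset (fun q => ¬ l ∈ m q) V)
      (Finset.filter_subset (fun q => l ∈ m' q) W)) hne lp.one_le lle f2 (z := y1 l * x) (by
        rw [mul_comm (y1 l) x]
        refine mul_le_mul_of_nonneg_right ?_ (y10 l)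
        exact Finset.sum_le_sum_of_subset_of_nonneg (Finset.filter_subset _ _) fun q _ _ =>
          mul_nonneg (hB.rd0 q).le (tq_nonneg _))
    have sp : ∑ e ∈ V ×ˢ W, FX l e ≤ ∑ e ∈ (V.filter (fun q => l ∈ m q)) ×ˢ W, FX l e +
        ∑ e ∈ (V.filter (fun q => ¬ l ∈ m q)) ×ˢ (W.filter (fun q => l ∈ m' q)), FX l e := by
      rw [Finset.sum_product, Finset.sum_product, Finset.sum_product,
        ← Finset.sum_filter_add_sum_filter_not V (fun q => l ∈ m q)]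
      refine add_le_add le_rfl (Finset.sum_le_sum fun q hq => ?_)
      obtain ⟨q1, q2⟩ := Finset.mem_filter.1 hq
      rw [← Finset.sum_filter_add_sum_filter_not W (fun q => l ∈ m' q)]
      have : ∑ r ∈ W.filter (fun r => ¬ l ∈ m' r), FX l (q, r) ≤ 0 :=
        Finset.sum_nonpos fun r hr => h0 l hl (q, r)
          (Finset.mk_mem_product q1 (Finset.mem_filter.1 hr).1) q2 (Finset.mem_filter.1 hr).2
      linarith
    refine sp.trans ((add_le_add r1 r2).trans (le_of_eq ?_))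
    ring
  refine (Finset.sum_le_sum one).trans ?_
  rw [← Finset.mul_sum]
  refine mul_le_mul_of_nonneg_left ?_ hg0
  -- the Hölder sums
  set Z := x * y with hZ
  have hyx : y * x = Z := mul_comm y x
  have T1 : ∀ l ∈ T, (1:ℝ) ≤ (l:ℝ)^(6/1000:ℝ) := fun l hl => by
    have : (1:ℝ) ≤ l := by exact_mod_cast (hT l hl).1.one_le
    exact Real.one_le_rpow this (by norm_num)
  have H1 := holder_one (s := s) hT (x := x1) (a := fun _ => 1) (X := x) (y := y) (σ := 1/2+eps1)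
    (by rw [he1]; norm_num) (by rw [he1]; norm_num) (fun l _ => x10 l) (fun _ _ => zero_le_one) T1 hy0 hX
  have H1' := holder_one (s := s) hT (x := y1) (a := fun _ => 1) (X := y) (y := x) (σ := 1/2+eps1)
    (by rw [he1]; norm_num) (by rw [he1]; norm_num) (fun l _ => y10 l) (fun _ _ => zero_le_one) T1 hx0 hY
  have H0 := holder_one (s := s) hT (x := x1) (a := fun _ => 1) (X := x) (y := y) (σ := 1/2)
    (by norm_num) (by norm_num) (fun l _ => x10 l) (fun _ _ => zero_le_one) T1 hy0 hX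
  have H0' := holder_one (s := s) hT (x := y1) (a := fun _ => 1) (X := y) (y := x) (σ := 1/2)
    (by norm_num) (by norm_num) (fun l _ => y10 l) (fun _ _ => zero_le_one) T1 hx0 hY
  have H2 := holder_one (s := s) hT (x := x1) (a := fun l => (l:ℝ)^(6/1000:ℝ)) (X := x) (y := y) (σ := 1/2+eps2)
    (by rw [he2]; norm_num) (by rw [he2]; norm_num) (fun l _ => x10 l) (fun l hl => by positivity)
    (fun _ _ => le_rfl) hy0 hX
  have H2' := holder_one (s := s) hT (x := y1) (a := fun l => (l:ℝ)^(6/1000:ℝ)) (X := y) (y := x) (σ := 1/2+eps2)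
    (by rw [he2]; norm_num) (by rw [he2]; norm_num) (fun l _ => y10 l) (fun l hl => by positivity)
    (fun _ _ => le_rfl) hx0 hY
  have HA := holder_acc (s := s) hB.hs.two_le hsl (A := A) (θ := θ) hT (x := x1) (X := x) (y := y)
    (fun l _ => x10 l) hy0 hX
  have HA' := holder_acc (s := s) hB.hs.two_le hsl (A := A) (θ := θ) hT (x := y1) (X := y) (y := x)
    (fun l _ => y10 l) hx0 hY
  rw [hyx] at H1' H0' H2' HA'
  set c1 := (s:ℝ)^(-(1/2-eps1)) with hc1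
  set c0 := (s:ℝ)^(-(1/2):ℝ) with hc0
  set c2 := (s:ℝ)^(-(1/2-eps2)) with hc2
  have c10 : 0 ≤ c1 := by positivity
  have c00 : 0 ≤ c0 := by positivity
  have c20 : 0 ≤ c2 := by positivity
  have S3 : ∑ l ∈ T, (Y3 s l (x1 l * y) + Y3 s l (y1 l * x)) ≤ 2 * ((1 + Real.log s) * Z3 s Z) := by
    have e : ∑ l ∈ T, (Y3 s l (x1 l * y) + Y3 s l (y1 l * x)) =
        c1 * (∑ l ∈ T, (l:ℝ)^(-(2-2*(1/2+eps1))) * (1 * (x1 l * y)^(1/2+eps1)) +
          ∑ l ∈ T, (l:ℝ)^(-(2-2*(1/2+eps1))) * (1 * (y1 l * x)^(1/2+eps1))) +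
        c0 * (∑ l ∈ T, (l:ℝ)^(-(2-2*(1/2:ℝ))) * (1 * (x1 l * y)^(1/2:ℝ)) +
          ∑ l ∈ T, (l:ℝ)^(-(2-2*(1/2:ℝ))) * (1 * (y1 l * x)^(1/2:ℝ))) := by
      rw [← Finset.sum_add_distrib, ← Finset.sum_add_distrib, Finset.mul_sum, Finset.mul_sum,
        ← Finset.sum_add_distrib]
      refine Finset.sum_congr rfl fun l _ => ?_
      unfold Y3; ring
    rw [e]
    calc _ ≤ c1 * ((1 + Real.log s) * Z^(1/2+eps1) + (1 + Real.log s) * Z^(1/2+eps1)) +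
          c0 * ((1 + Real.log s) * Z^(1/2:ℝ) + (1 + Real.log s) * Z^(1/2:ℝ)) := by gcongr
      _ = _ := by unfold Z3; ring
  have hZ0 : 0 ≤ Z := mul_nonneg hx0 hy0
  set L6 := (Real.log s)^(A*(6/1000)) with hL6
  have hL60 : 0 ≤ L6 := by positivity
  have S2 : ∑ l ∈ T, w l * (Y2 s l (x1 l * y) + Y2 s l (y1 l * x)) ≤
      2 * ((1 + Real.log s) * (L6 * Z2 s Z) + (if dex a (M.factorization s) a' (M'.factorization s) = 1 then
          (Exa A s θ)^(1-(1/2+eps2)) + 1 else 0) * Z2 s Z) := by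
    set ind : ℝ := if dex a (M.factorization s) a' (M'.factorization s) = 1 then 1 else 0 with hind
    have hind0 : 0 ≤ ind := by rw [hind]; split_ifs <;> norm_num
    have hwl : ∀ l ∈ T, w l ≤ L6 * (l:ℝ)^(6/1000:ℝ) + ind * acc A s ((l:ℝ) * θ) := by
      intro l hl
      simp only [hw]
      unfold wf
      have h1 := T1 l hl
      rw [hind]
      split_ifs with hd
      · rw [one_mul]
      · rw [zero_mul]
        have := mul_le_mul_of_nonneg_left h1 hL60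
        linarith
    have hY2 : ∀ l ∈ T, 0 ≤ Y2 s l (x1 l * y) + Y2 s l (y1 l * x) := fun l _ => by
      have := x10 l
      have := y10 l
      unfold Y2; positivity
    calc ∑ l ∈ T, w l * (Y2 s l (x1 l * y) + Y2 s l (y1 l * x))
        ≤ ∑ l ∈ T, (L6 * (l:ℝ)^(6/1000:ℝ) + ind * acc A s ((l:ℝ) * θ)) *
            (Y2 s l (x1 l * y) + Y2 s l (y1 l * x)) :=
          Finset.sum_le_sum fun l hl => mul_le_mul_of_nonneg_right (hwl l hl) (hY2 l hl)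
      _ = c2 * (L6 * (∑ l ∈ T, (l:ℝ)^(-(2-2*(1/2+eps2))) * ((l:ℝ)^(6/1000:ℝ) * (x1 l * y)^(1/2+eps2)) +
            ∑ l ∈ T, (l:ℝ)^(-(2-2*(1/2+eps2))) * ((l:ℝ)^(6/1000:ℝ) * (y1 l * x)^(1/2+eps2))) +
          ind * (∑ l ∈ T, (l:ℝ)^(-(2-2*(1/2+eps2))) * (acc A s ((l:ℝ) * θ) * (x1 l * y)^(1/2+eps2)) +
            ∑ l ∈ T, (l:ℝ)^(-(2-2*(1/2+eps2))) * (acc A s ((l:ℝ) * θ) * (y1 l * x)^(1/2+eps2)))) := by
          simp only [← Finset.sum_add_distrib, Finset.mul_sum]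
          refine Finset.sum_congr rfl fun l _ => ?_
          unfold Y2; ring
      _ ≤ c2 * (L6 * ((1 + Real.log s) * Z^(1/2+eps2) + (1 + Real.log s) * Z^(1/2+eps2)) +
          ind * (((Exa A s θ)^(1-(1/2+eps2)) + 1) * Z^(1/2+eps2) +
            ((Exa A s θ)^(1-(1/2+eps2)) + 1) * Z^(1/2+eps2))) := by gcongr
      _ = 2 * ((1 + Real.log s) * (L6 * Z2 s Z) + (ind * ((Exa A s θ)^(1-(1/2+eps2)) + 1)) * Z2 s Z) := by
          unfold Z2; ring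
      _ = _ := by
          congr 2
          rw [hind]
          split_ifs
          · rw [one_mul]
          · rw [zero_mul]
  calc ∑ l ∈ T, (LK * (Y3 s l (x1 l * y) + Y3 s l (y1 l * x)) + LK * w l * (Y2 s l (x1 l * y) + Y2 s l (y1 l * x)))
      = LK * ∑ l ∈ T, (Y3 s l (x1 l * y) + Y3 s l (y1 l * x)) +
          LK * ∑ l ∈ T, w l * (Y2 s l (x1 l * y) + Y2 s l (y1 l * x)) := by
        rw [Finset.mul_sum, Finset.mul_sum, ← Finset.sum_add_distrib]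
        refine Finset.sum_congr rfl fun l _ => ?_
        ring
    _ ≤ LK * (2 * ((1 + Real.log s) * Z3 s Z)) + LK * (2 * ((1 + Real.log s) * (L6 * Z2 s Z) +
          (if dex a (M.factorization s) a' (M'.factorization s) = 1 then
          (Exa A s θ)^(1-(1/2+eps2)) + 1 else 0) * Z2 s Z)) := by gcongr
    _ = _ := by ring

/-- the factor of the adjacent classes -/
noncomputable def alf (A : ℝ) (s a₀ : ℕ) (θ : ℝ) : ℝ :=
  acc A s θ + (Exa A s θ)^(1-(1/2+eps2)) + (if a₀ = 1 then 0 else (a₀:ℝ)^(6/1000:ℝ))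

lemma alf_nonneg (A : ℝ) (s a₀ : ℕ) (θ : ℝ) : 0 ≤ alf A s a₀ θ := by
  unfold alf
  have h1 := acc_nonneg A s θ
  have h2 := Real.rpow_nonneg (Exa_nonneg A s θ) (1-(1/2+eps2))
  split_ifs <;> positivity

open Classical in
/-- **one pair of classes, everything** -/
theorem cls_total (hbox : Box C0 CT cl CL s₁ K)
    (hs₁ : s₁ ≤ s) (hsl : (200 * Real.log s)^(3:ℝ) ≤ (s:ℝ)^(1:ℝ)) (hℓ : 4 ≤ Real.log s) (hA : 0 ≤ A)
    {a₀ : ℕ} (ha₀ : 1 ≤ a₀) (ha₀' : a₀ ≤ s)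
    (hB : BX CL s M b pr c M' b' pr' c' a a' ρ V W)
    (hne : a + M'.factorization s ≠ a' + M.factorization s)
    {m m' : ℕ → Finset ℕ} (hm : ∀ q ∈ V, ∑ l ∈ m q, (l:ℝ)^(-(11/12):ℝ) ≤ 1)
    (hm' : ∀ q ∈ W, ∑ l ∈ m' q, (l:ℝ)^(-(11/12):ℝ) ≤ 1)
    {T : Finset ℕ} (hT : ∀ l ∈ T, l.Prime ∧ l ≤ s) {FX : ℕ → ℕ × ℕ → ℝ} {FA : ℕ × ℕ → ℝ}
    (h0 : ∀ l ∈ T, ∀ e ∈ V ×ˢ W, l ∉ m e.1 → l ∉ m' e.2 → FX l e ≤ 0)
    (hFA : FB C0 CT cl s M b pr c M' b' pr' c' a a' a₀ γ θ ρ V W FA)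
    (hF : ∀ l ∈ T, FB C0 CT cl s M (b*l) pr c M' (b'*l) pr' c' a a' l γ ((l:ℝ) * θ) ρ V W
      (fun e => (l:ℝ)^2 * FX l e))
    {z : ℝ} (hz : (∑ q ∈ V, rd b c ρ q * tq (q / pr)) * (∑ q ∈ W, rd b' c' ρ q * tq (q / pr')) ≤ z) :
    ∑ e ∈ V ×ˢ W, (FA e + ∑ l ∈ T, FX l e) ≤
      ((s:ℝ)^(-(47/100):ℝ))^(dst (a + M'.factorization s) (a' + M.factorization s) - 1) *
        ((Real.log s)^(K + A*(6/1000) + 2) * (Z3 s z + Z2 s z)) +
      (if dst (a + M'.factorization s) (a' + M.factorization s) = 1 then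
        (Real.log s)^(K + A*(6/1000) + 2) * (alf A s a₀ θ * Z2 s z) else 0) := by
  have hs0 : (0:ℝ) < s := by exact_mod_cast hB.hs.pos
  have hs1 : (1:ℝ) ≤ s := by exact_mod_cast hB.hs.one_le
  have hℓ0 : 0 < Real.log s := by linarith
  have hx0 := hB.x0 V
  have hy0 := hB.y0 W
  have k1 := hbox s M b pr c M' b' pr' c' a a' a₀ γ θ ρ V W FA A hs₁ ha₀ ha₀' hA hB hne hFA
  have k2 := exits hbox hs₁ hsl hA hB hne hm hm' hT h0 hF
  set Z := (∑ q ∈ V, rd b c ρ q * tq (q / pr)) * (∑ q ∈ W, rd b' c' ρ q * tq (q / pr')) with hZ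
  have hZ0 : 0 ≤ Z := mul_nonneg hx0 hy0
  have hz0 : 0 ≤ z := hZ0.trans hz
  set ℓ := Real.log s with hℓd
  set g := dcy s (M.factorization s) (M'.factorization s) a a' with hg
  have hg0 : 0 ≤ g := by rw [hg]; unfold dcy; positivity
  set dx := dex a (M.factorization s) a' (M'.factorization s) with hdx
  set d := dst (a + M'.factorization s) (a' + M.factorization s) with hd
  have hdd : d ≤ dx := dst_le_dex a (M.factorization s) a' (M'.factorization s)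
  have hd1 : 1 ≤ d := Nat.one_le_iff_ne_zero.2 fun h => hne (dst_eq_zero.1 h)
  have hgd : g ≤ ((s:ℝ)^(-(47/100):ℝ))^(d - 1) := by
    rw [hg]; unfold dcy
    rw [← Real.rpow_natCast, ← Real.rpow_mul hs0.le]
    refine Real.rpow_le_rpow_of_exponent_le hs1 ?_
    rw [Nat.cast_sub hd1]
    have h1 : (d:ℝ) ≤ dx := by exact_mod_cast hdd
    have h2 : (1:ℝ) ≤ d := by exact_mod_cast hd1
    push_cast
    nlinarith
  have hg1 : dx = 1 → g = 1 := fun h => by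
    rw [hg]; unfold dcy
    rw [← hdx, h]; norm_num
  have m3 := Z3_mono s hZ0 hz
  have m2 := Z2_mono s hZ0 hz
  have z3 := Z3_nonneg s hZ0
  have z2 := Z2_nonneg s hZ0
  have z3' := Z3_nonneg s hz0
  have z2' := Z2_nonneg s hz0
  set LK := ℓ^K with hLK
  have hLK0 : 0 < LK := by positivity
  set L6 := ℓ^(A*(6/1000)) with hL6
  have hL61 : 1 ≤ L6 := Real.one_le_rpow (by linarith) (by positivity)
  have hpow : ℓ^(K + A*(6/1000) + 2) = LK * L6 * ℓ^2 := by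
    rw [Real.rpow_add hℓ0, Real.rpow_add hℓ0]
    congr 1
    rw [← Real.rpow_natCast]; norm_num
  have hE := Real.rpow_nonneg (Exa_nonneg A s θ) (1-(1/2+eps2))
  set E := (Exa A s θ)^(1-(1/2+eps2)) with hEd
  have hac := acc_nonneg A s θ
  rw [Finset.sum_add_distrib, Finset.sum_comm]
  have hsum : ∑ l ∈ T, ∑ e ∈ V ×ˢ W, FX l e = ∑ y ∈ T, ∑ x ∈ V ×ˢ W, FX y x := rfl
  refine (add_le_add k1 k2).trans ?_
  set al := alf A s a₀ θ with hal
  have hal0 : 0 ≤ al := alf_nonneg A s a₀ θ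
  have hℓ2 : 5 + 2 * ℓ ≤ ℓ^2 := by nlinarith
  -- the factor
  have hwf : wf A s (M.factorization s) (M'.factorization s) a a' a₀ θ ≤
      L6 + (if dx = 1 then L6 * (if a₀ = 1 then 0 else (a₀:ℝ)^(6/1000:ℝ)) + acc A s θ else 0) := by
    unfold wf
    rw [← hdx, ← hL6]
    by_cases hd1 : dx = 1
    · rw [if_pos hd1, if_pos hd1, if_pos hd1]
      by_cases h1 : a₀ = 1
      · rw [if_pos h1, h1]; simp
      · rw [if_neg h1]; linarith
    · rw [if_neg hd1, if_neg hd1, if_neg hd1]; linarith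
  set P := Z3 s z with hP
  set Q := Z2 s z with hQ
  by_cases hd1x : dx = 1
  · have hd1' : d = 1 := by omega
    have hg' := hg1 hd1x
    rw [if_pos hd1x] at hwf
    rw [if_pos hd1x, if_pos hd1', hd1', Nat.sub_self, pow_zero, one_mul, hg', one_mul, one_mul, hpow]
    have halge : L6 * (if a₀ = 1 then 0 else (a₀:ℝ)^(6/1000:ℝ)) + acc A s θ + 2 * E ≤ 2 * L6 * al := by
      rw [hal]; unfold alf
      rw [← hEd]
      have h1 : (0:ℝ) ≤ (if a₀ = 1 then 0 else (a₀:ℝ)^(6/1000:ℝ)) := by split_ifs <;> positivity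
      set u := (if a₀ = 1 then 0 else (a₀:ℝ)^(6/1000:ℝ)) with hu
      have h2 : acc A s θ ≤ L6 * acc A s θ := le_mul_of_one_le_left hac hL61
      have h3 : E ≤ L6 * E := le_mul_of_one_le_left hE hL61
      have h4 : 0 ≤ L6 * u := by positivity
      have h5 : 0 ≤ L6 * acc A s θ := by positivity
      nlinarith
    calc LK * Z3 s Z + LK * wf A s (M.factorization s) (M'.factorization s) a a' a₀ θ * Z2 s Z +
          LK * (2 * ((1 + ℓ) * (Z3 s Z + L6 * Z2 s Z) + (E + 1) * Z2 s Z))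
        ≤ LK * P + LK * (L6 + (L6 * (if a₀ = 1 then 0 else (a₀:ℝ)^(6/1000:ℝ)) + acc A s θ)) * Q +
          LK * (2 * ((1 + ℓ) * (P + L6 * Q) + (E + 1) * Q)) := by gcongr
      _ = LK * ((3 + 2 * ℓ) * P + ((3 + 2 * ℓ) * L6 + 2) * Q) +
          LK * ((L6 * (if a₀ = 1 then 0 else (a₀:ℝ)^(6/1000:ℝ)) + acc A s θ + 2 * E) * Q) := by ring
      _ ≤ LK * ((ℓ^2 * L6) * P + (ℓ^2 * L6) * Q) + LK * ((2 * L6 * al) * Q) := by
          have q1 : 3 + 2 * ℓ ≤ ℓ^2 * L6 := by nlinarith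
          have q2 : (3 + 2 * ℓ) * L6 + 2 ≤ ℓ^2 * L6 := by nlinarith
          gcongr
      _ ≤ LK * ((ℓ^2 * L6) * P + (ℓ^2 * L6) * Q) + LK * ((ℓ^2 * L6 * al) * Q) := by
          have q3 : 2 * L6 * al ≤ ℓ^2 * L6 * al := by
            have : 2 ≤ ℓ^2 := by nlinarith
            gcongr
          gcongr
      _ = _ := by ring
  · rw [if_neg hd1x] at hwf
    rw [if_neg hd1x, hpow]
    have hge : 0 ≤ (if d = 1 then LK * L6 * ℓ^2 * (al * Q) else 0) := by split_ifs <;> positivity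
    refine le_trans ?_ (le_add_of_nonneg_right hge)
    calc g * (LK * Z3 s Z + LK * wf A s (M.factorization s) (M'.factorization s) a a' a₀ θ * Z2 s Z) +
          g * (LK * (2 * ((1 + ℓ) * (Z3 s Z + L6 * Z2 s Z) + 0 * Z2 s Z)))
        ≤ g * (LK * P + LK * (L6 + 0) * Q) + g * (LK * (2 * ((1 + ℓ) * (P + L6 * Q) + 0 * Q))) := by gcongr
      _ = g * (LK * ((3 + 2 * ℓ) * P + ((3 + 2 * ℓ) * L6) * Q)) := by ring
      _ ≤ g * (LK * ((ℓ^2 * L6) * P + (ℓ^2 * L6) * Q)) := by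
          have q1 : 3 + 2 * ℓ ≤ ℓ^2 * L6 := by nlinarith
          have q2 : (3 + 2 * ℓ) * L6 ≤ ℓ^2 * L6 := by nlinarith
          gcongr
      _ ≤ ((s:ℝ)^(-(47/100):ℝ))^(d - 1) * (LK * ((ℓ^2 * L6) * P + (ℓ^2 * L6) * Q)) := by gcongr
      _ = _ := by ring

end ex

/-! ### all classes -/

open Crest.Agent.R4.ClsB (Tame)

/-- the item facts of a crossing state -/
structure AX (CL : ℝ) (s M b pr c M' b' pr' c' : ℕ) (ρ : ℕ → ℝ) (V W : Finset ℕ) : Prop where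
  hs : s.Prime
  hρ : ∀ q, 0 < ρ q
  hb : 0 < b
  hc : 0 < c
  hb' : 0 < b'
  hc' : 0 < c'
  hM : 0 < M
  hM' : 0 < M'
  gM : ∀ l : ℕ, l.Prime → l ∣ M → l ≠ s → s ≤ l
  gM' : ∀ l : ℕ, l.Prime → l ∣ M' → l ≠ s → s ≤ l
  hsM : ∑ l ∈ M.primeFactors.erase s, (l:ℝ)^(-(11/12):ℝ) ≤ 1
  hsM' : ∑ l ∈ M'.primeFactors.erase s, (l:ℝ)^(-(11/12):ℝ) ≤ 1
  hV : ∀ q ∈ V, 0 < q ∧ pr ∣ q
  hW : ∀ q ∈ W, 0 < q ∧ pr' ∣ q
  oV : ∀ q ∈ V, ∀ l : ℕ, l.Prime → l ∣ M → l ≠ s → ¬ l ^ 2 ∣ q / pr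
  oW : ∀ q ∈ W, ∀ l : ℕ, l.Prime → l ∣ M' → l ≠ s → ¬ l ^ 2 ∣ q / pr'
  tV : ∀ z : ℝ, (s:ℝ) ≤ z → ∀ q ∈ V, Tame z 1 (q / pr / M.gcd (q / pr))
  tW : ∀ z : ℝ, (s:ℝ) ≤ z → ∀ q ∈ W, Tame z 1 (q / pr' / M'.gcd (q / pr'))
  lV : ∀ q ∈ V, 1 ≤ CL * Real.log s * tq (q / pr / M.gcd (q / pr))
  lW : ∀ q ∈ W, 1 ≤ CL * Real.log s * tq (q / pr' / M'.gcd (q / pr'))

/-- **what the summand must satisfy** at a crossing state -/
structure FAll (C0 CT cl : ℝ) (s M b pr c M' b' pr' c' a₀ : ℕ) (γ θ θ' : ℝ) (ρ : ℕ → ℝ) (V W : Finset ℕ)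
    (F : ℕ × ℕ → ℝ) : Prop where
  f1 : ∀ e ∈ V ×ˢ W, Dq ρ M b pr c M' b' pr' c' e ≤ 1 →
      F e ≤ (Real.log s)^C0 * (rd b c ρ e.1 * rd b' c' ρ e.2 / Dq ρ M b pr c M' b' pr' c' e)
  f2 : ∀ e ∈ V ×ˢ W, 1 < Dq ρ M b pr c M' b' pr' c' e →
      F e ≤ (Real.log s)^C0 * (rd b c ρ e.1 * rd b' c' ρ e.2 / Dq ρ M b pr c M' b' pr' c' e) ∨
        (LoD ((Real.log s)^CT) (Dq ρ M b pr c M' b' pr' c') (xR M pr M' pr') (yR M pr M' pr') e ∧
          F e ≤ (Real.log s)^C0 * (rd b c ρ e.1 * rd b' c' ρ e.2))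
  rel : ∀ e ∈ V ×ˢ W, Dq ρ M b pr c M' b' pr' c' e ≤ 1/2^(lev cl s) → 0 < F e →
      RelI γ ρ M b pr c M' b' pr' c' e
  fg : ∀ e ∈ V ×ˢ W, fe s M' pr e.1 ≠ fe s M pr' e.2 → Dq ρ M b pr c M' b' pr' c' e ≤ 1/2^(lev cl s) → 0 < F e →
      FSs s γ ρ (lev cl s) M b pr c M' b' pr' c' ((e.1 / pr).factorization s) ((e.2 / pr').factorization s) e →
      FLow s (dex ((e.1 / pr).factorization s) (M.factorization s) ((e.2 / pr').factorization s)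
          (M'.factorization s)) a₀ (rf (itm s pr e.1) (st s M)) (rf (itm s pr' e.2) (st s M'))
        (if fe s M' pr e.1 < fe s M pr' e.2 then θ else θ')
        (Dq ρ M b pr c M' b' pr' c' e)

section all
variable {C0 CT cl CL K : ℝ} {s₁ : ℕ} {s M b pr c M' b' pr' c' : ℕ} {γ θ θ' : ℝ} {ρ : ℕ → ℝ}
  {V W : Finset ℕ} {A : ℝ}

lemma AX.bx (h : AX CL s M b pr c M' b' pr' c' ρ V W) (a a' : ℕ) :
    BX CL s M b pr c M' b' pr' c' a a' ρ (V.filter (fun q => fe s M' pr q = a + M'.factorization s))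
      (W.filter (fun q => fe s M pr' q = a' + M.factorization s)) where
  hs := h.hs
  hρ := h.hρ
  hb := h.hb
  hc := h.hc
  hb' := h.hb'
  hc' := h.hc'
  hM := h.hM
  hM' := h.hM'
  gM := h.gM
  gM' := h.gM'
  hsM := h.hsM
  hsM' := h.hsM'
  hV := fun q hq => by
    obtain ⟨h1, h2⟩ := Finset.mem_filter.1 hq
    refine ⟨(h.hV q h1).1, (h.hV q h1).2, ?_, h.oV q h1⟩
    unfold fe at h2; omega
  hW := fun q hq => by
    obtain ⟨h1, h2⟩ := Finset.mem_filter.1 hq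
    refine ⟨(h.hW q h1).1, (h.hW q h1).2, ?_, h.oW q h1⟩
    unfold fe at h2; omega
  tV := fun z hz q hq => h.tV z hz q (Finset.mem_filter.1 hq).1
  tW := fun z hz q hq => h.tW z hz q (Finset.mem_filter.1 hq).1
  lV := fun q hq => h.lV q (Finset.mem_filter.1 hq).1
  lW := fun q hq => h.lW q (Finset.mem_filter.1 hq).1

lemma FAll.fb {a₀ : ℕ} {F : ℕ × ℕ → ℝ} (h : FAll C0 CT cl s M b pr c M' b' pr' c' a₀ γ θ θ' ρ V W F)
    {a a' : ℕ} (hne : a + M'.factorization s ≠ a' + M.factorization s) :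
    FB C0 CT cl s M b pr c M' b' pr' c' a a' a₀ γ
      (if a + M'.factorization s < a' + M.factorization s then θ else θ') ρ
      (V.filter (fun q => fe s M' pr q = a + M'.factorization s))
      (W.filter (fun q => fe s M pr' q = a' + M.factorization s)) F := by
  have hs1 : (V.filter (fun q => fe s M' pr q = a + M'.factorization s)) ×ˢ
      (W.filter (fun q => fe s M pr' q = a' + M.factorization s)) ⊆ V ×ˢ W :=
    Finset.product_subset_product (Finset.filter_subset _ _) (Finset.filter_subset _ _)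
  refine ⟨fun e he => h.f1 e (hs1 he), fun e he => h.f2 e (hs1 he), fun e he => h.rel e (hs1 he),
    fun e he h1 h2 h3 => ?_⟩
  obtain ⟨k1, k2⟩ := Finset.mem_product.1 he
  have f1 := (Finset.mem_filter.1 k1).2
  have f2 := (Finset.mem_filter.1 k2).2
  have g1 : (e.1 / pr).factorization s = a := by unfold fe at f1; omega
  have g2 : (e.2 / pr').factorization s = a' := by unfold fe at f2; omega
  have := h.fg e (hs1 he) (by rw [f1, f2]; exact hne) h1 h2 (by rw [g1, g2]; exact h3)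
  rw [g1, g2, f1, f2] at this
  exact this

lemma Z3_scale (s : ℕ) {k z : ℝ} (hk : 1 ≤ k) (hz : 0 ≤ z) : Z3 s (k * z) ≤ k * Z3 s z := by
  have he1 : eps1 = 1/1000 := rfl
  have hk0 : 0 ≤ k := by linarith
  unfold Z3
  rw [Real.mul_rpow hk0 hz, Real.mul_rpow hk0 hz]
  have h1 : k^(1/2+eps1) ≤ k := by
    calc k^(1/2+eps1) ≤ k^(1:ℝ) := Real.rpow_le_rpow_of_exponent_le hk (by rw [he1]; norm_num)
      _ = k := Real.rpow_one k
  have h2 : k^(1/2:ℝ) ≤ k := by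
    calc k^(1/2:ℝ) ≤ k^(1:ℝ) := Real.rpow_le_rpow_of_exponent_le hk (by norm_num)
      _ = k := Real.rpow_one k
  calc _ ≤ (s:ℝ)^(-(1/2-eps1)) * (k * z^(1/2+eps1)) + (s:ℝ)^(-(1/2):ℝ) * (k * z^(1/2:ℝ)) := by gcongr
    _ = _ := by ring

lemma Z2_scale (s : ℕ) {k z : ℝ} (hk : 1 ≤ k) (hz : 0 ≤ z) : Z2 s (k * z) ≤ k * Z2 s z := by
  have he2 : eps2 = 1/4000 := rfl
  have hk0 : 0 ≤ k := by linarith
  unfold Z2
  rw [Real.mul_rpow hk0 hz]
  have h1 : k^(1/2+eps2) ≤ k := by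
    calc k^(1/2+eps2) ≤ k^(1:ℝ) := Real.rpow_le_rpow_of_exponent_le hk (by rw [he2]; norm_num)
      _ = k := Real.rpow_one k
  calc _ ≤ (s:ℝ)^(-(1/2-eps2)) * (k * z^(1/2+eps2)) := by gcongr
    _ = _ := by ring

/-- the block of two classes -/
noncomputable def blk (s M pr M' pr' : ℕ) (V W : Finset ℕ) (F : ℕ × ℕ → ℝ) (i j : ℕ) : ℝ :=
  ∑ e ∈ (V.filter (fun q => fe s M' pr q = i)) ×ˢ (W.filter (fun q => fe s M pr' q = j)), F e

open Classical in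
/-- **the class numbers, different classes** -/
theorem CO_of (hbox : Box C0 CT cl CL s₁ K)
    (hs₁ : s₁ ≤ s) (hsl : (200 * Real.log s)^(3:ℝ) ≤ (s:ℝ)^(1:ℝ)) (hℓ : 4 ≤ Real.log s) (hA : 0 ≤ A)
    {a₀ : ℕ} (ha₀ : 1 ≤ a₀) (ha₀' : a₀ ≤ s)
    (hB : AX CL s M b pr c M' b' pr' c' ρ V W)
    {m m' : ℕ → Finset ℕ} (hm : ∀ q ∈ V, ∑ l ∈ m q, (l:ℝ)^(-(11/12):ℝ) ≤ 1)
    (hm' : ∀ q ∈ W, ∑ l ∈ m' q, (l:ℝ)^(-(11/12):ℝ) ≤ 1)
    {T : Finset ℕ} (hT : ∀ l ∈ T, l.Prime ∧ l ≤ s) {FX : ℕ → ℕ × ℕ → ℝ} {FA : ℕ × ℕ → ℝ}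
    (h0 : ∀ l ∈ T, ∀ e ∈ V ×ˢ W, l ∉ m e.1 → l ∉ m' e.2 → FX l e ≤ 0)
    (hFA : FAll C0 CT cl s M b pr c M' b' pr' c' a₀ γ θ θ' ρ V W FA)
    (hF : ∀ l ∈ T, FAll C0 CT cl s M (b*l) pr c M' (b'*l) pr' c' l γ ((l:ℝ) * θ) ((l:ℝ) * θ') ρ V W
      (fun e => (l:ℝ)^2 * FX l e))
    {x y : ℕ → ℝ} {CM : ℝ} (hCM : 1 ≤ CM) (hCMℓ : CM ≤ Real.log s) (hx0 : ∀ i, 0 ≤ x i) (hy0 : ∀ j, 0 ≤ y j)
    (hxy : ∀ i j, mc s M' b pr c ρ V i * mc s M b' pr' c' ρ W j ≤ CM * (x i * y j)) :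
    Crest.Agent.R4P.KindPay36.CO s (K + A*(6/1000) + 3) (1/2+eps1) (1/2+eps2)
      (fun i j => alf A s a₀ (if i < j then θ else θ')) x y
      (blk s M pr M' pr' V W (fun e => FA e + ∑ l ∈ T, FX l e)) where
  x0 := hx0
  y0 := hy0
  al0 := fun i j => alf_nonneg _ _ _ _
  le := by
    intro i j hij
    have hs0 : (0:ℝ) < s := by exact_mod_cast hB.hs.pos
    have hℓ0 : 0 < Real.log s := by linarith
    set ℓ := Real.log s with hℓd
    set m₁ := M.factorization s with hm₁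
    set m₁' := M'.factorization s with hm₁'
    have hxy0 : 0 ≤ x i * y j := mul_nonneg (hx0 i) (hy0 j)
    have al0 := alf_nonneg A s a₀ (if i < j then θ else θ')
    have r0 : 0 ≤ ((s:ℝ)^(-(47/100):ℝ))^(dst i j - 1) * (ℓ^(K + A*(6/1000) + 3) *
        ((s:ℝ)^(-(1-1/2):ℝ) * (x i * y j)^(1/2:ℝ) + (s:ℝ)^(-(1-(1/2+eps1))) * (x i * y j)^(1/2+eps1) +
        (s:ℝ)^(-(1-(1/2+eps2))) * (x i * y j)^(1/2+eps2))) +
        (if dst i j = 1 then ℓ^(K + A*(6/1000) + 3) * ((s:ℝ)^(-(1-(1/2+eps2))) *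
          (alf A s a₀ (if i < j then θ else θ') * (x i * y j)^(1/2+eps2))) else 0) := by
      generalize alf A s a₀ (if i < j then θ else θ') = α at al0
      split_ifs <;> positivity
    by_cases hi : i < m₁'
    · have : V.filter (fun q => fe s M' pr q = i) = ∅ := by
        rw [Finset.filter_eq_empty_iff]
        intro q _ h
        unfold fe at h
        omega
      unfold blk
      rw [this, Finset.empty_product, Finset.sum_empty]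
      exact r0
    by_cases hj : j < m₁
    · have : W.filter (fun q => fe s M pr' q = j) = ∅ := by
        rw [Finset.filter_eq_empty_iff]
        intro q _ h
        unfold fe at h
        omega
      unfold blk
      rw [this, Finset.product_empty, Finset.sum_empty]
      exact r0
    obtain ⟨a, ha⟩ := Nat.exists_eq_add_of_le (not_lt.1 hi)
    obtain ⟨a', ha'⟩ := Nat.exists_eq_add_of_le (not_lt.1 hj)
    have hia : a + m₁' = i := by omega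
    have hja : a' + m₁ = j := by omega
    have hne : a + m₁' ≠ a' + m₁ := by rw [hia, hja]; exact hij
    have hz : (∑ q ∈ V.filter (fun q => fe s M' pr q = a + m₁'), rd b c ρ q * tq (q / pr)) *
        (∑ q ∈ W.filter (fun q => fe s M pr' q = a' + m₁), rd b' c' ρ q * tq (q / pr')) ≤ CM * (x i * y j) := by
      rw [hia, hja]; exact hxy i j
    have key := cls_total (θ := if a + m₁' < a' + m₁ then θ else θ') hbox hs₁ hsl hℓ hA ha₀ ha₀' (hB.bx a a') hne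
      (m := m) (m' := m')
      (fun q hq => hm q (Finset.mem_filter.1 hq).1) (fun q hq => hm' q (Finset.mem_filter.1 hq).1) hT
      (FX := FX) (FA := FA)
      (fun l hl e he => h0 l hl e (Finset.product_subset_product (Finset.filter_subset _ _)
        (Finset.filter_subset _ _) he)) (hFA.fb hne)
      (fun l hl => by
        have := (hF l hl).fb hne
        have e1 : (if a + m₁' < a' + m₁ then (l:ℝ) * θ else (l:ℝ) * θ') =
            (l:ℝ) * (if a + m₁' < a' + m₁ then θ else θ') := by split_ifs <;> rfl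
        rw [e1] at this
        exact this) hz
    rw [← hm₁, ← hm₁', hia, hja] at key
    refine key.trans ?_
    set C := K + A*(6/1000) + 2 with hC
    have e3 : ℓ^(K + A*(6/1000) + 3) = ℓ^C * ℓ := by
      rw [hC, show K + A*(6/1000) + 3 = (K + A*(6/1000) + 2) + 1 by ring, Real.rpow_add hℓ0, Real.rpow_one]
    have z3 := Z3_scale s hCM hxy0
    have z2 := Z2_scale s hCM hxy0
    have p3 := Z3_nonneg s hxy0
    have p2 := Z2_nonneg s hxy0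
    have hZ : Z3 s (x i * y j) + Z2 s (x i * y j) =
        (s:ℝ)^(-(1-1/2):ℝ) * (x i * y j)^(1/2:ℝ) + (s:ℝ)^(-(1-(1/2+eps1))) * (x i * y j)^(1/2+eps1) +
        (s:ℝ)^(-(1-(1/2+eps2))) * (x i * y j)^(1/2+eps2) := by
      unfold Z3 Z2
      have a1 : -(1-1/2:ℝ) = -(1/2) := by norm_num
      have a2 : -(1-(1/2+eps1)) = -(1/2-eps1) := by ring
      have a3 : -(1-(1/2+eps2)) = -(1/2-eps2) := by ring
      rw [a1, a2, a3]; ring
    have hZ2 : Z2 s (x i * y j) = (s:ℝ)^(-(1-(1/2+eps2))) * (x i * y j)^(1/2+eps2) := by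
      unfold Z2
      have a3 : -(1-(1/2+eps2)) = -(1/2-eps2) := by ring
      rw [a3]
    have hq : 0 ≤ ((s:ℝ)^(-(47/100):ℝ))^(dst i j - 1) := by positivity
    have hCp : 0 ≤ ℓ^C := by positivity
    refine add_le_add ?_ ?_
    · rw [e3, ← hZ]
      refine mul_le_mul_of_nonneg_left ?_ hq
      calc ℓ^C * (Z3 s (CM * (x i * y j)) + Z2 s (CM * (x i * y j)))
          ≤ ℓ^C * (CM * Z3 s (x i * y j) + CM * Z2 s (x i * y j)) := by gcongr
        _ = ℓ^C * (CM * (Z3 s (x i * y j) + Z2 s (x i * y j))) := by ring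
        _ ≤ ℓ^C * (ℓ * (Z3 s (x i * y j) + Z2 s (x i * y j))) := by gcongr
        _ = _ := by ring
    · generalize alf A s a₀ (if i < j then θ else θ') = α at al0
      by_cases hd : dst i j = 1
      · rw [if_pos hd, if_pos hd, e3]
        calc ℓ^C * (α * Z2 s (CM * (x i * y j)))
            ≤ ℓ^C * (α * (ℓ * Z2 s (x i * y j))) := by
              have : Z2 s (CM * (x i * y j)) ≤ ℓ * Z2 s (x i * y j) :=
                z2.trans (mul_le_mul_of_nonneg_right hCMℓ p2)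
              gcongr
          _ = _ := by rw [hZ2]; ring
      · rw [if_neg hd, if_neg hd]

end all

end Crest.Agent.R4P.PotSum32
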