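import Crest.Agent.R4P.ClsCtx_36
import Crest.Agent.R4P.PotSum_32

/-!
R4P (S0004), helper36, group [X]: **the class numbers of helper32 at a crossing state, in effective exponents**.

* `CO.shift`, `CE.shift`, `CW.shift` : transport of the class bounds along a shift of the classes.
* `CF.ax` : the item facts of a crossing state; `cls_shift` : `fe` against `ec`; `blkE` : the blocks.
* `ctx_CO` : `CO` at a crossing state.
-/

set_option autoImplicit false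
set_option linter.unusedSectionVars false
set_option linter.unusedVariables false

namespace Crest.Agent.R4P.ClsSh36

open Crest.Agent.R4.Tour104 Crest.Agent.R4.Tour758 Crest.Agent.R4.Avg758 Crest.Agent.R4.Clos758
open Crest.Agent.R4.ClosL758 Crest.Agent.R4.ClosG758 Crest.Agent.R4.ClosR758
open Crest.Agent.R4.Fam464 Crest.Agent.R4P.Cnt588 Crest.Agent.R4P.Walk560 Crest.Agent.R4.Piece464
open Crest.Agent.R4P.Item758 Crest.Agent.R4P.AvgItem710
open Crest.Agent.R4P.Data758 Crest.Agent.R4P.WalkIT579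
open Crest.Agent.R4P.Bld532 (NS All NodeOk Bk)
open Crest.Agent.R4P.Res927 Crest.Agent.R4P.GSt927 Crest.Agent.R4P.OSWS245
open Crest.Agent.R4P.Skel189 (Ctx top Part PartW)
open Crest.Agent.R4.Soft104
open Crest.Agent.R4P.StratX36 Crest.Agent.R4P.CrsFacts26 Crest.Agent.R4P.AsmX26
open Crest.Agent.R4P.StratN36 (ex)
open Crest.Agent.R4P.ClsSum
open Crest.Agent.R4.HVW560 (dst)
open Crest.Agent.R4P.NumCls32 Crest.Agent.R4P.StripP33 Crest.Agent.R4P.ShotP33 Crest.Agent.R4P.BrP33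
open Crest.Agent.R4P.ShotTot33 (fe mc)
open Crest.Agent.R4P.KindTab36 (cm)
open Crest.Agent.R4P.KindPay36 (CO CE CW)
open Crest.Agent.R4.DeepSt579 (tq tq_nonneg tq_mono rd)
open Crest.Agent.R4.ClsB (Tame)
open Crest.Agent.R4.ClsS (eps1)
open Crest.Agent.R4.ShotG223 (eps2)
open Crest.Agent.R4P.OSFin710 (OB)
open Crest.Agent.R4P.ClsCtx36 Crest.Agent.R4P.PotSum32
open Crest.Agent.R4P

/-! ### transport -/

section shift
variable {b : ℕ} {C K₁ δ s₁ s₂ : ℝ} {al al' : ℕ → ℕ → ℝ} {tw tw' x y x' y' : ℕ → ℝ} {φ φ' : ℕ → ℕ → ℝ}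

lemma CO_shift (h : CO b C s₁ s₂ al x y φ) (hx : ∀ i, 0 ≤ x' i) (hy : ∀ j, 0 ≤ y' j)
    (hal : ∀ i j, 0 ≤ al' i j)
    (H : ∀ i j, i ≠ j → φ' i j ≤ 0 ∨ ∃ a a', a ≠ a' ∧ dst a a' = dst i j ∧ φ' i j ≤ φ a a' ∧
      x a = x' i ∧ y a' = y' j ∧ al a a' ≤ al' i j) : CO b C s₁ s₂ al' x' y' φ' where
  x0 := hx
  y0 := hy
  al0 := hal
  le := fun i j hij => by
    have hl : 0 ≤ Real.log b := Real.log_natCast_nonneg b
    have hxi := hx i
    have hyj := hy j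
    have hal' := hal i j
    rcases H i j hij with h0 | ⟨a, a', ha, hd, h1, h2, h3, h4⟩
    · refine h0.trans ?_
      split_ifs <;> positivity
    · refine h1.trans ((h.le a a' ha).trans ?_)
      rw [h2, h3, hd]
      refine add_le_add le_rfl ?_
      split_ifs
      · gcongr
      · exact le_rfl

lemma CE_shift (h : CE b C K₁ δ s₁ tw x y φ) (hK : 0 ≤ K₁) (hx : ∀ i, 0 ≤ x' i) (hy : ∀ j, 0 ≤ y' j)
    (H : ∀ i, (φ' i i ≤ 0 ∧ tw' i = 0) ∨ ∃ a, φ' i i ≤ φ a a ∧ x a = x' i ∧ y a = y' i ∧ tw a = tw' i) :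
    CE b C K₁ δ s₁ tw' x' y' φ' where
  x0 := hx
  y0 := hy
  le := fun i => by
    have hl : 0 ≤ Real.log b := Real.log_natCast_nonneg b
    have hxi := hx i
    have hyj := hy i
    rcases H i with ⟨h0, h1⟩ | ⟨a, h1, h2, h3, h4⟩
    · rw [h1]
      refine h0.trans ?_
      positivity
    · refine h1.trans ((h.le a).trans ?_)
      rw [h2, h3, h4]
  tx := fun i => by
    rcases H i with ⟨h0, h1⟩ | ⟨a, h1, h2, h3, h4⟩
    · rw [h1]; exact mul_nonneg hK (hx i)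
    · rw [← h4, ← h2]; exact h.tx a
  ty := fun i => by
    have hl : 0 ≤ Real.log b := Real.log_natCast_nonneg b
    rcases H i with ⟨h0, h1⟩ | ⟨a, h1, h2, h3, h4⟩
    · rw [h1]; exact mul_nonneg (Real.rpow_nonneg hl _) (hy i)
    · rw [← h4, ← h3]; exact h.ty a

lemma CW_shift (h : CW b C s₁ s₂ x y φ) (hx : ∀ i, 0 ≤ x' i) (hy : ∀ j, 0 ≤ y' j)
    (H : ∀ i, φ' i i ≤ 0 ∨ ∃ a, φ' i i ≤ φ a a ∧ x a = x' i ∧ y a = y' i) :
    CW b C s₁ s₂ x' y' φ' where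
  x0 := hx
  y0 := hy
  le := fun i => by
    have hl : 0 ≤ Real.log b := Real.log_natCast_nonneg b
    have hxi := hx i
    have hyj := hy i
    rcases H i with h0 | ⟨a, h1, h2, h3⟩
    · refine h0.trans ?_
      have : 0 ≤ min (x' i) (y' i) := le_min hxi hyj
      positivity
    · refine h1.trans ((h.le a).trans ?_)
      rw [h2, h3]

end shift

/-! ### the blocks -/

/-- the block of two classes of effective exponents -/
noncomputable def blkE (b B B' : ℕ) (V W : Finset ℕ) (F : ℕ × ℕ → ℝ) (i j : ℕ) : ℝ :=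
  ∑ e ∈ (V.filter (fun q => ec b B q = i)) ×ˢ (W.filter (fun q => ec b B' q = j)), F e

section ctx
variable {N : Skel189.Num} {γ : ℝ} {p0 P₀ : ℕ} {X : Ctx N γ p0 P₀} {j₀ : X.c.Lam}
  {Q' : NS → IT → Prop} {b : ℕ} {z : X.Sta} {v v' : NS} {σ σ' : IT} {CL : ℝ}

/-- the items of `S'` -/
def SI (X : Ctx N γ p0 P₀) (S : Finset ℕ) : Finset ℕ := S.filter (fun q => q ∈ X.S')

lemma mem_SI {S : Finset ℕ} {q : ℕ} : q ∈ SI X S ↔ q ∈ S ∧ q ∈ X.S' := by
  unfold SI; rw [Finset.mem_filter]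

/-- **the item facts of a crossing state** -/
theorem CF.ax (h : CF X CL b z v v' σ σ') (hρ : ∀ q, 0 < X.c.rr q) :
    AX CL b z.M v.B v.A 1 z.M' v'.B v'.A 1 X.c.rr (SI X σ.items) (SI X σ'.items) where
  hs := h.bp
  hρ := hρ
  hb := h.L.B0
  hc := one_pos
  hb' := h.R.B0
  hc' := one_pos
  hM := h.M0
  hM' := h.M0'
  gM := fun l hl hd _ => h.gM l hl hd
  gM' := fun l hl hd _ => h.gM' l hl hd
  hsM := erase_le h.sM
  hsM' := erase_le h.sM'
  hV := fun q hq => h.L.q0 q (mem_SI.1 hq).1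
  hW := fun q hq => h.R.q0 q (mem_SI.1 hq).1
  oV := fun q hq => h.L.on q (mem_SI.1 hq).1
  oW := fun q hq => h.R.on q (mem_SI.1 hq).1
  tV := fun z hz q hq => h.L.tame z hz q (mem_SI.1 hq).1 (mem_SI.1 hq).2
  tW := fun z hz q hq => h.R.tame z hz q (mem_SI.1 hq).1 (mem_SI.1 hq).2
  lV := fun q hq => h.L.lg q (mem_SI.1 hq).1 (mem_SI.1 hq).2
  lW := fun q hq => h.R.lg q (mem_SI.1 hq).1 (mem_SI.1 hq).2

/-- `fe` against `ec` -/
lemma fe_ec {N A B q : ℕ} (hA : A ∣ q) (hq : 0 < q) :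
    fe b N A q + (ex b A + ex b B) = ec b B q + N.factorization b := by
  have := fac_div' (b := b) hA hq
  unfold fe ec
  omega

/-- the class of `fe` and the class of `ec` -/
lemma filter_fe {N A B : ℕ} {V : Finset ℕ} (hV : ∀ q ∈ V, 0 < q ∧ A ∣ q) {a i : ℕ}
    (h : a + (ex b A + ex b B) = i + N.factorization b) :
    V.filter (fun q => ec b B q = i) = V.filter (fun q => fe b N A q = a) := by
  refine Finset.filter_congr fun q hq => ?_
  have := fe_ec (b := b) (N := N) (B := B) (hV q hq).2 (hV q hq).1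
  omega

/-- the classes of a block -/
theorem cls_shift (h : CF X CL b z v v' σ σ') {V W : Finset ℕ} (hV : V ⊆ σ.items) (hW : W ⊆ σ'.items)
    (i j : ℕ) : (V.filter (fun q => ec b v.B q = i) = ∅ ∨ W.filter (fun q => ec b v'.B q = j) = ∅) ∨
    ∃ a a', a + (ex b v.A + ex b v.B) = i + z.M'.factorization b ∧
      a' + (ex b v'.A + ex b v'.B) = j + z.M.factorization b ∧
      (a = a' ↔ i = j) ∧ dst a a' = dst i j ∧ (a < a' ↔ i < j) := by
  by_cases h1 : V.filter (fun q => ec b v.B q = i) = ∅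
  · exact Or.inl (Or.inl h1)
  by_cases h2 : W.filter (fun q => ec b v'.B q = j) = ∅
  · exact Or.inl (Or.inr h2)
  right
  obtain ⟨q, hq⟩ := Finset.nonempty_iff_ne_empty.2 h1
  obtain ⟨r, hr⟩ := Finset.nonempty_iff_ne_empty.2 h2
  obtain ⟨q1, q2⟩ := Finset.mem_filter.1 hq
  obtain ⟨r1, r2⟩ := Finset.mem_filter.1 hr
  obtain ⟨q0, qA⟩ := h.L.q0 q (hV q1)
  obtain ⟨r0, rA⟩ := h.R.q0 r (hW r1)
  have e1 := fe_ec (b := b) (N := z.M') (B := v.B) qA q0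
  have e2 := fe_ec (b := b) (N := z.M) (B := v'.B) rA r0
  have hc := circ_ex (b := b) h.circ (Nat.pos_of_dvd_of_pos qA q0) h.L.B0 h.M0
    (Nat.pos_of_dvd_of_pos rA r0) h.R.B0 h.M0'
  refine ⟨fe b z.M' v.A q, fe b z.M v'.A r, by rw [e1, q2], by rw [e2, r2], ?_, ?_, ?_⟩
  · omega
  · unfold dst; omega
  · omega

/-- masses of the classes of `fe` -/
lemma mc_le {M K : ℕ} {u : NS} {τ : IT} (h : SFX X CL b M u τ) (hc : 0 ≤ u.c) (a : ℕ) :
    mc b K u.B u.A 1 X.c.rr (SI X τ.items) a ≤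
      cm (w X.ψ) u.c b (ex b u.B) τ.items (a + (ex b u.A + ex b u.B) - K.factorization b) := by
  have hcm : 0 ≤ cm (w X.ψ) u.c b (ex b u.B) τ.items (a + (ex b u.A + ex b u.B) - K.factorization b) := by
    unfold KindTab36.cm
    exact mul_nonneg hc (Bld532.Ws_nonneg X.hW _)
  unfold mc
  refine sfx_mass h hc fun q hq => ?_
  obtain ⟨h1, h2⟩ := Finset.mem_filter.1 hq
  obtain ⟨h3, h4⟩ := mem_SI.1 h1
  refine mem_AI.2 ⟨h3, ?_, h4⟩
  obtain ⟨q0, qA⟩ := h.q0 q h3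
  have := fe_ec (b := b) (N := K) (B := u.B) qA q0
  omega

/-- **the class numbers at a crossing state, different classes** -/
theorem ctx_CO {C0 CT cl K A : ℝ} {s₁ : ℕ} (hbox : Box C0 CT cl CL s₁ K)
    (hs₁ : s₁ ≤ b) (hsl : (200 * Real.log b)^(3:ℝ) ≤ (b:ℝ)^(1:ℝ)) (hℓ : 4 ≤ Real.log b) (hA : 0 ≤ A)
    {a₀ : ℕ} (ha₀ : 1 ≤ a₀) (ha₀' : a₀ ≤ b) (hρ : ∀ q, 0 < X.c.rr q)
    (h : CF X CL b z v v' σ σ') (hc : 0 ≤ v.c) (hc' : 0 ≤ v'.c)
    {m m' : ℕ → Finset ℕ} (hm : ∀ q ∈ SI X σ.items, ∑ l ∈ m q, (l:ℝ)^(-(11/12):ℝ) ≤ 1)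
    (hm' : ∀ q ∈ SI X σ'.items, ∑ l ∈ m' q, (l:ℝ)^(-(11/12):ℝ) ≤ 1)
    {T : Finset ℕ} (hT : ∀ l ∈ T, l.Prime ∧ l ≤ b) {FX : ℕ → ℕ × ℕ → ℝ} {FA : ℕ × ℕ → ℝ} {θ θ' : ℝ}
    (h0 : ∀ l ∈ T, ∀ e ∈ SI X σ.items ×ˢ SI X σ'.items, l ∉ m e.1 → l ∉ m' e.2 → FX l e ≤ 0)
    (hFA : FAll C0 CT cl b z.M v.B v.A 1 z.M' v'.B v'.A 1 a₀ γ θ θ' X.c.rr (SI X σ.items)
      (SI X σ'.items) FA)
    (hF : ∀ l ∈ T, FAll C0 CT cl b z.M (v.B * l) v.A 1 z.M' (v'.B * l) v'.A 1 l γ ((l:ℝ) * θ)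
      ((l:ℝ) * θ') X.c.rr (SI X σ.items) (SI X σ'.items) (fun e => (l:ℝ)^2 * FX l e))
    {al : ℕ → ℕ → ℝ} (hal : ∀ i j, alf A b a₀ (if i < j then θ else θ') ≤ al i j) :
    CO b (K + A*(6/1000) + 3) (1/2+eps1) (1/2+eps2) al
      (cm (w X.ψ) v.c b (ex b v.B) σ.items) (cm (w X.ψ) v'.c b (ex b v'.B) σ'.items)
      (blkE b v.B v'.B (SI X σ.items) (SI X σ'.items) (fun e => FA e + ∑ l ∈ T, FX l e)) := by
  have cm0 : ∀ (u : NS) (τ : IT), 0 ≤ u.c → ∀ i, 0 ≤ cm (w X.ψ) u.c b (ex b u.B) τ.items i := fun u τ h i =>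
    mul_nonneg h (Bld532.Ws_nonneg X.hW _)
  have key := CO_of (V := SI X σ.items) (W := SI X σ'.items) (m := m) (m' := m') (T := T) (FX := FX) (FA := FA)
    (θ := θ) (θ' := θ') hbox hs₁ hsl hℓ hA ha₀ ha₀' (CF.ax h hρ) hm hm' hT h0 hFA hF
    (x := fun a => cm (w X.ψ) v.c b (ex b v.B) σ.items
      (a + (ex b v.A + ex b v.B) - z.M'.factorization b))
    (y := fun a => cm (w X.ψ) v'.c b (ex b v'.B) σ'.items
      (a + (ex b v'.A + ex b v'.B) - z.M.factorization b))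
    (CM := 1) le_rfl (by linarith) (fun i => cm0 v σ hc _) (fun i => cm0 v' σ' hc' _)
    (fun i j => by
      rw [one_mul]
      refine mul_le_mul (mc_le h.L hc i) (mc_le h.R hc' j) ?_ (cm0 v σ hc _)
      exact (CF.ax h hρ).bx 0 0 |>.y0 _)
  refine CO_shift key (cm0 v σ hc) (cm0 v' σ' hc') (fun i j => (alf_nonneg _ _ _ _).trans (hal i j)) ?_
  intro i j hij
  rcases cls_shift h (V := SI X σ.items) (W := SI X σ'.items) (fun q hq => (mem_SI.1 hq).1)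
    (fun q hq => (mem_SI.1 hq).1) i j with h1 | ⟨a, a', e1, e2, e3, e4, e5⟩
  · left
    unfold blkE
    rcases h1 with h1 | h1
    · rw [h1, Finset.empty_product, Finset.sum_empty]
    · rw [h1, Finset.product_empty, Finset.sum_empty]
  · right
    refine ⟨a, a', fun he => hij (e3.1 he), e4, ?_, ?_, ?_, ?_⟩
    · unfold blkE PotSum32.blk
      rw [filter_fe (N := z.M') (fun q hq => h.L.q0 q (mem_SI.1 hq).1) e1,
        filter_fe (N := z.M) (fun q hq => h.R.q0 q (mem_SI.1 hq).1) e2]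
    · show cm _ _ _ _ _ (a + (ex b v.A + ex b v.B) - z.M'.factorization b) = _
      congr 1
      omega
    · show cm _ _ _ _ _ (a' + (ex b v'.A + ex b v'.B) - z.M.factorization b) = _
      congr 1
      omega
    · refine le_trans (le_of_eq ?_) (hal i j)
      by_cases hlt : i < j
      · rw [if_pos hlt, if_pos (e5.2 hlt)]
      · rw [if_neg hlt, if_neg (fun h => hlt (e5.1 h))]

/-- the sum over all the pairs is the sum over the blocks -/
theorem sum_blkE (b B B' : ℕ) (V W : Finset ℕ) : ∃ n : ℕ, ∀ F : ℕ × ℕ → ℝ,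
    ∑ e ∈ V ×ˢ W, F e = KindPay36.offS n (blkE b B B' V W F) + KindPay36.eqS n (blkE b B B' V W F) := by
  refine ⟨(V.sup (ec b B) + W.sup (ec b B')) + 1, fun F => ?_⟩
  refine KindTab36.pair_split (ec b B) (ec b B') F (fun q hq => ?_) (fun q hq => ?_)
  · have := Finset.le_sup (f := ec b B) hq
    omega
  · have := Finset.le_sup (f := ec b B') hq
    omega

end ctx

end Crest.Agent.R4P.ClsSh36
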