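import Crest.Agent.R4.ClsT2_944

/-!
R4P (S0004, all `q`), helper24: two-target classes with the structure threshold `N = t^{1/10}` and the
exponent `1006/1000` (copy of helper944's `ClsTBs`, `ClsT2`, with other numbers and without the third
case): for pairs whose decisive cofactor is unstructured at the level `t^{1/10}`.
-/

set_option autoImplicit false
open Finset

namespace Crest.Agent.R4P.ClsT4

open Crest.Agent.R4 Crest.Agent.R4.HVW560 Crest.Agent.R4.Smo944 Crest.Agent.R4.LF10 Crest.Agent.R016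
open Crest.Agent.R4.LF765 Crest.Agent.R4.ClsS Crest.Agent.R4.ClsU Crest.Agent.R4.LF9
open Crest.Agent.R4.LF8
open Crest.Agent.R4.ClsTBs (PairBT betaHyp)
open Crest.Agent.R4.ClsT2 (PairSS count_blockS numS twohundred_rpow swap_sys swap_sum rel_swap)
open Crest.Agent.R4.ClsB (dyadic_sum dyadic_triv BBp bet bet_nonneg exists_sumT Af_tame dvd_sp log_sp
  Nt one_le_Nt two_Nt Nt_le inv_Nt_le twohundred_Nt NumB Tame exists_NumB part2)

/-- sum over the relation of class (S) -/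
theorem exists_sum_RS {κ : ℝ} (hκ : 0 ≤ κ) : ∃ C c0 : ℝ, 1 ≤ C ∧ 0 < c0 ∧
    ∀ (θ θ' t Yb : ℝ) (R : Finset (ℕ × ℕ)), 2^10 ≤ t → Yb ≤ Real.exp (t^c0) →
    (∀ e ∈ R, PairSS θ θ' t (t^(1/10:ℝ)) Yb e.1 e.2) →
    ∑ e ∈ R, wn κ e.1 * wn κ e.2 ≤ C * t^(-(3/80):ℝ) := by
  classical
  set K : ℝ := κ * Sm 6 + κ^2 * Sm 12 with hK
  have hS6 := (Sm_pos 6).le
  have hS12 := (Sm_pos 12).le
  have hK0 : 0 ≤ K := by positivity
  set c0 : ℝ := 1/(80*(K+1)) with hc0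
  have hc0p : 0 < c0 := by positivity
  refine ⟨4 * Real.exp (6*K), c0, ?_, hc0p, ?_⟩
  · have : 1 ≤ Real.exp (6*K) := Real.one_le_exp (by positivity)
    linarith
  intro θ θ' t Yb R ht hYb hR
  have ht0 : 0 < t := by linarith
  have ht1 : 1 ≤ t := by linarith
  rcases R.eq_empty_or_nonempty with rfl | hne
  · rw [Finset.sum_empty]; positivity
  set N : ℝ := t^(1/10:ℝ) with hN
  have hN1 : 1 ≤ N := Real.one_le_rpow ht1 (by norm_num)
  have hN200 : 200 * N ≤ t := twohundred_rpow ht (by norm_num)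
  have hYb0 : 0 ≤ Yb := by
    obtain ⟨e, he⟩ := hne
    exact le_trans (by positivity) (hR e he).hyY
  set z : ℕ := max 2 ⌊Yb⌋₊ with hz
  have hz2 : 2 ≤ z := le_max_left _ _
  have hzY : ∀ n : ℕ, (n:ℝ) ≤ Yb → n ≤ z := fun n hn => (Nat.le_floor hn).trans (le_max_right _ _)
  have hsm : ∀ n : ℕ, 0 < n → (n:ℝ) ≤ Yb → ∀ p, p.Prime → p ∣ n → p ≤ z := fun n hn hnY p _ hpn =>
    (Nat.le_of_dvd hn hpn).trans (hzY n hnY)
  have hy0 : ∀ e ∈ R, 1 < e.2 := by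
    intro e he
    have h := (hR e he).hN
    have : (1:ℝ) < e.2 := by linarith
    exact_mod_cast this
  have hX : Smooth z (R.image Prod.fst) := by
    intro b hb
    obtain ⟨e, he, rfl⟩ := Finset.mem_image.1 hb
    have h := hR e he
    exact ⟨h.hx, hsm _ h.hx h.hxY⟩
  have hY : Smooth z (R.image Prod.snd) := by
    intro b hb
    obtain ⟨e, he, rfl⟩ := Finset.mem_image.1 hb
    have h := hR e he
    have h0 : 0 < e.2 := by have := hy0 e he; omega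
    exact ⟨h0, hsm _ h0 h.hyY⟩
  have hLle : ∀ e ∈ R, e.2 ≤ 2^(Nat.clog 2 z) := by
    intro e he
    exact (hzY _ (hR e he).hyY).trans (Nat.le_pow_clog (by norm_num) _)
  have key := sum_R_le hκ hz2 (ρ := 4/N) (by positivity) (Nat.clog 2 z) R hX hY hy0 hLle
    (count_blockS hN1 hN200 R hR)
  rw [← hK] at key
  refine key.trans ((numS hK0 hc0p ht1 hYb hYb0 hN1).trans ?_)
  apply mul_le_mul_of_nonneg_left _ (by positivity)
  rw [hN, ← Real.rpow_mul ht0.le, ← Real.rpow_add ht0]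
  apply Real.rpow_le_rpow_of_exponent_le ht1
  have : c0 * (1/2 + K) ≤ 1/80 := by
    rw [hc0, div_mul_eq_mul_div, div_le_div_iff₀ (by positivity) (by norm_num)]
    nlinarith
  linarith

/-- **class (S)**, one orientation -/
theorem classSS : ∃ C c0 : ℝ, 1 ≤ C ∧ 0 < c0 ∧
    ∀ (θ θ' t Yb : ℝ) (V W : Finset ℕ) (E : Finset (ℕ × ℕ)) (ψ ψ' : ℕ → ℝ), 2^10 ≤ t →
    Yb ≤ Real.exp (t^c0) → Sys V W E ψ ψ' (1/t) →
    (∀ e ∈ E, PairSS θ θ' t (t^(1/10:ℝ)) Yb (cof e.1 e.2) (cof e.2 e.1)) →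
    ∑ e ∈ E, wt ψ e.1 * wt ψ' e.2 * (Af (cof e.1 e.2) * Af (cof e.2 e.1))
      ≤ C * t^(-(1006/1000):ℝ) * ((∑ v ∈ V, wt ψ v) * (∑ w ∈ W, wt ψ' w))^(1/2+eps1) := by
  classical
  have hε : (0:ℝ) < eps1 := by unfold eps1; norm_num
  have hε4 : eps1 ≤ 1/4 := by unfold eps1; norm_num
  obtain ⟨C, c0, hC1, hc0, hC⟩ := exists_sum_RS (κ := 16*(72/eps1)^3) (by positivity)
  refine ⟨C, c0, hC1, hc0, ?_⟩
  intro θ θ' t Yb V W E ψ ψ' ht hYb hs hE
  have ht0 : 0 < t := by linarith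
  have ht1 : 1 ≤ t := by linarith
  have key := energy_R hε hε4 hs
  have hR := hC θ θ' t Yb (E.image (fun e => (cof e.1 e.2, cof e.2 e.1))) ht hYb (by
    intro e he
    obtain ⟨e', he', rfl⟩ := Finset.mem_image.1 he
    exact hE e' he')
  refine key.trans ?_
  have hM : 0 ≤ (∑ v ∈ V, wt ψ v) * (∑ w ∈ W, wt ψ' w) :=
    mul_nonneg (Finset.sum_nonneg fun v hv => wt_nonneg (hs.hψ v hv))
      (Finset.sum_nonneg fun v hv => wt_nonneg (hs.hθ v hv))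
  rw [← mul_assoc]
  apply mul_le_mul_of_nonneg_right _ (by positivity)
  have hR0 : 0 ≤ ∑ x ∈ E.image (fun e => (cof e.1 e.2, cof e.2 e.1)),
      wn (16*(72/eps1)^3) x.1 * wn (16*(72/eps1)^3) x.2 :=
    Finset.sum_nonneg fun x _ => mul_nonneg (wn_nonneg (by positivity) _) (wn_nonneg (by positivity) _)
  have h1 : (∑ x ∈ E.image (fun e => (cof e.1 e.2, cof e.2 e.1)),
      wn (16*(72/eps1)^3) x.1 * wn (16*(72/eps1)^3) x.2)^(1/2-eps1) ≤ C * t^(-(3/80)*(1/2-eps1)) := by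
    calc _ ≤ (C * t^(-(3/80):ℝ))^(1/2-eps1) :=
          Real.rpow_le_rpow hR0 hR (by unfold eps1; norm_num)
      _ = C^(1/2-eps1) * t^(-(3/80)*(1/2-eps1)) := by
          rw [Real.mul_rpow (by positivity) (by positivity), ← Real.rpow_mul ht0.le]
      _ ≤ C * t^(-(3/80)*(1/2-eps1)) := by
          apply mul_le_mul_of_nonneg_right _ (by positivity)
          calc C^(1/2-eps1) ≤ C^(1:ℝ) :=
                Real.rpow_le_rpow_of_exponent_le hC1 (by unfold eps1; norm_num)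
            _ = C := Real.rpow_one C
  have h2 : (1/t)^(1-2*eps1) = t^(-(1-2*eps1)) := by
    rw [one_div, Real.inv_rpow ht0.le, Real.rpow_neg ht0.le]
  rw [h2]
  calc t^(-(1-2*eps1)) * _ ≤ t^(-(1-2*eps1)) * (C * t^(-(3/80)*(1/2-eps1))) :=
        mul_le_mul_of_nonneg_left h1 (by positivity)
    _ = C * (t^(-(1-2*eps1)) * t^(-(3/80)*(1/2-eps1))) := by ring
    _ ≤ C * t^(-(1006/1000):ℝ) := by
        apply mul_le_mul_of_nonneg_left _ (by linarith)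
        rw [← Real.rpow_add ht0]
        apply Real.rpow_le_rpow_of_exponent_le ht1
        unfold eps1; norm_num

/-! ### the third case -/

/-- part 1: the smooth part of `y` is at most `B1` -/
theorem part1 {ε : ℝ} (hε : 0 < ε) (hε4 : ε ≤ 1/4) : ∃ C K : ℝ, 1 ≤ C ∧ 0 ≤ K ∧
    ∀ (c1 θ θ' t : ℝ) (V W : Finset ℕ) (E : Finset (ℕ × ℕ)) (ψ ψ' : ℕ → ℝ) (G : ℕ), 0 < c1 →
    NumB ε c1 t → Sys V W E ψ ψ' (1/t) → 0 < G →
    (∀ q ∈ V, Tame (Real.exp (t^c1)) G q) → (∀ q ∈ W, Tame (Real.exp (t^c1)) G q) →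
    (∀ e ∈ E, PairBT θ θ' t (t^(1/10:ℝ)) (Real.exp (t^(3*c1))) (cof e.1 e.2) (cof e.2 e.1)) →
    (∀ e ∈ E, ((sp (fun p : ℕ => (p:ℝ) ≤ Real.exp (t^c1)) (cof e.2 e.1) : ℕ) : ℝ) ≤ Real.exp (t^(2*c1))) →
    ∑ e ∈ E, wt ψ e.1 * wt ψ' e.2
      ≤ C * ((1/t)^(1-2*ε) * (t^(c1*K - 1/50))^(1/2-ε) *
        ((∑ v ∈ V, wt ψ v) * (∑ w ∈ W, wt ψ' w))^(1/2+ε)) := by
  classical
  set κ : ℝ := (72/ε)^3 with hκd
  have hκ : 0 ≤ κ := by positivity
  obtain ⟨CT, hCT1, hCT⟩ := exists_sumT hκ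
  have hSm := (Sm_pos 6).le
  set K0 : ℝ := κ * Sm 6 with hK0
  have hK00 : 0 ≤ K0 := by positivity
  have hu : 0 < 1/2 - ε := by linarith
  set C0 : ℝ := Real.exp (2 + 2/ε) with hC0
  have hC01 : 1 ≤ C0 := Real.one_le_exp (by positivity)
  set C1 : ℝ := CT * (Real.exp (12*K0)) * 2 with hC1
  have hC11 : 1 ≤ C1 := by
    have : 1 ≤ Real.exp (12*K0) := Real.one_le_exp (by positivity)
    nlinarith
  refine ⟨C0 * C1, 2*K0, by nlinarith, by positivity, ?_⟩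
  intro c1 θ θ' t V W E ψ ψ' G hc1 hnum hs hG hVt hWt hP hB
  have ht := hnum.ht
  have ht0 : (0:ℝ) < t := lt_of_lt_of_le (by norm_num) ht
  have ht1 : (1:ℝ) ≤ t := le_trans (by norm_num) ht
  set z : ℝ := Real.exp (t^c1) with hz
  set B1 : ℝ := Real.exp (t^(2*c1)) with hB1
  set Yb : ℝ := Real.exp (t^(3*c1)) with hYb
  set N : ℝ := Nt t with hN
  have hN1 : 1 ≤ N := one_le_Nt ht
  have hNN : N ≤ Nt t := le_rfl
  have hN0 : 0 < N := by linarith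
  have hz1 : 1 ≤ z := Real.one_le_exp (by positivity)
  have hz2 : 2 ≤ z := by
    have := Real.add_one_le_exp (t^c1)
    have := hnum.h16
    linarith
  have hB11 : 1 ≤ B1 := Real.one_le_exp (by positivity)
  have hYb0 : 0 < Yb := Real.exp_pos _
  have hwnn : ∀ v ∈ V, 0 ≤ wt ψ v := fun v hv => wt_nonneg (hs.hψ v hv)
  have hwnn' : ∀ v ∈ W, 0 ≤ wt ψ' v := fun v hv => wt_nonneg (hs.hθ v hv)
  have hdivV : ∀ q ∈ V, q = G * (q / G) := fun q hq => (Nat.mul_div_cancel' (hVt q hq).1).symm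
  have hdivW : ∀ q ∈ W, q = G * (q / G) := fun q hq => (Nat.mul_div_cancel' (hWt q hq).1).symm
  have hcof : ∀ e ∈ E, cof (e.1/G) (e.2/G) = cof e.1 e.2 ∧ cof (e.2/G) (e.1/G) = cof e.2 e.1 := by
    intro e he
    have hm := Finset.mem_product.1 (hs.hE he)
    have h1 := hdivV _ hm.1
    have h2 := hdivW _ hm.2
    constructor
    · conv_rhs => rw [h1, h2, cof_mul_left hG]
    · conv_rhs => rw [h1, h2, cof_mul_left hG]
  have hposV : ∀ q ∈ V, 0 < q / G := fun q hq =>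
    Nat.div_pos (Nat.le_of_dvd (hs.hV q hq) (hVt q hq).1) hG
  have hposW : ∀ q ∈ W, 0 < q / G := fun q hq =>
    Nat.div_pos (Nat.le_of_dvd (hs.hW q hq) (hWt q hq).1) hG
  set β : ℕ → ℕ → ℝ := fun _ b => bet θ t N B1 Yb b with hβ
  have key := lf9_full hε hε4 (Real.exp_pos (2+2/ε)).le (by positivity : (0:ℝ) ≤ ε/16)
    (thmR hε hε4) hnum.hz0 hz1 V W E (fun q => q/G) (fun q => q/G) (wt ψ) (wt ψ') (1/t)
    (PairBT θ θ' t (2*N^5) Yb) β (by positivity) hposV hposW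
    (by
      intro a ha b hb hab
      rw [hdivV a ha, hdivV b hb]
      simp only at hab
      rw [hab])
    (by
      intro a ha b hb hab
      rw [hdivW a ha, hdivW b hb]
      simp only at hab
      rw [hab])
    hwnn hwnn' hs.hE (fun q hq => (hVt q hq).2) (fun q hq => (hWt q hq).2)
    (by
      intro e he
      have hm := Finset.mem_product.1 (hs.hE he)
      rw [(hcof e he).1]
      refine le_trans ?_ (hs.h1 e he)
      apply mul_le_mul_of_nonneg_left _ (by positivity)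
      unfold wt
      have := totient_ratio_le_one e.2
      have h2 := hs.hθ _ hm.2
      nlinarith)
    (by
      intro e he
      have hm := Finset.mem_product.1 (hs.hE he)
      rw [(hcof e he).2]
      refine le_trans ?_ (hs.h2 e he)
      apply mul_le_mul_of_nonneg_left _ (by positivity)
      unfold wt
      have := totient_ratio_le_one e.1
      have h2 := hs.hψ _ hm.1
      nlinarith)
    (by
      intro e he
      rw [(hcof e he).1, (hcof e he).2, hN, two_Nt ht0]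
      exact hP e he)
    (fun a b => bet_nonneg hN0 b)
    (by
      intro a b _ hb0 _ _ hbS himg
      apply betaHyp hN1 (by have := twohundred_Nt ht; linarith) hB11 (hNN.trans hnum.hN) hb0
      obtain ⟨_, _, _, _, hxS, e, he, _, _, hdvd, _, _⟩ := mem_image_sp (fun p : ℕ => (p:ℝ) ≤ z)
        hposV hposW hs.hE himg
      rw [(hcof e he).2] at hdvd
      have hm := Finset.mem_product.1 (hs.hE he)
      have hy := cof_pos (w := e.1) (hs.hW _ hm.2)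
      have h1 := dvd_sp (fun p : ℕ => (p:ℝ) ≤ z) hy hxS hdvd
      have h2 := Nat.le_of_dvd (sp_pos _ hy) h1
      exact le_trans (by exact_mod_cast h2) (hB e he))
  refine key.trans ?_
  set img := E.image (fun e => (cof (sp (fun p : ℕ => (p:ℝ) ≤ z) (e.1/G)) (sp (fun p : ℕ => (p:ℝ) ≤ z) (e.2/G)),
            cof (sp (fun p : ℕ => (p:ℝ) ≤ z) (e.2/G)) (sp (fun p : ℕ => (p:ℝ) ≤ z) (e.1/G)))) with himg
  have hzf2 : 2 ≤ ⌊z⌋₊ := Nat.le_floor (by exact_mod_cast hz2)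
  have hprops : ∀ x ∈ img, 0 < x.1 ∧ 0 < x.2 ∧ (∀ p, p.Prime → p ∣ x.1 → p ≤ ⌊z⌋₊) ∧
      (∀ p, p.Prime → p ∣ x.2 → p ≤ ⌊z⌋₊) ∧ (x.2:ℝ) ≤ B1 := by
    intro x hx
    obtain ⟨h1, h2, _, h4, h5, e, he, _, _, hdvd, _, _⟩ := mem_image_sp (fun p : ℕ => (p:ℝ) ≤ z)
      hposV hposW hs.hE hx
    refine ⟨h1, h2, fun p hp hd => Nat.le_floor (h4 p hp hd), fun p hp hd => Nat.le_floor (h5 p hp hd), ?_⟩
    rw [(hcof e he).2] at hdvd
    have hm := Finset.mem_product.1 (hs.hE he)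
    have hy := cof_pos (w := e.1) (hs.hW _ hm.2)
    have h6 := dvd_sp (fun p : ℕ => (p:ℝ) ≤ z) hy h5 hdvd
    have h7 := Nat.le_of_dvd (sp_pos _ hy) h6
    exact le_trans (by exact_mod_cast h7) (hB e he)
  have hT := hCT θ t N B1 Yb (z^(-(2*(ε/16)))) ⌊z⌋₊ img hzf2 ht0 hN1 hB11 hYb0
    (lt_of_le_of_lt (by gcongr) hnum.big) (by positivity)
    (hnum.hη.trans (one_div_le_one_div_of_le hN0 hNN))
    (by
      intro b hb
      obtain ⟨x, hx, rfl⟩ := Finset.mem_image.1 hb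
      exact ⟨(hprops x hx).1, (hprops x hx).2.2.1⟩)
    (by
      intro b hb
      obtain ⟨x, hx, rfl⟩ := Finset.mem_image.1 hb
      exact ⟨(hprops x hx).2.1, (hprops x hx).2.2.2.1⟩)
    (fun x hx => (hprops x hx).2.2.2.2)
  -- numerics
  have hlogz : Real.log ⌊z⌋₊ ≤ t^c1 := by
    have h0 : (0:ℝ) < (⌊z⌋₊:ℝ) := by positivity
    calc Real.log ⌊z⌋₊ ≤ Real.log z := Real.log_le_log h0 (Nat.floor_le (by linarith))
      _ = t^c1 := by rw [hz, Real.log_exp]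
  have hlogz0 : 0 < Real.log ⌊z⌋₊ := Real.log_pos (by
    have : (2:ℝ) ≤ (⌊z⌋₊:ℝ) := by exact_mod_cast hzf2
    linarith)
  have hX : Real.exp (K0 * (Real.log (Real.log ⌊z⌋₊) + 6)) ≤ Real.exp (6*K0) * t^(c1*K0) := by
    have h2 : Real.log (Real.log ⌊z⌋₊) ≤ c1 * Real.log t := by
      calc Real.log (Real.log ⌊z⌋₊) ≤ Real.log (t^c1) := Real.log_le_log hlogz0 hlogz
        _ = c1 * Real.log t := Real.log_rpow ht0 _
    have h3 : t^(c1*K0) = Real.exp (K0 * (c1 * Real.log t)) := by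
      rw [Real.rpow_def_of_pos ht0]; congr 1; ring
    rw [h3, ← Real.exp_add]
    apply Real.exp_le_exp.2
    nlinarith
  have hT2 : ∑ x ∈ img, wn κ x.1 * wn κ x.2 * (β x.1 x.2 + z^(-(2*(ε/16)))) ≤ C1 * t^(c1*(2*K0) - 1/50) := by
    refine hT.trans ?_
    have h1 : (Real.exp (κ * Sm 6 * (Real.log (Real.log ⌊z⌋₊) + 6)))^2 ≤ Real.exp (12*K0) * t^(c1*(2*K0)) := by
      calc (Real.exp (κ * Sm 6 * (Real.log (Real.log ⌊z⌋₊) + 6)))^2 ≤ (Real.exp (6*K0) * t^(c1*K0))^2 :=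
            pow_le_pow_left₀ (Real.exp_pos _).le hX 2
        _ = Real.exp (12*K0) * t^(c1*(2*K0)) := by
            rw [mul_pow, ← Real.exp_nat_mul, ← Real.rpow_natCast, ← Real.rpow_mul ht0.le]
            congr 1
            · congr 1; push_cast; ring
            · congr 1; push_cast; ring
    calc CT * (Real.exp (κ * Sm 6 * (Real.log (Real.log ⌊z⌋₊) + 6)))^2 / N
        = CT * (Real.exp (κ * Sm 6 * (Real.log (Real.log ⌊z⌋₊) + 6)))^2 * (1/N) := by ring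
      _ ≤ CT * (Real.exp (12*K0) * t^(c1*(2*K0))) * (2 * t^(-(1/50):ℝ)) := by
          apply mul_le_mul _ (inv_Nt_le ht) (by positivity) (by positivity)
          exact mul_le_mul_of_nonneg_left h1 (by linarith)
      _ = C1 * (t^(c1*(2*K0)) * t^(-(1/50):ℝ)) := by rw [hC1]; ring
      _ = C1 * t^(c1*(2*K0) - 1/50) := by rw [← Real.rpow_add ht0]; rfl
  have hT0 : 0 ≤ ∑ x ∈ img, wn κ x.1 * wn κ x.2 * (β x.1 x.2 + z^(-(2*(ε/16)))) := by
    apply Finset.sum_nonneg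
    intro x _
    exact mul_nonneg (mul_nonneg (wn_nonneg hκ _) (wn_nonneg hκ _))
      (add_nonneg (bet_nonneg hN0 _) (by positivity))
  have hT3 : (∑ x ∈ img, wn κ x.1 * wn κ x.2 * (β x.1 x.2 + z^(-(2*(ε/16)))))^(1/2-ε)
      ≤ C1 * (t^(c1*(2*K0) - 1/50))^(1/2-ε) := by
    calc _ ≤ (C1 * t^(c1*(2*K0) - 1/50))^(1/2-ε) := Real.rpow_le_rpow hT0 hT2 hu.le
      _ = C1^(1/2-ε) * (t^(c1*(2*K0) - 1/50))^(1/2-ε) := Real.mul_rpow (by linarith) (by positivity)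
      _ ≤ C1 * (t^(c1*(2*K0) - 1/50))^(1/2-ε) := by
          apply mul_le_mul_of_nonneg_right _ (by positivity)
          calc C1^(1/2-ε) ≤ C1^(1:ℝ) := Real.rpow_le_rpow_of_exponent_le hC11 (by linarith)
            _ = C1 := Real.rpow_one C1
  have hM : 0 ≤ (∑ v ∈ V, wt ψ v) * (∑ w ∈ W, wt ψ' w) :=
    mul_nonneg (Finset.sum_nonneg hwnn) (Finset.sum_nonneg hwnn')
  have hMs : 0 ≤ ((∑ v ∈ V, wt ψ v) * (∑ w ∈ W, wt ψ' w))^(1/2+ε) := by positivity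
  calc C0 * ((1/t)^(1-2*ε) * ((∑ x ∈ img, wn κ x.1 * wn κ x.2 * (β x.1 x.2 + z^(-(2*(ε/16)))))^(1/2-ε) *
        ((∑ v ∈ V, wt ψ v) * (∑ w ∈ W, wt ψ' w))^(1/2+ε)))
      ≤ C0 * ((1/t)^(1-2*ε) * ((C1 * (t^(c1*(2*K0) - 1/50))^(1/2-ε)) *
        ((∑ v ∈ V, wt ψ v) * (∑ w ∈ W, wt ψ' w))^(1/2+ε))) := by
        apply mul_le_mul_of_nonneg_left _ (by positivity)
        apply mul_le_mul_of_nonneg_left _ (by positivity)
        exact mul_le_mul_of_nonneg_right hT3 hMs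
    _ = _ := by ring

/-- **class (B)**, one orientation -/
theorem classBT_half : ∃ C K : ℝ, 1 ≤ C ∧ 0 ≤ K ∧
    ∀ c1 : ℝ, 0 < c1 → c1 * (4 + K) ≤ 1/3000 →
    ∀ (θ θ' t : ℝ) (V W : Finset ℕ) (E : Finset (ℕ × ℕ)) (ψ ψ' : ℕ → ℝ) (G : ℕ),
    NumB eps1 c1 t → Sys V W E ψ ψ' (1/t) → 0 < G →
    (∀ q ∈ V, Tame (Real.exp (t^c1)) G q) → (∀ q ∈ W, Tame (Real.exp (t^c1)) G q) →
    (∀ e ∈ E, PairBT θ θ' t (t^(1/10:ℝ)) (Real.exp (t^(3*c1))) (cof e.1 e.2) (cof e.2 e.1)) →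
    ∑ e ∈ E, wt ψ e.1 * wt ψ' e.2 * (Af (cof e.1 e.2) * Af (cof e.2 e.1))
      ≤ C * t^(-(1006/1000):ℝ) * ((∑ v ∈ V, wt ψ v) * (∑ w ∈ W, wt ψ' w))^(1/2+eps1) := by
  classical
  have hε : (0:ℝ) < eps1 := by unfold eps1; norm_num
  have hε4 : eps1 ≤ 1/4 := by unfold eps1; norm_num
  obtain ⟨C1, K, hC1, hK, h1⟩ := part1 hε hε4
  obtain ⟨C2, hC2, h2⟩ := part2 hε hε4
  refine ⟨Real.exp 28 * (C1 + C2), K, ?_, hK, ?_⟩
  · have : 1 ≤ Real.exp 28 := Real.one_le_exp (by norm_num)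
    nlinarith
  intro c1 hc1 hc1K θ θ' t V W E ψ ψ' G hnum hs hG hVt hWt hP
  have ht := hnum.ht
  have ht0 : (0:ℝ) < t := lt_of_lt_of_le (by norm_num) ht
  have ht1 : (1:ℝ) ≤ t := le_trans (by norm_num) ht
  set z : ℝ := Real.exp (t^c1) with hz
  have h16 := hnum.h16
  have hz2 : 2 ≤ z := by
    have := Real.add_one_le_exp (t^c1)
    linarith
  have hzf2 : 2 ≤ ⌊z⌋₊ := Nat.le_floor (by exact_mod_cast hz2)
  have hlogz : Real.log ⌊z⌋₊ ≤ t^c1 := by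
    have h0 : (0:ℝ) < (⌊z⌋₊:ℝ) := by positivity
    calc Real.log ⌊z⌋₊ ≤ Real.log z := Real.log_le_log h0 (Nat.floor_le (by linarith))
      _ = t^c1 := by rw [hz, Real.log_exp]
  have hlogz0 : 0 < Real.log ⌊z⌋₊ := Real.log_pos (by
    have : (2:ℝ) ≤ (⌊z⌋₊:ℝ) := by exact_mod_cast hzf2
    linarith)
  have hA1 : Real.exp (2 * (Real.log (Real.log ⌊z⌋₊) + 6) + 2) ≤ Real.exp 14 * t^(2*c1) := by
    have h2 : Real.log (Real.log ⌊z⌋₊) ≤ c1 * Real.log t := by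
      calc Real.log (Real.log ⌊z⌋₊) ≤ Real.log (t^c1) := Real.log_le_log hlogz0 hlogz
        _ = c1 * Real.log t := Real.log_rpow ht0 _
    rw [Real.rpow_def_of_pos ht0, ← Real.exp_add]
    apply Real.exp_le_exp.2
    linarith
  have hzhalf : z^(-(1/2:ℝ)) ≤ 1 := Real.rpow_le_one_of_one_le_of_nonpos (by linarith) (by norm_num)
  -- the weights
  have hAf : ∀ e ∈ E, Af (cof e.1 e.2) * Af (cof e.2 e.1) ≤ Real.exp 28 * t^(4*c1) := by
    intro e he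
    have hm := Finset.mem_product.1 (hs.hE he)
    have hd1 : e.1 = G * (e.1 / G) := (Nat.mul_div_cancel' (hVt _ hm.1).1).symm
    have hd2 : e.2 = G * (e.2 / G) := (Nat.mul_div_cancel' (hWt _ hm.2).1).symm
    have hp1 : 0 < e.1 / G := Nat.div_pos (Nat.le_of_dvd (hs.hV _ hm.1) (hVt _ hm.1).1) hG
    have hp2 : 0 < e.2 / G := Nat.div_pos (Nat.le_of_dvd (hs.hW _ hm.2) (hWt _ hm.2).1) hG
    have hc1' : cof e.1 e.2 = cof (e.1/G) (e.2/G) := by
      conv_lhs => rw [hd1, hd2, cof_mul_left hG]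
    have hc2' : cof e.2 e.1 = cof (e.2/G) (e.1/G) := by
      conv_lhs => rw [hd1, hd2, cof_mul_left hG]
    have hdv1 : cof e.1 e.2 ∣ e.1 / G := by rw [hc1']; exact Dvd.intro _ (cof_mul_gcd _ _)
    have hdv2 : cof e.2 e.1 ∣ e.2 / G := by rw [hc2']; exact Dvd.intro _ (cof_mul_gcd _ _)
    have hb : ∀ (n q : ℕ), n ∣ q → 0 < q →
        ∑ p ∈ q.primeFactors.filter (fun p : ℕ => z < (p:ℝ)), (1:ℝ)/p ≤ z^(-(1/2:ℝ)) →
        Af n ≤ Real.exp 14 * t^(2*c1) := by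
      intro n q hnq hq hbud
      refine le_trans (Af_tame hz2 ?_) hA1
      refine le_trans ?_ (hbud.trans hzhalf)
      apply Finset.sum_le_sum_of_subset_of_nonneg
      · intro p hp
        rw [Finset.mem_filter] at hp ⊢
        exact ⟨Nat.primeFactors_mono hnq hq.ne' hp.1, hp.2⟩
      · intro p _ _; positivity
    have a1 := hb _ _ hdv1 hp1 (hVt _ hm.1).2
    have a2 := hb _ _ hdv2 hp2 (hWt _ hm.2).2
    calc Af (cof e.1 e.2) * Af (cof e.2 e.1) ≤ (Real.exp 14 * t^(2*c1)) * (Real.exp 14 * t^(2*c1)) :=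
          mul_le_mul a1 a2 (Af_pos _).le (by positivity)
      _ = (Real.exp 14 * Real.exp 14) * (t^(2*c1) * t^(2*c1)) := by ring
      _ = Real.exp 28 * t^(4*c1) := by
          rw [← Real.exp_add, ← Real.rpow_add ht0]
          congr 2
          · norm_num
          · ring
  have hw0 : ∀ e ∈ E, 0 ≤ wt ψ e.1 * wt ψ' e.2 := by
    intro e he
    have hm := Finset.mem_product.1 (hs.hE he)
    exact mul_nonneg (wt_nonneg (hs.hψ _ hm.1)) (wt_nonneg (hs.hθ _ hm.2))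
  have hstep : ∑ e ∈ E, wt ψ e.1 * wt ψ' e.2 * (Af (cof e.1 e.2) * Af (cof e.2 e.1))
      ≤ (Real.exp 28 * t^(4*c1)) * ∑ e ∈ E, wt ψ e.1 * wt ψ' e.2 := by
    rw [Finset.mul_sum]
    apply Finset.sum_le_sum
    intro e he
    rw [mul_comm]
    exact mul_le_mul_of_nonneg_right (hAf e he) (hw0 e he)
  refine hstep.trans ?_
  set M := (∑ v ∈ V, wt ψ v) * (∑ w ∈ W, wt ψ' w) with hM
  have hM0 : 0 ≤ M :=
    mul_nonneg (Finset.sum_nonneg fun v hv => wt_nonneg (hs.hψ v hv))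
      (Finset.sum_nonneg fun v hv => wt_nonneg (hs.hθ v hv))
  set E1 := E.filter (fun e => ((sp (fun p : ℕ => (p:ℝ) ≤ z) (cof e.2 e.1) : ℕ) : ℝ) ≤ Real.exp (t^(2*c1))) with hE1
  set E2 := E.filter (fun e => ¬ ((sp (fun p : ℕ => (p:ℝ) ≤ z) (cof e.2 e.1) : ℕ) : ℝ) ≤ Real.exp (t^(2*c1))) with hE2
  have hsub : ∀ E' ⊆ E, Sys V W E' ψ ψ' (1/t) := fun E' hE' =>
    { hδ := hs.hδ, hV := hs.hV, hW := hs.hW, hψ := hs.hψ, hθ := hs.hθ
      hE := hE'.trans hs.hE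
      h1 := fun e he => hs.h1 e (hE' he)
      h2 := fun e he => hs.h2 e (hE' he) }
  have b1 := h1 c1 θ θ' t V W E1 ψ ψ' G hc1 hnum (hsub _ (Finset.filter_subset _ _)) hG hVt hWt
    (fun e he => hP e (Finset.mem_filter.1 he).1) (fun e he => (Finset.mem_filter.1 he).2)
  have b2 := h2 c1 t V W E2 ψ ψ' hc1 hnum (hsub _ (Finset.filter_subset _ _))
    (fun e he => not_le.1 (Finset.mem_filter.1 he).2)
  have hsplit : ∑ e ∈ E, wt ψ e.1 * wt ψ' e.2 = ∑ e ∈ E1, wt ψ e.1 * wt ψ' e.2 + ∑ e ∈ E2, wt ψ e.1 * wt ψ' e.2 := by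
    rw [hE1, hE2, Finset.sum_filter_add_sum_filter_not]
  have hMs : 0 ≤ M^(1/2+eps1) := by positivity
  have et : (1/t)^(1-2*eps1) = t^(-(1-2*eps1)) := by
    rw [one_div, Real.inv_rpow ht0.le, Real.rpow_neg ht0.le]
  have n1 : t^(4*c1) * ((1/t)^(1-2*eps1) * (t^(c1*K - 1/50))^(1/2-eps1)) ≤ t^(-(1006/1000):ℝ) := by
    rw [et, ← Real.rpow_mul ht0.le, ← Real.rpow_add ht0, ← Real.rpow_add ht0]
    apply Real.rpow_le_rpow_of_exponent_le ht1
    unfold eps1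
    have : 0 ≤ c1 * K := by positivity
    nlinarith
  have n2 : t^(4*c1) * ((1/t)^(1-2*eps1) * Real.exp (-(t^c1))) ≤ t^(-(1006/1000):ℝ) := by
    calc t^(4*c1) * ((1/t)^(1-2*eps1) * Real.exp (-(t^c1)))
        ≤ t^(4*c1) * ((1/t)^(1-2*eps1) * t^(-1:ℝ)) := by
          apply mul_le_mul_of_nonneg_left _ (by positivity)
          exact mul_le_mul_of_nonneg_left hnum.hexp (by positivity)
      _ = t^(4*c1 + (-(1-2*eps1) + (-1))) := by
          rw [et, ← Real.rpow_add ht0, ← Real.rpow_add ht0]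
      _ ≤ t^(-(1006/1000):ℝ) := by
          apply Real.rpow_le_rpow_of_exponent_le ht1
          unfold eps1
          have : 0 ≤ c1 * K := by positivity
          nlinarith
  calc Real.exp 28 * t^(4*c1) * ∑ e ∈ E, wt ψ e.1 * wt ψ' e.2
      ≤ Real.exp 28 * t^(4*c1) * (C1 * ((1/t)^(1-2*eps1) * (t^(c1*K - 1/50))^(1/2-eps1) * M^(1/2+eps1)) +
        C2 * ((1/t)^(1-2*eps1) * Real.exp (-(t^c1)) * M^(1/2+eps1))) := by
        rw [hsplit]
        exact mul_le_mul_of_nonneg_left (add_le_add b1 b2) (by positivity)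
    _ = Real.exp 28 * (C1 * (t^(4*c1) * ((1/t)^(1-2*eps1) * (t^(c1*K - 1/50))^(1/2-eps1))) * M^(1/2+eps1) +
        C2 * (t^(4*c1) * ((1/t)^(1-2*eps1) * Real.exp (-(t^c1)))) * M^(1/2+eps1)) := by ring
    _ ≤ Real.exp 28 * (C1 * t^(-(1006/1000):ℝ) * M^(1/2+eps1) + C2 * t^(-(1006/1000):ℝ) * M^(1/2+eps1)) := by
        apply mul_le_mul_of_nonneg_left _ (by positivity)
        apply add_le_add
        · apply mul_le_mul_of_nonneg_right _ hMs
          exact mul_le_mul_of_nonneg_left n1 (by linarith)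
        · apply mul_le_mul_of_nonneg_right _ hMs
          exact mul_le_mul_of_nonneg_left n2 (by linarith)
    _ = _ := by ring

/-- **class (B), two targets, `N = t^{1/10}`**: all related pairs whose first (or second) cofactor
is larger than `exp (t^{3 c1})` with an unstructured target, systems tame at `exp (t^{c1})`. -/
theorem classBT : ∃ C c0 : ℝ, 1 ≤ C ∧ 0 < c0 ∧
    ∀ c1 : ℝ, 0 < c1 → c1 ≤ c0 → ∃ T0 : ℝ, ∀ (θ θ' t : ℝ) (V W : Finset ℕ) (E : Finset (ℕ × ℕ))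
    (ψ ψ' : ℕ → ℝ) (G : ℕ), T0 ≤ t → Sys V W E ψ ψ' (1/t) → 0 < G →
    (∀ q ∈ V, Tame (Real.exp (t^c1)) G q) → (∀ q ∈ W, Tame (Real.exp (t^c1)) G q) →
    (∀ e ∈ E, PairBT θ θ' t (t^(1/10:ℝ)) (Real.exp (t^(3*c1))) (cof e.1 e.2) (cof e.2 e.1) ∨
      PairBT θ' θ t (t^(1/10:ℝ)) (Real.exp (t^(3*c1))) (cof e.2 e.1) (cof e.1 e.2)) →
    ∑ e ∈ E, wt ψ e.1 * wt ψ' e.2 * (Af (cof e.1 e.2) * Af (cof e.2 e.1))
      ≤ C * t^(-(1006/1000):ℝ) * ((∑ v ∈ V, wt ψ v) * (∑ w ∈ W, wt ψ' w))^(1/2+eps1) := by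
  classical
  obtain ⟨C, K, hC1, hK, hC⟩ := classBT_half
  refine ⟨2*C, 1/(3000*(4+K)), by linarith, by positivity, ?_⟩
  intro c1 hc1 hc1K
  have hε : (0:ℝ) < eps1 := by unfold eps1; norm_num
  have hε4 : eps1 ≤ 1/4 := by unfold eps1; norm_num
  obtain ⟨T0, hT0⟩ := exists_NumB hε hε4 hc1
  have hcK : c1 * (4 + K) ≤ 1/3000 := by
    rw [le_div_iff₀ (by positivity)] at hc1K
    linarith
  refine ⟨T0, ?_⟩
  intro θ θ' t V W E ψ ψ' G ht hs hG hVt hWt hE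
  have hnum := hT0 t ht
  set f : ℕ × ℕ → ℝ := fun e => wt ψ e.1 * wt ψ' e.2 * (Af (cof e.1 e.2) * Af (cof e.2 e.1)) with hf
  set P : ℕ × ℕ → Prop := fun e =>
    PairBT θ θ' t (t^(1/10:ℝ)) (Real.exp (t^(3*c1))) (cof e.1 e.2) (cof e.2 e.1) with hP
  set E1 := E.filter P with hE1
  set E2 := E.filter (fun e => ¬ P e) with hE2
  have hsplit : ∑ e ∈ E, f e = ∑ e ∈ E1, f e + ∑ e ∈ E2, f e := by
    rw [hE1, hE2, Finset.sum_filter_add_sum_filter_not]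
  have hs1 : Sys V W E1 ψ ψ' (1/t) :=
    { hδ := hs.hδ, hV := hs.hV, hW := hs.hW, hψ := hs.hψ, hθ := hs.hθ
      hE := (Finset.filter_subset _ _).trans hs.hE
      h1 := fun e he => hs.h1 e (Finset.mem_filter.1 he).1
      h2 := fun e he => hs.h2 e (Finset.mem_filter.1 he).1 }
  have b1 := hC c1 hc1 hcK θ θ' t V W E1 ψ ψ' G hnum hs1 hG hVt hWt
    (fun e he => (Finset.mem_filter.1 he).2)
  set E2' := E2.image Prod.swap with hE2'
  have hinj : Set.InjOn (Prod.swap : ℕ × ℕ → ℕ × ℕ) (E2 : Set (ℕ × ℕ)) :=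
    Prod.swap_injective.injOn
  have hs2 : Sys W V E2' ψ' ψ (1/t) :=
    { hδ := hs.hδ, hV := hs.hW, hW := hs.hV, hψ := hs.hθ, hθ := hs.hψ
      hE := by
        intro e he
        obtain ⟨e', he', rfl⟩ := Finset.mem_image.1 he
        have := Finset.mem_product.1 (hs.hE (Finset.mem_filter.1 he').1)
        exact Finset.mem_product.2 ⟨this.2, this.1⟩
      h1 := by
        intro e he
        obtain ⟨e', he', rfl⟩ := Finset.mem_image.1 he
        exact hs.h2 e' (Finset.mem_filter.1 he').1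
      h2 := by
        intro e he
        obtain ⟨e', he', rfl⟩ := Finset.mem_image.1 he
        exact hs.h1 e' (Finset.mem_filter.1 he').1 }
  have b2 := hC c1 hc1 hcK θ' θ t W V E2' ψ' ψ G hnum hs2 hG hWt hVt (by
    intro e he
    obtain ⟨e', he', rfl⟩ := Finset.mem_image.1 he
    rw [hE2, Finset.mem_filter] at he'
    exact (hE e' he'.1).resolve_left he'.2)
  have hb2 : ∑ e ∈ E2', wt ψ' e.1 * wt ψ e.2 * (Af (cof e.1 e.2) * Af (cof e.2 e.1)) = ∑ e ∈ E2, f e := by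
    rw [hE2', Finset.sum_image hinj]
    apply Finset.sum_congr rfl
    intro e _
    simp only [hf, Prod.fst_swap, Prod.snd_swap]
    ring
  rw [hb2, mul_comm (∑ w ∈ W, wt ψ' w)] at b2
  have : ∑ e ∈ E, f e ≤ C * t^(-(1006/1000):ℝ) * ((∑ v ∈ V, wt ψ v) * (∑ w ∈ W, wt ψ' w))^(1/2+eps1)
      + C * t^(-(1006/1000):ℝ) * ((∑ v ∈ V, wt ψ v) * (∑ w ∈ W, wt ψ' w))^(1/2+eps1) := by
    rw [hsplit]; exact add_le_add b1 b2
  refine this.trans (le_of_eq ?_)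
  ring


/-! ### one scale -/

/-- unstructured at the level `t^{1/10}` seen from the cofactor `y` -/
def Uns (θ t : ℝ) (y : ℕ) : Prop :=
  ∀ Y : ℝ, 0 < Y → Y < y → (y:ℝ) ≤ 2 * Y → ¬ Struct (t^(1/10:ℝ)) θ t Y

/-- two-target related pair at scale `t`: imbalanced, or the larger cofactor is unstructured -/
structure Gen4 (θ θ' t : ℝ) (x y : ℕ) (r r' : ℝ) : Prop where
  rel : ∃ n : ℤ, |(n:ℝ) - (θ' * x - θ * y)| ≤ 2 / t
  alt : ((x:ℝ) * r' ≤ t^(-(51/50):ℝ) ∨ (y:ℝ) * r ≤ t^(-(51/50):ℝ)) ∨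
    (t^(1/10:ℝ) < y ∧ Uns θ t y ∧ (x ≤ y ∨ Uns θ' t x)) ∨
    (t^(1/10:ℝ) < x ∧ Uns θ' t x ∧ (y ≤ x ∨ Uns θ t y))

/-- classification of a balanced pair -/
theorem classify4 {θ θ' t Yb : ℝ} {x y : ℕ} (hx : 0 < x) (hy : 0 < y)
    (rel : ∃ n : ℤ, |(n:ℝ) - (θ' * x - θ * y)| ≤ 2 / t)
    (hN : t^(1/10:ℝ) < y) (uns : Uns θ t y) (h2 : x ≤ y ∨ Uns θ' t x) :
    (PairBT θ θ' t (t^(1/10:ℝ)) Yb x y ∨ PairBT θ' θ t (t^(1/10:ℝ)) Yb y x) ∨
    PairSS θ θ' t (t^(1/10:ℝ)) Yb x y := by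
  by_cases h1 : Yb < y
  · left; left
    exact ⟨hx, hy, h1, rel, uns⟩
  rw [not_lt] at h1
  by_cases h3 : (x:ℝ) ≤ Yb
  · right
    exact ⟨hx, h3, hN, h1, rel, uns⟩
  rw [not_le] at h3
  rcases h2 with h2 | h2
  · exfalso
    have : (x:ℝ) ≤ y := by exact_mod_cast h2
    linarith
  · left; right
    exact ⟨hy, hx, h3, rel_swap rel, h2⟩

/-- **energy at one scale** -/
theorem scale_energy4 : ∃ C c0 : ℝ, 1 ≤ C ∧ 0 < c0 ∧
    ∀ c1 : ℝ, 0 < c1 → c1 ≤ c0 → ∃ T0 : ℝ, ∀ (θ θ' t : ℝ) (V W : Finset ℕ) (E : Finset (ℕ × ℕ))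
    (ψ ψ' : ℕ → ℝ) (G : ℕ), T0 ≤ t → Sys V W E ψ ψ' (1/t) → 0 < G →
    (∀ q ∈ V, Tame (Real.exp (t^c1)) G q) → (∀ q ∈ W, Tame (Real.exp (t^c1)) G q) →
    (∀ e ∈ E, Gen4 θ θ' t (cof e.1 e.2) (cof e.2 e.1) (ψ e.1) (ψ' e.2)) →
    ∑ e ∈ E, wt ψ e.1 * wt ψ' e.2 * (Af (cof e.1 e.2) * Af (cof e.2 e.1))
      ≤ C * t^(-(1006/1000):ℝ) * ((∑ v ∈ V, wt ψ v) * (∑ w ∈ W, wt ψ' w))^(1/2+eps1) := by
  classical
  obtain ⟨CU, hCU1, hU⟩ := classU
  obtain ⟨CS, cS, hCS1, hcS, hS⟩ := classSS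
  obtain ⟨CB, cB, hCB1, hcB, hB⟩ := classBT
  refine ⟨CU + CB + 2*CS, min (cS/3) cB, by linarith, lt_min (by positivity) hcB, ?_⟩
  intro c1 hc1 hc10
  have hc1S : 3 * c1 ≤ cS := by
    have := hc10.trans (min_le_left _ _); linarith
  have hc1B : c1 ≤ cB := hc10.trans (min_le_right _ _)
  obtain ⟨T0, hT0⟩ := hB c1 hc1 hc1B
  refine ⟨max T0 (2^10), ?_⟩
  intro θ θ' t V W E ψ ψ' G ht hs hG hVt hWt hE
  have htT0 : T0 ≤ t := (le_max_left _ _).trans ht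
  have ht10 : (2:ℝ)^10 ≤ t := (le_max_right _ _).trans ht
  have ht0 : 0 < t := lt_of_lt_of_le (by norm_num) ht10
  have ht1 : 1 ≤ t := le_trans (by norm_num) ht10
  set Yb : ℝ := Real.exp (t^(3*c1)) with hYb
  set f : ℕ × ℕ → ℝ := fun e => wt ψ e.1 * wt ψ' e.2 * (Af (cof e.1 e.2) * Af (cof e.2 e.1)) with hf
  have hf0 : ∀ e ∈ E, 0 ≤ f e := by
    intro e he
    have hm := Finset.mem_product.1 (hs.hE he)
    exact mul_nonneg (mul_nonneg (wt_nonneg (hs.hψ _ hm.1)) (wt_nonneg (hs.hθ _ hm.2)))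
      (mul_nonneg (Af_pos _).le (Af_pos _).le)
  set M := (∑ v ∈ V, wt ψ v) * (∑ w ∈ W, wt ψ' w) with hM
  have hM0 : 0 ≤ M :=
    mul_nonneg (Finset.sum_nonneg fun v hv => wt_nonneg (hs.hψ v hv))
      (Finset.sum_nonneg fun v hv => wt_nonneg (hs.hθ v hv))
  have hMs : 0 ≤ M^(1/2+eps1) := by positivity
  have hsub : ∀ E' ⊆ E, Sys V W E' ψ ψ' (1/t) := fun E' hE' =>
    { hδ := hs.hδ, hV := hs.hV, hW := hs.hW, hψ := hs.hψ, hθ := hs.hθ
      hE := hE'.trans hs.hE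
      h1 := fun e he => hs.h1 e (hE' he)
      h2 := fun e he => hs.h2 e (hE' he) }
  set PU : ℕ × ℕ → Prop := fun e => (cof e.1 e.2 : ℝ) * ψ' e.2 ≤ t^(-(51/50):ℝ) ∨
    (cof e.2 e.1 : ℝ) * ψ e.1 ≤ t^(-(51/50):ℝ) with hPU
  set PB : ℕ × ℕ → Prop := fun e =>
    PairBT θ θ' t (t^(1/10:ℝ)) Yb (cof e.1 e.2) (cof e.2 e.1) ∨
    PairBT θ' θ t (t^(1/10:ℝ)) Yb (cof e.2 e.1) (cof e.1 e.2) with hPB
  set P1 : ℕ × ℕ → Prop := fun e =>
    PairSS θ θ' t (t^(1/10:ℝ)) Yb (cof e.1 e.2) (cof e.2 e.1) with hP1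
  set P2 : ℕ × ℕ → Prop := fun e =>
    PairSS θ' θ t (t^(1/10:ℝ)) Yb (cof e.2 e.1) (cof e.1 e.2) with hP2
  have hcover : ∀ e ∈ E, PU e ∨ PB e ∨ P1 e ∨ P2 e := by
    intro e he
    have h := hE e he
    have hm := Finset.mem_product.1 (hs.hE he)
    have hx : 0 < cof e.1 e.2 := cof_pos (hs.hV _ hm.1)
    have hy : 0 < cof e.2 e.1 := cof_pos (hs.hW _ hm.2)
    rcases h.alt with hu | ⟨hN, hun, h2⟩ | ⟨hN, hun, h2⟩
    · left; exact hu
    · rcases classify4 (Yb := Yb) hx hy h.rel hN hun h2 with h1 | h1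
      · right; left; exact h1
      · right; right; left; exact h1
    · rcases classify4 (Yb := Yb) hy hx (rel_swap h.rel) hN hun h2 with h1 | h1
      · right; left; exact h1.symm
      · right; right; right; exact h1
  -- sum over the union
  have hsum : ∑ e ∈ E, f e ≤ ∑ e ∈ E.filter PU, f e + ∑ e ∈ E.filter PB, f e +
      ∑ e ∈ E.filter P1, f e + ∑ e ∈ E.filter P2, f e := by
    rw [Finset.sum_filter, Finset.sum_filter, Finset.sum_filter, Finset.sum_filter,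
      ← Finset.sum_add_distrib, ← Finset.sum_add_distrib, ← Finset.sum_add_distrib]
    apply Finset.sum_le_sum
    intro e he
    have h0 := hf0 e he
    have hi : ∀ P : Prop, [Decidable P] → 0 ≤ (if P then f e else 0) := by
      intro P _; split_ifs <;> simp [h0]
    have i0 := hi (PU e)
    have i1 := hi (PB e)
    have i2 := hi (P1 e)
    have i3 := hi (P2 e)
    rcases hcover e he with h | h | h | h
    · have : (if PU e then f e else 0) = f e := if_pos h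
      linarith
    · have : (if PB e then f e else 0) = f e := if_pos h
      linarith
    · have : (if P1 e then f e else 0) = f e := if_pos h
      linarith
    · have : (if P2 e then f e else 0) = f e := if_pos h
      linarith
  have hYbS : Yb ≤ Real.exp (t^cS) :=
    Real.exp_le_exp.2 (Real.rpow_le_rpow_of_exponent_le ht1 hc1S)
  have bU := hU t V W (E.filter PU) ψ ψ' ht1 (hsub _ (Finset.filter_subset _ _))
    (fun e he => (Finset.mem_filter.1 he).2)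
  have bB := hT0 θ θ' t V W (E.filter PB) ψ ψ' G htT0 (hsub _ (Finset.filter_subset _ _)) hG
    hVt hWt (fun e he => (Finset.mem_filter.1 he).2)
  have b1 := hS θ θ' t Yb V W (E.filter P1) ψ ψ' ht10 hYbS (hsub _ (Finset.filter_subset _ _))
    (fun e he => (Finset.mem_filter.1 he).2)
  have b2 := hS θ' θ t Yb W V ((E.filter P2).image Prod.swap) ψ' ψ ht10 hYbS
    (swap_sys (hsub _ (Finset.filter_subset _ _)))
    (by
      intro e he
      obtain ⟨e', he', rfl⟩ := Finset.mem_image.1 he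
      exact (Finset.mem_filter.1 he').2)
  rw [swap_sum, mul_comm (∑ w ∈ W, wt ψ' w), ← hM] at b2
  have k1 : t^(-(1007/1000):ℝ) ≤ t^(-(1006/1000):ℝ) :=
    Real.rpow_le_rpow_of_exponent_le ht1 (by norm_num)
  have bU' : ∑ e ∈ E.filter PU, f e ≤ CU * t^(-(1006/1000):ℝ) * M^(1/2+eps1) := by
    refine bU.trans ?_
    apply mul_le_mul_of_nonneg_right _ hMs
    exact mul_le_mul_of_nonneg_left k1 (by linarith)
  refine hsum.trans ?_
  have e : (CU + CB + 2*CS) * t^(-(1006/1000):ℝ) * M^(1/2+eps1)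
      = CU * t^(-(1006/1000):ℝ) * M^(1/2+eps1) + CB * t^(-(1006/1000):ℝ) * M^(1/2+eps1)
        + CS * t^(-(1006/1000):ℝ) * M^(1/2+eps1) + CS * t^(-(1006/1000):ℝ) * M^(1/2+eps1) := by ring
  rw [e]
  exact add_le_add (add_le_add (add_le_add bU' bB) b1) b2

end Crest.Agent.R4P.ClsT4
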