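import Crest.Agent.R4P.PruneAcc_17
import Crest.Agent.R4.RseN207
import Crest.Agent.R4.LFA363

/-!
R4P (S0004, all `q`), helper30: **coincidence primes** of a target `θ` (step (E3a) of `[W-eSHR]`).

* `Co K θ b` : there are types `x, y ≤ (log b)^K`, a radius `r ≤ (log b)^K` for which `θ` has no label
  at `r / b`, and `‖(x b - y) θ‖ ≤ exp (-(log b)^(4/5)) (log b)^K r`: unlabelled twins with small types
  may coincide at the tie `b`.
* `core` : a set of primes of `(P, 2P]` of one type with more than `P / H` elements is impossible.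
* `co_log` : density `∑_{p ∈ (P, 2P], Co K θ p} 1/p ≤ (log P)^(-E)`, for EVERY `θ`.
-/

set_option autoImplicit false
open Finset

namespace Crest.Agent.R4P.CoEv30

open Crest.Agent.R4.LF363 (Lab)
open Crest.Agent.R4.RseN207 (small log_large)
open Crest.Agent.R4P.Cnt588 Crest.Agent.R4P.Bld532

/-- **coincidence primes** -/
def Co (K θ : ℝ) (b : ℕ) : Prop :=
  ∃ r : ℝ, 0 < r ∧ r ≤ Real.log b ^ K ∧ (∀ ρ, ¬ Lab θ (r / b) ρ) ∧
    ∃ x y : ℕ, 0 < x ∧ 0 < y ∧ (x:ℝ) ≤ Real.log b ^ K ∧ (y:ℝ) ≤ Real.log b ^ K ∧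
      ∃ m : ℤ, |((x:ℝ) * b - y) * θ - m| ≤
        Real.exp (-(Real.log b ^ (4/5:ℝ))) * Real.log b ^ K * r

/-- monotone in the exponent -/
lemma Co.mono {K K' θ : ℝ} {b : ℕ} (h : K ≤ K') (hb : 1 ≤ Real.log b) (hc : Co K θ b) :
    Co K' θ b := by
  have hp : Real.log b ^ K ≤ Real.log b ^ K' := Real.rpow_le_rpow_of_exponent_le hb h
  obtain ⟨r, h0, h1, h2, x, y, hx, hy, h3, h4, m, h5⟩ := hc
  refine ⟨r, h0, h1.trans hp, h2, x, y, hx, hy, h3.trans hp, h4.trans hp, m, h5.trans ?_⟩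
  exact mul_le_mul_of_nonneg_right (mul_le_mul_of_nonneg_left hp (Real.exp_pos _).le) h0.le

lemma int_zero {z : ℤ} {c : ℝ} (h : |(z:ℝ)| ≤ c) (hc : c < 1) : z = 0 := by
  by_contra hz
  have h1 : (1:ℤ) ≤ |z| := Int.one_le_abs hz
  have h2 : (1:ℝ) ≤ |(z:ℝ)| := by exact_mod_cast h1
  linarith

/-- the data at one prime -/
def Hit (θ Y ε : ℝ) (x y b : ℕ) : Prop :=
  ∃ r : ℝ, 0 < r ∧ r ≤ Y ∧ (∀ ρ, ¬ Lab θ (r / b) ρ) ∧ ∃ m : ℤ, |((x:ℝ) * b - y) * θ - m| ≤ ε * r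

/-- **case 1**: a good rational approximation with small denominator is a label -/
lemma case1 {θ Y ε : ℝ} {P x y b k : ℕ} {a : ℤ} (hk : 0 < k) (hb : P < b) (hb2 : b ≤ 2 * P)
    (hx : 0 < x) (hxY : (x:ℝ) ≤ Y) (hyY : (y:ℝ) ≤ Y) (hY : 1 ≤ Y) (hε : 0 ≤ ε) (hε4 : 4 * ε ≤ 1)
    (hP : 10 * Y ≤ P) (hkP : (k:ℝ)^5 * Y ≤ P) (hkε : k * (ε * Y) ≤ 1/4)
    (hβ : |θ - a / k| * (8 * P * Y * k) ≤ 1) (h : Hit θ Y ε x y b) : False := by
  obtain ⟨r, hr0, hrY, hU, m, hm⟩ := h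
  have hk0 : (0:ℝ) < k := by exact_mod_cast hk
  have hP0 : (0:ℝ) < P := by linarith
  have hbR : (P:ℝ) < b := by exact_mod_cast hb
  have hb2R : (b:ℝ) ≤ 2 * P := by exact_mod_cast hb2
  have hb0 : (0:ℝ) < b := by linarith
  have hx1 : (1:ℝ) ≤ x := by exact_mod_cast hx
  set β := θ - a / k with hβd
  set D : ℝ := (x:ℝ) * b - y with hD
  have hy0 : (0:ℝ) ≤ y := Nat.cast_nonneg _
  have hDlo : (b:ℝ) / 2 ≤ D := by
    have : (b:ℝ) ≤ x * b := by nlinarith
    rw [hD]; linarith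
  have hDhi : D ≤ 2 * P * Y := by
    have h1 : (x:ℝ) * b ≤ Y * (2 * P) := mul_le_mul hxY hb2R hb0.le (by linarith)
    rw [hD]; linarith
  have hD0 : 0 < D := by linarith
  have hkβ : k * (D * |β|) ≤ 1/4 := by
    have h1 : k * (D * |β|) ≤ k * ((2 * P * Y) * |β|) := by gcongr
    nlinarith
  -- the integer
  have hint : k * (D * θ - m) = ((((x:ℤ) * b - y) * a - m * k : ℤ) : ℝ) + k * (D * β) := by
    push_cast
    rw [← hD, hβd]
    field_simp
    ring
  have habs : |((((x:ℤ) * b - y) * a - m * k : ℤ) : ℝ)| ≤ 1/2 := by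
    have e1 : ((((x:ℤ) * b - y) * a - m * k : ℤ) : ℝ) = k * (D * θ - m) - k * (D * β) := by
      rw [hint]; ring
    rw [e1]
    refine (abs_sub _ _).trans ?_
    rw [abs_mul, abs_mul, abs_mul, abs_of_pos hk0, abs_of_pos hD0]
    have h1 : k * |D * θ - m| ≤ k * (ε * Y) := by
      apply mul_le_mul_of_nonneg_left _ hk0.le
      exact hm.trans (mul_le_mul_of_nonneg_left hrY hε)
    linarith
  have hz := int_zero habs (by norm_num)
  rw [hz] at hint
  have hDβ : D * θ - m = D * β := by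
    have : k * (D * θ - m) = k * (D * β) := by rw [hint]; push_cast; ring
    exact mul_left_cancel₀ hk0.ne' this
  rw [hDβ, abs_mul, abs_of_pos hD0] at hm
  have hβr : |β| ≤ r / b := by
    rw [le_div_iff₀ hb0]
    have h1 : (b:ℝ) / 2 * |β| ≤ ε * r := (mul_le_mul_of_nonneg_right hDlo (abs_nonneg _)).trans hm
    nlinarith
  have hrb0 : 0 < r / b := div_pos hr0 hb0
  have hrbP : r / b ≤ Y / P := by
    apply div_le_div₀ (by linarith) hrY hP0 hbR.le
  have hYP : Y / P ≤ 1/10 := by rw [div_le_iff₀ hP0]; linarith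
  have hrb1 : r / b ≤ 1 := by linarith
  set ρ : ℚ := Rat.divInt a k with hρ
  have hρv : (ρ:ℝ) = a / k := by
    rw [hρ, Rat.divInt_eq_div]; push_cast; rfl
  have hρd : (ρ.den:ℝ) ≤ k := by
    have h3 : ((ρ.den : ℕ) : ℤ) ∣ (k : ℤ) := by rw [hρ]; exact Rat.den_dvd a k
    have h4 : ρ.den ∣ k := by exact_mod_cast h3
    exact_mod_cast Nat.le_of_dvd hk h4
  refine hU ρ ⟨hrb0, by linarith, ?_, ?_⟩
  · calc (ρ.den:ℝ)^5 * (r / b) ≤ (k:ℝ)^5 * (Y / P) := by
          apply mul_le_mul (pow_le_pow_left₀ (Nat.cast_nonneg _) hρd 5) hrbP hrb0.le (by positivity)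
      _ = (k:ℝ)^5 * Y / P := by ring
      _ ≤ 1 := by rw [div_le_one hP0]; exact hkP
  · rw [hρv]
    calc |θ - a / k|^5 ≤ (r / b)^5 := pow_le_pow_left₀ (abs_nonneg _) hβr 5
      _ = (r / b)^4 * (r / b) := by ring
      _ ≤ (r / b)^4 * 1 := mul_le_mul_of_nonneg_left hrb1 (by positivity)
      _ = (r / b)^4 := mul_one _

/-- a finite set of naturals of diameter `≤ U` has at most `U + 1` elements -/
lemma card_diam {S : Finset ℕ} {U : ℝ} (hU : 0 ≤ U)
    (h : ∀ b ∈ S, ∀ c ∈ S, b ≤ c → ((c:ℝ) - b) ≤ U) : (S.card : ℝ) ≤ U + 1 := by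
  rcases S.eq_empty_or_nonempty with h0 | h0
  · subst h0; simp; linarith
  · set a := S.min' h0 with ha
    have hsub : S ⊆ Finset.Icc a (a + ⌊U⌋₊) := by
      intro c hc
      have h1 := Finset.min'_le S c hc
      refine Finset.mem_Icc.2 ⟨h1, ?_⟩
      have h2 := h a (Finset.min'_mem S h0) c hc h1
      have h3 : ((c - a : ℕ) : ℝ) ≤ U := by rw [Nat.cast_sub h1]; exact h2
      have h4 : c - a ≤ ⌊U⌋₊ := Nat.le_floor h3
      omega
    have h1 := Finset.card_le_card hsub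
    rw [Nat.card_Icc] at h1
    have h2 : S.card ≤ ⌊U⌋₊ + 1 := by omega
    have h3 : (S.card : ℝ) ≤ ⌊U⌋₊ + 1 := by exact_mod_cast h2
    linarith [Nat.floor_le hU]

/-- **case 2**: the phases `(x b - y) θ` travel: few elements -/
lemma case2 {θ Y ε : ℝ} {P x y k : ℕ} {a : ℤ} {S : Finset ℕ} (hk : 0 < k)
    (hS : ∀ b ∈ S, P < b ∧ b ≤ 2 * P) (hx : 0 < x) (hxY : (x:ℝ) ≤ Y) (hε : 0 ≤ ε)
    (hεY : 2 * (ε * Y) < 1/2) (hkβ : k * |θ - a / k| ≤ 2 * (ε * Y))
    (hβ : 1 < |θ - a / k| * (8 * P * Y * k)) (h : ∀ b ∈ S, Hit θ Y ε x y b) :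
    (S.card : ℝ) ≤ 4 * (ε * Y) * P * (k + 8 * Y * k^2 + Y) + 4 * k := by
  classical
  have hk0 : (0:ℝ) < k := by exact_mod_cast hk
  have hk1 : (1:ℝ) ≤ k := by exact_mod_cast hk
  have hx1 : (1:ℝ) ≤ x := by exact_mod_cast hx
  have hY1 : 1 ≤ Y := hx1.trans hxY
  set e0 := ε * Y with he0
  have he00 : 0 ≤ e0 := by positivity
  set β := θ - a / k with hβd
  have hP0 : (0:ℝ) ≤ P := Nat.cast_nonneg _
  have hβ0 : 0 < |β| := by
    by_contra hc
    have : |β| = 0 := le_antisymm (not_lt.1 hc) (abs_nonneg _)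
    rw [this] at hβ; linarith
  set δ := x * |β| with hδ
  have hδ0 : 0 < δ := mul_pos (by linarith) hβ0
  have hδinv : 1 / δ ≤ 8 * P * Y * k := by
    rw [div_le_iff₀ hδ0]
    have h1 : |β| * (8 * P * Y * k) ≤ δ * (8 * P * Y * k) := by
      apply mul_le_mul_of_nonneg_right _ (by positivity)
      rw [hδ]; nlinarith
    linarith [mul_comm δ (8 * P * Y * k)]
  have hδk : δ * k ≤ 2 * e0 * Y := by
    calc δ * k = x * (k * |β|) := by rw [hδ]; ring
      _ ≤ Y * (2 * e0) := mul_le_mul hxY hkβ (by positivity) (by linarith)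
      _ = _ := by ring
  -- the key: same residue mod `k`, distance `≤ 1/(2δ)` => distance `≤ 2 e0 / δ`
  have key : ∀ b ∈ S, ∀ c ∈ S, b ≤ c → k ∣ (c - b) → δ * ((c:ℝ) - b) ≤ 1/2 →
      ((c:ℝ) - b) ≤ 2 * e0 / δ := by
    intro b hb c hc hbc hkd hd
    obtain ⟨r, hr0, hrY, -, m, hm⟩ := h b hb
    obtain ⟨r', hr0', hrY', -, m', hm'⟩ := h c hc
    obtain ⟨j, hj⟩ := hkd
    have hcb : (c:ℝ) = b + k * j := by
      have : c = b + k * j := by omega
      exact_mod_cast this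
    have hdc : (c:ℝ) - b = k * j := by rw [hcb]; ring
    have hj0 : (0:ℝ) ≤ j := Nat.cast_nonneg _
    have h1 : |((x:ℝ) * b - y) * θ - m| ≤ e0 := hm.trans (by rw [he0]; gcongr)
    have h2 : |((x:ℝ) * c - y) * θ - m'| ≤ e0 := hm'.trans (by rw [he0]; gcongr)
    have e1 : ((((x:ℤ) * j * a - (m' - m) : ℤ)) : ℝ) + x * (k * j) * β =
        (((x:ℝ) * c - y) * θ - m') - (((x:ℝ) * b - y) * θ - m) := by
      rw [hcb, hβd]; push_cast; field_simp; ring
    have h3 : |((((x:ℤ) * j * a - (m' - m) : ℤ)) : ℝ) + x * (k * j) * β| ≤ 2 * e0 := by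
      rw [e1]; refine (abs_sub _ _).trans (by linarith)
    have h4 : |x * (k * j) * β| = δ * ((c:ℝ) - b) := by
      rw [hdc, hδ, abs_mul, abs_of_nonneg (by positivity : (0:ℝ) ≤ x * (k * j))]; ring
    have h5 : |((((x:ℤ) * j * a - (m' - m) : ℤ)) : ℝ)| ≤ 2 * e0 + 1/2 := by
      have e2 : ((((x:ℤ) * j * a - (m' - m) : ℤ)) : ℝ) =
          (((((x:ℤ) * j * a - (m' - m) : ℤ)) : ℝ) + x * (k * j) * β) - x * (k * j) * β := by ring
      rw [e2]; refine (abs_sub _ _).trans ?_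
      rw [h4]; linarith
    have h6 := int_zero h5 (by linarith)
    rw [h6] at h3
    push_cast at h3
    rw [zero_add, h4] at h3
    rw [le_div_iff₀ hδ0]; linarith
  -- the fibres
  set f : ℕ → ℕ × ℕ := fun b => (⌊2 * δ * b⌋₊, b % k) with hf
  have hfib : ∀ z ∈ S.image f, ((S.filter fun b => f b = z).card : ℝ) ≤ 2 * e0 / δ + 1 := by
    intro z _
    apply card_diam (by positivity)
    intro b hb c hc hbc
    obtain ⟨hb1, hb2⟩ := Finset.mem_filter.1 hb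
    obtain ⟨hc1, hc2⟩ := Finset.mem_filter.1 hc
    have h1 : f b = f c := hb2.trans hc2.symm
    have h2 : ⌊2 * δ * b⌋₊ = ⌊2 * δ * c⌋₊ := congrArg Prod.fst h1
    have h3 : b % k = c % k := congrArg Prod.snd h1
    have h4 : k ∣ c - b := (Nat.modEq_iff_dvd' hbc).1 h3
    apply key b hb1 c hc1 hbc h4
    have h5 : 2 * δ * c < ⌊2 * δ * c⌋₊ + 1 := Nat.lt_floor_add_one _
    have h6 : (⌊2 * δ * b⌋₊ : ℝ) ≤ 2 * δ * b := Nat.floor_le (by positivity)
    rw [← h2] at h5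
    nlinarith
  have himg : ((S.image f).card : ℝ) ≤ (2 * δ * P + 2) * k := by
    have hsub : S.image f ⊆ (Finset.Icc ⌊2 * δ * P⌋₊ ⌊2 * δ * (2 * P : ℕ)⌋₊) ×ˢ Finset.range k := by
      intro z hz
      obtain ⟨b, hb, rfl⟩ := Finset.mem_image.1 hz
      obtain ⟨h1, h2⟩ := hS b hb
      refine Finset.mem_product.2 ⟨Finset.mem_Icc.2 ⟨?_, ?_⟩, Finset.mem_range.2 (Nat.mod_lt _ hk)⟩
      · apply Nat.floor_le_floor
        apply mul_le_mul_of_nonneg_left _ (by positivity)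
        exact_mod_cast h1.le
      · apply Nat.floor_le_floor
        apply mul_le_mul_of_nonneg_left _ (by positivity)
        exact_mod_cast h2
    have h1 := Finset.card_le_card hsub
    rw [Finset.card_product, Finset.card_range, Nat.card_Icc] at h1
    have h2 : (((⌊2 * δ * (2 * P : ℕ)⌋₊ + 1 - ⌊2 * δ * P⌋₊ : ℕ)) : ℝ) ≤ 2 * δ * P + 2 := by
      have hle : ⌊2 * δ * P⌋₊ ≤ ⌊2 * δ * (2 * P : ℕ)⌋₊ := by
        apply Nat.floor_le_floor
        apply mul_le_mul_of_nonneg_left _ (by positivity)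
        push_cast; linarith
      rw [Nat.cast_sub (by omega)]
      have h3 : (⌊2 * δ * (2 * P : ℕ)⌋₊ : ℝ) ≤ 2 * δ * (2 * P : ℕ) := Nat.floor_le (by positivity)
      have h4 : 2 * δ * P < ⌊2 * δ * P⌋₊ + 1 := Nat.lt_floor_add_one _
      push_cast at h3 ⊢
      linarith
    calc ((S.image f).card : ℝ) ≤
          (((⌊2 * δ * (2 * P : ℕ)⌋₊ + 1 - ⌊2 * δ * P⌋₊) * k : ℕ) : ℝ) := by exact_mod_cast h1
      _ = (((⌊2 * δ * (2 * P : ℕ)⌋₊ + 1 - ⌊2 * δ * P⌋₊ : ℕ)) : ℝ) * k := by push_cast; rfl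
      _ ≤ _ := mul_le_mul_of_nonneg_right h2 hk0.le
  have hcard : (S.card : ℝ) ≤ (2 * e0 / δ + 1) * (S.image f).card := by
    have h1 : S.card = ∑ z ∈ S.image f, (S.filter fun b => f b = z).card :=
      Finset.card_eq_sum_card_image f S
    rw [h1]
    push_cast
    calc ∑ z ∈ S.image f, ((S.filter fun b => f b = z).card : ℝ)
        ≤ ∑ z ∈ S.image f, (2 * e0 / δ + 1) := Finset.sum_le_sum hfib
      _ = _ := by rw [Finset.sum_const, nsmul_eq_mul]; ring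
  have hq : 0 ≤ 2 * e0 / δ := by positivity
  calc (S.card : ℝ) ≤ (2 * e0 / δ + 1) * (S.image f).card := hcard
    _ ≤ (2 * e0 / δ + 1) * ((2 * δ * P + 2) * k) := mul_le_mul_of_nonneg_left himg (by linarith)
    _ = 4 * e0 * P * k + 4 * e0 * k * (1 / δ) + 2 * P * (δ * k) + 2 * k := by
        field_simp
        ring
    _ ≤ 4 * e0 * P * k + 4 * e0 * k * (8 * P * Y * k) + 2 * P * (2 * e0 * Y) + 2 * k := by
        gcongr
    _ ≤ _ := by nlinarith

set_option maxHeartbeats 2000000 in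
/-- **the core**: more than `P / H` elements of one type are impossible -/
theorem core {θ Y ε H : ℝ} {P x y : ℕ} {S : Finset ℕ} (hS : ∀ b ∈ S, P < b ∧ b ≤ 2 * P)
    (hx : 0 < x) (hxY : (x:ℝ) ≤ Y) (hyY : (y:ℝ) ≤ Y) (hH : 1 ≤ H) (hε : 0 ≤ ε) (hε4 : 4 * ε ≤ 1)
    (hP1 : 10 * Y ≤ P) (hP2 : (3 * H * Y)^5 * Y ≤ P) (hP3 : 36 * H^2 * Y ≤ P)
    (hε1 : 2000 * (H^3 * Y^4 * ε) ≤ 1) (h : ∀ b ∈ S, Hit θ Y ε x y b) : (S.card : ℝ) ≤ P / H := by
  classical
  by_contra hcard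
  push Not at hcard
  have hx1 : (1:ℝ) ≤ x := by exact_mod_cast hx
  have hY1 : 1 ≤ Y := hx1.trans hxY
  have hH0 : 0 < H := by linarith
  have hP0 : (0:ℝ) < P := by linarith
  have hPN : 0 < P := by exact_mod_cast hP0
  have hH2 : H ≤ H^2 := by nlinarith
  have hH3 : H^2 ≤ H^3 := by
    calc H^2 = H^2 * 1 := (mul_one _).symm
      _ ≤ H^2 * H := mul_le_mul_of_nonneg_left hH (by positivity)
      _ = H^3 := by ring
  -- two elements at distance `< L`
  set L : ℕ := ⌈2 * H⌉₊ with hL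
  have hL1 : 2 * H ≤ L := Nat.le_ceil _
  have hL2 : (L:ℝ) ≤ 3 * H := by
    have := Nat.ceil_lt_add_one (show 0 ≤ 2 * H by linarith)
    linarith
  have hL0 : 0 < L := by
    have : (0:ℝ) < L := by linarith
    exact_mod_cast this
  have hLr : (0:ℝ) < L := by exact_mod_cast hL0
  obtain ⟨b, hb, c, hc, hne, hdiv⟩ : ∃ b ∈ S, ∃ c ∈ S, b ≠ c ∧ b / L = c / L := by
    apply Finset.exists_ne_map_eq_of_card_lt_of_maps_to (t := Finset.Icc (P / L) (2 * P / L))
    · rw [Nat.card_Icc]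
      have h1 : (((2 * P / L + 1 - P / L : ℕ)) : ℝ) ≤ P / (2 * H) + 2 := by
        have hle : P / L ≤ 2 * P / L := Nat.div_le_div_right (by omega)
        rw [Nat.cast_sub (by omega)]
        have h2 : ((2 * P / L : ℕ) : ℝ) ≤ 2 * P / L := by
          have := Nat.cast_div_le (α := ℝ) (m := 2 * P) (n := L)
          push_cast at this ⊢; exact this
        have h3 : (P:ℝ) / L < ((P / L : ℕ) : ℝ) + 1 := by
          rw [div_lt_iff₀ hLr]
          have h4 : P < (P / L + 1) * L := by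
            have := Nat.lt_div_mul_add (a := P) hL0
            nlinarith
          exact_mod_cast h4
        have h5 : (P:ℝ) / L ≤ P / (2 * H) := div_le_div_of_nonneg_left hP0.le (by linarith) hL1
        push_cast
        have h6 : (2:ℝ) * P / L = P / L + P / L := by ring
        rw [h6] at h2
        linarith
      have h2 : (P:ℝ) / (2 * H) + 2 ≤ P / H := by
        have h3 : (P:ℝ) / H = P / (2 * H) + P / (2 * H) := by field_simp; ring
        have h4 : 2 ≤ (P:ℝ) / (2 * H) := by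
          rw [le_div_iff₀ (by linarith)]; nlinarith
        linarith
      have h3 : (((2 * P / L + 1 - P / L : ℕ)) : ℝ) < S.card := by linarith
      exact_mod_cast h3
    · intro b hb
      obtain ⟨h1, h2⟩ := hS b hb
      rw [Finset.coe_Icc, Set.mem_Icc]
      exact ⟨Nat.div_le_div_right h1.le, Nat.div_le_div_right h2⟩
  -- order them
  wlog hbc : b < c generalizing b c
  · exact this c hc b hb hne.symm hdiv.symm (lt_of_le_of_ne (not_lt.1 hbc) hne.symm)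
  have hdist : ((c:ℝ) - b) ≤ 3 * H := by
    have h1 : c < b + L := by
      have h2 := Nat.div_add_mod b L
      have h3 := Nat.div_add_mod c L
      have h4 := Nat.mod_lt c hL0
      rw [← hdiv] at h3
      have h5 : 0 ≤ b % L := Nat.zero_le _
      omega
    have h2 : (c:ℝ) < b + L := by exact_mod_cast h1
    linarith
  obtain ⟨r, hr0, hrY, -, m, hm⟩ := h b hb
  obtain ⟨r', hr0', hrY', -, m', hm'⟩ := h c hc
  set k : ℕ := x * (c - b) with hkd
  have hk : 0 < k := Nat.mul_pos hx (by omega)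
  have hkR : (k:ℝ) = x * ((c:ℝ) - b) := by
    rw [hkd, Nat.cast_mul, Nat.cast_sub hbc.le]
  have hk0 : (0:ℝ) < k := by exact_mod_cast hk
  have hk1 : (1:ℝ) ≤ k := by exact_mod_cast hk
  have hcb0 : (0:ℝ) ≤ (c:ℝ) - b := by
    have : (b:ℝ) < c := by exact_mod_cast hbc
    linarith
  have hkK : (k:ℝ) ≤ 3 * H * Y := by
    rw [hkR]
    calc (x:ℝ) * ((c:ℝ) - b) ≤ Y * (3 * H) := mul_le_mul hxY hdist hcb0 (by linarith)
      _ = _ := by ring
  set a : ℤ := m' - m with had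
  have hkβ : k * |θ - a / k| ≤ 2 * (ε * Y) := by
    have e1 : k * (θ - a / k) = (((x:ℝ) * c - y) * θ - m') - (((x:ℝ) * b - y) * θ - m) := by
      have : (k:ℝ) * (θ - a / k) = k * θ - a := by field_simp
      rw [this, hkR, had]; push_cast; ring
    rw [← abs_of_pos hk0, ← abs_mul, abs_of_pos hk0, e1]
    refine (abs_sub _ _).trans ?_
    have h1 : |((x:ℝ) * b - y) * θ - m| ≤ ε * Y := hm.trans (by gcongr)
    have h2 : |((x:ℝ) * c - y) * θ - m'| ≤ ε * Y := hm'.trans (by gcongr)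
    linarith
  have hY0 : 0 < Y := by linarith
  have hYpow : Y ≤ Y^4 := by
    calc Y = Y^1 := (pow_one Y).symm
      _ ≤ Y^4 := pow_le_pow_right₀ hY1 (by norm_num)
  have hH1 : 1 ≤ H^3 := one_le_pow₀ hH
  have he_small : ε * Y ≤ 1/2000 := by
    have h1 : Y * ε ≤ H^3 * Y^4 * ε := by
      apply mul_le_mul_of_nonneg_right _ hε
      calc Y = 1 * Y := (one_mul _).symm
        _ ≤ H^3 * Y^4 := mul_le_mul hH1 hYpow hY0.le (by positivity)
    nlinarith
  rcases le_or_gt (|θ - a / k| * (8 * P * Y * k)) 1 with hc1 | hc1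
  · -- case 1
    obtain ⟨h1, h2⟩ := hS b hb
    refine case1 hk h1 h2 hx hxY hyY hY1 hε hε4 hP1 ?_ ?_ hc1 (h b hb)
    · refine le_trans ?_ hP2
      have : (k:ℝ)^5 ≤ (3 * H * Y)^5 := pow_le_pow_left₀ hk0.le hkK 5
      exact mul_le_mul_of_nonneg_right this hY0.le
    · calc k * (ε * Y) ≤ (3 * H * Y) * (ε * Y) := mul_le_mul_of_nonneg_right hkK (by positivity)
        _ = 3 * (H * Y^2 * ε) := by ring
        _ ≤ 3 * (H^3 * Y^4 * ε) := by
            have h3 : H ≤ H^3 := hH2.trans hH3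
            have h4 : Y^2 ≤ Y^4 := pow_le_pow_right₀ hY1 (by norm_num)
            gcongr
        _ ≤ 1/4 := by linarith
  · -- case 2
    have h1 := case2 hk hS hx hxY hε (by linarith) hkβ hc1 h
    have hkk : (k:ℝ)^2 ≤ (3 * H * Y)^2 := pow_le_pow_left₀ hk0.le hkK 2
    have h2 : (k:ℝ) + 8 * Y * k^2 + Y ≤ 81 * (H^2 * Y^3) := by
      have h3 : (k:ℝ) ≤ 3 * (H^2 * Y^3) := by
        have h4 : Y ≤ Y^3 := by
          calc Y = Y^1 := (pow_one Y).symm
            _ ≤ Y^3 := pow_le_pow_right₀ hY1 (by norm_num)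
        calc (k:ℝ) ≤ 3 * H * Y := hkK
          _ = 3 * (H * Y) := by ring
          _ ≤ 3 * (H^2 * Y^3) := by gcongr
      have h5 : 8 * Y * k^2 ≤ 72 * (H^2 * Y^3) := by
        calc 8 * Y * (k:ℝ)^2 ≤ 8 * Y * (3 * H * Y)^2 := by gcongr
          _ = _ := by ring
      have h6 : Y ≤ 3 * (H^2 * Y^3) := by
        have h4 : Y ≤ Y^3 := by
          calc Y = Y^1 := (pow_one Y).symm
            _ ≤ Y^3 := pow_le_pow_right₀ hY1 (by norm_num)
        have h7 : 1 ≤ H^2 := one_le_pow₀ hH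
        nlinarith [pow_pos hY0 3]
      have h8 : 0 ≤ H^2 * Y^3 := by positivity
      nlinarith
    have h3 : 4 * (ε * Y) * P * (k + 8 * Y * k^2 + Y) ≤ P / H * (1/2) := by
      have h4 : 4 * (ε * Y) * P * (k + 8 * Y * k^2 + Y) ≤ 4 * (ε * Y) * P * (81 * (H^2 * Y^3)) := by
        gcongr
      have h5 : 4 * (ε * Y) * P * (81 * (H^2 * Y^3)) = 324 * (H^3 * Y^4 * ε) * (P / H) := by
        field_simp
        ring
      rw [h5] at h4
      have h6 : 0 < (P:ℝ) / H := by positivity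
      nlinarith
    have h4 : 4 * (k:ℝ) ≤ P / H * (1/2) := by
      have h5 : (P:ℝ) / H ≥ 36 * H * Y := by
        rw [ge_iff_le, le_div_iff₀ hH0]; nlinarith
      nlinarith
    have h5 : 0 < (P:ℝ) / H := by positivity
    linarith

lemma sum_bU_le {ι α : Type*} [DecidableEq ι] [DecidableEq α] (T : Finset ι) (S : ι → Finset α)
    (f : α → ℝ) (hf : ∀ a, 0 ≤ f a) : ∑ a ∈ T.biUnion S, f a ≤ ∑ i ∈ T, ∑ a ∈ S i, f a := by
  induction T using Finset.induction_on with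
  | empty => simp
  | insert i T hi ih =>
    rw [Finset.biUnion_insert, Finset.sum_insert hi]
    have h1 : ∑ a ∈ S i ∪ T.biUnion S, f a + ∑ a ∈ S i ∩ T.biUnion S, f a =
        ∑ a ∈ S i, f a + ∑ a ∈ T.biUnion S, f a := Finset.sum_union_inter
    have h2 : 0 ≤ ∑ a ∈ S i ∩ T.biUnion S, f a := Finset.sum_nonneg fun a _ => hf a
    linarith

open Classical in
/-- **density of the coincidence primes**, for every target `θ` -/
theorem co_log (K E : ℝ) (hK : 0 ≤ K) (hE : 0 ≤ E) : ∃ p₁ : ℕ, ∀ P ≥ p₁, ∀ θ : ℝ,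
    ∑ p ∈ (blk P (2 * P)).filter (fun p : ℕ => Co K θ p), (1 / (p : ℝ)) ≤ Real.log P ^ (-E) := by
  obtain ⟨p1, hp1⟩ := log_large 2
  obtain ⟨p2, hp2⟩ := small 2000 (32 * K + 5 * E) (δ := 1) (by norm_num)
  refine ⟨p1 + p2 + 1, fun P hP θ => ?_⟩
  have hl2 := hp1 P (by omega)
  have hsm := hp2 P (by omega)
  have hPN : 0 < P := by omega
  have hP0 : (0:ℝ) < P := by exact_mod_cast hPN
  set ℓ := Real.log (P:ℝ) with hℓ
  have hℓ0 : 0 < ℓ := by linarith
  have hℓ1 : 1 ≤ ℓ := by linarith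
  set Wx := Real.exp (-(1/500) * ℓ^(4/5:ℝ)) with hWx
  have hW0 : 0 < Wx := Real.exp_pos _
  have hx45 : 0 ≤ ℓ^(4/5:ℝ) := by positivity
  have hx451 : ℓ^(4/5:ℝ) ≤ ℓ := by
    calc ℓ^(4/5:ℝ) ≤ ℓ^(1:ℝ) := Real.rpow_le_rpow_of_exponent_le hℓ1 (by norm_num)
      _ = ℓ := Real.rpow_one _
  have hWP : 1 ≤ Wx * P := by
    have h1 : (P:ℝ) = Real.exp ℓ := by rw [hℓ, Real.exp_log hP0]
    rw [h1, hWx, ← Real.exp_add]
    apply Real.one_le_exp; linarith
  set η := Real.exp (-(ℓ^(4/5:ℝ))) with hη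
  have hηW : η ≤ Wx := Real.exp_le_exp.2 (by linarith)
  have hη0 : 0 < η := Real.exp_pos _
  -- powers of the logarithm
  have pw : ∀ a : ℝ, a ≤ 32 * K + 5 * E → ℓ^a ≤ ℓ^(32 * K + 5 * E) := fun a ha =>
    Real.rpow_le_rpow_of_exponent_le hℓ1 ha
  have bigP : ∀ (c a : ℝ), 0 ≤ c → c ≤ 2000 → a ≤ 32 * K + 5 * E → c * ℓ^a ≤ P := by
    intro c a hc0 hc ha
    have h1 : c * ℓ^a ≤ 2000 * ℓ^(32 * K + 5 * E) := mul_le_mul hc (pw a ha) (by positivity) (by norm_num)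
    have h2 : 2000 * ℓ^(32 * K + 5 * E) * (Wx * P) ≤ P := by
      calc 2000 * ℓ^(32 * K + 5 * E) * (Wx * P) = (2000 * ℓ^(32 * K + 5 * E) * Wx) * P := by ring
        _ ≤ 1 * P := mul_le_mul_of_nonneg_right hsm hP0.le
        _ = P := one_mul _
    have h3 : 0 ≤ 2000 * ℓ^(32 * K + 5 * E) := by positivity
    have h4 : 2000 * ℓ^(32 * K + 5 * E) * 1 ≤ 2000 * ℓ^(32 * K + 5 * E) * (Wx * P) :=
      mul_le_mul_of_nonneg_left hWP h3
    linarith
  have bigη : ∀ (c a : ℝ), 0 ≤ c → c ≤ 2000 → a ≤ 32 * K + 5 * E → c * (ℓ^a * η) ≤ 1 := by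
    intro c a hc0 hc ha
    calc c * (ℓ^a * η) ≤ 2000 * (ℓ^(32 * K + 5 * E) * Wx) :=
          mul_le_mul hc (mul_le_mul (pw a ha) hηW hη0.le (by positivity)) (by positivity) (by norm_num)
      _ = 2000 * ℓ^(32 * K + 5 * E) * Wx := by ring
      _ ≤ 1 := hsm
  set Y := ℓ^(2 * K) with hY
  set H := ℓ^(4 * K + E) with hH
  have hY1 : 1 ≤ Y := Real.one_le_rpow hℓ1 (by linarith)
  have hH1 : 1 ≤ H := Real.one_le_rpow hℓ1 (by linarith)
  have hY0 : 0 < Y := by linarith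
  set ε := η * Y with hε
  have hε0 : 0 ≤ ε := by positivity
  have npow : ∀ (a : ℝ) (n : ℕ), (ℓ^a)^n = ℓ^(a * n) := fun a n => by
    rw [← Real.rpow_natCast, ← Real.rpow_mul hℓ0.le]
  -- the logarithm of a prime of the block
  have hlog : ∀ p ∈ blk P (2 * P), Real.log (p:ℝ)^K ≤ Y ∧ ℓ ≤ Real.log (p:ℝ) := by
    intro p hp
    obtain ⟨h1, h2, h3⟩ := mem_blk33.1 hp
    have hp0 : (0:ℝ) < p := by exact_mod_cast h3.pos
    have hlo : ℓ ≤ Real.log (p:ℝ) := Real.log_le_log hP0 (by exact_mod_cast h1.le)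
    refine ⟨?_, hlo⟩
    have h4 : Real.log (p:ℝ) ≤ ℓ^(2:ℝ) := by
      have h5 : Real.log (p:ℝ) ≤ Real.log (2 * P) := Real.log_le_log hp0 (by exact_mod_cast h2)
      rw [Real.log_mul (by norm_num) hP0.ne'] at h5
      have h6 : Real.log 2 ≤ 1 := by have := Real.log_two_lt_d9; linarith
      rw [Real.rpow_two]
      nlinarith
    calc Real.log (p:ℝ)^K ≤ (ℓ^(2:ℝ))^K := Real.rpow_le_rpow (by linarith) h4 hK
      _ = Y := by rw [← Real.rpow_mul hℓ0.le]
  -- union over the types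
  set N := ⌊Y⌋₊ with hN
  set T := Finset.Icc 1 N ×ˢ Finset.Icc 1 N with hT
  have hcov : (blk P (2 * P)).filter (fun p : ℕ => Co K θ p) ⊆
      T.biUnion (fun xy => (blk P (2 * P)).filter (fun p : ℕ => Hit θ Y ε xy.1 xy.2 p)) := by
    intro p hp
    obtain ⟨hpb, r, hr0, hrK, hU, x, y, hx, hy, hxK, hyK, m, hm⟩ := Finset.mem_filter.1 hp
    obtain ⟨hlK, hlℓ⟩ := hlog p hpb
    refine Finset.mem_biUnion.2 ⟨(x, y), Finset.mem_product.2 ⟨Finset.mem_Icc.2 ⟨hx,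
      Nat.le_floor (hxK.trans hlK)⟩, Finset.mem_Icc.2 ⟨hy, Nat.le_floor (hyK.trans hlK)⟩⟩,
      Finset.mem_filter.2 ⟨hpb, r, hr0, hrK.trans hlK, hU, m, hm.trans ?_⟩⟩
    apply mul_le_mul_of_nonneg_right _ hr0.le
    have h1 : Real.exp (-(Real.log (p:ℝ) ^ (4/5:ℝ))) ≤ η := by
      apply Real.exp_le_exp.2
      apply neg_le_neg
      exact Real.rpow_le_rpow hℓ0.le hlℓ (by norm_num)
    have h2 : 0 ≤ Real.log (p:ℝ)^K := Real.rpow_nonneg (by linarith) _
    exact mul_le_mul h1 hlK h2 hη0.le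
  have hone : ∀ xy ∈ T, ∑ p ∈ (blk P (2 * P)).filter (fun p : ℕ => Hit θ Y ε xy.1 xy.2 p),
      (1 / (p : ℝ)) ≤ 1 / H := by
    intro xy hxy
    obtain ⟨hx, hy⟩ := Finset.mem_product.1 hxy
    obtain ⟨hx1, hx2⟩ := Finset.mem_Icc.1 hx
    obtain ⟨hy1, hy2⟩ := Finset.mem_Icc.1 hy
    have hxY : ((xy.1 : ℕ) : ℝ) ≤ Y := (Nat.le_floor_iff hY0.le).1 hx2
    have hyY : ((xy.2 : ℕ) : ℝ) ≤ Y := (Nat.le_floor_iff hY0.le).1 hy2
    have hcore := core (θ := θ) (Y := Y) (ε := ε) (H := H) (P := P) (x := xy.1) (y := xy.2)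
      (S := (blk P (2 * P)).filter (fun p : ℕ => Hit θ Y ε xy.1 xy.2 p))
      (fun b hb => by
        have := mem_blk33.1 (Finset.mem_filter.1 hb).1
        exact ⟨this.1, this.2.1⟩) hx1 hxY hyY hH1 hε0
      (by
        have := bigη 4 (2 * K) (by norm_num) (by norm_num) (by linarith)
        rw [hε]; linarith [mul_comm η Y])
      (bigP 10 (2 * K) (by norm_num) (by norm_num) (by linarith))
      (by
        have h1 := bigP 243 (32 * K + 5 * E) (by norm_num) (by norm_num) le_rfl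
        have e1 : (3 * H * Y)^5 * Y = 243 * ℓ^(32 * K + 5 * E) := by
          have : (3 * H * Y)^5 * Y = 243 * (H^5 * Y^6) := by ring
          rw [this, hH, hY, npow, npow, ← Real.rpow_add hℓ0]
          congr 2
          push_cast; ring
        rw [e1]; exact h1)
      (by
        have h1 := bigP 36 (10 * K + 2 * E) (by norm_num) (by norm_num) (by linarith)
        have e1 : 36 * H^2 * Y = 36 * ℓ^(10 * K + 2 * E) := by
          rw [mul_assoc, hH, hY, npow, ← Real.rpow_add hℓ0]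
          congr 2
          push_cast; ring
        rw [e1]; exact h1)
      (by
        have h1 := bigη 2000 (22 * K + 3 * E) (by norm_num) (by norm_num) (by linarith)
        have e1 : H^3 * Y^4 * ε = ℓ^(22 * K + 3 * E) * η := by
          have : H^3 * Y^4 * ε = (H^3 * Y^5) * η := by rw [hε]; ring
          rw [this, hH, hY, npow, npow, ← Real.rpow_add hℓ0]
          congr 2
          push_cast; ring
        rw [e1]; exact h1)
      (fun b hb => (Finset.mem_filter.1 hb).2)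
    have h1 : ∀ p ∈ (blk P (2 * P)).filter (fun p : ℕ => Hit θ Y ε xy.1 xy.2 p),
        (1 / (p : ℝ)) ≤ 1 / P := by
      intro p hp
      exact one_div_le_one_div_of_le hP0
        (by exact_mod_cast (mem_blk33.1 (Finset.mem_filter.1 hp).1).1.le)
    refine (Finset.sum_le_card_nsmul _ _ _ h1).trans ?_
    rw [nsmul_eq_mul]
    calc _ ≤ (P / H) * (1 / (P:ℝ)) := mul_le_mul_of_nonneg_right hcore (by positivity)
      _ = 1 / H := by field_simp
  have hTc : (T.card : ℝ) ≤ Y^2 := by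
    rw [hT, Finset.card_product, Nat.card_Icc]
    have h1 : ((N + 1 - 1 : ℕ) : ℝ) ≤ Y := by
      rw [Nat.add_sub_cancel]; exact Nat.floor_le hY0.le
    push_cast [Nat.cast_mul] at h1 ⊢
    rw [pow_two]
    exact mul_le_mul h1 h1 (Nat.cast_nonneg _) hY0.le
  calc ∑ p ∈ (blk P (2 * P)).filter (fun p : ℕ => Co K θ p), (1 / (p : ℝ))
      ≤ ∑ p ∈ T.biUnion (fun xy => (blk P (2 * P)).filter
          (fun p : ℕ => Hit θ Y ε xy.1 xy.2 p)), (1 / (p : ℝ)) :=
        Finset.sum_le_sum_of_subset_of_nonneg hcov fun _ _ _ => by positivity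
    _ ≤ ∑ xy ∈ T, ∑ p ∈ (blk P (2 * P)).filter (fun p : ℕ => Hit θ Y ε xy.1 xy.2 p),
          (1 / (p : ℝ)) := sum_bU_le _ _ _ (fun _ => by positivity)
    _ ≤ ∑ xy ∈ T, 1 / H := Finset.sum_le_sum hone
    _ = T.card * (1 / H) := by rw [Finset.sum_const, nsmul_eq_mul]
    _ ≤ Y^2 * (1 / H) := mul_le_mul_of_nonneg_right hTc (by positivity)
    _ = ℓ^(-E) := by
        rw [hY, hH, npow, one_div, ← Real.rpow_neg hℓ0.le, ← Real.rpow_add hℓ0]
        congr 1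
        push_cast; ring

end Crest.Agent.R4P.CoEv30
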