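import Crest.Agent.R4P.RseN_24
import Crest.Agent.R4.DensAcc33
import Crest.Agent.R4.CrossLow709

/-!
R4P (S0004, all `q`), helper24: the numbers (N1), (N3) of `[W-dseR/D5]` (helper23 #3337).

* `dUU` (N1): unlabelled pairs across a prime `b` (`b ∣ v`, `¬ b ∣ w`), `≤ (log b)^(-K) (M_V + M_W / b)`;
  `dUU'` the same with the roles exchanged.
* `dLL` (N3): different labels with `p ^ c ≤ Zc`: `≤ p^(-c/7) M`.
-/

set_option autoImplicit false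
open Finset

namespace Crest.Agent.R4P.RseP24

open Crest.Agent.R4.HVW560 Crest.Agent.R4.HVWX793
open Crest.Agent.R4.ClsS (eps1)
open Crest.Agent.R4.LF363 (Lab)
open Crest.Agent.R4.InX944
open Crest.Agent.R4.StopAsm709
open Crest.Agent.R4.StopHvw709
open Crest.Agent.R4.RseN207 (small log_large exists_scale)
open Crest.Agent.R4.DensAcc33 (Accd)
open Crest.Agent.R4

/-- polylog `≤` power -/
lemma log_le_rpow (C K : ℝ) {δ : ℝ} (hδ : 0 < δ) : ∃ p₁ : ℕ, ∀ p : ℕ, p₁ ≤ p →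
    C * Real.log p ^ K ≤ (p:ℝ)^δ := by
  have h := isLittleO_log_rpow_rpow_atTop K hδ
  have h1 := h.def (c := 1/(|C|+1)) (by positivity)
  have h2 := (tendsto_natCast_atTop_atTop (R := ℝ)).eventually h1
  obtain ⟨p₁, hp₁⟩ := Filter.eventually_atTop.1 h2
  obtain ⟨p₂, hp₂⟩ := log_large 1
  refine ⟨p₁ + p₂ + 1, fun p hp => ?_⟩
  have h3 := hp₁ p (by omega)
  have hl := hp₂ p (by omega)
  have hp0 : (0:ℝ) < p := by
    have : 0 < p := by omega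
    exact_mod_cast this
  have hl0 : 0 < Real.log (p:ℝ) := by linarith
  have hlK : 0 ≤ Real.log (p:ℝ) ^ K := by positivity
  have hpδ : 0 ≤ (p:ℝ)^δ := by positivity
  rw [Real.norm_of_nonneg hlK, Real.norm_of_nonneg hpδ] at h3
  have h4 : 0 < |C| + 1 := by positivity
  rw [one_div, inv_mul_eq_div, le_div_iff₀ h4] at h3
  have h5 : C ≤ |C| := le_abs_self C
  nlinarith

lemma tame_dvd {z : ℝ} {b w : ℕ} (hw : 0 < w) (hb : b ∣ w) (h : Crest.Agent.R4.ClsB.Tame z 1 w) :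
    Crest.Agent.R4.ClsB.Tame z (1 * b) w := by
  obtain ⟨-, h2⟩ := h
  rw [one_mul]
  refine ⟨hb, le_trans ?_ h2⟩
  rw [Nat.div_one]
  apply Finset.sum_le_sum_of_subset_of_nonneg
  · apply Finset.filter_subset_filter
    exact Nat.primeFactors_mono (Nat.div_dvd_of_dvd hb) hw.ne'
  · intro p _ _; positivity

/-- weighted arithmetic-geometric mean -/
lemma amgm {x y b e : ℝ} (hx : 0 ≤ x) (hy : 0 ≤ y) (hb : 0 < b) (he : 0 ≤ e) (he2 : e ≤ 1/2) :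
    b^(-(1/2-e)) * (x * y)^(1/2+e) ≤ y^(2*e) * (x + y/b) := by
  rcases hy.eq_or_lt with h0 | h0
  · rw [← h0, mul_zero, Real.zero_rpow (by linarith), mul_zero]
    positivity
  have h1 := Real.geom_mean_le_arith_mean2_weighted (w₁ := 1/2+e) (w₂ := 1/2-e) (by linarith)
    (by linarith) hx (by positivity : 0 ≤ y/b) (by ring)
  have h2 : b^(-(1/2-e)) * (x * y)^(1/2+e) = y^(2*e) * (x^(1/2+e) * (y/b)^(1/2-e)) := by
    rw [Real.mul_rpow hx hy, Real.div_rpow hy hb.le, Real.rpow_neg hb.le]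
    have h3 : y^(1/2+e) = y^(2*e) * y^(1/2-e) := by
      rw [← Real.rpow_add h0]; congr 1; ring
    rw [h3]; field_simp
  rw [h2]
  apply mul_le_mul_of_nonneg_left _ (by positivity)
  refine h1.trans (add_le_add ?_ ?_)
  · exact mul_le_of_le_one_left hx (by linarith)
  · exact mul_le_of_le_one_left (by positivity) (by linarith)

set_option maxHeartbeats 4000000 in
/-- **(N1)** unlabelled pairs across the prime `b` -/
theorem dUU (CL C2 A K : ℝ) (hCL : 0 ≤ CL) (hC2 : 0 ≤ C2) :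
    ∃ p₁ : ℕ, ∀ b : ℕ, p₁ ≤ b → b.Prime →
    ∀ (η θ : ℝ) (V W : Finset ℕ) (E : Finset (ℕ × ℕ)) (R R' : ℕ → ℝ) (F : ℕ × ℕ → ℝ),
    0 < η → η ≤ Real.exp (-(Real.log b ^ (4/5:ℝ))) → 1 ≤ η * b → E ⊆ V ×ˢ W →
    (∀ w ∈ V, 0 < w ∧ 0 < R w) → (∀ w ∈ W, 0 < w ∧ 0 < R' w) →
    (∀ w ∈ V, R w ≤ CL * Real.log b * wt R w) → (∀ w ∈ W, R' w ≤ CL * Real.log b * wt R' w) →
    (∀ w ∈ V, b ∣ w) → (∀ w ∈ W, ¬ b ∣ w) →
    (∀ z : ℝ, (b:ℝ)^2 ≤ z → ∀ w ∈ V, Crest.Agent.R4.ClsB.Tame z 1 w) →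
    (∀ z : ℝ, (b:ℝ)^2 ≤ z → ∀ w ∈ W, Crest.Agent.R4.ClsB.Tame z 1 w) →
    ∑ w ∈ V, wt R w ≤ Real.log b ^ C2 → ∑ w ∈ W, wt R' w ≤ Real.log b ^ C2 →
    (∀ e ∈ E, F e ≤ 2 * ((R e.1 * R' e.2) / DP R R' e) * (2 * η * DP R R' e + 1)) →
    (∀ e ∈ E, 0 < F e → ∃ m m' : ℤ,
      |(m + θ) * (cof e.2 e.1 : ℕ) - (m' + θ) * (cof e.1 e.2 : ℕ)| ≤ η * DP R R' e) →
    (∀ w ∈ W, R' w * (η * b) ≤ 1 → ∀ ρ, ¬ Lab θ (R' w) ρ) →
    ¬ Accd θ (Real.log b ^ A) b →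
    ∑ e ∈ E, F e ≤ Real.log b ^ (-K) * (∑ w ∈ V, wt R w + (1 / (b:ℝ)) * ∑ w ∈ W, wt R' w) := by
  classical
  obtain ⟨C, c0, hC1, hc0, H⟩ := Crest.Agent.R4.InX944.inUU
  set c1 : ℝ := min c0 (1 / max A 1) with hc1d
  have hA1 : 0 < max A 1 := lt_of_lt_of_le one_pos (le_max_right _ _)
  have hc1 : 0 < c1 := lt_min hc0 (by positivity)
  obtain ⟨T0, hT01, H⟩ := H c1 hc1 (min_le_left _ _)
  have hKH := (KH_pos 1 0 eps1).le
  obtain ⟨pa, hpa⟩ := exists_scale (c1 := c1) (T0 := T0) hc1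
  obtain ⟨pb, hpb⟩ := log_large 1
  obtain ⟨p1, hp1⟩ := small (6 * CL^2) (2 + C2 + K) (δ := 1/4) (by positivity)
  obtain ⟨p2, hp2⟩ := small (6 * CL^2 * (4 * KH 1 0 eps1 + 2 * C) * (2 * 2^(1/c1))^2)
    (2 + 2/c1 + C2 + K) (δ := 1/4) (by positivity)
  obtain ⟨p3, hp3⟩ := small (6 * CL) (1 + K) (δ := 1/4) (by positivity)
  refine ⟨pa + pb + p1 + p2 + p3 + 2^15, fun p hp hbp => ?_⟩
  obtain ⟨n, hn400, hnT, hnX, hnU⟩ := hpa p (by omega)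
  intro η θ V W E R R' F hη hη1 hηp hES hV hW hLV hLW hbV hbW hVt hWt hMV hMW hF hrel hU hAcc
  have hl1 := hpb p (by omega)
  set ℓ := Real.log (p:ℝ) with hℓ
  have hℓ0 : 0 < ℓ := by linarith
  have hpN : 0 < p := hbp.pos
  have hp0 : (0:ℝ) < p := by exact_mod_cast hpN
  have hp15 : (2:ℝ)^15 ≤ p := by
    have : 2^15 ≤ p := by omega
    exact_mod_cast this
  set L := CL * ℓ with hL
  have hL0 : 0 ≤ L := by positivity
  set M1 := ∑ w ∈ V, wt R w with hM1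
  set M2 := ∑ w ∈ W, wt R' w with hM2
  have hwt : ∀ q ∈ V, 0 ≤ wt R q := fun q hq => by
    unfold wt; exact mul_nonneg (hV q hq).2.le (by positivity)
  have hwt' : ∀ q ∈ W, 0 ≤ wt R' q := fun q hq => by
    unfold wt; exact mul_nonneg (hW q hq).2.le (by positivity)
  have hM10 : 0 ≤ M1 := Finset.sum_nonneg hwt
  have hM20 : 0 ≤ M2 := Finset.sum_nonneg hwt'
  have he1 : eps1 = 1/1000 := rfl
  set Wx := Real.exp (-(1/500) * ℓ^(4/5:ℝ)) with hWx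
  have hW0 : 0 < Wx := Real.exp_pos _
  have hx45 : 0 ≤ ℓ^(4/5:ℝ) := by positivity
  have hx451 : ℓ^(4/5:ℝ) ≤ ℓ := by
    calc ℓ^(4/5:ℝ) ≤ ℓ^(1:ℝ) := Real.rpow_le_rpow_of_exponent_le hl1 (by norm_num)
      _ = ℓ := Real.rpow_one _
  have hηW : η ≤ Wx := hη1.trans (Real.exp_le_exp.2 (by nlinarith))
  have hη_one : η ≤ 1 := by
    refine hη1.trans ?_
    rw [Real.exp_le_one_iff]
    linarith
  have hηe : η^(2*eps1) ≤ Wx := by
    calc η^(2*eps1) ≤ (Real.exp (-(ℓ^(4/5:ℝ))))^(2*eps1) :=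
          Real.rpow_le_rpow hη.le hη1 (by rw [he1]; norm_num)
      _ = Real.exp (-(ℓ^(4/5:ℝ)) * (2*eps1)) := by rw [← Real.exp_mul]
      _ = Wx := by rw [hWx, he1]; congr 1; ring
  have hpinv1 : 1/(p:ℝ) ≤ Wx := by
    have : 1/(p:ℝ) = Real.exp (-ℓ) := by
      rw [Real.exp_neg, hℓ, Real.exp_log hp0, one_div]
    rw [this, hWx]
    apply Real.exp_le_exp.2
    nlinarith
  -- the extended function
  set F' : ℕ × ℕ → ℝ := fun e => if e ∈ E then F e else 0 with hF'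
  have hsum : ∑ e ∈ E, F e = ∑ e ∈ V ×ˢ W, F' e := by
    rw [hF', ← Finset.sum_filter]
    apply Finset.sum_congr _ (fun _ _ => rfl)
    ext e
    simp only [Finset.mem_filter]
    exact ⟨fun h => ⟨hES h, h⟩, fun h => h.2⟩
  have hAccN : NoAcc p n θ := by
    intro t ht1 ht2 k hk0 hk h hh
    by_contra hcon
    rw [not_lt] at hcon
    apply hAcc
    refine ⟨t, ?_, ht2, k, hk0, hk, h, hh, ?_⟩
    · refine le_trans ?_ ht1
      have h1 : 2 * ℓ ≤ ((2:ℝ)^n)^c1 := by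
        have h2 := Real.log_le_log (by positivity) hnX
        rw [Real.log_exp, Real.log_pow] at h2
        exact_mod_cast h2
      have h3 : (2 * ℓ)^(1/c1) ≤ (2:ℝ)^n := by
        calc (2 * ℓ)^(1/c1) ≤ (((2:ℝ)^n)^c1)^(1/c1) := Real.rpow_le_rpow (by positivity) h1 (by positivity)
          _ = (2:ℝ)^n := by
              rw [← Real.rpow_mul (by positivity), mul_one_div_cancel hc1.ne', Real.rpow_one]
      refine le_trans ?_ h3
      have h4 : A ≤ 1/c1 := by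
        have h5 : c1 ≤ 1 / max A 1 := min_le_right _ _
        rw [le_div_iff₀ hA1] at h5
        rw [le_div_iff₀ hc1]
        calc A * c1 ≤ max A 1 * c1 := mul_le_mul_of_nonneg_right (le_max_left _ _) hc1.le
          _ = c1 * max A 1 := mul_comm _ _
          _ ≤ 1 := h5
      calc ℓ^A ≤ ℓ^(1/c1) := Real.rpow_le_rpow_of_exponent_le hl1 h4
        _ ≤ (2*ℓ)^(1/c1) := Real.rpow_le_rpow hℓ0.le (by linarith) (by positivity)
    · have e1 : (k:ℝ) * p * θ - h = k * (p * θ) - h := by ring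
      rw [e1]; exact hcon
  have bG := H ((p:ℝ)^2) L η θ n 1 p V W R R' F' hn400 hbp hnT hnX one_pos hη hη_one hηp hp15 hV hW
    hLV hLW hbV hbW (fun z hz w hw => tame_dvd (hV w hw).1 (hbV w hw) (hVt z hz w hw)) hWt
    (fun e he => by
      have hm := Finset.mem_product.1 he
      simp only [hF']
      split_ifs with h
      · exact hF e h
      · have h1 := (hV _ hm.1).2
        have h2 := (hW _ hm.2).2
        have h3 := DP_pos (R := R) (R' := R') (hW _ hm.2).1 h1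
        positivity)
    (fun e he h0 => by
      simp only [hF'] at h0
      split_ifs at h0 with h
      · exact hrel e h h0
      · exact absurd h0 (lt_irrefl 0)) hU hAccN
  rw [hsum]
  refine bG.trans ?_
  rw [← hM1, ← hM2]
  set Sx := M1 + (1 / (p:ℝ)) * M2 with hSx
  have hSx0 : 0 ≤ Sx := by positivity
  have hM1S : M1 ≤ Sx := by
    have : 0 ≤ (1 / (p:ℝ)) * M2 := by positivity
    linarith
  -- term 1
  have t1 : 6 * η * L^2 * (M1 * M2) ≤ 1/4 * ℓ^(-K) * Sx := by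
    have h := hp1 p (by omega)
    have h' : 6 * CL^2 * ℓ^(2+C2) * Wx ≤ 1/4 * ℓ^(-K) := by
      have e1 : ℓ^(2+C2+K) * ℓ^(-K) = ℓ^(2+C2) := by
        rw [← Real.rpow_add hℓ0]; congr 1; ring
      calc 6 * CL^2 * ℓ^(2+C2) * Wx = (6 * CL^2 * ℓ^(2+C2+K) * Wx) * ℓ^(-K) := by rw [← e1]; ring
        _ ≤ 1/4 * ℓ^(-K) := mul_le_mul_of_nonneg_right h (by positivity)
    calc 6 * η * L^2 * (M1 * M2) = 6 * L^2 * η * M2 * M1 := by ring
      _ ≤ 6 * L^2 * Wx * ℓ^C2 * M1 := by gcongr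
      _ = (6 * CL^2) * (ℓ^(2:ℝ) * ℓ^C2) * Wx * M1 := by rw [hL, Real.rpow_two]; ring
      _ = (6 * CL^2) * ℓ^(2 + C2) * Wx * M1 := by rw [Real.rpow_add hℓ0]
      _ ≤ 1/4 * ℓ^(-K) * M1 := mul_le_mul_of_nonneg_right h' hM10
      _ ≤ 1/4 * ℓ^(-K) * Sx := mul_le_mul_of_nonneg_left hM1S (by positivity)
  -- term 2
  have hn2 : (n:ℝ) ≤ (2:ℝ)^n := by
    exact_mod_cast (Nat.lt_two_pow_self (n := n)).le
  set T := (2:ℝ)^n with hT
  have hT1 : 1 ≤ T := one_le_pow₀ (by norm_num)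
  have hTT : (2:ℝ)^(2*eps1*n) ≤ T := by
    rw [hT, ← Real.rpow_natCast]
    apply Real.rpow_le_rpow_of_exponent_le (by norm_num)
    rw [he1]
    have : (0:ℝ) ≤ n := Nat.cast_nonneg _
    linarith
  have hTC : T^(-(1/1000):ℝ) ≤ 1 := Real.rpow_le_one_of_one_le_of_nonpos hT1 (by norm_num)
  set bp := (p:ℝ)^(-(1/2-eps1)) with hbpd
  have hbp0 : 0 < bp := by positivity
  have hBf : Bf p eps1 ≤ 2 * bp := Bf_le hbp (by rw [he1]; norm_num) (by rw [he1]; norm_num)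
  have hb1 : ((p:ℝ) - 1)^(-(1/2-eps1)) ≤ 2 * bp := by
    have h1 : (p:ℝ)/2 ≤ (p:ℝ) - 1 := by linarith
    calc ((p:ℝ) - 1)^(-(1/2-eps1)) ≤ ((p:ℝ)/2)^(-(1/2-eps1)) :=
          Real.rpow_le_rpow_of_nonpos (by positivity) h1 (by rw [he1]; norm_num)
      _ = bp * (2:ℝ)^(1/2-eps1) := by
          rw [Real.div_rpow hp0.le (by norm_num), Real.rpow_neg (by norm_num : (0:ℝ) ≤ 2), div_inv_eq_mul]
      _ ≤ bp * 2 := by
          apply mul_le_mul_of_nonneg_left _ hbp0.le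
          calc (2:ℝ)^(1/2-eps1) ≤ (2:ℝ)^(1:ℝ) :=
                Real.rpow_le_rpow_of_exponent_le (by norm_num) (by rw [he1]; norm_num)
            _ = 2 := Real.rpow_one 2
      _ = 2 * bp := mul_comm _ _
  have hB : n * (2 * KH 1 0 eps1 * Bf p eps1 * (2:ℝ)^(2*eps1*n)) +
      C * T^(-(1/1000):ℝ) * ((p:ℝ) - 1)^(-(1/2-eps1)) ≤ (4 * KH 1 0 eps1 + 2 * C) * T^2 * bp := by
    have h1 : n * (2 * KH 1 0 eps1 * Bf p eps1 * (2:ℝ)^(2*eps1*n)) ≤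
        T * (2 * KH 1 0 eps1 * (2 * bp) * T) := by
      have := Bf_nonneg p eps1
      gcongr
    have hq0 : 0 ≤ ((p:ℝ) - 1)^(-(1/2-eps1)) := Real.rpow_nonneg (by linarith) _
    have hC0 : 0 ≤ C := by linarith
    have h2 : C * T^(-(1/1000):ℝ) * ((p:ℝ) - 1)^(-(1/2-eps1)) ≤ C * T^2 * (2 * bp) := by
      have h3 : T^(-(1/1000):ℝ) ≤ T^2 := by nlinarith
      gcongr
    calc _ ≤ T * (2 * KH 1 0 eps1 * (2 * bp) * T) + C * T^2 * (2 * bp) := add_le_add h1 h2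
      _ = _ := by ring
  have hT2 : T^2 ≤ (2 * 2^(1/c1))^2 * ℓ^(2/c1) := by
    calc T^2 ≤ (2 * (2*ℓ)^(1/c1))^2 := pow_le_pow_left₀ (by positivity) hnU 2
      _ = (2 * 2^(1/c1))^2 * (ℓ^(1/c1) * ℓ^(1/c1)) := by
          rw [Real.mul_rpow (by norm_num) hℓ0.le]; ring
      _ = _ := by
          rw [← Real.rpow_add hℓ0]
          congr 2
          ring
  have t2 : 6 * L^2 * (n * (2 * KH 1 0 eps1 * Bf p eps1 * (2:ℝ)^(2*eps1*n)) +
        C * T^(-(1/1000):ℝ) * ((p:ℝ) - 1)^(-(1/2-eps1))) * (η^(2*eps1) * (M1 * M2)^(1/2+eps1)) ≤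
        1/4 * ℓ^(-K) * Sx := by
    have h := hp2 p (by omega)
    have h' : 6 * CL^2 * (4 * KH 1 0 eps1 + 2 * C) * (2 * 2^(1/c1))^2 * ℓ^(2+2/c1+C2) * Wx ≤
        1/4 * ℓ^(-K) := by
      have e1 : ℓ^(2+2/c1+C2+K) * ℓ^(-K) = ℓ^(2+2/c1+C2) := by
        rw [← Real.rpow_add hℓ0]; congr 1; ring
      calc _ = (6 * CL^2 * (4 * KH 1 0 eps1 + 2 * C) * (2 * 2^(1/c1))^2 * ℓ^(2+2/c1+C2+K) * Wx) *
            ℓ^(-K) := by rw [← e1]; ring
        _ ≤ 1/4 * ℓ^(-K) := mul_le_mul_of_nonneg_right h (by positivity)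
    have h1 : bp * (M1 * M2)^(1/2+eps1) ≤ ℓ^C2 * Sx := by
      have h3 := amgm (x := M1) (y := M2) (b := p) (e := eps1) hM10 hM20 hp0 (by rw [he1]; norm_num)
        (by rw [he1]; norm_num)
      have h4 : M2^(2*eps1) ≤ ℓ^C2 := by
        calc M2^(2*eps1) ≤ (ℓ^C2)^(2*eps1) := Real.rpow_le_rpow hM20 hMW (by rw [he1]; norm_num)
          _ = ℓ^(C2*(2*eps1)) := by rw [← Real.rpow_mul hℓ0.le]
          _ ≤ ℓ^C2 := Real.rpow_le_rpow_of_exponent_le hl1 (by rw [he1]; nlinarith)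
      have e3 : M1 + M2/p = Sx := by rw [hSx]; ring
      rw [e3] at h3
      exact h3.trans (mul_le_mul_of_nonneg_right h4 hSx0)
    have h0 : 0 ≤ (M1 * M2)^(1/2+eps1) := by positivity
    have hηp' : 0 ≤ η^(2*eps1) := by positivity
    have hC0 : 0 ≤ C := by linarith
    calc 6 * L^2 * (n * (2 * KH 1 0 eps1 * Bf p eps1 * (2:ℝ)^(2*eps1*n)) +
          C * T^(-(1/1000):ℝ) * ((p:ℝ) - 1)^(-(1/2-eps1))) * (η^(2*eps1) * (M1 * M2)^(1/2+eps1))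
        ≤ 6 * L^2 * ((4 * KH 1 0 eps1 + 2 * C) * ((2 * 2^(1/c1))^2 * ℓ^(2/c1)) * bp) *
          (Wx * (M1 * M2)^(1/2+eps1)) := by
          have h2 : n * (2 * KH 1 0 eps1 * Bf p eps1 * (2:ℝ)^(2*eps1*n)) +
              C * T^(-(1/1000):ℝ) * ((p:ℝ) - 1)^(-(1/2-eps1)) ≤
              (4 * KH 1 0 eps1 + 2 * C) * ((2 * 2^(1/c1))^2 * ℓ^(2/c1)) * bp := by
            refine hB.trans ?_
            gcongr
          gcongr
      _ = 6 * L^2 * ((4 * KH 1 0 eps1 + 2 * C) * ((2 * 2^(1/c1))^2 * ℓ^(2/c1))) * Wx *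
          (bp * (M1 * M2)^(1/2+eps1)) := by ring
      _ ≤ 6 * L^2 * ((4 * KH 1 0 eps1 + 2 * C) * ((2 * 2^(1/c1))^2 * ℓ^(2/c1))) * Wx *
          (ℓ^C2 * Sx) := mul_le_mul_of_nonneg_left h1 (by positivity)
      _ = (6 * CL^2 * (4 * KH 1 0 eps1 + 2 * C) * (2 * 2^(1/c1))^2) *
          (ℓ^(2:ℝ) * ℓ^(2/c1) * ℓ^C2) * Wx * Sx := by
          rw [hL, Real.rpow_two]; ring
      _ = (6 * CL^2 * (4 * KH 1 0 eps1 + 2 * C) * (2 * 2^(1/c1))^2) *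
          ℓ^(2 + 2/c1 + C2) * Wx * Sx := by
          rw [← Real.rpow_add hℓ0, ← Real.rpow_add hℓ0]
      _ ≤ 1/4 * ℓ^(-K) * Sx := mul_le_mul_of_nonneg_right h' hSx0
  -- term 3
  have t3 : 6 * (L / p) * M1 ≤ 1/4 * ℓ^(-K) * Sx := by
    have h := hp3 p (by omega)
    have h' : 6 * CL * ℓ^(1:ℝ) * Wx ≤ 1/4 * ℓ^(-K) := by
      have e1 : ℓ^(1+K) * ℓ^(-K) = ℓ^(1:ℝ) := by
        rw [← Real.rpow_add hℓ0]; congr 1; ring
      calc 6 * CL * ℓ^(1:ℝ) * Wx = (6 * CL * ℓ^(1+K) * Wx) * ℓ^(-K) := by rw [← e1]; ring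
        _ ≤ 1/4 * ℓ^(-K) := mul_le_mul_of_nonneg_right h (by positivity)
    calc 6 * (L / p) * M1 = 6 * L * (1/p) * M1 := by ring
      _ ≤ 6 * L * Wx * M1 := by gcongr
      _ = 6 * CL * ℓ^(1:ℝ) * Wx * M1 := by rw [hL, Real.rpow_one]; ring
      _ ≤ 1/4 * ℓ^(-K) * M1 := mul_le_mul_of_nonneg_right h' hM10
      _ ≤ 1/4 * ℓ^(-K) * Sx := mul_le_mul_of_nonneg_left hM1S (by positivity)
  have hκM : 0 ≤ ℓ^(-K) * Sx := by positivity
  have : 1/4 * ℓ^(-K) * Sx = 1/4 * (ℓ^(-K) * Sx) := by ring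
  rw [this] at t1 t2 t3
  linarith

/-- **(N1)**, roles exchanged: `e.1` is not divisible by `b`, `e.2` is. -/
theorem dUU' (CL C2 A K : ℝ) (hCL : 0 ≤ CL) (hC2 : 0 ≤ C2) :
    ∃ p₁ : ℕ, ∀ b : ℕ, p₁ ≤ b → b.Prime →
    ∀ (η θ : ℝ) (V W : Finset ℕ) (E : Finset (ℕ × ℕ)) (R R' : ℕ → ℝ) (F : ℕ × ℕ → ℝ),
    0 < η → η ≤ Real.exp (-(Real.log b ^ (4/5:ℝ))) → 1 ≤ η * b → E ⊆ W ×ˢ V →
    (∀ w ∈ V, 0 < w ∧ 0 < R w) → (∀ w ∈ W, 0 < w ∧ 0 < R' w) →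
    (∀ w ∈ V, R w ≤ CL * Real.log b * wt R w) → (∀ w ∈ W, R' w ≤ CL * Real.log b * wt R' w) →
    (∀ w ∈ V, b ∣ w) → (∀ w ∈ W, ¬ b ∣ w) →
    (∀ z : ℝ, (b:ℝ)^2 ≤ z → ∀ w ∈ V, Crest.Agent.R4.ClsB.Tame z 1 w) →
    (∀ z : ℝ, (b:ℝ)^2 ≤ z → ∀ w ∈ W, Crest.Agent.R4.ClsB.Tame z 1 w) →
    ∑ w ∈ V, wt R w ≤ Real.log b ^ C2 → ∑ w ∈ W, wt R' w ≤ Real.log b ^ C2 →
    (∀ e ∈ E, F e ≤ 2 * ((R' e.1 * R e.2) / DP R' R e) * (2 * η * DP R' R e + 1)) →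
    (∀ e ∈ E, 0 < F e → ∃ m m' : ℤ,
      |(m + θ) * (cof e.2 e.1 : ℕ) - (m' + θ) * (cof e.1 e.2 : ℕ)| ≤ η * DP R' R e) →
    (∀ w ∈ W, R' w * (η * b) ≤ 1 → ∀ ρ, ¬ Lab θ (R' w) ρ) →
    ¬ Accd θ (Real.log b ^ A) b →
    ∑ e ∈ E, F e ≤ Real.log b ^ (-K) * (∑ w ∈ V, wt R w + (1 / (b:ℝ)) * ∑ w ∈ W, wt R' w) := by
  classical
  obtain ⟨p₁, h⟩ := dUU CL C2 A K hCL hC2
  refine ⟨p₁, fun b hb hbp => ?_⟩
  intro η θ V W E R R' F hη hη1 hηp hES hV hW hLV hLW hbV hbW hVt hWt hMV hMW hF hrel hU hAcc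
  have key := h b hb hbp η θ V W (E.image Prod.swap) R R' (fun e => F e.swap) hη hη1 hηp
    (fun e he => by
      obtain ⟨a, ha, rfl⟩ := Finset.mem_image.1 he
      have := Finset.mem_product.1 (hES ha)
      exact Finset.mem_product.2 ⟨this.2, this.1⟩) hV hW hLV hLW hbV hbW hVt hWt hMV hMW
    (fun e he => by
      obtain ⟨a, ha, rfl⟩ := Finset.mem_image.1 he
      have h1 := hF a ha
      have e1 : DP R R' a.swap = DP R' R a := by unfold DP; exact max_comm _ _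
      rw [Prod.swap_swap, e1, Prod.fst_swap, Prod.snd_swap, mul_comm (R a.2)]
      exact h1)
    (fun e he h0 => by
      obtain ⟨a, ha, rfl⟩ := Finset.mem_image.1 he
      rw [Prod.swap_swap] at h0
      obtain ⟨m, m', h1⟩ := hrel a ha h0
      have e1 : DP R R' a.swap = DP R' R a := by unfold DP; exact max_comm _ _
      refine ⟨m', m, ?_⟩
      rw [e1, Prod.fst_swap, Prod.snd_swap, abs_sub_comm]
      exact h1) hU hAcc
  rw [Finset.sum_image (fun a _ b _ h => Prod.swap_injective h)] at key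
  simpa using key

set_option maxHeartbeats 1000000 in
/-- **(N3)** labelled pairs of one node, different labels with `p ^ c ≤ Zc` -/
theorem dLL (CL C2 c : ℝ) (hCL : 0 ≤ CL) (hC2 : 0 ≤ C2) (hc : 0 < c) :
    ∃ p₁ : ℕ, ∀ p : ℕ, p₁ ≤ p →
    ∀ (θ : ℝ) (S : Finset ℕ) (E : Finset (ℕ × ℕ)) (R a : ℕ → ℝ) (lab : ℕ → ℚ)
      (Λf : Finset ℚ) (F : ℕ × ℕ → ℝ),
    ((Λf.card : ℕ) : ℝ) ≤ Real.log p → E ⊆ S ×ˢ S →
    (∀ w ∈ S, 0 < w ∧ 0 < R w) → (∀ w ∈ S, R w ≤ CL * Real.log p * wt R w) →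
    ∑ w ∈ S, wt R w ≤ Real.log p ^ C2 →
    (∀ q ∈ S, (Lab θ (a q) (lab q) ∧ a q ≤ R q) ∨ (lab q ∈ Λf ∧ (p:ℝ)^(-c) ≤ R q)) →
    (∀ e ∈ E, F e ≤ 2 * ((R e.1 * R e.2) / DP R R e)) →
    (∀ e ∈ E, 0 < F e → lab e.1 ≠ lab e.2 ∧ (p:ℝ)^c ≤ (LL207.Zc (lab e.1) (lab e.2) : ℝ) ∧
      ∃ m m' : ℤ, ((m:ℝ) + lab e.1) * (cof e.2 e.1 : ℕ) = (m' + lab e.2) * (cof e.1 e.2 : ℕ)) →
    ∑ e ∈ E, F e ≤ (p:ℝ)^(-(c/7)) * ∑ w ∈ S, wt R w := by
  classical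
  have hCX := LL207.CX_pos
  have hLe := LL207.CL_nonneg (ε := LL207.e1) (by unfold LL207.e1; norm_num)
  obtain ⟨pb, hpb⟩ := log_large 1
  obtain ⟨p4, hp4⟩ := log_le_rpow (10^5 * LL207.CL LL207.e1 * (2 * CL^2) * (LL207.CX + 1)) (3 + C2)
    (δ := c/42) (by positivity)
  refine ⟨pb + p4 + 3, fun p hp => ?_⟩
  intro θ S E R a lab Λf F hΛ hES hS hLS hMb hlab hF hex
  have hl1 := hpb p (by omega)
  set ℓ := Real.log (p:ℝ) with hℓ
  have hℓ0 : 0 < ℓ := by linarith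
  have hpN : 0 < p := by omega
  have hp0 : (0:ℝ) < p := by exact_mod_cast hpN
  have hp1R : (1:ℝ) ≤ p := by exact_mod_cast hpN
  have hpc1 : (1:ℝ) ≤ (p:ℝ)^c := Real.one_le_rpow hp1R hc.le
  have hpc0 : (0:ℝ) < (p:ℝ)^c := by positivity
  set L := CL * ℓ with hL
  have hL0 : 0 ≤ L := by positivity
  set M := ∑ w ∈ S, wt R w with hM
  have hwt : ∀ q ∈ S, 0 ≤ wt R q := fun q hq => by
    unfold wt; exact mul_nonneg (hS q hq).2.le (by positivity)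
  have hM0 : 0 ≤ M := Finset.sum_nonneg hwt
  have hmem : ∀ e ∈ E, e.1 ∈ S ∧ e.2 ∈ S := fun e he => Finset.mem_product.1 (hES he)
  have hMC : ∀ x : ℝ, 0 ≤ x → x ≤ 1 → M^(1+x) ≤ M * ℓ^C2 := by
    intro x hx0 hx1
    rcases hM0.eq_or_lt with h0 | h0
    · rw [← h0, Real.zero_rpow (by linarith)]; simp
    · rw [Real.rpow_add h0, Real.rpow_one]
      apply mul_le_mul_of_nonneg_left _ hM0
      calc M^x ≤ (ℓ^C2)^x := Real.rpow_le_rpow hM0 hMb hx0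
        _ = ℓ^(C2*x) := by rw [← Real.rpow_mul hℓ0.le]
        _ ≤ ℓ^C2 := Real.rpow_le_rpow_of_exponent_le hl1 (by nlinarith)
  have bF := LLG24.ll_total (θ := θ) (P := (p:ℝ)^c) (K := 2 * L^2) hpc1 (by positivity) (S := S)
    (R := R) (a := a) (lab := lab) (Λf := Λf) hS
    (fun q hq => by
      rw [← Real.rpow_neg hp0.le]; exact hlab q hq) (E := E) hES (F := F)
    (fun e he => by
      have hh := hmem e he
      have hR := (hS _ hh.1).2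
      have hR' := (hS _ hh.2).2
      have hD := DP_pos (R := R) (R' := R) (hS _ hh.2).1 hR
      have eD : LLpair207.Dp R R e = DP R R e := by
        unfold LLpair207.Dp DP
        exact max_comm _ _
      rw [eD]
      have hRR : R e.1 * R e.2 ≤ L^2 * (wt R e.1 * wt R e.2) := by
        have f1 := hLS _ hh.1
        have f2 := hLS _ hh.2
        have f5 : 0 ≤ L * wt R e.1 := hR.le.trans f1
        calc R e.1 * R e.2 ≤ (L * wt R e.1) * (L * wt R e.2) := mul_le_mul f1 f2 hR'.le f5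
          _ = _ := by ring
      calc F e ≤ 2 * ((R e.1 * R e.2) / DP R R e) := hF e he
        _ ≤ 2 * ((L^2 * (wt R e.1 * wt R e.2)) / DP R R e) := by gcongr
        _ = 2 * L^2 * (wt R e.1 * wt R e.2 / DP R R e) := by ring)
    hex
  refine bF.trans ?_
  have h := hp4 p (by omega)
  have he1 : LL207.e1 = 1/1000 := rfl
  have h1 : (∑ q ∈ S, wt R q)^(1+2*LL207.e1) ≤ M * ℓ^C2 :=
    hMC (2*LL207.e1) (by rw [he1]; norm_num) (by rw [he1]; norm_num)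
  have h2 : LL207.CX + Λf.card ≤ (LL207.CX + 1) * ℓ := by
    have : ((Λf.card : ℕ) : ℝ) ≤ ℓ := hΛ
    nlinarith
  have h3 : 0 ≤ (∑ q ∈ S, wt R q)^(1+2*LL207.e1) := by positivity
  have hPc : ((p:ℝ)^c)^(-(1/6) : ℝ) = (p:ℝ)^(-(c/6)) := by
    rw [← Real.rpow_mul hp0.le]; congr 1; ring
  rw [hPc]
  have hW : (p:ℝ)^(c/42) * (p:ℝ)^(-(c/6)) = (p:ℝ)^(-(c/7)) := by
    rw [← Real.rpow_add hp0]; congr 1; ring
  calc (10^5 * LL207.CL LL207.e1) * (2 * L^2) * ((LL207.CX + Λf.card) * (p:ℝ)^(-(c/6))) *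
      (∑ q ∈ S, wt R q)^(1+2*LL207.e1)
      ≤ (10^5 * LL207.CL LL207.e1) * (2 * L^2) * (((LL207.CX + 1) * ℓ) * (p:ℝ)^(-(c/6))) *
        (M * ℓ^C2) := by
        gcongr
    _ = (10^5 * LL207.CL LL207.e1 * (2 * CL^2) * (LL207.CX + 1)) * (ℓ^(3:ℝ) * ℓ^C2) *
        (p:ℝ)^(-(c/6)) * M := by
        rw [hL]
        have : ℓ^(3:ℝ) = ℓ^3 := by exact_mod_cast Real.rpow_natCast ℓ 3
        rw [this]; ring
    _ = (10^5 * LL207.CL LL207.e1 * (2 * CL^2) * (LL207.CX + 1)) * ℓ^(3 + C2) *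
        (p:ℝ)^(-(c/6)) * M := by
        rw [← Real.rpow_add hℓ0]
    _ ≤ (p:ℝ)^(c/42) * (p:ℝ)^(-(c/6)) * M :=
        mul_le_mul_of_nonneg_right (mul_le_mul_of_nonneg_right h (by positivity)) hM0
    _ = (p:ℝ)^(-(c/7)) * M := by rw [hW]

/-- a power is smaller than a power of the logarithm -/
lemma rpow_le_log (K : ℝ) {c : ℝ} (hc : 0 < c) : ∃ p₁ : ℕ, ∀ p : ℕ, p₁ ≤ p →
    (p:ℝ)^(-c) ≤ Real.log p ^ (-K) := by
  obtain ⟨p₁, h⟩ := log_le_rpow 1 K hc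
  obtain ⟨p₂, h2⟩ := log_large 1
  refine ⟨p₁ + p₂ + 1, fun p hp => ?_⟩
  have h3 := h p (by omega)
  have h4 := h2 p (by omega)
  have hp0 : (0:ℝ) < p := by
    have : 0 < p := by omega
    exact_mod_cast this
  have hl : 0 < Real.log (p:ℝ) := by linarith
  rw [Real.rpow_neg hp0.le, Real.rpow_neg hl.le]
  rw [one_mul] at h3
  exact inv_anti₀ (by positivity) h3

end Crest.Agent.R4P.RseP24
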