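import Crest.Agent.R4P.CoEv_30
import Crest.Agent.R4P.RseP_24
import Crest.Agent.R4.InSS944

/-!
R4P (S0004, all `q`), helper30: the number lemma (E3b) of `[W-eSHR]`: **unlabelled incumbents and
challengers of one cell do not overlap on the coarse circle of a tie `b`**, if `b` is neither accidental
nor a coincidence prime of the target.

* coarse circle (`y = b x`): incumbents `v` (target `θ`, radius `R v`), challengers `w` (`b ∤ w`, target
  `b θ`, radius `R' w`, no label at the fine radius `R' w / b`);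
* `yUU` : sum of the pair energies `≤ (log b)^(-K) (M_V + M_W)`.
-/

set_option autoImplicit false
open Finset

namespace Crest.Agent.R4P.CoN30

open Crest.Agent.R4.HVW560 Crest.Agent.R4.HVWX793
open Crest.Agent.R4.ClsS (eps1)
open Crest.Agent.R4.LF363 (Lab)
open Crest.Agent.R4.InX944
open Crest.Agent.R4.StopAsm709
open Crest.Agent.R4.StopHvw709
open Crest.Agent.R4.RseN207 (small log_large exists_scale)
open Crest.Agent.R4.DensAcc33 (Accd)
open Crest.Agent.R4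
open Crest.Agent.R4P.CoEv30 (Co)

lemma cof_cross (v w : ℕ) : w * cof v w = v * cof w v := by
  have h1 : cof v w * Nat.gcd v w = v := Nat.div_mul_cancel (Nat.gcd_dvd_left _ _)
  have h2 : cof w v * Nat.gcd v w = w := by
    rw [Nat.gcd_comm]; exact Nat.div_mul_cancel (Nat.gcd_dvd_left _ _)
  calc w * cof v w = (cof w v * Nat.gcd v w) * cof v w := by rw [h2]
    _ = (cof v w * Nat.gcd v w) * cof w v := by ring
    _ = v * cof w v := by rw [h1]

lemma cof_det {v w w' : ℕ} (hv : 0 < v) (h1 : cof v w = cof v w') (h2 : cof w v = cof w' v) :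
    w = w' := by
  have e1 := cof_cross v w
  have e2 := cof_cross v w'
  rw [h1, h2] at e1
  have h3 : w * cof v w' = w' * cof v w' := e1.trans e2.symm
  exact Nat.eq_of_mul_eq_mul_right (cof_pos hv) h3

open Classical in
/-- at most `p ^ 2` partners with small cofactors -/
lemma card_small (W : Finset ℕ) {v : ℕ} (hv : 0 < v) (p : ℕ) :
    (W.filter fun w => cof v w < p ∧ cof w v < p).card ≤ p ^ 2 := by
  have h : (W.filter fun w => cof v w < p ∧ cof w v < p).card ≤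
      (Finset.range p ×ˢ Finset.range p).card := by
    apply Finset.card_le_card_of_injOn (fun w => (cof v w, cof w v))
    · intro w hw
      have h := (Finset.mem_filter.1 (Finset.mem_coe.1 hw)).2
      exact Finset.mem_coe.2 (Finset.mem_product.2 ⟨Finset.mem_range.2 h.1, Finset.mem_range.2 h.2⟩)
    · intro w _ w' _ h
      exact cof_det hv (congrArg Prod.fst h) (congrArg Prod.snd h)
  rw [Finset.card_product, Finset.card_range] at h
  rw [pow_two]; exact h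

open Classical in
/-- sums over pairs with small cofactors -/
lemma sum_small {V W : Finset ℕ} {S : Finset (ℕ × ℕ)} {F : ℕ × ℕ → ℝ} {R : ℕ → ℝ} {c : ℝ} {p : ℕ}
    (hS : S ⊆ V ×ˢ W) (hV : ∀ v ∈ V, 0 < v) (hR : ∀ v ∈ V, 0 ≤ R v) (hc : 0 ≤ c)
    (hp : ∀ e ∈ S, cof e.1 e.2 < p ∧ cof e.2 e.1 < p) (hF : ∀ e ∈ S, F e ≤ c * R e.1) :
    ∑ e ∈ S, F e ≤ (p:ℝ)^2 * c * ∑ v ∈ V, R v := by
  calc ∑ e ∈ S, F e ≤ ∑ e ∈ S, c * R e.1 := Finset.sum_le_sum hF
    _ = ∑ v ∈ V, ∑ e ∈ S.filter (fun e => e.1 = v), c * R e.1 :=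
        (Finset.sum_fiberwise_of_maps_to (fun e he => (Finset.mem_product.1 (hS he)).1) _).symm
    _ ≤ ∑ v ∈ V, (p:ℝ)^2 * (c * R v) := by
        refine Finset.sum_le_sum fun v hv => ?_
        have h1 : ∑ e ∈ S.filter (fun e => e.1 = v), c * R e.1 =
            (S.filter (fun e => e.1 = v)).card * (c * R v) := by
          rw [Finset.sum_congr rfl (fun e he => by rw [(Finset.mem_filter.1 he).2]),
            Finset.sum_const, nsmul_eq_mul]
        rw [h1]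
        have h2 : (S.filter (fun e => e.1 = v)).card ≤
            (W.filter fun w => cof v w < p ∧ cof w v < p).card := by
          apply Finset.card_le_card_of_injOn Prod.snd
          · intro e he
            obtain ⟨he1, he2⟩ := Finset.mem_filter.1 (Finset.mem_coe.1 he)
            have h3 := hp e he1
            rw [he2] at h3
            exact Finset.mem_coe.2 (Finset.mem_filter.2 ⟨(Finset.mem_product.1 (hS he1)).2, h3⟩)
          · intro e he f hf h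
            have he2 := (Finset.mem_filter.1 (Finset.mem_coe.1 he)).2
            have hf2 := (Finset.mem_filter.1 (Finset.mem_coe.1 hf)).2
            exact Prod.ext (he2.trans hf2.symm) h
        have h3 : ((S.filter (fun e => e.1 = v)).card : ℝ) ≤ (p:ℝ)^2 := by
          exact_mod_cast h2.trans (card_small W (hV v hv) p)
        exact mul_le_mul_of_nonneg_right h3 (mul_nonneg hc (hR v hv))
    _ = _ := by rw [Finset.mul_sum]; exact Finset.sum_congr rfl fun v _ => by ring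

lemma cof_scale {b v w : ℕ} (hb : 0 < b) : cof (b * v) (b * w) = cof v w := by
  unfold cof
  rw [Nat.gcd_mul_left, Nat.mul_div_mul_left _ _ hb]

set_option maxHeartbeats 4000000 in
/-- **(E3b)** unlabelled incumbents and challengers of one cell, coarse circle -/
theorem yUU (CL C2 A K : ℝ) (hCL : 0 ≤ CL) (hC2 : 0 ≤ C2) (hK : 0 ≤ K) :
    ∃ p₁ : ℕ, ∀ b : ℕ, p₁ ≤ b → b.Prime →
    ∀ (η θ : ℝ) (V W : Finset ℕ) (E : Finset (ℕ × ℕ)) (R R' : ℕ → ℝ) (F : ℕ × ℕ → ℝ),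
    0 < η → η ≤ Real.exp (-(Real.log b ^ (4/5:ℝ))) → 1 ≤ η * b → E ⊆ V ×ˢ W →
    (∀ w ∈ V, 0 < w ∧ 0 < R w) → (∀ w ∈ W, 0 < w ∧ 0 < R' w) →
    (∀ w ∈ V, R w ≤ CL * Real.log b * wt R w) → (∀ w ∈ W, R' w ≤ CL * Real.log b * wt R' w) →
    (∀ w ∈ W, ¬ b ∣ w) →
    (∀ z : ℝ, (b:ℝ)^2 ≤ z → ∀ w ∈ V, Crest.Agent.R4.ClsB.Tame z 1 w) →
    (∀ z : ℝ, (b:ℝ)^2 ≤ z → ∀ w ∈ W, Crest.Agent.R4.ClsB.Tame z 1 w) →
    ∑ w ∈ V, wt R w ≤ Real.log b ^ C2 → ∑ w ∈ W, wt R' w ≤ Real.log b ^ C2 →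
    (∀ e ∈ E, 0 ≤ F e) →
    (∀ e ∈ E, F e ≤ 2 * ((R e.1 * R' e.2) / DP R R' e) * (2 * η * DP R R' e + 1)) →
    (∀ e ∈ E, 0 < F e → ∃ m m' : ℤ,
      |(m + θ) * (cof e.2 e.1 : ℕ) - (m' + b * θ) * (cof e.1 e.2 : ℕ)| ≤ η * DP R R' e) →
    (∀ w ∈ W, R' w * η ≤ 1 → ∀ ρ, ¬ Lab θ (R' w / b) ρ) →
    ¬ Accd θ (Real.log b ^ A) b → ¬ Co (4 * K + 13 + C2) θ b →
    ∑ e ∈ E, F e ≤ Real.log b ^ (-K) * (∑ w ∈ V, wt R w + ∑ w ∈ W, wt R' w) := by
  classical
  obtain ⟨C, c0, hC1, hc0, H⟩ := Crest.Agent.R4.InX944.inG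
  set c1 : ℝ := min c0 (1 / max A 1) with hc1d
  have hA1 : 0 < max A 1 := lt_of_lt_of_le one_pos (le_max_right _ _)
  have hc1 : 0 < c1 := lt_min hc0 (by positivity)
  obtain ⟨T0, hT01, H⟩ := H c1 hc1 (min_le_left _ _)
  have hKH := (KH_pos 1 0 eps1).le
  set K1 : ℝ := K + 3 with hK1
  set K2 : ℝ := 2 * K1 + K + 2 with hK2
  set K' : ℝ := K1 + K2 + C2 + 2 with hK'
  have hKe : 4 * K + 13 + C2 = K' := by rw [hK', hK2, hK1]; ring
  rw [hKe]
  obtain ⟨pa, hpa⟩ := exists_scale (c1 := c1) (T0 := T0) hc1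
  obtain ⟨pb, hpb⟩ := log_large (2 + CL + 100 * (CL + 1))
  obtain ⟨p1, hp1⟩ := small (6 * CL^2) (2 + C2 + K) (δ := 1/8) (by positivity)
  obtain ⟨p2, hp2⟩ := small (6 * CL^2 * (2 * KH 1 0 eps1 + C) * (2 * 2^(1/c1))^2)
    (2 + 2/c1 + 2 * C2 + K) (δ := 1/8) (by positivity)
  obtain ⟨p3, hp3⟩ := small (2 * (CL + 1)) (K1 + 1 + C2) (δ := 1) (by positivity)
  refine ⟨pa + pb + p1 + p2 + p3 + 2^15, fun p hp hbp => ?_⟩
  obtain ⟨n, hn400, hnT, hnX, hnU⟩ := hpa p (by omega)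
  intro η θ V W E R R' F hη hη1 hηp hES hV hW hLV hLW hbW hVt hWt hMV hMW hF0 hF hrel hU hAcc hCo
  have hlB := hpb p (by omega)
  have hl2 : 2 ≤ Real.log (p:ℝ) := by linarith
  have hl1 : 1 ≤ Real.log (p:ℝ) := by linarith
  set ℓ := Real.log (p:ℝ) with hℓ
  have hℓ0 : 0 < ℓ := by linarith
  have hpN : 0 < p := hbp.pos
  have hp0 : (0:ℝ) < p := by exact_mod_cast hpN
  have hp15 : (2:ℝ)^15 ≤ p := by
    have : 2^15 ≤ p := by omega
    exact_mod_cast this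
  set L := CL * ℓ with hL
  have hL0 : 0 ≤ L := by positivity
  set M1 := ∑ w ∈ V, wt R w with hM1
  set M2 := ∑ w ∈ W, wt R' w with hM2
  have hwt : ∀ q ∈ V, 0 ≤ wt R q := fun q hq => by
    unfold wt; exact mul_nonneg (hV q hq).2.le (by positivity)
  have hwt' : ∀ q ∈ W, 0 ≤ wt R' q := fun q hq => by
    unfold wt; exact mul_nonneg (hW q hq).2.le (by positivity)
  have hM10 : 0 ≤ M1 := Finset.sum_nonneg hwt
  have hM20 : 0 ≤ M2 := Finset.sum_nonneg hwt'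
  have he1 : eps1 = 1/1000 := rfl
  set Wx := Real.exp (-(1/500) * ℓ^(4/5:ℝ)) with hWx
  have hW0 : 0 < Wx := Real.exp_pos _
  have hx45 : 0 ≤ ℓ^(4/5:ℝ) := by positivity
  have hηW : η ≤ Wx := hη1.trans (Real.exp_le_exp.2 (by nlinarith))
  have hη_one : η ≤ 1 := by
    refine hη1.trans ?_
    rw [Real.exp_le_one_iff]
    linarith
  have hηe : η^(2*eps1) ≤ Wx := by
    calc η^(2*eps1) ≤ (Real.exp (-(ℓ^(4/5:ℝ))))^(2*eps1) :=
          Real.rpow_le_rpow hη.le hη1 (by rw [he1]; norm_num)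
      _ = Real.exp (-(ℓ^(4/5:ℝ)) * (2*eps1)) := by rw [← Real.exp_mul]
      _ = Wx := by rw [hWx, he1]; congr 1; ring
  -- the cofactor threshold
  set P := ⌈ℓ^K1⌉₊ with hP
  have hP1 : ℓ^K1 ≤ P := Nat.le_ceil _
  have hℓK1 : 1 ≤ ℓ^K1 := Real.one_le_rpow hl1 (by rw [hK1]; linarith)
  have hP2 : (P:ℝ) ≤ 2 * ℓ^K1 := by
    have := Nat.ceil_lt_add_one (show 0 ≤ ℓ^K1 by positivity)
    linarith
  have hP0 : 0 < P := by
    have : (0:ℝ) < P := by linarith
    exact_mod_cast this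
  have hP0R : (0:ℝ) < P := by exact_mod_cast hP0
  -- accidents
  have hAccN : NoAcc p n θ := by
    intro t ht1 ht2 k hk0 hk h hh
    by_contra hcon
    rw [not_lt] at hcon
    apply hAcc
    refine ⟨t, ?_, ht2, k, hk0, hk, h, hh, ?_⟩
    · refine le_trans ?_ ht1
      have h1 : 2 * ℓ ≤ ((2:ℝ)^n)^c1 := by
        have h2 := Real.log_le_log (by positivity) hnX
        rw [Real.log_exp, Real.log_pow] at h2
        exact_mod_cast h2
      have h3 : (2 * ℓ)^(1/c1) ≤ (2:ℝ)^n := by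
        calc (2 * ℓ)^(1/c1) ≤ (((2:ℝ)^n)^c1)^(1/c1) := Real.rpow_le_rpow (by positivity) h1 (by positivity)
          _ = (2:ℝ)^n := by
              rw [← Real.rpow_mul (by positivity), mul_one_div_cancel hc1.ne', Real.rpow_one]
      refine le_trans ?_ h3
      have h4 : A ≤ 1/c1 := by
        have h5 : c1 ≤ 1 / max A 1 := min_le_right _ _
        rw [le_div_iff₀ hA1] at h5
        rw [le_div_iff₀ hc1]
        calc A * c1 ≤ max A 1 * c1 := mul_le_mul_of_nonneg_right (le_max_left _ _) hc1.le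
          _ = c1 * max A 1 := mul_comm _ _
          _ ≤ 1 := h5
      calc ℓ^A ≤ ℓ^(1/c1) := Real.rpow_le_rpow_of_exponent_le hl1 h4
        _ ≤ (2*ℓ)^(1/c1) := Real.rpow_le_rpow hℓ0.le (by linarith) (by positivity)
    · have e1 : (k:ℝ) * p * θ - h = k * (p * θ) - h := by ring
      rw [e1]; exact hcon
  have hmem : ∀ e ∈ E, e.1 ∈ V ∧ e.2 ∈ W := fun e he => Finset.mem_product.1 (hES he)
  have hDpos : ∀ e ∈ E, 0 < DP R R' e := fun e he =>
    DP_pos (hW _ (hmem e he).2).1 (hV _ (hmem e he).1).2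
  -- split
  set EB := E.filter (fun e => P ≤ cof e.1 e.2 ∨ P ≤ cof e.2 e.1) with hEB
  set ES := E.filter (fun e => ¬ (P ≤ cof e.1 e.2 ∨ P ≤ cof e.2 e.1)) with hESd
  have hsplit : ∑ e ∈ E, F e = ∑ e ∈ EB, F e + ∑ e ∈ ES, F e :=
    (Finset.sum_filter_add_sum_filter_not _ _ _).symm
  have hEBE : EB ⊆ E := Finset.filter_subset _ _
  have hESE : ES ⊆ E := Finset.filter_subset _ _
  -- the structured class is empty
  have hFS : EB.filter (fun e => FSe n η θ (p * θ) R R' e) = ∅ := by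
    rw [Finset.filter_eq_empty_iff]
    intro e he hfs
    have heE := hEBE he
    obtain ⟨h1, h2⟩ := hmem e heE
    have hno := no_FP (b := p) (n := n) (θ := θ) (η := η) (ψ := fun u => R (u / p))
      (ψ' := fun w => R' w / p) hbp hn400 hη hη_one hηp hp15 (e := (p * e.1, e.2))
      (Nat.mul_pos hpN (hV _ h1).1) (hW _ h2).1 (dvd_mul_right _ _) (hbW _ h2)
      (by
        show 0 < R (p * e.1 / p)
        rw [Nat.mul_div_cancel_left _ hpN]; exact (hV _ h1).2)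
      (div_pos (hW _ h2).2 hp0)
      (by
        intro h3
        apply hU _ h2
        have e1 : R' e.2 / p * (η * p) = R' e.2 * η := by field_simp
        rw [e1] at h3
        exact h3) hAccN
    apply hno
    unfold FP
    unfold FSe at hfs
    show FS n θ (p * θ) (cof (p * e.1) (p * e.2)) (cof (p * e.2) (p * e.1))
      (η * R (p * e.1 / p)) (p * (η * (R' e.2 / p)))
    rw [cof_scale hpN, cof_scale hpN, Nat.mul_div_cancel_left _ hpN]
    have e1 : (p:ℝ) * (η * (R' e.2 / p)) = η * R' e.2 := by field_simp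
    rw [e1]
    exact hfs
  have bG := H ((p:ℝ)^2) L η θ (p * θ) n 1 P V W EB R R' F hn400 hP0 hnT hnX one_pos hη hη_one
    (hEBE.trans hES) hV hW hLV hLW hVt hWt (fun e he => (Finset.mem_filter.1 he).2)
    (fun e he => hF0 e (hEBE he)) (fun e he => hF e (hEBE he)) (fun e he => hrel e (hEBE he))
  have hFS' : ∑ e ∈ EB.filter (fun e => FSe n η θ (p * θ) R R' e), F e = 0 := by
    rw [hFS, Finset.sum_empty]
  have hFS'' : ∀ (inst : DecidablePred fun e => FSe n η θ (p * θ) R R' e),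
      ∑ e ∈ @Finset.filter _ (fun e => FSe n η θ (p * θ) R R' e) inst EB, F e = 0 := by
    intro inst
    rw [← hFS']
    congr!
  rw [hFS'', add_zero, ← hM1, ← hM2] at bG
  set Sx := M1 + M2 with hSx
  have hSx0 : 0 ≤ Sx := by positivity
  have hM1S : M1 ≤ Sx := by linarith
  -- term 1
  have t1 : 6 * η * L^2 * (M1 * M2) ≤ 1/8 * ℓ^(-K) * Sx := by
    have h := hp1 p (by omega)
    have h' : 6 * CL^2 * ℓ^(2+C2) * Wx ≤ 1/8 * ℓ^(-K) := by
      have e1 : ℓ^(2+C2+K) * ℓ^(-K) = ℓ^(2+C2) := by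
        rw [← Real.rpow_add hℓ0]; congr 1; ring
      calc 6 * CL^2 * ℓ^(2+C2) * Wx = (6 * CL^2 * ℓ^(2+C2+K) * Wx) * ℓ^(-K) := by rw [← e1]; ring
        _ ≤ 1/8 * ℓ^(-K) := mul_le_mul_of_nonneg_right h (by positivity)
    calc 6 * η * L^2 * (M1 * M2) = 6 * L^2 * η * M2 * M1 := by ring
      _ ≤ 6 * L^2 * Wx * ℓ^C2 * M1 := by gcongr
      _ = (6 * CL^2) * (ℓ^(2:ℝ) * ℓ^C2) * Wx * M1 := by rw [hL, Real.rpow_two]; ring
      _ = (6 * CL^2) * ℓ^(2 + C2) * Wx * M1 := by rw [Real.rpow_add hℓ0]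
      _ ≤ 1/8 * ℓ^(-K) * M1 := mul_le_mul_of_nonneg_right h' hM10
      _ ≤ 1/8 * ℓ^(-K) * Sx := mul_le_mul_of_nonneg_left hM1S (by positivity)
  -- term 2
  have hn2 : (n:ℝ) ≤ (2:ℝ)^n := by
    exact_mod_cast (Nat.lt_two_pow_self (n := n)).le
  set T := (2:ℝ)^n with hT
  have hT1 : 1 ≤ T := one_le_pow₀ (by norm_num)
  have hTT : (2:ℝ)^(2*eps1*n) ≤ T := by
    rw [hT, ← Real.rpow_natCast]
    apply Real.rpow_le_rpow_of_exponent_le (by norm_num)
    rw [he1]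
    have : (0:ℝ) ≤ n := Nat.cast_nonneg _
    linarith
  have hTC : T^(-(1/1000):ℝ) ≤ 1 := Real.rpow_le_one_of_one_le_of_nonpos hT1 (by norm_num)
  have hC0 : 0 ≤ C := by linarith
  have hB : n * (2 * KH 1 0 eps1 * (2:ℝ)^(2*eps1*n)) + C * T^(-(1/1000):ℝ) ≤
      (2 * KH 1 0 eps1 + C) * T^2 := by
    have h1 : n * (2 * KH 1 0 eps1 * (2:ℝ)^(2*eps1*n)) ≤ T * (2 * KH 1 0 eps1 * T) := by
      gcongr
    have h2 : C * T^(-(1/1000):ℝ) ≤ C * T^2 := by
      apply mul_le_mul_of_nonneg_left _ hC0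
      nlinarith
    nlinarith
  have hT2 : T^2 ≤ (2 * 2^(1/c1))^2 * ℓ^(2/c1) := by
    calc T^2 ≤ (2 * (2*ℓ)^(1/c1))^2 := pow_le_pow_left₀ (by positivity) hnU 2
      _ = (2 * 2^(1/c1))^2 * (ℓ^(1/c1) * ℓ^(1/c1)) := by
          rw [Real.mul_rpow (by norm_num) hℓ0.le]; ring
      _ = _ := by
          rw [← Real.rpow_add hℓ0]
          congr 2
          ring
  have t2 : 6 * L^2 * (n * (2 * KH 1 0 eps1 * (2:ℝ)^(2*eps1*n)) + C * T^(-(1/1000):ℝ)) *
      (η^(2*eps1) * (M1 * M2)^(1/2+eps1)) ≤ 1/8 * ℓ^(-K) * Sx := by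
    have h := hp2 p (by omega)
    have h' : 6 * CL^2 * (2 * KH 1 0 eps1 + C) * (2 * 2^(1/c1))^2 * ℓ^(2+2/c1+2*C2) * Wx ≤
        1/8 * ℓ^(-K) := by
      have e1 : ℓ^(2+2/c1+2*C2+K) * ℓ^(-K) = ℓ^(2+2/c1+2*C2) := by
        rw [← Real.rpow_add hℓ0]; congr 1; ring
      calc _ = (6 * CL^2 * (2 * KH 1 0 eps1 + C) * (2 * 2^(1/c1))^2 * ℓ^(2+2/c1+2*C2+K) * Wx) *
            ℓ^(-K) := by rw [← e1]; ring
        _ ≤ 1/8 * ℓ^(-K) := mul_le_mul_of_nonneg_right h (by positivity)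
    have h1 : (M1 * M2)^(1/2+eps1) ≤ ℓ^(2*C2) * Sx := by
      have h3 : M1 * M2 ≤ ℓ^C2 * Sx := by
        calc M1 * M2 ≤ ℓ^C2 * M2 := mul_le_mul_of_nonneg_right hMV hM20
          _ ≤ ℓ^C2 * Sx := mul_le_mul_of_nonneg_left (by linarith) (by positivity)
      have h4 : (M1 * M2)^(1/2+eps1) = (M1 * M2)^(1/2:ℝ) * (M1 * M2)^eps1 := by
        rcases (mul_nonneg hM10 hM20).eq_or_lt with h0 | h0
        · rw [← h0, Real.zero_rpow (by rw [he1]; norm_num), Real.zero_rpow (by norm_num), zero_mul]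
        · rw [← Real.rpow_add h0]
      rw [h4]
      have h5 : (M1 * M2)^(1/2:ℝ) ≤ Sx := by
        rw [← Real.sqrt_eq_rpow]
        apply Real.sqrt_le_iff.2 ⟨hSx0, by nlinarith⟩
      have h6 : (M1 * M2)^eps1 ≤ ℓ^(2*C2) := by
        calc (M1 * M2)^eps1 ≤ (ℓ^C2 * ℓ^C2)^eps1 :=
              Real.rpow_le_rpow (by positivity) (mul_le_mul hMV hMW hM20 (by positivity))
                (by rw [he1]; norm_num)
          _ = ℓ^(2*C2*eps1) := by
              rw [← Real.rpow_add hℓ0, ← Real.rpow_mul hℓ0.le]; congr 1; ring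
          _ ≤ ℓ^(2*C2) := Real.rpow_le_rpow_of_exponent_le hl1 (by rw [he1]; linarith)
      calc (M1 * M2)^(1/2:ℝ) * (M1 * M2)^eps1 ≤ Sx * ℓ^(2*C2) :=
            mul_le_mul h5 h6 (by positivity) hSx0
        _ = _ := mul_comm _ _
    calc 6 * L^2 * (n * (2 * KH 1 0 eps1 * (2:ℝ)^(2*eps1*n)) + C * T^(-(1/1000):ℝ)) *
          (η^(2*eps1) * (M1 * M2)^(1/2+eps1))
        ≤ 6 * L^2 * ((2 * KH 1 0 eps1 + C) * ((2 * 2^(1/c1))^2 * ℓ^(2/c1))) *
          (Wx * (ℓ^(2*C2) * Sx)) := by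
          have h2 : n * (2 * KH 1 0 eps1 * (2:ℝ)^(2*eps1*n)) + C * T^(-(1/1000):ℝ) ≤
              (2 * KH 1 0 eps1 + C) * ((2 * 2^(1/c1))^2 * ℓ^(2/c1)) := by
            refine hB.trans ?_
            gcongr
          have h00 : 0 ≤ (M1 * M2)^(1/2+eps1) := by positivity
          gcongr
      _ = (6 * CL^2 * (2 * KH 1 0 eps1 + C) * (2 * 2^(1/c1))^2) *
          (ℓ^(2:ℝ) * ℓ^(2/c1) * ℓ^(2*C2)) * Wx * Sx := by
          rw [hL, Real.rpow_two]; ring
      _ = (6 * CL^2 * (2 * KH 1 0 eps1 + C) * (2 * 2^(1/c1))^2) *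
          ℓ^(2 + 2/c1 + 2*C2) * Wx * Sx := by
          rw [← Real.rpow_add hℓ0, ← Real.rpow_add hℓ0]
      _ ≤ 1/8 * ℓ^(-K) * Sx := mul_le_mul_of_nonneg_right h' hSx0
  have hCLl : 100 * (CL + 1) ≤ ℓ := by linarith
  -- term 3
  have t3 : 6 * (L / P) * Sx ≤ 1/8 * ℓ^(-K) * Sx := by
    apply mul_le_mul_of_nonneg_right _ hSx0
    have h1 : L / P ≤ CL * ℓ^(-(K+2)) := by
      rw [div_le_iff₀ hP0R]
      have h2 : CL * ℓ^(-(K+2)) * ℓ^K1 ≤ CL * ℓ^(-(K+2)) * P :=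
        mul_le_mul_of_nonneg_left hP1 (by positivity)
      have h3 : CL * ℓ^(-(K+2)) * ℓ^K1 = CL * ℓ := by
        rw [mul_assoc, ← Real.rpow_add hℓ0, hK1]
        have : -(K+2) + (K+3) = 1 := by ring
        rw [this, Real.rpow_one]
      linarith
    have h2 : ℓ^(-(K+2)) * ℓ = ℓ^(-K) * ℓ^(-(1:ℝ)) := by
      have e1 : ℓ^(-(K+2)) * ℓ^(1:ℝ) = ℓ^(-K) * ℓ^(-(1:ℝ)) := by
        rw [← Real.rpow_add hℓ0, ← Real.rpow_add hℓ0]; congr 1; ring
      rwa [Real.rpow_one] at e1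
    have h3 : ℓ^(-(K+2)) = ℓ^(-K) * (ℓ^(-(1:ℝ)) * ℓ^(-(1:ℝ))) := by
      rw [← Real.rpow_add hℓ0, ← Real.rpow_add hℓ0]; congr 1; ring
    have h4 : ℓ^(-(1:ℝ)) = 1/ℓ := by rw [Real.rpow_neg_one, one_div]
    have h5 : CL * (1/ℓ * (1/ℓ)) ≤ 1/100 := by
      have h6 : CL * (1/ℓ) ≤ 1/100 := by
        rw [mul_one_div, div_le_iff₀ hℓ0]; linarith
      have h7 : 1/ℓ ≤ 1 := by rw [div_le_one hℓ0]; exact hl1
      have h8 : 0 ≤ CL * (1/ℓ) := by positivity
      calc CL * (1/ℓ * (1/ℓ)) = (CL * (1/ℓ)) * (1/ℓ) := by ring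
        _ ≤ (CL * (1/ℓ)) * 1 := mul_le_mul_of_nonneg_left h7 h8
        _ ≤ 1/100 := by linarith
    have h9 : 0 < ℓ^(-K) := by positivity
    calc 6 * (L / P) ≤ 6 * (CL * ℓ^(-(K+2))) := by linarith
      _ = 6 * (CL * (1/ℓ * (1/ℓ))) * ℓ^(-K) := by rw [h3, h4]; ring
      _ ≤ 6 * (1/100) * ℓ^(-K) := by gcongr
      _ ≤ 1/8 * ℓ^(-K) := by nlinarith
  -- radii are polylogarithmic
  have hRV : ∀ w ∈ V, R w ≤ L * ℓ^C2 := by
    intro w hw
    refine (hLV w hw).trans (mul_le_mul_of_nonneg_left ?_ hL0)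
    exact (Finset.single_le_sum (f := fun w => wt R w) hwt hw).trans hMV
  have hRW : ∀ w ∈ W, R' w ≤ L * ℓ^C2 := by
    intro w hw
    refine (hLW w hw).trans (mul_le_mul_of_nonneg_left ?_ hL0)
    exact (Finset.single_le_sum (f := fun w => wt R' w) hwt' hw).trans hMW
  have hη3 : η * (2 * (CL + 1) * ℓ^(K1 + 1 + C2)) ≤ 1 := by
    have h := hp3 p (by omega)
    calc η * (2 * (CL + 1) * ℓ^(K1 + 1 + C2)) ≤ Wx * (2 * (CL + 1) * ℓ^(K1 + 1 + C2)) :=
          mul_le_mul_of_nonneg_right hηW (by positivity)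
      _ = 2 * (CL + 1) * ℓ^(K1 + 1 + C2) * Wx := by ring
      _ ≤ 1 := h
  have hLC : L * ℓ^C2 ≤ (CL + 1) * ℓ^(1 + C2) := by
    rw [hL, Real.rpow_add hℓ0, Real.rpow_one]
    have : 0 ≤ ℓ * ℓ^C2 := by positivity
    nlinarith
  -- small pairs
  have hbound : ∀ e ∈ ES, F e ≤ 6 * ℓ^(-K2) * R e.1 := by
    intro e he
    obtain ⟨heE, hsm⟩ := Finset.mem_filter.1 he
    push Not at hsm
    obtain ⟨h1, h2⟩ := hmem e heE
    have hR := (hV _ h1).2
    have hR' := (hW _ h2).2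
    set x := cof e.1 e.2 with hx
    set y := cof e.2 e.1 with hy
    have hx0 : 0 < x := cof_pos (hV _ h1).1
    have hy0 : 0 < y := cof_pos (hW _ h2).1
    have hx1 : (1:ℝ) ≤ x := by exact_mod_cast hx0
    have hy1 : (1:ℝ) ≤ y := by exact_mod_cast hy0
    have hxP : (x:ℝ) ≤ 2 * ℓ^K1 := le_trans (by exact_mod_cast hsm.1.le) hP2
    have hyP : (y:ℝ) ≤ 2 * ℓ^K1 := le_trans (by exact_mod_cast hsm.2.le) hP2
    have hD := hDpos e heE
    have hDdef : DP R R' e = max ((y:ℝ) * R e.1) ((x:ℝ) * R' e.2) := rfl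
    have hηD : η * DP R R' e ≤ 1 := by
      have h3 : DP R R' e ≤ 2 * (CL + 1) * ℓ^(K1 + 1 + C2) := by
        rw [hDdef]
        have e1 : 2 * (CL + 1) * ℓ^(K1 + 1 + C2) = (2 * ℓ^K1) * ((CL + 1) * ℓ^(1 + C2)) := by
          have : ℓ^(K1 + 1 + C2) = ℓ^K1 * ℓ^(1 + C2) := by
            rw [← Real.rpow_add hℓ0]; congr 1; ring
          rw [this]; ring
        rw [e1]
        apply max_le
        · exact mul_le_mul hyP ((hRV _ h1).trans hLC) hR.le (by positivity)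
        · exact mul_le_mul hxP ((hRW _ h2).trans hLC) hR'.le (by positivity)
      exact (mul_le_mul_of_nonneg_left h3 hη.le).trans hη3
    have hF6 : F e ≤ 6 * ((R e.1 * R' e.2) / DP R R' e) := by
      calc F e ≤ 2 * ((R e.1 * R' e.2) / DP R R' e) * (2 * η * DP R R' e + 1) := hF e heE
        _ ≤ 2 * ((R e.1 * R' e.2) / DP R R' e) * 3 := by
            apply mul_le_mul_of_nonneg_left _ (by positivity)
            nlinarith
        _ = _ := by ring
    rcases le_or_gt (R e.1) (ℓ^K2 * R' e.2) with hrat | hrat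
    · -- comparable radii: the energy vanishes
      rcases (hF0 e heE).eq_or_lt with h0 | h0
      · rw [← h0]; positivity
      · exfalso
        obtain ⟨m, m', hm⟩ := hrel e heE h0
        have hK20 : 0 ≤ K2 := by rw [hK2, hK1]; linarith
        have hℓK2 : 1 ≤ ℓ^K2 := Real.one_le_rpow hl1 hK20
        have hDb : DP R R' e ≤ ℓ^(K1 + K2 + 1) * R' e.2 := by
          have e1 : ℓ^(K1 + K2 + 1) = ℓ^K1 * ℓ^K2 * ℓ := by
            rw [Real.rpow_add hℓ0, Real.rpow_add hℓ0, Real.rpow_one]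
          rw [hDdef, e1]
          apply max_le
          · calc (y:ℝ) * R e.1 ≤ (2 * ℓ^K1) * (ℓ^K2 * R' e.2) :=
                  mul_le_mul hyP hrat hR.le (by positivity)
              _ = (ℓ^K1 * ℓ^K2 * 2) * R' e.2 := by ring
              _ ≤ (ℓ^K1 * ℓ^K2 * ℓ) * R' e.2 := by gcongr
          · calc (x:ℝ) * R' e.2 ≤ (2 * ℓ^K1) * R' e.2 := mul_le_mul_of_nonneg_right hxP hR'.le
              _ = (ℓ^K1 * 1 * 2) * R' e.2 := by ring
              _ ≤ (ℓ^K1 * ℓ^K2 * ℓ) * R' e.2 := by gcongr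
        have pw : ∀ a : ℝ, a ≤ K' → ℓ^a ≤ ℓ^K' := fun a ha =>
          Real.rpow_le_rpow_of_exponent_le hl1 ha
        have hxK : 2 * ℓ^K1 ≤ ℓ^K' := by
          calc 2 * ℓ^K1 ≤ ℓ * ℓ^K1 := by gcongr
            _ = ℓ^(1 + K1) := by rw [Real.rpow_add hℓ0 1 K1, Real.rpow_one]
            _ ≤ ℓ^K' := pw _ (by rw [hK', hK2, hK1]; linarith)
        apply hCo
        refine ⟨R' e.2, hR', ?_, ?_, x, y, hx0, hy0, hxP.trans hxK, hyP.trans hxK,
          m * y - m' * x, ?_⟩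
        · calc R' e.2 ≤ L * ℓ^C2 := hRW _ h2
            _ ≤ (CL + 1) * ℓ^(1 + C2) := hLC
            _ ≤ ℓ * ℓ^(1 + C2) := by
                apply mul_le_mul_of_nonneg_right _ (by positivity); linarith
            _ = ℓ^(2 + C2) := by
                rw [← Real.rpow_one_add' hℓ0.le (by linarith)]; congr 1; ring
            _ ≤ ℓ^K' := pw _ (by rw [hK', hK2, hK1]; linarith)
        · apply hU _ h2
          have h3 : R' e.2 ≤ DP R R' e := by
            rw [hDdef]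
            refine le_trans ?_ (le_max_right _ _)
            nlinarith
          calc R' e.2 * η ≤ DP R R' e * η := mul_le_mul_of_nonneg_right h3 hη.le
            _ = η * DP R R' e := mul_comm _ _
            _ ≤ 1 := hηD
        · have e1 : ((x:ℝ) * p - y) * θ - ((m * y - m' * x : ℤ) : ℝ) =
              -((m + θ) * (y:ℕ) - (m' + p * θ) * (x:ℕ)) := by push_cast; ring
          rw [e1, abs_neg]
          refine hm.trans ?_
          calc η * DP R R' e ≤ Real.exp (-(ℓ^(4/5:ℝ))) * (ℓ^(K1 + K2 + 1) * R' e.2) :=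
                mul_le_mul hη1 hDb hD.le (Real.exp_pos _).le
            _ = Real.exp (-(ℓ^(4/5:ℝ))) * ℓ^(K1 + K2 + 1) * R' e.2 := by ring
            _ ≤ Real.exp (-(ℓ^(4/5:ℝ))) * ℓ^K' * R' e.2 := by
                have := pw (K1 + K2 + 1) (by rw [hK']; linarith)
                gcongr
    · -- incomparable radii
      have h3 : (R e.1 * R' e.2) / DP R R' e ≤ ℓ^(-K2) * R e.1 := by
        rw [div_le_iff₀ hD]
        have h4 : R e.1 ≤ DP R R' e := by
          rw [hDdef]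
          refine le_trans ?_ (le_max_left _ _)
          nlinarith
        have h5 : R' e.2 ≤ ℓ^(-K2) * R e.1 := by
          have h6 : ℓ^(-K2) * (ℓ^K2 * R' e.2) ≤ ℓ^(-K2) * R e.1 :=
            mul_le_mul_of_nonneg_left hrat.le (by positivity)
          rw [← mul_assoc, ← Real.rpow_add hℓ0, neg_add_cancel, Real.rpow_zero, one_mul] at h6
          exact h6
        calc R e.1 * R' e.2 ≤ DP R R' e * (ℓ^(-K2) * R e.1) :=
              mul_le_mul h4 h5 hR'.le hD.le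
          _ = _ := by ring
      calc F e ≤ 6 * ((R e.1 * R' e.2) / DP R R' e) := hF6
        _ ≤ 6 * (ℓ^(-K2) * R e.1) := by linarith
        _ = _ := by ring
  have t4 : ∑ e ∈ ES, F e ≤ 1/4 * ℓ^(-K) * Sx := by
    have h1 := sum_small (V := V) (W := W) (S := ES) (F := F) (R := R) (c := 6 * ℓ^(-K2)) (p := P)
      (hESE.trans hES) (fun v hv => (hV v hv).1) (fun v hv => (hV v hv).2.le) (by positivity)
      (fun e he => by
        have := (Finset.mem_filter.1 he).2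
        push Not at this
        exact this) hbound
    refine h1.trans ?_
    have h2 : ∑ v ∈ V, R v ≤ L * M1 := by
      rw [hM1, Finset.mul_sum]; exact Finset.sum_le_sum hLV
    have h3 : (P:ℝ)^2 ≤ 4 * ℓ^(2*K1) := by
      calc (P:ℝ)^2 ≤ (2 * ℓ^K1)^2 := pow_le_pow_left₀ hP0R.le hP2 2
        _ = 4 * ℓ^(2*K1) := by
            rw [mul_pow, ← Real.rpow_natCast (ℓ^K1) 2, ← Real.rpow_mul hℓ0.le]
            norm_num
            congr 1; ring
    have h4 : 0 ≤ ∑ v ∈ V, R v := Finset.sum_nonneg fun v hv => (hV v hv).2.le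
    calc (P:ℝ)^2 * (6 * ℓ^(-K2)) * ∑ v ∈ V, R v
        ≤ (4 * ℓ^(2*K1)) * (6 * ℓ^(-K2)) * (L * M1) := by gcongr
      _ = 24 * CL * (ℓ^(2*K1) * ℓ^(-K2) * ℓ^(1:ℝ)) * M1 := by rw [hL, Real.rpow_one]; ring
      _ = 24 * CL * (ℓ^(-K) * ℓ^(-(1:ℝ))) * M1 := by
          rw [← Real.rpow_add hℓ0, ← Real.rpow_add hℓ0, ← Real.rpow_add hℓ0]
          congr 3
          rw [hK2]; ring
      _ = 24 * (CL * (1/ℓ)) * ℓ^(-K) * M1 := by
          rw [Real.rpow_neg_one, one_div]; ring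
      _ ≤ 24 * (1/100) * ℓ^(-K) * M1 := by
          have h6 : CL * (1/ℓ) ≤ 1/100 := by
            rw [mul_one_div, div_le_iff₀ hℓ0]; linarith
          gcongr
      _ ≤ 1/4 * ℓ^(-K) * M1 := by
          apply mul_le_mul_of_nonneg_right _ hM10
          apply mul_le_mul_of_nonneg_right _ (by positivity)
          norm_num
      _ ≤ 1/4 * ℓ^(-K) * Sx := mul_le_mul_of_nonneg_left hM1S (by positivity)
  rw [hsplit]
  have hκM : 0 ≤ ℓ^(-K) * Sx := by positivity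
  have e1 : 1/8 * ℓ^(-K) * Sx = 1/8 * (ℓ^(-K) * Sx) := by ring
  have e2 : 1/4 * ℓ^(-K) * Sx = 1/4 * (ℓ^(-K) * Sx) := by ring
  rw [e1] at t1 t2 t3
  rw [e2] at t4
  linarith

end Crest.Agent.R4P.CoN30
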