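import Crest.Agent.R4.Fam464
import Crest.Agent.R4.ClosG758

/-!
R4 (S0004), group [W-eSHR], helper9: **item-level facts of one lam column** ([M1]).

For a column `Dat p f g G` with levels `c`, `n` (in the context trees `n = 0 + 1`, `c = fun _ => rho p`):
* `fib j x = g j x - lamR j x` (fibre part of the item, signed), `apt j y` (the part which is
  constant on the fibres): `lamF_eq : lamF j x = apt j (p x) + fib j x`;
* `Ep_lamF_item` : item-level mean;
* `Ep_lamF_mul₂` : the exact covariance identity for two items of two (different) columns at the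
  same prime; `I_lamF_mul₂`, `Q_lamF₂` integrated / summed over any relation;
* class sums: `sum_fib_nonneg`, `sum_fib_le`, `sum_lamR_le_g`, `lamR_le`, `lamR_eq_zero`;
* norm inequality: `Ep_sq_ge`, `I_sq_lamF_ge` for every finite family of items, and
  `I_sq_ge_abs` (abstract form, for groups).
-/

set_option autoImplicit false
set_option linter.unusedSectionVars false
set_option linter.unusedVariables false
open MeasureTheory Filter Set

namespace Crest.Agent.R4P.ColCov9

open Crest.Agent.R4.Tour104 Crest.Agent.R4.Tour758 Crest.Agent.R4.Avg758 Crest.Agent.R4.Clos758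
open Crest.Agent.R4.ClosL758 Crest.Agent.R4.ClosG758 Crest.Agent.R4.Lam368

section
variable {ι κ : Type*} [Fintype ι] [DecidableEq κ]
variable {p : ℕ} {f g G : ι → ℝ → ℝ} {c : ℕ → ι → κ} {n : ℕ}

/-! ### the two parts of an item -/

/-- fibre part of the item `j` (signed) -/
noncomputable def fib (p : ℕ) (f g G : ι → ℝ → ℝ) (c : ℕ → ι → κ) (n : ℕ) (j : ι) (x : ℝ) : ℝ :=
  g j x - lamR p f g G c n j x

/-- the part of the item `j` which is constant on the fibres -/
noncomputable def apt (p : ℕ) (f g G : ι → ℝ → ℝ) (c : ℕ → ι → κ) (n : ℕ) (j : ι) (y : ℝ) : ℝ :=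
  (1 - 1 / (p : ℝ)) * f j y + Ep p (lamR p f g G c n j) y

lemma lamF_eq (j : ι) (x : ℝ) :
    lamF p f g G c n j x = apt p f g G c n j (p * x) + fib p f g G c n j x := by
  unfold lamF apt fib; ring

lemma FW_single (j : ι) : FW p f g G c n {j} = lamF p f g G c n j := by
  funext x; simp [FW]

lemma DW_single (j : ι) : DW p f g G c n {j} = fib p f g G c n j := by
  funext x; simp [DW, fW, RW, fib]

lemma BW_single (j : ι) : BW p f g G c n {j} = apt p f g G c n j := by
  funext x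
  have : RW p f g G c n {j} = lamR p f g G c n j := by funext x; simp [RW]
  simp only [BW, apt, fW, Finset.sum_singleton, this]

lemma sum_fib (W : Finset ι) (x : ℝ) :
    ∑ j ∈ W, fib p f g G c n j x = DW p f g G c n W x := by
  simp only [fib, DW, fW, RW, Finset.sum_sub_distrib]

lemma PB_apt (hd : Dat p f g G) (j : ι) : PB (apt p f g G c n j) := by
  rw [← BW_single]; exact PB_BW hd _

lemma fib_meas (hd : Dat p f g G) (j : ι) : Measurable (fib p f g G c n j) :=
  (hd.hg j).meas.sub (PB_lamR hd j).meas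

lemma fib_per (hd : Dat p f g G) (j : ι) (x : ℝ) :
    fib p f g G c n j (x + 1) = fib p f g G c n j x := by
  unfold fib; rw [(hd.hg j).per, (PB_lamR hd j).per]

lemma fib_le (hd : Dat p f g G) (j : ι) (x : ℝ) : fib p f g G c n j x ≤ g j x := by
  unfold fib; linarith [(PB_lamR (c := c) (n := n) hd j).nonneg x]

lemma neg_le_fib (hd : Dat p f g G) (j : ι) (x : ℝ) : -f j (p * x) ≤ fib p f g G c n j x := by
  unfold fib
  linarith [lamR_le (c := c) (n := n) hd j x, (hd.hg j).nonneg x]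

lemma abs_fib_le (hd : Dat p f g G) (j : ι) (x : ℝ) :
    |fib p f g G c n j x| ≤ g j x + lamR p f g G c n j x := by
  unfold fib
  rw [abs_le]
  constructor <;> linarith [(PB_lamR (c := c) (n := n) hd j).nonneg x, (hd.hg j).nonneg x]

lemma fib_bdd (hd : Dat p f g G) (j : ι) : ∃ B, ∀ x, |fib p f g G c n j x| ≤ B := by
  obtain ⟨B, hB⟩ := (hd.hg j).bdd
  obtain ⟨B', hB'⟩ := (PB_lamR (c := c) (n := n) hd j).bdd
  exact ⟨B + B', fun x => (abs_fib_le hd j x).trans (add_le_add (hB x) (hB' x))⟩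

/-- no incumbent: no reduction -/
lemma lamR_eq_zero (hd : Dat p f g G) {j : ι} {x : ℝ} (h : f j (p * x) = 0) :
    lamR p f g G c n j x = 0 :=
  le_antisymm ((lamR_le hd j x).trans h.le) ((PB_lamR hd j).nonneg x)

lemma Ep_lamR_eq_zero (hd : Dat p f g G) {j : ι} {y : ℝ} (h : f j y = 0) :
    Ep p (lamR p f g G c n j) y = 0 := by
  refine le_antisymm ?_ (Ep_nonneg (PB_lamR hd j).nonneg _)
  have := Ep_lamR_le (c := c) (n := n) hd j y
  rwa [h, zero_div] at this

/-- a pure challenger: the item is its `g` -/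
lemma lamF_of_f_zero (hd : Dat p f g G) {j : ι} {x : ℝ} (h : f j (p * x) = 0) :
    lamF p f g G c n j x = g j x := by
  rw [lamF_eq, apt, fib, h, lamR_eq_zero hd h, Ep_lamR_eq_zero hd h]; ring

lemma fib_of_f_zero (hd : Dat p f g G) {j : ι} {x : ℝ} (h : f j (p * x) = 0) :
    fib p f g G c n j x = g j x := by
  rw [fib, lamR_eq_zero hd h, sub_zero]

/-- a pure incumbent: the fibre part is minus the reduction -/
lemma fib_of_g_zero {j : ι} {x : ℝ} (h : g j x = 0) :
    fib p f g G c n j x = -lamR p f g G c n j x := by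
  rw [fib, h, zero_sub]

lemma lamF_of_g_zero (hd : Dat p f g G) {j : ι} {x : ℝ} (h : g j x = 0) :
    lamF p f g G c n j x = mult p f g G c n j x * f j (p * x) := by
  rw [lamF_eq_mult hd, h, add_zero]

/-! ### item-level means -/

/-- **item-level mean** -/
theorem Ep_lamF_item (hd : Dat p f g G) (j : ι) (y : ℝ) :
    Ep p (lamF p f g G c n j) y = (1 - 1 / (p : ℝ)) * f j y + G j y / p := by
  have h := Ep_FW (c := c) (n := n) hd {j} y
  rw [FW_single] at h
  simpa [fW] using h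

lemma Ep_lamF_item' (hd : Dat p f g G) (j : ι) (y : ℝ) :
    Ep p (lamF p f g G c n j) y = (1 - 1 / (p : ℝ)) * f j y + 1 / (p : ℝ) * G j y := by
  rw [Ep_lamF_item hd]; ring

lemma Ep_fib (hd : Dat p f g G) (j : ι) (y : ℝ) :
    Ep p (fib p f g G c n j) y = G j y / p - Ep p (lamR p f g G c n j) y := by
  have e : fib p f g G c n j = fun x => g j x - lamR p f g G c n j x := rfl
  rw [e, Ep_sub, (hd.hl j).Ep]

/-- the mean is the base plus the mean of the fibre part -/
lemma apt_add_Ep_fib (hd : Dat p f g G) (j : ι) (y : ℝ) :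
    apt p f g G c n j y + Ep p (fib p f g G c n j) y =
      (1 - 1 / (p : ℝ)) * f j y + G j y / p := by
  rw [Ep_fib hd, apt]; ring

/-! ### two columns at the same prime -/

section two
variable {ι' κ' : Type*} [Fintype ι'] [DecidableEq κ']
variable {f' g' G' : ι' → ℝ → ℝ} {c' : ℕ → ι' → κ'} {n' : ℕ}

/-- abstract covariance identity: `F = A (p x) + H`, `F' = A' (p x) + H'` -/
lemma Ep_mul_cov {p : ℕ} (hp : 0 < p) {A A' H H' : ℝ → ℝ} (hA : ∀ x, A (x + 1) = A x)
    (hA' : ∀ x, A' (x + 1) = A' x) (y : ℝ) :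
    Ep p (fun x => (A (p * x) + H x) * (A' (p * x) + H' x)) y =
      (A y + Ep p H y) * (A' y + Ep p H' y) +
        (Ep p (fun x => H x * H' x) y - Ep p H y * Ep p H' y) := by
  have e : (fun x => (A (p * x) + H x) * (A' (p * x) + H' x)) = fun x =>
      (A (p * x) * (A' (p * x) * 1) + A (p * x) * H' x) + (A' (p * x) * H x + H x * H' x) := by
    funext x; ring
  rw [e, Ep_add, Ep_add, Ep_add, Ep_pull_mul hp hA, Ep_pull_mul hp hA', Ep_pull_mul hp hA,
    Ep_pull_mul hp hA', Ep_const hp]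
  ring

/-- **exact covariance identity**, two items of two columns at the same prime -/
theorem Ep_lamF_mul₂ (hd : Dat p f g G) (hd' : Dat p f' g' G') (j : ι) (j' : ι') (y : ℝ) :
    Ep p (fun x => lamF p f g G c n j x * lamF p f' g' G' c' n' j' x) y =
      ((1 - 1 / (p : ℝ)) * f j y + G j y / p) * ((1 - 1 / (p : ℝ)) * f' j' y + G' j' y / p) +
        (Ep p (fun x => fib p f g G c n j x * fib p f' g' G' c' n' j' x) y -
          Ep p (fib p f g G c n j) y * Ep p (fib p f' g' G' c' n' j') y) := by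
  have e : (fun x => lamF p f g G c n j x * lamF p f' g' G' c' n' j' x) = fun x =>
      (apt p f g G c n j (p * x) + fib p f g G c n j x) *
        (apt p f' g' G' c' n' j' (p * x) + fib p f' g' G' c' n' j' x) := by
    funext x; rw [lamF_eq, lamF_eq]
  rw [e, Ep_mul_cov hd.hp (PB_apt hd j).per (PB_apt hd' j').per, apt_add_Ep_fib hd,
    apt_add_Ep_fib hd']

/-- one column, the other function is constant on the fibres (a pull against a pushed value) -/
theorem Ep_lamF_mul_pull (hd : Dat p f g G) (j : ι) {F : ℝ → ℝ} (hF : ∀ x, F (x + 1) = F x)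
    (y : ℝ) :
    Ep p (fun x => F (p * x) * lamF p f g G c n j x) y =
      F y * ((1 - 1 / (p : ℝ)) * f j y + G j y / p) := by
  rw [Ep_pull_mul hd.hp hF, Ep_lamF_item hd]

end two

/-! ### integrability of the signed parts -/

/-- bounded, measurable, periodic (signed version of `PB`) -/
structure SB (F : ℝ → ℝ) : Prop where
  meas : Measurable F
  bdd : ∃ B, ∀ x, |F x| ≤ B
  per : ∀ x, F (x + 1) = F x

lemma _root_.Crest.Agent.R4.Tour104.PB.SB {F : ℝ → ℝ} (h : PB F) : SB F := by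
  obtain ⟨B, hB⟩ := h.bdd
  exact ⟨h.meas, ⟨B, fun x => by rw [abs_of_nonneg (h.nonneg x)]; exact hB x⟩, h.per⟩

lemma SB.integrableOn {F : ℝ → ℝ} (h : SB F) : IntegrableOn F (Ico (0 : ℝ) 1) := by
  obtain ⟨B, hB⟩ := h.bdd
  exact Measure.integrableOn_of_bounded (M := B) (by simp) h.meas.aestronglyMeasurable
    (Eventually.of_forall fun x => by rw [Real.norm_eq_abs]; exact hB x)

lemma SB.mul {F F' : ℝ → ℝ} (h : SB F) (h' : SB F') : SB fun x => F x * F' x := by
  obtain ⟨B, hB⟩ := h.bdd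
  obtain ⟨B', hB'⟩ := h'.bdd
  refine ⟨h.meas.mul h'.meas, ⟨B * B', fun x => ?_⟩, fun x => ?_⟩
  · rw [abs_mul]
    exact mul_le_mul (hB x) (hB' x) (abs_nonneg _) ((abs_nonneg _).trans (hB x))
  · simp only [h.per, h'.per]

lemma SB.add {F F' : ℝ → ℝ} (h : SB F) (h' : SB F') : SB fun x => F x + F' x := by
  obtain ⟨B, hB⟩ := h.bdd
  obtain ⟨B', hB'⟩ := h'.bdd
  refine ⟨h.meas.add h'.meas, ⟨B + B', fun x => ?_⟩, fun x => ?_⟩
  · exact (abs_add_le _ _).trans (add_le_add (hB x) (hB' x))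
  · simp only [h.per, h'.per]

lemma SB.smul {F : ℝ → ℝ} (h : SB F) (a : ℝ) : SB fun x => a * F x := by
  obtain ⟨B, hB⟩ := h.bdd
  refine ⟨h.meas.const_mul a, ⟨|a| * B, fun x => ?_⟩, fun x => ?_⟩
  · rw [abs_mul]; exact mul_le_mul_of_nonneg_left (hB x) (abs_nonneg _)
  · simp only [h.per]

lemma SB.sub {F F' : ℝ → ℝ} (h : SB F) (h' : SB F') : SB fun x => F x - F' x := by
  have := h.add (h'.smul (-1))
  have e : (fun x => F x - F' x) = fun x => F x + -1 * F' x := by funext x; ring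
  rw [e]; exact this

lemma SB.zero : SB fun _ => (0 : ℝ) := ⟨measurable_const, ⟨0, fun x => by simp⟩, fun _ => rfl⟩

lemma SB.sum {α : Type*} (s : Finset α) {F : α → ℝ → ℝ} (h : ∀ i ∈ s, SB (F i)) :
    SB fun x => ∑ i ∈ s, F i x := by
  classical
  induction s using Finset.induction_on with
  | empty => simpa using SB.zero
  | insert a s ha ih =>
    have e : (fun x => ∑ i ∈ insert a s, F i x) = fun x => F a x + ∑ i ∈ s, F i x := by
      funext x; rw [Finset.sum_insert ha]
    rw [e]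
    exact (h a (Finset.mem_insert_self _ _)).add (ih fun i hi => h i (Finset.mem_insert_of_mem hi))

lemma SB.pull {F : ℝ → ℝ} (h : SB F) (q : ℕ) : SB fun x => F (q * x) := by
  obtain ⟨B, hB⟩ := h.bdd
  refine ⟨h.meas.comp (measurable_const.mul measurable_id), ⟨B, fun x => hB _⟩, fun x => ?_⟩
  have hn : ∀ (m : ℕ) (z : ℝ), F (z + m) = F z := by
    intro m
    induction m with
    | zero => intro z; simp
    | succ m ih => intro z; push_cast; rw [← add_assoc, h.per, ih]
  have : (q : ℝ) * (x + 1) = q * x + q := by ring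
  simp only [this, hn]

lemma SB.Ep {q : ℕ} (hq : 0 < q) {F : ℝ → ℝ} (h : SB F) : SB (Ep q F) := by
  obtain ⟨B, hB⟩ := h.bdd
  have hq' : (0 : ℝ) < q := by exact_mod_cast hq
  refine ⟨?_, ⟨B, fun y => ?_⟩, fun y => Ep_per hq h.per y⟩
  · unfold Crest.Agent.R4.Tour104.Ep
    exact (Finset.measurable_sum _ fun i _ => h.meas.comp
      ((measurable_id.add_const _).div_const _)).div_const _
  · unfold Crest.Agent.R4.Tour104.Ep
    rw [abs_div, abs_of_pos hq', div_le_iff₀ hq']
    calc |∑ i ∈ Finset.range q, F ((y + i) / q)| ≤ ∑ i ∈ Finset.range q, |F ((y + i) / q)| :=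
          Finset.abs_sum_le_sum_abs _ _
      _ ≤ ∑ _i ∈ Finset.range q, B := Finset.sum_le_sum fun i _ => hB _
      _ = B * q := by rw [Finset.sum_const, Finset.card_range, nsmul_eq_mul]; ring

lemma I_Ep_SB {q : ℕ} (hq : 0 < q) {F : ℝ → ℝ} (h : SB F) : I (Ep q F) = I F :=
  I_Ep hq h.integrableOn

lemma SB_fib (hd : Dat p f g G) (j : ι) : SB (fib p f g G c n j) :=
  ⟨fib_meas hd j, fib_bdd hd j, fib_per hd j⟩

/-! ### integrated identities -/

section two
variable {ι' κ' : Type*} [Fintype ι'] [DecidableEq κ']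
variable {f' g' G' : ι' → ℝ → ℝ} {c' : ℕ → ι' → κ'} {n' : ℕ}

lemma PB_mean (hd : Dat p f g G) (j : ι) :
    PB fun y => (1 - 1 / (p : ℝ)) * f j y + G j y / p := by
  have hp' : (0 : ℝ) < p := by exact_mod_cast hd.hp
  have e : (fun y => (1 - 1 / (p : ℝ)) * f j y + G j y / p) = fun y =>
      (1 - 1 / (p : ℝ)) * f j y + 1 / (p : ℝ) * G j y := by funext y; ring
  rw [e]
  exact ((hd.hf j).smul (one_sub_inv_nonneg hd.hp)).add ((hd.hG j).smul (by positivity))

/-- **integrated covariance identity** -/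
theorem I_lamF_mul₂ (hd : Dat p f g G) (hd' : Dat p f' g' G') (j : ι) (j' : ι') :
    I (fun x => lamF p f g G c n j x * lamF p f' g' G' c' n' j' x) =
      I (fun y => ((1 - 1 / (p : ℝ)) * f j y + G j y / p) *
        ((1 - 1 / (p : ℝ)) * f' j' y + G' j' y / p)) +
      I (fun x => fib p f g G c n j x * fib p f' g' G' c' n' j' x) -
      I (fun y => Ep p (fib p f g G c n j) y * Ep p (fib p f' g' G' c' n' j') y) := by
  have hp := hd.hp
  have h1 : SB fun x => lamF p f g G c n j x * lamF p f' g' G' c' n' j' x :=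
    ((PB_lamF hd j).mul (PB_lamF hd' j')).SB
  have hH := (SB_fib (c := c) (n := n) hd j)
  have hH' := (SB_fib (c := c') (n := n') hd' j')
  have h2 : SB fun x => fib p f g G c n j x * fib p f' g' G' c' n' j' x := hH.mul hH'
  have h3 : SB fun y => Ep p (fib p f g G c n j) y * Ep p (fib p f' g' G' c' n' j') y :=
    (hH.Ep hp).mul (hH'.Ep hp)
  have h4 : SB fun y => ((1 - 1 / (p : ℝ)) * f j y + G j y / p) *
        ((1 - 1 / (p : ℝ)) * f' j' y + G' j' y / p) :=
    ((PB_mean hd j).mul (PB_mean hd' j')).SB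
  rw [← I_Ep_SB hp h1, ← I_Ep_SB hp h2]
  have e : Ep p (fun x => lamF p f g G c n j x * lamF p f' g' G' c' n' j' x) = fun y =>
      ((((1 - 1 / (p : ℝ)) * f j y + G j y / p) * ((1 - 1 / (p : ℝ)) * f' j' y + G' j' y / p)) +
        Ep p (fun x => fib p f g G c n j x * fib p f' g' G' c' n' j' x) y) -
          Ep p (fib p f g G c n j) y * Ep p (fib p f' g' G' c' n' j') y := by
    funext y; rw [Ep_lamF_mul₂ hd hd']; ring
  rw [e, I_sub (h4.add (h2.Ep hp)).integrableOn h3.integrableOn,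
    I_add h4.integrableOn (h2.Ep hp).integrableOn]

end two

/-- **two nodes, any relation `T`**: `Q T v v'` = `Q T` of the means + fibre part − means of the
fibre parts -/
theorem Q_lamF₂ {Λ κ₁ κ₂ : Type*} [Fintype Λ] [DecidableEq κ₁] [DecidableEq κ₂] {p : ℕ}
    {f g G f' g' G' : Λ → ℝ → ℝ} {c : ℕ → Λ → κ₁} {c' : ℕ → Λ → κ₂} {n n' : ℕ}
    (hd : Dat p f g G) (hd' : Dat p f' g' G') (T : Finset (Λ × Λ)) :
    Q T (lamF p f g G c n) (lamF p f' g' G' c' n') =
      Q T (fun j y => (1 - 1 / (p : ℝ)) * f j y + G j y / p)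
        (fun j y => (1 - 1 / (p : ℝ)) * f' j y + G' j y / p) +
      Q T (fib p f g G c n) (fib p f' g' G' c' n') -
      Q T (fun j => Ep p (fib p f g G c n j)) (fun j => Ep p (fib p f' g' G' c' n' j)) := by
  unfold Q
  rw [← Finset.sum_add_distrib, ← Finset.sum_sub_distrib]
  exact Finset.sum_congr rfl fun q _ => I_lamF_mul₂ hd hd' q.1 q.2

/-! ### class sums -/

/-- the fibre parts of a class have a nonnegative sum -/
lemma sum_fib_nonneg (hd : Dat p f g G) (hN : Nested c) (w₀ : ι) (x : ℝ) :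
    0 ≤ ∑ j ∈ cl' (c n) w₀, fib p f g G c (n + 1) j x := by
  rw [sum_fib]; exact (PB_DW_top hd hN w₀).nonneg x

lemma sum_fib_le (hd : Dat p f g G) (W : Finset ι) (x : ℝ) :
    ∑ j ∈ W, fib p f g G c n j x ≤ ∑ j ∈ W, g j x :=
  Finset.sum_le_sum fun j _ => fib_le hd j x

/-- the reductions of a class are paid by its challengers -/
lemma sum_lamR_le_g (hd : Dat p f g G) (hN : Nested c) (w₀ : ι) (x : ℝ) :
    ∑ j ∈ cl' (c n) w₀, lamR p f g G c (n + 1) j x ≤ ∑ j ∈ cl' (c n) w₀, g j x :=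
  RW_le_top hd hN w₀ x

lemma sum_lamR_le_g_sub (hd : Dat p f g G) (hN : Nested c) (w₀ : ι) {W : Finset ι}
    (hW : W ⊆ cl' (c n) w₀) (x : ℝ) :
    ∑ j ∈ W, lamR p f g G c (n + 1) j x ≤ ∑ j ∈ cl' (c n) w₀, g j x :=
  (Finset.sum_le_sum_of_subset_of_nonneg hW fun j _ _ => (PB_lamR hd j).nonneg x).trans
    (sum_lamR_le_g hd hN w₀ x)

lemma lamR_le_sum_g (hd : Dat p f g G) (hN : Nested c) (w₀ : ι) (x : ℝ) :
    lamR p f g G c (n + 1) w₀ x ≤ ∑ j ∈ cl' (c n) w₀, g j x :=
  (Finset.single_le_sum (f := fun j => lamR p f g G c (n + 1) j x)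
    (fun j _ => (PB_lamR hd j).nonneg x) (self_mem_cl' _ _)).trans (sum_lamR_le_g hd hN w₀ x)

/-- absolute fibre parts of a class -/
lemma sum_abs_fib_le (hd : Dat p f g G) (hN : Nested c) (w₀ : ι) (x : ℝ) :
    ∑ j ∈ cl' (c n) w₀, |fib p f g G c (n + 1) j x| ≤ 2 * ∑ j ∈ cl' (c n) w₀, g j x := by
  calc ∑ j ∈ cl' (c n) w₀, |fib p f g G c (n + 1) j x|
      ≤ ∑ j ∈ cl' (c n) w₀, (g j x + lamR p f g G c (n + 1) j x) :=
        Finset.sum_le_sum fun j _ => abs_fib_le hd j x
    _ ≤ _ := by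
        rw [Finset.sum_add_distrib, two_mul]
        exact add_le_add le_rfl (sum_lamR_le_g hd hN w₀ x)

/-- the reductions of a class against the incumbents on the whole fibre -/
lemma sum_lamR_le_f (hd : Dat p f g G) (W : Finset ι) (x : ℝ) :
    ∑ j ∈ W, lamR p f g G c n j x ≤ ∑ j ∈ W, f j (p * x) :=
  Finset.sum_le_sum fun j _ => lamR_le hd j x

/-! ### norm inequality -/

/-- Jensen on the fibres -/
lemma Ep_sq_ge_sq {q : ℕ} (hq : 0 < q) (F : ℝ → ℝ) (y : ℝ) :
    (Ep q F y) ^ 2 ≤ Ep q (fun x => F x ^ 2) y := by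
  have hq' : (0 : ℝ) < q := by exact_mod_cast hq
  unfold Ep
  have h := Finset.sum_mul_sq_le_sq_mul_sq (Finset.range q)
    (fun _ : ℕ => (1 : ℝ)) (fun i : ℕ => F ((y + i) / q))
  simp only [one_mul, one_pow, Finset.sum_const, Finset.card_range, nsmul_eq_mul, mul_one] at h
  rw [div_pow, div_le_div_iff₀ (by positivity) hq']
  calc (∑ i ∈ Finset.range q, F ((y + i) / q)) ^ 2 * q
      ≤ (q * ∑ i ∈ Finset.range q, F ((y + i) / q) ^ 2) * q := by gcongr
    _ = _ := by ring

/-- abstract form: `F ≥ m + g`, `m` of mean `a` on the fibres -/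
lemma Ep_sq_ge_abs {q : ℕ} (hq : 0 < q) {F m g : ℝ → ℝ} (hm : ∀ x, 0 ≤ m x) (hg : ∀ x, 0 ≤ g x)
    (hF : ∀ x, m x + g x ≤ F x) (y : ℝ) :
    (Ep q m y) ^ 2 + Ep q (fun x => g x ^ 2) y ≤ Ep q (fun x => F x ^ 2) y := by
  have h1 := Ep_sq_ge_sq hq m y
  have h2 : Ep q (fun x => m x ^ 2 + g x ^ 2) y ≤ Ep q (fun x => F x ^ 2) y := by
    refine Ep_mono (fun x => ?_) y
    have a1 := hm x
    have a2 := hg x
    have a3 := hF x
    nlinarith [mul_nonneg a1 a2, mul_self_le_mul_self (add_nonneg a1 a2) a3]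
  rw [Ep_add] at h2
  linarith

/-- abstract norm inequality (groups): `I F² ≥ I (Ep m)² + I g²` -/
lemma I_sq_ge_abs {q : ℕ} (hq : 0 < q) {F m g : ℝ → ℝ} (hF' : PB F) (hm' : PB m) (hg' : PB g)
    (hF : ∀ x, m x + g x ≤ F x) :
    I (fun y => (Ep q m y) ^ 2) + I (fun x => g x ^ 2) ≤ I (fun x => F x ^ 2) := by
  have sq : ∀ {u : ℝ → ℝ}, PB u → PB fun x => u x ^ 2 := fun hu => by
    have := hu.mul hu
    simpa [pow_two] using this
  have hFs := sq hF'
  have hgs := sq hg'
  have hms := sq (hm'.Ep hq)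
  rw [← I_Ep hq hgs.integrableOn, ← I_Ep hq hFs.integrableOn,
    ← I_add hms.integrableOn (hgs.Ep hq).integrableOn]
  exact I_mono (hms.add (hgs.Ep hq)).integrableOn (hFs.Ep hq).integrableOn fun y =>
    Ep_sq_ge_abs hq hm'.nonneg hg'.nonneg hF y

/-- the incumbent part of a family of items -/
noncomputable def mp (p : ℕ) (f g G : ι → ℝ → ℝ) (c : ℕ → ι → κ) (n : ℕ) (j : ι) (x : ℝ) : ℝ :=
  mult p f g G c n j x * f j (p * x)

lemma PB_mp (hd : Dat p f g G) (j : ι) : PB (mp p f g G c n j) :=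
  (PB_mult hd j).mul ((hd.hf j).pull p)

lemma lamF_eq_mp (hd : Dat p f g G) (j : ι) (x : ℝ) :
    lamF p f g G c n j x = mp p f g G c n j x + g j x := lamF_eq_mult hd j x

lemma mp_le (hd : Dat p f g G) (j : ι) (x : ℝ) : mp p f g G c n j x ≤ f j (p * x) := by
  have h := mult_le_one (c := c) (n := n) hd j x
  have h0 := (hd.hf j).nonneg (p * x)
  unfold mp; nlinarith

/-- mean of the incumbent part -/
lemma Ep_mp (hd : Dat p f g G) (j : ι) (y : ℝ) :
    Ep p (mp p f g G c n j) y = (1 - 1 / (p : ℝ)) * f j y := by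
  have e : mp p f g G c n j = fun x => f j (p * x) * mult p f g G c n j x := by
    funext x; unfold mp; ring
  rw [e, Ep_pull_mul hd.hp (hd.hf j).per, Ep_mult hd]; ring

lemma Ep_sum {q : ℕ} {α : Type*} (s : Finset α) (F : α → ℝ → ℝ) (y : ℝ) :
    Ep q (fun x => ∑ i ∈ s, F i x) y = ∑ i ∈ s, Ep q (F i) y := by
  unfold Ep
  rw [Finset.sum_comm, Finset.sum_div]

/-- **norm inequality on the fibres**, any weighted family of items -/
theorem Ep_sq_ge (hd : Dat p f g G) (S : Finset ι) {a : ι → ℝ} (ha : ∀ j, 0 ≤ a j) (y : ℝ) :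
    ((1 - 1 / (p : ℝ)) * ∑ j ∈ S, a j * f j y) ^ 2 +
      Ep p (fun x => (∑ j ∈ S, a j * g j x) ^ 2) y ≤
    Ep p (fun x => (∑ j ∈ S, a j * lamF p f g G c n j x) ^ 2) y := by
  have h := Ep_sq_ge_abs hd.hp (F := fun x => ∑ j ∈ S, a j * lamF p f g G c n j x)
    (m := fun x => ∑ j ∈ S, a j * mp p f g G c n j x) (g := fun x => ∑ j ∈ S, a j * g j x)
    (fun x => Finset.sum_nonneg fun j _ => mul_nonneg (ha j) ((PB_mp hd j).nonneg x))
    (fun x => Finset.sum_nonneg fun j _ => mul_nonneg (ha j) ((hd.hg j).nonneg x))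
    (fun x => le_of_eq (by
      rw [← Finset.sum_add_distrib]
      exact Finset.sum_congr rfl fun j _ => by rw [lamF_eq_mp hd]; ring)) y
  have e : Ep p (fun x => ∑ j ∈ S, a j * mp p f g G c n j x) y =
      (1 - 1 / (p : ℝ)) * ∑ j ∈ S, a j * f j y := by
    rw [Ep_sum, Finset.mul_sum]
    refine Finset.sum_congr rfl fun j _ => ?_
    rw [Ep_smul, Ep_mp hd]; ring
  rw [e] at h
  exact h

/-- **norm inequality**: `I (Σ v)² ≥ (1 - w)² I (Σ f)² + I (Σ g)²` for every weighted family -/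
theorem I_sq_lamF_ge (hd : Dat p f g G) (S : Finset ι) {a : ι → ℝ} (ha : ∀ j, 0 ≤ a j) :
    (1 - 1 / (p : ℝ)) ^ 2 * I (fun y => (∑ j ∈ S, a j * f j y) ^ 2) +
      I (fun x => (∑ j ∈ S, a j * g j x) ^ 2) ≤
    I (fun x => (∑ j ∈ S, a j * lamF p f g G c n j x) ^ 2) := by
  have pbs : ∀ {u : ι → ℝ → ℝ}, (∀ j, PB (u j)) → PB fun x => ∑ j ∈ S, a j * u j x :=
    fun hu => PB.sum _ fun j _ => (hu j).smul (ha j)
  have h := I_sq_ge_abs hd.hp (pbs fun j => PB_lamF (c := c) (n := n) hd j)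
    (pbs fun j => PB_mp (c := c) (n := n) hd j) (pbs hd.hg)
    (fun x => le_of_eq (by
      rw [← Finset.sum_add_distrib]
      exact Finset.sum_congr rfl fun j _ => by rw [lamF_eq_mp hd]; ring))
  have e : (fun y => Ep p (fun x => ∑ j ∈ S, a j * mp p f g G c n j x) y ^ 2) = fun y =>
      (1 - 1 / (p : ℝ)) ^ 2 * (∑ j ∈ S, a j * f j y) ^ 2 := by
    funext y
    rw [Ep_sum]
    have : ∑ j ∈ S, Ep p (fun x => a j * mp p f g G c n j x) y =
        (1 - 1 / (p : ℝ)) * ∑ j ∈ S, a j * f j y := by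
      rw [Finset.mul_sum]
      refine Finset.sum_congr rfl fun j _ => ?_
      rw [Ep_smul, Ep_mp hd]; ring
    rw [this]; ring
  rw [e, I_smul] at h
  exact h

/-! ### removal, unmatched challengers -/

/-- the removal which is constant on the fibres -/
noncomputable def unif (p : ℕ) (f g G : ι → ℝ → ℝ) (c : ℕ → ι → κ) (n : ℕ) (j : ι) (y : ℝ) : ℝ :=
  f j y / p - Ep p (lamR p f g G c n j) y

lemma unif_nonneg (hd : Dat p f g G) (j : ι) (y : ℝ) : 0 ≤ unif p f g G c n j y := by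
  unfold unif; linarith [Ep_lamR_le (c := c) (n := n) hd j y]

lemma unif_le (hd : Dat p f g G) (j : ι) (y : ℝ) : unif p f g G c n j y ≤ f j y / p := by
  unfold unif; linarith [Ep_nonneg (p := p) (PB_lamR (c := c) (n := n) hd j).nonneg y]

/-- **the removal = matched part + part which is constant on the fibres** -/
lemma removal (hd : Dat p f g G) (j : ι) (x : ℝ) :
    f j (p * x) + g j x - lamF p f g G c n j x =
      lamR p f g G c n j x + unif p f g G c n j (p * x) := by
  unfold unif lamF; ring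

/-- incumbent part in terms of the reduction -/
lemma mp_eq (hd : Dat p f g G) (j : ι) (x : ℝ) :
    mp p f g G c n j x = apt p f g G c n j (p * x) - lamR p f g G c n j x := by
  have h := lamF_eq_mp (c := c) (n := n) hd j x
  rw [lamF_eq, fib] at h
  linarith

/-- covariance of the incumbent parts of two families = covariance of the reductions -/
lemma Ep_mp_mul {ι' κ' : Type*} [Fintype ι'] [DecidableEq κ'] {f' g' G' : ι' → ℝ → ℝ}
    {c' : ℕ → ι' → κ'} {n' : ℕ} (hd : Dat p f g G) (hd' : Dat p f' g' G') (j : ι) (j' : ι')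
    (y : ℝ) :
    Ep p (fun x => mp p f g G c n j x * mp p f' g' G' c' n' j' x) y =
      ((1 - 1 / (p : ℝ)) * f j y) * ((1 - 1 / (p : ℝ)) * f' j' y) +
        (Ep p (fun x => lamR p f g G c n j x * lamR p f' g' G' c' n' j' x) y -
          Ep p (lamR p f g G c n j) y * Ep p (lamR p f' g' G' c' n' j') y) := by
  have e : (fun x => mp p f g G c n j x * mp p f' g' G' c' n' j' x) = fun x =>
      (apt p f g G c n j (p * x) + (-1) * lamR p f g G c n j x) *
        (apt p f' g' G' c' n' j' (p * x) + (-1) * lamR p f' g' G' c' n' j' x) := by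
    funext x; rw [mp_eq hd, mp_eq hd']; ring
  rw [e, Ep_mul_cov (H := fun x => (-1) * lamR p f g G c n j x)
    (H' := fun x => (-1) * lamR p f' g' G' c' n' j' x) hd.hp (PB_apt hd j).per (PB_apt hd' j').per,
    Ep_smul, Ep_smul]
  have e2 : (fun x => (-1 : ℝ) * lamR p f g G c n j x * ((-1) * lamR p f' g' G' c' n' j' x)) =
      fun x => lamR p f g G c n j x * lamR p f' g' G' c' n' j' x := by funext x; ring
  rw [e2]
  unfold apt
  ring

/-- unmatched part of the challenger `j` -/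
noncomputable def um (p : ℕ) (f g G : ι → ℝ → ℝ) (c : ℕ → ι → κ) (n : ℕ) (j : ι) (x : ℝ) : ℝ :=
  (Crest.Agent.R4.Lam368.st p f g G c n).t j (p * x) * g j x

lemma um_nonneg (hd : Dat p f g G) (j : ι) (x : ℝ) : 0 ≤ um p f g G c n j x :=
  mul_nonneg (((good_st hd n).t j).nonneg _) ((hd.hg j).nonneg x)

lemma um_le (hd : Dat p f g G) (j : ι) (x : ℝ) : um p f g G c n j x ≤ g j x := by
  have h1 := (good_st (c := c) hd n).t1 j (p * x)
  have h2 := (hd.hg j).nonneg x
  unfold um; nlinarith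

lemma PB_um (hd : Dat p f g G) (j : ι) : PB (um p f g G c n j) :=
  (((good_st hd n).t j).pull p).mul (hd.hg j)

/-- **the unmatched challengers of a top class, item by item** -/
theorem DW_eq_um (hd : Dat p f g G) (hN : Nested c) (w₀ : ι) (x : ℝ) :
    DW p f g G c (n + 1) (cl' (c n) w₀) x = ∑ j ∈ cl' (c n) w₀, um p f g G c (n + 1) j x := by
  have hi : Int p g (st p f g G c (n + 1)) (cl' (c n) w₀) :=
    int_st hd fun j hj => hN.sat (Nat.lt_succ_iff.1 hj) w₀
  have h := hi x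
  have e : RW p f g G c (n + 1) (cl' (c n) w₀) x =
      ∑ w ∈ cl' (c n) w₀, (st p f g G c (n + 1)).R w x := rfl
  unfold DW fW
  rw [e, h, ← Finset.sum_sub_distrib]
  exact Finset.sum_congr rfl fun j _ => by unfold um; ring

/-- matched challengers of a top class = reductions of the class -/
lemma sum_matched (hd : Dat p f g G) (hN : Nested c) (w₀ : ι) (x : ℝ) :
    ∑ j ∈ cl' (c n) w₀, (g j x - um p f g G c (n + 1) j x) =
      ∑ j ∈ cl' (c n) w₀, lamR p f g G c (n + 1) j x := by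
  have h := DW_eq_um (n := n) hd hN w₀ x
  rw [Finset.sum_sub_distrib, ← h]
  unfold DW fW RW
  ring

/-- for any partition `r` with the same classes as the top level -/
lemma clz_DW {κ₁ : Type*} [DecidableEq κ₁] (hd : Dat p f g G) (hN : Nested c) {r : ι → κ₁}
    (htop : ∀ w w', c n w = c n w' ↔ r w = r w') (a : κ₁) (x : ℝ) :
    DW p f g G c (n + 1) (clz r a) x = ∑ j ∈ clz r a, um p f g G c (n + 1) j x := by
  rcases (clz r a).eq_empty_or_nonempty with h0 | ⟨w₀, hw⟩
  · rw [h0]; simp [DW, fW, RW]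
  · have hw' : r w₀ = a := (Finset.mem_filter.1 hw).2
    have e : clz r a = cl' (c n) w₀ := by
      ext w
      rw [mem_cl', htop w w₀, hw']
      simp [clz]
    rw [e]
    exact DW_eq_um hd hN w₀ x

end

end Crest.Agent.R4P.ColCov9
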