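import Crest.Agent.R4P.LeafCtx_28
import Crest.Agent.R4P.TBLeaf_28

/-!
R4 (S0004), powers, module D, helper28: **ties of one side at a prime of the rest of a leaf item**.

* `Nc p c f` : `f ≤ c E_p f` on the fibres of `x ↦ p x`; stable under averages over `M` coprime to `p`;
* `Nc_pc` : pieces whose weight satisfies `NcW`; `NcW_nw` : product weights with an exclusion of one
  class at `p` (or no weight at `p`), `c = (1 - 1/p)⁻¹`;
* `os_tie'` : the one-sided error of a tie `p` of the right side is at most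
  `(c - 1) / p` times the energy of the missing child and the left side averaged over `p`;
* `ctx_Nc` : the leaf functions of a context, primes below the level.
-/

set_option autoImplicit false
set_option linter.unusedSectionVars false
set_option linter.unusedVariables false
open MeasureTheory
open Finset hiding dens

namespace Crest.Agent.R4P.LeafTie28

open Crest.Agent.R4.Tour104 Crest.Agent.R4.Tour758 Crest.Agent.R4.Avg758 Crest.Agent.R4.Clos758
open Crest.Agent.R4.ClosL758 Crest.Agent.R4.ClosG758 Crest.Agent.R4.ClosR758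
open Crest.Agent.R4.Fam464 Crest.Agent.R4P.Cnt588 Crest.Agent.R4P.Walk560 Crest.Agent.R4.Piece464
open Crest.Agent.R4.Ovl560 (LW nw nw_nonneg nw_add exw dens dens_pos dens_mono)
open Crest.Agent.R4P.Item758 Crest.Agent.R4P.AvgItem710 Crest.Agent.R4P.CrossLoc25
open Crest.Agent.R4P.LeafFam28

/-! ### functions which are nearly constant on the `p`-fibres -/

/-- `f ≤ c E_p f` on the fibres -/
def Nc (p : ℕ) (c : ℝ) (f : ℝ → ℝ) : Prop := ∀ x, f x ≤ c * Ep p f (p * x)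

lemma Nc.zero {p : ℕ} (hp : 0 < p) (c : ℝ) : Nc p c fun _ => 0 := fun x => by
  rw [Ep_const hp]; simp

lemma Nc.add {p : ℕ} {c : ℝ} {f g : ℝ → ℝ} (h : Nc p c f) (h' : Nc p c g) :
    Nc p c fun x => f x + g x := fun x => by
  rw [Ep_add, mul_add]; exact add_le_add (h x) (h' x)

lemma Nc.sum {p : ℕ} (hp : 0 < p) {c : ℝ} {ι : Type*} (s : Finset ι) {f : ι → ℝ → ℝ}
    (h : ∀ i ∈ s, Nc p c (f i)) : Nc p c fun x => ∑ i ∈ s, f i x := by
  classical
  induction s using Finset.induction_on with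
  | empty => simpa using Nc.zero hp c
  | insert a s ha ih =>
    have h1 := (h a (Finset.mem_insert_self _ _)).add
      (ih fun i hi => h i (Finset.mem_insert_of_mem hi))
    have e : (fun x => ∑ i ∈ insert a s, f i x) = fun x => f a x + ∑ i ∈ s, f i x :=
      funext fun x => Finset.sum_insert ha
    rw [e]; exact h1

/-- averages over moduli coprime to `p` -/
lemma Nc.avg {p M : ℕ} (hp : 0 < p) (hM : 0 < M) (hc : Nat.Coprime p M) {c : ℝ} {f : ℝ → ℝ}
    (hf : ∀ x, f (x + 1) = f x) (h : Nc p c f) : Nc p c (Ep M f) := fun x => by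
  have h1 : Ep M f x ≤ Ep M (fun z => c * Ep p f (p * z)) x := Ep_mono h x
  refine h1.trans (le_of_eq ?_)
  rw [Ep_smul, Ep_comm hp hM]
  congr 1
  exact Ep_pull_coprime hM hc (Ep_per hp hf) x

/-- energy of a function which is nearly constant on the fibres -/
lemma Nc.I_le {p : ℕ} (hp : 0 < p) {c : ℝ} (hc : 0 ≤ c) {G f : ℝ → ℝ} (hG : PB G) (hf : PB f)
    (h : Nc p c f) : I (fun x => G x * f x) ≤ c * I (fun y => Ep p G y * Ep p f y) := by
  have hE := hf.Ep hp
  have h1 : I (fun x => G x * f x) ≤ I (fun x => c * (Ep p f (p * x) * G x)) := by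
    refine I_mono (hG.mul hf).integrableOn (((hE.pull p).mul hG).smul hc).integrableOn fun x => ?_
    have := mul_le_mul_of_nonneg_left (h x) (hG.nonneg x)
    linarith
  refine h1.trans (le_of_eq ?_)
  rw [I_smul, push_left hp hE hG]
  congr 2
  funext y
  exact mul_comm _ _

/-- the one-sided error -/
lemma os_le_Nc {μ : Type*} {R : Finset (μ × μ)} {p : ℕ} (hp : 0 < p) {c : ℝ} (hc : 0 ≤ c)
    {G F : μ → ℝ → ℝ} (hG : ∀ j, PB (G j)) (hF : ∀ j, PB (F j)) (h : ∀ j, Nc p c (F j)) :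
    os R p G F ≤ (c - 1) * Q R (fun j => Ep p (G j)) (fun j => Ep p (F j)) := by
  unfold os Q
  rw [Finset.mul_sum]
  refine Finset.sum_le_sum fun e _ => ?_
  have := (h e.2).I_le hp hc (hG e.1) (hF e.2)
  linarith

/-! ### pieces -/

/-- the weight is nearly constant on the classes modulo `p` -/
def NcW (p w : ℕ) (c : ℝ) (κ : ℤ → ℝ) : Prop :=
  ∀ a, κ a ≤ c * ((∑ k ∈ Finset.range p, κ (a + (w / p : ℕ) * k)) / p)

lemma pc_shift {θ α β : ℝ} {p w : ℕ} (hp : 0 < p) (hpw : p ∣ w) (κ : ℤ → ℝ) (x : ℝ) (k : ℕ) :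
    pc θ α β w κ (x + k / p) = pc θ α β w (fun a => κ (a + (w / p : ℕ) * k)) x := by
  obtain ⟨v, rfl⟩ := hpw
  have hp' : (p : ℝ) ≠ 0 := by exact_mod_cast hp.ne'
  rw [Nat.mul_div_cancel_left _ hp]
  have e1 : ((p * v : ℕ) : ℝ) * (x + k / p) = ((p * v : ℕ) : ℝ) * x + ((v * k : ℤ) : ℝ) := by
    push_cast; field_simp
  unfold pc
  have e2 : ∀ δ : ℝ, ⌊((p * v : ℕ) : ℝ) * (x + k / p) - θ - δ⌋ =
      ⌊((p * v : ℕ) : ℝ) * x - θ - δ⌋ + (v * k : ℤ) := by
    intro δ
    rw [e1, show ((p * v : ℕ) : ℝ) * x + ((v * k : ℤ) : ℝ) - θ - δ =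
      (((p * v : ℕ) : ℝ) * x - θ - δ) + ((v * k : ℤ) : ℝ) by ring, Int.floor_add_intCast]
  rw [e2, e2]
  refine (Finset.sum_nbij' (fun a => a + (v * k : ℤ)) (fun a => a - (v * k : ℤ)) ?_ ?_ ?_ ?_ ?_).symm
  · intro a ha
    rw [Finset.mem_Ioc] at ha ⊢
    constructor <;> linarith [ha.1, ha.2]
  · intro a ha
    rw [Finset.mem_Ioc] at ha ⊢
    constructor <;> linarith [ha.1, ha.2]
  · intro a _; ring
  · intro a _; ring
  · intro a _; rfl

lemma Nc_pc {θ α β : ℝ} {p w : ℕ} (hp : 0 < p) (hpw : p ∣ w) {c : ℝ} {κ : ℤ → ℝ}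
    (h : NcW p w c κ) : Nc p c (pc θ α β w κ) := fun x => by
  have hp' : (p : ℝ) ≠ 0 := by exact_mod_cast hp.ne'
  have e : Ep p (pc θ α β w κ) (p * x) =
      pc θ α β w (fun a => (∑ k ∈ Finset.range p, κ (a + (w / p : ℕ) * k)) / p) x := by
    unfold Ep
    have e1 : ∀ k ∈ Finset.range p, pc θ α β w κ ((p * x + k) / p) =
        pc θ α β w (fun a => κ (a + (w / p : ℕ) * k)) x := fun k _ => by
      rw [← pc_shift hp hpw]
      congr 1
      field_simp
    rw [Finset.sum_congr rfl e1]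
    unfold pc
    rw [Finset.sum_comm, Finset.sum_div]
  rw [e, ← AwNw28.pc_smul]
  exact AwNw28.pc_mono_wt (fun a => h a) x

lemma NcW.smul {p w : ℕ} {c : ℝ} {κ : ℤ → ℝ} (h : NcW p w c κ) {K : ℝ} (hK : 0 ≤ K) :
    NcW p w c fun a => K * κ a := fun a => by
  have h1 := mul_le_mul_of_nonneg_left (h a) hK
  refine h1.trans (le_of_eq ?_)
  rw [← Finset.mul_sum]
  ring

lemma NcW.zero {p w : ℕ} {c : ℝ} : NcW p w c fun _ => 0 := fun a => by simp

/-- periods -/
lemma per_add_mul {p : ℕ} {f : ℤ → ℝ} (h : ∀ a, f (a + p) = f a) (a t : ℤ) :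
    f (a + p * t) = f a := by
  have hper : Function.Periodic f (p : ℤ) := h
  have := hper.int_mul t a
  simpa [mul_comm] using this

/-- sums over a complete system of classes -/
lemma sum_classes {p m : ℕ} (hp : p.Prime) (hm : ¬ p ∣ m) {f : ℤ → ℝ} (h : ∀ a, f (a + p) = f a)
    (a : ℤ) : ∑ k ∈ Finset.range p, f (a + m * k) = ∑ k ∈ Finset.range p, f k := by
  have hp0 : (0 : ℤ) < p := by exact_mod_cast hp.pos
  have hcong : ∀ x y : ℤ, x ≡ y [ZMOD p] → f x = f y := by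
    intro x y hxy
    obtain ⟨t, ht⟩ := hxy.dvd
    have : y = x + p * t := by linarith
    rw [this, per_add_mul h]
  refine Finset.sum_bij (fun k _ => ((a + m * k) % p).toNat) ?_ ?_ ?_ ?_
  · intro k _
    rw [Finset.mem_range]
    have h1 := Int.emod_nonneg (a + m * k) hp0.ne'
    have h2 := Int.emod_lt_of_pos (a + m * k) hp0
    omega
  · intro k hk k' hk' he
    have h1 := Int.emod_nonneg (a + m * k) hp0.ne'
    have h1' := Int.emod_nonneg (a + m * k') hp0.ne'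
    have he' : (a + m * k) % p = (a + m * k') % p := by omega
    have h3 : (a + m * k : ℤ) ≡ a + m * k' [ZMOD p] := he'
    have h4 : (m * k : ℤ) ≡ m * k' [ZMOD p] := Int.ModEq.add_left_cancel' a h3
    have hc : IsCoprime (m : ℤ) p := by
      refine ((Nat.prime_iff_prime_int.1 hp).coprime_iff_not_dvd.2 ?_).symm
      intro hd; exact hm (by exact_mod_cast hd)
    have h5 : (p : ℤ) ∣ (k' : ℤ) - k := by
      have h6 : (p : ℤ) ∣ m * k' - m * k := h4.dvd
      rw [← mul_sub] at h6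
      exact hc.symm.dvd_of_dvd_mul_left h6
    rw [Finset.mem_range] at hk hk'
    obtain ⟨t, ht⟩ := h5
    have h7 : (k' : ℤ) - k < p := by omega
    have h8 : -(p : ℤ) < (k' : ℤ) - k := by omega
    rw [ht] at h7 h8
    have h9 : t < 1 := by nlinarith
    have h10 : -1 < t := by nlinarith
    have h11 : t = 0 := by omega
    rw [h11] at ht
    omega
  · intro n hn
    rw [Finset.mem_range] at hn
    have hc : IsCoprime (m : ℤ) p := by
      refine ((Nat.prime_iff_prime_int.1 hp).coprime_iff_not_dvd.2 ?_).symm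
      intro hd; exact hm (by exact_mod_cast hd)
    obtain ⟨u, v, huv⟩ := hc
    have h1 := Int.emod_nonneg (u * (n - a)) hp0.ne'
    have h2 := Int.emod_lt_of_pos (u * (n - a)) hp0
    refine ⟨((u * (n - a)) % p).toNat, ?_, ?_⟩
    · rw [Finset.mem_range]; omega
    · have e1 : (((u * (n - a)) % p).toNat : ℤ) = (u * (n - a)) % p := Int.toNat_of_nonneg h1
      rw [e1]
      have e2 : (a + m * ((u * (n - a)) % p)) ≡ n [ZMOD p] := by
        have e3 : (u * ((n : ℤ) - a)) % p ≡ u * (n - a) [ZMOD p] := Int.mod_modEq _ _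
        have e4 : (m : ℤ) * ((u * ((n : ℤ) - a)) % p) ≡ m * (u * (n - a)) [ZMOD p] :=
          e3.mul_left m
        have e5 : (m : ℤ) * (u * (n - a)) ≡ n - a [ZMOD p] := by
          refine Int.modEq_iff_dvd.2 ⟨v * (n - a), ?_⟩
          linear_combination (a - n) * huv
        have e6 := (e4.trans e5).add_left a
        have e7 : a + ((n : ℤ) - a) = n := by ring
        rw [e7] at e6
        exact e6
      have e8 : (a + m * ((u * (n - a)) % p)) % p = (n : ℤ) % p := e2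
      rw [e8, Int.emod_eq_of_lt (by positivity) (by exact_mod_cast hn)]
      exact Int.toNat_natCast n
  · intro k _
    refine hcong _ _ ?_
    have h1 := Int.emod_nonneg (a + m * k) hp0.ne'
    rw [Int.toNat_of_nonneg h1]
    exact (Int.mod_modEq _ _).symm

/-- **product weights** -/
theorem NcW_nw {p w : ℕ} (hp : p.Prime) (hpw : p ∣ w) {P : Finset ℕ} (hP : ∀ l ∈ P, l.Prime)
    (hPw : ∀ l ∈ P, l ∣ w) {u : ℕ → ℤ → ℝ} (hu : LW P u) (hx : p ∈ P → ExF p (u p)) :
    NcW p w (1 - 1 / (p : ℝ))⁻¹ (nw P u) := by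
  classical
  intro a
  have hp1 : (1 : ℝ) < p := by exact_mod_cast hp.one_lt
  have hp0 : (0 : ℝ) < p := by linarith
  have hd : 0 < 1 - 1 / (p : ℝ) := by
    rw [sub_pos, div_lt_one hp0]; exact hp1
  have hd1 : 1 - 1 / (p : ℝ) ≤ 1 := by
    have : 0 ≤ 1 / (p : ℝ) := by positivity
    linarith
  set v := w / p with hv
  have hvw : w = p * v := (Nat.mul_div_cancel' hpw).symm
  have hlv : ∀ l ∈ P, l ≠ p → l ∣ v := by
    intro l hl hlp
    have h1 := hPw l hl
    rw [hvw] at h1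
    exact (((Nat.coprime_primes (hP l hl) hp).2 hlp).dvd_of_dvd_mul_left h1)
  have hone : ∀ l ∈ P, l ≠ p → ∀ k : ℕ, u l (a + v * k) = u l a := by
    intro l hl hlp k
    obtain ⟨s, hs⟩ := hlv l hl hlp
    rw [hs]
    push_cast
    rw [mul_assoc]
    exact hu.add_mul hl a _
  have hinv : 1 ≤ (1 - 1 / (p : ℝ))⁻¹ := by
    rw [one_le_inv₀ hd]; exact hd1
  by_cases hpP : p ∈ P
  · set P' := P.erase p with hP'
    have hsplit : ∀ b : ℤ, nw P u b = u p b * nw P' u b := fun b => by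
      unfold nw; exact (Finset.mul_prod_erase P (fun l => u l b) hpP).symm
    have hconst : ∀ k : ℕ, nw P' u (a + v * k) = nw P' u a := fun k => by
      unfold nw
      exact Finset.prod_congr rfl fun l hl =>
        hone l (Finset.mem_of_mem_erase hl) (Finset.ne_of_mem_erase hl) k
    have hn : 0 ≤ nw P' u a := by
      unfold nw
      exact Finset.prod_nonneg fun l hl => (hu l (Finset.mem_of_mem_erase hl)).1 a
    have hsum : ∑ k ∈ Finset.range p, nw P u (a + v * k) =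
        (∑ k ∈ Finset.range p, u p (a + v * k)) * nw P' u a := by
      rw [Finset.sum_mul]
      exact Finset.sum_congr rfl fun k _ => by rw [hsplit, hconst]
    rw [hsum, hsplit]
    have hE := hx hpP
    by_cases hpv : p ∣ v
    · have h1 : ∀ k ∈ Finset.range p, u p (a + v * k) = u p a := by
        intro k _
        obtain ⟨s, hs⟩ := hpv
        rw [hs]
        push_cast
        rw [mul_assoc]
        exact hu.add_mul hpP a _
      rw [Finset.sum_congr rfl h1, Finset.sum_const, Finset.card_range, nsmul_eq_mul]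
      have e : (1 - 1 / (p : ℝ))⁻¹ * (p * u p a * nw P' u a / p) =
          (1 - 1 / (p : ℝ))⁻¹ * (u p a * nw P' u a) := by field_simp
      rw [e]
      exact le_mul_of_one_le_left (mul_nonneg (hE.nonneg hp a) hn) hinv
    · have h1 : ∑ k ∈ Finset.range p, u p (a + v * k) = ∑ k ∈ Finset.range p, u p k :=
        sum_classes hp hpv hE.per a
      have h2 : (∑ k ∈ Finset.range p, u p (k : ℤ)) / p = 1 - 1 / (p : ℝ) := hE.mn hp
      have h3 : ∑ k ∈ Finset.range p, u p (k : ℤ) = (1 - 1 / (p : ℝ)) * p := by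
        rw [← h2]; field_simp
      rw [h1, h3]
      have hgen : ∀ c' : ℝ, c' ≠ 0 → c'⁻¹ * (c' * p * nw P' u a / p) = nw P' u a :=
        fun c' hc' => by field_simp
      rw [hgen _ hd.ne']
      exact mul_le_of_le_one_left hn (hE.le_one a)
  · have hconst : ∀ k ∈ Finset.range p, nw P u (a + v * k) = nw P u a := fun k _ => by
      unfold nw
      exact Finset.prod_congr rfl fun l hl => hone l hl (fun h => hpP (h ▸ hl)) k
    rw [Finset.sum_congr rfl hconst, Finset.sum_const, Finset.card_range, nsmul_eq_mul]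
    have e : (1 - 1 / (p : ℝ))⁻¹ * (p * nw P u a / p) = (1 - 1 / (p : ℝ))⁻¹ * nw P u a := by
      field_simp
    rw [e]
    exact le_mul_of_one_le_left (nw_nonneg hu a) hinv

lemma Nc.smul {p : ℕ} {c k : ℝ} (hk : 0 ≤ k) {f : ℝ → ℝ} (h : Nc p c f) :
    Nc p c fun x => k * f x := fun x => by
  rw [Ep_smul]
  have := mul_le_mul_of_nonneg_left (h x) hk
  linarith

open Classical in
/-- **averaged product weights** (any modulus `M`) -/
theorem NcW_aw {p w M : ℕ} (hp : p.Prime) (hM : 0 < M) (hpw : p ∣ w / M.gcd w) {P : Finset ℕ}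
    (hP : ∀ l ∈ P, l.Prime) (hPw : ∀ l ∈ P, l ∣ w) {u : ℕ → ℤ → ℝ} (hu : LW P u)
    (hx : p ∈ P → ExF p (u p)) :
    NcW p (w / M.gcd w) (1 - 1 / (p : ℝ))⁻¹ (aw w M (nw P u)) := by
  have e : aw w M (nw P u) = fun a =>
      (∏ p ∈ P.filter (fun p => ¬ p ∣ w / M.gcd w), Crest.Agent.R4.Item464.mn u p) *
      nw (P.filter (fun p => p ∣ w / M.gcd w)) (AwNw28.ru w M u) a :=
    funext fun a => AwNw28.aw_nw hM hu hP hPw a
  rw [e]
  have hc : Nat.Coprime (rf w M) (w / M.gcd w) := by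
    unfold rf
    exact Nat.coprime_div_gcd_div_gcd (gcd_pos' hM)
  refine NcW.smul (NcW_nw hp hpw (fun l hl => hP l (Finset.mem_filter.1 hl).1)
    (fun l hl => (Finset.mem_filter.1 hl).2)
    (AwNw28.ru_LW (fun l hl => hu l (Finset.mem_filter.1 hl).1) w M) fun hpP => ?_)
    (Finset.prod_nonneg fun l hl => ?_)
  · have h1 := hx (Finset.mem_filter.1 hpP).1
    exact h1.comp_mul hp (gcdA_not_dvd hp hc hpw)
  · unfold Crest.Agent.R4.Item464.mn
    exact div_nonneg (Finset.sum_nonneg fun k _ => (hu l (Finset.mem_filter.1 hl).1).1 _)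
      (Nat.cast_nonneg _)

/-- **averaged pieces** (any modulus `M`) -/
theorem Nc_Ep_pc {p w M : ℕ} (hp : p.Prime) (hM : 0 < M) (hpw : p ∣ w / M.gcd w) {P : Finset ℕ}
    (hP : ∀ l ∈ P, l.Prime) (hPw : ∀ l ∈ P, l ∣ w) {u : ℕ → ℤ → ℝ} (hu : LW P u)
    (hx : p ∈ P → ExF p (u p)) (θ α β : ℝ) :
    Nc p (1 - 1 / (p : ℝ))⁻¹ (Ep M (pc θ α β w (nw P u))) := by
  have hW : Wt w (nw P u) := ⟨fun a => nw_nonneg hu a, fun a => by
    have := nw_add hu (q := w) hPw a 1
    rwa [mul_one] at this⟩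
  have e : Ep M (pc θ α β w (nw P u)) = fun y => 1 / (rf w M : ℝ) *
      pc (rf w M * θ) (rf w M * α) (rf w M * β) (w / M.gcd w) (aw w M (nw P u)) y :=
    funext fun y => Ep_pc hM hW y
  rw [e]
  exact (Nc_pc hp.pos hpw (NcW_aw hp hM hpw hP hPw hu hx)).smul (by positivity)

/-! ### the one-sided error of a tie -/

section tie
variable {Λ κ : Type*} [Fintype Λ] [DecidableEq Λ] [Fintype κ] [DecidableEq κ] [WRel κ]
variable {D : Par Λ κ} {sp : ℕ → Finset Λ} {M M' b pr b' pr' p : ℕ} {S S' : Finset ℕ}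
  {τ t₁ t₀ : IT} {A A' : Finset Λ} {d d' : DT Λ κ}

lemma Nc_uA' {t : IT} {c : ℝ} (hp : 0 < p) (hM : 0 < M)
    (h : ∀ j ∈ A, Nc p c (Ep M ((D.toFT b pr t).U 1 j))) (j : Λ) : Nc p c (D.uA M b pr t A 1 j) := by
  unfold Par.uA avg
  by_cases hj : j ∈ A
  · rw [rv_of_mem hj]
    exact h j hj
  · rw [rv_of_not_mem hj]
    have e : Ep M (fun _ : ℝ => (0 : ℝ)) = fun _ => 0 := funext fun y => Ep_const hM 0 y
    rw [e]
    exact Nc.zero hp c

/-- **the one-sided error of a tie on the right**, left side (any population) nearly constant on the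
`p`-fibres -/
theorem os_tieU' (hb : 0 < b) (hF : Fit b pr τ) (hW : D.Wts pr τ)
    (h' : SideI D sp b' pr' (.br p S' t₁ t₀) A' d')
    (hM : 0 < M) (hM' : 0 < M') {c : ℝ} (hc : 1 ≤ c)
    (hN : ∀ j ∈ A, Nc p c (Ep M ((D.toFT b pr τ).U 1 j))) :
    os (orel κ) p (avg M' (rk A' (D.rho p) (GD D b' pr' p t₁ t₀)))
      (sm (D.rho p) (D.uA M b pr τ A 1)) ≤
    (c - 1) * (1 / p * Q (Ro (D.rho p)) (D.uA (p * M) b pr τ A 1)
      (D.uA M' (b' * p) pr' t₀ A' 1)) := by
  have hp0 : 0 < p := h'.hF.1.pos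
  have hpR : (0 : ℝ) < p := by exact_mod_cast hp0
  show os (orel κ) p (avg M' (rk A' (D.rho p) (GD D b' pr' p t₁ t₀)))
      (sm (D.rho p) (avg M (rv A fun j => (D.toFT b pr τ).U 1 j))) ≤ _
  have pF : ∀ j, PB (avg M (rv A fun j => (D.toFT b pr τ).U 1 j) j) := fun j =>
    PB_uA hM hb hF hW (one_dvd _) j
  have pG : ∀ a, PB (avg M' (rk A' (D.rho p) (GD D b' pr' p t₁ t₀)) a) :=
    PB_avg hM' (PB_rk h'.pb_G)
  have nF : ∀ a, Nc p c (sm (D.rho p) (avg M (rv A fun j => (D.toFT b pr τ).U 1 j)) a) := by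
    intro a
    unfold sm
    exact Nc.sum hp0 _ fun j _ => Nc_uA' hp0 hM hN j
  refine (os_le_Nc hp0 (by linarith) pG (PB_sm pF (D.rho p)) nF).trans ?_
  refine mul_le_mul_of_nonneg_left ?_ (by linarith)
  -- the averages
  have hpM0 : 0 < p * M := Nat.mul_pos hp0 hM
  have pU0 : ∀ j, PB (D.uA M' (b' * p) pr' t₀ A' 1 j) := fun j =>
    PB_uA hM' h'.br₀.hb h'.br₀.hF h'.br₀.hW (one_dvd _) j
  have pUM : ∀ j, PB (D.uA (p * M) b pr τ A 1 j) := fun j =>
    PB_uA hpM0 hb hF hW (one_dvd _) j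
  have eF : (fun a => Ep p (sm (D.rho p) (avg M (rv A fun j => (D.toFT b pr τ).U 1 j)) a)) =
      sm (D.rho p) (D.uA (p * M) b pr τ A 1) := by
    funext a
    unfold Par.uA
    rw [sm_avg, sm_avg]
    exact funext fun y => Ep_mul hp0 hM y
  have hlift : ∀ (j : Λ) (y : ℝ), Ep p ((D.toFT (b' * p) pr' t₀).U p j) y =
      (D.toFT (b' * p) pr' t₀).U 1 j y / p := by
    intro j y
    have h1 := (FT.main (D.toFT (b' * p) pr' t₀) (b' * p) h'.br₀.hb
      (D.toFT_Adm _ _ _ h'.br₀.hb h'.br₀.hF h'.br₀.hW)).2 1 p (by rw [one_mul]; exact Dvd.intro_left b' rfl) j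
    rw [one_mul] at h1
    exact h1.Ep y
  have hG : ∀ a y, Ep p (avg M' (rk A' (D.rho p) (GD D b' pr' p t₁ t₀)) a) y ≤
      1 / p * sm (D.rho p) (D.uA M' (b' * p) pr' t₀ A' 1) a y := by
    intro a y
    unfold avg
    have h1 : ∀ x, rk A' (D.rho p) (GD D b' pr' p t₁ t₀) a x ≤
        sm (D.rho p) (rv A' fun j => (D.toFT (b' * p) pr' t₀).U p j) a x := by
      intro x
      rw [sm_rv h'.sat_br]
      exact rk_mono h'.G_le a x
    refine (Ep_mono (fun x => Ep_mono h1 x) y).trans (le_of_eq ?_)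
    rw [Ep_comm hp0 hM']
    have h2 : (fun x => Ep p (sm (D.rho p) (rv A' fun j => (D.toFT (b' * p) pr' t₀).U p j) a) x) =
        fun x => 1 / p * sm (D.rho p) (rv A' fun j => (D.toFT (b' * p) pr' t₀).U 1 j) a x := by
      funext x
      rw [← sm_avg]
      unfold sm
      rw [Finset.mul_sum]
      refine Finset.sum_congr rfl fun j _ => ?_
      unfold avg
      by_cases hj : j ∈ A'
      · rw [rv_of_mem hj, rv_of_mem hj, hlift]; ring
      · rw [rv_of_not_mem hj, rv_of_not_mem hj, Ep_const hp0]; ring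
    have h3 : Ep M' (Ep p (sm (D.rho p) (rv A' fun j => (D.toFT (b' * p) pr' t₀).U p j) a)) y =
        Ep M' (fun x => 1 / p * sm (D.rho p) (rv A' fun j => (D.toFT (b' * p) pr' t₀).U 1 j) a x) y :=
      congrArg (fun g => Ep M' g y) h2
    rw [h3, Ep_smul, ← sm_avg]
    rfl
  rw [eF]
  have key : Q (orel κ) (fun a => Ep p (avg M' (rk A' (D.rho p) (GD D b' pr' p t₁ t₀)) a))
      (sm (D.rho p) (D.uA (p * M) b pr τ A 1)) ≤
      Q (orel κ) (fun a y => 1 / p * sm (D.rho p) (D.uA M' (b' * p) pr' t₀ A' 1) a y)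
        (sm (D.rho p) (D.uA (p * M) b pr τ A 1)) :=
    Q_mono_fun (fun a => (pG a).Ep hp0) (PB_sm pUM _)
      (fun a => (PB_sm pU0 _ a).smul (by positivity)) (PB_sm pUM _) hG (fun _ _ => le_rfl)
  refine key.trans (le_of_eq ?_)
  have e2 : Q (orel κ) (fun a y => 1 / p * sm (D.rho p) (D.uA M' (b' * p) pr' t₀ A' 1) a y)
        (sm (D.rho p) (D.uA (p * M) b pr τ A 1)) =
      1 / p * Q (orel κ) (sm (D.rho p) (D.uA M' (b' * p) pr' t₀ A' 1))
        (sm (D.rho p) (D.uA (p * M) b pr τ A 1)) := by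
    unfold Q
    rw [Finset.mul_sum]
    refine Finset.sum_congr rfl fun e _ => ?_
    rw [← I_smul]
    congr 1
    funext y
    ring
  rw [e2, Q_orel_sm _ pU0 pUM, Q_Ro_swap]

/-- **the one-sided error of a tie on the right**, left side nearly constant on the `p`-fibres -/
theorem os_tieA' (h : SideI D sp b pr τ A d) (h' : SideI D sp b' pr' (.br p S' t₁ t₀) A' d')
    (hM : 0 < M) (hM' : 0 < M') {c : ℝ} (hc : 1 ≤ c)
    (hN : ∀ j ∈ A, Nc p c (Ep M ((D.toFT b pr τ).U 1 j))) :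
    os (orel κ) p (avg M' (rk A' (D.rho p) (GD D b' pr' p t₁ t₀)))
      (sm (D.rho p) (avg M (rv A d.g.val))) ≤
    (c - 1) * (1 / p * Q (Ro (D.rho p)) (D.uA (p * M) b pr τ A 1)
      (D.uA M' (b' * p) pr' t₀ A' 1)) := by
  rw [h.val]
  exact os_tieU' h.hb h.hF h.hW h' hM hM' hc hN

/-- coprime moduli -/
theorem os_tie' (h : SideI D sp b pr τ A d) (h' : SideI D sp b' pr' (.br p S' t₁ t₀) A' d')
    (hM : 0 < M) (hM' : 0 < M') (hpM : Nat.Coprime p M) {c : ℝ} (hc : 1 ≤ c)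
    (hN : ∀ j ∈ A, Nc p c ((D.toFT b pr τ).U 1 j)) :
    os (orel κ) p (avg M' (rk A' (D.rho p) (GD D b' pr' p t₁ t₀)))
      (sm (D.rho p) (avg M (rv A d.g.val))) ≤
    (c - 1) * (1 / p * Q (Ro (D.rho p)) (D.uA (p * M) b pr τ A 1)
      (D.uA M' (b' * p) pr' t₀ A' 1)) :=
  os_tieA' h h' hM hM' hc fun j hj => (hN j hj).avg h'.hF.1.pos hM hpM
    (FT.pb h.hb (D.toFT_Adm τ b pr h.hb h.hF h.hW) (one_dvd _) j).per

/-- the left version: tie on the left, right side nearly constant -/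
theorem os_tieA (h' : SideI D sp b pr τ A d) (h : SideI D sp b' pr' (.br p S' t₁ t₀) A' d')
    (hM : 0 < M) (hM' : 0 < M') {c : ℝ} (hc : 1 ≤ c)
    (hN : ∀ j ∈ A, Nc p c (Ep M ((D.toFT b pr τ).U 1 j))) :
    os (orel κ) p (avg M' (rk A' (D.rho p) (GD D b' pr' p t₁ t₀)))
      (sm (D.rho p) (avg M (rv A d.g.val))) ≤
    (c - 1) * (1 / p * Q (Ro (D.rho p)) (D.uA M' (b' * p) pr' t₀ A' 1)
      (D.uA (p * M) b pr τ A 1)) := by
  rw [Q_Ro_swap]
  exact os_tieA' h' h hM hM' hc hN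

/-- the left version: tie on the left, right side nearly constant -/
theorem os_tie (h' : SideI D sp b pr τ A d) (h : SideI D sp b' pr' (.br p S' t₁ t₀) A' d')
    (hM : 0 < M) (hM' : 0 < M') (hpM : Nat.Coprime p M) {c : ℝ} (hc : 1 ≤ c)
    (hN : ∀ j ∈ A, Nc p c ((D.toFT b pr τ).U 1 j)) :
    os (orel κ) p (avg M' (rk A' (D.rho p) (GD D b' pr' p t₁ t₀)))
      (sm (D.rho p) (avg M (rv A d.g.val))) ≤
    (c - 1) * (1 / p * Q (Ro (D.rho p)) (D.uA M' (b' * p) pr' t₀ A' 1)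
      (D.uA (p * M) b pr τ A 1)) := by
  rw [Q_Ro_swap]
  exact os_tie' h' h hM hM' hpM hc hN

/-! ### leaves -/

/-- the leaf functions -/
lemma Nc_leaf {Sl : Finset ℕ} (hp : 0 < p) {c : ℝ} {j : Λ}
    (h : D.it j ∈ Sl → p ∣ D.it j / pr ∧ NcW p (D.it j / pr) c (D.om j)) :
    Nc p c ((D.toFT b pr (.leaf Sl)).U 1 j) := by
  show Nc p c (D.L b pr Sl 1 j)
  unfold Par.L Par.pcs
  by_cases hj : D.it j ∈ Sl
  · obtain ⟨h1, h2⟩ := h hj
    simp only [if_pos hj]
    have e : (fun a : ℤ => D.om j (((1 : ℕ) : ℤ) * a)) = D.om j := by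
      funext a; rw [Nat.cast_one, one_mul]
    rw [e]
    exact Nc_pc hp h1 h2
  · simp only [if_neg hj]
    exact Nc.zero hp c

/-- the averaged leaf functions, any modulus -/
lemma Nc_leafA {Sl : Finset ℕ} (hp : p.Prime) (hM : 0 < M) {j : Λ} {P : Finset ℕ}
    {u : ℕ → ℤ → ℝ}
    (h : D.it j ∈ Sl → p ∣ (D.it j / pr) / M.gcd (D.it j / pr) ∧
      ((∀ a, D.om j a = 0) ∨ (D.om j = nw P u ∧ (∀ l ∈ P, l.Prime) ∧ (∀ l ∈ P, l ∣ D.it j / pr) ∧
        LW P u ∧ (p ∈ P → ExF p (u p))))) :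
    Nc p (1 - 1 / (p : ℝ))⁻¹ (Ep M ((D.toFT b pr (.leaf Sl)).U 1 j)) := by
  have hz : Nc p (1 - 1 / (p : ℝ))⁻¹ (Ep M fun _ => 0) := by
    have e : Ep M (fun _ : ℝ => (0 : ℝ)) = fun _ => 0 := funext fun y => Ep_const hM 0 y
    rw [e]
    exact Nc.zero hp.pos _
  have e0 : (D.toFT b pr (.leaf Sl)).U 1 j = fun x =>
      if D.it j ∈ Sl then pc ((b : ℝ) / (1 : ℕ) * D.γ) ((b : ℝ) / (1 : ℕ) * D.al j)
        ((b : ℝ) / (1 : ℕ) * D.be j) (D.it j / pr) (D.om j) x else 0 := by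
    funext x
    show D.L b pr Sl 1 j x = _
    unfold Par.L Par.pcs
    have e : (fun a : ℤ => D.om j (((1 : ℕ) : ℤ) * a)) = D.om j := by
      funext a; rw [Nat.cast_one, one_mul]
    rw [e]
  rw [e0]
  by_cases hj : D.it j ∈ Sl
  · obtain ⟨h1, h2⟩ := h hj
    simp only [if_pos hj]
    rcases h2 with h2 | ⟨h2, h3, h4, h5, h6⟩
    · have e : (fun x => pc ((b : ℝ) / (1 : ℕ) * D.γ) ((b : ℝ) / (1 : ℕ) * D.al j)
          ((b : ℝ) / (1 : ℕ) * D.be j) (D.it j / pr) (D.om j) x) = fun _ => 0 := by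
        funext x
        unfold pc
        exact Finset.sum_eq_zero fun a _ => h2 a
      rw [e]
      exact hz
    · rw [h2]
      exact Nc_Ep_pc hp hM h1 h3 h4 h5 h6 _ _ _
  · simp only [if_neg hj]
    exact hz

end tie

/-! ### contexts -/

section ctx
open Crest.Agent.R4P.Data758 Crest.Agent.R4P.WalkIT579 Crest.Agent.R4P.Om532
open Crest.Agent.R4P.Bld532 (NS All NodeOk Bk)
open Crest.Agent.R4P.OmData532 Crest.Agent.R4.LF363
open Crest.Agent.R4P.Step588 (NDt ND1)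
open Crest.Agent.R4P.Skel189 (Ctx top Kc)
open Crest.Agent.R4P.LeafCtx28
open Crest.Agent.R4P

variable {N : Skel189.Num} {γ : ℝ} {p0 P₀ : ℕ} {X : Ctx N γ p0 P₀}

/-- **the leaf functions of a context are nearly constant on the fibres of the primes of the rest
below the level** -/
theorem ctx_Nc {u : NS} {Sl : Finset ℕ}
    (h : NDt X.par (Crest.Agent.R4.Soft104.w X.ψ) X.c.t u (.leaf Sl))
    (Y : Finset (ℕ × ℕ × Finset ℕ)) {p : ℕ} (hp : p.Prime) (hpn : p < u.n) {j : X.c.Lam}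
    (hd : (X.c.D.par Y).it j ∈ Sl → p ∣ (X.c.D.par Y).it j / u.A) :
    Nc p (1 - 1 / (p : ℝ))⁻¹ (((X.c.D.par Y).toFT u.B u.A (.leaf Sl)).U 1 j) := by
  refine Nc_leaf hp.pos fun hj => ⟨hd hj, ?_⟩
  set q := (X.c.D.par Y).it j with hq
  have hpp : pp X.c.t q = u.A := by
    have h1 := h.all.self.pp _ hj
    have e1 : pp (.leaf Sl) q = 1 := rfl
    rw [h1, e1, mul_one]
  have hnr : p ∉ rt X.c.t q := by
    intro h2
    have h3 := (h.all.self.lo _ hj p hpn).1 h2
    simp [IT.uq] at h3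
  have hom : (X.c.D.par Y).om j = X.c.om q (X.c.bp j.1.1 j.1.2) := rfl
  rw [hom, X.om]
  show NcW p (q / u.A) _ (fun a => Chi464.omXL _ _ _ _ _ _ _ _ q _ a)
  unfold Chi464.omXL Chi464.omX omT omw
  rw [hpp]
  by_cases hS : q ∈ X.S'
  · simp only [if_pos hS]
    refine NcW_nw hp (hd hj) (fun l hl => Nat.prime_of_mem_primeFactors hl)
      (fun l hl => Nat.dvd_of_mem_primeFactors hl) (LW_locw (LW_uw _ _ _ _)) fun _ => ?_
    have e : locw (rt X.c.t q) (Chi464.Tz (N.fac p0 X.ψ X.S) X.c.γ (Chi464.rrf X.c.r) X.S'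
        (Chi464.TcL X.c.wp X.c.wpL X.c.γ X.c.r X.c.t X.c.lv) X.c.t Chi464.PPb
        (X.c.bp j.1.1 j.1.2) q) (uw (LfDat734.thL X.c.γ X.c.t q)
        (LfDat734.phL X.c.wpL X.c.γ X.c.r X.c.t X.c.lv q)
        (LfDat734.labL X.c.wpL X.c.γ X.c.r X.c.t X.c.lv q)) p =
        uw (LfDat734.thL X.c.γ X.c.t q)
        (LfDat734.phL X.c.wpL X.c.γ X.c.r X.c.t X.c.lv q)
        (LfDat734.labL X.c.wpL X.c.γ X.c.r X.c.t X.c.lv q) p := by
      funext a
      unfold locw
      rw [if_neg hnr]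
    rw [e]
    exact ExF_uw _ _ _ hp
  · simp only [if_neg hS]
    exact NcW.zero

/-- **the averaged leaf functions of a context are nearly constant on the fibres of the primes of the
rest below the level**, any modulus -/
theorem ctx_NcA {u : NS} {Sl : Finset ℕ}
    (h : NDt X.par (Crest.Agent.R4.Soft104.w X.ψ) X.c.t u (.leaf Sl))
    (Y : Finset (ℕ × ℕ × Finset ℕ)) {p M : ℕ} (hp : p.Prime) (hpn : p < u.n) (hM : 0 < M)
    {j : X.c.Lam}
    (hd : (X.c.D.par Y).it j ∈ Sl →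
      p ∣ Crest.Agent.R4P.CrossLocC25.UI M u.A ((X.c.D.par Y).it j)) :
    Nc p (1 - 1 / (p : ℝ))⁻¹ (Ep M (((X.c.D.par Y).toFT u.B u.A (.leaf Sl)).U 1 j)) := by
  set q := (X.c.D.par Y).it j with hq
  set uw' : ℕ → ℤ → ℝ := locw (rt X.c.t q) (Chi464.Tz (N.fac p0 X.ψ X.S) X.c.γ
        (Chi464.rrf X.c.r) X.S'
        (Chi464.TcL X.c.wp X.c.wpL X.c.γ X.c.r X.c.t X.c.lv) X.c.t Chi464.PPb
        (X.c.bp j.1.1 j.1.2) q) (uw (LfDat734.thL X.c.γ X.c.t q)
        (LfDat734.phL X.c.wpL X.c.γ X.c.r X.c.t X.c.lv q)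
        (LfDat734.labL X.c.wpL X.c.γ X.c.r X.c.t X.c.lv q)) with huw
  refine Nc_leafA hp hM (P := (q / u.A).primeFactors) (u := uw') fun hj => ⟨hd hj, ?_⟩
  have hpp : pp X.c.t q = u.A := by
    have h1 := h.all.self.pp _ hj
    have e1 : pp (.leaf Sl) q = 1 := rfl
    rw [h1, e1, mul_one]
  have hnr : p ∉ rt X.c.t q := by
    intro h2
    have h3 := (h.all.self.lo _ hj p hpn).1 h2
    simp [IT.uq] at h3
  have hom : (X.c.D.par Y).om j = X.c.om q (X.c.bp j.1.1 j.1.2) := rfl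
  by_cases hS : q ∈ X.S'
  · right
    refine ⟨?_, fun l hl => Nat.prime_of_mem_primeFactors hl,
      fun l hl => Nat.dvd_of_mem_primeFactors hl, LW_locw (LW_uw _ _ _ _), fun _ => ?_⟩
    · rw [hom, X.om]
      funext a
      show Chi464.omXL _ _ _ _ _ _ _ _ q _ a = _
      unfold Chi464.omXL Chi464.omX omT omw
      rw [hpp, if_pos hS]
    · have e : uw' p = uw (LfDat734.thL X.c.γ X.c.t q)
          (LfDat734.phL X.c.wpL X.c.γ X.c.r X.c.t X.c.lv q)
          (LfDat734.labL X.c.wpL X.c.γ X.c.r X.c.t X.c.lv q) p := by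
        funext a
        rw [huw]
        unfold locw
        rw [if_neg hnr]
      rw [e]
      exact ExF_uw _ _ _ hp
  · left
    intro a
    rw [hom]
    exact X.om_zero hS _ a

end ctx

end Crest.Agent.R4P.LeafTie28
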