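import Crest.Agent.R4P.LeafCol_27
import Crest.Agent.R4P.LeafTie_28

/-!
R4P (S0004), helper32, module D, group [X]: **columns with excluded pairs** (right tie, any left family).

The relation is `Ro (rho p) \ TR` with ANY set `TR` of pairs of pieces.

* `Q_colN` : any relation, weight one on the present child, the real overlaps of the missing child;
* `Q_colM` : excluded pairs pay the energy of the missing child, the others their real overlap too;
* `Q_colD` : left family nearly constant on the fibres: excluded pairs pay the energy of the missing child.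
-/

set_option autoImplicit false
set_option linter.unusedSectionVars false
set_option linter.unusedVariables false
open MeasureTheory Filter

namespace Crest.Agent.R4P.ColT32

open Crest.Agent.R4.HVW560 Crest.Agent.R4P.AvgItem710
open Crest.Agent.R4.Tour104 Crest.Agent.R4.Tour758 Crest.Agent.R4.Avg758 Crest.Agent.R4.Clos758
open Crest.Agent.R4.ClosL758 Crest.Agent.R4.ClosG758 Crest.Agent.R4.ClosR758
open Crest.Agent.R4.Lam368
open Crest.Agent.R4.Fam464 Crest.Agent.R4P.Cnt588 Crest.Agent.R4P.Walk560 Crest.Agent.R4.Piece464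
open Crest.Agent.R4P.Item758 Crest.Agent.R4P.CrossLoc25 Crest.Agent.R4P.LeafCol27
open Crest.Agent.R4P.LeafTie28 (Nc)

/-! ### abstract columns -/

section gen
variable {Λ : Type*} [Fintype Λ] [DecidableEq Λ]

/-- column of pieces: present `f`, missing `g`, reduction `l` -/
structure ColP (p : ℕ) (w : ℝ) (f g l v : Λ → ℝ → ℝ) : Prop where
  hp : 0 < p
  pf : ∀ j, PB (f j)
  pg : ∀ j, PB (g j)
  pl : ∀ j, PB (l j)
  pv : ∀ j, PB (v j)
  eq : ∀ j x, v j x = (1 - w) * f j (p * x) + g j x - l j x + Ep p (l j) (p * x)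
  le : ∀ j x, v j x ≤ f j (p * x) + g j x

variable {p : ℕ} {w : ℝ} {f g l v F : Λ → ℝ → ℝ} {R TR : Finset (Λ × Λ)}

lemma Q_pull (hp : 0 < p) (hf : ∀ j, PB (f j)) (hF : ∀ i, PB (F i)) (S : Finset (Λ × Λ)) :
    Q S F (fun j x => f j (p * x)) = Q S (avg p F) f := by
  unfold Q
  refine Finset.sum_congr rfl fun e _ => ?_
  have k := push_left hp (hf e.2) (hF e.1)
  have e1 : (fun x => F e.1 x * f e.2 (p * x)) = fun x => f e.2 (p * x) * F e.1 x := by
    funext x; ring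
  rw [e1, k]
  congr 1
  funext y
  unfold avg
  ring

lemma avg_avg {M' : ℕ} (hp : 0 < p) (hM' : 0 < M') (F : Λ → ℝ → ℝ) :
    avg p (avg M' F) = avg (p * M') F := by
  funext j y
  exact Ep_mul hp hM' y

lemma I_cross (hp : 0 < p) {a h : ℝ → ℝ} (ha : PB a) (hh : PB h) :
    I (fun x => a x * Ep p h (p * x)) = I (fun x => Ep p a (p * x) * h x) := by
  have k1 := push_left hp (hh.Ep hp) ha
  have k2 := push_left hp (ha.Ep hp) hh
  have e1 : (fun x => a x * Ep p h (p * x)) = fun x => Ep p h (p * x) * a x := by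
    funext x; ring
  rw [e1, k1, k2]
  congr 1
  funext y
  ring

/-- **weight one** on the present child -/
theorem colN (h : ColP p w f g l v) (hF : ∀ i, PB (F i)) (S : Finset (Λ × Λ)) :
    Q S F v ≤ Q S (avg p F) f + Q S F g := by
  rw [← Q_pull h.hp h.pf hF]
  unfold Q
  rw [← Finset.sum_add_distrib]
  refine Finset.sum_le_sum fun e _ => ?_
  have a1 := (hF e.1).mul ((h.pf e.2).pull p)
  have a2 := (hF e.1).mul (h.pg e.2)
  rw [← I_add a1.integrableOn a2.integrableOn]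
  refine I_mono ((hF e.1).mul (h.pv e.2)).integrableOn (a1.add a2).integrableOn fun x => ?_
  have := mul_le_mul_of_nonneg_left (h.le e.2 x) ((hF e.1).nonneg x)
  linarith

/-- the sum over the right pieces of a left piece -/
noncomputable def rs (S : Finset (Λ × Λ)) (h : Λ → ℝ → ℝ) (i : Λ) (x : ℝ) : ℝ :=
  ∑ e ∈ S.filter (fun e => e.1 = i), h e.2 x

lemma PB_rs {h : Λ → ℝ → ℝ} (hh : ∀ j, PB (h j)) (S : Finset (Λ × Λ)) (i : Λ) : PB (rs S h i) :=
  PB.sum _ fun e _ => hh e.2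

lemma Q_rs {a h : Λ → ℝ → ℝ} (ha : ∀ j, PB (a j)) (hh : ∀ j, PB (h j)) (S : Finset (Λ × Λ)) :
    Q S a h = ∑ i, I (fun x => a i x * rs S h i x) := by
  unfold Q
  rw [← Finset.sum_fiberwise S (fun e => e.1)]
  refine Finset.sum_congr rfl fun i _ => ?_
  have e1 : (fun x => a i x * rs S h i x) =
      fun x => ∑ e ∈ S.filter (fun e => e.1 = i), a i x * h e.2 x := by
    funext x; unfold rs; rw [Finset.mul_sum]
  rw [e1, I_sum _ fun e _ => ((ha i).mul (hh e.2)).integrableOn]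
  refine Finset.sum_congr rfl fun e he => ?_
  rw [(Finset.mem_filter.1 he).2]

/-- the energy of a column: present child and the rest -/
lemma col_split (h : ColP p w f g l v) (hF : ∀ i, PB (F i)) (S : Finset (Λ × Λ)) :
    Q S F v + Q S F l = (1 - w) * Q S (avg p F) f + Q S F g +
      Q S (fun i x => Ep p (F i) (p * x)) l := by
  rw [← Q_pull h.hp h.pf hF]
  unfold Q
  rw [Finset.mul_sum, ← Finset.sum_add_distrib, ← Finset.sum_add_distrib, ← Finset.sum_add_distrib]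
  refine Finset.sum_congr rfl fun e _ => ?_
  have a0 := (hF e.1).mul (h.pv e.2)
  have a1 := (hF e.1).mul ((h.pf e.2).pull p)
  have a2 := (hF e.1).mul (h.pg e.2)
  have a3 := (hF e.1).mul (h.pl e.2)
  have a4 := (hF e.1).mul (((h.pl e.2).Ep h.hp).pull p)
  rw [← I_add a0.integrableOn a3.integrableOn, ← I_cross h.hp (hF e.1) (h.pl e.2)]
  have e1 : (fun x => F e.1 x * v e.2 x + F e.1 x * l e.2 x) = fun x =>
      (1 - w) * (F e.1 x * f e.2 (p * x)) + (F e.1 x * g e.2 x) +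
        F e.1 x * Ep p (l e.2) (p * x) := by
    funext x; rw [h.eq]; ring
  have i1 : IntegrableOn (fun x => (1 - w) * (F e.1 x * f e.2 (p * x))) (Set.Ico (0:ℝ) 1) :=
    a1.integrableOn.const_mul _
  have i2 : IntegrableOn (fun x => (1 - w) * (F e.1 x * f e.2 (p * x)) + F e.1 x * g e.2 x)
    (Set.Ico (0:ℝ) 1) := i1.add a2.integrableOn
  rw [e1, I_add i2 a4.integrableOn, I_add i1 a2.integrableOn, I_smul]

/-- the error of one left piece, real overlaps paid -/
lemma errM (hp : 0 < p) {a L GW GT : ℝ → ℝ} (ha : PB a) (hL : PB L) (hW : PB GW) (hT : PB GT)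
    (hle : ∀ x, L x ≤ GW x + GT x) :
    I (fun x => Ep p a (p * x) * L x) ≤ I (fun x => Ep p a (p * x) * GW x) +
      I (fun x => Ep p a (p * x) * GT x) := by
  have b := (ha.Ep hp).pull p
  rw [← I_add (b.mul hW).integrableOn (b.mul hT).integrableOn]
  refine I_mono (b.mul hL).integrableOn ((b.mul hW).add (b.mul hT)).integrableOn fun x => ?_
  have := mul_le_mul_of_nonneg_left (hle x) (b.nonneg x)
  linarith

/-- the error of one left piece which is nearly constant on the fibres -/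
lemma errD (hp : 0 < p) {c : ℝ} (hc : 1 ≤ c) {a L GW GT : ℝ → ℝ} (ha : PB a) (hN : Nc p c a)
    (hL : PB L) (hW : PB GW) (hT : PB GT) (hle : ∀ x, L x ≤ GW x + GT x) :
    I (fun x => a x * GW x) + I (fun x => Ep p a (p * x) * L x) ≤
      c * I (fun x => Ep p a (p * x) * GW x) + I (fun x => Ep p a (p * x) * GT x) +
        I (fun x => a x * L x) := by
  have b := (ha.Ep hp).pull p
  have c1 := ha.mul hW
  have c2 := b.mul hL
  have c3 := (b.mul hW).smul (by linarith : 0 ≤ c)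
  have c4 := b.mul hT
  have c5 := ha.mul hL
  rw [← I_smul, ← I_add c1.integrableOn c2.integrableOn, ← I_add c3.integrableOn c4.integrableOn,
    ← I_add (c3.add c4).integrableOn c5.integrableOn]
  refine I_mono (c1.add c2).integrableOn ((c3.add c4).add c5).integrableOn fun x => ?_
  have n1 := hN x
  have n2 := b.nonneg x
  have n3 := hW.nonneg x
  have n4 := hT.nonneg x
  have n5 := hL.nonneg x
  have n6 := ha.nonneg x
  have n7 := hle x
  rcases le_or_gt (L x) (GW x) with h1 | h1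
  · have h2 : 0 ≤ GW x - L x := by linarith
    have h3 := mul_le_mul_of_nonneg_right n1 h2
    have h4 : 0 ≤ (c - 1) * (Ep p a (p * x) * L x) := mul_nonneg (by linarith) (mul_nonneg n2 n5)
    have h5 := mul_nonneg n2 n4
    nlinarith
  · have h2 : a x * GW x ≤ a x * L x := mul_le_mul_of_nonneg_left h1.le n6
    have h3 := mul_le_mul_of_nonneg_left n7 n2
    have h4 : 0 ≤ (c - 1) * (Ep p a (p * x) * GW x) := mul_nonneg (by linarith) (mul_nonneg n2 n3)
    nlinarith

lemma rs_split (R TR : Finset (Λ × Λ)) (h : Λ → ℝ → ℝ) (i : Λ) (x : ℝ) :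
    rs R h i x = rs (R \ TR) h i x + rs (R ∩ TR) h i x := by
  unfold rs
  rw [← Finset.sum_union]
  · congr 1
    ext e
    simp only [Finset.mem_filter, Finset.mem_union, Finset.mem_sdiff, Finset.mem_inter]
    tauto
  · rw [Finset.disjoint_left]
    intro e h1 h2
    simp only [Finset.mem_filter, Finset.mem_sdiff, Finset.mem_inter] at h1 h2
    exact h1.1.2 h2.1.2

lemma Q_cross (hp : 0 < p) {h : Λ → ℝ → ℝ} (hF : ∀ i, PB (F i)) (hh : ∀ j, PB (h j))
    (S : Finset (Λ × Λ)) :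
    Q S (fun i x => Ep p (F i) (p * x)) h = Q S (avg p F) (avg p h) := by
  unfold Q
  refine Finset.sum_congr rfl fun e _ => ?_
  rw [push_left hp ((hF e.1).Ep hp) (hh e.2)]
  rfl

/-- **excluded pairs, any left family** -/
theorem colM (h : ColP p w f g l v) (hF : ∀ i, PB (F i))
    (hl : ∀ i x, rs (R \ TR) l i x ≤ rs R g i x) :
    Q (R \ TR) F v ≤ (1 - w) * Q (R \ TR) (avg p F) f + Q (R \ TR) (avg p F) (avg p g) +
      Q (R ∩ TR) (avg p F) (avg p g) + Q (R \ TR) F g := by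
  have k := col_split h hF (R \ TR)
  have k0 : 0 ≤ Q (R \ TR) F l := Finset.sum_nonneg fun e _ =>
    I_nonneg ((hF e.1).mul (h.pl e.2)).nonneg
  have pE : ∀ i, PB (fun x => Ep p (F i) (p * x)) := fun i => ((hF i).Ep h.hp).pull p
  have k1 : Q (R \ TR) (fun i x => Ep p (F i) (p * x)) l ≤
      Q (R \ TR) (avg p F) (avg p g) + Q (R ∩ TR) (avg p F) (avg p g) := by
    rw [← Q_cross h.hp hF h.pg, ← Q_cross h.hp hF h.pg, Q_rs pE h.pl, Q_rs pE h.pg, Q_rs pE h.pg,
      ← Finset.sum_add_distrib]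
    refine Finset.sum_le_sum fun i _ => ?_
    exact errM h.hp (hF i) (PB_rs h.pl _ i) (PB_rs h.pg _ i) (PB_rs h.pg _ i) fun x => by
      rw [← rs_split]; exact hl i x
  linarith

/-- **excluded pairs, left family nearly constant on the fibres** -/
theorem colD (h : ColP p w f g l v) (hF : ∀ i, PB (F i)) {c : ℝ} (hc : 1 ≤ c)
    (hN : ∀ i, Nc p c (F i)) (hl : ∀ i x, rs (R \ TR) l i x ≤ rs R g i x) :
    Q (R \ TR) F v ≤ (1 - w) * Q (R \ TR) (avg p F) f + c * Q (R \ TR) (avg p F) (avg p g) +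
      Q (R ∩ TR) (avg p F) (avg p g) := by
  have k := col_split h hF (R \ TR)
  have pE : ∀ i, PB (fun x => Ep p (F i) (p * x)) := fun i => ((hF i).Ep h.hp).pull p
  have k1 : Q (R \ TR) F g + Q (R \ TR) (fun i x => Ep p (F i) (p * x)) l ≤
      c * Q (R \ TR) (avg p F) (avg p g) + Q (R ∩ TR) (avg p F) (avg p g) + Q (R \ TR) F l := by
    rw [← Q_cross h.hp hF h.pg, ← Q_cross h.hp hF h.pg, Q_rs pE h.pl, Q_rs pE h.pg, Q_rs pE h.pg,
      Q_rs hF h.pg, Q_rs hF h.pl, Finset.mul_sum, ← Finset.sum_add_distrib,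
      ← Finset.sum_add_distrib, ← Finset.sum_add_distrib]
    refine Finset.sum_le_sum fun i _ => ?_
    exact errD h.hp hc (hF i) (hN i) (PB_rs h.pl _ i) (PB_rs h.pg _ i) (PB_rs h.pg _ i) fun x => by
      rw [← rs_split]; exact hl i x
  linarith

end gen

/-! ### the reduction of a class -/

section lam
variable {Λ κ : Type*} [Fintype Λ] [DecidableEq Λ] [DecidableEq κ]

/-- a sum over a union of classes -/
lemma sum_classes {ρ : Λ → κ} {S : Finset Λ} (hS : ∀ j ∈ S, ∀ j', ρ j' = ρ j → j' ∈ S)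
    {a b : Λ → ℝ} (h : ∀ w₀, ∑ j ∈ cl' ρ w₀, a j ≤ ∑ j ∈ cl' ρ w₀, b j) :
    ∑ j ∈ S, a j ≤ ∑ j ∈ S, b j := by
  classical
  have e : ∀ φ : Λ → ℝ, ∑ j ∈ S, φ j = ∑ k ∈ S.image ρ, ∑ j ∈ S.filter (fun j => ρ j = k), φ j :=
    fun φ => (Finset.sum_fiberwise_of_maps_to (fun j hj => Finset.mem_image_of_mem ρ hj) _).symm
  rw [e a, e b]
  refine Finset.sum_le_sum fun k hk => ?_
  obtain ⟨w₀, hw, rfl⟩ := Finset.mem_image.1 hk
  have e2 : S.filter (fun j => ρ j = ρ w₀) = cl' ρ w₀ := by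
    ext j
    rw [Finset.mem_filter, mem_cl']
    exact ⟨fun h => h.2, fun h => ⟨hS w₀ hw j h, h⟩⟩
  rw [e2]
  exact h w₀

end lam

/-! ### columns of the right side -/

section col
variable {Λ κ : Type*} [Fintype Λ] [DecidableEq Λ] [Fintype κ] [DecidableEq κ] [WRel κ]
  {D : Par Λ κ} {sp : ℕ → Finset Λ} {b pr p : ℕ} {t₁ t₀ : IT} {S : Finset ℕ} {A : Finset Λ}
  {d : DT Λ κ}

/-- the reductions of the pieces -/
noncomputable def lR (D : Par Λ κ) (b pr p : ℕ) (t₁ t₀ : IT) (j : Λ) : ℝ → ℝ :=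
  lamR p (fun j => (D.toFT b (pr * p) t₁).U 1 j) (fun j => (D.toFT (b * p) pr t₀).U p j)
    (fun j => (D.toFT (b * p) pr t₀).U 1 j) (fun _ => D.rho p) (0 + 1) j

/-- **the column of the averaged pieces** -/
theorem colP (h : SideI D sp b pr (.br p S t₁ t₀) A d) {M : ℕ} (hM : 0 < M) (hc : ¬ p ∣ M)
    (A : Finset Λ) :
    ColP p (1 / (p : ℝ)) (D.uA M b (pr * p) t₁ A 1) (D.uA M (b * p) pr t₀ A p)
      (avg M (rv A (lR D b pr p t₁ t₀))) (D.uA M b pr (.br p S t₁ t₀) A 1) := by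
  have hp : 0 < p := h.hF.1.pos
  have hco : Nat.Coprime p M := (Nat.Prime.coprime_iff_not_dvd h.hF.1).2 hc
  have hA : (D.toFT b pr (.br p S t₁ t₀)).Adm b := D.toFT_Adm _ b pr h.hb h.hF h.hW
  have hd := FT.dat h.hb hA
  have pR : ∀ j, PB (lR D b pr p t₁ t₀ j) := fun j => PB_lamR hd j
  have hper : ∀ j x, (D.toFT b (pr * p) t₁).U 1 j (x + 1) = (D.toFT b (pr * p) t₁).U 1 j x :=
    fun j => (hd.hf j).per
  have hU : ∀ j x, (D.toFT b pr (.br p S t₁ t₀)).U 1 j x =
      (1 - 1 / (p : ℝ)) * (D.toFT b (pr * p) t₁).U 1 j (p * x) + (D.toFT (b * p) pr t₀).U p j x -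
        lR D b pr p t₁ t₀ j x + Ep p (lR D b pr p t₁ t₀ j) (p * x) := by
    intro j x
    have e := lamF_eq_mult (c := fun _ => D.rho p) (n := 0 + 1) hd j x
    unfold lamF at e
    show mult p _ _ _ _ _ _ (((1 : ℕ) : ℝ) * x) * _ + (D.toFT (b * p) pr t₀).U (1 * p) j x = _
    rw [Nat.cast_one, one_mul, one_mul]
    exact e.symm
  have hU2 : ∀ j x, (D.toFT b pr (.br p S t₁ t₀)).U 1 j x ≤
      (D.toFT b (pr * p) t₁).U 1 j (p * x) + (D.toFT (b * p) pr t₀).U p j x := by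
    intro j x
    show mult p _ _ _ _ _ _ (((1 : ℕ) : ℝ) * x) * _ + (D.toFT (b * p) pr t₀).U (1 * p) j x ≤ _
    rw [Nat.cast_one, one_mul, one_mul]
    have m1 := mult_le_one (c := fun _ => D.rho p) (n := 0 + 1) hd j x
    have m2 := (hd.hf j).nonneg (p * x)
    have := mul_le_mul_of_nonneg_right m1 m2
    rw [one_mul] at this
    exact add_le_add this le_rfl
  refine ⟨hp, fun j => pbu h.br₁ hM (one_dvd _) A j, fun j => pbu h.br₀ hM (Dvd.intro_left b rfl) A j,
    PB_avg hM (PB_rv pR A), fun j => pbu h hM (one_dvd _) A j, fun j x => ?_, fun j x => ?_⟩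
  · unfold Par.uA avg
    by_cases hj : j ∈ A
    · rw [rv_of_mem hj, rv_of_mem hj, rv_of_mem hj, rv_of_mem hj]
      have e1 : Ep M ((D.toFT b pr (.br p S t₁ t₀)).U 1 j) x =
          Ep M (fun x => (1 - 1 / (p : ℝ)) * (D.toFT b (pr * p) t₁).U 1 j (p * x) +
            (D.toFT (b * p) pr t₀).U p j x - lR D b pr p t₁ t₀ j x +
            Ep p (lR D b pr p t₁ t₀ j) (p * x)) x := by
        congr 1; funext y; exact hU j y
      rw [e1, Ep_add, Ep_sub, Ep_add, Ep_smul, Ep_pull_coprime hM hco (hper j) x,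
        Ep_pull_coprime hM hco ((pR j).Ep hp).per x, Ep_comm hM hp]
    · rw [rv_of_not_mem hj, rv_of_not_mem hj, rv_of_not_mem hj, rv_of_not_mem hj]
      have e : Ep M (fun _ : ℝ => (0 : ℝ)) = fun _ => 0 := funext fun y => Ep_const hM 0 y
      rw [e, Ep_const hp]
      ring
  · unfold Par.uA avg
    by_cases hj : j ∈ A
    · rw [rv_of_mem hj, rv_of_mem hj, rv_of_mem hj]
      refine (Ep_mono (hU2 j) x).trans (le_of_eq ?_)
      rw [Ep_add, Ep_pull_coprime hM hco (hper j) x]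
    · rw [rv_of_not_mem hj, rv_of_not_mem hj, rv_of_not_mem hj]
      have e : Ep M (fun _ : ℝ => (0 : ℝ)) = fun _ => 0 := funext fun y => Ep_const hM 0 y
      rw [e]
      simp

/-- the reductions of a union of classes are at most its missing functions -/
theorem red_le (h : SideI D sp b pr (.br p S t₁ t₀) A d) {M : ℕ} (hM : 0 < M)
    (TR : Finset (Λ × Λ)) (i : Λ) (x : ℝ) :
    rs (Ro (D.rho p) \ TR) (avg M (rv A (lR D b pr p t₁ t₀))) i x ≤
      rs (Ro (D.rho p)) (D.uA M (b * p) pr t₀ A p) i x := by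
  have hp : 0 < p := h.hF.1.pos
  have hA : (D.toFT b pr (.br p S t₁ t₀)).Adm b := D.toFT_Adm _ b pr h.hb h.hF h.hW
  have hd := FT.dat h.hb hA
  have pR : ∀ j, PB (lR D b pr p t₁ t₀ j) := fun j => PB_lamR hd j
  have hs : Sat A (D.rho p) := h.sat_br
  have p1 : ∀ j, PB (avg M (rv A (lR D b pr p t₁ t₀)) j) := PB_avg hM (PB_rv pR A)
  -- the whole union of classes
  have s1 : rs (Ro (D.rho p) \ TR) (avg M (rv A (lR D b pr p t₁ t₀))) i x ≤
      rs (Ro (D.rho p)) (avg M (rv A (lR D b pr p t₁ t₀))) i x := by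
    unfold rs
    exact Finset.sum_le_sum_of_subset_of_nonneg
      (Finset.filter_subset_filter _ Finset.sdiff_subset) fun e _ _ => (p1 e.2).nonneg x
  refine s1.trans ?_
  -- as a sum over right pieces
  have conv : ∀ φ : Λ → ℝ → ℝ, rs (Ro (D.rho p)) φ i x =
      ∑ j ∈ Finset.univ.filter (fun j => (i, j) ∈ Ro (D.rho p)), φ j x := by
    intro φ
    unfold rs
    refine Finset.sum_bij' (fun e _ => e.2) (fun j _ => (i, j)) ?_ ?_ ?_ ?_ ?_
    · intro e he
      obtain ⟨h1, h2⟩ := Finset.mem_filter.1 he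
      refine Finset.mem_filter.2 ⟨Finset.mem_univ _, ?_⟩
      rw [← h2]; exact h1
    · intro j hj
      exact Finset.mem_filter.2 ⟨(Finset.mem_filter.1 hj).2, rfl⟩
    · intro e he
      exact Prod.ext (Finset.mem_filter.1 he).2.symm rfl
    · intro j _; rfl
    · intro e _; rfl
  rw [conv, conv]
  refine sum_classes (ρ := D.rho p) ?_ ?_
  · intro j hj j' hjj
    have h1 := (Finset.mem_filter.1 hj).2
    refine Finset.mem_filter.2 ⟨Finset.mem_univ _, ?_⟩
    rw [mem_Ro] at h1 ⊢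
    simp only at h1 ⊢
    rw [hjj]; exact h1
  · intro w₀
    have top : ∀ y, ∑ j ∈ cl' (D.rho p) w₀, lR D b pr p t₁ t₀ j y ≤
        ∑ j ∈ cl' (D.rho p) w₀, (D.toFT (b * p) pr t₀).U p j y := fun y =>
      RW_le_top (c := fun _ => D.rho p) (n := 0) hd (fun _ _ _ h => h) w₀ y
    by_cases hw : w₀ ∈ A
    · have hall : ∀ j ∈ cl' (D.rho p) w₀, j ∈ A := fun j hj =>
        (hs j w₀ (mem_cl'.1 hj)).2 hw
      have e1 : ∑ j ∈ cl' (D.rho p) w₀, avg M (rv A (lR D b pr p t₁ t₀)) j x =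
          Ep M (fun y => ∑ j ∈ cl' (D.rho p) w₀, lR D b pr p t₁ t₀ j y) x := by
        unfold avg Ep
        rw [Finset.sum_comm, Finset.sum_div]
        refine Finset.sum_congr rfl fun j hj => ?_
        rw [rv_of_mem (hall j hj)]
      have e2 : ∑ j ∈ cl' (D.rho p) w₀, D.uA M (b * p) pr t₀ A p j x =
          Ep M (fun y => ∑ j ∈ cl' (D.rho p) w₀, (D.toFT (b * p) pr t₀).U p j y) x := by
        unfold Par.uA avg Ep
        rw [Finset.sum_comm, Finset.sum_div]
        refine Finset.sum_congr rfl fun j hj => ?_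
        rw [rv_of_mem (hall j hj)]
      rw [e1, e2]
      exact Ep_mono top x
    · have hno : ∀ j ∈ cl' (D.rho p) w₀, j ∉ A := fun j hj hjA =>
        hw ((hs j w₀ (mem_cl'.1 hj)).1 hjA)
      have e : Ep M (fun _ : ℝ => (0 : ℝ)) = fun _ => 0 := funext fun y => Ep_const hM 0 y
      rw [Finset.sum_eq_zero, Finset.sum_eq_zero]
      · intro j hj
        unfold Par.uA avg
        rw [rv_of_not_mem (hno j hj), e]
      · intro j hj
        unfold avg
        rw [rv_of_not_mem (hno j hj), e]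

/-- averages of the missing functions -/
lemma avg_miss (h : SideI D sp b pr (.br p S t₁ t₀) A d) {M : ℕ} (hM : 0 < M) (A : Finset Λ) :
    avg p (D.uA M (b * p) pr t₀ A p) = fun j y => 1 / (p : ℝ) * D.uA M (b * p) pr t₀ A 1 j y := by
  have hp : 0 < p := h.hF.1.pos
  funext j y
  have h1 := (FT.main (D.toFT (b * p) pr t₀) (b * p) h.br₀.hb
    (D.toFT_Adm _ _ _ h.br₀.hb h.br₀.hF h.br₀.hW)).2 1 p
      (by rw [one_mul]; exact Dvd.intro_left b rfl) j
  rw [one_mul] at h1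
  unfold Par.uA avg
  rw [Ep_comm hp hM, ← Ep_smul]
  congr 1
  funext x
  by_cases hj : j ∈ A
  · rw [rv_of_mem hj, rv_of_mem hj, h1.Ep x]; ring
  · rw [rv_of_not_mem hj, rv_of_not_mem hj, Ep_const hp]; ring

lemma Q_miss (h : SideI D sp b pr (.br p S t₁ t₀) A d) {M : ℕ} (hM : 0 < M) (A : Finset Λ)
    (R : Finset (Λ × Λ)) (F : Λ → ℝ → ℝ) :
    Q R F (avg p (D.uA M (b * p) pr t₀ A p)) = 1 / (p : ℝ) * Q R F (D.uA M (b * p) pr t₀ A 1) := by
  rw [avg_miss h hM A]
  unfold Q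
  rw [Finset.mul_sum]
  refine Finset.sum_congr rfl fun e _ => ?_
  rw [← I_smul]
  congr 1
  funext x
  ring

/-- **(N)** : weight one on the present child, any relation -/
theorem Q_colN (h : SideI D sp b pr (.br p S t₁ t₀) A d) {M M' : ℕ} (hM : 0 < M) (hM' : 0 < M')
    (hc : ¬ p ∣ M) {F : Λ → ℝ → ℝ} (hF : ∀ j, PB (F j)) (R : Finset (Λ × Λ)) :
    Q R (avg M' F) (D.uA M b pr (.br p S t₁ t₀) A 1) ≤
      Q R (avg (p * M') F) (D.uA M b (pr * p) t₁ A 1) +
        Q R (avg M' F) (D.uA M (b * p) pr t₀ A p) := by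
  have hp : 0 < p := h.hF.1.pos
  have k := colN (colP h hM hc A) (PB_avg hM' hF) R
  rwa [avg_avg hp hM' F] at k

/-- **(M)** : excluded pairs, any left family -/
theorem Q_colM (h : SideI D sp b pr (.br p S t₁ t₀) A d) {M M' : ℕ} (hM : 0 < M) (hM' : 0 < M')
    (hc : ¬ p ∣ M) {F : Λ → ℝ → ℝ} (hF : ∀ j, PB (F j)) (TR : Finset (Λ × Λ)) :
    Q (Ro (D.rho p) \ TR) (avg M' F) (D.uA M b pr (.br p S t₁ t₀) A 1) ≤
      (1 - 1 / (p : ℝ)) * Q (Ro (D.rho p) \ TR) (avg (p * M') F) (D.uA M b (pr * p) t₁ A 1) +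
        1 / (p : ℝ) * Q (Ro (D.rho p) \ TR) (avg (p * M') F) (D.uA M (b * p) pr t₀ A 1) +
        1 / (p : ℝ) * Q (Ro (D.rho p) ∩ TR) (avg (p * M') F) (D.uA M (b * p) pr t₀ A 1) +
        Q (Ro (D.rho p) \ TR) (avg M' F) (D.uA M (b * p) pr t₀ A p) := by
  have hp : 0 < p := h.hF.1.pos
  have k := colM (colP h hM hc A) (PB_avg hM' hF) (R := Ro (D.rho p)) (TR := TR)
    (fun i x => red_le h hM TR i x)
  rwa [Q_miss h hM, Q_miss h hM, avg_avg hp hM' F] at k

/-- **(D)** : excluded pairs, left family nearly constant on the fibres -/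
theorem Q_colD (h : SideI D sp b pr (.br p S t₁ t₀) A d) {M M' : ℕ} (hM : 0 < M) (hM' : 0 < M')
    (hc : ¬ p ∣ M) {F : Λ → ℝ → ℝ} (hF : ∀ j, PB (F j)) {c : ℝ} (hc1 : 1 ≤ c)
    (hN : ∀ j, Nc p c (avg M' F j)) (TR : Finset (Λ × Λ)) :
    Q (Ro (D.rho p) \ TR) (avg M' F) (D.uA M b pr (.br p S t₁ t₀) A 1) ≤
      (1 - 1 / (p : ℝ)) * Q (Ro (D.rho p) \ TR) (avg (p * M') F) (D.uA M b (pr * p) t₁ A 1) +
        c * (1 / (p : ℝ) * Q (Ro (D.rho p) \ TR) (avg (p * M') F) (D.uA M (b * p) pr t₀ A 1)) +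
        1 / (p : ℝ) * Q (Ro (D.rho p) ∩ TR) (avg (p * M') F) (D.uA M (b * p) pr t₀ A 1) := by
  have hp : 0 < p := h.hF.1.pos
  have k := colD (colP h hM hc A) (PB_avg hM' hF) hc1 hN (R := Ro (D.rho p)) (TR := TR)
    (fun i x => red_le h hM TR i x)
  rwa [Q_miss h hM, Q_miss h hM, avg_avg hp hM' F] at k

end col
end Crest.Agent.R4P.ColT32
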