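import Crest.Agent.R4P.VWalkC_36

/-!
R4 (S0004) with powers, module D, helper36: **(Z1)** the unsplit walk `V` along the pair walk of
`R4P/Walk560` and its crossing states, for any strategy.

* `crs stp s` : the crossing states (all of weight one), `eX_eq` : `eX = Σ_{crs} Xs`.
* `V_cross` : `Σ_{nxt} w V + Σ_{crs} V ≤ V`.
-/

set_option autoImplicit false
set_option linter.unusedSectionVars false
set_option linter.unusedVariables false
open MeasureTheory Filter Set

namespace Crest.Agent.R4P.VWalk36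

open Crest.Agent.R4.Tour104 Crest.Agent.R4.Tour758 Crest.Agent.R4.Avg758 Crest.Agent.R4.Clos758
open Crest.Agent.R4.ClosL758 Crest.Agent.R4.ClosG758 Crest.Agent.R4.ClosR758
open Crest.Agent.R4P.ClosR442 Crest.Agent.R4P.Walk560
open Crest.Agent.R4.WalkX560 (MX)

variable {Λ κ : Type*} [Fintype Λ] [DecidableEq Λ] [DecidableEq κ] [WRel κ]

open Classical in
/-- the crossing states of a state of the pair walk -/
noncomputable def crs (stp : Stp Λ κ) (s : St Λ κ) : List (St Λ κ) :=
  if s.t.isLeaf ∨ s.t'.isLeaf then [] else if stp s then [] else if s.isPL ∨ s.isPR then [] else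
  match vw s.p s.t, vw s.p s.t' with
  | .br _ _ _ _ _ _ _, .add _ t₁' t₀' => [{ s with t' := stp.x s t₁' t₀' }]
  | .add _ t₁ t₀, .br _ _ _ _ _ _ _ => [{ s with t := stp.x s t₁ t₀ }]
  | .add _ t₁ t₀, .add _ t₁' t₀' =>
      if stp.jt s then [{ s with t := t₁, t' := t₀' }, { s with t := t₀, t' := t₁' }]
      else if stp.lf s then [{ s with t := stp.x s t₁ t₀ }]
      else [{ s with t' := stp.x s t₁' t₀' }]
  | .add _ t₁ t₀, .up Sp u =>
      if stp.jt s then
        [{ s with t := t₁, t' := u, A' := s.A' \ Sp }, { s with t := t₀, t' := u, A' := s.A' ∩ Sp }]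
      else [{ s with t := stp.x s t₁ t₀ }]
  | .up Sp u, .add _ t₁' t₀' =>
      if stp.jt s then
        [{ s with t := u, A := s.A ∩ Sp, t' := t₀' }, { s with t := u, A := s.A \ Sp, t' := t₁' }]
      else [{ s with t' := stp.x s t₁' t₀' }]
  | _, _ => []

/-- `eX` is the sum over the crossing states -/
theorem eX_eq (stp : Stp Λ κ) (μ : TrG Λ κ → Finset Λ → ℝ) (B : ℝ) (s : St Λ κ) :
    eX stp μ B s = ((crs stp s).map fun q => Xs μ B q).sum := by
  by_cases h1 : s.t.isLeaf ∨ s.t'.isLeaf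
  · simp [eX, crs, h1]
  by_cases h2 : stp s
  · simp [eX, crs, h1, h2]
  by_cases h3 : s.isPL ∨ s.isPR
  · simp [eX, crs, h1, h2, h3]
  rcases hv : vw s.p s.t with ⟨w, r, t₁, t₀, v, B, G⟩ | ⟨r, t₁, t₀⟩ | ⟨Sp, u⟩ <;>
  rcases hv' : vw s.p s.t' with ⟨w', r', t₁', t₀', v', B', G'⟩ | ⟨r', t₁', t₀'⟩ | ⟨Sp', u'⟩ <;>
  by_cases hj : stp.jt s <;> by_cases hl : stp.lf s <;>
  simp [eX, crs, h1, h2, h3, hv, hv', hj, hl]

variable [Fintype κ]
  {wr : ℕ → Λ → κ} {Ad : TrG Λ κ → Finset Λ → Prop} {μ : TrG Λ κ → Finset Λ → ℝ}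
  {ν : TrG Λ κ → ℝ} {n : ℕ} {a : ℕ → ℝ} {stp : ℕ → ℕ → ℕ → Prop}

set_option maxHeartbeats 2000000 in
/-- **(Z1)** the unsplit walk along the pair walk and its crossings -/
theorem V_cross0 {me : TrG Λ κ → Finset Λ → ℝ} (hI : SI stp) (hμ : MX me) (ha : ∀ p, 0 ≤ a p)
    {stpS : Stp Λ κ} {s : St Λ κ} (hS : stp s.M s.M' s.p → stpS s)
    (h : Inv wr Ad μ ν n s) :
    ((nxt0 stpS s).map fun q => q.1 * V stp a me (toZ q.2) q.2.A q.2.A').sum +
      ((crs stpS s).map fun q => V stp a me (toZ q) q.A q.A').sum ≤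
      V stp a me (toZ s) s.A s.A' := by
  have hz := ZOk_of_inv h
  have hV0 := V_nonneg (stp := stp) hμ ha s.A s.A' hz
  by_cases h1 : s.t.isLeaf ∨ s.t'.isLeaf
  · simpa [nxt0, crs, h1] using hV0
  by_cases h2 : stpS s
  · simpa [nxt0, crs, h1, h2] using hV0
  have h1n : ¬ s.t.isLeaf ∧ ¬ s.t'.isLeaf := not_or.1 h1
  have hs : ¬ stp s.M s.M' s.p := fun h => h2 (hS h)
  obtain ⟨hpp, hpn⟩ := p_prime h h1n.1 h1n.2
  have h1b : ¬ (s.t.isLeaf ∧ s.t'.isLeaf) := fun h => h1n.1 h.1
  have hpL : s.t.top ≤ s.p := le_max_left _ _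
  have hpR : s.t'.top ≤ s.p := le_max_right _ _
  have cL : s.t.Col (s.p + 1) := (h.L.down hpL).col
  have cR : s.t'.Col (s.p + 1) := (h.R.down hpR).col
  have okL := hz.1
  have okR := hz.2
  simp only [toZ] at okL okR
  by_cases hPL : s.isPL
  · obtain ⟨w, r, t₁, t₀, v, B, G, hv, et, h3⟩ := St.isPL_cases hPL
    have cb : (DT.br s.p w r t₁ t₀ v B G).Col (s.p + 1) := by rw [← et]; exact cL
    have ec : crs stpS s = [] := by simp [crs, h1, h2, hPL]
    have en : nxt0 stpS s = s.stL := by simp [nxt0, h1, h2, hPL]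
    rw [ec, en]
    simp only [List.map_nil, List.sum_nil, add_zero]
    rcases h3 with ⟨hd, e⟩ | ⟨hd, hw, e⟩
    · rw [e]
      have key := V_fL (a := a) (μ := me) (A := s.A) (A' := s.A') hI hpp cb.2.2.1 cb.2.2.2.1 cb
        hd hs s.t' cR
      rw [← et] at key
      simp only [List.map_cons, List.map_nil, List.sum_cons, List.sum_nil, toZ, St.fL]
      rw [key]
      exact le_of_eq (by ring)
    · subst hw
      rw [e]
      have key := V_pL (a := a) (μ := me) (A := s.A) (A' := s.A') hI hpp cb.2.2.1 cb hd s.t' s.M'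
        hs cR
      rw [← et] at key
      simp only [List.map_cons, List.map_nil, List.sum_cons, List.sum_nil, toZ, St.pL]
      rw [key]
      exact le_of_eq (by ring)
  by_cases hPR : s.isPR
  · obtain ⟨w, r, t₁, t₀, v, B, G, hv, et, h3⟩ := St.isPR_cases hPR
    have cb : (DT.br s.p w r t₁ t₀ v B G).Col (s.p + 1) := by rw [← et]; exact cR
    have ec : crs stpS s = [] := by simp [crs, h1, h2, hPR]
    have en : nxt0 stpS s = s.stR := by simp [nxt0, h1, h2, hPL, hPR]
    rw [ec, en]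
    simp only [List.map_nil, List.sum_nil, add_zero]
    rcases h3 with ⟨hd, e⟩ | ⟨hd, hw, e⟩
    · rw [e]
      have key := V_fR (a := a) (μ := me) (A := s.A) (A' := s.A') hI hpp cb.2.2.1 cb.2.2.2.1 cb
        hd s.t s.M hs cL
      rw [← et] at key
      simp only [List.map_cons, List.map_nil, List.sum_cons, List.sum_nil, toZ, St.fR]
      rw [key]
      exact le_of_eq (by ring)
    · subst hw
      rw [e]
      have key := V_pR (a := a) (μ := me) (A := s.A) (A' := s.A') hI hpp cb.2.2.1 cb hd s.t s.M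
        hs cL
      rw [← et] at key
      simp only [List.map_cons, List.map_nil, List.sum_cons, List.sum_nil, toZ, St.pR]
      rw [key]
      exact le_of_eq (by ring)
  -- the three basic identities
  have addR : ∀ {r' : Λ → κ} {t₁' t₀' : DT Λ κ}, vw s.p s.t' = .add r' t₁' t₀' →
      ∀ t : DT Λ κ, t.Col (s.p + 1) → ∀ A A' : Finset Λ,
      V stp a me ⟨s.M, s.M', t, s.t'⟩ A A' =
        V stp a me ⟨s.M, s.M', t, t₁'⟩ A A' + V stp a me ⟨s.M, s.M', t, t₀'⟩ A A' := by
    intro r' t₁' t₀' hv' t ht A A'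
    have et' := vw_add hv'
    have cb : (DT.add s.p r' t₁' t₀').Col (s.p + 1) := by rw [← et']; exact cR
    have key := V_aR (μ := me) (a := a) (A := A) (A' := A') hpp (r' := r') cb.2.2.1 cb.2.2.2
      hs t ht
    rw [← et'] at key
    exact key
  have addL : ∀ {r : Λ → κ} {t₁ t₀ : DT Λ κ}, vw s.p s.t = .add r t₁ t₀ →
      ∀ t' : DT Λ κ, t'.Col (s.p + 1) → ∀ A A' : Finset Λ,
      V stp a me ⟨s.M, s.M', s.t, t'⟩ A A' =
        V stp a me ⟨s.M, s.M', t₁, t'⟩ A A' + V stp a me ⟨s.M, s.M', t₀, t'⟩ A A' := by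
    intro r t₁ t₀ hv t' ht' A A'
    have et := vw_add hv
    have cb : (DT.add s.p r t₁ t₀).Col (s.p + 1) := by rw [← et]; exact cL
    have key := V_aL (μ := me) (a := a) (A := A) (A' := A') (p := s.p) (r := r) (t₁ := t₁)
      (t₀ := t₀) hs ht'
    rw [← et] at key
    exact key
  have cx : ∀ (t₁ t₀ t' : DT Λ κ) (A A' : Finset Λ),
      V stp a me ⟨s.M, s.M', stpS.c s t₁ t₀, t'⟩ A A' +
        V stp a me ⟨s.M, s.M', stpS.x s t₁ t₀, t'⟩ A A' =
      V stp a me ⟨s.M, s.M', t₁, t'⟩ A A' + V stp a me ⟨s.M, s.M', t₀, t'⟩ A A' := by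
    intro t₁ t₀ t' A A'
    rcases stpS.c_or s t₁ t₀ with ⟨e1, e2⟩ | ⟨e1, e2⟩ <;> rw [e1, e2]
    rw [add_comm]
  have cx' : ∀ (t t₁' t₀' : DT Λ κ) (A A' : Finset Λ),
      V stp a me ⟨s.M, s.M', t, stpS.c s t₁' t₀'⟩ A A' +
        V stp a me ⟨s.M, s.M', t, stpS.x s t₁' t₀'⟩ A A' =
      V stp a me ⟨s.M, s.M', t, t₁'⟩ A A' + V stp a me ⟨s.M, s.M', t, t₀'⟩ A A' := by
    intro t t₁' t₀' A A'
    rcases stpS.c_or s t₁' t₀' with ⟨e1, e2⟩ | ⟨e1, e2⟩ <;> rw [e1, e2]
    rw [add_comm]
  rcases hv : vw s.p s.t with ⟨w, r, t₁, t₀, v, B, G⟩ | ⟨r, t₁, t₀⟩ | ⟨Sp, u⟩ <;>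
  rcases hv' : vw s.p s.t' with ⟨w', r', t₁', t₀', v', B', G'⟩ | ⟨r', t₁', t₀'⟩ | ⟨Sp', u'⟩
  · -- br br
    have ec : crs stpS s = [] := by simp [crs, h1, h2, hPL, hPR, hv, hv']
    have en : nxt0 stpS s = [((1 - w) * (1 - w'), { s with R := Ro r, t := t₁, t' := t₁' }),
       ((1 - w) * w', { s with R := Ro r, t := t₁, t' := t₀' }),
       (w * (1 - w'), { s with R := Ro r, t := t₀, t' := t₁' }),
       (w * w', { s with R := Ro r, t := t₀, t' := t₀' })] := by
      simp [nxt0, h1, h2, hPL, hPR, hv, hv']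
    have w0 := zw_br okL hv
    have w0' := zw_br okR hv'
    have key := d5 (μ := me) (a := a) (A := s.A) (A' := s.A') (t := s.t) (t' := s.t') (p := s.p)
      rfl hs hv hv' (St.not_isPL_br hPL hv hv') (St.not_isPR_br hPR hv hv')
    rw [ec, en]
    simp only [List.map_cons, List.map_nil, List.sum_cons, List.sum_nil, toZ]
    rw [key]
    have m0 := hμ.nn t₀.g s.A
    have m0' := hμ.nn t₀'.g s.A'
    have hap := ha s.p
    have : 0 ≤ a s.p * (w * me t₀.g s.A) * (w' * me t₀'.g s.A') := by positivity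
    linarith
  · -- br add
    have ec : crs stpS s = [{ s with t' := stpS.x s t₁' t₀' }] := by
      simp [crs, h1, h2, hPL, hPR, hv, hv']
    have en : nxt0 stpS s = [(1, { s with t' := stpS.c s t₁' t₀' })] := by
      simp [nxt0, h1, h2, hPL, hPR, hv, hv']
    rw [ec, en]
    simp only [List.map_cons, List.map_nil, List.sum_cons, List.sum_nil, toZ]
    rw [addR hv' s.t cL, ← cx' s.t t₁' t₀']
    exact le_of_eq (by ring)
  · -- br up
    have ec : crs stpS s = [] := by simp [crs, h1, h2, hPL, hPR, hv, hv']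
    have en : nxt0 stpS s = [(1 - w, { s with M' := s.p * s.M', O := insert s.p s.O, R := Ro r, t := t₁, t' := u' }),
       (w, { s with M' := s.p * s.M', O := insert s.p s.O, R := Ro r, t := t₀, t' := u' })] := by
      simp [nxt0, h1, h2, hPL, hPR, hv, hv']
    have hw0 := zw_br okL hv
    have hd : ¬ s.p ∣ s.M := (St.not_isPL_up hPL hv hv').1
    have et := vw_br hv
    have cb : (DT.br s.p w r t₁ t₀ v B G).Col (s.p + 1) := by rw [← et]; exact cL
    have key := d6 (μ := me) (a := a) (A := s.A) (A' := s.A') (t := s.t) (t' := s.t') (p := s.p)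
      rfl hs hv hv' hd
    have hs2 := hI.mulR hpp hs
    rw [V_vR (t := t₁) hI hpp hs2 cb.2.2.1 cR hv', V_vR (t := t₀) hI hpp hs2 cb.2.2.2.1 cR hv'] at key
    rw [ec, en]
    simp only [List.map_cons, List.map_nil, List.sum_cons, List.sum_nil, toZ]
    rw [key]
    have m0 := hμ.nn t₀.g s.A
    have m0' := hμ.nn s.t'.g s.A'
    have hap := ha s.p
    have : 0 ≤ a s.p * (w * me t₀.g s.A) * me s.t'.g s.A' := by positivity
    linarith
  · -- add br
    have ec : crs stpS s = [{ s with t := stpS.x s t₁ t₀ }] := by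
      simp [crs, h1, h2, hPL, hPR, hv, hv']
    have en : nxt0 stpS s = [(1, { s with t := stpS.c s t₁ t₀ })] := by
      simp [nxt0, h1, h2, hPL, hPR, hv, hv']
    rw [ec, en]
    simp only [List.map_cons, List.map_nil, List.sum_cons, List.sum_nil, toZ]
    rw [addL hv s.t' cR, ← cx t₁ t₀ s.t']
    exact le_of_eq (by ring)
  · -- add add
    have et := vw_add hv
    have et' := vw_add hv'
    have cb : (DT.add s.p r t₁ t₀).Col (s.p + 1) := by rw [← et]; exact cL
    have cb' : (DT.add s.p r' t₁' t₀').Col (s.p + 1) := by rw [← et']; exact cR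
    by_cases hj : stpS.jt s
    · have ec : crs stpS s = [{ s with t := t₁, t' := t₀' }, { s with t := t₀, t' := t₁' }] := by
        simp [crs, h1, h2, hPL, hPR, hv, hv', hj]
      have en : nxt0 stpS s = [(1, { s with t := t₁, t' := t₁' }), (1, { s with t := t₀, t' := t₀' })] := by
        simp [nxt0, h1, h2, hPL, hPR, hv, hv', hj]
      rw [ec, en]
      simp only [List.map_cons, List.map_nil, List.sum_cons, List.sum_nil, toZ]
      rw [addL hv s.t' cR, addR hv' t₁ cb.2.2.1, addR hv' t₀ cb.2.2.2]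
      exact le_of_eq (by ring)
    · by_cases hl : stpS.lf s
      · have ec : crs stpS s = [{ s with t := stpS.x s t₁ t₀ }] := by
          simp [crs, h1, h2, hPL, hPR, hv, hv', hj, hl]
        have en : nxt0 stpS s = [(1, { s with t := stpS.c s t₁ t₀ })] := by
          simp [nxt0, h1, h2, hPL, hPR, hv, hv', hj, hl]
        rw [ec, en]
        simp only [List.map_cons, List.map_nil, List.sum_cons, List.sum_nil, toZ]
        rw [addL hv s.t' cR, ← cx t₁ t₀ s.t']
        exact le_of_eq (by ring)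
      · have ec : crs stpS s = [{ s with t' := stpS.x s t₁' t₀' }] := by
          simp [crs, h1, h2, hPL, hPR, hv, hv', hj, hl]
        have en : nxt0 stpS s = [(1, { s with t' := stpS.c s t₁' t₀' })] := by
          simp [nxt0, h1, h2, hPL, hPR, hv, hv', hj, hl]
        rw [ec, en]
        simp only [List.map_cons, List.map_nil, List.sum_cons, List.sum_nil, toZ]
        rw [addR hv' s.t cL, ← cx' s.t t₁' t₀']
        exact le_of_eq (by ring)
  · -- add up
    have et := vw_add hv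
    have cb : (DT.add s.p r t₁ t₀).Col (s.p + 1) := by rw [← et]; exact cL
    by_cases hj : stpS.jt s
    · have ec : crs stpS s = [{ s with t := t₁, t' := u', A' := s.A' \ Sp' }, { s with t := t₀, t' := u', A' := s.A' ∩ Sp' }] := by
        simp [crs, h1, h2, hPL, hPR, hv, hv', hj]
      have en : nxt0 stpS s = [(1, { s with t := t₁, t' := u', A' := s.A' ∩ Sp' }),
         (1, { s with t := t₀, t' := u', A' := s.A' \ Sp' })] := by
        simp [nxt0, h1, h2, hPL, hPR, hv, hv', hj]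
      have okR' := vw_up_all hv' okR
      rw [et] at okL
      have z1 : ZOk (⟨s.M, s.M', t₁, u'⟩ : ZS Λ κ) := ⟨okL.2.1, okR'⟩
      have z0 : ZOk (⟨s.M, s.M', t₀, u'⟩ : ZS Λ κ) := ⟨okL.2.2, okR'⟩
      have k1 := V_splitR (stp := stp) hμ ha s.A s.A' Sp' z1
      have k0 := V_splitR (stp := stp) hμ ha s.A s.A' Sp' z0
      rw [ec, en]
      simp only [List.map_cons, List.map_nil, List.sum_cons, List.sum_nil, toZ]
      rw [addL hv s.t' cR, V_vR (t := t₁) hI hpp hs cb.2.2.1 cR hv',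
        V_vR (t := t₀) hI hpp hs cb.2.2.2 cR hv']
      linarith
    · have ec : crs stpS s = [{ s with t := stpS.x s t₁ t₀ }] := by
        simp [crs, h1, h2, hPL, hPR, hv, hv', hj]
      have en : nxt0 stpS s = [(1, { s with t := stpS.c s t₁ t₀ })] := by
        simp [nxt0, h1, h2, hPL, hPR, hv, hv', hj]
      rw [ec, en]
      simp only [List.map_cons, List.map_nil, List.sum_cons, List.sum_nil, toZ]
      rw [addL hv s.t' cR, ← cx t₁ t₀ s.t']
      exact le_of_eq (by ring)
  · -- up br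
    have ec : crs stpS s = [] := by simp [crs, h1, h2, hPL, hPR, hv, hv']
    have en : nxt0 stpS s = [(1 - w', { s with M := s.p * s.M, O' := insert s.p s.O', R := Ro r', t := u, t' := t₁' }),
       (w', { s with M := s.p * s.M, O' := insert s.p s.O', R := Ro r', t := u, t' := t₀' })] := by
      simp [nxt0, h1, h2, hPL, hPR, hv, hv']
    have hw0 := zw_br okR hv'
    have hd : ¬ s.p ∣ s.M' := (St.not_isPR_up hPR hv hv').1
    have et' := vw_br hv'
    have cb : (DT.br s.p w' r' t₁' t₀' v' B' G').Col (s.p + 1) := by rw [← et']; exact cR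
    have key := d7 (μ := me) (a := a) (A := s.A) (A' := s.A') (t := s.t) (t' := s.t') (p := s.p)
      rfl hs hv' hv hd
    have hs2 := hI.mulL hpp hs
    rw [V_vL (t' := t₁') hI hpp hs2 cL cb.2.2.1 hv, V_vL (t' := t₀') hI hpp hs2 cL cb.2.2.2.1 hv] at key
    rw [ec, en]
    simp only [List.map_cons, List.map_nil, List.sum_cons, List.sum_nil, toZ]
    rw [key]
    have m0 := hμ.nn t₀'.g s.A'
    have m0' := hμ.nn s.t.g s.A
    have hap := ha s.p
    have : 0 ≤ a s.p * me s.t.g s.A * (w' * me t₀'.g s.A') := by positivity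
    linarith
  · -- up add
    have et' := vw_add hv'
    have cb' : (DT.add s.p r' t₁' t₀').Col (s.p + 1) := by rw [← et']; exact cR
    by_cases hj : stpS.jt s
    · have ec : crs stpS s = [{ s with t := u, A := s.A ∩ Sp, t' := t₀' }, { s with t := u, A := s.A \ Sp, t' := t₁' }] := by
        simp [crs, h1, h2, hPL, hPR, hv, hv', hj]
      have en : nxt0 stpS s = [(1, { s with t := u, A := s.A ∩ Sp, t' := t₁' }),
         (1, { s with t := u, A := s.A \ Sp, t' := t₀' })] := by
        simp [nxt0, h1, h2, hPL, hPR, hv, hv', hj]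
      have okL' := vw_up_all hv okL
      rw [et'] at okR
      have z1 : ZOk (⟨s.M, s.M', u, t₁'⟩ : ZS Λ κ) := ⟨okL', okR.2.1⟩
      have z0 : ZOk (⟨s.M, s.M', u, t₀'⟩ : ZS Λ κ) := ⟨okL', okR.2.2⟩
      have k1 := V_splitL (stp := stp) hμ ha s.A s.A' Sp z1
      have k0 := V_splitL (stp := stp) hμ ha s.A s.A' Sp z0
      rw [ec, en]
      simp only [List.map_cons, List.map_nil, List.sum_cons, List.sum_nil, toZ]
      rw [addR hv' s.t cL, V_vL (t' := t₁') hI hpp hs cL cb'.2.2.1 hv,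
        V_vL (t' := t₀') hI hpp hs cL cb'.2.2.2 hv]
      linarith
    · have ec : crs stpS s = [{ s with t' := stpS.x s t₁' t₀' }] := by
        simp [crs, h1, h2, hPL, hPR, hv, hv', hj]
      have en : nxt0 stpS s = [(1, { s with t' := stpS.c s t₁' t₀' })] := by
        simp [nxt0, h1, h2, hPL, hPR, hv, hv', hj]
      rw [ec, en]
      simp only [List.map_cons, List.map_nil, List.sum_cons, List.sum_nil, toZ]
      rw [addR hv' s.t cL, ← cx' s.t t₁' t₀']
      exact le_of_eq (by ring)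
  · -- up up
    have ec : crs stpS s = [] := by simp [crs, h1, h2, hPL, hPR, hv, hv']
    have en : nxt0 stpS s = [(1, { s with t := u, t' := u' })] := by
      simp [nxt0, h1, h2, hPL, hPR, hv, hv']
    have key := d8 (μ := me) (a := a) (A := s.A) (A' := s.A') (t := s.t) (t' := s.t') (p := s.p)
      rfl hs h1b hv hv'
    rw [ec, en]
    simp only [List.map_cons, List.map_nil, List.sum_cons, List.sum_nil, toZ]
    rw [key]
    exact le_of_eq (by ring)

/-- **(Z1)**, with the list `nxt` -/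
theorem V_cross {me : TrG Λ κ → Finset Λ → ℝ} (hI : SI stp) (hμ : MX me) (ha : ∀ p, 0 ≤ a p)
    {stpS : Stp Λ κ} {s : St Λ κ} (hS : stp s.M s.M' s.p → stpS s)
    (h : Inv wr Ad μ ν n s) :
    ((nxt stpS s).map fun q => q.1 * V stp a me (toZ q.2) q.2.A q.2.A').sum +
      ((crs stpS s).map fun q => V stp a me (toZ q) q.A q.A').sum ≤
      V stp a me (toZ s) s.A s.A' := by
  rw [nxt_sum stpS s fun s => V stp a me (toZ s) s.A s.A']
  exact V_cross0 hI hμ ha hS h

end Crest.Agent.R4P.VWalk36
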