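import Crest.Agent.R4P.StopWalk_9
import Crest.Agent.R4P.SkelPart_3
import Crest.Agent.R4P.FrameF_29
import Crest.Agent.R4P.VWalkM_36

/-!
R4 (S0004) with powers, module D (crossing pairs), helper26: **the context layer of `eX`**, full
populations.

* `sum_wt_item`, `ctx_nu` : the raw mass of a node is `u.c * Ws (w ψ) τ.items`.
* `inv_of_StI` : the invariant `Walk560.Inv` of a state in item form.
* `WI` : invariant of the pair walk of a context; `WI.next`, `WI.start`; `WS_le_WI` : supersolutions.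
-/

set_option autoImplicit false
set_option linter.unusedSectionVars false
set_option linter.unusedVariables false

namespace Crest.Agent.R4P.CtxX26

open Crest.Agent.R4.Tour104 Crest.Agent.R4.Tour758 Crest.Agent.R4.Avg758 Crest.Agent.R4.Clos758
open Crest.Agent.R4.ClosL758 Crest.Agent.R4.ClosG758 Crest.Agent.R4.ClosR758
open Crest.Agent.R4.Fam464 Crest.Agent.R4P.Cnt588 Crest.Agent.R4P.Walk560 Crest.Agent.R4.Piece464
open Crest.Agent.R4P.Item758 Crest.Agent.R4P.AvgItem710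
open Crest.Agent.R4P.Data758 Crest.Agent.R4P.WalkIT579
open Crest.Agent.R4P.Bld532 (NS All NodeOk Bk)
open Crest.Agent.R4P.Res927 Crest.Agent.R4P.GSt927 Crest.Agent.R4P.OSWS245
open Crest.Agent.R4P.StopCtx9 (OFP RI)
open Crest.Agent.R4P.Skel189 (Ctx top Part PartW)
open Crest.Agent.R4P.Frame758 (tM tN tG tD wt)
open Crest.Agent.R4P.ClosP542 (PulG)
open Crest.Agent.R4.Item758 (AdI)
open Crest.Agent.R4P.VWalk36 (crs)
open Crest.Agent.R4.Soft104
open Crest.Agent.R4P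

/-! ### masses -/

section mass
variable {N : Skel189.Num} {γ : ℝ} {p0 P₀ : ℕ} (X : Ctx N γ p0 P₀)

/-- the pieces of an item have total raw mass `w ψ q` -/
theorem sum_wt_item {T : Finset ℕ} (hT : T ⊆ X.S) :
    ∑ j ∈ Finset.univ.filter (fun j : X.c.Lam => X.c.D.it j ∈ T), wt X.c.D j = Ws (w X.ψ) T := by
  classical
  have hpc : ∀ q ∈ X.S, 0 < X.c.r q → ∑ k ∈ Finset.range X.c.K,
      (X.c.bp q (k + 1) - X.c.bp q k) * ((Nat.totient q : ℝ) / (q : ℝ)) = w X.ψ q := by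
    intro q hq hr
    have hq' : q ∈ X.c.S := by rw [X.hS]; exact hq
    rw [← Finset.sum_mul, Finset.sum_range_sub, X.ok.bpK q hq' hr, X.ok.bp0 q hq' hr, X.hr]
    unfold w
    ring
  have e1 : ∑ j ∈ Finset.univ.filter (fun j : X.c.Lam => X.c.D.it j ∈ T), wt X.c.D j =
      ∑ x ∈ ((X.c.S.filter (fun q => 0 < X.c.r q)) ×ˢ Finset.range X.c.K).filter
        (fun x => x.1 ∈ T), (X.c.bp x.1 (x.2 + 1) - X.c.bp x.1 x.2) *
          ((Nat.totient x.1 : ℝ) / (x.1 : ℝ)) := by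
    rw [Finset.sum_filter, Finset.sum_filter]
    rw [← Finset.sum_coe_sort ((X.c.S.filter (fun q => 0 < X.c.r q)) ×ˢ Finset.range X.c.K)]
    rfl
  rw [e1, Finset.sum_filter, Finset.sum_product]
  unfold Ws
  have e2 : ∀ q ∈ X.c.S.filter (fun q => 0 < X.c.r q), ∑ k ∈ Finset.range X.c.K,
      (if q ∈ T then (X.c.bp q (k + 1) - X.c.bp q k) * ((Nat.totient q : ℝ) / (q : ℝ)) else 0) =
      if q ∈ T then w X.ψ q else 0 := by
    intro q hq
    obtain ⟨h1, h2⟩ := Finset.mem_filter.1 hq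
    split_ifs with h
    · exact hpc q (by rw [← X.hS]; exact h1) h2
    · simp
  rw [Finset.sum_congr rfl e2, ← Finset.sum_filter]
  refine Finset.sum_subset_zero_on_sdiff (fun q hq => (Finset.mem_filter.1 hq).2) ?_ fun q _ => rfl
  intro q hq
  obtain ⟨h1, h2⟩ := Finset.mem_sdiff.1 hq
  have h3 : q ∈ X.c.S := by rw [X.hS]; exact hT h1
  have h4 : ¬ 0 < X.c.r q := fun h => h2 (Finset.mem_filter.2 ⟨Finset.mem_filter.2 ⟨h3, h⟩, h1⟩)
  rw [X.hr] at h4
  have h5 := X.sys.nonneg q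
  have h6 : X.ψ q = 0 := by linarith
  unfold w
  rw [h6, mul_zero]

/-- the items of the nodes are items of the system -/
theorem All_items (t : IT) : ∀ s : NS, All (fun _ τ => τ.items ⊆ t.items) s t := by
  induction t with
  | leaf S => intro s; exact Finset.Subset.refl _
  | br p Sp t₁ t₀ ih₁ ih₀ =>
    intro s
    refine ⟨Finset.Subset.refl _, All.mono (fun u τ h => ?_) (ih₁ _), All.mono (fun u τ h => ?_) (ih₀ _)⟩
    · exact h.trans Finset.subset_union_left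
    · exact h.trans Finset.subset_union_right
  | add b t₁ t₀ ih₁ ih₀ =>
    intro s
    refine ⟨Finset.Subset.refl _, All.mono (fun u τ h => ?_) (ih₁ _), All.mono (fun u τ h => ?_) (ih₀ _)⟩
    · exact h.trans Finset.subset_union_left
    · exact h.trans Finset.subset_union_right
  | up b Sp t ih =>
    intro s
    exact ⟨Finset.Subset.refl _, ih ⟨b, s.c, s.A, s.B⟩⟩
  | pl b t ih =>
    intro s
    exact ⟨Finset.Subset.refl _, ih ⟨b + 1, s.c, s.A * b, s.B⟩⟩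
  | far b t₁ t₀ ih₁ ih₀ =>
    intro s
    refine ⟨Finset.Subset.refl _, All.mono (fun u τ h => ?_) (ih₁ _), All.mono (fun u τ h => ?_) (ih₀ _)⟩
    · exact h.trans Finset.subset_union_left
    · exact h.trans Finset.subset_union_right

/-- **the raw mass of a node** -/
theorem ctx_nu (j₀ : X.c.Lam) :
    All (fun u τ => X.tn j₀ (X.g u τ) = u.c * Ws (w X.ψ) τ.items ∧
      X.tm j₀ (X.g u τ) Finset.univ = u.c * Ws (w X.ψ) τ.items) ⟨top X.S, 1, 1, 1⟩ X.c.t := by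
  refine All.mono (fun u τ hh => ?_) ((Skel189.ctx_tM X j₀).and (All_items X.c.t ⟨top X.S, 1, 1, 1⟩))
  obtain ⟨h1, h2⟩ := hh
  rw [X.items] at h2
  have h3 := h1 Finset.univ
  rw [sum_wt_item X h2] at h3
  exact ⟨h3, h3⟩

end mass

/-! ### the invariant `Inv` of a state in item form -/

section inv
variable {Λ κ : Type*} [Fintype Λ] [DecidableEq Λ] [Fintype κ] [DecidableEq κ] [WRel κ]
  {D : Item758.Par Λ κ} {sp : ℕ → Finset Λ}

/-- averaging moduli -/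
lemma Avgs_of_MS {n M : ℕ} {O : Finset ℕ} (h : MS n M O) : Avgs n M O where
  M0 := h.pos
  cop := fun p hp hpn => (Nat.Prime.coprime_iff_not_dvd hp).2 fun hd =>
    absurd (h.geM hp hd) (not_le.2 hpn)
  mem := fun p hp => ⟨h.prime hp, h.ge p hp, (h.mem (h.prime hp)).1 hp⟩

/-- a side in item form -/
theorem side_of_SideI (hsp : D.SpOk sp) (hil : ∀ b, IL D.it (sp b)) {dec : κ → Finset Λ → ℝ}
    (h0 : ∀ k A, 0 ≤ dec k A)
    (h1 : ∀ k A A', Disjoint A A' → dec k A + dec k A' = dec k (A ∪ A')) (j₀ : Λ) {b pr : ℕ} {τ : IT}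
    {A : Finset Λ} {d : DT Λ κ} (h : SideI D sp b pr τ A d) (hA : IL D.it A) {n : ℕ}
    (hn : d.top ≤ n) :
    Side D.rho (AdI D.it) (muR dec j₀) (fun t => muR dec j₀ t Finset.univ) n d A := by
  obtain ⟨m, hm⟩ := h.ok
  have h2 := D.sideI hsp hil h0 h1 j₀ h.hb hm h.hF h.hW (A := A) ⟨h.ad, hA⟩
  rw [← h.eq] at h2
  exact h2.down hn

/-- **the invariant of the walks for a state in item form** -/
theorem inv_of_StI (hsp : D.SpOk sp) (hil : ∀ b, IL D.it (sp b)) {dec : κ → Finset Λ → ℝ}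
    (h0 : ∀ k A, 0 ≤ dec k A)
    (h1 : ∀ k A A', Disjoint A A' → dec k A + dec k A' = dec k (A ∪ A')) (j₀ : Λ) {s : St Λ κ}
    {b pr b' pr' : ℕ} {τ τ' : IT} (h : StI D sp s b pr τ b' pr' τ') (hA : IL D.it s.A)
    (hA' : IL D.it s.A') {n : ℕ} (hn : s.p ≤ n) (mL : MS n s.M s.O') (mR : MS n s.M' s.O) :
    Inv D.rho (AdI D.it) (muR dec j₀) (fun t => muR dec j₀ t Finset.univ) n s where
  L := side_of_SideI hsp hil h0 h1 j₀ h.L hA ((le_max_left _ _).trans hn)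
  R := side_of_SideI hsp hil h0 h1 j₀ h.R hA' ((le_max_right _ _).trans hn)
  aL := Avgs_of_MS mL
  aR := Avgs_of_MS mR

end inv

/-! ### the walk -/

section walk
variable {Λ κ : Type*} [Fintype Λ] [DecidableEq Λ] [Fintype κ] [DecidableEq κ] [WRel κ]
  {stp : Stp Λ κ}

set_option maxHeartbeats 1000000 in
/-- populations do not change -/
theorem nxt0_pop (hn : Strip29.NoSplit stp) {s : St Λ κ} : ∀ q ∈ nxt0 stp s,
    q.2.A = s.A ∧ q.2.A' = s.A' := by
  intro q hq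
  unfold nxt0 at hq
  by_cases h1 : s.t.isLeaf ∨ s.t'.isLeaf
  · simp [h1] at hq
  by_cases h2 : stp s
  · simp [h1, h2] at hq
  rw [if_neg h1, if_neg h2] at hq
  by_cases hPL : s.isPL
  · rw [if_pos hPL] at hq
    obtain ⟨w, r, t₁, t₀, v, B, G, -, et, ⟨-, e⟩ | ⟨-, -, e⟩⟩ := St.isPL_cases hPL <;>
    · rw [e] at hq
      simp only [List.mem_cons, List.not_mem_nil, or_false] at hq
      rcases hq with rfl | rfl <;> exact ⟨rfl, rfl⟩
  by_cases hPR : s.isPR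
  · rw [if_neg hPL, if_pos hPR] at hq
    obtain ⟨w, r, t₁, t₀, v, B, G, -, et, ⟨-, e⟩ | ⟨-, -, e⟩⟩ := St.isPR_cases hPR <;>
    · rw [e] at hq
      simp only [List.mem_cons, List.not_mem_nil, or_false] at hq
      rcases hq with rfl | rfl <;> exact ⟨rfl, rfl⟩
  rw [if_neg hPL, if_neg hPR] at hq
  rcases hv : vw s.p s.t with ⟨w, r, t₁, t₀, v, B, G⟩ | ⟨r, t₁, t₀⟩ | ⟨Sp, u⟩ <;>
  rcases hv' : vw s.p s.t' with ⟨w', r', t₁', t₀', v', B', G'⟩ | ⟨r', t₁', t₀'⟩ | ⟨Sp', u'⟩ <;>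
  simp only [hv, hv'] at hq
  · simp only [List.mem_cons, List.not_mem_nil, or_false] at hq
    rcases hq with rfl | rfl | rfl | rfl <;> exact ⟨rfl, rfl⟩
  · simp only [List.mem_cons, List.not_mem_nil, or_false] at hq
    subst hq
    exact ⟨rfl, rfl⟩
  · simp only [List.mem_cons, List.not_mem_nil, or_false] at hq
    rcases hq with rfl | rfl <;> exact ⟨rfl, rfl⟩
  · simp only [List.mem_cons, List.not_mem_nil, or_false] at hq
    subst hq
    exact ⟨rfl, rfl⟩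
  · split_ifs at hq with hj hl <;>
      simp only [List.mem_cons, List.not_mem_nil, or_false] at hq
    · rcases hq with rfl | rfl <;> exact ⟨rfl, rfl⟩
    · subst hq; exact ⟨rfl, rfl⟩
    · subst hq; exact ⟨rfl, rfl⟩
  · rw [if_neg (hn.1 s r t₁ t₀ u' Sp' hv hv')] at hq
    simp only [List.mem_cons, List.not_mem_nil, or_false] at hq
    subst hq; exact ⟨rfl, rfl⟩
  · simp only [List.mem_cons, List.not_mem_nil, or_false] at hq
    rcases hq with rfl | rfl <;> exact ⟨rfl, rfl⟩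
  · rw [if_neg (hn.2 s r' t₁' t₀' u Sp hv hv')] at hq
    simp only [List.mem_cons, List.not_mem_nil, or_false] at hq
    subst hq; exact ⟨rfl, rfl⟩
  · simp only [List.mem_cons, List.not_mem_nil, or_false] at hq
    subst hq; exact ⟨rfl, rfl⟩

/-- the populations of the crossing states -/
theorem crs_pop (hn : Strip29.NoSplit stp) {s : St Λ κ} : ∀ q ∈ crs stp s,
    q.A = s.A ∧ q.A' = s.A' := by
  intro q hq
  unfold crs at hq
  by_cases h1 : s.t.isLeaf ∨ s.t'.isLeaf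
  · simp [h1] at hq
  by_cases h2 : stp s
  · simp [h1, h2] at hq
  by_cases h3 : s.isPL ∨ s.isPR
  · simp [h1, h2, h3] at hq
  rw [if_neg h1, if_neg h2, if_neg h3] at hq
  rcases hv : vw s.p s.t with ⟨w, r, t₁, t₀, v, B, G⟩ | ⟨r, t₁, t₀⟩ | ⟨Sp, u⟩ <;>
  rcases hv' : vw s.p s.t' with ⟨w', r', t₁', t₀', v', B', G'⟩ | ⟨r', t₁', t₀'⟩ | ⟨Sp', u'⟩ <;>
  simp only [hv, hv', List.not_mem_nil] at hq
  · simp only [List.mem_cons, List.not_mem_nil, or_false] at hq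
    subst hq; exact ⟨rfl, rfl⟩
  · simp only [List.mem_cons, List.not_mem_nil, or_false] at hq
    subst hq; exact ⟨rfl, rfl⟩
  · split_ifs at hq with hj hl <;>
      simp only [List.mem_cons, List.not_mem_nil, or_false] at hq
    · rcases hq with rfl | rfl <;> exact ⟨rfl, rfl⟩
    · subst hq; exact ⟨rfl, rfl⟩
    · subst hq; exact ⟨rfl, rfl⟩
  · rw [if_neg (hn.1 s r t₁ t₀ u' Sp' hv hv')] at hq
    simp only [List.mem_cons, List.not_mem_nil, or_false] at hq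
    subst hq; exact ⟨rfl, rfl⟩
  · rw [if_neg (hn.2 s r' t₁' t₀' u Sp hv hv')] at hq
    simp only [List.mem_cons, List.not_mem_nil, or_false] at hq
    subst hq; exact ⟨rfl, rfl⟩

variable {D : Item758.Par Λ κ} {sp : ℕ → Finset Λ} {P : Bld532.Par} {W : ℕ → ℝ}
  {U : ℕ → Finset ℕ} {p0 : ℕ} {Qp : NS → IT → Prop}

/-- **invariant of the pair walk of a node `u₀`**, full populations; `J` = further facts about the
nodes of the two sides -/
structure WI (D : Item758.Par Λ κ) (sp : ℕ → Finset Λ) (Qp : NS → IT → Prop)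
    (J : XSt Λ κ → NS → NS → IT → IT → Prop) (u₀ : NS) (p0 : ℕ) (x : XSt Λ κ)
    (v v' : NS) (σ σ' : IT) : Prop where
  xi : XI x
  oi : OI p0 x
  of : OFP x
  ri : RI D.rho x
  tc : TC (IMI194.dvM GInst194.mI) GInst194.mI x
  nn : x.n ≤ u₀.n
  A : x.s.A = Finset.univ
  A' : x.s.A' = Finset.univ
  hi : HI D sp Qp u₀.B u₀.B x v v' σ σ'
  js : JS x.s v v'
  j : J x v v' σ σ'

/-- `J` is preserved along the steps -/
def Jn (D : Item758.Par Λ κ) (sp : ℕ → Finset Λ) (Qp : NS → IT → Prop) (stp : Stp Λ κ)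
    (J : XSt Λ κ → NS → NS → IT → IT → Prop) : Prop :=
  ∀ (B₀ B₀' : ℕ) (x : XSt Λ κ) (v v' : NS) (σ σ' : IT), XI x → HI D sp Qp B₀ B₀' x v v' σ σ' →
    JS x.s v v' → J x v v' σ σ' →
    ∀ e ∈ steps stp (IMI194.dvM GInst194.mI) x, ∃ w w' ρ ρ', HI D sp Qp B₀ B₀' e.y w w' ρ ρ' ∧
      JS e.y.s w w' ∧ J e.y w w' ρ ρ'

/-- no further facts -/
theorem Jn_true (spo : D.SpOk sp) (il : ∀ b, IL D.it (sp b))
    (hQ : ∀ u τ, Qp u τ → NodeOk P W u τ) : Jn D sp Qp stp (fun _ _ _ _ _ => True) := by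
  intro B₀ B₀' x v v' σ σ' h1 h2 h3 _ e he
  obtain ⟨w, w', ρ, ρ', k1, k2⟩ := HJ.next spo il hQ h1 h2 h3 e he
  exact ⟨w, w', ρ, ρ', k1, k2, trivial⟩

/-- **the invariant is preserved** -/
theorem WI.next {J : XSt Λ κ → NS → NS → IT → IT → Prop} (hnq : ∀ u τ, Qp u τ → NQ P W U u τ)
    (hp0 : 1 ≤ p0) (hst : ∀ s : St Λ κ, ¬ stp s → ¬ stpN s) (hn : Strip29.NoSplit stp)
    (hJ : Jn D sp Qp stp J) {u₀ : NS} {x : XSt Λ κ} {v v' : NS} {σ σ' : IT}
    (h : WI D sp Qp J u₀ p0 x v v' σ σ') :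
    ∀ e ∈ steps stp (IMI194.dvM GInst194.mI) x, 
      (∃ w w' ρ ρ', WI D sp Qp J u₀ p0 e.y w w' ρ ρ') ∧ 0 < e.a ∧ 0 < e.a' := by
  intro e he
  obtain ⟨w, w', ρ, ρ', k1, k2, k3⟩ := hJ _ _ x v v' σ σ' h.xi h.hi h.js h.j e he
  have hpop := nxt0_pop hn _ (mem_nxt.1 (steps_nxt he)).1
  refine ⟨⟨w, w', ρ, ρ', h.xi.next e he, h.oi.next hp0 hst h.xi e he, h.of.next hst h.xi h.oi e he,
    h.ri.next hst h.xi h.oi (StopCtx9.IS_of hnq h.hi h.js) e he, h.tc.next e he,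
    (steps_top h.xi he).2.2.2.trans h.nn, hpop.1.trans h.A, hpop.2.trans h.A', k1, k2, k3⟩, ?_⟩
  exact steps_w h.tc.wL h.tc.wR e he

/-- **self states** -/
theorem WI.start {J : XSt Λ κ → NS → NS → IT → IT → Prop} (hN' : ∀ u τ, Qp u τ → NodeOk P W u τ)
    (hpp : p0 ≤ P.p0) (hab : ∀ j, D.al j ≤ D.be j) {u : NS} {τ : IT}
    (hs : SideI D sp u.B u.A τ Finset.univ (D.toDT sp u.B u.A τ)) (hq : All Qp u τ)
    (hO : τ.Ok u.n) (hn0 : 0 < u.n)
    (hJ : J (XSt.st u.n (selfSt (D.toDT sp u.B u.A τ) Finset.univ)) u u τ τ) :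
    WI D sp Qp J u p0 (XSt.st u.n (selfSt (D.toDT sp u.B u.A τ) Finset.univ)) u u τ τ := by
  set d := D.toDT sp u.B u.A τ with hd
  have colD : d.Col u.n := D.toDT_Col sp τ u.n u.B u.A hO
  have imD : d.All (Res927.IM (IMI194.dvM GInst194.mI) GInst194.mI) :=
    IMI194.IM_toDT hab τ u.B u.A u.n hs.hb hO hs.hF hs.hW
  have tgD : d.All (TopGe p0) := StopCtx9.topGe_toDT hpp (hq.mono hN')
  have hn : (selfSt d Finset.univ : St Λ κ).p < u.n := by
    show max d.top d.top < _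
    rw [max_self]
    exact colD.top_lt hn0
  have hX : IX p0 (IMI194.dvM GInst194.mI) GInst194.mI (XSt.st u.n (selfSt d Finset.univ)) :=
    IX_start (s := selfSt d Finset.univ) colD colD hn imD imD tgD tgD rfl rfl
  exact ⟨hX.xi, hX.oi, OFP.start rfl rfl, RI.start rfl rfl, hX.tc, le_refl u.n, rfl, rfl,
    HI.self hs hO hq (Item758.IL_univ _), JS.self u d Finset.univ, hJ⟩

/-- **supersolutions of the pair walk**, potentials of states with history -/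
theorem WS_le_WI {J : XSt Λ κ → NS → NS → IT → IT → Prop} (hnq : ∀ u τ, Qp u τ → NQ P W U u τ)
    (hp0 : 1 ≤ p0) (hst : ∀ s : St Λ κ, ¬ stp s → ¬ stpN s) (hn : Strip29.NoSplit stp)
    (hJ : Jn D sp Qp stp J) {u₀ : NS} {loc : St Λ κ → ℝ} {Φ : XSt Λ κ → ℝ}
    (hΦ : ∀ (x : XSt Λ κ) (v v' : NS) (σ σ' : IT), WI D sp Qp J u₀ p0 x v v' σ σ' →
      loc x.s + ((steps stp (IMI194.dvM GInst194.mI) x).map fun e => e.a * e.a' * Φ e.y).sum ≤ Φ x)
    {x : XSt Λ κ} {v v' : NS} {σ σ' : IT} (hx : WI D sp Qp J u₀ p0 x v v' σ σ') :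
    WS stp loc x.s ≤ Φ x := by
  rw [WS_eq_H stp (IMI194.dvM GInst194.mI) loc x]
  refine W_le_super (Inv := fun x => ∃ v v' σ σ', WI D sp Qp J u₀ p0 x v v' σ σ')
    (nxH_rank stp (IMI194.dvM GInst194.mI)) (fun x hx q hq => ?_) (fun x hx => ?_) x
    ⟨v, v', σ, σ', hx⟩
  · obtain ⟨v, v', σ, σ', hx⟩ := hx
    obtain ⟨e, he, rfl⟩ := List.mem_map.1 hq
    obtain ⟨k1, k2, k3⟩ := hx.next hnq hp0 hst hn hJ e he
    exact ⟨k1, (mul_pos k2 k3).le⟩
  · obtain ⟨v, v', σ, σ', hx⟩ := hx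
    refine le_trans (le_of_eq ?_) (hΦ x v v' σ σ' hx)
    unfold nxH
    rw [List.map_map]
    rfl

/-- a potential of plain states -/
theorem WS_le_WI' {J : XSt Λ κ → NS → NS → IT → IT → Prop} (hnq : ∀ u τ, Qp u τ → NQ P W U u τ)
    (hp0 : 1 ≤ p0) (hst : ∀ s : St Λ κ, ¬ stp s → ¬ stpN s) (hn : Strip29.NoSplit stp)
    (hJ : Jn D sp Qp stp J) {u₀ : NS} {loc : St Λ κ → ℝ} {Φ : St Λ κ → ℝ}
    (hΦ : ∀ (x : XSt Λ κ) (v v' : NS) (σ σ' : IT), WI D sp Qp J u₀ p0 x v v' σ σ' →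
      loc x.s + ((nxt stp x.s).map fun q => q.1 * Φ q.2).sum ≤ Φ x.s)
    {x : XSt Λ κ} {v v' : NS} {σ σ' : IT} (hx : WI D sp Qp J u₀ p0 x v v' σ σ') :
    WS stp loc x.s ≤ Φ x.s := by
  refine WS_le_WI hnq hp0 hst hn hJ (u₀ := u₀) (Φ := fun x => Φ x.s) (fun x v v' σ σ' hx => ?_) hx
  have h := hΦ x v v' σ σ' hx
  rw [← steps_proj stp (IMI194.dvM GInst194.mI) x, List.map_map] at h
  exact h

end walk

end Crest.Agent.R4P.CtxX26
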