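import Crest.Agent.R4P.StopLeaf_28
import Crest.Agent.R4P.LLCtx_30

/-!
R4P (S0004), helper25 (proofs of helper28, helper30), module D: **ends and stops of the cross walk with the relation
predicate inside the value `Vs`**: `HL_P`, `HL_P'` (nonleaf, leaf), `HLsb_P`, `HLsb_P'` (with the node facts), `LL_P`,
`LLXs_P`, `ctx_LL_P` (leaf, leaf). The low pairs pay `Vs` only if they are pairs of `Par.PE`.
-/

set_option autoImplicit false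
set_option linter.unusedSectionVars false
set_option linter.unusedVariables false
open Finset hiding dens

namespace Crest.Agent.R4P.EndP25

open Crest.Agent.R4.HVW560 Crest.Agent.R4P.AvgItem710
open Crest.Agent.R4.Ovl560 (LW nw nw_nonneg nw_add exw dens dens_pos dens_mono)
open Crest.Agent.R4.Tour104 Crest.Agent.R4.Tour758 Crest.Agent.R4.Avg758 Crest.Agent.R4.Clos758
open Crest.Agent.R4.ClosL758 Crest.Agent.R4.ClosG758 Crest.Agent.R4.ClosR758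
open Crest.Agent.R4.Fam464 Crest.Agent.R4P.Cnt588 Crest.Agent.R4P.Walk560 Crest.Agent.R4.Piece464
open Crest.Agent.R4P.GInst194 Crest.Agent.R4P.WalkIT579 Crest.Agent.R4P.Item758
open Crest.Agent.R4P.NMW710 Crest.Agent.R4P.CrossLoc25 Crest.Agent.R4P.CrossLocC25
open Crest.Agent.R4P.Step588 (Fq ItHi2 PB_Fq iF_le_Fq sum_IFq_le)
open Crest.Agent.R4P.LeafFam28 Crest.Agent.R4P.LeafSide28 Crest.Agent.R4P.CofMono28
open Crest.Agent.R4P.TBLeaf28 Crest.Agent.R4P.HiLeaf28 Crest.Agent.R4P.HiLeafS28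
open Crest.Agent.R4P.LLPair30 Crest.Agent.R4P.StopLeaf28 Crest.Agent.R4P.LeafOs30

variable {Λ κ : Type*} [Fintype Λ] [DecidableEq Λ] [Fintype κ] [DecidableEq κ]
variable {D : Par Λ κ} {ρ : ℕ → ℝ} {Al : Finset ℕ} {M M' b pr b' pr' : ℕ} {t t' : IT}
variable {x0 y0 : ℕ × ℕ → ℕ} {Lo : ℝ × ℝ → ℕ × ℕ → Prop} {Vs : ℝ × ℝ → ℕ × ℕ → ℝ}

open Classical in
/-- **(nonleaf, leaf)**, relation predicate inside `Vs` -/
theorem HL_P {C : ℝ} (hC : PairO C) (hC0 : 0 ≤ C) (hR : D.Rad ρ)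
    (hdead : ∀ j, D.it j ∉ Al → ∀ a, D.om j a = 0) (hM : 0 < M) (hM' : 0 < M')
    (hb : 0 < b) (hb' : 0 < b') (hF : Fit b pr t) (hF' : Fit b' pr' t') (hW : D.Wts pr t)
    (hW' : D.Wts pr' t') {K' : ℝ} {P : ℕ → Finset ℕ} {v : ℕ → ℕ → ℤ → ℝ}
    (ho : OmW D b' pr' t' K' P v) (Rl : Finset (Λ × Λ)) (A A' : Finset Λ) {K V0 : ℕ}
    {C1 η H ε T : ℝ} (hε : 0 < ε) (hε1 : ε ≤ 2) (hH : 0 ≤ H)
    (hI : ∀ q ∈ Qi D Al t A, ItHi2 D ρ b pr t K V0 C1 η H q)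
    (hJ : ∀ e ∈ Qi D Al t A ×ˢ Qi D Al t' A', JC x0 y0 M pr M' pr' e)
    (hT4 : 4 ≤ T) (hV : (V0 : ℝ) ≤ Real.sqrt T) (hV2 : 2 * V0 * H / ε ≤ Real.sqrt T)
    (hL : ∀ e ∈ Qi D Al t A ×ˢ Qi D Al t' A', ¬ Lo (SE M b pr M' b' pr' e) e →
      T ≤ Dsc (ρ e.1) (ρ e.2) (SE M b pr M' b' pr' e) ∧
      SD (x0 e) (y0 e) (Real.sqrt (Dsc (ρ e.1) (ρ e.2) (SE M b pr M' b' pr' e))) ≤ 1)
    (h0 : ∀ s e, 0 ≤ Vs s e)
    (hVs : ∀ e ∈ D.PE Rl (D.uA M b pr t A 1) (D.uA M' b' pr' t' A' 1),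
      e ∈ Qi D Al t A ×ˢ Qi D Al t' A' →
      FL Lo ρ D.γ (SE M b pr M' b' pr' e) e ≤ Vs (SE M b pr M' b' pr' e) e) :
    Q Rl (D.uA M b pr t A 1) (D.uA M' b' pr' t' A' 1) ≤
      (C * K' * Real.exp 2 / 2 * (C1 * ∑ q ∈ Qi D Al t A, I (Fq D b pr t 1 q) +
        (C1 * η + 3 * K * ε) * SR ρ b (Qi D Al t A))) *
        ∑ r ∈ Qi D Al t' A', (b' : ℝ) * ρ r * dens (P r) +
      ∑ e ∈ Qi D Al t A ×ˢ Qi D Al t' A',
        (b : ℝ) * b' * Vs (SE M b pr M' b' pr' e) e := by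
  have key := block_core (c := 1) (c' := 1) hR hdead hM hM' hb hb' hF hF' hW hW' (one_dvd _)
    (one_dvd _) Rl A A'
    (Pw := fun e => e ∈ D.PE Rl (D.uA M b pr t A 1) (D.uA M' b' pr' t' A' 1))
    (Lo := fun e => Lo (SE M b pr M' b' pr' e) e)
    (f := fun q => C * K' * Real.exp 2 / 2 * (C1 * (I (Fq D b pr t 1 q) + η * (b * ρ q)) +
        3 * K * ε * (b * ρ q)))
    (g := fun r => (b' : ℝ) * ρ r * dens (P r))
    (fun q hq => by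
      obtain ⟨k, w, hk, hw, hz⟩ := hI q hq
      have hmu : 0 ≤ C1 * (I (Fq D b pr t 1 q) + η * (b * ρ q)) := hz.pos.2.2
      have := (hR.pos q).le
      have := ho.K0
      positivity)
    (fun r hr => by
      have := (hR.pos r).le
      have := (dens_pos (ho.pm _ (mem_Qi.1 hr).1)).le
      positivity)
    (fun _ h => h)
    (fun e he _ hn => by
      have hm := Finset.mem_product.1 he
      obtain ⟨h1, h2⟩ := hL e he hn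
      exact iF_HL hC hC0 hR hM hM' hb hb' hF hF' hW hW' ho Rl A A' hε hε1 hH
        (mem_Qi.1 hm.1).1 (mem_Qi.1 hm.2).1 (hI _ hm.1) (hJ e he) hT4 hV hV2 h1 h2)
  refine key.trans (add_le_add (le_of_eq ?_) ?_)
  · congr 1
    rw [← Finset.mul_sum, Finset.sum_add_distrib, ← Finset.mul_sum, ← Finset.mul_sum,
      Finset.sum_add_distrib, ← Finset.mul_sum]
    unfold SR
    ring
  · refine sum_lo_le (fun e => mul_nonneg (by positivity) (h0 _ _)) fun e he h1 h2 => ?_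
    rw [pb_one]
    have h3 := hVs e h1 he
    unfold vE
    unfold FL at h3
    rw [if_pos ⟨h2, SE_pos M b pr M' b' pr' e⟩] at h3
    exact mul_le_mul_of_nonneg_left h3 (by positivity)

open Classical in
/-- **(leaf, nonleaf)**, relation predicate inside `Vs` -/
theorem HL_P' {C : ℝ} (hC : PairO C) (hC0 : 0 ≤ C) (hR : D.Rad ρ)
    (hdead : ∀ j, D.it j ∉ Al → ∀ a, D.om j a = 0) (hM : 0 < M) (hM' : 0 < M')
    (hb : 0 < b) (hb' : 0 < b') (hF : Fit b pr t) (hF' : Fit b' pr' t') (hW : D.Wts pr t)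
    (hW' : D.Wts pr' t') {K' : ℝ} {P : ℕ → Finset ℕ} {v : ℕ → ℕ → ℤ → ℝ}
    (ho : OmW D b pr t K' P v) (Rl : Finset (Λ × Λ)) (A A' : Finset Λ) {K V0 : ℕ}
    {C1 η H ε T : ℝ} (hε : 0 < ε) (hε1 : ε ≤ 2) (hH : 0 ≤ H)
    (hI : ∀ q ∈ Qi D Al t' A', ItHi2 D ρ b' pr' t' K V0 C1 η H q)
    (hJ : ∀ e ∈ Qi D Al t A ×ˢ Qi D Al t' A', JC x0 y0 M pr M' pr' e)
    (hT4 : 4 ≤ T) (hV : (V0 : ℝ) ≤ Real.sqrt T) (hV2 : 2 * V0 * H / ε ≤ Real.sqrt T)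
    (hL : ∀ e ∈ Qi D Al t A ×ˢ Qi D Al t' A', ¬ Lo (SE M b pr M' b' pr' e) e →
      T ≤ Dsc (ρ e.1) (ρ e.2) (SE M b pr M' b' pr' e) ∧
      SD (x0 e) (y0 e) (Real.sqrt (Dsc (ρ e.1) (ρ e.2) (SE M b pr M' b' pr' e))) ≤ 1)
    (h0 : ∀ s e, 0 ≤ Vs s e)
    (hVs : ∀ e ∈ D.PE Rl (D.uA M b pr t A 1) (D.uA M' b' pr' t' A' 1),
      e ∈ Qi D Al t A ×ˢ Qi D Al t' A' →
      FL Lo ρ D.γ (SE M b pr M' b' pr' e) e ≤ Vs (SE M b pr M' b' pr' e) e) :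
    Q Rl (D.uA M b pr t A 1) (D.uA M' b' pr' t' A' 1) ≤
      (∑ r ∈ Qi D Al t A, (b : ℝ) * ρ r * dens (P r)) *
      (C * K' * Real.exp 2 / 2 * (C1 * ∑ q ∈ Qi D Al t' A', I (Fq D b' pr' t' 1 q) +
        (C1 * η + 3 * K * ε) * SR ρ b' (Qi D Al t' A'))) +
      ∑ e ∈ Qi D Al t A ×ˢ Qi D Al t' A',
        (b : ℝ) * b' * Vs (SE M b pr M' b' pr' e) e := by
  have key := block_core (c := 1) (c' := 1) hR hdead hM hM' hb hb' hF hF' hW hW' (one_dvd _)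
    (one_dvd _) Rl A A'
    (Pw := fun e => e ∈ D.PE Rl (D.uA M b pr t A 1) (D.uA M' b' pr' t' A' 1))
    (Lo := fun e => Lo (SE M b pr M' b' pr' e) e)
    (g := fun q => C * K' * Real.exp 2 / 2 * (C1 * (I (Fq D b' pr' t' 1 q) + η * (b' * ρ q)) +
        3 * K * ε * (b' * ρ q)))
    (f := fun r => (b : ℝ) * ρ r * dens (P r))
    (fun r hr => by
      have := (hR.pos r).le
      have := (dens_pos (ho.pm _ (mem_Qi.1 hr).1)).le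
      positivity)
    (fun q hq => by
      obtain ⟨k, w, hk, hw, hz⟩ := hI q hq
      have hmu : 0 ≤ C1 * (I (Fq D b' pr' t' 1 q) + η * (b' * ρ q)) := hz.pos.2.2
      have := (hR.pos q).le
      have := ho.K0
      positivity)
    (fun _ h => h)
    (fun e he _ hn => by
      have hm := Finset.mem_product.1 he
      obtain ⟨h1, h2⟩ := hL e he hn
      exact iF_HL' hC hC0 hR hM hM' hb hb' hF hF' hW hW' ho Rl A A' hε hε1 hH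
        (mem_Qi.1 hm.1).1 (mem_Qi.1 hm.2).1 (hI _ hm.2) (hJ e he) hT4 hV hV2 h1 h2)
  refine key.trans (add_le_add (le_of_eq ?_) ?_)
  · congr 1
    rw [← Finset.mul_sum, Finset.sum_add_distrib, ← Finset.mul_sum, ← Finset.mul_sum,
      Finset.sum_add_distrib, ← Finset.mul_sum]
    unfold SR
    ring
  · refine sum_lo_le (fun e => mul_nonneg (by positivity) (h0 _ _)) fun e he h1 h2 => ?_
    rw [pb_one]
    have h3 := hVs e h1 he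
    unfold vE
    unfold FL at h3
    rw [if_pos ⟨h2, SE_pos M b pr M' b' pr' e⟩] at h3
    exact mul_le_mul_of_nonneg_left h3 (by positivity)

/-! ### with the node facts -/

section nodes
open Crest.Agent.R4P.Bld532 (NS All NodeOk Bk)
open Crest.Agent.R4P.StopW95 Crest.Agent.R4P.GSt927 Crest.Agent.R4P.StopCtx9
open Crest.Agent.R4.StepNum442 (Kn Kn_le)
open Crest.Agent.R4.DeepSt579 (tq tq_nonneg tq_le_one rd)
open Crest.Agent.R4P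
variable {P' : Bld532.Par} {W : ℕ → ℝ} {U : ℕ → Finset ℕ} {CL c₀ Ch : ℝ} {u : NS} {τ : IT}
  {A : Finset Λ} {d : DT Λ κ} {sp : ℕ → Finset Λ} [WRel κ]

open Classical in
/-- **(leaf, nonleaf)** with the node facts of the nonleaf side -/
theorem HLsb_P' {C : ℝ} (hC : PairO C) (hC0 : 0 ≤ C) (hR : D.Rad ρ)
    (hdead : ∀ j, D.it j ∉ Al → ∀ a, D.om j a = 0) (hM : 0 < M) (hM' : 0 < M')
    {d' : DT Λ κ} {A₀ : Finset Λ} (hL' : SideI D sp b pr t A₀ d) {A' : Finset Λ}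
    (hR' : SideI D sp u.B u.A τ A' d') (hSB : SB D ρ Al P' W U CL c₀ Ch u τ) (hl : ¬ isL τ)
    (hab : ∀ j, D.al j ≤ D.be j) (hc₀ : 0 < c₀)
    (hfull : ∀ q ∈ Al, 2 * ρ q ≤ ∑ j ∈ Finset.univ.filter (fun j => D.it j = q), (D.be j - D.al j))
    (hil : IL D.it A') (hnn : ∀ j, 0 ≤ mI d' j) (hCL : 0 ≤ CL) (hp1 : 1 ≤ tp τ)
    (hCh : 0 ≤ Ch) (hN : HLN Ch CL (tp τ)) {K' : ℝ} {P : ℕ → Finset ℕ} {v : ℕ → ℕ → ℤ → ℝ}
    (ho : OmW D b pr t K' P v) (Rl : Finset (Λ × Λ))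
    (hJ : ∀ e ∈ Qi D Al t A ×ˢ Qi D Al τ A', JC x0 y0 M pr M' u.A e)
    (hL : ∀ e ∈ Qi D Al t A ×ˢ Qi D Al τ A', ¬ Lo (SE M b pr M' u.B u.A e) e →
      Tn (tp τ) ≤ Dsc (ρ e.1) (ρ e.2) (SE M b pr M' u.B u.A e) ∧
      SD (x0 e) (y0 e) (Real.sqrt (Dsc (ρ e.1) (ρ e.2) (SE M b pr M' u.B u.A e))) ≤ 1)
    (h0 : ∀ s e, 0 ≤ Vs s e)
    (hVs : ∀ e ∈ D.PE Rl (D.uA M b pr t A 1) (D.uA M' u.B u.A τ A' 1),
      e ∈ Qi D Al t A ×ˢ Qi D Al τ A' →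
      FL Lo ρ D.γ (SE M b pr M' u.B u.A e) e ≤ Vs (SE M b pr M' u.B u.A e) e) :
    Q Rl (D.uA M b pr t A 1) (D.uA M' u.B u.A τ A' 1) ≤
      (C * K' * Real.exp 2 / 2 * (Ch + 1 / c₀)) *
        ((∑ r ∈ Qi D Al t A, (b : ℝ) * ρ r * dens (P r)) * ∑ j ∈ A', mI d' j) +
      ∑ e ∈ Qi D Al t A ×ˢ Qi D Al τ A',
        (b : ℝ) * u.B * Vs (SE M b pr M' u.B u.A e) e := by
  have hε : 0 < Real.exp (-(2 * (tp τ : ℝ) ^ (1 / 2 : ℝ))) := Real.exp_pos _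
  have hε1 : Real.exp (-(2 * (tp τ : ℝ) ^ (1 / 2 : ℝ))) ≤ 2 := by
    have : Real.exp (-(2 * (tp τ : ℝ) ^ (1 / 2 : ℝ))) ≤ 1 :=
      Real.exp_le_one_iff.2 (by have : (0 : ℝ) ≤ (tp τ : ℝ) ^ (1 / 2 : ℝ) := by positivity
                                linarith)
    linarith
  refine (HL_P' (A := A) (A' := A') hC hC0 hR hdead hM hM' hL'.hb hR'.hb hL'.hF hR'.hF hL'.hW
    hR'.hW ho Rl hε hε1 (by unfold Hn; positivity) (fun q hq => hSB.ih hl q (mem_Qi.1 hq).2.1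
    (mem_Qi.1 hq).1) hJ hN.T4 hN.V hN.V2 hL h0 hVs).trans (add_le_add ?_ le_rfl)
  set X := ∑ r ∈ Qi D Al t A, (b : ℝ) * ρ r * dens (P r) with hX
  have hX0 : 0 ≤ X := Finset.sum_nonneg fun r hr => by
    have := (hR.pos r).le
    have := (dens_pos (ho.pm _ (mem_Qi.1 hr).1)).le
    positivity
  set Y := ∑ j ∈ A', mI d' j with hY
  have hY0 : 0 ≤ Y := Finset.sum_nonneg fun j _ => hnn j
  have h1 : ∑ q ∈ Qi D Al τ A', I (Fq D u.B u.A τ 1 q) ≤ Y := sum_IFq_le hR' hil Al hnn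
  have h2 := SR_le_mass hSB hl hR' hab hc₀ hfull hil hnn hR.pos hCL hp1
  have herr0 : 0 ≤ Ch * ηn (tp τ) + 3 * (Kn (tp τ) : ℕ) *
      Real.exp (-(2 * (tp τ : ℝ) ^ (1 / 2 : ℝ))) := by
    have : 0 ≤ ηn (tp τ) := by unfold ηn; positivity
    positivity
  have h3 : (Ch * ηn (tp τ) + 3 * (Kn (tp τ) : ℕ) *
      Real.exp (-(2 * (tp τ : ℝ) ^ (1 / 2 : ℝ)))) * SR ρ u.B (Qi D Al τ A') ≤ 1 / c₀ * Y := by
    refine (mul_le_mul_of_nonneg_left h2 herr0).trans ?_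
    rw [← mul_assoc]
    exact mul_le_of_le_one_left (by positivity) hN.err
  have hK0 := ho.K0
  have h4 : Ch * ∑ q ∈ Qi D Al τ A', I (Fq D u.B u.A τ 1 q) ≤ Ch * Y :=
    mul_le_mul_of_nonneg_left h1 hCh
  calc X * (C * K' * Real.exp 2 / 2 * (Ch * ∑ q ∈ Qi D Al τ A', I (Fq D u.B u.A τ 1 q) +
        (Ch * ηn (tp τ) + 3 * (Kn (tp τ) : ℕ) *
          Real.exp (-(2 * (tp τ : ℝ) ^ (1 / 2 : ℝ)))) * SR ρ u.B (Qi D Al τ A')))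
      ≤ X * (C * K' * Real.exp 2 / 2 * (Ch * Y + 1 / c₀ * Y)) := by
        refine mul_le_mul_of_nonneg_left (mul_le_mul_of_nonneg_left (add_le_add h4 h3) ?_) hX0
        positivity
    _ = _ := by ring

open Classical in
/-- **(nonleaf, leaf)** with the node facts of the nonleaf side -/
theorem HLsb_P {C : ℝ} (hC : PairO C) (hC0 : 0 ≤ C) (hR : D.Rad ρ)
    (hdead : ∀ j, D.it j ∉ Al → ∀ a, D.om j a = 0) (hM : 0 < M) (hM' : 0 < M')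
    {d' : DT Λ κ} (hR' : SideI D sp u.B u.A τ A d') {A' : Finset Λ}
    (hL' : SideI D sp b' pr' t' A' d) (hSB : SB D ρ Al P' W U CL c₀ Ch u τ) (hl : ¬ isL τ)
    (hab : ∀ j, D.al j ≤ D.be j) (hc₀ : 0 < c₀)
    (hfull : ∀ q ∈ Al, 2 * ρ q ≤ ∑ j ∈ Finset.univ.filter (fun j => D.it j = q), (D.be j - D.al j))
    (hil : IL D.it A) (hnn : ∀ j, 0 ≤ mI d' j) (hCL : 0 ≤ CL) (hp1 : 1 ≤ tp τ)
    (hCh : 0 ≤ Ch) (hN : HLN Ch CL (tp τ)) {K' : ℝ} {P : ℕ → Finset ℕ} {v : ℕ → ℕ → ℤ → ℝ}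
    (ho : OmW D b' pr' t' K' P v) (Rl : Finset (Λ × Λ))
    (hJ : ∀ e ∈ Qi D Al τ A ×ˢ Qi D Al t' A', JC x0 y0 M u.A M' pr' e)
    (hL : ∀ e ∈ Qi D Al τ A ×ˢ Qi D Al t' A', ¬ Lo (SE M u.B u.A M' b' pr' e) e →
      Tn (tp τ) ≤ Dsc (ρ e.1) (ρ e.2) (SE M u.B u.A M' b' pr' e) ∧
      SD (x0 e) (y0 e) (Real.sqrt (Dsc (ρ e.1) (ρ e.2) (SE M u.B u.A M' b' pr' e))) ≤ 1)
    (h0 : ∀ s e, 0 ≤ Vs s e)
    (hVs : ∀ e ∈ D.PE Rl (D.uA M u.B u.A τ A 1) (D.uA M' b' pr' t' A' 1),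
      e ∈ Qi D Al τ A ×ˢ Qi D Al t' A' →
      FL Lo ρ D.γ (SE M u.B u.A M' b' pr' e) e ≤ Vs (SE M u.B u.A M' b' pr' e) e) :
    Q Rl (D.uA M u.B u.A τ A 1) (D.uA M' b' pr' t' A' 1) ≤
      (C * K' * Real.exp 2 / 2 * (Ch + 1 / c₀)) *
        ((∑ j ∈ A, mI d' j) * ∑ r ∈ Qi D Al t' A', (b' : ℝ) * ρ r * dens (P r)) +
      ∑ e ∈ Qi D Al τ A ×ˢ Qi D Al t' A',
        (u.B : ℝ) * b' * Vs (SE M u.B u.A M' b' pr' e) e := by
  have hε : 0 < Real.exp (-(2 * (tp τ : ℝ) ^ (1 / 2 : ℝ))) := Real.exp_pos _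
  have hε1 : Real.exp (-(2 * (tp τ : ℝ) ^ (1 / 2 : ℝ))) ≤ 2 := by
    have : Real.exp (-(2 * (tp τ : ℝ) ^ (1 / 2 : ℝ))) ≤ 1 :=
      Real.exp_le_one_iff.2 (by have : (0 : ℝ) ≤ (tp τ : ℝ) ^ (1 / 2 : ℝ) := by positivity
                                linarith)
    linarith
  refine (HL_P (A := A) (A' := A') hC hC0 hR hdead hM hM' hR'.hb hL'.hb hR'.hF hL'.hF hR'.hW
    hL'.hW ho Rl hε hε1 (by unfold Hn; positivity) (fun q hq => hSB.ih hl q (mem_Qi.1 hq).2.1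
    (mem_Qi.1 hq).1) hJ hN.T4 hN.V hN.V2 hL h0 hVs).trans (add_le_add ?_ le_rfl)
  set X := ∑ r ∈ Qi D Al t' A', (b' : ℝ) * ρ r * dens (P r) with hX
  have hX0 : 0 ≤ X := Finset.sum_nonneg fun r hr => by
    have := (hR.pos r).le
    have := (dens_pos (ho.pm _ (mem_Qi.1 hr).1)).le
    positivity
  set Y := ∑ j ∈ A, mI d' j with hY
  have hY0 : 0 ≤ Y := Finset.sum_nonneg fun j _ => hnn j
  have h1 : ∑ q ∈ Qi D Al τ A, I (Fq D u.B u.A τ 1 q) ≤ Y := sum_IFq_le hR' hil Al hnn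
  have h2 := SR_le_mass hSB hl hR' hab hc₀ hfull hil hnn hR.pos hCL hp1
  have herr0 : 0 ≤ Ch * ηn (tp τ) + 3 * (Kn (tp τ) : ℕ) *
      Real.exp (-(2 * (tp τ : ℝ) ^ (1 / 2 : ℝ))) := by
    have : 0 ≤ ηn (tp τ) := by unfold ηn; positivity
    positivity
  have h3 : (Ch * ηn (tp τ) + 3 * (Kn (tp τ) : ℕ) *
      Real.exp (-(2 * (tp τ : ℝ) ^ (1 / 2 : ℝ)))) * SR ρ u.B (Qi D Al τ A) ≤ 1 / c₀ * Y := by
    refine (mul_le_mul_of_nonneg_left h2 herr0).trans ?_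
    rw [← mul_assoc]
    exact mul_le_of_le_one_left (by positivity) hN.err
  have hK0 := ho.K0
  have h4 : Ch * ∑ q ∈ Qi D Al τ A, I (Fq D u.B u.A τ 1 q) ≤ Ch * Y :=
    mul_le_mul_of_nonneg_left h1 hCh
  calc C * K' * Real.exp 2 / 2 * (Ch * ∑ q ∈ Qi D Al τ A, I (Fq D u.B u.A τ 1 q) +
        (Ch * ηn (tp τ) + 3 * (Kn (tp τ) : ℕ) *
          Real.exp (-(2 * (tp τ : ℝ) ^ (1 / 2 : ℝ)))) * SR ρ u.B (Qi D Al τ A)) * X
      ≤ C * K' * Real.exp 2 / 2 * (Ch * Y + 1 / c₀ * Y) * X := by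
        refine mul_le_mul_of_nonneg_right (mul_le_mul_of_nonneg_left (add_le_add h4 h3) ?_) hX0
        positivity
    _ = _ := by ring

end nodes

/-! ### (leaf, leaf) -/

section ll

open Classical in
/-- **(leaf, leaf')**, relation predicate inside `Vs` -/
theorem LL_P (hL : LoX Lo ρ x0 y0) {T₁ : ℝ} (hT₁ : ∀ s e, ¬ Lo s e → T₁ ≤ Dsc (ρ e.1) (ρ e.2) s)
    (hR : D.Rad ρ) (hdead : ∀ j, D.it j ∉ Al → ∀ a, D.om j a = 0)
    (hM : 0 < M) (hM' : 0 < M') (hb : 0 < b) (hb' : 0 < b') (hF : Fit b pr t) (hF' : Fit b' pr' t')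
    (hW : D.Wts pr t) (hW' : D.Wts pr' t') (R : Finset (Λ × Λ)) (A A' : Finset Λ)
    {K K' : ℝ} (hK : 0 ≤ K) (hK' : 0 ≤ K') {P P' : ℕ → Finset ℕ} {φ φ' : ℕ → ℝ}
    {lab lab' : ℕ → Option ℚ}
    (ho : ∀ q ∈ Qi D Al t A, mp t q = 1 ∧ OmL D ρ b pr q K (P q) (φ q) (lab q))
    (ho' : ∀ q ∈ Qi D Al t' A', mp t' q = 1 ∧ OmL D ρ b' pr' q K' (P' q) (φ' q) (lab' q))
    (hJ : ∀ e ∈ Qi D Al t A ×ˢ Qi D Al t' A', JC x0 y0 M pr M' pr' e) {T₂ : ℝ} (hT₂ : 0 ≤ T₂)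
    (hd : ∀ e ∈ Qi D Al t A ×ˢ Qi D Al t' A', 1 ≤ T₂ * (T₁ * (dens (P e.1) * dens (P' e.2))))
    (h0 : ∀ s e, 0 ≤ Vs s e)
    (hVs : ∀ e ∈ D.PE R (D.uA M b pr t A 1) (D.uA M' b' pr' t' A' 1),
      e ∈ Qi D Al t A ×ˢ Qi D Al t' A' →
      FL Lo ρ D.γ (SE M b pr M' b' pr' e) e ≤ Vs (SE M b pr M' b' pr' e) e) :
    Q R (D.uA M b pr t A 1) (D.uA M' b' pr' t' A' 1) ≤
      K * K' * (CLL * Real.exp 2 + 2 * T₂) * ((∑ q ∈ Qi D Al t A, (b : ℝ) * ρ q * dens (P q)) *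
        ∑ r ∈ Qi D Al t' A', (b' : ℝ) * ρ r * dens (P' r)) +
      ∑ e ∈ Qi D Al t A ×ˢ Qi D Al t' A',
        (b : ℝ) * b' * Vs (SE M b pr M' b' pr' e) e := by
  have hb1 : (b : ℝ) / (1 : ℕ) = b := by simp
  have hb1' : (b' : ℝ) / (1 : ℕ) = b' := by simp
  have key := ll_block hR hdead hM hM' hb hb' hF hF' hW hW' R A A' hK hK' ho ho'
    (Pw := fun e => e ∈ D.PE R (D.uA M b pr t A 1) (D.uA M' b' pr' t' A' 1))
    (Lo := fun e => Lo (SE M b pr M' b' pr' e) e) (T := Real.exp 2) (T₂ := T₂)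
    (Real.exp_pos 2).le hT₂ (fun _ h => h)
    (fun e he _ hn => by
      obtain ⟨k1, k2⟩ := good_pair hL hb1 hb1' rfl hn (hJ e he)
      refine ⟨k1, k2, ?_⟩
      have hm := Finset.mem_product.1 he
      have d1 : 0 < dens (P e.1) := dens_pos fun l hl =>
        Nat.prime_of_mem_primeFactors ((ho _ hm.1).2.sub hl)
      have d2 : 0 < dens (P' e.2) := dens_pos fun l hl =>
        Nat.prime_of_mem_primeFactors ((ho' _ hm.2).2.sub hl)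
      have hD : DaI ρ M b pr 1 M' b' pr' 1 e = Dsc (ρ e.1) (ρ e.2) (SE M b pr M' b' pr' e) := by
        unfold DaI
        rw [hb1, hb1']
        exact Crest.Agent.R4.CrossInv709.Da_eq_sc (e.1 / pr) M (e.2 / pr') M' b b' (ρ e.1) (ρ e.2)
      have h1 := hT₁ _ e hn
      rw [← hD] at h1
      refine (hd e he).trans (mul_le_mul_of_nonneg_left ?_ hT₂)
      exact mul_le_mul_of_nonneg_right h1 (mul_pos d1 d2).le)
  refine key.trans (add_le_add le_rfl ?_)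
  refine sum_lo_le (fun e => mul_nonneg (by positivity) (h0 _ _)) fun e he h1 h2 => ?_
  rw [pb_one]
  have h3 := hVs e h1 he
  unfold vE
  unfold FL at h3
  rw [if_pos ⟨h2, SE_pos M b pr M' b' pr' e⟩] at h3
  exact mul_le_mul_of_nonneg_left h3 (by positivity)

open Crest.Agent.R4P.WalkC
variable [WRel κ] {sp : ℕ → Finset Λ}

open Classical in
/-- the same when the product part is paid by `B μ μ'` -/
theorem LLXs_P (hL : LoX Lo ρ x0 y0) {T₁ : ℝ} (hT₁ : ∀ s e, ¬ Lo s e → T₁ ≤ Dsc (ρ e.1) (ρ e.2) s)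
    (hR : D.Rad ρ) (hdead : ∀ j, D.it j ∉ Al → ∀ a, D.om j a = 0) {s : St Λ κ}
    (h : StI D sp s b pr t b' pr' t')
    {K K' : ℝ} (hK : 0 ≤ K) (hK' : 0 ≤ K') {P P' : ℕ → Finset ℕ} {φ φ' : ℕ → ℝ}
    {lab lab' : ℕ → Option ℚ}
    (ho : ∀ q ∈ Qi D Al t s.A, mp t q = 1 ∧ OmL D ρ b pr q K (P q) (φ q) (lab q))
    (ho' : ∀ q ∈ Qi D Al t' s.A', mp t' q = 1 ∧ OmL D ρ b' pr' q K' (P' q) (φ' q) (lab' q))
    (hJ : ∀ e ∈ Qi D Al t s.A ×ˢ Qi D Al t' s.A', JC x0 y0 s.M pr s.M' pr' e) {T₂ : ℝ}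
    (hT₂ : 0 ≤ T₂)
    (hd : ∀ e ∈ Qi D Al t s.A ×ˢ Qi D Al t' s.A', 1 ≤ T₂ * (T₁ * (dens (P e.1) * dens (P' e.2))))
    (h0 : ∀ s e, 0 ≤ Vs s e)
    (hVs : ∀ e ∈ D.PE s.R (D.uA s.M b pr t s.A 1) (D.uA s.M' b' pr' t' s.A' 1),
      e ∈ Qi D Al t s.A ×ˢ Qi D Al t' s.A' →
      FL Lo ρ D.γ (SE s.M b pr s.M' b' pr' e) e ≤ Vs (SE s.M b pr s.M' b' pr' e) e)
    {μ : TrG Λ κ → Finset Λ → ℝ} {B : ℝ}
    (hB : K * K' * (CLL * Real.exp 2 + 2 * T₂) *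
        ((∑ q ∈ Qi D Al t s.A, (b : ℝ) * ρ q * dens (P q)) *
        ∑ r ∈ Qi D Al t' s.A', (b' : ℝ) * ρ r * dens (P' r)) ≤ B * (μ s.t.g s.A * μ s.t'.g s.A')) :
    Xs μ B s ≤ ∑ e ∈ Qi D Al t s.A ×ˢ Qi D Al t' s.A',
        (b : ℝ) * b' * Vs (SE s.M b pr s.M' b' pr' e) e := by
  have key := LL_P hL hT₁ hR hdead h.M0 h.M0' h.L.hb h.R.hb h.L.hF h.R.hF h.L.hW h.R.hW s.R s.A
    s.A' hK hK' ho ho' hJ hT₂ hd h0 hVs
  rw [← Qs_Q h] at key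
  unfold Xs
  refine max_le (Finset.sum_nonneg fun e _ => mul_nonneg (by positivity) (h0 _ _)) ?_
  linarith

end ll

/-! ### contexts -/

section ctx
open Crest.Agent.R4P.Skel189 Crest.Agent.R4P.LLCtx30
open Crest.Agent.R4P.Bld532 (NS All NodeOk Bk)
open Crest.Agent.R4P.Data758
open Crest.Agent.R4.Ovl560 (CM)
open Crest.Agent.R4P.Frame758 (wt)
open Crest.Agent.R4P

variable {N : Skel189.Num} {γ : ℝ} {p0 P₀ : ℕ}

open Classical in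
/-- **(leaf, leaf') state of a context**, relation predicate inside `Vs`; any `sp` (also stripped trees) -/
theorem ctx_LL_P {X : Ctx N γ p0 P₀} {j₀ : X.c.Lam} {B : ℝ} {sp : ℕ → Finset X.c.Lam}
    (hB : 4 * (CLL * Real.exp 2 + 2 * (4 * CM ^ 2)) ≤ B) {s : X.Sta} {u u' : NS} {S S' : Finset ℕ}
    (hl : LfA X X.Y u S) (hl' : LfA X X.Y u' S')
    (h : StI (X.c.D.par X.Y) sp s u.B u.A (.leaf S) u'.B u'.A (.leaf S'))
    (hA : IL X.c.D.it s.A) (hA' : IL X.c.D.it s.A')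
    (htm : TmN X j₀ u (.leaf S)) (htm' : TmN X j₀ u' (.leaf S'))
    {x : ℝ} (hx : 2 ≤ x) (hX : ∀ l : ℕ, l.Prime → l < u.n → (l : ℝ) ≤ x)
    (hX' : ∀ l : ℕ, l.Prime → l < u'.n → (l : ℝ) ≤ x)
    {Lo : ℝ × ℝ → ℕ × ℕ → Prop} {x0 y0 : ℕ × ℕ → ℕ} (hL : LoX Lo X.c.rr x0 y0)
    (hT : ∀ z e, ¬ Lo z e → Real.log x ^ 2 ≤ Dsc (X.c.rr e.1) (X.c.rr e.2) z)
    (hJ : ∀ e ∈ Qi (X.c.D.par X.Y) X.S' (.leaf S) s.A ×ˢ Qi (X.c.D.par X.Y) X.S' (.leaf S') s.A',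
      JC x0 y0 s.M u.A s.M' u'.A e)
    {Vs : ℝ × ℝ → ℕ × ℕ → ℝ} (h0 : ∀ s e, 0 ≤ Vs s e)
    (hVs : ∀ e ∈ (X.c.D.par X.Y).PE s.R ((X.c.D.par X.Y).uA s.M u.B u.A (.leaf S) s.A 1)
      ((X.c.D.par X.Y).uA s.M' u'.B u'.A (.leaf S') s.A' 1),
      e ∈ Qi (X.c.D.par X.Y) X.S' (.leaf S) s.A ×ˢ Qi (X.c.D.par X.Y) X.S' (.leaf S') s.A' →
      FL Lo X.c.rr X.c.γ (SE s.M u.B u.A s.M' u'.B u'.A e) e ≤
        Vs (SE s.M u.B u.A s.M' u'.B u'.A e) e) :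
    Xs (X.tm j₀) B s ≤
      ∑ e ∈ Qi (X.c.D.par X.Y) X.S' (.leaf S) s.A ×ˢ Qi (X.c.D.par X.Y) X.S' (.leaf S') s.A',
        (u.B : ℝ) * u'.B * Vs (SE s.M u.B u.A s.M' u'.B u'.A e) e := by
  have side : ∀ {u : NS} {τ : IT} (h : TmN X j₀ u τ)
      {A : Finset X.c.Lam} {d : DT X.c.Lam (Lb (WL X.c.Lam) X.Y)}
      (k : SideI (X.c.D.par X.Y) sp u.B u.A τ A d),
      X.tm j₀ d.g A = u.c * ∑ j ∈ A.filter (fun j => X.c.D.it j ∈ τ.items), wt X.c.D j := by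
    intro u τ h A d k
    rw [← h A, k.eq, (X.c.D.par X.Y).toDT_g]
    rfl
  have hm := side htm h.L
  have hm' := side htm' h.R
  have hR := X.ok.rad X.Y
  have hdead : ∀ j, (X.c.D.par X.Y).it j ∉ X.S' → ∀ a, (X.c.D.par X.Y).om j a = 0 :=
    fun j hj a => X.om_zero hj _ a
  have hlog : 0 < Real.log x := Real.log_pos (by linarith)
  have hCM : 0 < CM := Crest.Agent.R4.Ovl560.CM_pos
  have hpd : ∀ v : ℕ, 0 < dens v.primeFactors := fun v =>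
    dens_pos fun l hl => Nat.prime_of_mem_primeFactors hl
  have ma := lf_mass hl hA
  have ma' := lf_mass hl' hA'
  refine LLXs_P hL hT hR hdead h (K := 2) (K' := 2) (by norm_num) (by norm_num)
    (P := fun q => (q / u.A).primeFactors) (P' := fun q => (q / u'.A).primeFactors)
    (φ := phC X) (φ' := phC X) (lab := labC X) (lab' := labC X)
    (fun q hq => ⟨rfl, hl.om q (mem_Qi_leaf hq).1 (mem_Qi_leaf hq).2⟩)
    (fun q hq => ⟨rfl, hl'.om q (mem_Qi_leaf hq).1 (mem_Qi_leaf hq).2⟩) hJ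
    (T₂ := 4 * CM ^ 2) (by positivity) (fun e he => ?_) h0 hVs ?_
  · obtain ⟨h1, h2⟩ := Finset.mem_product.1 he
    have k1 := hl.ds e.1 (mem_Qi_leaf h1).1 (mem_Qi_leaf h1).2 x hx hX
    have k2 := hl'.ds e.2 (mem_Qi_leaf h2).1 (mem_Qi_leaf h2).2 x hx hX'
    have k3 := mul_le_mul k1 k2 zero_le_one (by linarith)
    rw [mul_one] at k3
    refine k3.trans (le_of_eq ?_)
    ring
  · have e1 : ∀ (u : NS) (S : Finset ℕ) (A : Finset X.c.Lam),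
        0 ≤ ∑ q ∈ Qi (X.c.D.par X.Y) X.S' (.leaf S) A,
          (u.B : ℝ) * X.c.rr q * dens (q / u.A).primeFactors := fun u S A =>
      Finset.sum_nonneg fun q _ =>
        mul_nonneg (mul_nonneg (Nat.cast_nonneg _) (hR.pos q).le) (hpd _).le
    have hC := CLL_ge
    have k1 := mul_le_mul ma ma' (e1 _ _ _) ((e1 _ _ _).trans ma)
    rw [← hm, ← hm'] at k1
    have k2 : 0 ≤ X.tm j₀ s.t.g s.A * X.tm j₀ s.t'.g s.A' :=
      le_trans (mul_nonneg (e1 _ _ _) (e1 _ _ _)) k1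
    have k3 : 0 ≤ 4 * (CLL * Real.exp 2 + 2 * (4 * CM ^ 2)) := by positivity
    calc 2 * 2 * (CLL * Real.exp 2 + 2 * (4 * CM ^ 2)) * _
        ≤ 2 * 2 * (CLL * Real.exp 2 + 2 * (4 * CM ^ 2)) *
          (X.tm j₀ s.t.g s.A * X.tm j₀ s.t'.g s.A') :=
          mul_le_mul_of_nonneg_left k1 (by positivity)
      _ ≤ B * (X.tm j₀ s.t.g s.A * X.tm j₀ s.t'.g s.A') := by
          refine mul_le_mul_of_nonneg_right ?_ k2
          linarith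

end ctx

end Crest.Agent.R4P.EndP25
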