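import Crest.Agent.R4P.Res927
import Crest.Agent.R4P.ResRow198

/-!
R4 (S0004) with powers, helper198 (after helper245, helper864): **walk sums of the one-sided columns**
(WS part of `eOS`) and the STOP RULE, for the walk of `R4P/Walk560`, `R4P/Res927`.

* `OSL x`, `OSR x` : genuine one-sided columns (`osL`, `osR` of `OSO198`); `OI` : invariant
  `mO s ≤ 2 p0 ^ (-1/3)`, the one-sided columns are `≥ x.s.p`, the trees have columns `≥ p0`, inside a chain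
  the settled mass is `≤ p ^ (-1/3)`.  The stop rule is `stpN` (large mass, fresh column).
* `Bud` : costs `a` of the items of one side with a budget `B`: `a j x + B j y ≤ B j x` along the item
  walk; `budR_W`, `budL_W`, `bud_total`: `loc ≤ ∑ m a + ∑ m' a'` ⟹ `WS loc ≤ ∑ m B + ∑ m' B'`.
* budgets: `gen` (generic, `β p ≤ K p ^ (-11/12)` at every one-sided column, total `4 K p0 ^ (-1/4)`),
  `tie` (the item misses the tie `p`: `∑_{q ∈ mtD} ε q`), `up` (`p` is an up prime of the item: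
  `∑_{q ∈ upD} ε' q`), `ret` (a static finite set `re j` of primes of the item:
  `∑_{q ∈ re j, q ≤ p} ε'' q`), `geo` (`∏` over the earlier settled one-sided columns `l` with
  `¬ du l j`, total `2 ε₀`), `once`.
* `du : ℕ → Λ → Prop` is static (the prime is retained in the item), `dv` is the node predicate.
* `WS_eOS` : everything together.
-/

set_option autoImplicit false
set_option linter.unusedSectionVars false
set_option linter.unusedVariables false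
set_option linter.unusedSimpArgs false

namespace Crest.Agent.R4P.OSWS245

open Crest.Agent.R4.Tour104 Crest.Agent.R4.Tour758 Crest.Agent.R4.Avg758 Crest.Agent.R4.Clos758
open Crest.Agent.R4.ClosL758 Crest.Agent.R4.ClosG758 Crest.Agent.R4.ClosR758
open Crest.Agent.R4P.ClosR442 Crest.Agent.R4P.Walk560 Crest.Agent.R4P.Res927

variable {Λ κ : Type*} [Fintype Λ] [DecidableEq Λ] [Fintype κ] [DecidableEq κ] [WRel κ]
  {stp : Stp Λ κ} {dv : DT Λ κ → Λ → Prop} {du : ℕ → Λ → Prop} {m : DT Λ κ → Λ → ℝ} {p0 : ℕ}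

/-! ### numbers -/

lemma pow34 {a b : ℝ} (ha : 0 ≤ a) (hab : a < b) :
    a ^ (3/4 : ℝ) + 3/4 * (b - a) * b ^ (-(1/4) : ℝ) ≤ b ^ (3/4 : ℝ) := by
  have hb : 0 < b := ha.trans_lt hab
  have h1 : (1 + (a / b - 1)) ^ (3/4 : ℝ) ≤ 1 + 3/4 * (a / b - 1) := by
    refine rpow_one_add_le_one_add_mul_self ?_ (by norm_num) (by norm_num)
    have : 0 ≤ a / b := by positivity
    linarith
  have e1 : (1 + (a / b - 1)) = a / b := by ring
  rw [e1, Real.div_rpow ha hb.le] at h1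
  have hb34 : 0 < b ^ (3/4 : ℝ) := Real.rpow_pos_of_pos hb _
  rw [div_le_iff₀ hb34] at h1
  have e2 : b ^ (3/4 : ℝ) = b * b ^ (-(1/4) : ℝ) := by
    nth_rewrite 2 [← Real.rpow_one b]
    rw [← Real.rpow_add hb]; norm_num
  have e3 : (1 + 3/4 * (a / b - 1)) * b ^ (3/4 : ℝ) =
      b ^ (3/4 : ℝ) - 3/4 * (b - a) * b ^ (-(1/4) : ℝ) := by
    rw [e2]; field_simp; ring
  linarith

lemma two_quarter : (2/3 : ℝ) ≤ (2:ℝ) ^ (-(1/4) : ℝ) := by
  have h : ((2:ℝ) ^ (-(1/4) : ℝ)) ^ (4:ℕ) = 1/2 := by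
    rw [← Real.rpow_natCast, ← Real.rpow_mul (by norm_num)]
    norm_num
  have h0 : 0 ≤ (2:ℝ) ^ (-(1/4) : ℝ) := by positivity
  by_contra hc
  push Not at hc
  have := pow_lt_pow_left₀ hc h0 (n := 4) (by norm_num)
  rw [h] at this
  norm_num at this

lemma num1 {x u : ℝ} (hx : 1 ≤ x) (hu : 0 ≤ u) (hux : u ≤ x ^ (-(1/3) : ℝ)) :
    x ^ (-(11/12) : ℝ) + 2 * u ^ (3/4 : ℝ) ≤ 2 * (u + 1 / x) ^ (3/4 : ℝ) := by
  have hx0 : 0 < x := by linarith
  have h1 : 0 < 1 / x := by positivity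
  have h2 : 1 / x ≤ x ^ (-(1/3) : ℝ) := by
    rw [one_div, ← Real.rpow_neg_one]
    exact Real.rpow_le_rpow_of_exponent_le hx (by norm_num)
  have hb : u + 1 / x ≤ 2 * x ^ (-(1/3) : ℝ) := by linarith
  have hb0 : 0 < u + 1 / x := by linarith
  have h3 := pow34 hu (by linarith : u < u + 1 / x)
  have h4 : (2 * x ^ (-(1/3) : ℝ)) ^ (-(1/4) : ℝ) ≤ (u + 1 / x) ^ (-(1/4) : ℝ) :=
    Real.rpow_le_rpow_of_nonpos hb0 hb (by norm_num)
  have h5 : (2 * x ^ (-(1/3) : ℝ)) ^ (-(1/4) : ℝ) = (2:ℝ) ^ (-(1/4) : ℝ) * x ^ (1/12 : ℝ) := by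
    rw [Real.mul_rpow (by norm_num) (by positivity), ← Real.rpow_mul hx0.le]
    norm_num
  have h6 : x ^ (-(11/12) : ℝ) = 1 / x * x ^ (1/12 : ℝ) := by
    rw [one_div, ← Real.rpow_neg_one, ← Real.rpow_add hx0]; norm_num
  have h7 := two_quarter
  have h8 : 0 < x ^ (1/12 : ℝ) := Real.rpow_pos_of_pos hx0 _
  rw [h5] at h4
  have h9 : u + 1 / x - u = 1 / x := by ring
  rw [h9] at h3
  have h10 : 2/3 * x ^ (1/12 : ℝ) ≤ (u + 1 / x) ^ (-(1/4) : ℝ) :=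
    (mul_le_mul_of_nonneg_right h7 h8.le).trans h4
  have h11 := mul_le_mul_of_nonneg_left h10 (by positivity : 0 ≤ 3/4 * (1/x))
  rw [h6]
  nlinarith

lemma num2 {x u : ℝ} (hx : 1 ≤ x) (hu : 0 ≤ u) (hux : u ≤ 2 * x ^ (-(1/3) : ℝ)) :
    u ^ (3/4 : ℝ) ≤ 2 * x ^ (-(1/4) : ℝ) := by
  have hx0 : 0 < x := by linarith
  refine (Real.rpow_le_rpow hu hux (by norm_num)).trans ?_
  rw [Real.mul_rpow (by norm_num) (by positivity), ← Real.rpow_mul hx0.le]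
  have h1 : (2:ℝ) ^ (3/4 : ℝ) ≤ 2 := by
    nth_rewrite 2 [← Real.rpow_one 2]
    exact Real.rpow_le_rpow_of_exponent_le (by norm_num) (by norm_num)
  have h2 : -(1/3 : ℝ) * (3/4) = -(1/4) := by norm_num
  rw [h2]
  exact mul_le_mul_of_nonneg_right h1 (by positivity)

/-! ### the invariant -/

/-- the column of `x` is a genuine tie of the left side only -/
abbrev OSL (x : XSt Λ κ) : Prop := osL x.s

/-- the column of `x` is a genuine tie of the right side only -/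
abbrev OSR (x : XSt Λ κ) : Prop := osR x.s

/-- every column of the tree is at least `p0` -/
def TopGe (p0 : ℕ) (d : DT Λ κ) : Prop := ¬ d.isLeaf → p0 ≤ d.top

/-- the one-sided columns along a step -/
lemma steps_O {x : XSt Λ κ} (hX : XI x) : ∀ e ∈ steps stp dv x, OStep x.s e.y.s := by
  intro e he
  have : (e.a * e.a', e.y.s) ∈ nxt stp x.s := by
    rw [← steps_proj stp dv x]
    exact List.mem_map.2 ⟨e, he, rfl⟩
  exact nxt_OStep hX.cL hX.cR _ this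

/-- invariant of the one-sided columns -/
structure OI (p0 : ℕ) (x : XSt Λ κ) : Prop where
  ge : OGe x.s
  mO : mO x.s ≤ 2 * (p0 : ℝ) ^ (-(1/3) : ℝ)
  tL : x.s.t.All (TopGe p0)
  tR : x.s.t'.All (TopGe p0)
  ch : x.s.p ∈ x.s.O ∪ x.s.O' → mS x.s < (x.s.p : ℝ) ^ (-(1/3) : ℝ)

lemma OI.p_ge {x : XSt Λ κ} (h : OI p0 x) (hl : ¬ (x.s.t.isLeaf ∨ x.s.t'.isLeaf)) :
    p0 ≤ x.s.p := by
  rw [not_or] at hl
  exact (h.tL.self hl.1).trans (le_max_left _ _)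

/-- the settled mass at a state which is not stopped -/
lemma OI.mS_le {x : XSt Λ κ} (h : OI p0 x) (hs : ¬ stpN x.s) :
    mS x.s ≤ (x.s.p : ℝ) ^ (-(1/3) : ℝ) := by
  by_cases hp : x.s.p ∈ x.s.O ∪ x.s.O'
  · exact (h.ch hp).le
  · exact (OSWS245.mS_le x.s).trans (mO_le_of_notN hs hp)

lemma OI.mS_lt {x : XSt Λ κ} (h : OI p0 x) (hs : ¬ stpN x.s) (h0 : 0 < x.s.p) :
    mS x.s < (x.s.p : ℝ) ^ (-(1/3) : ℝ) := by
  by_cases hp : x.s.p ∈ x.s.O ∪ x.s.O'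
  · exact h.ch hp
  · exact (OSWS245.mS_le x.s).trans_lt (mO_lt_of_notN hs hp h0)

lemma OI.next (hp0 : 1 ≤ p0) (hst : ∀ s : St Λ κ, ¬ stp s → ¬ stpN s) {x : XSt Λ κ} (hX : XI x)
    (h : OI p0 x) : ∀ e ∈ steps stp dv x, OI p0 e.y := by
  intro e he
  obtain ⟨h1, h2⟩ := steps_act he
  have hpp := h.p_ge h1
  have hs := steps_O hX e he
  have hA := steps_all (stp := stp) (dv := dv) h.tL h.tR e he
  have h3 := h.mS_le (hst _ h2)
  refine ⟨h.ge.next hs, ?_, hA.1, hA.2, fun hm => ?_⟩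
  · have hx1 : (1:ℝ) ≤ x.s.p := by exact_mod_cast hp0.trans hpp
    have hx0 : (0:ℝ) < x.s.p := by linarith
    have h4 : 1 / (x.s.p : ℝ) ≤ (x.s.p : ℝ) ^ (-(1/3) : ℝ) := by
      rw [one_div, ← Real.rpow_neg_one]
      exact Real.rpow_le_rpow_of_exponent_le hx1 (by norm_num)
    have h5 : (x.s.p : ℝ) ^ (-(1/3) : ℝ) ≤ (p0 : ℝ) ^ (-(1/3) : ℝ) :=
      Real.rpow_le_rpow_of_nonpos (by exact_mod_cast hp0) (by exact_mod_cast hpp) (by norm_num)
    have h6 := mO_next' h.ge hs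
    linarith
  · have hpe : e.y.s.p = x.s.p := by
      refine le_antisymm hs.pe ?_
      rcases Finset.mem_insert.1 (hs.sub hm) with k | k
      · exact k.ge
      · exact h.ge _ k
    rw [mS_same h.ge hs hpe, hpe]
    exact h.mS_lt (hst _ h2) (hp0.trans hpp)

/-- the joint invariant -/
structure IX (p0 : ℕ) (dv : DT Λ κ → Λ → Prop) (m : DT Λ κ → Λ → ℝ) (x : XSt Λ κ) : Prop where
  tc : TC dv m x
  xi : XI x
  oi : OI p0 x

lemma IX.next (hp0 : 1 ≤ p0) (hst : ∀ s : St Λ κ, ¬ stp s → ¬ stpN s) {x : XSt Λ κ}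
    (h : IX p0 dv m x) : ∀ e ∈ steps stp dv x, IX p0 dv m e.y :=
  fun e he => ⟨h.tc.next e he, h.xi.next e he, h.oi.next hp0 hst h.xi e he⟩

/-! ### budgets -/

/-- a budget for costs of the right items -/
def BudR (stp : Stp Λ κ) (p0 : ℕ) (dv : DT Λ κ → Λ → Prop) (m : DT Λ κ → Λ → ℝ)
    (I : XSt Λ κ → Prop) (a B : Λ → XSt Λ κ → ℝ) : Prop :=
  ∀ j x, I x → IX p0 dv m x → 0 ≤ a j x ∧ a j x ≤ B j x ∧
    ∀ e ∈ steps stp dv x, e.f' j → a j x + B j e.y ≤ B j x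

/-- a budget for costs of the left items -/
def BudL (stp : Stp Λ κ) (p0 : ℕ) (dv : DT Λ κ → Λ → Prop) (m : DT Λ κ → Λ → ℝ)
    (I : XSt Λ κ → Prop) (a B : Λ → XSt Λ κ → ℝ) : Prop :=
  ∀ j x, I x → IX p0 dv m x → 0 ≤ a j x ∧ a j x ≤ B j x ∧
    ∀ e ∈ steps stp dv x, e.f j → a j x + B j e.y ≤ B j x

section bud
variable {I : XSt Λ κ → Prop} {a B a' B' : Λ → XSt Λ κ → ℝ}

lemma BudR.add (h : BudR stp p0 dv m I a B) (h' : BudR stp p0 dv m I a' B') :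
    BudR stp p0 dv m I (fun j x => a j x + a' j x) (fun j x => B j x + B' j x) := by
  intro j x hx hX
  obtain ⟨h1, h2, h3⟩ := h j x hx hX
  obtain ⟨k1, k2, k3⟩ := h' j x hx hX
  exact ⟨by linarith, by linarith, fun e he hf => by
    have := h3 e he hf
    have := k3 e he hf
    linarith⟩

lemma BudL.add (h : BudL stp p0 dv m I a B) (h' : BudL stp p0 dv m I a' B') :
    BudL stp p0 dv m I (fun j x => a j x + a' j x) (fun j x => B j x + B' j x) := by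
  intro j x hx hX
  obtain ⟨h1, h2, h3⟩ := h j x hx hX
  obtain ⟨k1, k2, k3⟩ := h' j x hx hX
  exact ⟨by linarith, by linarith, fun e he hf => by
    have := h3 e he hf
    have := k3 e he hf
    linarith⟩

/-- a smaller cost -/
lemma BudR.mono (h : BudR stp p0 dv m I a B) (h0 : ∀ j x, 0 ≤ a' j x)
    (h1 : ∀ j x, I x → IX p0 dv m x → a' j x ≤ a j x) : BudR stp p0 dv m I a' B := by
  intro j x hx hX
  obtain ⟨k1, k2, k3⟩ := h j x hx hX
  have := h1 j x hx hX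
  exact ⟨h0 j x, by linarith, fun e he hf => by
    have := k3 e he hf
    linarith⟩

lemma BudL.mono (h : BudL stp p0 dv m I a B) (h0 : ∀ j x, 0 ≤ a' j x)
    (h1 : ∀ j x, I x → IX p0 dv m x → a' j x ≤ a j x) : BudL stp p0 dv m I a' B := by
  intro j x hx hX
  obtain ⟨k1, k2, k3⟩ := h j x hx hX
  have := h1 j x hx hX
  exact ⟨h0 j x, by linarith, fun e he hf => by
    have := k3 e he hf
    linarith⟩

/-- the walk sum of costs of the right items -/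
theorem budR_W (hp0 : 1 ≤ p0) (hst : ∀ s : St Λ κ, ¬ stp s → ¬ stpN s)
    (hI : ∀ x, I x → ∀ e ∈ steps stp dv x, I e.y) (h : BudR stp p0 dv m I a B)
    {loc : XSt Λ κ → ℝ}
    (hl : ∀ x, I x → IX p0 dv m x → loc x ≤ ∑ j ∈ x.s.A', m x.s.t' j * a j x) :
    ∀ x, I x → IX p0 dv m x → W (nxH stp dv) XSt.rank loc x ≤ ∑ j ∈ x.s.A', m x.s.t' j * B j x := by
  classical
  intro x hx hX
  have hIn : ∀ y : XSt Λ κ, (I y ∧ IX p0 dv m y) → ∀ e ∈ steps stp dv y, I e.y ∧ IX p0 dv m e.y :=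
    fun y hy e he => ⟨hI y hy.1 e he, hy.2.next hp0 hst e he⟩
  have h1 := res_right (stp := stp) (dv := dv) (m := m) (I := fun y => I y ∧ IX p0 dv m y) hIn
    (loc := loc) (c := fun j y => max 0 (a j y)) (fun j y => le_max_left _ _)
    (fun y hy hty => (hl y hy.1 hy.2).trans (Finset.sum_le_sum fun j _ =>
      mul_le_mul_of_nonneg_left (le_max_right _ _) (hty.R.self.nn j))) x ⟨hx, hX⟩ hX.tc
  refine h1.trans (Finset.sum_le_sum fun j _ => ?_)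
  refine mul_le_mul_of_nonneg_left ?_ (hX.tc.R.self.nn j)
  refine W_le_super (nxJ_rank stp dv j) (Inv := fun y => I y ∧ IX p0 dv m y)
      (fun y hy q hq => ?_) (Φ := B j) (fun y hy => ?_) x ⟨hx, hX⟩
  · obtain ⟨e, he, -, rfl⟩ := mem_nxJ hq
    exact ⟨hIn y hy e he, (steps_w hy.2.tc.wL hy.2.tc.wR e he).1.le⟩
  · obtain ⟨k1, k2, k3⟩ := h j y hy.1 hy.2
    have hw : ((nxJ stp dv j y).map fun q => q.1).sum ≤ 1 :=
      row_le_right hy.2.tc.wL hy.2.tc.wR j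
    have hnn : ∀ q ∈ nxJ stp dv j y, 0 ≤ q.1 := by
      intro q hq
      obtain ⟨e, he, -, rfl⟩ := mem_nxJ hq
      exact (steps_w hy.2.tc.wL hy.2.tc.wR e he).1.le
    have e1 : ((nxJ stp dv j y).map fun q => q.1 * B j q.2).sum ≤
        ((nxJ stp dv j y).map fun q => q.1 * (B j y - a j y)).sum := by
      refine List.sum_le_sum fun q hq => ?_
      refine mul_le_mul_of_nonneg_left ?_ (hnn q hq)
      obtain ⟨e, he, hf, rfl⟩ := mem_nxJ hq
      have := k3 e he hf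
      linarith
    have e4 : ((nxJ stp dv j y).map fun q => q.1 * (B j y - a j y)).sum =
        ((nxJ stp dv j y).map fun q => q.1).sum * (B j y - a j y) := List.sum_map_mul_right _ _ _
    rw [e4] at e1
    have e5 := mul_le_mul_of_nonneg_right hw (by linarith : 0 ≤ B j y - a j y)
    show max 0 (a j y) + _ ≤ _
    rw [max_eq_right k1]
    linarith

/-- the walk sum of costs of the left items -/
theorem budL_W (hp0 : 1 ≤ p0) (hst : ∀ s : St Λ κ, ¬ stp s → ¬ stpN s)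
    (hI : ∀ x, I x → ∀ e ∈ steps stp dv x, I e.y) (h : BudL stp p0 dv m I a B)
    {loc : XSt Λ κ → ℝ}
    (hl : ∀ x, I x → IX p0 dv m x → loc x ≤ ∑ j ∈ x.s.A, m x.s.t j * a j x) :
    ∀ x, I x → IX p0 dv m x → W (nxH stp dv) XSt.rank loc x ≤ ∑ j ∈ x.s.A, m x.s.t j * B j x := by
  classical
  intro x hx hX
  have hIn : ∀ y : XSt Λ κ, (I y ∧ IX p0 dv m y) → ∀ e ∈ steps stp dv y, I e.y ∧ IX p0 dv m e.y :=
    fun y hy e he => ⟨hI y hy.1 e he, hy.2.next hp0 hst e he⟩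
  have h1 := res_left (stp := stp) (dv := dv) (m := m) (I := fun y => I y ∧ IX p0 dv m y) hIn
    (loc := loc) (c := fun j y => max 0 (a j y)) (fun j y => le_max_left _ _)
    (fun y hy hty => (hl y hy.1 hy.2).trans (Finset.sum_le_sum fun j _ =>
      mul_le_mul_of_nonneg_left (le_max_right _ _) (hty.L.self.nn j))) x ⟨hx, hX⟩ hX.tc
  refine h1.trans (Finset.sum_le_sum fun j _ => ?_)
  refine mul_le_mul_of_nonneg_left ?_ (hX.tc.L.self.nn j)
  refine W_le_super (nxI_rank stp dv j) (Inv := fun y => I y ∧ IX p0 dv m y)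
      (fun y hy q hq => ?_) (Φ := B j) (fun y hy => ?_) x ⟨hx, hX⟩
  · obtain ⟨e, he, -, rfl⟩ := mem_nxI hq
    exact ⟨hIn y hy e he, (steps_w hy.2.tc.wL hy.2.tc.wR e he).2.le⟩
  · obtain ⟨k1, k2, k3⟩ := h j y hy.1 hy.2
    have hw : ((nxI stp dv j y).map fun q => q.1).sum ≤ 1 :=
      row_le_left hy.2.tc.wL hy.2.tc.wR j
    have hnn : ∀ q ∈ nxI stp dv j y, 0 ≤ q.1 := by
      intro q hq
      obtain ⟨e, he, -, rfl⟩ := mem_nxI hq
      exact (steps_w hy.2.tc.wL hy.2.tc.wR e he).2.le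
    have e1 : ((nxI stp dv j y).map fun q => q.1 * B j q.2).sum ≤
        ((nxI stp dv j y).map fun q => q.1 * (B j y - a j y)).sum := by
      refine List.sum_le_sum fun q hq => ?_
      refine mul_le_mul_of_nonneg_left ?_ (hnn q hq)
      obtain ⟨e, he, hf, rfl⟩ := mem_nxI hq
      have := k3 e he hf
      linarith
    have e4 : ((nxI stp dv j y).map fun q => q.1 * (B j y - a j y)).sum =
        ((nxI stp dv j y).map fun q => q.1).sum * (B j y - a j y) := List.sum_map_mul_right _ _ _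
    rw [e4] at e1
    have e5 := mul_le_mul_of_nonneg_right hw (by linarith : 0 ≤ B j y - a j y)
    show max 0 (a j y) + _ ≤ _
    rw [max_eq_right k1]
    linarith

/-- **both sides together** -/
theorem bud_total (hp0 : 1 ≤ p0) (hst : ∀ s : St Λ κ, ¬ stp s → ¬ stpN s)
    (hI : ∀ x, I x → ∀ e ∈ steps stp dv x, I e.y) (hL : BudL stp p0 dv m I a B)
    (hR : BudR stp p0 dv m I a' B') {loc : St Λ κ → ℝ}
    (hl : ∀ x, I x → IX p0 dv m x → loc x.s ≤ ∑ j ∈ x.s.A, m x.s.t j * a j x +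
      ∑ j ∈ x.s.A', m x.s.t' j * a' j x) {x : XSt Λ κ} (hx : I x) (hX : IX p0 dv m x) :
    WS stp loc x.s ≤ ∑ j ∈ x.s.A, m x.s.t j * B j x + ∑ j ∈ x.s.A', m x.s.t' j * B' j x := by
  rw [WS_eq_H stp dv loc x]
  have hIn : ∀ y : XSt Λ κ, (I y ∧ IX p0 dv m y) → ∀ q ∈ nxH stp dv y,
      (I q.2 ∧ IX p0 dv m q.2) ∧ 0 ≤ q.1 := by
    intro y hy q hq
    obtain ⟨e, he, rfl⟩ := List.mem_map.1 hq
    have := steps_w hy.2.tc.wL hy.2.tc.wR e he
    exact ⟨⟨hI y hy.1 e he, hy.2.next hp0 hst e he⟩, mul_nonneg this.1.le this.2.le⟩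
  have h1 := W_mono (nxH_rank stp dv) (Inv := fun y => I y ∧ IX p0 dv m y) hIn
    (f := fun y => loc y.s) (g := fun y => ∑ j ∈ y.s.A, m y.s.t j * a j y +
      ∑ j ∈ y.s.A', m y.s.t' j * a' j y) (fun y hy => hl y hy.1 hy.2) x ⟨hx, hX⟩
  refine h1.trans ?_
  rw [W_add (nxH_rank stp dv)]
  exact add_le_add (budL_W hp0 hst hI hL (fun y _ _ => le_rfl) x hx hX)
    (budR_W hp0 hst hI hR (fun y _ _ => le_rfl) x hx hX)

end bud

/-! ### generic cost of the one-sided columns -/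

open Classical in
/-- cost `β p` at every one-sided column -/
noncomputable def aG (stp : Stp Λ κ) (β : ℕ → ℝ) (j : Λ) (x : XSt Λ κ) : ℝ :=
  if (¬ (x.s.t.isLeaf ∨ x.s.t'.isLeaf) ∧ ¬ stp x.s) ∧ (OSL x ∨ OSR x) then β x.s.p else 0

/-- its budget -/
noncomputable def bG (K : ℝ) (p0 : ℕ) (j : Λ) (x : XSt Λ κ) : ℝ :=
  4 * K * (p0 : ℝ) ^ (-(1/4) : ℝ) - 2 * K * (mS x.s) ^ (3/4 : ℝ)

lemma bG_nonneg {K : ℝ} (hK : 0 ≤ K) (hp0 : 1 ≤ p0) {x : XSt Λ κ} (h : OI p0 x) (j : Λ) :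
    0 ≤ bG K p0 j x := by
  have h1 := num2 (x := (p0 : ℝ)) (by exact_mod_cast hp0) (mS_nonneg x.s)
    ((mS_le x.s).trans h.mO)
  have := mul_le_mul_of_nonneg_left h1 hK
  unfold bG
  linarith

lemma bG_le {K : ℝ} (hK : 0 ≤ K) (j : Λ) (x : XSt Λ κ) :
    bG K p0 j x ≤ 4 * K * (p0 : ℝ) ^ (-(1/4) : ℝ) := by
  have : 0 ≤ 2 * K * (mS x.s) ^ (3/4 : ℝ) := by
    have := mS_nonneg x.s
    positivity
  unfold bG
  linarith

lemma gen_core {K : ℝ} {β : ℕ → ℝ} (hK : 0 ≤ K) (hp0 : 1 ≤ p0)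
    (hst : ∀ s : St Λ κ, ¬ stp s → ¬ stpN s)
    (hβ : ∀ p : ℕ, p0 ≤ p → 0 ≤ β p ∧ β p ≤ K * (p : ℝ) ^ (-(11/12) : ℝ)) (j : Λ) {x : XSt Λ κ}
    (hX : IX p0 dv m x) : 0 ≤ aG stp β j x ∧ aG stp β j x ≤ bG K p0 j x ∧
      ∀ e ∈ steps stp dv x, aG stp β j x + bG K p0 j e.y ≤ bG K p0 j x := by
  have hb := bG_nonneg hK hp0 hX.oi j
  have hm0 := mS_nonneg x.s
  by_cases ha : (¬ (x.s.t.isLeaf ∨ x.s.t'.isLeaf) ∧ ¬ stp x.s) ∧ (OSL x ∨ OSR x)
  · have e0 : aG stp β j x = β x.s.p := by unfold aG; rw [if_pos ha]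
    have hpp : p0 ≤ x.s.p := hX.oi.p_ge ha.1.1
    obtain ⟨b0, b1⟩ := hβ x.s.p hpp
    have hx1 : (1:ℝ) ≤ x.s.p := by exact_mod_cast hp0.trans hpp
    have hx0 : (0:ℝ) < x.s.p := by linarith
    have h3 := hX.oi.mS_le (hst _ ha.1.2)
    have h4 := num1 hx1 hm0 h3
    have h5 : 1 / (x.s.p : ℝ) ≤ (x.s.p : ℝ) ^ (-(1/3) : ℝ) := by
      rw [one_div, ← Real.rpow_neg_one]
      exact Real.rpow_le_rpow_of_exponent_le hx1 (by norm_num)
    have h6 : (x.s.p : ℝ) ^ (-(1/3) : ℝ) ≤ (p0 : ℝ) ^ (-(1/3) : ℝ) :=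
      Real.rpow_le_rpow_of_nonpos (by exact_mod_cast hp0) (by exact_mod_cast hpp) (by norm_num)
    have h7 : 0 ≤ mS x.s + 1 / (x.s.p : ℝ) := by positivity
    have h8 := num2 (x := (p0 : ℝ)) (by exact_mod_cast hp0) h7 (by linarith)
    have h9 := mul_le_mul_of_nonneg_left h4 hK
    have h10 := mul_le_mul_of_nonneg_left h8 hK
    refine ⟨by rw [e0]; exact b0, ?_, fun e he => ?_⟩
    · rw [e0]; unfold bG; linarith
    · have := (mS_next hX.oi.ge (steps_O hX.xi e he)).2 ha.2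
      rw [e0]; unfold bG
      rw [this]
      linarith
  · have e0 : aG stp β j x = 0 := by unfold aG; rw [if_neg ha]
    refine ⟨by rw [e0], by rw [e0]; exact hb, fun e he => ?_⟩
    have h1 := (mS_next hX.oi.ge (steps_O hX.xi e he)).1
    have h2 := mul_le_mul_of_nonneg_left
      (Real.rpow_le_rpow hm0 h1 (by norm_num : (0:ℝ) ≤ 3/4)) hK
    rw [e0]; unfold bG
    linarith

theorem budR_gen {I : XSt Λ κ → Prop} {K : ℝ} {β : ℕ → ℝ} (hK : 0 ≤ K) (hp0 : 1 ≤ p0)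
    (hst : ∀ s : St Λ κ, ¬ stp s → ¬ stpN s)
    (hβ : ∀ p : ℕ, p0 ≤ p → 0 ≤ β p ∧ β p ≤ K * (p : ℝ) ^ (-(11/12) : ℝ)) :
    BudR stp p0 dv m I (aG stp β) (bG K p0) := by
  intro j x _ hX
  obtain ⟨h1, h2, h3⟩ := gen_core (stp := stp) hK hp0 hst hβ j hX
  exact ⟨h1, h2, fun e he _ => h3 e he⟩

theorem budL_gen {I : XSt Λ κ → Prop} {K : ℝ} {β : ℕ → ℝ} (hK : 0 ≤ K) (hp0 : 1 ≤ p0)
    (hst : ∀ s : St Λ κ, ¬ stp s → ¬ stpN s)
    (hβ : ∀ p : ℕ, p0 ≤ p → 0 ≤ β p ∧ β p ≤ K * (p : ℝ) ^ (-(11/12) : ℝ)) :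
    BudL stp p0 dv m I (aG stp β) (bG K p0) := by
  intro j x _ hX
  obtain ⟨h1, h2, h3⟩ := gen_core (stp := stp) hK hp0 hst hβ j hX
  exact ⟨h1, h2, fun e he _ => h3 e he⟩

/-! ### missing ties of an item -/

/-- missing ties below a view -/
lemma mtD_vw {j : Λ} {p n : ℕ} {t : DT Λ κ} (hc : t.Col n) :
    (∀ {w r t₁ t₀ v B G}, vw p t = .br w r t₁ t₀ v B G →
      (dv t j → mtD dv j t = mtD dv j t₁) ∧
      (¬ dv t j → w ≠ 0 → p ∉ mtD dv j t₀ ∧ mtD dv j t = insert p (mtD dv j t₀))) ∧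
    (∀ {r t₁ t₀}, vw p t = .add r t₁ t₀ →
      (dv t j → mtD dv j t = mtD dv j t₁) ∧ (¬ dv t j → mtD dv j t = mtD dv j t₀)) ∧
    (∀ {Sp u}, vw p t = .up Sp u → mtD dv j t = mtD dv j u) := by
  refine ⟨fun {w r t₁ t₀ v B G} h => ?_, fun {r t₁ t₀} h => ?_, fun {Sp u} h => ?_⟩
  · have e := vw_br h
    subst e
    refine ⟨fun hd => ?_, fun hd hw => ⟨fun hm => ?_, ?_⟩⟩
    · simp only [mtD]; rw [if_pos (Or.inr hd)]
    · exact absurd (mtD_lt (hc.2.2.2.2 hw).2 _ hm) (lt_irrefl _)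
    · simp only [mtD]; rw [if_neg (by rw [not_or]; exact ⟨hw, hd⟩)]
  · have e := vw_add h
    subst e
    refine ⟨fun hd => ?_, fun hd => ?_⟩
    · simp only [mtD]; rw [if_pos hd]
    · simp only [mtD]; rw [if_neg hd]
  · rcases vw_up h with rfl | ⟨-, rfl, -⟩
    · rfl
    · rfl

/-- the column is a tie of the left / right tree, and it is processed by the next step -/
def tieL (x : XSt Λ κ) : Prop :=
  (∃ w r t₁ t₀ v B G, w ≠ 0 ∧ vw x.s.p x.s.t = .br w r t₁ t₀ v B G) ∧ ¬ x.s.isPR ∧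
    ∀ r t₁ t₀, vw x.s.p x.s.t' ≠ .add r t₁ t₀
def tieR (x : XSt Λ κ) : Prop :=
  (∃ w r t₁ t₀ v B G, w ≠ 0 ∧ vw x.s.p x.s.t' = .br w r t₁ t₀ v B G) ∧ ¬ x.s.isPL ∧
    ∀ r t₁ t₀, vw x.s.p x.s.t ≠ .add r t₁ t₀

lemma OSL_tie {x : XSt Λ κ} (h : OSL x) : tieL x := by
  obtain ⟨⟨w, r, t₁, t₀, v, B, G, hv⟩, ⟨Sp, u, hv'⟩, hP⟩ := h
  refine ⟨⟨w, r, t₁, t₀, v, B, G, (St.not_isPL_up hP hv hv').2, hv⟩,
    osL.not_PR ⟨⟨w, r, t₁, t₀, v, B, G, hv⟩, ⟨Sp, u, hv'⟩, hP⟩, ?_⟩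
  intro r t₁ t₀ k
  rw [hv'] at k
  exact absurd k (by simp)

lemma OSR_tie {x : XSt Λ κ} (h : OSR x) : tieR x := by
  obtain ⟨⟨w, r, t₁, t₀, v, B, G, hv'⟩, ⟨Sp, u, hv⟩, hP⟩ := h
  refine ⟨⟨w, r, t₁, t₀, v, B, G, (St.not_isPR_up hP hv hv').2, hv'⟩,
    osR.not_PL ⟨⟨w, r, t₁, t₀, v, B, G, hv'⟩, ⟨Sp, u, hv⟩, hP⟩, ?_⟩
  intro r t₁ t₀ k
  rw [hv] at k
  exact absurd k (by simp)

lemma mtD_stepR {x : XSt Λ κ} (hX : XI x) (j : Λ) : ∀ e ∈ steps stp dv x, e.f' j →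
    (tieR x ∧ ¬ dv x.s.t' j → x.s.p ∉ mtD dv j e.y.s.t' ∧
      mtD dv j x.s.t' = insert x.s.p (mtD dv j e.y.s.t')) ∧
    mtD dv j e.y.s.t' ⊆ mtD dv j x.s.t' := by
  intro e he hf
  have ha' : e.a' ≠ 0 := fun h => (mem_steps.1 he).2 (by rw [h, mul_zero])
  obtain ⟨kb, ka, ku⟩ := mtD_vw (dv := dv) (j := j) (p := x.s.p) hX.cR
  cases steps0_R (mem_steps.1 he).1 with
  | stay h ht =>
    refine ⟨fun hT => ?_, by rw [ht]⟩
    obtain ⟨⟨-, hT1, hT2⟩, -⟩ := hT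
    rcases h with h | ⟨r, t₁, t₀, h⟩
    · exact absurd h hT1
    · exact absurd h (hT2 _ _ _)
  | up Sp u hv ht =>
    refine ⟨fun hT => ?_, by rw [ht, ku hv]⟩
    obtain ⟨⟨⟨w, r, t₁, t₀, v, B, G, -, k⟩, -, -⟩, -⟩ := hT
    rw [hv] at k
    exact absurd k (by simp)
  | b1 w r t₁ t₀ v B G hv ht hd =>
    exact ⟨fun hT => absurd (hd j hf) hT.2, by rw [ht, (kb hv).1 (hd j hf)]⟩
  | b0 w r t₁ t₀ v B G hv ht hd ha =>
    have hw : w ≠ 0 := by rw [← ha]; exact ha'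
    obtain ⟨k1, k2⟩ := (kb hv).2 (hd j hf) hw
    rw [ht]
    exact ⟨fun _ => ⟨k1, k2⟩, by rw [k2]; exact Finset.subset_insert _ _⟩
  | a1 r t₁ t₀ hv ht hd =>
    refine ⟨fun hT => ?_, by rw [ht, (ka hv).1 (hd j hf)]⟩
    obtain ⟨⟨⟨w, r, t₁, t₀, v, B, G, -, k⟩, -, -⟩, -⟩ := hT
    rw [hv] at k
    exact absurd k (by simp)
  | a0 r t₁ t₀ hv ht hd =>
    refine ⟨fun hT => ?_, by rw [ht, (ka hv).2 (hd j hf)]⟩
    obtain ⟨⟨⟨w, r, t₁, t₀, v, B, G, -, k⟩, -, -⟩, -⟩ := hT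
    rw [hv] at k
    exact absurd k (by simp)

lemma mtD_stepL {x : XSt Λ κ} (hX : XI x) (j : Λ) : ∀ e ∈ steps stp dv x, e.f j →
    (tieL x ∧ ¬ dv x.s.t j → x.s.p ∉ mtD dv j e.y.s.t ∧
      mtD dv j x.s.t = insert x.s.p (mtD dv j e.y.s.t)) ∧
    mtD dv j e.y.s.t ⊆ mtD dv j x.s.t := by
  intro e he hf
  have ha' : e.a ≠ 0 := fun h => (mem_steps.1 he).2 (by rw [h, zero_mul])
  obtain ⟨kb, ka, ku⟩ := mtD_vw (dv := dv) (j := j) (p := x.s.p) hX.cL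
  cases steps0_L (mem_steps.1 he).1 with
  | stay h ht =>
    refine ⟨fun hT => ?_, by rw [ht]⟩
    obtain ⟨⟨-, hT1, hT2⟩, -⟩ := hT
    rcases h with h | ⟨r, t₁, t₀, h⟩
    · exact absurd h hT1
    · exact absurd h (hT2 _ _ _)
  | up Sp u hv ht =>
    refine ⟨fun hT => ?_, by rw [ht, ku hv]⟩
    obtain ⟨⟨⟨w, r, t₁, t₀, v, B, G, -, k⟩, -, -⟩, -⟩ := hT
    rw [hv] at k
    exact absurd k (by simp)
  | b1 w r t₁ t₀ v B G hv ht hd =>
    exact ⟨fun hT => absurd (hd j hf) hT.2, by rw [ht, (kb hv).1 (hd j hf)]⟩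
  | b0 w r t₁ t₀ v B G hv ht hd ha =>
    have hw : w ≠ 0 := by rw [← ha]; exact ha'
    obtain ⟨k1, k2⟩ := (kb hv).2 (hd j hf) hw
    rw [ht]
    exact ⟨fun _ => ⟨k1, k2⟩, by rw [k2]; exact Finset.subset_insert _ _⟩
  | a1 r t₁ t₀ hv ht hd =>
    refine ⟨fun hT => ?_, by rw [ht, (ka hv).1 (hd j hf)]⟩
    obtain ⟨⟨⟨w, r, t₁, t₀, v, B, G, -, k⟩, -, -⟩, -⟩ := hT
    rw [hv] at k
    exact absurd k (by simp)
  | a0 r t₁ t₀ hv ht hd =>
    refine ⟨fun hT => ?_, by rw [ht, (ka hv).2 (hd j hf)]⟩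
    obtain ⟨⟨⟨w, r, t₁, t₀, v, B, G, -, k⟩, -, -⟩, -⟩ := hT
    rw [hv] at k
    exact absurd k (by simp)

open Classical in
/-- cost `ε j p` of the right items which miss the tie `p` -/
noncomputable def aTR (dv : DT Λ κ → Λ → Prop) (ε : Λ → ℕ → ℝ) (j : Λ) (x : XSt Λ κ) : ℝ :=
  if tieR x ∧ ¬ dv x.s.t' j then ε j x.s.p else 0

open Classical in
/-- cost `ε j p` of the left items which miss the tie `p` -/
noncomputable def aTL (dv : DT Λ κ → Λ → Prop) (ε : Λ → ℕ → ℝ) (j : Λ) (x : XSt Λ κ) : ℝ :=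
  if tieL x ∧ ¬ dv x.s.t j then ε j x.s.p else 0

lemma tieR_mem {x : XSt Λ κ} (hX : XI x) {j : Λ} (h : tieR x ∧ ¬ dv x.s.t' j) :
    x.s.p ∈ mtD dv j x.s.t' := by
  obtain ⟨⟨⟨w, r, t₁, t₀, v, B, G, hw, hv⟩, -, -⟩, hd⟩ := h
  rw [((((mtD_vw (dv := dv) (j := j) hX.cR).1 hv).2) hd hw).2]
  exact Finset.mem_insert_self _ _

lemma tieL_mem {x : XSt Λ κ} (hX : XI x) {j : Λ} (h : tieL x ∧ ¬ dv x.s.t j) :
    x.s.p ∈ mtD dv j x.s.t := by
  obtain ⟨⟨⟨w, r, t₁, t₀, v, B, G, hw, hv⟩, -, -⟩, hd⟩ := h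
  rw [((((mtD_vw (dv := dv) (j := j) hX.cL).1 hv).2) hd hw).2]
  exact Finset.mem_insert_self _ _

theorem budR_tie {I : XSt Λ κ → Prop} {ε : Λ → ℕ → ℝ} (hε : ∀ j p, 0 ≤ ε j p) :
    BudR stp p0 dv m I (aTR dv ε) (fun j x => ∑ q ∈ mtD dv j x.s.t', ε j q) := by
  intro j x _ hX
  by_cases h : tieR x ∧ ¬ dv x.s.t' j
  · have e0 : aTR dv ε j x = ε j x.s.p := by unfold aTR; rw [if_pos h]
    refine ⟨by rw [e0]; exact hε _ _, ?_, fun e he hf => ?_⟩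
    · rw [e0]
      exact Finset.single_le_sum (f := ε j) (fun q _ => hε j q) (tieR_mem hX.xi h)
    · obtain ⟨k1, k2⟩ := (mtD_stepR hX.xi j e he hf).1 h
      show _ + ∑ q ∈ mtD dv j e.y.s.t', ε j q ≤ ∑ q ∈ mtD dv j x.s.t', ε j q
      rw [e0, k2, Finset.sum_insert k1]
  · have e0 : aTR dv ε j x = 0 := by unfold aTR; rw [if_neg h]
    refine ⟨by rw [e0], by rw [e0]; exact Finset.sum_nonneg fun q _ => hε j q, fun e he hf => ?_⟩
    rw [e0, zero_add]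
    exact Finset.sum_le_sum_of_subset_of_nonneg (mtD_stepR hX.xi j e he hf).2
      fun q _ _ => hε j q

theorem budL_tie {I : XSt Λ κ → Prop} {ε : Λ → ℕ → ℝ} (hε : ∀ j p, 0 ≤ ε j p) :
    BudL stp p0 dv m I (aTL dv ε) (fun j x => ∑ q ∈ mtD dv j x.s.t, ε j q) := by
  intro j x _ hX
  by_cases h : tieL x ∧ ¬ dv x.s.t j
  · have e0 : aTL dv ε j x = ε j x.s.p := by unfold aTL; rw [if_pos h]
    refine ⟨by rw [e0]; exact hε _ _, ?_, fun e he hf => ?_⟩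
    · rw [e0]
      exact Finset.single_le_sum (f := ε j) (fun q _ => hε j q) (tieL_mem hX.xi h)
    · obtain ⟨k1, k2⟩ := (mtD_stepL hX.xi j e he hf).1 h
      show _ + ∑ q ∈ mtD dv j e.y.s.t, ε j q ≤ ∑ q ∈ mtD dv j x.s.t, ε j q
      rw [e0, k2, Finset.sum_insert k1]
  · have e0 : aTL dv ε j x = 0 := by unfold aTL; rw [if_neg h]
    refine ⟨by rw [e0], by rw [e0]; exact Finset.sum_nonneg fun q _ => hε j q, fun e he hf => ?_⟩
    rw [e0, zero_add]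
    exact Finset.sum_le_sum_of_subset_of_nonneg (mtD_stepL hX.xi j e he hf).2
      fun q _ _ => hε j q

/-! ### up primes of an item -/

open Classical in
/-- the up columns of the item `j` -/
noncomputable def upD (dv : DT Λ κ → Λ → Prop) (j : Λ) : DT Λ κ → Finset ℕ
  | .leaf _ _ => ∅
  | .br p w r t₁ t₀ v B G => if dv (.br p w r t₁ t₀ v B G) j then upD dv j t₁ else upD dv j t₀
  | .add b r t₁ t₀ => if dv (.add b r t₁ t₀) j then upD dv j t₁ else upD dv j t₀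
  | .up b Sp t => if j ∈ Sp then insert b (upD dv j t) else upD dv j t

lemma upD_lt {j : Λ} {t : DT Λ κ} : ∀ {n : ℕ}, t.Col n → ∀ q ∈ upD dv j t, q < n := by
  induction t with
  | leaf r f => intro n h q hq; simp [upD] at hq
  | br p w r t₁ t₀ v B G ih₁ ih₀ =>
    intro n h q hq
    have hp : p + 1 ≤ n := h.2.1
    simp only [upD] at hq
    split_ifs at hq with hd
    · exact (ih₁ h.2.2.1 q hq).trans_le hp
    · exact (ih₀ h.2.2.2.1 q hq).trans_le hp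
  | add b r t₁ t₀ ih₁ ih₀ =>
    intro n h q hq
    have hp : b + 1 ≤ n := h.2.1
    simp only [upD] at hq
    split_ifs at hq with hd
    · exact (ih₁ h.2.2.1 q hq).trans_le hp
    · exact (ih₀ h.2.2.2 q hq).trans_le hp
  | up b Sp t ih =>
    intro n h q hq
    simp only [upD] at hq
    split_ifs at hq with hd
    · rcases Finset.mem_insert.1 hq with rfl | hq
      · exact h.2.1
      · exact (ih h.2.2 q hq).trans h.2.1
    · exact (ih h.2.2 q hq).trans h.2.1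

/-- the up set of the view -/
def vSp (p : ℕ) (t : DT Λ κ) : Finset Λ :=
  match vw p t with
  | .up Sp _ => Sp
  | _ => ∅

lemma upD_vw {j : Λ} {p n : ℕ} {t u : DT Λ κ} {Sp : Finset Λ} (hc : t.Col n)
    (hv : vw p t = .up Sp u) :
    (j ∈ Sp → p ∉ upD dv j u ∧ upD dv j t = insert p (upD dv j u)) ∧
    (j ∉ Sp → upD dv j t = upD dv j u) := by
  rcases vw_up hv with rfl | ⟨rfl, rfl, -⟩
  · refine ⟨fun h => ⟨fun hm => absurd (upD_lt hc.2.2 _ hm) (lt_irrefl _), ?_⟩, fun h => ?_⟩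
    · simp [upD, h]
    · simp [upD, h]
  · exact ⟨fun h => absurd h (Finset.notMem_empty _), fun _ => rfl⟩

lemma upD_stepR {x : XSt Λ κ} (hX : XI x) (j : Λ) : ∀ e ∈ steps stp dv x, e.f' j →
    (OSL x ∧ j ∈ vSp x.s.p x.s.t' → x.s.p ∉ upD dv j e.y.s.t' ∧
      upD dv j x.s.t' = insert x.s.p (upD dv j e.y.s.t')) ∧
    upD dv j e.y.s.t' ⊆ upD dv j x.s.t' := by
  intro e he hf
  cases steps0_R (mem_steps.1 he).1 with
  | stay h ht =>
    refine ⟨fun hT => ?_, by rw [ht]⟩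
    obtain ⟨-, hT1, hT2⟩ := OSL_tie hT.1
    exfalso
    rcases h with h | ⟨r, t₁, t₀, h⟩
    · exact hT.1.2.2 h
    · obtain ⟨⟨w, r', t₁', t₀', v, B, G, k⟩, -, -⟩ := hT.1
      rw [k] at h
      exact absurd h (by simp)
  | up Sp u hv ht =>
    have es : vSp x.s.p x.s.t' = Sp := by simp [vSp, hv]
    obtain ⟨k1, k2⟩ := upD_vw (dv := dv) (j := j) hX.cR hv
    rw [ht, es]
    refine ⟨fun h => k1 h.2, ?_⟩
    by_cases hj : j ∈ Sp
    · rw [(k1 hj).2]; exact Finset.subset_insert _ _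
    · rw [k2 hj]
  | b1 w r t₁ t₀ v B G hv ht hd =>
    have hns : j ∉ vSp x.s.p x.s.t' := by simp [vSp, hv]
    refine ⟨fun h => absurd h.2 hns, ?_⟩
    have hdd := hd j hf
    have et := vw_br hv
    rw [ht, et]
    rw [et] at hdd
    simp only [upD]; rw [if_pos hdd]
  | b0 w r t₁ t₀ v B G hv ht hd ha =>
    have hns : j ∉ vSp x.s.p x.s.t' := by simp [vSp, hv]
    refine ⟨fun h => absurd h.2 hns, ?_⟩
    have hdd := hd j hf
    have et := vw_br hv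
    rw [ht, et]
    rw [et] at hdd
    simp only [upD]; rw [if_neg hdd]
  | a1 r t₁ t₀ hv ht hd =>
    have hns : j ∉ vSp x.s.p x.s.t' := by simp [vSp, hv]
    refine ⟨fun h => absurd h.2 hns, ?_⟩
    have hdd := hd j hf
    have et := vw_add hv
    rw [ht, et]
    rw [et] at hdd
    simp only [upD]; rw [if_pos hdd]
  | a0 r t₁ t₀ hv ht hd =>
    have hns : j ∉ vSp x.s.p x.s.t' := by simp [vSp, hv]
    refine ⟨fun h => absurd h.2 hns, ?_⟩
    have hdd := hd j hf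
    have et := vw_add hv
    rw [ht, et]
    rw [et] at hdd
    simp only [upD]; rw [if_neg hdd]

lemma upD_stepL {x : XSt Λ κ} (hX : XI x) (j : Λ) : ∀ e ∈ steps stp dv x, e.f j →
    (OSR x ∧ j ∈ vSp x.s.p x.s.t → x.s.p ∉ upD dv j e.y.s.t ∧
      upD dv j x.s.t = insert x.s.p (upD dv j e.y.s.t)) ∧
    upD dv j e.y.s.t ⊆ upD dv j x.s.t := by
  intro e he hf
  cases steps0_L (mem_steps.1 he).1 with
  | stay h ht =>
    refine ⟨fun hT => ?_, by rw [ht]⟩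
    exfalso
    rcases h with h | ⟨r, t₁, t₀, h⟩
    · exact hT.1.2.2 h
    · obtain ⟨⟨w, r', t₁', t₀', v, B, G, k⟩, -, -⟩ := hT.1
      rw [k] at h
      exact absurd h (by simp)
  | up Sp u hv ht =>
    have es : vSp x.s.p x.s.t = Sp := by simp [vSp, hv]
    obtain ⟨k1, k2⟩ := upD_vw (dv := dv) (j := j) hX.cL hv
    rw [ht, es]
    refine ⟨fun h => k1 h.2, ?_⟩
    by_cases hj : j ∈ Sp
    · rw [(k1 hj).2]; exact Finset.subset_insert _ _
    · rw [k2 hj]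
  | b1 w r t₁ t₀ v B G hv ht hd =>
    have hns : j ∉ vSp x.s.p x.s.t := by simp [vSp, hv]
    refine ⟨fun h => absurd h.2 hns, ?_⟩
    have hdd := hd j hf
    have et := vw_br hv
    rw [ht, et]
    rw [et] at hdd
    simp only [upD]; rw [if_pos hdd]
  | b0 w r t₁ t₀ v B G hv ht hd ha =>
    have hns : j ∉ vSp x.s.p x.s.t := by simp [vSp, hv]
    refine ⟨fun h => absurd h.2 hns, ?_⟩
    have hdd := hd j hf
    have et := vw_br hv
    rw [ht, et]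
    rw [et] at hdd
    simp only [upD]; rw [if_neg hdd]
  | a1 r t₁ t₀ hv ht hd =>
    have hns : j ∉ vSp x.s.p x.s.t := by simp [vSp, hv]
    refine ⟨fun h => absurd h.2 hns, ?_⟩
    have hdd := hd j hf
    have et := vw_add hv
    rw [ht, et]
    rw [et] at hdd
    simp only [upD]; rw [if_pos hdd]
  | a0 r t₁ t₀ hv ht hd =>
    have hns : j ∉ vSp x.s.p x.s.t := by simp [vSp, hv]
    refine ⟨fun h => absurd h.2 hns, ?_⟩
    have hdd := hd j hf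
    have et := vw_add hv
    rw [ht, et]
    rw [et] at hdd
    simp only [upD]; rw [if_neg hdd]

open Classical in
/-- cost `ε j p` of the right items with up prime `p`, at a tie `p` of the left side -/
noncomputable def aUR (ε : Λ → ℕ → ℝ) (j : Λ) (x : XSt Λ κ) : ℝ :=
  if OSL x ∧ j ∈ vSp x.s.p x.s.t' then ε j x.s.p else 0

open Classical in
/-- cost `ε j p` of the left items with up prime `p`, at a tie `p` of the right side -/
noncomputable def aUL (ε : Λ → ℕ → ℝ) (j : Λ) (x : XSt Λ κ) : ℝ :=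
  if OSR x ∧ j ∈ vSp x.s.p x.s.t then ε j x.s.p else 0

lemma vSp_mem {j : Λ} {p n : ℕ} {t : DT Λ κ} (hc : t.Col n) (h : j ∈ vSp p t) :
    p ∈ upD dv j t := by
  rcases hv : vw p t with ⟨w, r, t₁, t₀, v, B, G⟩ | ⟨r, t₁, t₀⟩ | ⟨Sp, u⟩
  · simp [vSp, hv] at h
  · simp [vSp, hv] at h
  · have es : vSp p t = Sp := by simp [vSp, hv]
    rw [es] at h
    rw [((upD_vw (dv := dv) hc hv).1 h).2]
    exact Finset.mem_insert_self _ _

theorem budR_up {I : XSt Λ κ → Prop} {ε : Λ → ℕ → ℝ} (hε : ∀ j p, 0 ≤ ε j p) :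
    BudR stp p0 dv m I (aUR ε) (fun j x => ∑ q ∈ upD dv j x.s.t', ε j q) := by
  intro j x _ hX
  by_cases h : OSL x ∧ j ∈ vSp x.s.p x.s.t'
  · have e0 : aUR ε j x = ε j x.s.p := by unfold aUR; rw [if_pos h]
    refine ⟨by rw [e0]; exact hε _ _, ?_, fun e he hf => ?_⟩
    · rw [e0]
      exact Finset.single_le_sum (f := ε j) (fun q _ => hε j q) (vSp_mem hX.xi.cR h.2)
    · obtain ⟨k1, k2⟩ := (upD_stepR hX.xi j e he hf).1 h
      show _ + ∑ q ∈ upD dv j e.y.s.t', ε j q ≤ ∑ q ∈ upD dv j x.s.t', ε j q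
      rw [e0, k2, Finset.sum_insert k1]
  · have e0 : aUR ε j x = 0 := by unfold aUR; rw [if_neg h]
    refine ⟨by rw [e0], by rw [e0]; exact Finset.sum_nonneg fun q _ => hε j q, fun e he hf => ?_⟩
    rw [e0, zero_add]
    exact Finset.sum_le_sum_of_subset_of_nonneg (upD_stepR hX.xi j e he hf).2
      fun q _ _ => hε j q

theorem budL_up {I : XSt Λ κ → Prop} {ε : Λ → ℕ → ℝ} (hε : ∀ j p, 0 ≤ ε j p) :
    BudL stp p0 dv m I (aUL ε) (fun j x => ∑ q ∈ upD dv j x.s.t, ε j q) := by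
  intro j x _ hX
  by_cases h : OSR x ∧ j ∈ vSp x.s.p x.s.t
  · have e0 : aUL ε j x = ε j x.s.p := by unfold aUL; rw [if_pos h]
    refine ⟨by rw [e0]; exact hε _ _, ?_, fun e he hf => ?_⟩
    · rw [e0]
      exact Finset.single_le_sum (f := ε j) (fun q _ => hε j q) (vSp_mem hX.xi.cL h.2)
    · obtain ⟨k1, k2⟩ := (upD_stepL hX.xi j e he hf).1 h
      show _ + ∑ q ∈ upD dv j e.y.s.t, ε j q ≤ ∑ q ∈ upD dv j x.s.t, ε j q
      rw [e0, k2, Finset.sum_insert k1]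
  · have e0 : aUL ε j x = 0 := by unfold aUL; rw [if_neg h]
    refine ⟨by rw [e0], by rw [e0]; exact Finset.sum_nonneg fun q _ => hε j q, fun e he hf => ?_⟩
    rw [e0, zero_add]
    exact Finset.sum_le_sum_of_subset_of_nonneg (upD_stepL hX.xi j e he hf).2
      fun q _ _ => hε j q

/-! ### static primes of an item -/

open Classical in
/-- cost `ε j p` of the right items with `p ∈ re j`, at a tie `p` of the left side -/
noncomputable def aER (re : Λ → Finset ℕ) (ε : Λ → ℕ → ℝ) (j : Λ) (x : XSt Λ κ) : ℝ :=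
  if OSL x ∧ x.s.p ∈ re j then ε j x.s.p else 0

open Classical in
/-- cost `ε j p` of the left items with `p ∈ re j`, at a tie `p` of the right side -/
noncomputable def aEL (re : Λ → Finset ℕ) (ε : Λ → ℕ → ℝ) (j : Λ) (x : XSt Λ κ) : ℝ :=
  if OSR x ∧ x.s.p ∈ re j then ε j x.s.p else 0

lemma flt_le {F : Finset ℕ} {p p₁ : ℕ} (h : p₁ ≤ p) :
    (F.filter fun q => q ≤ p₁) ⊆ F.filter fun q => q ≤ p := by
  intro q hq
  rw [Finset.mem_filter] at hq ⊢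
  exact ⟨hq.1, hq.2.trans h⟩

lemma flt_lt {F : Finset ℕ} {p p₁ : ℕ} (h : p₁ < p) (hp : p ∈ F) {ε : ℕ → ℝ} (hε : ∀ q, 0 ≤ ε q) :
    ε p + ∑ q ∈ F.filter (fun q => q ≤ p₁), ε q ≤ ∑ q ∈ F.filter (fun q => q ≤ p), ε q := by
  have hn : p ∉ F.filter fun q => q ≤ p₁ := by
    rw [Finset.mem_filter]; rintro ⟨-, k⟩; omega
  rw [← Finset.sum_insert hn]
  refine Finset.sum_le_sum_of_subset_of_nonneg (fun q hq => ?_) fun q _ _ => hε q
  rcases Finset.mem_insert.1 hq with rfl | hq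
  · exact Finset.mem_filter.2 ⟨hp, le_rfl⟩
  · exact flt_le h.le hq

theorem budR_ret {I : XSt Λ κ → Prop} {re : Λ → Finset ℕ} {ε : Λ → ℕ → ℝ}
    (hε : ∀ j p, 0 ≤ ε j p) :
    BudR stp p0 dv m I (aER re ε) (fun j x => ∑ q ∈ (re j).filter (fun q => q ≤ x.s.p), ε j q) := by
  intro j x _ hX
  by_cases h : OSL x ∧ x.s.p ∈ re j
  · have e0 : aER re ε j x = ε j x.s.p := by unfold aER; rw [if_pos h]
    refine ⟨by rw [e0]; exact hε _ _, ?_, fun e he hf => ?_⟩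
    · rw [e0]
      exact Finset.single_le_sum (f := ε j) (fun q _ => hε j q)
        (Finset.mem_filter.2 ⟨h.2, le_rfl⟩)
    · rw [e0]
      exact flt_lt ((steps_O hX.xi e he).L h.1).2.2 h.2 (hε j)
  · have e0 : aER re ε j x = 0 := by unfold aER; rw [if_neg h]
    refine ⟨by rw [e0], by rw [e0]; exact Finset.sum_nonneg fun q _ => hε j q, fun e he hf => ?_⟩
    rw [e0, zero_add]
    exact Finset.sum_le_sum_of_subset_of_nonneg (flt_le (steps_O hX.xi e he).pe)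
      fun q _ _ => hε j q

theorem budL_ret {I : XSt Λ κ → Prop} {re : Λ → Finset ℕ} {ε : Λ → ℕ → ℝ}
    (hε : ∀ j p, 0 ≤ ε j p) :
    BudL stp p0 dv m I (aEL re ε) (fun j x => ∑ q ∈ (re j).filter (fun q => q ≤ x.s.p), ε j q) := by
  intro j x _ hX
  by_cases h : OSR x ∧ x.s.p ∈ re j
  · have e0 : aEL re ε j x = ε j x.s.p := by unfold aEL; rw [if_pos h]
    refine ⟨by rw [e0]; exact hε _ _, ?_, fun e he hf => ?_⟩
    · rw [e0]
      exact Finset.single_le_sum (f := ε j) (fun q _ => hε j q)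
        (Finset.mem_filter.2 ⟨h.2, le_rfl⟩)
    · rw [e0]
      exact flt_lt ((steps_O hX.xi e he).R h.1).2.2 h.2 (hε j)
  · have e0 : aEL re ε j x = 0 := by unfold aEL; rw [if_neg h]
    refine ⟨by rw [e0], by rw [e0]; exact Finset.sum_nonneg fun q _ => hε j q, fun e he hf => ?_⟩
    rw [e0, zero_add]
    exact Finset.sum_le_sum_of_subset_of_nonneg (flt_le (steps_O hX.xi e he).pe)
      fun q _ _ => hε j q

/-! ### geometric costs -/

open Classical in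
/-- `∏` of `ω l` over the primes `l` of `O` with `¬ du l j` -/
noncomputable def gO (du : ℕ → Λ → Prop) (ω : ℕ → ℝ) (O : Finset ℕ) (j : Λ) : ℝ :=
  ∏ l ∈ O.filter (fun l => ¬ du l j), ω l

lemma gO_nonneg {ω : ℕ → ℝ} (hω : ∀ l, 0 ≤ ω l) (O : Finset ℕ) (j : Λ) :
    0 ≤ gO du ω O j := Finset.prod_nonneg fun l _ => hω l

lemma gO_empty (ω : ℕ → ℝ) (j : Λ) : gO du ω ∅ j = 1 := by
  classical
  simp [gO]

lemma gO_insert {ω : ℕ → ℝ} {O : Finset ℕ} {j : Λ} {p : ℕ} (hp : p ∉ O) :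
    (du p j → gO du ω (insert p O) j = gO du ω O j) ∧
    (¬ du p j → gO du ω (insert p O) j = ω p * gO du ω O j) := by
  classical
  constructor
  · intro h
    unfold gO
    rw [Finset.filter_insert, if_neg (by simpa using h)]
  · intro h
    unfold gO
    rw [Finset.filter_insert, if_pos h, Finset.prod_insert (by simp [hp])]

/-- more columns, smaller product -/
lemma gO_anti {ω : ℕ → ℝ} (hω : ∀ l, 0 ≤ ω l ∧ ω l ≤ 1) {O O₁ : Finset ℕ} (h : O ⊆ O₁) (j : Λ) :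
    gO du ω O₁ j ≤ gO du ω O j := by
  classical
  unfold gO
  rw [← Finset.prod_sdiff (Finset.filter_subset_filter (fun l => ¬ du l j) h)]
  exact mul_le_of_le_one_left (Finset.prod_nonneg fun l _ => (hω l).1)
    (Finset.prod_le_one (fun l _ => (hω l).1) fun l _ => (hω l).2)

/-- the full set of the one-sided columns gives the smaller cost -/
lemma gO_le_erase {ω : ℕ → ℝ} (hω : ∀ l, 0 ≤ ω l ∧ ω l ≤ 1) (O : Finset ℕ) (p : ℕ) (j : Λ) :
    gO du ω O j ≤ gO du ω (O.erase p) j := gO_anti hω (Finset.erase_subset _ _) j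

open Classical in
/-- cost `ε₀ ∏ ω` of the right items at a tie `p` of the left side only, `¬ du p j` -/
noncomputable def aCR (stp : Stp Λ κ) (du : ℕ → Λ → Prop) (ε₀ : ℝ) (ω : ℕ → ℝ) (j : Λ)
    (x : XSt Λ κ) : ℝ :=
  if (¬ (x.s.t.isLeaf ∨ x.s.t'.isLeaf) ∧ ¬ stp x.s) ∧ OSL x ∧ ¬ du x.s.p j then
    ε₀ * gO du ω (x.s.O.erase x.s.p) j else 0

open Classical in
/-- mirror -/
noncomputable def aCL (stp : Stp Λ κ) (du : ℕ → Λ → Prop) (ε₀ : ℝ) (ω : ℕ → ℝ) (j : Λ)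
    (x : XSt Λ κ) : ℝ :=
  if (¬ (x.s.t.isLeaf ∨ x.s.t'.isLeaf) ∧ ¬ stp x.s) ∧ OSR x ∧ ¬ du x.s.p j then
    ε₀ * gO du ω (x.s.O'.erase x.s.p) j else 0

lemma geo_core {ε₀ : ℝ} (hε₀ : 0 ≤ ε₀) {ω : ℕ → ℝ} (hω : ∀ l, 0 ≤ ω l ∧ ω l ≤ 1)
    {O O₁ : Finset ℕ} {j : Λ} {p : ℕ} (hp : p ∉ O) (h : O₁ = O ∨ O₁ = insert p O) :
    gO du ω O₁ j ≤ gO du ω O j ∧
      (O₁ = insert p O → ¬ du p j → ω p ≤ 1/2 → ε₀ * gO du ω O j + 2 * ε₀ * gO du ω O₁ j ≤
        2 * ε₀ * gO du ω O j) := by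
  have h0 := gO_nonneg (du := du) (fun l => (hω l).1) O j
  have hins := gO_insert (du := du) (ω := ω) (O := O) (j := j) hp
  refine ⟨?_, ?_⟩
  · rcases h with rfl | rfl
    · exact le_rfl
    · by_cases hd : du p j
      · rw [hins.1 hd]
      · rw [hins.2 hd]
        exact mul_le_of_le_one_left h0 (hω p).2
  · intro h1 hd hh
    rw [h1, hins.2 hd]
    have := mul_nonneg hε₀ h0
    nlinarith

theorem budR_geo {I : XSt Λ κ → Prop} {ε₀ : ℝ} (hε₀ : 0 ≤ ε₀) {ω : ℕ → ℝ}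
    (hω : ∀ l, 0 ≤ ω l ∧ ω l ≤ 1) (hω2 : ∀ l, p0 ≤ l → ω l ≤ 1/2) :
    BudR stp p0 dv m I (aCR stp du ε₀ ω) (fun j x => 2 * ε₀ * gO du ω (sO x.s) j) := by
  intro j x _ hX
  have h0 := gO_nonneg (du := du) (fun l => (hω l).1) (sO x.s) j
  have h1 := mul_nonneg hε₀ h0
  by_cases h : (¬ (x.s.t.isLeaf ∨ x.s.t'.isLeaf) ∧ ¬ stp x.s) ∧ OSL x ∧ ¬ du x.s.p j
  · have e0 : aCR stp du ε₀ ω j x = ε₀ * gO du ω (sO x.s) j := by
      unfold aCR; rw [if_pos h, sO_erase hX.oi.ge]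
    refine ⟨by rw [e0]; exact h1, by rw [e0]; linarith, fun e he hf => ?_⟩
    obtain ⟨k0, k1, k2⟩ := sO_step hX.oi.ge (steps_O hX.xi e he)
    rw [e0]
    exact (geo_core hε₀ hω k2 k0).2 (k1 h.2.1) h.2.2 (hω2 _ (hX.oi.p_ge h.1.1))
  · have e0 : aCR stp du ε₀ ω j x = 0 := by unfold aCR; rw [if_neg h]
    refine ⟨by rw [e0], by rw [e0]; linarith, fun e he hf => ?_⟩
    obtain ⟨k0, k1, k2⟩ := sO_step hX.oi.ge (steps_O hX.xi e he)
    rw [e0, zero_add]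
    exact mul_le_mul_of_nonneg_left (geo_core (ε₀ := ε₀) hε₀ hω k2 k0).1 (by linarith)

theorem budL_geo {I : XSt Λ κ → Prop} {ε₀ : ℝ} (hε₀ : 0 ≤ ε₀) {ω : ℕ → ℝ}
    (hω : ∀ l, 0 ≤ ω l ∧ ω l ≤ 1) (hω2 : ∀ l, p0 ≤ l → ω l ≤ 1/2) :
    BudL stp p0 dv m I (aCL stp du ε₀ ω) (fun j x => 2 * ε₀ * gO du ω (sO' x.s) j) := by
  intro j x _ hX
  have h0 := gO_nonneg (du := du) (fun l => (hω l).1) (sO' x.s) j
  have h1 := mul_nonneg hε₀ h0
  by_cases h : (¬ (x.s.t.isLeaf ∨ x.s.t'.isLeaf) ∧ ¬ stp x.s) ∧ OSR x ∧ ¬ du x.s.p j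
  · have e0 : aCL stp du ε₀ ω j x = ε₀ * gO du ω (sO' x.s) j := by
      unfold aCL; rw [if_pos h, sO'_erase hX.oi.ge]
    refine ⟨by rw [e0]; exact h1, by rw [e0]; linarith, fun e he hf => ?_⟩
    obtain ⟨k0, k1, k2⟩ := sO'_step hX.oi.ge (steps_O hX.xi e he)
    rw [e0]
    exact (geo_core hε₀ hω k2 k0).2 (k1 h.2.1) h.2.2 (hω2 _ (hX.oi.p_ge h.1.1))
  · have e0 : aCL stp du ε₀ ω j x = 0 := by unfold aCL; rw [if_neg h]
    refine ⟨by rw [e0], by rw [e0]; linarith, fun e he hf => ?_⟩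
    obtain ⟨k0, k1, k2⟩ := sO'_step hX.oi.ge (steps_O hX.xi e he)
    rw [e0, zero_add]
    exact mul_le_mul_of_nonneg_left (geo_core (ε₀ := ε₀) hε₀ hω k2 k0).1 (by linarith)

/-! ### costs paid once -/

open Classical in
/-- right items which contain every earlier one-sided prime of the left side, but not `p` -/
noncomputable def aDR (stp : Stp Λ κ) (du : ℕ → Λ → Prop) (C : ℝ) (j : Λ)
    (x : XSt Λ κ) : ℝ :=
  if (¬ (x.s.t.isLeaf ∨ x.s.t'.isLeaf) ∧ ¬ stp x.s) ∧ OSL x ∧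
    (∀ P ∈ x.s.O.erase x.s.p, du P j) ∧ ¬ du x.s.p j then C else 0

open Classical in
/-- mirror -/
noncomputable def aDL (stp : Stp Λ κ) (du : ℕ → Λ → Prop) (C : ℝ) (j : Λ)
    (x : XSt Λ κ) : ℝ :=
  if (¬ (x.s.t.isLeaf ∨ x.s.t'.isLeaf) ∧ ¬ stp x.s) ∧ OSR x ∧
    (∀ P ∈ x.s.O'.erase x.s.p, du P j) ∧ ¬ du x.s.p j then C else 0

open Classical in
/-- the budget: `C` as long as no settled column misses the item -/
noncomputable def bD (du : ℕ → Λ → Prop) (C : ℝ) (O : Finset ℕ) (j : Λ) : ℝ :=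
  if ∃ P ∈ O, ¬ du P j then 0 else C

lemma bD_nonneg {C : ℝ} (hC : 0 ≤ C) (O : Finset ℕ) (j : Λ) : 0 ≤ bD du C O j := by
  unfold bD; split_ifs <;> first | exact le_rfl | exact hC

lemma bD_le {C : ℝ} (hC : 0 ≤ C) (O : Finset ℕ) (j : Λ) : bD du C O j ≤ C := by
  unfold bD; split_ifs <;> first | exact hC | exact le_rfl

lemma bD_anti {C : ℝ} (hC : 0 ≤ C) {O O₁ : Finset ℕ} (h : O ⊆ O₁) (j : Λ) :
    bD du C O₁ j ≤ bD du C O j := by
  by_cases h1 : ∃ P ∈ O₁, ¬ du P j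
  · have e : bD du C O₁ j = 0 := by unfold bD; rw [if_pos h1]
    rw [e]; exact bD_nonneg hC _ _
  · have h2 : ¬ ∃ P ∈ O, ¬ du P j := fun ⟨P, hP, k⟩ => h1 ⟨P, h hP, k⟩
    unfold bD
    rw [if_neg h1, if_neg h2]

theorem budR_once {I : XSt Λ κ → Prop} {C : ℝ} (hC : 0 ≤ C) :
    BudR stp p0 dv m I (aDR stp du C) (fun j x => bD du C (sO x.s) j) := by
  intro j x _ hX
  by_cases h : (¬ (x.s.t.isLeaf ∨ x.s.t'.isLeaf) ∧ ¬ stp x.s) ∧ OSL x ∧
      (∀ P ∈ x.s.O.erase x.s.p, du P j) ∧ ¬ du x.s.p j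
  · have e0 : aDR stp du C j x = C := by unfold aDR; rw [if_pos h]
    have e1 : bD du C (sO x.s) j = C := by
      unfold bD
      rw [if_neg]
      rintro ⟨P, hP, k⟩
      rw [sO_erase hX.oi.ge] at hP
      exact k (h.2.2.1 P hP)
    refine ⟨by rw [e0]; exact hC, by rw [e0]; exact e1.ge, fun e he hf => ?_⟩
    obtain ⟨-, k1, -⟩ := sO_step hX.oi.ge (steps_O hX.xi e he)
    have e2 : bD du C (sO e.y.s) j = 0 := by
      unfold bD
      rw [if_pos]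
      exact ⟨x.s.p, by rw [k1 h.2.1]; exact Finset.mem_insert_self _ _, h.2.2.2⟩
    show aDR stp du C j x + bD du C (sO e.y.s) j ≤ bD du C (sO x.s) j
    rw [e0, e1, e2, add_zero]
  · have e0 : aDR stp du C j x = 0 := by unfold aDR; rw [if_neg h]
    refine ⟨by rw [e0], by rw [e0]; exact bD_nonneg hC _ _, fun e he hf => ?_⟩
    obtain ⟨k0, -, -⟩ := sO_step hX.oi.ge (steps_O hX.xi e he)
    rw [e0, zero_add]
    refine bD_anti hC ?_ j
    rcases k0 with k0 | k0 <;> rw [k0]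
    exact Finset.subset_insert _ _

theorem budL_once {I : XSt Λ κ → Prop} {C : ℝ} (hC : 0 ≤ C) :
    BudL stp p0 dv m I (aDL stp du C) (fun j x => bD du C (sO' x.s) j) := by
  intro j x _ hX
  by_cases h : (¬ (x.s.t.isLeaf ∨ x.s.t'.isLeaf) ∧ ¬ stp x.s) ∧ OSR x ∧
      (∀ P ∈ x.s.O'.erase x.s.p, du P j) ∧ ¬ du x.s.p j
  · have e0 : aDL stp du C j x = C := by unfold aDL; rw [if_pos h]
    have e1 : bD du C (sO' x.s) j = C := by
      unfold bD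
      rw [if_neg]
      rintro ⟨P, hP, k⟩
      rw [sO'_erase hX.oi.ge] at hP
      exact k (h.2.2.1 P hP)
    refine ⟨by rw [e0]; exact hC, by rw [e0]; exact e1.ge, fun e he hf => ?_⟩
    obtain ⟨-, k1, -⟩ := sO'_step hX.oi.ge (steps_O hX.xi e he)
    have e2 : bD du C (sO' e.y.s) j = 0 := by
      unfold bD
      rw [if_pos]
      exact ⟨x.s.p, by rw [k1 h.2.1]; exact Finset.mem_insert_self _ _, h.2.2.2⟩
    show aDL stp du C j x + bD du C (sO' e.y.s) j ≤ bD du C (sO' x.s) j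
    rw [e0, e1, e2, add_zero]
  · have e0 : aDL stp du C j x = 0 := by unfold aDL; rw [if_neg h]
    refine ⟨by rw [e0], by rw [e0]; exact bD_nonneg hC _ _, fun e he hf => ?_⟩
    obtain ⟨k0, -, -⟩ := sO'_step hX.oi.ge (steps_O hX.xi e he)
    rw [e0, zero_add]
    refine bD_anti hC ?_ j
    rcases k0 with k0 | k0 <;> rw [k0]
    exact Finset.subset_insert _ _

/-! ### everything together -/

/-- the costs of the left items -/
noncomputable def costL (stp : Stp Λ κ) (dv : DT Λ κ → Λ → Prop) (du : ℕ → Λ → Prop)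
    (re : Λ → Finset ℕ) (β : ℕ → ℝ) (ε ε' ε'' : Λ → ℕ → ℝ) (ε₀ C : ℝ) (ω : ℕ → ℝ) (j : Λ)
    (x : XSt Λ κ) : ℝ :=
  aG stp β j x + aTL dv ε j x + aUL ε' j x + aEL re ε'' j x + aCL stp du ε₀ ω j x +
    aDL stp du C j x

/-- the costs of the right items -/
noncomputable def costR (stp : Stp Λ κ) (dv : DT Λ κ → Λ → Prop) (du : ℕ → Λ → Prop)
    (re : Λ → Finset ℕ) (β : ℕ → ℝ) (ε ε' ε'' : Λ → ℕ → ℝ) (ε₀ C : ℝ) (ω : ℕ → ℝ) (j : Λ)
    (x : XSt Λ κ) : ℝ :=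
  aG stp β j x + aTR dv ε j x + aUR ε' j x + aER re ε'' j x + aCR stp du ε₀ ω j x +
    aDR stp du C j x

/-- **walk sum of the one-sided columns.** At a state `x` the local cost is charged to the items:
generic `β p` at one-sided columns, `ε j p` for items missing the tie `p`, `ε' j p` for items with up
prime `p`, `ε'' j p` for items with `p ∈ re j`, `ε₀ ∏ ω` over the earlier one-sided columns `l` of the
other side with `¬ du l j`, `C` once. -/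
theorem WS_eOS {I : XSt Λ κ → Prop} (hp0 : 1 ≤ p0) (hst : ∀ s : St Λ κ, ¬ stp s → ¬ stpN s)
    (hI : ∀ x, I x → ∀ e ∈ steps stp dv x, I e.y) {K : ℝ} (hK : 0 ≤ K) {β : ℕ → ℝ}
    (hβ : ∀ p : ℕ, p0 ≤ p → 0 ≤ β p ∧ β p ≤ K * (p : ℝ) ^ (-(11/12) : ℝ))
    {re : Λ → Finset ℕ} {ε ε' ε'' : Λ → ℕ → ℝ} (hε : ∀ j p, 0 ≤ ε j p)
    (hε' : ∀ j p, 0 ≤ ε' j p) (hε'' : ∀ j p, 0 ≤ ε'' j p) {ε₀ : ℝ} (hε₀ : 0 ≤ ε₀)
    {ω : ℕ → ℝ} (hω : ∀ l, 0 ≤ ω l ∧ ω l ≤ 1) (hω2 : ∀ l, p0 ≤ l → ω l ≤ 1/2) {C : ℝ} (hC : 0 ≤ C)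
    {loc : St Λ κ → ℝ}
    (hl : ∀ x, I x → IX p0 dv m x → loc x.s ≤
      ∑ j ∈ x.s.A, m x.s.t j * costL stp dv du re β ε ε' ε'' ε₀ C ω j x +
      ∑ j ∈ x.s.A', m x.s.t' j * costR stp dv du re β ε ε' ε'' ε₀ C ω j x)
    {x : XSt Λ κ} (hx : I x) (hX : IX p0 dv m x) :
    WS stp loc x.s ≤
      ∑ j ∈ x.s.A, m x.s.t j * (4 * K * (p0 : ℝ) ^ (-(1/4) : ℝ) +
        ∑ q ∈ mtD dv j x.s.t, ε j q + ∑ q ∈ upD dv j x.s.t, ε' j q +
        ∑ q ∈ (re j).filter (fun q => q ≤ x.s.p), ε'' j q + 2 * ε₀ + C) +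
      ∑ j ∈ x.s.A', m x.s.t' j * (4 * K * (p0 : ℝ) ^ (-(1/4) : ℝ) +
        ∑ q ∈ mtD dv j x.s.t', ε j q + ∑ q ∈ upD dv j x.s.t', ε' j q +
        ∑ q ∈ (re j).filter (fun q => q ≤ x.s.p), ε'' j q + 2 * ε₀ + C) := by
  classical
  have bL := (((((budL_gen (stp := stp) (dv := dv) (m := m) (I := I) hK hp0 hst hβ).add
    (budL_tie (stp := stp) (dv := dv) (m := m) (p0 := p0) (I := I) hε)).add
    (budL_up (stp := stp) (dv := dv) (m := m) (p0 := p0) (I := I) hε')).add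
    (budL_ret (stp := stp) (dv := dv) (m := m) (p0 := p0) (I := I) (re := re) hε'')).add
    (budL_geo (stp := stp) (dv := dv) (du := du) (m := m) (I := I) hε₀ hω hω2)).add
    (budL_once (stp := stp) (dv := dv) (du := du) (m := m) (p0 := p0) (I := I) hC)
  have bR := (((((budR_gen (stp := stp) (dv := dv) (m := m) (I := I) hK hp0 hst hβ).add
    (budR_tie (stp := stp) (dv := dv) (m := m) (p0 := p0) (I := I) hε)).add
    (budR_up (stp := stp) (dv := dv) (m := m) (p0 := p0) (I := I) hε')).add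
    (budR_ret (stp := stp) (dv := dv) (m := m) (p0 := p0) (I := I) (re := re) hε'')).add
    (budR_geo (stp := stp) (dv := dv) (du := du) (m := m) (I := I) hε₀ hω hω2)).add
    (budR_once (stp := stp) (dv := dv) (du := du) (m := m) (p0 := p0) (I := I) hC)
  have key := bud_total hp0 hst hI bL bR hl hx hX
  refine key.trans ?_
  have g1 : ∀ (O : Finset ℕ) (j : Λ), gO du ω O j ≤ 1 := fun O j => by
    have := gO_anti (du := du) hω (Finset.empty_subset O) j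
    rwa [gO_empty] at this
  refine add_le_add (Finset.sum_le_sum fun j _ => ?_) (Finset.sum_le_sum fun j _ => ?_)
  · refine mul_le_mul_of_nonneg_left ?_ (hX.tc.L.self.nn j)
    have h1 := bG_le (p0 := p0) hK j x
    have h2 := mul_le_mul_of_nonneg_left (g1 (sO' x.s) j) (by linarith : 0 ≤ 2 * ε₀)
    have h3 := bD_le (du := du) hC (sO' x.s) j
    linarith
  · refine mul_le_mul_of_nonneg_left ?_ (hX.tc.R.self.nn j)
    have h1 := bG_le (p0 := p0) hK j x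
    have h2 := mul_le_mul_of_nonneg_left (g1 (sO x.s) j) (by linarith : 0 ≤ 2 * ε₀)
    have h3 := bD_le (du := du) hC (sO x.s) j
    linarith

/-- the invariant at the start -/
theorem IX_start {n : ℕ} {s : St Λ κ} (hL : s.t.Col n) (hR : s.t'.Col n) (hn : s.p < n)
    (mL : s.t.All (IM dv m)) (mR : s.t'.All (IM dv m)) (tL : s.t.All (TopGe p0))
    (tR : s.t'.All (TopGe p0)) (hO : s.O = ∅) (hO' : s.O' = ∅) :
    IX p0 dv m (XSt.st n s) where
  tc := ⟨mL, mR⟩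
  xi := ⟨hL.lower (Nat.lt_succ_self _), hR.lower (Nat.lt_succ_self _), by simp [XSt.st],
    by simp [XSt.st], mL.mono fun _ k => k.wn, mR.mono fun _ k => k.wn, hn, by simp [XSt.st],
    by simp [XSt.st]⟩
  oi := by
    refine ⟨?_, ?_, tL, tR, ?_⟩
    · intro l hl
      simp [XSt.st, hO, hO'] at hl
    · show mO s ≤ _
      unfold mO
      rw [hO, hO']
      simp only [Finset.union_idempotent, Finset.sum_empty]
      positivity
    · intro hm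
      simp [XSt.st, hO, hO'] at hm

/-- state predicates as predicates of states with history -/
lemma steps_of_nxt {J : St Λ κ → Prop} (hJ : ∀ s, J s → ∀ q ∈ nxt stp s, J q.2) :
    ∀ x : XSt Λ κ, J x.s → ∀ e ∈ steps stp dv x, J e.y.s := by
  intro x hx e he
  have : (e.a * e.a', e.y.s) ∈ nxt stp x.s := by
    rw [← steps_proj stp dv x]
    exact List.mem_map.2 ⟨e, he, rfl⟩
  exact hJ x.s hx _ this

/-- at every state of the walk the one-sided columns have mass at most one -/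
lemma OI.sum_le_one {x : XSt Λ κ} (h : OI p0 x) (hp0 : 8 ≤ p0) :
    ∑ q ∈ x.s.O, 1 / (q : ℝ) ≤ 1 ∧ ∑ q ∈ x.s.O', 1 / (q : ℝ) ≤ 1 := by
  have h1 : 2 * (p0 : ℝ) ^ (-(1/3) : ℝ) ≤ 1 := by
    have h8 : (8:ℝ) ≤ p0 := by exact_mod_cast hp0
    have h2 : (p0 : ℝ) ^ (-(1/3) : ℝ) ≤ (8:ℝ) ^ (-(1/3) : ℝ) :=
      Real.rpow_le_rpow_of_nonpos (by norm_num) h8 (by norm_num)
    have h3 : (8:ℝ) ^ (-(1/3) : ℝ) = 1/2 := by
      rw [show (8:ℝ) = 2 ^ (3:ℝ) by norm_num, ← Real.rpow_mul (by norm_num)]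
      norm_num
    rw [h3] at h2
    linarith
  have h2 : OSWS245.mO x.s ≤ 1 := h.mO.trans h1
  unfold OSWS245.mO at h2
  exact ⟨(Finset.sum_le_sum_of_subset_of_nonneg Finset.subset_union_left
      fun _ _ _ => by positivity).trans h2,
    (Finset.sum_le_sum_of_subset_of_nonneg Finset.subset_union_right
      fun _ _ _ => by positivity).trans h2⟩

end Crest.Agent.R4P.OSWS245
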