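import Crest.Agent.R4P.VWalk_36
import Crest.Agent.R4P.OSWS245

/-!
R4 (S0004) with powers, module D, helper34: **budget of the unsplit walk** (Z3), port of the last part
of `R4/ZWalk812` to the walk `VWalk36.V` on the trees with powers.

* `Ch`, `zn_ch` : the moves of the sides.
* `ZI` : invariant of the unsplit walk; the primes of the moduli are `≥ z.p` and the side averaged by
  them has no tie, pull or add node there any more (`NB`); free steps do not occur.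
* `UL z` = primes of `M'` above the columns of the left side (settled one-sided columns of the left),
  `UR z` = mirror; `Pot` : the potential; `V_le_potQ`, `V_leQ`.
* `stpV` : a stop rule on shapes, `stp2` : the stop rule with the factor `2`; `US z` = settled primes;
  `OJ`, `OJ.next`, `OJ.gs_le` (for every rule that stops at least at `stp2`).
-/

set_option autoImplicit false
set_option linter.unusedSectionVars false
set_option linter.unusedVariables false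
open MeasureTheory Filter Set

namespace Crest.Agent.R4P.VNum34

open Crest.Agent.R4.Tour104 Crest.Agent.R4.Tour758 Crest.Agent.R4.Avg758 Crest.Agent.R4.Clos758
open Crest.Agent.R4.ClosL758 Crest.Agent.R4.ClosG758 Crest.Agent.R4.ClosR758
open Crest.Agent.R4P.ClosR442 Crest.Agent.R4P.Walk560 Crest.Agent.R4P.VWalk36
open Crest.Agent.R4P.OSWS245 (TopGe num1)

variable {Λ κ : Type*}

section mv
variable [Fintype Λ] [DecidableEq Λ]

/-- no tie, pull or add node at the column `q` -/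
def NB (q : ℕ) (t : DT Λ κ) : Prop := ∃ Sp u, vw q t = .up Sp u

lemma NB_of_lt {q : ℕ} {t : DT Λ κ} (h : t.top < q) : NB q t := by
  cases t with
  | leaf r f => exact ⟨_, _, rfl⟩
  | br p w r t₁ t₀ v B G =>
    have h' : p ≠ q := (show p < q from h).ne
    exact ⟨∅, _, by simp only [vw]; rw [if_neg h']⟩
  | add p r t₁ t₀ =>
    have h' : p ≠ q := (show p < q from h).ne
    exact ⟨∅, _, by simp only [vw]; rw [if_neg h']⟩
  | up p Sp t =>
    have h' : p ≠ q := (show p < q from h).ne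
    exact ⟨∅, _, by simp only [vw]; rw [if_neg h']⟩

/-- the moves of one side -/
inductive Ch (p : ℕ) (t : DT Λ κ) : DT Λ κ → Prop
  | stay : Ch p t t
  | br1 {w : ℝ} {r : Λ → κ} {t₁ t₀ : DT Λ κ} {v : Λ → ℝ → ℝ} {B G : κ → ℝ → ℝ}
      (h : vw p t = .br w r t₁ t₀ v B G) : Ch p t t₁
  | br0 {w : ℝ} {r : Λ → κ} {t₁ t₀ : DT Λ κ} {v : Λ → ℝ → ℝ} {B G : κ → ℝ → ℝ}
      (h : vw p t = .br w r t₁ t₀ v B G) : Ch p t t₀
  | ad1 {r : Λ → κ} {t₁ t₀ : DT Λ κ} (h : vw p t = .add r t₁ t₀) : Ch p t t₁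
  | ad0 {r : Λ → κ} {t₁ t₀ : DT Λ κ} (h : vw p t = .add r t₁ t₀) : Ch p t t₀
  | up {Sp : Finset Λ} {u : DT Λ κ} (h : vw p t = .up Sp u) : Ch p t u

lemma Ch.all {p : ℕ} {t c : DT Λ κ} {F : DT Λ κ → Prop} (h : Ch p t c) (hF : t.All F) :
    c.All F := by
  cases h with
  | stay => exact hF
  | br1 h => rw [vw_br h] at hF; exact hF.2.1
  | br0 h => rw [vw_br h] at hF; exact hF.2.2
  | ad1 h => rw [vw_add h] at hF; exact hF.2.1
  | ad0 h => rw [vw_add h] at hF; exact hF.2.2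
  | up h => exact vw_up_all h hF

lemma Ch.top_le {p n : ℕ} {t c : DT Λ κ} (h : Ch p t c) (hp : 0 < p) (htp : t.top ≤ p)
    (hc : t.Col n) : c.top ≤ t.top := by
  cases h with
  | stay => exact le_rfl
  | br1 h => rw [vw_br h] at hc ⊢; exact hc.2.2.1.top_le
  | br0 h => rw [vw_br h] at hc ⊢; exact hc.2.2.2.1.top_le
  | ad1 h => rw [vw_add h] at hc ⊢; exact hc.2.2.1.top_le
  | ad0 h => rw [vw_add h] at hc ⊢; exact hc.2.2.2.top_le
  | up h =>
    rcases vw_up h with rfl | ⟨-, rfl, -⟩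
    · exact (hc.2.2.top_lt hp).le
    · exact le_rfl

lemma Ch.nb {p q n : ℕ} {t c : DT Λ κ} (h : Ch p t c) (hp : 0 < p) (htp : t.top ≤ p)
    (hc : t.Col n) (hq : p ≤ q) (hn : NB q t) : NB q c := by
  have h1 := h.top_le hp htp hc
  rcases hq.lt_or_eq with hq | rfl
  · exact NB_of_lt (by omega)
  · obtain ⟨Sp', u', hn⟩ := hn
    cases h with
    | stay => exact ⟨Sp', u', hn⟩
    | br1 h => rw [h] at hn; exact absurd hn (by simp)
    | br0 h => rw [h] at hn; exact absurd hn (by simp)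
    | ad1 h => rw [h] at hn; exact absurd hn (by simp)
    | ad0 h => rw [h] at hn; exact absurd hn (by simp)
    | up h =>
      rcases vw_up h with rfl | ⟨-, rfl, -⟩
      · exact NB_of_lt (hc.2.2.top_lt hp)
      · exact ⟨_, _, h⟩

/-- the change of the modulus of the side `t` -/
def Mo (p M M₁ : ℕ) (t : DT Λ κ) : Prop :=
  M₁ = M ∨ (p ∣ M ∧ ¬ NB p t ∧ M₁ = M / p) ∨ (NB p t ∧ M₁ = p * M)

lemma not_NB_br {p : ℕ} {t : DT Λ κ} {w : ℝ} {r : Λ → κ} {t₁ t₀ : DT Λ κ}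
    {v : Λ → ℝ → ℝ} {B G : κ → ℝ → ℝ} (h : vw p t = .br w r t₁ t₀ v B G) : ¬ NB p t := by
  rintro ⟨Sp, u, h'⟩
  rw [h] at h'
  exact absurd h' (by simp)

/-- the moves of the unsplit walk -/
theorem zn_ch {stp : ℕ → ℕ → ℕ → Prop} (z : ZS Λ κ) : ∀ q ∈ zn stp z,
    Ch z.p z.t q.2.t ∧ Ch z.p z.t' q.2.t' ∧ Mo z.p z.M q.2.M z.t ∧ Mo z.p z.M' q.2.M' z.t' := by
  intro q hq
  by_cases h1 : z.t.isLeaf ∧ z.t'.isLeaf
  · simp [zn, h1] at hq
  by_cases h2 : stp z.M z.M' z.p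
  · simp [zn, h1, h2] at hq
  rw [zn, if_neg h1, if_neg h2] at hq
  rcases hv : vw z.p z.t with ⟨w, r, t₁, t₀, v, B, G⟩ | ⟨r, t₁, t₀⟩ | ⟨Sp, u⟩ <;>
  rcases hv' : vw z.p z.t' with ⟨w', r', t₁', t₀', v', B', G'⟩ | ⟨r', t₁', t₀'⟩ | ⟨Sp', u'⟩ <;>
  simp only [hv, hv'] at hq
  · split_ifs at hq with hd hd' <;> simp only [List.mem_cons, List.not_mem_nil, or_false] at hq
    · rcases hq with rfl | rfl
      · exact ⟨.br1 hv, .stay, Or.inr (Or.inl ⟨hd, not_NB_br hv, rfl⟩), Or.inl rfl⟩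
      · exact ⟨.br0 hv, .stay, Or.inr (Or.inl ⟨hd, not_NB_br hv, rfl⟩), Or.inl rfl⟩
    · rcases hq with rfl | rfl
      · exact ⟨.stay, .br1 hv', Or.inl rfl, Or.inr (Or.inl ⟨hd', not_NB_br hv', rfl⟩)⟩
      · exact ⟨.stay, .br0 hv', Or.inl rfl, Or.inr (Or.inl ⟨hd', not_NB_br hv', rfl⟩)⟩
    · rcases hq with rfl | rfl | rfl | rfl
      · exact ⟨.br1 hv, .br1 hv', Or.inl rfl, Or.inl rfl⟩
      · exact ⟨.br1 hv, .br0 hv', Or.inl rfl, Or.inl rfl⟩
      · exact ⟨.br0 hv, .br1 hv', Or.inl rfl, Or.inl rfl⟩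
      · exact ⟨.br0 hv, .br0 hv', Or.inl rfl, Or.inl rfl⟩
  · simp only [List.mem_cons, List.not_mem_nil, or_false] at hq
    rcases hq with rfl | rfl
    · exact ⟨.stay, .ad1 hv', Or.inl rfl, Or.inl rfl⟩
    · exact ⟨.stay, .ad0 hv', Or.inl rfl, Or.inl rfl⟩
  · split_ifs at hq with hd <;> simp only [List.mem_cons, List.not_mem_nil, or_false] at hq <;>
      rcases hq with rfl | rfl
    · exact ⟨.br1 hv, .stay, Or.inr (Or.inl ⟨hd, not_NB_br hv, rfl⟩), Or.inl rfl⟩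
    · exact ⟨.br0 hv, .stay, Or.inr (Or.inl ⟨hd, not_NB_br hv, rfl⟩), Or.inl rfl⟩
    · exact ⟨.br1 hv, .stay, Or.inl rfl, Or.inr (Or.inr ⟨⟨_, _, hv'⟩, rfl⟩)⟩
    · exact ⟨.br0 hv, .stay, Or.inl rfl, Or.inr (Or.inr ⟨⟨_, _, hv'⟩, rfl⟩)⟩
  · simp only [List.mem_cons, List.not_mem_nil, or_false] at hq
    rcases hq with rfl | rfl
    · exact ⟨.ad1 hv, .stay, Or.inl rfl, Or.inl rfl⟩
    · exact ⟨.ad0 hv, .stay, Or.inl rfl, Or.inl rfl⟩
  · simp only [List.mem_cons, List.not_mem_nil, or_false] at hq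
    rcases hq with rfl | rfl
    · exact ⟨.ad1 hv, .stay, Or.inl rfl, Or.inl rfl⟩
    · exact ⟨.ad0 hv, .stay, Or.inl rfl, Or.inl rfl⟩
  · simp only [List.mem_cons, List.not_mem_nil, or_false] at hq
    rcases hq with rfl | rfl
    · exact ⟨.ad1 hv, .stay, Or.inl rfl, Or.inl rfl⟩
    · exact ⟨.ad0 hv, .stay, Or.inl rfl, Or.inl rfl⟩
  · split_ifs at hq with hd <;> simp only [List.mem_cons, List.not_mem_nil, or_false] at hq <;>
      rcases hq with rfl | rfl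
    · exact ⟨.stay, .br1 hv', Or.inl rfl, Or.inr (Or.inl ⟨hd, not_NB_br hv', rfl⟩)⟩
    · exact ⟨.stay, .br0 hv', Or.inl rfl, Or.inr (Or.inl ⟨hd, not_NB_br hv', rfl⟩)⟩
    · exact ⟨.stay, .br1 hv', Or.inr (Or.inr ⟨⟨_, _, hv⟩, rfl⟩), Or.inl rfl⟩
    · exact ⟨.stay, .br0 hv', Or.inr (Or.inr ⟨⟨_, _, hv⟩, rfl⟩), Or.inl rfl⟩
  · simp only [List.mem_cons, List.not_mem_nil, or_false] at hq
    rcases hq with rfl | rfl
    · exact ⟨.stay, .ad1 hv', Or.inl rfl, Or.inl rfl⟩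
    · exact ⟨.stay, .ad0 hv', Or.inl rfl, Or.inl rfl⟩
  · simp only [List.mem_cons, List.not_mem_nil, or_false] at hq
    subst hq
    exact ⟨.up hv, .up hv', Or.inl rfl, Or.inl rfl⟩

theorem zn_all {stp : ℕ → ℕ → ℕ → Prop} {Q : DT Λ κ → Prop} (z : ZS Λ κ) (hL : z.t.All Q)
    (hR : z.t'.All Q) : ∀ q ∈ zn stp z, q.2.t.All Q ∧ q.2.t'.All Q :=
  fun q hq => ⟨(zn_ch z q hq).1.all hL, (zn_ch z q hq).2.1.all hR⟩

lemma live' {z : ZS Λ κ} (h : ¬ (z.t.isLeaf ∧ z.t'.isLeaf)) :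
    (¬ z.t.isLeaf ∧ z.t.top = z.p) ∨ (¬ z.t'.isLeaf ∧ z.t'.top = z.p) := by
  unfold ZS.p
  by_cases h1 : z.t.isLeaf
  · have h2 : ¬ z.t'.isLeaf := fun h2 => h ⟨h1, h2⟩
    rw [leaf_top h1]
    exact Or.inr ⟨h2, by simp⟩
  · by_cases h2 : z.t'.isLeaf
    · rw [leaf_top h2]
      exact Or.inl ⟨h1, by simp⟩
    · rcases le_total z.t.top z.t'.top with h | h
      · exact Or.inr ⟨h2, (max_eq_right h).symm⟩
      · exact Or.inl ⟨h1, (max_eq_left h).symm⟩

end mv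

section z3
variable [Fintype Λ] [DecidableEq Λ] [DecidableEq κ] [Fintype κ] [WRel κ] {wr : ℕ → Λ → κ}
  {Ad : TrG Λ κ → Finset Λ → Prop} {μ : TrG Λ κ → Finset Λ → ℝ} {ν : TrG Λ κ → ℝ} {n : ℕ}
  {a : ℕ → ℝ} {stp : ℕ → ℕ → ℕ → Prop} {A A' : Finset Λ}

lemma ZW_of_ok {t : DT Λ κ} (h : t.g.Ok) : t.All ZW := by
  induction t with
  | leaf r f => trivial
  | br p w r t₁ t₀ v B G ih₁ ih₀ => exact ⟨⟨h.2.2.w0, h.2.2.w1⟩, ih₁ h.1, ih₀ h.2.1⟩
  | add b r t₁ t₀ ih₁ ih₀ => exact ⟨trivial, ih₁ h.1, ih₀ h.2⟩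
  | up b Sp u ih => exact ⟨trivial, ih h⟩

lemma Ch.side {p n : ℕ} {t c : DT Λ κ} (h : Ch p t c) (hp : 0 < p) (htp : t.top ≤ p)
    (hS : Side wr Ad μ ν n t A) : Side wr Ad μ ν p c A := by
  cases h with
  | stay => exact hS.down htp
  | br1 h => rw [vw_br h] at hS; exact hS.br.1
  | br0 h => rw [vw_br h] at hS; exact hS.br.2.1
  | ad1 h => rw [vw_add h] at hS; exact hS.add.1
  | ad0 h => rw [vw_add h] at hS; exact hS.add.2
  | up h => exact (hS.vwup h htp hp).1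

/-- invariant of the unsplit walk -/
structure ZI (wr : ℕ → Λ → κ) (Ad : TrG Λ κ → Finset Λ → Prop)
    (μ : TrG Λ κ → Finset Λ → ℝ) (ν : TrG Λ κ → ℝ) (A A' : Finset Λ) (n : ℕ) (z : ZS Λ κ) :
    Prop where
  L : Side wr Ad μ ν n z.t A
  R : Side wr Ad μ ν n z.t' A'
  M0 : z.M ≠ 0
  M0' : z.M' ≠ 0
  gL : ∀ q : ℕ, q.Prime → q ∣ z.M → z.p ≤ q ∧ NB q z.t
  gR : ∀ q : ℕ, q.Prime → q ∣ z.M' → z.p ≤ q ∧ NB q z.t'

/-- the start -/
lemma ZI.start {z : ZS Λ κ} (hL : Side wr Ad μ ν n z.t A) (hR : Side wr Ad μ ν n z.t' A')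
    (hM : z.M = 1) (hM' : z.M' = 1) : ZI wr Ad μ ν A A' n z := by
  refine ⟨hL, hR, by rw [hM]; exact one_ne_zero, by rw [hM']; exact one_ne_zero,
    fun q hq h => ?_, fun q hq h => ?_⟩
  · rw [hM] at h; exact absurd (Nat.dvd_one.1 h) hq.one_lt.ne'
  · rw [hM'] at h; exact absurd (Nat.dvd_one.1 h) hq.one_lt.ne'

lemma ZI.prime {z : ZS Λ κ} (h : ZI wr Ad μ ν A A' n z) (hl : ¬ (z.t.isLeaf ∧ z.t'.isLeaf)) :
    z.p.Prime := by
  rcases live' hl with h1 | h1
  · rw [← h1.2]; exact (col_top h.L.col h1.1).1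
  · rw [← h1.2]; exact (col_top h.R.col h1.1).1

lemma ZI.ok {z : ZS Λ κ} (h : ZI wr Ad μ ν A A' n z) : ZOk z :=
  ⟨ZW_of_ok h.L.ok, ZW_of_ok h.R.ok⟩

/-- the primes of the modulus after a move -/
lemma Mo.dvd {p M M₁ q : ℕ} {t : DT Λ κ} (h : Mo p M M₁ t) (hM : M ≠ 0) (hp : p.Prime)
    (hq : q.Prime) (hd : q ∣ M₁) : q ∣ M ∨ (q = p ∧ NB p t) := by
  rcases h with rfl | ⟨h1, -, rfl⟩ | ⟨h1, rfl⟩
  · exact Or.inl hd
  · exact Or.inl (hd.trans (Nat.div_dvd_of_dvd h1))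
  · rcases (Nat.Prime.dvd_mul hq).1 hd with h | h
    · exact Or.inr ⟨(Nat.prime_dvd_prime_iff_eq hq hp).1 h, h1⟩
    · exact Or.inl h

lemma Mo.ne {p M M₁ : ℕ} {t : DT Λ κ} (h : Mo p M M₁ t) (hM : M ≠ 0) (hp : p.Prime) :
    M₁ ≠ 0 := by
  rcases h with rfl | ⟨h1, -, rfl⟩ | ⟨h1, rfl⟩
  · exact hM
  · exact (Nat.div_pos (Nat.le_of_dvd (Nat.pos_of_ne_zero hM) h1) hp.pos).ne'
  · exact mul_ne_zero hp.ne_zero hM

/-- the primes different from the column -/
lemma Mo.dvd_iff {p M M₁ q : ℕ} {t : DT Λ κ} (h : Mo p M M₁ t) (hp : p.Prime)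
    (hq : q.Prime) (hqp : q ≠ p) : q ∣ M₁ ↔ q ∣ M := by
  have hc : Nat.Coprime q p := (Nat.coprime_primes hq hp).2 hqp
  rcases h with rfl | ⟨h1, -, rfl⟩ | ⟨h1, rfl⟩
  · rfl
  · constructor
    · exact fun h => h.trans (Nat.div_dvd_of_dvd h1)
    · intro h
      rw [← Nat.mul_div_cancel' h1] at h
      exact hc.dvd_of_dvd_mul_left h
  · exact ⟨fun h => hc.dvd_of_dvd_mul_left h, fun h => h.mul_left p⟩

theorem ZI.next {z : ZS Λ κ} (h : ZI wr Ad μ ν A A' n z) :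
    ∀ q ∈ zn stp z, ZI wr Ad μ ν A A' z.p q.2 ∧ 0 ≤ q.1 := by
  intro q hq
  have h1 : ¬ (z.t.isLeaf ∧ z.t'.isLeaf) := by
    intro h1; simp [zn, h1] at hq
  have hpp := h.prime h1
  obtain ⟨c, c', m, m'⟩ := zn_ch z q hq
  have hpL : z.t.top ≤ z.p := le_max_left _ _
  have hpR : z.t'.top ≤ z.p := le_max_right _ _
  have tL := c.top_le hpp.pos hpL h.L.col
  have tR := c'.top_le hpp.pos hpR h.R.col
  have hp : q.2.p ≤ z.p := max_le_max tL tR
  refine ⟨⟨c.side hpp.pos hpL h.L, c'.side hpp.pos hpR h.R, m.ne h.M0 hpp, m'.ne h.M0' hpp,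
    fun r hr hd => ?_, fun r hr hd => ?_⟩, (zn_ok z h.ok q hq).2⟩
  · rcases m.dvd h.M0 hpp hr hd with k | ⟨rfl, k⟩
    · obtain ⟨k1, k2⟩ := h.gL r hr k
      exact ⟨hp.trans k1, c.nb hpp.pos hpL h.L.col k1 k2⟩
    · exact ⟨hp, c.nb hpp.pos hpL h.L.col le_rfl k⟩
  · rcases m'.dvd h.M0' hpp hr hd with k | ⟨rfl, k⟩
    · obtain ⟨k1, k2⟩ := h.gR r hr k
      exact ⟨hp.trans k1, c'.nb hpp.pos hpR h.R.col k1 k2⟩
    · exact ⟨hp, c'.nb hpp.pos hpR h.R.col le_rfl k⟩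

/-! ### the potential -/

/-- budget used by `O` -/
noncomputable def gs (a sg : ℕ → ℝ) (O : Finset ℕ) : ℝ := ∑ q ∈ O, a q * sg q

lemma gs_insert {a sg : ℕ → ℝ} {O : Finset ℕ} {p : ℕ} (h : p ∉ O) :
    gs a sg (insert p O) = a p * sg p + gs a sg O := Finset.sum_insert h

lemma gs_nonneg {a sg : ℕ → ℝ} (ha : ∀ p, 0 ≤ a p) (hs : ∀ p, 0 ≤ sg p) (O : Finset ℕ) :
    0 ≤ gs a sg O := Finset.sum_nonneg fun q _ => mul_nonneg (ha q) (hs q)

lemma gs_mono {a sg : ℕ → ℝ} (ha : ∀ p, 0 ≤ a p) (hs : ∀ p, 0 ≤ sg p) {O O₁ : Finset ℕ}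
    (h : O ⊆ O₁) : gs a sg O ≤ gs a sg O₁ :=
  Finset.sum_le_sum_of_subset_of_nonneg h fun q _ _ => mul_nonneg (ha q) (hs q)

/-- the settled one-sided columns of the left side -/
def UL (z : ZS Λ κ) : Finset ℕ := z.M'.primeFactors.filter (fun q => z.t.top < q)

/-- the settled one-sided columns of the right side -/
def UR (z : ZS Λ κ) : Finset ℕ := z.M.primeFactors.filter (fun q => z.t'.top < q)

/-- the potential -/
noncomputable def Pot (a sg : ℕ → ℝ) (c : ℝ) (μ : TrG Λ κ → Finset Λ → ℝ) (ν : TrG Λ κ → ℝ)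
    (f : DT Λ κ → Finset Λ → ℝ) (A A' : Finset Λ) (z : ZS Λ κ) : ℝ :=
  max 0 (c - gs a sg (UL z)) * (ν z.t.g * μ z.t'.g A') +
    max 0 (c - gs a sg (UR z)) * (μ z.t.g A * ν z.t'.g) + ν z.t.g * f z.t' A'

/-- node functions under an extra node predicate `Q`, with a gap `β p (w me(t₀))` at the ties -/
structure FQ (wr : ℕ → Λ → κ) (Ad : TrG Λ κ → Finset Λ → Prop)
    (μ : TrG Λ κ → Finset Λ → ℝ) (ν : TrG Λ κ → ℝ) (Q : DT Λ κ → Prop) (β : ℕ → ℝ)
    (me : TrG Λ κ → Finset Λ → ℝ) (f : DT Λ κ → Finset Λ → ℝ) : Prop where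
  nn : ∀ {n : ℕ} {t : DT Λ κ} {A : Finset Λ}, Side wr Ad μ ν n t A → t.All Q → 0 ≤ f t A
  br : ∀ {n p : ℕ} {w : ℝ} {r : Λ → κ} {t₁ t₀ : DT Λ κ} {v : Λ → ℝ → ℝ} {B G : κ → ℝ → ℝ}
    {A : Finset Λ}, Side wr Ad μ ν n (.br p w r t₁ t₀ v B G) A →
    (DT.br p w r t₁ t₀ v B G).All Q →
    (1 - w) * f t₁ A + w * f t₀ A + β p * (w * me t₀.g A) ≤ f (.br p w r t₁ t₀ v B G) A
  add : ∀ {n b : ℕ} {r : Λ → κ} {t₁ t₀ : DT Λ κ} {A : Finset Λ},
    Side wr Ad μ ν n (.add b r t₁ t₀) A → (DT.add b r t₁ t₀).All Q →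
    f t₁ A + f t₀ A ≤ f (.add b r t₁ t₀) A
  up : ∀ {n p : ℕ} {t : DT Λ κ} {Sp : Finset Λ} {u : DT Λ κ} {A : Finset Λ},
    Side wr Ad μ ν n t A → t.All Q → vw p t = .up Sp u → t.top ≤ p → 0 < p → f u A ≤ f t A

lemma FQ_of_NF {f : DT Λ κ → Finset Λ → ℝ} (hf : NF wr Ad μ ν f) {β : ℕ → ℝ}
    (hgap : ∀ {n p : ℕ} {w : ℝ} {r : Λ → κ} {t₁ t₀ : DT Λ κ} {v : Λ → ℝ → ℝ} {B G : κ → ℝ → ℝ}
      {A : Finset Λ}, Side wr Ad μ ν n (.br p w r t₁ t₀ v B G) A →
      (1 - w) * f t₁ A + w * f t₀ A + β p * (w * μ t₀.g A) ≤ f (.br p w r t₁ t₀ v B G) A) :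
    FQ wr Ad μ ν (fun _ => True) β μ f :=
  ⟨fun h _ => hf.nn h, fun h _ => hgap h, fun h _ => hf.add h,
    fun h _ hv hp hp0 => (hf.up h hv hp hp0).1⟩

lemma FQ_mu : FQ wr Ad μ ν (fun _ => True) (fun _ => 0) μ (fun t A => μ t.g A) :=
  FQ_of_NF NF_mu fun h => by
    have := NF_mu.br h
    simpa using this

lemma All_true (t : DT Λ κ) : t.All fun _ => True := by
  induction t with
  | leaf r f => trivial
  | br p w r t₁ t₀ v B G ih₁ ih₀ => exact ⟨trivial, ih₁, ih₀⟩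
  | add b r t₁ t₀ ih₁ ih₀ => exact ⟨trivial, ih₁, ih₀⟩
  | up b Sp u ih => exact ⟨trivial, ih⟩

/-- the bilinear form of the potential -/
noncomputable def Pb (μ : TrG Λ κ → Finset Λ → ℝ) (ν : TrG Λ κ → ℝ)
    (f : DT Λ κ → Finset Λ → ℝ) (A A' : Finset Λ) (x y : ℝ) (t t' : DT Λ κ) : ℝ :=
  x * (ν t.g * μ t'.g A') + y * (μ t.g A * ν t'.g) + ν t.g * f t' A'

lemma Pot_eq (a sg : ℕ → ℝ) (c : ℝ) (μ : TrG Λ κ → Finset Λ → ℝ) (ν : TrG Λ κ → ℝ)
    (f : DT Λ κ → Finset Λ → ℝ) (A A' : Finset Λ) (z : ZS Λ κ) :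
    Pot a sg c μ ν f A A' z =
      Pb μ ν f A A' (max 0 (c - gs a sg (UL z))) (max 0 (c - gs a sg (UR z))) z.t z.t' := rfl

lemma UL_sub {M M' : ℕ} {t t' s s' : DT Λ κ} {N N' : ℕ} (hN' : N' ≠ 0)
    (hM : ∀ q : ℕ, q.Prime → q ∣ M' → q ∣ N') (ht : s.top ≤ t.top) :
    UL (⟨M, M', t, t'⟩ : ZS Λ κ) ⊆ UL ⟨N, N', s, s'⟩ := by
  intro q hq
  unfold UL at hq ⊢
  rw [Finset.mem_filter, Nat.mem_primeFactors] at hq ⊢
  exact ⟨⟨hq.1.1, hM q hq.1.1 hq.1.2.1, hN'⟩, ht.trans_lt hq.2⟩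

lemma UR_sub {M M' : ℕ} {t t' s s' : DT Λ κ} {N N' : ℕ} (hN : N ≠ 0)
    (hM : ∀ q : ℕ, q.Prime → q ∣ M → q ∣ N) (ht : s'.top ≤ t'.top) :
    UR (⟨M, M', t, t'⟩ : ZS Λ κ) ⊆ UR ⟨N, N', s, s'⟩ := by
  intro q hq
  unfold UR at hq ⊢
  rw [Finset.mem_filter, Nat.mem_primeFactors] at hq ⊢
  exact ⟨⟨hq.1.1, hM q hq.1.1 hq.1.2.1, hN⟩, ht.trans_lt hq.2⟩

lemma Pot_le {a sg : ℕ → ℝ} {c : ℝ} {me : TrG Λ κ → Finset Λ → ℝ} {f : DT Λ κ → Finset Λ → ℝ}
    {z : ZS Λ κ} {x y : ℝ} (hN : 0 ≤ ν z.t.g) (hN' : 0 ≤ ν z.t'.g) (hm : 0 ≤ me z.t.g A)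
    (hm' : 0 ≤ me z.t'.g A') (hx : max 0 (c - gs a sg (UL z)) ≤ x)
    (hy : max 0 (c - gs a sg (UR z)) ≤ y) :
    Pot a sg c me ν f A A' z ≤ Pb me ν f A A' x y z.t z.t' := by
  unfold Pot Pb
  have k1 := mul_le_mul_of_nonneg_right hx (mul_nonneg hN hm')
  have k2 := mul_le_mul_of_nonneg_right hy (mul_nonneg hm hN')
  linarith

/-- no free steps -/
lemma Mo.dvd' {p M M₁ q : ℕ} {t : DT Λ κ} (h : Mo p M M₁ t) (hp : p.Prime)
    (hg : ∀ q : ℕ, q.Prime → q ∣ M → NB q t) (hd : q ∣ M) : q ∣ M₁ := by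
  rcases h with rfl | ⟨h1, h2, -⟩ | ⟨h1, rfl⟩
  · exact hd
  · exact absurd (hg p hp h1) h2
  · exact hd.mul_left p

set_option maxHeartbeats 4000000 in
/-- **(Z3)** the unsplit walk is bounded by its budget; `me` = the masses of the costs, `Q` = an extra
predicate of the nodes -/
theorem V_le_potQ {Q : DT Λ κ → Prop} {me : TrG Λ κ → Finset Λ → ℝ} {sg : ℕ → ℝ} {c : ℝ}
    {f : DT Λ κ → Finset Λ → ℝ} (ha : ∀ p, 0 ≤ a p) (hs : ∀ p, 0 ≤ sg p)
    (hme : FQ wr Ad μ ν Q (fun _ => 0) me (fun t A => me t.g A))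
    (hsg : ∀ {n p : ℕ} {w : ℝ} {r : Λ → κ} {t₁ t₀ : DT Λ κ} {v : Λ → ℝ → ℝ} {B G : κ → ℝ → ℝ}
      {A : Finset Λ}, Side wr Ad μ ν n (.br p w r t₁ t₀ v B G) A →
      (DT.br p w r t₁ t₀ v B G).All Q →
      w * me t₀.g A ≤ sg p * ν (DT.br p w r t₁ t₀ v B G).g)
    (hf : FQ wr Ad μ ν Q (fun p => a p * sg p) me f)
    {J : ZS Λ κ → Prop}
    (hJ : ∀ n z, ZI wr Ad μ ν A A' n z → J z → ∀ q ∈ zn stp z, J q.2)
    (hst : ∀ n z, ZI wr Ad μ ν A A' n z → J z → ¬ (z.t.isLeaf ∧ z.t'.isLeaf) →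
      ¬ stp z.M z.M' z.p → gs a sg (insert z.p (UL z)) ≤ c ∧ gs a sg (insert z.p (UR z)) ≤ c)
    {z : ZS Λ κ} (hz : ZI wr Ad μ ν A A' n z) (hz' : J z) (hqL : z.t.All Q)
    (hqR : z.t'.All Q) :
    V stp a me z A A' ≤ Pot a sg c me ν f A A' z := by
  have hbr0 : ∀ {n p : ℕ} {w : ℝ} {r : Λ → κ} {t₁ t₀ : DT Λ κ} {v : Λ → ℝ → ℝ} {B G : κ → ℝ → ℝ}
      {A : Finset Λ}, Side wr Ad μ ν n (.br p w r t₁ t₀ v B G) A →
      (DT.br p w r t₁ t₀ v B G).All Q →
      (1 - w) * me t₁.g A + w * me t₀.g A ≤ me (DT.br p w r t₁ t₀ v B G).g A := by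
    intro n p w r t₁ t₀ v B G A h hq
    have := hme.br h hq
    simpa using this
  have hfb : ∀ {n p : ℕ} {w : ℝ} {r : Λ → κ} {t₁ t₀ : DT Λ κ} {v : Λ → ℝ → ℝ} {B G : κ → ℝ → ℝ}
      {A : Finset Λ}, Side wr Ad μ ν n (.br p w r t₁ t₀ v B G) A →
      (DT.br p w r t₁ t₀ v B G).All Q →
      (1 - w) * f t₁ A + w * f t₀ A ≤ f (.br p w r t₁ t₀ v B G) A := by
    intro n p w r t₁ t₀ v B G A h hq
    obtain ⟨-, a0, hb, -, -⟩ := h.br
    have h1 := hf.br h hq
    have h2 : 0 ≤ me t₀.g A := hme.nn a0 hq.2.2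
    have h3 := mul_nonneg (mul_nonneg (ha p) (hs p)) (mul_nonneg hb.w0 h2)
    linarith
  refine W_le_super (zn_rank stp)
    (Inv := fun z => ((∃ n, ZI wr Ad μ ν A A' n z) ∧ J z) ∧ z.t.All Q ∧ z.t'.All Q)
    ?_ ?_ z ⟨⟨⟨n, hz⟩, hz'⟩, hqL, hqR⟩
  · rintro z ⟨⟨⟨n, h⟩, hj⟩, hqL, hqR⟩ q hq
    exact ⟨⟨⟨⟨z.p, (h.next q hq).1⟩, hJ n z h hj q hq⟩, zn_all z hqL hqR q hq⟩,
      (h.next q hq).2⟩
  · rintro z ⟨⟨⟨n, h⟩, hj⟩, hqL, hqR⟩
    have hN : 0 ≤ ν z.t.g := h.L.wf.self.mass.base.nu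
    have hN' : 0 ≤ ν z.t'.g := h.R.wf.self.mass.base.nu
    have hm : 0 ≤ me z.t.g A := hme.nn h.L hqL
    have hm' : 0 ≤ me z.t'.g A' := hme.nn h.R hqR
    have hF : 0 ≤ f z.t' A' := hf.nn h.R hqR
    have x0 := le_max_left 0 (c - gs a sg (UL z))
    have y0 := le_max_left 0 (c - gs a sg (UR z))
    by_cases h1 : z.t.isLeaf ∧ z.t'.isLeaf
    · simp only [cz, zn, h1, and_self, if_true, List.map_nil, List.sum_nil, Pot, add_zero]
      positivity
    by_cases h2 : stp z.M z.M' z.p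
    · simp only [cz, zn, h1, h2, if_false, if_true, List.map_nil, List.sum_nil, Pot, add_zero]
      positivity
    have hpp := h.prime h1
    obtain ⟨g1, g2⟩ := hst n z h hj h1 h2
    have hpL : z.t.top ≤ z.p := le_max_left _ _
    have hpR : z.t'.top ≤ z.p := le_max_right _ _
    have hap := ha z.p
    have hsp := hs z.p
    have has : 0 ≤ a z.p * sg z.p := mul_nonneg hap hsp
    have c1 : gs a sg (UL z) ≤ c := (gs_mono ha hs (Finset.subset_insert _ _)).trans g1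
    have c2 : gs a sg (UR z) ≤ c := (gs_mono ha hs (Finset.subset_insert _ _)).trans g2
    -- the children have smaller coefficients
    have hsub : ∀ q ∈ zn stp z, UL z ⊆ UL q.2 ∧ UR z ⊆ UR q.2 := by
      intro q hq
      obtain ⟨c, c', m, m'⟩ := zn_ch z q hq
      have hn := (h.next q hq).1
      constructor
      · intro r hr
        unfold UL at hr ⊢
        rw [Finset.mem_filter, Nat.mem_primeFactors] at hr ⊢
        exact ⟨⟨hr.1.1, m'.dvd' hpp (fun q hq hd => (h.gR q hq hd).2) hr.1.2.1, hn.M0'⟩,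
          (c.top_le hpp.pos hpL h.L.col).trans_lt hr.2⟩
      · intro r hr
        unfold UR at hr ⊢
        rw [Finset.mem_filter, Nat.mem_primeFactors] at hr ⊢
        exact ⟨⟨hr.1.1, m.dvd' hpp (fun q hq hd => (h.gL q hq hd).2) hr.1.2.1, hn.M0⟩,
          (c'.top_le hpp.pos hpR h.R.col).trans_lt hr.2⟩
    have hPb : ∀ q ∈ zn stp z, ∀ x y : ℝ, max 0 (c - gs a sg (UL q.2)) ≤ x →
        max 0 (c - gs a sg (UR q.2)) ≤ y →
        Pot a sg c me ν f A A' q.2 ≤ Pb me ν f A A' x y q.2.t q.2.t' := by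
      intro q hq x y hx hy
      have hn := (h.next q hq).1
      have hA := zn_all z hqL hqR q hq
      exact Pot_le hn.L.wf.self.mass.base.nu hn.R.wf.self.mass.base.nu (hme.nn hn.L hA.1)
        (hme.nn hn.R hA.2) hx hy
    have hKx : ∀ q ∈ zn stp z, max 0 (c - gs a sg (UL q.2)) ≤ max 0 (c - gs a sg (UL z)) := by
      intro q hq
      have := gs_mono ha hs (hsub q hq).1
      exact max_le_max le_rfl (by linarith)
    have hKy : ∀ q ∈ zn stp z, max 0 (c - gs a sg (UR q.2)) ≤ max 0 (c - gs a sg (UR z)) := by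
      intro q hq
      have := gs_mono ha hs (hsub q hq).2
      exact max_le_max le_rfl (by linarith)
    have hK : ∀ q ∈ zn stp z, Pot a sg c me ν f A A' q.2 ≤
        Pb me ν f A A' (max 0 (c - gs a sg (UL z))) (max 0 (c - gs a sg (UR z))) q.2.t q.2.t' :=
      fun q hq => hPb q hq _ _ (hKx q hq) (hKy q hq)
    rw [Pot_eq]
    set x := max 0 (c - gs a sg (UL z)) with hx
    set y := max 0 (c - gs a sg (UR z)) with hy
    rcases hv : vw z.p z.t with ⟨w, r, t₁, t₀, v, B, G⟩ | ⟨r, t₁, t₀⟩ | ⟨Sp, u⟩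
    · -- br
      have et := vw_br hv
      have hL2 := h.L
      rw [et] at hL2
      have qL2 := hqL
      rw [et] at qL2
      obtain ⟨a1, a0, hb, -, -⟩ := hL2.br
      have j1 := hsg hL2 qL2
      have j3 : (1 - w) * ν t₁.g + w * ν t₀.g ≤ ν z.t.g := by rw [et]; exact HF_nu.br hL2
      have j5 : (1 - w) * me t₁.g A + w * me t₀.g A ≤ me z.t.g A := by rw [et]; exact hbr0 hL2 qL2
      rw [← et] at j1
      have w0 := hb.w0
      have w1 : 0 ≤ 1 - w := by linarith [hb.w1]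
      have p1 : 0 ≤ ν t₁.g := a1.wf.self.mass.base.nu
      have p0 : 0 ≤ ν t₀.g := a0.wf.self.mass.base.nu
      have m1 : 0 ≤ me t₁.g A := hme.nn a1 qL2.2.1
      have m0 : 0 ≤ me t₀.g A := hme.nn a0 qL2.2.2
      have hd : ¬ z.p ∣ z.M := fun hd => not_NB_br hv (h.gL _ hpp hd).2
      rcases hv' : vw z.p z.t' with ⟨w', r', t₁', t₀', v', B', G'⟩ | ⟨r', t₁', t₀'⟩ | ⟨Sp', u'⟩
      · -- br br
        have et' := vw_br hv'
        have hR2 := h.R
        rw [et'] at hR2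
        have qR2 := hqR
        rw [et'] at qR2
        obtain ⟨b1, b0, hb', -, -⟩ := hR2.br
        have j2 := hf.br hR2 qR2
        have j4 : (1 - w') * ν t₁'.g + w' * ν t₀'.g ≤ ν z.t'.g := by rw [et']; exact HF_nu.br hR2
        have j6 : (1 - w') * me t₁'.g A' + w' * me t₀'.g A' ≤ me z.t'.g A' := by
          rw [et']; exact hbr0 hR2 qR2
        rw [← et'] at j2
        have w0' := hb'.w0
        have w1' : 0 ≤ 1 - w' := by linarith [hb'.w1]
        have p1' : 0 ≤ ν t₁'.g := b1.wf.self.mass.base.nu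
        have p0' : 0 ≤ ν t₀'.g := b0.wf.self.mass.base.nu
        have m1' : 0 ≤ me t₁'.g A' := hme.nn b1 qR2.2.1
        have m0' : 0 ≤ me t₀'.g A' := hme.nn b0 qR2.2.2
        have f1 : 0 ≤ f t₁' A' := hf.nn b1 qR2.2.1
        have f0 : 0 ≤ f t₀' A' := hf.nn b0 qR2.2.2
        have hd' : ¬ z.p ∣ z.M' := fun hd => not_NB_br hv' (h.gR _ hpp hd).2
        have hzn : zn stp z = [((1 - w) * (1 - w'), { z with t := t₁, t' := t₁' }),
            ((1 - w) * w', { z with t := t₁, t' := t₀' }),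
            (w * (1 - w'), { z with t := t₀, t' := t₁' }),
            (w * w', { z with t := t₀, t' := t₀' })] := by
          rw [zn, if_neg h1, if_neg h2]
          simp only [hv, hv', hd, hd', if_false]
        have hcz : cz stp a me A A' z = a z.p * (w * me t₀.g A) * (w' * me t₀'.g A') := by
          rw [cz, if_neg h1, if_neg h2]
          simp only [hv, hv', hd, hd', if_false]
        rw [hzn] at hK
        have K1 := mul_le_mul_of_nonneg_left (hK _ (List.mem_cons_self)) (mul_nonneg w1 w1')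
        have K2 := mul_le_mul_of_nonneg_left (hK _ (List.mem_cons_of_mem _ List.mem_cons_self))
          (mul_nonneg w1 w0')
        have K3 := mul_le_mul_of_nonneg_left (hK _ (List.mem_cons_of_mem _
          (List.mem_cons_of_mem _ List.mem_cons_self))) (mul_nonneg w0 w1')
        have K4 := mul_le_mul_of_nonneg_left (hK _ (List.mem_cons_of_mem _
          (List.mem_cons_of_mem _ (List.mem_cons_of_mem _ List.mem_cons_self)))) (mul_nonneg w0 w0')
        rw [hzn, hcz]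
        simp only [List.map_cons, List.map_nil, List.sum_cons, List.sum_nil, add_zero, Pb]
          at K1 K2 K3 K4 ⊢
        have k1 := mul_le_mul_of_nonneg_left (mul_le_mul j3 j6 (by positivity) hN) x0
        have k2 := mul_le_mul_of_nonneg_left (mul_le_mul j5 j4 (by positivity) hm) y0
        have k3 := mul_le_mul_of_nonneg_left j2 hN
        have k4 := mul_le_mul_of_nonneg_left (mul_le_mul_of_nonneg_right j1
          (by positivity : 0 ≤ w' * me t₀'.g A')) hap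
        have k5 := mul_le_mul_of_nonneg_right j3
          (by positivity : 0 ≤ (1 - w') * f t₁' A' + w' * f t₀' A')
        linarith
      · -- br add
        have et' := vw_add hv'
        have hR2 := h.R
        rw [et'] at hR2
        have qR2 := hqR
        rw [et'] at qR2
        obtain ⟨b1, b0⟩ := hR2.add
        have hzn : zn stp z = [(1, { z with t' := t₁' }), (1, { z with t' := t₀' })] := by
          rw [zn, if_neg h1, if_neg h2]
          simp only [hv, hv']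
        have hcz : cz stp a me A A' z = 0 := by
          rw [cz, if_neg h1, if_neg h2]
          simp only [hv, hv']
        rw [hzn] at hK
        have K1 := hK _ (List.mem_cons_self)
        have K2 := hK _ (List.mem_cons_of_mem _ List.mem_cons_self)
        have j2 : f t₁' A' + f t₀' A' ≤ f z.t' A' := by rw [et']; exact hf.add hR2 qR2
        have j4 : ν t₁'.g + ν t₀'.g ≤ ν z.t'.g := by rw [et']; exact hR2.wf.1.mass.2.2
        have j6 : me t₁'.g A' + me t₀'.g A' ≤ me z.t'.g A' := by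
          rw [et']; exact hme.add hR2 qR2
        rw [hzn, hcz]
        simp only [List.map_cons, List.map_nil, List.sum_cons, List.sum_nil, add_zero, Pb, one_mul,
          zero_add] at K1 K2 ⊢
        have k1 := mul_le_mul_of_nonneg_left (mul_le_mul_of_nonneg_left j6 hN) x0
        have k2 := mul_le_mul_of_nonneg_left (mul_le_mul_of_nonneg_left j4 hm) y0
        have k3 := mul_le_mul_of_nonneg_left j2 hN
        linarith
      · -- br up
        have hzn : zn stp z = [(1 - w, { z with M' := z.p * z.M', t := t₁ }),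
            (w, { z with M' := z.p * z.M', t := t₀ })] := by
          rw [zn, if_neg h1, if_neg h2]
          simp only [hv, hv', hd, if_false]
        have hcz : cz stp a me A A' z = a z.p * (w * me t₀.g A) * me z.t'.g A' := by
          rw [cz, if_neg h1, if_neg h2]
          simp only [hv, hv', hd, if_false]
        have M1 : ((1 - w : ℝ), ({ z with M' := z.p * z.M', t := t₁ } : ZS Λ κ)) ∈ zn stp z := by
          rw [hzn]; exact List.mem_cons_self
        have M2 : ((w : ℝ), ({ z with M' := z.p * z.M', t := t₀ } : ZS Λ κ)) ∈ zn stp z := by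
          rw [hzn]; exact List.mem_cons_of_mem _ List.mem_cons_self
        rw [hzn, hcz]
        by_cases hw : w = 0
        · have K1 := hK _ M1
          subst hw
          simp only [List.map_cons, List.map_nil, List.sum_cons, List.sum_nil, add_zero, Pb,
            sub_zero, one_mul, zero_mul, mul_zero, zero_add] at K1 j3 j5 ⊢
          have k1 := mul_le_mul_of_nonneg_left (mul_le_mul_of_nonneg_right j3 hm') x0
          have k2 := mul_le_mul_of_nonneg_left (mul_le_mul_of_nonneg_right j5 hN') y0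
          have k3 := mul_le_mul_of_nonneg_right j3 hF
          linarith
        · have hcol := h.L.col
          rw [et] at hcol
          obtain ⟨cc1, cc0⟩ := hcol.2.2.2.2 hw
          have tt1 := cc1.top_lt hpp.pos
          have tt0 := cc0.top_lt hpp.pos
          have nm : z.p ∉ UL z := by
            unfold UL
            rw [Finset.mem_filter]
            rintro ⟨-, hlt⟩
            rw [et] at hlt
            exact absurd hlt (lt_irrefl _)
          rw [gs_insert nm] at g1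
          have hM' : z.p * z.M' ≠ 0 := mul_ne_zero hpp.ne_zero h.M0'
          have s1 : insert z.p (UL z) ⊆ UL ({ z with M' := z.p * z.M', t := t₁ } : ZS Λ κ) := by
            refine Finset.insert_subset ?_ (hsub _ M1).1
            unfold UL
            rw [Finset.mem_filter, Nat.mem_primeFactors]
            exact ⟨⟨hpp, Dvd.intro _ rfl, hM'⟩, tt1⟩
          have s0 : insert z.p (UL z) ⊆ UL ({ z with M' := z.p * z.M', t := t₀ } : ZS Λ κ) := by
            refine Finset.insert_subset ?_ (hsub _ M2).1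
            unfold UL
            rw [Finset.mem_filter, Nat.mem_primeFactors]
            exact ⟨⟨hpp, Dvd.intro _ rfl, hM'⟩, tt0⟩
          have gg1 := gs_mono ha hs s1
          have gg0 := gs_mono ha hs s0
          rw [gs_insert nm] at gg1 gg0
          have ex : x = c - gs a sg (UL z) := max_eq_right (by linarith)
          have X1 : 0 ≤ x - a z.p * sg z.p := by rw [ex]; linarith
          have K1 := mul_le_mul_of_nonneg_left (hPb _ M1 (x - a z.p * sg z.p) y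
            (max_le X1 (by rw [ex]; linarith)) (hKy _ M1)) w1
          have K2 := mul_le_mul_of_nonneg_left (hPb _ M2 (x - a z.p * sg z.p) y
            (max_le X1 (by rw [ex]; linarith)) (hKy _ M2)) w0
          simp only [List.map_cons, List.map_nil, List.sum_cons, List.sum_nil, add_zero, Pb]
            at K1 K2 ⊢
          have k1 := mul_le_mul_of_nonneg_left (mul_le_mul_of_nonneg_right j3 hm') X1
          have k2 := mul_le_mul_of_nonneg_left (mul_le_mul_of_nonneg_right j5 hN') y0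
          have k3 := mul_le_mul_of_nonneg_right j3 hF
          have k4 := mul_le_mul_of_nonneg_left (mul_le_mul_of_nonneg_right j1 hm') hap
          linarith
    · -- add
      have et := vw_add hv
      have hL2 := h.L
      rw [et] at hL2
      have qL2 := hqL
      rw [et] at qL2
      obtain ⟨a1, a0⟩ := hL2.add
      have j3 : ν t₁.g + ν t₀.g ≤ ν z.t.g := by rw [et]; exact hL2.wf.1.mass.2.2
      have j5 : me t₁.g A + me t₀.g A ≤ me z.t.g A := by rw [et]; exact hme.add hL2 qL2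
      have hzn : zn stp z = [(1, { z with t := t₁ }), (1, { z with t := t₀ })] := by
        rw [zn, if_neg h1, if_neg h2]
        rcases hv' : vw z.p z.t' with ⟨w', r', t₁', t₀', v', B', G'⟩ | ⟨r', t₁', t₀'⟩ | ⟨Sp', u'⟩ <;>
          simp only [hv]
      have hcz : cz stp a me A A' z = 0 := by
        rw [cz, if_neg h1, if_neg h2]
        rcases hv' : vw z.p z.t' with ⟨w', r', t₁', t₀', v', B', G'⟩ | ⟨r', t₁', t₀'⟩ | ⟨Sp', u'⟩ <;>
          simp only [hv]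
      rw [hzn] at hK
      have K1 := hK _ (List.mem_cons_self)
      have K2 := hK _ (List.mem_cons_of_mem _ List.mem_cons_self)
      rw [hzn, hcz]
      simp only [List.map_cons, List.map_nil, List.sum_cons, List.sum_nil, add_zero, Pb, one_mul,
        zero_add] at K1 K2 ⊢
      have k1 := mul_le_mul_of_nonneg_left (mul_le_mul_of_nonneg_right j3 hm') x0
      have k2 := mul_le_mul_of_nonneg_left (mul_le_mul_of_nonneg_right j5 hN') y0
      have k3 := mul_le_mul_of_nonneg_right j3 hF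
      linarith
    · -- up
      rcases hv' : vw z.p z.t' with ⟨w', r', t₁', t₀', v', B', G'⟩ | ⟨r', t₁', t₀'⟩ | ⟨Sp', u'⟩
      · -- up br
        have et' := vw_br hv'
        have hR2 := h.R
        rw [et'] at hR2
        have qR2 := hqR
        rw [et'] at qR2
        obtain ⟨b1, b0, hb', -, -⟩ := hR2.br
        have j1 := hsg hR2 qR2
        rw [← et'] at j1
        have j2 : (1 - w') * f t₁' A' + w' * f t₀' A' ≤ f z.t' A' := by
          rw [et']; exact hfb hR2 qR2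
        have j4 : (1 - w') * ν t₁'.g + w' * ν t₀'.g ≤ ν z.t'.g := by rw [et']; exact HF_nu.br hR2
        have j6 : (1 - w') * me t₁'.g A' + w' * me t₀'.g A' ≤ me z.t'.g A' := by
          rw [et']; exact hbr0 hR2 qR2
        have w0' := hb'.w0
        have w1' : 0 ≤ 1 - w' := by linarith [hb'.w1]
        have hd' : ¬ z.p ∣ z.M' := fun hd => not_NB_br hv' (h.gR _ hpp hd).2
        have hzn : zn stp z = [(1 - w', { z with M := z.p * z.M, t' := t₁' }),
            (w', { z with M := z.p * z.M, t' := t₀' })] := by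
          rw [zn, if_neg h1, if_neg h2]
          simp only [hv, hv', hd', if_false]
        have hcz : cz stp a me A A' z = a z.p * me z.t.g A * (w' * me t₀'.g A') := by
          rw [cz, if_neg h1, if_neg h2]
          simp only [hv, hv', hd', if_false]
        have M1 : ((1 - w' : ℝ), ({ z with M := z.p * z.M, t' := t₁' } : ZS Λ κ)) ∈ zn stp z := by
          rw [hzn]; exact List.mem_cons_self
        have M2 : ((w' : ℝ), ({ z with M := z.p * z.M, t' := t₀' } : ZS Λ κ)) ∈ zn stp z := by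
          rw [hzn]; exact List.mem_cons_of_mem _ List.mem_cons_self
        rw [hzn, hcz]
        by_cases hw : w' = 0
        · have K1 := hK _ M1
          subst hw
          simp only [List.map_cons, List.map_nil, List.sum_cons, List.sum_nil, add_zero, Pb,
            sub_zero, one_mul, zero_mul, mul_zero, zero_add] at K1 j2 j4 j6 ⊢
          have k1 := mul_le_mul_of_nonneg_left (mul_le_mul_of_nonneg_left j6 hN) x0
          have k2 := mul_le_mul_of_nonneg_left (mul_le_mul_of_nonneg_left j4 hm) y0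
          have k3 := mul_le_mul_of_nonneg_left j2 hN
          linarith
        · have hcol := h.R.col
          rw [et'] at hcol
          obtain ⟨cc1, cc0⟩ := hcol.2.2.2.2 hw
          have tt1 := cc1.top_lt hpp.pos
          have tt0 := cc0.top_lt hpp.pos
          have nm : z.p ∉ UR z := by
            unfold UR
            rw [Finset.mem_filter]
            rintro ⟨-, hlt⟩
            rw [et'] at hlt
            exact absurd hlt (lt_irrefl _)
          rw [gs_insert nm] at g2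
          have hM' : z.p * z.M ≠ 0 := mul_ne_zero hpp.ne_zero h.M0
          have s1 : insert z.p (UR z) ⊆ UR ({ z with M := z.p * z.M, t' := t₁' } : ZS Λ κ) := by
            refine Finset.insert_subset ?_ (hsub _ M1).2
            unfold UR
            rw [Finset.mem_filter, Nat.mem_primeFactors]
            exact ⟨⟨hpp, Dvd.intro _ rfl, hM'⟩, tt1⟩
          have s0 : insert z.p (UR z) ⊆ UR ({ z with M := z.p * z.M, t' := t₀' } : ZS Λ κ) := by
            refine Finset.insert_subset ?_ (hsub _ M2).2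
            unfold UR
            rw [Finset.mem_filter, Nat.mem_primeFactors]
            exact ⟨⟨hpp, Dvd.intro _ rfl, hM'⟩, tt0⟩
          have gg1 := gs_mono ha hs s1
          have gg0 := gs_mono ha hs s0
          rw [gs_insert nm] at gg1 gg0
          have ex : y = c - gs a sg (UR z) := max_eq_right (by linarith)
          have X1 : 0 ≤ y - a z.p * sg z.p := by rw [ex]; linarith
          have K1 := mul_le_mul_of_nonneg_left (hPb _ M1 x (y - a z.p * sg z.p)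
            (hKx _ M1) (max_le X1 (by rw [ex]; linarith))) w1'
          have K2 := mul_le_mul_of_nonneg_left (hPb _ M2 x (y - a z.p * sg z.p)
            (hKx _ M2) (max_le X1 (by rw [ex]; linarith))) w0'
          simp only [List.map_cons, List.map_nil, List.sum_cons, List.sum_nil, add_zero, Pb]
            at K1 K2 ⊢
          have k1 := mul_le_mul_of_nonneg_left (mul_le_mul_of_nonneg_left j6 hN) x0
          have k2 := mul_le_mul_of_nonneg_left (mul_le_mul_of_nonneg_left j4 hm) X1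
          have k3 := mul_le_mul_of_nonneg_left j2 hN
          have k4 := mul_le_mul_of_nonneg_left (mul_le_mul_of_nonneg_left j1 hm) hap
          linarith
      · -- up add
        have et' := vw_add hv'
        have hR2 := h.R
        rw [et'] at hR2
        have qR2 := hqR
        rw [et'] at qR2
        obtain ⟨b1, b0⟩ := hR2.add
        have hzn : zn stp z = [(1, { z with t' := t₁' }), (1, { z with t' := t₀' })] := by
          rw [zn, if_neg h1, if_neg h2]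
          simp only [hv, hv']
        have hcz : cz stp a me A A' z = 0 := by
          rw [cz, if_neg h1, if_neg h2]
          simp only [hv, hv']
        rw [hzn] at hK
        have K1 := hK _ (List.mem_cons_self)
        have K2 := hK _ (List.mem_cons_of_mem _ List.mem_cons_self)
        have j2 : f t₁' A' + f t₀' A' ≤ f z.t' A' := by rw [et']; exact hf.add hR2 qR2
        have j4 : ν t₁'.g + ν t₀'.g ≤ ν z.t'.g := by rw [et']; exact hR2.wf.1.mass.2.2
        have j6 : me t₁'.g A' + me t₀'.g A' ≤ me z.t'.g A' := by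
          rw [et']; exact hme.add hR2 qR2
        rw [hzn, hcz]
        simp only [List.map_cons, List.map_nil, List.sum_cons, List.sum_nil, add_zero, Pb, one_mul,
          zero_add] at K1 K2 ⊢
        have k1 := mul_le_mul_of_nonneg_left (mul_le_mul_of_nonneg_left j6 hN) x0
        have k2 := mul_le_mul_of_nonneg_left (mul_le_mul_of_nonneg_left j4 hm) y0
        have k3 := mul_le_mul_of_nonneg_left j2 hN
        linarith
      · -- up up
        have hzn : zn stp z = [(1, { z with t := u, t' := u' })] := by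
          rw [zn, if_neg h1, if_neg h2]
          simp only [hv, hv']
        have hcz : cz stp a me A A' z = 0 := by
          rw [cz, if_neg h1, if_neg h2]
          simp only [hv, hv']
        rw [hzn] at hK
        have K1 := hK _ (List.mem_cons_self)
        have eg := vw_up_g hv
        have eg' := vw_up_g hv'
        have j2 : f u' A' ≤ f z.t' A' := hf.up h.R hqR hv' hpR hpp.pos
        rw [hzn, hcz]
        simp only [List.map_cons, List.map_nil, List.sum_cons, List.sum_nil, add_zero, Pb, one_mul,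
          zero_add, eg, eg'] at K1 ⊢
        have k3 := mul_le_mul_of_nonneg_left j2 hN
        linarith

/-- **(Z3)**, plain form, with `me` and `Q` -/
theorem V_leQ {Q : DT Λ κ → Prop} {me : TrG Λ κ → Finset Λ → ℝ} {sg : ℕ → ℝ} {c : ℝ}
    {f : DT Λ κ → Finset Λ → ℝ} (ha : ∀ p, 0 ≤ a p) (hs : ∀ p, 0 ≤ sg p) (hc : 0 ≤ c)
    (hme : FQ wr Ad μ ν Q (fun _ => 0) me (fun t A => me t.g A))
    (hsg : ∀ {n p : ℕ} {w : ℝ} {r : Λ → κ} {t₁ t₀ : DT Λ κ} {v : Λ → ℝ → ℝ} {B G : κ → ℝ → ℝ}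
      {A : Finset Λ}, Side wr Ad μ ν n (.br p w r t₁ t₀ v B G) A →
      (DT.br p w r t₁ t₀ v B G).All Q →
      w * me t₀.g A ≤ sg p * ν (DT.br p w r t₁ t₀ v B G).g)
    (hf : FQ wr Ad μ ν Q (fun p => a p * sg p) me f)
    {J : ZS Λ κ → Prop}
    (hJ : ∀ n z, ZI wr Ad μ ν A A' n z → J z → ∀ q ∈ zn stp z, J q.2)
    (hst : ∀ n z, ZI wr Ad μ ν A A' n z → J z → ¬ (z.t.isLeaf ∧ z.t'.isLeaf) →
      ¬ stp z.M z.M' z.p → gs a sg (insert z.p (UL z)) ≤ c ∧ gs a sg (insert z.p (UR z)) ≤ c)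
    {z : ZS Λ κ} (hz : ZI wr Ad μ ν A A' n z) (hz' : J z) (hqL : z.t.All Q)
    (hqR : z.t'.All Q) :
    V stp a me z A A' ≤ c * (ν z.t.g * me z.t'.g A' + me z.t.g A * ν z.t'.g) +
      ν z.t.g * f z.t' A' := by
  refine (V_le_potQ ha hs hme hsg hf hJ hst hz hz' hqL hqR).trans ?_
  have hN : 0 ≤ ν z.t.g := hz.L.wf.self.mass.base.nu
  have hN' : 0 ≤ ν z.t'.g := hz.R.wf.self.mass.base.nu
  have hm : 0 ≤ me z.t.g A := hme.nn hz.L hqL
  have hm' : 0 ≤ me z.t'.g A' := hme.nn hz.R hqR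
  have x1 : max 0 (c - gs a sg (UL z)) ≤ c := max_le hc (by linarith [gs_nonneg ha hs (UL z)])
  have x2 : max 0 (c - gs a sg (UR z)) ≤ c := max_le hc (by linarith [gs_nonneg ha hs (UR z)])
  have k1 := mul_le_mul_of_nonneg_right x1 (mul_nonneg hN hm')
  have k2 := mul_le_mul_of_nonneg_right x2 (mul_nonneg hm hN')
  unfold Pot
  linarith

end z3

/-! ### the stop rule -/

/-- settled columns -/
def US (M M' p : ℕ) : Finset ℕ := (M * M').primeFactors.filter (fun q => p < q)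

/-- **the stop rule on shapes**: large mass of the settled one-sided columns -/
def stpV (M M' p : ℕ) : Prop := (p : ℝ) ^ (-(1/3) : ℝ) ≤ ∑ q ∈ US M M' p, 1 / (q : ℝ)

lemma mem_US {M M' p q : ℕ} (hM : M ≠ 0) (hM' : M' ≠ 0) :
    q ∈ US M M' p ↔ q.Prime ∧ (q ∣ M ∨ q ∣ M') ∧ p < q := by
  unfold US
  rw [Finset.mem_filter, Nat.mem_primeFactors]
  constructor
  · rintro ⟨⟨h1, h2, -⟩, h3⟩
    exact ⟨h1, (Nat.Prime.dvd_mul h1).1 h2, h3⟩
  · rintro ⟨h1, h2, h3⟩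
    exact ⟨⟨h1, (Nat.Prime.dvd_mul h1).2 h2, mul_ne_zero hM hM'⟩, h3⟩

/-- the stop rule does not change inside a chain -/
lemma US_mulL {M M' p : ℕ} (hM : M ≠ 0) (hM' : M' ≠ 0) (hp : p.Prime) :
    US (p * M) M' p = US M M' p := by
  ext q
  rw [mem_US (mul_ne_zero hp.ne_zero hM) hM', mem_US hM hM']
  constructor
  · rintro ⟨h1, h2, h3⟩
    refine ⟨h1, h2.imp (fun h => ?_) id, h3⟩
    exact ((Nat.coprime_primes h1 hp).2 h3.ne').dvd_of_dvd_mul_left h
  · rintro ⟨h1, h2, h3⟩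
    exact ⟨h1, h2.imp (fun h => h.mul_left p) id, h3⟩

lemma US_mulR {M M' p : ℕ} (hM : M ≠ 0) (hM' : M' ≠ 0) (hp : p.Prime) :
    US M (p * M') p = US M M' p := by
  ext q
  rw [mem_US hM (mul_ne_zero hp.ne_zero hM'), mem_US hM hM']
  constructor
  · rintro ⟨h1, h2, h3⟩
    refine ⟨h1, h2.imp id (fun h => ?_), h3⟩
    exact ((Nat.coprime_primes h1 hp).2 h3.ne').dvd_of_dvd_mul_left h
  · rintro ⟨h1, h2, h3⟩
    exact ⟨h1, h2.imp id (fun h => h.mul_left p), h3⟩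

lemma stpV_mulL {M M' p : ℕ} (hM : M ≠ 0) (hM' : M' ≠ 0) (hp : p.Prime) :
    stpV (p * M) M' p ↔ stpV M M' p := by
  unfold stpV; rw [US_mulL hM hM' hp]

lemma stpV_mulR {M M' p : ℕ} (hM : M ≠ 0) (hM' : M' ≠ 0) (hp : p.Prime) :
    stpV M (p * M') p ↔ stpV M M' p := by
  unfold stpV; rw [US_mulR hM hM' hp]

lemma stpV_divL {M M' p : ℕ} (hM : M ≠ 0) (hM' : M' ≠ 0) (hp : p.Prime) (hd : p ∣ M) :
    stpV (M / p) M' p ↔ stpV M M' p := by
  have h0 : M / p ≠ 0 := (Nat.div_pos (Nat.le_of_dvd (Nat.pos_of_ne_zero hM) hd) hp.pos).ne'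
  rw [← stpV_mulL h0 hM' hp, Nat.mul_div_cancel' hd]

lemma stpV_divR {M M' p : ℕ} (hM : M ≠ 0) (hM' : M' ≠ 0) (hp : p.Prime) (hd : p ∣ M') :
    stpV M (M' / p) p ↔ stpV M M' p := by
  have h0 : M' / p ≠ 0 := (Nat.div_pos (Nat.le_of_dvd (Nat.pos_of_ne_zero hM') hd) hp.pos).ne'
  rw [← stpV_mulR hM h0 hp, Nat.mul_div_cancel' hd]

/-- **the stop rule of the crossings** (factor `2`) -/
def stp2 (M M' p : ℕ) : Prop := 2 * (p : ℝ) ^ (-(1/3) : ℝ) ≤ ∑ q ∈ US M M' p, 1 / (q : ℝ)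

lemma stpV_of_stp2 {M M' p : ℕ} (h : stp2 M M' p) : stpV M M' p := by
  unfold stp2 at h
  unfold stpV
  have : 0 ≤ (p : ℝ) ^ (-(1/3) : ℝ) := by positivity
  linarith

lemma stp2_mulL {M M' p : ℕ} (hM : M ≠ 0) (hM' : M' ≠ 0) (hp : p.Prime) :
    stp2 (p * M) M' p ↔ stp2 M M' p := by
  unfold stp2; rw [US_mulL hM hM' hp]

lemma stp2_mulR {M M' p : ℕ} (hM : M ≠ 0) (hM' : M' ≠ 0) (hp : p.Prime) :
    stp2 M (p * M') p ↔ stp2 M M' p := by
  unfold stp2; rw [US_mulR hM hM' hp]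

lemma stp2_divL {M M' p : ℕ} (hM : M ≠ 0) (hM' : M' ≠ 0) (hp : p.Prime) (hd : p ∣ M) :
    stp2 (M / p) M' p ↔ stp2 M M' p := by
  have h0 : M / p ≠ 0 := (Nat.div_pos (Nat.le_of_dvd (Nat.pos_of_ne_zero hM) hd) hp.pos).ne'
  rw [← stp2_mulL h0 hM' hp, Nat.mul_div_cancel' hd]

lemma stp2_divR {M M' p : ℕ} (hM : M ≠ 0) (hM' : M' ≠ 0) (hp : p.Prime) (hd : p ∣ M') :
    stp2 M (M' / p) p ↔ stp2 M M' p := by
  have h0 : M' / p ≠ 0 := (Nat.div_pos (Nat.le_of_dvd (Nat.pos_of_ne_zero hM') hd) hp.pos).ne'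
  rw [← stp2_mulR hM h0 hp, Nat.mul_div_cancel' hd]

lemma three_quarter : (2/3 : ℝ) ≤ (3:ℝ) ^ (-(1/4) : ℝ) := by
  have h : ((3:ℝ) ^ (-(1/4) : ℝ)) ^ (4:ℕ) = 1/3 := by
    rw [← Real.rpow_natCast, ← Real.rpow_mul (by norm_num)]
    norm_num
  have h0 : 0 ≤ (3:ℝ) ^ (-(1/4) : ℝ) := by positivity
  by_contra hc
  push Not at hc
  have := pow_lt_pow_left₀ hc h0 (n := 4) (by norm_num)
  rw [h] at this
  norm_num at this

lemma num3 {x u : ℝ} (hx : 1 ≤ x) (hu : 0 ≤ u) (hux : u ≤ 2 * x ^ (-(1/3) : ℝ)) :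
    x ^ (-(11/12) : ℝ) + 2 * u ^ (3/4 : ℝ) ≤ 2 * (u + 1 / x) ^ (3/4 : ℝ) := by
  have hx0 : 0 < x := by linarith
  have h1 : 0 < 1 / x := by positivity
  have h2 : 1 / x ≤ x ^ (-(1/3) : ℝ) := by
    rw [one_div, ← Real.rpow_neg_one]
    exact Real.rpow_le_rpow_of_exponent_le hx (by norm_num)
  have hb : u + 1 / x ≤ 3 * x ^ (-(1/3) : ℝ) := by linarith
  have hb0 : 0 < u + 1 / x := by linarith
  have h3 := OSWS245.pow34 hu (by linarith : u < u + 1 / x)
  have h4 : (3 * x ^ (-(1/3) : ℝ)) ^ (-(1/4) : ℝ) ≤ (u + 1 / x) ^ (-(1/4) : ℝ) :=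
    Real.rpow_le_rpow_of_nonpos hb0 hb (by norm_num)
  have h5 : (3 * x ^ (-(1/3) : ℝ)) ^ (-(1/4) : ℝ) = (3:ℝ) ^ (-(1/4) : ℝ) * x ^ (1/12 : ℝ) := by
    rw [Real.mul_rpow (by norm_num) (by positivity), ← Real.rpow_mul hx0.le]
    norm_num
  have h6 : x ^ (-(11/12) : ℝ) = 1 / x * x ^ (1/12 : ℝ) := by
    rw [one_div, ← Real.rpow_neg_one, ← Real.rpow_add hx0]; norm_num
  have h7 := three_quarter
  have h8 : 0 < x ^ (1/12 : ℝ) := Real.rpow_pos_of_pos hx0 _
  rw [h5] at h4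
  have h9 : u + 1 / x - u = 1 / x := by ring
  rw [h9] at h3
  have h10 : 2/3 * x ^ (1/12 : ℝ) ≤ (u + 1 / x) ^ (-(1/4) : ℝ) :=
    (mul_le_mul_of_nonneg_right h7 h8.le).trans h4
  have h11 := mul_le_mul_of_nonneg_left h10 (by positivity : 0 ≤ 3/4 * (1/x))
  rw [h6]
  nlinarith

/-- the columns of a set are controlled by its mass -/
def SO (U : Finset ℕ) : Prop :=
  ∑ q ∈ U, (q : ℝ) ^ (-(11/12) : ℝ) ≤ 2 * (∑ q ∈ U, 1 / (q : ℝ)) ^ (3/4 : ℝ)

lemma SO_empty : SO ∅ := by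
  unfold SO
  simp only [Finset.sum_empty]
  positivity

lemma SO_insert {U : Finset ℕ} {p : ℕ} (h : SO U) (hp : 1 ≤ p) (hn : p ∉ U)
    (hm : ∑ q ∈ U, 1 / (q : ℝ) ≤ 2 * (p : ℝ) ^ (-(1/3) : ℝ)) : SO (insert p U) := by
  unfold SO at h ⊢
  rw [Finset.sum_insert hn, Finset.sum_insert hn]
  have h1 := num3 (x := (p : ℝ)) (u := ∑ q ∈ U, 1 / (q : ℝ)) (by exact_mod_cast hp)
    (Finset.sum_nonneg fun q _ => by positivity) hm
  have e : 1 / (p : ℝ) + ∑ q ∈ U, 1 / (q : ℝ) = ∑ q ∈ U, 1 / (q : ℝ) + 1 / (p : ℝ) := add_comm _ _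
  rw [e]
  linarith

section stop
variable [Fintype Λ] [DecidableEq Λ]

/-- invariant of the one-sided columns -/
structure OJ (p0 : ℕ) (z : ZS Λ κ) : Prop where
  ge : ∀ q : ℕ, q.Prime → q ∣ z.M ∨ q ∣ z.M' → p0 ≤ q
  so : SO (US z.M z.M' z.p)
  tL : z.t.All (TopGe p0)
  tR : z.t'.All (TopGe p0)

lemma OJ.p_ge {p0 : ℕ} {z : ZS Λ κ} (h : OJ p0 z) (hl : ¬ (z.t.isLeaf ∧ z.t'.isLeaf)) :
    p0 ≤ z.p := by
  rcases live' hl with h1 | h1
  · rw [← h1.2]; exact h.tL.self h1.1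
  · rw [← h1.2]; exact h.tR.self h1.1

/-- the start of the pair walk -/
lemma OJ_start {p0 : ℕ} {z : ZS Λ κ} (hM : z.M = 1) (hM' : z.M' = 1) (hL : z.t.All (TopGe p0))
    (hR : z.t'.All (TopGe p0)) : OJ p0 z := by
  refine ⟨fun q hq h => ?_, ?_, hL, hR⟩
  · rw [hM, hM'] at h
    rcases h with h | h <;> exact absurd (Nat.dvd_one.1 h) hq.one_lt.ne'
  · have : US z.M z.M' z.p = ∅ := by
      unfold US
      rw [hM, hM']
      simp
    rw [this]; exact SO_empty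

end stop

section main
variable [Fintype Λ] [DecidableEq Λ] [DecidableEq κ] [Fintype κ] [WRel κ]
  {wr : ℕ → Λ → κ} {Ad : TrG Λ κ → Finset Λ → Prop} {μ : TrG Λ κ → Finset Λ → ℝ}
  {ν : TrG Λ κ → ℝ} {n : ℕ} {a sg : ℕ → ℝ} {stp : ℕ → ℕ → ℕ → Prop} {A A' : Finset Λ} {p0 : ℕ}

theorem OJ.next (hp0 : 1 ≤ p0) (hst : ∀ M M' p : ℕ, ¬ stp M M' p → ¬ stp2 M M' p) {z : ZS Λ κ}
    (hz : ZI wr Ad μ ν A A' n z) (h : OJ p0 z) : ∀ q ∈ zn stp z, OJ p0 q.2 := by
  intro q hq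
  have h1 : ¬ (z.t.isLeaf ∧ z.t'.isLeaf) := by
    intro h1; simp [zn, h1] at hq
  have h2 : ¬ stp z.M z.M' z.p := by
    intro h2; simp [zn, h1, h2] at hq
  have hpg := h.p_ge h1
  have hpp := hz.prime h1
  obtain ⟨c, c', m, m'⟩ := zn_ch z q hq
  have hpL : z.t.top ≤ z.p := le_max_left _ _
  have hpR : z.t'.top ≤ z.p := le_max_right _ _
  have hp : q.2.p ≤ z.p := max_le_max (c.top_le hpp.pos hpL hz.L.col)
    (c'.top_le hpp.pos hpR hz.R.col)
  have hm : ∑ q ∈ US z.M z.M' z.p, 1 / (q : ℝ) ≤ 2 * (z.p : ℝ) ^ (-(1/3) : ℝ) := by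
    have := hst _ _ _ h2
    unfold stp2 at this
    exact (not_le.1 this).le
  have hA := zn_all z h.tL h.tR q hq
  have n0 := m.ne hz.M0 hpp
  have n0' := m'.ne hz.M0' hpp
  refine ⟨fun r hr hd => ?_, ?_, hA.1, hA.2⟩
  · rcases hd with hd | hd
    · rcases m.dvd hz.M0 hpp hr hd with k | ⟨rfl, -⟩
      · exact h.ge r hr (Or.inl k)
      · exact hpg
    · rcases m'.dvd hz.M0' hpp hr hd with k | ⟨rfl, -⟩
      · exact h.ge r hr (Or.inr k)
      · exact hpg
  · have key : US q.2.M q.2.M' q.2.p = US z.M z.M' z.p ∨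
        US q.2.M q.2.M' q.2.p = insert z.p (US z.M z.M' z.p) := by
      have hr : ∀ r : ℕ, r.Prime → r ≠ z.p → ((r ∣ q.2.M ∨ r ∣ q.2.M') ↔ (r ∣ z.M ∨ r ∣ z.M')) :=
        fun r hr hn => or_congr (m.dvd_iff hpp hr hn) (m'.dvd_iff hpp hr hn)
      have hge : ∀ r : ℕ, r.Prime → (r ∣ z.M ∨ r ∣ z.M') → z.p ≤ r := by
        rintro r hr (hd | hd)
        · exact (hz.gL r hr hd).1
        · exact (hz.gR r hr hd).1
      by_cases hc : q.2.p < z.p ∧ (z.p ∣ q.2.M ∨ z.p ∣ q.2.M')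
      · right
        ext r
        rw [mem_US n0 n0', Finset.mem_insert, mem_US hz.M0 hz.M0']
        by_cases e : r = z.p
        · subst e
          exact ⟨fun _ => Or.inl rfl, fun _ => ⟨hpp, hc.2, hc.1⟩⟩
        · constructor
          · rintro ⟨k1, k2, k3⟩
            have k4 := (hr r k1 e).1 k2
            exact Or.inr ⟨k1, k4, lt_of_le_of_ne (hge r k1 k4) (Ne.symm e)⟩
          · rintro (k | ⟨k1, k2, k3⟩)
            · exact absurd k e
            · exact ⟨k1, (hr r k1 e).2 k2, hp.trans_lt k3⟩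
      · left
        ext r
        rw [mem_US n0 n0', mem_US hz.M0 hz.M0']
        by_cases e : r = z.p
        · subst e
          constructor
          · rintro ⟨k1, k2, k3⟩
            exact absurd ⟨k3, k2⟩ hc
          · rintro ⟨k1, k2, k3⟩
            exact absurd k3 (lt_irrefl _)
        · constructor
          · rintro ⟨k1, k2, k3⟩
            have k4 := (hr r k1 e).1 k2
            exact ⟨k1, k4, lt_of_le_of_ne (hge r k1 k4) (Ne.symm e)⟩
          · rintro ⟨k1, k2, k3⟩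
            exact ⟨k1, (hr r k1 e).2 k2, hp.trans_lt k3⟩
    rcases key with e | e <;> rw [e]
    · exact h.so
    · refine SO_insert h.so (hp0.trans hpg) ?_ hm
      rw [mem_US hz.M0 hz.M0']
      rintro ⟨-, -, k⟩
      exact absurd k (lt_irrefl _)

/-- **the budget at a non-stopped shape** -/
theorem OJ.gs_le (hp0 : 1 ≤ p0) (hst : ∀ M M' p : ℕ, ¬ stp M M' p → ¬ stp2 M M' p)
    (hβ : ∀ p : ℕ, p0 ≤ p → 0 ≤ a p * sg p ∧ a p * sg p ≤ (p : ℝ) ^ (-(11/12) : ℝ)) {c : ℝ}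
    (hc : 4 * (p0 : ℝ) ^ (-(1/4) : ℝ) + (p0 : ℝ) ^ (-(11/12) : ℝ) ≤ c) {z : ZS Λ κ}
    (hz : ZI wr Ad μ ν A A' n z) (h : OJ p0 z) (h1 : ¬ (z.t.isLeaf ∧ z.t'.isLeaf))
    (h2 : ¬ stp z.M z.M' z.p) :
    gs a sg (insert z.p (UL z)) ≤ c ∧ gs a sg (insert z.p (UR z)) ≤ c := by
  have hpg := h.p_ge h1
  have hp1 : (1 : ℝ) ≤ z.p := by exact_mod_cast hp0.trans hpg
  have hp00 : (0 : ℝ) < p0 := by exact_mod_cast hp0
  have hn : z.p ∉ US z.M z.M' z.p := by
    rw [mem_US hz.M0 hz.M0']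
    rintro ⟨-, -, k⟩
    exact absurd k (lt_irrefl _)
  have hm0 : 0 ≤ ∑ q ∈ US z.M z.M' z.p, 1 / (q : ℝ) :=
    Finset.sum_nonneg fun q _ => by positivity
  have hm : ∑ q ∈ US z.M z.M' z.p, 1 / (q : ℝ) ≤ 2 * (z.p : ℝ) ^ (-(1/3) : ℝ) := by
    have := hst _ _ _ h2
    unfold stp2 at this
    exact (not_le.1 this).le
  have hge : ∀ x ∈ insert z.p (US z.M z.M' z.p), p0 ≤ x := by
    intro x hx
    rcases Finset.mem_insert.1 hx with rfl | hx
    · exact hpg
    · rw [mem_US hz.M0 hz.M0'] at hx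
      exact h.ge x hx.1 hx.2.1
  have hU : gs a sg (insert z.p (US z.M z.M' z.p)) ≤ c := by
    have k1 : gs a sg (insert z.p (US z.M z.M' z.p)) ≤
        ∑ q ∈ insert z.p (US z.M z.M' z.p), (q : ℝ) ^ (-(11/12) : ℝ) :=
      Finset.sum_le_sum fun q hq => (hβ q (hge q hq)).2
    rw [Finset.sum_insert hn] at k1
    have k2 := h.so
    unfold SO at k2
    have k3 : (∑ q ∈ US z.M z.M' z.p, 1 / (q : ℝ)) ^ (3/4 : ℝ) ≤ 2 * (z.p : ℝ) ^ (-(1/4) : ℝ) :=
      OSWS245.num2 hp1 hm0 hm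
    have k4 : (z.p : ℝ) ^ (-(11/12) : ℝ) ≤ (p0 : ℝ) ^ (-(11/12) : ℝ) :=
      Real.rpow_le_rpow_of_nonpos hp00 (by exact_mod_cast hpg) (by norm_num)
    have k5 : (z.p : ℝ) ^ (-(1/4) : ℝ) ≤ (p0 : ℝ) ^ (-(1/4) : ℝ) :=
      Real.rpow_le_rpow_of_nonpos hp00 (by exact_mod_cast hpg) (by norm_num)
    have k6 : 0 ≤ (p0 : ℝ) ^ (-(1/4) : ℝ) := by positivity
    linarith
  constructor
  · refine le_trans (Finset.sum_le_sum_of_subset_of_nonneg ?_ fun q hq _ =>
      (hβ q (hge q hq)).1) hU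
    intro q hq
    rcases Finset.mem_insert.1 hq with rfl | hq
    · exact Finset.mem_insert_self _ _
    · unfold UL at hq
      rw [Finset.mem_filter, Nat.mem_primeFactors] at hq
      rcases (hz.gR q hq.1.1 hq.1.2.1).1.eq_or_lt with e | e
      · rw [← e]; exact Finset.mem_insert_self _ _
      · exact Finset.mem_insert_of_mem ((mem_US hz.M0 hz.M0').2 ⟨hq.1.1, Or.inr hq.1.2.1, e⟩)
  · refine le_trans (Finset.sum_le_sum_of_subset_of_nonneg ?_ fun q hq _ =>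
      (hβ q (hge q hq)).1) hU
    intro q hq
    rcases Finset.mem_insert.1 hq with rfl | hq
    · exact Finset.mem_insert_self _ _
    · unfold UR at hq
      rw [Finset.mem_filter, Nat.mem_primeFactors] at hq
      rcases (hz.gL q hq.1.1 hq.1.2.1).1.eq_or_lt with e | e
      · rw [← e]; exact Finset.mem_insert_self _ _
      · exact Finset.mem_insert_of_mem ((mem_US hz.M0 hz.M0').2 ⟨hq.1.1, Or.inl hq.1.2.1, e⟩)

end main

end Crest.Agent.R4P.VNum34
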