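import Crest.Agent.R4P.YI_25
import Crest.Agent.R4P.VNum_34

/-!
R4 (S0004) with powers, module D, helper34: **merges inside the cross walk** (`eSHRC`).

A merge at a state `s` (column `p = s.p`) = a pair of pieces in `s.R` which is not related at `p`.
* `IX` : classification hypothesis: inside one range `rg` and with no missing tie of the two items in
  between, relations persist downwards;
* `cf s e` : flag of a pair of items (`0` iff all its pairs of pieces in `s.R` are related at `s.p`);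
* `PSup_mg` : `lM s e = [column] cf b b' U(rg p)(SE) e` has the potential
  `PhiM s e = b b' (cf U(rg p) + ∑_{l missed} U(rg l) + ∑_{k < rg p} U k)`;
* `mg_loc` : `eSHRC s ≤ ∑_e lM s e` from the bound of the same-index pairs of one pair of items.
-/

set_option autoImplicit false
set_option linter.unusedSectionVars false
set_option linter.unusedVariables false
open Finset

namespace Crest.Agent.R4P.ShrW34

open Crest.Agent.R4.HVW560 Crest.Agent.R4P.AvgItem710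
open Crest.Agent.R4.Tour104 Crest.Agent.R4.Tour758 Crest.Agent.R4.Avg758 Crest.Agent.R4.Clos758
open Crest.Agent.R4.ClosL758 Crest.Agent.R4.ClosG758 Crest.Agent.R4.ClosR758
open Crest.Agent.R4P.Cnt588 Crest.Agent.R4P.Walk560 Crest.Agent.R4P.Item758
open Crest.Agent.R4P.Bld532 (NS All NodeOk Bk dv nd mem_dv mem_nd)
open Crest.Agent.R4P.GSt927 Crest.Agent.R4P.WalkIT579 Crest.Agent.R4P.NMW710
open Crest.Agent.R4P.CrossLoc25 Crest.Agent.R4P.CrossLocC25 Crest.Agent.R4P.WalkC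
open Crest.Agent.R4P.YI25

section mv
variable {Λ κ : Type*} [Fintype Λ] [DecidableEq Λ] [DecidableEq κ] [WRel κ]

open Crest.Agent.R4P.VNum34 (Ch)

set_option maxHeartbeats 1000000 in
/-- the moves of the cross walk -/
theorem nxt0C_ch {stp : St Λ κ → Prop} (s : St Λ κ) : ∀ q ∈ nxt0C stp s,
    Ch s.p s.t q.2.t ∧ Ch s.p s.t' q.2.t' := by
  intro q hq
  unfold nxt0C at hq
  by_cases h1 : s.t.isLeaf ∧ s.t'.isLeaf
  · simp [h1] at hq
  by_cases h2 : stp s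
  · simp [h1, h2] at hq
  rw [if_neg h1, if_neg h2] at hq
  by_cases hPL : s.isPL
  · rw [if_pos hPL] at hq
    obtain ⟨w, r, t₁, t₀, v, B, G, hv, et, ⟨-, e⟩ | ⟨-, -, e⟩⟩ := St.isPL_cases hPL <;>
    · rw [e] at hq
      simp only [List.mem_cons, List.not_mem_nil, or_false] at hq
      rcases hq with rfl | rfl
      · exact ⟨.br1 hv, .stay⟩
      · exact ⟨.br0 hv, .stay⟩
  by_cases hPR : s.isPR
  · rw [if_neg hPL, if_pos hPR] at hq
    obtain ⟨w, r, t₁, t₀, v, B, G, hv, et, ⟨-, e⟩ | ⟨-, -, e⟩⟩ := St.isPR_cases hPR <;>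
    · rw [e] at hq
      simp only [List.mem_cons, List.not_mem_nil, or_false] at hq
      rcases hq with rfl | rfl
      · exact ⟨.stay, .br1 hv⟩
      · exact ⟨.stay, .br0 hv⟩
  rw [if_neg hPL, if_neg hPR] at hq
  rcases hv : vw s.p s.t with ⟨w, r, t₁, t₀, v, B, G⟩ | ⟨r, t₁, t₀⟩ | ⟨Sp, u⟩ <;>
  rcases hv' : vw s.p s.t' with ⟨w', r', t₁', t₀', v', B', G'⟩ | ⟨r', t₁', t₀'⟩ | ⟨Sp', u'⟩ <;>
  simp only [hv, hv'] at hq
  · simp only [List.mem_cons, List.not_mem_nil, or_false] at hq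
    rcases hq with rfl | rfl | rfl
    · exact ⟨.br1 hv, .br1 hv'⟩
    · exact ⟨.br1 hv, .br0 hv'⟩
    · exact ⟨.br0 hv, .br1 hv'⟩
  · simp only [List.mem_cons, List.not_mem_nil, or_false] at hq
    rcases hq with rfl | rfl
    · exact ⟨.stay, .ad1 hv'⟩
    · exact ⟨.stay, .ad0 hv'⟩
  · split_ifs at hq <;> simp only [List.mem_cons, List.not_mem_nil, or_false] at hq
    · subst hq
      exact ⟨.br1 hv, .up hv'⟩
    · rcases hq with rfl | rfl | rfl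
      · exact ⟨.br1 hv, .up hv'⟩
      · exact ⟨.br0 hv, .up hv'⟩
      · exact ⟨.br1 hv, .up hv'⟩
  · simp only [List.mem_cons, List.not_mem_nil, or_false] at hq
    rcases hq with rfl | rfl
    · exact ⟨.ad1 hv, .stay⟩
    · exact ⟨.ad0 hv, .stay⟩
  · simp only [List.mem_cons, List.not_mem_nil, or_false] at hq
    rcases hq with rfl | rfl
    · exact ⟨.ad1 hv, .stay⟩
    · exact ⟨.ad0 hv, .stay⟩
  · simp only [List.mem_cons, List.not_mem_nil, or_false] at hq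
    rcases hq with rfl | rfl
    · exact ⟨.ad1 hv, .stay⟩
    · exact ⟨.ad0 hv, .stay⟩
  · split_ifs at hq <;> simp only [List.mem_cons, List.not_mem_nil, or_false] at hq
    · subst hq
      exact ⟨.up hv, .br1 hv'⟩
    · rcases hq with rfl | rfl | rfl
      · exact ⟨.up hv, .br1 hv'⟩
      · exact ⟨.up hv, .br0 hv'⟩
      · exact ⟨.up hv, .br1 hv'⟩
  · simp only [List.mem_cons, List.not_mem_nil, or_false] at hq
    rcases hq with rfl | rfl
    · exact ⟨.stay, .ad1 hv'⟩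
    · exact ⟨.stay, .ad0 hv'⟩
  · simp only [List.mem_cons, List.not_mem_nil, or_false] at hq
    subst hq
    exact ⟨.up hv, .up hv'⟩

/-- states at which the relation changes -/
def BrV (stp : St Λ κ → Prop) (s : St Λ κ) : Prop :=
  ¬ (s.t.isLeaf ∧ s.t'.isLeaf) ∧ ¬ stp s ∧ (s.isPL ∨ s.isPR ∨
  match vw s.p s.t, vw s.p s.t' with
    | .br _ _ _ _ _ _ _, .br _ _ _ _ _ _ _ => True
    | .br _ _ _ _ _ _ _, .up _ _ => True
    | .up _ _, .br _ _ _ _ _ _ _ => True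
    | _, _ => False)

set_option maxHeartbeats 1000000 in
/-- at the other states the relation stays and there is no merge -/
theorem not_brv {stp : St Λ κ → Prop} {s : St Λ κ} (h : ¬ BrV stp s) :
    eSHRC stp s = 0 ∧ ∀ q ∈ nxt0C stp s, q.2.R = s.R := by
  by_cases h1 : s.t.isLeaf ∧ s.t'.isLeaf
  · refine ⟨by simp [eSHRC, h1], fun q hq => ?_⟩
    simp [nxt0C, h1] at hq
  by_cases h2 : stp s
  · refine ⟨by simp [eSHRC, h2], fun q hq => ?_⟩
    simp [nxt0C, h1, h2] at hq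
  by_cases hPL : s.isPL
  · exact absurd ⟨h1, h2, Or.inl hPL⟩ h
  by_cases hPR : s.isPR
  · exact absurd ⟨h1, h2, Or.inr (Or.inl hPR)⟩ h
  rcases hv : vw s.p s.t with ⟨w, r, t₁, t₀, v, B, G⟩ | ⟨r, t₁, t₀⟩ | ⟨Sp, u⟩ <;>
  rcases hv' : vw s.p s.t' with ⟨w', r', t₁', t₀', v', B', G'⟩ | ⟨r', t₁', t₀'⟩ | ⟨Sp', u'⟩
  · exact absurd ⟨h1, h2, Or.inr (Or.inr (by simp only [hv, hv']))⟩ h
  · refine ⟨by simp [eSHRC, h1, h2, hPL, hPR, hv, hv'], fun q hq => ?_⟩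
    simp only [nxt0C, h1, h2, hPL, hPR, hv, hv', if_false, List.mem_cons, List.not_mem_nil,
      or_false] at hq
    rcases hq with rfl | rfl <;> rfl
  · exact absurd ⟨h1, h2, Or.inr (Or.inr (by simp only [hv, hv']))⟩ h
  · refine ⟨by simp [eSHRC, h1, h2, hPL, hPR, hv, hv'], fun q hq => ?_⟩
    simp only [nxt0C, h1, h2, hPL, hPR, hv, hv', if_false, List.mem_cons, List.not_mem_nil,
      or_false] at hq
    rcases hq with rfl | rfl <;> rfl
  · refine ⟨by simp [eSHRC, h1, h2, hPL, hPR, hv, hv'], fun q hq => ?_⟩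
    simp only [nxt0C, h1, h2, hPL, hPR, hv, hv', if_false, List.mem_cons, List.not_mem_nil,
      or_false] at hq
    rcases hq with rfl | rfl <;> rfl
  · refine ⟨by simp [eSHRC, h1, h2, hPL, hPR, hv, hv'], fun q hq => ?_⟩
    simp only [nxt0C, h1, h2, hPL, hPR, hv, hv', if_false, List.mem_cons, List.not_mem_nil,
      or_false] at hq
    rcases hq with rfl | rfl <;> rfl
  · exact absurd ⟨h1, h2, Or.inr (Or.inr (by simp only [hv, hv']))⟩ h
  · refine ⟨by simp [eSHRC, h1, h2, hPL, hPR, hv, hv'], fun q hq => ?_⟩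
    simp only [nxt0C, h1, h2, hPL, hPR, hv, hv', if_false, List.mem_cons, List.not_mem_nil,
      or_false] at hq
    rcases hq with rfl | rfl <;> rfl
  · refine ⟨by simp [eSHRC, h1, h2, hPL, hPR, hv, hv'], fun q hq => ?_⟩
    simp only [nxt0C, h1, h2, hPL, hPR, hv, hv', if_false, List.mem_cons, List.not_mem_nil,
      or_false] at hq
    rcases hq with rfl
    rfl

set_option maxHeartbeats 1000000 in
/-- the columns: merges and the new relation; `r` = the world map of the `br` view -/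
theorem brv_cases {stp : St Λ κ → Prop} {s : St Λ κ} (h : BrV stp s) :
    ∃ r : Λ → κ, eSHRC stp s = Qs { s with R := s.R \ Ro r } ∧
      (∀ q ∈ nxt0C stp s, q.2.R = Ro r) ∧
      ((∃ w t₁ t₀ v B G, s.t = .br s.p w r t₁ t₀ v B G) ∨
        ∃ w t₁ t₀ v B G, s.t' = .br s.p w r t₁ t₀ v B G) := by
  obtain ⟨h1, h2, h3⟩ := h
  by_cases hPL : s.isPL
  · obtain ⟨w, r, t₁, t₀, v, B, G, hv, et, h4⟩ := St.isPL_cases hPL
    refine ⟨r, by simp [eSHRC, h1, h2, hPL, St.shr, hv], fun q hq => ?_,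
      Or.inl ⟨_, _, _, _, _, _, et⟩⟩
    rcases h4 with ⟨-, e⟩ | ⟨-, -, e⟩ <;>
    · simp only [nxt0C, h1, h2, hPL, if_false, if_true, e, List.mem_cons, List.not_mem_nil,
        or_false] at hq
      rcases hq with rfl | rfl <;> rfl
  by_cases hPR : s.isPR
  · obtain ⟨w, r, t₁, t₀, v, B, G, hv, et, h4⟩ := St.isPR_cases hPR
    refine ⟨r, by simp [eSHRC, h1, h2, hPL, hPR, St.shr, hv], fun q hq => ?_,
      Or.inr ⟨_, _, _, _, _, _, et⟩⟩
    rcases h4 with ⟨-, e⟩ | ⟨-, -, e⟩ <;>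
    · simp only [nxt0C, h1, h2, hPL, hPR, if_false, if_true, e, List.mem_cons, List.not_mem_nil,
        or_false] at hq
      rcases hq with rfl | rfl <;> rfl
  have h3' := (h3.resolve_left hPL).resolve_left hPR
  rcases hv : vw s.p s.t with ⟨w, r, t₁, t₀, v, B, G⟩ | ⟨r, t₁, t₀⟩ | ⟨Sp, u⟩ <;>
  rcases hv' : vw s.p s.t' with ⟨w', r', t₁', t₀', v', B', G'⟩ | ⟨r', t₁', t₀'⟩ | ⟨Sp', u'⟩ <;>
  simp only [hv, hv'] at h3'
  · refine ⟨r, by simp [eSHRC, h1, h2, hPL, hPR, hv, hv'], fun q hq => ?_,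
      Or.inl ⟨_, _, _, _, _, _, vw_br hv⟩⟩
    simp only [nxt0C, h1, h2, hPL, hPR, hv, hv', if_false, List.mem_cons, List.not_mem_nil,
      or_false] at hq
    rcases hq with rfl | rfl | rfl <;> rfl
  · refine ⟨r, by simp [eSHRC, h1, h2, hPL, hPR, hv, hv'], fun q hq => ?_,
      Or.inl ⟨_, _, _, _, _, _, vw_br hv⟩⟩
    simp only [nxt0C, h1, h2, hPL, hPR, hv, hv', if_false] at hq
    split_ifs at hq <;> simp only [List.mem_cons, List.not_mem_nil, or_false] at hq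
    · rcases hq with rfl
      rfl
    · rcases hq with rfl | rfl | rfl <;> rfl
  · refine ⟨r', by simp [eSHRC, h1, h2, hPL, hPR, hv, hv'], fun q hq => ?_,
      Or.inr ⟨_, _, _, _, _, _, vw_br hv'⟩⟩
    simp only [nxt0C, h1, h2, hPL, hPR, hv, hv', if_false] at hq
    split_ifs at hq <;> simp only [List.mem_cons, List.not_mem_nil, or_false] at hq
    · rcases hq with rfl
      rfl
    · rcases hq with rfl | rfl | rfl <;> rfl

end mv

variable {Λ κ : Type*} [Fintype Λ] [DecidableEq Λ] [Fintype κ] [DecidableEq κ] [WRel κ]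
  {D : Par Λ κ} {sp : ℕ → Finset Λ} {P : Bld532.Par} {W : ℕ → ℝ} {Qp : NS → IT → Prop}
  {Al : Finset ℕ} {RP : Finset (Λ × Λ) → Prop}

/-! ### the classification hypothesis and the flags -/

/-- **classification of the merges**: `mtt q` = missing ties of the item `q` (root tree), `rg p` = range of
the column `p` -/
structure IX (D : Par Λ κ) (mtt : ℕ → Finset ℕ) (rg : ℕ → ℕ) : Prop where
  mono : Monotone rg
  same : ∀ {p₂ p : ℕ} {j j' : Λ}, p₂ ≤ p → rg p₂ = rg p →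
    (∀ l ∈ mtt (D.it j), p₂ < l → p < l) → (∀ l ∈ mtt (D.it j'), p₂ < l → p < l) →
    (j, j') ∈ Ro (D.rho p) → (j, j') ∈ Ro (D.rho p₂)

/-- all the pairs of pieces of `e` in the relation of the state are related at its column -/
def Cln (D : Par Λ κ) (s : St Λ κ) (e : ℕ × ℕ) : Prop :=
  ∀ j j' : Λ, D.it j = e.1 → D.it j' = e.2 → (j, j') ∈ s.R → (j, j') ∈ Ro (D.rho s.p)

open Classical in
/-- flag of a pair of items -/
noncomputable def cf (D : Par Λ κ) (s : St Λ κ) (e : ℕ × ℕ) : ℝ := if Cln D s e then 0 else 1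

lemma cf_nonneg (s : St Λ κ) (e : ℕ × ℕ) : 0 ≤ cf D s e := by
  unfold cf; split_ifs <;> norm_num

lemma cf_le_one (s : St Λ κ) (e : ℕ × ℕ) : cf D s e ≤ 1 := by
  unfold cf; split_ifs <;> norm_num

/-- missing ties up to `p` -/
def mb (mtt : ℕ → Finset ℕ) (p q : ℕ) : Finset ℕ := (mtt q).filter (· ≤ p)

lemma mb_mono (mtt : ℕ → Finset ℕ) {p₂ p : ℕ} (h : p₂ ≤ p) (q : ℕ) : mb mtt p₂ q ⊆ mb mtt p q := by
  intro l hl
  unfold mb at hl ⊢
  rw [Finset.mem_filter] at hl ⊢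
  exact ⟨hl.1, hl.2.trans h⟩

/-- what a pair of items may still pay, besides the flag -/
noncomputable def fut (mtt : ℕ → Finset ℕ) (rg : ℕ → ℕ) (U : ℕ → ℝ) (p : ℕ) (e : ℕ × ℕ) : ℝ :=
  ∑ l ∈ mb mtt p e.1, U (rg l) + ∑ l ∈ mb mtt p e.2, U (rg l) + ∑ k ∈ Finset.range (rg p), U k

section fut
variable {mtt : ℕ → Finset ℕ} {rg : ℕ → ℕ} {U : ℕ → ℝ}

lemma fut_nonneg (hU : ∀ k, 0 ≤ U k) (p : ℕ) (e : ℕ × ℕ) : 0 ≤ fut mtt rg U p e := by
  unfold fut
  have h1 := Finset.sum_nonneg (s := mb mtt p e.1) (f := fun l => U (rg l)) fun l _ => hU _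
  have h2 := Finset.sum_nonneg (s := mb mtt p e.2) (f := fun l => U (rg l)) fun l _ => hU _
  have h3 := Finset.sum_nonneg (s := Finset.range (rg p)) (f := U) fun l _ => hU _
  linarith

lemma sum_mb_mono (hU : ∀ k, 0 ≤ U k) {p₂ p : ℕ} (h : p₂ ≤ p) (q : ℕ) :
    ∑ l ∈ mb mtt p₂ q, U (rg l) ≤ ∑ l ∈ mb mtt p q, U (rg l) :=
  Finset.sum_le_sum_of_subset_of_nonneg (mb_mono mtt h q) fun l _ _ => hU _

lemma sum_rg_mono (hm : Monotone rg) (hU : ∀ k, 0 ≤ U k) {p₂ p : ℕ} (h : p₂ ≤ p) :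
    ∑ k ∈ Finset.range (rg p₂), U k ≤ ∑ k ∈ Finset.range (rg p), U k :=
  Finset.sum_le_sum_of_subset_of_nonneg
    (Finset.range_subset_range.2 (hm h)) fun l _ _ => hU _

lemma fut_mono (hm : Monotone rg) (hU : ∀ k, 0 ≤ U k) {p₂ p : ℕ} (h : p₂ ≤ p) (e : ℕ × ℕ) :
    fut mtt rg U p₂ e ≤ fut mtt rg U p e := by
  unfold fut
  have h1 := sum_mb_mono (mtt := mtt) (rg := rg) hU h e.1
  have h2 := sum_mb_mono (mtt := mtt) (rg := rg) hU h e.2
  have h3 := sum_rg_mono hm hU h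
  linarith

/-- an event between `p₂` and `p` pays the flag -/
lemma fut_event (hm : Monotone rg) (hU : ∀ k, 0 ≤ U k) {p₂ p : ℕ} (h : p₂ ≤ p) {e : ℕ × ℕ}
    (hev : rg p₂ < rg p ∨ (∃ l ∈ mtt e.1, p₂ < l ∧ l ≤ p) ∨ ∃ l ∈ mtt e.2, p₂ < l ∧ l ≤ p) :
    U (rg p₂) + fut mtt rg U p₂ e ≤ fut mtt rg U p e := by
  have h1 := sum_mb_mono (mtt := mtt) (rg := rg) hU h e.1
  have h2 := sum_mb_mono (mtt := mtt) (rg := rg) hU h e.2
  have h3 := sum_rg_mono hm hU h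
  have key : ∀ q : ℕ, rg p₂ = rg p → (∃ l ∈ mtt q, p₂ < l ∧ l ≤ p) →
      U (rg p₂) + ∑ l ∈ mb mtt p₂ q, U (rg l) ≤ ∑ l ∈ mb mtt p q, U (rg l) := by
    rintro q hr ⟨l, hl, l1, l2⟩
    have hrl : rg l = rg p₂ := le_antisymm ((hm l2).trans hr.ge) (hm l1.le)
    have hn : l ∉ mb mtt p₂ q := by
      unfold mb; rw [Finset.mem_filter]; exact fun h => absurd h.2 (not_le.2 l1)
    have hs : insert l (mb mtt p₂ q) ⊆ mb mtt p q := by
      refine Finset.insert_subset ?_ (mb_mono mtt h q)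
      unfold mb; rw [Finset.mem_filter]; exact ⟨hl, l2⟩
    have := Finset.sum_le_sum_of_subset_of_nonneg (f := fun l => U (rg l)) hs fun l _ _ => hU _
    rw [Finset.sum_insert hn, hrl] at this
    exact this
  unfold fut
  rcases (hm h).lt_or_eq with hlt | heq
  · have hs : Finset.range (rg p₂ + 1) ⊆ Finset.range (rg p) :=
      Finset.range_subset_range.2 hlt
    have := Finset.sum_le_sum_of_subset_of_nonneg (f := U) hs fun l _ _ => hU _
    rw [Finset.sum_range_succ] at this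
    linarith
  · rcases hev with hev | hev | hev
    · exact absurd heq hev.ne
    · have := key e.1 heq hev
      linarith
    · have := key e.2 heq hev
      linarith

end fut

/-- a new flag needs an event -/
lemma IX.event {mtt : ℕ → Finset ℕ} {rg : ℕ → ℕ} (h : IX D mtt rg) {p₂ p : ℕ} (hp : p₂ ≤ p)
    {e : ℕ × ℕ} {j j' : Λ} (hj : D.it j = e.1) (hj' : D.it j' = e.2)
    (h1 : (j, j') ∈ Ro (D.rho p)) (h2 : (j, j') ∉ Ro (D.rho p₂)) :
    rg p₂ < rg p ∨ (∃ l ∈ mtt e.1, p₂ < l ∧ l ≤ p) ∨ ∃ l ∈ mtt e.2, p₂ < l ∧ l ≤ p := by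
  by_contra hc
  push Not at hc
  obtain ⟨c1, c2, c3⟩ := hc
  refine h2 (h.same hp (le_antisymm (h.mono hp) c1) ?_ ?_ h1)
  · rw [hj]; intro l hl hpl; exact c2 l hl hpl
  · rw [hj']; intro l hl hpl; exact c3 l hl hpl

/-- **the potential step**: `R₂ = Ro (rho p)` (column) or `R₂ = R` -/
lemma cf_step {mtt : ℕ → Finset ℕ} {rg : ℕ → ℕ} (h : IX D mtt rg) {U : ℕ → ℝ} (hU : ∀ k, 0 ≤ U k)
    {s s₂ : St Λ κ} (hp : s₂.p ≤ s.p) (e : ℕ × ℕ) :
    (s₂.R = Ro (D.rho s.p) →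
      cf D s₂ e * U (rg s₂.p) + fut mtt rg U s₂.p e ≤ fut mtt rg U s.p e) ∧
    (s₂.R = s.R → cf D s₂ e * U (rg s₂.p) + fut mtt rg U s₂.p e ≤
      cf D s e * U (rg s.p) + fut mtt rg U s.p e) := by
  have hm := fut_mono (mtt := mtt) h.mono hU hp e
  have hev := fun hev => fut_event (mtt := mtt) h.mono hU hp (e := e) hev
  constructor
  · intro hR
    unfold cf
    split_ifs with hc
    · linarith
    · unfold Cln at hc
      push Not at hc
      obtain ⟨j, j', hj, hj', h1, h2⟩ := hc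
      rw [hR] at h1
      have := hev (h.event hp hj hj' h1 h2)
      linarith
  · intro hR
    by_cases hc : Cln D s₂ e
    · have h0 : cf D s₂ e = 0 := if_pos hc
      rw [h0, zero_mul]
      have := mul_nonneg (cf_nonneg (D := D) s e) (hU (rg s.p))
      linarith
    · have h0 : cf D s₂ e = 1 := if_neg hc
      rw [h0, one_mul]
      by_cases hs : Cln D s e
      · have h0' : cf D s e = 0 := if_pos hs
        rw [h0', zero_mul, zero_add]
        unfold Cln at hc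
        push Not at hc
        obtain ⟨j, j', hj, hj', h1, h2⟩ := hc
        rw [hR] at h1
        exact hev (h.event hp hj hj' (hs j j' hj hj' h1) h2)
      · have h0' : cf D s e = 1 := if_neg hs
        rw [h0', one_mul]
        rcases (h.mono hp).lt_or_eq with hlt | heq
        · have := hev (Or.inl hlt)
          have := hU (rg s.p)
          linarith
        · rw [heq]; linarith

/-! ### the pair supersolution -/

open Classical in
/-- what a pair of items pays for its merges at a state -/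
noncomputable def lM (D : Par Λ κ) (rg : ℕ → ℕ) (U : ℕ → ℝ × ℝ → ℕ × ℕ → ℝ) (stp : St Λ κ → Prop)
    (s : St Λ κ) (u u' : NS) (τ τ' : IT) (e : ℕ × ℕ) : ℝ :=
  if BrV stp s then ((u.B : ℝ) * u'.B) *
    (cf D s e * U (rg s.p) (SE s.M u.B u.A s.M' u'.B u'.A e) e) else 0

/-- potential of the merges of a pair of items -/
noncomputable def PhiM (D : Par Λ κ) (mtt : ℕ → Finset ℕ) (rg : ℕ → ℕ)
    (U : ℕ → ℝ × ℝ → ℕ × ℕ → ℝ) (s : St Λ κ) (u u' : NS) (τ τ' : IT) (e : ℕ × ℕ) : ℝ :=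
  ((u.B : ℝ) * u'.B) * (cf D s e * U (rg s.p) (SE s.M u.B u.A s.M' u'.B u'.A e) e +
    fut mtt rg (fun k => U k (SE s.M u.B u.A s.M' u'.B u'.A e) e) s.p e)

lemma PhiM_nonneg {mtt : ℕ → Finset ℕ} {rg : ℕ → ℕ} {U : ℕ → ℝ × ℝ → ℕ × ℕ → ℝ}
    (hU : ∀ k s e, 0 ≤ U k s e) (s : St Λ κ) (u u' : NS) (τ τ' : IT) (e : ℕ × ℕ) :
    0 ≤ PhiM D mtt rg U s u u' τ τ' e := by
  unfold PhiM
  exact mul_nonneg (by positivity) (add_nonneg (mul_nonneg (cf_nonneg _ _) (hU _ _ _))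
    (fut_nonneg (fun k => hU _ _ _) _ _))

lemma lM_nonneg {rg : ℕ → ℕ} {U : ℕ → ℝ × ℝ → ℕ × ℕ → ℝ}
    (hU : ∀ k s e, 0 ≤ U k s e) (stp : St Λ κ → Prop) (s : St Λ κ) (u u' : NS) (τ τ' : IT)
    (e : ℕ × ℕ) : 0 ≤ lM D rg U stp s u u' τ τ' e := by
  unfold lM
  split_ifs
  · exact mul_nonneg (by positivity) (mul_nonneg (cf_nonneg _ _) (hU _ _ _))
  · exact le_rfl

lemma lM_le_PhiM {mtt : ℕ → Finset ℕ} {rg : ℕ → ℕ} {U : ℕ → ℝ × ℝ → ℕ × ℕ → ℝ}
    (hU : ∀ k s e, 0 ≤ U k s e) (stp : St Λ κ → Prop) (s : St Λ κ) (u u' : NS) (τ τ' : IT)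
    (e : ℕ × ℕ) : lM D rg U stp s u u' τ τ' e ≤ PhiM D mtt rg U s u u' τ τ' e := by
  unfold lM
  split_ifs
  · unfold PhiM
    refine mul_le_mul_of_nonneg_left ?_ (by positivity)
    have := fut_nonneg (mtt := mtt) (rg := rg)
      (U := fun k => U k (SE s.M u.B u.A s.M' u'.B u'.A e) e) (fun k => hU _ _ _) s.p e
    linarith
  · exact PhiM_nonneg hU _ _ _ _ _ _

/-- the children are not above the state -/
lemma child_p_le {s : St Λ κ} {u u' : NS} {τ τ' : IT}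
    (h : YI D sp Qp RP s u u' τ τ') (hpp : s.p.Prime) {stp : St Λ κ → Prop} {q : ℝ × St Λ κ}
    (hq : q ∈ nxt0C stp s) : q.2.p ≤ s.p := by
  obtain ⟨c, c'⟩ := nxt0C_ch s q hq
  have hpL : s.t.top ≤ s.p := le_max_left _ _
  have hpR : s.t'.top ≤ s.p := le_max_right _ _
  have hL : s.t.Col u.n := by rw [h.L.S.eq]; exact D.toDT_Col sp τ u.n u.B u.A h.L.ok
  have hR : s.t'.Col u'.n := by rw [h.R.S.eq]; exact D.toDT_Col sp τ' u'.n u'.B u'.A h.R.ok
  exact max_le_max (c.top_le hpp.pos hpL hL) (c'.top_le hpp.pos hpR hR)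

/-- the world map of the column -/
lemma brv_rho (hh : YH D sp P W Qp) {s : St Λ κ} {u u' : NS} {τ τ' : IT}
    (h : YI D sp Qp RP s u u' τ τ') {stp : St Λ κ → Prop} (hb : BrV stp s) :
    eSHRC stp s = Qs { s with R := s.R \ Ro (D.rho s.p) } ∧
      ∀ q ∈ nxt0C stp s, q.2.R = Ro (D.rho s.p) := by
  obtain ⟨r, e1, e2, h3⟩ := brv_cases hb
  have hr : r = D.rho s.p := by
    rcases h3 with ⟨w, t₁, t₀, v, B, G, et⟩ | ⟨w, t₁, t₀, v, B, G, et⟩
    · have := h.L.S.eq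
      rw [et] at this
      rcases toDT_br this.symm with ⟨S, τ₁, τ₀, rfl, rfl, rfl, hr, -⟩ | ⟨τ₁, rfl, rfl, hr, -⟩
      · rfl
      · rfl
    · have := h.R.S.eq
      rw [et] at this
      rcases toDT_br this.symm with ⟨S, τ₁, τ₀, rfl, rfl, rfl, hr, -⟩ | ⟨τ₁, rfl, rfl, hr, -⟩
      · rfl
      · rfl
  subst hr
  exact ⟨e1, e2⟩

/-- **merges: the pair supersolution** -/
theorem PSup_mg (hh : YH D sp P W Qp) {mtt : ℕ → Finset ℕ} {rg : ℕ → ℕ} (hx : IX D mtt rg)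
    {U : ℕ → ℝ × ℝ → ℕ × ℕ → ℝ} (hU : ∀ k s e, 0 ≤ U k s e) (stp : St Λ κ → Prop)
    (Iv : St Λ κ → NS → NS → IT → IT → Prop) :
    PSup D Al sp Qp RP stp Iv (lM D rg U stp) (PhiM D mtt rg U) where
  le := fun s u u' τ τ' _ _ e _ => lM_le_PhiM hU stp s u u' τ τ' e
  step := by
    intro s u u' τ τ' hI h hpp hs c hc hch hact e he
    have hc0 := (mem_nxtC.1 hc).1
    have hp := child_p_le h hpp hc0
    have hsc := hch.sc hpp he
    have hU' : ∀ k, 0 ≤ U k (SE s.M u.B u.A s.M' u'.B u'.A e) e := fun k => hU _ _ _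
    obtain ⟨k1, k2⟩ := cf_step hx hU' hp e
    have hX : 0 ≤ cf D c.s e * U (rg c.s.p) (SE s.M u.B u.A s.M' u'.B u'.A e) e +
        fut mtt rg (fun k => U k (SE s.M u.B u.A s.M' u'.B u'.A e) e) c.s.p e :=
      add_nonneg (mul_nonneg (cf_nonneg _ _) (hU' _)) (fut_nonneg hU' _ _)
    have hw := mul_le_mul_of_nonneg_right hch.wB hX
    have hbb : (0:ℝ) ≤ (u.B : ℝ) * u'.B := by positivity
    unfold PhiM lM
    rw [hsc]
    split_ifs with hb
    · have hR := (brv_rho hh h hb).2 _ hc0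
      have := mul_le_mul_of_nonneg_left (k1 hR) hbb
      simp only at hw this ⊢
      linarith
    · have hR := (not_brv hb).2 _ hc0
      have := mul_le_mul_of_nonneg_left (k2 hR) hbb
      simp only at hw this ⊢
      linarith

/-! ### the local bound -/

/-- **merges at one state** from the bound of the same-index pairs of one pair of items -/
theorem mg_loc (hh : YH D sp P W Qp) (hdead : ∀ j, D.it j ∉ Al → ∀ a, D.om j a = 0)
    {rg : ℕ → ℕ} {U : ℕ → ℝ × ℝ → ℕ × ℕ → ℝ} (hU : ∀ k s e, 0 ≤ U k s e)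
    {stp : St Λ κ → Prop} {s : St Λ κ} {u u' : NS} {τ τ' : IT} (h : YI D sp Qp RP s u u' τ τ')
    (hpair : BrV stp s → ∀ e ∈ Ep D Al s τ τ',
      e ∈ D.PE (s.R \ Ro (D.rho s.p)) (D.uA s.M u.B u.A τ s.A 1) (D.uA s.M' u'.B u'.A τ' s.A' 1) →
      D.iF (s.R \ Ro (D.rho s.p)) (D.uA s.M u.B u.A τ s.A 1) (D.uA s.M' u'.B u'.A τ' s.A' 1) e ≤
        ((u.B : ℝ) * u'.B) * U (rg s.p) (SE s.M u.B u.A s.M' u'.B u'.A e) e) :
    eSHRC stp s ≤ ∑ e ∈ Ep D Al s τ τ', lM D rg U stp s u u' τ τ' e := by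
  by_cases hb : BrV stp s
  swap
  · rw [(not_brv hb).1]
    exact Finset.sum_nonneg fun e _ => lM_nonneg hU stp s u u' τ τ' e
  rw [(brv_rho hh h hb).1]
  have hst := h.st
  have e1 : Qs { s with R := s.R \ Ro (D.rho s.p) } =
      Q (s.R \ Ro (D.rho s.p)) (D.uA s.M u.B u.A τ s.A 1) (D.uA s.M' u'.B u'.A τ' s.A' 1) :=
    Qs_Q (s := { s with R := s.R \ Ro (D.rho s.p) }) ⟨hst.L, hst.R, hst.M0, hst.M0'⟩
  rw [e1, D.Q_eq]
  have hsub := PE_sub hdead h.mL.pos h.mR.pos h.L.S.hb h.R.S.hb h.L.S.hF h.R.S.hF h.L.S.hW h.R.S.hW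
    (one_dvd _) (one_dvd _) (s.R \ Ro (D.rho s.p)) s.A s.A'
  refine le_trans (Finset.sum_le_sum fun e he => ?_)
    (Finset.sum_le_sum_of_subset_of_nonneg hsub fun e _ _ => lM_nonneg hU stp s u u' τ τ' e)
  have h1 := hpair hb e (hsub he) he
  have hcf : cf D s e = 1 := by
    unfold cf
    rw [if_neg]
    intro hcl
    obtain ⟨j, j', hR, -, -, hj, hj', -⟩ := Par.PE_ex h.mL.pos h.mR.pos he
    rw [Finset.mem_sdiff] at hR
    exact hR.2 (hcl j j' hj hj' hR.1)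
  unfold lM
  rw [if_pos hb, hcf, one_mul]
  exact h1

/-- **merges of a walk** (the whole walk, all the pairs) -/
theorem shr_bound (hh : YH D sp P W Qp) (hRP : ∀ l, RP (Ro (D.rho l)))
    (hdead : ∀ j, D.it j ∉ Al → ∀ a, D.om j a = 0)
    {mtt : ℕ → Finset ℕ} {rg : ℕ → ℕ} (hx : IX D mtt rg)
    {U : ℕ → ℝ × ℝ → ℕ × ℕ → ℝ} (hU : ∀ k s e, 0 ≤ U k s e) {stp : St Λ κ → Prop}
    {Iv : St Λ κ → NS → NS → IT → IT → Prop}
    (hIv : ∀ s u u' τ τ', Iv s u u' τ τ' → YI D sp Qp RP s u u' τ τ' → ∀ c : CR Λ κ,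
      (c.w, c.s) ∈ nxtC stp s → Chd D Al sp Qp RP s.p s u u' τ τ' c → Iv c.s c.v c.v' c.σ c.σ')
    (hpair : ∀ s u u' τ τ', Iv s u u' τ τ' → YI D sp Qp RP s u u' τ τ' → BrV stp s →
      ∀ e ∈ Ep D Al s τ τ',
      e ∈ D.PE (s.R \ Ro (D.rho s.p)) (D.uA s.M u.B u.A τ s.A 1) (D.uA s.M' u'.B u'.A τ' s.A' 1) →
      D.iF (s.R \ Ro (D.rho s.p)) (D.uA s.M u.B u.A τ s.A 1) (D.uA s.M' u'.B u'.A τ' s.A' 1) e ≤
        ((u.B : ℝ) * u'.B) * U (rg s.p) (SE s.M u.B u.A s.M' u'.B u'.A e) e)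
    {s : St Λ κ} {u u' : NS} {τ τ' : IT} (hI : Iv s u u' τ τ') (h : YI D sp Qp RP s u u' τ τ') :
    WC stp (eSHRC stp) s ≤ ∑ e ∈ Ep D Al s τ τ', PhiM D mtt rg U s u u' τ τ' e := by
  have := pair_bound (loc := eSHRC stp) (G := fun _ => 0) hh hRP hIv (PSup_mg hh hx hU stp Iv)
    (fun s u u' τ τ' hI h => by
      rw [zero_add]
      exact mg_loc hh hdead hU h (hpair s u u' τ τ' hI h)) hI h
  rw [WC_zero, zero_add] at this
  exact this

/-! ### the value of the potential at the crossing state -/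

/-- range part and pair part of the values: `U k sc e = K η_k ρ ρ' + V sc e` -/
noncomputable def UV (K : ℝ) (η : ℕ → ℝ) (ρ : ℕ → ℝ) (V : ℝ × ℝ → ℕ × ℕ → ℝ) (k : ℕ) (sc : ℝ × ℝ)
    (e : ℕ × ℕ) : ℝ := K * η k * (ρ e.1 * ρ e.2) + V sc e

lemma UV_nonneg {K : ℝ} {η ρ : ℕ → ℝ} {V : ℝ × ℝ → ℕ × ℕ → ℝ} (hK : 0 ≤ K) (hη : ∀ k, 0 ≤ η k)
    (hρ : ∀ q, 0 < ρ q) (hV : ∀ s e, 0 ≤ V s e) (k : ℕ) (s : ℝ × ℝ) (e : ℕ × ℕ) :
    0 ≤ UV K η ρ V k s e :=
  add_nonneg (mul_nonneg (mul_nonneg hK (hη k)) (mul_nonneg (hρ _).le (hρ _).le)) (hV _ _)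

/-- one pair -/
theorem PhiM_le {mtt : ℕ → Finset ℕ} {rg : ℕ → ℕ} {K : ℝ} {η ρ : ℕ → ℝ}
    {V : ℝ × ℝ → ℕ × ℕ → ℝ} (hK : 0 ≤ K) (hη : ∀ k, 0 ≤ η k) (hρ : ∀ q, 0 < ρ q)
    (hV : ∀ s e, 0 ≤ V s e) {E N : ℝ} {s : St Λ κ} {u u' : NS} {τ τ' : IT} {e : ℕ × ℕ}
    (h1 : η (rg s.p) + ∑ l ∈ mb mtt s.p e.1, η (rg l) + ∑ l ∈ mb mtt s.p e.2, η (rg l) +
      ∑ k ∈ Finset.range (rg s.p), η k ≤ E)
    (h2 : 1 + ((mb mtt s.p e.1).card : ℝ) + (mb mtt s.p e.2).card + rg s.p ≤ N) :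
    PhiM D mtt rg (UV K η ρ V) s u u' τ τ' e ≤
      K * E * (((u.B : ℝ) * ρ e.1) * ((u'.B : ℝ) * ρ e.2)) +
      N * (((u.B : ℝ) * u'.B) * V (SE s.M u.B u.A s.M' u'.B u'.A e) e) := by
  set sc := SE s.M u.B u.A s.M' u'.B u'.A e with hsc
  have hr : 0 ≤ ρ e.1 * ρ e.2 := mul_nonneg (hρ _).le (hρ _).le
  have hb : (0:ℝ) ≤ (u.B : ℝ) * u'.B := by positivity
  have hv := hV sc e
  have hU : ∀ k, 0 ≤ UV K η ρ V k sc e := fun k => UV_nonneg hK hη hρ hV k _ _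
  have c1 := mul_le_mul_of_nonneg_right (cf_le_one (D := D) s e) (hU (rg s.p))
  have e1 : UV K η ρ V (rg s.p) sc e + fut mtt rg (fun k => UV K η ρ V k sc e) s.p e =
      K * (η (rg s.p) + ∑ l ∈ mb mtt s.p e.1, η (rg l) + ∑ l ∈ mb mtt s.p e.2, η (rg l) +
        ∑ k ∈ Finset.range (rg s.p), η k) * (ρ e.1 * ρ e.2) +
      (1 + ((mb mtt s.p e.1).card : ℝ) + (mb mtt s.p e.2).card + rg s.p) * V sc e := by
    unfold fut UV
    simp only [Finset.sum_add_distrib, Finset.sum_const, Finset.card_range, nsmul_eq_mul]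
    rw [← Finset.sum_mul, ← Finset.sum_mul, ← Finset.sum_mul, ← Finset.mul_sum, ← Finset.mul_sum,
      ← Finset.mul_sum]
    ring
  have e2 := mul_le_mul_of_nonneg_right (mul_le_mul_of_nonneg_left h1 hK) hr
  have e3 := mul_le_mul_of_nonneg_right h2 hv
  unfold PhiM
  rw [← hsc]
  have key : cf D s e * UV K η ρ V (rg s.p) sc e + fut mtt rg (fun k => UV K η ρ V k sc e) s.p e ≤
      K * E * (ρ e.1 * ρ e.2) + N * V sc e := by linarith
  have := mul_le_mul_of_nonneg_left key hb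
  calc _ ≤ _ := this
    _ = _ := by ring

/-- **all the pairs** -/
theorem sum_PhiM_le {mtt : ℕ → Finset ℕ} {rg : ℕ → ℕ} {K : ℝ} {η ρ : ℕ → ℝ}
    {V : ℝ × ℝ → ℕ × ℕ → ℝ} (hK : 0 ≤ K) (hη : ∀ k, 0 ≤ η k) (hρ : ∀ q, 0 < ρ q)
    (hV : ∀ s e, 0 ≤ V s e) {E N : ℝ} {s : St Λ κ} {u u' : NS} {τ τ' : IT}
    (h1 : ∀ e ∈ Ep D Al s τ τ', η (rg s.p) + ∑ l ∈ mb mtt s.p e.1, η (rg l) +
      ∑ l ∈ mb mtt s.p e.2, η (rg l) + ∑ k ∈ Finset.range (rg s.p), η k ≤ E)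
    (h2 : ∀ e ∈ Ep D Al s τ τ',
      1 + ((mb mtt s.p e.1).card : ℝ) + (mb mtt s.p e.2).card + rg s.p ≤ N) :
    ∑ e ∈ Ep D Al s τ τ', PhiM D mtt rg (UV K η ρ V) s u u' τ τ' e ≤
      K * E * (SR ρ u.B (Qi D Al τ s.A) * SR ρ u'.B (Qi D Al τ' s.A')) +
      N * ∑ e ∈ Ep D Al s τ τ', ((u.B : ℝ) * u'.B) * V (SE s.M u.B u.A s.M' u'.B u'.A e) e := by
  refine (Finset.sum_le_sum fun e he => PhiM_le hK hη hρ hV (h1 e he) (h2 e he)).trans ?_
  rw [Finset.sum_add_distrib, ← Finset.mul_sum, ← Finset.mul_sum]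
  refine add_le_add (le_of_eq ?_) le_rfl
  unfold SR
  rw [Finset.sum_mul_sum, Finset.sum_product]

end Crest.Agent.R4P.ShrW34
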