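import Crest.Agent.R4P.LeafM_27
import Crest.Agent.R4P.ShrW_34

/-!
R4 (S0004) with powers, module D, group [X] (helper30): **merges of the walk of one leaf item** (leaf walk
of helper27), pair level.

* `fl D R p e` : flag (`0` iff all the pairs of pieces of `e` in `R` are related at `p`); `fl_step`;
* `XL` : value of a merge of the pair `(q, r)` at a state: `m (c W r) H k + b b' V k (SE) (q, r)`;
* `lL`, `PhL` : what the pair pays at a column, its potential; `PhL_chd`, `PhL_col` : supersolution;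
* `mg_locL` : the merges of a column are at most `∑ lL` from the bound of one pair;
* `PhL_le`, `sum_PhL_le` : the value of the potential at the start.
-/

set_option autoImplicit false
set_option linter.unusedSectionVars false
set_option linter.unusedVariables false
open Finset

namespace Crest.Agent.R4P.LeafMg30

open Crest.Agent.R4.HVW560 Crest.Agent.R4P.AvgItem710
open Crest.Agent.R4.Tour104 Crest.Agent.R4.Tour758 Crest.Agent.R4.Avg758 Crest.Agent.R4.Clos758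
open Crest.Agent.R4.ClosL758 Crest.Agent.R4.ClosG758 Crest.Agent.R4.ClosR758
open Crest.Agent.R4P.Cnt588 Crest.Agent.R4P.Walk560 Crest.Agent.R4P.Item758
open Crest.Agent.R4P.Bld532 (NS All NodeOk Bk dv nd mem_dv mem_nd)
open Crest.Agent.R4P.GSt927 Crest.Agent.R4P.WalkIT579 Crest.Agent.R4P.NMW710
open Crest.Agent.R4P.CrossLoc25 Crest.Agent.R4P.CrossLocC25 Crest.Agent.R4P.YI25
open Crest.Agent.R4P.LeafCol27 Crest.Agent.R4P.LeafM27
open Crest.Agent.R4P.ShrW34 (IX mb fut fut_nonneg fut_mono fut_event)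

variable {Λ κ : Type*} [Fintype Λ] [DecidableEq Λ] [Fintype κ] [DecidableEq κ] [WRel κ]
  {D : Par Λ κ} {sp : ℕ → Finset Λ} {P : Bld532.Par} {W : ℕ → ℝ} {Qp : NS → IT → Prop}
  {Al : Finset ℕ} {Jp : ℕ × ℝ → ℕ × ℝ → ℕ × ℕ → Prop} {v : NS} {Sl : Finset ℕ} {q : ℕ}
  {A' : Finset Λ}

/-! ### flags -/

/-- all the pairs of pieces of `e` in `R` are related at `p` -/
def ClnR (D : Par Λ κ) (R : Finset (Λ × Λ)) (p : ℕ) (e : ℕ × ℕ) : Prop :=
  ∀ j j' : Λ, D.it j = e.1 → D.it j' = e.2 → (j, j') ∈ R → (j, j') ∈ Ro (D.rho p)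

open Classical in
/-- flag of a pair of items -/
noncomputable def fl (D : Par Λ κ) (R : Finset (Λ × Λ)) (p : ℕ) (e : ℕ × ℕ) : ℝ :=
  if ClnR D R p e then 0 else 1

lemma fl_nonneg (R : Finset (Λ × Λ)) (p : ℕ) (e : ℕ × ℕ) : 0 ≤ fl D R p e := by
  unfold fl; split_ifs <;> norm_num

lemma fl_le_one (R : Finset (Λ × Λ)) (p : ℕ) (e : ℕ × ℕ) : fl D R p e ≤ 1 := by
  unfold fl; split_ifs <;> norm_num

/-- **the step of the flags** -/
lemma fl_step {mtt : ℕ → Finset ℕ} {rg : ℕ → ℕ} (h : IX D mtt rg) {U : ℕ → ℝ} (hU : ∀ k, 0 ≤ U k)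
    {p₂ p : ℕ} (hp : p₂ ≤ p) (R : Finset (Λ × Λ)) (e : ℕ × ℕ) :
    (fl D (Ro (D.rho p)) p₂ e * U (rg p₂) + fut mtt rg U p₂ e ≤ fut mtt rg U p e) ∧
    (fl D R p₂ e * U (rg p₂) + fut mtt rg U p₂ e ≤
      fl D R p e * U (rg p) + fut mtt rg U p e) := by
  have hm := fut_mono (mtt := mtt) h.mono hU hp e
  have hev := fun hev => fut_event (mtt := mtt) h.mono hU hp (e := e) hev
  constructor
  · unfold fl
    split_ifs with hc
    · linarith
    · unfold ClnR at hc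
      push Not at hc
      obtain ⟨j, j', hj, hj', h1, h2⟩ := hc
      have := hev (h.event hp hj hj' h1 h2)
      linarith
  · by_cases hc : ClnR D R p₂ e
    · have h0 : fl D R p₂ e = 0 := if_pos hc
      rw [h0, zero_mul]
      have := mul_nonneg (fl_nonneg (D := D) R p e) (hU (rg p))
      linarith
    · have h0 : fl D R p₂ e = 1 := if_neg hc
      rw [h0, one_mul]
      by_cases hs : ClnR D R p e
      · have h0' : fl D R p e = 0 := if_pos hs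
        rw [h0', zero_mul, zero_add]
        unfold ClnR at hc
        push Not at hc
        obtain ⟨j, j', hj, hj', h1, h2⟩ := hc
        exact hev (h.event hp hj hj' (hs j j' hj hj' h1) h2)
      · have h0' : fl D R p e = 1 := if_neg hs
        rw [h0', one_mul]
        rcases (h.mono hp).lt_or_eq with hlt | heq
        · have := hev (Or.inl hlt)
          have := hU (rg p)
          linarith
        · rw [heq]; linarith

/-! ### moves -/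

/-- the columns of the leaf walk -/
def Colm (s : LSt) : Prop := ∃ S t₁ t₀, s.t = .br (tp s.t) S t₁ t₀ ∧ ¬ tp s.t ∣ s.M'

/-- the top column of a tree is below its level -/
lemma tp_lt {t : IT} {n : ℕ} (h : t.Ok n) (hn : 0 < n) : tp t < n := by
  cases t with
  | leaf S => exact hn
  | br p Sp t₁ t₀ => exact h.2.1
  | add p t₁ t₀ => exact h.2.1
  | up b Sp t => exact h.2.1
  | pl b t => exact h.2.1
  | far p t₁ t₀ => exact h.2.1

/-- **the relation and the column along a move** -/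
lemma LMv.rel {A : ℕ} {w : ℝ} {s s₂ : LSt} (hm : LMv A q w s s₂) (hO : s.t.Ok s.u.n) :
    tp s₂.t ≤ tp s.t ∧ ((Colm s ∧ s₂.l = tp s.t) ∨ (¬ Colm s ∧ s₂.l = s.l)) := by
  cases hm with
  | @fr1 M M₂ l p u S t₁ t₀ =>
    have hp : p.Prime := hO.1
    refine ⟨(tp_lt hO.2.2.2.2.1 hp.pos).le, Or.inr ⟨?_, rfl⟩⟩
    rintro ⟨S', a, b, -, h2⟩
    exact h2 ⟨M₂, rfl⟩
  | @fr0 M M₂ l p u S t₁ t₀ =>
    have hp : p.Prime := hO.1
    refine ⟨(tp_lt hO.2.2.2.2.2 hp.pos).le, Or.inr ⟨?_, rfl⟩⟩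
    rintro ⟨S', a, b, -, h2⟩
    exact h2 ⟨M₂, rfl⟩
  | @dv1 M M' l p u S t₁ t₀ h1 h2 =>
    have hp : p.Prime := hO.1
    exact ⟨(tp_lt hO.2.2.2.2.1 hp.pos).le, Or.inl ⟨⟨S, t₁, t₀, rfl, h1⟩, rfl⟩⟩
  | @dv0 M M' l p u S t₁ t₀ h1 h2 =>
    have hp : p.Prime := hO.1
    exact ⟨(tp_lt hO.2.2.2.2.2 hp.pos).le, Or.inl ⟨⟨S, t₁, t₀, rfl, h1⟩, rfl⟩⟩
  | @nd1 M M' l p u S t₁ t₀ h1 h2 =>
    have hp : p.Prime := hO.1
    exact ⟨(tp_lt hO.2.2.2.2.1 hp.pos).le, Or.inl ⟨⟨S, t₁, t₀, rfl, h1⟩, rfl⟩⟩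
  | @plf M M₂ l p u t₁ =>
    refine ⟨Nat.lt_succ_iff.1 (tp_lt hO.2.2 (Nat.succ_pos p)), Or.inr ⟨?_, rfl⟩⟩
    rintro ⟨S', a, b, h1, -⟩
    simp at h1
  | @pl M M' l p u t₁ h1 =>
    refine ⟨Nat.lt_succ_iff.1 (tp_lt hO.2.2 (Nat.succ_pos p)), Or.inr ⟨?_, rfl⟩⟩
    rintro ⟨S', a, b, h1, -⟩
    simp at h1
  | @ad1 M M' l p u t₁ t₀ =>
    refine ⟨Nat.lt_succ_iff.1 (tp_lt hO.2.2.2.1 (Nat.succ_pos p)), Or.inr ⟨?_, rfl⟩⟩
    rintro ⟨S', a, b, h1, -⟩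
    simp at h1
  | @ad0 M M' l p u t₁ t₀ =>
    refine ⟨Nat.lt_succ_iff.1 (tp_lt hO.2.2.2.2 (Nat.succ_pos p)), Or.inr ⟨?_, rfl⟩⟩
    rintro ⟨S', a, b, h1, -⟩
    simp at h1
  | @fa1 M M' l p u t₁ t₀ =>
    refine ⟨Nat.lt_succ_iff.1 (tp_lt hO.2.2.2.1 (Nat.succ_pos p)), Or.inr ⟨?_, rfl⟩⟩
    rintro ⟨S', a, b, h1, -⟩
    simp at h1
  | @fa0 M M' l p u t₁ t₀ =>
    refine ⟨Nat.lt_succ_iff.1 (tp_lt hO.2.2.2.2 (Nat.succ_pos p)), Or.inr ⟨?_, rfl⟩⟩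
    rintro ⟨S', a, b, h1, -⟩
    simp at h1
  | @up M M' l p u S t₁ =>
    have hp : p.Prime := hO.1
    refine ⟨(tp_lt hO.2.2.2 hp.pos).le, Or.inr ⟨?_, rfl⟩⟩
    rintro ⟨S', a, b, h1, -⟩
    simp at h1

/-- **the mass factor along a move** -/
lemma LMv.wc (hh : YH D sp P W Qp) {w : ℝ} {s s₂ : LSt} (hm : LMv v.A q w s s₂)
    (h : LOk D Al sp Qp Jp v q A' s) :
    ∀ r ∈ Qi D Al s₂.t A', w * s₂.u.c = s.u.c ∨
      ∃ p : ℕ, p.Prime ∧ s.t.mt r = insert p (s₂.t.mt r) ∧ p ∉ s₂.t.mt r ∧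
        w * s₂.u.c = (1 + 1 / ((p : ℝ) - 1)) * s.u.c := by
  intro r hr
  cases hm with
  | @fr1 M M₂ l p u S t₁ t₀ =>
    have hp : p.Prime := h.y.S.hF.1
    obtain ⟨w1, w2, w3, w4⟩ := inv_le hp
    left
    show (1 - 1 / (p : ℝ)) * (u.c / (1 - 1 / (p : ℝ))) = u.c
    field_simp
  | @fr0 M M₂ l p u S t₁ t₀ =>
    have hp : p.Prime := h.y.S.hF.1
    obtain ⟨w1, w2, w3, w4⟩ := inv_le hp
    left
    show 1 / (p : ℝ) * (u.c * p) = u.c
    rw [mul_comm u.c, ← mul_assoc, w3, one_mul]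
  | @dv1 M M' l p u S t₁ t₀ h1 h2 =>
    have hp : p.Prime := h.y.S.hF.1
    obtain ⟨w1, w2, w3, w4⟩ := inv_le hp
    left
    show (1 - 1 / (p : ℝ)) * (u.c / (1 - 1 / (p : ℝ))) = u.c
    field_simp
  | @dv0 M M' l p u S t₁ t₀ h1 h2 =>
    have hp : p.Prime := h.y.S.hF.1
    obtain ⟨w1, w2, w3, w4⟩ := inv_le hp
    right
    refine ⟨p, hp, br_mt₀ (Qi_items hr), br_not₀ h.y r, ?_⟩
    show 1 / (p : ℝ) * (1 + 1 / ((p : ℝ) - 1)) * (u.c * p) = (1 + 1 / ((p : ℝ) - 1)) * u.c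
    calc 1 / (p : ℝ) * (1 + 1 / ((p : ℝ) - 1)) * (u.c * p) =
        (1 / (p : ℝ) * p) * ((1 + 1 / ((p : ℝ) - 1)) * u.c) := by ring
      _ = _ := by rw [w3, one_mul]
  | @nd1 M M' l p u S t₁ t₀ h1 h2 =>
    have hp : p.Prime := h.y.S.hF.1
    obtain ⟨w1, w2, w3, w4⟩ := inv_le hp
    left
    show (1 - 1 / (p : ℝ)) * (u.c / (1 - 1 / (p : ℝ))) = u.c
    field_simp
  | @plf M M₂ l p u t₁ => left; exact one_mul _
  | @pl M M' l p u t₁ h1 => left; exact one_mul _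
  | @ad1 M M' l p u t₁ t₀ => left; exact one_mul _
  | @ad0 M M' l p u t₁ t₀ => left; exact one_mul _
  | @fa1 M M' l p u t₁ t₀ => left; exact one_mul _
  | @fa0 M M' l p u t₁ t₀ => left; exact one_mul _
  | @up M M' l p u S t₁ => left; exact one_mul _

/-! ### the supersolution -/

/-- value of a merge of the pair `(q, r)` at a state: product part with the mass `m` of `q`, and pair part -/
noncomputable def XL (W : ℕ → ℝ) (v : NS) (q : ℕ) (m : ℝ) (H : ℕ → ℝ)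
    (V : ℕ → ℝ × ℝ → ℕ × ℕ → ℝ) (s : LSt) (r k : ℕ) : ℝ :=
  m * (s.u.c * W r) * H k +
    (v.B : ℝ) * s.u.B * V k (SE s.M v.B v.A s.M' s.u.B s.u.A (q, r)) (q, r)

open Classical in
/-- what the pair `(q, r)` pays for its merges at a column -/
noncomputable def lL (D : Par Λ κ) (rg : ℕ → ℕ) (W : ℕ → ℝ) (v : NS) (q : ℕ) (m : ℝ) (H : ℕ → ℝ)
    (V : ℕ → ℝ × ℝ → ℕ × ℕ → ℝ) (s : LSt) (r : ℕ) : ℝ :=
  if Colm s then fl D (Ro (D.rho s.l)) (tp s.t) (q, r) * XL W v q m H V s r (rg (tp s.t)) else 0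

/-- potential of the merges of the pair `(q, r)` -/
noncomputable def PhL (D : Par Λ κ) (mtt : ℕ → Finset ℕ) (rg : ℕ → ℕ) (W : ℕ → ℝ) (v : NS) (q : ℕ)
    (m : ℝ) (H : ℕ → ℝ) (V : ℕ → ℝ × ℝ → ℕ × ℕ → ℝ) (s : LSt) (r : ℕ) : ℝ :=
  lam s.t r * (fl D (Ro (D.rho s.l)) (tp s.t) (q, r) * XL W v q m H V s r (rg (tp s.t)) +
    fut mtt rg (XL W v q m H V s r) (tp s.t) (q, r))

section sup
variable {mtt : ℕ → Finset ℕ} {rg : ℕ → ℕ} {m : ℝ} {H : ℕ → ℝ} {V : ℕ → ℝ × ℝ → ℕ × ℕ → ℝ}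

lemma XL_nonneg (hW : ∀ r, 0 ≤ W r) (hm : 0 ≤ m) (hH : ∀ k, 0 ≤ H k) (hV : ∀ k s e, 0 ≤ V k s e)
    {s : LSt} (hc : 0 ≤ s.u.c) (r k : ℕ) : 0 ≤ XL W v q m H V s r k := by
  unfold XL
  have h1 := hW r
  have h2 := hH k
  have h3 := hV k (SE s.M v.B v.A s.M' s.u.B s.u.A (q, r)) (q, r)
  positivity

lemma lL_nonneg (hW : ∀ r, 0 ≤ W r) (hm : 0 ≤ m) (hH : ∀ k, 0 ≤ H k)
    (hV : ∀ k s e, 0 ≤ V k s e) {s : LSt} (hc : 0 ≤ s.u.c) (r : ℕ) :
    0 ≤ lL D rg W v q m H V s r := by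
  unfold lL
  split_ifs
  · exact mul_nonneg (fl_nonneg _ _ _) (XL_nonneg hW hm hH hV hc _ _)
  · exact le_rfl

lemma PhL_nonneg (hW : ∀ r, 0 ≤ W r) (hm : 0 ≤ m) (hH : ∀ k, 0 ≤ H k)
    (hV : ∀ k s e, 0 ≤ V k s e) {s : LSt} (h : LOk D Al sp Qp Jp v q A' s) (r : ℕ) :
    0 ≤ PhL D mtt rg W v q m H V s r := by
  unfold PhL
  have h1 := lam_one h.y.ok r
  have hX := XL_nonneg (v := v) (q := q) hW hm hH hV h.c0 r
  exact mul_nonneg (by linarith) (add_nonneg (mul_nonneg (fl_nonneg _ _ _) (hX _))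
    (fut_nonneg hX _ _))

/-- the value decreases along a move -/
lemma XL_chd (hW : ∀ r, 0 ≤ W r) (hm : 0 ≤ m) (hH : ∀ k, 0 ≤ H k) (hV : ∀ k s e, 0 ≤ V k s e)
    (hh : YH D sp P W Qp) {w : ℝ} {s s₂ : LSt} (hmv : LMv v.A q w s s₂)
    (h : LOk D Al sp Qp Jp v q A' s) (k : LChd D Al sp Qp Jp v Sl q A' w s s₂) {r : ℕ}
    (hr : r ∈ Qi D Al s₂.t A') (n : ℕ) :
    w * lam s₂.t r * XL W v q m H V s₂ r n ≤ lam s.t r * XL W v q m H V s r n := by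
  obtain ⟨p, hp, hlk⟩ := k.lk
  have hL := hlk r hr
  have hsc := hL.sc hp
  have l1 := lam_one k.ok.y.ok r
  have l0 := lam_one h.y.ok r
  have hvB : (0:ℝ) ≤ v.B := Nat.cast_nonneg _
  have hV' := hV n (SE s.M v.B v.A s.M' s.u.B s.u.A (q, r)) (q, r)
  have hmw : 0 ≤ m * W r * H n := mul_nonneg (mul_nonneg hm (hW r)) (hH n)
  have hwc : w * lam s₂.t r * s₂.u.c ≤ lam s.t r * s.u.c := by
    rcases LMv.wc hh hmv h r hr with hw | ⟨p', hp', hmt, hn, hw⟩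
    · calc w * lam s₂.t r * s₂.u.c = lam s₂.t r * (w * s₂.u.c) := by ring
        _ = lam s₂.t r * s.u.c := by rw [hw]
        _ ≤ _ := mul_le_mul_of_nonneg_right (lam_mono h.y.ok hL.mt') h.c0
    · rw [lam_insert hmt hn]
      calc w * lam s₂.t r * s₂.u.c = lam s₂.t r * (w * s₂.u.c) := by ring
        _ = lam s₂.t r * ((1 + 1 / ((p' : ℝ) - 1)) * s.u.c) := by rw [hw]
        _ ≤ _ := le_of_eq (by ring)
  have hwB : w * lam s₂.t r * s₂.u.B ≤ lam s.t r * s.u.B := by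
    rcases k.wt r hr with hw | ⟨p', hp', hmt, hn, hw⟩
    · calc w * lam s₂.t r * s₂.u.B = lam s₂.t r * (w * s₂.u.B) := by ring
        _ ≤ lam s₂.t r * s.u.B := mul_le_mul_of_nonneg_left hw (by linarith)
        _ ≤ _ := mul_le_mul_of_nonneg_right (lam_mono h.y.ok hL.mt') (Nat.cast_nonneg _)
    · rw [lam_insert hmt hn]
      calc w * lam s₂.t r * s₂.u.B = lam s₂.t r * (w * s₂.u.B) := by ring
        _ ≤ lam s₂.t r * ((1 + 1 / ((p' : ℝ) - 1)) * s.u.B) :=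
          mul_le_mul_of_nonneg_left hw (by linarith)
        _ ≤ _ := le_of_eq (by ring)
  unfold XL
  rw [hsc]
  have e1 := mul_le_mul_of_nonneg_left hwc hmw
  have e2 := mul_le_mul_of_nonneg_left hwB (mul_nonneg hvB hV')
  calc w * lam s₂.t r * (m * (s₂.u.c * W r) * H n +
        (v.B : ℝ) * s₂.u.B * V n (SE s.M v.B v.A s.M' s.u.B s.u.A (q, r)) (q, r))
      = m * W r * H n * (w * lam s₂.t r * s₂.u.c) +
        (v.B : ℝ) * V n (SE s.M v.B v.A s.M' s.u.B s.u.A (q, r)) (q, r) *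
          (w * lam s₂.t r * s₂.u.B) := by ring
    _ ≤ m * W r * H n * (lam s.t r * s.u.c) +
        (v.B : ℝ) * V n (SE s.M v.B v.A s.M' s.u.B s.u.A (q, r)) (q, r) *
          (lam s.t r * s.u.B) := add_le_add e1 e2
    _ = _ := by ring

/-- `fut` is linear in the values -/
lemma fut_mul (c : ℝ) (U : ℕ → ℝ) (p : ℕ) (e : ℕ × ℕ) :
    fut mtt rg (fun k => c * U k) p e = c * fut mtt rg U p e := by
  unfold fut
  simp only [mul_add, Finset.mul_sum]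

lemma fut_le {U U' : ℕ → ℝ} (h : ∀ k, U k ≤ U' k) (p : ℕ) (e : ℕ × ℕ) :
    fut mtt rg U p e ≤ fut mtt rg U' p e := by
  unfold fut
  exact add_le_add (add_le_add (Finset.sum_le_sum fun _ _ => h _) (Finset.sum_le_sum fun _ _ => h _))
    (Finset.sum_le_sum fun _ _ => h _)

/-- **the potential is a supersolution** : payment at the state plus the weighted child -/
theorem PhL_chd (hx : IX D mtt rg) (hW : ∀ r, 0 ≤ W r) (hm : 0 ≤ m) (hH : ∀ k, 0 ≤ H k)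
    (hV : ∀ k s e, 0 ≤ V k s e) (hh : YH D sp P W Qp) {w : ℝ} {s s₂ : LSt}
    (hmv : LMv v.A q w s s₂) (h : LOk D Al sp Qp Jp v q A' s)
    (k : LChd D Al sp Qp Jp v Sl q A' w s s₂) {r : ℕ} (hr : r ∈ Qi D Al s₂.t A') :
    lL D rg W v q m H V s r + w * PhL D mtt rg W v q m H V s₂ r ≤ PhL D mtt rg W v q m H V s r := by
  obtain ⟨htp, hrel⟩ := LMv.rel hmv h.y.ok
  have l1 := lam_one k.ok.y.ok r
  have l0 := lam_one h.y.ok r
  have hX := XL_nonneg (v := v) (q := q) hW hm hH hV h.c0 r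
  have hstep := fun n => XL_chd (Sl := Sl) (m := m) (H := H) (V := V) hW hm hH hV hh hmv h k hr n
  -- the child with the values of the parent
  have key : w * PhL D mtt rg W v q m H V s₂ r ≤ lam s.t r *
      (fl D (Ro (D.rho s₂.l)) (tp s₂.t) (q, r) * XL W v q m H V s r (rg (tp s₂.t)) +
        fut mtt rg (XL W v q m H V s r) (tp s₂.t) (q, r)) := by
    unfold PhL
    have e1 : w * (lam s₂.t r * (fl D (Ro (D.rho s₂.l)) (tp s₂.t) (q, r) *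
          XL W v q m H V s₂ r (rg (tp s₂.t)) + fut mtt rg (XL W v q m H V s₂ r) (tp s₂.t) (q, r))) =
        fl D (Ro (D.rho s₂.l)) (tp s₂.t) (q, r) *
          (w * lam s₂.t r * XL W v q m H V s₂ r (rg (tp s₂.t))) +
        fut mtt rg (fun n => w * lam s₂.t r * XL W v q m H V s₂ r n) (tp s₂.t) (q, r) := by
      rw [fut_mul]; ring
    have e2 : lam s.t r *
      (fl D (Ro (D.rho s₂.l)) (tp s₂.t) (q, r) * XL W v q m H V s r (rg (tp s₂.t)) +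
        fut mtt rg (XL W v q m H V s r) (tp s₂.t) (q, r)) =
        fl D (Ro (D.rho s₂.l)) (tp s₂.t) (q, r) *
          (lam s.t r * XL W v q m H V s r (rg (tp s₂.t))) +
        fut mtt rg (fun n => lam s.t r * XL W v q m H V s r n) (tp s₂.t) (q, r) := by
      rw [fut_mul]; ring
    rw [e1, e2]
    exact add_le_add (mul_le_mul_of_nonneg_left (hstep _) (fl_nonneg _ _ _))
      (fut_le (fun n => hstep n) _ _)
  rcases hrel with ⟨hc, hl⟩ | ⟨hc, hl⟩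
  · rw [hl] at key
    have hst := (fl_step hx (fun n => hX n) htp (Ro (D.rho s.l)) (q, r)).1
    have e0 : lL D rg W v q m H V s r =
        fl D (Ro (D.rho s.l)) (tp s.t) (q, r) * XL W v q m H V s r (rg (tp s.t)) := if_pos hc
    have e3 := mul_le_mul_of_nonneg_left hst (by linarith : (0:ℝ) ≤ lam s.t r)
    have hfx : 0 ≤ fl D (Ro (D.rho s.l)) (tp s.t) (q, r) * XL W v q m H V s r (rg (tp s.t)) :=
      mul_nonneg (fl_nonneg _ _ _) (hX _)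
    have e4 : fl D (Ro (D.rho s.l)) (tp s.t) (q, r) * XL W v q m H V s r (rg (tp s.t)) ≤
        lam s.t r *
          (fl D (Ro (D.rho s.l)) (tp s.t) (q, r) * XL W v q m H V s r (rg (tp s.t))) :=
      le_mul_of_one_le_left hfx l0
    rw [e0]
    unfold PhL at key ⊢
    rw [mul_add]
    linarith
  · rw [hl] at key
    have hst := (fl_step hx (fun n => hX n) htp (Ro (D.rho s.l)) (q, r)).2
    have e0 : lL D rg W v q m H V s r = 0 := if_neg hc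
    have e3 := mul_le_mul_of_nonneg_left hst (by linarith : (0:ℝ) ≤ lam s.t r)
    rw [e0, zero_add]
    exact key.trans e3

/-- a pair which leaves the walk still pays at the state -/
lemma lL_le_PhL (hW : ∀ r, 0 ≤ W r) (hm : 0 ≤ m) (hH : ∀ k, 0 ≤ H k)
    (hV : ∀ k s e, 0 ≤ V k s e) {s : LSt} (h : LOk D Al sp Qp Jp v q A' s) (r : ℕ) :
    lL D rg W v q m H V s r ≤ PhL D mtt rg W v q m H V s r := by
  have hX := XL_nonneg (v := v) (q := q) hW hm hH hV h.c0 r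
  have l0 := lam_one h.y.ok r
  have hfx : 0 ≤ fl D (Ro (D.rho s.l)) (tp s.t) (q, r) * XL W v q m H V s r (rg (tp s.t)) :=
    mul_nonneg (fl_nonneg _ _ _) (hX _)
  have hf := fut_nonneg (mtt := mtt) (rg := rg) hX (tp s.t) (q, r)
  have h1 : fl D (Ro (D.rho s.l)) (tp s.t) (q, r) * XL W v q m H V s r (rg (tp s.t)) ≤
      PhL D mtt rg W v q m H V s r := by
    unfold PhL
    calc _ ≤ fl D (Ro (D.rho s.l)) (tp s.t) (q, r) * XL W v q m H V s r (rg (tp s.t)) +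
          fut mtt rg (XL W v q m H V s r) (tp s.t) (q, r) := by linarith
      _ ≤ _ := le_mul_of_one_le_left (by linarith) l0
  unfold lL
  split_ifs
  · exact h1
  · exact hfx.trans h1

/-! ### the local bound -/

/-- **the merges at a column** from the bound of one pair of items. `A` = the population of the leaf item -/
theorem mg_locL (hdead : ∀ j, D.it j ∉ Al → ∀ a, D.om j a = 0) (hW : ∀ r, 0 ≤ W r) (hm : 0 ≤ m)
    (hH : ∀ k, 0 ≤ H k) (hV : ∀ k s e, 0 ≤ V k s e) {A A₀ : Finset Λ} {d : DT Λ κ}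
    (hl : SideI D sp v.B v.A (.leaf Sl) A₀ d) (hA : Qi D Al (.leaf Sl) A ⊆ {q}) {s : LSt}
    (h : LOk D Al sp Qp Jp v q A' s) (hc : Colm s)
    (hpair : ∀ r ∈ Qi D Al s.t A', q ∈ Qi D Al (.leaf Sl) A →
      (q, r) ∈ D.PE (Ro (D.rho s.l) \ Ro (D.rho (tp s.t))) (D.uA s.M v.B v.A (.leaf Sl) A 1)
        (D.uA s.M' s.u.B s.u.A s.t A' 1) →
      D.iF (Ro (D.rho s.l) \ Ro (D.rho (tp s.t))) (D.uA s.M v.B v.A (.leaf Sl) A 1)
        (D.uA s.M' s.u.B s.u.A s.t A' 1) (q, r) ≤ XL W v q m H V s r (rg (tp s.t))) :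
    Q (Ro (D.rho s.l) \ Ro (D.rho (tp s.t))) (D.uA s.M v.B v.A (.leaf Sl) A 1)
        (D.uA s.M' s.u.B s.u.A s.t A' 1) ≤
      ∑ r ∈ Qi D Al s.t A', lL D rg W v q m H V s r := by
  classical
  have hsub := PE_sub hdead h.M0 h.M0' hl.hb h.y.S.hb hl.hF h.y.S.hF hl.hW h.y.S.hW
    (one_dvd _) (one_dvd _) (Ro (D.rho s.l) \ Ro (D.rho (tp s.t))) A A'
  rw [D.Q_eq]
  have e1 : ∑ r ∈ Qi D Al s.t A', lL D rg W v q m H V s r =
      ∑ e ∈ ({q} : Finset ℕ) ×ˢ Qi D Al s.t A', lL D rg W v q m H V s e.2 := by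
    rw [Finset.sum_product, Finset.sum_singleton]
  rw [e1]
  have hsub2 : D.PE (Ro (D.rho s.l) \ Ro (D.rho (tp s.t))) (D.uA s.M v.B v.A (.leaf Sl) A 1)
      (D.uA s.M' s.u.B s.u.A s.t A' 1) ⊆ ({q} : Finset ℕ) ×ˢ Qi D Al s.t A' := by
    intro e he
    obtain ⟨a1, a2⟩ := Finset.mem_product.1 (hsub he)
    exact Finset.mem_product.2 ⟨hA a1, a2⟩
  refine le_trans (Finset.sum_le_sum fun e he => ?_)
    (Finset.sum_le_sum_of_subset_of_nonneg hsub2 fun e _ _ => lL_nonneg hW hm hH hV h.c0 _)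
  obtain ⟨a1, a2⟩ := Finset.mem_product.1 (hsub he)
  have hq : e.1 = q := Finset.mem_singleton.1 (hA a1)
  have he' : e = (q, e.2) := Prod.ext hq rfl
  rw [hq] at a1
  rw [he'] at he ⊢
  have h1 := hpair e.2 a2 a1 he
  have hcf : fl D (Ro (D.rho s.l)) (tp s.t) (q, e.2) = 1 := by
    unfold fl
    rw [if_neg]
    intro hcl
    obtain ⟨j, j', hR, -, -, hj, hj', -⟩ := Par.PE_ex h.M0 h.M0' he
    rw [Finset.mem_sdiff] at hR
    exact hR.2 (hcl j j' hj hj' hR.1)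
  unfold lL
  rw [if_pos hc, hcf, one_mul]
  exact h1

/-! ### the value at the start -/

/-- **one pair** -/
theorem PhL_le (hW : ∀ r, 0 ≤ W r) (hm : 0 ≤ m) (hH : ∀ k, 0 ≤ H k)
    {V₀ : ℝ × ℝ → ℕ × ℕ → ℝ} (hV : ∀ s e, 0 ≤ V₀ s e) {s : LSt}
    (h : LOk D Al sp Qp Jp v q A' s) {r : ℕ} {E N Lm : ℝ} (hE : 0 ≤ E) (hN : 0 ≤ N)
    (hlam : lam s.t r ≤ Lm)
    (h1 : H (rg (tp s.t)) + ∑ l ∈ mb mtt (tp s.t) q, H (rg l) + ∑ l ∈ mb mtt (tp s.t) r, H (rg l) +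
      ∑ k ∈ Finset.range (rg (tp s.t)), H k ≤ E)
    (h2 : 1 + ((mb mtt (tp s.t) q).card : ℝ) + (mb mtt (tp s.t) r).card + rg (tp s.t) ≤ N) :
    PhL D mtt rg W v q m H (fun _ => V₀) s r ≤
      Lm * (E * (m * (s.u.c * W r)) +
        N * ((v.B : ℝ) * s.u.B * V₀ (SE s.M v.B v.A s.M' s.u.B s.u.A (q, r)) (q, r))) := by
  have hX := XL_nonneg (v := v) (q := q) (V := fun _ => V₀) hW hm hH (fun _ => hV) h.c0 r
  have l0 := lam_one h.y.ok r
  have hv := hV (SE s.M v.B v.A s.M' s.u.B s.u.A (q, r)) (q, r)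
  have hmw : 0 ≤ m * (s.u.c * W r) := mul_nonneg hm (mul_nonneg h.c0 (hW r))
  have hbb : 0 ≤ (v.B : ℝ) * s.u.B * V₀ (SE s.M v.B v.A s.M' s.u.B s.u.A (q, r)) (q, r) := by
    positivity
  have c1 := mul_le_mul_of_nonneg_right (fl_le_one (D := D) (Ro (D.rho s.l)) (tp s.t) (q, r))
    (hX (rg (tp s.t)))
  have e1 : XL W v q m H (fun _ => V₀) s r (rg (tp s.t)) +
      fut mtt rg (XL W v q m H (fun _ => V₀) s r) (tp s.t) (q, r) =
      (H (rg (tp s.t)) + ∑ l ∈ mb mtt (tp s.t) q, H (rg l) + ∑ l ∈ mb mtt (tp s.t) r, H (rg l) +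
        ∑ k ∈ Finset.range (rg (tp s.t)), H k) * (m * (s.u.c * W r)) +
      (1 + ((mb mtt (tp s.t) q).card : ℝ) + (mb mtt (tp s.t) r).card + rg (tp s.t)) *
        ((v.B : ℝ) * s.u.B * V₀ (SE s.M v.B v.A s.M' s.u.B s.u.A (q, r)) (q, r)) := by
    unfold fut XL
    simp only [Finset.sum_add_distrib, Finset.sum_const, Finset.card_range, nsmul_eq_mul]
    rw [← Finset.mul_sum, ← Finset.mul_sum, ← Finset.mul_sum]
    ring
  have e2 := mul_le_mul_of_nonneg_right h1 hmw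
  have e3 := mul_le_mul_of_nonneg_right h2 hbb
  have hs : 0 ≤ E * (m * (s.u.c * W r)) +
      N * ((v.B : ℝ) * s.u.B * V₀ (SE s.M v.B v.A s.M' s.u.B s.u.A (q, r)) (q, r)) :=
    add_nonneg (mul_nonneg hE hmw) (mul_nonneg hN hbb)
  have key : fl D (Ro (D.rho s.l)) (tp s.t) (q, r) * XL W v q m H (fun _ => V₀) s r (rg (tp s.t)) +
      fut mtt rg (XL W v q m H (fun _ => V₀) s r) (tp s.t) (q, r) ≤
      E * (m * (s.u.c * W r)) +
      N * ((v.B : ℝ) * s.u.B * V₀ (SE s.M v.B v.A s.M' s.u.B s.u.A (q, r)) (q, r)) := by linarith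
  unfold PhL
  exact mul_le_mul hlam key (add_nonneg (mul_nonneg (fl_nonneg _ _ _) (hX _)) (fut_nonneg hX _ _))
    (by linarith)

/-- **all the pairs of the leaf item** -/
theorem sum_PhL_le (hW : ∀ r, 0 ≤ W r) (hm : 0 ≤ m) (hH : ∀ k, 0 ≤ H k)
    {V₀ : ℝ × ℝ → ℕ × ℕ → ℝ} (hV : ∀ s e, 0 ≤ V₀ s e) {s : LSt}
    (h : LOk D Al sp Qp Jp v q A' s) {E N Lm : ℝ} (hE : 0 ≤ E) (hN : 0 ≤ N) (hLm : 0 ≤ Lm)
    (hlam : ∀ r ∈ Qi D Al s.t A', lam s.t r ≤ Lm)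
    (h1 : ∀ r ∈ Qi D Al s.t A', H (rg (tp s.t)) + ∑ l ∈ mb mtt (tp s.t) q, H (rg l) +
      ∑ l ∈ mb mtt (tp s.t) r, H (rg l) + ∑ k ∈ Finset.range (rg (tp s.t)), H k ≤ E)
    (h2 : ∀ r ∈ Qi D Al s.t A',
      1 + ((mb mtt (tp s.t) q).card : ℝ) + (mb mtt (tp s.t) r).card + rg (tp s.t) ≤ N) :
    ∑ r ∈ Qi D Al s.t A', PhL D mtt rg W v q m H (fun _ => V₀) s r ≤
      Lm * (E * (m * (s.u.c * Ws W s.t.items)) +
        N * ∑ r ∈ Qi D Al s.t A',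
          (v.B : ℝ) * s.u.B * V₀ (SE s.M v.B v.A s.M' s.u.B s.u.A (q, r)) (q, r)) := by
  refine (Finset.sum_le_sum fun r hr => PhL_le (mtt := mtt) (rg := rg) hW hm hH hV h hE hN
    (hlam r hr) (h1 r hr) (h2 r hr)).trans ?_
  rw [← Finset.mul_sum, Finset.sum_add_distrib, ← Finset.mul_sum, ← Finset.mul_sum,
    ← Finset.mul_sum, ← Finset.mul_sum]
  refine mul_le_mul_of_nonneg_left (add_le_add ?_ le_rfl) hLm
  refine mul_le_mul_of_nonneg_left (mul_le_mul_of_nonneg_left (mul_le_mul_of_nonneg_left ?_ h.c0)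
    hm) hE
  unfold Ws
  exact Finset.sum_le_sum_of_subset_of_nonneg (fun r hr => Qi_items hr) fun r _ _ => hW r

end sup

end Crest.Agent.R4P.LeafMg30
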