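import Crest.Agent.R4P.IvX_29
import Crest.Agent.R4P.LeafMg_30
import Crest.Agent.R4P.TBLeaf_28

/-!
R4 (S0004) with powers, module D, helper29: **the last column and the predicate `LkG` along the leaf walk**.

* `LCL s` : `s.l` prime, the columns of the right side are `≤ s.l`; `LCL.next` along the moves;
* `LCL.lkg` : the pairs which count at a state; `LCL.miss`, `LCL.exit` : near misses and exits of a column.
-/

set_option autoImplicit false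
set_option linter.unusedSectionVars false
set_option linter.unusedVariables false
open Finset

namespace Crest.Agent.R4P.LeafIx29

open Crest.Agent.R4.HVW560 Crest.Agent.R4P.AvgItem710
open Crest.Agent.R4.Tour104 Crest.Agent.R4.Tour758 Crest.Agent.R4.Avg758 Crest.Agent.R4.Clos758
open Crest.Agent.R4.ClosL758 Crest.Agent.R4.ClosG758 Crest.Agent.R4.ClosR758
open Crest.Agent.R4.Fam464 Crest.Agent.R4P.Cnt588 Crest.Agent.R4P.Walk560 Crest.Agent.R4P.Item758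
open Crest.Agent.R4P.Bld532 (NS All NodeOk Bk dv nd mem_dv mem_nd)
open Crest.Agent.R4P.GSt927 Crest.Agent.R4P.WalkIT579 Crest.Agent.R4P.NMW710
open Crest.Agent.R4P.CrossLoc25 Crest.Agent.R4P.CrossLocC25 Crest.Agent.R4P.WalkC
open Crest.Agent.R4P.CyC25 Crest.Agent.R4P.YI25
open Crest.Agent.R4P.BlksP29 Crest.Agent.R4P.GlueP29 Crest.Agent.R4P.IvX29
open Crest.Agent.R4P.LeafM27 Crest.Agent.R4P.LeafMg30

variable {Λ κ : Type*} [Fintype Λ] [DecidableEq Λ] [Fintype κ] [DecidableEq κ] [WRel κ]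
  {D : Par Λ κ} {sp : ℕ → Finset Λ} {P : Bld532.Par} {W : ℕ → ℝ} {Qp : NS → IT → Prop}
  {Al : Finset ℕ} {RP : Finset (Λ × Λ) → Prop} {Jp : ℕ × ℝ → ℕ × ℝ → ℕ × ℕ → Prop} {v : NS}
  {Sl : Finset ℕ} {q : ℕ} {A' : Finset Λ}

/-- **the last column of a state of the leaf walk** -/
def LCL (s : LSt) : Prop := s.l.Prime ∧ WalkIT579.tp s.t ≤ s.l

/-- **along the moves** -/
theorem LCL.next (hh : YH D sp P W Qp) {a : ℕ} {w : ℝ} {s s₂ : LSt} (hm : LMv a q w s s₂)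
    (hk : LOk D Al sp Qp Jp v q A' s) (h : LCL s) : LCL s₂ := by
  obtain ⟨h1, h2⟩ := LMv.rel hm hk.y.ok
  rcases h2 with ⟨h3, h4⟩ | ⟨-, h4⟩
  · have hl : ¬ isL s.t := by
      obtain ⟨S, t₁, t₀, e, -⟩ := h3
      rw [e]
      exact fun h => h
    refine ⟨?_, ?_⟩
    · rw [h4]
      exact (top_of_nodeOk (hh.nd _ _ hk.y.q.self) hl).1
    · rw [h4]
      exact h1
  · refine ⟨?_, ?_⟩
    · rw [h4]
      exact h.1
    · rw [h4]
      exact h1.trans h.2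

/-- **start** : a state of the cross walk with a leaf on the left -/
theorem LC.leaf {s : St Λ κ} {u u' : NS} {τ τ' : IT} (h : LC D s)
    (hy : YI D sp Qp RP s u u' τ τ') :
    ∃ l : ℕ, s.R = Ro (D.rho l) ∧ s.p ≤ l ∧ LCL ⟨s.M, s.M', l, u', τ'⟩ ∧
      LCL ⟨s.M', s.M, l, u, τ⟩ := by
  obtain ⟨l, h1, h2, h3⟩ := h
  obtain ⟨t1, t2⟩ := tp_le_p hy
  exact ⟨l, h1, h3, ⟨h2, t2.trans h3⟩, ⟨h2, t1.trans h3⟩⟩

/-- the leaf side seen from any column -/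
lemma GS_leaf {l M : ℕ} (hM : 0 < M) (hb : 0 < v.B) (hF : Fit v.B v.A (.leaf Sl))
    (hW : D.Wts v.A (.leaf Sl)) (hq : All Qp v (.leaf Sl)) (hok : (IT.leaf Sl).Ok v.n)
    (hi : q ∈ Sl) : GS D Qp l M v (.leaf Sl) 1 q where
  M0 := hM
  b0 := hb
  F := hF
  W := hW
  hc := Or.inl rfl
  all := hq
  ok := hok
  it := hi
  nx := by
    intro l' h
    simp [IT.mt] at h

/-- the right side of a state -/
lemma LCL.right {s : LSt} (hk : LOk D Al sp Qp Jp v q A' s) (h : LCL s) {r : ℕ}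
    (hr : r ∈ s.t.items) : GS D Qp s.l s.M' s.u s.t 1 r where
  M0 := hk.M0'
  b0 := hk.y.S.hb
  F := hk.y.S.hF
  W := hk.y.S.hW
  hc := Or.inl rfl
  all := hk.y.q
  ok := hk.y.ok
  it := hr
  nx := fun l' hl' => (mt_le_tp hk.y.ok hl').trans h.2

/-- the missing part at a column -/
lemma GS_miss {p M' : ℕ} {u : NS} {S : Finset ℕ} {t₁ t₀ : IT} {d : DT Λ κ}
    (h : SY D sp Qp u (.br p S t₁ t₀) A' d) (hM : 0 < M') {c r : ℕ} (hc : c = 1 ∨ c = p)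
    (hr : r ∈ t₀.items) : GS D Qp p M' ⟨p, u.c * p, u.A, u.B * p⟩ t₀ c r where
  M0 := hM
  b0 := h.S.br₀.hb
  F := h.S.br₀.hF
  W := h.S.br₀.hW
  hc := hc.imp id fun h => ⟨h, h ▸ Dvd.intro_left u.B rfl⟩
  all := h.q.2.2
  ok := h.ok.2.2.2.2.2
  it := hr
  nx := fun l' hl' => (BldF542.mt_lt _ _ h.ok.2.2.2.2.2 _ _ hl').2.le

/-- items of a pair which counts -/
lemma PE_items {R : Finset (Λ × Λ)} {M b pr c M' b' pr' c' : ℕ} {t t' : IT} {A A₂ : Finset Λ}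
    {e : ℕ × ℕ} (hM : 0 < M) (hM' : 0 < M')
    (h : e ∈ D.PE R (D.uA M b pr t A c) (D.uA M' b' pr' t' A₂ c')) :
    e.1 ∈ t.items ∧ e.2 ∈ t'.items := by
  obtain ⟨j, j', -, -, -, -, -, i1, i2, -⟩ := Par.PE_ex hM hM' h
  exact ⟨i1, i2⟩

/-- data of the leaf of the walk -/
structure LD (D : Par Λ κ) (Qp : NS → IT → Prop) (v : NS) (Sl : Finset ℕ) : Prop where
  b0 : 0 < v.B
  F : Fit v.B v.A (.leaf Sl)
  W : D.Wts v.A (.leaf Sl)
  all : All Qp v (.leaf Sl)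
  ok : (IT.leaf Sl).Ok v.n

/-- **the pairs which count at a state** -/
theorem LCL.lkg (hl : LD D Qp v Sl) {s : LSt} (hk : LOk D Al sp Qp Jp v q A' s) (h : LCL s)
    {A : Finset Λ} {R : Finset (Λ × Λ)} (hR : R ⊆ Ro (D.rho s.l)) {e : ℕ × ℕ}
    (hPE : e ∈ D.PE R (D.uA s.M v.B v.A (.leaf Sl) A 1) (D.uA s.M' s.u.B s.u.A s.t A' 1)) :
    LkG D Qp (SE s.M v.B v.A s.M' s.u.B s.u.A e) s.l e := by
  obtain ⟨i1, i2⟩ := PE_items hk.M0 hk.M0' hPE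
  refine ⟨s.M, v, .leaf Sl, A, 1, s.M', s.u, s.t, A', 1,
    GS_leaf hk.M0 hl.b0 hl.F hl.W hl.all hl.ok i1, h.right hk i2, ?_, ?_, ?_⟩
  · simp only [Nat.div_one]
    exact hk.circ
  · simp only [Nat.div_one]
  · obtain ⟨j, j', g1, g2, g3, g4⟩ := Par.mem_PE.1 hPE
    exact Par.mem_PE.2 ⟨j, j', hR g1, g2, g3, g4⟩

section col
variable {M M' l p : ℕ} {u : NS} {S : Finset ℕ} {t₁ t₀ : IT}

/-- **near misses of a column** -/
theorem LCL.miss (hl : LD D Qp v Sl)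
    (hk : LOk D Al sp Qp Jp v q A' ⟨M, M', l, u, .br p S t₁ t₀⟩) {A : Finset Λ} {e : ℕ × ℕ}
    (hPE : e ∈ D.PE (Ro (D.rho p)) (D.uA M v.B v.A (.leaf Sl) A 1)
      (D.uA M' (u.B * p) u.A t₀ A' p)) :
    LkG D Qp (SE M v.B v.A M' u.B u.A e) p e := by
  have hpp : p.Prime := hk.y.S.hF.1
  obtain ⟨i1, i2⟩ := PE_items hk.M0 hk.M0' hPE
  have hc := hk.circ
  simp only at hc
  have e1 : (⟨p, u.c * p, u.A, u.B * p⟩ : NS).B / p = u.B := Nat.mul_div_cancel _ hpp.pos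
  refine ⟨M, v, .leaf Sl, A, 1, M', ⟨p, u.c * p, u.A, u.B * p⟩, t₀, A', p,
    GS_leaf hk.M0 hl.b0 hl.F hl.W hl.all hl.ok i1, GS_miss hk.y hk.M0' (Or.inr rfl) i2, ?_, ?_,
    hPE⟩
  · rw [e1, Nat.div_one]
    exact hc
  · rw [e1, Nat.div_one]

/-- **exits of a column** -/
theorem LCL.exit (hl : LD D Qp v Sl)
    (hk : LOk D Al sp Qp Jp v q A' ⟨M, M', l, u, .br p S t₁ t₀⟩) {A : Finset Λ} {e : ℕ × ℕ}
    (hPE : e ∈ D.PE (Ro (D.rho p)) (D.uA (p * M) v.B v.A (.leaf Sl) A 1)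
      (D.uA M' (u.B * p) u.A t₀ A' 1)) :
    LkG D Qp (SE (p * M) v.B v.A M' (u.B * p) u.A e) p e ∧
      (p ∣ UI M v.A e.1 → LkG D Qp (SE M v.B v.A M' u.B u.A e) p e) ∧
      (¬ p ∣ UI M v.A e.1 → LkG D Qp (p * (SE M v.B v.A M' u.B u.A e).1,
        p * (SE M v.B v.A M' u.B u.A e).2) p e) := by
  have hpp : p.Prime := hk.y.S.hF.1
  have hM0 : 0 < M := hk.M0
  have hM0' : 0 < M' := hk.M0'
  have hM2 : 0 < p * M := Nat.mul_pos hpp.pos hM0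
  obtain ⟨i1, i2⟩ := PE_items hM2 hM0' hPE
  have hc := hk.circ
  simp only at hc
  have key : LkG D Qp (SE (p * M) v.B v.A M' (u.B * p) u.A e) p e := by
    refine ⟨p * M, v, .leaf Sl, A, 1, M', ⟨p, u.c * p, u.A, u.B * p⟩, t₀, A', 1,
      GS_leaf hM2 hl.b0 hl.F hl.W hl.all hl.ok i1, GS_miss hk.y hM0' (Or.inl rfl) i2, ?_, ?_,
      hPE⟩
    · simp only [Nat.div_one]
      calc v.A * v.B * (p * M) = p * (v.A * v.B * M) := by ring
        _ = p * (u.A * u.B * M') := by rw [hc]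
        _ = u.A * (u.B * p) * M' := by ring
    · simp only [Nat.div_one]
  have hnd : ¬ p ∣ e.2 / u.A := by
    obtain ⟨-, -, h3⟩ := (Fit.item hk.y.S.hF.2.2.2.2) _ i2
    intro hd
    have h4 := Nat.dvd_gcd hd (Dvd.intro_left u.B rfl : p ∣ u.B * p)
    rw [Nat.Coprime.gcd_eq_one h3] at h4
    exact hpp.one_lt.ne' (Nat.dvd_one.1 h4)
  have hmv : SMv p false M' u.B u.A M' (u.B * p) u.A e.2 := smv_missing hnd
  obtain ⟨q0, q1, -⟩ := hl.F.item _ i1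
  have w0 : 0 < e.1 / v.A := Nat.div_pos (Nat.le_of_dvd q0 q1) (Nat.pos_of_dvd_of_pos q1 q0)
  refine ⟨key, fun hd => ?_, fun hd => ?_⟩
  · rw [SE_inv hpp (smv_avg_drop hpp hM0 w0 hd) hmv (Or.inl rfl)] at key
    exact key
  · rw [SE_raise (smv_avg_raise hpp hM0 hd) hmv] at key
    exact key
end col

end Crest.Agent.R4P.LeafIx29
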