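import Crest.Agent.R4P.LeafT_27

/-!
R4P (S0004), helper27, module D, group [X]: **the leaf walk, merges and the sum over the items of the leaf**.

* `WMF_le` : the merges against a pair supersolution;
* `item_le` : one leaf item: `En ≤ (C₀ + 2) Θ m_q ν + Σ_r (Φ_r + Ψ_r)`;
* `Q_items` : the energy of a population of a leaf is the sum over its items.
-/

set_option autoImplicit false
set_option linter.unusedSectionVars false
set_option linter.unusedVariables false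
open Finset

namespace Crest.Agent.R4P.LeafW27

open Crest.Agent.R4.HVW560 Crest.Agent.R4P.AvgItem710
open Crest.Agent.R4.Tour104 Crest.Agent.R4.Tour758 Crest.Agent.R4.Avg758 Crest.Agent.R4.Clos758
open Crest.Agent.R4.ClosL758 Crest.Agent.R4.ClosG758 Crest.Agent.R4.ClosR758
open Crest.Agent.R4P.Cnt588 Crest.Agent.R4P.Walk560 Crest.Agent.R4P.Item758
open Crest.Agent.R4P.Bld532 (NS All NodeOk Bk dv nd mem_dv mem_nd)
open Crest.Agent.R4P.GSt927 Crest.Agent.R4P.WalkIT579 Crest.Agent.R4P.NMW710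
open Crest.Agent.R4P.CrossLoc25 Crest.Agent.R4P.CrossLocC25 Crest.Agent.R4P.YI25
open Crest.Agent.R4P.LeafCol27 Crest.Agent.R4P.LeafM27 Crest.Agent.R4P.LeafT27

variable {Λ κ : Type*} [Fintype Λ] [DecidableEq Λ] [Fintype κ] [DecidableEq κ] [WRel κ]
variable {D : Par Λ κ} {sp : ℕ → Finset Λ} {P : Bld532.Par} {W : ℕ → ℝ} {Qp : NS → IT → Prop}
  {Al : Finset ℕ} {Jp : ℕ × ℝ → ℕ × ℝ → ℕ × ℕ → Prop} {v : NS} {Sl : Finset ℕ} {q : ℕ}
  {A' : Finset Λ}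

/-! ### empty populations -/

lemma uA_empty (M b pr : ℕ) (t : IT) (c : ℕ) (j : Λ) (y : ℝ) :
    D.uA M b pr t ∅ c j y = 0 := by
  unfold Par.uA
  simp [avg, rv, Crest.Agent.R4.Tour104.Ep]

lemma Q_empty (M b pr : ℕ) (t : IT) (c : ℕ) (R : Finset (Λ × Λ)) (G : Λ → ℝ → ℝ) :
    Q R (D.uA M b pr t ∅ c) G = 0 := by
  unfold Q
  refine Finset.sum_eq_zero fun e _ => ?_
  have : (fun x => D.uA M b pr t ∅ c e.1 x * G e.2 x) = fun _ => 0 := by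
    funext x
    rw [uA_empty, zero_mul]
  rw [this]
  simp [I]

theorem WMF_empty : ∀ (t : IT) (M M' l : ℕ) (u : NS), WMF D v Sl A' t ∅ M M' l u = 0 := by
  intro t
  induction t with
  | leaf S => intro M M' l u; exact WMF_leaf _ _ _ _ _ _
  | br p S t₁ t₀ ih₁ ih₀ =>
    intro M M' l u
    by_cases hd : p ∣ M'
    · rcases Nat.eq_zero_or_pos p with rfl | hp
      · unfold WMF
        rw [if_pos hd, ih₁, ih₀]; ring
      · obtain ⟨M₂, rfl⟩ := hd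
        rw [WMF_free hp, ih₁, ih₀]; ring
    · rw [WMF_br hd, Finset.filter_empty, ih₁, ih₀, Q_empty]; ring
  | add p t₁ t₀ ih₁ ih₀ => intro M M' l u; rw [WMF_add, ih₁, ih₀]; ring
  | up p S t ih => intro M M' l u; rw [WMF_up, ih]
  | pl p t ih =>
    intro M M' l u
    by_cases hd : p ∣ M'
    · rcases Nat.eq_zero_or_pos p with rfl | hp
      · unfold WMF
        rw [if_pos hd, ih]
      · obtain ⟨M₂, rfl⟩ := hd
        rw [WMF_plf hp, ih]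
    · rw [WMF_pl _ _ _ _ _ _ hd, ih]
  | far p t₁ t₀ ih₁ ih₀ => intro M M' l u; rw [WMF_far, ih₁, ih₀]; ring

/-- **the hypotheses on the merges**: `lc` = payment of a pair at a column, `Ψ` = its potential -/
structure MgH (D : Par Λ κ) (Al : Finset ℕ) (sp : ℕ → Finset Λ) (Qp : NS → IT → Prop)
    (Jp : ℕ × ℝ → ℕ × ℝ → ℕ × ℕ → Prop) (v : NS) (Sl : Finset ℕ) (q : ℕ) (A A' : Finset Λ)
    (lc Ψ : LSt → ℕ → ℝ) (Jx : LSt → Prop) : Prop where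
  l0 : ∀ s, LOk D Al sp Qp Jp v q A' s → Jx s → ∀ r ∈ Qi D Al s.t A', 0 ≤ lc s r
  le : ∀ s, LOk D Al sp Qp Jp v q A' s → Jx s → ∀ r ∈ Qi D Al s.t A', lc s r ≤ Ψ s r
  step : ∀ w s s₂, LMv v.A q w s s₂ → LOk D Al sp Qp Jp v q A' s → Jx s →
    ∀ r ∈ Qi D Al s₂.t A', lc s r + w * Ψ s₂ r ≤ Ψ s r
  mg : ∀ (s : LSt) (p : ℕ) (S : Finset ℕ) (t₁ t₀ : IT), s.t = .br p S t₁ t₀ →
    LOk D Al sp Qp Jp v q A' s → Jx s → ¬ p ∣ s.M' →
    Q (Ro (D.rho s.l) \ Ro (D.rho p)) (D.uA s.M v.B v.A (.leaf Sl) A 1)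
      (D.uA s.M' s.u.B s.u.A s.t A' 1) ≤ ∑ r ∈ Qi D Al s.t A', lc s r

section mg
variable {A : Finset Λ} {Θ : ℕ → ℝ} {C₀ mq : ℝ} {Φ lc Ψ : LSt → ℕ → ℝ} {Jx : LSt → Prop}
  {Oy : ℕ → ℕ → Prop}

lemma MgH.nn (G : MgH D Al sp Qp Jp v Sl q A A' lc Ψ Jx) {s : LSt}
    (h : LOk D Al sp Qp Jp v q A' s) (hx : Jx s) : ∀ r ∈ Qi D Al s.t A', 0 ≤ Ψ s r :=
  fun r hr => (G.l0 s h hx r hr).trans (G.le s h hx r hr)

/-- one child of weight one -/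
lemma MgH.one (G : MgH D Al sp Qp Jp v Sl q A A' lc Ψ Jx) {s s₂ : LSt} {X : ℝ}
    (h : LOk D Al sp Qp Jp v q A' s) (hx : Jx s) (c : LMv v.A q 1 s s₂)
    (k : LChd D Al sp Qp Jp v Sl q A' 1 s s₂) (hX : X ≤ ∑ r ∈ Qi D Al s₂.t A', Ψ s₂ r) :
    X ≤ ∑ r ∈ Qi D Al s.t A', Ψ s r := by
  refine hX.trans (sum_one k.sub (G.nn h hx) fun r hr => ?_)
  have h1 := G.step _ _ _ c h hx r hr
  have h2 := G.l0 s h hx r (k.sub hr)
  linarith

/-- two children -/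
lemma MgH.two (G : MgH D Al sp Qp Jp v Sl q A A' lc Ψ Jx) {s s₁ s₀ : LSt} {w₁ w₀ X₁ X₀ Z : ℝ}
    (h : LOk D Al sp Qp Jp v q A' s) (hx : Jx s)
    (c₁ : LMv v.A q w₁ s s₁) (c₀ : LMv v.A q w₀ s s₀)
    (k₁ : LChd D Al sp Qp Jp v Sl q A' w₁ s s₁) (k₀ : LChd D Al sp Qp Jp v Sl q A' w₀ s s₀)
    (hd : Disjoint s₁.t.items s₀.t.items)
    (hw₁ : 0 ≤ w₁) (hw₀ : 0 ≤ w₀) (hu : s.t.items = s₁.t.items ∪ s₀.t.items)
    (hZ : Z ≤ ∑ r ∈ Qi D Al s.t A', lc s r)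
    (h₁ : X₁ ≤ ∑ r ∈ Qi D Al s₁.t A', Ψ s₁ r) (h₀ : X₀ ≤ ∑ r ∈ Qi D Al s₀.t A', Ψ s₀ r) :
    Z + (w₁ * X₁ + w₀ * X₀) ≤ ∑ r ∈ Qi D Al s.t A', Ψ s r := by
  have e : Qi D Al s.t A' = Qi D Al s₁.t A' ∪ Qi D Al s₀.t A' := by
    unfold Qi
    rw [← Finset.image_union, ← Finset.filter_or]
    congr 1
    refine Finset.filter_congr fun j _ => ?_
    rw [hu, Finset.mem_union]
    tauto
  have b1 := G.step _ _ _ c₁ h hx
  have b0 := G.step _ _ _ c₀ h hx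
  have m1 := mul_le_mul_of_nonneg_left h₁ hw₁
  have m0 := mul_le_mul_of_nonneg_left h₀ hw₀
  rw [Finset.mul_sum] at m1 m0
  rw [e, Finset.sum_union (Qi_disj hd)] at hZ ⊢
  have s1 : ∑ r ∈ Qi D Al s₁.t A', lc s r + ∑ r ∈ Qi D Al s₁.t A', w₁ * Ψ s₁ r ≤
      ∑ r ∈ Qi D Al s₁.t A', Ψ s r := by
    rw [← Finset.sum_add_distrib]
    exact Finset.sum_le_sum fun r hr => b1 r hr
  have s0 : ∑ r ∈ Qi D Al s₀.t A', lc s r + ∑ r ∈ Qi D Al s₀.t A', w₀ * Ψ s₀ r ≤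
      ∑ r ∈ Qi D Al s₀.t A', Ψ s r := by
    rw [← Finset.sum_add_distrib]
    exact Finset.sum_le_sum fun r hr => b0 r hr
  linarith

/-- one continuing child of two -/
lemma MgH.nd (G : MgH D Al sp Qp Jp v Sl q A A' lc Ψ Jx) {s s₁ : LSt} {t₀ : IT} {w₁ X₁ Z : ℝ}
    (h : LOk D Al sp Qp Jp v q A' s) (hx : Jx s)
    (c₁ : LMv v.A q w₁ s s₁) (k₁ : LChd D Al sp Qp Jp v Sl q A' w₁ s s₁)
    (hd : Disjoint s₁.t.items t₀.items) (hw₁ : 0 ≤ w₁) (hu : s.t.items = s₁.t.items ∪ t₀.items)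
    (hZ : Z ≤ ∑ r ∈ Qi D Al s.t A', lc s r) (h₁ : X₁ ≤ ∑ r ∈ Qi D Al s₁.t A', Ψ s₁ r) :
    Z + w₁ * X₁ ≤ ∑ r ∈ Qi D Al s.t A', Ψ s r := by
  have e : Qi D Al s.t A' = Qi D Al s₁.t A' ∪ Qi D Al t₀ A' := by
    unfold Qi
    rw [← Finset.image_union, ← Finset.filter_or]
    congr 1
    refine Finset.filter_congr fun j _ => ?_
    rw [hu, Finset.mem_union]
    tauto
  have b1 := G.step _ _ _ c₁ h hx
  have m1 := mul_le_mul_of_nonneg_left h₁ hw₁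
  have b0 := G.le s h hx
  rw [Finset.mul_sum] at m1
  rw [e] at b0
  rw [e, Finset.sum_union (Qi_disj hd)] at hZ ⊢
  have s1 : ∑ r ∈ Qi D Al s₁.t A', lc s r + ∑ r ∈ Qi D Al s₁.t A', w₁ * Ψ s₁ r ≤
      ∑ r ∈ Qi D Al s₁.t A', Ψ s r := by
    rw [← Finset.sum_add_distrib]
    exact Finset.sum_le_sum fun r hr => b1 r hr
  have s0 : ∑ r ∈ Qi D Al t₀ A', lc s r ≤ ∑ r ∈ Qi D Al t₀ A', Ψ s r :=
    Finset.sum_le_sum fun r hr => b0 r (Finset.mem_union_right _ hr)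
  linarith

/-- **THE MERGES AGAINST A PAIR SUPERSOLUTION** -/
theorem WMF_le (G : MgH D Al sp Qp Jp v Sl q A A' lc Ψ Jx) (hh : YH D sp P W Qp)
    (hJ : ∀ (p : ℕ) (i i' : Bool) (a a' c c' : ℕ × ℝ) (e : ℕ × ℕ), p.Prime → Mv p i a c →
      Mv p i' a' c' → (i = true ∨ i' = true) → Jp a a' e → Jp c c' e) (hq : 0 < q / v.A)
    (hA : ∀ j ∈ A, D.it j = q)
    (hJx : ∀ w s s₂, LMv v.A q w s s₂ → LOk D Al sp Qp Jp v q A' s → Jx s → Jx s₂) :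
    ∀ (t : IT) (M M' l : ℕ) (u : NS), LOk D Al sp Qp Jp v q A' ⟨M, M', l, u, t⟩ →
      Jx ⟨M, M', l, u, t⟩ →
      WMF D v Sl A' t A M M' l u ≤ ∑ r ∈ Qi D Al t A', Ψ ⟨M, M', l, u, t⟩ r := by
  have key : ∀ {s s₂ : LSt} {w : ℝ}, LMv v.A q w s s₂ → LOk D Al sp Qp Jp v q A' s →
      LChd D Al sp Qp Jp v Sl q A' w s s₂ := fun c h => c.chd (Sl := Sl) hh hJ hq h
  intro t
  induction t with
  | leaf S =>
    intro M M' l u h hx
    rw [WMF_leaf]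
    exact Finset.sum_nonneg fun r hr => G.nn h hx r hr
  | br p S t₁ t₀ ih₁ ih₀ =>
    intro M M' l u h hx
    have hp : p.Prime := h.y.S.hF.1
    have hdis : Disjoint t₁.items t₀.items := h.y.ok.2.2.1
    obtain ⟨w1, w2, w3, w4⟩ := inv_le hp
    by_cases hd : p ∣ M'
    · obtain ⟨M₂, rfl⟩ := hd
      rw [WMF_free hp.pos]
      have c1 : LMv v.A q (1 - 1 / (p : ℝ)) ⟨M, p * M₂, l, u, .br p S t₁ t₀⟩
        ⟨M, M₂, l, uP p u, t₁⟩ := .fr1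
      have c0 : LMv v.A q (1 / (p : ℝ)) ⟨M, p * M₂, l, u, .br p S t₁ t₀⟩
        ⟨M, M₂, l, uM p u, t₀⟩ := .fr0
      have k1 := key c1 h
      have k0 := key c0 h
      have r1 := ih₁ _ _ _ _ k1.ok (hJx _ _ _ c1 h hx)
      have r0 := ih₀ _ _ _ _ k0.ok (hJx _ _ _ c0 h hx)
      have := G.two h hx c1 c0 k1 k0 hdis w2.le w1.le rfl
        (Finset.sum_nonneg fun r hr => G.l0 _ h hx r hr) r1 r0
      rwa [zero_add] at this
    · rw [WMF_br hd]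
      have hmg := G.mg _ p S t₁ t₀ rfl h hx hd
      by_cases hu : p ∣ UI M v.A q
      · have c1 : LMv v.A q (1 - 1 / (p : ℝ)) ⟨M, M', l, u, .br p S t₁ t₀⟩
          ⟨p * M, M', p, uP p u, t₁⟩ := .dv1 hd hu
        have c0 : LMv v.A q (1 / (p : ℝ) * (1 + 1 / ((p : ℝ) - 1))) ⟨M, M', l, u, .br p S t₁ t₀⟩
          ⟨p * M, M', p, uM p u, t₀⟩ := .dv0 hd hu
        have k1 := key c1 h
        have k0 := key c0 h
        have r1 := ih₁ _ _ _ _ k1.ok (hJx _ _ _ c1 h hx)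
        have r0 := ih₀ _ _ _ _ k0.ok (hJx _ _ _ c0 h hx)
        have hfil : (A.filter fun j => p ∣ UI M v.A (D.it j)) = A :=
          Finset.filter_true_of_mem fun j hj => by rw [hA j hj]; exact hu
        rw [hfil]
        have z := G.two h hx c1 c0 k1 k0 hdis w2.le (w_nn hp) rfl hmg r1 r0
        exact z
      · have c1 : LMv v.A q (1 - 1 / (p : ℝ)) ⟨M, M', l, u, .br p S t₁ t₀⟩
          ⟨p * M, M', p, uP p u, t₁⟩ := .nd1 hd hu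
        have k1 := key c1 h
        have r1 := ih₁ _ _ _ _ k1.ok (hJx _ _ _ c1 h hx)
        have hfil : (A.filter fun j => p ∣ UI M v.A (D.it j)) = ∅ :=
          Finset.filter_false_of_mem fun j hj => by rw [hA j hj]; exact hu
        rw [hfil, WMF_empty, mul_zero, add_zero]
        have z := G.nd h hx c1 k1 hdis w2.le rfl hmg r1
        exact z
  | add p t₁ t₀ ih₁ ih₀ =>
    intro M M' l u h hx
    have hdis : Disjoint t₁.items t₀.items := h.y.ok.2.2.1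
    rw [WMF_add]
    have c1 : LMv v.A q 1 ⟨M, M', l, u, .add p t₁ t₀⟩ ⟨M, M', l, uA₁ p u, t₁⟩ := .ad1
    have c0 : LMv v.A q 1 ⟨M, M', l, u, .add p t₁ t₀⟩ ⟨M, M', l, uA₁ p u, t₀⟩ := .ad0
    have k1 := key c1 h
    have k0 := key c0 h
    have r1 := ih₁ _ _ _ _ k1.ok (hJx _ _ _ c1 h hx)
    have r0 := ih₀ _ _ _ _ k0.ok (hJx _ _ _ c0 h hx)
    have := G.two h hx c1 c0 k1 k0 hdis zero_le_one zero_le_one rfl
      (Finset.sum_nonneg fun r hr => G.l0 _ h hx r hr) r1 r0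
    rwa [zero_add, one_mul, one_mul] at this
  | up p S t ih =>
    intro M M' l u h hx
    rw [WMF_up]
    have c1 : LMv v.A q 1 ⟨M, M', l, u, .up p S t⟩ ⟨M, M', l, uU p u, t⟩ := .up
    have k1 := key c1 h
    have z := G.one h hx c1 k1 (ih _ _ _ _ k1.ok (hJx _ _ _ c1 h hx))
    exact z
  | pl p t ih =>
    intro M M' l u h hx
    have hp : p.Prime := h.y.ok.1
    by_cases hd : p ∣ M'
    · obtain ⟨M₂, rfl⟩ := hd
      rw [WMF_plf hp.pos]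
      have c1 : LMv v.A q 1 ⟨M, p * M₂, l, u, .pl p t⟩ ⟨M, M₂, l, uL p u, t⟩ := .plf
      have k1 := key c1 h
      have z := G.one h hx c1 k1 (ih _ _ _ _ k1.ok (hJx _ _ _ c1 h hx))
      exact z
    · rw [WMF_pl _ _ _ _ _ _ hd]
      have c1 : LMv v.A q 1 ⟨M, M', l, u, .pl p t⟩ ⟨p * M, M', l, uL p u, t⟩ := .pl hd
      have k1 := key c1 h
      have z := G.one h hx c1 k1 (ih _ _ _ _ k1.ok (hJx _ _ _ c1 h hx))
      exact z
  | far p t₁ t₀ ih₁ ih₀ =>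
    intro M M' l u h hx
    have hdis : Disjoint t₁.items t₀.items := h.y.ok.2.2.1
    rw [WMF_far]
    have c1 : LMv v.A q 1 ⟨M, M', l, u, .far p t₁ t₀⟩ ⟨M, M', l, uA₁ p u, t₁⟩ := .fa1
    have c0 : LMv v.A q 1 ⟨M, M', l, u, .far p t₁ t₀⟩ ⟨M, M', l, uA₁ p u, t₀⟩ := .fa0
    have k1 := key c1 h
    have k0 := key c0 h
    have r1 := ih₁ _ _ _ _ k1.ok (hJx _ _ _ c1 h hx)
    have r0 := ih₀ _ _ _ _ k0.ok (hJx _ _ _ c0 h hx)
    have := G.two h hx c1 c0 k1 k0 hdis zero_le_one zero_le_one rfl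
      (Finset.sum_nonneg fun r hr => G.l0 _ h hx r hr) r1 r0
    rwa [zero_add, one_mul, one_mul] at this

/-- **ONE LEAF ITEM AGAINST A TREE**, with the merges -/
theorem item_le (H : LH D Al sp P W Qp Jp v Sl q A A' Θ C₀ mq Φ Jx Oy)
    (G : MgH D Al sp Qp Jp v Sl q A A' lc Ψ Jx) (hΘ2 : ∀ n, Θ n ≤ 2) {s : LSt}
    (h : LOk D Al sp Qp Jp v q A' s) (hx : Jx s) :
    En D v Sl A A' (Ro (D.rho s.l)) s ≤ 2 * (C₀ + 2) * (mq * nuL W s) +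
      ∑ r ∈ Qi D Al s.t A', (Φ s r + Ψ s r) := by
  obtain ⟨M, M', l, u, t⟩ := s
  have h1 := item_bound H t M M' l u h hx ∅ ⟨by simp, by simp⟩
  have h2 := WMF_le G H.hh H.hJ H.hq H.hA H.hJx t M M' l u h hx
  unfold Cl at h1
  have e : Cf C₀ (∑ l ∈ (∅ : Finset ℕ), 1 / (l : ℝ)) = C₀ + 2 := by
    unfold Cf
    rw [Finset.sum_empty, Real.zero_rpow (by norm_num)]
    ring
  rw [e] at h1
  simp only at h1 ⊢
  rw [Finset.sum_add_distrib]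
  have h3 : (C₀ + 2) * Θ u.n * (mq * nuL W ⟨M, M', l, u, t⟩) ≤
      2 * (C₀ + 2) * (mq * nuL W ⟨M, M', l, u, t⟩) := by
    refine mul_le_mul_of_nonneg_right ?_ (H.nu0 h)
    have := H.hC0
    have := hΘ2 u.n
    nlinarith
  linarith

end mg
end Crest.Agent.R4P.LeafW27
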