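import Crest.Agent.R4P.ShrW_34
import Crest.Agent.R4P.OSDef710

/-!
R4 (S0004) with powers, module D, helper28: **merges of the cross walk, product part** at the pair level.

The pair masses are `u.c W e.1 * u'.c W e.2` (`pm`): they are preserved by the weights of the walk
(`Chd.wc`), so the potential needs no walk sum:
* `item_mass` : `u.B ρ_q ≤ 2 CL log p (u.c W q)`; `pm_ge`;
* `PSup_mgG` : `lG` = [column] `cf pm H(rg p)` has the potential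
  `PhiG = pm (cf H(rg p) + ∑_{l missed} H(rg l) + ∑_{k < rg p} H k)`;
* `mg_locG` : `eSHRC s ≤ ∑_e (lG + lM)`; `sum_PhiG_le` : `∑_e PhiG ≤ E (∑ u.c W) (∑ u'.c W)`;
* `Xs_absorb` : a part `E μ μ'` of the excess is absorbed in `B + E`.
-/

set_option autoImplicit false
set_option linter.unusedSectionVars false
set_option linter.unusedVariables false
open Finset

namespace Crest.Agent.R4P.ShrG28

open Crest.Agent.R4.HVW560 Crest.Agent.R4P.AvgItem710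
open Crest.Agent.R4.Tour104 Crest.Agent.R4.Tour758 Crest.Agent.R4.Avg758 Crest.Agent.R4.Clos758
open Crest.Agent.R4.ClosL758 Crest.Agent.R4.ClosG758 Crest.Agent.R4.ClosR758
open Crest.Agent.R4P.Cnt588 Crest.Agent.R4P.Walk560 Crest.Agent.R4P.Item758
open Crest.Agent.R4P.Bld532 (NS All NodeOk Bk dv nd mem_dv mem_nd)
open Crest.Agent.R4P.GSt927 Crest.Agent.R4P.WalkIT579 Crest.Agent.R4P.NMW710
open Crest.Agent.R4P.CrossLoc25 Crest.Agent.R4P.CrossLocC25 Crest.Agent.R4P.WalkC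
open Crest.Agent.R4P.YI25 Crest.Agent.R4P.ShrW34
open Crest.Agent.R4P.OSFin710 (OB)
open Crest.Agent.R4.DeepSt579 (tq tq_nonneg tq_le_one rd)

variable {Λ κ : Type*} [Fintype Λ] [DecidableEq Λ] [Fintype κ] [DecidableEq κ] [WRel κ]
  {D : Par Λ κ} {sp : ℕ → Finset Λ} {P : Bld532.Par} {W : ℕ → ℝ} {Qp : NS → IT → Prop}
  {Al : Finset ℕ} {RP : Finset (Λ × Λ) → Prop}

/-! ### masses of items -/

/-- **radius of an item against its mass** -/
lemma item_mass {CL : ℝ} {ρ : ℕ → ℝ} {u : NS} {q p : ℕ}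
    (hms : (u.B : ℝ) * tq (q / u.A) ≤ 2 * (u.c * tq q)) (hWρ : ρ q * tq q ≤ W q) (hρ : 0 ≤ ρ q)
    (hc : 0 ≤ u.c) (hCL : 0 ≤ CL) (hlg : 1 ≤ CL * Real.log p * tq (q / u.A)) :
    (u.B : ℝ) * ρ q ≤ 2 * CL * Real.log p * (u.c * W q) := by
  have hB : (0:ℝ) ≤ u.B := Nat.cast_nonneg _
  have hl : 0 ≤ CL * Real.log p := mul_nonneg hCL (Real.log_natCast_nonneg p)
  calc (u.B : ℝ) * ρ q ≤ (u.B * ρ q) * (CL * Real.log p * tq (q / u.A)) :=
        le_mul_of_one_le_right (mul_nonneg hB hρ) hlg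
    _ = (CL * Real.log p) * ρ q * (u.B * tq (q / u.A)) := by ring
    _ ≤ (CL * Real.log p) * ρ q * (2 * (u.c * tq q)) :=
        mul_le_mul_of_nonneg_left hms (mul_nonneg hl hρ)
    _ = 2 * (CL * Real.log p) * u.c * (ρ q * tq q) := by ring
    _ ≤ 2 * (CL * Real.log p) * u.c * W q :=
        mul_le_mul_of_nonneg_left hWρ (mul_nonneg (by linarith) hc)
    _ = _ := by ring

/-- mass of a pair of items at a state -/
noncomputable def pm (W : ℕ → ℝ) (u u' : NS) (e : ℕ × ℕ) : ℝ := (u.c * W e.1) * (u'.c * W e.2)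

lemma pm_nonneg (hW : ∀ q, 0 ≤ W q) {u u' : NS} (hc : 0 ≤ u.c) (hc' : 0 ≤ u'.c) (e : ℕ × ℕ) :
    0 ≤ pm W u u' e := mul_nonneg (mul_nonneg hc (hW _)) (mul_nonneg hc' (hW _))

/-- **radii of a pair against its mass** -/
lemma pm_ge {CL c₀ : ℝ} {ρ : ℕ → ℝ} {U : ℕ → Finset ℕ} {p0 p : ℕ} {u u' : NS} {τ τ' : IT}
    (hO : OB D Al P W U CL c₀ p0 u τ) (hO' : OB D Al P W U CL c₀ p0 u' τ')
    (hWρ : ∀ q ∈ Al, ρ q * tq q ≤ W q) (hρ : ∀ q, 0 ≤ ρ q) (hW : ∀ q, 0 ≤ W q)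
    (hc : 0 ≤ u.c) (hc' : 0 ≤ u'.c) (hCL : 0 ≤ CL)
    (hp0 : p0 ≤ p) (hp : ∀ r : ℕ, r.Prime → r < u.n → r ≤ p)
    (hp' : ∀ r : ℕ, r.Prime → r < u'.n → r ≤ p) {e : ℕ × ℕ} (h1 : e.1 ∈ Al) (h2 : e.2 ∈ Al)
    (h3 : e.1 ∈ τ.items) (h4 : e.2 ∈ τ'.items) :
    ((u.B : ℝ) * ρ e.1) * ((u'.B : ℝ) * ρ e.2) ≤ 4 * CL ^ 2 * Real.log p ^ 2 * pm W u u' e := by
  have k1 := item_mass (hO.ms _ h1 h3) (hWρ _ h1) (hρ _) hc hCL (hO.lg p hp0 hp _ h1 h3)
  have k2 := item_mass (hO'.ms _ h2 h4) (hWρ _ h2) (hρ _) hc' hCL (hO'.lg p hp0 hp' _ h2 h4)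
  have hB : (0:ℝ) ≤ u'.B := Nat.cast_nonneg _
  have hl := Real.log_natCast_nonneg p
  refine (mul_le_mul k1 k2 (mul_nonneg hB (hρ _)) ?_).trans (le_of_eq ?_)
  · exact mul_nonneg (mul_nonneg (by linarith) hl) (mul_nonneg hc (hW _))
  · unfold pm; ring

/-- the constants of the nodes are nonnegative -/
lemma c_nonneg_of_nd {u : NS} {τ : IT} (h : NodeOk P W u τ) : 0 ≤ u.c := by
  obtain ⟨T, hT, e⟩ := (bk_of_nodeOk h).ceq
  rw [e]
  refine mul_nonneg (Nat.cast_nonneg _) (Finset.prod_nonneg fun r hr => ?_)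
  exact inv_nonneg.2 (wt_pos (hT r hr).1).2.1.le

lemma YI.c_nonneg (hh : YH D sp P W Qp) {s : St Λ κ} {u u' : NS} {τ τ' : IT}
    (h : YI D sp Qp RP s u u' τ τ') : 0 ≤ u.c ∧ 0 ≤ u'.c :=
  ⟨c_nonneg_of_nd (hh.nd _ _ h.L.q.self), c_nonneg_of_nd (hh.nd _ _ h.R.q.self)⟩

/-! ### the pair supersolution -/

open Classical in
/-- what a pair of items pays for its merges at a state, product part -/
noncomputable def lG (D : Par Λ κ) (W : ℕ → ℝ) (rg : ℕ → ℕ) (H : ℕ → ℝ) (stp : St Λ κ → Prop)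
    (s : St Λ κ) (u u' : NS) (τ τ' : IT) (e : ℕ × ℕ) : ℝ :=
  if BrV stp s then pm W u u' e * (cf D s e * H (rg s.p)) else 0

/-- potential of the merges of a pair of items, product part -/
noncomputable def PhiG (D : Par Λ κ) (W : ℕ → ℝ) (mtt : ℕ → Finset ℕ) (rg : ℕ → ℕ) (H : ℕ → ℝ)
    (s : St Λ κ) (u u' : NS) (τ τ' : IT) (e : ℕ × ℕ) : ℝ :=
  pm W u u' e * (cf D s e * H (rg s.p) + fut mtt rg H s.p e)

variable {mtt : ℕ → Finset ℕ} {rg : ℕ → ℕ} {H : ℕ → ℝ}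

lemma PhiG_nonneg (hH : ∀ k, 0 ≤ H k) (hW : ∀ q, 0 ≤ W q) (s : St Λ κ) {u u' : NS}
    (hc : 0 ≤ u.c) (hc' : 0 ≤ u'.c) (τ τ' : IT) (e : ℕ × ℕ) :
    0 ≤ PhiG D W mtt rg H s u u' τ τ' e :=
  mul_nonneg (pm_nonneg hW hc hc' e) (add_nonneg (mul_nonneg (cf_nonneg _ _) (hH _))
    (fut_nonneg hH _ _))

lemma lG_le_PhiG (hH : ∀ k, 0 ≤ H k) (hW : ∀ q, 0 ≤ W q) (stp : St Λ κ → Prop) (s : St Λ κ)
    {u u' : NS} (hc : 0 ≤ u.c) (hc' : 0 ≤ u'.c) (τ τ' : IT) (e : ℕ × ℕ) :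
    lG D W rg H stp s u u' τ τ' e ≤ PhiG D W mtt rg H s u u' τ τ' e := by
  unfold lG
  split_ifs
  · unfold PhiG
    refine mul_le_mul_of_nonneg_left ?_ (pm_nonneg hW hc hc' e)
    have := fut_nonneg (mtt := mtt) (rg := rg) hH s.p e
    linarith
  · exact PhiG_nonneg hH hW s hc hc' τ τ' e

/-- **merges, product part: the pair supersolution** -/
theorem PSup_mgG (hh : YH D sp P W Qp) (hW : ∀ q, 0 ≤ W q) (hx : IX D mtt rg) (hH : ∀ k, 0 ≤ H k)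
    (stp : St Λ κ → Prop) (Iv : St Λ κ → NS → NS → IT → IT → Prop) :
    PSup D Al sp Qp RP stp Iv (lG D W rg H stp) (PhiG D W mtt rg H) where
  le := fun s u u' τ τ' _ h e _ => by
    obtain ⟨hc, hc'⟩ := YI.c_nonneg hh h
    exact lG_le_PhiG hH hW stp s hc hc' τ τ' e
  step := by
    intro s u u' τ τ' hI h hpp hs c hc hch hact e he
    have hc0 := (mem_nxtC.1 hc).1
    have hp := child_p_le h hpp hc0
    obtain ⟨hc1, hc1'⟩ := YI.c_nonneg hh h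
    obtain ⟨k1, k2⟩ := cf_step hx hH hp e
    have hpm : c.w * pm W c.v c.v' e = pm W u u' e := by
      have := hch.wc
      unfold pm
      calc c.w * ((c.v.c * W e.1) * (c.v'.c * W e.2)) = (c.w * (c.v.c * c.v'.c)) * (W e.1 * W e.2) :=
            by ring
        _ = _ := by rw [this]; ring
    have hpn := pm_nonneg hW hc1 hc1' e
    unfold PhiG lG
    rw [← mul_assoc, hpm]
    split_ifs with hb
    · have hR := (brv_rho hh h hb).2 _ hc0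
      have := mul_le_mul_of_nonneg_left (k1 hR) hpn
      simp only at this ⊢
      linarith
    · have hR := (not_brv hb).2 _ hc0
      have := mul_le_mul_of_nonneg_left (k2 hR) hpn
      simp only at this ⊢
      linarith

/-! ### the local bound -/

/-- **merges at one state**: product part and value part -/
theorem mg_locG (hh : YH D sp P W Qp) (hW : ∀ q, 0 ≤ W q)
    (hdead : ∀ j, D.it j ∉ Al → ∀ a, D.om j a = 0) (hH : ∀ k, 0 ≤ H k)
    {V : ℝ × ℝ → ℕ × ℕ → ℝ} (hV : ∀ s e, 0 ≤ V s e) {stp : St Λ κ → Prop} {s : St Λ κ}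
    {u u' : NS} {τ τ' : IT} (h : YI D sp Qp RP s u u' τ τ')
    (hpair : BrV stp s → ∀ e ∈ Ep D Al s τ τ',
      e ∈ D.PE (s.R \ Ro (D.rho s.p)) (D.uA s.M u.B u.A τ s.A 1) (D.uA s.M' u'.B u'.A τ' s.A' 1) →
      D.iF (s.R \ Ro (D.rho s.p)) (D.uA s.M u.B u.A τ s.A 1) (D.uA s.M' u'.B u'.A τ' s.A' 1) e ≤
        pm W u u' e * H (rg s.p) +
          ((u.B : ℝ) * u'.B) * V (SE s.M u.B u.A s.M' u'.B u'.A e) e) :
    eSHRC stp s ≤ ∑ e ∈ Ep D Al s τ τ', (lG D W rg H stp s u u' τ τ' e +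
      lM D rg (fun _ => V) stp s u u' τ τ' e) := by
  obtain ⟨hc, hc'⟩ := YI.c_nonneg hh h
  have hnn : ∀ e, 0 ≤ lG D W rg H stp s u u' τ τ' e + lM D rg (fun _ => V) stp s u u' τ τ' e :=
    fun e => add_nonneg (by
      unfold lG
      split_ifs
      · exact mul_nonneg (pm_nonneg hW hc hc' e) (mul_nonneg (cf_nonneg _ _) (hH _))
      · exact le_rfl) (lM_nonneg (fun _ => hV) stp s u u' τ τ' e)
  by_cases hb : BrV stp s
  swap
  · rw [(not_brv hb).1]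
    exact Finset.sum_nonneg fun e _ => hnn e
  rw [(brv_rho hh h hb).1]
  have hst := h.st
  have e1 : Qs { s with R := s.R \ Ro (D.rho s.p) } =
      Q (s.R \ Ro (D.rho s.p)) (D.uA s.M u.B u.A τ s.A 1) (D.uA s.M' u'.B u'.A τ' s.A' 1) :=
    Qs_Q (s := { s with R := s.R \ Ro (D.rho s.p) }) ⟨hst.L, hst.R, hst.M0, hst.M0'⟩
  rw [e1, D.Q_eq]
  have hsub := PE_sub hdead h.mL.pos h.mR.pos h.L.S.hb h.R.S.hb h.L.S.hF h.R.S.hF h.L.S.hW h.R.S.hW
    (one_dvd _) (one_dvd _) (s.R \ Ro (D.rho s.p)) s.A s.A'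
  refine le_trans (Finset.sum_le_sum fun e he => ?_)
    (Finset.sum_le_sum_of_subset_of_nonneg hsub fun e _ _ => hnn e)
  have h1 := hpair hb e (hsub he) he
  have hcf : cf D s e = 1 := by
    unfold ShrW34.cf
    rw [if_neg]
    intro hcl
    obtain ⟨j, j', hR, -, -, hj, hj', -⟩ := Par.PE_ex h.mL.pos h.mR.pos he
    rw [Finset.mem_sdiff] at hR
    exact hR.2 (hcl j j' hj hj' hR.1)
  unfold lG lM
  rw [if_pos hb, if_pos hb, hcf, one_mul, one_mul]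
  exact h1

/-- **the two parts together**: pair supersolution -/
theorem PSup_mg2 (hh : YH D sp P W Qp) (hW : ∀ q, 0 ≤ W q) (hx : IX D mtt rg) (hH : ∀ k, 0 ≤ H k)
    {V : ℝ × ℝ → ℕ × ℕ → ℝ} (hV : ∀ s e, 0 ≤ V s e)
    (stp : St Λ κ → Prop) (Iv : St Λ κ → NS → NS → IT → IT → Prop) :
    PSup D Al sp Qp RP stp Iv
      (fun s u u' τ τ' e => lG D W rg H stp s u u' τ τ' e + lM D rg (fun _ => V) stp s u u' τ τ' e)
      (fun s u u' τ τ' e => PhiG D W mtt rg H s u u' τ τ' e +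
        PhiM D mtt rg (fun _ => V) s u u' τ τ' e) :=
  (PSup_mgG hh hW hx hH stp Iv).add (PSup_mg hh hx (fun _ => hV) stp Iv)

/-! ### the values at the crossing state -/

/-- **product part, all the pairs** -/
theorem sum_PhiG_le (hH : ∀ k, 0 ≤ H k) (hW : ∀ q, 0 ≤ W q) {s : St Λ κ} {u u' : NS} {τ τ' : IT}
    (hc : 0 ≤ u.c) (hc' : 0 ≤ u'.c) {E : ℝ}
    (h1 : ∀ e ∈ Ep D Al s τ τ', H (rg s.p) + ∑ l ∈ mb mtt s.p e.1, H (rg l) +
      ∑ l ∈ mb mtt s.p e.2, H (rg l) + ∑ k ∈ Finset.range (rg s.p), H k ≤ E) :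
    ∑ e ∈ Ep D Al s τ τ', PhiG D W mtt rg H s u u' τ τ' e ≤
      E * ((u.c * ∑ q ∈ Qi D Al τ s.A, W q) * (u'.c * ∑ q ∈ Qi D Al τ' s.A', W q)) := by
  have key : ∀ e ∈ Ep D Al s τ τ', PhiG D W mtt rg H s u u' τ τ' e ≤ E * pm W u u' e := by
    intro e he
    have hpn := pm_nonneg hW hc hc' e
    have c1 := mul_le_mul_of_nonneg_right (cf_le_one (D := D) s e) (hH (rg s.p))
    unfold PhiG
    rw [mul_comm E]
    refine mul_le_mul_of_nonneg_left ?_ hpn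
    have := h1 e he
    unfold fut
    linarith
  refine (Finset.sum_le_sum key).trans (le_of_eq ?_)
  rw [← Finset.mul_sum]
  congr 1
  rw [Finset.mul_sum, Finset.mul_sum, Finset.sum_mul_sum, Finset.sum_product]
  rfl

/-- **value part, all the pairs** (`U k = V`) -/
theorem sum_PhiM_le' {V : ℝ × ℝ → ℕ × ℕ → ℝ} (hV : ∀ s e, 0 ≤ V s e) {N : ℝ} {s : St Λ κ}
    {u u' : NS} {τ τ' : IT}
    (h2 : ∀ e ∈ Ep D Al s τ τ',
      1 + ((mb mtt s.p e.1).card : ℝ) + (mb mtt s.p e.2).card + rg s.p ≤ N) :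
    ∑ e ∈ Ep D Al s τ τ', PhiM D mtt rg (fun _ => V) s u u' τ τ' e ≤
      N * ∑ e ∈ Ep D Al s τ τ', ((u.B : ℝ) * u'.B) * V (SE s.M u.B u.A s.M' u'.B u'.A e) e := by
  rw [Finset.mul_sum]
  refine Finset.sum_le_sum fun e he => ?_
  set sc := SE s.M u.B u.A s.M' u'.B u'.A e with hsc
  have hb : (0:ℝ) ≤ (u.B : ℝ) * u'.B := by positivity
  have hv := hV sc e
  have c1 := mul_le_mul_of_nonneg_right (cf_le_one (D := D) s e) hv
  have e3 := mul_le_mul_of_nonneg_right (h2 e he) hv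
  unfold PhiM
  rw [← hsc]
  have key : cf D s e * V sc e + fut mtt rg (fun _ => V sc e) s.p e ≤ N * V sc e := by
    unfold fut
    simp only [Finset.sum_const, Finset.card_range, nsmul_eq_mul]
    nlinarith
  calc _ ≤ ((u.B : ℝ) * u'.B) * (N * V sc e) := mul_le_mul_of_nonneg_left key hb
    _ = _ := by ring

/-- **a part `E μ μ'` of the excess is absorbed** -/
lemma Xs_absorb {μ : TrG Λ κ → Finset Λ → ℝ} {B E X : ℝ} {s : St Λ κ}
    (hX : 0 ≤ X) (h : Xs μ B s ≤ X + E * (μ s.t.g s.A * μ s.t'.g s.A')) :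
    Xs μ (B + E) s ≤ X := by
  unfold Xs at h ⊢
  have h1 := le_trans (le_max_right _ _) h
  refine max_le hX ?_
  linarith

end Crest.Agent.R4P.ShrG28
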