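import Crest.Agent.R4P.LeafIx_29
import Crest.Agent.R4P.LeafW_27
import Crest.Agent.R4P.EndP_25
import Crest.Agent.R4P.LeafTie_28
import Crest.Agent.R4P.SameLf_30
import Crest.Agent.R4P.ShrG_28

/-!
R4P (S0004), powers, module D, group [X], helper28: **columns of the leaf item walk** (fields `hexit`, `hdiv` of
`LeafT27.LH`).

* `miss_leaf`, `exit_leaf` : near misses / exits of a right tie against a sieved side, values with the relation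
  predicate;
* `hexit_of` : one leaf item, `p` does not divide the rest of the item; `hdiv_of` : `p` divides it (near
  constancy below the level of the leaf, near miss at the level);
* `Th` : the function `Θ` with a jump at the level of the leaf.
-/

set_option autoImplicit false
set_option linter.unusedSectionVars false
set_option linter.unusedVariables false
open Finset hiding dens

namespace Crest.Agent.R4P.LeafLoc28

open Crest.Agent.R4.HVW560 Crest.Agent.R4P.AvgItem710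
open Crest.Agent.R4.Ovl560 (dens dens_pos)
open Crest.Agent.R4.Tour104 Crest.Agent.R4.Tour758 Crest.Agent.R4.Avg758 Crest.Agent.R4.Clos758
open Crest.Agent.R4.ClosL758 Crest.Agent.R4.ClosG758 Crest.Agent.R4.ClosR758
open Crest.Agent.R4.Fam464 Crest.Agent.R4P.Cnt588 Crest.Agent.R4P.Walk560 Crest.Agent.R4.Piece464
open Crest.Agent.R4P.GInst194 Crest.Agent.R4P.WalkIT579 Crest.Agent.R4P.Item758
open Crest.Agent.R4P.Bld532 (NS All NodeOk Bk dv nd mem_dv mem_nd)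
open Crest.Agent.R4P.NMW710 Crest.Agent.R4P.CrossLoc25 Crest.Agent.R4P.CrossLocC25
open Crest.Agent.R4P.YI25 Crest.Agent.R4P.GSt927
open Crest.Agent.R4P.LeafFam28 Crest.Agent.R4P.LeafSide28 Crest.Agent.R4P.CofMono28
open Crest.Agent.R4P.TBLeaf28
open Crest.Agent.R4P.LeafCol27 Crest.Agent.R4P.LeafM27 Crest.Agent.R4P.LeafT27
open Crest.Agent.R4P.OSFin710 (OB)
open Crest.Agent.R4P.LeafTie28 (Nc)
open Crest.Agent.R4.DeepSt579 (tq tq_nonneg tq_le_one rd)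

variable {Λ κ : Type*} [Fintype Λ] [DecidableEq Λ] [Fintype κ] [DecidableEq κ]
variable {D : Par Λ κ} {ρ : ℕ → ℝ} {Al : Finset ℕ}
variable {Lo : ℝ × ℝ → ℕ × ℕ → Prop} {x0 y0 : ℕ × ℕ → ℕ}
variable [WRel κ] {sp : ℕ → Finset Λ} {p : ℕ}

/-! ### blocks -/

lemma vE_le_FL {γ : ℝ} {M b pr M' b' pr' : ℕ} {e : ℕ × ℕ} {V : ℝ}
    (hl : Lo (SE M b pr M' b' pr' e) e) (h : FL Lo ρ γ (SE M b pr M' b' pr' e) e ≤ V) :
    vE γ ρ M b pr M' b' pr' e ≤ (b : ℝ) * b' * V := by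
  unfold FL at h
  rw [if_pos ⟨hl, SE_pos M b pr M' b' pr' e⟩] at h
  unfold vE
  exact mul_le_mul_of_nonneg_left h (by positivity)

lemma vX_le_FL {γ : ℝ} {M b pr M' b' pr' : ℕ} {e : ℕ × ℕ} {V : ℝ}
    (hl : Lo (p * (SE M b pr M' b' pr' e).1, p * (SE M b pr M' b' pr' e).2) e)
    (h : FL Lo ρ γ (p * (SE M b pr M' b' pr' e).1, p * (SE M b pr M' b' pr' e).2) e ≤ V) :
    vX γ ρ p M b pr M' b' pr' e ≤ (b : ℝ) * b' * V := by
  unfold FL at h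
  rw [if_pos ⟨hl, mul_nonneg (Nat.cast_nonneg _) (SE_pos M b pr M' b' pr' e)⟩] at h
  unfold vX
  exact mul_le_mul_of_nonneg_left h (by positivity)

open Classical in
/-- **near miss of a right tie against a sieved side**, relation predicate inside the value -/
theorem miss_leaf {C : ℝ} (hC : PairO C) (hC0 : 0 ≤ C) (hL : LoX Lo ρ x0 y0) (hR : D.Rad ρ)
    (hdead : ∀ j, D.it j ∉ Al → ∀ a, D.om j a = 0)
    {M M' b pr b' pr' : ℕ} {S' : Finset ℕ} {t₁' t₀' σ : IT} {A' A₂ : Finset Λ} {d' : DT Λ κ}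
    (h' : SideI D sp b' pr' (.br p S' t₁' t₀') A' d') (hb : 0 < b) (hF : Fit b pr σ)
    (hW : D.Wts pr σ) (hM : 0 < M) (hM' : 0 < M')
    {K : ℝ} {P : ℕ → Finset ℕ} {v : ℕ → ℕ → ℤ → ℝ} (ho : OmW D b pr σ K P v)
    (hJ : ∀ e ∈ Qi D Al σ A₂ ×ˢ Qi D Al t₀' A', JC x0 y0 M pr M' pr' e)
    {V : ℝ × ℝ → ℕ × ℕ → ℝ} (h0 : ∀ s e, 0 ≤ V s e)
    (hV : ∀ e ∈ D.PE (Ro (D.rho p)) (D.uA M b pr σ A₂ 1) (D.uA M' (b' * p) pr' t₀' A' p),
      e ∈ Qi D Al σ A₂ ×ˢ Qi D Al t₀' A' →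
      FL Lo ρ D.γ (SE M b pr M' b' pr' e) e ≤ V (SE M b pr M' b' pr' e) e) :
    Q (Ro (D.rho p)) (D.uA M b pr σ A₂ 1) (D.uA M' (b' * p) pr' t₀' A' p) ≤
      C * K * Real.exp 2 * ((∑ q ∈ Qi D Al σ A₂, (b : ℝ) * ρ q * dens (P q)) *
        SR ρ b' (Qi D Al t₀' A')) +
      ∑ e ∈ Qi D Al σ A₂ ×ˢ Qi D Al t₀' A', (b:ℝ) * b' * V (SE M b pr M' b' pr' e) e := by
  have hpp : p.Prime := h'.hF.1
  have hp0 : 0 < p := hpp.pos
  have hpR : (0:ℝ) < p := by exact_mod_cast hp0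
  have hbp : ((b' * p : ℕ) : ℝ) / p = b' := by push_cast; field_simp
  have hb1 : (b : ℝ) / (1 : ℕ) = b := by simp
  have e0 : ∀ e : ℕ × ℕ, D.pb ρ M b pr 1 e.1 M' (b' * p) pr' p e.2 =
      vE D.γ ρ M b pr M' b' pr' e := by
    intro e
    rw [← pb_one (D := D)]
    unfold Par.pb
    have h : ((b' * p : ℕ):ℝ) / p = (b':ℝ) / (1:ℕ) := by
      push_cast
      field_simp
    rw [h]
  have key := side_block' hC hC0 hR hdead hM hM' hb h'.br₀.hb hF h'.br₀.hF hW h'.br₀.hW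
    (one_dvd _) (Dvd.intro_left b' rfl) ho (Ro (D.rho p)) A₂ A'
    (Pw := fun e => e ∈ D.PE (Ro (D.rho p)) (D.uA M b pr σ A₂ 1) (D.uA M' (b' * p) pr' t₀' A' p))
    (Lo := fun e => Lo (SE M b pr M' b' pr' e) e) (Real.exp_pos 2).le (fun _ h => h)
    (fun e he _ hn => good_pair hL hb1 hbp rfl hn (hJ e he))
  refine key.trans (add_le_add (le_of_eq ?_) ?_)
  · unfold SR
    rw [hbp, hb1]
  · refine sum_lo_le (fun e => mul_nonneg (by positivity) (h0 _ _)) fun e he h1 h2 => ?_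
    rw [e0]
    exact vE_le_FL h2 (hV e h1 he)

open Classical in
/-- **exit of a right tie against a sieved side** whose items are not divisible by the prime -/
theorem exit_leaf {C : ℝ} (hC : PairO C) (hC0 : 0 ≤ C) (hL : LoX Lo ρ x0 y0) (hR : D.Rad ρ)
    (hdead : ∀ j, D.it j ∉ Al → ∀ a, D.om j a = 0)
    {M M' b pr b' pr' : ℕ} {S' : Finset ℕ} {t₁' t₀' σ : IT} {A' A₂ : Finset Λ} {d' : DT Λ κ}
    (h' : SideI D sp b' pr' (.br p S' t₁' t₀') A' d') (hb : 0 < b) (hF : Fit b pr σ)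
    (hW : D.Wts pr σ) (hM : 0 < M) (hM' : 0 < M') (f' : ∀ q ∈ t₀'.items, ¬ p ∣ q / pr')
    (f : ∀ q ∈ Qi D Al σ A₂, ¬ p ∣ UI M pr q)
    {K : ℝ} {P : ℕ → Finset ℕ} {v : ℕ → ℕ → ℤ → ℝ} (ho : OmW D b pr σ K P v)
    (hJ : ∀ e ∈ Qi D Al σ A₂ ×ˢ Qi D Al t₀' A', JC x0 y0 M pr M' pr' e)
    {V : ℝ × ℝ → ℕ × ℕ → ℝ} (h0 : ∀ s e, 0 ≤ V s e)
    (hV : ∀ e ∈ D.PE (Ro (D.rho p)) (D.uA (p * M) b pr σ A₂ 1) (D.uA M' (b' * p) pr' t₀' A' 1),
      e ∈ Qi D Al σ A₂ ×ˢ Qi D Al t₀' A' →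
      FL Lo ρ D.γ (p * (SE M b pr M' b' pr' e).1, p * (SE M b pr M' b' pr' e).2) e ≤
        V (SE M b pr M' b' pr' e) e) :
    1 / (p:ℝ) * Q (Ro (D.rho p)) (D.uA (p * M) b pr σ A₂ 1) (D.uA M' (b' * p) pr' t₀' A' 1) ≤
      C * K * Real.exp 2 * ((∑ q ∈ Qi D Al σ A₂, (b : ℝ) * ρ q * dens (P q)) *
        SR ρ b' (Qi D Al t₀' A')) +
      ∑ e ∈ Qi D Al σ A₂ ×ˢ Qi D Al t₀' A', (b:ℝ) * b' * V (SE M b pr M' b' pr' e) e := by
  have hpp : p.Prime := h'.hF.1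
  have hp0 : 0 < p := hpp.pos
  have hpR : (0:ℝ) < p := by exact_mod_cast hp0
  have hM2 : 0 < p * M := Nat.mul_pos hp0 hM
  have hb1 : (b : ℝ) / (1 : ℕ) = b := by simp
  have h1p : (0:ℝ) ≤ 1 / (p:ℝ) := by positivity
  have hmv : ∀ e ∈ Qi D Al σ A₂ ×ˢ Qi D Al t₀' A',
      SMv p false M' b' pr' M' (b' * p) pr' e.2 := by
    intro e he
    exact smv_missing (M := M') (b := b') (f' _ (mem_Qi.1 (Finset.mem_product.1 he).2).1)
  have hk2 : ∀ e ∈ Qi D Al σ A₂ ×ˢ Qi D Al t₀' A', SMv p false M b pr (p * M) b pr e.1 :=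
    fun e he => smv_avg_raise (b := b) hpp hM (f _ (Finset.mem_product.1 he).1)
  have key := side_block' hC hC0 hR hdead hM2 hM' hb h'.br₀.hb hF h'.br₀.hF hW h'.br₀.hW
    (one_dvd _) (one_dvd _) ho (Ro (D.rho p)) A₂ A'
    (Pw := fun e => e ∈ D.PE (Ro (D.rho p)) (D.uA (p * M) b pr σ A₂ 1)
      (D.uA M' (b' * p) pr' t₀' A' 1))
    (Lo := fun e => Lo (SE (p * M) b pr M' (b' * p) pr' e) e) (Real.exp_pos 2).le
    (fun _ h => h)
    (fun e he _ hn => good_pair hL hb1 (by simp) rfl hn ((hJ e he).move hpp (hk2 e he) (hmv e he)))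
  refine (mul_le_mul_of_nonneg_left key h1p).trans ?_
  rw [mul_add]
  refine add_le_add (le_of_eq ?_) ?_
  · have e1 : ∑ r ∈ Qi D Al t₀' A', (((b' * p : ℕ) : ℝ)) / (1 : ℕ) * ρ r =
        p * SR ρ b' (Qi D Al t₀' A') := by
      unfold SR
      rw [Finset.mul_sum]
      refine Finset.sum_congr rfl fun q _ => ?_
      push_cast
      ring
    rw [e1, hb1]
    field_simp
  · rw [Finset.mul_sum]
    refine sum_lo_le (fun e => mul_nonneg (by positivity) (h0 _ _)) fun e he h1 h2 => ?_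
    rw [SE_raise (hk2 e he) (hmv e he)] at h2
    rw [pb_one, vE_exit hpp D.γ (hk2 e he) (hmv e he) (by push_cast; ring)]
    exact vX_le_FL h2 (hV e h1 he)

/-- **(ONE)**, right tie, as an energy, any population on the left -/
theorem os_Qu {M M' b pr b' pr' : ℕ} {S' : Finset ℕ} {τ t₁' t₀' : IT} {A A' : Finset Λ}
    {d' : DT Λ κ} (hb : 0 < b) (hF : Fit b pr τ) (hW : D.Wts pr τ)
    (h' : SideI D sp b' pr' (.br p S' t₁' t₀') A' d') (hM : 0 < M) (hM' : 0 < M') :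
    os (orel κ) p (avg M' (rk A' (D.rho p) (GD D b' pr' p t₁' t₀')))
      (sm (D.rho p) (D.uA M b pr τ A 1)) ≤
    Q (Ro (D.rho p)) (D.uA M b pr τ A 1) (D.uA M' (b' * p) pr' t₀' A' p) := by
  have hp0 : 0 < p := h'.hF.1.pos
  rw [Q_Ro_swap]
  have pF : ∀ j, PB (avg M (rv A fun j => (D.toFT b pr τ).U 1 j) j) := fun j =>
    PB_uA hM hb hF hW (one_dvd _) j
  exact os_le_Q h'.sat_br hM' hp0 h'.pb_G h'.pb_g pF h'.G_le

/-! ### the potential of the pairs -/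

section phi
variable {Qp : NS → IT → Prop} {P : Bld532.Par} {W : ℕ → ℝ}
  {Jp : ℕ × ℝ → ℕ × ℝ → ℕ × ℕ → Prop} {v : NS} {Sl : Finset ℕ} {q : ℕ} {A' : Finset Λ}
variable {Vs : ℝ × ℝ → ℕ × ℕ → ℝ} {Vc Vx : ℕ → ℝ × ℝ → ℕ × ℕ → ℝ}

/-- the potential of the pairs `(q, r)` of the leaf item walk -/
noncomputable def PhiL (K : ℝ) (Vs : ℝ × ℝ → ℕ × ℕ → ℝ) (Vc Vx : ℕ → ℝ × ℝ → ℕ × ℕ → ℝ) (v : NS)
    (Sl : Finset ℕ) (q : ℕ) (s : LSt) (r : ℕ) : ℝ :=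
  K * (lam s.t r * pot Vs Vc Vx s.M v.B v.A s.M' s.u.B s.u.A (.leaf Sl) s.t (q, r))

/-- at an exit the pair pays a near miss and an exit -/
lemma PhiL_exit {K : ℝ} (hK : 1 ≤ K) (h0 : ∀ s e, 0 ≤ Vs s e) (h1 : ∀ l s e, 0 ≤ Vc l s e)
    (h2 : ∀ l s e, 0 ≤ Vx l s e) {s : LSt} {S : Finset ℕ} {t₁ t₀ : IT}
    (e : s.t = .br p S t₁ t₀) (h : LOk D Al sp Qp Jp v q A' s) (hM' : ¬ p ∣ s.M')
    (hu : ¬ p ∣ UI s.M v.A q) {r : ℕ} (hr : r ∈ Qi D Al t₀ A') :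
    (v.B : ℝ) * s.u.B * Vc p (SE s.M v.B v.A s.M' s.u.B s.u.A (q, r)) (q, r) +
      (v.B : ℝ) * s.u.B * Vx p (SE s.M v.B v.A s.M' s.u.B s.u.A (q, r)) (q, r) ≤
      PhiL K Vs Vc Vx v Sl q s r := by
  have i2 : r ∈ t₀.items := (mem_Qi.1 hr).1
  have hm : p ∈ s.t.mt r := by rw [e]; exact mt_mem i2
  have hX : XC p s.M v.A s.M' s.u.A (.leaf Sl) s.t (q, r) :=
    Or.inr ⟨hm, fun hd => hM' (hd.trans (FI_dvd _ _ _)),
      fun hd => hu (hd.trans (Nat.div_dvd_of_dvd (Nat.gcd_dvd_left _ _)))⟩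
  have k1 := lcC_exit (b := v.B) (b' := s.u.B) h1 h2 hX
  have k2 := lcC_le_pot h0 h1 h2 p s.M v.B v.A s.M' s.u.B s.u.A (.leaf Sl) s.t (q, r)
  have k3 := pot_nonneg h0 h1 h2 s.M v.B v.A s.M' s.u.B s.u.A (.leaf Sl) s.t (q, r)
  have k4 := lam_one h.y.ok r
  refine (k1.trans k2).trans ?_
  unfold PhiL
  have k5 : pot Vs Vc Vx s.M v.B v.A s.M' s.u.B s.u.A (.leaf Sl) s.t (q, r) ≤
      lam s.t r * pot Vs Vc Vx s.M v.B v.A s.M' s.u.B s.u.A (.leaf Sl) s.t (q, r) :=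
    le_mul_of_one_le_left k3 k4
  exact k5.trans (le_mul_of_one_le_left (k3.trans k5) hK)

/-- at a divisible tie the pair continues and pays a near miss -/
lemma PhiL_miss (hh : YH D sp P W Qp)
    (hJ : ∀ (p : ℕ) (i i' : Bool) (a a' c c' : ℕ × ℝ) (e : ℕ × ℕ), p.Prime → Mv p i a c →
      Mv p i' a' c' → (i = true ∨ i' = true) → Jp a a' e → Jp c c' e) (hq : 0 < q / v.A)
    {K : ℝ} (hK : 1 ≤ K) (h0 : ∀ s e, 0 ≤ Vs s e) (h1 : ∀ l s e, 0 ≤ Vc l s e)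
    (h2 : ∀ l s e, 0 ≤ Vx l s e) {s : LSt} {S : Finset ℕ} {t₁ t₀ : IT}
    (e : s.t = .br p S t₁ t₀) (h : LOk D Al sp Qp Jp v q A' s) (hM' : ¬ p ∣ s.M')
    (hu : p ∣ UI s.M v.A q) {r : ℕ} (hr : r ∈ Qi D Al t₀ A') :
    1 / (p : ℝ) * (1 + 1 / ((p : ℝ) - 1)) *
        PhiL K Vs Vc Vx v Sl q ⟨p * s.M, s.M', p, uM p s.u, t₀⟩ r +
      (v.B : ℝ) * s.u.B * Vc p (SE s.M v.B v.A s.M' s.u.B s.u.A (q, r)) (q, r) ≤
      PhiL K Vs Vc Vx v Sl q s r := by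
  obtain ⟨M, M', l, u, t⟩ := s
  simp only at e hM' hu ⊢
  subst e
  have hp : p.Prime := h.y.S.hF.1
  obtain ⟨w1, w2, w3, w4⟩ := inv_le hp
  have hp1 : (1 : ℝ) < p := by exact_mod_cast hp.one_lt
  have hg0 : 0 < 1 / ((p : ℝ) - 1) := by
    have : (0:ℝ) < p - 1 := by linarith
    positivity
  have hR := Sm.br₀ (Al := Al) hh h.y h.M0'
  obtain ⟨k1, k2⟩ := lk_of (Sl := Sl) (l₂ := p) (M₂ := p * M) hh hJ hq hp h hR
    (mul_nonneg h.c0 (Nat.cast_nonneg p)) (Or.inr ⟨rfl, rfl, fun r _ => by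
      unfold avT; rw [if_pos hu]; trivial⟩)
  have hL := k1 r hr
  have i2 : r ∈ t₀.items := (mem_Qi.1 hr).1
  have hn : p ∉ (IT.leaf Sl).mt q ∪ t₀.mt r := by
    rw [Finset.mem_union, not_or]
    exact ⟨by simp [IT.mt], br_not₀ h.y r⟩
  have key := pot_lk_act h0 h1 h2 hp hL (w := 1 / (p : ℝ)) w1.le (by
      push_cast
      have e : 1 / (p : ℝ) * ((v.B : ℝ) * ((u.B : ℝ) * p)) = (1 / (p : ℝ) * p) * (v.B * u.B) := by
        ring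
      rw [e, w3, one_mul]) hn
  have hm : p ∈ (IT.leaf Sl).mt (q, r).1 ∪ (IT.br p S t₁ t₀).mt (q, r).2 :=
    Finset.mem_union_right _ (mt_mem i2)
  have hc := lcC_one (M := M) (b := v.B) (pr := v.A) (M' := M') (b' := u.B) (pr' := u.A)
    (τ := .leaf Sl) (τ' := .br p S t₁ t₀) (e := (q, r)) h1 h2 hm
  have hP := pot_nonneg h0 h1 h2 M v.B v.A M' u.B u.A (.leaf Sl) (.br p S t₁ t₀) (q, r)
  have hcl := lcC_nonneg h1 h2 p M v.B v.A M' u.B u.A (.leaf Sl) (.br p S t₁ t₀) (q, r)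
  have l1 := lam_one h.y.ok r
  have hlam : lam (.br p S t₁ t₀) r = (1 + 1 / ((p : ℝ) - 1)) * lam t₀ r :=
    lam_insert (br_mt₀ i2) (br_not₀ h.y r)
  have hKl : 1 ≤ K * lam (.br p S t₁ t₀) r := by nlinarith
  have hV0 : 0 ≤ (v.B : ℝ) * u.B * Vc p (SE M v.B v.A M' u.B u.A (q, r)) (q, r) :=
    mul_nonneg (by positivity) (h1 _ _ _)
  unfold PhiL
  simp only
  have e1 : 1 / (p : ℝ) * (1 + 1 / ((p : ℝ) - 1)) *
      (K * (lam t₀ r * pot Vs Vc Vx (p * M) v.B v.A M' (u.B * p) u.A (.leaf Sl) t₀ (q, r))) =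
      K * lam (.br p S t₁ t₀) r *
        (1 / (p : ℝ) * pot Vs Vc Vx (p * M) v.B v.A M' (u.B * p) u.A (.leaf Sl) t₀ (q, r)) := by
    rw [hlam]; ring
  rw [e1]
  calc _ ≤ K * lam (.br p S t₁ t₀) r *
        (1 / (p : ℝ) * pot Vs Vc Vx (p * M) v.B v.A M' (u.B * p) u.A (.leaf Sl) t₀ (q, r)) +
        K * lam (.br p S t₁ t₀) r *
          ((v.B : ℝ) * u.B * Vc p (SE M v.B v.A M' u.B u.A (q, r)) (q, r)) :=
        add_le_add le_rfl (le_mul_of_one_le_left hV0 hKl)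
    _ = K * lam (.br p S t₁ t₀) r *
        (1 / (p : ℝ) * pot Vs Vc Vx (p * M) v.B v.A M' (u.B * p) u.A (.leaf Sl) t₀ (q, r) +
          (v.B : ℝ) * u.B * Vc p (SE M v.B v.A M' u.B u.A (q, r)) (q, r)) := by ring
    _ ≤ K * lam (.br p S t₁ t₀) r *
        pot Vs Vc Vx M v.B v.A M' u.B u.A (.leaf Sl) (.br p S t₁ t₀) (q, r) := by
        refine mul_le_mul_of_nonneg_left ?_ (by linarith)
        linarith
    _ = _ := by ring

end phi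

/-! ### one leaf item -/

section item
variable {Qp : NS → IT → Prop} {P : Bld532.Par} {W : ℕ → ℝ}
  {Jp : ℕ × ℝ → ℕ × ℝ → ℕ × ℕ → Prop} {v : NS} {Sl : Finset ℕ} {q : ℕ} {A A' : Finset Λ}

lemma Qi_one (hA : ∀ j ∈ A, D.it j = q) (t : IT) : Qi D Al t A ⊆ {q} := by
  intro r hr
  obtain ⟨-, -, j, hj, rfl⟩ := mem_Qi.1 hr
  exact Finset.mem_singleton.2 (hA j hj)

lemma sum_one_le (hA : ∀ j ∈ A, D.it j = q) (t : IT) {f : ℕ → ℝ} (hf : 0 ≤ f q) :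
    ∑ r ∈ Qi D Al t A, f r ≤ f q := by
  refine (Finset.sum_le_sum_of_subset_of_nonneg (Qi_one hA t) fun r hr _ => ?_).trans
    (by rw [Finset.sum_singleton])
  rw [Finset.mem_singleton.1 hr]
  exact hf

lemma sum_pair_le (hA : ∀ j ∈ A, D.it j = q) (t t' : IT) {F : ℕ × ℕ → ℝ}
    (hF : ∀ r, 0 ≤ F (q, r)) :
    ∑ e ∈ Qi D Al t A ×ˢ Qi D Al t' A', F e ≤ ∑ r ∈ Qi D Al t' A', F (q, r) := by
  rw [Finset.sum_product]
  refine (sum_one_le (f := fun x => ∑ r ∈ Qi D Al t' A', F (x, r)) hA t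
    (Finset.sum_nonneg fun r _ => hF r))

/-- **radii of the missing items against the mass** -/
lemma sr_le {CL c₀ : ℝ} {U : ℕ → Finset ℕ} {p0 : ℕ} {u : NS} {S : Finset ℕ} {t₁ t₀ : IT}
    (hO : OB D Al P W U CL c₀ p0 u (.br p S t₁ t₀)) (hWρ : ∀ q ∈ Al, ρ q * tq q ≤ W q)
    (hρ : ∀ q, 0 ≤ ρ q) (hW : ∀ q, 0 ≤ W q) (hc : 0 ≤ u.c) (hCL : 0 ≤ CL) (hp0 : p0 ≤ p)
    (hlv : ∀ r : ℕ, r.Prime → r < u.n → r ≤ p) (A' : Finset Λ) :
    SR ρ u.B (Qi D Al t₀ A') ≤ 2 * CL * Real.log p * (u.c * Ws W t₀.items) := by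
  unfold SR
  calc _ ≤ ∑ r ∈ Qi D Al t₀ A', 2 * CL * Real.log p * (u.c * W r) :=
        Finset.sum_le_sum fun r hr => by
          obtain ⟨h1, h2, -⟩ := mem_Qi.1 hr
          have h3 : r ∈ (IT.br p S t₁ t₀).items := Finset.mem_union_right _ h1
          exact Crest.Agent.R4P.ShrG28.item_mass (hO.ms _ h2 h3) (hWρ _ h2) (hρ _) hc hCL
            (hO.lg p hp0 hlv _ h2 h3)
    _ ≤ ∑ r ∈ t₀.items, 2 * CL * Real.log p * (u.c * W r) :=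
        Finset.sum_le_sum_of_subset_of_nonneg (fun r hr => (mem_Qi.1 hr).1) fun r _ _ =>
          mul_nonneg (mul_nonneg (by linarith) (Real.log_natCast_nonneg p)) (mul_nonneg hc (hW r))
    _ = _ := by
        rw [← Finset.mul_sum, ← Finset.mul_sum]
        rfl

/-- **the environment** of the columns of the leaf item walk -/
structure EL (D : Par Λ κ) (Al : Finset ℕ) (sp : ℕ → Finset Λ) (P : Bld532.Par) (W : ℕ → ℝ)
    (Qp : NS → IT → Prop) (ρ : ℕ → ℝ) (Lo : ℝ × ℝ → ℕ × ℕ → Prop) (x0 y0 : ℕ × ℕ → ℕ)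
    (v : NS) (Sl : Finset ℕ) (q : ℕ) (mq : ℝ) : Prop where
  hL : LoX Lo ρ x0 y0
  hR : D.Rad ρ
  dead : ∀ j, D.it j ∉ Al → ∀ a, D.om j a = 0
  hh : YH D sp P W Qp
  W0 : ∀ q, 0 ≤ W q
  b0 : 0 < v.B
  F : Fit v.B v.A (.leaf Sl)
  Wt : D.Wts v.A (.leaf Sl)
  hmq : 0 ≤ mq
  /-- products -/
  pr : ∃ (C K : ℝ) (Pf : ℕ → Finset ℕ) (w : ℕ → ℕ → ℤ → ℝ), PairO C ∧ 0 ≤ C ∧
    OmW D v.B v.A (.leaf Sl) K Pf w ∧ (v.B : ℝ) * ρ q * dens (Pf q) ≤ mq ∧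
    0 ≤ (v.B : ℝ) * ρ q * dens (Pf q) ∧
    ∀ (u : NS) (p : ℕ) (S : Finset ℕ) (t₁ t₀ : IT) (A' : Finset Λ), Qp u (.br p S t₁ t₀) →
      C * K * Real.exp 2 * SR ρ u.B (Qi D Al t₀ A') ≤
        1 / 2 * (p : ℝ) ^ (-(11/12) : ℝ) * (u.c * Ws W (t₁.items ∪ t₀.items))
  /-- near constancy -/
  nc : ∀ (p M : ℕ) (j : Λ), p.Prime → p < v.n → 0 < M →
    (D.it j ∈ Sl → p ∣ UI M v.A (D.it j)) →
    Nc p (1 - 1 / (p : ℝ))⁻¹ (Ep M ((D.toFT v.B v.A (.leaf Sl)).U 1 j))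

variable {mq : ℝ} {s : LSt} {S : Finset ℕ} {t₁ t₀ : IT}

/-- **near misses of one leaf item** at a column -/
theorem EL.miss (H : EL D Al sp P W Qp ρ Lo x0 y0 v Sl q mq) (hA : ∀ j ∈ A, D.it j = q)
    (e : s.t = .br p S t₁ t₀) (h : LOk D Al sp Qp Jp v q A' s)
    (hJ : ∀ r ∈ Qi D Al s.t A', JC x0 y0 s.M v.A s.M' s.u.A (q, r))
    {V : ℝ × ℝ → ℕ × ℕ → ℝ} (h0 : ∀ s e, 0 ≤ V s e)
    (hV : ∀ r ∈ Qi D Al t₀ A', (q, r) ∈ D.PE (Ro (D.rho p))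
        (D.uA s.M v.B v.A (.leaf Sl) A 1) (D.uA s.M' (s.u.B * p) s.u.A t₀ A' p) →
      FL Lo ρ D.γ (SE s.M v.B v.A s.M' s.u.B s.u.A (q, r)) (q, r) ≤
        V (SE s.M v.B v.A s.M' s.u.B s.u.A (q, r)) (q, r)) :
    os (orel κ) p (avg s.M' (rk A' (D.rho p) (GD D s.u.B s.u.A p t₁ t₀)))
        (sm (D.rho p) (D.uA s.M v.B v.A (.leaf Sl) A 1)) ≤
      1 / 2 * (p : ℝ) ^ (-(11/12) : ℝ) * (mq * nuL W s) +
      ∑ r ∈ Qi D Al t₀ A', (v.B : ℝ) * s.u.B * V (SE s.M v.B v.A s.M' s.u.B s.u.A (q, r)) (q, r) := by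
  obtain ⟨M, M', l, u, t⟩ := s
  simp only at e hJ hV ⊢
  subst e
  obtain ⟨C, K, Pf, w, hC, hC0, ho, hm, hm0, hS⟩ := H.pr
  have hsub : ∀ r ∈ Qi D Al t₀ A', r ∈ Qi D Al (.br p S t₁ t₀) A' := fun r hr =>
    Qi_sub Finset.subset_union_right subset_rfl hr
  have key := miss_leaf hC hC0 H.hL H.hR H.dead (A' := A') h.y.S H.b0 H.F H.Wt h.M0 h.M0' ho
    (fun e he => by
      obtain ⟨a1, a2⟩ := Finset.mem_product.1 he
      have e1 : e.1 = q := Finset.mem_singleton.1 (Qi_one hA _ a1)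
      have := hJ e.2 (hsub _ a2)
      rwa [← e1] at this) h0 (fun e he1 he => by
      obtain ⟨a1, a2⟩ := Finset.mem_product.1 he
      have e1 : e.1 = q := Finset.mem_singleton.1 (Qi_one hA _ a1)
      have e2 : e = (q, e.2) := by rw [← e1]
      rw [e2] at he1 ⊢
      exact hV e.2 a2 he1)
  have hos := os_Qu (A := A) H.b0 H.F H.Wt h.y.S h.M0 h.M0'
  refine (hos.trans key).trans (add_le_add ?_ ?_)
  · have k1 : ∑ r ∈ Qi D Al (.leaf Sl) A, (v.B : ℝ) * ρ r * dens (Pf r) ≤ mq :=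
      (sum_one_le (f := fun r => (v.B : ℝ) * ρ r * dens (Pf r)) hA _ hm0).trans hm
    have k2 := hS u p S t₁ t₀ A' h.y.q.self
    have k3 : 0 ≤ SR ρ u.B (Qi D Al t₀ A') := SR_nonneg H.hR.pos _ _
    have k4 : 0 ≤ C * K * Real.exp 2 := by
      have := ho.K0
      positivity
    calc _ = (∑ r ∈ Qi D Al (.leaf Sl) A, (v.B : ℝ) * ρ r * dens (Pf r)) *
          (C * K * Real.exp 2 * SR ρ u.B (Qi D Al t₀ A')) := by ring
      _ ≤ mq * (C * K * Real.exp 2 * SR ρ u.B (Qi D Al t₀ A')) :=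
          mul_le_mul_of_nonneg_right k1 (mul_nonneg k4 k3)
      _ ≤ mq * (1 / 2 * (p : ℝ) ^ (-(11/12) : ℝ) * (u.c * Ws W (t₁.items ∪ t₀.items))) :=
          mul_le_mul_of_nonneg_left k2 H.hmq
      _ = _ := by unfold nuL; simp only [IT.items]; ring
  · exact sum_pair_le (F := fun e => (v.B : ℝ) * u.B * V (SE M v.B v.A M' u.B u.A e) e) hA _ _
      fun r => mul_nonneg (by positivity) (h0 _ _)

/-- **exits of one leaf item** at a column whose prime does not divide the rest of the item -/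
theorem EL.exit (H : EL D Al sp P W Qp ρ Lo x0 y0 v Sl q mq) (hA : ∀ j ∈ A, D.it j = q)
    (e : s.t = .br p S t₁ t₀) (h : LOk D Al sp Qp Jp v q A' s) (hu : ¬ p ∣ UI s.M v.A q)
    (hJ : ∀ r ∈ Qi D Al s.t A', JC x0 y0 s.M v.A s.M' s.u.A (q, r))
    {V : ℝ × ℝ → ℕ × ℕ → ℝ} (h0 : ∀ s e, 0 ≤ V s e)
    (hV : ∀ r ∈ Qi D Al t₀ A', (q, r) ∈ D.PE (Ro (D.rho p))
        (D.uA (p * s.M) v.B v.A (.leaf Sl) A 1) (D.uA s.M' (s.u.B * p) s.u.A t₀ A' 1) →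
      FL Lo ρ D.γ (p * (SE s.M v.B v.A s.M' s.u.B s.u.A (q, r)).1,
          p * (SE s.M v.B v.A s.M' s.u.B s.u.A (q, r)).2) (q, r) ≤
        V (SE s.M v.B v.A s.M' s.u.B s.u.A (q, r)) (q, r)) :
    1 / (p : ℝ) * Q (Ro (D.rho p)) (D.uA (p * s.M) v.B v.A (.leaf Sl) A 1)
          (D.uA s.M' (s.u.B * p) s.u.A t₀ A' 1) ≤
      1 / 2 * (p : ℝ) ^ (-(11/12) : ℝ) * (mq * nuL W s) +
      ∑ r ∈ Qi D Al t₀ A', (v.B : ℝ) * s.u.B * V (SE s.M v.B v.A s.M' s.u.B s.u.A (q, r)) (q, r) := by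
  obtain ⟨M, M', l, u, t⟩ := s
  simp only at e hJ hV hu ⊢
  subst e
  obtain ⟨C, K, Pf, w, hC, hC0, ho, hm, hm0, hS⟩ := H.pr
  have hsub : ∀ r ∈ Qi D Al t₀ A', r ∈ Qi D Al (.br p S t₁ t₀) A' := fun r hr =>
    Qi_sub Finset.subset_union_right subset_rfl hr
  have hpp : p.Prime := h.y.S.hF.1
  have hnd : ∀ r ∈ t₀.items, ¬ p ∣ r / u.A := fun r hr => by
    obtain ⟨-, -, h3⟩ := (Fit.item h.y.S.hF.2.2.2.2) _ hr
    intro hd
    have h4 := Nat.dvd_gcd hd (Dvd.intro_left u.B rfl : p ∣ u.B * p)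
    rw [Nat.Coprime.gcd_eq_one h3] at h4
    exact hpp.one_lt.ne' (Nat.dvd_one.1 h4)
  have key := exit_leaf hC hC0 H.hL H.hR H.dead (A' := A') h.y.S H.b0 H.F H.Wt h.M0 h.M0' hnd
    (fun r hr => by rw [Finset.mem_singleton.1 (Qi_one hA _ hr)]; exact hu) ho
    (fun e he => by
      obtain ⟨a1, a2⟩ := Finset.mem_product.1 he
      have e1 : e.1 = q := Finset.mem_singleton.1 (Qi_one hA _ a1)
      have := hJ e.2 (hsub _ a2)
      rwa [← e1] at this) h0 (fun e he1 he => by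
      obtain ⟨a1, a2⟩ := Finset.mem_product.1 he
      have e1 : e.1 = q := Finset.mem_singleton.1 (Qi_one hA _ a1)
      have e2 : e = (q, e.2) := by rw [← e1]
      rw [e2] at he1 ⊢
      exact hV e.2 a2 he1)
  refine key.trans (add_le_add ?_ ?_)
  · have k1 : ∑ r ∈ Qi D Al (.leaf Sl) A, (v.B : ℝ) * ρ r * dens (Pf r) ≤ mq :=
      (sum_one_le (f := fun r => (v.B : ℝ) * ρ r * dens (Pf r)) hA _ hm0).trans hm
    have k2 := hS u p S t₁ t₀ A' h.y.q.self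
    have k3 : 0 ≤ SR ρ u.B (Qi D Al t₀ A') := SR_nonneg H.hR.pos _ _
    have k4 : 0 ≤ C * K * Real.exp 2 := by
      have := ho.K0
      positivity
    calc _ = (∑ r ∈ Qi D Al (.leaf Sl) A, (v.B : ℝ) * ρ r * dens (Pf r)) *
          (C * K * Real.exp 2 * SR ρ u.B (Qi D Al t₀ A')) := by ring
      _ ≤ mq * (C * K * Real.exp 2 * SR ρ u.B (Qi D Al t₀ A')) :=
          mul_le_mul_of_nonneg_right k1 (mul_nonneg k4 k3)
      _ ≤ mq * (1 / 2 * (p : ℝ) ^ (-(11/12) : ℝ) * (u.c * Ws W (t₁.items ∪ t₀.items))) :=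
          mul_le_mul_of_nonneg_left k2 H.hmq
      _ = _ := by unfold nuL; simp only [IT.items]; ring
  · exact sum_pair_le (F := fun e => (v.B : ℝ) * u.B * V (SE M v.B v.A M' u.B u.A e) e) hA _ _
      fun r => mul_nonneg (by positivity) (h0 _ _)

lemma nuL_nn (hW : ∀ q, 0 ≤ W q) (h : LOk D Al sp Qp Jp v q A' s) : 0 ≤ nuL W s :=
  mul_nonneg h.c0 (Ws_nn hW _)

variable {Vs : ℝ × ℝ → ℕ × ℕ → ℝ} {Vc Vx : ℕ → ℝ × ℝ → ℕ × ℕ → ℝ}

/-- **FIELD `hexit`** of the leaf item walk -/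
theorem EL.hexit (H : EL D Al sp P W Qp ρ Lo x0 y0 v Sl q mq) (hA : ∀ j ∈ A, D.it j = q)
    {K : ℝ} (hK : 1 ≤ K) (h0 : ∀ s e, 0 ≤ Vs s e) (h1 : ∀ l s e, 0 ≤ Vc l s e)
    (h2 : ∀ l s e, 0 ≤ Vx l s e)
    (e : s.t = .br p S t₁ t₀) (h : LOk D Al sp Qp Jp v q A' s) (hM' : ¬ p ∣ s.M')
    (hu : ¬ p ∣ UI s.M v.A q)
    (hJ : ∀ r ∈ Qi D Al s.t A', JC x0 y0 s.M v.A s.M' s.u.A (q, r))
    (hVc : ∀ r ∈ Qi D Al t₀ A', (q, r) ∈ D.PE (Ro (D.rho p))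
        (D.uA s.M v.B v.A (.leaf Sl) A 1) (D.uA s.M' (s.u.B * p) s.u.A t₀ A' p) →
      FL Lo ρ D.γ (SE s.M v.B v.A s.M' s.u.B s.u.A (q, r)) (q, r) ≤
        Vc p (SE s.M v.B v.A s.M' s.u.B s.u.A (q, r)) (q, r))
    (hVx : ∀ r ∈ Qi D Al t₀ A', (q, r) ∈ D.PE (Ro (D.rho p))
        (D.uA (p * s.M) v.B v.A (.leaf Sl) A 1) (D.uA s.M' (s.u.B * p) s.u.A t₀ A' 1) →
      FL Lo ρ D.γ (p * (SE s.M v.B v.A s.M' s.u.B s.u.A (q, r)).1,
          p * (SE s.M v.B v.A s.M' s.u.B s.u.A (q, r)).2) (q, r) ≤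
        Vx p (SE s.M v.B v.A s.M' s.u.B s.u.A (q, r)) (q, r)) :
    os (orel κ) p (avg s.M' (rk A' (D.rho p) (GD D s.u.B s.u.A p t₁ t₀)))
          (sm (D.rho p) (D.uA s.M v.B v.A (.leaf Sl) A 1)) +
        1 / (p : ℝ) * Q (Ro (D.rho p)) (D.uA (p * s.M) v.B v.A (.leaf Sl) A 1)
          (D.uA s.M' (s.u.B * p) s.u.A t₀ A' 1) ≤
      (p : ℝ) ^ (-(11/12) : ℝ) * (mq * nuL W s) +
        ∑ r ∈ Qi D Al t₀ A', PhiL K Vs Vc Vx v Sl q s r := by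
  have k1 := H.miss hA e h hJ (V := Vc p) (h1 p) hVc
  have k2 := H.exit hA e h hu hJ (V := Vx p) (h2 p) hVx
  have k3 : ∑ r ∈ Qi D Al t₀ A', (v.B : ℝ) * s.u.B *
        Vc p (SE s.M v.B v.A s.M' s.u.B s.u.A (q, r)) (q, r) +
      ∑ r ∈ Qi D Al t₀ A', (v.B : ℝ) * s.u.B *
        Vx p (SE s.M v.B v.A s.M' s.u.B s.u.A (q, r)) (q, r) ≤
      ∑ r ∈ Qi D Al t₀ A', PhiL K Vs Vc Vx v Sl q s r := by
    rw [← Finset.sum_add_distrib]
    exact Finset.sum_le_sum fun r hr => PhiL_exit hK h0 h1 h2 e h hM' hu hr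
  linarith

/-- **FIELD `hdiv`** of the leaf item walk -/
theorem EL.hdiv (H : EL D Al sp P W Qp ρ Lo x0 y0 v Sl q mq)
    (hJp : ∀ (p : ℕ) (i i' : Bool) (a a' c c' : ℕ × ℝ) (e : ℕ × ℕ), p.Prime → Mv p i a c →
      Mv p i' a' c' → (i = true ∨ i' = true) → Jp a a' e → Jp c c' e) (hq : 0 < q / v.A)
    (hA : ∀ j ∈ A, D.it j = q)
    {K : ℝ} (hK : 1 ≤ K) (h0 : ∀ s e, 0 ≤ Vs s e) (h1 : ∀ l s e, 0 ≤ Vc l s e)
    (h2 : ∀ l s e, 0 ≤ Vx l s e)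
    (e : s.t = .br p S t₁ t₀) (h : LOk D Al sp Qp Jp v q A' s) (hM' : ¬ p ∣ s.M')
    (hu : p ∣ UI s.M v.A q)
    (hJ : ∀ r ∈ Qi D Al s.t A', JC x0 y0 s.M v.A s.M' s.u.A (q, r))
    (hVc : ∀ r ∈ Qi D Al t₀ A', (q, r) ∈ D.PE (Ro (D.rho p))
        (D.uA s.M v.B v.A (.leaf Sl) A 1) (D.uA s.M' (s.u.B * p) s.u.A t₀ A' p) →
      FL Lo ρ D.γ (SE s.M v.B v.A s.M' s.u.B s.u.A (q, r)) (q, r) ≤
        Vc p (SE s.M v.B v.A s.M' s.u.B s.u.A (q, r)) (q, r))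
    {Θ : ℕ → ℝ} {C₀ : ℝ} (hC₀ : 1 ≤ C₀)
    (hΘ0 : Θ p * (1 + 2 * P.sg p / ((p : ℝ) - 1)) ≤ Θ (p + 1))
    (hΘ1 : v.n ≤ p → 1 / 2 ≤ Θ (p + 1) - Θ p * (1 + 2 * P.sg p / ((p : ℝ) - 1))) :
    ∃ Ψ : ℕ → ℝ,
      os (orel κ) p (avg s.M' (rk A' (D.rho p) (GD D s.u.B s.u.A p t₁ t₀)))
          (sm (D.rho p) (D.uA s.M v.B v.A (.leaf Sl) A 1)) ≤
        1 / ((p : ℝ) - 1) * (1 / (p : ℝ) * Q (Ro (D.rho p))
          (D.uA (p * s.M) v.B v.A (.leaf Sl) A 1) (D.uA s.M' (s.u.B * p) s.u.A t₀ A' 1)) +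
        C₀ * (Θ (p + 1) - Θ p * (1 + 2 * P.sg p / ((p : ℝ) - 1))) * (mq * nuL W s) +
        ∑ r ∈ Qi D Al t₀ A', Ψ r ∧
      ∀ r ∈ Qi D Al t₀ A', 1 / (p : ℝ) * (1 + 1 / ((p : ℝ) - 1)) *
        PhiL K Vs Vc Vx v Sl q ⟨p * s.M, s.M', p, uM p s.u, t₀⟩ r + Ψ r ≤
          PhiL K Vs Vc Vx v Sl q s r := by
  have hph : ∀ r ∈ Qi D Al t₀ A', _ := fun r hr =>
    PhiL_miss (Sl := Sl) H.hh hJp hq hK h0 h1 h2 e h hM' hu hr
  have hν := nuL_nn H.W0 h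
  have hmν : 0 ≤ mq * nuL W s := mul_nonneg H.hmq hν
  have hsp : s.t = .br p S t₁ t₀ := e
  have hy : SY D sp Qp s.u (.br p S t₁ t₀) A' (D.toDT sp s.u.B s.u.A (.br p S t₁ t₀)) := by
    have := h.y
    rwa [e] at this
  have hpp : p.Prime := hy.S.hF.1
  have hp1 : (1 : ℝ) < p := by exact_mod_cast hpp.one_lt
  have hpm : (0 : ℝ) < p - 1 := by linarith
  have hδ : 0 ≤ Θ (p + 1) - Θ p * (1 + 2 * P.sg p / ((p : ℝ) - 1)) := by linarith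
  rcases lt_or_ge p v.n with hlt | hge
  · refine ⟨fun _ => 0, ?_, fun r hr => ?_⟩
    · have hN : ∀ j ∈ A, Nc p (1 - 1 / (p : ℝ))⁻¹ (Ep s.M ((D.toFT v.B v.A (.leaf Sl)).U 1 j)) :=
        fun j hj => H.nc p s.M j hpp hlt h.M0 fun _ => by rw [hA j hj]; exact hu
      have hc : (1 - 1 / (p : ℝ))⁻¹ - 1 = 1 / ((p : ℝ) - 1) := by
        have : (1 : ℝ) - 1 / p = (p - 1) / p := by field_simp
        rw [this, inv_div]
        field_simp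
        ring
      have hc1 : 1 ≤ (1 - 1 / (p : ℝ))⁻¹ := by
        have : 0 ≤ 1 / ((p : ℝ) - 1) := by positivity
        linarith
      have key := Crest.Agent.R4P.LeafTie28.os_tieU' H.b0 H.F H.Wt hy.S h.M0 h.M0' hc1 hN
      rw [hc] at key
      have k2 : 0 ≤ C₀ * (Θ (p + 1) - Θ p * (1 + 2 * P.sg p / ((p : ℝ) - 1))) *
          (mq * nuL W s) := mul_nonneg (mul_nonneg (by linarith) hδ) hmν
      rw [Finset.sum_const_zero]
      linarith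
    · have k := hph r hr
      have k2 : 0 ≤ (v.B : ℝ) * s.u.B * Vc p (SE s.M v.B v.A s.M' s.u.B s.u.A (q, r)) (q, r) :=
        mul_nonneg (by positivity) (h1 _ _ _)
      linarith
  · refine ⟨fun r => (v.B : ℝ) * s.u.B *
      Vc p (SE s.M v.B v.A s.M' s.u.B s.u.A (q, r)) (q, r), ?_, hph⟩
    have k1 := H.miss hA e h hJ (V := Vc p) (h1 p) hVc
    have k2 : 1 / 2 * (p : ℝ) ^ (-(11/12) : ℝ) ≤
        C₀ * (Θ (p + 1) - Θ p * (1 + 2 * P.sg p / ((p : ℝ) - 1))) := by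
      have a1 : (p : ℝ) ^ (-(11/12) : ℝ) ≤ 1 :=
        Real.rpow_le_one_of_one_le_of_nonpos hp1.le (by norm_num)
      have a2 := hΘ1 hge
      nlinarith
    have k3 := mul_le_mul_of_nonneg_right k2 hmν
    have hM2 : 0 < p * s.M := Nat.mul_pos hpp.pos h.M0
    have k4 : 0 ≤ Q (Ro (D.rho p)) (D.uA (p * s.M) v.B v.A (.leaf Sl) A 1)
        (D.uA s.M' (s.u.B * p) s.u.A t₀ A' 1) :=
      Q_uA_nonneg hM2 h.M0' H.b0 hy.S.br₀.hb H.F hy.S.br₀.hF H.Wt hy.S.br₀.hW (one_dvd _)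
        (one_dvd _) _
    have k5 : 0 ≤ 1 / ((p : ℝ) - 1) * (1 / (p : ℝ) * Q (Ro (D.rho p))
        (D.uA (p * s.M) v.B v.A (.leaf Sl) A 1) (D.uA s.M' (s.u.B * p) s.u.A t₀ A' 1)) := by
      positivity
    linarith

end item

/-! ### levels -/

/-- the level invariant of the leaf walk is inherited -/
lemma lv_next {a q : ℕ} {w : ℝ} {s s₂ : LSt} (hm : LMv a q w s s₂) (hok : s.t.Ok s.u.n) {m : ℕ}
    (h : ∀ l : ℕ, l.Prime → l < WalkIT579.tp s.t → l < m) :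
    ∀ l : ℕ, l.Prime → l < WalkIT579.tp s₂.t → l < m :=
  fun l hl hlt => h l hl (hlt.trans_le (Crest.Agent.R4P.LeafMg30.LMv.rel hm hok).1)

/-- the level invariant at the start -/
lemma lv_start {P : Bld532.Par} {W : ℕ → ℝ} {Qp : NS → IT → Prop} {RP : Finset (Λ × Λ) → Prop}
    (hh : YH D sp P W Qp) {s : St Λ κ} {u u' : NS} {τ τ' : IT} (hy : YI D sp Qp RP s u u' τ τ')
    (hl : ¬ (s.t.isLeaf ∧ s.t'.isLeaf)) :
    (∀ l : ℕ, l.Prime → l < WalkIT579.tp τ' → l < u.n) ∧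
      ∀ l : ℕ, l.Prime → l < WalkIT579.tp τ → l < u'.n := by
  obtain ⟨-, h1, h2⟩ := hy.lev hh hl
  obtain ⟨t1, t2⟩ := Crest.Agent.R4P.IvX29.tp_le_p hy
  exact ⟨fun l hp hlt => h1.2 l hp (hlt.trans_le t2), fun l hp hlt => h2.2 l hp (hlt.trans_le t1)⟩

/-! ### the function `Θ` -/

open Classical in
/-- `Θ` with a jump at the level `m` of the leaf -/
noncomputable def Th (m n : ℕ) : ℝ :=
  3 / 2 - 1 / 2 * ((n : ℝ) + 1) ^ (-(1 / 2) : ℝ) +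
    if ∃ l : ℕ, l.Prime ∧ m ≤ l ∧ l < n then 1 / 2 else 0

lemma pw_le (n : ℕ) : ((n : ℝ) + 1) ^ (-(1 / 2) : ℝ) ≤ 1 :=
  Real.rpow_le_one_of_one_le_of_nonpos (by have : (0:ℝ) ≤ n := Nat.cast_nonneg n
                                           linarith) (by norm_num)

lemma pw_nn (n : ℕ) : 0 ≤ ((n : ℝ) + 1) ^ (-(1 / 2) : ℝ) := by positivity

lemma Th_one (m n : ℕ) : 1 ≤ Th m n := by
  unfold Th
  have := pw_le n
  split_ifs <;> linarith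

lemma Th_two (m n : ℕ) : Th m n ≤ 2 := by
  unfold Th
  have := pw_nn n
  split_ifs <;> linarith

lemma Th_mono (m : ℕ) : Monotone (Th m) := by
  intro n n' h
  unfold Th
  have h1 : ((n' : ℝ) + 1) ^ (-(1 / 2) : ℝ) ≤ ((n : ℝ) + 1) ^ (-(1 / 2) : ℝ) := by
    refine Real.rpow_le_rpow_of_nonpos (by positivity) ?_ (by norm_num)
    have : (n : ℝ) ≤ n' := by exact_mod_cast h
    linarith
  by_cases h2 : ∃ l : ℕ, l.Prime ∧ m ≤ l ∧ l < n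
  · obtain ⟨l, a, b, c⟩ := h2
    rw [if_pos ⟨l, a, b, c⟩, if_pos ⟨l, a, b, c.trans_le h⟩]
    linarith
  · rw [if_neg h2]
    split_ifs <;> linarith

open Classical in
/-- the step condition in terms of a number -/
lemma Th_step {m p : ℕ} {x : ℝ} (hx : 0 ≤ x)
    (h : 2 * x ≤ 1 / 2 * (((p : ℝ) + 1) ^ (-(1 / 2) : ℝ) - ((p : ℝ) + 2) ^ (-(1 / 2) : ℝ))) :
    Th m p * (1 + x) ≤ Th m (p + 1) ∧
      (p.Prime → m ≤ p → (∀ l : ℕ, l.Prime → l < p → l < m) →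
        1 / 2 ≤ Th m (p + 1) - Th m p * (1 + x)) := by
  have h2 := Th_two m p
  have h3 : Th m p * x ≤ 2 * x := mul_le_mul_of_nonneg_right h2 hx
  have e : (((p + 1 : ℕ) : ℝ) + 1) = (p : ℝ) + 2 := by push_cast; ring
  have key : ∀ a b : ℝ, Th m p = 3 / 2 - 1 / 2 * ((p : ℝ) + 1) ^ (-(1 / 2) : ℝ) + a →
      Th m (p + 1) = 3 / 2 - 1 / 2 * ((p : ℝ) + 2) ^ (-(1 / 2) : ℝ) + b →
      b - a ≤ Th m (p + 1) - Th m p * (1 + x) := by
    intro a b ha hb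
    have : Th m p * (1 + x) = Th m p + Th m p * x := by ring
    rw [this]
    linarith
  constructor
  · have h4 : (if ∃ l : ℕ, l.Prime ∧ m ≤ l ∧ l < p then (1 / 2 : ℝ) else 0) ≤
        if ∃ l : ℕ, l.Prime ∧ m ≤ l ∧ l < p + 1 then 1 / 2 else 0 := by
      by_cases h5 : ∃ l : ℕ, l.Prime ∧ m ≤ l ∧ l < p
      · obtain ⟨l, a, b, c⟩ := h5
        rw [if_pos ⟨l, a, b, c⟩, if_pos ⟨l, a, b, by omega⟩]
      · rw [if_neg h5]
        split_ifs <;> norm_num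
    have := key _ _ (by unfold Th; rfl) (by unfold Th; rw [e])
    linarith
  · intro hp hm hl
    have h5 : ¬ ∃ l : ℕ, l.Prime ∧ m ≤ l ∧ l < p := by
      rintro ⟨l, a, b, c⟩
      have := hl l a c
      omega
    have h6 : ∃ l : ℕ, l.Prime ∧ m ≤ l ∧ l < p + 1 := ⟨p, hp, hm, by omega⟩
    have := key 0 (1 / 2) (by unfold Th; rw [if_neg h5]) (by unfold Th; rw [e, if_pos h6])
    linarith

/-! ### numbers -/

lemma pw_diff (p : ℕ) : 1 / (2 * (((p : ℝ) + 2) * Real.sqrt ((p : ℝ) + 2))) ≤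
    ((p : ℝ) + 1) ^ (-(1 / 2) : ℝ) - ((p : ℝ) + 2) ^ (-(1 / 2) : ℝ) := by
  have hp : (0 : ℝ) ≤ p := Nat.cast_nonneg p
  set a : ℝ := Real.sqrt ((p : ℝ) + 1) with ha
  set b : ℝ := Real.sqrt ((p : ℝ) + 2) with hb
  have ha0 : 0 < a := Real.sqrt_pos.2 (by linarith)
  have hb0 : 0 < b := Real.sqrt_pos.2 (by linarith)
  have ha2 : a ^ 2 = p + 1 := Real.sq_sqrt (by linarith)
  have hb2 : b ^ 2 = p + 2 := Real.sq_sqrt (by linarith)
  have hab : a ≤ b := Real.sqrt_le_sqrt (by linarith)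
  have e1 : ((p : ℝ) + 1) ^ (-(1 / 2) : ℝ) = 1 / a := by
    rw [Real.rpow_neg (by linarith), ← Real.sqrt_eq_rpow, one_div]
  have e2 : ((p : ℝ) + 2) ^ (-(1 / 2) : ℝ) = 1 / b := by
    rw [Real.rpow_neg (by linarith), ← Real.sqrt_eq_rpow, one_div]
  rw [e1, e2]
  have e3 : 1 / a - 1 / b = 1 / (a * b * (a + b)) := by
    have hd : (b - a) * (b + a) = 1 := by nlinarith
    field_simp
    linarith
  rw [e3]
  refine one_div_le_one_div_of_le (by positivity) ?_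
  rw [← hb2]
  have h1 : a * b ≤ b * b := mul_le_mul_of_nonneg_right hab hb0.le
  have h2 : a + b ≤ 2 * b := by linarith
  calc a * b * (a + b) ≤ b * b * (2 * b) := mul_le_mul h1 h2 (by positivity) (by positivity)
    _ = _ := by ring

lemma log_small (C K : ℝ) {δ : ℝ} (hδ : 0 < δ) :
    ∃ p₁ : ℕ, ∀ p : ℕ, p₁ ≤ p → C * Real.log p ^ K ≤ (p : ℝ) ^ δ := by
  have h := (isLittleO_log_rpow_rpow_atTop K hδ).bound
    (show (0 : ℝ) < 1 / (|C| + 1) by positivity)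
  have h2 := tendsto_natCast_atTop_atTop (R := ℝ) |>.eventually h
  obtain ⟨n, hn⟩ := Filter.eventually_atTop.1 h2
  refine ⟨n + 1, fun p hp => ?_⟩
  have h3 := hn p (by omega)
  have hl : 0 ≤ Real.log (p : ℝ) := Real.log_natCast_nonneg p
  rw [Real.norm_of_nonneg (Real.rpow_nonneg hl _), Real.norm_of_nonneg (by positivity)] at h3
  have hC : 0 < |C| + 1 := by positivity
  have h4 : C * Real.log p ^ K ≤ (|C| + 1) * Real.log p ^ K :=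
    mul_le_mul_of_nonneg_right (by linarith [le_abs_self C]) (Real.rpow_nonneg hl _)
  refine h4.trans ?_
  calc (|C| + 1) * Real.log p ^ K ≤ (|C| + 1) * (1 / (|C| + 1) * (p : ℝ) ^ δ) :=
        mul_le_mul_of_nonneg_left h3 hC.le
    _ = _ := by field_simp

/-- **the numbers of `Th`** -/
theorem exists_Th (B : ℝ) : ∃ p₁ : ℕ, ∀ p : ℕ, p₁ ≤ p →
    0 ≤ 2 * (Real.log p ^ B / p) / ((p : ℝ) - 1) ∧
    2 * (2 * (Real.log p ^ B / p) / ((p : ℝ) - 1)) ≤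
      1 / 2 * (((p : ℝ) + 1) ^ (-(1 / 2) : ℝ) - ((p : ℝ) + 2) ^ (-(1 / 2) : ℝ)) := by
  obtain ⟨n, hn⟩ := log_small 96 B (δ := 1 / 2) (by norm_num)
  refine ⟨n + 4, fun p hp => ?_⟩
  have h := hn p (by omega)
  have hp4 : (4 : ℝ) ≤ p := by exact_mod_cast (by omega : 4 ≤ p)
  have hl : 0 ≤ Real.log (p : ℝ) := Real.log_natCast_nonneg p
  set L : ℝ := Real.log p ^ B with hL
  have hL0 : 0 ≤ L := Real.rpow_nonneg hl _
  have hpm : (0 : ℝ) < p - 1 := by linarith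
  refine ⟨by positivity, ?_⟩
  refine le_trans ?_ (mul_le_mul_of_nonneg_left (pw_diff p) (by norm_num))
  rw [← Real.sqrt_eq_rpow] at h
  set r : ℝ := Real.sqrt p with hr
  have hr0 : 0 < r := Real.sqrt_pos.2 (by linarith)
  have hr2 : r ^ 2 = p := Real.sq_sqrt (by linarith)
  have hb : Real.sqrt ((p : ℝ) + 2) ≤ 3 / 2 * r := by
    rw [Real.sqrt_le_left (by positivity)]
    rw [mul_pow, hr2]
    linarith
  have hb0 : 0 < Real.sqrt ((p : ℝ) + 2) := Real.sqrt_pos.2 (by linarith)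
  have e : 2 * (2 * (L / p) / ((p : ℝ) - 1)) = 4 * L / (p * (p - 1)) := by
    field_simp
    ring
  rw [e]
  have e2 : 1 / 2 * (1 / (2 * (((p : ℝ) + 2) * Real.sqrt ((p : ℝ) + 2)))) =
      1 / (4 * (((p : ℝ) + 2) * Real.sqrt ((p : ℝ) + 2))) := by
    field_simp
    ring
  rw [e2, div_le_div_iff₀ (by positivity) (by positivity), one_mul]
  calc 4 * L * (4 * (((p : ℝ) + 2) * Real.sqrt ((p : ℝ) + 2)))
      ≤ 4 * L * (4 * (((p : ℝ) + 2) * (3 / 2 * r))) := by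
        refine mul_le_mul_of_nonneg_left (mul_le_mul_of_nonneg_left
          (mul_le_mul_of_nonneg_left hb (by positivity)) (by norm_num)) (by positivity)
    _ = 1 / 4 * ((96 * L) * r) * ((p : ℝ) + 2) := by ring
    _ ≤ 1 / 4 * (r * r) * ((p : ℝ) + 2) := by
        refine mul_le_mul_of_nonneg_right (mul_le_mul_of_nonneg_left
          (mul_le_mul_of_nonneg_right h hr0.le) (by norm_num)) (by positivity)
    _ = 1 / 4 * p * (p + 2) := by rw [← sq, hr2]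
    _ ≤ p * (p - 1) := by nlinarith

/-! ### contexts -/

section ctx
open Crest.Agent.R4P.Data758 Crest.Agent.R4P.Om532
open Crest.Agent.R4P.OmData532 Crest.Agent.R4.LF363
open Crest.Agent.R4P.Step588 (NDt ND1 CT CT_pos)
open Crest.Agent.R4P.Skel189 (Ctx top Kc)
open Crest.Agent.R4P.LLCtx30 Crest.Agent.R4P.LeafOs30
open Crest.Agent.R4.Soft104 (w)
open Crest.Agent.R4P.SameIx30 (wts_nd)
open Crest.Agent.R4P

variable {N : Skel189.Num} {γ : ℝ} {P₀ : ℕ}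

/-- the numbers of the products -/
def PrN (B : ℝ) (p : ℕ) : Prop :=
  64 * CV * Real.exp 2 * CT * (Real.log p * (Real.log p ^ B / p)) ≤ (p : ℝ) ^ (-(11/12) : ℝ)

lemma CV_nn : 0 ≤ CV := by have := CV_ge; linarith

lemma exists_PrN (B : ℝ) : ∃ p₁ : ℕ, ∀ p : ℕ, p₁ ≤ p → PrN B p := by
  obtain ⟨n, hn⟩ := log_small (64 * CV * Real.exp 2 * CT) (1 + B) (δ := 1 / 12) (by norm_num)
  refine ⟨n + 3, fun p hp => ?_⟩
  have h := hn p (by omega)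
  have hp3 : 3 ≤ p := by omega
  have hpR : (0 : ℝ) < p := by exact_mod_cast (by omega : 0 < p)
  have hl : 1 ≤ Real.log (p : ℝ) := Bld532.one_le_log_nat hp3
  unfold PrN
  rw [Real.rpow_add (by linarith), Real.rpow_one] at h
  have e : 64 * CV * Real.exp 2 * CT * (Real.log p * (Real.log p ^ B / p)) =
      64 * CV * Real.exp 2 * CT * (Real.log p * Real.log p ^ B) * (p : ℝ)⁻¹ := by
    field_simp
  rw [e]
  calc _ ≤ (p : ℝ) ^ (1 / 12 : ℝ) * (p : ℝ)⁻¹ :=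
        mul_le_mul_of_nonneg_right h (by positivity)
    _ = (p : ℝ) ^ (-(11/12) : ℝ) := by
        rw [← Real.rpow_neg_one (p : ℝ), ← Real.rpow_add hpR]
        norm_num

/-- **the environment of a leaf item of a context** -/
theorem ctx_EL {p0 : ℕ} (hp₁ : ∀ p : ℕ, p0 < p → PrN N.B p) {X : Ctx N γ p0 P₀}
    {Y : Finset (ℕ × ℕ × Finset ℕ)} {sp : ℕ → Finset X.c.Lam} {Qp : NS → IT → Prop}
    (hh : YH (X.c.D.par Y) sp X.par (w X.ψ) Qp) {U : ℕ → Finset ℕ} {c₀ : ℝ}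
    (hob : ∀ u τ, Qp u τ → OB (X.c.D.par Y) X.S' X.par (w X.ψ) U (2 * CT) c₀ p0 u τ)
    (hWρ : ∀ q ∈ X.S', X.c.rr q * tq q ≤ w X.ψ q) {v : NS} {Sl : Finset ℕ}
    (hv : NDt X.par (w X.ψ) X.c.t v (.leaf Sl)) (hl : LfA X Y v Sl)
    {Lo : ℝ × ℝ → ℕ × ℕ → Prop} {x0 y0 : ℕ × ℕ → ℕ} (hL : LoX Lo X.c.rr x0 y0) (q : ℕ) :
    EL (X.c.D.par Y) X.S' sp X.par (w X.ψ) Qp X.c.rr Lo x0 y0 v Sl q
      ((v.B : ℝ) * X.c.rr q * dens (q / v.A).primeFactors) := by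
  have hrr := (X.ok.rad Y).pos
  have hd : 0 ≤ dens (q / v.A).primeFactors :=
    (dens_pos fun l hl => Nat.prime_of_mem_primeFactors hl).le
  have hW : ∀ q, 0 ≤ w X.ψ q := fun q => Crest.Agent.R4.Soft104.w_nonneg X.sys.nonneg q
  have hm : 0 ≤ (v.B : ℝ) * X.c.rr q * dens (q / v.A).primeFactors :=
    mul_nonneg (mul_nonneg (Nat.cast_nonneg _) (hrr q).le) hd
  have hCT : 0 ≤ 2 * CT := by have := CT_pos; linarith
  refine ⟨hL, X.ok.rad Y, fun j hj a => X.om_zero hj _ a, hh, hW, hv.B_pos, hv.fit, wts_nd hv Y, hm,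
    ⟨CV, 2, fun q => (q / v.A).primeFactors, _, PairO28.pairO, CV_nn, SameIx30.LfA.omw hv hl,
      le_rfl, hm, ?_⟩, ?_⟩
  · intro u p S t₁ t₀ A' hQ
    have hn := hh.nd _ _ hQ
    have hn' := hn
    obtain ⟨hp, hpn, hpp0, hlv, -, -, -, -, -, -, -, hsh, -⟩ := hn'
    have hpp0' : p0 < p := hpp0
    have hc := ShrG28.c_nonneg_of_nd hn
    have h1 := sr_le (hob _ _ hQ) hWρ (fun q => (hrr q).le) hW hc hCT hpp0'.le hlv A'
    have hlog : 0 ≤ Real.log (p : ℝ) := Real.log_natCast_nonneg p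
    have hnum := hp₁ p hpp0'
    unfold PrN at hnum
    have hsg : X.par.sg p = Real.log p ^ N.B / p := rfl
    rw [hsg] at hsh
    have hCV := CV_nn
    have hCT0 := CT_pos.le
    calc CV * 2 * Real.exp 2 * SR X.c.rr u.B (Qi (X.c.D.par Y) X.S' t₀ A')
        ≤ CV * 2 * Real.exp 2 * (2 * (2 * CT) * Real.log p * (u.c * Ws (w X.ψ) t₀.items)) :=
          mul_le_mul_of_nonneg_left h1 (by positivity)
      _ ≤ CV * 2 * Real.exp 2 * (2 * (2 * CT) * Real.log p *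
            (u.c * (2 * (Real.log p ^ N.B / p) * Ws (w X.ψ) (t₁.items ∪ t₀.items)))) := by
          refine mul_le_mul_of_nonneg_left (mul_le_mul_of_nonneg_left
            (mul_le_mul_of_nonneg_left hsh hc) (by positivity)) (by positivity)
      _ = 1 / 4 * (64 * CV * Real.exp 2 * CT * (Real.log p * (Real.log p ^ N.B / p))) *
            (u.c * Ws (w X.ψ) (t₁.items ∪ t₀.items)) := by ring
      _ ≤ 1 / 2 * (p : ℝ) ^ (-(11/12) : ℝ) * (u.c * Ws (w X.ψ) (t₁.items ∪ t₀.items)) := by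
          refine mul_le_mul_of_nonneg_right ?_ (mul_nonneg hc (Ws_nn hW _))
          have : 0 ≤ (p : ℝ) ^ (-(11/12) : ℝ) := by positivity
          linarith
  · intro p M j hp hpn hM hd
    exact LeafTie28.ctx_NcA hv Y hp hpn hM hd

end ctx

end Crest.Agent.R4P.LeafLoc28
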