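import Crest.Agent.R4P.NI_10
import Crest.Agent.R4P.OSWS245

/-!
R4 (S0004), powers pass, group [O] (helper14): **node facts of a context**, first half of the port of
helper710's `R4/OSCtx710` (no reference to the columns).

* `ctx_lg` : `1 ≤ 2 CT log p φ(w)/w` at a node with no prime between `p` and the level.
* `mem_sp`, `ctx_spd` : retained primes.
* `ctx_mtP`, `ctx_uqP`, `ctx_mtD` : sparse missing ties and `up` primes of alive items.
* `ctx_fB`, `ctx_side` : side conditions at all the nodes.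
-/

set_option autoImplicit false
set_option linter.unusedSectionVars false
set_option linter.unusedVariables false
open Finset

namespace Crest.Agent.R4P.OSCtx710

open Crest.Agent.R4.Tour104 Crest.Agent.R4.Tour758 Crest.Agent.R4.Avg758 Crest.Agent.R4.Clos758
open Crest.Agent.R4.ClosL758 Crest.Agent.R4.ClosG758 Crest.Agent.R4.ClosR758
open Crest.Agent.R4.Fam464 Crest.Agent.R4P.Cnt588 Crest.Agent.R4P.Walk560 Crest.Agent.R4.Piece464
open Crest.Agent.R4P.Item758 Crest.Agent.R4P.AvgItem710 Crest.Agent.R4P.PrunePar33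
open Crest.Agent.R4P.Data758 Crest.Agent.R4P.WalkIT579
open Crest.Agent.R4P.Bld532 (NS All NodeOk Bk cols_of_All)
open Crest.Agent.R4P.GInst194 Crest.Agent.R4P.NMW710
open Crest.Agent.R4P.NI927 Crest.Agent.R4P.Res927
open Crest.Agent.R4P.Step588 (NDt ND1 ctx_NDt CT CT_pos tot_ge ctx_rr ctx_MsN All_All)
open Crest.Agent.R4P.Skel189 (Ctx top)
open Crest.Agent.R4.DeepSt579 (tq tq_nonneg tq_le_one)
open Crest.Agent.R4P

variable {N : Skel189.Num} {γ : ℝ} {p0 P₀ : ℕ}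

/-- **the sizes of the totients at a node**, any column `p` above all the primes below the level -/
theorem ctx_lg (N : Skel189.Num) : ∃ p₁ : ℕ, ∀ p0 ≥ p₁, ∀ (γ : ℝ) (P₀ : ℕ) (X : Ctx N γ p0 P₀),
    All (fun u τ => ∀ p : ℕ, p0 ≤ p → (∀ r : ℕ, r.Prime → r < u.n → r ≤ p) →
      ∀ q ∈ X.S', q ∈ τ.items → 1 ≤ 2 * CT * Real.log p * tq (q / u.A))
      ⟨top X.S, 1, 1, 1⟩ X.c.t := by
  have hB1 := N.hB
  have hC1 := N.hC1
  have hc2 := N.hc2
  obtain ⟨p1, h1⟩ := tot_ge N.B (N.C1 + N.c2) (by linarith)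
  refine ⟨p1 + 3, fun p0 hp0 γ P₀ X => ?_⟩
  refine All.mono (fun u τ hN p hpp h4 q hq hqt => ?_) (ctx_NDt X)
  have key := h1 p0 (by omega) X.c.t q (ctx_pr X hq)
    (fun l hl => (rt_prime X.c.t X.tOk q l hl).1) (p + 1) (by omega) (q / u.A)
    (Nat.pos_of_ne_zero (hN.div_ne hqt)) fun l hl1 hl2 hl3 =>
      hN.self.ge q hqt l hl1 (by
        by_contra hlt
        have := h4 l hl1 (not_le.1 hlt)
        omega) hl2
  have hlog2 : Real.log ((p + 1 : ℕ) : ℝ) ≤ 2 * Real.log p := by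
    have hp2 : (2 : ℝ) ≤ p := by exact_mod_cast (by omega : 2 ≤ p)
    have h5 : ((p + 1 : ℕ) : ℝ) ≤ (p : ℝ) ^ 2 := by push_cast; nlinarith
    have h6 : (0 : ℝ) < ((p + 1 : ℕ) : ℝ) := by push_cast; linarith
    have h7 := Real.log_le_log h6 h5
    rw [Real.log_pow] at h7
    exact_mod_cast h7
  refine key.trans ?_
  have e : ((q / u.A).totient : ℝ) / ((q / u.A : ℕ) : ℝ) = tq (q / u.A) := rfl
  rw [e]
  refine mul_le_mul_of_nonneg_right ?_ (tq_nonneg _)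
  have := mul_le_mul_of_nonneg_left hlog2 CT_pos.le
  linarith

/-- retained primes -/
lemma mem_sp (X : Ctx N γ p0 P₀) {b : ℕ} {j : X.c.Lam} : j ∈ X.c.sp b ↔ b ∈ rt X.c.t j.1.1 := by
  unfold Cf.sp
  simp

/-- `rt` is the set of the `up` primes -/
lemma mem_sp_uq (X : Ctx N γ p0 P₀) {b : ℕ} {j : X.c.Lam} :
    j ∈ X.c.sp b ↔ b ∈ X.c.t.uq j.1.1 := mem_sp X

/-- retained primes divide the items -/
lemma ctx_spd (X : Ctx N γ p0 P₀) (Y : Finset (ℕ × ℕ × Finset ℕ)) (b : ℕ) :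
    ∀ j ∈ X.c.sp b, b ∣ (X.c.D.par Y).it j := by
  intro j hj
  have h1 := (mem_sp X).1 hj
  have h2 : j.1.1 ∈ X.c.t.items := by rw [X.items, ← X.hS]; exact Cf.mem_S j
  have h3 := (ctx_NDt X).self
  exact (h3.rd _ h2 b h1).trans (Nat.div_dvd_of_dvd (h3.dvd _ h2))

/-- the populations of the `up` primes -/
lemma ctx_spU (X : Ctx N γ p0 P₀) (Y : Finset (ℕ × ℕ × Finset ℕ)) (b : ℕ) (j : X.c.Lam) :
    j ∈ X.c.sp b ↔ b ∈ X.c.t.uq ((X.c.D.par Y).it j) := mem_sp X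

/-- sparse missing ties of the alive items -/
lemma ctx_mtP (X : Ctx N γ p0 P₀) (hp3 : 3 ≤ p0) {q : ℕ} (hq : q ∈ X.S') {M : Finset ℕ}
    (hM : M ⊆ X.c.t.mt q) : (∀ p ∈ M, p0 < p) ∧
      ∀ P : ℕ, p0 ≤ P → ((M.filter (· ≤ P)).card : ℝ) ≤ Real.log P ^ (N.B + 1) := by
  have hB1 := N.hB
  have hC1 := N.hC1
  have hc2 := N.hc2
  have hpr := ctx_pr X hq
  refine ⟨fun p hp => ctx_cols X q p (Or.inl (hM hp)), fun P hP => ?_⟩
  have hlog : 1 ≤ Real.log P := Bld532.one_le_log_nat (by omega)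
  have h2 : ((M.filter (· ≤ P)).card : ℝ) ≤ (((X.c.t.mt q).filter (· ≤ P)).card : ℝ) := by
    exact_mod_cast Finset.card_le_card (Finset.filter_subset_filter _ hM)
  refine h2.trans ((hpr.mt P hP).trans ?_)
  exact Real.rpow_le_rpow_of_exponent_le hlog (by linarith)

/-- sparse retained primes of the alive items -/
lemma ctx_uqP (X : Ctx N γ p0 P₀) {q : ℕ} (hq : q ∈ X.S') {M : Finset ℕ}
    (hM : M ⊆ X.c.t.uq q) : (∀ p ∈ M, p0 < p) ∧
      ∀ P : ℕ, p0 ≤ P → ((M.filter (· ≤ P)).card : ℝ) ≤ Real.log P ^ (N.B + 1) := by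
  have hpr := ctx_pr X hq
  refine ⟨fun p hp => ctx_cols X q p (Or.inr (Or.inr (hM hp))), fun P hP => ?_⟩
  refine le_trans ?_ (hpr.uq P hP)
  exact_mod_cast Finset.card_le_card (Finset.filter_subset_filter _ hM)

/-- the `Fit`, `Wts` and positivity of the nodes of a context -/
theorem ctx_side (X : Ctx N γ p0 P₀) (Y : Finset (ℕ × ℕ × Finset ℕ)) {u : NS} {τ : IT}
    (hN : NDt X.par (Crest.Agent.R4.Soft104.w X.ψ) X.c.t u τ) :
    0 < u.B ∧ Fit u.B u.A τ ∧ (X.c.D.par Y).Wts u.A τ ∧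
      All (NodeOk X.par (Crest.Agent.R4.Soft104.w X.ψ)) u τ := by
  have hnodes := Bld532.All.mono (fun s t h => h.node) hN.all
  have hF : Fit u.B u.A τ := Bld532.Fit_of_NodeOk hnodes
  refine ⟨?_, hF, ?_, hnodes⟩
  · exact Nat.pos_of_ne_zero hN.bk.sfB.ne_zero
  · intro j hj
    rw [← hN.self.pp _ hj]
    exact X.ok.wt _ (Cf.mem_S j) _

/-- **missing ties of a piece of positive mass at a node** -/
theorem ctx_mtD (X : Ctx N γ p0 P₀) {Y : Finset (ℕ × ℕ × Finset ℕ)} {sp : ℕ → Finset X.c.Lam}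
    {u : NS} {τ : IT} {A : Finset X.c.Lam} {n : ℕ} (hO : τ.Ok n)
    (hb : 0 < u.B) (hF : Fit u.B u.A τ) (hW : (X.c.D.par Y).Wts u.A τ)
    (hs : SideI (X.c.D.par Y) sp u.B u.A τ A ((X.c.D.par Y).toDT sp u.B u.A τ))
    {j : X.c.Lam} (hm : mI ((X.c.D.par Y).toDT sp u.B u.A τ) j ≠ 0) :
    (X.c.D.par Y).it j ∈ X.S' ∧ (X.c.D.par Y).it j ∈ τ.items ∧
      Res927.mtD (IMI194.dvM mI) j ((X.c.D.par Y).toDT sp u.B u.A τ) =
        τ.mt ((X.c.D.par Y).it j) := by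
  have hab : ∀ j, (X.c.D.par Y).al j ≤ (X.c.D.par Y).be j :=
    fun j => X.ok.bpm _ (Cf.mem_S j) (Cf.r_pos j) (Nat.le_succ _)
  have hq : (X.c.D.par Y).it j ∈ τ.items := by
    by_contra hn
    exact hm (IMI194.mI_zero hb hF hW hn)
  have hal : (X.c.D.par Y).it j ∈ X.S' :=
    mem_of_mI (D := X.c.D.par Y) (Al := X.S') (fun j hj a => ctx_dead X j hj a)
      hab hb hF hW hs hq hm
  have hdv : OSWI245.DvAt (X.c.D.par Y) sp (IMI194.dvM mI) j u.B u.A τ :=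
    OSWI245.DvAt_of hab (fun _ _ _ _ _ _ _ _ => Iff.rfl) (fun _ _ _ _ => Iff.rfl) hb hF hW hm
  exact ⟨hal, hq, OSWI245.mtD_toDT hO hdv⟩

end Crest.Agent.R4P.OSCtx710
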