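import Crest.Agent.R4P.SkelPart_3
import Crest.Agent.R4P.LeafIC368

/-!
R4 (S0004), powers pass, group [K] (helper3): **MAIN FROM THE SEVEN PARTS OF THE NODE ERRORS**.

* `MAIN_of_nodeParts` : leaf modules + node parts for one walk rule per context.
* `LeafNum` / `leaf_parts` : the two leaf modules for concrete `thrL`, `depL`.
* `MAIN_of_seven` : the seven parts as separate statements for a common family `σ` of walk rules.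
-/

set_option autoImplicit false

open MeasureTheory Filter

namespace Crest.Agent.R4P.Skel189

open Crest.Agent.R4P.Cnt588 Crest.Agent.R4.Max709 Crest.Agent.R4.Tour104 Crest.Agent.R4P.Item758
open Crest.Agent.R4P.Bld532 Crest.Agent.R4P.PrunePar33 Crest.Agent.R4P.PruneSep532
open Crest.Agent.R4P.Data758 Crest.Agent.R4P.OmData532 Crest.Agent.R4P.LfDat734
open Crest.Agent.R4P.W363 Crest.Agent.R4P.WPex189 Crest.Agent.R4P.Asm532 Crest.Agent.R4P.Walk560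
open Crest.Agent.R4.Soft104 Crest.Agent.R4P.Frame758
open Crest.Agent.R4.ClosR758 Crest.Agent.R4.Avg758 Crest.Agent.R4.Clos758 Crest.Agent.R4.ClosL758
open Crest.Agent.R4.ClosG758 Crest.Agent.R4.Tour758 Crest.Agent.R4.Fam464
open Crest.Agent.R4P.ClosP542 (PulG)
open Crest.Agent.R4.Item758 (AdI)
open Crest.Agent.R4.Fin532 (MAIN)
open Crest.Agent.R4P.LeafC734 (LNum exists_LNum leafE_ctx)

/-- **MAIN FROM THE LEAVES AND THE SEVEN PARTS OF THE NODE ERRORS** -/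
theorem MAIN_of_nodeParts (N : Num) {γ : ℝ} (hS2 : HS2 N)
    {C C₀ η B : ℕ → ℝ} (hC : ∀ p, 0 ≤ C p) (hC₀ : ∀ p, 0 ≤ C₀ p) (hη : ∀ p, 0 ≤ η p)
    (hB : ∀ p, 0 ≤ B p)
    (leafE : ∃ p₁ : ℕ, ∀ p0 ≥ p₁, ∃ Q₁ : ℕ, ∀ P₀ ≥ Q₁, ∀ X : Ctx N γ p0 P₀,
      LeafAll (LeafE X.c.D (wt X.c.D) (C p0)) 1 1 1 X.c.t)
    (leafI : ∃ p₁ : ℕ, ∀ p0 ≥ p₁, ∃ Q₁ : ℕ, ∀ P₀ ≥ Q₁, ∀ X : Ctx N γ p0 P₀,
      LeafAll (LeafI X.c.D (wt X.c.D) (C₀ p0)) 1 1 1 X.c.t)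
    (node : ∃ p₁ : ℕ, ∀ p0 ≥ p₁, ∃ Q₁ : ℕ, ∀ P₀ ≥ Q₁, ∀ X : Ctx N γ p0 P₀, ∀ j₀ : X.c.Lam,
      ∃ stp : X.STP, (∀ s : X.Sta, s.O = ∅ → s.O' = ∅ → ¬ stp s) ∧
        (∀ (d : DT X.c.Lam (Lb (WL X.c.Lam) X.Y)) (A : Finset X.c.Lam), stp.jt (selfSt d A)) ∧
        NodeParts X j₀ (X.Boot j₀ (fun _ _ => 0) (16 * (C p0 + C₀ p0 + η p0 + B p0 + 1)))
          stp (B p0) (η p0)) :
    MAIN γ := by
  refine MAIN_of_parts N hS2 (δ₀ := fun _ => 0) hC hC₀ hη hB (fun _ => le_rfl) leafE leafI ?_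
  obtain ⟨p₁, h⟩ := node
  refine ⟨p₁, fun p0 hp0 => ?_⟩
  obtain ⟨Q₁, h1⟩ := h p0 hp0
  refine ⟨Q₁, fun P₀ hP X j₀ => ?_⟩
  obtain ⟨stp, k1, k2, k3⟩ := h1 P₀ hP X j₀
  exact ⟨stp, fun _ _ => 0, k1, k2, slack_zero _ _, le_rfl,
    nodeE_of_parts (fun _ _ _ _ => le_rfl) k3⟩

/-! ### the leaves -/

/-- the numerical requirements of the two leaf modules -/
structure LeafNum (N : Num) (C₀ : ℝ) : Prop where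
  E : ∃ K : ℝ, 0 ≤ K ∧ ∃ p₁ : ℕ, ∀ p0 ≥ p₁, ∀ (γ : ℝ) (P₀ : ℕ), 2 ≤ P₀ →
    ∀ X : Ctx N γ p0 P₀, LeafAll (LeafE X.c.D (wt X.c.D) (K * Real.log p0 ^ N.c2)) 1 1 1 X.c.t
  I : ∃ p₁ : ℕ, ∀ p0 ≥ p₁, ∀ (γ : ℝ) (P₀ : ℕ), 2 ≤ P₀ → ∀ X : Ctx N γ p0 P₀,
    LeafAll (LeafI X.c.D (wt X.c.D) C₀) 1 1 1 X.c.t

/-- **the leaf modules**: `C1` large, `B ≤ 4 C1`; then `thrL`, `depL` exist (for the other fields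
of `N` arbitrary) -/
theorem leaf_parts : ∃ c₁ C₀ : ℝ, 1 ≤ c₁ ∧ 1 ≤ C₀ ∧ ∀ B C1 c2 : ℝ, c₁ ≤ C1 → 0 < c2 → c2 ≤ C1 →
    B ≤ 4 * C1 → ∃ (thrL : ℕ → ℕ → ℝ) (depL : ℕ → ℕ → ℕ), ∀ N : Num, N.B = B → N.C1 = C1 →
      N.c2 = c2 → N.thrL = thrL → N.depL = depL → LeafNum N C₀ := by
  obtain ⟨c0, hc0, HE⟩ := leafE_ctx 40
  obtain ⟨c0', C₀, hc0', hC₀, HI⟩ := LeafIC368.leafI_ctx
  refine ⟨1 / c0 + 1 / c0' + 4, C₀, by have : 0 < 1 / c0 := by positivity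
                                       have : 0 < 1 / c0' := by positivity
                                       linarith, hC₀, fun B C1 c2 h1 h2 h2' h3 => ?_⟩
  have k0 : 0 < 1 / c0 := by positivity
  have k0' : 0 < 1 / c0' := by positivity
  have hC1 : 4 ≤ C1 := by linarith
  obtain ⟨p₂, -, thrL, depL, hL⟩ := exists_LNum (C6 := C1 - 2) (C7 := B + c2 + C1 + 1)
    (by linarith) 40 0 (by push_cast; nlinarith)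
  refine ⟨thrL, depL, fun N e1 e2 e3 e4 e5 => ⟨?_, ?_⟩⟩
  · exact HE N (((40 : ℕ) : ℝ) * (C1 - 2)) (C1 - 2) (B + c2 + C1 + 1) p₂ (by rw [e3]; exact h2)
      (mul_nonneg (Nat.cast_nonneg _) (by linarith)) (by linarith) (by rw [e2]; linarith)
      (by rw [e2]; linarith) (by rw [e4, e5]; exact hL)
  · exact HI N (((40 : ℕ) : ℝ) * (C1 - 2)) (C1 - 2) (B + c2 + C1 + 1) 40 p₂ (by rw [e3]; exact h2) (by linarith)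
      (by rw [e2]; linarith) (by rw [e1, e2, e3]) (by rw [e4, e5]; exact hL)

/-- a family of statements about contexts, for `p0` large and `P₀` large after `p0` -/
def Ev (N : Num) (γ : ℝ) (F : ∀ (p0 P₀ : ℕ), Ctx N γ p0 P₀ → Prop) : Prop :=
  ∃ p₁ : ℕ, ∀ p0 ≥ p₁, ∃ Q₁ : ℕ, ∀ P₀ ≥ Q₁, ∀ X : Ctx N γ p0 P₀, F p0 P₀ X

lemma Ev.and {N : Num} {γ : ℝ} {F G : ∀ (p0 P₀ : ℕ), Ctx N γ p0 P₀ → Prop} (h : Ev N γ F)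
    (h' : Ev N γ G) : Ev N γ fun p0 P₀ X => F p0 P₀ X ∧ G p0 P₀ X := by
  obtain ⟨p₁, h⟩ := h
  obtain ⟨p₂, h'⟩ := h'
  refine ⟨p₁ + p₂, fun p0 hp => ?_⟩
  obtain ⟨Q₁, k⟩ := h p0 (by omega)
  obtain ⟨Q₂, k'⟩ := h' p0 (by omega)
  exact ⟨Q₁ + Q₂, fun P₀ hP X => ⟨k P₀ (by omega) X, k' P₀ (by omega) X⟩⟩

lemma Ev.mono {N : Num} {γ : ℝ} {F G : ∀ (p0 P₀ : ℕ), Ctx N γ p0 P₀ → Prop} (h : Ev N γ F)
    (hFG : ∀ p0 P₀ X, F p0 P₀ X → G p0 P₀ X) : Ev N γ G := by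
  obtain ⟨p₁, h⟩ := h
  refine ⟨p₁, fun p0 hp => ?_⟩
  obtain ⟨Q₁, k⟩ := h p0 hp
  exact ⟨Q₁, fun P₀ hP X => hFG _ _ _ (k P₀ hP X)⟩

/-- statements which hold for `p0 ≥ p₁`, `P₀ ≥ 2` -/
lemma Ev.of {N : Num} {γ : ℝ} {F : ∀ (p0 P₀ : ℕ), Ctx N γ p0 P₀ → Prop} {p₁ : ℕ}
    (h : ∀ p0 ≥ p₁, ∀ P₀ : ℕ, 2 ≤ P₀ → ∀ X : Ctx N γ p0 P₀, F p0 P₀ X) : Ev N γ F :=
  ⟨p₁, fun p0 hp => ⟨2, fun P₀ hP X => h p0 hp P₀ hP X⟩⟩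

/-- the bootstrap constant -/
noncomputable def Kbt (N : Num) (K C₀ : ℝ) (η B : ℕ → ℝ) (p0 : ℕ) : ℝ :=
  16 * (K * Real.log p0 ^ N.c2 + C₀ + η p0 + B p0 + 1)

/-- **MAIN from the seven parts**: `σ` = walk rule of a context, `a i` = constants (functions of
`p0`), bootstrap constant `Kbt N K C₀ (∑ a) B` for an arbitrary `K ≥ 0` (from the leaf module). -/
theorem MAIN_of_seven (N : Num) {γ : ℝ} (hS2 : HS2 N) {C₀ : ℝ} (hC₀ : 0 ≤ C₀) (hL : LeafNum N C₀)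
    (σ : ∀ {p0 P₀ : ℕ} (X : Ctx N γ p0 P₀), X.c.Lam → X.STP)
    (hσ0 : Ev N γ fun _ _ X => ∀ j₀, ∀ s : X.Sta, s.O = ∅ → s.O' = ∅ → ¬ (σ X j₀) s)
    (hσj : Ev N γ fun _ _ X => ∀ j₀, ∀ (d : DT X.c.Lam (Lb (WL X.c.Lam) X.Y)) (A : Finset X.c.Lam),
      (σ X j₀).jt (selfSt d A))
    {B a₁ a₂ a₃ a₄ a₅ a₆ a₇ : ℕ → ℝ} (hB : ∀ p, 0 ≤ B p) (h1 : ∀ p, 0 ≤ a₁ p) (h2 : ∀ p, 0 ≤ a₂ p)
    (h3 : ∀ p, 0 ≤ a₃ p) (h4 : ∀ p, 0 ≤ a₄ p) (h5 : ∀ p, 0 ≤ a₅ p) (h6 : ∀ p, 0 ≤ a₆ p)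
    (h7 : ∀ p, 0 ≤ a₇ p)
    (node : ∀ K : ℝ, 0 ≤ K → ∀ Kb : ℕ → ℝ,
      Kb = Kbt N K C₀ (fun p => a₁ p + a₂ p + a₃ p + a₄ p + a₅ p + a₆ p + a₇ p) B →
      Ev N γ fun p0 _ X => ∀ j₀ : X.c.Lam,
      Part X j₀ (X.Boot j₀ (fun _ _ => 0) (Kb p0)) (fun u τ A => dseR A (X.g u τ)) (a₁ p0) ∧
      Part X j₀ (X.Boot j₀ (fun _ _ => 0) (Kb p0)) (fun u τ A => rseR A (X.g u τ)) (a₂ p0) ∧
      PartW X j₀ (X.Boot j₀ (fun _ _ => 0) (Kb p0)) (σ X j₀) (eNM (σ X j₀)) (a₃ p0) ∧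
      PartW X j₀ (X.Boot j₀ (fun _ _ => 0) (Kb p0)) (σ X j₀) (eOS (σ X j₀)) (a₄ p0) ∧
      PartW X j₀ (X.Boot j₀ (fun _ _ => 0) (Kb p0)) (σ X j₀) (eSHR (σ X j₀)) (a₅ p0) ∧
      PartW X j₀ (X.Boot j₀ (fun _ _ => 0) (Kb p0)) (σ X j₀) (eX (σ X j₀) (X.tm j₀) (B p0))
        (a₆ p0) ∧
      PartW X j₀ (X.Boot j₀ (fun _ _ => 0) (Kb p0)) (σ X j₀)
        (eSTOP (σ X j₀) (X.tm j₀) (X.tn j₀) (B p0)) (a₇ p0)) :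
    MAIN γ := by
  obtain ⟨K, hK, pE, hE⟩ := hL.E
  obtain ⟨pI, hI⟩ := hL.I
  have hC : ∀ p : ℕ, 0 ≤ K * Real.log p ^ N.c2 := fun p =>
    mul_nonneg hK (Real.rpow_nonneg (Real.log_natCast_nonneg p) _)
  refine MAIN_of_nodeParts N hS2 (C := fun p0 => K * Real.log p0 ^ N.c2) (C₀ := fun _ => C₀)
    (η := fun p => a₁ p + a₂ p + a₃ p + a₄ p + a₅ p + a₆ p + a₇ p) (B := B) hC (fun _ => hC₀)
    (fun p => by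
      have := h1 p; have := h2 p; have := h3 p; have := h4 p; have := h5 p; have := h6 p
      have := h7 p
      show 0 ≤ a₁ p + a₂ p + a₃ p + a₄ p + a₅ p + a₆ p + a₇ p
      positivity) hB
    ⟨pE, fun p0 hp => ⟨2, fun P₀ hP X => hE p0 hp γ P₀ hP X⟩⟩
    ⟨pI, fun p0 hp => ⟨2, fun P₀ hP X => hI p0 hp γ P₀ hP X⟩⟩ ?_
  refine ((hσ0.and hσj).and (node K hK _ rfl)).mono ?_
  intro p0 P₀ X hh j₀
  obtain ⟨⟨k1, k2⟩, k3⟩ := hh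
  obtain ⟨m1, m2, m3, m4, m5, m6, m7⟩ := k3 j₀
  exact ⟨σ X j₀, k1 j₀, k2 j₀, ⟨a₁ p0, a₂ p0, a₃ p0, a₄ p0, a₅ p0, a₆ p0, a₇ p0, le_rfl,
    m1, m2, m3, m4, m5, m6, m7⟩⟩

end Crest.Agent.R4P.Skel189
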