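import Crest.Agent.R4P.NMDef_10
import Crest.Agent.R4P.SkelNode_3
import Crest.Agent.R4P.TagFac_2
import Crest.Agent.R4P.RseP_23

/-!
R4 (S0004), POWERS (helper5): **the concrete parameters of the main theorem** (captain's decision (D1)).

* `rg p` : range of the column `p`: `e ^ (2 ^ k) ≤ p < e ^ (2 ^ (k + 1))`.
* `thrF Ct p` : `(2 ^ rg p) ^ (-Ct)` (thinness, constant on the ranges), `(log p) ^ (-Ct) ≤ thrF ≤ 2 ^ Ct (log p) ^ (-Ct)`.
* `depF p` : depth, constant on the ranges, `2 exp ((log p) ^ (4/5)) ≤ 2 ^ depF p ≤ exp ((log p) ^ (9/10)) ≤ p`.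
* `NumOK` : everything we know about a concrete `Num`; `exists_num` : it exists.
* `NumOK.wnm`, `NumOK.rseH`, … : the hypotheses of the parts.
-/

set_option autoImplicit false

open Filter

namespace Crest.Agent.R4P.ParF5

open Crest.Agent.R4P.Skel189 Crest.Agent.R4P.NMCtx927 Crest.Agent.R4P.RseNd23
open Crest.Agent.R4P.LeafC734 (LNum exists_LNum leafE_ctx)
open Crest.Agent.R4.Soft104 Crest.Agent.R4.Max709
open Crest.Agent.R4P.Fac393 (Fac)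
open Crest.Agent.R4P.PowTag83 Crest.Agent.R4P.Cnt588

/-! ### the ranges -/

/-- range of the column `p` -/
noncomputable def rg (p : ℕ) : ℕ := Nat.log 2 ⌊Real.log p⌋₊

lemma one_lt_log {p : ℕ} (hp : 3 ≤ p) : 1 < Real.log p := by
  rw [Real.lt_log_iff_exp_lt (by positivity)]
  have h1 : Real.exp 1 < 2.7182818286 := Real.exp_one_lt_d9
  have h2 : (3 : ℝ) ≤ p := by exact_mod_cast hp
  linarith

lemma rg_le {p : ℕ} (hp : 3 ≤ p) : (2 : ℝ) ^ rg p ≤ Real.log p := by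
  have h := one_lt_log hp
  have h1 : ⌊Real.log p⌋₊ ≠ 0 := by
    have : 1 ≤ ⌊Real.log p⌋₊ := Nat.le_floor (by exact_mod_cast h.le)
    omega
  have h2 : 2 ^ rg p ≤ ⌊Real.log p⌋₊ := Nat.pow_log_le_self 2 h1
  have h3 : ((2 ^ rg p : ℕ) : ℝ) ≤ Real.log p :=
    le_trans (by exact_mod_cast h2) (Nat.floor_le (by linarith))
  exact_mod_cast h3

lemma lt_rg {p : ℕ} : Real.log p < (2 : ℝ) ^ (rg p + 1) := by
  have h2 : ⌊Real.log p⌋₊ < 2 ^ (rg p + 1) := Nat.lt_pow_succ_log_self (by norm_num) _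
  have h3 : Real.log p < (⌊Real.log p⌋₊ : ℝ) + 1 := Nat.lt_floor_add_one _
  have h4 : ((⌊Real.log p⌋₊ : ℝ) + 1) ≤ ((2 ^ (rg p + 1) : ℕ) : ℝ) := by exact_mod_cast h2
  have := lt_of_lt_of_le h3 h4
  exact_mod_cast this

lemma rg_mono {p q : ℕ} (hp : 0 < p) (h : p ≤ q) : rg p ≤ rg q := by
  unfold rg
  refine Nat.log_mono_right (Nat.floor_mono ?_)
  exact Real.log_le_log (by exact_mod_cast hp) (by exact_mod_cast h)

/-! ### thinness -/

/-- thinness of the cells at the columns -/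
noncomputable def thrF (Ct : ℝ) (p : ℕ) : ℝ := ((2 : ℝ) ^ rg p) ^ (-Ct)

lemma thrF_pos (Ct : ℝ) (p : ℕ) : 0 < thrF Ct p := Real.rpow_pos_of_pos (by positivity) _

lemma thrF_le_one {Ct : ℝ} (hCt : 0 ≤ Ct) (p : ℕ) : thrF Ct p ≤ 1 := by
  unfold thrF
  exact Real.rpow_le_one_of_one_le_of_nonpos (one_le_pow₀ (by norm_num)) (by linarith)

lemma thrF_ge {Ct : ℝ} (hCt : 0 ≤ Ct) {p : ℕ} (hp : 3 ≤ p) : Real.log p ^ (-Ct) ≤ thrF Ct p := by
  unfold thrF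
  exact Real.rpow_le_rpow_of_nonpos (by positivity) (rg_le hp) (by linarith)

lemma thrF_le {Ct : ℝ} (hCt : 0 ≤ Ct) {p : ℕ} (hp : 3 ≤ p) :
    thrF Ct p ≤ 2 ^ Ct * Real.log p ^ (-Ct) := by
  have h0 : 0 < Real.log p := lt_trans one_pos (one_lt_log hp)
  have h1 : Real.log p / 2 ≤ (2 : ℝ) ^ rg p := by
    have := lt_rg (p := p)
    rw [pow_succ] at this
    linarith
  unfold thrF
  refine (Real.rpow_le_rpow_of_nonpos (by positivity) h1 (by linarith)).trans (le_of_eq ?_)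
  rw [Real.div_rpow h0.le (by norm_num), Real.rpow_neg (by norm_num : (0:ℝ) ≤ 2), div_inv_eq_mul]
  ring

lemma thrF_congr {Ct : ℝ} {p q : ℕ} (h : rg p = rg q) : thrF Ct p = thrF Ct q := by
  unfold thrF; rw [h]

lemma thrF_anti {Ct : ℝ} (hCt : 0 ≤ Ct) {p q : ℕ} (hp : 0 < p) (h : p ≤ q) :
    thrF Ct q ≤ thrF Ct p := by
  unfold thrF
  refine Real.rpow_le_rpow_of_nonpos (by positivity) ?_ (by linarith)
  exact pow_le_pow_right₀ (by norm_num) (rg_mono hp h)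

/-- `(log p) ^ (-C)` is larger than any power -/
lemma log_ge_rpow (Ct : ℝ) {c : ℝ} (hc : 0 < c) : ∃ p₁ : ℕ, ∀ p ≥ p₁,
    (p : ℝ) ^ (-c) ≤ Real.log p ^ (-Ct) := by
  have h1 : ∀ᶠ x : ℝ in atTop, x ^ Ct ≤ Real.exp (c * x) :=
    ((isLittleO_rpow_exp_pos_mul_atTop Ct hc).bound (by norm_num : (0:ℝ) < 1)).mono
      (fun x hx => by
        have h2 := le_trans (le_abs_self _) hx
        rw [one_mul, Real.norm_eq_abs, abs_of_pos (Real.exp_pos _)] at h2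
        exact h2)
  have h2 : ∀ᶠ p : ℕ in atTop, Real.log p ^ Ct ≤ Real.exp (c * Real.log p) :=
    (Real.tendsto_log_atTop.comp tendsto_natCast_atTop_atTop).eventually h1
  obtain ⟨a, ha⟩ := eventually_atTop.1 h2
  refine ⟨a + 3, fun p hp => ?_⟩
  have hp3 : 3 ≤ p := by omega
  have hl := one_lt_log hp3
  have hp0 : (0 : ℝ) < p := by
    have : 0 < p := by omega
    exact_mod_cast this
  rw [Real.rpow_neg (show 0 ≤ Real.log (p:ℝ) by linarith), Real.rpow_neg hp0.le]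
  refine inv_anti₀ (Real.rpow_pos_of_pos (by linarith) _) ?_
  rw [Real.rpow_def_of_pos hp0, mul_comm]
  exact ha p (by omega)

/-- the thinness is larger than any power -/
lemma thrF_ge_rpow (Ct : ℝ) {c : ℝ} (hc : 0 < c) : ∃ p₁ : ℕ, ∀ p ≥ p₁, (p : ℝ) ^ (-c) ≤ thrF Ct p := by
  have h1 : ∀ᶠ x : ℝ in atTop, x ^ Ct ≤ Real.exp (c * x) :=
    ((isLittleO_rpow_exp_pos_mul_atTop Ct hc).bound (by norm_num : (0:ℝ) < 1)).mono
      (fun x hx => by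
        have h2 := le_trans (le_abs_self _) hx
        rw [one_mul, Real.norm_eq_abs, abs_of_pos (Real.exp_pos _)] at h2
        exact h2)
  have h2 : ∀ᶠ p : ℕ in atTop, Real.log p ^ Ct ≤ Real.exp (c * Real.log p) :=
    (Real.tendsto_log_atTop.comp tendsto_natCast_atTop_atTop).eventually h1
  obtain ⟨a, ha⟩ := eventually_atTop.1 h2
  refine ⟨a + 3, fun p hp => ?_⟩
  have hp3 : 3 ≤ p := by omega
  have hl := one_lt_log hp3
  have hp0 : (0 : ℝ) < p := by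
    have : 0 < p := by omega
    exact_mod_cast this
  have h3 := ha p (by omega)
  by_cases hCt : 0 ≤ Ct
  · refine le_trans ?_ (thrF_ge hCt hp3)
    rw [Real.rpow_neg (show 0 ≤ Real.log (p:ℝ) by linarith), Real.rpow_neg hp0.le]
    refine inv_anti₀ (Real.rpow_pos_of_pos (by linarith) _) ?_
    rw [Real.rpow_def_of_pos hp0, mul_comm]
    exact h3
  · push Not at hCt
    refine le_trans (Real.rpow_le_one_of_one_le_of_nonpos ?_ (by linarith)) ?_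
    · have : 1 ≤ p := by omega
      exact_mod_cast this
    · unfold thrF
      exact Real.one_le_rpow (one_le_pow₀ (by norm_num)) (by linarith)

/-! ### depth -/

/-- depth of the cells at the columns -/
noncomputable def depF (p : ℕ) : ℕ :=
  ⌈(((2 : ℝ) ^ (rg p + 1)) ^ (4 / 5 : ℝ) + Real.log 2) / Real.log 2⌉₊

lemma depF_congr {p q : ℕ} (h : rg p = rg q) : depF p = depF q := by
  unfold depF; rw [h]

lemma depF_mono {p q : ℕ} (hp : 0 < p) (h : p ≤ q) : depF p ≤ depF q := by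
  unfold depF
  have h2 : 0 < Real.log 2 := Real.log_pos (by norm_num)
  refine Nat.ceil_mono (div_le_div_of_nonneg_right ?_ h2.le)
  have h3 : ((2 : ℝ) ^ (rg p + 1)) ≤ 2 ^ (rg q + 1) :=
    pow_le_pow_right₀ (by norm_num) (Nat.succ_le_succ (rg_mono hp h))
  have := Real.rpow_le_rpow (by positivity) h3 (by norm_num : (0:ℝ) ≤ 4/5)
  linarith

lemma depF_ge {p : ℕ} (hp : 3 ≤ p) :
    2 * Real.exp (Real.log p ^ (4 / 5 : ℝ)) ≤ 2 ^ depF p := by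
  have h0 : 0 < Real.log p := lt_trans one_pos (one_lt_log hp)
  have h2 : 0 < Real.log 2 := Real.log_pos (by norm_num)
  have h3 := Nat.le_ceil ((((2 : ℝ) ^ (rg p + 1)) ^ (4 / 5 : ℝ) + Real.log 2) / Real.log 2)
  have h4 : ((2 : ℝ) ^ (rg p + 1)) ^ (4 / 5 : ℝ) + Real.log 2 ≤ depF p * Real.log 2 := by
    rw [div_le_iff₀ h2] at h3
    exact h3
  have h5 : Real.log p ^ (4 / 5 : ℝ) ≤ ((2 : ℝ) ^ (rg p + 1)) ^ (4 / 5 : ℝ) :=
    Real.rpow_le_rpow h0.le lt_rg.le (by norm_num)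
  have h6 : Real.log 2 + Real.log p ^ (4 / 5 : ℝ) ≤ depF p * Real.log 2 := by linarith
  have h7 := Real.exp_le_exp.2 h6
  rw [Real.exp_add, Real.exp_log (by norm_num), mul_comm (depF p : ℝ), Real.exp_mul,
    Real.exp_log (by norm_num), Real.rpow_natCast] at h7
  exact h7

lemma depF_le' {p : ℕ} (hp : 3 ≤ p) :
    (2 : ℝ) ^ depF p ≤ 4 * Real.exp (2 * Real.log p ^ (4 / 5 : ℝ)) := by
  have h0 : 0 < Real.log p := lt_trans one_pos (one_lt_log hp)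
  have h2 : 0 < Real.log 2 := Real.log_pos (by norm_num)
  have h3 : (depF p : ℝ) < (((2 : ℝ) ^ (rg p + 1)) ^ (4 / 5 : ℝ) + Real.log 2) / Real.log 2 + 1 :=
    Nat.ceil_lt_add_one (by positivity)
  have h4 : depF p * Real.log 2 ≤ ((2 : ℝ) ^ (rg p + 1)) ^ (4 / 5 : ℝ) + 2 * Real.log 2 := by
    have := mul_le_mul_of_nonneg_right h3.le h2.le
    rw [add_mul, div_mul_cancel₀ _ h2.ne'] at this
    linarith
  have h5 : ((2 : ℝ) ^ (rg p + 1)) ^ (4 / 5 : ℝ) ≤ 2 * Real.log p ^ (4 / 5 : ℝ) := by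
    rw [pow_succ, Real.mul_rpow (by positivity) (by norm_num), mul_comm]
    refine mul_le_mul ?_ (Real.rpow_le_rpow (by positivity) (rg_le hp) (by norm_num)) (by positivity)
      (by norm_num)
    calc (2:ℝ) ^ (4 / 5 : ℝ) ≤ 2 ^ (1 : ℝ) :=
          Real.rpow_le_rpow_of_exponent_le (by norm_num) (by norm_num)
      _ = 2 := Real.rpow_one 2
  have h6 : depF p * Real.log 2 ≤ 2 * Real.log 2 + 2 * Real.log p ^ (4 / 5 : ℝ) := by linarith
  have h7 := Real.exp_le_exp.2 h6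
  have e4 : Real.exp (2 * Real.log 2) = 4 := by
    rw [mul_comm, Real.exp_mul, Real.exp_log (by norm_num)]; norm_num
  rw [Real.exp_add, e4, mul_comm (depF p : ℝ), Real.exp_mul, Real.exp_log (by norm_num),
    Real.rpow_natCast] at h7
  exact h7

/-- **upper bounds for the depth** -/
lemma depF_le : ∃ p₁ : ℕ, ∀ p ≥ p₁, (2 : ℝ) ^ depF p ≤ Real.exp (Real.log p ^ (9 / 10 : ℝ)) ∧
    (2 : ℝ) ^ depF p ≤ p := by
  have h1 : ∀ᶠ x : ℝ in atTop, Real.log 4 + 2 * x ^ (4 / 5 : ℝ) ≤ x ^ (9 / 10 : ℝ) := by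
    have ha : ∀ᶠ x : ℝ in atTop, Real.log 4 ≤ 1 / 2 * x ^ (9 / 10 : ℝ) := by
      have := (tendsto_rpow_atTop (by norm_num : (0:ℝ) < 9/10)).const_mul_atTop
        (by norm_num : (0:ℝ) < 1/2)
      exact this.eventually_ge_atTop _
    have hb : ∀ᶠ x : ℝ in atTop, 4 ≤ x ^ (1 / 10 : ℝ) :=
      (tendsto_rpow_atTop (by norm_num : (0:ℝ) < 1/10)).eventually_ge_atTop _
    filter_upwards [ha, hb, eventually_gt_atTop 0] with x hxa hxb hx
    have e : x ^ (9 / 10 : ℝ) = x ^ (1 / 10 : ℝ) * x ^ (4 / 5 : ℝ) := by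
      rw [← Real.rpow_add hx]; norm_num
    have h3 : 4 * x ^ (4 / 5 : ℝ) ≤ x ^ (9 / 10 : ℝ) := by
      rw [e]; exact mul_le_mul_of_nonneg_right hxb (by positivity)
    linarith
  have h2 : ∀ᶠ p : ℕ in atTop, Real.log 4 + 2 * Real.log p ^ (4 / 5 : ℝ) ≤
      Real.log p ^ (9 / 10 : ℝ) :=
    (Real.tendsto_log_atTop.comp tendsto_natCast_atTop_atTop).eventually h1
  obtain ⟨a, ha⟩ := eventually_atTop.1 h2
  refine ⟨a + 3, fun p hp => ?_⟩
  have hp3 : 3 ≤ p := by omega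
  have hl := one_lt_log hp3
  have hp0 : (0 : ℝ) < p := by
    have : 0 < p := by omega
    exact_mod_cast this
  have key : (2 : ℝ) ^ depF p ≤ Real.exp (Real.log p ^ (9 / 10 : ℝ)) := by
    refine (depF_le' hp3).trans ?_
    have := Real.exp_le_exp.2 (ha p (by omega))
    rwa [Real.exp_add, Real.exp_log (by norm_num)] at this
  refine ⟨key, key.trans ?_⟩
  rw [← Real.le_log_iff_exp_le hp0]
  calc Real.log p ^ (9 / 10 : ℝ) ≤ Real.log p ^ (1 : ℝ) :=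
        Real.rpow_le_rpow_of_exponent_le hl.le (by norm_num)
    _ = Real.log p := Real.rpow_one _

/-! ### the parameters -/

/-- **everything about the parameters**: `th` = thinness at the columns, `≥ (log p) ^ (-Ct)`,
`C₀` = constant of the leaves, `Sx` = the further prune -/
structure NumOK (N : Skel189.Num) (th : ℕ → ℕ → ℝ) (Ct C₀ : ℝ)
    (Sx : ℕ → (ℕ → ℝ) → Finset ℕ → Finset ℕ) : Prop where
  tag : TagN N
  S2 : ∀ p0 ψ S, N.S2 p0 ψ S = S2t p0 ψ S ∩ Sx p0 ψ S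
  hS2 : HS2 N
  leaf : LeafNum N C₀
  lnum : ∃ p₂ : ℕ, LNum (((40 : ℕ) : ℝ) * (N.C1 - 2)) (N.C1 - 2) (N.B + N.c2 + N.C1 + 1) 40 p₂
    N.thrL N.depL
  thr : N.thr = th
  thlo : ∃ p₁ : ℕ, ∀ p0 ≥ p₁, ∀ p ≥ p0, Real.log p ^ (-Ct) ≤ th p0 p
  dep : N.dep = fun _ _ _ p => depF p
  lam : N.lam = fun _ _ _ _ => 0
  d1 : N.d1 = fun _ _ S => 1 / (Kc S : ℝ)
  Ct0 : 0 ≤ Ct
  C₀1 : 1 ≤ C₀
  c20 : 0 < N.c2
  B4 : N.B ≤ 4 * N.C1
  tgL : N.tgL = fun _ _ _ _ => 0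
  thL : ∀ p0 m : ℕ, N.thrL p0 m = Real.log ((m + p0 : ℕ) : ℝ) ^ (-(N.C1 - 2))

theorem NumOK.thLhi {N : Skel189.Num} {th : ℕ → ℕ → ℝ} {Ct C₀ : ℝ}
    {Sx : ℕ → (ℕ → ℝ) → Finset ℕ → Finset ℕ} (h : NumOK N th Ct C₀ Sx) :
    ∃ p₁ : ℕ, ∀ p0 ≥ p₁, ∀ m : ℕ, N.thrL p0 m ≤ Real.log ((m + p0 : ℕ) : ℝ) ^ (-(N.C1 - 2)) :=
  ⟨0, fun p0 _ m => (h.thL p0 m).le⟩

/-- the thinness of the letters can be made exact -/
theorem LNum_exact {C3 C6 C7 : ℝ} {a p₁ : ℕ} {thr : ℕ → ℕ → ℝ} {dep : ℕ → ℕ → ℕ}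
    (h : LNum C3 C6 C7 a p₁ thr dep) :
    LNum C3 C6 C7 a p₁ (fun p0 m => Real.log ((m + p0 : ℕ) : ℝ) ^ (-C6)) dep where
  lo := fun p0 h0 m => le_rfl
  hi := fun p0 h0 m => (h.lo p0 h0 m).trans (h.hi p0 h0 m)
  eta := fun p0 h0 m => (pow_le_pow_left₀ (Real.rpow_nonneg (Real.log_natCast_nonneg _) _)
    (h.lo p0 h0 m) a).trans (h.eta p0 h0 m)
  eta1 := h.eta1
  etalo := h.etalo
  up := h.up

/-- **the parameters exist** -/
theorem exists_num : ∃ c₁ C₀ : ℝ, 1 ≤ c₁ ∧ 1 ≤ C₀ ∧ ∀ B C1 c2 a a' A Ct : ℝ, c₁ ≤ C1 → 0 < c2 →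
    c2 ≤ C1 → B ≤ 4 * C1 → 0 ≤ a → 1 ≤ A → 2 * (C1 + c2) + 5 ≤ B →
    A + a + 2 * C1 + c2 + 2 ≤ B → A + C1 + 2 * c2 + 2 ≤ a' → 0 ≤ Ct →
    ∀ th : ℕ → ℕ → ℝ, (∃ p₁ : ℕ, ∀ p0 ≥ p₁, ∀ p ≥ p0, Real.log p ^ (-Ct) ≤ th p0 p) →
    ∀ Sx : ℕ → (ℕ → ℝ) → Finset ℕ → Finset ℕ,
    (∃ p₁ : ℕ, ∀ p0 ≥ p₁, ∃ Q₁ : ℕ, ∀ P₀ ≥ Q₁, ∀ (ψ : ℕ → ℝ) (S : Finset ℕ),
      SysM P₀ ψ S → Sx p0 ψ S ⊆ S ∧ (1 - 1 / 8) * Ws (w ψ) S ≤ Ws (w ψ) (Sx p0 ψ S)) →
    ∃ N : Skel189.Num, N.B = B ∧ N.C1 = C1 ∧ N.c2 = c2 ∧ N.a = a ∧ N.a' = a' ∧ N.A = A ∧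
      NumOK N th Ct C₀ Sx := by
  obtain ⟨c0, hc0, HE⟩ := leafE_ctx 40
  obtain ⟨c0', C₀, hc0', hC₀, HI⟩ := LeafIC368.leafI_ctx
  have k0 : 0 < 1 / c0 := by positivity
  have k0' : 0 < 1 / c0' := by positivity
  refine ⟨1 / c0 + 1 / c0' + 4, C₀, by linarith, hC₀, ?_⟩
  intro B C1 c2 a a' A Ct h1 h2 h2' h3 ha hA hB hB' ha' hCt th hth Sx hSx
  have hC1 : 4 ≤ C1 := by linarith
  obtain ⟨p₂, -, thrL₀, depL, hL₀⟩ := exists_LNum (C6 := C1 - 2) (C7 := B + c2 + C1 + 1)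
    (by linarith) 40 0 (by push_cast; nlinarith)
  have hL := LNum_exact hL₀
  let N : Skel189.Num :=
    { B := B
      C1 := C1
      c2 := c2
      a := a
      a' := a'
      A := A
      thr := th
      dep := fun _ _ _ p => depF p
      lam := fun _ _ _ _ => 0
      S2 := fun p0 ψ S => S2t p0 ψ S ∩ Sx p0 ψ S
      fac := fun p0 ψ S => Fac.blk (sft p0 ψ S)
      tg := fun p0 ψ S p q => tagN (sft p0 ψ S) (top S) p q
      tgL := fun _ _ _ _ => 0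
      thrL := fun p0 m => Real.log ((m + p0 : ℕ) : ℝ) ^ (-(C1 - 2))
      depL := depL
      d1 := fun _ _ S => 1 / (Kc S : ℝ)
      hd1 := fun _ _ S => by
        have : 0 < Kc S := by
          unfold Kc
          refine Nat.mul_pos (Finset.prod_pos fun i hi => ?_) (pow_pos (by norm_num) _)
          have := (Finset.mem_Icc.1 hi).1
          omega
        have : (0 : ℝ) < Kc S := by exact_mod_cast this
        positivity
      hC1 := by linarith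
      hc2 := h2.le
      ha := ha
      hA := hA
      hB := hB
      hB' := hB'
      ha' := ha' }
  refine ⟨N, rfl, rfl, rfl, rfl, rfl, rfl, ?_⟩
  exact
    { tag := ⟨rfl, rfl, fun p0 ψ S => Finset.inter_subset_left⟩
      S2 := fun _ _ _ => rfl
      hS2 := TagN.hS2' (Sx := Sx) (fun _ _ _ => rfl) hSx
      leaf := ⟨HE N (((40 : ℕ) : ℝ) * (C1 - 2)) (C1 - 2) (B + c2 + C1 + 1) p₂ h2
          (mul_nonneg (Nat.cast_nonneg _) (by linarith)) (by linarith)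
          (by show 1 / c0 ≤ C1; linarith) (by show C1 - 2 + 2 ≤ C1; linarith) hL,
        HI N (((40 : ℕ) : ℝ) * (C1 - 2)) (C1 - 2) (B + c2 + C1 + 1) 40 p₂ h2 (by linarith)
          (by show 1 / c0' ≤ C1; linarith) le_rfl hL⟩
      lnum := ⟨p₂, hL⟩
      thr := rfl
      thlo := hth
      dep := rfl
      lam := rfl
      d1 := rfl
      Ct0 := hCt
      C₀1 := hC₀
      c20 := h2
      B4 := h3
      tgL := rfl
      thL := fun _ _ => rfl }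

end Crest.Agent.R4P.ParF5
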