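import Crest.Agent.R4P.SameIx_30
import Crest.Agent.R4P.ShrW_34

/-!
R4 (S0004) with powers, module D, helper34: **pairs of pieces with one index at a column** (labelled or
not), value of a pair of items at a state of the (cross) walk.

* `LB`, `iF_lb` : labelled pairs (exact centres): energy `≤ 2 RB RB' / D`;
* `IXR`, `iF_ix` : all the pairs with one index: `≤ 4 η RB RB' + 2 RB RB' / D`;
* `iF_mg` : the merges of a state in the letters of `ShrW34.mg_loc`: `≤ B B' U`, with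
  `U = UV 4 η rr (Vm PP rr)`.
-/

set_option autoImplicit false
set_option linter.unusedSectionVars false
set_option linter.unusedVariables false
open MeasureTheory Filter

namespace Crest.Agent.R4P.SameLb34

open Crest.Agent.R4.Tour104 Crest.Agent.R4.Piece464 Crest.Agent.R4P.AvgItem710
open Crest.Agent.R4.Avg758 Crest.Agent.R4.HVW560
open Crest.Agent.R4P.W363
open Crest.Agent.R4P.Item758 Crest.Agent.R4P.Cnt588 Crest.Agent.R4.ClosR758 Crest.Agent.R4.Fam464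
open Crest.Agent.R4.Tour758 Crest.Agent.R4.Clos758 Crest.Agent.R4.ClosL758 Crest.Agent.R4.ClosG758
open Crest.Agent.R4P.Data758 Crest.Agent.R4P.OmSt532 Crest.Agent.R4P.OmData532
open Crest.Agent.R4P.LfDat734 Crest.Agent.R4P.WPex189
open Crest.Agent.R4P.Bld532 (NS All NodeOk Bk)
open Crest.Agent.R4P.Step588 (NDt ND1 ctx_NDt uq_lt)
open Crest.Agent.R4P.Skel189 Crest.Agent.R4P.RseSt23
open Crest.Agent.R4.Soft104 (w)
open Crest.Agent.R4P.CrossLoc25
open Crest.Agent.R4P.SameIx30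
open Crest.Agent.R4P.ShrW34 (UV)

variable {Λ κ : Type*} [DecidableEq Λ] [Fintype Λ] [Fintype κ] [DecidableEq κ]

/-- the energy of a pair of items sees only the pieces of the pair -/
lemma iF_filter {D : Par Λ κ} (R : Finset (Λ × Λ)) (φ ψ : Λ → ℝ → ℝ) (e : ℕ × ℕ) :
    D.iF (R.filter fun x => (D.it x.1, D.it x.2) = e) φ ψ e = D.iF R φ ψ e := by
  unfold Par.iF
  rw [Finset.filter_filter]
  simp only [and_self]

variable {N : Skel189.Num} {γ : ℝ} {p0 P₀ : ℕ} {X : Ctx N γ p0 P₀} {u u' : NS} {τ τ' : IT}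

/-- **pairs of labelled pieces with one index at the column `p`** -/
structure LB (X : Ctx N γ p0 P₀) (p : ℕ) (R : Finset (X.c.Lam × X.c.Lam)) : Prop where
  ix : ∀ x ∈ R, (X.c.world p x.1.1).1 = (X.c.world p x.2.1).1
  lb : ∀ x ∈ R, X.c.st p x.1.1.1 ≠ none

lemma LB.lb' {p : ℕ} {R : Finset (X.c.Lam × X.c.Lam)} (h : LB X p R) :
    ∀ x ∈ R, X.c.st p x.2.1.1 ≠ none := by
  intro x hx h0
  have h1 : (X.c.st p x.1.1.1).isSome = (X.c.st p x.2.1.1).isSome := WP.isSome_eq _ (h.ix x hx)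
  rw [h0, Option.isSome_none, Option.isSome_eq_false_iff, Option.isNone_iff_eq_none] at h1
  exact h.lb x hx h1

lemma LB.mono {p : ℕ} {R R' : Finset (X.c.Lam × X.c.Lam)} (h : LB X p R) (hs : R' ⊆ R) : LB X p R' :=
  ⟨fun x hx => h.ix x (hs hx), fun x hx => h.lb x (hs hx)⟩

/-- centre of a labelled item on the averaged circle of a node -/
noncomputable def lbc (X : Ctx N γ p0 P₀) (p M : ℕ) (u : NS) (q : ℕ) : ℝ :=
  ((((rf (q / u.A) M * u.B : ℕ) : ℚ) * (X.c.st p q).getD 0 : ℚ) : ℝ)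

/-- the relation of the labelled pieces of a pair of items: exact centres -/
theorem RW_some (h : NDt X.par (w X.ψ) X.c.t u τ) (h' : NDt X.par (w X.ψ) X.c.t u' τ') {p : ℕ}
    (hp : p ≤ top X.S) (hlam : X.c.lam p = 0) {M M' : ℕ} (hM : 0 < M) (hM' : 0 < M')
    (circ : u.A * u.B * M = u'.A * u'.B * M') (hco : Nat.Coprime M M')
    (Y : Finset (ℕ × ℕ × Finset ℕ))
    {R : Finset (X.c.Lam × X.c.Lam)} (hR : LB X p R) (A A' : Finset X.c.Lam) {e : ℕ × ℕ}
    (he : e.1 ∈ τ.items) (he' : e.2 ∈ τ'.items) :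
    RW (X.c.D.par Y) M u.B u.A 1 M' u'.B u'.A 1 A A' R e (lbc X p M u e.1) (lbc X p M' u' e.2) 0 := by
  intro x hx _ _ i1 i2 y a a' l1 l2 l3 l4
  have i1' : x.1.1.1 = e.1 := i1
  have i2' : x.2.1.1 = e.2 := i2
  obtain ⟨σ, s1⟩ := Option.ne_none_iff_exists'.1 (hR.lb x hx)
  obtain ⟨σ', s2⟩ := Option.ne_none_iff_exists'.1 (hR.lb' x hx)
  rw [← i1'] at l1 l2 he
  rw [← i2'] at l3 l4 he'
  have k := rel_some2 h h' hp hlam hM hM' circ hco (hR.ix x hx) he he' s1 s2 l1 l2 l3 l4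
  unfold lbc
  rw [← i1', ← i2', s1, s2, Option.getD_some, Option.getD_some, k, sub_self, abs_zero]

/-- **one pair, labelled pieces with one index** -/
theorem iF_lb (h : NDt X.par (w X.ψ) X.c.t u τ) (h' : NDt X.par (w X.ψ) X.c.t u' τ') {p : ℕ}
    (hp : p ≤ top X.S) (hlam : X.c.lam p = 0) {M M' : ℕ} (hM : 0 < M) (hM' : 0 < M')
    (circ : u.A * u.B * M = u'.A * u'.B * M') (hco : Nat.Coprime M M')
    (Y : Finset (ℕ × ℕ × Finset ℕ))
    {R : Finset (X.c.Lam × X.c.Lam)} (hR : LB X p R) (A A' : Finset X.c.Lam) {e : ℕ × ℕ}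
    (he : e.1 ∈ τ.items) (he' : e.2 ∈ τ'.items) :
    (X.c.D.par Y).iF R ((X.c.D.par Y).uA M u.B u.A τ A 1) ((X.c.D.par Y).uA M' u'.B u'.A τ' A' 1) e ≤
      2 * (RB X u e.1 * RB X u' e.2 / DU X M u M' u' e) := by
  have key := iF_rel_avg (X.ok.rad Y) hM hM' h.B_pos h'.B_pos h.fit h'.fit (wts_nd h Y)
    (wts_nd h' Y) (one_dvd _) (one_dvd _) R e he he' le_rfl
    (RW_some h h' hp hlam hM hM' circ hco Y hR A A' he he')
  rw [DaI_eq, Nat.cast_one, div_one, div_one] at key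
  refine key.trans (le_of_eq ?_)
  unfold RB
  ring

/-- **pairs of pieces with one index at the column `p`** -/
def IXR (X : Ctx N γ p0 P₀) (p : ℕ) (R : Finset (X.c.Lam × X.c.Lam)) : Prop :=
  ∀ x ∈ R, (X.c.world p x.1.1).1 = (X.c.world p x.2.1).1

lemma IXR.mono {p : ℕ} {R R' : Finset (X.c.Lam × X.c.Lam)} (h : IXR X p R) (hs : R' ⊆ R) :
    IXR X p R' := fun x hx => h x (hs hx)

/-- the merges at a column have one index -/
lemma IXR_sdiff (Y : Finset (ℕ × ℕ × Finset ℕ)) (p : ℕ) (R : Finset (X.c.Lam × X.c.Lam)) :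
    IXR X p (R \ Ro ((X.c.D.par Y).rho p)) :=
  fun x hx => ix_of_not_rel (Y := Y) (Finset.mem_sdiff.1 hx).2

/-- **one pair, pieces with one index**, labelled or not -/
theorem iF_ix (h : NDt X.par (w X.ψ) X.c.t u τ) (h' : NDt X.par (w X.ψ) X.c.t u' τ') {p : ℕ}
    (hp : p ≤ top X.S) (hlam : X.c.lam p = 0) {M M' : ℕ} (hM : 0 < M) (hM' : 0 < M')
    (circ : u.A * u.B * M = u'.A * u'.B * M') (hco : Nat.Coprime M M')
    (Y : Finset (ℕ × ℕ × Finset ℕ))
    {R : Finset (X.c.Lam × X.c.Lam)} (hR : IXR X p R) (A A' : Finset X.c.Lam) {e : ℕ × ℕ}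
    (he : e.1 ∈ τ.items) (he' : e.2 ∈ τ'.items) :
    (X.c.D.par Y).iF R ((X.c.D.par Y).uA M u.B u.A τ A 1) ((X.c.D.par Y).uA M' u'.B u'.A τ' A' 1) e ≤
      4 * etaL X.c.wp p * (RB X u e.1 * RB X u' e.2) +
        2 * (RB X u e.1 * RB X u' e.2 / DU X M u M' u' e) := by
  have hB : (0 : ℝ) < u.B := by exact_mod_cast h.B_pos
  have hB' : (0 : ℝ) < u'.B := by exact_mod_cast h'.B_pos
  have hr := (X.ok.rad Y).pos e.1
  have hr' := (X.ok.rad Y).pos e.2
  have hη := etaL_pos X.c.wp p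
  rw [← iF_filter]
  have hit : ∀ x ∈ R.filter (fun x => ((X.c.D.par Y).it x.1, (X.c.D.par Y).it x.2) = e),
      x ∈ R ∧ x.1.1.1 = e.1 := by
    intro x hx
    obtain ⟨h1, h2⟩ := Finset.mem_filter.1 hx
    have h3 := congrArg Prod.fst h2
    exact ⟨h1, h3⟩
  cases hs : X.c.st p e.1 with
  | none =>
    exact iF_un h h' hp hM hM' circ Y (R := R.filter _)
      ⟨fun x hx => hR x (hit x hx).1, fun x hx => by rw [(hit x hx).2, hs]⟩ A A' he he'
  | some σ =>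
    refine (iF_lb h h' hp hlam hM hM' circ hco Y (R := R.filter _)
      ⟨fun x hx => hR x (hit x hx).1, fun x hx => by rw [(hit x hx).2, hs]; simp⟩ A A' he he').trans ?_
    have : 0 ≤ 4 * etaL X.c.wp p * (RB X u e.1 * RB X u' e.2) := by positivity
    linarith

/-- **one pair, in the letters of the scale pair** -/
theorem iF_ixV (h : NDt X.par (w X.ψ) X.c.t u τ) (h' : NDt X.par (w X.ψ) X.c.t u' τ') {p : ℕ}
    (hp : p ≤ top X.S) (hlam : X.c.lam p = 0) {M M' : ℕ} (hM : 0 < M) (hM' : 0 < M')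
    (circ : u.A * u.B * M = u'.A * u'.B * M') (hco : Nat.Coprime M M')
    (Y : Finset (ℕ × ℕ × Finset ℕ))
    {R : Finset (X.c.Lam × X.c.Lam)} (hR : IXR X p R) (A A' : Finset X.c.Lam) {e : ℕ × ℕ}
    (he : e.1 ∈ τ.items) (he' : e.2 ∈ τ'.items) {PP : ℕ × ℕ → Prop} (hP : PP e) {k : ℕ}
    {η : ℕ → ℝ} (hη : etaL X.c.wp p ≤ η k) :
    (X.c.D.par Y).iF R ((X.c.D.par Y).uA M u.B u.A τ A 1) ((X.c.D.par Y).uA M' u'.B u'.A τ' A' 1) e ≤
      ((u.B : ℝ) * u'.B) * UV 4 η X.c.rr (Vm PP X.c.rr) k (SE M u.B u.A M' u'.B u'.A e) e := by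
  refine (iF_ix h h' hp hlam hM hM' circ hco Y hR A A' he he').trans ?_
  rw [← Vm_eq hP]
  unfold UV RB
  have hr := (X.ok.rad Y).pos e.1
  have hr' := (X.ok.rad Y).pos e.2
  have := mul_le_mul_of_nonneg_right hη (show (0:ℝ) ≤ 4 * (u.B * X.c.rr e.1 * (u'.B * X.c.rr e.2)) by
    positivity)
  linarith

end Crest.Agent.R4P.SameLb34
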