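import Crest.Agent.R4P.ShrG_28
import Crest.Agent.R4P.ParF_5
import Crest.Agent.R4P.OSCtxA_14
import Crest.Agent.R4P.SameLb_34

/-!
R4 (S0004) with powers, module D, helper28: **merges of the cross walk, product part**, numerical facts and
contexts.

* `HG K c k = K exp(-c x^(4/5)) x²`, `x = 2^(k+1)` : value of the range `k`;
* `sum_mt_le` : sums over the missing ties of an alive item are bounded (their number is polylogarithmic);
* `ctx_EH` : the constant `E` of `sum_PhiG_le` in a context;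
* `ctx_iF` : the pairs with one index at a column, in the letters of `mg_locG`.
-/

set_option autoImplicit false
set_option linter.unusedSectionVars false
set_option linter.unusedVariables false
open Finset

namespace Crest.Agent.R4P.ShrG28

open Crest.Agent.R4.HVW560 Crest.Agent.R4P.AvgItem710
open Crest.Agent.R4.Tour104 Crest.Agent.R4.Tour758 Crest.Agent.R4.Avg758 Crest.Agent.R4.Clos758
open Crest.Agent.R4.ClosL758 Crest.Agent.R4.ClosG758 Crest.Agent.R4.ClosR758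
open Crest.Agent.R4P.Cnt588 Crest.Agent.R4P.Walk560 Crest.Agent.R4P.Item758
open Crest.Agent.R4P.Bld532 (NS All NodeOk Bk dv nd mem_dv mem_nd)
open Crest.Agent.R4P.GSt927 Crest.Agent.R4P.WalkIT579 Crest.Agent.R4P.NMW710
open Crest.Agent.R4P.CrossLoc25 Crest.Agent.R4P.CrossLocC25 Crest.Agent.R4P.WalkC
open Crest.Agent.R4P.YI25 Crest.Agent.R4P.ShrW34
open Crest.Agent.R4P.OSFin710 (OB)
open Crest.Agent.R4.DeepSt579 (tq tq_nonneg tq_le_one rd)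

/-! ### the values of the ranges -/

/-- value of the range `k` -/
noncomputable def HG (K c : ℝ) (k : ℕ) : ℝ :=
  K * (Real.exp (-(c * ((2 : ℝ) ^ (k + 1)) ^ (4 / 5 : ℝ))) * ((2 : ℝ) ^ (k + 1)) ^ 2)

lemma HG_nonneg {K : ℝ} (hK : 0 ≤ K) (c : ℝ) (k : ℕ) : 0 ≤ HG K c k := by
  unfold HG; positivity

/-- **decay of the values** -/
theorem HG_le {K c : ℝ} (hK : 0 ≤ K) (hc : 0 < c) {D : ℝ} (hD : 0 ≤ D) :
    ∃ C : ℝ, 0 ≤ C ∧ ∀ k, HG K c k ≤ C * ((2 : ℝ) ^ k) ^ (-(D + 1)) := by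
  set n : ℕ := ⌈(5 / 4) * (D + 3)⌉₊ with hn
  refine ⟨K * ((n.factorial : ℝ) * (c ^ n)⁻¹), by positivity, fun k => ?_⟩
  set x : ℝ := (2 : ℝ) ^ (k + 1) with hx
  have hx1 : 1 ≤ x := one_le_pow₀ (by norm_num)
  have hx0 : 0 < x := by linarith
  set y : ℝ := c * x ^ (4 / 5 : ℝ) with hy
  have hy0 : 0 < y := mul_pos hc (Real.rpow_pos_of_pos hx0 _)
  have h1 : y ^ n / n.factorial ≤ Real.exp y := Real.pow_div_factorial_le_exp y hy0.le n
  have hf : (0 : ℝ) < n.factorial := by exact_mod_cast n.factorial_pos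
  have h2 : Real.exp (-y) ≤ (n.factorial : ℝ) * (y ^ n)⁻¹ := by
    rw [Real.exp_neg]
    have h3 : 0 < y ^ n / n.factorial := by positivity
    refine (inv_anti₀ h3 h1).trans (le_of_eq ?_)
    rw [inv_div, div_eq_mul_inv]
  have h4 : y ^ n = c ^ n * x ^ ((4 / 5 : ℝ) * n) := by
    rw [hy, mul_pow, ← Real.rpow_mul_natCast hx0.le]
  have h5 : x ^ (D + 3) ≤ x ^ ((4 / 5 : ℝ) * n) := by
    refine Real.rpow_le_rpow_of_exponent_le hx1 ?_
    have := Nat.le_ceil ((5 / 4) * (D + 3))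
    rw [← hn] at this
    linarith
  have hcn : 0 < c ^ n := pow_pos hc n
  have h6 : (y ^ n)⁻¹ ≤ (c ^ n)⁻¹ * x ^ (-(D + 3)) := by
    rw [h4, mul_inv, Real.rpow_neg hx0.le]
    refine mul_le_mul_of_nonneg_left ?_ (by positivity)
    exact inv_anti₀ (Real.rpow_pos_of_pos hx0 _) h5
  have h7 : x ^ (-(D + 3)) * x ^ 2 = x ^ (-(D + 1)) := by
    rw [← Real.rpow_natCast x 2, ← Real.rpow_add hx0]
    congr 1
    push_cast
    ring
  have h8 : x ^ (-(D + 1)) ≤ ((2 : ℝ) ^ k) ^ (-(D + 1)) := by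
    refine Real.rpow_le_rpow_of_nonpos (by positivity) ?_ (by linarith)
    exact pow_le_pow_right₀ (by norm_num) (Nat.le_succ k)
  unfold HG
  rw [← hx, ← hy]
  have hfc : 0 ≤ (n.factorial : ℝ) * (c ^ n)⁻¹ := by positivity
  calc K * (Real.exp (-y) * x ^ 2)
      ≤ K * (((n.factorial : ℝ) * ((c ^ n)⁻¹ * x ^ (-(D + 3)))) * x ^ 2) := by
        refine mul_le_mul_of_nonneg_left ?_ hK
        refine mul_le_mul_of_nonneg_right ?_ (by positivity)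
        exact h2.trans (mul_le_mul_of_nonneg_left h6 hf.le)
    _ = K * ((n.factorial : ℝ) * (c ^ n)⁻¹) * (x ^ (-(D + 3)) * x ^ 2) := by ring
    _ ≤ K * ((n.factorial : ℝ) * (c ^ n)⁻¹) * ((2 : ℝ) ^ k) ^ (-(D + 1)) := by
        rw [h7]
        exact mul_le_mul_of_nonneg_left h8 (mul_nonneg hK hfc)

/-- powers of one half -/
lemma pow_le_half {D : ℝ} (hD : 0 ≤ D) (k : ℕ) : ((2 : ℝ) ^ k) ^ (-(D + 1)) ≤ (1 / 2 : ℝ) ^ k := by
  have h1 : (1:ℝ) ≤ 2 ^ k := one_le_pow₀ (by norm_num)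
  have h2 : ((2 : ℝ) ^ k) ^ (-(D + 1)) ≤ ((2 : ℝ) ^ k) ^ (-1 : ℝ) :=
    Real.rpow_le_rpow_of_exponent_le h1 (by linarith)
  refine h2.trans (le_of_eq ?_)
  rw [Real.rpow_neg_one, one_div, inv_pow]

/-- sums of the powers of one half -/
lemma sum_half_le (s : Finset ℕ) : ∑ k ∈ s, (1 / 2 : ℝ) ^ k ≤ 2 := by
  have h := summable_geometric_two.sum_le_tsum s (fun k _ => by positivity)
  rwa [tsum_geometric_two] at h

/-- sums of the values of the ranges -/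
theorem sum_H_le {H : ℕ → ℝ} {C D : ℝ} (hD : 0 ≤ D) (hC : 0 ≤ C)
    (hH : ∀ k, H k ≤ C * ((2 : ℝ) ^ k) ^ (-(D + 1))) (s : Finset ℕ) : ∑ k ∈ s, H k ≤ 2 * C := by
  calc ∑ k ∈ s, H k ≤ ∑ k ∈ s, C * (1 / 2 : ℝ) ^ k := Finset.sum_le_sum fun k _ =>
        (hH k).trans (mul_le_mul_of_nonneg_left (pow_le_half hD k) hC)
    _ = C * ∑ k ∈ s, (1 / 2 : ℝ) ^ k := by rw [Finset.mul_sum]
    _ ≤ C * 2 := mul_le_mul_of_nonneg_left (sum_half_le s) hC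
    _ = _ := by ring

/-- **sums over the missing ties of an item** -/
theorem sum_mt_le {H : ℕ → ℝ} {C D : ℝ} (hD : 0 ≤ D) (hC : 0 ≤ C)
    (hH : ∀ k, H k ≤ C * ((2 : ℝ) ^ k) ^ (-(D + 1))) {p0 : ℕ} {M : Finset ℕ}
    (h1 : ∀ l ∈ M, p0 < l)
    (h2 : ∀ P : ℕ, p0 ≤ P → ((M.filter (· ≤ P)).card : ℝ) ≤ Real.log P ^ D) :
    ∑ l ∈ M, H (ParF5.rg l) ≤ 2 ^ D * (2 * C) := by
  have e1 : ∑ l ∈ M, H (ParF5.rg l) = ∑ k ∈ M.image ParF5.rg,
      ((M.filter fun l => ParF5.rg l = k).card : ℝ) * H k := by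
    rw [← Finset.sum_fiberwise_of_maps_to (g := ParF5.rg) (t := M.image ParF5.rg)
      (fun l hl => Finset.mem_image_of_mem _ hl)]
    refine Finset.sum_congr rfl fun k _ => ?_
    rw [← nsmul_eq_mul, ← Finset.sum_const]
    exact Finset.sum_congr rfl fun l hl => by rw [(Finset.mem_filter.1 hl).2]
  have key : ∀ k ∈ M.image ParF5.rg,
      ((M.filter fun l => ParF5.rg l = k).card : ℝ) * H k ≤ 2 ^ D * (C * (1 / 2 : ℝ) ^ k) := by
    intro k hk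
    set P : ℕ := ⌊Real.exp ((2 : ℝ) ^ (k + 1))⌋₊ with hP
    have hle : ∀ l ∈ M, ParF5.rg l = k → l ≤ P := by
      intro l hl hr
      have l0 : (0:ℝ) < l := by exact_mod_cast (Nat.zero_le _).trans_lt (h1 l hl)
      have := ParF5.lt_rg (p := l)
      rw [hr] at this
      exact Nat.le_floor (le_of_lt ((Real.log_lt_iff_lt_exp l0).1 this))
    have hP0 : p0 ≤ P := by
      obtain ⟨l, hl, hr⟩ := Finset.mem_image.1 hk
      exact (h1 l hl).le.trans (hle l hl hr)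
    have c1 : ((M.filter fun l => ParF5.rg l = k).card : ℝ) ≤ (M.filter (· ≤ P)).card := by
      have : (M.filter fun l => ParF5.rg l = k).card ≤ (M.filter (· ≤ P)).card :=
        Finset.card_le_card fun l hl => by
          obtain ⟨a, b⟩ := Finset.mem_filter.1 hl
          exact Finset.mem_filter.2 ⟨a, hle l a b⟩
      exact_mod_cast this
    have hPp : (0:ℝ) < P ∨ (P:ℝ) = 0 := by
      rcases Nat.eq_zero_or_pos P with h | h
      · right; exact_mod_cast h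
      · left; exact_mod_cast h
    have hlog : Real.log P ≤ (2 : ℝ) ^ (k + 1) := by
      rcases hPp with h | h
      · rw [Real.log_le_iff_le_exp h]
        exact Nat.floor_le (Real.exp_pos _).le
      · rw [h, Real.log_zero]; positivity
    have hlog0 : 0 ≤ Real.log P := Real.log_natCast_nonneg P
    have c2 : ((M.filter fun l => ParF5.rg l = k).card : ℝ) ≤ ((2 : ℝ) ^ (k + 1)) ^ D :=
      (c1.trans (h2 P hP0)).trans (Real.rpow_le_rpow hlog0 hlog hD)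
    have hk0 : (0:ℝ) < 2 ^ k := by positivity
    have e2 : ((2 : ℝ) ^ (k + 1)) ^ D = 2 ^ D * ((2 : ℝ) ^ k) ^ D := by
      rw [pow_succ, mul_comm, Real.mul_rpow (by norm_num) hk0.le]
    have e3 : ((2 : ℝ) ^ k) ^ D * ((2 : ℝ) ^ k) ^ (-(D + 1)) = (1 / 2 : ℝ) ^ k := by
      rw [← Real.rpow_add hk0, show D + -(D + 1) = (-1 : ℝ) by ring, Real.rpow_neg_one, one_div,
        inv_pow]
    have hR : 0 ≤ C * ((2 : ℝ) ^ k) ^ (-(D + 1)) := mul_nonneg hC (by positivity)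
    calc ((M.filter fun l => ParF5.rg l = k).card : ℝ) * H k
        ≤ ((M.filter fun l => ParF5.rg l = k).card : ℝ) * (C * ((2 : ℝ) ^ k) ^ (-(D + 1))) :=
          mul_le_mul_of_nonneg_left (hH k) (Nat.cast_nonneg _)
      _ ≤ ((2 : ℝ) ^ (k + 1)) ^ D * (C * ((2 : ℝ) ^ k) ^ (-(D + 1))) :=
          mul_le_mul_of_nonneg_right c2 hR
      _ = 2 ^ D * (C * (((2 : ℝ) ^ k) ^ D * ((2 : ℝ) ^ k) ^ (-(D + 1)))) := by rw [e2]; ring
      _ = _ := by rw [e3]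
  rw [e1]
  refine (Finset.sum_le_sum key).trans ?_
  rw [← Finset.mul_sum, ← Finset.mul_sum]
  have h0 : (0:ℝ) ≤ 2 ^ D := by positivity
  refine mul_le_mul_of_nonneg_left ?_ h0
  have := mul_le_mul_of_nonneg_left (sum_half_le (M.image ParF5.rg)) hC
  linarith

/-! ### contexts -/

section ctx
open Crest.Agent.R4P.Skel189 Crest.Agent.R4P.Data758 Crest.Agent.R4P.LfDat734
open Crest.Agent.R4.Fam464 Crest.Agent.R4.Piece464
open Crest.Agent.R4P.Step588 (NDt ND1 ctx_NDt CT)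
open Crest.Agent.R4.Soft104 (w)
open Crest.Agent.R4P.SameIx30 Crest.Agent.R4P.SameLb34

/-- **the constant of the product part** -/
theorem ctx_EH (N : Skel189.Num) {K c : ℝ} (hK : 0 ≤ K) (hc : 0 < c) : ∃ E : ℝ, 0 ≤ E ∧
    (∀ s : Finset ℕ, ∑ k ∈ s, HG K c k ≤ E) ∧
    ∀ {γ : ℝ} {p0 P₀ : ℕ} (X : Ctx N γ p0 P₀), 3 ≤ p0 → ∀ q ∈ X.S', ∀ M ⊆ X.c.t.mt q,
      ∑ l ∈ M, HG K c (ParF5.rg l) ≤ E := by
  have hB := N.hB
  have hC1 := N.hC1
  have hc2 := N.hc2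
  have hD : 0 ≤ N.B + 1 := by linarith
  obtain ⟨C, hC, hH⟩ := HG_le hK hc hD
  have h1 : (1:ℝ) ≤ 2 ^ (N.B + 1) := Real.one_le_rpow (by norm_num) hD
  refine ⟨2 ^ (N.B + 1) * (2 * C), by positivity, fun s => ?_, fun X hp3 q hq M hM => ?_⟩
  · refine (sum_H_le hD hC hH s).trans ?_
    have : 0 ≤ 2 * C := by linarith
    nlinarith
  · obtain ⟨a1, a2⟩ := OSCtx710.ctx_mtP X hp3 hq hM
    exact sum_mt_le hD hC hH a1 a2

/-- hypothesis `h1` of `sum_PhiG_le` in a context -/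
theorem ctx_E4 {N : Skel189.Num} {K c E : ℝ}
    (h1 : ∀ s : Finset ℕ, ∑ k ∈ s, HG K c k ≤ E) {γ : ℝ} {p0 P₀ : ℕ} {X : Ctx N γ p0 P₀}
    (h2 : ∀ q ∈ X.S', ∀ M ⊆ X.c.t.mt q, ∑ l ∈ M, HG K c (ParF5.rg l) ≤ E) {p : ℕ} {e : ℕ × ℕ}
    (he : e.1 ∈ X.S') (he' : e.2 ∈ X.S') :
    HG K c (ParF5.rg p) + ∑ l ∈ mb X.c.t.mt p e.1, HG K c (ParF5.rg l) +
      ∑ l ∈ mb X.c.t.mt p e.2, HG K c (ParF5.rg l) + ∑ k ∈ Finset.range (ParF5.rg p), HG K c k ≤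
      4 * E := by
  have a1 := h1 {ParF5.rg p}
  rw [Finset.sum_singleton] at a1
  have a2 := h2 _ he (mb X.c.t.mt p e.1) (Finset.filter_subset _ _)
  have a3 := h2 _ he' (mb X.c.t.mt p e.2) (Finset.filter_subset _ _)
  have a4 := h1 (Finset.range (ParF5.rg p))
  linarith

/-- **width of the cells against the values of the ranges** -/
theorem etaL_HG {P : Crest.Agent.R4P.W363.WP} {p : ℕ} (hp : 3 ≤ p)
    (hdep : 2 * Real.exp (Real.log p ^ (4 / 5 : ℝ)) ≤ 2 ^ P.dep p) (K : ℝ) (hK : 0 ≤ K) :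
    K * (etaL P p * Real.log p ^ 2) ≤ HG K (1 / 2) (ParF5.rg p) := by
  have hl := ParF5.rg_le hp
  have hu := (ParF5.lt_rg (p := p)).le
  have h1 := ParF5.one_lt_log hp
  have hk0 : (0:ℝ) < 2 ^ ParF5.rg p := by positivity
  have e1 : (1 / 2 : ℝ) * ((2 : ℝ) ^ (ParF5.rg p + 1)) ^ (4 / 5 : ℝ) ≤
      Real.log p ^ (4 / 5 : ℝ) := by
    have h2 : ((2 : ℝ) ^ (ParF5.rg p + 1)) ^ (4 / 5 : ℝ) =
        2 ^ (4 / 5 : ℝ) * ((2 : ℝ) ^ ParF5.rg p) ^ (4 / 5 : ℝ) := by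
      rw [pow_succ, mul_comm, Real.mul_rpow (by norm_num) hk0.le]
    have h3 : (2:ℝ) ^ (4 / 5 : ℝ) ≤ 2 := by
      calc (2:ℝ) ^ (4 / 5 : ℝ) ≤ 2 ^ (1 : ℝ) :=
            Real.rpow_le_rpow_of_exponent_le (by norm_num) (by norm_num)
        _ = 2 := Real.rpow_one 2
    have h4 : 0 ≤ ((2 : ℝ) ^ ParF5.rg p) ^ (4 / 5 : ℝ) := by positivity
    have h5 : ((2 : ℝ) ^ ParF5.rg p) ^ (4 / 5 : ℝ) ≤ Real.log p ^ (4 / 5 : ℝ) :=
      Real.rpow_le_rpow hk0.le hl (by norm_num)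
    rw [h2]
    nlinarith
  have e2 : etaL P p ≤ Real.exp (-(1 / 2 * ((2 : ℝ) ^ (ParF5.rg p + 1)) ^ (4 / 5 : ℝ))) := by
    unfold etaL
    have h2 : (0:ℝ) < 2 ^ P.dep p := by positivity
    rw [div_le_iff₀ h2]
    have h3 : 0 < Real.exp (-(1 / 2 * ((2 : ℝ) ^ (ParF5.rg p + 1)) ^ (4 / 5 : ℝ))) :=
      Real.exp_pos _
    have h4 : Real.exp (-(Real.log p ^ (4 / 5 : ℝ))) ≤
        Real.exp (-(1 / 2 * ((2 : ℝ) ^ (ParF5.rg p + 1)) ^ (4 / 5 : ℝ))) :=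
      Real.exp_le_exp.2 (by linarith)
    calc (2:ℝ) = Real.exp (-(Real.log p ^ (4 / 5 : ℝ))) *
          (2 * Real.exp (Real.log p ^ (4 / 5 : ℝ))) := by
          rw [mul_left_comm, ← Real.exp_add]; simp
      _ ≤ _ := mul_le_mul h4 hdep (by positivity) h3.le
  have e3 : Real.log p ^ 2 ≤ ((2 : ℝ) ^ (ParF5.rg p + 1)) ^ 2 :=
    pow_le_pow_left₀ (by linarith) hu 2
  unfold HG
  exact mul_le_mul_of_nonneg_left (mul_le_mul e2 e3 (by positivity) (Real.exp_pos _).le) hK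

variable {N : Skel189.Num} {γ : ℝ} {p0 P₀ : ℕ} {X : Ctx N γ p0 P₀} {u u' : NS} {τ τ' : IT}

/-- **pairs with one index at a column**, in the letters of `mg_locG` -/
theorem ctx_iF (h : NDt X.par (w X.ψ) X.c.t u τ) (h' : NDt X.par (w X.ψ) X.c.t u' τ') {p : ℕ}
    {Y : Finset (ℕ × ℕ × Finset ℕ)} {U : ℕ → Finset ℕ} {c₀ : ℝ}
    (hO : OB (X.c.D.par Y) X.S' X.par (w X.ψ) U (2 * CT) c₀ p0 u τ)
    (hO' : OB (X.c.D.par Y) X.S' X.par (w X.ψ) U (2 * CT) c₀ p0 u' τ')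
    (hWρ : ∀ q ∈ X.S', X.c.rr q * tq q ≤ w X.ψ q)
    (hp3 : 3 ≤ p) (hp0 : p0 ≤ p) (hpt : p ≤ top X.S) (hlam : X.c.lam p = 0)
    (hdep : 2 * Real.exp (Real.log p ^ (4 / 5 : ℝ)) ≤ 2 ^ X.c.wp.dep p)
    (hl : ∀ r : ℕ, r.Prime → r < u.n → r ≤ p) (hl' : ∀ r : ℕ, r.Prime → r < u'.n → r ≤ p)
    {M M' : ℕ} (hM : 0 < M) (hM' : 0 < M')
    (circ : u.A * u.B * M = u'.A * u'.B * M') (hco : Nat.Coprime M M')
    {R : Finset (X.c.Lam × X.c.Lam)} (hR : IXR X p R) (A A' : Finset X.c.Lam) {e : ℕ × ℕ}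
    (he : e.1 ∈ τ.items) (he' : e.2 ∈ τ'.items) (hS : e.1 ∈ X.S') (hS' : e.2 ∈ X.S')
    {PP : ℕ × ℕ → Prop} (hP : PP e) :
    (X.c.D.par Y).iF R ((X.c.D.par Y).uA M u.B u.A τ A 1) ((X.c.D.par Y).uA M' u'.B u'.A τ' A' 1) e ≤
      pm (w X.ψ) u u' e * HG (64 * CT ^ 2) (1 / 2) (ParF5.rg p) +
        ((u.B : ℝ) * u'.B) * Vm PP X.c.rr (SE M u.B u.A M' u'.B u'.A e) e := by
  have hW : ∀ q, 0 ≤ w X.ψ q := fun q => Crest.Agent.R4.Soft104.w_nonneg X.sys.nonneg q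
  have hc := c_nonneg_of_nd h.self.node
  have hc' := c_nonneg_of_nd h'.self.node
  have hrr := (X.ok.rad Y).pos
  have key := iF_ixV h h' hpt hlam hM hM' circ hco Y hR A A' he he' hP (k := 0)
    (η := fun _ => etaL X.c.wp p) le_rfl
  refine key.trans ?_
  unfold UV
  have hCT : 0 ≤ 2 * CT := by have := Crest.Agent.R4P.Step588.CT_pos; linarith
  have h1 := pm_ge hO hO' hWρ (fun q => (hrr q).le) hW hc hc' hCT hp0 hl hl' hS hS' he he'
  have h2 := etaL_HG hp3 hdep (64 * CT ^ 2) (by positivity)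
  have h3 := (etaL_pos X.c.wp p).le
  have h4 := pm_nonneg hW hc hc' e
  have h5 := mul_le_mul_of_nonneg_left h1 (show 0 ≤ 4 * etaL X.c.wp p by linarith)
  have h6 := mul_le_mul_of_nonneg_left h2 h4
  nlinarith [h5, h6]

end ctx

end Crest.Agent.R4P.ShrG28
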