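import Crest.Agent.R4P.LeafW_27
import Crest.Agent.R4P.LeafMg_30
import Crest.Agent.R4P.SameLf_30
import Crest.Agent.R4P.ShrE_28

/-!
R4P (S0004), helper25, module D, group [X]: **the merges of the leaf walk**: instance of `LeafW27.MgH` from the pair
potentials `lL`, `PhL` of LeafMg_30; context version (`leaf_pair` of SameLf_30, masses `m_q (c W r)`).
-/

set_option autoImplicit false
set_option linter.unusedSectionVars false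
set_option linter.unusedVariables false
open Finset hiding dens

namespace Crest.Agent.R4P.WmfL25

open Crest.Agent.R4.HVW560 Crest.Agent.R4P.AvgItem710
open Crest.Agent.R4.Tour104 Crest.Agent.R4.Tour758 Crest.Agent.R4.Avg758 Crest.Agent.R4.Clos758
open Crest.Agent.R4.ClosL758 Crest.Agent.R4.ClosG758 Crest.Agent.R4.ClosR758
open Crest.Agent.R4P.Cnt588 Crest.Agent.R4P.Walk560 Crest.Agent.R4P.Item758
open Crest.Agent.R4P.Bld532 (NS All NodeOk Bk dv nd mem_dv mem_nd)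
open Crest.Agent.R4P.GSt927 Crest.Agent.R4P.WalkIT579 Crest.Agent.R4P.NMW710
open Crest.Agent.R4P.CrossLoc25 Crest.Agent.R4P.CrossLocC25 Crest.Agent.R4P.YI25
open Crest.Agent.R4P.LeafCol27 Crest.Agent.R4P.LeafM27 Crest.Agent.R4P.LeafT27
open Crest.Agent.R4P.LeafW27
open Crest.Agent.R4P.ShrW34 (IX)
open Crest.Agent.R4P.LeafMg30

section gen
variable {Λ κ : Type*} [Fintype Λ] [DecidableEq Λ] [Fintype κ] [DecidableEq κ] [WRel κ]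
  {D : Par Λ κ} {sp : ℕ → Finset Λ} {P : Bld532.Par} {W : ℕ → ℝ} {Qp : NS → IT → Prop}
  {Al : Finset ℕ} {Jp : ℕ × ℝ → ℕ × ℝ → ℕ × ℕ → Prop} {v : NS} {Sl : Finset ℕ} {q : ℕ}
  {A' : Finset Λ} {mtt : ℕ → Finset ℕ} {rg : ℕ → ℕ} {m : ℝ} {H : ℕ → ℝ}
  {V : ℕ → ℝ × ℝ → ℕ × ℕ → ℝ}

/-- **the hypotheses on the merges** from the bound of one pair of items -/
theorem mgH (hx : IX D mtt rg) (hW : ∀ r, 0 ≤ W r) (hm : 0 ≤ m) (hH : ∀ k, 0 ≤ H k)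
    (hV : ∀ k s e, 0 ≤ V k s e) (hh : YH D sp P W Qp)
    (hdead : ∀ j, D.it j ∉ Al → ∀ a, D.om j a = 0)
    (hJ : ∀ (p : ℕ) (i i' : Bool) (a a' c c' : ℕ × ℝ) (e : ℕ × ℕ), p.Prime → Mv p i a c →
      Mv p i' a' c' → (i = true ∨ i' = true) → Jp a a' e → Jp c c' e) (hq : 0 < q / v.A)
    {A A₀ : Finset Λ} {d : DT Λ κ} (hl : SideI D sp v.B v.A (.leaf Sl) A₀ d) (hA : ∀ j ∈ A, D.it j = q)
    {Jx : LSt → Prop}
    (hpair : ∀ s, LOk D Al sp Qp Jp v q A' s → Jx s → Colm s → ∀ r ∈ Qi D Al s.t A',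
      q ∈ Qi D Al (.leaf Sl) A →
      (q, r) ∈ D.PE (Ro (D.rho s.l) \ Ro (D.rho (tp s.t))) (D.uA s.M v.B v.A (.leaf Sl) A 1)
        (D.uA s.M' s.u.B s.u.A s.t A' 1) →
      D.iF (Ro (D.rho s.l) \ Ro (D.rho (tp s.t))) (D.uA s.M v.B v.A (.leaf Sl) A 1)
        (D.uA s.M' s.u.B s.u.A s.t A' 1) (q, r) ≤ XL W v q m H V s r (rg (tp s.t))) :
    MgH D Al sp Qp Jp v Sl q A A' (lL D rg W v q m H V) (PhL D mtt rg W v q m H V) Jx where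
  l0 := fun s h _ r _ => lL_nonneg hW hm hH hV h.c0 r
  le := fun s h _ r _ => lL_le_PhL hW hm hH hV h r
  step := fun w s s₂ c h _ r hr =>
    PhL_chd hx hW hm hH hV hh c h (c.chd (Sl := Sl) hh hJ hq h) hr
  mg := by
    intro s p S t₁ t₀ e h hj hd
    have etp : tp s.t = p := by rw [e]; rfl
    have hcol : Colm s := ⟨S, t₁, t₀, by rw [etp]; exact e, by rw [etp]; exact hd⟩
    have hAs : Qi D Al (.leaf Sl) A ⊆ {q} := by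
      intro r hr
      obtain ⟨-, -, j, hj, rfl⟩ := mem_Qi.1 hr
      exact Finset.mem_singleton.2 (hA j hj)
    have key := mg_locL (rg := rg) hdead hW hm hH hV hl hAs h hcol
      (fun r hr hq2 he => hpair s h hj hcol r hr hq2 he)
    rw [etp] at key
    exact key

end gen

/-! ### numbers -/

open Crest.Agent.R4P.LfDat734 (etaL etaL_pos)
open Crest.Agent.R4P.ShrG28 (HG HG_nonneg)

/-- square root of the width of the cells against the values of the ranges -/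
theorem sqrt_etaL_HG {P : Crest.Agent.R4P.W363.WP} {p : ℕ} (hp : 3 ≤ p)
    (hdep : 2 * Real.exp (Real.log p ^ (4 / 5 : ℝ)) ≤ 2 ^ P.dep p) (K : ℝ) (hK : 0 ≤ K) :
    K * (Real.sqrt (etaL P p) * Real.log p) ≤ HG K (1 / 4) (ParF5.rg p) := by
  have hl := ParF5.rg_le hp
  have hu := (ParF5.lt_rg (p := p)).le
  have h1 := ParF5.one_lt_log hp
  have hk0 : (0:ℝ) < 2 ^ ParF5.rg p := by positivity
  have e1 : (1 / 2 : ℝ) * ((2 : ℝ) ^ (ParF5.rg p + 1)) ^ (4 / 5 : ℝ) ≤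
      Real.log p ^ (4 / 5 : ℝ) := by
    have h2 : ((2 : ℝ) ^ (ParF5.rg p + 1)) ^ (4 / 5 : ℝ) =
        2 ^ (4 / 5 : ℝ) * ((2 : ℝ) ^ ParF5.rg p) ^ (4 / 5 : ℝ) := by
      rw [pow_succ, mul_comm, Real.mul_rpow (by norm_num) hk0.le]
    have h3 : (2:ℝ) ^ (4 / 5 : ℝ) ≤ 2 := by
      calc (2:ℝ) ^ (4 / 5 : ℝ) ≤ 2 ^ (1 : ℝ) :=
            Real.rpow_le_rpow_of_exponent_le (by norm_num) (by norm_num)
        _ = 2 := Real.rpow_one 2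
    have h4 : 0 ≤ ((2 : ℝ) ^ ParF5.rg p) ^ (4 / 5 : ℝ) := by positivity
    have h5 : ((2 : ℝ) ^ ParF5.rg p) ^ (4 / 5 : ℝ) ≤ Real.log p ^ (4 / 5 : ℝ) :=
      Real.rpow_le_rpow hk0.le hl (by norm_num)
    rw [h2]
    nlinarith
  have e2 : etaL P p ≤ Real.exp (-(1 / 2 * ((2 : ℝ) ^ (ParF5.rg p + 1)) ^ (4 / 5 : ℝ))) := by
    unfold etaL
    have h2 : (0:ℝ) < 2 ^ P.dep p := by positivity
    rw [div_le_iff₀ h2]
    have h3 : 0 < Real.exp (-(1 / 2 * ((2 : ℝ) ^ (ParF5.rg p + 1)) ^ (4 / 5 : ℝ))) :=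
      Real.exp_pos _
    have h4 : Real.exp (-(Real.log p ^ (4 / 5 : ℝ))) ≤
        Real.exp (-(1 / 2 * ((2 : ℝ) ^ (ParF5.rg p + 1)) ^ (4 / 5 : ℝ))) :=
      Real.exp_le_exp.2 (by linarith)
    calc (2:ℝ) = Real.exp (-(Real.log p ^ (4 / 5 : ℝ))) *
          (2 * Real.exp (Real.log p ^ (4 / 5 : ℝ))) := by
          rw [mul_left_comm, ← Real.exp_add]; simp
      _ ≤ _ := mul_le_mul h4 hdep (by positivity) h3.le
  have e4 : Real.sqrt (etaL P p) ≤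
      Real.exp (-(1 / 4 * ((2 : ℝ) ^ (ParF5.rg p + 1)) ^ (4 / 5 : ℝ))) := by
    have e5 : Real.exp (-(1 / 2 * ((2 : ℝ) ^ (ParF5.rg p + 1)) ^ (4 / 5 : ℝ))) =
        Real.exp (-(1 / 4 * ((2 : ℝ) ^ (ParF5.rg p + 1)) ^ (4 / 5 : ℝ))) ^ 2 := by
      rw [← Real.exp_nat_mul]
      congr 1
      push_cast
      ring
    rw [e5] at e2
    exact Real.sqrt_le_iff.2 ⟨(Real.exp_pos _).le, e2⟩
  have hx1 : (1:ℝ) ≤ (2 : ℝ) ^ (ParF5.rg p + 1) := one_le_pow₀ (by norm_num)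
  have e3 : Real.log p ≤ ((2 : ℝ) ^ (ParF5.rg p + 1)) ^ 2 := by nlinarith
  unfold HG
  exact mul_le_mul_of_nonneg_left (mul_le_mul e4 e3 (by linarith) (Real.exp_pos _).le) hK

/-- the values of the tree walk are below those with the exponent `1/4` -/
lemma HG_mono {K K' c c' : ℝ} (hK : 0 ≤ K) (h : K ≤ K') (hc : c' ≤ c) (k : ℕ) :
    HG K c k ≤ HG K' c' k := by
  unfold HG
  have h0 : (0:ℝ) ≤ ((2 : ℝ) ^ (k + 1)) ^ (4 / 5 : ℝ) := by positivity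
  have h1 : Real.exp (-(c * ((2 : ℝ) ^ (k + 1)) ^ (4 / 5 : ℝ))) ≤
      Real.exp (-(c' * ((2 : ℝ) ^ (k + 1)) ^ (4 / 5 : ℝ))) := by
    refine Real.exp_le_exp.2 ?_
    have := mul_le_mul_of_nonneg_right hc h0
    linarith
  refine mul_le_mul h (mul_le_mul_of_nonneg_right h1 (by positivity)) (by positivity)
    (hK.trans h)

/-! ### contexts -/

section ctx
open Crest.Agent.R4.Fam464 Crest.Agent.R4.Piece464
open Crest.Agent.R4P.Skel189 Crest.Agent.R4P.Data758 Crest.Agent.R4P.LfDat734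
open Crest.Agent.R4P.Step588 (NDt ND1 ctx_NDt CT CT_pos)
open Crest.Agent.R4.Soft104 (w)
open Crest.Agent.R4P.SameIx30
open Crest.Agent.R4P.LLCtx30 (LfA)
open Crest.Agent.R4P.TBLeaf28 (JC)
open Crest.Agent.R4P.HiLeafS28 (LoS)
open Crest.Agent.R4.Ovl560 (dens dens_pos CM)
open Crest.Agent.R4P.OSFin710 (OB)
open Crest.Agent.R4.DeepSt579 (tq tq_nonneg tq_le_one)

variable {N : Skel189.Num} {γ : ℝ} {p0 P₀ : ℕ} {X : Ctx N γ p0 P₀}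
  {sp : ℕ → Finset X.c.Lam} {Qp : NS → IT → Prop} {Y : Finset (ℕ × ℕ × Finset ℕ)}
  {Jp : ℕ × ℝ → ℕ × ℝ → ℕ × ℕ → Prop} {v : NS} {Sl : Finset ℕ} {q : ℕ} {A' : Finset X.c.Lam}

/-- mass of a leaf item -/
noncomputable def mL (X : Ctx N γ p0 P₀) (v : NS) (q : ℕ) : ℝ :=
  (v.B : ℝ) * X.c.rr q * dens (q / v.A).primeFactors

/-- constant of the product part -/
noncomputable def KL : ℝ := 4 * CT * CU

lemma KL_nonneg : 0 ≤ KL := by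
  unfold KL
  have h1 := CT_pos
  have h2 := CU_ge
  have : 0 ≤ CU := by linarith
  positivity

open Classical in
/-- **one pair of a leaf item at a column**, in the letters of LeafMg_30 -/
theorem ctx_XL (hnd : ∀ u τ, Qp u τ → NDt X.par (w X.ψ) X.c.t u τ) {U : ℕ → Finset ℕ} {c₀ : ℝ}
    (hob : ∀ u τ, Qp u τ → OB (X.c.D.par Y) X.S' X.par (w X.ψ) U (2 * CT) c₀ p0 u τ)
    (hlv : ∀ u τ, Qp u τ → u.n ≤ top X.S) (hp03 : 3 ≤ p0) (hpp0 : X.par.p0 = p0)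
    (hWρ : ∀ q ∈ X.S', X.c.rr q * tq q ≤ w X.ψ q) (hlam : ∀ p, X.c.lam p = 0)
    (hη1 : ∀ p, etaL X.c.wp p ≤ 1)
    (hdep : ∀ p : ℕ, p0 ≤ p → 2 * Real.exp (Real.log p ^ (4 / 5 : ℝ)) ≤ 2 ^ X.c.wp.dep p)
    (hv : NDt X.par (w X.ψ) X.c.t v (.leaf Sl)) (hl : LfA X Y v Sl) {x : ℝ} (hx2 : 2 ≤ x)
    (hX : ∀ l : ℕ, l.Prime → l < v.n → (l : ℝ) ≤ x) {x0 y0 : ℕ × ℕ → ℕ}
    {Lo : ℝ × ℝ → ℕ × ℕ → Prop} {T : ℝ} (hL : LoS Lo X.c.rr x0 y0 T) (hT4 : 4 ≤ T)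
    (hT : (2 * (CM * Real.log x)) ^ 4 ≤ T) (hqS : q ∈ Sl) (hqa : q ∈ X.S') {A : Finset X.c.Lam}
    {PP : ℕ × ℕ → Prop} {s : LSt} (h : LOk (X.c.D.par Y) X.S' sp Qp Jp v q A' s) (hcol : Colm s)
    (hco : Nat.Coprime s.M s.M') {r : ℕ} (hr : r ∈ Qi (X.c.D.par Y) X.S' s.t A')
    (hJ : JC x0 y0 s.M v.A s.M' s.u.A (q, r)) (hP : PP (q, r)) :
    (X.c.D.par Y).iF (Ro ((X.c.D.par Y).rho s.l) \ Ro ((X.c.D.par Y).rho (tp s.t)))
      ((X.c.D.par Y).uA s.M v.B v.A (.leaf Sl) A 1)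
      ((X.c.D.par Y).uA s.M' s.u.B s.u.A s.t A' 1) (q, r) ≤
      XL (w X.ψ) v q (mL X v q) (HG KL (1 / 4))
        (fun _ => VU PP Lo X.c.rr X.c.γ) s r (ParF5.rg (tp s.t)) := by
  have hs := hnd _ _ h.y.q.self
  have hnode := hs.self.node
  have hnl : ¬ isL s.t := by
    obtain ⟨S, t₁, t₀, e, -⟩ := hcol
    rw [e]
    exact id
  obtain ⟨hpp, hpn, hpl⟩ := top_of_nodeOk hnode hnl
  have hp0 : p0 ≤ tp s.t := by
    obtain ⟨S, t₁, t₀, e, -⟩ := hcol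
    have hb : NodeOk X.par (w X.ψ) s.u (.br (tp s.t) S t₁ t₀) := by rw [← e]; exact hnode
    have := hb.2.2.1
    rw [hpp0] at this
    exact this.le
  have hp3 : 3 ≤ tp s.t := hp03.trans hp0
  have hpt : tp s.t ≤ top X.S := hpn.le.trans (hlv _ _ h.y.q.self)
  obtain ⟨hr1, hr2, -⟩ := mem_Qi.1 hr
  have key := leaf_pair (A := A) (A' := A') hv hs hl hpt h.M0 h.M0' h.circ
    (SX_sdiff (Y := Y) (hlam _) hco (Ro ((X.c.D.par Y).rho s.l))) (hη1 _) hx2 hX hL hT4 hT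
    (e := (q, r)) hqS hqa hr1 hJ hP
  refine key.trans ?_
  have hO := hob _ _ h.y.q.self
  have hCT := CT_pos
  have hrr := (X.ok.rad Y).pos
  have hm := ShrG28.item_mass (hO.ms _ hr2 hr1) (hWρ _ hr2) (hrr r).le h.c0
    (by linarith : (0:ℝ) ≤ 2 * CT) (hO.lg _ hp0 hpl _ hr2 hr1)
  have hCU : 0 ≤ CU := by have := CU_ge; linarith
  have hd : 0 ≤ dens (q / v.A).primeFactors :=
    (dens_pos fun l hl => Nat.prime_of_mem_primeFactors hl).le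
  have hmL : 0 ≤ mL X v q := mul_nonneg (mul_nonneg (Nat.cast_nonneg _) (hrr q).le) hd
  have hsq : 0 ≤ Real.sqrt (etaL X.c.wp (tp s.t)) := Real.sqrt_nonneg _
  have hHG := sqrt_etaL_HG hp3 (hdep _ hp0) KL KL_nonneg
  have hcw : 0 ≤ s.u.c * w X.ψ r :=
    mul_nonneg h.c0 (Crest.Agent.R4.Soft104.w_nonneg X.sys.nonneg r)
  unfold XL
  refine add_le_add ?_ (le_of_eq rfl)
  calc CU * Real.sqrt (etaL X.c.wp (tp s.t)) *
        (((v.B : ℝ) * X.c.rr q * dens (q / v.A).primeFactors) * ((s.u.B : ℝ) * X.c.rr r))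
      = CU * Real.sqrt (etaL X.c.wp (tp s.t)) * mL X v q * ((s.u.B : ℝ) * X.c.rr r) := by
        unfold mL; ring
    _ ≤ CU * Real.sqrt (etaL X.c.wp (tp s.t)) * mL X v q *
          (2 * (2 * CT) * Real.log (tp s.t) * (s.u.c * w X.ψ r)) :=
        mul_le_mul_of_nonneg_left hm (mul_nonneg (mul_nonneg hCU hsq) hmL)
    _ = mL X v q * (s.u.c * w X.ψ r) *
          (KL * (Real.sqrt (etaL X.c.wp (tp s.t)) * Real.log (tp s.t))) := by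
        unfold KL; ring
    _ ≤ mL X v q * (s.u.c * w X.ψ r) * HG KL (1 / 4) (ParF5.rg (tp s.t)) :=
        mul_le_mul_of_nonneg_left hHG (mul_nonneg hmL hcw)

open Classical in
/-- **THE MERGES OF THE LEAF WALK IN A CONTEXT** -/
theorem ctx_mgH (hh : YH (X.c.D.par Y) sp X.par (w X.ψ) Qp)
    (hnd : ∀ u τ, Qp u τ → NDt X.par (w X.ψ) X.c.t u τ) {U : ℕ → Finset ℕ} {c₀ : ℝ}
    (hob : ∀ u τ, Qp u τ → OB (X.c.D.par Y) X.S' X.par (w X.ψ) U (2 * CT) c₀ p0 u τ)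
    (hlv : ∀ u τ, Qp u τ → u.n ≤ top X.S) (hp03 : 3 ≤ p0) (hpp0 : X.par.p0 = p0)
    (hWρ : ∀ q ∈ X.S', X.c.rr q * tq q ≤ w X.ψ q) (hlam : ∀ p, X.c.lam p = 0)
    (hη1 : ∀ p, etaL X.c.wp p ≤ 1)
    (hdep : ∀ p : ℕ, p0 ≤ p → 2 * Real.exp (Real.log p ^ (4 / 5 : ℝ)) ≤ 2 ^ X.c.wp.dep p)
    (hx : IX (X.c.D.par Y) X.c.t.mt ParF5.rg)
    (hdead : ∀ j, (X.c.D.par Y).it j ∉ X.S' → ∀ a, (X.c.D.par Y).om j a = 0)
    (hJ : ∀ (p : ℕ) (i i' : Bool) (a a' c c' : ℕ × ℝ) (e : ℕ × ℕ), p.Prime → Mv p i a c →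
      Mv p i' a' c' → (i = true ∨ i' = true) → Jp a a' e → Jp c c' e)
    (hv : NDt X.par (w X.ψ) X.c.t v (.leaf Sl)) (hl : LfA X Y v Sl) {x : ℝ} (hx2 : 2 ≤ x)
    (hX : ∀ l : ℕ, l.Prime → l < v.n → (l : ℝ) ≤ x) {x0 y0 : ℕ × ℕ → ℕ}
    {Lo : ℝ × ℝ → ℕ × ℕ → Prop} {T : ℝ} (hL : LoS Lo X.c.rr x0 y0 T) (hT4 : 4 ≤ T)
    (hT : (2 * (CM * Real.log x)) ^ 4 ≤ T) (hqS : q ∈ Sl) (hqa : q ∈ X.S') (hq : 0 < q / v.A)
    {A A₀ : Finset X.c.Lam} {d : DT X.c.Lam (Lb (WL X.c.Lam) Y)}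
    (hside : SideI (X.c.D.par Y) sp v.B v.A (.leaf Sl) A₀ d)
    (hA : ∀ j ∈ A, (X.c.D.par Y).it j = q) {PP : ℕ × ℕ → Prop} {Jx : LSt → Prop}
    (hco : ∀ s, LOk (X.c.D.par Y) X.S' sp Qp Jp v q A' s → Jx s → Nat.Coprime s.M s.M')
    (hJC : ∀ s, LOk (X.c.D.par Y) X.S' sp Qp Jp v q A' s → Jx s →
      ∀ r ∈ Qi (X.c.D.par Y) X.S' s.t A', JC x0 y0 s.M v.A s.M' s.u.A (q, r))
    (hPP : ∀ s, LOk (X.c.D.par Y) X.S' sp Qp Jp v q A' s → Jx s →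
      ∀ r ∈ Qi (X.c.D.par Y) X.S' s.t A',
      (q, r) ∈ (X.c.D.par Y).PE (Ro ((X.c.D.par Y).rho s.l))
        ((X.c.D.par Y).uA s.M v.B v.A (.leaf Sl) A 1)
        ((X.c.D.par Y).uA s.M' s.u.B s.u.A s.t A' 1) → PP (q, r)) :
    MgH (X.c.D.par Y) X.S' sp Qp Jp v Sl q A A'
      (lL (X.c.D.par Y) ParF5.rg (w X.ψ) v q (mL X v q) (HG KL (1 / 4))
        (fun _ => VU PP Lo X.c.rr X.c.γ))
      (PhL (X.c.D.par Y) X.c.t.mt ParF5.rg (w X.ψ) v q (mL X v q) (HG KL (1 / 4))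
        (fun _ => VU PP Lo X.c.rr X.c.γ)) Jx := by
  have hrr := (X.ok.rad Y).pos
  have hd : 0 ≤ dens (q / v.A).primeFactors :=
    (dens_pos fun l hl => Nat.prime_of_mem_primeFactors hl).le
  have hmL : 0 ≤ mL X v q := mul_nonneg (mul_nonneg (Nat.cast_nonneg _) (hrr q).le) hd
  refine mgH hx (fun r => Crest.Agent.R4.Soft104.w_nonneg X.sys.nonneg r) hmL
    (HG_nonneg KL_nonneg _) (fun _ s e => VU_nonneg hrr PP Lo _ s e) hh hdead hJ hq hside hA ?_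
  intro s h hj hcol r hr hqQ he
  refine ctx_XL hnd hob hlv hp03 hpp0 hWρ hlam hη1 hdep hv hl hx2 hX hL hT4 hT hqS hqa h hcol
    (hco s h hj) hr (hJC s h hj r hr) (hPP s h hj r hr ?_)
  obtain ⟨j, j', g1, g2, g3, g4⟩ := Par.mem_PE.1 he
  exact Par.mem_PE.2 ⟨j, j', (Finset.mem_sdiff.1 g1).1, g2, g3, g4⟩

end ctx

end Crest.Agent.R4P.WmfL25
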