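import Crest.Agent.R4P.WalkC_35

/-!
R4P (S0004), helper25, module D: generic local cost of the cross walk `WalkC` (to be dominated by the unsplit walk
`V` of `VWalk_36`).
-/

set_option autoImplicit false
set_option linter.unusedSectionVars false
set_option linter.unusedVariables false
open MeasureTheory Filter Set

namespace Crest.Agent.R4P.CyC25

open Crest.Agent.R4.Tour104 Crest.Agent.R4.Tour758 Crest.Agent.R4.Avg758 Crest.Agent.R4.Clos758
open Crest.Agent.R4.ClosL758 Crest.Agent.R4.ClosG758 Crest.Agent.R4.ClosR758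
open Crest.Agent.R4P.ClosR442 Crest.Agent.R4P.Walk560 Crest.Agent.R4P.WalkC

variable {Λ κ : Type*} [Fintype Λ] [DecidableEq Λ] [DecidableEq κ] [WRel κ]

open Classical in
/-- generic cost at a state -/
noncomputable def cyC (stp : St Λ κ → Prop) (a : ℕ → ℝ) (me : TrG Λ κ → Finset Λ → ℝ)
    (s : St Λ κ) : ℝ :=
  if Gen stp s then
  match vw s.p s.t, vw s.p s.t' with
  | .br w _ _ t₀ _ _ _, .br w' _ _ t₀' _ _ _ =>
      a s.p * (w * me t₀.g s.A) * (w' * me t₀'.g s.A')
  | .br w _ _ t₀ _ _ _, .up _ _ => a s.p * (w * me t₀.g s.A) * me s.t'.g s.A'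
  | .up _ _, .br w' _ _ t₀' _ _ _ => a s.p * me s.t.g s.A * (w' * me t₀'.g s.A')
  | _, _ => 0 else 0

end Crest.Agent.R4P.CyC25
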