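import Crest.Agent.R4P.VWalk_36
import Crest.Agent.R4P.CyC_25

/-!
R4 (S0004) with powers, module D, helper36: **(Z2)** the unsplit walk `V` dominates the cross walk `WC`
with the generic costs `cyC`.

* `toZ s` : the shape of a state.
* `CyC25.cyC` : generic costs (products of masses) at the generic columns of the cross walk.
* `WC_cyC_le_V`, `WC_le_V`.
-/

set_option autoImplicit false
set_option linter.unusedSectionVars false
set_option linter.unusedVariables false
open MeasureTheory Filter Set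

namespace Crest.Agent.R4P.VWalk36

open Crest.Agent.R4.Tour104 Crest.Agent.R4.Tour758 Crest.Agent.R4.Avg758 Crest.Agent.R4.Clos758
open Crest.Agent.R4.ClosL758 Crest.Agent.R4.ClosG758 Crest.Agent.R4.ClosR758
open Crest.Agent.R4P.ClosR442 Crest.Agent.R4P.Walk560
open Crest.Agent.R4.WalkX560 (MX)
open Crest.Agent.R4P.WalkC (nxt0C nxtC WC WC_le_super WC_mono p_primeC nextC live' Gen)
open Crest.Agent.R4P.CyC25 (cyC)

variable {Λ κ : Type*} [Fintype Λ] [DecidableEq Λ] [DecidableEq κ] [WRel κ] [Fintype κ]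
  {wr : ℕ → Λ → κ} {Ad : TrG Λ κ → Finset Λ → Prop} {μ : TrG Λ κ → Finset Λ → ℝ}
  {ν : TrG Λ κ → ℝ} {n : ℕ} {a : ℕ → ℝ} {stp : ℕ → ℕ → ℕ → Prop}

/-- the shape of a state -/
def toZ (s : St Λ κ) : ZS Λ κ := ⟨s.M, s.M', s.t, s.t'⟩

lemma toZ_p (s : St Λ κ) : (toZ s).p = s.p := rfl

lemma ZW_of_ok {t : DT Λ κ} (h : t.g.Ok) : t.All ZW := by
  induction t with
  | leaf r f => trivial
  | br p w r t₁ t₀ v B G ih₁ ih₀ => exact ⟨⟨h.2.2.w0, h.2.2.w1⟩, ih₁ h.1, ih₀ h.2.1⟩
  | add b r t₁ t₀ ih₁ ih₀ => exact ⟨trivial, ih₁ h.1, ih₀ h.2⟩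
  | up b Sp u ih => exact ⟨trivial, ih h⟩

lemma ZOk_of_inv {s : St Λ κ} (h : Inv wr Ad μ ν n s) : ZOk (toZ s) :=
  ⟨ZW_of_ok h.L.ok, ZW_of_ok h.R.ok⟩

set_option maxHeartbeats 2000000 in
/-- **(Z2), one step** -/
theorem cyC_step {me : TrG Λ κ → Finset Λ → ℝ} (hI : SI stp) (hμ : MX me) (ha : ∀ p, 0 ≤ a p)
    {stpC : St Λ κ → Prop} {s : St Λ κ} (hS : stp s.M s.M' s.p → stpC s)
    (h : Inv wr Ad μ ν n s) :
    cyC stpC a me s + ((nxt0C stpC s).map fun q => q.1 * V stp a me (toZ q.2) q.2.A q.2.A').sum ≤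
      V stp a me (toZ s) s.A s.A' := by
  have hz := ZOk_of_inv h
  have hV0 := V_nonneg (stp := stp) hμ ha s.A s.A' hz
  by_cases h1 : s.t.isLeaf ∧ s.t'.isLeaf
  · have hg : ¬ Gen stpC s := fun h => h.1 h1
    simpa [nxt0C, cyC, h1, hg] using hV0
  by_cases h2 : stpC s
  · have hg : ¬ Gen stpC s := fun h => h.2.1 h2
    simpa [nxt0C, cyC, h1, h2, hg] using hV0
  have hs : ¬ stp s.M s.M' s.p := fun h => h2 (hS h)
  obtain ⟨hpp, hpn⟩ := p_primeC h h1
  have hpL : s.t.top ≤ s.p := le_max_left _ _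
  have hpR : s.t'.top ≤ s.p := le_max_right _ _
  have cL : s.t.Col (s.p + 1) := (h.L.down hpL).col
  have cR : s.t'.Col (s.p + 1) := (h.R.down hpR).col
  have okL := hz.1
  have okR := hz.2
  simp only [toZ] at okL okR
  by_cases hPL : s.isPL
  · obtain ⟨w, r, t₁, t₀, v, B, G, hv, et, h3⟩ := St.isPL_cases hPL
    have cb : (DT.br s.p w r t₁ t₀ v B G).Col (s.p + 1) := by rw [← et]; exact cL
    have hg : ¬ Gen stpC s := fun h => h.2.2.1 hPL
    have ec : cyC stpC a me s = 0 := by simp [cyC, hg]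
    have en : nxt0C stpC s = s.stL := by simp [nxt0C, h1, h2, hPL]
    rw [ec, en, zero_add]
    rcases h3 with ⟨hd, e⟩ | ⟨hd, hw, e⟩
    · rw [e]
      have key := V_fL (a := a) (μ := me) (A := s.A) (A' := s.A') hI hpp cb.2.2.1 cb.2.2.2.1 cb
        hd hs s.t' cR
      rw [← et] at key
      simp only [List.map_cons, List.map_nil, List.sum_cons, List.sum_nil, toZ, St.fL]
      rw [key]
      exact le_of_eq (by ring)
    · subst hw
      rw [e]
      have key := V_pL (a := a) (μ := me) (A := s.A) (A' := s.A') hI hpp cb.2.2.1 cb hd s.t' s.M'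
        hs cR
      rw [← et] at key
      simp only [List.map_cons, List.map_nil, List.sum_cons, List.sum_nil, toZ, St.pL]
      rw [key]
      exact le_of_eq (by ring)
  by_cases hPR : s.isPR
  · obtain ⟨w, r, t₁, t₀, v, B, G, hv, et, h3⟩ := St.isPR_cases hPR
    have cb : (DT.br s.p w r t₁ t₀ v B G).Col (s.p + 1) := by rw [← et]; exact cR
    have hg : ¬ Gen stpC s := fun h => h.2.2.2 hPR
    have ec : cyC stpC a me s = 0 := by simp [cyC, hg]
    have en : nxt0C stpC s = s.stR := by simp [nxt0C, h1, h2, hPL, hPR]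
    rw [ec, en, zero_add]
    rcases h3 with ⟨hd, e⟩ | ⟨hd, hw, e⟩
    · rw [e]
      have key := V_fR (a := a) (μ := me) (A := s.A) (A' := s.A') hI hpp cb.2.2.1 cb.2.2.2.1 cb
        hd s.t s.M hs cL
      rw [← et] at key
      simp only [List.map_cons, List.map_nil, List.sum_cons, List.sum_nil, toZ, St.fR]
      rw [key]
      exact le_of_eq (by ring)
    · subst hw
      rw [e]
      have key := V_pR (a := a) (μ := me) (A := s.A) (A' := s.A') hI hpp cb.2.2.1 cb hd s.t s.M
        hs cL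
      rw [← et] at key
      simp only [List.map_cons, List.map_nil, List.sum_cons, List.sum_nil, toZ, St.pR]
      rw [key]
      exact le_of_eq (by ring)
  have hg : Gen stpC s := ⟨h1, h2, hPL, hPR⟩
  rcases hv : vw s.p s.t with ⟨w, r, t₁, t₀, v, B, G⟩ | ⟨r, t₁, t₀⟩ | ⟨Sp, u⟩ <;>
  rcases hv' : vw s.p s.t' with ⟨w', r', t₁', t₀', v', B', G'⟩ | ⟨r', t₁', t₀'⟩ | ⟨Sp', u'⟩
  · -- br br
    have ec : cyC stpC a me s = a s.p * (w * me t₀.g s.A) * (w' * me t₀'.g s.A') := by
      simp [cyC, hg, hv, hv']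
    have en : nxt0C stpC s = [((1 - w) * (1 - w'), { s with R := Ro r, t := t₁, t' := t₁' }),
       ((1 - w) * w', { s with R := Ro r, t := t₁, t' := t₀' }),
       (w * (1 - w'), { s with R := Ro r, t := t₀, t' := t₁' })] := by
      simp [nxt0C, h1, h2, hPL, hPR, hv, hv']
    have w0 := zw_br okL hv
    have w0' := zw_br okR hv'
    rw [vw_br hv] at okL
    rw [vw_br hv'] at okR
    have nn := V_nonneg (stp := stp) hμ ha s.A s.A' (z := ⟨s.M, s.M', t₀, t₀'⟩) ⟨okL.2.2, okR.2.2⟩
    have key := d5 (μ := me) (a := a) (A := s.A) (A' := s.A') (t := s.t) (t' := s.t') (p := s.p)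
      rfl hs hv hv' (St.not_isPL_br hPL hv hv') (St.not_isPR_br hPR hv hv')
    rw [ec, en]
    simp only [List.map_cons, List.map_nil, List.sum_cons, List.sum_nil, toZ]
    rw [key]
    have := mul_nonneg (mul_nonneg w0 w0') nn
    linarith
  · -- br add
    have ec : cyC stpC a me s = 0 := by simp [cyC, hg, hv, hv']
    have en : nxt0C stpC s = [(1, { s with t' := t₁' }), (1, { s with t' := t₀' })] := by
      simp [nxt0C, h1, h2, hPL, hPR, hv, hv']
    have et' := vw_add hv'
    have cb : (DT.add s.p r' t₁' t₀').Col (s.p + 1) := by rw [← et']; exact cR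
    have key := V_aR (μ := me) (a := a) (A := s.A) (A' := s.A') hpp (r' := r') cb.2.2.1 cb.2.2.2
      hs s.t cL
    rw [← et'] at key
    rw [ec, en]
    simp only [List.map_cons, List.map_nil, List.sum_cons, List.sum_nil, toZ]
    rw [key]
    exact le_of_eq (by ring)
  · -- br up
    have hw0 := zw_br okL hv
    have hd : ¬ s.p ∣ s.M := (St.not_isPL_up hPL hv hv').1
    have et := vw_br hv
    have cb : (DT.br s.p w r t₁ t₀ v B G).Col (s.p + 1) := by rw [← et]; exact cL
    have key := d6 (μ := me) (a := a) (A := s.A) (A' := s.A') (t := s.t) (t' := s.t') (p := s.p)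
      rfl hs hv hv' hd
    have hs2 := hI.mulR hpp hs
    rw [V_vR (t := t₁) hI hpp hs2 cb.2.2.1 cR hv', V_vR (t := t₀) hI hpp hs2 cb.2.2.2.1 cR hv'] at key
    have ec : cyC stpC a me s = a s.p * (w * me t₀.g s.A) * me s.t'.g s.A' := by
      simp [cyC, hg, hv, hv']
    rw [vw_br hv] at okL
    have okR' := vw_up_all hv' okR
    have z1 : ZOk (⟨s.M, s.p * s.M', t₁, u'⟩ : ZS Λ κ) := ⟨okL.2.1, okR'⟩
    have z0 : ZOk (⟨s.M, s.p * s.M', t₀, u'⟩ : ZS Λ κ) := ⟨okL.2.2, okR'⟩
    have w1 : 0 ≤ 1 - w := by linarith [okL.1.2]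
    by_cases hd' : s.p ∣ s.M'
    · have en : nxt0C stpC s = [(1 - w, { s with M' := s.p * s.M', O := insert s.p s.O, R := Ro r, t := t₁, t' := u' })] := by
        simp [nxt0C, h1, h2, hPL, hPR, hv, hv', hd']
      have nn := V_nonneg (stp := stp) hμ ha s.A s.A' z0
      rw [ec, en]
      simp only [List.map_cons, List.map_nil, List.sum_cons, List.sum_nil, toZ]
      rw [key]
      have := mul_nonneg hw0 nn
      linarith
    · have en : nxt0C stpC s = [(1 - w, { s with M' := s.p * s.M', O := insert s.p s.O, R := Ro r, t := t₁, t' := u', A' := s.A' ∩ Sp' }),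
         (w, { s with M' := s.p * s.M', O := insert s.p s.O, R := Ro r, t := t₀, t' := u', A' := s.A' ∩ Sp' }),
         (1 - w, { s with M' := s.p * s.M', O := insert s.p s.O, R := Ro r, t := t₁, t' := u', A' := s.A' \ Sp' })] := by
        simp [nxt0C, h1, h2, hPL, hPR, hv, hv', hd']
      have k1 := V_splitR (stp := stp) hμ ha s.A s.A' Sp' z1
      have k0 := V_monoR (stp := stp) hμ ha s.A (A := s.A' ∩ Sp') (B := s.A')
        Finset.inter_subset_left z0
      rw [ec, en]
      simp only [List.map_cons, List.map_nil, List.sum_cons, List.sum_nil, toZ]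
      rw [key]
      have j1 := mul_le_mul_of_nonneg_left k1 w1
      have j0 := mul_le_mul_of_nonneg_left k0 hw0
      linarith
  · -- add br
    have ec : cyC stpC a me s = 0 := by simp [cyC, hg, hv, hv']
    have en : nxt0C stpC s = [(1, { s with t := t₁ }), (1, { s with t := t₀ })] := by
      simp [nxt0C, h1, h2, hPL, hPR, hv, hv']
    have key := d1 (μ := me) (a := a) (A := s.A) (A' := s.A') (t := s.t) (t' := s.t') (p := s.p)
      rfl hs hv
    rw [ec, en]
    simp only [List.map_cons, List.map_nil, List.sum_cons, List.sum_nil, toZ]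
    rw [key]
    exact le_of_eq (by ring)
  · -- add add
    have ec : cyC stpC a me s = 0 := by simp [cyC, hg, hv, hv']
    have en : nxt0C stpC s = [(1, { s with t := t₁ }), (1, { s with t := t₀ })] := by
      simp [nxt0C, h1, h2, hPL, hPR, hv, hv']
    have key := d1 (μ := me) (a := a) (A := s.A) (A' := s.A') (t := s.t) (t' := s.t') (p := s.p)
      rfl hs hv
    rw [ec, en]
    simp only [List.map_cons, List.map_nil, List.sum_cons, List.sum_nil, toZ]
    rw [key]
    exact le_of_eq (by ring)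
  · -- add up
    have ec : cyC stpC a me s = 0 := by simp [cyC, hg, hv, hv']
    have en : nxt0C stpC s = [(1, { s with t := t₁ }), (1, { s with t := t₀ })] := by
      simp [nxt0C, h1, h2, hPL, hPR, hv, hv']
    have key := d1 (μ := me) (a := a) (A := s.A) (A' := s.A') (t := s.t) (t' := s.t') (p := s.p)
      rfl hs hv
    rw [ec, en]
    simp only [List.map_cons, List.map_nil, List.sum_cons, List.sum_nil, toZ]
    rw [key]
    exact le_of_eq (by ring)
  · -- up br
    have hw0 := zw_br okR hv'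
    have hd : ¬ s.p ∣ s.M' := (St.not_isPR_up hPR hv hv').1
    have et' := vw_br hv'
    have cb : (DT.br s.p w' r' t₁' t₀' v' B' G').Col (s.p + 1) := by rw [← et']; exact cR
    have key := d7 (μ := me) (a := a) (A := s.A) (A' := s.A') (t := s.t) (t' := s.t') (p := s.p)
      rfl hs hv' hv hd
    have hs2 := hI.mulL hpp hs
    rw [V_vL (t' := t₁') hI hpp hs2 cL cb.2.2.1 hv, V_vL (t' := t₀') hI hpp hs2 cL cb.2.2.2.1 hv] at key
    have ec : cyC stpC a me s = a s.p * me s.t.g s.A * (w' * me t₀'.g s.A') := by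
      simp [cyC, hg, hv, hv']
    rw [vw_br hv'] at okR
    have okL' := vw_up_all hv okL
    have z1 : ZOk (⟨s.p * s.M, s.M', u, t₁'⟩ : ZS Λ κ) := ⟨okL', okR.2.1⟩
    have z0 : ZOk (⟨s.p * s.M, s.M', u, t₀'⟩ : ZS Λ κ) := ⟨okL', okR.2.2⟩
    have w1 : 0 ≤ 1 - w' := by linarith [okR.1.2]
    by_cases hd' : s.p ∣ s.M
    · have en : nxt0C stpC s = [(1 - w', { s with M := s.p * s.M, O' := insert s.p s.O', R := Ro r', t := u, t' := t₁' })] := by
        simp [nxt0C, h1, h2, hPL, hPR, hv, hv', hd']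
      have nn := V_nonneg (stp := stp) hμ ha s.A s.A' z0
      rw [ec, en]
      simp only [List.map_cons, List.map_nil, List.sum_cons, List.sum_nil, toZ]
      rw [key]
      have := mul_nonneg hw0 nn
      linarith
    · have en : nxt0C stpC s = [(1 - w', { s with M := s.p * s.M, O' := insert s.p s.O', R := Ro r', t := u, A := s.A ∩ Sp, t' := t₁' }),
         (w', { s with M := s.p * s.M, O' := insert s.p s.O', R := Ro r', t := u, A := s.A ∩ Sp, t' := t₀' }),
         (1 - w', { s with M := s.p * s.M, O' := insert s.p s.O', R := Ro r', t := u, A := s.A \ Sp, t' := t₁' })] := by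
        simp [nxt0C, h1, h2, hPL, hPR, hv, hv', hd']
      have k1 := V_splitL (stp := stp) hμ ha s.A s.A' Sp z1
      have k0 := V_monoL (stp := stp) hμ ha s.A' (A := s.A ∩ Sp) (B := s.A)
        Finset.inter_subset_left z0
      rw [ec, en]
      simp only [List.map_cons, List.map_nil, List.sum_cons, List.sum_nil, toZ]
      rw [key]
      have j1 := mul_le_mul_of_nonneg_left k1 w1
      have j0 := mul_le_mul_of_nonneg_left k0 hw0
      linarith
  · -- up add
    have ec : cyC stpC a me s = 0 := by simp [cyC, hg, hv, hv']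
    have en : nxt0C stpC s = [(1, { s with t' := t₁' }), (1, { s with t' := t₀' })] := by
      simp [nxt0C, h1, h2, hPL, hPR, hv, hv']
    have et' := vw_add hv'
    have cb : (DT.add s.p r' t₁' t₀').Col (s.p + 1) := by rw [← et']; exact cR
    have key := V_aR (μ := me) (a := a) (A := s.A) (A' := s.A') hpp (r' := r') cb.2.2.1 cb.2.2.2
      hs s.t cL
    rw [← et'] at key
    rw [ec, en]
    simp only [List.map_cons, List.map_nil, List.sum_cons, List.sum_nil, toZ]
    rw [key]
    exact le_of_eq (by ring)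
  · -- up up
    have ec : cyC stpC a me s = 0 := by simp [cyC, hg, hv, hv']
    have en : nxt0C stpC s = [(1, { s with t := u, t' := u' })] := by
      simp [nxt0C, h1, h2, hPL, hPR, hv, hv']
    have key := d8 (μ := me) (a := a) (A := s.A) (A' := s.A') (t := s.t) (t' := s.t') (p := s.p)
      rfl hs h1 hv hv'
    rw [ec, en]
    simp only [List.map_cons, List.map_nil, List.sum_cons, List.sum_nil, toZ]
    rw [key]
    exact le_of_eq (by ring)

/-- **(Z2)** the cross walk of the generic costs is at most `V`; `Iv` is any invariant of the cross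
walk -/
theorem WC_cyC_le_V {me : TrG Λ κ → Finset Λ → ℝ} (hI : SI stp) (hμ : MX me) (ha : ∀ p, 0 ≤ a p)
    {stpC : St Λ κ → Prop} {Iv : St Λ κ → Prop} (hIv : ∀ s, Iv s → ∃ n, Inv wr Ad μ ν n s)
    (hnx : ∀ s, Iv s → ∀ q ∈ nxtC stpC s, Iv q.2)
    (hS : ∀ s, Iv s → stp s.M s.M' s.p → stpC s) {s : St Λ κ} (hs : Iv s) :
    WC stpC (cyC stpC a me) s ≤ V stp a me (toZ s) s.A s.A' := by
  refine WC_le_super (Iv := Iv) (Φ := fun s => V stp a me (toZ s) s.A s.A') ?_ ?_ hs
  · intro s hs q hq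
    obtain ⟨n, h⟩ := hIv s hs
    exact ⟨hnx s hs q hq, (nextC h q hq).2⟩
  · intro s hs
    obtain ⟨n, h⟩ := hIv s hs
    rw [Crest.Agent.R4P.WalkC.nxtC_sum stpC s fun s => V stp a me (toZ s) s.A s.A']
    exact cyC_step hI hμ ha (hS s hs) h

/-- (Z2), any costs below the generic ones -/
theorem WC_le_V {me : TrG Λ κ → Finset Λ → ℝ} (hI : SI stp) (hμ : MX me) (ha : ∀ p, 0 ≤ a p)
    {stpC : St Λ κ → Prop} {Iv : St Λ κ → Prop} (hIv : ∀ s, Iv s → ∃ n, Inv wr Ad μ ν n s)
    (hnx : ∀ s, Iv s → ∀ q ∈ nxtC stpC s, Iv q.2)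
    (hS : ∀ s, Iv s → stp s.M s.M' s.p → stpC s) {loc : St Λ κ → ℝ}
    (hloc : ∀ s, Iv s → loc s ≤ cyC stpC a me s) {s : St Λ κ} (hs : Iv s) :
    WC stpC loc s ≤ V stp a me (toZ s) s.A s.A' :=
  (WC_mono (Iv := Iv) (fun s hs q hq => by
    obtain ⟨n, h⟩ := hIv s hs
    exact ⟨hnx s hs q hq, (nextC h q hq).2⟩) hloc hs).trans (WC_cyC_le_V hI hμ ha hIv hnx hS hs)

end Crest.Agent.R4P.VWalk36
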