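import Crest.Agent.R4P.CtxX_26
import Crest.Agent.R4P.Blks_29
import Crest.Agent.R4P.VWalkC_36
import Crest.Agent.R4P.NI_10
import Crest.Agent.R4P.OSCtxA_14

/-!
R4 (S0004) with powers, module D, helper29: **the unsplit walk `V` of the crossing costs in a context**.

* `massOk_mI`, `side_mI` : the integral masses are masses of the nodes, `ν` replaced by `C ν`.
* `ctx_V` : `V ≤ ν ν` at the self states of the nodes of a context (masses `meI`, `a p = KAB (log p)^2`).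
* `V_pay` : `V` along the steps of the pair walk and its crossing states.
-/

set_option autoImplicit false
set_option linter.unusedSectionVars false
set_option linter.unusedVariables false
open Finset

namespace Crest.Agent.R4P.VCtx29

open Crest.Agent.R4.Tour104 Crest.Agent.R4.Tour758 Crest.Agent.R4.Avg758 Crest.Agent.R4.Clos758
open Crest.Agent.R4.ClosL758 Crest.Agent.R4.ClosG758 Crest.Agent.R4.ClosR758
open Crest.Agent.R4.Fam464 Crest.Agent.R4P.Cnt588 Crest.Agent.R4P.Walk560 Crest.Agent.R4.Piece464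
open Crest.Agent.R4P.Item758 Crest.Agent.R4P.AvgItem710
open Crest.Agent.R4P.Data758 Crest.Agent.R4P.WalkIT579
open Crest.Agent.R4P.Bld532 (NS All NodeOk Bk)
open Crest.Agent.R4P.Res927 Crest.Agent.R4P.GSt927 Crest.Agent.R4P.OSWS245
open Crest.Agent.R4P.OSWI245
open Crest.Agent.R4P.Skel189 (Ctx top Part PartW)
open Crest.Agent.R4.Item758 (AdI AdI_univ)
open Crest.Agent.R4P.VWalk36 Crest.Agent.R4P.VNum34 Crest.Agent.R4P.VItem34
open Crest.Agent.R4.WalkX560 (MX)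
open Crest.Agent.R4.Soft104
open Crest.Agent.R4P.Step588 (NDt ND1 ctx_NDt All_All CT)
open Crest.Agent.R4P.Blks29 Crest.Agent.R4P.CtxX26
open Crest.Agent.R4P.GInst194 (mI)

/-! ### integral masses -/

section mass
variable {Λ κ : Type*} [Fintype Λ] [DecidableEq Λ] [DecidableEq κ] [Fintype κ] [WRel κ]
  {wr : ℕ → Λ → κ} {Ad : TrG Λ κ → Finset Λ → Prop} {μ : TrG Λ κ → Finset Λ → ℝ}
  {ν : TrG Λ κ → ℝ} {n : ℕ}

lemma meI_ms {t : TrG Λ κ} (h : t.Ok) (A : Finset Λ) : meI t A = ms A t := by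
  unfold meI
  exact okm_eq h A

lemma massB_mI {C : ℝ} (hC : 0 ≤ C) {t : TrG Λ κ} (hm : MassB Ad μ ν t)
    (hle : ∀ A, meI t A ≤ C * ν t) : MassB Ad meI (fun t => C * ν t) t where
  nn := fun A _ => MX_meI.nn t A
  le := fun A _ => hle A
  nu := mul_nonneg hC hm.nu
  un := fun A A' hd _ _ => MX_meI.un t A A' hd

/-- **the integral masses are raw masses** (`ν` replaced by `C ν`) -/
lemma massOk_mI {C : ℝ} (hC : 0 ≤ C) {t : TrG Λ κ} (h : t.Ok) (hN : AdN Ad t)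
    (hm : MassOk Ad μ ν t) (hle : ∀ A, meI t A ≤ C * ν t) :
    MassOk Ad meI (fun t => C * ν t) t := by
  cases t with
  | leaf r f => exact massB_mI hC hm hle
  | br P w r t₁ t₀ v B G =>
    refine ⟨massB_mI hC hm.1 hle, fun A hA => ?_, ?_⟩
    · rw [meI_ms h.1, meI_ms h.2.1, meI_ms h]
      exact (ms_br h (hN A hA).1).ge
    · have := mul_le_mul_of_nonneg_left hm.2.2 hC
      show (1 - w) * (C * ν t₁) + w * (C * ν t₀) ≤ C * _
      linarith
  | add r t₁ t₀ =>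
    refine ⟨massB_mI hC hm.1 hle, fun A hA => ?_, ?_⟩
    · rw [meI_ms h.1, meI_ms h.2, meI_ms h]
      exact (ms_add h A).ge
    · have := mul_le_mul_of_nonneg_left hm.2.2 hC
      show C * ν t₁ + C * ν t₀ ≤ C * _
      linarith

/-- subtrees of an `Ok` tree -/
lemma all_ok {t : DT Λ κ} : t.g.Ok → t.All fun d => d.g.Ok := by
  induction t with
  | leaf r f => exact fun h => h
  | br p w r t₁ t₀ v B G ih₁ ih₀ => exact fun h => ⟨h, ih₁ h.1, ih₀ h.2.1⟩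
  | add p r t₁ t₀ ih₁ ih₀ => exact fun h => ⟨h, ih₁ h.1, ih₀ h.2⟩
  | up b Sp t ih => exact fun h => ⟨h, ih h⟩

/-- **a side with the integral masses** -/
lemma side_mI {C : ℝ} (hC : 0 ≤ C) {t : DT Λ κ} {A : Finset Λ} (h : Side wr Ad μ ν n t A)
    (hle : t.All fun d => ∀ A, meI d.g A ≤ C * ν d.g) :
    Side wr Ad meI (fun t => C * ν t) n t A where
  ok := h.ok
  ad := h.ad
  col := h.col
  wf := by
    have h1 := ((all_ok h.ok).and h.wf).and hle
    refine h1.mono fun d k => ?_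
    exact ⟨k.1.2.wrn, k.1.2.pul, k.1.2.adN, k.1.2.adU, k.1.2.adE,
      massOk_mI hC k.1.1 k.1.2.adN k.1.2.mass k.2⟩

end mass

/-! ### the sets of the `up` nodes do not matter -/

section strip
variable {Λ κ : Type*} [Fintype Λ] [DecidableEq Λ]
open Crest.Agent.R4P.Strip29 (strip strip_g strip_size strip_top strip_isLeaf Vst vw_strip)

/-- the stripped shape -/
def stZ (z : ZS Λ κ) : ZS Λ κ := ⟨z.M, z.M', strip z.t, strip z.t'⟩

@[simp] lemma stZ_p (z : ZS Λ κ) : (stZ z).p = z.p := by simp [ZS.p, stZ]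

@[simp] lemma stZ_rank (z : ZS Λ κ) : (stZ z).rank = z.rank := by simp [ZS.rank, stZ]

lemma stZ_M (z : ZS Λ κ) : (stZ z).M = z.M := rfl
lemma stZ_M' (z : ZS Λ κ) : (stZ z).M' = z.M' := rfl
lemma stZ_t (z : ZS Λ κ) : (stZ z).t = strip z.t := rfl
lemma stZ_t' (z : ZS Λ κ) : (stZ z).t' = strip z.t' := rfl

/-- the continuing shapes of the stripped shape -/
lemma zn_stZ (stp : ℕ → ℕ → ℕ → Prop) (z : ZS Λ κ) :
    zn stp (stZ z) = (zn stp z).map fun q => (q.1, stZ q.2) := by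
  classical
  unfold zn
  simp only [stZ_p, stZ_M, stZ_M', stZ_t, stZ_t', strip_isLeaf]
  by_cases h1 : z.t.isLeaf ∧ z.t'.isLeaf
  · simp only [if_pos h1]; rfl
  rw [if_neg h1, if_neg h1]
  by_cases h2 : stp z.M z.M' z.p
  · simp only [if_pos h2]; rfl
  rw [if_neg h2, if_neg h2]
  rw [vw_strip, vw_strip]
  rcases hv : vw z.p z.t with ⟨w, r, t₁, t₀, v, B, G⟩ | ⟨r, t₁, t₀⟩ | ⟨Sp, u⟩ <;>
  rcases hv' : vw z.p z.t' with ⟨w', r', t₁', t₀', v', B', G'⟩ | ⟨r', t₁', t₀'⟩ | ⟨Sp', u'⟩ <;>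
  simp only [Vst] <;> (try split_ifs) <;> simp [stZ]

/-- the costs of the stripped shape -/
lemma cz_stZ (stp : ℕ → ℕ → ℕ → Prop) (a : ℕ → ℝ) (μ : TrG Λ κ → Finset Λ → ℝ)
    (A A' : Finset Λ) (z : ZS Λ κ) : cz stp a μ A A' (stZ z) = cz stp a μ A A' z := by
  classical
  unfold cz
  simp only [stZ_p, stZ_M, stZ_M', stZ_t, stZ_t', strip_isLeaf]
  by_cases h1 : z.t.isLeaf ∧ z.t'.isLeaf
  · simp only [if_pos h1]
  rw [if_neg h1, if_neg h1]
  by_cases h2 : stp z.M z.M' z.p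
  · simp only [if_pos h2]
  rw [if_neg h2, if_neg h2]
  rw [vw_strip, vw_strip]
  rcases hv : vw z.p z.t with ⟨w, r, t₁, t₀, v, B, G⟩ | ⟨r, t₁, t₀⟩ | ⟨Sp, u⟩ <;>
  rcases hv' : vw z.p z.t' with ⟨w', r', t₁', t₀', v', B', G'⟩ | ⟨r', t₁', t₀'⟩ | ⟨Sp', u'⟩ <;>
  simp only [Vst, strip_g]

/-- **`V` does not see the sets of the `up` nodes** -/
theorem V_stZ (stp : ℕ → ℕ → ℕ → Prop) (a : ℕ → ℝ) (μ : TrG Λ κ → Finset Λ → ℝ)
    (A A' : Finset Λ) : ∀ (k : ℕ) (z : ZS Λ κ), z.rank < k →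
      V stp a μ (stZ z) A A' = V stp a μ z A A' := by
  intro k
  induction k with
  | zero => intro z hz; omega
  | succ k ih =>
    intro z hz
    rw [V_eq, V_eq, cz_stZ, zn_stZ, List.map_map]
    congr 2
    refine List.map_congr_left fun q hq => ?_
    have h1 := zn_rank stp z q hq
    show q.1 * V stp a μ (stZ q.2) A A' = _
    rw [ih q.2 (by omega)]

end strip

/-! ### contexts -/

section ctx
variable {N : Skel189.Num} {γ : ℝ} {p0 P₀ : ℕ}
open Crest.Agent.R4P.Frame758 (tM tN tG tD wt)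
open Crest.Agent.R4P.NI927 (Mean)
open Crest.Agent.R4P.OSCtx710 (ctx_side ctx_mtD ctx_mtP)

/-- node facts for `V` -/
structure QV (X : Ctx N γ p0 P₀) (j₀ : X.c.Lam) (u : NS) (τ : IT) : Prop where
  nd : NDt X.par (w X.ψ) X.c.t u τ
  mass : X.tn j₀ (X.g u τ) = u.c * Ws (w X.ψ) τ.items
  c0 : 0 < u.c
  le : ∀ A : Finset X.c.Lam, ∑ j ∈ A, mI (tD X.c.D X.Y X.c.sp u.B u.A τ) j ≤
    4 * X.tm j₀ (X.g u τ) A

theorem ctx_QV (N : Skel189.Num) : ∃ p₁ : ℕ, ∀ p0 ≥ p₁, ∀ (γ : ℝ) (P₀ : ℕ), 2 ≤ P₀ →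
    ∀ (X : Ctx N γ p0 P₀) (j₀ : X.c.Lam), All (QV X j₀) ⟨top X.S, 1, 1, 1⟩ X.c.t := by
  obtain ⟨a1, h1⟩ := Skel189.ctx_sum_mI N
  refine ⟨a1, fun p0 hp0 γ P₀ hP X j₀ => ?_⟩
  refine All.mono (fun u τ hh => ?_) ((((ctx_NDt X).and (ctx_nu X j₀)).and (Skel189.ctx_cpos X)).and
    (h1 p0 hp0 γ P₀ hP X j₀))
  exact ⟨hh.1.1.1, hh.1.1.2.1, hh.1.2, hh.2⟩

variable {X : Ctx N γ p0 P₀} {j₀ : X.c.Lam}

lemma tn_nonneg {t : TrG X.c.Lam (Lb (WL X.c.Lam) X.Y)} (h : t.Ok) : 0 ≤ X.tn j₀ t :=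
  Skel189.tM_nonneg X j₀ h Finset.univ

/-- `Ok` at the nodes -/
lemma node_ok {u : NS} {τ : IT} (h : NDt X.par (w X.ψ) X.c.t u τ) :
    ((X.c.D.par X.Y).toDT X.c.sp u.B u.A τ).g.Ok := by
  obtain ⟨hB, hF, hW, -⟩ := ctx_side X X.Y h
  rw [Par.toDT_g]
  exact (X.c.D.par X.Y).toG_Ok hB hF hW

lemma MX.mono' {Λ κ : Type*} [Fintype Λ] [DecidableEq Λ] {μ : TrG Λ κ → Finset Λ → ℝ} (hμ : MX μ)
    {A B : Finset Λ} (h : A ⊆ B) (t : TrG Λ κ) : μ t A ≤ μ t B := by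
  have h1 := hμ.un t A (B \ A) Finset.disjoint_sdiff
  rw [Finset.union_sdiff_of_subset h] at h1
  have := hμ.nn t (B \ A)
  linarith

/-- **integral masses are below the raw masses at all the nodes of the decorated tree** -/
lemma node_le {u : NS} {τ : IT} (hq : All (QV X j₀) u τ) :
    ((X.c.D.par X.Y).toDT X.c.sp u.B u.A τ).All fun d => ∀ A, meI d.g A ≤ 4 * X.tn j₀ d.g := by
  refine Par.toDT_All (X.c.D.par X.Y) X.c.sp (Qp := QV X j₀) (fun s t h A => ?_) (fun r A => ?_) τ u hq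
  · have hok := node_ok h.nd
    refine (MX.mono' MX_meI (Finset.subset_univ A) _).trans ?_
    rw [meI_eq hok]
    refine (h.le Finset.univ).trans (le_of_eq ?_)
    rw [Par.toDT_g]
    rfl
  · have hok : (TrG.leaf r fun _ _ => 0 : TrG X.c.Lam (Lb (WL X.c.Lam) X.Y)).Ok := fun _ =>
      PB.const le_rfl
    have h1 : meI (TrG.leaf r fun _ _ => 0 : TrG X.c.Lam (Lb (WL X.c.Lam) X.Y)) A = 0 := by
      rw [meI_ms hok, ms_eq]
      refine Finset.sum_eq_zero fun j _ => ?_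
      show I (fun _ => (0:ℝ)) = 0
      unfold I
      simp
    show meI (TrG.leaf r fun _ _ => 0 : TrG X.c.Lam (Lb (WL X.c.Lam) X.Y)) A ≤ _
    rw [h1]
    exact mul_nonneg (by norm_num) (tn_nonneg hok)

/-- **shares of the missing items at all the nodes of the decorated tree** -/
lemma node_sgN {u : NS} {τ : IT} (hq : All (QV X j₀) u τ) :
    ((X.c.D.par X.Y).toDT X.c.sp u.B u.A τ).All
      (SgN (fun p => 2 * X.par.sg p) fun t => 4 * X.tn j₀ t) := by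
  refine Par.toDT_All (X.c.D.par X.Y) X.c.sp (Qp := fun u τ => All (QV X j₀) u τ)
    (fun s t h => ?_) (fun r => trivial) τ u (All_All _ _ hq)
  have hsg : ∀ p, 0 ≤ X.par.sg p := fun p => Bld532.par_sg_nonneg _ _ _ _ _
  cases t with
  | leaf S => trivial
  | br p Sp t₁ t₀ =>
    have e1 := h.self.mass
    have e0 := h.2.2.self.mass
    obtain ⟨hpp, -, -, -, -, -, -, -, -, -, -, hs, -⟩ := h.self.nd.self.node
    have hp : (p:ℝ) ≠ 0 := by exact_mod_cast hpp.ne_zero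
    have g0 := (X.c.D.par X.Y).toDT_g X.c.sp t₀ (s.B * p) s.A
    have g1 := (X.c.D.par X.Y).toDT_g X.c.sp (.br p Sp t₁ t₀) s.B s.A
    show 1 / (p : ℝ) * (4 * X.tn j₀ ((X.c.D.par X.Y).toDT X.c.sp (s.B * p) s.A t₀).g) ≤
      2 * X.par.sg p * (4 * X.tn j₀ ((X.c.D.par X.Y).toDT X.c.sp s.B s.A (.br p Sp t₁ t₀)).g)
    rw [g0, g1]
    have e1' : X.tn j₀ ((X.c.D.par X.Y).toG s.B s.A (.br p Sp t₁ t₀)) =
      s.c * Ws (w X.ψ) (t₁.items ∪ t₀.items) := e1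
    have e0' : X.tn j₀ ((X.c.D.par X.Y).toG (s.B * p) s.A t₀) = s.c * p * Ws (w X.ψ) t₀.items := e0
    rw [e1', e0']
    have := mul_le_mul_of_nonneg_left hs h.self.c0.le
    have e2 : 1 / (p : ℝ) * (4 * (s.c * p * Ws (w X.ψ) t₀.items)) =
        4 * (s.c * Ws (w X.ψ) t₀.items) := by field_simp
    rw [e2]
    nlinarith
  | add p t₁ t₀ => trivial
  | up p Sp t => trivial
  | pl p t =>
    show (0 : ℝ) * _ ≤ 2 * X.par.sg p * (4 * X.tn j₀ ((X.c.D.par X.Y).toDT X.c.sp s.B s.A (.pl p t)).g)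
    rw [zero_mul]
    exact mul_nonneg (mul_nonneg (by norm_num) (hsg p)) (mul_nonneg (by norm_num)
      (tn_nonneg (node_ok h.self.nd)))
  | far p t₁ t₀ => trivial

/-- the cost of a missing child in a context -/
noncomputable def aX (p : ℕ) : ℝ := KAB (2 * CT) (1 / 2) * Real.log p ^ 2

lemma aX_nonneg (p : ℕ) : 0 ≤ aX p := by unfold aX KAB; positivity

/-- the settled masses of the stop rule of `V` do not change inside a chain -/
lemma SI_stp2 : SI stp2 where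
  L := fun p M M' hp => by
    by_cases h : M = 0
    · subst h; rw [Nat.mul_zero]
    by_cases h' : M' = 0
    · subst h'; unfold stp2 US; simp
    exact stp2_mulL h h' hp
  R := fun p M M' hp => by
    by_cases h : M' = 0
    · subst h; rw [Nat.mul_zero]
    by_cases h' : M = 0
    · subst h'; unfold stp2 US; simp
    exact stp2_mulR h' h hp

theorem ctx_V (N : Skel189.Num) : ∃ p₁ : ℕ, ∀ p0 ≥ p₁, ∀ (γ : ℝ) (P₀ : ℕ), 2 ≤ P₀ →
    ∀ (X : Ctx N γ p0 P₀) (j₀ : X.c.Lam), All (fun u τ => 0 < u.n →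
      V stp2 aX meI ⟨1, 1, (X.c.D.par X.Y).toDT X.c.sp u.B u.A τ,
          (X.c.D.par X.Y).toDT X.c.sp u.B u.A τ⟩ Finset.univ Finset.univ ≤
        48 * (X.tn j₀ (X.g u τ) * X.tn j₀ (X.g u τ))) ⟨top X.S, 1, 1, 1⟩ X.c.t := by
  obtain ⟨a1, h1⟩ := ctx_QV N
  obtain ⟨a2, h2⟩ := OSWI245.exists_OSN (11/12) (N.B + 1) (N.B + 2)
    (KAB (2 * CT) (1 / 2) * (1 * 2)) 1 (by norm_num) (by unfold KAB; positivity) one_pos
  refine ⟨a1 + a2 + 3, fun p0 hp0 γ P₀ hP X j₀ => ?_⟩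
  refine All.mono (fun u τ hh hn0 => ?_) ((All_All _ _ (h1 p0 (by omega) γ P₀ hP X j₀)).and
    (NI927.ctx_mt X))
  obtain ⟨hq, hmt⟩ := hh
  have hND := hq.self.nd
  obtain ⟨hB, hF, hW, hno⟩ := ctx_side X X.Y hND
  set d := (X.c.D.par X.Y).toDT X.c.sp u.B u.A τ with hd
  have hab : ∀ j, (X.c.D.par X.Y).al j ≤ (X.c.D.par X.Y).be j :=
    fun j => X.ok.bpm _ (Cf.mem_S j) (Cf.r_pos j) (Nat.le_succ _)
  have hs : SideI (X.c.D.par X.Y) X.c.sp u.B u.A τ Finset.univ d :=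
    ⟨rfl, hB, hF, hW, (AdI_univ (X.c.D.par X.Y).it _).1, u.n, hND.self.ok⟩
  have colD : d.Col u.n := (X.c.D.par X.Y).toDT_Col X.c.sp τ u.n u.B u.A hND.self.ok
  have imD : d.All (Res927.IM (IMI194.dvM GInst194.mI) GInst194.mI) :=
    IMI194.IM_toDT hab τ u.B u.A u.n hB hND.self.ok hF hW
  have tgD : d.All (TopGe p0) := StopCtx9.topGe_toDT (P := X.par) le_rfl hno
  have hS : Side (X.c.D.par X.Y).rho (AdI (X.c.D.par X.Y).it) (X.tm j₀) (X.tn j₀) u.n d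
      Finset.univ :=
    CtxX26.side_of_SideI (X.ok.spok.spOk X.Y) (fun b => X.c.IL_sp b)
      (X.c.D.dec_nonneg (fun j => Skel189.wt_nonneg X j) (fun S => Skel189.cx_nonneg X S) _)
      (X.c.D.dec_union (wt X.c.D) X.cx X.Y) j₀ hs (Item758.IL_univ _)
      (le_of_lt (colD.top_lt hn0))
  have hle := node_le (j₀ := j₀) hq
  have hS' := side_mI (C := 4) (by norm_num) hS hle
  have hz : ZI (X.c.D.par X.Y).rho (AdI (X.c.D.par X.Y).it) meI (fun t => 4 * X.tn j₀ t)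
      Finset.univ Finset.univ u.n ⟨1, 1, d, d⟩ := ZI.start hS' hS' rfl rfl
  have hqn : d.All (QN (fun p => 2 * X.par.sg p) (fun t => 4 * X.tn j₀ t)
      (IMI194.dvM GInst194.mI)) := imD.and (node_sgN hq)
  have hsg : ∀ p, 0 ≤ X.par.sg p := fun p => Bld532.par_sg_nonneg _ _ _ _ _
  have key := V_item (C := 1) (h2 p0 (by omega)) (by norm_num) zero_le_one aX_nonneg
    (fun p => mul_nonneg (by norm_num) (hsg p)) (fun p hp => ?_) (fun _ _ _ h => h)
    (fun {n t A} _ _ => by rw [one_mul]) hz (OJ_start rfl rfl tgD tgD) hqn hqn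
    (fun j hj hm0 => ?_)
  · have h3 : meI d.g Finset.univ ≤ 4 * X.tn j₀ d.g := hle.self Finset.univ
    have h4 : 0 ≤ X.tn j₀ d.g := tn_nonneg (node_ok hND)
    have h5 : X.tn j₀ d.g = X.tn j₀ (X.g u τ) := by
      rw [hd, Par.toDT_g]
      rfl
    rw [← h5]
    refine key.trans ?_
    show 1 * (2 * (4 * X.tn j₀ d.g * meI d.g Finset.univ) +
      meI d.g Finset.univ * (4 * X.tn j₀ d.g)) ≤ _
    nlinarith
  · have hp2 : 2 ≤ p := by omega
    have := beta_num (K₁ := KAB (2 * CT) (1 / 2)) (K₂ := 2) (E := N.B) (C := 1) hp2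
    refine le_of_eq (Eq.trans ?_ this)
    unfold aX
    show _ * (1 * (2 * (Real.log p ^ N.B / p))) = _
    ring
  · obtain ⟨k1, k2, k3⟩ := ctx_mtD X hND.self.ok hB hF hW hs hm0
    show (∀ q ∈ Res927.mtD (IMI194.dvM GInst194.mI) j d, p0 < q) ∧ _
    rw [k3]
    exact ctx_mtP X (by omega) k1 (hmt _ k2)

end ctx

/-! ### along the pair walk -/

section walk
variable {Λ κ : Type*} [Fintype Λ] [DecidableEq Λ] [Fintype κ] [DecidableEq κ] [WRel κ]
  {wr : ℕ → Λ → κ} {Ad : TrG Λ κ → Finset Λ → Prop} {μ : TrG Λ κ → Finset Λ → ℝ}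
  {ν : TrG Λ κ → ℝ} {n : ℕ} {D : Item758.Par Λ κ} {sp : ℕ → Finset Λ}
  {Qp : NS → IT → Prop} {stp : Stp Λ κ} {p0 : ℕ}

/-- settled primes of a state -/
lemma US_eq {s : St Λ κ} (mL : MS s.p s.M s.O') (mR : MS s.p s.M' s.O) :
    US s.M s.M' s.p = sO s ∪ sO' s := by
  unfold US sO sO'
  rw [Nat.primeFactors_mul mL.pos.ne' mR.pos.ne', mL.eq, mR.eq, Finset.union_comm,
    Finset.filter_union]

/-- a state which is not stopped -/
lemma not_stp2 {s : St Λ κ} (mL : MS s.p s.M s.O') (mR : MS s.p s.M' s.O)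
    (h : mS s < (s.p : ℝ) ^ (-(1/3) : ℝ)) : ¬ stp2 s.M s.M' s.p := by
  unfold stp2
  rw [US_eq mL mR, not_le]
  have h0 : 0 ≤ mS s := mS_nonneg s
  unfold mS at h h0
  linarith

/-- the potential of the unsplit walk -/
noncomputable def VX (x : XSt Λ κ) : ℝ := V stp2 aX meI (toZ x.s) x.s.A x.s.A'

lemma VX_nonneg {x : XSt Λ κ} (h : Inv wr Ad μ ν n x.s) : 0 ≤ VX x :=
  V_nonneg MX_meI aX_nonneg _ _ (ZOk_of_inv h)

/-- **(Z1) for the states with history** -/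
theorem VX_cross (hst : ∀ s : St Λ κ, ¬ stp s → ¬ stpN s) {x : XSt Λ κ} (hO : OI p0 x)
    (mL : MS x.s.p x.s.M x.s.O') (mR : MS x.s.p x.s.M' x.s.O)
    (hI : Inv wr Ad μ ν n x.s) (dv : DT Λ κ → Λ → Prop) :
    ((steps stp dv x).map fun e => e.a * e.a' * VX e.y).sum +
      ((crs stp x.s).map fun q => V stp2 aX meI (toZ q) q.A q.A').sum ≤ VX x := by
  have e1 : ((steps stp dv x).map fun e => e.a * e.a' * VX e.y).sum =
      ((nxt stp x.s).map fun q => q.1 * V stp2 aX meI (toZ q.2) q.2.A q.2.A').sum := by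
    rw [← steps_proj stp dv x, List.map_map]
    rfl
  rw [e1]
  by_cases h1 : x.s.t.isLeaf ∨ x.s.t'.isLeaf
  · have e2 : nxt stp x.s = [] := by simp [nxt, nxt0, h1]
    have e3 : crs stp x.s = [] := by simp [crs, h1]
    rw [e2, e3]
    simpa using VX_nonneg hI
  refine V_cross SI_stp2 MX_meI aX_nonneg (fun h2 => ?_) hI
  by_contra hs
  have h3 : 0 < x.s.p := by
    rw [not_or] at h1
    have h4 := hI.L.col
    rcases h5 : x.s.t with ⟨r, f⟩ | ⟨q, w, r, t₁, t₀, v, B, G⟩ | ⟨q, r, t₁, t₀⟩ | ⟨q, Sp, t⟩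
    · exact absurd (by rw [h5]; trivial) h1.1
    all_goals
      rw [h5] at h4
      refine lt_of_lt_of_le ?_ (le_max_left _ _)
      rw [h5]
      exact h4.1.pos
  exact not_stp2 mL mR (hO.mS_lt (hst _ hs) h3) h2

end walk

end Crest.Agent.R4P.VCtx29
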