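import Crest.Agent.R4P.RawB_25
import Crest.Agent.R4P.XStart_25
import Crest.Agent.R4P.VCtx_29

/-!
R4 (S0004) with powers, module D, helper29: **the glue of the cross walk**.

* `WC_all_le` : all the local costs of the cross walk against the generic costs `cyC`, the global parts `gS` (merges),
  `Gst` (stops, ends) and the potentials of the pairs of items.
* `cross_le` : `Xs μ B s ≤ V + g + Σ_e ((1 + K) pot e + Φ e)`; `cross_leC` : with a part `C μ μ'` absorbed in `B`.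
* `ctx_cross` : the instance for a context (stripped crossing state `stS z`).
* `Xs_cut` : change of the relation of a crossing state.
-/

set_option autoImplicit false
set_option linter.unusedSectionVars false
set_option linter.unusedVariables false
open Finset

namespace Crest.Agent.R4P.Glue29

open Crest.Agent.R4.HVW560 Crest.Agent.R4P.AvgItem710
open Crest.Agent.R4.Tour104 Crest.Agent.R4.Tour758 Crest.Agent.R4.Avg758 Crest.Agent.R4.Clos758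
open Crest.Agent.R4.ClosL758 Crest.Agent.R4.ClosG758 Crest.Agent.R4.ClosR758
open Crest.Agent.R4P.Cnt588 Crest.Agent.R4P.Walk560 Crest.Agent.R4P.Item758
open Crest.Agent.R4P.Bld532 (NS All NodeOk Bk dv nd mem_dv mem_nd)
open Crest.Agent.R4P.GSt927 Crest.Agent.R4P.WalkIT579 Crest.Agent.R4P.NMW710
open Crest.Agent.R4P.CrossLoc25 Crest.Agent.R4P.CrossLocC25 Crest.Agent.R4P.WalkC
open Crest.Agent.R4P.CyC25 Crest.Agent.R4P.YI25
open Crest.Agent.R4P.VWalk36 (toZ WC_cyC_le_V V SI ZOk_of_inv V_nonneg)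
open Crest.Agent.R4.WalkX560 (MX)

section gen
variable {Λ κ : Type*} [Fintype Λ] [DecidableEq Λ] [Fintype κ] [DecidableEq κ] [WRel κ]
  {D : Par Λ κ} {sp : ℕ → Finset Λ} {P : Bld532.Par} {W : ℕ → ℝ} {Qp : NS → IT → Prop}
  {Al : Finset ℕ} {RP : Finset (Λ × Λ) → Prop}

/-- terminal states of the cross walk -/
def End (stp : St Λ κ → Prop) (s : St Λ κ) : Prop := (s.t.isLeaf ∧ s.t'.isLeaf) ∨ stp s

variable {stp : St Λ κ → Prop} {Iv : St Λ κ → NS → NS → IT → IT → Prop}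
  {l Φ : St Λ κ → NS → NS → IT → IT → ℕ × ℕ → ℝ}
  {Vs : ℝ × ℝ → ℕ × ℕ → ℝ} {Vc Vx : ℕ → ℝ × ℝ → ℕ × ℕ → ℝ} {K : ℝ} {gS Gst : St Λ κ → ℝ}
  {μ me : TrG Λ κ → Finset Λ → ℝ} {B : ℝ} {a : ℕ → ℝ}

/-- **local costs of the cross walk**: `Iv` = invariants of the walk -/
structure LocH (D : Par Λ κ) (Al : Finset ℕ) (sp : ℕ → Finset Λ) (Qp : NS → IT → Prop)
    (RP : Finset (Λ × Λ) → Prop) (stp : St Λ κ → Prop) (Iv : St Λ κ → NS → NS → IT → IT → Prop)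
    (l : St Λ κ → NS → NS → IT → IT → ℕ × ℕ → ℝ) (Vs : ℝ × ℝ → ℕ × ℕ → ℝ)
    (Vc Vx : ℕ → ℝ × ℝ → ℕ × ℕ → ℝ) (K : ℝ) (gS Gst : St Λ κ → ℝ)
    (μ : TrG Λ κ → Finset Λ → ℝ) (B : ℝ) : Prop where
  iv : ∀ s u u' τ τ', Iv s u u' τ τ' → YI D sp Qp RP s u u' τ τ' → ∀ c : CR Λ κ,
    (c.w, c.s) ∈ nxtC stp s → Chd D Al sp Qp RP s.p s u u' τ τ' c → Iv c.s c.v c.v' c.σ c.σ'
  K0 : 0 ≤ K
  l0 : ∀ s u u' τ τ' e, 0 ≤ l s u u' τ τ' e
  s0 : ∀ s, 0 ≤ gS s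
  t0 : ∀ s, 0 ≤ Gst s
  /-- merges -/
  sh : ∀ s u u' τ τ', Iv s u u' τ τ' → YI D sp Qp RP s u u' τ τ' → ¬ End stp s →
    eSHRC stp s ≤ gS s + ∑ e ∈ Ep D Al s τ τ', l s u u' τ τ' e
  /-- stops and ends -/
  en : ∀ s u u' τ τ', Iv s u u' τ τ' → YI D sp Qp RP s u u' τ τ' → End stp s →
    Xs μ B s ≤ Gst s + ∑ e ∈ Ep D Al s τ τ', (K * potS Vs Vc Vx s u u' τ τ' e + l s u u' τ τ' e)

/-- **all the local costs at a state** -/
theorem eAllC_le (H : LocH D Al sp Qp RP stp Iv l Vs Vc Vx K gS Gst μ B)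
    (h0 : ∀ s e, 0 ≤ Vs s e) (h1 : ∀ l s e, 0 ≤ Vc l s e) (h2 : ∀ l s e, 0 ≤ Vx l s e)
    {s : St Λ κ} {u u' : NS} {τ τ' : IT} (hI : Iv s u u' τ τ')
    (h : YI D sp Qp RP s u u' τ τ')
    (hloc : eNMC stp s + eONEC stp s + eXITC stp μ B s ≤ cyC stp a me s +
      ∑ e ∈ Ep D Al s τ τ', lcS stp Vs Vc Vx s u u' τ τ' e) :
    eAllC stp μ B s ≤ (cyC stp a me s + (gS s + Gst s)) +
      ∑ e ∈ Ep D Al s τ τ', (lcS stp Vs Vc Vx s u u' τ τ' e +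
        (K * lcS stp Vs Vc Vx s u u' τ τ' e + l s u u' τ τ' e)) := by
  classical
  have e1 : ∑ e ∈ Ep D Al s τ τ', (lcS stp Vs Vc Vx s u u' τ τ' e +
        (K * lcS stp Vs Vc Vx s u u' τ τ' e + l s u u' τ τ' e)) =
      ∑ e ∈ Ep D Al s τ τ', lcS stp Vs Vc Vx s u u' τ τ' e +
        (∑ e ∈ Ep D Al s τ τ', K * lcS stp Vs Vc Vx s u u' τ τ' e +
          ∑ e ∈ Ep D Al s τ τ', l s u u' τ τ' e) := by
    rw [Finset.sum_add_distrib, Finset.sum_add_distrib]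
  have hK : 0 ≤ ∑ e ∈ Ep D Al s τ τ', K * lcS stp Vs Vc Vx s u u' τ τ' e :=
    Finset.sum_nonneg fun e _ => mul_nonneg H.K0 (lcS_nonneg h0 h1 h2 stp s u u' τ τ' e)
  have hl : 0 ≤ ∑ e ∈ Ep D Al s τ τ', l s u u' τ τ' e := Finset.sum_nonneg fun e _ => H.l0 _ _ _ _ _ _
  have hs := H.s0 s
  have ht := H.t0 s
  rw [e1]
  unfold eAllC
  by_cases hE : (s.t.isLeaf ∧ s.t'.isLeaf) ∨ stp s
  · have e2 : eSHRC stp s = 0 := by unfold eSHRC; rw [if_pos hE]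
    have e3 : eSTOPC stp μ B s = Xs μ B s := by unfold eSTOPC; rw [if_pos hE]
    have e4 : ∑ e ∈ Ep D Al s τ τ', K * lcS stp Vs Vc Vx s u u' τ τ' e =
        ∑ e ∈ Ep D Al s τ τ', K * potS Vs Vc Vx s u u' τ τ' e :=
      Finset.sum_congr rfl fun e _ => by rw [lcS_end hE]
    have h3 := H.en s u u' τ τ' hI h hE
    rw [Finset.sum_add_distrib] at h3
    rw [e2, e3, e4]
    linarith
  · have e3 : eSTOPC stp μ B s = 0 := by unfold eSTOPC; rw [if_neg hE]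
    have h3 := H.sh s u u' τ τ' hI h hE
    rw [e3]
    linarith

/-- **THE LOCAL COSTS AGAINST THE GENERIC COSTS AND THE PAIRS OF ITEMS** -/
theorem WC_all_le (hh : YH D sp P W Qp) (hRP : ∀ l, RP (Ro (D.rho l)))
    (H : LocH D Al sp Qp RP stp Iv l Vs Vc Vx K gS Gst μ B)
    (hS : PSup D Al sp Qp RP stp Iv l Φ)
    (h0 : ∀ s e, 0 ≤ Vs s e) (h1 : ∀ l s e, 0 ≤ Vc l s e) (h2 : ∀ l s e, 0 ≤ Vx l s e)
    (hloc : ∀ s u u' τ τ', Iv s u u' τ τ' → YI D sp Qp RP s u u' τ τ' →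
      eNMC stp s + eONEC stp s + eXITC stp μ B s ≤ cyC stp a me s +
        ∑ e ∈ Ep D Al s τ τ', lcS stp Vs Vc Vx s u u' τ τ' e)
    {s : St Λ κ} {u u' : NS} {τ τ' : IT} (hI : Iv s u u' τ τ')
    (h : YI D sp Qp RP s u u' τ τ') :
    WC stp (eAllC stp μ B) s ≤ WC stp (cyC stp a me) s + WC stp (fun s => gS s + Gst s) s +
      ∑ e ∈ Ep D Al s τ τ', ((1 + K) * potS Vs Vc Vx s u u' τ τ' e + Φ s u u' τ τ' e) := by
  have hp := PSup_pot (D := D) (Al := Al) (sp := sp) (Qp := Qp) (RP := RP) h0 h1 h2 stp Iv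
  have hT := hp.add ((hp.smul H.K0).add hS)
  have key := pair_bound hh hRP H.iv hT (loc := eAllC stp μ B)
    (G := fun s => cyC stp a me s + (gS s + Gst s))
    (fun s u u' τ τ' hI h => eAllC_le H h0 h1 h2 hI h (hloc s u u' τ τ' hI h)) hI h
  rw [WC_add stp (cyC stp a me) (fun s => gS s + Gst s) s] at key
  refine key.trans (le_of_eq ?_)
  congr 1
  exact Finset.sum_congr rfl fun e _ => by ring

/-- **THE OVERLAP OF A CROSSING PAIR**, item form -/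
theorem Qs_le (hh : YH D sp P W Qp) (hRP : ∀ l, RP (Ro (D.rho l)))
    (H : LocH D Al sp Qp RP stp Iv l Vs Vc Vx K gS Gst μ B)
    (hS : PSup D Al sp Qp RP stp Iv l Φ)
    (h0 : ∀ s e, 0 ≤ Vs s e) (h1 : ∀ l s e, 0 ≤ Vc l s e) (h2 : ∀ l s e, 0 ≤ Vx l s e)
    (hloc : ∀ s u u' τ τ', Iv s u u' τ τ' → YI D sp Qp RP s u u' τ τ' →
      eNMC stp s + eONEC stp s + eXITC stp μ B s ≤ cyC stp a me s +
        ∑ e ∈ Ep D Al s τ τ', lcS stp Vs Vc Vx s u u' τ τ' e)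
    (hB : 0 ≤ B) {wr : ℕ → Λ → κ} {Ad : TrG Λ κ → Finset Λ → Prop} {ν : TrG Λ κ → ℝ} {n : ℕ}
    {stV : ℕ → ℕ → ℕ → Prop} (hV : SI stV) (hme : MX me) (ha : ∀ p, 0 ≤ a p)
    (hst : ∀ s : St Λ κ, stV s.M s.M' s.p → stp s)
    {s : St Λ κ} {u u' : NS} {τ τ' : IT} (hI : Iv s u u' τ τ')
    (h : YI D sp Qp RP s u u' τ τ') (hs : Inv wr Ad μ ν n s) :
    Qs s ≤ B * (μ s.t.g s.A * μ s.t'.g s.A') + (V stV a me (toZ s) s.A s.A' +
      WC stp (fun s => gS s + Gst s) s +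
      ∑ e ∈ Ep D Al s τ τ', ((1 + K) * potS Vs Vc Vx s u u' τ τ' e + Φ s u u' τ τ' e)) := by
  have w1 := walkC_bound (stp := stp) (μ := μ) hB ⟨n, hs⟩
  have w2 := WC_all_le hh hRP H hS h0 h1 h2 hloc hI h
  have w3 := WC_cyC_le_V (stpC := stp) (wr := wr) (Ad := Ad) (μ := μ) (ν := ν) hV hme ha
    (Iv := fun s => ∃ n, Inv wr Ad μ ν n s) (fun s h => h) (fun s h q hq => (nextCE h q hq).1)
    (fun s _ => hst s) ⟨n, hs⟩
  linarith

/-- nonnegativity of the potential of the merges -/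
lemma Phi_nonneg (H : LocH D Al sp Qp RP stp Iv l Vs Vc Vx K gS Gst μ B)
    (hS : PSup D Al sp Qp RP stp Iv l Φ) {s : St Λ κ} {u u' : NS} {τ τ' : IT}
    (hI : Iv s u u' τ τ') (h : YI D sp Qp RP s u u' τ τ') :
    ∀ e ∈ Ep D Al s τ τ', 0 ≤ Φ s u u' τ τ' e :=
  fun e he => (H.l0 s u u' τ τ' e).trans (hS.le s u u' τ τ' hI h e he)

/-- **THE EXCESS OF A CROSSING PAIR**: a part `C μ μ'` of the global costs is absorbed in `B + C` -/
theorem cross_leC (hh : YH D sp P W Qp) (hRP : ∀ l, RP (Ro (D.rho l)))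
    (H : LocH D Al sp Qp RP stp Iv l Vs Vc Vx K gS Gst μ B)
    (hS : PSup D Al sp Qp RP stp Iv l Φ)
    (h0 : ∀ s e, 0 ≤ Vs s e) (h1 : ∀ l s e, 0 ≤ Vc l s e) (h2 : ∀ l s e, 0 ≤ Vx l s e)
    (hloc : ∀ s u u' τ τ', Iv s u u' τ τ' → YI D sp Qp RP s u u' τ τ' →
      eNMC stp s + eONEC stp s + eXITC stp μ B s ≤ cyC stp a me s +
        ∑ e ∈ Ep D Al s τ τ', lcS stp Vs Vc Vx s u u' τ τ' e)
    (hB : 0 ≤ B) {wr : ℕ → Λ → κ} {Ad : TrG Λ κ → Finset Λ → Prop} {ν : TrG Λ κ → ℝ} {n : ℕ}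
    {stV : ℕ → ℕ → ℕ → Prop} (hV : SI stV) (hme : MX me) (ha : ∀ p, 0 ≤ a p)
    (hst : ∀ s : St Λ κ, stV s.M s.M' s.p → stp s)
    {s : St Λ κ} {u u' : NS} {τ τ' : IT} (hI : Iv s u u' τ τ')
    (h : YI D sp Qp RP s u u' τ τ') (hs : Inv wr Ad μ ν n s) {C g : ℝ} (hg0 : 0 ≤ g)
    (hg : WC stp (fun s => gS s + Gst s) s ≤ C * (μ s.t.g s.A * μ s.t'.g s.A') + g) :
    Xs μ (B + C) s ≤ V stV a me (toZ s) s.A s.A' + g +
      ∑ e ∈ Ep D Al s τ τ', ((1 + K) * potS Vs Vc Vx s u u' τ τ' e + Φ s u u' τ τ' e) := by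
  have key := Qs_le hh hRP H hS h0 h1 h2 hloc hB hV hme ha hst hI h hs
  have hv := V_nonneg (stp := stV) hme ha s.A s.A' (ZOk_of_inv hs)
  have hp : 0 ≤ ∑ e ∈ Ep D Al s τ τ', ((1 + K) * potS Vs Vc Vx s u u' τ τ' e + Φ s u u' τ τ' e) :=
    Finset.sum_nonneg fun e he => add_nonneg (mul_nonneg (by linarith [H.K0])
      (potS_nonneg h0 h1 h2 s u u' τ τ' e)) (Phi_nonneg H hS hI h e he)
  unfold Xs
  refine max_le ?_ ?_
  · positivity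
  · linarith

/-- **THE EXCESS OF A CROSSING PAIR** -/
theorem cross_le (hh : YH D sp P W Qp) (hRP : ∀ l, RP (Ro (D.rho l)))
    (H : LocH D Al sp Qp RP stp Iv l Vs Vc Vx K gS Gst μ B)
    (hS : PSup D Al sp Qp RP stp Iv l Φ)
    (h0 : ∀ s e, 0 ≤ Vs s e) (h1 : ∀ l s e, 0 ≤ Vc l s e) (h2 : ∀ l s e, 0 ≤ Vx l s e)
    (hloc : ∀ s u u' τ τ', Iv s u u' τ τ' → YI D sp Qp RP s u u' τ τ' →
      eNMC stp s + eONEC stp s + eXITC stp μ B s ≤ cyC stp a me s +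
        ∑ e ∈ Ep D Al s τ τ', lcS stp Vs Vc Vx s u u' τ τ' e)
    (hB : 0 ≤ B) {wr : ℕ → Λ → κ} {Ad : TrG Λ κ → Finset Λ → Prop} {ν : TrG Λ κ → ℝ} {n : ℕ}
    {stV : ℕ → ℕ → ℕ → Prop} (hV : SI stV) (hme : MX me) (ha : ∀ p, 0 ≤ a p)
    (hst : ∀ s : St Λ κ, stV s.M s.M' s.p → stp s)
    {s : St Λ κ} {u u' : NS} {τ τ' : IT} (hI : Iv s u u' τ τ')
    (h : YI D sp Qp RP s u u' τ τ') (hs : Inv wr Ad μ ν n s) {g : ℝ} (hg0 : 0 ≤ g)
    (hg : WC stp (fun s => gS s + Gst s) s ≤ g) :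
    Xs μ B s ≤ V stV a me (toZ s) s.A s.A' + g +
      ∑ e ∈ Ep D Al s τ τ', ((1 + K) * potS Vs Vc Vx s u u' τ τ' e + Φ s u u' τ τ' e) := by
  have := cross_leC hh hRP H hS h0 h1 h2 hloc hB hV hme ha hst hI h hs (C := 0) hg0 (by linarith)
  rwa [add_zero] at this

/-- the item data do not depend on the relation -/
lemma YI.setR {s : St Λ κ} {u u' : NS} {τ τ' : IT} (h : YI D sp Qp RP s u u' τ τ')
    {R : Finset (Λ × Λ)} (hR : RP R) : YI D sp Qp RP { s with R := R } u u' τ τ' where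
  L := h.L
  R := h.R
  mL := h.mL
  mR := h.mR
  circ := h.circ
  lv := h.lv
  rp := hR

/-- the predicate on the relations does not matter -/
lemma YI.rpm {s : St Λ κ} {u u' : NS} {τ τ' : IT} (h : YI D sp Qp RP s u u' τ τ')
    {RP' : Finset (Λ × Λ) → Prop} (hR : RP' s.R) : YI D sp Qp RP' s u u' τ τ' where
  L := h.L
  R := h.R
  mL := h.mL
  mR := h.mR
  circ := h.circ
  lv := h.lv
  rp := hR

/-- change of the relation of a crossing state -/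
lemma Qs_cut {s : St Λ κ} {wr : ℕ → Λ → κ} {Ad : TrG Λ κ → Finset Λ → Prop} {ν : TrG Λ κ → ℝ}
    {n : ℕ} (hs : Inv wr Ad μ ν n s) (R : Finset (Λ × Λ)) :
    Qs s ≤ Qs { s with R := R } + Qs { s with R := s.R \ R } :=
  Q_le_sdiff s.R R (PB_avg hs.aL.M0 (Side.pb hs.L)) (PB_avg hs.aR.M0 (Side.pb hs.R))

lemma Xs_cut {s : St Λ κ} {wr : ℕ → Λ → κ} {Ad : TrG Λ κ → Finset Λ → Prop} {ν : TrG Λ κ → ℝ}
    {n : ℕ} (hs : Inv wr Ad μ ν n s) (R : Finset (Λ × Λ)) :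
    Xs μ B s ≤ Xs μ B { s with R := R } + Qs { s with R := s.R \ R } := by
  have h1 := Qs_cut hs R
  have h2 : 0 ≤ Qs { s with R := s.R \ R } :=
    Q_nonneg (PB_avg hs.aL.M0 (Side.pb hs.L)) (PB_avg hs.aR.M0 (Side.pb hs.R))
  have h3 : Qs { s with R := R } - B * (μ s.t.g s.A * μ s.t'.g s.A') ≤ Xs μ B { s with R := R } :=
    le_max_right _ _
  have h4 : 0 ≤ Xs μ B { s with R := R } := le_max_left _ _
  refine max_le (by linarith) (by linarith)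

end gen

/-! ### contexts -/

section ctx
open Crest.Agent.R4.Fam464 Crest.Agent.R4.Piece464 Crest.Agent.R4P.Data758
open Crest.Agent.R4P.Skel189 (Ctx top)
open Crest.Agent.R4.Item758 (AdI)
open Crest.Agent.R4.Soft104
open Crest.Agent.R4P.Step588 (CT)
open Crest.Agent.R4P.Strip29 (stS strip Xs_stS Qs_stS)
open Crest.Agent.R4P.VNum34 Crest.Agent.R4P.VItem34 Crest.Agent.R4P.VCtx29 Crest.Agent.R4P.RawB25
open Crest.Agent.R4P.Frame758 (tM tN tG tD wt)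
open Crest.Agent.R4P

variable {N : Skel189.Num} {γ : ℝ} {p0 P₀ : ℕ} {X : Ctx N γ p0 P₀} {j₀ : X.c.Lam}
  {Qp : NS → IT → Prop} {RP : Finset (X.c.Lam × X.c.Lam) → Prop}

/-- the invariant of the walks at the states of the cross walk -/
theorem inv_YI {s : X.Sta} {u u' : NS} {τ τ' : IT}
    (h : YI (X.c.D.par X.Y) (fun _ => ∅) Qp RP s u u' τ τ') :
    Inv (X.c.D.par X.Y).rho (AdI (X.c.D.par X.Y).it) (X.tm j₀) (X.tn j₀) s.p s :=
  CtxX26.inv_of_StI (sp := fun _ => ∅) ⟨fun _ _ _ => Sat_empty _, fun _ _ _ _ => Sat_empty _⟩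
    (fun _ => IL_empty _)
    (X.c.D.dec_nonneg (fun j => Skel189.wt_nonneg X j) (fun S => Skel189.cx_nonneg X S) _)
    (X.c.D.dec_union (wt X.c.D) X.cx X.Y) j₀ h.st h.L.il h.R.il le_rfl h.mL h.mR

/-- terminal states of the cross walk: leaf sides and many settled primes -/
def stpX (s : X.Sta) : Prop := s.t.isLeaf ∨ s.t'.isLeaf ∨ stp2 s.M s.M' s.p

/-- **THE EXCESS OF A CROSSING PAIR IN A CONTEXT** (`z` = crossing state, item data on the stripped trees) -/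
theorem ctx_cross (hQ : ∀ u τ, Qp u τ → NodeOk X.par (w X.ψ) u τ)
    (hRH : RH (X.c.D.par X.Y) X.c.rr X.S' Qp (2 * CT) (1 / 2) p0)
    (hRP : ∀ l, RP (Ro ((X.c.D.par X.Y).rho l)))
    {Lo : ℝ × ℝ → ℕ × ℕ → Prop} (hLo : LoOk Lo X.c.rr) {PP : ℕ → ℕ × ℕ → Prop}
    (hPP : ∀ p e, Pc (X.c.D.par X.Y) p e → PP p e)
    {Vs : ℝ × ℝ → ℕ × ℕ → ℝ} (h0 : ∀ s e, 0 ≤ Vs s e)
    {Iv : X.Sta → NS → NS → IT → IT → Prop} {l Φ : X.Sta → NS → NS → IT → IT → ℕ × ℕ → ℝ}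
    {K : ℝ} {gS Gst : X.Sta → ℝ} {B : ℝ}
    (H : LocH (X.c.D.par X.Y) X.S' (fun _ => ∅) Qp RP stpX Iv l Vs
      (VcL PP (X.c.D.par X.Y).γ X.c.rr Lo) (VxL PP (X.c.D.par X.Y).γ X.c.rr Lo) K gS Gst
      (X.tm j₀) B)
    (hS : PSup (X.c.D.par X.Y) X.S' (fun _ => ∅) Qp RP stpX Iv l Φ) (hB : 0 ≤ B)
    {z : X.Sta} {v v' : NS} {σ σ' : IT} (hI : Iv (stS z) v v' σ σ')
    (h : YI (X.c.D.par X.Y) (fun _ => ∅) Qp RP (stS z) v v' σ σ') {C g : ℝ} (hg0 : 0 ≤ g)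
    (hg : WC stpX (fun s => gS s + Gst s) (stS z) ≤
      C * (X.tm j₀ z.t.g z.A * X.tm j₀ z.t'.g z.A') + g) :
    Xs (X.tm j₀) (B + C) z ≤ V stp2 aX meI (toZ z) z.A z.A' + g +
      ∑ e ∈ Ep (X.c.D.par X.Y) X.S' z σ σ',
        ((1 + K) * potS Vs (VcL PP (X.c.D.par X.Y).γ X.c.rr Lo)
          (VxL PP (X.c.D.par X.Y).γ X.c.rr Lo) z v v' σ σ' e + Φ (stS z) v v' σ σ' e) := by
  have hh : YH (X.c.D.par X.Y) (fun _ => (∅ : Finset X.c.Lam)) X.par (w X.ψ) Qp := YH.strip hQ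
  have hc : ∀ p : ℕ, 12 * kp (2 * CT) (1 / 2) p ^ 2 ≤ aX p := by
    intro p
    refine le_of_eq ?_
    unfold kp aX Blks29.KAB
    ring
  have hpos := hRH.rad.pos
  have hg' : WC stpX (fun s => gS s + Gst s) (stS z) ≤
      C * (X.tm j₀ (stS z).t.g (stS z).A * X.tm j₀ (stS z).t'.g (stS z).A') + g := by
    refine hg.trans (le_of_eq ?_)
    simp [stS]
  have key := cross_leC (s := stS z) (stV := stp2) (me := meI) (a := aX) (n := (stS z).p) (C := C)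
    hh hRP H hS
    h0 (fun _ _ _ => VcL_nonneg hpos _ _ _) (fun _ _ _ => VxL_nonneg hpos _ _ _)
    (fun s u u' τ τ' _ hy => loc_raw hh hRH hLo hPP
      (fun s hs => hs.elim (fun h => Or.inl h) (fun h => Or.inr (Or.inl h))) hc h0 hB
      (fun t ht A => Skel189.tM_nonneg X j₀ ht A) hy)
    hB SI_stp2 MX_meI aX_nonneg (fun s hs => Or.inr (Or.inr hs)) hI h (inv_YI h) hg0 hg'
  rw [Xs_stS] at key
  have eV : V stp2 aX meI (toZ (stS z)) (stS z).A (stS z).A' = V stp2 aX meI (toZ z) z.A z.A' :=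
    V_stZ stp2 aX meI z.A z.A' _ (toZ z) (Nat.lt_succ_self _)
  rw [eV] at key
  exact key

end ctx

end Crest.Agent.R4P.Glue29
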