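import Crest.Agent.R4P.CStop_25
import Crest.Agent.R4P.CrsFacts_26
import Crest.Agent.R4P.Glue_29

/-!
R4P (S0004), helper25, module D: **stops of the cross walk in a context**, and the item data at the crossing states.

* `CZ_YI` : item data `YI` (stripped trees) at a crossing state `CZ`; `CZ_FZ` : the data `FZ` of the crossing state;
  `wix_mass` : mass of the settled primes at a crossing state.
* `QST`, `ctx_QST`, `ctx_CS` : node facts and constants; `ctx_stop` : **the stops with two nonleaf sides**.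
-/

set_option autoImplicit false
set_option linter.unusedSectionVars false
set_option linter.unusedVariables false
open Finset

namespace Crest.Agent.R4P.XStop25

open Crest.Agent.R4.HVW560 Crest.Agent.R4P.AvgItem710
open Crest.Agent.R4.Tour104 Crest.Agent.R4.Tour758 Crest.Agent.R4.Avg758 Crest.Agent.R4.Clos758
open Crest.Agent.R4.ClosL758 Crest.Agent.R4.ClosG758 Crest.Agent.R4.ClosR758
open Crest.Agent.R4.Fam464 Crest.Agent.R4P.Cnt588 Crest.Agent.R4P.Walk560 Crest.Agent.R4P.Item758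
open Crest.Agent.R4.Piece464
open Crest.Agent.R4P.Bld532 (NS All NodeOk Bk dv nd mem_dv mem_nd)
open Crest.Agent.R4P.GSt927 Crest.Agent.R4P.WalkIT579 Crest.Agent.R4P.NMW710
open Crest.Agent.R4P.CrossLoc25 Crest.Agent.R4P.CrossLocC25 Crest.Agent.R4P.WalkC
open Crest.Agent.R4P.CyC25 Crest.Agent.R4P.YI25 Crest.Agent.R4P.GInst194
open Crest.Agent.R4P.StopCtx9 Crest.Agent.R4P.CofMono28 Crest.Agent.R4P.TBLeaf28
open Crest.Agent.R4P.VNum34 (US mem_US stp2)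
open Crest.Agent.R4P.Data758
open Crest.Agent.R4P.Skel189 (Ctx top Kc ctx_sum_mI)
open Crest.Agent.R4P.Step588 (CT CT_pos TagOk num_high')
open Crest.Agent.R4P.NI927 Crest.Agent.R4P.GFinC927 Crest.Agent.R4P.NMCtx927
open Crest.Agent.R4P.Res927 Crest.Agent.R4P.OSWS245
open Crest.Agent.R4P.Strip29 Crest.Agent.R4P.XStart25
open Crest.Agent.R4P.CrsFacts26 Crest.Agent.R4P.AsmX26
open Crest.Agent.R4.Soft104
open Crest.Agent.R4P.CStop25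
open Crest.Agent.R4P

variable {N : Skel189.Num} {γ : ℝ} {p0 P₀ : ℕ} {X : Ctx N γ p0 P₀} {j₀ : X.c.Lam}
  {Q' : NS → IT → Prop} {b : ℕ} {z : X.Sta} {v v' : NS} {σ σ' : IT}
  {RP : Finset (X.c.Lam × X.c.Lam) → Prop}

/-! ### crossing states -/

lemma CS_top {d : DT X.c.Lam (Lb (WL X.c.Lam) X.Y)} (h : CrsFacts26.CS X j₀ Q' b v σ d) :
    d.top ≤ b := by
  have n0 : 0 < v.n := h.q.self.n0
  rw [h.I.eq]
  by_cases hl : isL σ
  · have : WalkIT579.tp σ = 0 := by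
      cases σ with
      | leaf S => rfl
      | _ => exact absurd hl id
    rw [WalkIT579.toDT_top, this]
    exact Nat.zero_le _
  · rw [WalkIT579.toDT_top]
    obtain ⟨k1, k2, k3⟩ := top_of_nodeOk h.q.self.nf.ok hl
    exact h.lv _ k1 k2

/-- **item data at a crossing state** (stripped trees) -/
theorem CZ_YI (h : CZ X j₀ Q' b z v v' σ σ') (hR : RP z.R) :
    YI (X.c.D.par X.Y) (fun _ => ∅) (QE X j₀ Q') RP (stS z) v v' σ σ' := by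
  have hp : (stS z).p ≤ b := by
    rw [stS_p]
    exact max_le (CS_top h.L) (CS_top h.R)
  have i1 := side_strip h.L.I
  have i2 := side_strip h.R.I
  rw [← h.A] at i1
  rw [← h.A'] at i2
  refine ⟨⟨i1, h.L.ok, h.L.q, ?_⟩, ⟨i2, h.R.ok, h.R.q, ?_⟩, h.mL.down hp, h.mR.down hp, h.circ,
    ⟨b, ⟨Or.inr h.L.lv, h.L.ll⟩, ⟨Or.inr h.R.lv, h.R.ll⟩, fun l hl hd => h.mL.geM hl hd,
      fun l hl hd => h.mR.geM hl hd⟩, hR⟩
  · show IL _ z.A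
    rw [h.A]; exact Item758.IL_univ _
  · show IL _ z.A'
    rw [h.A']; exact Item758.IL_univ _

/-- the hypotheses on the node predicate, stripped trees -/
lemma YH_QE : YH (X.c.D.par X.Y) (fun _ => (∅ : Finset X.c.Lam)) X.par (w X.ψ) (QE X j₀ Q') :=
  YH.strip fun _ _ h => h.nf.ok

/-- **the data of the crossing state** -/
theorem CZ_FZ (h : CZ X j₀ Q' b z v v' σ σ') (hR : RP z.R) :
    FZ (X.c.D.par X.Y) X.S' b z.M z.M' (xZ z.M v.A z.M' v'.A) (yZ z.M v.A z.M' v'.A)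
      (gZ z.M v.B v.A) (gZ' z.M' v'.B v'.A) (stS z) v v' σ σ' := by
  have hp : (stS z).p ≤ b := by
    rw [stS_p]
    exact max_le (CS_top h.L) (CS_top h.R)
  exact FZ.start (s := stS z) YH_QE (CZ_YI h hR) hp (fun l hl hd => h.mL.geM hl hd)
    (fun l hl hd => h.mR.geM hl hd) h.L.ll h.R.ll

/-- mass of the settled primes of a state which is not stopped -/
theorem US_mass {Λ κ : Type*} [Fintype Λ] [DecidableEq Λ] [Fintype κ] [DecidableEq κ] [WRel κ]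
    {x : XSt Λ κ} (hO : OI p0 x) (mL : MS x.s.p x.s.M x.s.O') (mR : MS x.s.p x.s.M' x.s.O)
    (hs : ¬ stpN x.s) (hp : 0 < x.s.p) :
    ∑ l ∈ US x.s.M x.s.M' x.s.p, 1 / (l : ℝ) ≤ (x.s.p : ℝ) ^ (-(1 / 3) : ℝ) := by
  rw [VCtx29.US_eq mL mR]
  exact (hO.mS_lt hs hp).le

/-! ### node facts and constants -/

/-- node facts of the stops -/
def QST (X : Ctx N γ p0 P₀) (j₀ : X.c.Lam) (Ch : ℝ) (u : NS) (τ : IT) : Prop :=
  SB (X.c.D.par X.Y) X.c.rr X.S' X.par (w X.ψ) X.c.t.uq (2 * CT) (1 / 2) Ch u τ ∧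
  ∀ A : Finset X.c.Lam, ∑ j ∈ A, mI ((X.c.D.par X.Y).toDT X.c.sp u.B u.A τ) j ≤
    4 * X.tm j₀ ((X.c.D.par X.Y).toG u.B u.A τ) A

theorem ctx_QST (N : Skel189.Num) : ∃ Ch : ℝ, 0 < Ch ∧ ∃ p₁ : ℕ, ∀ p0 ≥ p₁, ∀ (γ : ℝ) (P₀ : ℕ),
    2 ≤ P₀ → ∀ X : Ctx N γ p0 P₀, TagOk X → X.c.d1 * Kc X.S ≤ 1 →
    (∀ p, p0 ≤ p → (2 : ℝ) ^ X.c.wp.dep p ≤ p) → ∀ j₀ : X.c.Lam,
    All (QST X j₀ Ch) ⟨top X.S, 1, 1, 1⟩ X.c.t := by
  obtain ⟨Ch, hCh, a1, h1⟩ := ctx_IHi N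
  obtain ⟨a2, h2⟩ := ctx_SB N (c₀ := 1 / 2)
  obtain ⟨a3, h3⟩ := Skel189.ctx_mean N
  obtain ⟨a4, h4⟩ := ctx_sum_mI N
  refine ⟨Ch, hCh, a1 + a2 + a3 + a4, fun p0 hp0 γ P₀ hP X hT hd1 hdep j₀ => ?_⟩
  have hm : Mean X (1 / 2) := fun q hq z => (h3 p0 (by omega) γ P₀ hP X).1 q hq z
  have hi := h1 p0 (by omega) γ P₀ hP X hT hd1 hdep X.Y
  exact (h2 p0 (by omega) γ P₀ X X.Y Ch hm hi).and (h4 p0 (by omega) γ P₀ hP X j₀)

theorem ctx_CSt (N : Skel189.Num) {c₀ : ℝ} (hc₀ : 0 < c₀) {Ch : ℝ} (hCh : 0 ≤ Ch) :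
    ∃ p₁ : ℕ, ∀ p0 ≥ p₁, ∀ (γ : ℝ) (P₀ : ℕ) (X : Ctx N γ p0 P₀) (Y : Finset (ℕ × ℕ × Finset ℕ)),
    CStop25.CS (X.c.D.par Y) X.c.rr X.S' X.c.t.uq X.par (2 * CT) c₀ Ch p0 := by
  obtain ⟨N0, p1, h1⟩ := ctx_GSP N hc₀ Ch
  obtain ⟨p2, h2⟩ := exists_NumS
  refine ⟨p1 + p2 + 2, fun p0 hp0 γ P₀ X Y => ?_⟩
  have H := h1 p0 (by omega) γ P₀ X Y
  have ni := H.ni p0 le_rfl
  exact
    { rad := ni.rad
      ab := ni.ab
      dead := ni.dead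
      c0 := hc₀
      CL0 := H.CL0
      Ch0 := hCh
      full := ni.full
      e := H.e
      two := by omega
      pp0 := H.pp0
      Ut := H.Ut
      num := fun p hp => h2 p (by omega) }

/-! ### the stops -/

section stops
variable {Ch : ℝ} {Qp : NS → IT → Prop} {s : X.Sta} {u u' : NS} {τ τ' : IT} {Mz Mz' : ℕ}
  {x0 y0 g g' : ℕ × ℕ → ℕ}

open Classical in
/-- **STOPS OF THE CROSS WALK OF A CONTEXT, two nonleaf sides** -/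
theorem ctx_stop (hCS : CStop25.CS (X.c.D.par X.Y) X.c.rr X.S' X.c.t.uq X.par (2 * CT) (1 / 2) Ch p0)
    (hN : ∀ u τ, Qp u τ → NodeOk X.par (w X.ψ) u τ) (hQ : ∀ u τ, Qp u τ → QST X j₀ Ch u τ)
    (h : YI (X.c.D.par X.Y) (fun _ => ∅) Qp RP s u u' τ τ')
    (hz : FZ (X.c.D.par X.Y) X.S' b Mz Mz' x0 y0 g g' s u u' τ τ')
    (hL : ¬ s.t.isLeaf) (hR : ¬ s.t'.isLeaf) (hst : stp2 s.M s.M' s.p) (hMz : 0 < Mz)
    (hMz' : 0 < Mz') (hmz : ∑ l ∈ US Mz Mz' b, 1 / (l : ℝ) ≤ (b : ℝ) ^ (-(1 / 3) : ℝ))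
    {Lo : ℝ × ℝ → ℕ × ℕ → Prop}
    (hLo : ∀ (sc : ℝ × ℝ) (e : ℕ × ℕ) (p : ℕ), p0 ≤ p →
      (p : ℝ) ^ (-(1 / 3) : ℝ) / 2 ≤ SD (x0 e) (y0 e) p → ¬ Lo sc e →
      Tn p ≤ Dsc (X.c.rr e.1) (X.c.rr e.2) sc)
    {Vs : ℝ × ℝ → ℕ × ℕ → ℝ} {Vc Vx : ℕ → ℝ × ℝ → ℕ × ℕ → ℝ} (h0 : ∀ s e, 0 ≤ Vs s e)
    (h1 : ∀ l s e, 0 ≤ Vc l s e) (h2 : ∀ l s e, 0 ≤ Vx l s e)
    (hVs : ∀ e ∈ (X.c.D.par X.Y).PE s.R ((X.c.D.par X.Y).uA s.M u.B u.A τ s.A 1)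
      ((X.c.D.par X.Y).uA s.M' u'.B u'.A τ' s.A' 1), e ∈ Ep (X.c.D.par X.Y) X.S' s τ τ' →
      FL Lo X.c.rr (X.c.D.par X.Y).γ (SE s.M u.B u.A s.M' u'.B u'.A e) e ≤
        Vs (SE s.M u.B u.A s.M' u'.B u'.A e) e)
    {B : ℝ} (hB : 16 * (Ch ^ 2 + 5) ≤ B) :
    Xs (X.tm j₀) B s ≤ ∑ e ∈ Ep (X.c.D.par X.Y) X.S' s τ τ',
      potS Vs Vc Vx s u u' τ τ' e := by
  have l1 : ¬ isL τ := RawB25.not_isL_L h hL
  have l2 : ¬ isL τ' := RawB25.not_isL_R h hR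
  have okL : s.t.g.Ok := SideI.okg h.L.S
  have okR : s.t'.g.Ok := SideI.okg h.R.S
  have mu : ∀ {v : NS} {σ : IT} {A : Finset X.c.Lam} {d : DT X.c.Lam (Lb (WL X.c.Lam) X.Y)},
      SideI (X.c.D.par X.Y) (fun _ => ∅) v.B v.A σ A d → QST X j₀ Ch v σ →
      ∑ j ∈ A, mI d j ≤ 4 * X.tm j₀ d.g A := by
    intro v σ A d hs hq
    have h3 := hq.2 A
    have e1 : d.g = (X.c.D.par X.Y).toG v.B v.A σ := by rw [hs.eq, Par.toDT_g]
    have e2 : ∀ j, mI d j = mI ((X.c.D.par X.Y).toDT X.c.sp v.B v.A σ) j := by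
      intro j
      unfold mI
      rw [hs.eq, Par.toDT_g, Par.toDT_g]
    rw [Finset.sum_congr rfl fun j _ => e2 j, e1]
    exact h3
  have key := C_stop (RP := RP) hCS (YH.strip hN) (fun u τ hq => (hQ u τ hq).1) h hz l1 l2 hst hMz
    hMz' hmz hLo h0 hVs (μ := X.tm j₀) (B := B) (cμ := 4) (by norm_num) (by linarith)
    (mu h.L.S (hQ _ _ h.L.q.self)) (mu h.R.S (hQ _ _ h.R.q.self))
    (Skel189.tM_nonneg X j₀ okL s.A) (Skel189.tM_nonneg X j₀ okR s.A')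
  refine key.trans (Finset.sum_le_sum fun e _ => ?_)
  exact Vs_le_pot h0 h1 h2 _ _ _ _ _ _ _ _ _

end stops

end Crest.Agent.R4P.XStop25
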