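import Crest.Agent.R4P.LeafW_27
import Crest.Agent.R4P.EndP_25
import Crest.Agent.R4P.XStop_25
import Crest.Agent.R4P.CtxX_26
import Crest.Agent.R4P.WmfL_25
import Crest.Agent.R4P.LeafIx_29
import Crest.Agent.R4P.LeafLoc_28

/-!
R4P (S0004), helper27, module D, group [X]: **the leaf walk in a context**.

* `Q_items` : the energy of a population is the sum over its items;
* `JpZ` : what the pairs of items keep along the walk (scale pair, cofactors of the crossing state);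
* `Th0` : the monotone factor `2 - (n+1)^(-1/2)`;
* `mk_LH` : the local hypotheses `LH` of one leaf item (stops and leaf ends proved here; exits and divisible
  ties are hypotheses).
-/

set_option autoImplicit false
set_option linter.unusedSectionVars false
set_option linter.unusedVariables false
open Finset hiding dens

namespace Crest.Agent.R4P.LeafX27

open Crest.Agent.R4.HVW560 Crest.Agent.R4P.AvgItem710
open Crest.Agent.R4.Ovl560 (dens dens_pos CM)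
open Crest.Agent.R4.Tour104 Crest.Agent.R4.Tour758 Crest.Agent.R4.Avg758 Crest.Agent.R4.Clos758
open Crest.Agent.R4.ClosL758 Crest.Agent.R4.ClosG758 Crest.Agent.R4.ClosR758
open Crest.Agent.R4P.Cnt588 Crest.Agent.R4P.Walk560 Crest.Agent.R4P.Item758
open Crest.Agent.R4P.Bld532 (NS All NodeOk Bk dv nd mem_dv mem_nd)
open Crest.Agent.R4P.GSt927 Crest.Agent.R4P.WalkIT579 Crest.Agent.R4P.NMW710
open Crest.Agent.R4P.CrossLoc25 Crest.Agent.R4P.CrossLocC25 Crest.Agent.R4P.YI25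
open Crest.Agent.R4P.LeafCol27 Crest.Agent.R4P.LeafM27 Crest.Agent.R4P.LeafT27
open Crest.Agent.R4P.LeafW27

section gen
variable {Λ κ : Type*} [Fintype Λ] [DecidableEq Λ] [Fintype κ] [DecidableEq κ]
variable {D : Par Λ κ} {Al : Finset ℕ} {A A' : Finset Λ}

/-! ### the items of a population -/

lemma iF_zero {R : Finset (Λ × Λ)} {F G : Λ → ℝ → ℝ} {e : ℕ × ℕ} (h : e ∉ D.PE R F G) :
    D.iF R F G e = 0 := by
  unfold Par.iF
  refine Finset.sum_eq_zero fun x hx => ?_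
  by_contra hc
  obtain ⟨h1, h2⟩ := Finset.mem_filter.1 hx
  exact h (Par.mem_PE.2 ⟨x.1, x.2, h1, hc, congrArg Prod.fst h2, congrArg Prod.snd h2⟩)

lemma Q_eq_sub {R : Finset (Λ × Λ)} {F G : Λ → ℝ → ℝ} {E : Finset (ℕ × ℕ)}
    (h : D.PE R F G ⊆ E) : Q R F G = ∑ e ∈ E, D.iF R F G e := by
  rw [D.Q_eq]
  exact Finset.sum_subset h fun e _ he => iF_zero he

/-- **the energy of a population is the sum over its items** -/
theorem Q_items (hdead : ∀ j, D.it j ∉ Al → ∀ a, D.om j a = 0) {M M' b pr b' pr' : ℕ} {t t' : IT}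
    (hM : 0 < M) (hM' : 0 < M') (hb : 0 < b) (hb' : 0 < b') (hF : Fit b pr t)
    (hF' : Fit b' pr' t') (hW : D.Wts pr t) (hW' : D.Wts pr' t') (R : Finset (Λ × Λ)) :
    Q R (D.uA M b pr t A 1) (D.uA M' b' pr' t' A' 1) =
      ∑ q ∈ Qi D Al t A, Q R (D.uA M b pr t (A.filter fun j => D.it j = q) 1)
        (D.uA M' b' pr' t' A' 1) := by
  rw [Q_eq_sub (PE_sub hdead hM hM' hb hb' hF hF' hW hW' (one_dvd _) (one_dvd _) R A A'),
    Finset.sum_product]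
  refine Finset.sum_congr rfl fun q hq => ?_
  have hsub : D.PE R (D.uA M b pr t (A.filter fun j => D.it j = q) 1)
      (D.uA M' b' pr' t' A' 1) ⊆ {q} ×ˢ Qi D Al t' A' := by
    intro e he
    have h1 := PE_sub hdead hM hM' hb hb' hF hF' hW hW' (one_dvd _) (one_dvd _) R _ A' he
    obtain ⟨h2, h3⟩ := Finset.mem_product.1 h1
    obtain ⟨-, -, j, hj, hj2⟩ := mem_Qi.1 h2
    refine Finset.mem_product.2 ⟨Finset.mem_singleton.2 ?_, h3⟩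
    rw [← hj2, (Finset.mem_filter.1 hj).2]
  rw [Q_eq_sub hsub, Finset.sum_product, Finset.sum_singleton]
  refine Finset.sum_congr rfl fun r hr => ?_
  unfold Par.iF
  refine Finset.sum_congr rfl fun x hx => ?_
  have hx1 : D.it x.1 = q := congrArg Prod.fst (Finset.mem_filter.1 hx).2
  have e : ∀ y, D.uA M b pr t A 1 x.1 y =
      D.uA M b pr t (A.filter fun j => D.it j = q) 1 x.1 y := by
    intro y
    by_cases hA : x.1 ∈ A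
    · unfold Par.uA avg
      rw [rv_of_mem hA, rv_of_mem (Finset.mem_filter.2 ⟨hA, hx1⟩)]
    · rw [uA_zero hM (fun h => hA h.1), uA_zero hM (fun h => hA (Finset.mem_filter.1 h.1).1)]
  simp only [e]

lemma Qi_one {Sl : Finset ℕ} {q : ℕ} (hA : ∀ j ∈ A, D.it j = q) :
    Qi D Al (.leaf Sl) A ⊆ {q} := by
  intro x hx
  obtain ⟨-, -, j, hj, hj2⟩ := mem_Qi.1 hx
  rw [Finset.mem_singleton, ← hj2, hA j hj]

/-! ### what the pairs keep -/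

/-- scale pair and cofactors of the crossing state -/
structure JpZ (s₀ : ℕ × ℕ → ℝ × ℝ) (x0 y0 : ℕ × ℕ → ℕ) (a a' : ℕ × ℝ) (e : ℕ × ℕ) : Prop where
  s : sc a a' = s₀ e
  px : 0 < x0 e
  py : 0 < y0 e
  x : cof a.1 a'.1 ∣ x0 e
  y : cof a'.1 a.1 ∣ y0 e

lemma JpZ_mv {s₀ : ℕ × ℕ → ℝ × ℝ} {x0 y0 : ℕ × ℕ → ℕ} :
    ∀ (p : ℕ) (i i' : Bool) (a a' c c' : ℕ × ℝ) (e : ℕ × ℕ), p.Prime →
      Crest.Agent.R4.CrossInv709.Mv p i a c → Crest.Agent.R4.CrossInv709.Mv p i' a' c' →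
      (i = true ∨ i' = true) → JpZ s₀ x0 y0 a a' e → JpZ s₀ x0 y0 c c' e := by
  intro p i i' a a' c c' e hp h h' hi hJ
  have k := Crest.Agent.R4P.CofMono28.cof_mv hp h h'
  exact ⟨(Crest.Agent.R4.CrossInv709.sc_inv hp h h' hi).trans hJ.s, hJ.px, hJ.py,
    k.1.trans hJ.x, k.2.trans hJ.y⟩

end gen

section jp
open Crest.Agent.R4P.TBLeaf28 (JC)
variable {Λ κ : Type*} [Fintype Λ] [DecidableEq Λ] [Fintype κ] [DecidableEq κ] [WRel κ]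
variable {D : Par Λ κ} {sp : ℕ → Finset Λ} {Al : Finset ℕ} {A A' : Finset Λ}
  {Qp : NS → IT → Prop} {v : NS} {q : ℕ} {s₀ : ℕ × ℕ → ℝ × ℝ} {x0 y0 : ℕ × ℕ → ℕ} {s : LSt}

lemma jc_of (h : LOk D Al sp Qp (JpZ s₀ x0 y0) v q A' s) {r : ℕ} (hr : r ∈ Qi D Al s.t A') :
    JC x0 y0 s.M v.A s.M' s.u.A (q, r) :=
  ⟨(h.jp r hr).px, (h.jp r hr).py, (h.jp r hr).x, (h.jp r hr).y⟩

lemma se_of (h : LOk D Al sp Qp (JpZ s₀ x0 y0) v q A' s) {r : ℕ} (hr : r ∈ Qi D Al s.t A') :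
    SE s.M v.B v.A s.M' s.u.B s.u.A (q, r) = s₀ (q, r) := (h.jp r hr).s

/-- start -/
lemma jp_start {M M' b' pr' : ℕ} {r : ℕ} (hJ : JC x0 y0 M v.A M' pr' (q, r))
    (hS : SE M v.B v.A M' b' pr' (q, r) = s₀ (q, r)) :
    JpZ s₀ x0 y0 (sd (q / v.A) M (v.B : ℝ)) (sd (r / pr') M' (b' : ℝ)) (q, r) :=
  ⟨hS, hJ.px, hJ.py, hJ.x, hJ.y⟩

/-- the items of the present child are divisible by the column -/
lemma t1_dvd {P : Bld532.Par} {W : ℕ → ℝ} {p : ℕ} {S : Finset ℕ} {t₁ t₀ : IT} {u : NS}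
    (h : NodeOk P W u (.br p S t₁ t₀)) {r : ℕ} (hr : r ∈ t₁.items) : p ∣ r / u.A := by
  have e := h.2.2.2.2.2.1
  rw [e] at hr
  exact (mem_dv.1 hr).2

end jp

/-! ### the invariant of the states -/

section inv
open Crest.Agent.R4P.LeafIx29
variable {Λ κ : Type*} [Fintype Λ] [DecidableEq Λ] [Fintype κ] [DecidableEq κ] [WRel κ]
  {D : Par Λ κ} {sp : ℕ → Finset Λ} {P : Bld532.Par} {W : ℕ → ℝ} {Qp : NS → IT → Prop}
  {Al : Finset ℕ} {Jp : ℕ × ℝ → ℕ × ℝ → ℕ × ℕ → Prop} {v : NS} {q : ℕ} {A' : Finset Λ} {b : ℕ}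

/-- invariant of the states of the leaf walk (`b` = crossing column, `n₀` = lower bound of the columns) -/
structure JX (n₀ : ℕ) (v : NS) (b : ℕ) (s : LSt) : Prop where
  lc : LCL s
  l0 : n₀ < s.l
  lb : s.l ≤ b
  cop : Nat.Coprime s.M s.M'
  lv : ∀ l : ℕ, l.Prime → l < WalkIT579.tp s.t → l < v.n

/-- moduli along a move -/
lemma cop_mv {a : ℕ} {w : ℝ} {s s₂ : LSt} (hm : LMv a q w s s₂)
    (hp : s.t.Ok s.u.n) (h : Nat.Coprime s.M s.M') : Nat.Coprime s₂.M s₂.M' := by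
  have key : ∀ {p M M' : ℕ}, p.Prime → Nat.Coprime M M' → ¬ p ∣ M' → Nat.Coprime (p * M) M' :=
    fun hp hc hd => Nat.Coprime.mul_left ((Nat.Prime.coprime_iff_not_dvd hp).2 hd) hc
  have fr : ∀ {p M M₂ : ℕ}, Nat.Coprime M (p * M₂) → Nat.Coprime M M₂ :=
    fun hc => Nat.Coprime.coprime_mul_left_right hc
  cases hm with
  | fr1 => exact fr h
  | fr0 => exact fr h
  | dv1 h' _ => exact key hp.1 h h'
  | dv0 h' _ => exact key hp.1 h h'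
  | nd1 h' _ => exact key hp.1 h h'
  | plf => exact fr h
  | pl h' => exact key hp.1 h h'
  | ad1 => exact h
  | ad0 => exact h
  | fa1 => exact h
  | fa0 => exact h
  | up => exact h

/-- **the invariant is inherited** -/
theorem JX.next (hh : YH D sp P W Qp)
    (hb : ∀ u τ, Qp u τ → ∀ l : ℕ, l.Prime → l < u.n → l ≤ b) {n₀ : ℕ} (hn : n₀ ≤ P.p0) {w : ℝ}
    {s s₂ : LSt} (hm : LMv v.A q w s s₂) (hk : LOk D Al sp Qp Jp v q A' s) (h : JX n₀ v b s) :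
    JX n₀ v b s₂ := by
  have hr := LeafMg30.LMv.rel hm hk.y.ok
  have key : n₀ < s₂.l ∧ s₂.l ≤ b := by
    rcases hr.2 with ⟨⟨S, t₁, t₀, ht, -⟩, e⟩ | ⟨-, e⟩
    · rw [e]
      have hok := hk.y.ok
      have hnd := hh.nd _ _ hk.y.q.self
      rw [ht] at hok hnd
      exact ⟨lt_of_le_of_lt hn hnd.2.2.1, hb _ _ hk.y.q.self _ hok.1 hok.2.1⟩
    · rw [e]; exact ⟨h.l0, h.lb⟩
  exact ⟨h.lc.next hh hm hk, key.1, key.2, cop_mv hm hk.y.ok h.cop,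
    fun l hl hlt => h.lv l hl (lt_of_lt_of_le hlt hr.1)⟩

end inv

/-! ### contexts -/

section ctx
open Crest.Agent.R4P.Skel189 (Ctx top)
open Crest.Agent.R4.Soft104 (w)
open Crest.Agent.R4P.Frame758 (wt)
open Crest.Agent.R4P.LLCtx30 Crest.Agent.R4P.LLPair30 Crest.Agent.R4P.LeafOs30
open Crest.Agent.R4P.TBLeaf28 (JC LoX)
open Crest.Agent.R4P.StopLeaf28 Crest.Agent.R4P.StopCtx9 Crest.Agent.R4P.CofMono28 Crest.Agent.R4P.GInst194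
open Crest.Agent.R4P.EndP25 Crest.Agent.R4P.XStop25
open Crest.Agent.R4P.Step588 (NDt CT CT_pos)
open Crest.Agent.R4P.LeafFam28 (OmW)
open Crest.Agent.R4P.Data758
open Crest.Agent.R4P

variable {N : Skel189.Num} {γ : ℝ} {p0 P₀ : ℕ} {X : Ctx N γ p0 P₀} {j₀ : X.c.Lam}
  {Qp : NS → IT → Prop} {v : NS} {Sl : Finset ℕ} {q : ℕ} {A A' : Finset X.c.Lam} {Ch T x : ℝ}
  {s₀ : ℕ × ℕ → ℝ × ℝ} {x0 y0 : ℕ × ℕ → ℕ} {Vs : ℝ × ℝ → ℕ × ℕ → ℝ}
  {Vc Vx : ℕ → ℝ × ℝ → ℕ × ℕ → ℝ}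

/-- **constants and node facts** of the leaf walk of a context -/
structure LXC (X : Ctx N γ p0 P₀) (j₀ : X.c.Lam) (Ch T x : ℝ) (Qp : NS → IT → Prop) : Prop where
  cs : CStop25.CS (X.c.D.par X.Y) X.c.rr X.S' X.c.t.uq X.par (2 * CT) (1 / 2) Ch p0
  hln : ∀ p, p0 ≤ p → HLN Ch (2 * CT) p
  nd : ∀ u τ, Qp u τ → NodeOk X.par (w X.ψ) u τ
  qs : ∀ u τ, Qp u τ → QST X j₀ Ch u τ
  lf : ∀ u S, Qp u (.leaf S) → LfA X X.Y u S
  dt : ∀ u τ, Qp u τ → NDt X.par (w X.ψ) X.c.t u τ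
  tm : ∀ u τ, Qp u τ → TmN X j₀ u τ
  it : ∀ u τ, Qp u τ → τ.items ⊆ X.S
  T2 : 2 ≤ T
  Tx : Real.log x ^ 2 ≤ T
  x2 : 2 ≤ x

open Crest.Agent.R4P.WmfL25 (mL)

lemma rr_pos (C : LXC X j₀ Ch T x Qp) (q : ℕ) : 0 < X.c.rr q := C.cs.rad.pos q

lemma mL_nonneg (C : LXC X j₀ Ch T x Qp) (v : NS) (q : ℕ) : 0 ≤ mL X v q := by
  have := (rr_pos C q).le
  have h2 := (dens_pos (P := (q / v.A).primeFactors)
    fun l hl => Nat.prime_of_mem_primeFactors hl).le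
  unfold mL
  positivity

/-- masses of a node -/
lemma mI_le_nu (C : LXC X j₀ Ch T x Qp) {u : NS} {τ : IT} (hq : Qp u τ) (hc : 0 ≤ u.c)
    {d : DT X.c.Lam (Lb (WL X.c.Lam) X.Y)}
    (hs : SideI (X.c.D.par X.Y) (fun _ => ∅) u.B u.A τ A' d) :
    ∑ j ∈ A', mI d j ≤ 4 * (u.c * Ws (w X.ψ) τ.items) := by
  have h3 := (C.qs u τ hq).2 A'
  have e2 : ∀ j, mI d j = mI ((X.c.D.par X.Y).toDT X.c.sp u.B u.A τ) j := by
    intro j
    unfold mI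
    rw [hs.eq, Par.toDT_g, Par.toDT_g]
  rw [Finset.sum_congr rfl fun j _ => e2 j]
  refine h3.trans (mul_le_mul_of_nonneg_left ?_ (by norm_num))
  have h4 := C.tm u τ hq A'
  have e3 : X.tm j₀ ((X.c.D.par X.Y).toG u.B u.A τ) A' = X.tm j₀ (X.g u τ) A' := rfl
  rw [e3, h4]
  refine mul_le_mul_of_nonneg_left ?_ hc
  rw [← CtxX26.sum_wt_item X (C.it u τ hq)]
  exact Finset.sum_le_sum_of_subset_of_nonneg
    (Finset.filter_subset_filter _ (Finset.subset_univ _)) fun j _ _ => Skel189.wt_nonneg X j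

/-- constants of the stops and of the leaf ends -/
noncomputable def CS₀ (Ch : ℝ) : ℝ := CV * 2 * Real.exp 2 / 2 * (Ch + 1 / (1 / 2)) * 4

noncomputable def CL₀ : ℝ := 2 * 2 * (CLL * Real.exp 2 + 2 * (4 * CM ^ 2))

/-- the sum over the single item -/
lemma sum_one_item (C : LXC X j₀ Ch T x Qp) (hA : ∀ j ∈ A, (X.c.D.par X.Y).it j = q) :
    ∑ r ∈ Qi (X.c.D.par X.Y) X.S' (.leaf Sl) A,
      (v.B : ℝ) * X.c.rr r * dens (r / v.A).primeFactors ≤ mL X v q := by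
  refine (Finset.sum_le_sum_of_subset_of_nonneg (Qi_one (Sl := Sl) hA) fun r _ _ => ?_).trans
    (by rw [Finset.sum_singleton]; rfl)
  exact mL_nonneg C v r

/-- the pairs of the single item -/
lemma sum_one_pair (C : LXC X j₀ Ch T x Qp) (hA : ∀ j ∈ A, (X.c.D.par X.Y).it j = q)
    {F : ℕ × ℕ → ℝ} (hF : ∀ e, 0 ≤ F e) (V : Finset ℕ) :
    ∑ e ∈ Qi (X.c.D.par X.Y) X.S' (.leaf Sl) A ×ˢ V, F e ≤ ∑ r ∈ V, F (q, r) := by
  rw [Finset.sum_product]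
  refine (Finset.sum_le_sum_of_subset_of_nonneg (Qi_one (Sl := Sl) hA) fun r _ _ =>
    Finset.sum_nonneg fun r' _ => hF _).trans (by rw [Finset.sum_singleton])

open Classical in
/-- **stops of the leaf walk** -/
theorem stop_ctx (C : LXC X j₀ Ch T x Qp) (hv : Qp v (.leaf Sl)) {d : DT X.c.Lam (Lb (WL X.c.Lam) X.Y)}
    {A₀ : Finset X.c.Lam} (hL : SideI (X.c.D.par X.Y) (fun _ => ∅) v.B v.A (.leaf Sl) A₀ d)
    (hA : ∀ j ∈ A, (X.c.D.par X.Y).it j = q) {s : LSt} {p : ℕ} {S : Finset ℕ} {t₁ t₀ : IT}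
    (ht : s.t = .br p S t₁ t₀)
    (h : LOk (X.c.D.par X.Y) X.S' (fun _ => ∅) Qp (JpZ s₀ x0 y0) v q A' s) {O : Finset ℕ}
    (hO : ∀ l ∈ O, l.Prime ∧ p < l ∧ ∀ r ∈ Qi (X.c.D.par X.Y) X.S' s.t A', l ∣ y0 (q, r))
    (hs : (p : ℝ) ^ (-(1 / 3) : ℝ) ≤ ∑ l ∈ O, 1 / (l : ℝ)) (h0 : ∀ s e, 0 ≤ Vs s e)
    (hVs : ∀ e ∈ (X.c.D.par X.Y).PE (Ro ((X.c.D.par X.Y).rho s.l))
      ((X.c.D.par X.Y).uA s.M v.B v.A (.leaf Sl) A 1)
      ((X.c.D.par X.Y).uA s.M' s.u.B s.u.A s.t A' 1),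
      e ∈ Qi (X.c.D.par X.Y) X.S' (.leaf Sl) A ×ˢ Qi (X.c.D.par X.Y) X.S' s.t A' →
      FL (LoSt T p0 X.c.rr x0 y0) X.c.rr (X.c.D.par X.Y).γ (SE s.M v.B v.A s.M' s.u.B s.u.A e) e ≤
        Vs (SE s.M v.B v.A s.M' s.u.B s.u.A e) e) :
    En (X.c.D.par X.Y) v Sl A A' (Ro ((X.c.D.par X.Y).rho s.l)) s ≤
      CS₀ Ch * (mL X v q * nuL (w X.ψ) s) + ∑ r ∈ Qi (X.c.D.par X.Y) X.S' s.t A',
        (v.B : ℝ) * s.u.B * Vs (SE s.M v.B v.A s.M' s.u.B s.u.A (q, r)) (q, r) := by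
  have hnl : ¬ isL s.t := by rw [ht]; simp [isL]
  have htp : WalkIT579.tp s.t = p := by rw [ht]; rfl
  have hQs := h.y.q.self
  have hN := C.nd _ _ hQs
  rw [ht] at hN
  have hpp0 : p0 < p := hN.2.2.1
  have hR' := h.y.S
  have okR : ((X.c.D.par X.Y).toDT (fun _ => ∅) s.u.B s.u.A s.t).g.Ok := SideI.okg hR'
  have hqp : ∀ e ∈ Qi (X.c.D.par X.Y) X.S' (.leaf Sl) A ×ˢ Qi (X.c.D.par X.Y) X.S' s.t A',
      e.1 = q ∧ e.2 ∈ Qi (X.c.D.par X.Y) X.S' s.t A' := by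
    intro e he
    obtain ⟨h1, h2⟩ := Finset.mem_product.1 he
    exact ⟨Finset.mem_singleton.1 (Qi_one hA h1), h2⟩
  have hJ : ∀ e ∈ Qi (X.c.D.par X.Y) X.S' (.leaf Sl) A ×ˢ Qi (X.c.D.par X.Y) X.S' s.t A',
      JC x0 y0 s.M v.A s.M' s.u.A e := by
    intro e he
    obtain ⟨h1, h2⟩ := hqp e he
    have := jc_of h h2
    rwa [← h1] at this
  have hLo : ∀ e ∈ Qi (X.c.D.par X.Y) X.S' (.leaf Sl) A ×ˢ Qi (X.c.D.par X.Y) X.S' s.t A',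
      ¬ LoSt T p0 X.c.rr x0 y0 (SE s.M v.B v.A s.M' s.u.B s.u.A e) e →
      Tn (WalkIT579.tp s.t) ≤ Dsc (X.c.rr e.1) (X.c.rr e.2) (SE s.M v.B v.A s.M' s.u.B s.u.A e) ∧
      SD (x0 e) (y0 e) (Real.sqrt (Dsc (X.c.rr e.1) (X.c.rr e.2)
        (SE s.M v.B v.A s.M' s.u.B s.u.A e))) ≤ 1 := by
    intro e he hn
    obtain ⟨h1, h2⟩ := hqp e he
    have hj := hJ e he
    rw [htp]
    refine LoSt_stop hpp0.le ?_ hn
    have h3 : ∑ l ∈ O, (1 : ℝ) / l ≤ SD (x0 e) (y0 e) p := by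
      refine SD_of_list hj.px hj.py fun l hl => ⟨(hO l hl).1, by exact_mod_cast (hO l hl).2.1, ?_⟩
      have h4 := (hO l hl).2.2 _ h2
      have h5 : e = (q, e.2) := Prod.ext h1 rfl
      rw [h5]
      exact Dvd.dvd.mul_left h4 _
    have h6 : (0:ℝ) ≤ (p : ℝ) ^ (-(1 / 3) : ℝ) := by positivity
    linarith
  have hab := C.cs.ab
  have key := HLsb_P' (x0 := x0) (y0 := y0) (Lo := LoSt T p0 X.c.rr x0 y0) (Vs := Vs)
    PairO28.pairO (by have := CV_ge; linarith) C.cs.rad C.cs.dead h.M0 h.M0' hL hR'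
    (C.qs _ _ hQs).1 hnl hab C.cs.c0 C.cs.full h.y.il
    (fun j => CStop25.mnn_ok okR j) C.cs.CL0 (by rw [htp]; omega) C.cs.Ch0
    (by rw [htp]; exact C.hln p hpp0.le)
    (SameIx30.LfA.omw (C.dt _ _ hv) (C.lf _ _ hv)) (Ro ((X.c.D.par X.Y).rho s.l)) hJ hLo h0 hVs
  unfold En
  refine key.trans (add_le_add ?_ ?_)
  · have m1 := sum_one_item (v := v) (Sl := Sl) C hA
    have m2 := mI_le_nu C hQs h.c0 hR'
    have m0 : 0 ≤ ∑ j ∈ A', mI ((X.c.D.par X.Y).toDT (fun _ => ∅) s.u.B s.u.A s.t) j :=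
      Finset.sum_nonneg fun j _ => CStop25.mnn_ok okR j
    have m3 := mul_le_mul m1 m2 m0 (mL_nonneg C v q)
    have hcv : 0 ≤ CV * 2 * Real.exp 2 / 2 * (Ch + 1 / (1 / 2)) := by
      have := CV_ge
      have := C.cs.Ch0
      have := Real.exp_pos 2
      positivity
    calc _ ≤ CV * 2 * Real.exp 2 / 2 * (Ch + 1 / (1 / 2)) *
          (mL X v q * (4 * (s.u.c * Ws (w X.ψ) s.t.items))) :=
          mul_le_mul_of_nonneg_left m3 hcv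
      _ = _ := by unfold CS₀ nuL; ring
  · exact sum_one_pair (F := fun e => (v.B : ℝ) * s.u.B * Vs (SE s.M v.B v.A s.M' s.u.B s.u.A e) e)
      C hA (fun e => mul_nonneg (by positivity) (h0 _ _)) _

open Classical in
/-- **(leaf item, leaf')** -/
theorem leaf_ctx (C : LXC X j₀ Ch T x Qp) (hv : Qp v (.leaf Sl))
    {d : DT X.c.Lam (Lb (WL X.c.Lam) X.Y)}
    {A₀ : Finset X.c.Lam} (hL : SideI (X.c.D.par X.Y) (fun _ => ∅) v.B v.A (.leaf Sl) A₀ d)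
    (hA : ∀ j ∈ A, (X.c.D.par X.Y).it j = q) {s : LSt} {S : Finset ℕ} (ht : s.t = .leaf S)
    (h : LOk (X.c.D.par X.Y) X.S' (fun _ => ∅) Qp (JpZ s₀ x0 y0) v q A' s)
    (hX : ∀ l : ℕ, l.Prime → l < v.n → (l : ℝ) ≤ x)
    (hX' : ∀ l : ℕ, l.Prime → l < s.u.n → (l : ℝ) ≤ x) (h0 : ∀ s e, 0 ≤ Vs s e)
    (hVs : ∀ e ∈ (X.c.D.par X.Y).PE (Ro ((X.c.D.par X.Y).rho s.l))
      ((X.c.D.par X.Y).uA s.M v.B v.A (.leaf Sl) A 1)
      ((X.c.D.par X.Y).uA s.M' s.u.B s.u.A s.t A' 1),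
      e ∈ Qi (X.c.D.par X.Y) X.S' (.leaf Sl) A ×ˢ Qi (X.c.D.par X.Y) X.S' s.t A' →
      FL (LoSt T p0 X.c.rr x0 y0) X.c.rr (X.c.D.par X.Y).γ (SE s.M v.B v.A s.M' s.u.B s.u.A e) e ≤
        Vs (SE s.M v.B v.A s.M' s.u.B s.u.A e) e) :
    En (X.c.D.par X.Y) v Sl A A' (Ro ((X.c.D.par X.Y).rho s.l)) s ≤
      CL₀ * (mL X v q * nuL (w X.ψ) s) + ∑ r ∈ Qi (X.c.D.par X.Y) X.S' s.t A',
        (v.B : ℝ) * s.u.B * Vs (SE s.M v.B v.A s.M' s.u.B s.u.A (q, r)) (q, r) := by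
  have hQs := h.y.q.self
  have hlf := C.lf _ _ hv
  have hlf' : LfA X X.Y s.u S := C.lf _ _ (by rw [← ht]; exact hQs)
  have hR' := h.y.S
  have hqp : ∀ e ∈ Qi (X.c.D.par X.Y) X.S' (.leaf Sl) A ×ˢ Qi (X.c.D.par X.Y) X.S' s.t A',
      e.1 = q ∧ e.2 ∈ Qi (X.c.D.par X.Y) X.S' s.t A' := by
    intro e he
    obtain ⟨h1, h2⟩ := Finset.mem_product.1 he
    exact ⟨Finset.mem_singleton.1 (Qi_one hA h1), h2⟩
  have hJ : ∀ e ∈ Qi (X.c.D.par X.Y) X.S' (.leaf Sl) A ×ˢ Qi (X.c.D.par X.Y) X.S' s.t A',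
      JC x0 y0 s.M v.A s.M' s.u.A e := by
    intro e he
    obtain ⟨h1, h2⟩ := hqp e he
    have := jc_of h h2
    rwa [← h1] at this
  have hlog : 0 < Real.log x := Real.log_pos (by linarith [C.x2])
  have hCM : 0 < CM := Crest.Agent.R4.Ovl560.CM_pos
  have hpd : ∀ v : ℕ, 0 < dens v.primeFactors := fun v =>
    dens_pos fun l hl => Nat.prime_of_mem_primeFactors hl
  have hT0 : 0 ≤ T := by linarith [C.T2]
  have hd : ∀ e ∈ Qi (X.c.D.par X.Y) X.S' (.leaf Sl) A ×ˢ Qi (X.c.D.par X.Y) X.S' s.t A',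
      1 ≤ (4 * CM ^ 2) * (T * (dens (e.1 / v.A).primeFactors * dens (e.2 / s.u.A).primeFactors)) := by
    intro e he
    obtain ⟨h1, h2⟩ := Finset.mem_product.1 he
    obtain ⟨a1, a2⟩ := mem_Qi_leaf h1
    rw [ht] at h2
    obtain ⟨b1, b2⟩ := mem_Qi_leaf h2
    have k1 := hlf.ds _ a1 a2 x C.x2 hX
    have k2 := hlf'.ds _ b1 b2 x C.x2 hX'
    have p1 := hpd (e.1 / v.A)
    have p2 := hpd (e.2 / s.u.A)
    have k3 : 1 ≤ (2 * (CM * Real.log x) * dens (e.1 / v.A).primeFactors) *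
        (2 * (CM * Real.log x) * dens (e.2 / s.u.A).primeFactors) := by
      calc (1:ℝ) = 1 * 1 := by ring
        _ ≤ _ := mul_le_mul k1 k2 (by norm_num) (by linarith)
    calc (1:ℝ) ≤ _ := k3
      _ = 4 * CM ^ 2 * (Real.log x ^ 2 *
          (dens (e.1 / v.A).primeFactors * dens (e.2 / s.u.A).primeFactors)) := by ring
      _ ≤ _ := by
          refine mul_le_mul_of_nonneg_left ?_ (by positivity)
          exact mul_le_mul_of_nonneg_right C.Tx (mul_nonneg p1.le p2.le)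
  have key := LL_P (x0 := x0) (y0 := y0) (Lo := LoSt T p0 X.c.rr x0 y0) (Vs := Vs)
    (LoX_LoSt C.T2) (T₁ := T) (fun s e hn => LoSt_T s e hn) C.cs.rad C.cs.dead h.M0 h.M0' hL.hb
    hR'.hb hL.hF hR'.hF hL.hW hR'.hW (Ro ((X.c.D.par X.Y).rho s.l)) A A' (K := 2) (K' := 2)
    (by norm_num) (by norm_num)
    (P := fun q => (q / v.A).primeFactors) (P' := fun q => (q / s.u.A).primeFactors)
    (φ := phC X) (φ' := phC X) (lab := labC X) (lab' := labC X)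
    (fun q hq => ⟨rfl, hlf.om q (mem_Qi_leaf hq).1 (mem_Qi_leaf hq).2⟩)
    (fun q hq => by
      rw [ht] at hq ⊢
      exact ⟨rfl, hlf'.om q (mem_Qi_leaf hq).1 (mem_Qi_leaf hq).2⟩)
    hJ (T₂ := 4 * CM ^ 2) (by positivity) hd h0 hVs
  unfold En
  refine key.trans (add_le_add ?_ ?_)
  · have m1 := sum_one_item (v := v) (Sl := Sl) C hA
    have m2 : ∑ r ∈ Qi (X.c.D.par X.Y) X.S' s.t A', (s.u.B : ℝ) * X.c.rr r *
        dens (r / s.u.A).primeFactors ≤ nuL (w X.ψ) s := by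
      unfold nuL Ws
      rw [Finset.mul_sum]
      refine (Finset.sum_le_sum fun r hr => ?_).trans (Finset.sum_le_sum_of_subset_of_nonneg
        (fun r hr => (mem_Qi.1 hr).1) fun r _ _ => mul_nonneg h.c0 (X.hW r))
      rw [ht] at hr
      exact hlf'.ms r (mem_Qi_leaf hr).1 (mem_Qi_leaf hr).2
    have m0 : 0 ≤ ∑ r ∈ Qi (X.c.D.par X.Y) X.S' s.t A', (s.u.B : ℝ) * X.c.rr r *
        dens (r / s.u.A).primeFactors := Finset.sum_nonneg fun r _ => by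
      have := (rr_pos C r).le
      have := (hpd (r / s.u.A)).le
      positivity
    have m3 := mul_le_mul m1 m2 m0 (mL_nonneg C v q)
    exact mul_le_mul_of_nonneg_left m3 (by
      have := Real.exp_pos 2
      have := CLL_ge
      positivity)
  · exact sum_one_pair (F := fun e => (v.B : ℝ) * s.u.B * Vs (SE s.M v.B v.A s.M' s.u.B s.u.A e) e)
      C hA (fun e => mul_nonneg (by positivity) (h0 _ _)) _

lemma Vs_le_PhiL (h0 : ∀ s e, 0 ≤ Vs s e) (h1 : ∀ l s e, 0 ≤ Vc l s e)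
    (h2 : ∀ l s e, 0 ≤ Vx l s e) {K : ℝ} (hK : 1 ≤ K) {s : LSt} {n : ℕ} (hO : s.t.Ok n) (r : ℕ) :
    (v.B : ℝ) * s.u.B * Vs (SE s.M v.B v.A s.M' s.u.B s.u.A (q, r)) (q, r) ≤
      LeafLoc28.PhiL K Vs Vc Vx v Sl q s r := by
  have k1 := Vs_le_pot h0 h1 h2 s.M v.B v.A s.M' s.u.B s.u.A (.leaf Sl) s.t (q, r)
  have k2 := pot_nonneg h0 h1 h2 s.M v.B v.A s.M' s.u.B s.u.A (.leaf Sl) s.t (q, r)
  have k3 := lam_one hO r
  unfold LeafLoc28.PhiL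
  have k4 : pot Vs Vc Vx s.M v.B v.A s.M' s.u.B s.u.A (.leaf Sl) s.t (q, r) ≤
      lam s.t r * pot Vs Vc Vx s.M v.B v.A s.M' s.u.B s.u.A (.leaf Sl) s.t (q, r) := by nlinarith
  have k5 := k2.trans k4
  nlinarith

open Classical in
/-- **THE LOCAL HYPOTHESES OF ONE LEAF ITEM** : exits and divisible ties are the last two arguments -/
theorem mk_LH (C : LXC X j₀ Ch T x Qp) (hv : Qp v (.leaf Sl))
    {d : DT X.c.Lam (Lb (WL X.c.Lam) X.Y)}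
    {A₀ : Finset X.c.Lam} (hL : SideI (X.c.D.par X.Y) (fun _ => ∅) v.B v.A (.leaf Sl) A₀ d)
    (hA : ∀ j ∈ A, (X.c.D.par X.Y).it j = q) (hq : q ∈ Sl)
    {b : ℕ} (hb : ∀ u τ, Qp u τ → ∀ l : ℕ, l.Prime → l < u.n → l ≤ b) (hbx : (b : ℝ) ≤ x)
    (h0 : ∀ s e, 0 ≤ Vs s e) (h1 : ∀ l s e, 0 ≤ Vc l s e) (h2 : ∀ l s e, 0 ≤ Vx l s e)
    (hVs : ∀ s, LOk (X.c.D.par X.Y) X.S' (fun _ => ∅) Qp (JpZ s₀ x0 y0) v q A' s → JX p0 v b s →
      ∀ e ∈ (X.c.D.par X.Y).PE (Ro ((X.c.D.par X.Y).rho s.l))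
      ((X.c.D.par X.Y).uA s.M v.B v.A (.leaf Sl) A 1)
      ((X.c.D.par X.Y).uA s.M' s.u.B s.u.A s.t A' 1),
      e ∈ Qi (X.c.D.par X.Y) X.S' (.leaf Sl) A ×ˢ Qi (X.c.D.par X.Y) X.S' s.t A' →
      FL (LoSt T p0 X.c.rr x0 y0) X.c.rr (X.c.D.par X.Y).γ (SE s.M v.B v.A s.M' s.u.B s.u.A e) e ≤
        Vs (SE s.M v.B v.A s.M' s.u.B s.u.A e) e)
    {K : ℝ} (hK : 1 ≤ K) {C₀ : ℝ} (hC₁ : CS₀ Ch ≤ C₀) (hC₂ : CL₀ ≤ C₀) (hC₀ : 0 ≤ C₀)
    (hp8 : 8 ≤ X.par.p0) {Θ : ℕ → ℝ} (hΘ1 : ∀ n, 1 ≤ Θ n) (hΘm : Monotone Θ)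
    (hΘs : ∀ p : ℕ, p.Prime → X.par.p0 < p →
      Θ p * (1 + 2 * X.par.sg p / ((p : ℝ) - 1)) ≤ Θ (p + 1))
    (hexit : ∀ (s : LSt) (p : ℕ) (S : Finset ℕ) (t₁ t₀ : IT), s.t = .br p S t₁ t₀ →
      LOk (X.c.D.par X.Y) X.S' (fun _ => ∅) Qp (JpZ s₀ x0 y0) v q A' s → JX p0 v b s →
      ¬ p ∣ s.M' → ¬ p ∣ UI s.M v.A q →
      os (orel (Lb (WL X.c.Lam) X.Y)) p
          (avg s.M' (rk A' ((X.c.D.par X.Y).rho p) (GD (X.c.D.par X.Y) s.u.B s.u.A p t₁ t₀)))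
          (sm ((X.c.D.par X.Y).rho p) ((X.c.D.par X.Y).uA s.M v.B v.A (.leaf Sl) A 1)) +
        1 / (p : ℝ) * Q (Ro ((X.c.D.par X.Y).rho p))
          ((X.c.D.par X.Y).uA (p * s.M) v.B v.A (.leaf Sl) A 1)
          ((X.c.D.par X.Y).uA s.M' (s.u.B * p) s.u.A t₀ A' 1) ≤
        (p : ℝ) ^ (-(11/12) : ℝ) * (mL X v q * nuL (w X.ψ) s) +
          ∑ r ∈ Qi (X.c.D.par X.Y) X.S' t₀ A', LeafLoc28.PhiL K Vs Vc Vx v Sl q s r)
    (hdiv : ∀ (s : LSt) (p : ℕ) (S : Finset ℕ) (t₁ t₀ : IT), s.t = .br p S t₁ t₀ →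
      LOk (X.c.D.par X.Y) X.S' (fun _ => ∅) Qp (JpZ s₀ x0 y0) v q A' s → JX p0 v b s →
      ¬ p ∣ s.M' → p ∣ UI s.M v.A q → ∃ Ψ : ℕ → ℝ,
      os (orel (Lb (WL X.c.Lam) X.Y)) p
          (avg s.M' (rk A' ((X.c.D.par X.Y).rho p) (GD (X.c.D.par X.Y) s.u.B s.u.A p t₁ t₀)))
          (sm ((X.c.D.par X.Y).rho p) ((X.c.D.par X.Y).uA s.M v.B v.A (.leaf Sl) A 1)) ≤
        1 / ((p : ℝ) - 1) * (1 / (p : ℝ) * Q (Ro ((X.c.D.par X.Y).rho p))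
          ((X.c.D.par X.Y).uA (p * s.M) v.B v.A (.leaf Sl) A 1)
          ((X.c.D.par X.Y).uA s.M' (s.u.B * p) s.u.A t₀ A' 1)) +
        C₀ * (Θ (p + 1) - Θ p * (1 + 2 * X.par.sg p / ((p : ℝ) - 1))) *
          (mL X v q * nuL (w X.ψ) s) +
        ∑ r ∈ Qi (X.c.D.par X.Y) X.S' t₀ A', Ψ r ∧
      ∀ r ∈ Qi (X.c.D.par X.Y) X.S' t₀ A', 1 / (p : ℝ) * (1 + 1 / ((p : ℝ) - 1)) *
        LeafLoc28.PhiL K Vs Vc Vx v Sl q ⟨p * s.M, s.M', p, uM p s.u, t₀⟩ r + Ψ r ≤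
          LeafLoc28.PhiL K Vs Vc Vx v Sl q s r) :
    LH (X.c.D.par X.Y) X.S' (fun _ => ∅) X.par (w X.ψ) Qp (JpZ s₀ x0 y0) v Sl q A A' Θ C₀
      (mL X v q) (LeafLoc28.PhiL K Vs Vc Vx v Sl q) (JX p0 v b) (fun l r => l ∣ y0 (q, r)) where
  hh := YH.strip C.nd
  hJ := JpZ_mv
  hvB := hL.hb
  hFl := hL.hF
  hWl := hL.hW
  hq := by
    obtain ⟨a1, a2, -⟩ := hL.hF.item q hq
    exact Nat.div_pos (Nat.le_of_dvd a1 a2) (Nat.pos_of_dvd_of_pos a2 a1)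
  hW0 := X.hW
  hA := hA
  hΘ1 := hΘ1
  hΘm := hΘm
  hΘs := hΘs
  hp8 := hp8
  hC0 := hC₀
  hmq := mL_nonneg C v q
  hJx := fun w s s₂ hm hk hx => hx.next (YH.strip C.nd) hb le_rfl hm hk
  hΦ0 := fun s hk hx r hr => mul_nonneg (by linarith)
    (mul_nonneg (by have := lam_one hk.y.ok r; linarith) (pot_nonneg h0 h1 h2 _ _ _ _ _ _ _ _ _))
  hΦ := fun w s s₂ hm hk hx r hr => by
    have hqv : 0 < q / v.A := by
      obtain ⟨a1, a2, -⟩ := hL.hF.item q hq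
      exact Nat.div_pos (Nat.le_of_dvd a1 a2) (Nat.pos_of_dvd_of_pos a2 a1)
    have k := hm.chd (Sl := Sl) (YH.strip C.nd) JpZ_mv hqv hk
    have k2 := pot_chd (Vs := Vs) (Vc := Vc) (Vx := Vx) h0 h1 h2 hk k r hr
    unfold LeafLoc28.PhiL
    have k3 := mul_le_mul_of_nonneg_left k2 (by linarith : 0 ≤ K)
    linarith
  hOy := fun s p S t₁ t₀ ht hk hx hd hu r hr => by
    have hN := C.nd _ _ hk.y.q.self
    rw [ht] at hN
    have hr1 := (mem_Qi.1 hr).1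
    have hrs : r ∈ Qi (X.c.D.par X.Y) X.S' s.t A' := by
      obtain ⟨a1, a2, a3⟩ := mem_Qi.1 hr
      refine mem_Qi.2 ⟨?_, a2, a3⟩
      rw [ht]
      exact Finset.mem_union_left _ a1
    have h3 := t1_dvd hN hr1
    have hF := hk.y.S.hF
    obtain ⟨b1, b2, -⟩ := hF.item r (mem_Qi.1 hrs).1
    exact tie_dvd2 hN.1 (jc_of hk hrs) h3 hd
      (Nat.div_pos (Nat.le_of_dvd b1 b2) (Nat.pos_of_dvd_of_pos b2 b1)) hk.M0' hu
  hstop := fun s p S t₁ t₀ ht hk hx O hO hs => by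
    have key := stop_ctx (Vs := Vs) C hv hL hA ht hk hO hs h0 (hVs s hk hx)
    refine key.trans (add_le_add (mul_le_mul_of_nonneg_right hC₁ ?_)
      (Finset.sum_le_sum fun r _ => Vs_le_PhiL h0 h1 h2 hK hk.y.ok r))
    exact mul_nonneg (mL_nonneg C v q) (mul_nonneg hk.c0 (Ws_nn X.hW _))
  hleaf := fun s S ht hk hx => by
    have key := leaf_ctx (Vs := Vs) C hv hL hA ht hk
      (fun l hl hlt => le_trans (by exact_mod_cast hb _ _ hv l hl hlt) hbx)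
      (fun l hl hlt => le_trans (by exact_mod_cast hb _ _ hk.y.q.self l hl hlt) hbx)
      h0 (hVs s hk hx)
    refine key.trans (add_le_add (mul_le_mul_of_nonneg_right hC₂ ?_)
      (Finset.sum_le_sum fun r _ => Vs_le_PhiL h0 h1 h2 hK hk.y.ok r))
    exact mul_nonneg (mL_nonneg C v q) (mul_nonneg hk.c0 (Ws_nn X.hW _))
  hexit := hexit
  hdiv := hdiv

end ctx

end Crest.Agent.R4P.LeafX27
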