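import Crest.Agent.R4P.ColT_32
import Crest.Agent.R4P.LeafX_27
import Crest.Agent.R4P.GInstA194

/-!
R4P (S0004), helper32, module D, group [X]: **what the excluded pairs pay** in the leaf item walk.

* `TRel` : the excluded pairs of pieces; `PE_TRel`, `PE_sdiff` : their item pairs;
* `rf` along the moves: `PhT s r = mU q / rf (r / s.u.A) s.M'`, `PhT_mv` (supersolution);
* `rad_le` : averaged radii are at most the scale; `miss_T` : the missing child of a divisible tie.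
-/

set_option autoImplicit false
set_option linter.unusedSectionVars false
set_option linter.unusedVariables false
open Finset hiding dens

namespace Crest.Agent.R4P.ColU32

open Crest.Agent.R4.HVW560 Crest.Agent.R4P.AvgItem710
open Crest.Agent.R4.Tour104 Crest.Agent.R4.Tour758 Crest.Agent.R4.Avg758 Crest.Agent.R4.Clos758
open Crest.Agent.R4.ClosL758 Crest.Agent.R4.ClosG758 Crest.Agent.R4.ClosR758
open Crest.Agent.R4P.Cnt588 Crest.Agent.R4P.Walk560 Crest.Agent.R4P.Item758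
open Crest.Agent.R4P.Bld532 (NS All NodeOk Bk dv nd mem_dv mem_nd)
open Crest.Agent.R4P.GSt927 Crest.Agent.R4P.WalkIT579 Crest.Agent.R4P.NMW710
open Crest.Agent.R4P.CrossLoc25 Crest.Agent.R4P.CrossLocC25 Crest.Agent.R4P.YI25
open Crest.Agent.R4P.LeafCol27 Crest.Agent.R4P.LeafM27 Crest.Agent.R4P.LeafT27
open Crest.Agent.R4P.LeafX27 Crest.Agent.R4P.GInst194

section gen
variable {Λ κ : Type*} [Fintype Λ] [DecidableEq Λ] [Fintype κ] [DecidableEq κ]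
variable {D : Par Λ κ} {Al : Finset ℕ} {A A' : Finset Λ} {TW : ℕ × ℕ → Prop}

open Classical in
/-- **the excluded pairs of pieces** -/
noncomputable def TRel (D : Par Λ κ) (TW : ℕ × ℕ → Prop) : Finset (Λ × Λ) :=
  @Finset.filter (Λ × Λ) (fun x => TW (D.it x.1, D.it x.2)) (fun _ => Classical.dec _) Finset.univ

lemma mem_TRel {x : Λ × Λ} : x ∈ TRel D TW ↔ TW (D.it x.1, D.it x.2) := by
  unfold TRel
  simp

/-- the item pairs of the excluded pieces -/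
lemma PE_TRel {R : Finset (Λ × Λ)} {F G : Λ → ℝ → ℝ} {e : ℕ × ℕ}
    (h : e ∈ D.PE (R ∩ TRel D TW) F G) : TW e ∧ e ∈ D.PE R F G := by
  obtain ⟨j, j', h1, h2, h3, h4⟩ := Par.mem_PE.1 h
  obtain ⟨h5, h6⟩ := Finset.mem_inter.1 h1
  refine ⟨?_, Par.mem_PE.2 ⟨j, j', h5, h2, h3, h4⟩⟩
  have h7 := mem_TRel.1 h6
  simp only at h7
  rw [h3, h4] at h7
  exact h7

/-- the item pairs of the other pieces -/
lemma PE_sdiff {R : Finset (Λ × Λ)} {F G : Λ → ℝ → ℝ} {e : ℕ × ℕ}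
    (h : e ∈ D.PE (R \ TRel D TW) F G) : ¬ TW e ∧ e ∈ D.PE R F G := by
  obtain ⟨j, j', h1, h2, h3, h4⟩ := Par.mem_PE.1 h
  obtain ⟨h5, h6⟩ := Finset.mem_sdiff.1 h1
  refine ⟨fun ht => h6 (mem_TRel.2 ?_), Par.mem_PE.2 ⟨j, j', h5, h2, h3, h4⟩⟩
  simp only
  rw [h3, h4]
  exact ht

/-- the averaged radius of the right item is at most the scale -/
lemma rad_le {ρ : ℕ → ℝ} (hρ : ∀ q, 0 < ρ q) {M b pr M' b' pr' : ℕ} {e : ℕ × ℕ}
    (hU : 0 < UI M pr e.1) :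
    (rf (e.2 / pr') M' : ℝ) * ((b' : ℝ) / (1 : ℕ) * ρ e.2) ≤
      Crest.Agent.R4.CrossLoc709.Dsc (ρ e.1) (ρ e.2)
        (Crest.Agent.R4.CrossLoc709.SE M b pr M' b' pr' e) := by
  have h1 : 1 ≤ cof (UI M pr e.1) (UI M' pr' e.2) := Crest.Agent.R4.HVW560.cof_pos hU
  have h2 : (1:ℝ) ≤ (cof (UI M pr e.1) (UI M' pr' e.2) : ℕ) := by exact_mod_cast h1
  unfold Crest.Agent.R4.CrossLoc709.Dsc
  refine le_trans ?_ (le_max_right _ _)
  rw [Crest.Agent.R4P.CStop25.SE_eq]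
  have h3 : (FI M' pr' e.2 : ℝ) = (rf (e.2 / pr') M' : ℝ) := rfl
  have h4 : (0:ℝ) ≤ (rf (e.2 / pr') M' : ℝ) * ((b' : ℝ) * ρ e.2) :=
    mul_nonneg (Nat.cast_nonneg _) (mul_nonneg (Nat.cast_nonneg _) (hρ _).le)
  show _ ≤ ((cof (UI M pr e.1) (UI M' pr' e.2) * (FI M' pr' e.2 * b') : ℕ) : ℝ) * ρ e.2
  push_cast
  rw [h3]
  have e1 : (cof (UI M pr e.1) (UI M' pr' e.2) : ℝ) * ((rf (e.2 / pr') M' : ℝ) * b') * ρ e.2 =
      (cof (UI M pr e.1) (UI M' pr' e.2) : ℝ) * ((rf (e.2 / pr') M' : ℝ) * (b' * ρ e.2)) := by ring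
  rw [e1, div_one]
  exact le_mul_of_one_le_left h4 h2

open Classical in
/-- **the excluded pairs of one left item**, any node on both sides -/
theorem Q_excl {ρ : ℕ → ℝ} (hR : D.Rad ρ) (hdead : ∀ j, D.it j ∉ Al → ∀ a, D.om j a = 0)
    {M M' b pr b' pr' : ℕ} {t t' : IT} (hM : 0 < M) (hM' : 0 < M') (hb : 0 < b) (hb' : 0 < b')
    (hF : Fit b pr t) (hF' : Fit b' pr' t') (hW : D.Wts pr t) (hW' : D.Wts pr' t')
    (R : Finset (Λ × Λ)) {q : ℕ} (hA : ∀ j ∈ A, D.it j = q)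
    (hs : ∀ r ∈ Qi D Al t' A', TW (q, r) →
      (rf (r / pr') M' : ℝ) * ((b' : ℝ) / (1 : ℕ) * ρ r) ≤ 1 / 2) :
    Q (R ∩ TRel D TW) (D.uA M b pr t A 1) (D.uA M' b' pr' t' A' 1) ≤
      ∑ r ∈ (Qi D Al t' A').filter (fun r => TW (q, r)),
        1 / (rf (r / pr') M' : ℝ) * mU D b pr 1 t A q := by
  have hsub : D.PE (R ∩ TRel D TW) (D.uA M b pr t A 1) (D.uA M' b' pr' t' A' 1) ⊆
      {q} ×ˢ (Qi D Al t' A').filter (fun r => TW (q, r)) := by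
    intro e he
    obtain ⟨h1, h2⟩ := PE_TRel he
    obtain ⟨h3, h4⟩ := Finset.mem_product.1
      (PE_sub hdead hM hM' hb hb' hF hF' hW hW' (one_dvd _) (one_dvd _) _ A A' he)
    obtain ⟨-, -, j, hj, hj2⟩ := mem_Qi.1 h3
    have h5 : e.1 = q := by rw [← hj2, hA j hj]
    refine Finset.mem_product.2 ⟨Finset.mem_singleton.2 h5, Finset.mem_filter.2 ⟨h4, ?_⟩⟩
    rw [← h5]; exact h1
  rw [Q_eq_sub hsub, Finset.sum_product, Finset.sum_singleton]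
  refine Finset.sum_le_sum fun r hr => ?_
  obtain ⟨h1, h2⟩ := Finset.mem_filter.1 hr
  exact iF_le_left hR hM hM' hb hb' hF hF' hW hW' (one_dvd _) (one_dvd _) _ A A' (q, r)
    (mem_Qi.1 h1).1 (hs r h1 h2)

end gen

/-! ### along the moves -/

section mv

/-- raising factor of an item -/
lemma rf_mul_dvd {w p M₂ : ℕ} (hp : p.Prime) (hM : 0 < M₂) (h : p ∣ w) :
    rf (w / p) M₂ = rf w (p * M₂) := by
  obtain ⟨m, rfl⟩ := h
  unfold rf
  rw [Nat.mul_div_cancel_left _ hp.pos, Nat.gcd_mul_left,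
    Nat.mul_div_mul_left _ _ hp.pos]

lemma rf_mul_not {w p M₂ : ℕ} (hp : p.Prime) (h : ¬ p ∣ w) : rf w (p * M₂) = p * rf w M₂ := by
  unfold rf
  have h1 : Nat.Coprime p w := (Nat.Prime.coprime_iff_not_dvd hp).2 h
  have h2 : (p * M₂).gcd w = M₂.gcd w := Nat.Coprime.gcd_mul_left_cancel M₂ h1
  rw [h2, Nat.mul_div_assoc _ (Nat.gcd_dvd_left _ _)]

lemma rf_cop {w p M : ℕ} (hp : p.Prime) (h : ¬ p ∣ M) : rf (w / p) M = rf w M ∨ ¬ p ∣ w := by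
  by_cases hw : p ∣ w
  · left
    obtain ⟨m, rfl⟩ := hw
    unfold rf
    have h1 : Nat.Coprime p M := (Nat.Prime.coprime_iff_not_dvd hp).2 h
    rw [Nat.mul_div_cancel_left _ hp.pos, Nat.Coprime.gcd_mul_left_cancel_right _ h1]
  · exact Or.inr hw

lemma rf_pos {w M : ℕ} (hM : 0 < M) : 0 < rf w M := by
  unfold rf
  exact Nat.div_pos (Nat.le_of_dvd hM (Nat.gcd_dvd_left _ _)) (Nat.gcd_pos_of_pos_left _ hM)

end mv

section walk
variable {Λ κ : Type*} [Fintype Λ] [DecidableEq Λ] [Fintype κ] [DecidableEq κ] [WRel κ]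
variable {D : Par Λ κ} {sp : ℕ → Finset Λ} {P : Bld532.Par} {W : ℕ → ℝ} {Qp : NS → IT → Prop}
  {Al : Finset ℕ} {Jp : ℕ × ℝ → ℕ × ℝ → ℕ × ℕ → Prop} {v : NS} {Sl : Finset ℕ} {q : ℕ}
  {A' : Finset Λ}

/-- **the potential of an excluded pair** (`m` = mass of the left item) -/
noncomputable def PhT (m : ℝ) (s : LSt) (r : ℕ) : ℝ := m / (rf (r / s.u.A) s.M' : ℝ)

lemma PhT_nonneg {m : ℝ} (hm : 0 ≤ m) (s : LSt) (r : ℕ) : 0 ≤ PhT m s r :=
  div_nonneg hm (Nat.cast_nonneg _)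

/-- items of a present child -/
lemma it₁ (hh : YH D sp P W Qp) {p : ℕ} {S : Finset ℕ} {t₁ t₀ : IT} {u : NS}
    (hq : Qp u (.br p S t₁ t₀)) {r : ℕ} (hr : r ∈ Qi D Al t₁ A') : p ∣ r / u.A :=
  t1_dvd (hh.nd _ _ hq) (mem_Qi.1 hr).1

/-- items of a missing child -/
lemma it₀ {p : ℕ} {t₁ t₀ : IT} {u : NS} {S : Finset ℕ} (hp : p.Prime)
    (hF : Fit u.B u.A (.br p S t₁ t₀)) {r : ℕ} (hr : r ∈ Qi D Al t₀ A') : ¬ p ∣ r / u.A := by
  obtain ⟨-, -, h3⟩ := (Fit.item hF.2.2.2.2) _ (mem_Qi.1 hr).1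
  intro hd
  have h4 := Nat.dvd_gcd hd (Dvd.intro_left u.B rfl : p ∣ u.B * p)
  rw [Nat.Coprime.gcd_eq_one h3] at h4
  exact hp.one_lt.ne' (Nat.dvd_one.1 h4)

/-- **the potential of the excluded pairs along the moves** -/
theorem PhT_mv (hh : YH D sp P W Qp) {m : ℝ} (hm : 0 ≤ m) {w : ℝ} {s s₂ : LSt}
    (hmv : LMv v.A q w s s₂) (h : LOk D Al sp Qp Jp v q A' s) {r : ℕ}
    (hr : r ∈ Qi D Al s₂.t A') : w * PhT m s₂ r ≤ PhT m s r := by
  have hF := h.y.S.hF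
  have hok := h.y.ok
  have hM' := h.M0'
  have hq := h.y.q.self
  have key : ∀ {w : ℝ} {x y : ℕ}, 0 ≤ w → w ≤ 1 → 0 < x → 0 < y → (y : ℝ) * w ≤ x →
      w * (m / (x : ℝ)) ≤ m / (y : ℝ) := by
    intro w x y h0 h1 hx hy hxy
    have hx' : (0:ℝ) < x := by exact_mod_cast hx
    have hy' : (0:ℝ) < y := by exact_mod_cast hy
    rw [← mul_div_assoc, div_le_div_iff₀ hx' hy']
    nlinarith [mul_le_mul_of_nonneg_left hxy hm]
  unfold PhT
  cases hmv with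
  | @fr1 M M₂ l p u S t₁ t₀ =>
    have hp : p.Prime := hok.1
    have hM₂ : 0 < M₂ := Nat.pos_of_mul_pos_left hM'
    obtain ⟨w1, w2, w3, w4⟩ := inv_le hp
    have hd := it₁ hh hq hr
    show (1 - 1 / (p : ℝ)) * (m / (rf (r / (u.A * p)) M₂ : ℝ)) ≤ m / (rf (r / u.A) (p * M₂) : ℝ)
    rw [← Nat.div_div_eq_div_mul, rf_mul_dvd hp hM₂ hd]
    have hpos : 0 < rf (r / u.A) (p * M₂) := rf_pos hM'
    refine key w2.le (by linarith) hpos hpos ?_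
    have : (0:ℝ) ≤ rf (r / u.A) (p * M₂) := Nat.cast_nonneg _
    nlinarith
  | @fr0 M M₂ l p u S t₁ t₀ =>
    have hp : p.Prime := hok.1
    have hM₂ : 0 < M₂ := Nat.pos_of_mul_pos_left hM'
    obtain ⟨w1, w2, w3, w4⟩ := inv_le hp
    have hd := it₀ hp hF hr
    show 1 / (p : ℝ) * (m / (rf (r / u.A) M₂ : ℝ)) ≤ m / (rf (r / u.A) (p * M₂) : ℝ)
    rw [rf_mul_not hp hd]
    refine key w1.le (by linarith) (rf_pos hM₂) (Nat.mul_pos hp.pos (rf_pos hM₂)) ?_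
    push_cast
    have e : (p : ℝ) * (rf (r / u.A) M₂ : ℝ) * (1 / (p : ℝ)) = (1 / (p : ℝ) * p) * rf (r / u.A) M₂ := by
      ring
    rw [e, w3, one_mul]
  | @dv1 M M' l p u S t₁ t₀ h' hu =>
    have hp : p.Prime := hok.1
    obtain ⟨w1, w2, w3, w4⟩ := inv_le hp
    have hd := it₁ hh hq hr
    show (1 - 1 / (p : ℝ)) * (m / (rf (r / (u.A * p)) M' : ℝ)) ≤ m / (rf (r / u.A) M' : ℝ)
    rw [← Nat.div_div_eq_div_mul, (rf_cop hp h').resolve_right (not_not.2 hd)]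
    have hpos : 0 < rf (r / u.A) M' := rf_pos hM'
    refine key w2.le (by linarith) hpos hpos ?_
    have : (0:ℝ) ≤ rf (r / u.A) M' := Nat.cast_nonneg _
    nlinarith
  | @dv0 M M' l p u S t₁ t₀ h' hu =>
    have hp : p.Prime := hok.1
    obtain ⟨w1, w2, w3, w4⟩ := inv_le hp
    show 1 / (p : ℝ) * (1 + 1 / ((p : ℝ) - 1)) * (m / (rf (r / u.A) M' : ℝ)) ≤
      m / (rf (r / u.A) M' : ℝ)
    have hpos : 0 < rf (r / u.A) M' := rf_pos hM'
    have hp2 : (2:ℝ) ≤ p := by exact_mod_cast hp.two_le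
    have e : 1 / (p : ℝ) * (1 + 1 / ((p : ℝ) - 1)) = 1 / ((p : ℝ) - 1) := by
      have : (p : ℝ) - 1 ≠ 0 := by linarith
      field_simp
      ring
    have h1 : 1 / ((p : ℝ) - 1) ≤ 1 := by
      rw [div_le_one (by linarith)]; linarith
    rw [e]
    refine key (by
      have : (0:ℝ) < (p : ℝ) - 1 := by linarith
      positivity) h1 hpos hpos ?_
    have : (0:ℝ) ≤ rf (r / u.A) M' := Nat.cast_nonneg _
    nlinarith
  | @nd1 M M' l p u S t₁ t₀ h' hu =>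
    have hp : p.Prime := hok.1
    obtain ⟨w1, w2, w3, w4⟩ := inv_le hp
    have hd := it₁ hh hq hr
    show (1 - 1 / (p : ℝ)) * (m / (rf (r / (u.A * p)) M' : ℝ)) ≤ m / (rf (r / u.A) M' : ℝ)
    rw [← Nat.div_div_eq_div_mul, (rf_cop hp h').resolve_right (not_not.2 hd)]
    have hpos : 0 < rf (r / u.A) M' := rf_pos hM'
    refine key w2.le (by linarith) hpos hpos ?_
    have : (0:ℝ) ≤ rf (r / u.A) M' := Nat.cast_nonneg _
    nlinarith
  | @plf M M₂ l p u t₁ =>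
    have hp : p.Prime := hok.1
    have hM₂ : 0 < M₂ := Nat.pos_of_mul_pos_left hM'
    have hd : p ∣ r / u.A := by
      obtain ⟨b1, b2, -⟩ := h.y.S.pl.hF.item r (mem_Qi.1 hr).1
      have b3 : u.A * p ∣ r := b2
      obtain ⟨m, rfl⟩ := b3
      have hA : 0 < u.A := Nat.pos_of_mul_pos_right (Nat.pos_of_mul_pos_right b1)
      rw [mul_assoc, Nat.mul_div_cancel_left _ hA]
      exact Dvd.intro _ rfl
    show 1 * (m / (rf (r / (u.A * p)) M₂ : ℝ)) ≤ m / (rf (r / u.A) (p * M₂) : ℝ)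
    rw [← Nat.div_div_eq_div_mul, rf_mul_dvd hp hM₂ hd, one_mul]
  | @pl M M' l p u t₁ h' =>
    have hp : p.Prime := hok.1
    have hd : p ∣ r / u.A := by
      obtain ⟨b1, b2, -⟩ := h.y.S.pl.hF.item r (mem_Qi.1 hr).1
      have b3 : u.A * p ∣ r := b2
      obtain ⟨m, rfl⟩ := b3
      have hA : 0 < u.A := Nat.pos_of_mul_pos_right (Nat.pos_of_mul_pos_right b1)
      rw [mul_assoc, Nat.mul_div_cancel_left _ hA]
      exact Dvd.intro _ rfl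
    show 1 * (m / (rf (r / (u.A * p)) M' : ℝ)) ≤ m / (rf (r / u.A) M' : ℝ)
    rw [← Nat.div_div_eq_div_mul, (rf_cop hp h').resolve_right (not_not.2 hd), one_mul]
  | ad1 => exact (one_mul _).le
  | ad0 => exact (one_mul _).le
  | fa1 => exact (one_mul _).le
  | fa0 => exact (one_mul _).le
  | up => exact (one_mul _).le

/-- **the near miss and the missing child of an excluded pair** at a divisible tie -/
theorem PhT_miss {m : ℝ} (hm : 0 ≤ m) {M M' l p : ℕ} {u : NS} {t₀ : IT} (hp3 : 3 ≤ p) (r : ℕ)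
    (t : IT) : 1 / (p : ℝ) * (1 + 1 / ((p : ℝ) - 1)) * PhT m ⟨p * M, M', p, uM p u, t₀⟩ r +
      1 / (p : ℝ) * (1 / (rf (r / u.A) M' : ℝ) * m) ≤ PhT m ⟨M, M', l, u, t⟩ r := by
  have h3 : (3:ℝ) ≤ p := by exact_mod_cast hp3
  have e : 1 / (p : ℝ) * (1 + 1 / ((p : ℝ) - 1)) = 1 / ((p : ℝ) - 1) := by
    have : (p : ℝ) - 1 ≠ 0 := by linarith
    field_simp
    ring
  have h1 : 1 / ((p : ℝ) - 1) ≤ 1 / 2 := one_div_le_one_div_of_le (by norm_num) (by linarith)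
  have h2 : 1 / (p : ℝ) ≤ 1 / 3 := one_div_le_one_div_of_le (by norm_num) h3
  have h4 : 0 ≤ m / (rf (r / u.A) M' : ℝ) := div_nonneg hm (Nat.cast_nonneg _)
  show 1 / (p : ℝ) * (1 + 1 / ((p : ℝ) - 1)) * (m / (rf (r / u.A) M' : ℝ)) +
    1 / (p : ℝ) * (1 / (rf (r / u.A) M' : ℝ) * m) ≤ m / (rf (r / u.A) M' : ℝ)
  rw [e]
  have e2 : 1 / (rf (r / u.A) M' : ℝ) * m = m / (rf (r / u.A) M' : ℝ) := by ring
  rw [e2]
  nlinarith

open Classical in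
/-- **(1/p) Q (excluded) of the missing child** of a divisible tie in the letters of the walk -/
theorem miss_T {ρ : ℕ → ℝ} (hR : D.Rad ρ) (hdead : ∀ j, D.it j ∉ Al → ∀ a, D.om j a = 0)
    (hvB : 0 < v.B) (hFl : Fit v.B v.A (.leaf Sl)) (hWl : D.Wts v.A (.leaf Sl)) (hq : 0 < q / v.A)
    {A : Finset Λ} (hA : ∀ j ∈ A, D.it j = q) {s₀ : ℕ × ℕ → ℝ × ℝ} {x0 y0 : ℕ × ℕ → ℕ}
    (hh : YH D sp P W Qp) {M M' l p : ℕ} {u : NS} {S : Finset ℕ} {t₁ t₀ : IT}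
    (h : LOk D Al sp Qp (JpZ s₀ x0 y0) v q A' ⟨M, M', l, u, .br p S t₁ t₀⟩) (hM' : ¬ p ∣ M')
    (hu : p ∣ UI M v.A q) {TW : ℕ × ℕ → Prop}
    (hT : ∀ r, TW (q, r) → Crest.Agent.R4.CrossLoc709.Dsc (ρ q) (ρ r) (s₀ (q, r)) ≤ 1 / 2)
    (R : Finset (Λ × Λ)) :
    1 / (p : ℝ) * Q (R ∩ TRel D TW) (D.uA (p * M) v.B v.A (.leaf Sl) A 1)
        (D.uA M' (u.B * p) u.A t₀ A' 1) ≤
      ∑ r ∈ (Qi D Al t₀ A').filter (fun r => TW (q, r)),
        1 / (p : ℝ) * (1 / (rf (r / u.A) M' : ℝ) * mU D v.B v.A 1 (.leaf Sl) A q) := by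
  have hp : p.Prime := h.y.S.hF.1
  have c0 : LMv v.A q (1 / (p : ℝ) * (1 + 1 / ((p : ℝ) - 1))) ⟨M, M', l, u, .br p S t₁ t₀⟩
    ⟨p * M, M', p, uM p u, t₀⟩ := .dv0 hM' hu
  have k0 := c0.chd (Sl := Sl) hh JpZ_mv hq h
  rw [← Finset.mul_sum]
  refine mul_le_mul_of_nonneg_left ?_ (by positivity)
  refine Q_excl hR hdead (Nat.mul_pos hp.pos h.M0) h.M0' hvB h.y.S.br₀.hb hFl h.y.S.br₀.hF hWl
    h.y.S.br₀.hW R hA fun r hr hTr => ?_
  have e := se_of k0.ok hr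
  have hUI : 0 < UI (p * M) v.A q := Nat.div_pos
    (Nat.le_of_dvd hq (Nat.gcd_dvd_right _ _)) (Nat.gcd_pos_of_pos_right _ hq)
  have k := rad_le (M := p * M) (b := v.B) (pr := v.A) (M' := M') (b' := u.B * p) (pr' := u.A)
    (e := (q, r)) hR.pos hUI
  have e2 : Crest.Agent.R4.CrossLoc709.SE (p * M) v.B v.A M' (u.B * p) u.A (q, r) = s₀ (q, r) := e
  rw [e2] at k
  exact k.trans (hT r hTr)

end walk
end Crest.Agent.R4P.ColU32
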