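import Crest.Agent.R4P.YI_25
import Crest.Agent.R4P.CtxX_26

/-!
R4 (S0004) with powers, module D, helper34: **the averaging moduli of a state are coprime**.

* `cop_nxt0C`, `cop_nxtC` : kept by the steps of the cross walk;
* `cop_nxt0`, `cop_steps` : kept by the steps of the pair walk;
* `Jn.cop` : coprimality joined to the further facts `J` of the walk invariant (`CtxX26.Jn`).
-/

set_option autoImplicit false
set_option linter.unusedSectionVars false
set_option linter.unusedVariables false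
set_option linter.unusedSimpArgs false
open Finset

namespace Crest.Agent.R4P.CopM34

open Crest.Agent.R4.Tour104 Crest.Agent.R4.Tour758 Crest.Agent.R4.Avg758 Crest.Agent.R4.Clos758
open Crest.Agent.R4.ClosL758 Crest.Agent.R4.ClosG758 Crest.Agent.R4.ClosR758
open Crest.Agent.R4P.Cnt588 Crest.Agent.R4P.Walk560 Crest.Agent.R4P.Item758
open Crest.Agent.R4P.Bld532 (NS All NodeOk Bk)
open Crest.Agent.R4P.Res927 Crest.Agent.R4P.GSt927 Crest.Agent.R4P.WalkIT579 Crest.Agent.R4P.WalkC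
open Crest.Agent.R4P.YI25 Crest.Agent.R4P.CtxX26

variable {Λ κ : Type*} [Fintype Λ] [DecidableEq Λ] [DecidableEq κ] [WRel κ]

/-- the averaging moduli are coprime -/
def Cop (s : St Λ κ) : Prop := Nat.Coprime s.M s.M'

lemma cop_mulR {p M M' : ℕ} (hp : p.Prime) (h : Nat.Coprime M M') (hd : ¬ p ∣ M) :
    Nat.Coprime M (p * M') := by
  refine Nat.Coprime.mul_right ?_ h
  exact ((Nat.Prime.coprime_iff_not_dvd hp).2 hd).symm

lemma cop_mulL {p M M' : ℕ} (hp : p.Prime) (h : Nat.Coprime M M') (hd : ¬ p ∣ M') :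
    Nat.Coprime (p * M) M' :=
  Nat.Coprime.mul_left ((Nat.Prime.coprime_iff_not_dvd hp).2 hd) h

lemma cop_divL {p M M' : ℕ} (h : Nat.Coprime M M') (hd : p ∣ M) : Nat.Coprime (M / p) M' :=
  Nat.Coprime.coprime_dvd_left (Nat.div_dvd_of_dvd hd) h

lemma cop_divR {p M M' : ℕ} (h : Nat.Coprime M M') (hd : p ∣ M') : Nat.Coprime M (M' / p) :=
  Nat.Coprime.coprime_dvd_right (Nat.div_dvd_of_dvd hd) h

/-- the pre-steps on the left -/
lemma cop_stL {s : St Λ κ} (hpp : s.p.Prime) (hc : Cop s) (hPL : s.isPL) (hPR : ¬ s.isPR ∨ True) :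
    (∀ r t, s.p ∣ s.M → Cop (s.fL r t)) ∧ ∀ r t, ¬ s.p ∣ s.M → Cop (s.pL r t) :=
  ⟨fun r t hd => cop_divL hc hd, fun r t hd => cop_mulR hpp hc hd⟩

lemma cop_stR {s : St Λ κ} (hpp : s.p.Prime) (hc : Cop s) :
    (∀ r t, s.p ∣ s.M' → Cop (s.fR r t)) ∧ ∀ r t, ¬ s.p ∣ s.M' → Cop (s.pR r t) :=
  ⟨fun r t hd => cop_divR hc hd, fun r t hd => cop_mulL hpp hc hd⟩

set_option maxHeartbeats 1000000 in
/-- **cross walk** -/
theorem cop_nxt0C {stp : St Λ κ → Prop} {s : St Λ κ} (hpp : s.p.Prime) (hc : Cop s) :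
    ∀ q ∈ nxt0C stp s, Cop q.2 := by
  intro q hq
  unfold nxt0C at hq
  by_cases h1 : s.t.isLeaf ∧ s.t'.isLeaf
  · simp [h1] at hq
  by_cases h2 : stp s
  · simp [h1, h2] at hq
  rw [if_neg h1, if_neg h2] at hq
  by_cases hPL : s.isPL
  · rw [if_pos hPL] at hq
    obtain ⟨w, r, t₁, t₀, v, B, G, hv, et, ⟨hd, e⟩ | ⟨hd, -, e⟩⟩ := St.isPL_cases hPL <;>
    · rw [e] at hq
      simp only [List.mem_cons, List.not_mem_nil, or_false] at hq
      rcases hq with rfl | rfl
      · first | exact (cop_stL hpp hc hPL (Or.inr trivial)).1 _ _ hd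
              | exact (cop_stL hpp hc hPL (Or.inr trivial)).2 _ _ hd
      · first | exact (cop_stL hpp hc hPL (Or.inr trivial)).1 _ _ hd
              | exact (cop_stL hpp hc hPL (Or.inr trivial)).2 _ _ hd
  by_cases hPR : s.isPR
  · rw [if_neg hPL, if_pos hPR] at hq
    obtain ⟨w, r, t₁, t₀, v, B, G, hv, et, ⟨hd, e⟩ | ⟨hd, -, e⟩⟩ := St.isPR_cases hPR <;>
    · rw [e] at hq
      simp only [List.mem_cons, List.not_mem_nil, or_false] at hq
      rcases hq with rfl | rfl
      · first | exact (cop_stR hpp hc).1 _ _ hd | exact (cop_stR hpp hc).2 _ _ hd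
      · first | exact (cop_stR hpp hc).1 _ _ hd | exact (cop_stR hpp hc).2 _ _ hd
  rw [if_neg hPL, if_neg hPR] at hq
  rcases hv : vw s.p s.t with ⟨w, r, t₁, t₀, v, B, G⟩ | ⟨r, t₁, t₀⟩ | ⟨Sp, u⟩ <;>
  rcases hv' : vw s.p s.t' with ⟨w', r', t₁', t₀', v', B', G'⟩ | ⟨r', t₁', t₀'⟩ | ⟨Sp', u'⟩ <;>
  simp only [hv, hv'] at hq
  · simp only [List.mem_cons, List.not_mem_nil, or_false] at hq
    rcases hq with rfl | rfl | rfl <;> exact hc
  · simp only [List.mem_cons, List.not_mem_nil, or_false] at hq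
    rcases hq with rfl | rfl <;> exact hc
  · have hd := (St.not_isPL_up hPL hv hv').1
    have k : Nat.Coprime s.M (s.p * s.M') := cop_mulR hpp hc hd
    split_ifs at hq <;> simp only [List.mem_cons, List.not_mem_nil, or_false] at hq
    · subst hq; exact k
    · rcases hq with rfl | rfl | rfl <;> exact k
  · simp only [List.mem_cons, List.not_mem_nil, or_false] at hq
    rcases hq with rfl | rfl <;> exact hc
  · simp only [List.mem_cons, List.not_mem_nil, or_false] at hq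
    rcases hq with rfl | rfl <;> exact hc
  · simp only [List.mem_cons, List.not_mem_nil, or_false] at hq
    rcases hq with rfl | rfl <;> exact hc
  · have hd := (St.not_isPR_up hPR hv hv').1
    have k : Nat.Coprime (s.p * s.M) s.M' := cop_mulL hpp hc hd
    split_ifs at hq <;> simp only [List.mem_cons, List.not_mem_nil, or_false] at hq
    · subst hq; exact k
    · rcases hq with rfl | rfl | rfl <;> exact k
  · simp only [List.mem_cons, List.not_mem_nil, or_false] at hq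
    rcases hq with rfl | rfl <;> exact hc
  · simp only [List.mem_cons, List.not_mem_nil, or_false] at hq
    subst hq; exact hc

set_option maxHeartbeats 1000000 in
/-- **pair walk** -/
theorem cop_nxt0 {stp : Stp Λ κ} {s : St Λ κ} (hpp : s.p.Prime) (hc : Cop s) :
    ∀ q ∈ nxt0 stp s, Cop q.2 := by
  intro q hq
  unfold nxt0 at hq
  by_cases h1 : s.t.isLeaf ∨ s.t'.isLeaf
  · simp [h1] at hq
  by_cases h2 : stp s
  · simp [h1, h2] at hq
  rw [if_neg h1, if_neg h2] at hq
  by_cases hPL : s.isPL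
  · rw [if_pos hPL] at hq
    obtain ⟨w, r, t₁, t₀, v, B, G, hv, et, ⟨hd, e⟩ | ⟨hd, -, e⟩⟩ := St.isPL_cases hPL <;>
    · rw [e] at hq
      simp only [List.mem_cons, List.not_mem_nil, or_false] at hq
      rcases hq with rfl | rfl
      · first | exact (cop_stL hpp hc hPL (Or.inr trivial)).1 _ _ hd
              | exact (cop_stL hpp hc hPL (Or.inr trivial)).2 _ _ hd
      · first | exact (cop_stL hpp hc hPL (Or.inr trivial)).1 _ _ hd
              | exact (cop_stL hpp hc hPL (Or.inr trivial)).2 _ _ hd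
  by_cases hPR : s.isPR
  · rw [if_neg hPL, if_pos hPR] at hq
    obtain ⟨w, r, t₁, t₀, v, B, G, hv, et, ⟨hd, e⟩ | ⟨hd, -, e⟩⟩ := St.isPR_cases hPR <;>
    · rw [e] at hq
      simp only [List.mem_cons, List.not_mem_nil, or_false] at hq
      rcases hq with rfl | rfl
      · first | exact (cop_stR hpp hc).1 _ _ hd | exact (cop_stR hpp hc).2 _ _ hd
      · first | exact (cop_stR hpp hc).1 _ _ hd | exact (cop_stR hpp hc).2 _ _ hd
  rw [if_neg hPL, if_neg hPR] at hq
  rcases hv : vw s.p s.t with ⟨w, r, t₁, t₀, v, B, G⟩ | ⟨r, t₁, t₀⟩ | ⟨Sp, u⟩ <;>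
  rcases hv' : vw s.p s.t' with ⟨w', r', t₁', t₀', v', B', G'⟩ | ⟨r', t₁', t₀'⟩ | ⟨Sp', u'⟩ <;>
  simp only [hv, hv'] at hq
  · simp only [List.mem_cons, List.not_mem_nil, or_false] at hq
    rcases hq with rfl | rfl | rfl | rfl <;> exact hc
  · simp only [List.mem_cons, List.not_mem_nil, or_false] at hq
    subst hq; exact hc
  · have hd := (St.not_isPL_up hPL hv hv').1
    have k : Nat.Coprime s.M (s.p * s.M') := cop_mulR hpp hc hd
    simp only [List.mem_cons, List.not_mem_nil, or_false] at hq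
    rcases hq with rfl | rfl <;> exact k
  · simp only [List.mem_cons, List.not_mem_nil, or_false] at hq
    subst hq; exact hc
  · split_ifs at hq <;> simp only [List.mem_cons, List.not_mem_nil, or_false] at hq
    · rcases hq with rfl | rfl <;> exact hc
    · subst hq; exact hc
    · subst hq; exact hc
  · split_ifs at hq <;> simp only [List.mem_cons, List.not_mem_nil, or_false] at hq
    · rcases hq with rfl | rfl <;> exact hc
    · subst hq; exact hc
  · have hd := (St.not_isPR_up hPR hv hv').1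
    have k : Nat.Coprime (s.p * s.M) s.M' := cop_mulL hpp hc hd
    simp only [List.mem_cons, List.not_mem_nil, or_false] at hq
    rcases hq with rfl | rfl <;> exact k
  · split_ifs at hq <;> simp only [List.mem_cons, List.not_mem_nil, or_false] at hq
    · rcases hq with rfl | rfl <;> exact hc
    · subst hq; exact hc
  · simp only [List.mem_cons, List.not_mem_nil, or_false] at hq
    subst hq; exact hc

/-- a state which makes a step is live -/
lemma nxt0C_live {stp : St Λ κ → Prop} {s : St Λ κ} {q : ℝ × St Λ κ} (hq : q ∈ nxt0C stp s) :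
    ¬ (s.t.isLeaf ∧ s.t'.isLeaf) := by
  intro h1
  unfold nxt0C at hq
  simp [h1] at hq

lemma nxt0_live {stp : Stp Λ κ} {s : St Λ κ} {q : ℝ × St Λ κ} (hq : q ∈ nxt0 stp s) :
    ¬ (s.t.isLeaf ∨ s.t'.isLeaf) := by
  intro h1
  unfold nxt0 at hq
  simp [h1] at hq

section
variable [Fintype κ] {D : Par Λ κ} {sp : ℕ → Finset Λ} {P : Bld532.Par} {W : ℕ → ℝ}
  {Qp : NS → IT → Prop} {RP : Finset (Λ × Λ) → Prop}

/-- **cross walk, with item data** -/
theorem cop_nxtC (hh : YH D sp P W Qp) {stp : St Λ κ → Prop} {s : St Λ κ} {u u' : NS} {τ τ' : IT}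
    (h : YI D sp Qp RP s u u' τ τ') (hc : Cop s) : ∀ q ∈ nxtC stp s, Cop q.2 := by
  intro q hq
  have hq0 := (mem_nxtC.1 hq).1
  exact cop_nxt0C (h.lev hh (nxt0C_live hq0)).1 hc q hq0

/-- **pair walk, with item data** -/
theorem cop_steps (hN : ∀ u τ, Qp u τ → NodeOk P W u τ) {stp : Stp Λ κ} {B₀ B₀' : ℕ} {x : XSt Λ κ}
    {u u' : NS} {τ τ' : IT} (hi : HI D sp Qp B₀ B₀' x u u' τ τ') (js : JS x.s u u')
    {dv : DT Λ κ → Λ → Prop} (hc : Cop x.s) : ∀ e ∈ steps stp dv x, Cop e.y.s := by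
  intro e he
  have hq0 := (mem_nxt.1 (steps_nxt he)).1
  obtain ⟨hl, hl'⟩ := not_or.1 (nxt0_live hq0)
  exact cop_nxt0 (HJ.lev (P := P) (W := W) hN hi js hl hl').2.2 hc _ hq0

/-- **coprimality joined to the further facts** -/
theorem Jn_cop (hN : ∀ u τ, Qp u τ → NodeOk P W u τ) {stp : Stp Λ κ}
    {J : XSt Λ κ → NS → NS → IT → IT → Prop} (hJ : Jn D sp Qp stp J) :
    Jn D sp Qp stp (fun x v v' σ σ' => Cop x.s ∧ J x v v' σ σ') := by
  intro B₀ B₀' x v v' σ σ' h1 h2 h3 h4 e he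
  obtain ⟨w, w', ρ, ρ', k1, k2, k3⟩ := hJ B₀ B₀' x v v' σ σ' h1 h2 h3 h4.2 e he
  exact ⟨w, w', ρ, ρ', k1, k2, cop_steps hN h2 h3 h4.1 e he, k3⟩

/-- only coprimality -/
theorem Jn_cop' (spo : D.SpOk sp) (il : ∀ b, IL D.it (sp b))
    (hN : ∀ u τ, Qp u τ → NodeOk P W u τ) {stp : Stp Λ κ} :
    Jn D sp Qp stp (fun x _ _ _ _ => Cop x.s) := by
  intro B₀ B₀' x v v' σ σ' h1 h2 h3 h4 e he
  obtain ⟨w, w', ρ, ρ', k1, k2⟩ := HJ.next spo il hN h1 h2 h3 e he
  exact ⟨w, w', ρ, ρ', k1, k2, cop_steps hN h2 h3 h4 e he⟩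

/-- self states -/
lemma Cop.self (d : DT Λ κ) (A : Finset Λ) : Cop (selfSt d A) := by
  show Nat.Coprime 1 1
  norm_num

end

end Crest.Agent.R4P.CopM34
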