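import Crest.Agent.R4P.PayV_29
import Crest.Agent.R4P.HullCtx_26

/-!
R4 (S0004) with powers, module D (crossing pairs), helper26: **`eX` with the relation of the column** at the
crossing states.

* `cross_sumF` : the outer sum for any cost `F` of the crossing states.
* `eXR stp wr μ B s` : sum of `Xs` over the crossing states with the relation `Ro (wr s.p)`.
* `PayR` : payments; `ctx_eX_R` : the part `eXR` of a context, generic parts paid by `VX`.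
-/

set_option autoImplicit false
set_option linter.unusedSectionVars false
set_option linter.unusedVariables false
set_option linter.unusedSimpArgs false

namespace Crest.Agent.R4P.PayR26

open Crest.Agent.R4.Tour104 Crest.Agent.R4.Tour758 Crest.Agent.R4.Avg758 Crest.Agent.R4.Clos758
open Crest.Agent.R4.ClosL758 Crest.Agent.R4.ClosG758 Crest.Agent.R4.ClosR758
open Crest.Agent.R4.Fam464 Crest.Agent.R4P.Cnt588 Crest.Agent.R4P.Walk560 Crest.Agent.R4.Piece464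
open Crest.Agent.R4P.Item758 Crest.Agent.R4P.AvgItem710
open Crest.Agent.R4P.Data758 Crest.Agent.R4P.WalkIT579
open Crest.Agent.R4P.Bld532 (NS All NodeOk Bk)
open Crest.Agent.R4P.Res927 Crest.Agent.R4P.GSt927 Crest.Agent.R4P.OSWS245
open Crest.Agent.R4P.StopCtx9 (OFP RI)
open Crest.Agent.R4P.Skel189 (Ctx top Part PartW)
open Crest.Agent.R4P.Frame758 (tM tN tG tD wt)
open Crest.Agent.R4P.ClosP542 (PulG)
open Crest.Agent.R4.Item758 (AdI AdI_univ)
open Crest.Agent.R4P.VWalk36 (crs V toZ)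
open Crest.Agent.R4P.Strip29 (Blind NoSplit)
open Crest.Agent.R4.Soft104
open Crest.Agent.R4P.Step588 (NDt ND1 ctx_NDt All_All)
open Crest.Agent.R4P.CtxX26 Crest.Agent.R4P.CrossSum29
open Crest.Agent.R4P.StratX36 Crest.Agent.R4P.SkelF29 Crest.Agent.R4P.Dd26
open Crest.Agent.R4P.AsmX26 Crest.Agent.R4P.VCtx29 Crest.Agent.R4P.PayV29
open Crest.Agent.R4P.VNum34 Crest.Agent.R4P.VItem34
open Crest.Agent.R4P

section gen
variable {Λ κ : Type*} [Fintype Λ] [DecidableEq Λ] [DecidableEq κ] [WRel κ]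

/-- **crossing pairs at SEP and far columns, relation of the column** -/
noncomputable def eXR (stp : Stp Λ κ) (wr : ℕ → Λ → κ) (μ : TrG Λ κ → Finset Λ → ℝ) (B : ℝ)
    (s : St Λ κ) : ℝ :=
  ((crs stp s).map fun z => Xs μ B { z with R := Ro (wr s.p) }).sum

/-- **OUTER SUM OF A COST `F` OF THE CROSSING STATES, with data** (`Y` = states with data, `π` = the state).  At every state `y` there
is a list `l` of continuing states with data over `nxt stp (π y)`, and the crossing states are paid by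
the masses, the node functions with gaps and the decrease `Ψ y - Σ_l e.1 Ψ e.2`. -/
theorem cross_sumF [Fintype κ] {Y : Type*} {π : Y → St Λ κ} {wr : ℕ → Λ → κ}
    {Ad : TrG Λ κ → Finset Λ → Prop}
    {μ : TrG Λ κ → Finset Λ → ℝ} {ν : TrG Λ κ → ℝ} {stp : Stp Λ κ} (hns : NoSplit stp)
    {Iv : Y → Prop} (hInv : ∀ y, Iv y → ∃ n, Inv wr Ad μ ν n (π y))
    (hdL : ∀ y, Iv y → ∀ r t₁ t₀, OneL stp (π y) r t₁ t₀ → ¬ dd (π y).t')
    (hdR : ∀ y, Iv y → ∀ r t₁ t₀, OneR stp (π y) r t₁ t₀ → ¬ dd (π y).t)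
    (F : St Λ κ → St Λ κ → ℝ) {K K₂ : ℝ} (hK : 0 ≤ K) (hK₂ : 0 ≤ K₂) {L g : DT Λ κ → ℝ}
    (hL : ∀ y, Iv y → GapN L g (π y).t ∧ GapN L g (π y).t')
    {Ψ : Y → ℝ}
    (H : ∀ y, Iv y → ∃ l : List (ℝ × Y), l.map (fun e => (e.1, π e.2)) = nxt stp (π y) ∧
      (∀ e ∈ l, Iv e.2) ∧
      (Oth stp (π y) → (l.map fun e => e.1 * Ψ e.2).sum ≤ Ψ y) ∧
      (∀ r t₁ t₀, OneL stp (π y) r t₁ t₀ →
        F (π y) { (π y) with t := stp.x (π y) t₁ t₀ } + (l.map fun e => e.1 * Ψ e.2).sum ≤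
          K * (ν (stp.x (π y) t₁ t₀).g + pm (fun d => ν d.g) (stp.c (π y) t₁ t₀) (π y).t') +
          K₂ * (ν (stp.x (π y) t₁ t₀).g * Real.sqrt (ν (π y).t'.g / ν (π y).t.g)) +
          g (π y).t + Ψ y) ∧
      (∀ r t₁ t₀, OneR stp (π y) r t₁ t₀ →
        F (π y) { (π y) with t' := stp.x (π y) t₁ t₀ } + (l.map fun e => e.1 * Ψ e.2).sum ≤
          K * (ν (stp.x (π y) t₁ t₀).g + pm (fun d => ν d.g) (π y).t (stp.c (π y) t₁ t₀)) +
          K₂ * (ν (stp.x (π y) t₁ t₀).g * Real.sqrt (ν (π y).t.g / ν (π y).t'.g)) +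
          g (π y).t' + Ψ y) ∧
      (∀ r t₁ t₀ r' t₁' t₀', Jnt stp (π y) r t₁ t₀ r' t₁' t₀' →
        F (π y) { (π y) with t := t₁, t' := t₀' } + F (π y) { (π y) with t := t₀, t' := t₁' } +
            (l.map fun e => e.1 * Ψ e.2).sum ≤
          K * (pm (fun d => ν d.g) t₁ t₁' + pm (fun d => ν d.g) t₀ t₀') +
          g (π y).t + g (π y).t' + Ψ y)) :
    ∀ y, Iv y → WS stp (fun s => ((crs stp s).map (F s)).sum) (π y) ≤
      K * (ν (π y).t.g + ν (π y).t'.g) + 2 * K₂ * Real.sqrt (ν (π y).t.g * ν (π y).t'.g) +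
        (L (π y).t + L (π y).t') + Ψ y := by
  intro y hy
  have hmass : ∀ y, Iv y → MassN (fun d => ν d.g) (π y).t ∧ MassN (fun d => ν d.g) (π y).t' := by
    intro y hy
    obtain ⟨n, hn⟩ := hInv y hy
    exact ⟨massN_of_side hn.L, massN_of_side hn.R⟩
  have key : WS stp (fun s => ((crs stp s).map (F s)).sum) (π y) ≤ K * PhK (fun d => ν d.g) (π y) +
      2 * K₂ * PhS (fun d => ν d.g) (π y) + PhG L (π y) + Ψ y := by
    refine W_super_rel (Iv := Iv) (π := π) (Φ := fun y => K * PhK (fun d => ν d.g) (π y) +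
      2 * K₂ * PhS (fun d => ν d.g) (π y) + PhG L (π y) + Ψ y)
      (fun s => nxt_rank stp s) (fun y hy => ?_) y hy
    obtain ⟨l, hl, hc, hO, hOL, hOR, hJ⟩ := H y hy
    refine ⟨l, hl, fun e he => ⟨hc e he, ?_⟩, ?_⟩
    · obtain ⟨n, hn⟩ := hInv y hy
      have h1 : (e.1, π e.2) ∈ nxt stp (π y) := by
        rw [← hl]; exact List.mem_map.2 ⟨e, he, rfl⟩
      exact (hn.next0 (stp := stp) _ (mem_nxt.1 h1).1).2
    · have es : (l.map fun e => e.1 * (K * PhK (fun d => ν d.g) (π e.2) +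
          2 * K₂ * PhS (fun d => ν d.g) (π e.2) + PhG L (π e.2) + Ψ e.2)).sum =
          K * ((nxt0 stp (π y)).map fun q => q.1 * PhK (fun d => ν d.g) q.2).sum +
          2 * K₂ * ((nxt0 stp (π y)).map fun q => q.1 * PhS (fun d => ν d.g) q.2).sum +
          ((nxt0 stp (π y)).map fun q => q.1 * PhG L q.2).sum +
          (l.map fun e => e.1 * Ψ e.2).sum := by
        rw [← nxt_sum, ← nxt_sum, ← nxt_sum, ← sum_proj hl, ← sum_proj hl, ← sum_proj hl]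
        clear hl hc hO hOL hOR hJ
        induction l with
        | nil => simp
        | cons a l ih => simp only [List.map_cons, List.sum_cons, ih]; ring
      rw [es]
      have d1 : ∀ G : St Λ κ → ℝ, ((nxt0 stp (π y)).map fun q => q.1 * G q.2).sum =
          G (π y) - decr stp G (π y) := by
        intro G; unfold decr; ring
      rw [d1, d1, d1]
      obtain ⟨m1, m1'⟩ := hmass y hy
      obtain ⟨g1, g1'⟩ := hL y hy
      rcases step_cases hns (π y) with ⟨r, t₁, t₀, h⟩ | ⟨r, t₁, t₀, h⟩ |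
        ⟨r, t₁, t₀, r', t₁', t₀', h⟩ | ⟨h, hc⟩
      · simp only [h.cr]
        simp only [List.map_cons, List.map_nil, List.sum_cons, List.sum_nil, add_zero]
        have hd := hdL y hy r t₁ t₀ h
        have a1 := mul_le_mul_of_nonneg_left (PhK_L h hd m1) hK
        have a2 := mul_le_mul_of_nonneg_left (PhS_L h hd m1 m1'.nn) hK₂
        have a3 := PhG_L h g1
        have a4 : 0 ≤ L (stp.x (π y) t₁ t₀) := by
          have h2 := h.et
          rw [h2] at g1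
          rcases stp.c_or (π y) t₁ t₀ with ⟨-, hx⟩ | ⟨-, hx⟩ <;> rw [hx]
          · exact g1.2.1
          · exact g1.1
        have a5 := hOL r t₁ t₀ h
        linarith
      · simp only [h.cr]
        simp only [List.map_cons, List.map_nil, List.sum_cons, List.sum_nil, add_zero]
        have hd := hdR y hy r t₁ t₀ h
        have a1 := mul_le_mul_of_nonneg_left (PhK_R h hd m1') hK
        have a2 := mul_le_mul_of_nonneg_left (PhS_R h hd m1' m1.nn) hK₂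
        have a3 := PhG_R h g1'
        have a4 : 0 ≤ L (stp.x (π y) t₁ t₀) := by
          have h2 := h.et
          rw [h2] at g1'
          rcases stp.c_or (π y) t₁ t₀ with ⟨-, hx⟩ | ⟨-, hx⟩ <;> rw [hx]
          · exact g1'.2.1
          · exact g1'.1
        have a5 := hOR r t₁ t₀ h
        linarith
      · simp only [h.cr]
        simp only [List.map_cons, List.map_nil, List.sum_cons, List.sum_nil, add_zero]
        have a1 := mul_le_mul_of_nonneg_left (PhK_J h m1 m1') hK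
        have a2 := mul_nonneg hK₂ (PhS_J h m1 m1')
        have a3 := PhG_J h g1 g1'
        have a5 := hJ r t₁ t₀ r' t₁' t₀' h
        linarith
      · rw [hc]
        simp only [List.map_nil, List.sum_nil]
        have a1 := mul_nonneg hK (PhK_oth h m1 m1')
        have a2 := mul_nonneg hK₂ (PhS_oth h m1 m1')
        have a3 := PhG_oth h g1 g1'
        have a5 := hO h
        linarith
  obtain ⟨m1, m1'⟩ := hmass y hy
  have k1 : PhK (fun d => ν d.g) (π y) ≤ ν (π y).t.g + ν (π y).t'.g := by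
    rw [PhK_pm]
    have := pm_nn (m := fun d : DT Λ κ => ν d.g) m1.nn m1'.nn
    linarith
  have k2 := PhS_le (fun d => ν d.g) (π y)
  rw [← Real.sqrt_mul m1.nn] at k2
  have k3 := mul_le_mul_of_nonneg_left k1 hK
  have k4 := mul_le_mul_of_nonneg_left k2 (mul_nonneg two_pos.le hK₂)
  have k5 : PhG L (π y) = L (π y).t + L (π y).t' := by unfold PhG; ring
  linarith

end gen

section ctx
variable {N : Skel189.Num} {γ : ℝ} {p0 P₀ : ℕ} {X : Ctx N γ p0 P₀} {j₀ : X.c.Lam}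
  {Q' : NS → IT → Prop} {J : XSt X.c.Lam (Lb (WL X.c.Lam) X.Y) → NS → NS → IT → IT → Prop}

/-- the excess with the relation of the column `b` -/
noncomputable def XsR (X : Ctx N γ p0 P₀) (j₀ : X.c.Lam) (B : ℝ) (b : ℕ) (z : X.Sta) : ℝ :=
  Xs (X.tm j₀) B { z with R := Ro ((X.c.D.par X.Y).rho b) }

/-- **payments at the steps**, relation of the column at the crossing states -/
structure PayR0 (stp : X.STP) (j₀ : X.c.Lam) (B K K₂ : ℝ) (gg : ℕ → ℝ)
    (Ψ : XSt X.c.Lam (Lb (WL X.c.Lam) X.Y) → ℝ) (x : XSt X.c.Lam (Lb (WL X.c.Lam) X.Y)) : Prop where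
  oth : Oth stp x.s → stS stp Ψ x ≤ Ψ x
  oneL : ∀ r t₁ t₀, OneL stp x.s r t₁ t₀ →
    XsR X j₀ B x.s.p { x.s with t := stp.x x.s t₁ t₀ } + stS stp Ψ x ≤
      K * (X.tn j₀ (stp.x x.s t₁ t₀).g + pm (fun d => X.tn j₀ d.g) (stp.c x.s t₁ t₀) x.s.t') +
      K₂ * (X.tn j₀ (stp.x x.s t₁ t₀).g * Real.sqrt (X.tn j₀ x.s.t'.g / X.tn j₀ x.s.t.g)) +
      gF gg (fun d => X.tn j₀ d.g) x.s.t + Ψ x
  oneR : ∀ r t₁ t₀, OneR stp x.s r t₁ t₀ →
    XsR X j₀ B x.s.p { x.s with t' := stp.x x.s t₁ t₀ } + stS stp Ψ x ≤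
      K * (X.tn j₀ (stp.x x.s t₁ t₀).g + pm (fun d => X.tn j₀ d.g) x.s.t (stp.c x.s t₁ t₀)) +
      K₂ * (X.tn j₀ (stp.x x.s t₁ t₀).g * Real.sqrt (X.tn j₀ x.s.t.g / X.tn j₀ x.s.t'.g)) +
      gF gg (fun d => X.tn j₀ d.g) x.s.t' + Ψ x
  jnt : ∀ r t₁ t₀ r' t₁' t₀', Jnt stp x.s r t₁ t₀ r' t₁' t₀' →
    XsR X j₀ B x.s.p { x.s with t := t₁, t' := t₀' } + XsR X j₀ B x.s.p { x.s with t := t₀, t' := t₁' } +
      stS stp Ψ x ≤
      K * (pm (fun d => X.tn j₀ d.g) t₁ t₁' + pm (fun d => X.tn j₀ d.g) t₀ t₀') +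
      gF gg (fun d => X.tn j₀ d.g) x.s.t + gF gg (fun d => X.tn j₀ d.g) x.s.t' + Ψ x

/-- **payments at the steps without the generic parts**, relation of the column at the crossing states -/
structure PayR (stp : X.STP) (j₀ : X.c.Lam) (B K K₂ : ℝ) (gg : ℕ → ℝ)
    (Acc : XSt X.c.Lam (Lb (WL X.c.Lam) X.Y) → ℝ) (x : XSt X.c.Lam (Lb (WL X.c.Lam) X.Y)) :
    Prop where
  oth : Oth stp x.s → stS stp Acc x ≤ Acc x
  oneL : ∀ r t₁ t₀, OneL stp x.s r t₁ t₀ →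
    XsR X j₀ B x.s.p { x.s with t := stp.x x.s t₁ t₀ } + stS stp Acc x ≤
      Vz { x.s with t := stp.x x.s t₁ t₀ } +
      K * (X.tn j₀ (stp.x x.s t₁ t₀).g + pm (fun d => X.tn j₀ d.g) (stp.c x.s t₁ t₀) x.s.t') +
      K₂ * (X.tn j₀ (stp.x x.s t₁ t₀).g * Real.sqrt (X.tn j₀ x.s.t'.g / X.tn j₀ x.s.t.g)) +
      gF gg (fun d => X.tn j₀ d.g) x.s.t + Acc x
  oneR : ∀ r t₁ t₀, OneR stp x.s r t₁ t₀ →
    XsR X j₀ B x.s.p { x.s with t' := stp.x x.s t₁ t₀ } + stS stp Acc x ≤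
      Vz { x.s with t' := stp.x x.s t₁ t₀ } +
      K * (X.tn j₀ (stp.x x.s t₁ t₀).g + pm (fun d => X.tn j₀ d.g) x.s.t (stp.c x.s t₁ t₀)) +
      K₂ * (X.tn j₀ (stp.x x.s t₁ t₀).g * Real.sqrt (X.tn j₀ x.s.t.g / X.tn j₀ x.s.t'.g)) +
      gF gg (fun d => X.tn j₀ d.g) x.s.t' + Acc x
  jnt : ∀ r t₁ t₀ r' t₁' t₀', Jnt stp x.s r t₁ t₀ r' t₁' t₀' →
    XsR X j₀ B x.s.p { x.s with t := t₁, t' := t₀' } + XsR X j₀ B x.s.p { x.s with t := t₀, t' := t₁' } +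
      stS stp Acc x ≤
      (Vz { x.s with t := t₁, t' := t₀' } + Vz { x.s with t := t₀, t' := t₁' }) +
      K * (pm (fun d => X.tn j₀ d.g) t₁ t₁' + pm (fun d => X.tn j₀ d.g) t₀ t₀') +
      gF gg (fun d => X.tn j₀ d.g) x.s.t + gF gg (fun d => X.tn j₀ d.g) x.s.t' + Acc x

/-- **THE PART `eX` OF A CONTEXT from the payments at the steps**, relation of the column -/
theorem ctx_eX_of' (hG : PG X.par (w X.ψ)) (hp0 : 1 ≤ p0) {stp : X.STP}
    (hst : ∀ s : X.Sta, ¬ stp s → ¬ stpN s) (hns : NoSplit stp)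
    (hJ : Jn (X.c.D.par X.Y) X.c.sp (QE X j₀ Q') stp J)
    (hQ : All Q' ⟨top X.S, 1, 1, 1⟩ X.c.t)
    (hJ0 : ∀ u τ, All (QE X j₀ Q') u τ → J (XSt.st u.n (X.self u τ Finset.univ)) u u τ τ)
    {B K K₂ Cg CΨ : ℝ} (hK : 0 ≤ K) (hK₂ : 0 ≤ K₂) {gg : ℕ → ℝ} (hgg : ∀ b, 0 ≤ gg b)
    (hCg : ∀ n, SG gg n ≤ Cg)
    {Ψ : XSt X.c.Lam (Lb (WL X.c.Lam) X.Y) → ℝ}
    (hΨ : ∀ u τ, All (QE X j₀ Q') u τ → ¬ PulG (X.g u τ) →
      Ψ (XSt.st u.n (X.self u τ Finset.univ)) ≤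
        CΨ * (X.mu j₀ u τ Finset.univ + X.mu j₀ u τ Finset.univ * X.mu j₀ u τ Finset.univ))
    (H : ∀ u₀ x v v' σ σ', WIX X j₀ Q' J u₀ x v v' σ σ' → PayR0 stp j₀ B K K₂ gg Ψ x)
    (Hb : NS → IT → Prop) :
    PartWF X j₀ Hb stp (eXR stp (X.c.D.par X.Y).rho (X.tm j₀) B) (2 * K + 2 * K₂ + 2 * Cg + CΨ) := by
  refine All.mono (fun u τ hh hpu _ => ?_) ((All_All _ _ (ctx_QE X j₀ hQ)).and (Skel189.ctx_tM_mono X j₀))
  obtain ⟨hq, hmono⟩ := hh
  set x₀ : XSt X.c.Lam (Lb (WL X.c.Lam) X.Y) := XSt.st u.n (X.self u τ Finset.univ) with hx₀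
  have hstart : WIX X j₀ Q' J u x₀ u u τ τ := wix_start hq (hJ0 u τ hq)
  have key := cross_sumF (π := fun x : XSt X.c.Lam (Lb (WL X.c.Lam) X.Y) => x.s) (stp := stp) hns
    (Iv := fun x => ∃ v v' σ σ', WIX X j₀ Q' J u x v v' σ σ')
    (wr := (X.c.D.par X.Y).rho) (Ad := AdI (X.c.D.par X.Y).it) (μ := X.tm j₀) (ν := X.tn j₀)
    (fun x hx => by
      obtain ⟨v, v', σ, σ', hx⟩ := hx
      exact ⟨_, wix_inv hx⟩)
    (fun x hx r t₁ t₀ ho => by
      obtain ⟨v, v', σ, σ', hx⟩ := hx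
      exact hx.j.1.hL ho)
    (fun x hx r t₁ t₀ ho => by
      obtain ⟨v, v', σ, σ', hx⟩ := hx
      exact hx.j.1.hR ho)
    (fun s z => Xs (X.tm j₀) B { z with R := Ro ((X.c.D.par X.Y).rho s.p) }) hK hK₂ (L := FL gg fun d => X.tn j₀ d.g) (g := gF gg fun d => X.tn j₀ d.g)
    (fun x hx => by
      obtain ⟨v, v', σ, σ', hx⟩ := hx
      obtain ⟨m1, m2⟩ := wix_mass hx
      exact ⟨FL_gap hgg m1, FL_gap hgg m2⟩) (Ψ := Ψ)
    (fun x hx => by
      obtain ⟨v, v', σ, σ', hx⟩ := hx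
      have hP := H u x v v' σ σ' hx
      refine ⟨(steps stp (IMI194.dvM GInst194.mI) x).map fun e => (e.a * e.a', e.y), ?_, ?_, ?_⟩
      · rw [← steps_proj stp (IMI194.dvM GInst194.mI) x, List.map_map]
        rfl
      · intro e he
        obtain ⟨e', he', rfl⟩ := List.mem_map.1 he
        exact (wix_next hG hp0 hst hns hJ hx e' he').1
      · have es : (((steps stp (IMI194.dvM GInst194.mI) x).map fun e => (e.a * e.a', e.y)).map
            fun e => e.1 * Ψ e.2).sum = stS stp Ψ x := by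
          rw [List.map_map]; rfl
        rw [es]
        exact ⟨hP.oth, hP.oneL, hP.oneR, hP.jnt⟩) x₀ ⟨u, u, τ, τ, hstart⟩
  have hnn : 0 ≤ X.tn j₀ (X.g u τ) := (hmono Finset.univ Finset.univ (Finset.Subset.refl _)).1
  have hg : (X.self u τ Finset.univ).t.g = X.g u τ := (X.c.D.par X.Y).toDT_g X.c.sp τ u.B u.A
  have hg' : (X.self u τ Finset.univ).t'.g = X.g u τ := hg
  have hLb : FL gg (fun d => X.tn j₀ d.g) (X.self u τ Finset.univ).t ≤ Cg * X.tn j₀ (X.g u τ) := by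
    obtain ⟨m1, -⟩ := wix_mass hstart
    have h1 := (FL_le hgg (m := fun d => X.tn j₀ d.g) (X.self u τ Finset.univ).t u.n
      ((X.c.D.par X.Y).toDT_Col X.c.sp τ u.n u.B u.A hq.self.ok) m1
      (FarD_toDT _ X.c.sp τ u.n u.B u.A hq.self.ok hq.self.far)).1
    refine h1.trans ?_
    show SG gg u.n * X.tn j₀ (X.self u τ Finset.univ).t.g ≤ _
    rw [hg]
    exact mul_le_mul_of_nonneg_right (hCg _) hnn
  have hLb' : FL gg (fun d => X.tn j₀ d.g) (X.self u τ Finset.univ).t' ≤ Cg * X.tn j₀ (X.g u τ) :=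
    hLb
  have hΨ' := hΨ u τ hq hpu
  have hs : Real.sqrt (X.tn j₀ (X.g u τ) * X.tn j₀ (X.g u τ)) = X.tn j₀ (X.g u τ) :=
    Real.sqrt_mul_self hnn
  show WS stp (eXR stp (X.c.D.par X.Y).rho (X.tm j₀) B) x₀.s ≤ _
  refine key.trans ?_
  show K * (X.tn j₀ (X.self u τ Finset.univ).t.g + X.tn j₀ (X.self u τ Finset.univ).t'.g) +
    2 * K₂ * Real.sqrt (X.tn j₀ (X.self u τ Finset.univ).t.g * X.tn j₀ (X.self u τ Finset.univ).t'.g)
    + (FL gg (fun d => X.tn j₀ d.g) (X.self u τ Finset.univ).t +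
      FL gg (fun d => X.tn j₀ d.g) (X.self u τ Finset.univ).t') + Ψ x₀ ≤ _
  rw [hg, hg', hs]
  have e : X.mu j₀ u τ Finset.univ = X.tn j₀ (X.g u τ) := rfl
  rw [e] at hΨ' ⊢
  have h2 : 0 ≤ (2 * K + 2 * K₂ + 2 * Cg) * (X.tn j₀ (X.g u τ) * X.tn j₀ (X.g u τ)) := by
    have hCg0 : 0 ≤ Cg := (SG_nn hgg 0).trans (hCg 0)
    positivity
  nlinarith [hLb, hLb', hΨ', h2]

/-- **the generic parts are paid by `VX`** -/
theorem PayR.pay {stp : X.STP} (hst : ∀ s : X.Sta, ¬ stp s → ¬ stpN s) (hns : NoSplit stp)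
    {B K K₂ : ℝ} {gg : ℕ → ℝ} {Acc : XSt X.c.Lam (Lb (WL X.c.Lam) X.Y) → ℝ} {u₀ : NS}
    {x : XSt X.c.Lam (Lb (WL X.c.Lam) X.Y)} {v v' : NS} {σ σ' : IT}
    (hx : WIX X j₀ Q' J u₀ x v v' σ σ') (h : PayR stp j₀ B K K₂ gg Acc x) :
    PayR0 stp j₀ B K K₂ gg (fun x => VX x + Acc x) x := by
  have key := VX_cross hst hx.oi hx.hi.mL hx.hi.mR (wix_inv hx) (IMI194.dvM GInst194.mI)
  have e1 : stS stp (fun x => VX x + Acc x) x = stS stp (fun x => VX x) x + stS stp Acc x :=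
    stS_add stp _ _ x
  have key' : stS stp (fun x => VX x) x +
      ((crs stp x.s).map fun q => V stp2 aX meI (toZ q) q.A q.A').sum ≤ VX x := key
  refine ⟨fun ho => ?_, fun r t₁ t₀ ho => ?_, fun r t₁ t₀ ho => ?_,
    fun r t₁ t₀ r' t₁' t₀' ho => ?_⟩
  · rw [crs_oth hns ho] at key'
    have h3 := h.oth ho
    simp only [List.map_nil, List.sum_nil, add_zero] at key'
    rw [e1]
    linarith
  · rw [ho.cr] at key'
    have h3 := h.oneL r t₁ t₀ ho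
    simp only [List.map_cons, List.map_nil, List.sum_cons, List.sum_nil, add_zero] at key'
    unfold Vz at h3
    simp only at h3
    rw [e1]
    linarith
  · rw [ho.cr] at key'
    have h3 := h.oneR r t₁ t₀ ho
    simp only [List.map_cons, List.map_nil, List.sum_cons, List.sum_nil, add_zero] at key'
    unfold Vz at h3
    simp only at h3
    rw [e1]
    linarith
  · rw [ho.cr] at key'
    have h3 := h.jnt r t₁ t₀ r' t₁' t₀' ho
    simp only [List.map_cons, List.map_nil, List.sum_cons, List.sum_nil, add_zero] at key'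
    unfold Vz at h3
    simp only at h3
    rw [e1]
    linarith

/-- **THE PART `eXR` OF A CONTEXT**, generic parts paid by `VX` -/
theorem ctx_eX_R (hG : PG X.par (w X.ψ)) (hp0 : 1 ≤ p0) {stp : X.STP}
    (hst : ∀ s : X.Sta, ¬ stp s → ¬ stpN s) (hns : NoSplit stp)
    (hJ : Jn (X.c.D.par X.Y) X.c.sp (QE X j₀ Q') stp J)
    (hQ : All Q' ⟨top X.S, 1, 1, 1⟩ X.c.t)
    (hQV : ∀ u τ, Q' u τ → 0 < u.n →
      V stp2 aX meI ⟨1, 1, (X.c.D.par X.Y).toDT X.c.sp u.B u.A τ,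
          (X.c.D.par X.Y).toDT X.c.sp u.B u.A τ⟩ Finset.univ Finset.univ ≤
        48 * (X.tn j₀ (X.g u τ) * X.tn j₀ (X.g u τ)))
    (hJ0 : ∀ u τ, All (QE X j₀ Q') u τ → J (XSt.st u.n (X.self u τ Finset.univ)) u u τ τ)
    {B K K₂ Cg CA : ℝ} (hK : 0 ≤ K) (hK₂ : 0 ≤ K₂) {gg : ℕ → ℝ} (hgg : ∀ b, 0 ≤ gg b)
    (hCg : ∀ n, SG gg n ≤ Cg)
    {Acc : XSt X.c.Lam (Lb (WL X.c.Lam) X.Y) → ℝ}
    (hAcc : ∀ u τ, All (QE X j₀ Q') u τ → ¬ PulG (X.g u τ) →
      Acc (XSt.st u.n (X.self u τ Finset.univ)) ≤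
        CA * (X.mu j₀ u τ Finset.univ + X.mu j₀ u τ Finset.univ * X.mu j₀ u τ Finset.univ))
    (H : ∀ u₀ x v v' σ σ', WIX X j₀ Q' J u₀ x v v' σ σ' → PayR stp j₀ B K K₂ gg Acc x)
    (Hb : NS → IT → Prop) :
    PartWF X j₀ Hb stp (eXR stp (X.c.D.par X.Y).rho (X.tm j₀) B) (2 * K + 2 * K₂ + 2 * Cg + (48 + CA)) := by
  refine ctx_eX_of' hG hp0 hst hns hJ hQ hJ0 hK hK₂ hgg hCg (Ψ := fun x => VX x + Acc x)
    (fun u τ hq hpu => ?_) (fun u₀ x v v' σ σ' hx => (H u₀ x v v' σ σ' hx).pay hst hns hx) Hb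
  have h1 := hAcc u τ hq hpu
  have h2 : VX (XSt.st u.n (X.self u τ Finset.univ)) ≤
      48 * (X.tn j₀ (X.g u τ) * X.tn j₀ (X.g u τ)) := hQV u τ hq.self.ext hq.self.n0
  have e : X.mu j₀ u τ Finset.univ = X.tn j₀ (X.g u τ) := rfl
  have hok : (X.g u τ).Ok := by
    have h3 := (wix_inv (wix_start hq (hJ0 u τ hq))).L.ok
    have hg : (X.self u τ Finset.univ).t.g = X.g u τ := (X.c.D.par X.Y).toDT_g X.c.sp τ u.B u.A
    rw [← hg]
    exact h3
  have hnn : 0 ≤ X.tn j₀ (X.g u τ) := Skel189.tM_nonneg X j₀ hok Finset.univ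
  rw [e] at h1 ⊢
  show VX (XSt.st u.n (X.self u τ Finset.univ)) + Acc (XSt.st u.n (X.self u τ Finset.univ)) ≤ _
  nlinarith [h1, h2, hnn]

end ctx

end Crest.Agent.R4P.PayR26
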