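import Crest.Agent.R4P.PayK_26
import Crest.Agent.R4P.PayR_26
import Crest.Agent.R4P.XStop_25
import Crest.Agent.R4P.CopM_34

/-!
R4 (S0004) with powers, module D (crossing pairs), helper26: **the payments at the add steps** from one bound
per crossing state.

* `CBX` : the bound of the crossing states by classes.
* `PX` : parameters and numbers; `payR_of` : `PayR` at every state of the walk.
-/

set_option autoImplicit false
set_option linter.unusedSectionVars false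
set_option linter.unusedVariables false

namespace Crest.Agent.R4P.PayA26

open Crest.Agent.R4.Tour104 Crest.Agent.R4.Tour758 Crest.Agent.R4.Avg758 Crest.Agent.R4.Clos758
open Crest.Agent.R4.ClosL758 Crest.Agent.R4.ClosG758 Crest.Agent.R4.ClosR758
open Crest.Agent.R4.Fam464 Crest.Agent.R4P.Cnt588 Crest.Agent.R4P.Walk560 Crest.Agent.R4.Piece464
open Crest.Agent.R4P.Item758 Crest.Agent.R4P.AvgItem710
open Crest.Agent.R4P.Data758 Crest.Agent.R4P.WalkIT579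
open Crest.Agent.R4P.Bld532 (NS All NodeOk Bk Ws_nonneg Ws_mono)
open Crest.Agent.R4P.Res927 Crest.Agent.R4P.GSt927 Crest.Agent.R4P.OSWS245
open Crest.Agent.R4P.Skel189 (Ctx top Part PartW)
open Crest.Agent.R4P.Frame758 (tM tN tG tD wt)
open Crest.Agent.R4.Item758 (AdI AdI_univ)
open Crest.Agent.R4P.VWalk36 (crs V toZ)
open Crest.Agent.R4P.Strip29 (Blind NoSplit)
open Crest.Agent.R4.Soft104
open Crest.Agent.R4P.CtxX26 Crest.Agent.R4P.DeadX26 Crest.Agent.R4P.CrossSum29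
open Crest.Agent.R4P.StratX36 Crest.Agent.R4P.SkelF29 Crest.Agent.R4P.Dd26
open Crest.Agent.R4P.AsmX26 Crest.Agent.R4P.CrsFacts26 Crest.Agent.R4P.HullCtx26
open Crest.Agent.R4P.PayV29 Crest.Agent.R4P.PayR26 Crest.Agent.R4P.PayK26
open Crest.Agent.R4P.VNum34 Crest.Agent.R4P.VItem34 Crest.Agent.R4P.VCtx29
open Crest.Agent.R4P.StratN36 (ex CutN FarN DomE)
open Crest.Agent.R4P.KindPay36 (CA)
open Crest.Agent.R4P

/-! ### numbers -/

/-- an accident term is paid by the hull -/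
lemma acc_pay {b : ℕ} (hb : 3 ≤ b) {CA' C1 A d t y : ℝ} (hA : 0 ≤ A)
    (hd : Real.log b ^ (CA' + C1) * A * (b:ℝ)^(-1:ℝ) ≤ d) (ht : Real.log b ^ (-C1) ≤ t)
    (hy : 0 ≤ y) : Real.log b ^ CA' * A * (b:ℝ)^(-1:ℝ) * y ≤ d * (t * y) := by
  have hl : 0 < Real.log b := by
    have := Bld532.one_le_log_nat hb
    linarith
  have hb0 : (0:ℝ) < b := by positivity
  have h1 : Real.log b ^ CA' = Real.log b ^ (CA' + C1) * Real.log b ^ (-C1) := by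
    rw [← Real.rpow_add hl]; congr 1; ring
  have h2 : 0 ≤ Real.log b ^ (CA' + C1) * A * (b:ℝ)^(-1:ℝ) := by positivity
  have h3 : 0 ≤ t := (Real.rpow_nonneg hl.le _).trans ht
  calc Real.log b ^ CA' * A * (b:ℝ)^(-1:ℝ) * y =
      (Real.log b ^ (CA' + C1) * A * (b:ℝ)^(-1:ℝ)) * (Real.log b ^ (-C1) * y) := by rw [h1]; ring
    _ ≤ d * (t * y) := mul_le_mul hd (mul_le_mul_of_nonneg_right ht hy)
        (mul_nonneg (Real.rpow_nonneg hl.le _) hy) (h2.trans hd)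

/-- a sum of two numbers -/
lemma add_rpow_le' {x y e : ℝ} (hx : 0 ≤ x) (hy : 0 ≤ y) (h0 : 0 ≤ e) (he : e ≤ 3) :
    (x + y) ^ e ≤ 8 * (x ^ e + y ^ e) := by
  have h8 : (2:ℝ) ^ e ≤ 8 := by
    calc (2:ℝ) ^ e ≤ (2:ℝ) ^ (3:ℝ) := Real.rpow_le_rpow_of_exponent_le (by norm_num) he
      _ = 8 := by norm_num
  have key : ∀ m : ℝ, 0 ≤ m → x + y ≤ 2 * m → (x + y) ^ e ≤ 8 * m ^ e := by
    intro m hm h
    calc (x + y) ^ e ≤ (2 * m) ^ e := Real.rpow_le_rpow (add_nonneg hx hy) h h0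
      _ = 2 ^ e * m ^ e := Real.mul_rpow (by norm_num) hm
      _ ≤ 8 * m ^ e := mul_le_mul_of_nonneg_right h8 (Real.rpow_nonneg hm _)
  have h1 := Real.rpow_nonneg hx e
  have h2 := Real.rpow_nonneg hy e
  rcases le_total x y with h | h
  · have := key y hy (by linarith)
    linarith
  · have := key x hx (by linarith)
    linarith

/-- the accident term of a state is paid by half of the hull -/
lemma acc_pay2 {b : ℕ} (hb : 3 ≤ b) {CA' C1 A A' e d d' t y : ℝ} (hA : 0 ≤ A) (hA' : 0 ≤ A')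
    (he0 : 0 ≤ e) (he : e ≤ 3)
    (hd : 16 * (Real.log b ^ (CA' + C1) * A ^ e * (b:ℝ)^(-1:ℝ)) ≤ d)
    (hd' : 16 * (Real.log b ^ (CA' + C1) * A' ^ e * (b:ℝ)^(-1:ℝ)) ≤ d')
    (ht : Real.log b ^ (-C1) ≤ t)
    (hy : 0 ≤ y) : Real.log b ^ CA' * (A + A') ^ e * (b:ℝ)^(-1:ℝ) * y ≤
      (1 / 2) * ((d + d') * (t * y)) := by
  have h1 := acc_pay hb (A := 16 * A ^ e) (d := d) (by positivity) (by linarith) ht hy
  have h2 := acc_pay hb (A := 16 * A' ^ e) (d := d') (by positivity) (by linarith) ht hy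
  have hl : 0 < Real.log b := by
    have := Bld532.one_le_log_nat hb
    linarith
  have h3 := add_rpow_le' hA hA' he0 he
  have h4 : 0 ≤ Real.log b ^ CA' * (b:ℝ)^(-1:ℝ) * y := by positivity
  have h5 := mul_le_mul_of_nonneg_left h3 h4
  calc Real.log b ^ CA' * (A + A') ^ e * (b:ℝ)^(-1:ℝ) * y =
      Real.log b ^ CA' * (b:ℝ)^(-1:ℝ) * y * (A + A') ^ e := by ring
    _ ≤ _ := h5
    _ = (1 / 2) * (Real.log b ^ CA' * (16 * A ^ e) * (b:ℝ)^(-1:ℝ) * y +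
        Real.log b ^ CA' * (16 * A' ^ e) * (b:ℝ)^(-1:ℝ) * y) := by ring
    _ ≤ (1 / 2) * (d * (t * y) + d' * (t * y)) := by linarith
    _ = _ := by ring

section ctx
variable {N : Skel189.Num} {γ : ℝ} {p0 P₀ : ℕ} {X : Ctx N γ p0 P₀} {j₀ : X.c.Lam}
  {Q' : NS → IT → Prop} {JJ : XSt X.c.Lam (Lb (WL X.c.Lam) X.Y) → Prop}

/-- **the bound of the crossing states** -/
def CBX (X : Ctx N γ p0 P₀) (j₀ : X.c.Lam) (Q' : NS → IT → Prop) (B₁ C Ce K₁ s₁ s₂ : ℝ)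
    (al : ℕ → ℕ → ℝ) : Prop :=
  ∀ (b : ℕ) (z : X.Sta) (v v' : NS) (σ σ' : IT), CZ X j₀ Q' b z v v' σ σ' → b ≤ top X.S →
    CopM34.Cop z → z.R = Ro ((X.c.D.par X.Y).rho b) →
    (∑ l ∈ US z.M z.M' b, 1 / (l : ℝ) ≤ (b : ℝ) ^ (-(1 / 3) : ℝ)) →
    CBd b C Ce K₁ s₁ s₂ (fun _ => al b v.B + al b v'.B) (w X.ψ) (dd z.t ∧ ¬ dd z.t') (dd z.t' ∧ ¬ dd z.t) v.c v.B σ.items
      v'.c v'.B σ'.items (Xs (X.tm j₀) B₁ z - Vz z)

/-- larger constants of the product term -/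
lemma CBX.mono {B₁ B₂ C Ce K₁ s₁ s₂ : ℝ} {al : ℕ → ℕ → ℝ} (hW : ∀ q, 0 ≤ w X.ψ q) (hB : B₁ ≤ B₂)
    (h : CBX X j₀ Q' B₁ C Ce K₁ s₁ s₂ al) : CBX X j₀ Q' B₂ C Ce K₁ s₁ s₂ al := by
  intro b z v v' σ σ' hz hbt hc hR hs
  obtain ⟨n, φ, h1, h2, h3, h4, h5⟩ := h b z v v' σ σ' hz hbt hc hR hs
  refine ⟨n, φ, h1, h2, h3, h4, le_trans ?_ h5⟩
  have e : ∀ {u : NS} {τ : IT} {d : DT X.c.Lam (Lb (WL X.c.Lam) X.Y)}, CS X j₀ Q' b u τ d →
      0 ≤ X.tn j₀ d.g := fun hd => by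
    rw [hd.mass]
    exact mul_nonneg hd.q.self.nf.c0.le (Ws_nonneg hW _)
  have e1 : X.tm j₀ z.t.g z.A * X.tm j₀ z.t'.g z.A' = X.tn j₀ z.t.g * X.tn j₀ z.t'.g := by
    rw [hz.A, hz.A']; rfl
  have h6 := mul_le_mul_of_nonneg_right hB (mul_nonneg (e hz.L) (e hz.R))
  have h7 : Xs (X.tm j₀) B₂ z ≤ Xs (X.tm j₀) B₁ z := by
    unfold Xs
    rw [e1]
    exact max_le_max le_rfl (by linarith)
  linarith

/-- parameters and numbers -/
structure PX (X : Ctx N γ p0 P₀) (j₀ : X.c.Lam) (Q' : NS → IT → Prop) (B₁ C Ce K₁ s₁ s₂ a η : ℝ)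
    (al δ : ℕ → ℕ → ℝ) (e₀ : ℕ → ℝ) : Prop where
  G : PG X.par (w X.ψ)
  hp : 1000 ≤ p0
  kt : ∀ b : ℕ, p0 < b → KT C Ce N.C1 N.c2 N.B K₁ s₁ s₂ a η b
  al1 : ∀ b : ℕ, p0 < b → ∀ B B', al b B + al b B' ≤ (b:ℝ)^a
  al0 : ∀ b B, 0 ≤ al b B
  δ0 : ∀ b B, 0 ≤ δ b B
  δe : ∀ b B, δ b B ≤ e₀ b
  δal : ∀ b : ℕ, b.Prime → p0 < b → ∀ B, 16 * (Real.log b ^ (CA C N.c2 s₂ + N.C1) *
    (al b B) ^ (1 / (1 - s₂)) * (b:ℝ)^(-1:ℝ)) ≤ δ b B
  K0 : 0 ≤ K₁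
  s1 : 0 < s₁
  s2 : 0 < s₂
  s2' : s₂ ≤ 51 / 100
  η0 : 0 ≤ η
  η1 : 2 * η ≤ 1
  cb : CBX X j₀ Q' B₁ C Ce K₁ s₁ s₂ al
  lv : ∀ u τ, Q' u τ → u.n ≤ top X.S

/-- the column of a state of a context is below the top -/
lemma xp_pt {x : XSt X.c.Lam (Lb (WL X.c.Lam) X.Y)} {v v' : NS} {σ σ' : IT}
    (h : XP X j₀ Q' x v v' σ σ') (hlv : ∀ u τ, Q' u τ → u.n ≤ top X.S) (hp : 1000 ≤ p0) :
    x.s.p ≤ top X.S := by
  have h2 : (2:ℕ) < x.s.p := by have := h.b0; omega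
  have k1 := h.L.ll 2 Nat.prime_two h2
  have k2 := h.R.ll 2 Nat.prime_two h2
  have c1 : x.s.t.top < v.n := by
    rw [h.L.I.eq]; exact ((X.c.D.par X.Y).toDT_Col X.c.sp σ v.n v.B v.A h.L.ok).top_lt (by omega)
  have c2 : x.s.t'.top < v'.n := by
    rw [h.R.I.eq]; exact ((X.c.D.par X.Y).toDT_Col X.c.sp σ' v'.n v'.B v'.A h.R.ok).top_lt (by omega)
  have l1 := hlv _ _ h.L.q.self.ext
  have l2 := hlv _ _ h.R.q.self.ext
  show max x.s.t.top x.s.t'.top ≤ _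
  exact max_le (by omega) (by omega)

/-- the gap at a far node -/
noncomputable def ggX (b : ℕ) : ℝ := 7 * (b:ℝ)^(-(3/2):ℝ)

lemma ggX_nonneg (b : ℕ) : 0 ≤ ggX b := by unfold ggX; positivity

lemma CZ.setR {b : ℕ} {z : X.Sta} {v v' : NS} {σ σ' : IT} (h : CZ X j₀ Q' b z v v' σ σ')
    (R : Finset (X.c.Lam × X.c.Lam)) : CZ X j₀ Q' b { z with R := R } v v' σ σ' :=
  ⟨h.bp, h.b0, h.L, h.R, h.circ, h.mL, h.mR, h.A, h.A', h.sM, h.sM'⟩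

/-- the generic part is not negative -/
lemma CZ.vz {b : ℕ} {z : X.Sta} {v v' : NS} {σ σ' : IT} (h : CZ X j₀ Q' b z v v' σ σ') :
    0 ≤ Vz z := by
  have hA : Item758.IL (X.c.D.par X.Y).it z.A := by rw [h.A]; exact Item758.IL_univ _
  have hA' : Item758.IL (X.c.D.par X.Y).it z.A' := by rw [h.A']; exact Item758.IL_univ _
  have hL : z.t.top ≤ b := XStop25.CS_top h.L
  have hR : z.t'.top ≤ b := XStop25.CS_top h.R
  have hI := inv_of_StI (X.ok.spok.spOk X.Y) (fun b => X.c.IL_sp b)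
    (X.c.D.dec_nonneg (fun j => Skel189.wt_nonneg X j) (fun S => Skel189.cx_nonneg X S) _)
    (X.c.D.dec_union (wt X.c.D) X.cx X.Y) j₀ h.st hA hA' (n := b) (max_le hL hR) h.mL h.mR
  exact VWalk36.V_nonneg MX_meI aX_nonneg _ _ (VWalk36.ZOk_of_inv hI)

/-- the excess with one more product -/
lemma XsR_le {B₁ : ℝ} {b : ℕ} {z : X.Sta} {G R : ℝ} (hA : z.A = Finset.univ)
    (hA' : z.A' = Finset.univ)
    (h0 : G ≤ R)
    (h : XsR X j₀ B₁ b z + G ≤ X.tn j₀ z.t.g * X.tn j₀ z.t'.g + R) :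
    XsR X j₀ (B₁ + 1) b z + G ≤ R := by
  have e : X.tm j₀ z.t.g z.A * X.tm j₀ z.t'.g z.A' = X.tn j₀ z.t.g * X.tn j₀ z.t'.g := by
    rw [hA, hA']; rfl
  unfold XsR Xs at h ⊢
  simp only [e] at h ⊢
  rcases max_cases (0:ℝ) (Qs { z with R := Ro ((X.c.D.par X.Y).rho b) } -
    (B₁ + 1) * (X.tn j₀ z.t.g * X.tn j₀ z.t'.g)) with ⟨h1, h2⟩ | ⟨h1, h2⟩
  · rw [h1]; linarith
  · rw [h1]
    have := le_max_right (0:ℝ) (Qs { z with R := Ro ((X.c.D.par X.Y).rho b) } -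
      B₁ * (X.tn j₀ z.t.g * X.tn j₀ z.t'.g))
    linarith

/-- the excess with one more product, no further term -/
lemma XsR_le' {B₁ : ℝ} {b : ℕ} {z : X.Sta} {R : ℝ} (hA : z.A = Finset.univ)
    (hA' : z.A' = Finset.univ) (h0 : 0 ≤ R)
    (h : XsR X j₀ B₁ b z ≤ X.tn j₀ z.t.g * X.tn j₀ z.t'.g + R) :
    XsR X j₀ (B₁ + 1) b z ≤ R := by
  have := XsR_le (B₁ := B₁) (b := b) (G := 0) hA hA' h0 (by linarith)
  linarith

/-- a far split comes from a far node -/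
lemma far_gF (hG : PG X.par (w X.ψ)) {b : ℕ} {u : NS} {τ σ₁ σ₀ : IT} {K : ℕ} {S₁ S₀ : Finset ℕ}
    (hN : FarN X.par (w X.ψ) b K τ.items S₁ S₀) (hok : NodeOk X.par (w X.ψ) u τ)
    (hit : (τ = .add b σ₁ σ₀ ∨ τ = .add b σ₀ σ₁) ∨ (τ = .far b σ₁ σ₀ ∧ ∃ F, σ₁ = .leaf F) ∨
      (τ = .far b σ₀ σ₁ ∧ ∃ F, σ₀ = .leaf F)) {d : DT X.c.Lam (Lb (WL X.c.Lam) X.Y)}
    (hd : d = (X.c.D.par X.Y).toDT X.c.sp u.B u.A τ) (m : DT X.c.Lam (Lb (WL X.c.Lam) X.Y) → ℝ) :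
    gF ggX m d = ggX b * m d := by
  have key : ∀ t₁ t₀ : IT, τ = .far b t₁ t₀ → (∃ F, t₁ = .leaf F) → gF ggX m d = ggX b * m d := by
    rintro t₁ t₀ e ⟨F, rfl⟩
    rw [hd, e]
    simp [Item758.Par.toDT, gF, DT.isLeaf]
  rcases hit with (e | e) | ⟨e, hF⟩ | ⟨e, hF⟩
  · exfalso
    rw [e] at hok hN
    obtain ⟨J, hJ⟩ := StratN36.cutN_of hG.w0 hok
    exact cut_not_far hG.w0 hJ hN
  · exfalso
    rw [e] at hok hN
    obtain ⟨J, hJ⟩ := StratN36.cutN_of hG.w0 hok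
    exact cut_not_far hG.w0 hJ hN
  · exact key _ _ e hF
  · exact key _ _ e hF

/-- `pm` -/
lemma pm_left {m : DT X.c.Lam (Lb (WL X.c.Lam) X.Y) → ℝ} {a b : DT X.c.Lam (Lb (WL X.c.Lam) X.Y)}
    (h : dd a) : pm m a b = m a + m b := by
  unfold pm; rw [if_pos (Or.inl h)]

lemma pm_right {m : DT X.c.Lam (Lb (WL X.c.Lam) X.Y) → ℝ} {a b : DT X.c.Lam (Lb (WL X.c.Lam) X.Y)}
    (h : dd b) : pm m a b = m a + m b := by
  unfold pm; rw [if_pos (Or.inr h)]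

/-- below a missing child all the items have the same exponent -/
lemma one_cls {S : Finset ℕ} {u : NS} (h : Bk S u) {b : ℕ} (hb : b.Prime) (hd : b ∣ u.B) :
    ∃ κ, ∀ q ∈ S, ex b q + ex b u.B = κ := by
  refine ⟨ex b u.A + ex b u.B, fun q hq => ?_⟩
  have h1 : ¬ b ∣ q / u.A := fun h2 => by
    have h3 := Nat.dvd_gcd h2 hd
    rw [h.cop q hq] at h3
    exact hb.one_lt.ne' (Nat.dvd_one.1 h3)
  have h2 : q = u.A * (q / u.A) := (Nat.mul_div_cancel' (h.dvd q hq)).symm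
  have hq0 := h.pos q hq
  have h3 : q / u.A ≠ 0 := fun h3 => by rw [h3, mul_zero] at h2; omega
  have h4 : ex b q = ex b u.A := by
    unfold ex
    conv_lhs => rw [h2]
    rw [Nat.factorization_mul h.Apos.ne' h3, Finsupp.add_apply,
      Nat.factorization_eq_zero_of_not_dvd h1, add_zero]
  rw [h4]

/-- exponent zero means not divisible -/
lemma nb_of_ex {b B : ℕ} (hb : b.Prime) (hB : 0 < B) (h : ex b B = 0) : ¬ b ∣ B := fun hd => by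
  have h1 := hb.factorization_pos_of_dvd hB.ne' hd
  unfold ex at h
  omega

section pay
variable {B₁ C Ce K₁ s₁ s₂ a η : ℝ} {al δ : ℕ → ℕ → ℝ} {e₀ : ℕ → ℝ}
  (hP : PX X j₀ Q' B₁ C Ce K₁ s₁ s₂ a η al δ e₀) {st : X.Sta → Prop}
  (hst : ∀ s : X.Sta, ¬ st s → ¬ stpN s)
  (hJJ : ∀ x : XSt X.c.Lam (Lb (WL X.c.Lam) X.Y), XI x → JJ x →
      ∀ e ∈ steps (SX X j₀ st) (IMI194.dvM GInst194.mI) x, JJ e.y)
  (hJC : ∀ x : XSt X.c.Lam (Lb (WL X.c.Lam) X.Y), JJ x → CopM34.Cop x.s)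
  {u₀ : NS} {x : XSt X.c.Lam (Lb (WL X.c.Lam) X.Y)} {v v' : NS} {σ σ' : IT}
include hP hst hJJ hJC

omit hst hJJ hJC in
/-- the exponent of the accidents -/
lemma PX.e0 : 0 ≤ 1 / (1 - s₂) := by
  have := hP.s2'
  exact div_nonneg zero_le_one (by linarith)

omit hst hJJ hJC in
lemma PX.e3 : 1 / (1 - s₂) ≤ 3 := by
  have := hP.s2'
  rw [div_le_iff₀ (by linarith)]
  linarith

/-- **left one-sided step**, all data -/
theorem dataL (h : WIX X j₀ Q' (JS1 X JJ) u₀ x v v' σ σ')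
    {r : X.c.Lam → Lb (WL X.c.Lam) X.Y} {t₁ t₀ : DT X.c.Lam (Lb (WL X.c.Lam) X.Y)}
    (ho : OneL (SX X j₀ st) x.s r t₁ t₀) :
    XsR X j₀ B₁ x.s.p { x.s with t := (SX X j₀ st).x x.s t₁ t₀ } +
        AsmX26.stS (SX X j₀ st) (AcX X j₀ Q' JJ δ e₀) x ≤
      X.tn j₀ ((SX X j₀ st).x x.s t₁ t₀).g * X.tn j₀ x.s.t'.g +
      (Vz { x.s with t := (SX X j₀ st).x x.s t₁ t₀ } +
      (120 + K₁) * (X.tn j₀ ((SX X j₀ st).x x.s t₁ t₀).g +
        pm (fun d => X.tn j₀ d.g) ((SX X j₀ st).c x.s t₁ t₀) x.s.t') +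
      2 * K₁ * (X.tn j₀ ((SX X j₀ st).x x.s t₁ t₀).g *
        Real.sqrt (X.tn j₀ x.s.t'.g / X.tn j₀ x.s.t.g)) +
      gF ggX (fun d => X.tn j₀ d.g) x.s.t) + AcY X δ e₀ x v v' σ σ' := by
  have hn : NoSplit (SX X j₀ st) := StX_nosplit
  obtain ⟨hx, σX, σC, hX, hC, hz, hO, hk⟩ := cz_oneL (st := st) hP.G hP.hp h ho
  have hb0 := hx.b0
  have hp3 : 3 ≤ p0 := by have := hP.hp; omega
  have hb3 : 3 ≤ x.s.p := by omega
  have hW := hP.G.w0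
  have hc : 0 < v.c := h.hi.qL.self.nf.c0
  have hc' : 0 < v'.c := h.hi.qR.self.nf.c0
  have hKT := hP.kt x.s.p hb0
  have hsg : X.par.sg x.s.p = Real.log x.s.p ^ N.B / x.s.p := rfl
  have hal : ∀ B : ℕ, (fun _ : ℕ => al x.s.p v.B + al x.s.p v'.B) B ≤ (x.s.p:ℝ)^a :=
    fun _ => hP.al1 x.s.p hb0 _ _
  have hcop : CopM34.Cop x.s := hJC x h.j.2.2
  have hs := (XStop25.US_mass h.oi hx.mL hx.mR (hst _ ho.prp.ns) hx.bp.pos)
  have hF := hP.cb x.s.p _ _ _ _ _ (CZ.setR hz (Ro ((X.c.D.par X.Y).rho x.s.p)))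
    (xp_pt hx hP.lv hP.hp) hcop rfl hs
  have hF' : CBd x.s.p C Ce K₁ s₁ s₂ (fun _ => al x.s.p v.B + al x.s.p v'.B) (w X.ψ)
      (dd ((SX X j₀ st).x x.s t₁ t₀) ∧ ¬ dd x.s.t') (dd x.s.t' ∧ ¬ dd ((SX X j₀ st).x x.s t₁ t₀))
      v.c v.B σX.items v'.c v'.B σ'.items
      (XsR X j₀ B₁ x.s.p { x.s with t := (SX X j₀ st).x x.s t₁ t₀ } -
        Vz { x.s with t := (SX X j₀ st).x x.s t₁ t₀ }) := hF
  have hoth := hull_oth hP.δ0 hP.δe hP.G hP.hp hst hn hJJ h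
  -- masses
  have mT := hx.L.mass
  have mY := hx.R.mass
  have mX := hX.mass
  have mC := hC.mass
  simp only at mX mC
  have hTnl : ¬ x.s.t.isLeaf := ho.prp.nl
  have hTnd : ¬ dd x.s.t := by rw [ho.et]; exact not_false
  have hYnd : ¬ dd x.s.t' := h.j.1.hL ho
  have loT := hx.L.lo hp3 hTnd
  have loY := hx.R.lo hp3 hYnd
  have hiT := hx.L.hi hp3 hTnl
  have hiY := hx.R.hi hp3 ho.prp.nl'
  rw [mT] at loT hiT
  rw [mY] at loY hiY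
  have hYB : x.s.p ∣ v'.B → ∃ κ, ∀ q ∈ σ'.items, StratN36.ex x.s.p q + StratN36.ex x.s.p v'.B = κ :=
    one_cls h.hi.qR.self.nd.bk hx.bp
  set b := x.s.p with hb
  set F := XsR X j₀ B₁ b { x.s with t := (SX X j₀ st).x x.s t₁ t₀ } -
        Vz { x.s with t := (SX X j₀ st).x x.s t₁ t₀ } with hFd
  rw [mX, mY, mT]
  set m : DT X.c.Lam (Lb (WL X.c.Lam) X.Y) → ℝ := fun d => X.tn j₀ d.g with hm
  have mX0 : 0 ≤ v.c * Ws (w X.ψ) σX.items := mul_nonneg hc.le (Ws_nonneg hW _)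
  have mY0 : 0 ≤ v'.c * Ws (w X.ψ) σ'.items := mul_nonneg hc'.le (Ws_nonneg hW _)
  have mC0 : 0 ≤ v.c * Ws (w X.ψ) σC.items := mul_nonneg hc.le (Ws_nonneg hW _)
  have mT0 : 0 ≤ v.c * Ws (w X.ψ) σ.items := mul_nonneg hc.le (Ws_nonneg hW _)
  have mt : m x.s.t = v.c * Ws (w X.ψ) σ.items := mT
  have my : m x.s.t' = v'.c * Ws (w X.ψ) σ'.items := mY
  have mc : m ((SX X j₀ st).c x.s t₁ t₀) = v.c * Ws (w X.ψ) σC.items := mC
  have pm0 : 0 ≤ pm m ((SX X j₀ st).c x.s t₁ t₀) x.s.t' := pm_nn (by rw [mc]; exact mC0)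
    (by rw [my]; exact mY0)
  have gF0 : 0 ≤ gF ggX m x.s.t := CrossSum29.gF_nn ggX_nonneg (by rw [mt]; exact mT0)
  have hK := hP.K0
  have hη := hP.η0
  have hη1 := hP.η1
  have sq0 : 0 ≤ v.c * Ws (w X.ψ) σX.items * Real.sqrt ((v'.c * Ws (w X.ψ) σ'.items) /
      (v.c * Ws (w X.ψ) σ.items)) := mul_nonneg mX0 (Real.sqrt_nonneg _)
  have xy0 := mul_nonneg mX0 mY0
  have hδ0 := hP.δ0
  have KX0 : 0 ≤ K₁ * (v.c * Ws (w X.ψ) σX.items) := mul_nonneg hK mX0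
  have KS0 : 0 ≤ K₁ * (v.c * Ws (w X.ψ) σX.items * Real.sqrt ((v'.c * Ws (w X.ψ) σ'.items) /
      (v.c * Ws (w X.ψ) σ.items))) := mul_nonneg hK sq0
  have KP0 : 0 ≤ K₁ * pm m ((SX X j₀ st).c x.s t₁ t₀) x.s.t' := mul_nonneg hK pm0
  have ηxy : 2 * η * (v.c * Ws (w X.ψ) σX.items * (v'.c * Ws (w X.ψ) σ'.items)) ≤
      v.c * Ws (w X.ψ) σX.items * (v'.c * Ws (w X.ψ) σ'.items) :=
    (mul_le_mul_of_nonneg_right hη1 xy0).trans (one_mul _).le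
  have ηy : 2 * η * (v'.c * Ws (w X.ψ) σ'.items) ≤ v'.c * Ws (w X.ψ) σ'.items :=
    (mul_le_mul_of_nonneg_right hη1 mY0).trans (one_mul _).le
  -- a bound by the masses and an accident term
  have fin : ∀ A : ℝ, F ≤ (59 + K₁) * (v.c * Ws (w X.ψ) σX.items) + A →
      A + AsmX26.stS (SX X j₀ st) (AcX X j₀ Q' JJ δ e₀) x ≤ AcY X δ e₀ x v v' σ σ' →
      F + AsmX26.stS (SX X j₀ st) (AcX X j₀ Q' JJ δ e₀) x ≤
        v.c * Ws (w X.ψ) σX.items * (v'.c * Ws (w X.ψ) σ'.items) +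
        ((120 + K₁) * (v.c * Ws (w X.ψ) σX.items + pm m ((SX X j₀ st).c x.s t₁ t₀) x.s.t') +
        2 * K₁ * (v.c * Ws (w X.ψ) σX.items * Real.sqrt ((v'.c * Ws (w X.ψ) σ'.items) /
        (v.c * Ws (w X.ψ) σ.items))) + gF ggX m x.s.t) + AcY X δ e₀ x v v' σ σ' := by
    intro A h1 h2
    linarith
  have loX : ¬ dd ((SX X j₀ st).x x.s t₁ t₀) →
      Real.log b ^ (-N.C1) ≤ v.c * Ws (w X.ψ) σX.items := fun hXd => by
    have := hX.lo hp3 hXd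
    rw [hX.mass] at this
    exact this
  suffices hmain : F + AsmX26.stS (SX X j₀ st) (AcX X j₀ Q' JJ δ e₀) x ≤
        v.c * Ws (w X.ψ) σX.items * (v'.c * Ws (w X.ψ) σ'.items) +
        ((120 + K₁) * (v.c * Ws (w X.ψ) σX.items + pm m ((SX X j₀ st).c x.s t₁ t₀) x.s.t') +
        2 * K₁ * (v.c * Ws (w X.ψ) σX.items * Real.sqrt ((v'.c * Ws (w X.ψ) σ'.items) /
        (v.c * Ws (w X.ψ) σ.items))) + gF ggX m x.s.t) + AcY X δ e₀ x v v' σ σ' by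
    rw [hFd] at hmain
    linarith
  rcases hk with ⟨J, hN, hY⟩ | ⟨J, hN, hY⟩ | ⟨K, hN, hY⟩ | ⟨K, K', hN, hne, hXd, hY⟩
  · -- low
    by_cases hXd : dd ((SX X j₀ st).x x.s t₁ t₀)
    swap
    · have k1 := KT.lowA hKT hW hc hc'.le hsg (hP.G.sg0 _) hal hN hO.b0 hY (loX hXd) loY hF'
      linarith
    have k1 := KT.low hKT hW hc hc'.le hsg hal hN hO.b0 loT hiY hP.s1 hP.s2
      (hP.G.sg8 _ hx.bp hb0) (nb_of_ex hx.bp hx.L.I.hb hO.b0) hYB hY ⟨hXd, hYnd⟩ hF'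
    rw [max_eq_right hK] at k1
    refine fin _ k1 ?_
    have k2 := hull_oneL hP.δ0 hP.δe hP.G hP.hp hst hn hJJ h ho hO (J := J) (i := J)
      (Or.inl ⟨hN, rfl⟩)
    have yJ0 : 0 ≤ v'.c * Ws (w X.ψ) (cl b v'.B J σ'.items) := mul_nonneg hc'.le (Ws_nonneg hW _)
    have k3 := acc_pay2 hb3 (hP.al0 b v.B) (hP.al0 b v'.B) hP.e0 hP.e3 (hP.δal b hx.bp hb0 v.B)
      (hP.δal b hx.bp hb0 v'.B) loT yJ0
    have k4 : 0 ≤ (δ b v.B + δ b v'.B) * (v.c * Ws (w X.ψ) σ.items *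
        (v'.c * Ws (w X.ψ) (cl b v'.B J σ'.items))) :=
      mul_nonneg (add_nonneg (hδ0 _ _) (hδ0 _ _)) (mul_nonneg mT0 yJ0)
    beta_reduce
    linarith
  · -- high
    by_cases hXd : dd ((SX X j₀ st).x x.s t₁ t₀)
    swap
    · have k1 := KT.highA hKT hW hc hc'.le hsg (hP.G.sg0 _) hal hN hO.b0 hY (loX hXd) loY hF'
      linarith
    have k1 := KT.high hKT hW hc hc'.le hsg hal hN hO.b0 loT hiY hP.s1 hP.s2
      (hP.G.sg8 _ hx.bp hb0) (nb_of_ex hx.bp hx.L.I.hb hO.b0) hYB hY ⟨hXd, hYnd⟩ hF'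
    rw [max_eq_right hK] at k1
    refine fin _ k1 ?_
    have hJ1 := hN.pos
    have k2 := hull_oneL hP.δ0 hP.δe hP.G hP.hp hst hn hJJ h ho hO (J := J) (i := J - 1)
      (Or.inr ⟨hN, by omega⟩)
    have yJ0 : 0 ≤ v'.c * Ws (w X.ψ) (cl b v'.B (J - 1) σ'.items) :=
      mul_nonneg hc'.le (Ws_nonneg hW _)
    have k3 := acc_pay2 hb3 (hP.al0 b v.B) (hP.al0 b v'.B) hP.e0 hP.e3 (hP.δal b hx.bp hb0 v.B)
      (hP.δal b hx.bp hb0 v'.B) loT yJ0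
    have k4 : 0 ≤ (δ b v.B + δ b v'.B) * (v.c * Ws (w X.ψ) σ.items *
        (v'.c * Ws (w X.ψ) (cl b v'.B (J - 1) σ'.items))) :=
      mul_nonneg (add_nonneg (hδ0 _ _) (hδ0 _ _)) (mul_nonneg mT0 yJ0)
    beta_reduce
    linarith
  · -- far
    have eg : gF ggX m x.s.t = 7 * (b:ℝ)^(-(3/2):ℝ) * (v.c * Ws (w X.ψ) σ.items) := by
      rw [← mt]
      exact far_gF hP.G hN h.hi.qL.self.nf.ok hO.it hx.L.I.eq m
    rcases hY with hd | hD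
    · have k1 := KT.farD hKT hP.s1 hP.s2 hW hc hc'.le hsg (hP.G.sg0 _) (hP.G.sg8 _ hx.bp hb0) hal hN hO.b0
        hiT loY hiY hF'
      have k2 := pm_left (m := m) (b := x.s.t') hd
      rw [mc, my] at k2
      rw [k2]
      have k5 : 0 ≤ K₁ * (v.c * Ws (w X.ψ) σC.items) := mul_nonneg hK mC0
      have k6 : 0 ≤ K₁ * (v'.c * Ws (w X.ψ) σ'.items) := mul_nonneg hK mY0
      linarith
    · have k1 := KT.far hKT hP.s1 hP.s2 hW hc hc'.le hsg (hP.G.sg0 _) (hP.G.sg8 _ hx.bp hb0) hal hN hO.b0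
        hD loT hiY hF'
      linarith
  · -- near
    have k1 := KT.near hKT hP.s1 hP.s2 hW hc hc'.le hsg (hP.G.sg0 _) (hP.G.sg8 _ hx.bp hb0) hal hN hO.b0
      hne hY (loX hXd) loY hF'
    linarith

/-- **right one-sided step**, all data -/
theorem dataR (h : WIX X j₀ Q' (JS1 X JJ) u₀ x v v' σ σ')
    {r : X.c.Lam → Lb (WL X.c.Lam) X.Y} {t₁ t₀ : DT X.c.Lam (Lb (WL X.c.Lam) X.Y)}
    (ho : OneR (SX X j₀ st) x.s r t₁ t₀) :
    XsR X j₀ B₁ x.s.p { x.s with t' := (SX X j₀ st).x x.s t₁ t₀ } +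
        AsmX26.stS (SX X j₀ st) (AcX X j₀ Q' JJ δ e₀) x ≤
      X.tn j₀ x.s.t.g * X.tn j₀ ((SX X j₀ st).x x.s t₁ t₀).g +
      (Vz { x.s with t' := (SX X j₀ st).x x.s t₁ t₀ } +
      (120 + K₁) * (X.tn j₀ ((SX X j₀ st).x x.s t₁ t₀).g +
        pm (fun d => X.tn j₀ d.g) x.s.t ((SX X j₀ st).c x.s t₁ t₀)) +
      2 * K₁ * (X.tn j₀ ((SX X j₀ st).x x.s t₁ t₀).g *
        Real.sqrt (X.tn j₀ x.s.t.g / X.tn j₀ x.s.t'.g)) +
      gF ggX (fun d => X.tn j₀ d.g) x.s.t') + AcY X δ e₀ x v v' σ σ' := by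
  have hn : NoSplit (SX X j₀ st) := StX_nosplit
  obtain ⟨hx, σX, σC, hX, hC, hz, hO, hk⟩ := cz_oneR (st := st) hP.G hP.hp h ho
  have hb0 := hx.b0
  have hp3 : 3 ≤ p0 := by have := hP.hp; omega
  have hb3 : 3 ≤ x.s.p := by omega
  have hW := hP.G.w0
  have hc : 0 < v'.c := h.hi.qR.self.nf.c0
  have hc' : 0 < v.c := h.hi.qL.self.nf.c0
  have hKT := hP.kt x.s.p hb0
  have hsg : X.par.sg x.s.p = Real.log x.s.p ^ N.B / x.s.p := rfl
  have hal : ∀ B : ℕ, (fun _ : ℕ => al x.s.p v.B + al x.s.p v'.B) B ≤ (x.s.p:ℝ)^a :=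
    fun _ => hP.al1 x.s.p hb0 _ _
  have hcop : CopM34.Cop x.s := hJC x h.j.2.2
  have hs := (XStop25.US_mass h.oi hx.mL hx.mR (hst _ ho.prp.ns) hx.bp.pos)
  have hF := hP.cb x.s.p _ _ _ _ _ (CZ.setR hz (Ro ((X.c.D.par X.Y).rho x.s.p)))
    (xp_pt hx hP.lv hP.hp) hcop rfl hs
  have hF' : CBd x.s.p C Ce K₁ s₁ s₂ (fun _ => al x.s.p v.B + al x.s.p v'.B) (w X.ψ)
      (dd ((SX X j₀ st).x x.s t₁ t₀) ∧ ¬ dd x.s.t) (dd x.s.t ∧ ¬ dd ((SX X j₀ st).x x.s t₁ t₀))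
      v'.c v'.B σX.items v.c v.B σ.items
      (XsR X j₀ B₁ x.s.p { x.s with t' := (SX X j₀ st).x x.s t₁ t₀ } -
        Vz { x.s with t' := (SX X j₀ st).x x.s t₁ t₀ }) := CBd.swap hF
  have hoth := hull_oth hP.δ0 hP.δe hP.G hP.hp hst hn hJJ h
  -- masses
  have mT := hx.R.mass
  have mY := hx.L.mass
  have mX := hX.mass
  have mC := hC.mass
  simp only at mX mC
  have hTnl : ¬ x.s.t'.isLeaf := ho.prp.nl'
  have hTnd : ¬ dd x.s.t' := by rw [ho.et]; exact not_false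
  have hYnd : ¬ dd x.s.t := h.j.1.hR ho
  have loT := hx.R.lo hp3 hTnd
  have loY := hx.L.lo hp3 hYnd
  have hiT := hx.R.hi hp3 hTnl
  have hiY := hx.L.hi hp3 ho.prp.nl
  rw [mT] at loT hiT
  rw [mY] at loY hiY
  have hYB : x.s.p ∣ v.B → ∃ κ, ∀ q ∈ σ.items, StratN36.ex x.s.p q + StratN36.ex x.s.p v.B = κ :=
    one_cls h.hi.qL.self.nd.bk hx.bp
  set b := x.s.p with hb
  set F := XsR X j₀ B₁ b { x.s with t' := (SX X j₀ st).x x.s t₁ t₀ } -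
        Vz { x.s with t' := (SX X j₀ st).x x.s t₁ t₀ } with hFd
  rw [mX, mY, mT]
  set m : DT X.c.Lam (Lb (WL X.c.Lam) X.Y) → ℝ := fun d => X.tn j₀ d.g with hm
  have mX0 : 0 ≤ v'.c * Ws (w X.ψ) σX.items := mul_nonneg hc.le (Ws_nonneg hW _)
  have mY0 : 0 ≤ v.c * Ws (w X.ψ) σ.items := mul_nonneg hc'.le (Ws_nonneg hW _)
  have mC0 : 0 ≤ v'.c * Ws (w X.ψ) σC.items := mul_nonneg hc.le (Ws_nonneg hW _)
  have mT0 : 0 ≤ v'.c * Ws (w X.ψ) σ'.items := mul_nonneg hc.le (Ws_nonneg hW _)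
  have mt : m x.s.t' = v'.c * Ws (w X.ψ) σ'.items := mT
  have my : m x.s.t = v.c * Ws (w X.ψ) σ.items := mY
  have mc : m ((SX X j₀ st).c x.s t₁ t₀) = v'.c * Ws (w X.ψ) σC.items := mC
  have pm0 : 0 ≤ pm m x.s.t ((SX X j₀ st).c x.s t₁ t₀) := pm_nn (by rw [my]; exact mY0)
    (by rw [mc]; exact mC0)
  have gF0 : 0 ≤ gF ggX m x.s.t' := CrossSum29.gF_nn ggX_nonneg (by rw [mt]; exact mT0)
  have hK := hP.K0
  have hη := hP.η0
  have hη1 := hP.η1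
  have sq0 : 0 ≤ v'.c * Ws (w X.ψ) σX.items * Real.sqrt ((v.c * Ws (w X.ψ) σ.items) /
      (v'.c * Ws (w X.ψ) σ'.items)) := mul_nonneg mX0 (Real.sqrt_nonneg _)
  have xy0 := mul_nonneg mX0 mY0
  have hδ0 := hP.δ0
  have KX0 : 0 ≤ K₁ * (v'.c * Ws (w X.ψ) σX.items) := mul_nonneg hK mX0
  have KS0 : 0 ≤ K₁ * (v'.c * Ws (w X.ψ) σX.items * Real.sqrt ((v.c * Ws (w X.ψ) σ.items) /
      (v'.c * Ws (w X.ψ) σ'.items))) := mul_nonneg hK sq0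
  have KP0 : 0 ≤ K₁ * pm m x.s.t ((SX X j₀ st).c x.s t₁ t₀) := mul_nonneg hK pm0
  have ηxy : 2 * η * (v'.c * Ws (w X.ψ) σX.items * (v.c * Ws (w X.ψ) σ.items)) ≤
      v'.c * Ws (w X.ψ) σX.items * (v.c * Ws (w X.ψ) σ.items) :=
    (mul_le_mul_of_nonneg_right hη1 xy0).trans (one_mul _).le
  have ηy : 2 * η * (v.c * Ws (w X.ψ) σ.items) ≤ v.c * Ws (w X.ψ) σ.items :=
    (mul_le_mul_of_nonneg_right hη1 mY0).trans (one_mul _).le
  -- a bound by the masses and an accident term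
  have fin : ∀ A : ℝ, F ≤ (59 + K₁) * (v'.c * Ws (w X.ψ) σX.items) + A →
      A + AsmX26.stS (SX X j₀ st) (AcX X j₀ Q' JJ δ e₀) x ≤ AcY X δ e₀ x v v' σ σ' →
      F + AsmX26.stS (SX X j₀ st) (AcX X j₀ Q' JJ δ e₀) x ≤
        v.c * Ws (w X.ψ) σ.items * (v'.c * Ws (w X.ψ) σX.items) +
        ((120 + K₁) * (v'.c * Ws (w X.ψ) σX.items + pm m x.s.t ((SX X j₀ st).c x.s t₁ t₀)) +
        2 * K₁ * (v'.c * Ws (w X.ψ) σX.items * Real.sqrt ((v.c * Ws (w X.ψ) σ.items) /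
        (v'.c * Ws (w X.ψ) σ'.items))) + gF ggX m x.s.t') + AcY X δ e₀ x v v' σ σ' := by
    intro A h1 h2
    linarith
  have loX : ¬ dd ((SX X j₀ st).x x.s t₁ t₀) →
      Real.log b ^ (-N.C1) ≤ v'.c * Ws (w X.ψ) σX.items := fun hXd => by
    have := hX.lo hp3 hXd
    rw [hX.mass] at this
    exact this
  suffices hmain : F + AsmX26.stS (SX X j₀ st) (AcX X j₀ Q' JJ δ e₀) x ≤
        v.c * Ws (w X.ψ) σ.items * (v'.c * Ws (w X.ψ) σX.items) +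
        ((120 + K₁) * (v'.c * Ws (w X.ψ) σX.items + pm m x.s.t ((SX X j₀ st).c x.s t₁ t₀)) +
        2 * K₁ * (v'.c * Ws (w X.ψ) σX.items * Real.sqrt ((v.c * Ws (w X.ψ) σ.items) /
        (v'.c * Ws (w X.ψ) σ'.items))) + gF ggX m x.s.t') + AcY X δ e₀ x v v' σ σ' by
    rw [hFd] at hmain
    linarith
  rcases hk with ⟨J, hN, hY⟩ | ⟨J, hN, hY⟩ | ⟨K, hN, hY⟩ | ⟨K, K', hN, hne, hXd, hY⟩
  · -- low
    by_cases hXd : dd ((SX X j₀ st).x x.s t₁ t₀)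
    swap
    · have k1 := KT.lowA hKT hW hc hc'.le hsg (hP.G.sg0 _) hal hN hO.b0 hY (loX hXd) loY hF'
      linarith
    have k1 := KT.low hKT hW hc hc'.le hsg hal hN hO.b0 loT hiY hP.s1 hP.s2
      (hP.G.sg8 _ hx.bp hb0) (nb_of_ex hx.bp hx.R.I.hb hO.b0) hYB hY ⟨hXd, hYnd⟩ hF'
    rw [max_eq_right hK] at k1
    refine fin _ k1 ?_
    have k2 := hull_oneR hP.δ0 hP.δe hP.G hP.hp hst hn hJJ h ho hO (J := J) (i := J)
      (Or.inl ⟨hN, rfl⟩)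
    have yJ0 : 0 ≤ v.c * Ws (w X.ψ) (cl b v.B J σ.items) := mul_nonneg hc'.le (Ws_nonneg hW _)
    have k3 := acc_pay2 hb3 (hP.al0 b v.B) (hP.al0 b v'.B) hP.e0 hP.e3 (hP.δal b hx.bp hb0 v.B)
      (hP.δal b hx.bp hb0 v'.B) loT yJ0
    have k4 : 0 ≤ (δ b v.B + δ b v'.B) * (v.c * Ws (w X.ψ) (cl b v.B J σ.items) *
        (v'.c * Ws (w X.ψ) σ'.items)) :=
      mul_nonneg (add_nonneg (hδ0 _ _) (hδ0 _ _)) (mul_nonneg yJ0 mT0)
    beta_reduce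
    linarith
  · -- high
    by_cases hXd : dd ((SX X j₀ st).x x.s t₁ t₀)
    swap
    · have k1 := KT.highA hKT hW hc hc'.le hsg (hP.G.sg0 _) hal hN hO.b0 hY (loX hXd) loY hF'
      linarith
    have k1 := KT.high hKT hW hc hc'.le hsg hal hN hO.b0 loT hiY hP.s1 hP.s2
      (hP.G.sg8 _ hx.bp hb0) (nb_of_ex hx.bp hx.R.I.hb hO.b0) hYB hY ⟨hXd, hYnd⟩ hF'
    rw [max_eq_right hK] at k1
    refine fin _ k1 ?_
    have hJ1 := hN.pos
    have k2 := hull_oneR hP.δ0 hP.δe hP.G hP.hp hst hn hJJ h ho hO (J := J) (i := J - 1)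
      (Or.inr ⟨hN, by omega⟩)
    have yJ0 : 0 ≤ v.c * Ws (w X.ψ) (cl b v.B (J - 1) σ.items) :=
      mul_nonneg hc'.le (Ws_nonneg hW _)
    have k3 := acc_pay2 hb3 (hP.al0 b v.B) (hP.al0 b v'.B) hP.e0 hP.e3 (hP.δal b hx.bp hb0 v.B)
      (hP.δal b hx.bp hb0 v'.B) loT yJ0
    have k4 : 0 ≤ (δ b v.B + δ b v'.B) * (v.c * Ws (w X.ψ) (cl b v.B (J - 1) σ.items) *
        (v'.c * Ws (w X.ψ) σ'.items)) :=
      mul_nonneg (add_nonneg (hδ0 _ _) (hδ0 _ _)) (mul_nonneg yJ0 mT0)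
    beta_reduce
    linarith
  · -- far
    have eg : gF ggX m x.s.t' = 7 * (b:ℝ)^(-(3/2):ℝ) * (v'.c * Ws (w X.ψ) σ'.items) := by
      rw [← mt]
      exact far_gF hP.G hN h.hi.qR.self.nf.ok hO.it hx.R.I.eq m
    rcases hY with hd | hD
    · have k1 := KT.farD hKT hP.s1 hP.s2 hW hc hc'.le hsg (hP.G.sg0 _) (hP.G.sg8 _ hx.bp hb0) hal hN hO.b0
        hiT loY hiY hF'
      have k2 := pm_right (m := m) (a := x.s.t) hd
      rw [mc, my] at k2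
      rw [k2]
      have k5 : 0 ≤ K₁ * (v'.c * Ws (w X.ψ) σC.items) := mul_nonneg hK mC0
      have k6 : 0 ≤ K₁ * (v.c * Ws (w X.ψ) σ.items) := mul_nonneg hK mY0
      linarith
    · have k1 := KT.far hKT hP.s1 hP.s2 hW hc hc'.le hsg (hP.G.sg0 _) (hP.G.sg8 _ hx.bp hb0) hal hN hO.b0
        hD loT hiY hF'
      linarith
  · -- near
    have k1 := KT.near hKT hP.s1 hP.s2 hW hc hc'.le hsg (hP.G.sg0 _) (hP.G.sg8 _ hx.bp hb0) hal hN hO.b0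
      hne hY (loX hXd) loY hF'
    linarith

set_option maxHeartbeats 2000000 in
/-- **joint step**, all data -/
theorem dataJ (h : WIX X j₀ Q' (JS1 X JJ) u₀ x v v' σ σ')
    {r r' : X.c.Lam → Lb (WL X.c.Lam) X.Y} {t₁ t₀ t₁' t₀' : DT X.c.Lam (Lb (WL X.c.Lam) X.Y)}
    (ho : Jnt (SX X j₀ st) x.s r t₁ t₀ r' t₁' t₀') :
    XsR X j₀ (B₁ + 1) x.s.p { x.s with t := t₁, t' := t₀' } +
        XsR X j₀ (B₁ + 1) x.s.p { x.s with t := t₀, t' := t₁' } +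
        AsmX26.stS (SX X j₀ st) (AcX X j₀ Q' JJ δ e₀) x ≤
      ((Vz { x.s with t := t₁, t' := t₀' } + Vz { x.s with t := t₀, t' := t₁' }) +
      (120 + K₁) * (pm (fun d => X.tn j₀ d.g) t₁ t₁' + pm (fun d => X.tn j₀ d.g) t₀ t₀') +
      gF ggX (fun d => X.tn j₀ d.g) x.s.t + gF ggX (fun d => X.tn j₀ d.g) x.s.t') +
        AcY X δ e₀ x v v' σ σ' := by
  have hn : NoSplit (SX X j₀ st) := StX_nosplit
  obtain ⟨hx, σ₁, σ₀, σ₁', σ₀', ⟨hS1, hS0, hS1', hS0'⟩, hz1, hz0, hAC, hAC', hB, hB', hk⟩ :=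
    cz_jnt (st := st) hP.G hP.hp h ho
  have hb0 := hx.b0
  have hp3 : 3 ≤ p0 := by have := hP.hp; omega
  have hb3 : 3 ≤ x.s.p := by omega
  have hW := hP.G.w0
  have hc : 0 < v.c := h.hi.qL.self.nf.c0
  have hc' : 0 < v'.c := h.hi.qR.self.nf.c0
  have hKT := hP.kt x.s.p hb0
  have hsg : X.par.sg x.s.p = Real.log x.s.p ^ N.B / x.s.p := rfl
  have hal : ∀ B : ℕ, (fun _ : ℕ => al x.s.p v.B + al x.s.p v'.B) B ≤ (x.s.p:ℝ)^a :=
    fun _ => hP.al1 x.s.p hb0 _ _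
  have hcop : CopM34.Cop x.s := hJC x h.j.2.2
  have hs := (XStop25.US_mass h.oi hx.mL hx.mR (hst _ ho.prp.ns) hx.bp.pos)
  have hFa := hP.cb x.s.p _ _ _ _ _ (CZ.setR hz1 (Ro ((X.c.D.par X.Y).rho x.s.p)))
    (xp_pt hx hP.lv hP.hp) hcop rfl hs
  have hFb := hP.cb x.s.p _ _ _ _ _ (CZ.setR hz0 (Ro ((X.c.D.par X.Y).rho x.s.p)))
    (xp_pt hx hP.lv hP.hp) hcop rfl hs
  have hF1 : CBd x.s.p C Ce K₁ s₁ s₂ (fun _ => al x.s.p v.B + al x.s.p v'.B) (w X.ψ) (dd t₁ ∧ ¬ dd t₀') (dd t₀' ∧ ¬ dd t₁)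
      v.c v.B σ₁.items v'.c v'.B σ₀'.items
      (XsR X j₀ B₁ x.s.p { x.s with t := t₁, t' := t₀' } - Vz { x.s with t := t₁, t' := t₀' }) := hFa
  have hF0 : CBd x.s.p C Ce K₁ s₁ s₂ (fun _ => al x.s.p v.B + al x.s.p v'.B) (w X.ψ) (dd t₀ ∧ ¬ dd t₁') (dd t₁' ∧ ¬ dd t₀)
      v.c v.B σ₀.items v'.c v'.B σ₁'.items
      (XsR X j₀ B₁ x.s.p { x.s with t := t₀, t' := t₁' } - Vz { x.s with t := t₀, t' := t₁' }) := hFb
  have hoth := hull_oth hP.δ0 hP.δe hP.G hP.hp hst hn hJJ h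
  -- masses
  have mT := hx.L.mass
  have mT' := hx.R.mass
  have m1 := hS1.mass
  have m0 := hS0.mass
  have m1' := hS1'.mass
  have m0' := hS0'.mass
  simp only at m1 m0 m1' m0'
  have hTnd : ¬ dd x.s.t := by rw [ho.et]; exact not_false
  have hTnd' : ¬ dd x.s.t' := by rw [ho.et']; exact not_false
  have loT := hx.L.lo hp3 hTnd
  have loT' := hx.R.lo hp3 hTnd'
  have hiT := hx.L.hi hp3 ho.prp.nl
  have hiT' := hx.R.hi hp3 ho.prp.nl'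
  rw [mT] at loT hiT
  rw [mT'] at loT' hiT'
  have lo1 : ¬ dd t₁ → Real.log x.s.p ^ (-N.C1) ≤ v.c * Ws (w X.ψ) σ₁.items := fun hd => by
    have := hS1.lo hp3 hd
    rw [m1] at this
    exact this
  have lo0 : ¬ dd t₀ → Real.log x.s.p ^ (-N.C1) ≤ v.c * Ws (w X.ψ) σ₀.items := fun hd => by
    have := hS0.lo hp3 hd
    rw [m0] at this
    exact this
  have lo1' : ¬ dd t₁' → Real.log x.s.p ^ (-N.C1) ≤ v'.c * Ws (w X.ψ) σ₁'.items := fun hd => by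
    have := hS1'.lo hp3 hd
    rw [m1'] at this
    exact this
  have lo0' : ¬ dd t₀' → Real.log x.s.p ^ (-N.C1) ≤ v'.c * Ws (w X.ψ) σ₀'.items := fun hd => by
    have := hS0'.lo hp3 hd
    rw [m0'] at this
    exact this
  have eT : σ.items = σ₁.items ∪ σ₀.items := hAC.items
  have eT' : σ'.items = σ₁'.items ∪ σ₀'.items := hAC'.items
  have hi1 : v.c * Ws (w X.ψ) σ₁.items ≤ Real.log x.s.p ^ N.c2 :=
    (mul_le_mul_of_nonneg_left (Ws_mono hW (by rw [eT]; exact Finset.subset_union_left)) hc.le).trans hiT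
  have hi0 : v.c * Ws (w X.ψ) σ₀.items ≤ Real.log x.s.p ^ N.c2 :=
    (mul_le_mul_of_nonneg_left (Ws_mono hW (by rw [eT]; exact Finset.subset_union_right)) hc.le).trans hiT
  have hi1' : v'.c * Ws (w X.ψ) σ₁'.items ≤ Real.log x.s.p ^ N.c2 :=
    (mul_le_mul_of_nonneg_left (Ws_mono hW (by rw [eT']; exact Finset.subset_union_left)) hc'.le).trans hiT'
  have hi0' : v'.c * Ws (w X.ψ) σ₀'.items ≤ Real.log x.s.p ^ N.c2 :=
    (mul_le_mul_of_nonneg_left (Ws_mono hW (by rw [eT']; exact Finset.subset_union_right)) hc'.le).trans hiT'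
  set b := x.s.p with hb
  set m : DT X.c.Lam (Lb (WL X.c.Lam) X.Y) → ℝ := fun d => X.tn j₀ d.g with hm
  have mm1 : m t₁ = v.c * Ws (w X.ψ) σ₁.items := m1
  have mm0 : m t₀ = v.c * Ws (w X.ψ) σ₀.items := m0
  have mm1' : m t₁' = v'.c * Ws (w X.ψ) σ₁'.items := m1'
  have mm0' : m t₀' = v'.c * Ws (w X.ψ) σ₀'.items := m0'
  have mt : m x.s.t = v.c * Ws (w X.ψ) σ.items := mT
  have mt' : m x.s.t' = v'.c * Ws (w X.ψ) σ'.items := mT'
  have x10 : 0 ≤ v.c * Ws (w X.ψ) σ₁.items := mul_nonneg hc.le (Ws_nonneg hW _)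
  have x00 : 0 ≤ v.c * Ws (w X.ψ) σ₀.items := mul_nonneg hc.le (Ws_nonneg hW _)
  have y10 : 0 ≤ v'.c * Ws (w X.ψ) σ₁'.items := mul_nonneg hc'.le (Ws_nonneg hW _)
  have y00 : 0 ≤ v'.c * Ws (w X.ψ) σ₀'.items := mul_nonneg hc'.le (Ws_nonneg hW _)
  have mT0 : 0 ≤ v.c * Ws (w X.ψ) σ.items := mul_nonneg hc.le (Ws_nonneg hW _)
  have mT0' : 0 ≤ v'.c * Ws (w X.ψ) σ'.items := mul_nonneg hc'.le (Ws_nonneg hW _)
  have hK := hP.K0
  have hη := hP.η0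
  have hη1 := hP.η1
  have hδ0 := hP.δ0
  have pa0 : 0 ≤ pm m t₁ t₁' := pm_nn (by rw [mm1]; exact x10) (by rw [mm1']; exact y10)
  have pb0 : 0 ≤ pm m t₀ t₀' := pm_nn (by rw [mm0]; exact x00) (by rw [mm0']; exact y00)
  have gF0 : 0 ≤ gF ggX m x.s.t := CrossSum29.gF_nn ggX_nonneg (by rw [mt]; exact mT0)
  have gF0' : 0 ≤ gF ggX m x.s.t' := CrossSum29.gF_nn ggX_nonneg (by rw [mt']; exact mT0')
  have KPa : 0 ≤ K₁ * pm m t₁ t₁' := mul_nonneg hK pa0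
  have KPb : 0 ≤ K₁ * pm m t₀ t₀' := mul_nonneg hK pb0
  have v1 : 0 ≤ Vz { x.s with t := t₁, t' := t₀' } := CZ.vz hz1
  have v0 : 0 ≤ Vz { x.s with t := t₀, t' := t₁' } := CZ.vz hz0
  have hA : x.s.A = Finset.univ := hx.A
  have hA' : x.s.A' = Finset.univ := hx.A'
  -- one crossing state
  have one : ∀ (d d' : DT X.c.Lam (Lb (WL X.c.Lam) X.Y)) (ma mb R : ℝ), m d = ma → m d' = mb →
      0 ≤ ma → 0 ≤ mb → 0 ≤ R → 0 ≤ Vz { x.s with t := d, t' := d' } →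
      XsR X j₀ B₁ b { x.s with t := d, t' := d' } - Vz { x.s with t := d, t' := d' } ≤
        η * (ma * mb) + R →
      XsR X j₀ (B₁ + 1) b { x.s with t := d, t' := d' } ≤ Vz { x.s with t := d, t' := d' } + R := by
    intro d d' ma mb R e1 e2 h1 h2 h3 h4 h5
    refine XsR_le' hA hA' (by linarith) ?_
    have e : X.tn j₀ d.g * X.tn j₀ d'.g = ma * mb := by rw [← e1, ← e2]
    show _ ≤ X.tn j₀ d.g * X.tn j₀ d'.g + _
    rw [e]
    have h6 : η * (ma * mb) ≤ ma * mb := by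
      have h7 := mul_nonneg h1 h2
      nlinarith
    linarith
  rcases hk with ⟨J, hN, hN'⟩ | ⟨K, hN, hN'⟩
  · -- cut
    have hJ1 := hN.pos
    set YU := v'.c * Ws (w X.ψ) (cl b v'.B J σ₁'.items ∪ cl b v'.B (J - 1) σ₀'.items) with hYU
    set XU := v.c * Ws (w X.ψ) (cl b v.B J σ₁.items ∪ cl b v.B (J - 1) σ₀.items) with hXU
    have YU0 : 0 ≤ YU := mul_nonneg hc'.le (Ws_nonneg hW _)
    have XU0 : 0 ≤ XU := mul_nonneg hc.le (Ws_nonneg hW _)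
    have k2 := hull_jnt hP.δ0 hP.δe hP.G hP.hp hst hn hJJ h ho hAC hAC' hB hB' hN hN'
    rw [← hYU, ← hXU] at k2
    have hδδ : 0 ≤ δ b v.B + δ b v'.B := add_nonneg (hδ0 _ _) (hδ0 _ _)
    have acc : ∀ (y : ℝ), (0 ≤ y ∧ y ≤ YU) →
        Real.log b ^ (CA C N.c2 s₂) * (al b v.B + al b v'.B) ^ (1 / (1 - s₂)) * (b:ℝ)^(-1:ℝ) * y ≤
          (1 / 2) * ((δ b v.B + δ b v'.B) *
            (v.c * Ws (w X.ψ) σ.items * YU + XU * (v'.c * Ws (w X.ψ) σ'.items))) := by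
      intro y hy
      have k3 := acc_pay2 hb3 (hP.al0 b v.B) (hP.al0 b v'.B) hP.e0 hP.e3
        (hP.δal b hx.bp hb0 v.B) (hP.δal b hx.bp hb0 v'.B) loT hy.1
      refine k3.trans (mul_le_mul_of_nonneg_left (mul_le_mul_of_nonneg_left ?_ hδδ) (by norm_num))
      have := mul_le_mul_of_nonneg_left hy.2 mT0
      have := mul_nonneg XU0 mT0'
      linarith
    have acc' : ∀ (y : ℝ), (0 ≤ y ∧ y ≤ XU) →
        Real.log b ^ (CA C N.c2 s₂) * (al b v.B + al b v'.B) ^ (1 / (1 - s₂)) * (b:ℝ)^(-1:ℝ) * y ≤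
          (1 / 2) * ((δ b v.B + δ b v'.B) *
            (v.c * Ws (w X.ψ) σ.items * YU + XU * (v'.c * Ws (w X.ψ) σ'.items))) := by
      intro y hy
      have k3 := acc_pay2 hb3 (hP.al0 b v.B) (hP.al0 b v'.B) hP.e0 hP.e3
        (hP.δal b hx.bp hb0 v.B) (hP.δal b hx.bp hb0 v'.B) loT' hy.1
      refine k3.trans (mul_le_mul_of_nonneg_left (mul_le_mul_of_nonneg_left ?_ hδδ) (by norm_num))
      have := mul_le_mul_of_nonneg_right hy.2 mT0'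
      have := mul_nonneg mT0 YU0
      linarith
    have D0 : 0 ≤ (1 / 2) * ((δ b v.B + δ b v'.B) *
        (v.c * Ws (w X.ψ) σ.items * YU + XU * (v'.c * Ws (w X.ψ) σ'.items))) :=
      mul_nonneg (by norm_num) (mul_nonneg hδδ
        (add_nonneg (mul_nonneg mT0 YU0) (mul_nonneg XU0 mT0')))
    -- the class masses
    have yA : 0 ≤ v'.c * Ws (w X.ψ) (cl b v'.B (J - 1) σ₀'.items) ∧
        v'.c * Ws (w X.ψ) (cl b v'.B (J - 1) σ₀'.items) ≤ YU :=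
      ⟨mul_nonneg hc'.le (Ws_nonneg hW _),
        mul_le_mul_of_nonneg_left (Ws_mono hW Finset.subset_union_right) hc'.le⟩
    have yB : 0 ≤ v'.c * Ws (w X.ψ) (cl b v'.B J σ₁'.items) ∧
        v'.c * Ws (w X.ψ) (cl b v'.B J σ₁'.items) ≤ YU :=
      ⟨mul_nonneg hc'.le (Ws_nonneg hW _),
        mul_le_mul_of_nonneg_left (Ws_mono hW Finset.subset_union_left) hc'.le⟩
    have xA : 0 ≤ v.c * Ws (w X.ψ) (cl b v.B (J - 1) σ₀.items) ∧
        v.c * Ws (w X.ψ) (cl b v.B (J - 1) σ₀.items) ≤ XU :=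
      ⟨mul_nonneg hc.le (Ws_nonneg hW _),
        mul_le_mul_of_nonneg_left (Ws_mono hW Finset.subset_union_right) hc.le⟩
    have xB : 0 ≤ v.c * Ws (w X.ψ) (cl b v.B J σ₁.items) ∧
        v.c * Ws (w X.ψ) (cl b v.B J σ₁.items) ≤ XU :=
      ⟨mul_nonneg hc.le (Ws_nonneg hW _),
        mul_le_mul_of_nonneg_left (Ws_mono hW Finset.subset_union_left) hc.le⟩
    set U := v.c * Ws (w X.ψ) σ.items * YU + XU * (v'.c * Ws (w X.ψ) σ'.items) with hU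
    -- the first state: upper part against lower part
    have q1 : XsR X j₀ (B₁ + 1) b { x.s with t := t₁, t' := t₀' } ≤
        Vz { x.s with t := t₁, t' := t₀' } + (56 * (pm m t₁ t₁' + pm m t₀ t₀') +
          (1 / 2) * ((δ b v.B + δ b v'.B) * U)) := by
      refine one t₁ t₀' _ _ _ mm1 mm0' x10 y00 ?_ v1 ?_
      · positivity
      have ηxy : 0 ≤ η * (v.c * Ws (w X.ψ) σ₁.items * (v'.c * Ws (w X.ψ) σ₀'.items)) :=
        mul_nonneg hη (mul_nonneg x10 y00)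
      by_cases hd : dd t₁
      · have k1 := KT.highJ hKT hP.s1 hP.s2 hW hc hc'.le hsg (hP.G.sg0 _) hal hN hN' hB hB' loT
          hi0' hF1
        beta_reduce at k1
        have k4 := acc _ yA
        have k5 := pm_left (m := m) (b := t₁') hd
        rw [mm1, mm1'] at k5
        linarith
      by_cases hd' : dd t₀'
      · have k1 := KT.lowJ hKT hP.s1 hP.s2 hW hc' hc.le hsg (hP.G.sg0 _) hal hN' hN hB' hB loT'
          hi1 hF1.swap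
        beta_reduce at k1
        have k4 := acc' _ xB
        have k5 := pm_right (m := m) (a := t₀) hd'
        rw [mm0, mm0'] at k5
        linarith
      · have k1 := KT.aliveJ hKT hP.s1 hP.s2 hW hc hc'.le hsg (hP.G.sg0 _) hal hN hN' hB hB'
          (lo1 hd) (lo0' hd') hF1
        linarith
    -- the second state: lower part against upper part
    have q0 : XsR X j₀ (B₁ + 1) b { x.s with t := t₀, t' := t₁' } ≤
        Vz { x.s with t := t₀, t' := t₁' } + (56 * (pm m t₁ t₁' + pm m t₀ t₀') +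
          (1 / 2) * ((δ b v.B + δ b v'.B) * U)) := by
      refine one t₀ t₁' _ _ _ mm0 mm1' x00 y10 ?_ v0 ?_
      · positivity
      have ηxy : 0 ≤ η * (v.c * Ws (w X.ψ) σ₀.items * (v'.c * Ws (w X.ψ) σ₁'.items)) :=
        mul_nonneg hη (mul_nonneg x00 y10)
      by_cases hd : dd t₀
      · have k1 := KT.lowJ hKT hP.s1 hP.s2 hW hc hc'.le hsg (hP.G.sg0 _) hal hN hN' hB hB' loT
          hi1' hF0
        beta_reduce at k1
        have k4 := acc _ yB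
        have k5 := pm_left (m := m) (b := t₀') hd
        rw [mm0, mm0'] at k5
        linarith
      by_cases hd' : dd t₁'
      · have k1 := KT.highJ hKT hP.s1 hP.s2 hW hc' hc.le hsg (hP.G.sg0 _) hal hN' hN hB' hB loT'
          hi0 hF0.swap
        beta_reduce at k1
        have k4 := acc' _ xA
        have k5 := pm_right (m := m) (a := t₁) hd'
        rw [mm1, mm1'] at k5
        linarith
      · have k1 := KT.aliveJ hKT hP.s1 hP.s2 hW hc' hc.le hsg (hP.G.sg0 _) hal hN' hN hB' hB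
          (lo1' hd') (lo0 hd) hF0.swap
        have e : v'.c * Ws (w X.ψ) σ₁'.items * (v.c * Ws (w X.ψ) σ₀.items) =
          v.c * Ws (w X.ψ) σ₀.items * (v'.c * Ws (w X.ψ) σ₁'.items) := by ring
        rw [e] at k1
        linarith
    linarith
  · -- far
    have hleaf : dd t₁ := by
      rcases hAC.it with e | ⟨e, F, hF⟩
      · exfalso
        have hok := h.hi.qL.self.nf.ok
        rw [e] at hok hN
        obtain ⟨J, hJ⟩ := StratN36.cutN_of hP.G.w0 hok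
        exact cut_not_far hP.G.w0 hJ hN
      · rw [hAC.e1, hF]
        exact trivial
    have k5 := pm_left (m := m) (b := t₁') hleaf
    rw [mm1, mm1'] at k5
    have eg : gF ggX m x.s.t = 7 * (b:ℝ)^(-(3/2):ℝ) * (v.c * Ws (w X.ψ) σ.items) := by
      rw [← mt]
      refine far_gF hP.G hN h.hi.qL.self.nf.ok (σ₁ := σ₁) (σ₀ := σ₀) ?_ hx.L.I.eq m
      rcases hAC.it with e | e
      · exact Or.inl (Or.inl e)
      · exact Or.inr (Or.inl e)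
    have eg' : gF ggX m x.s.t' = 7 * (b:ℝ)^(-(3/2):ℝ) * (v'.c * Ws (w X.ψ) σ'.items) := by
      rw [← mt']
      refine far_gF hP.G hN' h.hi.qR.self.nf.ok (σ₁ := σ₁') (σ₀ := σ₀') ?_ hx.R.I.eq m
      rcases hAC'.it with e | e
      · exact Or.inl (Or.inl e)
      · exact Or.inr (Or.inl e)
    have q1 : XsR X j₀ (B₁ + 1) b { x.s with t := t₁, t' := t₀' } ≤
        Vz { x.s with t := t₁, t' := t₀' } +
          7 * (v.c * Ws (w X.ψ) σ₁.items + (b:ℝ)^(-(3/2):ℝ) * (v.c * Ws (w X.ψ) σ.items)) := by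
      refine one t₁ t₀' _ _ _ mm1 mm0' x10 y00 (by positivity) v1 ?_
      have k1 := KT.farJ hKT hP.s1 hP.s2 hW hc hc'.le hsg (hP.G.sg0 _) (hP.G.sg8 _ hx.bp hb0) hal hN
        hB hN' hB' loT hi0' hF1
      have : 0 ≤ η * (v.c * Ws (w X.ψ) σ₁.items * (v'.c * Ws (w X.ψ) σ₀'.items)) :=
        mul_nonneg hη (mul_nonneg x10 y00)
      linarith
    have q0 : XsR X j₀ (B₁ + 1) b { x.s with t := t₀, t' := t₁' } ≤
        Vz { x.s with t := t₀, t' := t₁' } +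
          7 * (v'.c * Ws (w X.ψ) σ₁'.items + (b:ℝ)^(-(3/2):ℝ) * (v'.c * Ws (w X.ψ) σ'.items)) := by
      refine one t₀ t₁' _ _ _ mm0 mm1' x00 y10 (by positivity) v0 ?_
      have k1 := KT.farJ hKT hP.s1 hP.s2 hW hc' hc.le hsg (hP.G.sg0 _) (hP.G.sg8 _ hx.bp hb0) hal hN'
        hB' hN hB loT' hi0 hF0.swap
      have : 0 ≤ η * (v.c * Ws (w X.ψ) σ₀.items * (v'.c * Ws (w X.ψ) σ₁'.items)) :=
        mul_nonneg hη (mul_nonneg x00 y10)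
      linarith
    have KX1 : 0 ≤ K₁ * (v.c * Ws (w X.ψ) σ₁.items) := mul_nonneg hK x10
    have KY1 : 0 ≤ K₁ * (v'.c * Ws (w X.ψ) σ₁'.items) := mul_nonneg hK y10
    rw [k5, eg, eg']
    linarith

omit hst hJJ hJC in
/-- masses of the sides and children are not negative -/
lemma side_mass {b : ℕ} {v : NS} {σ : IT} {d : DT X.c.Lam (Lb (WL X.c.Lam) X.Y)}
    (h : CS X j₀ Q' b v σ d) : 0 ≤ X.tn j₀ d.g := by
  rw [h.mass]
  exact mul_nonneg h.q.self.nf.c0.le (Ws_nonneg hP.G.w0 _)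

/-- **THE PAYMENTS AT EVERY STATE OF THE WALK** -/
theorem payR_of (h : WIX X j₀ Q' (JS1 X JJ) u₀ x v v' σ σ') :
    PayR (SX X j₀ st) j₀ (B₁ + 1) (120 + K₁) (2 * K₁) ggX (AcX X j₀ Q' JJ δ e₀) x := by
  have hn : NoSplit (SX X j₀ st) := StX_nosplit
  have hK := hP.K0
  constructor
  · intro _
    exact le_AcX h fun u₀ v v' σ σ' h => hull_oth hP.δ0 hP.δe hP.G hP.hp hst hn hJJ h
  · intro r t₁ t₀ ho
    have key : XsR X j₀ (B₁ + 1) x.s.p { x.s with t := (SX X j₀ st).x x.s t₁ t₀ } +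
        AsmX26.stS (SX X j₀ st) (AcX X j₀ Q' JJ δ e₀) x -
        (Vz { x.s with t := (SX X j₀ st).x x.s t₁ t₀ } +
        (120 + K₁) * (X.tn j₀ ((SX X j₀ st).x x.s t₁ t₀).g +
          pm (fun d => X.tn j₀ d.g) ((SX X j₀ st).c x.s t₁ t₀) x.s.t') +
        2 * K₁ * (X.tn j₀ ((SX X j₀ st).x x.s t₁ t₀).g *
          Real.sqrt (X.tn j₀ x.s.t'.g / X.tn j₀ x.s.t.g)) +
        gF ggX (fun d => X.tn j₀ d.g) x.s.t) ≤ AcX X j₀ Q' JJ δ e₀ x := by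
      refine le_AcX h fun u₀ v v' σ σ' h => ?_
      have h1 := dataL hP hst hJJ hJC h ho
      have h2 := hull_oth hP.δ0 hP.δe hP.G hP.hp hst hn hJJ h
      obtain ⟨hx, σX, σC, hX, hC, hz, hO, hk⟩ := cz_oneL (st := st) hP.G hP.hp h ho
      have a1 := side_mass hP hX
      have a2 := side_mass hP hC
      have a3 := side_mass hP hx.L
      have a4 := side_mass hP hx.R
      have v1 : 0 ≤ Vz { x.s with t := (SX X j₀ st).x x.s t₁ t₀ } := CZ.vz hz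
      have p1 : 0 ≤ pm (fun d => X.tn j₀ d.g) ((SX X j₀ st).c x.s t₁ t₀) x.s.t' := pm_nn a2 a4
      have g1 : 0 ≤ gF ggX (fun d => X.tn j₀ d.g) x.s.t := CrossSum29.gF_nn ggX_nonneg a3
      have s1 : 0 ≤ X.tn j₀ ((SX X j₀ st).x x.s t₁ t₀).g *
          Real.sqrt (X.tn j₀ x.s.t'.g / X.tn j₀ x.s.t.g) := mul_nonneg a1 (Real.sqrt_nonneg _)
      have s2 : 0 ≤ (120 + K₁) * (X.tn j₀ ((SX X j₀ st).x x.s t₁ t₀).g +
          pm (fun d => X.tn j₀ d.g) ((SX X j₀ st).c x.s t₁ t₀) x.s.t') := by positivity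
      have s3 : 0 ≤ 2 * K₁ * (X.tn j₀ ((SX X j₀ st).x x.s t₁ t₀).g *
          Real.sqrt (X.tn j₀ x.s.t'.g / X.tn j₀ x.s.t.g)) := by positivity
      have h3 := XsR_le (B₁ := B₁) (b := x.s.p) (z := { x.s with t := (SX X j₀ st).x x.s t₁ t₀ })
        (G := AsmX26.stS (SX X j₀ st) (AcX X j₀ Q' JJ δ e₀) x)
        (R := (Vz { x.s with t := (SX X j₀ st).x x.s t₁ t₀ } +
          (120 + K₁) * (X.tn j₀ ((SX X j₀ st).x x.s t₁ t₀).g +
            pm (fun d => X.tn j₀ d.g) ((SX X j₀ st).c x.s t₁ t₀) x.s.t') +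
          2 * K₁ * (X.tn j₀ ((SX X j₀ st).x x.s t₁ t₀).g *
            Real.sqrt (X.tn j₀ x.s.t'.g / X.tn j₀ x.s.t.g)) +
          gF ggX (fun d => X.tn j₀ d.g) x.s.t) + AcY X δ e₀ x v v' σ σ') hx.A hx.A' (by linarith)
        (by
          show _ ≤ X.tn j₀ ((SX X j₀ st).x x.s t₁ t₀).g * X.tn j₀ x.s.t'.g + _
          linarith)
      linarith
    linarith
  · intro r t₁ t₀ ho
    have key : XsR X j₀ (B₁ + 1) x.s.p { x.s with t' := (SX X j₀ st).x x.s t₁ t₀ } +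
        AsmX26.stS (SX X j₀ st) (AcX X j₀ Q' JJ δ e₀) x -
        (Vz { x.s with t' := (SX X j₀ st).x x.s t₁ t₀ } +
        (120 + K₁) * (X.tn j₀ ((SX X j₀ st).x x.s t₁ t₀).g +
          pm (fun d => X.tn j₀ d.g) x.s.t ((SX X j₀ st).c x.s t₁ t₀)) +
        2 * K₁ * (X.tn j₀ ((SX X j₀ st).x x.s t₁ t₀).g *
          Real.sqrt (X.tn j₀ x.s.t.g / X.tn j₀ x.s.t'.g)) +
        gF ggX (fun d => X.tn j₀ d.g) x.s.t') ≤ AcX X j₀ Q' JJ δ e₀ x := by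
      refine le_AcX h fun u₀ v v' σ σ' h => ?_
      have h1 := dataR hP hst hJJ hJC h ho
      have h2 := hull_oth hP.δ0 hP.δe hP.G hP.hp hst hn hJJ h
      obtain ⟨hx, σX, σC, hX, hC, hz, hO, hk⟩ := cz_oneR (st := st) hP.G hP.hp h ho
      have a1 := side_mass hP hX
      have a2 := side_mass hP hC
      have a3 := side_mass hP hx.L
      have a4 := side_mass hP hx.R
      have v1 : 0 ≤ Vz { x.s with t' := (SX X j₀ st).x x.s t₁ t₀ } := CZ.vz hz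
      have p1 : 0 ≤ pm (fun d => X.tn j₀ d.g) x.s.t ((SX X j₀ st).c x.s t₁ t₀) := pm_nn a3 a2
      have g1 : 0 ≤ gF ggX (fun d => X.tn j₀ d.g) x.s.t' := CrossSum29.gF_nn ggX_nonneg a4
      have s1 : 0 ≤ X.tn j₀ ((SX X j₀ st).x x.s t₁ t₀).g *
          Real.sqrt (X.tn j₀ x.s.t.g / X.tn j₀ x.s.t'.g) := mul_nonneg a1 (Real.sqrt_nonneg _)
      have s2 : 0 ≤ (120 + K₁) * (X.tn j₀ ((SX X j₀ st).x x.s t₁ t₀).g +
          pm (fun d => X.tn j₀ d.g) x.s.t ((SX X j₀ st).c x.s t₁ t₀)) := by positivity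
      have s3 : 0 ≤ 2 * K₁ * (X.tn j₀ ((SX X j₀ st).x x.s t₁ t₀).g *
          Real.sqrt (X.tn j₀ x.s.t.g / X.tn j₀ x.s.t'.g)) := by positivity
      have h3 := XsR_le (B₁ := B₁) (b := x.s.p) (z := { x.s with t' := (SX X j₀ st).x x.s t₁ t₀ })
        (G := AsmX26.stS (SX X j₀ st) (AcX X j₀ Q' JJ δ e₀) x)
        (R := (Vz { x.s with t' := (SX X j₀ st).x x.s t₁ t₀ } +
          (120 + K₁) * (X.tn j₀ ((SX X j₀ st).x x.s t₁ t₀).g +
            pm (fun d => X.tn j₀ d.g) x.s.t ((SX X j₀ st).c x.s t₁ t₀)) +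
          2 * K₁ * (X.tn j₀ ((SX X j₀ st).x x.s t₁ t₀).g *
            Real.sqrt (X.tn j₀ x.s.t.g / X.tn j₀ x.s.t'.g)) +
          gF ggX (fun d => X.tn j₀ d.g) x.s.t') + AcY X δ e₀ x v v' σ σ') hx.A hx.A' (by linarith)
        (by
          show _ ≤ X.tn j₀ x.s.t.g * X.tn j₀ ((SX X j₀ st).x x.s t₁ t₀).g + _
          linarith)
      linarith
    linarith
  · intro r t₁ t₀ r' t₁' t₀' ho
    have key : XsR X j₀ (B₁ + 1) x.s.p { x.s with t := t₁, t' := t₀' } +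
        XsR X j₀ (B₁ + 1) x.s.p { x.s with t := t₀, t' := t₁' } +
        AsmX26.stS (SX X j₀ st) (AcX X j₀ Q' JJ δ e₀) x -
      ((Vz { x.s with t := t₁, t' := t₀' } + Vz { x.s with t := t₀, t' := t₁' }) +
      (120 + K₁) * (pm (fun d => X.tn j₀ d.g) t₁ t₁' + pm (fun d => X.tn j₀ d.g) t₀ t₀') +
      gF ggX (fun d => X.tn j₀ d.g) x.s.t + gF ggX (fun d => X.tn j₀ d.g) x.s.t') ≤
        AcX X j₀ Q' JJ δ e₀ x := by
      refine le_AcX h fun u₀ v v' σ σ' h => ?_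
      have h1 := dataJ hP hst hJJ hJC h ho
      linarith
    linarith

end pay

end ctx

end Crest.Agent.R4P.PayA26
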