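import Crest.Agent.R4P.LocX_25
import Crest.Agent.R4P.EndP_25
import Crest.Agent.R4P.PayA_26

/-!
R4P (S0004), helper25, module D, group [X]: **the local costs of the cross walk of a crossing state of a context**.

* `QX` node facts, `ctx_QX`; `QZ` : node facts below the column `b`; `CZ_YI'`, `IvX_start`;
* `PrX` : predicates of the pairs; `ctx_sh` : merges; `LTB` : the (leaf, tree) bound; `ctx_tree`, `ctx_leaf2`,
  `ctx_treeLeaf` (exchange of the sides), `ctx_en`; `ctx_cross_X` : **the excess of a crossing state**.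
-/

set_option autoImplicit false
set_option linter.unusedSectionVars false
set_option linter.unusedVariables false
open Finset

namespace Crest.Agent.R4P.LocX25

open Crest.Agent.R4.HVW560 Crest.Agent.R4P.AvgItem710
open Crest.Agent.R4.Tour104 Crest.Agent.R4.Tour758 Crest.Agent.R4.Avg758 Crest.Agent.R4.Clos758
open Crest.Agent.R4.ClosL758 Crest.Agent.R4.ClosG758 Crest.Agent.R4.ClosR758
open Crest.Agent.R4.Fam464 Crest.Agent.R4P.Cnt588 Crest.Agent.R4P.Walk560 Crest.Agent.R4P.Item758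
open Crest.Agent.R4P.Bld532 (NS All NodeOk Bk dv nd mem_dv mem_nd)
open Crest.Agent.R4P.GSt927 Crest.Agent.R4P.WalkIT579 Crest.Agent.R4P.NMW710
open Crest.Agent.R4P.CrossLoc25 Crest.Agent.R4P.CrossLocC25 Crest.Agent.R4P.WalkC
open Crest.Agent.R4P.CyC25 Crest.Agent.R4P.YI25
open Crest.Agent.R4P.Data758 Crest.Agent.R4.Piece464
open Crest.Agent.R4P.BlksP29 Crest.Agent.R4P.GlueP29 Crest.Agent.R4P.Glue29 Crest.Agent.R4P.IvX29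
open Crest.Agent.R4P.ShrW34 Crest.Agent.R4P.ShrG28 Crest.Agent.R4P.CStop25
open Crest.Agent.R4P.TBLeaf28 (JC LoX)
open Crest.Agent.R4P.CopM34 (Cop)
open Crest.Agent.R4P.VNum34 (US mem_US stp2)
open Crest.Agent.R4P.Skel189 (Ctx top Kc)
open Crest.Agent.R4P.Step588 (CT CT_pos TagOk NDt ctx_NDt)
open Crest.Agent.R4P.OSFin710 (OB)
open Crest.Agent.R4P.GFinC927 (NB)
open Crest.Agent.R4P.LLCtx30 (LfA ctx_LfA TmN ctx_TmN)
open Crest.Agent.R4P.LfDat734 (etaL)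
open Crest.Agent.R4.Soft104 (w)
open Crest.Agent.R4P.StopLeaf28 (LoSt LoX_LoSt LoS_LoSt LoSt_stop LoSt_T)
open Crest.Agent.R4P.SameIx30 (VU Vm)
open Crest.Agent.R4P.Strip29 Crest.Agent.R4P.XStart25 Crest.Agent.R4P.XStop25
open Crest.Agent.R4P.CrsFacts26 Crest.Agent.R4P.AsmX26
open Crest.Agent.R4.Ovl560 (CM)
open Crest.Agent.R4.DeepSt579 (tq)
open Crest.Agent.R4P.SwapX25
open Crest.Agent.R4P

variable {N : Skel189.Num} {γ : ℝ} {p0 P₀ : ℕ} {X : Ctx N γ p0 P₀} {j₀ : X.c.Lam}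
  {Q' : NS → IT → Prop} {b : ℕ} {z : X.Sta} {v v' : NS} {σ σ' : IT}
  {RP : Finset (X.c.Lam × X.c.Lam) → Prop}

/-! ### node facts -/

/-- **node facts of the cross walks** -/
structure QX (X : Ctx N γ p0 P₀) (j₀ : X.c.Lam) (Ch : ℝ) (u : NS) (τ : IT) : Prop where
  nb : NB (X.c.D.par X.Y) X.S' X.par (w X.ψ) X.c.t.uq (2 * CT) (1 / 2) p0 u τ
  ob : OB (X.c.D.par X.Y) X.S' X.par (w X.ψ) X.c.t.uq (2 * CT) (1 / 2) p0 u τ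
  st : QST X j₀ Ch u τ
  lf : ∀ S : Finset ℕ, τ = .leaf S → LfA X X.Y u S
  tm : TmN X j₀ u τ

theorem ctx_QX (N : Skel189.Num) : ∃ Ch : ℝ, 0 < Ch ∧ ∃ p₁ : ℕ, ∀ p0 ≥ p₁, ∀ (γ : ℝ) (P₀ : ℕ),
    2 ≤ P₀ → ∀ X : Ctx N γ p0 P₀, TagOk X → X.c.d1 * Kc X.S ≤ 1 →
    (∀ p, p0 ≤ p → (2 : ℝ) ^ X.c.wp.dep p ≤ p) → (∀ m, etaL X.c.wpL m ≤ 1) → ∀ j₀ : X.c.Lam,
    All (QX X j₀ Ch) ⟨top X.S, 1, 1, 1⟩ X.c.t := by
  obtain ⟨Ch, hCh, a1, h1⟩ := ctx_QST N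
  obtain ⟨a2, h2⟩ := NI927.ctx_NB N (c₀ := 1 / 2)
  obtain ⟨a3, h3⟩ := Skel189.ctx_mean N
  obtain ⟨a4, h4⟩ := OSCtx710.ctx_OB N (c₀ := 1 / 2)
  obtain ⟨a5, h5⟩ := ctx_LfA N
  refine ⟨Ch, hCh, a1 + a2 + a3 + a4 + a5, fun p0 hp0 γ P₀ hP X hT hd1 hdep hη j₀ => ?_⟩
  have hm : NI927.Mean X (1 / 2) := fun q hq z => (h3 p0 (by omega) γ P₀ hP X).1 q hq z
  refine All.mono (fun u τ hh => ?_)
    ((((h1 p0 (by omega) γ P₀ hP X hT hd1 hdep j₀).and (h2 p0 (by omega) γ P₀ X X.Y hm)).and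
      (h4 p0 (by omega) γ P₀ X X.Y hm)).and ((h5 p0 (by omega) γ P₀ hP X hη X.Y).and
      (ctx_TmN X j₀)))
  obtain ⟨⟨⟨k1, k2⟩, k3⟩, k4, k5⟩ := hh
  exact ⟨k2, k3, k1, k4, k5⟩

/-- node facts below the column `b` -/
def QZ (X : Ctx N γ p0 P₀) (j₀ : X.c.Lam) (Q' : NS → IT → Prop) (b : ℕ) (u : NS) (τ : IT) : Prop :=
  QE X j₀ Q' u τ ∧ ∀ l : ℕ, l.Prime → l < u.n → l ≤ b

lemma CS_qz {d : DT X.c.Lam (Lb (WL X.c.Lam) X.Y)} (h : CrsFacts26.CS X j₀ Q' b v σ d) :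
    All (QZ X j₀ Q' b) v σ :=
  All.mono (fun u τ hh => ⟨hh.1, fun l hl hlt => h.lv l hl (lt_of_lt_of_le hlt hh.2.1)⟩)
    (h.q.and (NMCtx927.All_lvl σ v h.ok le_rfl h.q.self.n0))

/-- **item data at a crossing state** -/
theorem CZ_YI' (h : CZ X j₀ Q' b z v v' σ σ') (hR : RP z.R) :
    YI (X.c.D.par X.Y) (fun _ => ∅) (QZ X j₀ Q' b) RP (stS z) v v' σ σ' := by
  have k := CZ_YI h hR
  exact ⟨⟨k.L.S, k.L.ok, CS_qz h.L, k.L.il⟩, ⟨k.R.S, k.R.ok, CS_qz h.R, k.R.il⟩, k.mL, k.mR,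
    k.circ, k.lv, k.rp⟩

lemma YH_QZ : YH (X.c.D.par X.Y) (fun _ => (∅ : Finset X.c.Lam)) X.par (w X.ψ) (QZ X j₀ Q' b) :=
  YH.strip fun _ _ h => h.1.nf.ok

/-- **the invariants at the crossing state** -/
theorem IvX_start (h : CZ X j₀ Q' b z v v' σ σ') (hR : z.R = Ro ((X.c.D.par X.Y).rho b))
    (hc : Cop z) :
    IvX (X.c.D.par X.Y) X.S' b z.M z.M' (xZ z.M v.A z.M' v'.A) (yZ z.M v.A z.M' v'.A)
      (gZ z.M v.B v.A) (gZ' z.M' v'.B v'.A) (SE z.M v.B v.A z.M' v'.B v'.A) (stS z) v v' σ σ' := by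
  have hz := CZ_FZ (RP := fun _ => True) h trivial
  refine ⟨hz, fun e _ => rfl, ⟨b, hR, h.bp, hz.pb, le_rfl⟩, hc, fun e he => ?_,
    Or.inl h.A, Or.inl h.A'⟩
  exact ⟨(hz.pos e he).1, (hz.pos e he).2, dvd_rfl, dvd_rfl⟩

/-! ### the predicates -/

/-- the threshold scale -/
noncomputable def TX (b : ℕ) : ℝ := max 4 (max ((2 * (CM * Real.log b)) ^ 4) (Real.log b ^ 2))

lemma TX4 (b : ℕ) : 4 ≤ TX b := le_max_left _ _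
lemma TXc (b : ℕ) : (2 * (CM * Real.log b)) ^ 4 ≤ TX b :=
  (le_max_left _ _).trans (le_max_right _ _)
lemma TXl (b : ℕ) : Real.log b ^ 2 ≤ TX b := (le_max_right _ _).trans (le_max_right _ _)

/-- **predicates of the pairs of a crossing state** with scale pairs `s₀` -/
structure PrX (X : Ctx N γ p0 P₀) (Qp : NS → IT → Prop) (b : ℕ) (s₀ : ℕ × ℕ → ℝ × ℝ)
    (PV : ℕ × ℕ → Prop) (Pc Px : ℕ → ℕ × ℕ → Prop) : Prop where
  pv : ∀ (l : ℕ) (e : ℕ × ℕ), l.Prime → p0 < l → l ≤ b → LkG (X.c.D.par X.Y) Qp (s₀ e) l e →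
    PV e
  pc : ∀ (l : ℕ) (e : ℕ × ℕ), LkG (X.c.D.par X.Y) Qp (s₀ e) l e → Pc l e
  px : ∀ (l : ℕ) (e : ℕ × ℕ), LkG (X.c.D.par X.Y) Qp (l * (s₀ e).1, l * (s₀ e).2) l e → Px l e

section st
variable {Qp : NS → IT → Prop} {Mz Mz' : ℕ} {x0 y0 g g' : ℕ × ℕ → ℕ} {s₀ : ℕ × ℕ → ℝ × ℝ}
  {PV : ℕ × ℕ → Prop} {Pc Px : ℕ → ℕ × ℕ → Prop} {s : X.Sta} {u u' : NS} {τ τ' : IT} {T : ℝ}
  {Ch : ℝ}

/-- the pairs which count at a state satisfy `PV` -/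
lemma PrX.pe (hP : PrX X Qp b s₀ PV Pc Px)
    (hI : IvX (X.c.D.par X.Y) X.S' b Mz Mz' x0 y0 g g' s₀ s u u' τ τ')
    (hC : LCp (X.c.D.par X.Y) p0 b s)
    (hy : YI (X.c.D.par X.Y) (fun _ => ∅) Qp RP s u u' τ τ') {e : ℕ × ℕ}
    (he : e ∈ Ep (X.c.D.par X.Y) X.S' s τ τ') {R : Finset (X.c.Lam × X.c.Lam)} (hR : R ⊆ s.R)
    (hPE : e ∈ (X.c.D.par X.Y).PE R ((X.c.D.par X.Y).uA s.M u.B u.A τ s.A 1)
      ((X.c.D.par X.Y).uA s.M' u'.B u'.A τ' s.A' 1)) : PV e := by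
  obtain ⟨l, h1, h2, h3, h4, h5⟩ := hC
  refine hP.pv l e h2 h5 h4 ?_
  rw [← hI.sc e he]
  exact lkg_at h1 h3 hy he hR hPE

/-- hypotheses on the node predicate -/
structure QH (X : Ctx N γ p0 P₀) (j₀ : X.c.Lam) (b : ℕ) (Ch : ℝ) (Qp : NS → IT → Prop) : Prop where
  nd : ∀ u τ, Qp u τ → NDt X.par (w X.ψ) X.c.t u τ
  lv : ∀ u τ, Qp u τ → u.n ≤ top X.S
  qx : ∀ u τ, Qp u τ → QX X j₀ Ch u τ
  lb : ∀ u τ, Qp u τ → ∀ l : ℕ, l.Prime → l < u.n → l ≤ b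

lemma QH.ok (h : QH X j₀ b Ch Qp) : ∀ u τ, Qp u τ → NodeOk X.par (w X.ψ) u τ :=
  fun u τ hq => (h.nd u τ hq).self.node

lemma QH.yh (h : QH X j₀ b Ch Qp) :
    YH (X.c.D.par X.Y) (fun _ => (∅ : Finset X.c.Lam)) X.par (w X.ψ) Qp := YH.strip h.ok

/-- facts of the context -/
structure HC (X : Ctx N γ p0 P₀) (Ch : ℝ) : Prop where
  cs : CStop25.CS (X.c.D.par X.Y) X.c.rr X.S' X.c.t.uq X.par (2 * CT) (1 / 2) Ch p0
  p03 : 3 ≤ p0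
  pp0 : X.par.p0 = p0
  lam : ∀ p, X.c.lam p = 0
  eta : ∀ p, etaL X.c.wp p ≤ 1
  dep : ∀ p : ℕ, p0 ≤ p → 2 * Real.exp (Real.log p ^ (4 / 5 : ℝ)) ≤ 2 ^ X.c.wp.dep p
  ix : IX (X.c.D.par X.Y) X.c.t.mt ParF5.rg

lemma rr_le {q : ℕ} (hq : q ∈ X.S') : X.c.rr q * tq q ≤ w X.ψ q := by
  rw [Step588.ctx_rr X hq]
  unfold Crest.Agent.R4.Soft104.w tq
  have h1 := X.sys.nonneg q
  have h2 : (0 : ℝ) ≤ (Nat.totient q : ℝ) / q := by positivity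
  nlinarith

/-! ### merges -/

/-- **merges at the live states** -/
theorem ctx_sh (hH : HC X Ch) (hQ : QH X j₀ b Ch Qp) (hP : PrX X Qp b s₀ PV Pc Px) {KH : ℝ}
    (hKH : 64 * CT ^ 2 ≤ KH) (Lo : ℝ × ℝ → ℕ × ℕ → Prop)
    (hI : IvX (X.c.D.par X.Y) X.S' b Mz Mz' x0 y0 g g' s₀ s u u' τ τ')
    (hC : LCp (X.c.D.par X.Y) p0 b s)
    (hy : YI (X.c.D.par X.Y) (fun _ => ∅) Qp RP s u u' τ τ') (hE : ¬ End stpX s) :
    eSHRC stpX s ≤ ∑ e ∈ Ep (X.c.D.par X.Y) X.S' s τ τ',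
      (lG (X.c.D.par X.Y) (w X.ψ) ParF5.rg (HG KH (1 / 4)) stpX s u u' τ τ' e +
        lM (X.c.D.par X.Y) ParF5.rg (fun _ => VU PV Lo X.c.rr X.c.γ) stpX s u u' τ τ' e) := by
  have hrr := (X.ok.rad X.Y).pos
  have hKH0 : 0 ≤ KH := le_trans (by positivity) hKH
  have hlf : ¬ (s.t.isLeaf ∧ s.t'.isLeaf) := fun h => hE (Or.inl h)
  have hL : ¬ s.t.isLeaf := fun h => hE (Or.inr (Or.inl h))
  have hR : ¬ s.t'.isLeaf := fun h => hE (Or.inr (Or.inr (Or.inl h)))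
  have l1 : ¬ isL τ := RawB25.not_isL_L hy hL
  have l2 : ¬ isL τ' := RawB25.not_isL_R hy hR
  obtain ⟨hpp, lw1, lw2⟩ := hy.lev hQ.yh hlf
  refine mg_locG hQ.yh (fun q => Crest.Agent.R4.Soft104.w_nonneg X.sys.nonneg q)
    (fun j hj a => X.om_zero hj _ a) (HG_nonneg hKH0 _)
    (fun s e => SameIx30.VU_nonneg hrr PV Lo _ s e) hy ?_
  intro hb e he hPE
  have hPV := hP.pe hI hC hy he Finset.sdiff_subset hPE
  obtain ⟨he1, he2⟩ := Finset.mem_product.1 he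
  have q1 := hQ.qx _ _ hy.L.q.self
  have q2 := hQ.qx _ _ hy.R.q.self
  have d1 := hQ.nd _ _ hy.L.q.self
  have d2 := hQ.nd _ _ hy.R.q.self
  have n1 := (WalkIT579.nodeOk_hi d1.self.node l1).2.1
  have e1 : s.t.top = WalkIT579.tp τ := by rw [hy.L.S.eq]; exact WalkIT579.toDT_top _ _ _ _ τ
  have t1 : WalkIT579.tp τ ≤ s.p := by rw [← e1]; exact le_max_left _ _
  have hpp0 := hH.pp0
  have hp : p0 ≤ s.p := by omega
  have hpt : s.p ≤ top X.S := by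
    obtain ⟨k1, k2, -⟩ := top_of_nodeOk d1.self.node l1
    obtain ⟨k3, k4, -⟩ := top_of_nodeOk d2.self.node l2
    have e2 : s.t'.top = WalkIT579.tp τ' := by rw [hy.R.S.eq]; exact WalkIT579.toDT_top _ _ _ _ τ'
    have m1 := hQ.lv _ _ hy.L.q.self
    have m2 := hQ.lv _ _ hy.R.q.self
    exact max_le (by omega) (by omega)
  have key := ctx_iF d1 d2 q1.ob q2.ob (fun q hq => rr_le hq) (by have := hH.p03; omega) hp hpt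
    (hH.lam _) (hH.dep _ hp) (lw1.1.resolve_left l1) (lw2.1.resolve_left l2) hy.mL.pos hy.mR.pos
    hy.circ hI.co (SameLb34.IXR_sdiff X.Y s.p s.R) s.A s.A' (Qi_items he1) (Qi_items he2)
    (mem_Qi.1 he1).2.1 (mem_Qi.1 he2).2.1 (PP := PV) hPV
  refine key.trans (add_le_add ?_ ?_)
  · refine mul_le_mul_of_nonneg_left (WmfL25.HG_mono (by positivity) hKH (by norm_num) _) ?_
    exact pm_nonneg (fun q => Crest.Agent.R4.Soft104.w_nonneg X.sys.nonneg q)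
      (c_nonneg_of_nd d1.self.node) (c_nonneg_of_nd d2.self.node) e
  · exact mul_le_mul_of_nonneg_left (SameIx30.Vm_le_VU hrr PV Lo _ _ _) (by positivity)

/-! ### ends -/

/-- the values of the walk -/
noncomputable abbrev VsX (X : Ctx N γ p0 P₀) (PV : ℕ × ℕ → Prop) (x0 y0 : ℕ × ℕ → ℕ) (T : ℝ) :
    ℝ × ℝ → ℕ × ℕ → ℝ := VU PV (LoSt T p0 X.c.rr x0 y0) X.c.rr X.c.γ

noncomputable abbrev VcX (X : Ctx N γ p0 P₀) (Pc : ℕ → ℕ × ℕ → Prop) (x0 y0 : ℕ × ℕ → ℕ) (T : ℝ) :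
    ℕ → ℝ × ℝ → ℕ × ℕ → ℝ := VcL Pc X.c.γ X.c.rr (LoSt T p0 X.c.rr x0 y0)

noncomputable abbrev VxX (X : Ctx N γ p0 P₀) (Px : ℕ → ℕ × ℕ → Prop) (x0 y0 : ℕ × ℕ → ℕ) (T : ℝ) :
    ℕ → ℝ × ℝ → ℕ × ℕ → ℝ := VxL Px X.c.γ X.c.rr (LoSt T p0 X.c.rr x0 y0)

/-- the potential of the merges -/
noncomputable abbrev PhX (X : Ctx N γ p0 P₀) (KH : ℝ) (V : ℝ × ℝ → ℕ × ℕ → ℝ) (s : X.Sta) (u u' : NS)
    (τ τ' : IT) (e : ℕ × ℕ) : ℝ :=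
  PhiG (X.c.D.par X.Y) (w X.ψ) X.c.t.mt ParF5.rg (HG KH (1 / 4)) s u u' τ τ' e +
    PhiM (X.c.D.par X.Y) X.c.t.mt ParF5.rg (fun _ => V) s u u' τ τ' e

/-- **the bound of the (leaf, tree) states** -/
def LTB (X : Ctx N γ p0 P₀) (j₀ : X.c.Lam) (Qp : NS → IT → Prop)
    (RP : Finset (X.c.Lam × X.c.Lam) → Prop) (b : ℕ) (B K Kf KH : ℝ) : Prop :=
  ∀ (Mz Mz' : ℕ) (x0 y0 g g' : ℕ × ℕ → ℕ) (s₀ : ℕ × ℕ → ℝ × ℝ) (PV : ℕ × ℕ → Prop)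
    (Pc Px : ℕ → ℕ × ℕ → Prop) (T : ℝ) (s : X.Sta) (u u' : NS) (S : Finset ℕ) (τ' : IT),
    0 < Mz → 0 < Mz' → (∑ l ∈ US Mz Mz' b, 1 / (l : ℝ) ≤ (b : ℝ) ^ (-(1 / 3) : ℝ)) → TX b ≤ T →
    PrX X Qp b s₀ PV Pc Px →
    IvX (X.c.D.par X.Y) X.S' b Mz Mz' x0 y0 g g' s₀ s u u' (.leaf S) τ' →
    LCp (X.c.D.par X.Y) p0 b s →
    YI (X.c.D.par X.Y) (fun _ => ∅) Qp RP s u u' (.leaf S) τ' → ¬ isL τ' →
    Xs (X.tm j₀) B s ≤ ∑ e ∈ Ep (X.c.D.par X.Y) X.S' s (.leaf S) τ',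
      (K * potS (VsX X PV x0 y0 T) (VcX X Pc x0 y0 T) (VxX X Px x0 y0 T) s u u' (.leaf S) τ' e +
        Kf * PhX X KH (VsX X PV x0 y0 T) s u u' (.leaf S) τ' e)

lemma Xs_anti {Λ κ : Type*} [Fintype Λ] [DecidableEq Λ] [Fintype κ] [DecidableEq κ] [WRel κ]
    {μ : TrG Λ κ → Finset Λ → ℝ} {B B' : ℝ} {s : St Λ κ} (h : B ≤ B') (h0 : 0 ≤ μ s.t.g s.A)
    (h0' : 0 ≤ μ s.t'.g s.A') : Xs μ B' s ≤ Xs μ B s := by
  unfold Xs
  have := mul_le_mul_of_nonneg_right h (mul_nonneg h0 h0')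
  exact max_le_max le_rfl (by linarith)

/-- nonnegativity of the potential of the merges -/
lemma PhX_nonneg (hQ : QH X j₀ b Ch Qp) {KH : ℝ} (hKH : 0 ≤ KH) {V : ℝ × ℝ → ℕ × ℕ → ℝ}
    (hV : ∀ s e, 0 ≤ V s e) (hy : YI (X.c.D.par X.Y) (fun _ => ∅) Qp RP s u u' τ τ')
    (e : ℕ × ℕ) : 0 ≤ PhX X KH V s u u' τ τ' e := by
  obtain ⟨hc, hc'⟩ := YI.c_nonneg hQ.yh hy
  exact add_nonneg (PhiG_nonneg (HG_nonneg hKH _)
    (fun q => Crest.Agent.R4.Soft104.w_nonneg X.sys.nonneg q) s hc hc' τ τ' e)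
    (PhiM_nonneg (fun _ => hV) s u u' τ τ' e)

/-- **stops with two nonleaf sides** -/
theorem en_tree (hH : HC X Ch) (hQ : QH X j₀ b Ch Qp) (hP : PrX X Qp b s₀ PV Pc Px)
    (hMz : 0 < Mz) (hMz' : 0 < Mz')
    (hmz : ∑ l ∈ US Mz Mz' b, 1 / (l : ℝ) ≤ (b : ℝ) ^ (-(1 / 3) : ℝ))
    (hI : IvX (X.c.D.par X.Y) X.S' b Mz Mz' x0 y0 g g' s₀ s u u' τ τ')
    (hC : LCp (X.c.D.par X.Y) p0 b s)
    (hy : YI (X.c.D.par X.Y) (fun _ => ∅) Qp RP s u u' τ τ') (hL : ¬ s.t.isLeaf)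
    (hR : ¬ s.t'.isLeaf) (hst : stp2 s.M s.M' s.p) {B : ℝ} (hB : 16 * (Ch ^ 2 + 5) ≤ B) :
    Xs (X.tm j₀) B s ≤ ∑ e ∈ Ep (X.c.D.par X.Y) X.S' s τ τ',
      potS (VsX X PV x0 y0 T) (VcX X Pc x0 y0 T) (VxX X Px x0 y0 T) s u u' τ τ' e := by
  have hrr := (X.ok.rad X.Y).pos
  refine ctx_stop hH.cs hQ.ok (fun u τ hq => (hQ.qx u τ hq).st) hy hI.fz hL hR hst hMz hMz' hmz
    (Lo := LoSt T p0 X.c.rr x0 y0) (fun sc e p hp hS hn => (LoSt_stop hp hS hn).1)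
    (fun s e => SameIx30.VU_nonneg hrr _ _ _ s e)
    (fun _ _ _ => VcL_nonneg hrr _ _ _) (fun _ _ _ => VxL_nonneg hrr _ _ _) (fun e he he' => ?_) hB
  have hPV := hP.pe hI hC hy he' Finset.Subset.rfl he
  show _ ≤ VU PV (LoSt T p0 X.c.rr x0 y0) X.c.rr X.c.γ _ _
  unfold SameIx30.VU
  rw [if_pos hPV]
  exact le_add_of_nonneg_right (SameIx30.Vm_nonneg hrr _ _ _)

/-- **ends with two leaf sides** -/
theorem en_leaf2 (hH : HC X Ch) (hQ : QH X j₀ b Ch Qp) (hP : PrX X Qp b s₀ PV Pc Px)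
    (hI : IvX (X.c.D.par X.Y) X.S' b Mz Mz' x0 y0 g g' s₀ s u u' τ τ')
    (hC : LCp (X.c.D.par X.Y) p0 b s) (hb : 2 ≤ b) (hT : TX b ≤ T)
    (hy : YI (X.c.D.par X.Y) (fun _ => ∅) Qp RP s u u' τ τ') (hL : isL τ) (hR : isL τ') {B : ℝ}
    (hB : 4 * (LeafOs30.CLL * Real.exp 2 + 2 * (4 * CM ^ 2)) ≤ B) :
    Xs (X.tm j₀) B s ≤ ∑ e ∈ Ep (X.c.D.par X.Y) X.S' s τ τ',
      potS (VsX X PV x0 y0 T) (VcX X Pc x0 y0 T) (VxX X Px x0 y0 T) s u u' τ τ' e := by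
  have hrr := (X.ok.rad X.Y).pos
  obtain ⟨S, rfl⟩ : ∃ S, τ = .leaf S := by
    cases τ with
    | leaf S => exact ⟨S, rfl⟩
    | _ => exact absurd hL id
  obtain ⟨S', rfl⟩ : ∃ S', τ' = .leaf S' := by
    cases τ' with
    | leaf S => exact ⟨S, rfl⟩
    | _ => exact absurd hR id
  have q1 := hQ.qx _ _ hy.L.q.self
  have q2 := hQ.qx _ _ hy.R.q.self
  have T4 := (TX4 b).trans hT
  have key := EndP25.ctx_LL_P (X := X) (j₀ := j₀) hB (q1.lf S rfl) (q2.lf S' rfl) hy.st hy.L.il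
    hy.R.il q1.tm q2.tm (x := b) (by exact_mod_cast hb)
    (fun l hl hlt => by exact_mod_cast hQ.lb _ _ hy.L.q.self l hl hlt)
    (fun l hl hlt => by exact_mod_cast hQ.lb _ _ hy.R.q.self l hl hlt)
    (Lo := LoSt T p0 X.c.rr x0 y0) (x0 := x0) (y0 := y0) (LoX_LoSt (by linarith))
    (fun sc e hn => ((TXl b).trans hT).trans (LoSt_T sc e hn)) hI.jc
    (Vs := VsX X PV x0 y0 T) (fun s e => SameIx30.VU_nonneg hrr _ _ _ s e) ?_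
  · refine key.trans (Finset.sum_le_sum fun e _ => ?_)
    exact Vs_le_pot (fun s e => SameIx30.VU_nonneg hrr _ _ _ s e)
      (fun _ _ _ => VcL_nonneg hrr _ _ _) (fun _ _ _ => VxL_nonneg hrr _ _ _) _ _ _ _ _ _ _ _ _
  · intro e he he'
    have hPV := hP.pe hI hC hy he' Finset.Subset.rfl he
    show _ ≤ VU PV (LoSt T p0 X.c.rr x0 y0) X.c.rr X.c.γ _ _
    unfold SameIx30.VU
    rw [if_pos hPV]
    exact le_add_of_nonneg_right (SameIx30.Vm_nonneg hrr _ _ _)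

lemma swP_LoSt {T : ℝ} {p0 : ℕ} {ρ : ℕ → ℝ} {x0 y0 : ℕ × ℕ → ℕ} :
    swP (LoSt T p0 ρ x0 y0) = LoSt T p0 ρ (swE y0) (swE x0) := by
  funext s e
  exact propext (LoSt_sw s e)

lemma US_comm (M M' p : ℕ) : US M M' p = US M' M p := by
  unfold US
  rw [mul_comm]

/-- predicates, exchange of the sides -/
lemma PrX.sw (hP : PrX X Qp b s₀ PV Pc Px) :
    PrX X Qp b (fun e => ((s₀ (e.2, e.1)).2, (s₀ (e.2, e.1)).1)) (swE PV) (fun l => swE (Pc l))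
      (fun l => swE (Px l)) where
  pv := fun l e hl h0 hb h => hP.pv l (e.2, e.1) hl h0 hb (LkG_sw h)
  pc := fun l e h => hP.pc l (e.2, e.1) (LkG_sw h)
  px := fun l e h => hP.px l (e.2, e.1) (LkG_sw h)

lemma LCp_sw {Λ κ : Type*} [Fintype Λ] [DecidableEq Λ] [Fintype κ] [DecidableEq κ] [WRel κ]
    {D : Par Λ κ} {n₀ b : ℕ} {s : St Λ κ} (h : LCp D n₀ b s) : LCp D n₀ b (swS s) := by
  obtain ⟨l, h1, h2, h3, h4, h5⟩ := h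
  exact ⟨l, h1, h2, by rw [swS_p]; exact h3, h4, h5⟩

/-- invariants, exchange of the sides -/
lemma IvX.sw (hI : IvX (X.c.D.par X.Y) X.S' b Mz Mz' x0 y0 g g' s₀ s u u' τ τ') :
    IvX (X.c.D.par X.Y) X.S' b Mz' Mz (swE y0) (swE x0) (swE g') (swE g)
      (fun e => ((s₀ (e.2, e.1)).2, (s₀ (e.2, e.1)).1)) (swS s) u' u τ' τ where
  fz := FZ_sw hI.fz
  sc := fun e he => by
    have h1 := hI.sc _ (mem_Ep_sw.1 he)
    have h2 := SE_sw s.M u.B u.A s.M' u'.B u'.A (e.2, e.1)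
    show SE s.M' u'.B u'.A s.M u.B u.A e = _
    rw [show e = ((e.2, e.1).2, (e.2, e.1).1) from rfl, h2, h1]
  lc := by
    obtain ⟨l, h1, h2, h3, h4⟩ := hI.lc
    exact ⟨l, h1, h2, by rw [swS_p]; exact h3, h4⟩
  co := Cop_sw hI.co
  jc := fun e he => by
    have h1 := JC_sw (hI.jc _ (mem_Ep_sw.1 he))
    exact h1
  pop := ⟨hI.pop.2, hI.pop.1⟩

/-- **the (tree, leaf) states** -/
theorem en_treeLeaf {B K Kf KH : ℝ} (hLT : LTB X j₀ Qp RP b B K Kf KH)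
    (hP : PrX X Qp b s₀ PV Pc Px) (hMz : 0 < Mz) (hMz' : 0 < Mz')
    (hmz : ∑ l ∈ US Mz Mz' b, 1 / (l : ℝ) ≤ (b : ℝ) ^ (-(1 / 3) : ℝ)) (hT : TX b ≤ T)
    {S : Finset ℕ}
    (hI : IvX (X.c.D.par X.Y) X.S' b Mz Mz' x0 y0 g g' s₀ s u u' τ (.leaf S))
    (hC : LCp (X.c.D.par X.Y) p0 b s)
    (hy : YI (X.c.D.par X.Y) (fun _ => ∅) Qp RP s u u' τ (.leaf S)) (hL : ¬ isL τ) :
    Xs (X.tm j₀) B s ≤ ∑ e ∈ Ep (X.c.D.par X.Y) X.S' s τ (.leaf S),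
      (K * potS (VsX X PV x0 y0 T) (VcX X Pc x0 y0 T) (VxX X Px x0 y0 T) s u u' τ (.leaf S) e +
        Kf * PhX X KH (VsX X PV x0 y0 T) s u u' τ (.leaf S) e) := by
  obtain ⟨l, hR, hlp, -, -⟩ := hI.lc
  have key := hLT Mz' Mz (swE y0) (swE x0) (swE g') (swE g) _ (swE PV) _ _ T (swS s) u' u S τ hMz'
    hMz (by rw [US_comm]; exact hmz) hT hP.sw hI.sw (LCp_sw hC) (YI_sw hy) hL
  rw [Xs_sw hR, sum_Ep_sw] at key
  refine key.trans (le_of_eq (Finset.sum_congr rfl fun e he => ?_))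
  have p1 := SE_pos s.M u.B u.A s.M' u'.B u'.A e
  have p2 := SE_pos' s.M u.B u.A s.M' u'.B u'.A e
  have hV : VsX X (swE PV) (swE y0) (swE x0) T
      ((SE s.M u.B u.A s.M' u'.B u'.A e).2, (SE s.M u.B u.A s.M' u'.B u'.A e).1) (e.2, e.1) =
      VsX X PV x0 y0 T (SE s.M u.B u.A s.M' u'.B u'.A e) e := by
    unfold VsX
    rw [← swP_LoSt]
    exact VU_sw PV _ _ _ p1 p2 e
  congr 1
  · congr 1
    unfold VcX VxX
    rw [← swP_LoSt]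
    exact potL_sw Pc Px _ _ _ _ _ _ _ _ _ _ _ e hV
  · congr 1
    unfold PhX
    rw [PhiG_sw _ hR, PhiM_sw hR e hV]

/-- **stops and ends** -/
theorem ctx_en (hH : HC X Ch) (hQ : QH X j₀ b Ch Qp) (hP : PrX X Qp b s₀ PV Pc Px) (hb : 2 ≤ b)
    {B K Kf KH : ℝ} (hLT : LTB X j₀ Qp RP b B K Kf KH) (hK : 1 ≤ K) (hKf : 0 ≤ Kf) (hKH : 0 ≤ KH)
    (hB1 : 16 * (Ch ^ 2 + 5) ≤ B) (hB2 : 4 * (LeafOs30.CLL * Real.exp 2 + 2 * (4 * CM ^ 2)) ≤ B)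
    (hMz : 0 < Mz) (hMz' : 0 < Mz')
    (hmz : ∑ l ∈ US Mz Mz' b, 1 / (l : ℝ) ≤ (b : ℝ) ^ (-(1 / 3) : ℝ)) (hT : TX b ≤ T)
    (hI : IvX (X.c.D.par X.Y) X.S' b Mz Mz' x0 y0 g g' s₀ s u u' τ τ')
    (hC : LCp (X.c.D.par X.Y) p0 b s)
    (hy : YI (X.c.D.par X.Y) (fun _ => ∅) Qp RP s u u' τ τ') (hE : End stpX s) :
    Xs (X.tm j₀) B s ≤ ∑ e ∈ Ep (X.c.D.par X.Y) X.S' s τ τ',
      (K * potS (VsX X PV x0 y0 T) (VcX X Pc x0 y0 T) (VxX X Px x0 y0 T) s u u' τ τ' e +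
        Kf * PhX X KH (VsX X PV x0 y0 T) s u u' τ τ' e) := by
  have hrr := (X.ok.rad X.Y).pos
  have hV0 : ∀ s e, 0 ≤ VsX X PV x0 y0 T s e := fun s e => SameIx30.VU_nonneg hrr _ _ _ s e
  have low : ∀ {Y : ℝ}, Y ≤ ∑ e ∈ Ep (X.c.D.par X.Y) X.S' s τ τ',
        potS (VsX X PV x0 y0 T) (VcX X Pc x0 y0 T) (VxX X Px x0 y0 T) s u u' τ τ' e →
      Y ≤ ∑ e ∈ Ep (X.c.D.par X.Y) X.S' s τ τ',
      (K * potS (VsX X PV x0 y0 T) (VcX X Pc x0 y0 T) (VxX X Px x0 y0 T) s u u' τ τ' e +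
        Kf * PhX X KH (VsX X PV x0 y0 T) s u u' τ τ' e) := by
    intro Y h
    refine h.trans (Finset.sum_le_sum fun e _ => ?_)
    have h1 := potS_nonneg (Vs := VsX X PV x0 y0 T) (Vc := VcX X Pc x0 y0 T)
      (Vx := VxX X Px x0 y0 T) hV0 (fun _ _ _ => VcL_nonneg hrr _ _ _)
      (fun _ _ _ => VxL_nonneg hrr _ _ _) s u u' τ τ' e
    have h2 := PhX_nonneg hQ hKH hV0 hy e
    have h3 := mul_nonneg hKf h2
    nlinarith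
  have iL : ∀ {σ : IT}, isL σ → ∃ S, σ = .leaf S := by
    intro σ h
    cases σ with
    | leaf S => exact ⟨S, rfl⟩
    | _ => exact absurd h id
  by_cases l1 : isL τ <;> by_cases l2 : isL τ'
  · exact low (en_leaf2 hH hQ hP hI hC hb hT hy l1 l2 hB2)
  · obtain ⟨S, rfl⟩ := iL l1
    exact hLT Mz Mz' x0 y0 g g' s₀ PV Pc Px T s u u' S τ' hMz hMz' hmz hT hP hI hC hy l2
  · obtain ⟨S, rfl⟩ := iL l2
    exact en_treeLeaf hLT hP hMz hMz' hmz hT hI hC hy l1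
  · have k1 : ¬ s.t.isLeaf := by
      rw [hy.L.S.eq]
      exact fun h => l1 ((WalkIT579.toDT_leaf _ _ _ _ _).1 h)
    have k2 : ¬ s.t'.isLeaf := by
      rw [hy.R.S.eq]
      exact fun h => l2 ((WalkIT579.toDT_leaf _ _ _ _ _).1 h)
    have k3 : stp2 s.M s.M' s.p := by
      rcases hE with h | h | h | h
      · exact absurd h.1 k1
      · exact absurd h k1
      · exact absurd h k2
      · exact h
    exact low (en_tree hH hQ hP hMz hMz' hmz hI hC hy k1 k2 k3 hB1)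

/-- **the local costs of the cross walk in a context** -/
theorem ctx_LocH (hH : HC X Ch) (hQ : QH X j₀ b Ch Qp) (hP : PrX X Qp b s₀ PV Pc Px) (hb : 2 ≤ b)
    {B K Kf KH : ℝ} (hLT : LTB X j₀ Qp RP b B K Kf KH) (hK : 1 ≤ K) (hKf : 1 ≤ Kf)
    (hKH : 64 * CT ^ 2 ≤ KH)
    (hB1 : 16 * (Ch ^ 2 + 5) ≤ B) (hB2 : 4 * (LeafOs30.CLL * Real.exp 2 + 2 * (4 * CM ^ 2)) ≤ B)
    (hMz : 0 < Mz) (hMz' : 0 < Mz')
    (hmz : ∑ l ∈ US Mz Mz' b, 1 / (l : ℝ) ≤ (b : ℝ) ^ (-(1 / 3) : ℝ)) (hT : TX b ≤ T) :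
    LocH (X.c.D.par X.Y) X.S' (fun _ => ∅) Qp RP stpX
      (fun s u u' τ τ' => IvX (X.c.D.par X.Y) X.S' b Mz Mz' x0 y0 g g' s₀ s u u' τ τ' ∧
        LCp (X.c.D.par X.Y) p0 b s)
      (lE stpX (fun s u u' τ τ' e => Kf *
          (lG (X.c.D.par X.Y) (w X.ψ) ParF5.rg (HG KH (1 / 4)) stpX s u u' τ τ' e +
          lM (X.c.D.par X.Y) ParF5.rg (fun _ => VsX X PV x0 y0 T) stpX s u u' τ τ' e))
        (fun s u u' τ τ' e => Kf * PhX X KH (VsX X PV x0 y0 T) s u u' τ τ' e))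
      (VsX X PV x0 y0 T) (VcX X Pc x0 y0 T) (VxX X Px x0 y0 T) K (fun _ => 0) (fun _ => 0)
      (X.tm j₀) B := by
  have hrr := (X.ok.rad X.Y).pos
  have hV0 : ∀ s e, 0 ≤ VsX X PV x0 y0 T s e := fun s e => SameIx30.VU_nonneg hrr _ _ _ s e
  have hW : ∀ q, 0 ≤ w X.ψ q := fun q => Crest.Agent.R4.Soft104.w_nonneg X.sys.nonneg q
  have hKH0 : 0 ≤ KH := le_trans (by positivity) hKH
  refine locH_of (by linarith) (fun s u u' τ τ' hI hy c hc hch => ?_) ?_ ?_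
  · have hlf := CopM34.nxt0C_live (mem_nxtC.1 hc).1
    have hn := live_p0 hQ.yh hy hlf
    have hpp0 := hH.pp0
    exact ⟨hI.1.next hQ.yh hy hc hch,
      hI.2.next (hy.lev hQ.yh hlf).1 (by omega) hI.1.fz.pb hch⟩
  · intro s u u' τ τ' hI hy hE
    refine (ctx_sh hH hQ hP hKH (LoSt T p0 X.c.rr x0 y0) hI.1 hI.2 hy hE).trans
      (Finset.sum_le_sum fun e _ => ?_)
    obtain ⟨hc, hc'⟩ := YI.c_nonneg hQ.yh hy
    refine le_mul_of_one_le_left (add_nonneg ?_ (lM_nonneg (fun _ => hV0) stpX s u u' τ τ' e)) hKf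
    unfold lG
    split_ifs
    · exact mul_nonneg (pm_nonneg hW hc hc' e) (mul_nonneg (cf_nonneg _ _) (HG_nonneg hKH0 _ _))
    · exact le_rfl
  · intro s u u' τ τ' hI hy hE
    exact ctx_en hH hQ hP hb hLT hK (by linarith) hKH0 hB1 hB2 hMz hMz' hmz hT hI.1 hI.2 hy hE

/-- **the pair supersolution** -/
theorem ctx_PSup (hH : HC X Ch) (hQ : QH X j₀ b Ch Qp) {Kf KH : ℝ} (hKf : 0 ≤ Kf) (hKH : 0 ≤ KH)
    (Iv : X.Sta → NS → NS → IT → IT → Prop) :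
    PSup (X.c.D.par X.Y) X.S' (fun _ => ∅) Qp RP stpX Iv
      (lE stpX (fun s u u' τ τ' e => Kf *
          (lG (X.c.D.par X.Y) (w X.ψ) ParF5.rg (HG KH (1 / 4)) stpX s u u' τ τ' e +
          lM (X.c.D.par X.Y) ParF5.rg (fun _ => VsX X PV x0 y0 T) stpX s u u' τ τ' e))
        (fun s u u' τ τ' e => Kf * PhX X KH (VsX X PV x0 y0 T) s u u' τ τ' e))
      (fun s u u' τ τ' e => Kf * PhX X KH (VsX X PV x0 y0 T) s u u' τ τ' e) := by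
  have hrr := (X.ok.rad X.Y).pos
  have hV0 : ∀ s e, 0 ≤ VsX X PV x0 y0 T s e := fun s e => SameIx30.VU_nonneg hrr _ _ _ s e
  have hW : ∀ q, 0 ≤ w X.ψ q := fun q => Crest.Agent.R4.Soft104.w_nonneg X.sys.nonneg q
  refine PSup_lE ((PSup_mg2 hQ.yh hW hH.ix (HG_nonneg hKH _) hV0 stpX Iv).smul hKf) ?_ ?_
  · intro s u u' τ τ' hy e
    obtain ⟨hc, hc'⟩ := YI.c_nonneg hQ.yh hy
    refine mul_nonneg hKf (add_nonneg ?_ (lM_nonneg (fun _ => hV0) stpX s u u' τ τ' e))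
    unfold lG
    split_ifs
    · exact mul_nonneg (pm_nonneg hW hc hc' e) (mul_nonneg (cf_nonneg _ _) (HG_nonneg hKH _ _))
    · exact le_rfl
  · intro s u u' τ τ' hy e
    exact mul_nonneg hKf (PhX_nonneg hQ hKH hV0 hy e)

end st

/-! ### the crossing state -/

lemma LkG.mono {Λ κ : Type*} [Fintype Λ] [DecidableEq Λ] [Fintype κ] [DecidableEq κ] [WRel κ]
    {D : Par Λ κ} {Qp Qp' : NS → IT → Prop} (h : ∀ u τ, Qp u τ → Qp' u τ) {s₀ : ℝ × ℝ} {l : ℕ}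
    {e : ℕ × ℕ} (k : LkG D Qp s₀ l e) : LkG D Qp' s₀ l e := by
  obtain ⟨M, v, t, A, c, M', v', t', A', c', h1, h2, h3, h4, h5⟩ := k
  exact ⟨M, v, t, A, c, M', v', t', A', c',
    ⟨h1.M0, h1.b0, h1.F, h1.W, h1.hc, All.mono h h1.all, h1.ok, h1.it, h1.nx⟩,
    ⟨h2.M0, h2.b0, h2.F, h2.W, h2.hc, All.mono h h2.all, h2.ok, h2.it, h2.nx⟩, h3, h4, h5⟩

/-- pairs which count at a column of the crossing state -/
def PcZ (X : Ctx N γ p0 P₀) (j₀ : X.c.Lam) (Q' : NS → IT → Prop) (z : X.Sta) (v v' : NS) (l : ℕ)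
    (e : ℕ × ℕ) : Prop :=
  LkG (X.c.D.par X.Y) (QE X j₀ Q') (SE z.M v.B v.A z.M' v'.B v'.A e) l e

/-- pairs which count at an exit of the crossing state -/
def PxZ (X : Ctx N γ p0 P₀) (j₀ : X.c.Lam) (Q' : NS → IT → Prop) (z : X.Sta) (v v' : NS) (l : ℕ)
    (e : ℕ × ℕ) : Prop :=
  LkG (X.c.D.par X.Y) (QE X j₀ Q')
    (l * (SE z.M v.B v.A z.M' v'.B v'.A e).1, l * (SE z.M v.B v.A z.M' v'.B v'.A e).2) l e

/-- pairs which count at some column of the crossing state -/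
def PVZ (X : Ctx N γ p0 P₀) (j₀ : X.c.Lam) (Q' : NS → IT → Prop) (b : ℕ) (z : X.Sta) (v v' : NS)
    (e : ℕ × ℕ) : Prop := ∃ l : ℕ, l.Prime ∧ p0 < l ∧ l ≤ b ∧ PcZ X j₀ Q' z v v' l e

/-- the predicates of the crossing state -/
lemma PrX_Z : PrX X (QZ X j₀ Q' b) b (SE z.M v.B v.A z.M' v'.B v'.A) (PVZ X j₀ Q' b z v v')
    (PcZ X j₀ Q' z v v') (PxZ X j₀ Q' z v v') where
  pv := fun l e hl hl0 hlb h => ⟨l, hl, hl0, hlb, LkG.mono (fun u τ h => h.1) h⟩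
  pc := fun l e h => LkG.mono (fun u τ h => h.1) h
  px := fun l e h => LkG.mono (fun u τ h => h.1) h

lemma QZ_QH {Ch : ℝ} (hq : ∀ u τ, Q' u τ → QX X j₀ Ch u τ) : QH X j₀ b Ch (QZ X j₀ Q' b) where
  nd := fun u τ h => h.1.nd
  lv := fun u τ h => h.1.lv
  qx := fun u τ h => hq u τ h.1.ext
  lb := fun u τ h => h.2

/-- mass of a side of the crossing state -/
lemma CS_tm {Ch : ℝ} (hq : ∀ u τ, Q' u τ → QX X j₀ Ch u τ)
    {d : DT X.c.Lam (Lb (WL X.c.Lam) X.Y)} (h : CrsFacts26.CS X j₀ Q' b v σ d) :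
    X.tm j₀ d.g Finset.univ = v.c * Ws (w X.ψ) σ.items := by
  have h1 := (hq _ _ h.q.self.ext).tm Finset.univ
  rw [CtxX26.sum_wt_item X h.q.self.sub] at h1
  rw [h.I.eq, (X.c.D.par X.Y).toDT_g]
  exact h1

lemma CS_mass {Ch : ℝ} (hq : ∀ u τ, Q' u τ → QX X j₀ Ch u τ)
    {d : DT X.c.Lam (Lb (WL X.c.Lam) X.Y)} (h : CrsFacts26.CS X j₀ Q' b v σ d)
    (A : Finset X.c.Lam) :
    v.c * ∑ q ∈ Qi (X.c.D.par X.Y) X.S' σ A, w X.ψ q ≤ X.tm j₀ d.g Finset.univ := by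
  rw [CS_tm hq h]
  refine mul_le_mul_of_nonneg_left ?_ (c_nonneg_of_nd h.q.self.nd.self.node)
  exact Finset.sum_le_sum_of_subset_of_nonneg (fun q hq => Qi_items hq)
    fun q _ _ => Crest.Agent.R4.Soft104.w_nonneg X.sys.nonneg q

lemma PhiM_stS {mtt : ℕ → Finset ℕ} {rg : ℕ → ℕ} {U : ℕ → ℝ × ℝ → ℕ × ℕ → ℝ} {u u' : NS}
    {τ τ' : IT} {e : ℕ × ℕ} :
    PhiM (X.c.D.par X.Y) mtt rg U (stS z) u u' τ τ' e =
      PhiM (X.c.D.par X.Y) mtt rg U z u u' τ τ' e := by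
  have e1 : ShrW34.cf (X.c.D.par X.Y) (stS z) e = ShrW34.cf (X.c.D.par X.Y) z e := by
    unfold ShrW34.cf ShrW34.Cln
    rw [stS_p]
    rfl
  unfold PhiM
  rw [stS_p, e1]
  rfl

/-- **THE EXCESS OF A CROSSING STATE OF A CONTEXT** -/
theorem ctx_cross_X {Ch : ℝ} (hH : HC X Ch)
    (hRH : RawB25.RH (X.c.D.par X.Y) X.c.rr X.S' (QZ X j₀ Q' b) (2 * CT) (1 / 2) p0)
    (hq : ∀ u τ, Q' u τ → QX X j₀ Ch u τ) (hRP : ∀ l, RP (Ro ((X.c.D.par X.Y).rho l)))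
    {B K Kf KH E T : ℝ} (hLT : LTB X j₀ (QZ X j₀ Q' b) RP b B K Kf KH) (hK : 1 ≤ K)
    (hKf : 1 ≤ Kf) (hKH : 64 * CT ^ 2 ≤ KH) (hB1 : 16 * (Ch ^ 2 + 5) ≤ B)
    (hB2 : 4 * (LeafOs30.CLL * Real.exp 2 + 2 * (4 * CM ^ 2)) ≤ B)
    (hE1 : ∀ s : Finset ℕ, ∑ k ∈ s, HG KH (1 / 4) k ≤ E)
    (hE2 : ∀ q ∈ X.S', ∀ M ⊆ X.c.t.mt q, ∑ l ∈ M, HG KH (1 / 4) (ParF5.rg l) ≤ E)
    (hT : TX b ≤ T) (h : CZ X j₀ Q' b z v v' σ σ') (hR : z.R = Ro ((X.c.D.par X.Y).rho b))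
    (hmz : ∑ l ∈ US z.M z.M' b, 1 / (l : ℝ) ≤ (b : ℝ) ^ (-(1 / 3) : ℝ)) (hc : Cop z) :
    Xs (X.tm j₀) (B + Kf * (4 * E)) z ≤ PayV29.Vz z + ∑ e ∈ Ep (X.c.D.par X.Y) X.S' z σ σ',
      ((1 + K) * potS (VsX X (PVZ X j₀ Q' b z v v') (xZ z.M v.A z.M' v'.A)
          (yZ z.M v.A z.M' v'.A) T)
        (VcX X (PcZ X j₀ Q' z v v') (xZ z.M v.A z.M' v'.A) (yZ z.M v.A z.M' v'.A) T)
        (VxX X (PxZ X j₀ Q' z v v') (xZ z.M v.A z.M' v'.A) (yZ z.M v.A z.M' v'.A) T) z v v' σ σ' e +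
      Kf * PhiM (X.c.D.par X.Y) X.c.t.mt ParF5.rg
        (fun _ => VsX X (PVZ X j₀ Q' b z v v') (xZ z.M v.A z.M' v'.A) (yZ z.M v.A z.M' v'.A) T)
        z v v' σ σ' e) := by
  have hrr := (X.ok.rad X.Y).pos
  have hW : ∀ q, 0 ≤ w X.ψ q := fun q => Crest.Agent.R4.Soft104.w_nonneg X.sys.nonneg q
  set x0 := xZ z.M v.A z.M' v'.A with hx0
  set y0 := yZ z.M v.A z.M' v'.A with hy0
  set s₀ := SE z.M v.B v.A z.M' v'.B v'.A with hs₀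
  set PV := PVZ X j₀ Q' b z v v' with hPV
  set Pc := PcZ X j₀ Q' z v v' with hPc
  set Px := PxZ X j₀ Q' z v v' with hPx
  have hV0 : ∀ s e, 0 ≤ VsX X PV x0 y0 T s e := fun s e => SameIx30.VU_nonneg hrr _ _ _ s e
  have hQ : QH X j₀ b Ch (QZ X j₀ Q' b) := QZ_QH hq
  have hP : PrX X (QZ X j₀ Q' b) b s₀ PV Pc Px := PrX_Z
  have hR' : RP z.R := by rw [hR]; exact hRP b
  have hB0 : 0 ≤ B := le_trans (by positivity) hB1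
  have hKH0 : 0 ≤ KH := le_trans (by positivity) hKH
  have T4 := (TX4 b).trans hT
  have hy : YI (X.c.D.par X.Y) (fun _ => ∅) (QZ X j₀ Q' b) RP (stS z) v v' σ σ' := CZ_YI' h hR'
  have hI := IvX_start h hR hc
  have hC : LCp (X.c.D.par X.Y) p0 b (stS z) := ⟨b, hR, h.bp, hI.fz.pb, le_rfl, h.b0⟩
  have hLH := ctx_LocH (RP := RP) (x0 := x0) (y0 := y0) (g := gZ z.M v.B v.A)
    (g' := gZ' z.M' v'.B v'.A) hH hQ hP h.bp.two_le hLT hK hKf hKH hB1 hB2 h.mL.pos h.mR.pos hmz hT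
  have hPS := ctx_PSup (RP := RP) (x0 := x0) (y0 := y0) (T := T) (PV := PV) hH hQ
    (show 0 ≤ Kf by linarith) hKH0
    (fun s u u' τ τ' => IvX (X.c.D.par X.Y) X.S' b z.M z.M' x0 y0 (gZ z.M v.B v.A)
      (gZ' z.M' v'.B v'.A) s₀ s u u' τ τ' ∧ LCp (X.c.D.par X.Y) p0 b s)
  have key := ctx_cross_P (j₀ := j₀) (C := 0) (g := 0) hQ.ok hRH hRP (Lo := LoSt T p0 X.c.rr x0 y0)
    (LoX_LoSt (x0 := x0) (y0 := y0) (p0 := p0) (ρ := X.c.rr) (show 2 ≤ T by linarith)).ok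
    (Pc := Pc) (Px := Px) (s₀ := s₀)
    (fun l e hk => hP.pc l e (LkG.of_LkN hk)) (fun l e hk => hP.px l e (LkG.of_LkN hk)) hV0
    (fun s u u' τ τ' hi => hi.1.sc) hLH hPS hB0 ⟨hI, hC⟩ hy le_rfl
    (by
      have e1 : (fun s : X.Sta => ((fun _ => 0 : X.Sta → ℝ) s + (fun _ => 0 : X.Sta → ℝ) s)) =
          fun _ => 0 := by
        funext s
        simp
      rw [e1, WC_zero]
      simp)
  have hc1 := c_nonneg_of_nd h.L.q.self.nd.self.node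
  have hc2 := c_nonneg_of_nd h.R.q.self.nd.self.node
  have mL := CS_mass hq h.L z.A
  have mR := CS_mass hq h.R z.A'
  have hE0 : 0 ≤ E := (Finset.sum_nonneg fun k _ => HG_nonneg hKH0 _ k).trans (hE1 ∅)
  have hG := sum_PhiG_le (D := X.c.D.par X.Y) (Al := X.S') (W := w X.ψ) (mtt := X.c.t.mt)
    (rg := ParF5.rg) (H := HG KH (1 / 4)) (s := stS z) (τ := σ) (τ' := σ') (HG_nonneg hKH0 _) hW
    hc1 hc2 (E := 4 * E) (fun e he => by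
      obtain ⟨he1, he2⟩ := Finset.mem_product.1 he
      exact ctx_E4 hE1 hE2 (mem_Qi.1 he1).2.1 (mem_Qi.1 he2).2.1)
  have hG2 : ∑ e ∈ Ep (X.c.D.par X.Y) X.S' z σ σ',
      PhiG (X.c.D.par X.Y) (w X.ψ) X.c.t.mt ParF5.rg (HG KH (1 / 4)) (stS z) v v' σ σ' e ≤
      4 * E * (X.tm j₀ z.t.g z.A * X.tm j₀ z.t'.g z.A') := by
    refine hG.trans (mul_le_mul_of_nonneg_left ?_ (by linarith))
    have e1 : z.A = Finset.univ := h.A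
    have e2 : z.A' = Finset.univ := h.A'
    rw [show X.tm j₀ z.t.g z.A = X.tm j₀ z.t.g Finset.univ by rw [e1],
      show X.tm j₀ z.t'.g z.A' = X.tm j₀ z.t'.g Finset.univ by rw [e2]]
    exact mul_le_mul mL mR (mul_nonneg hc2 (Finset.sum_nonneg fun q _ => hW q))
      ((mul_nonneg hc1 (Finset.sum_nonneg fun q _ => hW q)).trans mL)
  rw [add_zero, add_zero] at key
  have hPM : ∀ e, 0 ≤ PhiM (X.c.D.par X.Y) X.c.t.mt ParF5.rg (fun _ => VsX X PV x0 y0 T)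
      z v v' σ σ' e := fun e => PhiM_nonneg (fun _ => hV0) z v v' σ σ' e
  have hpt : ∀ e, 0 ≤ potS (VsX X PV x0 y0 T) (VcX X Pc x0 y0 T) (VxX X Px x0 y0 T)
      z v v' σ σ' e := fun e => potS_nonneg hV0 (fun _ _ _ => VcL_nonneg hrr _ _ _)
    (fun _ _ _ => VxL_nonneg hrr _ _ _) z v v' σ σ' e
  refine Xs_absorb ?_ (key.trans ?_)
  · refine add_nonneg (PayA26.CZ.vz h) (Finset.sum_nonneg fun e _ => add_nonneg ?_ ?_)
    · exact mul_nonneg (by linarith) (hpt e)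
    · exact mul_nonneg (by linarith) (hPM e)
  · rw [add_assoc]
    refine add_le_add (le_of_eq rfl) ?_
    have e1 : ∀ e, (1 + K) * potS (VsX X PV x0 y0 T) (VcX X Pc x0 y0 T) (VxX X Px x0 y0 T)
        z v v' σ σ' e + Kf * PhX X KH (VsX X PV x0 y0 T) (stS z) v v' σ σ' e =
        ((1 + K) * potS (VsX X PV x0 y0 T) (VcX X Pc x0 y0 T) (VxX X Px x0 y0 T) z v v' σ σ' e +
          Kf * PhiM (X.c.D.par X.Y) X.c.t.mt ParF5.rg (fun _ => VsX X PV x0 y0 T)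
            z v v' σ σ' e) +
        Kf * PhiG (X.c.D.par X.Y) (w X.ψ) X.c.t.mt ParF5.rg (HG KH (1 / 4)) (stS z) v v' σ σ' e := by
      intro e
      unfold PhX
      rw [PhiM_stS]
      ring
    refine (le_of_eq (Finset.sum_congr rfl fun e _ => e1 e)).trans ?_
    rw [Finset.sum_add_distrib]
    refine add_le_add le_rfl ?_
    rw [← Finset.mul_sum, mul_assoc]
    exact mul_le_mul_of_nonneg_left hG2 (by linarith)

end Crest.Agent.R4P.LocX25
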