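import Crest.Agent.R4P.ColU_32
import Crest.Agent.R4P.LocXc_25

/-!
R4P (S0004), helper32, module D, group [X]: **the mass of a leaf item** in terms of `u.c * w ψ`, and the scale of
an `[E]` pair.
-/

set_option autoImplicit false
set_option linter.unusedSectionVars false
set_option linter.unusedVariables false
open Finset hiding dens

namespace Crest.Agent.R4P.ColU32

open Crest.Agent.R4.HVW560 Crest.Agent.R4P.AvgItem710
open Crest.Agent.R4.Tour104 Crest.Agent.R4.Tour758 Crest.Agent.R4.Avg758 Crest.Agent.R4.Clos758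
open Crest.Agent.R4.ClosL758 Crest.Agent.R4.ClosG758 Crest.Agent.R4.ClosR758
open Crest.Agent.R4P.Cnt588 Crest.Agent.R4P.Walk560 Crest.Agent.R4P.Item758
open Crest.Agent.R4P.Bld532 (NS All NodeOk Bk dv nd mem_dv mem_nd)
open Crest.Agent.R4P.GSt927 Crest.Agent.R4P.WalkIT579 Crest.Agent.R4P.NMW710
open Crest.Agent.R4P.CrossLoc25 Crest.Agent.R4P.CrossLocC25 Crest.Agent.R4P.YI25
open Crest.Agent.R4P.Data758 Crest.Agent.R4.Piece464
open Crest.Agent.R4P.Skel189 (Ctx top Kc)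
open Crest.Agent.R4.Soft104 (w)
open Crest.Agent.R4P.Frame758 (wt)
open Crest.Agent.R4P.GInst194 Crest.Agent.R4P.LocX25
open Crest.Agent.R4P

variable {N : Skel189.Num} {γ : ℝ} {p0 P₀ : ℕ} {X : Ctx N γ p0 P₀} {j₀ : X.c.Lam} {Ch : ℝ}

/-- **the mass of one item of a node** -/
theorem mU_le {u : NS} {τ : IT} (hx : QX X j₀ Ch u τ) (hc : 0 ≤ u.c) (hb : 0 < u.B)
    (hF : Fit u.B u.A τ) (hW : (X.c.D.par X.Y).Wts u.A τ) (hit : τ.items ⊆ X.S) {q : ℕ}
    (hq : q ∈ τ.items) (A : Finset X.c.Lam) :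
    mU (X.c.D.par X.Y) u.B u.A 1 τ A q ≤ 4 * (u.c * w X.ψ q) := by
  have hv := (X.c.D.par X.Y).toG_val hb hF hW
  have h1 := hx.st.2 (A.filter fun j => (X.c.D.par X.Y).it j = q)
  have h2 := hx.tm (A.filter fun j => (X.c.D.par X.Y).it j = q)
  have e1 : mU (X.c.D.par X.Y) u.B u.A 1 τ A q =
      ∑ j ∈ A.filter (fun j => (X.c.D.par X.Y).it j = q),
        mI ((X.c.D.par X.Y).toDT X.c.sp u.B u.A τ) j := by
    unfold mU
    refine Finset.sum_congr rfl fun j _ => ?_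
    unfold mI
    rw [Par.toDT_g, hv]
  have e2 : X.tm j₀ ((X.c.D.par X.Y).toG u.B u.A τ) (A.filter fun j => (X.c.D.par X.Y).it j = q) =
      X.tm j₀ (X.g u τ) (A.filter fun j => (X.c.D.par X.Y).it j = q) := rfl
  rw [e1]
  refine h1.trans (mul_le_mul_of_nonneg_left ?_ (by norm_num))
  rw [e2, h2]
  refine mul_le_mul_of_nonneg_left ?_ hc
  have h3 := CtxX26.sum_wt_item X (T := {q}) (Finset.singleton_subset_iff.2 (hit hq))
  have e3 : Ws (w X.ψ) {q} = w X.ψ q := by unfold Ws; rw [Finset.sum_singleton]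
  rw [← e3, ← h3]
  refine Finset.sum_le_sum_of_subset_of_nonneg (fun j hj => ?_) fun j _ _ => Skel189.wt_nonneg X j
  obtain ⟨h4, -⟩ := Finset.mem_filter.1 hj
  obtain ⟨-, h5⟩ := Finset.mem_filter.1 h4
  exact Finset.mem_filter.2 ⟨Finset.mem_univ _, Finset.mem_singleton.2 h5⟩

end Crest.Agent.R4P.ColU32
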