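import Crest.Agent.R4P.ColS710

/-!
R4 powers pass (S0004), helper16: **columns with an additional factor `Y` for the `[F]` pairs**.

Inside a chain at `p` the partner side may have missed the tie `p` itself: then the label of a pair of class
`[F]` is only controlled up to the factor `p` (`FSOkY .. Y`, `Y = p`). The column costs `p^(1/10)` on the
missing items of the tie side and `p^(-1/200)` on the partner.

* `k_itemsY`, `CKY`, `exists_CKY`, `col_nodeY`, `os_stateY`, `os_stateY'`.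
-/

set_option autoImplicit false
set_option linter.unusedSectionVars false
set_option linter.unusedVariables false
open Finset

namespace Crest.Agent.R4P.ColY710

open Crest.Agent.R4.HVW560 Crest.Agent.R4.Schur709 Crest.Agent.R4.StopHvw709
open Crest.Agent.R4.StopAsm709 Crest.Agent.R4P.AvgItem710 Crest.Agent.R4.DeepSt579
open Crest.Agent.R4P.Rad800 Crest.Agent.R4P.Item758 Crest.Agent.R4P.NMW710
open Crest.Agent.R4.OSCore709 (om om_nonneg om_le_one mm)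
open Crest.Agent.R4.ClsS (eps1)
open Crest.Agent.R4P.ColW710

open Classical in
/-- **item pairs of a column**, weighted groups, `[F]` pairs paid with a factor `Yf` -/
theorem k_itemsY {CL : ℝ} {p₀ : ℕ}
    (hcol : KClsX CL p₀) {Yf : ℝ} (hYf : 1 ≤ Yf) {γ : ℝ} {ρ : ℕ → ℝ} {F : ℕ × ℕ → ℝ}
    {n p G M b pr c M' b' pr' c' : ℕ} {V W : Finset ℕ}
    (hp : p₀ ≤ p) (hn : n = ⌊1/4 * Real.log p / Real.log 2⌋₊) (hn1 : 1 ≤ n) (hG : 0 < G)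
    (hρ : ∀ q, 0 < ρ q) (hb : 0 < b) (hc : 0 < c) (hb' : 0 < b') (hc' : 0 < c')
    (hM : 0 < M) (hM' : 0 < M')
    (hMp : ∀ l : ℕ, l.Prime → l ∣ M → p ≤ l) (hMp' : ∀ l : ℕ, l.Prime → l ∣ M' → p ≤ l)
    (hs : ∑ l ∈ M.primeFactors, (l:ℝ)^(-(11/12):ℝ) ≤ 1)
    (hs' : ∑ l ∈ M'.primeFactors, (l:ℝ)^(-(11/12):ℝ) ≤ 1)
    (hV : ∀ q ∈ V, 0 < q ∧ pr ∣ q) (hW : ∀ q ∈ W, 0 < q ∧ pr' ∣ q)
    (oV : ∀ q ∈ V, Once M (q / pr)) (oW : ∀ q ∈ W, Once M' (q / pr'))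
    (tV : ∀ z : ℝ, (p:ℝ) ≤ z → ∀ q ∈ V, Crest.Agent.R4.ClsB.Tame z G (q / pr / M.gcd (q / pr)))
    (tW : ∀ z : ℝ, (p:ℝ) ≤ z → ∀ q ∈ W, Crest.Agent.R4.ClsB.Tame z G (q / pr' / M'.gcd (q / pr')))
    (lV : ∀ q ∈ V, 1 ≤ CL * Real.log p * tq (q / pr / M.gcd (q / pr)))
    (lW : ∀ q ∈ W, 1 ≤ CL * Real.log p * tq (q / pr' / M'.gcd (q / pr')))
    (hF : ∀ e ∈ V ×ˢ W, F e ≤ pbd ((b : ℝ) / c * γ) (rd b c ρ e.1) (e.1 / pr) M
      ((b' : ℝ) / c' * γ) (rd b' c' ρ e.2) (e.2 / pr') M') {Qf : ℕ × ℕ → Prop}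
    (hFS' : ∀ e ∈ V ×ˢ W, Dq ρ M b pr c M' b' pr' c' e ≤ 1/2^n → 0 < F e →
      FSI γ ρ n M b pr c M' b' pr' c' e →
      1 < 2 * (Yf * ((rf (e.1 / pr) M : ℝ) * rf (e.2 / pr') M'))^10 *
        Dq ρ M b pr c M' b' pr' c' e ∨ Qf e) :
    ∑ e ∈ V ×ˢ W, F e ≤
      (Real.log p)^3 * ((8 * ∑ q ∈ V, rd b c ρ q * tq (q / pr)) *
        (8 * ∑ q ∈ W, rd b' c' ρ q * tq (q / pr'))) +
      2 * Yf^(22/1000:ℝ) * ((p:ℝ)^(3/4000:ℝ) * ((8 * ∑ q ∈ V, rd b c ρ q * tq (q / pr)) *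
        (8 * ∑ q ∈ W, om M'.primeFactors (q / pr') * (rd b' c' ρ q * tq (q / pr'))))^(1/2+eps1)) +
      ∑ e ∈ (V ×ˢ W).filter (fun e => 0 < F e ∧ (Dq ρ M b pr c M' b' pr' c' e ≤ 1/2^n ∧
        (ESI γ ρ M b pr c M' b' pr' c' e ∨ Qf e))), F e := by
  classical
  have hb0 : (0:ℝ) < b := by exact_mod_cast hb
  have hc0' : (0:ℝ) < c := by exact_mod_cast hc
  have hbb0 : (0:ℝ) < b' := by exact_mod_cast hb'
  have hcc0 : (0:ℝ) < c' := by exact_mod_cast hc'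
  have hR : ∀ q, 0 < rd b c ρ q := fun q => mul_pos (div_pos hb0 hc0') (hρ q)
  have hR' : ∀ q, 0 < rd b' c' ρ q := fun q => mul_pos (div_pos hbb0 hcc0) (hρ q)
  have hMp0 : 0 < M := hM
  have hMp0' : 0 < M' := hM'
  have xM : (0:ℝ) < ex M := by exact_mod_cast ex_pos hM
  have xM' : (0:ℝ) < ex M' := by exact_mod_cast ex_pos hM'
  have xM1 : (1:ℝ) ≤ ex M := by exact_mod_cast ex_pos hM
  have xM1' : (1:ℝ) ≤ ex M' := by exact_mod_cast ex_pos hM'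
  have hVw : ∀ q ∈ V, 0 < q / pr := fun q hq =>
    Nat.div_pos (Nat.le_of_dvd (hV q hq).1 (hV q hq).2) (Nat.pos_of_dvd_of_pos (hV q hq).2 (hV q hq).1)
  have hWw : ∀ q ∈ W, 0 < q / pr' := fun q hq =>
    Nat.div_pos (Nat.le_of_dvd (hW q hq).1 (hW q hq).2) (Nat.pos_of_dvd_of_pos (hW q hq).2 (hW q hq).1)
  have hVm : ∀ q ∈ V, pr * (q / pr) = q := fun q hq => Nat.mul_div_cancel' (hV q hq).2
  have hWm : ∀ q ∈ W, pr' * (q / pr') = q := fun q hq => Nat.mul_div_cancel' (hW q hq).2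
  have h1112 : ∀ K : ℕ, ∑ l ∈ K.primeFactors, 1/(l:ℝ) ≤ ∑ l ∈ K.primeFactors, (l:ℝ)^(-(11/12):ℝ) :=
    fun K => Finset.sum_le_sum fun l hl => by
      have h1 : (1:ℝ) ≤ l := by exact_mod_cast (Nat.prime_of_mem_primeFactors hl).pos
      rw [one_div, ← Real.rpow_neg_one]
      exact Real.rpow_le_rpow_of_exponent_le h1 (by norm_num)
  have hsI := (h1112 M).trans hs
  have hsI' := (h1112 M').trans hs'
  set V0 := V.image (fun q => q / pr) with hV0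
  set W0 := W.image (fun q => q / pr') with hW0
  set O' := M.primeFactors with hO'd
  set O := M'.primeFactors with hOd
  have hO : ∀ l ∈ O, l.Prime ∧ p ≤ l := fun l hl =>
    ⟨Nat.prime_of_mem_primeFactors hl, hMp' l (Nat.prime_of_mem_primeFactors hl)
      (Nat.dvd_of_mem_primeFactors hl)⟩
  have hO' : ∀ l ∈ O', l.Prime ∧ p ≤ l := fun l hl =>
    ⟨Nat.prime_of_mem_primeFactors hl, hMp l (Nat.prime_of_mem_primeFactors hl)
      (Nat.dvd_of_mem_primeFactors hl)⟩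
  set R0 : ℕ → ℝ := fun w => rd b c ρ (pr * w) with hRd
  set R0' : ℕ → ℝ := fun w => rd b' c' ρ (pr' * w) with hRd'
  have hRe0 : ∀ q ∈ V, R0 (q / pr) = rd b c ρ q := fun q hq => by rw [hRd]; simp only; rw [hVm q hq]
  have hRe0' : ∀ q ∈ W, R0' (q / pr') = rd b' c' ρ q := fun q hq => by rw [hRd']; simp only; rw [hWm q hq]
  set R : ℕ → ℝ := fun w => (ex M : ℝ) * R0 w with hRx
  set R' : ℕ → ℝ := fun w => (ex M' : ℝ) * R0' w with hRx'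
  have hRe : ∀ q ∈ V, R (q / pr) = ex M * rd b c ρ q := fun q hq => by
    rw [hRx]; simp only; rw [hRe0 q hq]
  have hRe' : ∀ q ∈ W, R' (q / pr') = ex M' * rd b' c' ρ q := fun q hq => by
    rw [hRx']; simp only; rw [hRe0' q hq]
  set F0 : ℕ × ℕ → ℝ := fun f => ((ex M : ℝ) * ex M') * F (pr * f.1, pr' * f.2) with hF0
  have hF0e : ∀ e ∈ V ×ˢ W, F0 (e.1 / pr, e.2 / pr') = ((ex M : ℝ) * ex M') * F e := fun e he => by
    obtain ⟨h1, h2⟩ := Finset.mem_product.1 he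
    rw [hF0]; simp only; rw [hVm _ h1, hWm _ h2]
  have hDc : ∀ e ∈ V ×ˢ W, Dc O O' R R' (e.1 / pr, e.2 / pr') = Dq ρ M b pr c M' b' pr' c' e :=
    fun e he => by
    obtain ⟨k1, k2⟩ := Finset.mem_product.1 he
    have h1 := Dc_rad hM hM' R0 R0' (e := (e.1 / pr, e.2 / pr')) (hVw _ k1) (hWw _ k2)
      (oV _ k1) (oW _ k2)
    rw [hRe0 _ k1, hRe0' _ k2] at h1
    exact h1
  have hinjV : Set.InjOn (fun q => q / pr) (V : Set ℕ) := by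
    intro e he f hf hef
    simp only at hef
    rw [← hVm _ (Finset.mem_coe.1 he), ← hVm _ (Finset.mem_coe.1 hf), hef]
  have hinjW : Set.InjOn (fun q => q / pr') (W : Set ℕ) := by
    intro e he f hf hef
    simp only at hef
    rw [← hWm _ (Finset.mem_coe.1 he), ← hWm _ (Finset.mem_coe.1 hf), hef]
  have hinj : Set.InjOn (fun e : ℕ × ℕ => (e.1 / pr, e.2 / pr')) ((V ×ˢ W : Finset (ℕ × ℕ)) : Set (ℕ × ℕ)) := by
    intro e he f hf hef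
    obtain ⟨h1, h2⟩ := Finset.mem_product.1 (Finset.mem_coe.1 he)
    obtain ⟨h3, h4⟩ := Finset.mem_product.1 (Finset.mem_coe.1 hf)
    simp only [Prod.mk.injEq] at hef
    exact Prod.ext (hinjV h1 h3 hef.1) (hinjW h2 h4 hef.2)
  have himg : V0 ×ˢ W0 = (V ×ˢ W).image (fun e : ℕ × ℕ => (e.1 / pr, e.2 / pr')) := by
    ext f
    simp only [Finset.mem_product, Finset.mem_image, hV0, hW0]
    constructor
    · rintro ⟨⟨a, ha, ha'⟩, ⟨d, hd, hd'⟩⟩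
      exact ⟨(a, d), ⟨ha, hd⟩, Prod.ext ha' hd'⟩
    · rintro ⟨e, ⟨h1, h2⟩, rfl⟩
      exact ⟨⟨_, h1, rfl⟩, ⟨_, h2, rfl⟩⟩
  have hsum : ∀ Q : ℕ × ℕ → Prop, ∀ Q0 : ℕ × ℕ → Prop,
      (∀ e ∈ V ×ˢ W, Q0 (e.1 / pr, e.2 / pr') → Q e) →
      (∀ e ∈ V ×ˢ W, Q e → Q0 (e.1 / pr, e.2 / pr')) →
      ∑ f ∈ (V0 ×ˢ W0).filter Q0, F0 f = ((ex M : ℝ) * ex M') * ∑ e ∈ (V ×ˢ W).filter Q, F e := by
    intro Q Q0 h1 h2
    rw [himg, Finset.filter_image, Finset.sum_image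
      (hinj.mono (by intro x hx; exact (Finset.mem_filter.1 (Finset.mem_coe.1 hx)).1))]
    have e1 : (V ×ˢ W).filter (fun a => Q0 (a.1 / pr, a.2 / pr')) = (V ×ˢ W).filter Q := by
      ext e
      simp only [Finset.mem_filter]
      exact ⟨fun h => ⟨h.1, h1 e h.1 h.2⟩, fun h => ⟨h.1, h2 e h.1 h.2⟩⟩
    rw [e1, Finset.mul_sum]
    exact Finset.sum_congr rfl fun e he => hF0e e (Finset.mem_filter.1 he).1
  have hsumT : ∑ f ∈ V0 ×ˢ W0, F0 f = ((ex M : ℝ) * ex M') * ∑ e ∈ V ×ˢ W, F e := by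
    have := hsum (fun _ => True) (fun _ => True) (fun _ _ _ => trivial) (fun _ _ _ => trivial)
    simpa using this
  have mem0 : ∀ f ∈ V0 ×ˢ W0, ∃ e ∈ V ×ˢ W, f = (e.1 / pr, e.2 / pr') := fun f hf => by
    rw [himg] at hf
    obtain ⟨e, he, rfl⟩ := Finset.mem_image.1 hf
    exact ⟨e, he, rfl⟩
  have hpb : ∀ e ∈ V ×ˢ W, F e ≤ 4 * (rd b c ρ e.1 * rd b' c' ρ e.2) +
      2 * (rd b c ρ e.1 * rd b' c' ρ e.2 / Dq ρ M b pr c M' b' pr' c' e) := fun e he => by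
    exact (hF e he).trans (pbd_le_all (hR _).le (hR' _).le)
  have muV : ∀ q ∈ V, mu O' R (q / pr) = ex M * rd b c ρ q * tq (q / pr / M.gcd (q / pr)) := fun q hq => by
    unfold mu tq
    rw [hRe q hq, (oV q hq).uu hM (hVw q hq)]
  have muW : ∀ q ∈ W, mu O R' (q / pr') = ex M' * rd b' c' ρ q * tq (q / pr' / M'.gcd (q / pr')) :=
    fun q hq => by
    unfold mu tq
    rw [hRe' q hq, (oW q hq).uu hM' (hWw q hq)]
  set gL : Finset ℕ → ℝ := fun S => ((ex M * ∏ l ∈ S, l : ℕ) : ℝ) * ((b : ℝ) / c * γ) with hgL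
  set gR : Finset ℕ → ℝ := fun S => ((ex M' * ∏ l ∈ S, l : ℕ) : ℝ) * ((b' : ℝ) / c' * γ) with hgR
  have RcV : ∀ q ∈ V, Rc O' R (q / pr) = (rf (q / pr) M : ℕ) * rd b c ρ q := fun q hq => by
    have := (oV q hq).Rc hM (hVw q hq) R0
    rw [hRe0 q hq] at this
    exact this
  have RcW : ∀ q ∈ W, Rc O R' (q / pr') = (rf (q / pr') M' : ℕ) * rd b' c' ρ q := fun q hq => by
    have := (oW q hq).Rc hM' (hWw q hq) R0'
    rw [hRe0' q hq] at this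
    exact this
  have hES : ∀ e ∈ V ×ˢ W, EG O O' R R' gL gR (e.1 / pr, e.2 / pr') ↔
      ESI γ ρ M b pr c M' b' pr' c' e := fun e he => by
    obtain ⟨k1, k2⟩ := Finset.mem_product.1 he
    have hw1 := hVw _ k1
    have hw2 := hWw _ k2
    show ES (((ex M * ∏ l ∈ miss O' (e.1 / pr), l : ℕ) : ℝ) * ((b : ℝ) / c * γ))
        (((ex M' * ∏ l ∈ miss O (e.2 / pr'), l : ℕ) : ℝ) * ((b' : ℝ) / c' * γ))
        (cof (uu O' (e.1 / pr)) (uu O (e.2 / pr'))) (cof (uu O (e.2 / pr')) (uu O' (e.1 / pr)))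
        (Rc O' R (e.1 / pr)) (Rc O R' (e.2 / pr')) ↔ _
    rw [(oV _ k1).miss hM hw1, (oW _ k2).miss hM' hw2, (oV _ k1).uu hM hw1, (oW _ k2).uu hM' hw2,
      RcV _ k1, RcW _ k2]
    exact Iff.rfl
  have hFS : ∀ e ∈ V ×ˢ W, FG O O' R R' gL gR n (e.1 / pr, e.2 / pr') ↔
      FSI γ ρ n M b pr c M' b' pr' c' e := fun e he => by
    obtain ⟨k1, k2⟩ := Finset.mem_product.1 he
    have hw1 := hVw _ k1
    have hw2 := hWw _ k2
    show FS n (((ex M * ∏ l ∈ miss O' (e.1 / pr), l : ℕ) : ℝ) * ((b : ℝ) / c * γ))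
        (((ex M' * ∏ l ∈ miss O (e.2 / pr'), l : ℕ) : ℝ) * ((b' : ℝ) / c' * γ))
        (cof (uu O' (e.1 / pr)) (uu O (e.2 / pr'))) (cof (uu O (e.2 / pr')) (uu O' (e.1 / pr)))
        (Rc O' R (e.1 / pr)) (Rc O R' (e.2 / pr')) ↔ _
    rw [(oV _ k1).miss hM hw1, (oW _ k2).miss hM' hw2, (oV _ k1).uu hM hw1, (oW _ k2).uu hM' hw2,
      RcV _ k1, RcW _ k2]
    exact Iff.rfl
  have xxX : (1:ℝ) ≤ (ex M : ℝ) * ex M' := by nlinarith
  have xxY : (1:ℝ) ≤ Yf * ((ex M : ℝ) * ex M') := by nlinarith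
  have key := hcol n p G O O' V0 W0 R R' gL gR F0 (fun f => Qf (pr * f.1, pr' * f.2))
    (Yf * ((ex M : ℝ) * ex M')) hp hn hG xxY hO hO' hs' hs
    (by
      intro w hw
      obtain ⟨q, hq, rfl⟩ := Finset.mem_image.1 hw
      exact ⟨hVw q hq, by rw [hRe q hq]; exact mul_pos xM (hR q)⟩)
    (by
      intro w hw
      obtain ⟨q, hq, rfl⟩ := Finset.mem_image.1 hw
      exact ⟨hWw q hq, by rw [hRe' q hq]; exact mul_pos xM' (hR' q)⟩)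
    (by
      intro w hw
      obtain ⟨q, hq, rfl⟩ := Finset.mem_image.1 hw
      rw [hRe q hq, muV q hq]
      have := mul_le_mul_of_nonneg_left (lV q hq) (mul_pos xM (hR q)).le
      calc ex M * rd b c ρ q = ex M * rd b c ρ q * 1 := (mul_one _).symm
        _ ≤ _ := this
        _ = _ := by ring)
    (by
      intro w hw
      obtain ⟨q, hq, rfl⟩ := Finset.mem_image.1 hw
      rw [hRe' q hq, muW q hq]
      have := mul_le_mul_of_nonneg_left (lW q hq) (mul_pos xM' (hR' q)).le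
      calc ex M' * rd b' c' ρ q = ex M' * rd b' c' ρ q * 1 := (mul_one _).symm
        _ ≤ _ := this
        _ = _ := by ring)
    (by
      intro z hz w hw
      obtain ⟨q, hq, rfl⟩ := Finset.mem_image.1 hw
      rw [(oV q hq).uu hM (hVw q hq)]
      exact tV z hz q hq)
    (by
      intro z hz w hw
      obtain ⟨q, hq, rfl⟩ := Finset.mem_image.1 hw
      rw [(oW q hq).uu hM' (hWw q hq)]
      exact tW z hz q hq)
    (by
      intro f hf h1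
      obtain ⟨e, he, rfl⟩ := mem0 f hf
      obtain ⟨k1, k2⟩ := Finset.mem_product.1 he
      rw [hDc e he] at h1
      rw [hF0e e he, hRe _ k1, hRe' _ k2]
      have h2 := hpb e he
      have h3 : 0 ≤ rd b c ρ e.1 * rd b' c' ρ e.2 := mul_nonneg (hR _).le (hR' _).le
      have h4 : rd b c ρ e.1 * rd b' c' ρ e.2 / Dq ρ M b pr c M' b' pr' c' e ≤
          rd b c ρ e.1 * rd b' c' ρ e.2 := div_le_self h3 h1.le
      have h5 : F e ≤ 6 * (rd b c ρ e.1 * rd b' c' ρ e.2) := by linarith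
      calc (ex M : ℝ) * ex M' * F e ≤ (ex M : ℝ) * ex M' * (6 * (rd b c ρ e.1 * rd b' c' ρ e.2)) :=
            mul_le_mul_of_nonneg_left h5 (mul_pos xM xM').le
        _ = _ := by ring)
    (by
      intro f hf h1
      obtain ⟨e, he, rfl⟩ := mem0 f hf
      obtain ⟨k1, k2⟩ := Finset.mem_product.1 he
      have hd0 : 0 < Dc O O' R R' (e.1 / pr, e.2 / pr') := by
        refine Dc_pos (N := p) hO hO' ?_ (hWw _ k2)
        rw [hRe _ k1]; exact mul_pos xM (hR _)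
      rw [hDc e he] at h1 hd0 ⊢
      rw [hF0e e he, hRe _ k1, hRe' _ k2]
      have h2 := hpb e he
      have h3 : 0 ≤ rd b c ρ e.1 * rd b' c' ρ e.2 := mul_nonneg (hR _).le (hR' _).le
      have h4 : rd b c ρ e.1 * rd b' c' ρ e.2 ≤
          rd b c ρ e.1 * rd b' c' ρ e.2 / Dq ρ M b pr c M' b' pr' c' e := by
        rw [le_div_iff₀ hd0]; nlinarith
      have h5 : F e ≤ 6 * (rd b c ρ e.1 * rd b' c' ρ e.2 / Dq ρ M b pr c M' b' pr' c' e) := by linarith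
      calc (ex M : ℝ) * ex M' * F e ≤ (ex M : ℝ) * ex M' *
            (6 * (rd b c ρ e.1 * rd b' c' ρ e.2 / Dq ρ M b pr c M' b' pr' c' e)) :=
            mul_le_mul_of_nonneg_left h5 (mul_pos xM xM').le
        _ = _ := by ring)
    (by
      intro f hf h1 h3
      obtain ⟨e, he, rfl⟩ := mem0 f hf
      obtain ⟨k1, k2⟩ := Finset.mem_product.1 he
      rw [hDc e he] at h1
      rw [hF0e e he] at h3
      have h3 : 0 < F e := (mul_pos_iff_of_pos_left (mul_pos xM xM')).1 h3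
      have hw1 := hVw _ k1
      have hw2 := hWw _ k2
      have hhalf : Dq ρ M b pr c M' b' pr' c' e ≤ 1/2 := by
        refine h1.trans ?_
        apply one_div_le_one_div_of_le (by norm_num)
        calc (2:ℝ) = 2^1 := (pow_one _).symm
          _ ≤ 2^n := pow_le_pow_right₀ (by norm_num) hn1
      have hRa : Ra ((b : ℝ) / c * γ) (rd b c ρ e.1) (e.1 / pr) M ((b' : ℝ) / c' * γ)
          (rd b' c' ρ e.2) (e.2 / pr') M' := by
        by_contra hneg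
        have h4 := hF e he
        unfold pbd at h4
        unfold Dq at hhalf
        rw [if_pos hhalf, if_neg hneg] at h4
        linarith
      have hu : 0 < e.1 / pr / M.gcd (e.1 / pr) := div_pos' hw1 hMp0
      obtain ⟨m, m', hmm⟩ := rel_two (Crest.Agent.R4.AvgItem710.cof_coprime hu) hRa
      refine ⟨m, m', ?_⟩
      show |(m + (((ex M * ∏ l ∈ miss O' (e.1 / pr), l : ℕ) : ℝ) * ((b : ℝ) / c * γ))) *
          (cof (uu O (e.2 / pr')) (uu O' (e.1 / pr)) : ℕ) -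
          (m' + (((ex M' * ∏ l ∈ miss O (e.2 / pr'), l : ℕ) : ℝ) * ((b' : ℝ) / c' * γ))) *
          (cof (uu O' (e.1 / pr)) (uu O (e.2 / pr')) : ℕ)| ≤ 2 * Dc O O' R R' (e.1 / pr, e.2 / pr')
      rw [hDc e he, (oV _ k1).miss hM hw1, (oW _ k2).miss hM' hw2, (oV _ k1).uu hM hw1,
        (oW _ k2).uu hM' hw2]
      exact hmm)
    (by
      intro f hf h1 h3 h4
      obtain ⟨e, he, rfl⟩ := mem0 f hf
      obtain ⟨k1, k2⟩ := Finset.mem_product.1 he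
      rw [hDc e he] at h1 ⊢
      rw [hF0e e he] at h3
      have h3 : 0 < F e := (mul_pos_iff_of_pos_left (mul_pos xM xM')).1 h3
      rw [hFS e he] at h4
      have hw1 := hVw _ k1
      have hw2 := hWw _ k2
      have e1 : (Yf * ((ex M : ℝ) * ex M')) * mm O O' (e.1 / pr, e.2 / pr') =
          Yf * ((rf (e.1 / pr) M : ℝ) * rf (e.2 / pr') M') := by
        unfold mm
        rw [← (oV _ k1).miss hM hw1, ← (oW _ k2).miss hM' hw2]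
        push_cast
        ring
      rw [e1]
      simp only [hVm _ k1, hWm _ k2]
      exact hFS' e he h1 h3 h4)
  have hleft : ∑ f ∈ (V0 ×ˢ W0).filter (fun f => 0 < F0 f ∧ (Dc O O' R R' f ≤ 1/2^n ∧
      (EG O O' R R' gL gR f ∨ Qf (pr * f.1, pr' * f.2)))), F0 f =
      ((ex M : ℝ) * ex M') * ∑ e ∈ (V ×ˢ W).filter (fun e => 0 < F e ∧ (Dq ρ M b pr c M' b' pr' c' e ≤ 1/2^n ∧
        (ESI γ ρ M b pr c M' b' pr' c' e ∨ Qf e))), F e := by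
    have hh := hsum (fun e => 0 < F e ∧ (Dq ρ M b pr c M' b' pr' c' e ≤ 1/2^n ∧
        (ESI γ ρ M b pr c M' b' pr' c' e ∨ Qf e)))
      (fun f => 0 < F0 f ∧ (Dc O O' R R' f ≤ 1/2^n ∧
        (EG O O' R R' gL gR f ∨ Qf (pr * f.1, pr' * f.2)))) (fun e he h => by
        obtain ⟨h0, h1, h2⟩ := h
        obtain ⟨k1, k2⟩ := Finset.mem_product.1 he
        rw [hDc e he] at h1
        rw [hF0e e he] at h0
        simp only [hVm _ k1, hWm _ k2] at h2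
        rw [hES e he] at h2
        exact ⟨(mul_pos_iff_of_pos_left (mul_pos xM xM')).1 h0, h1, h2⟩) (fun e he h => by
        obtain ⟨h0, h1, h2⟩ := h
        obtain ⟨k1, k2⟩ := Finset.mem_product.1 he
        refine ⟨?_, ?_, ?_⟩
        · rw [hF0e e he]; exact mul_pos (mul_pos xM xM') h0
        · rw [hDc e he]; exact h1
        · simp only [hVm _ k1, hWm _ k2]
          rw [hES e he]; exact h2)
    convert hh
  rw [hsumT, hleft] at key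
  have key2 := key
  have he8 : Real.exp 2 ≤ 8 := by
    have h := Real.exp_one_lt_d9
    have : Real.exp 2 = Real.exp 1 * Real.exp 1 := by rw [← Real.exp_add]; norm_num
    rw [this]
    have h0 := Real.exp_pos 1
    nlinarith
  have hexp : ∀ x : ℝ, x ≤ 1 → Real.exp (2 * x) ≤ 8 := fun x hx =>
    (Real.exp_le_exp.2 (by linarith)).trans he8
  have sV : ∑ w ∈ V0, mu O' R w ≤ ex M * (8 * ∑ q ∈ V, rd b c ρ q * tq (q / pr)) := by
    rw [hV0, Finset.sum_image hinjV, Finset.mul_sum, Finset.mul_sum]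
    refine Finset.sum_le_sum fun q hq => ?_
    rw [muV q hq]
    have h1 := tq_div_le hMp0 (hVw q hq)
    have h2 := hexp _ hsI
    have h3 : tq (q / pr / M.gcd (q / pr)) ≤ tq (q / pr) * 8 :=
      h1.trans (mul_le_mul_of_nonneg_left h2 (tq_nonneg _))
    have h4 := mul_le_mul_of_nonneg_left h3 (mul_pos xM (hR q)).le
    calc _ ≤ ex M * rd b c ρ q * (tq (q / pr) * 8) := h4
      _ = _ := by ring
  have sW : ∑ w ∈ W0, mu O R' w ≤ ex M' * (8 * ∑ q ∈ W, rd b' c' ρ q * tq (q / pr')) := by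
    rw [hW0, Finset.sum_image hinjW, Finset.mul_sum, Finset.mul_sum]
    refine Finset.sum_le_sum fun q hq => ?_
    rw [muW q hq]
    have h1 := tq_div_le hMp0' (hWw q hq)
    have h2 := hexp _ hsI'
    have h3 : tq (q / pr' / M'.gcd (q / pr')) ≤ tq (q / pr') * 8 :=
      h1.trans (mul_le_mul_of_nonneg_left h2 (tq_nonneg _))
    have h4 := mul_le_mul_of_nonneg_left h3 (mul_pos xM' (hR' q)).le
    calc _ ≤ ex M' * rd b' c' ρ q * (tq (q / pr') * 8) := h4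
      _ = _ := by ring
  have nV : 0 ≤ ∑ w ∈ V0, mu O' R w := Finset.sum_nonneg fun w hw => by
    obtain ⟨q, hq, rfl⟩ := Finset.mem_image.1 hw
    rw [muV q hq]; exact mul_nonneg (mul_pos xM (hR q)).le (tq_nonneg _)
  have nW : 0 ≤ ∑ w ∈ W0, mu O R' w := Finset.sum_nonneg fun w hw => by
    obtain ⟨q, hq, rfl⟩ := Finset.mem_image.1 hw
    rw [muW q hq]; exact mul_nonneg (mul_pos xM' (hR' q)).le (tq_nonneg _)
  have omL : ∀ w, om O' w ≤ 1 := fun w => om_le_one (fun l hl => (hO' l hl).1.pos) w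
  have sVo : ∑ w ∈ V0, om O' w * mu O' R w ≤ ex M * (8 * ∑ q ∈ V, rd b c ρ q * tq (q / pr)) := by
    refine (Finset.sum_le_sum fun w hw => ?_).trans sV
    have h0 : 0 ≤ mu O' R w := by
      obtain ⟨q, hq, rfl⟩ := Finset.mem_image.1 hw
      rw [muV q hq]; exact mul_nonneg (mul_pos xM (hR q)).le (tq_nonneg _)
    exact mul_le_of_le_one_left h0 (omL w)
  have nVo : 0 ≤ ∑ w ∈ V0, om O' w * mu O' R w := Finset.sum_nonneg fun w hw => by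
    obtain ⟨q, hq, rfl⟩ := Finset.mem_image.1 hw
    rw [muV q hq]; exact mul_nonneg (om_nonneg _ _) (mul_nonneg (mul_pos xM (hR q)).le (tq_nonneg _))
  have sH : ∑ w ∈ W0, om O w * mu O R' w ≤
      ex M' * (8 * ∑ q ∈ W, om M'.primeFactors (q / pr') * (rd b' c' ρ q * tq (q / pr'))) := by
    rw [hW0, Finset.sum_image hinjW, Finset.mul_sum, Finset.mul_sum]
    refine Finset.sum_le_sum fun q hq => ?_
    rw [muW q hq]
    have h1 := tq_div_le hMp0' (hWw q hq)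
    have h2 := hexp _ hsI'
    have h3 : tq (q / pr' / M'.gcd (q / pr')) ≤ tq (q / pr') * 8 :=
      h1.trans (mul_le_mul_of_nonneg_left h2 (tq_nonneg _))
    have h4 := mul_le_mul_of_nonneg_left h3 (mul_pos xM' (hR' q)).le
    have h5 := mul_le_mul_of_nonneg_left h4 (om_nonneg O (q / pr'))
    calc _ ≤ om O (q / pr') * (ex M' * rd b' c' ρ q * (tq (q / pr') * 8)) := h5
      _ = _ := by ring
  have nH : 0 ≤ ∑ w ∈ W0, om O w * mu O R' w := Finset.sum_nonneg fun w hw' => by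
    obtain ⟨q, hq, rfl⟩ := Finset.mem_image.1 hw'
    rw [muW q hq]
    exact mul_nonneg (om_nonneg _ _) (mul_nonneg (mul_pos xM' (hR' q)).le (tq_nonneg _))
  set X := 8 * ∑ q ∈ V, rd b c ρ q * tq (q / pr) with hX
  set Y := 8 * ∑ q ∈ W, rd b' c' ρ q * tq (q / pr') with hY
  set Z := 8 * ∑ q ∈ W, om M'.primeFactors (q / pr') * (rd b' c' ρ q * tq (q / pr')) with hZ
  have nX : 0 ≤ X := mul_nonneg (by norm_num) (Finset.sum_nonneg fun q _ =>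
    mul_nonneg (hR q).le (tq_nonneg _))
  have nY : 0 ≤ Y := mul_nonneg (by norm_num) (Finset.sum_nonneg fun q _ =>
    mul_nonneg (hR' q).le (tq_nonneg _))
  have nZ : 0 ≤ Z := mul_nonneg (by norm_num) (Finset.sum_nonneg fun q _ =>
    mul_nonneg (om_nonneg _ _) (mul_nonneg (hR' q).le (tq_nonneg _)))
  have hprod : (∑ w ∈ V0, mu O' R w) * (∑ w ∈ W0, mu O R' w) ≤ ((ex M : ℝ) * ex M') * (X * Y) := by
    calc _ ≤ (ex M * X) * (ex M' * Y) := mul_le_mul sV sW nW (nV.trans sV)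
      _ = _ := by ring
  have hprod2 : (∑ w ∈ V0, om O' w * mu O' R w) * (∑ w ∈ W0, om O w * mu O R' w) ≤
      ((ex M : ℝ) * ex M') * (X * Z) := by
    calc _ ≤ (ex M * X) * (ex M' * Z) := mul_le_mul sVo sH nH (nVo.trans sVo)
      _ = _ := by ring
  have hlog : 0 ≤ (Real.log p)^3 := pow_nonneg (Real.log_natCast_nonneg p) 3
  have he1 : eps1 = 1/1000 := rfl
  have xx0 : (0:ℝ) < (ex M : ℝ) * ex M' := mul_pos xM xM'
  have hpow : ((ex M : ℝ) * ex M')^(22/1000:ℝ) *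
      ((∑ w ∈ V0, om O' w * mu O' R w) * (∑ w ∈ W0, om O w * mu O R' w))^(1/2+eps1) ≤
      ((ex M : ℝ) * ex M') * (X * Z)^(1/2+eps1) := by
    have h1 : ((∑ w ∈ V0, om O' w * mu O' R w) * (∑ w ∈ W0, om O w * mu O R' w))^(1/2+eps1) ≤
        ((ex M : ℝ) * ex M')^(1/2+eps1) * (X * Z)^(1/2+eps1) := by
      rw [← Real.mul_rpow xx0.le (mul_nonneg nX nZ)]
      exact Real.rpow_le_rpow (mul_nonneg nVo nH) hprod2 (by rw [he1]; norm_num)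
    calc _ ≤ ((ex M : ℝ) * ex M')^(22/1000:ℝ) *
          (((ex M : ℝ) * ex M')^(1/2+eps1) * (X * Z)^(1/2+eps1)) :=
          mul_le_mul_of_nonneg_left h1 (by positivity)
      _ = ((ex M : ℝ) * ex M')^(22/1000 + (1/2+eps1) : ℝ) * (X * Z)^(1/2+eps1) := by
          rw [Real.rpow_add xx0 (22/1000) (1/2+eps1)]; ring
      _ ≤ _ := by
          refine mul_le_mul_of_nonneg_right ?_ (Real.rpow_nonneg (mul_nonneg nX nZ) _)
          calc ((ex M : ℝ) * ex M')^(22/1000 + (1/2+eps1) : ℝ) ≤ ((ex M : ℝ) * ex M')^(1:ℝ) :=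
                Real.rpow_le_rpow_of_exponent_le xxX (by rw [he1]; norm_num)
            _ = _ := Real.rpow_one _
  have hY0 : (0:ℝ) ≤ Yf := zero_le_one.trans hYf
  have eY : (Yf * ((ex M : ℝ) * ex M'))^(22/1000:ℝ) =
      Yf^(22/1000:ℝ) * ((ex M : ℝ) * ex M')^(22/1000:ℝ) := Real.mul_rpow hY0 xx0.le
  rw [eY] at key2
  refine le_of_mul_le_mul_left ?_ xx0
  refine key2.trans ?_
  have hpp0 : (0:ℝ) ≤ Yf^(22/1000:ℝ) * (p:ℝ)^(3/4000:ℝ) :=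
    mul_nonneg (Real.rpow_nonneg hY0 _) (by positivity)
  have t1 := mul_le_mul_of_nonneg_left hprod hlog
  have t2 := mul_le_mul_of_nonneg_left hpow (mul_nonneg (by norm_num : (0:ℝ) ≤ 2) hpp0)
  refine (add_le_add (add_le_add t1 (le_trans (le_of_eq ?_) t2)) le_rfl).trans (le_of_eq ?_)
  · ring
  · ring


/-! ### numbers -/

/-- the numbers of a column with the factor `Y = p` -/
lemma num_kY (C1 Cm : ℝ) (hCm : 0 ≤ Cm) : ∃ p₁ : ℕ, 2 ≤ p₁ ∧ ∀ p : ℕ, p₁ ≤ p →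
    ∀ X X' H' Φ Φ' : ℝ,
    0 ≤ X → 0 ≤ X' → 0 ≤ H' → X ≤ (Real.log p)^C1 / p → X' ≤ (Real.log p)^C1 → H' ≤ X' →
    X ≤ Cm * Φ → X' ≤ Cm * Φ' → 0 ≤ Φ → 0 ≤ Φ' →
    (Real.log p)^3 * ((8 * X) * (8 * X')) +
      2 * (p:ℝ)^(22/1000:ℝ) * ((p:ℝ)^(3/4000:ℝ) * ((8 * X) * (8 * H'))^(1/2+eps1)) ≤
      (p:ℝ)^(1/10:ℝ) * Φ + (p:ℝ)^(-(1/200):ℝ) * Φ' := by
  have he1 : eps1 = 1/1000 := rfl
  have e1 := ev_log_rpow (128 * Cm) (C1 + 3) (199/200) (by norm_num)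
  have e2 := ev_log_rpow 64 (C1 + C1) 1 (by norm_num)
  have e3 := ev_log_rpow (8 * Cm) 0 (3/100) (by norm_num)
  have e4 := ev_log_rpow (16 * Cm) 0 (1/100) (by norm_num)
  obtain ⟨x0, hx0⟩ := Filter.eventually_atTop.1
    (e1.and (e2.and (e3.and (e4.and (Filter.eventually_ge_atTop (3:ℝ))))))
  refine ⟨max 2 ⌈x0⌉₊, le_max_left _ _, ?_⟩
  intro p hp X X' H' Φ Φ' hX hX' hH' hXs hXs' hHX hXm hXm' hΦ1 hΦ2
  have hpx : x0 ≤ (p:ℝ) := (Nat.le_ceil x0).trans (by exact_mod_cast (le_max_right _ _).trans hp)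
  obtain ⟨g1, g2, g3, g4, g5⟩ := hx0 p hpx
  have hp0 : (0:ℝ) < p := by linarith
  have hp1 : (1:ℝ) ≤ p := by linarith
  have hl1 : 1 ≤ Real.log p := by
    rw [Real.le_log_iff_exp_le hp0]
    have := Real.exp_one_lt_d9
    linarith
  have hl0 : 0 < Real.log p := by linarith
  rw [Real.rpow_zero, mul_one] at g3 g4
  rw [Real.rpow_one] at g2
  set L := Real.log (p:ℝ) with hL
  have hLC : 0 < L^C1 := Real.rpow_pos_of_pos hl0 _
  -- first term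
  have a1 : L^3 * ((8 * X) * (8 * X')) ≤ 1/2 * ((p:ℝ)^(-(1/200):ℝ) * Φ') := by
    have d0 : X * X' ≤ (L^C1 / p) * (Cm * Φ') := mul_le_mul hXs hXm' hX' (by positivity)
    have d1 : L^3 * ((8 * X) * (8 * X')) ≤ (64 * Cm * (L^(C1+3))) / p * Φ' := by
      have d2 : L^(C1+3) = L^C1 * L^3 := by
        rw [Real.rpow_add hl0]
        have : L^(3:ℝ) = L^(3:ℕ) := by
          rw [← Real.rpow_natCast]; norm_num
        rw [this]
      rw [d2]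
      calc L^3 * ((8 * X) * (8 * X')) = 64 * L^3 * (X * X') := by ring
        _ ≤ 64 * L^3 * ((L^C1 / p) * (Cm * Φ')) := mul_le_mul_of_nonneg_left d0 (by positivity)
        _ = _ := by ring
    have eR : 1/2 * ((p:ℝ)^(-(1/200):ℝ) * Φ') = (1/2 * (p:ℝ)^(-(1/200):ℝ)) * Φ' := by ring
    rw [eR]
    refine d1.trans (mul_le_mul_of_nonneg_right ?_ hΦ2)
    rw [div_le_iff₀ hp0]
    have h3 : (p:ℝ)^(-(1/200):ℝ) * p = (p:ℝ)^(199/200:ℝ) := by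
      nth_rewrite 2 [← Real.rpow_one (p:ℝ)]
      rw [← Real.rpow_add hp0]; norm_num
    have h4 : 1/2 * (p:ℝ)^(-(1/200):ℝ) * p = 1/2 * (p:ℝ)^(199/200:ℝ) := by
      rw [mul_assoc, h3]
    rw [h4]
    linarith
  -- second term
  have a2 : 2 * (p:ℝ)^(22/1000:ℝ) * ((p:ℝ)^(3/4000:ℝ) * ((8 * X) * (8 * H'))^(1/2+eps1)) ≤
      (p:ℝ)^(1/10:ℝ) * Φ + 1/2 * ((p:ℝ)^(-(1/200):ℝ) * Φ') := by
    have hYY0 : 0 ≤ (8 * X) * (8 * H') := by positivity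
    have b1 : ((8 * X) * (8 * H'))^(1/2+eps1) =
        ((8 * X) * (8 * H'))^(1/2:ℝ) * ((8 * X) * (8 * H'))^(1/1000:ℝ) := by
      rw [he1, Real.rpow_add_of_nonneg hYY0 (by norm_num) (by norm_num)]
    have hla : 0 < (p:ℝ)^(1/25:ℝ) := Real.rpow_pos_of_pos hp0 _
    have hlb : 0 < (p:ℝ)^(-(1/25):ℝ) := Real.rpow_pos_of_pos hp0 _
    have hlab : (p:ℝ)^(1/25:ℝ) * (p:ℝ)^(-(1/25):ℝ) = 1 := by
      rw [← Real.rpow_add hp0]; norm_num
    have b2 : ((8 * X) * (8 * H'))^(1/2:ℝ) ≤ ((p:ℝ)^(1/25:ℝ) * (8 * X) +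
        (p:ℝ)^(-(1/25):ℝ) * (8 * H')) / 2 := by
      rw [← Real.sqrt_eq_rpow]
      apply Real.sqrt_le_iff.2
      refine ⟨by positivity, ?_⟩
      have h5 : (8 * X) * (8 * H') = ((p:ℝ)^(1/25:ℝ) * (8 * X)) * ((p:ℝ)^(-(1/25):ℝ) * (8 * H')) := by
        calc (8 * X) * (8 * H') = ((p:ℝ)^(1/25:ℝ) * (p:ℝ)^(-(1/25):ℝ)) * ((8 * X) * (8 * H')) := by
              rw [hlab, one_mul]
          _ = _ := by ring
      rw [h5]
      nlinarith [sq_nonneg ((p:ℝ)^(1/25:ℝ) * (8 * X) - (p:ℝ)^(-(1/25):ℝ) * (8 * H'))]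
    have b3 : ((8 * X) * (8 * H'))^(1/1000:ℝ) ≤ 1 := by
      refine Real.rpow_le_one hYY0 ?_ (by norm_num)
      have c0 : X * H' ≤ (L^C1 / p) * L^C1 := mul_le_mul hXs (hHX.trans hXs') hH' (by positivity)
      have c2 : 64 * ((L^C1 / p) * L^C1) ≤ 1 := by
        have c3 : 64 * ((L^C1 / p) * L^C1) = (64 * L^(C1+C1)) / p := by
          rw [Real.rpow_add hl0]; ring
        rw [c3, div_le_one hp0]
        exact g2
      calc (8 * X) * (8 * H') = 64 * (X * H') := by ring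
        _ ≤ 64 * ((L^C1 / p) * L^C1) := by linarith
        _ ≤ _ := c2
    have b4 : ((8 * X) * (8 * H'))^(1/2+eps1) ≤ ((p:ℝ)^(1/25:ℝ) * (8 * (Cm * Φ)) +
        (p:ℝ)^(-(1/25):ℝ) * (8 * (Cm * Φ'))) / 2 := by
      rw [b1]
      calc ((8 * X) * (8 * H'))^(1/2:ℝ) * ((8 * X) * (8 * H'))^(1/1000:ℝ)
          ≤ ((8 * X) * (8 * H'))^(1/2:ℝ) * 1 :=
            mul_le_mul_of_nonneg_left b3 (Real.rpow_nonneg hYY0 _)
        _ = ((8 * X) * (8 * H'))^(1/2:ℝ) := mul_one _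
        _ ≤ _ := b2
        _ ≤ _ := by
          have i1 := mul_le_mul_of_nonneg_left hXm hla.le
          have i2 := mul_le_mul_of_nonneg_left (hHX.trans hXm') hlb.le
          nlinarith
    have hq0 : 0 ≤ 2 * (p:ℝ)^(22/1000:ℝ) * (p:ℝ)^(3/4000:ℝ) := by positivity
    have q1 : (p:ℝ)^(22/1000:ℝ) * (p:ℝ)^(3/4000:ℝ) * (p:ℝ)^(1/25:ℝ) * (8 * Cm) ≤ (p:ℝ)^(1/10:ℝ) := by
      calc _ ≤ (p:ℝ)^(22/1000:ℝ) * (p:ℝ)^(3/4000:ℝ) * (p:ℝ)^(1/25:ℝ) * (p:ℝ)^(3/100:ℝ) :=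
            mul_le_mul_of_nonneg_left g3 (by positivity)
        _ = (p:ℝ)^(371/4000:ℝ) := by
            rw [← Real.rpow_add hp0, ← Real.rpow_add hp0, ← Real.rpow_add hp0]; norm_num
        _ ≤ _ := Real.rpow_le_rpow_of_exponent_le hp1 (by norm_num)
    have q2 : (p:ℝ)^(22/1000:ℝ) * (p:ℝ)^(3/4000:ℝ) * (p:ℝ)^(-(1/25):ℝ) * (16 * Cm) ≤
        (p:ℝ)^(-(1/200):ℝ) := by
      calc _ ≤ (p:ℝ)^(22/1000:ℝ) * (p:ℝ)^(3/4000:ℝ) * (p:ℝ)^(-(1/25):ℝ) * (p:ℝ)^(1/100:ℝ) :=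
            mul_le_mul_of_nonneg_left g4 (by positivity)
        _ = (p:ℝ)^(-(29/4000):ℝ) := by
            rw [← Real.rpow_add hp0, ← Real.rpow_add hp0, ← Real.rpow_add hp0]; norm_num
        _ ≤ _ := Real.rpow_le_rpow_of_exponent_le hp1 (by norm_num)
    have q3 := mul_le_mul_of_nonneg_right q1 hΦ1
    have q4 := mul_le_mul_of_nonneg_right q2 hΦ2
    calc _ = (2 * (p:ℝ)^(22/1000:ℝ) * (p:ℝ)^(3/4000:ℝ)) * ((8 * X) * (8 * H'))^(1/2+eps1) := by ring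
      _ ≤ _ := mul_le_mul_of_nonneg_left b4 hq0
      _ = (p:ℝ)^(22/1000:ℝ) * (p:ℝ)^(3/4000:ℝ) * (p:ℝ)^(1/25:ℝ) * (8 * Cm) * Φ +
          1/2 * ((p:ℝ)^(22/1000:ℝ) * (p:ℝ)^(3/4000:ℝ) * (p:ℝ)^(-(1/25):ℝ) * (16 * Cm) * Φ') := by
          ring
      _ ≤ _ := by linarith
  linarith

/-- constants of a column with the factor `p`: independent of types -/
structure CKY (CL C1 Cm : ℝ) (p₁ : ℕ) : Prop where
  big : 16 ≤ p₁
  col : KClsX CL p₁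
  num : ∀ p : ℕ, p₁ ≤ p → ∀ X X' H' Φ Φ' : ℝ,
    0 ≤ X → 0 ≤ X' → 0 ≤ H' → X ≤ (Real.log p)^C1 / p → X' ≤ (Real.log p)^C1 → H' ≤ X' →
    X ≤ Cm * Φ → X' ≤ Cm * Φ' → 0 ≤ Φ → 0 ≤ Φ' →
    (Real.log p)^3 * ((8 * X) * (8 * X')) +
      2 * (p:ℝ)^(22/1000:ℝ) * ((p:ℝ)^(3/4000:ℝ) * ((8 * X) * (8 * H'))^(1/2+eps1)) ≤
      (p:ℝ)^(1/10:ℝ) * Φ + (p:ℝ)^(-(1/200):ℝ) * Φ'

theorem exists_CKY {CL : ℝ} (hCL : 1 ≤ CL) (C1 Cm : ℝ) (hCm : 0 ≤ Cm) :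
    ∃ p₁ : ℕ, CKY CL C1 Cm p₁ := by
  obtain ⟨p₀, hp0, h0⟩ := exists_KClsX hCL
  obtain ⟨p₁, hp1, h1⟩ := num_kY C1 Cm hCm
  refine ⟨max (max p₀ p₁) 16, le_max_right _ _, ?_, ?_⟩
  · intro n p G O O' V W R R' γ γ' F Q X hp
    exact h0 n p G O O' V W R R' γ γ' F Q X
      (((le_max_left _ _).trans (le_max_left _ _)).trans hp)
  · intro p hp
    exact h1 p (((le_max_right _ _).trans (le_max_left _ _)).trans hp)

lemma CKY.mono {CL C1 Cm : ℝ} {p₁ p₂ : ℕ} (h : CKY CL C1 Cm p₁) (h2 : p₁ ≤ p₂) : CKY CL C1 Cm p₂ :=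
  ⟨h.big.trans h2, fun n p G O O' V W R R' γ γ' F Q X hp =>
      h.col n p G O O' V W R R' γ γ' F Q X (h2.trans hp),
    fun p hp => h.num p (h2.trans hp)⟩

open Classical in
/-- **a column on item pairs, with numbers, factor `p`** -/
theorem k_smallY {CL C1 Cm : ℝ} {p₁ : ℕ} (hcc : CKY CL C1 Cm p₁) {γ : ℝ} {ρ : ℕ → ℝ}
    {F : ℕ × ℕ → ℝ} {n p G M b pr c M' b' pr' c' : ℕ} {V W : Finset ℕ} {Φ Φ' : ℝ}
    (hp : p₁ ≤ p) (hn : n = ⌊1/4 * Real.log p / Real.log 2⌋₊) (hG : 0 < G)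
    (hρ : ∀ q, 0 < ρ q) (hb : 0 < b) (hc : 0 < c) (hb' : 0 < b') (hc' : 0 < c')
    (hM : 0 < M) (hM' : 0 < M')
    (hMp : ∀ l : ℕ, l.Prime → l ∣ M → p ≤ l) (hMp' : ∀ l : ℕ, l.Prime → l ∣ M' → p ≤ l)
    (hs : ∑ l ∈ M.primeFactors, (l:ℝ)^(-(11/12):ℝ) ≤ 1)
    (hs' : ∑ l ∈ M'.primeFactors, (l:ℝ)^(-(11/12):ℝ) ≤ 1)
    (hV : ∀ q ∈ V, 0 < q ∧ pr ∣ q) (hW : ∀ q ∈ W, 0 < q ∧ pr' ∣ q)
    (oV : ∀ q ∈ V, Once M (q / pr)) (oW : ∀ q ∈ W, Once M' (q / pr'))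
    (tV : ∀ z : ℝ, (p:ℝ) ≤ z → ∀ q ∈ V, Crest.Agent.R4.ClsB.Tame z G (q / pr / M.gcd (q / pr)))
    (tW : ∀ z : ℝ, (p:ℝ) ≤ z → ∀ q ∈ W, Crest.Agent.R4.ClsB.Tame z G (q / pr' / M'.gcd (q / pr')))
    (lV : ∀ q ∈ V, 1 ≤ CL * Real.log p * tq (q / pr / M.gcd (q / pr)))
    (lW : ∀ q ∈ W, 1 ≤ CL * Real.log p * tq (q / pr' / M'.gcd (q / pr')))
    (hF : ∀ e ∈ V ×ˢ W, F e ≤ pbd ((b : ℝ) / c * γ) (rd b c ρ e.1) (e.1 / pr) M
      ((b' : ℝ) / c' * γ) (rd b' c' ρ e.2) (e.2 / pr') M') {Qf : ℕ × ℕ → Prop}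
    (hFS : ∀ e ∈ V ×ˢ W, Dq ρ M b pr c M' b' pr' c' e ≤ 1/2^n → 0 < F e →
      FSI γ ρ n M b pr c M' b' pr' c' e →
      1 < 2 * (p * ((rf (e.1 / pr) M : ℝ) * rf (e.2 / pr') M'))^10 *
        Dq ρ M b pr c M' b' pr' c' e ∨ Qf e)
    (xV : ∑ q ∈ V, rd b c ρ q * tq (q / pr) ≤ (Real.log p)^C1 / p)
    (xW : ∑ q ∈ W, rd b' c' ρ q * tq (q / pr') ≤ (Real.log p)^C1)
    (mV : ∑ q ∈ V, rd b c ρ q * tq (q / pr) ≤ Cm * Φ)
    (mW : ∑ q ∈ W, rd b' c' ρ q * tq (q / pr') ≤ Cm * Φ')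
    (hΦ : 0 ≤ Φ) (hΦ' : 0 ≤ Φ') :
    ∑ e ∈ V ×ˢ W, F e ≤ ((p:ℝ)^(1/10:ℝ) * Φ + (p:ℝ)^(-(1/200):ℝ) * Φ') +
      ∑ e ∈ (V ×ˢ W).filter (fun e => 0 < F e ∧ (Dq ρ M b pr c M' b' pr' c' e ≤ 1/2^n ∧
        (ESI γ ρ M b pr c M' b' pr' c' e ∨ Qf e))), F e := by
  have hp16 : 16 ≤ p := hcc.big.trans hp
  have hn1 : 1 ≤ n := by
    rw [hn]
    apply Nat.le_floor
    have hl2 : 0 < Real.log 2 := Real.log_pos (by norm_num)
    rw [Nat.cast_one, le_div_iff₀ hl2]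
    have h16 : Real.log 16 ≤ Real.log p := Real.log_le_log (by norm_num) (by exact_mod_cast hp16)
    have : Real.log 16 = 4 * Real.log 2 := by
      rw [show (16:ℝ) = 2^4 by norm_num, Real.log_pow]; norm_num
    linarith
  have hpR : (1:ℝ) ≤ p := by exact_mod_cast (by omega : 1 ≤ p)
  have key := k_itemsY hcc.col hpR (γ := γ) (F := F) (Qf := Qf) hp hn hn1 hG
    hρ hb hc hb' hc' hM hM' hMp hMp' hs hs' hV hW oV oW tV tW lV lW hF hFS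
  refine key.trans (add_le_add ?_ le_rfl)
  have tV0 : ∀ q, 0 ≤ rd b c ρ q * tq (q / pr) := fun q =>
    mul_nonneg (mul_nonneg (by positivity) (hρ q).le) (tq_nonneg _)
  have tW0 : ∀ q, 0 ≤ rd b' c' ρ q * tq (q / pr') := fun q =>
    mul_nonneg (mul_nonneg (by positivity) (hρ q).le) (tq_nonneg _)
  have nV : 0 ≤ ∑ q ∈ V, rd b c ρ q * tq (q / pr) := Finset.sum_nonneg fun q _ => tV0 q
  have nW : 0 ≤ ∑ q ∈ W, rd b' c' ρ q * tq (q / pr') := Finset.sum_nonneg fun q _ => tW0 q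
  have nH : 0 ≤ ∑ q ∈ W, om M'.primeFactors (q / pr') * (rd b' c' ρ q * tq (q / pr')) :=
    Finset.sum_nonneg fun q _ => mul_nonneg (om_nonneg _ _) (tW0 q)
  have oP : ∀ l ∈ M'.primeFactors, 0 < l := fun l hl => (Nat.prime_of_mem_primeFactors hl).pos
  have hHX : ∑ q ∈ W, om M'.primeFactors (q / pr') * (rd b' c' ρ q * tq (q / pr')) ≤
      ∑ q ∈ W, rd b' c' ρ q * tq (q / pr') :=
    Finset.sum_le_sum fun q _ => mul_le_of_le_one_left (tW0 q) (om_le_one oP _)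
  exact hcc.num p hp _ _ _ Φ Φ' nV nW nH xV xW hHX mV mW hΦ hΦ'

open Crest.Agent.R4.Tour104 Crest.Agent.R4.Tour758 Crest.Agent.R4.Avg758 Crest.Agent.R4.Clos758
open Crest.Agent.R4.ClosL758 Crest.Agent.R4.ClosG758 Crest.Agent.R4.ClosR758
open Crest.Agent.R4.Fam464 Crest.Agent.R4P.Cnt588 Crest.Agent.R4P.Walk560 Crest.Agent.R4.Piece464
open Crest.Agent.R4P.GInst194 Crest.Agent.R4P.WalkIT579
open Crest.Agent.R4P.Bld532 (NS All NodeOk Bk)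

variable {Λ κ : Type*} [Fintype Λ] [DecidableEq Λ] [Fintype κ] [DecidableEq κ]
  {D : Par Λ κ} {ρ : ℕ → ℝ} {Al : Finset ℕ} {sp : ℕ → Finset Λ} {P : Bld532.Par}
  {W : ℕ → ℝ} {CL C1 c₀ : ℝ} {p₁ : ℕ} [WRel κ] {s : St Λ κ}

/-- the `[F]` pairs of a column: payable up to the factor `Y`, or named by `Qf` -/
def FSOkY (D : Par Λ κ) (ρ : ℕ → ℝ) (n p : ℕ) (M b pr c : ℕ) (t : IT)
    (A : Finset Λ) (M' b' pr' c' : ℕ) (t' : IT) (A' : Finset Λ) (Y : ℝ) (Qf : ℕ × ℕ → Prop) :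
    Prop :=
  ∀ e : ℕ × ℕ, e.1 ∈ t.items → e.2 ∈ t'.items → Dq ρ M b pr c M' b' pr' c' e ≤ 1/2^n →
    0 < D.iF (Ro (D.rho p)) (D.uA M b pr t A c) (D.uA M' b' pr' t' A' c') e →
    FSI D.γ ρ n M b pr c M' b' pr' c' e →
    1 < 2 * (Y * ((rf (e.1 / pr) M : ℝ) * rf (e.2 / pr') M'))^10 *
      Dq ρ M b pr c M' b' pr' c' e ∨ Qf e

lemma FSOkY.one {n p : ℕ} {M b pr c : ℕ} {t : IT}
    {A : Finset Λ} {M' b' pr' c' : ℕ} {t' : IT} {A' : Finset Λ} {Qf : ℕ × ℕ → Prop}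
    (h : FSOkY D ρ n p M b pr c t A M' b' pr' c' t' A' 1 Qf) :
    FSOk D ρ n p M b pr c t A M' b' pr' c' t' A' Qf := fun e h1 h2 h3 h4 h5 => by
  have := h e h1 h2 h3 h4 h5
  rwa [one_mul] at this

open Classical in
/-- **A COLUMN, factor `p`**: left side below a tie, right side at any node -/
theorem col_nodeY (hk : CKY CL C1 (1 / c₀) p₁) {p n : ℕ} (hni : NI D ρ Al P W C1 c₀ p)
    (hCL : 0 ≤ CL) (hp : p₁ ≤ p) (hn : n = ⌊1/4 * Real.log p / Real.log 2⌋₊)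
    {u : NS} {Sp : Finset ℕ} {t₁ t₀ : IT} {M G : ℕ} {A : Finset Λ} {d : DT Λ κ}
    (h : SideI D sp u.B u.A (.br p Sp t₁ t₀) A d) (hM : 0 < M)
    (hL : NSd D Al P W CL c₀ p G M u (.br p Sp t₁ t₀) A)
    (hs : ∑ l ∈ M.primeFactors, (l:ℝ)^(-(11/12):ℝ) ≤ 1) (hG : 0 < G)
    {M' b' pr' c' : ℕ} {τ' : IT} {A' : Finset Λ} (hb' : 0 < b') (hF' : Fit b' pr' τ')
    (hW' : D.Wts pr' τ') (hc' : c' ∣ b') (hM' : 0 < M')
    (geM' : ∀ l : ℕ, l.Prime → l ∣ M' → p ≤ l)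
    (hs' : ∑ l ∈ M'.primeFactors, (l:ℝ)^(-(11/12):ℝ) ≤ 1)
    (oR : ∀ q ∈ Qi D Al τ' A', Once M' (q / pr'))
    (tR : ∀ z : ℝ, (p:ℝ) ≤ z → ∀ q ∈ Qi D Al τ' A',
      Crest.Agent.R4.ClsB.Tame z G (q / pr' / M'.gcd (q / pr')))
    (lR : ∀ q ∈ Qi D Al τ' A', 1 ≤ CL * Real.log p * tq (q / pr'))
    (xR : ∑ q ∈ Qi D Al τ' A', rd b' c' ρ q * tq (q / pr') ≤ (Real.log p)^C1) {Φ' : ℝ}
    (mW : ∑ q ∈ Qi D Al τ' A', rd b' c' ρ q * tq (q / pr') ≤ 1 / c₀ * Φ')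
    (hΦ' : 0 ≤ Φ') {Qf : ℕ × ℕ → Prop}
    (hFS : FSOkY D ρ n p M (u.B * p) u.A p t₀ A M' b' pr' c' τ' A' (p:ℝ) Qf) :
    ∑ e ∈ D.PE (Ro (D.rho p)) (D.uA M (u.B * p) u.A t₀ A p) (D.uA M' b' pr' τ' A' c'),
      D.iF (Ro (D.rho p)) (D.uA M (u.B * p) u.A t₀ A p) (D.uA M' b' pr' τ' A' c') e ≤
      ((p:ℝ)^(1/10:ℝ) * (∑ j ∈ A.filter (fun j => D.it j ∈ t₀.items), mI d j) +
        (p:ℝ)^(-(1/200):ℝ) * Φ') +
      ∑ e ∈ KR D ρ Al n p M (u.B * p) u.A p t₀ A M' b' pr' c' τ' A' Qf,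
        D.iF (Ro (D.rho p)) (D.uA M (u.B * p) u.A t₀ A p) (D.uA M' b' pr' τ' A' c') e := by
  classical
  have hpp : p.Prime := h.hF.1
  have hp0 : 0 < p := hpp.pos
  have hL0 := h.br₀
  have hc0' : 0 < c' := Nat.pos_of_dvd_of_pos hc' hb'
  set F : ℕ × ℕ → ℝ := D.iF (Ro (D.rho p)) (D.uA M (u.B * p) u.A t₀ A p)
    (D.uA M' b' pr' τ' A' c') with hFdef
  have hF0 : ∀ e, 0 ≤ F e := fun e => D.iF_nonneg _
    (fun j y => (PB_uA hM hL0.hb hL0.hF hL0.hW (Dvd.intro_left u.B rfl) j).nonneg y)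
    (fun j y => (PB_uA hM' hb' hF' hW' hc' j).nonneg y) e
  have nΦ : 0 ≤ ∑ j ∈ A.filter (fun j => D.it j ∈ t₀.items), mI d j :=
    Finset.sum_nonneg fun j _ => mI_nn h j
  refine (Finset.sum_le_sum_of_subset_of_nonneg (PE_sub hni.dead hM hM' hL0.hb hb' hL0.hF
    hF' hL0.hW hW' (Dvd.intro_left u.B rfl) hc' _ _ _)
    fun e _ _ => hF0 e).trans ?_
  have itL : ∀ q ∈ Qi D Al t₀ A, q ∈ (IT.br p Sp t₁ t₀).items := fun q hq =>
    Finset.mem_union_right _ (mem_Qi.1 hq).1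
  have w0L : ∀ q ∈ Qi D Al t₀ A, 0 < q / u.A := fun q hq => by
    have hq0 := (hL0.hF.item q (mem_Qi.1 hq).1)
    exact Nat.div_pos (Nat.le_of_dvd hq0.1 hq0.2.1) (Nat.pos_of_dvd_of_pos hq0.2.1 hq0.1)
  have w0R : ∀ q ∈ Qi D Al τ' A', 0 < q / pr' := fun q hq => by
    have hq0 := (hF'.item q (mem_Qi.1 hq).1)
    exact Nat.div_pos (Nat.le_of_dvd hq0.1 hq0.2.1) (Nat.pos_of_dvd_of_pos hq0.2.1 hq0.1)
  have logp : 0 ≤ CL * Real.log p := mul_nonneg hCL (Real.log_natCast_nonneg p)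
  have key := k_smallY hk (γ := D.γ) (F := F) (n := n) (p := p) (G := G) (M := M)
    (b := u.B * p) (pr := u.A) (c := p) (M' := M') (b' := b') (pr' := pr')
    (c' := c') (V := Qi D Al t₀ A) (W := Qi D Al τ' A')
    (Φ := ∑ j ∈ A.filter (fun j => D.it j ∈ t₀.items), mI d j) (Φ' := Φ')
    hp hn hG hni.rad.pos hL0.hb hp0 hb' hc0' hM hM' hL.geM geM' hs hs'
    (fun q hq => ⟨(hL0.hF.item q (mem_Qi.1 hq).1).1, (hL0.hF.item q (mem_Qi.1 hq).1).2.1⟩)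
    (fun q hq => ⟨(hF'.item q (mem_Qi.1 hq).1).1, (hF'.item q (mem_Qi.1 hq).1).2.1⟩)
    (fun q hq => hL.once q (mem_Qi.1 hq).2.1 (itL q hq)) oR
    (fun z hz q hq => by
      obtain ⟨h1, h2, j, hj, rfl⟩ := mem_Qi.1 hq
      exact hL.tame z hz j hj h2 (itL _ hq)) tR
    (fun q hq => by
      refine (hL.lg q (mem_Qi.1 hq).2.1 (itL q hq)).trans ?_
      exact mul_le_mul_of_nonneg_left (tq_mono (Nat.div_dvd_of_dvd (Nat.gcd_dvd_right _ _)) (w0L q hq)) logp)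
    (fun q hq => by
      refine (lR q hq).trans ?_
      exact mul_le_mul_of_nonneg_left (tq_mono (Nat.div_dvd_of_dvd (Nat.gcd_dvd_right _ _)) (w0R q hq)) logp)
    (fun e he => by
      obtain ⟨h1, h2⟩ := Finset.mem_product.1 he
      exact iF_le hni.rad hM hM' hL0.hb hb' hL0.hF hF' hL0.hW hW'
        (Dvd.intro_left u.B rfl) hc' _ _ _ e (mem_Qi.1 h1).1 (mem_Qi.1 h2).1)
    (Qf := Qf)
    (fun e he h1 h2 h3 => by
      obtain ⟨k1, k2⟩ := Finset.mem_product.1 he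
      exact hFS e (mem_Qi.1 k1).1 (mem_Qi.1 k2).1 h1 h2 h3)
    ((share_le hL.node hL.ms hni.rad.pos hni.W0 hni.Wρ hni.sg0 A).trans hni.sg) xR
    (mass_sum hni.ab h hni.c0 hL.ph hL.mean hni.full hL.il (mI_nn h)) mW nΦ hΦ'
  refine key.trans (le_of_eq ?_)
  unfold KR
  rw [← hFdef]

open Classical in
/-- **ONE-SIDED COLUMN OF A STATE, left tie, factor `p`** -/
theorem os_stateY (hk : CKY CL C1 (1 / c₀) p₁) {p n G : ℕ} (hni : NI D ρ Al P W C1 c₀ p)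
    {u u' : NS} {Sp : Finset ℕ} {t₁ t₀ τ' : IT}
    (h : StI D sp s u.B u.A (.br p Sp t₁ t₀) u'.B u'.A τ') (hB : Blw p τ') (hG : 0 < G)
    (hL : NSd D Al P W CL c₀ p G s.M u (.br p Sp t₁ t₀) s.A)
    (hR : NSd D Al P W CL c₀ p G s.M' u' τ' s.A') (hc' : 0 ≤ u'.c)
    (hhi : 2 * (u'.c * Ws W τ'.items) ≤ (Real.log p)^C1)
    (hCL : 0 ≤ CL)
    (hp : p₁ ≤ p) (hn : n = ⌊1/4 * Real.log p / Real.log 2⌋₊)
    {stp : Stp Λ κ}
    (hst : ¬ stp s → ∑ l ∈ s.M.primeFactors, (l:ℝ)^(-(11/12):ℝ) ≤ 1 ∧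
      ∑ l ∈ s.M'.primeFactors, (l:ℝ)^(-(11/12):ℝ) ≤ 1)
    {Qf : ℕ × ℕ → Prop}
    (hFS : FSOkY D ρ n p s.M (u.B * p) u.A p t₀ s.A s.M' u'.B u'.A 1 τ' s.A' (p:ℝ) Qf) :
    eOS stp s ≤ ((p:ℝ)^(1/10:ℝ) * (∑ j ∈ s.A.filter (fun j => D.it j ∈ t₀.items), mI s.t j) +
        (p:ℝ)^(-(1/200):ℝ) *
          (∑ j ∈ s.A'.filter (fun j => D.it j ∈ τ'.items), mI s.t' j)) +
      ∑ e ∈ KR D ρ Al n p s.M (u.B * p) u.A p t₀ s.A s.M' u'.B u'.A 1 τ' s.A' Qf,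
        D.iF (Ro (D.rho p)) (D.uA s.M (u.B * p) u.A t₀ s.A p)
          (D.uA s.M' u'.B u'.A τ' s.A' 1) e := by
  classical
  have hL0 := h.L.br₀
  have hF0 : ∀ e, 0 ≤ D.iF (Ro (D.rho p)) (D.uA s.M (u.B * p) u.A t₀ s.A p)
      (D.uA s.M' u'.B u'.A τ' s.A' 1) e := fun e => D.iF_nonneg _
    (fun j y => (PB_uA h.M0 hL0.hb hL0.hF hL0.hW (Dvd.intro_left u.B rfl) j).nonneg y)
    (fun j y => (PB_uA h.M0' h.R.hb h.R.hF h.R.hW (one_dvd _) j).nonneg y) e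
  have nΦ : 0 ≤ ∑ j ∈ s.A.filter (fun j => D.it j ∈ t₀.items), mI s.t j :=
    Finset.sum_nonneg fun j _ => mI_nn h.L j
  have nΦ' : 0 ≤ ∑ j ∈ s.A'.filter (fun j => D.it j ∈ τ'.items), mI s.t' j :=
    Finset.sum_nonneg fun j _ => mI_nn h.R j
  have hrest : 0 ≤ ∑ e ∈ KR D ρ Al n p s.M (u.B * p) u.A p t₀ s.A s.M' u'.B u'.A 1 τ' s.A' Qf,
        D.iF (Ro (D.rho p)) (D.uA s.M (u.B * p) u.A t₀ s.A p)
          (D.uA s.M' u'.B u'.A τ' s.A' 1) e := Finset.sum_nonneg fun e _ => hF0 e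
  by_cases hstp : stp s
  · have e0 : eOS stp s = 0 := by
      unfold eOS
      split_ifs <;> rfl
    rw [e0]
    positivity
  obtain ⟨hs, hs'⟩ := hst hstp
  refine (eOS_le_iF h hB stp).trans ?_
  exact col_nodeY hk hni hCL hp hn h.L h.M0 hL hs hG
    (τ' := τ') (A' := s.A') (M' := s.M') (b' := u'.B) (pr' := u'.A) (c' := 1)
    h.R.hb h.R.hF h.R.hW (one_dvd _) h.M0' hR.geM hs'
    (fun q hq => hR.once q (mem_Qi.1 hq).2.1 (mem_Qi.1 hq).1)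
    (fun z hz q hq => by
      obtain ⟨h1, h2, j, hj, rfl⟩ := mem_Qi.1 hq
      exact hR.tame z hz j hj h2 h1)
    (fun q hq => hR.lg q (mem_Qi.1 hq).2.1 (mem_Qi.1 hq).1)
    ((share_node hc' hR.ms hni.rad.pos hni.W0 hni.Wρ s.A').trans hhi)
    (Φ' := ∑ j ∈ s.A'.filter (fun j => D.it j ∈ τ'.items), mI s.t' j)
    (by
      have := mass_node hni.ab h.R hni.c0 hR.ph hR.mean hni.full hR.il (mI_nn h.R) (f := fun _ => 1)
        (fun _ => zero_le_one)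
      simpa only [one_mul] using this)
    nΦ' hFS

open Classical in
/-- **ONE-SIDED COLUMN OF A STATE, right tie, factor `p`** -/
theorem os_stateY' (hk : CKY CL C1 (1 / c₀) p₁) {p n G : ℕ} (hni : NI D ρ Al P W C1 c₀ p)
    {u u' : NS} {Sp : Finset ℕ} {τ t₁' t₀' : IT}
    (h : StI D sp s u.B u.A τ u'.B u'.A (.br p Sp t₁' t₀')) (hB : Blw p τ) (hG : 0 < G)
    (hL : NSd D Al P W CL c₀ p G s.M u τ s.A)
    (hR : NSd D Al P W CL c₀ p G s.M' u' (.br p Sp t₁' t₀') s.A') (hc : 0 ≤ u.c)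
    (hhi : 2 * (u.c * Ws W τ.items) ≤ (Real.log p)^C1)
    (hCL : 0 ≤ CL)
    (hp : p₁ ≤ p) (hn : n = ⌊1/4 * Real.log p / Real.log 2⌋₊)
    {stp : Stp Λ κ}
    (hst : ¬ stp s → ∑ l ∈ s.M.primeFactors, (l:ℝ)^(-(11/12):ℝ) ≤ 1 ∧
      ∑ l ∈ s.M'.primeFactors, (l:ℝ)^(-(11/12):ℝ) ≤ 1)
    {Qf : ℕ × ℕ → Prop}
    (hFS : FSOkY D ρ n p s.M' (u'.B * p) u'.A p t₀' s.A' s.M u.B u.A 1 τ s.A (p:ℝ) Qf) :
    eOS stp s ≤ ((p:ℝ)^(1/10:ℝ) * (∑ j ∈ s.A'.filter (fun j => D.it j ∈ t₀'.items), mI s.t' j) +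
        (p:ℝ)^(-(1/200):ℝ) *
          (∑ j ∈ s.A.filter (fun j => D.it j ∈ τ.items), mI s.t j)) +
      ∑ e ∈ KR D ρ Al n p s.M' (u'.B * p) u'.A p t₀' s.A' s.M u.B u.A 1 τ s.A Qf,
        D.iF (Ro (D.rho p)) (D.uA s.M' (u'.B * p) u'.A t₀' s.A' p)
          (D.uA s.M u.B u.A τ s.A 1) e := by
  classical
  have hR0 := h.R.br₀
  have hF0 : ∀ e, 0 ≤ D.iF (Ro (D.rho p)) (D.uA s.M' (u'.B * p) u'.A t₀' s.A' p)
      (D.uA s.M u.B u.A τ s.A 1) e := fun e => D.iF_nonneg _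
    (fun j y => (PB_uA h.M0' hR0.hb hR0.hF hR0.hW (Dvd.intro_left u'.B rfl) j).nonneg y)
    (fun j y => (PB_uA h.M0 h.L.hb h.L.hF h.L.hW (one_dvd _) j).nonneg y) e
  have nΦ : 0 ≤ ∑ j ∈ s.A'.filter (fun j => D.it j ∈ t₀'.items), mI s.t' j :=
    Finset.sum_nonneg fun j _ => mI_nn h.R j
  have nΦ' : 0 ≤ ∑ j ∈ s.A.filter (fun j => D.it j ∈ τ.items), mI s.t j :=
    Finset.sum_nonneg fun j _ => mI_nn h.L j
  have hrest : 0 ≤ ∑ e ∈ KR D ρ Al n p s.M' (u'.B * p) u'.A p t₀' s.A' s.M u.B u.A 1 τ s.A Qf,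
        D.iF (Ro (D.rho p)) (D.uA s.M' (u'.B * p) u'.A t₀' s.A' p)
          (D.uA s.M u.B u.A τ s.A 1) e := Finset.sum_nonneg fun e _ => hF0 e
  by_cases hstp : stp s
  · have e0 : eOS stp s = 0 := by
      unfold eOS
      split_ifs <;> rfl
    rw [e0]
    positivity
  obtain ⟨hs, hs'⟩ := hst hstp
  refine (eOS_le_iF' h hB stp).trans ?_
  exact col_nodeY hk hni hCL hp hn h.R h.M0' hR hs' hG
    (τ' := τ) (A' := s.A) (M' := s.M) (b' := u.B) (pr' := u.A) (c' := 1)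
    h.L.hb h.L.hF h.L.hW (one_dvd _) h.M0 hL.geM hs
    (fun q hq => hL.once q (mem_Qi.1 hq).2.1 (mem_Qi.1 hq).1)
    (fun z hz q hq => by
      obtain ⟨h1, h2, j, hj, rfl⟩ := mem_Qi.1 hq
      exact hL.tame z hz j hj h2 h1)
    (fun q hq => hL.lg q (mem_Qi.1 hq).2.1 (mem_Qi.1 hq).1)
    ((share_node hc hL.ms hni.rad.pos hni.W0 hni.Wρ s.A).trans hhi)
    (Φ' := ∑ j ∈ s.A.filter (fun j => D.it j ∈ τ.items), mI s.t j)
    (by
      have := mass_node hni.ab h.L hni.c0 hL.ph hL.mean hni.full hL.il (mI_nn h.L) (f := fun _ => 1)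
        (fun _ => zero_le_one)
      simpa only [one_mul] using this)
    nΦ' hFS

end Crest.Agent.R4P.ColY710
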