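import Crest.Agent.R4P.CrossLoc_25
import Crest.Agent.R4P.CyC_25
import Crest.Agent.R4P.GSt927

/-!
R4P (S0004), helper25, module D: **local cost of the cross walk `WalkC` at a state**:
`eNMC + eONEC + eXITC ≤ cyC + Σ_{e ∈ Qi τ A ×ˢ Qi τ' A'} lcC e`.

The value functions `Vc`, `Vx` of the item pairs are abstract; the bounds of the blocks (tie against a part of the
other side) are hypotheses (`TT`, `TB`, `TB'`); they are proved here for raw sides (`TT_raw`, `TB_raw`, `TB'_raw`).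
-/

set_option autoImplicit false
set_option linter.unusedSectionVars false
set_option linter.unusedVariables false
open Finset

namespace Crest.Agent.R4P.CrossLocC25

open Crest.Agent.R4.HVW560 Crest.Agent.R4P.AvgItem710
open Crest.Agent.R4.Tour104 Crest.Agent.R4.Tour758 Crest.Agent.R4.Avg758 Crest.Agent.R4.Clos758
open Crest.Agent.R4.ClosL758 Crest.Agent.R4.ClosG758 Crest.Agent.R4.ClosR758
open Crest.Agent.R4.Lam368 (mult lamF DW BW fW Nested Dat)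
open Crest.Agent.R4.Fam464 Crest.Agent.R4P.Cnt588 Crest.Agent.R4P.Walk560 Crest.Agent.R4.Piece464
open Crest.Agent.R4P.GInst194 Crest.Agent.R4P.WalkIT579 Crest.Agent.R4P.Item758
open Crest.Agent.R4P.NMW710 Crest.Agent.R4P.CrossLoc25 Crest.Agent.R4P.CyC25
open Crest.Agent.R4P.Bld532 (NS All NodeOk Bk)

variable {Λ κ : Type*} [Fintype Λ] [DecidableEq Λ] [Fintype κ] [DecidableEq κ]
variable {D : Par Λ κ} {ρ : ℕ → ℝ} {Al : Finset ℕ}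

/-- what is left of an item after averaging over `M` -/
def UI (M pr q : ℕ) : ℕ := (q / pr) / M.gcd (q / pr)

/-- the raising factor of an item -/
def FI (M pr q : ℕ) : ℕ := Crest.Agent.R4.AvgItem710.rf (q / pr) M

lemma FI_dvd (M pr q : ℕ) : FI M pr q ∣ M := Nat.div_dvd_of_dvd (Nat.gcd_dvd_left _ _)

/-- both sides can raise at an exit at `l` -/
def XC (l M pr M' pr' : ℕ) (τ τ' : IT) (e : ℕ × ℕ) : Prop :=
  (l ∈ τ.mt e.1 ∧ ¬ l ∣ FI M pr e.1 ∧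
    ¬ l ∣ Crest.Agent.R4.HVW560.cof (UI M' pr' e.2) (UI M pr e.1)) ∨
  (l ∈ τ'.mt e.2 ∧ ¬ l ∣ FI M' pr' e.2 ∧
    ¬ l ∣ Crest.Agent.R4.HVW560.cof (UI M pr e.1) (UI M' pr' e.2))

open Classical in
/-- what a pair may pay at the missing tie `l` -/
noncomputable def cT (Vc Vx : ℕ → ℝ × ℝ → ℕ × ℕ → ℝ) (l M b pr M' b' pr' : ℕ) (τ τ' : IT)
    (e : ℕ × ℕ) : ℝ :=
  2 * Vc l (SE M b pr M' b' pr' e) e +
    (if XC l M pr M' pr' τ τ' e then Vx l (SE M b pr M' b' pr' e) e else 0)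

open Classical in
/-- the local cost of a pair at the column `p` -/
noncomputable def lcC (Vc Vx : ℕ → ℝ × ℝ → ℕ × ℕ → ℝ) (p M b pr M' b' pr' : ℕ) (τ τ' : IT)
    (e : ℕ × ℕ) : ℝ :=
  (b:ℝ) * b' * (if p ∈ τ.mt e.1 ∪ τ'.mt e.2 then cT Vc Vx p M b pr M' b' pr' τ τ' e else 0)

section vals
variable {Vc Vx : ℕ → ℝ × ℝ → ℕ × ℕ → ℝ}

lemma cT_nonneg (h1 : ∀ l s e, 0 ≤ Vc l s e) (h2 : ∀ l s e, 0 ≤ Vx l s e) (l M b pr M' b' pr' : ℕ)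
    (τ τ' : IT) (e : ℕ × ℕ) : 0 ≤ cT Vc Vx l M b pr M' b' pr' τ τ' e := by
  unfold cT
  have k1 := h1 l (SE M b pr M' b' pr' e) e
  have k2 := h2 l (SE M b pr M' b' pr' e) e
  split_ifs <;> linarith

lemma lcC_nonneg (h1 : ∀ l s e, 0 ≤ Vc l s e) (h2 : ∀ l s e, 0 ≤ Vx l s e) (p M b pr M' b' pr' : ℕ)
    (τ τ' : IT) (e : ℕ × ℕ) : 0 ≤ lcC Vc Vx p M b pr M' b' pr' τ τ' e := by
  unfold lcC
  refine mul_nonneg (by positivity) ?_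
  split_ifs
  · exact cT_nonneg h1 h2 _ _ _ _ _ _ _ _ _ _
  · exact le_rfl

lemma lcC_one (h1 : ∀ l s e, 0 ≤ Vc l s e) (h2 : ∀ l s e, 0 ≤ Vx l s e) {p M b pr M' b' pr' : ℕ}
    {τ τ' : IT} {e : ℕ × ℕ} (h : p ∈ τ.mt e.1 ∪ τ'.mt e.2) :
    (b:ℝ) * b' * Vc p (SE M b pr M' b' pr' e) e ≤ lcC Vc Vx p M b pr M' b' pr' τ τ' e := by
  have k1 := h1 p (SE M b pr M' b' pr' e) e
  have k2 := h2 p (SE M b pr M' b' pr' e) e
  unfold lcC cT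
  rw [if_pos h]
  refine mul_le_mul_of_nonneg_left ?_ (by positivity)
  split_ifs <;> linarith

lemma lcC_two (h1 : ∀ l s e, 0 ≤ Vc l s e) (h2 : ∀ l s e, 0 ≤ Vx l s e) {p M b pr M' b' pr' : ℕ}
    {τ τ' : IT} {e : ℕ × ℕ} (h : p ∈ τ.mt e.1 ∪ τ'.mt e.2) :
    (b:ℝ) * b' * Vc p (SE M b pr M' b' pr' e) e + (b:ℝ) * b' * Vc p (SE M b pr M' b' pr' e) e ≤
      lcC Vc Vx p M b pr M' b' pr' τ τ' e := by
  have k1 := h1 p (SE M b pr M' b' pr' e) e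
  have k2 := h2 p (SE M b pr M' b' pr' e) e
  unfold lcC cT
  rw [if_pos h, ← mul_add]
  refine mul_le_mul_of_nonneg_left ?_ (by positivity)
  split_ifs <;> linarith

lemma lcC_exit (h1 : ∀ l s e, 0 ≤ Vc l s e) (h2 : ∀ l s e, 0 ≤ Vx l s e) {p M b pr M' b' pr' : ℕ}
    {τ τ' : IT} {e : ℕ × ℕ} (h : XC p M pr M' pr' τ τ' e) :
    (b:ℝ) * b' * Vc p (SE M b pr M' b' pr' e) e + (b:ℝ) * b' * Vx p (SE M b pr M' b' pr' e) e ≤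
      lcC Vc Vx p M b pr M' b' pr' τ τ' e := by
  have k1 := h1 p (SE M b pr M' b' pr' e) e
  have k2 := h2 p (SE M b pr M' b' pr' e) e
  have hm : p ∈ τ.mt e.1 ∪ τ'.mt e.2 := by
    rcases h with h | h
    · exact Finset.mem_union_left _ h.1
    · exact Finset.mem_union_right _ h.1
  unfold lcC cT
  rw [if_pos hm, if_pos h, ← mul_add]
  refine mul_le_mul_of_nonneg_left ?_ (by positivity)
  linarith

open Classical in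
/-- cost function of a one-sided exit -/
noncomputable def VT (Vc Vx : ℕ → ℝ × ℝ → ℕ × ℕ → ℝ) (p z : ℕ) (s : ℝ × ℝ) (e : ℕ × ℕ) : ℝ :=
  if p ∣ z then Vc p s e else Vx p s e

lemma VT_nonneg (h1 : ∀ l s e, 0 ≤ Vc l s e) (h2 : ∀ l s e, 0 ≤ Vx l s e) (p z : ℕ) (s : ℝ × ℝ)
    (e : ℕ × ℕ) : 0 ≤ VT Vc Vx p z s e := by
  unfold VT
  split_ifs
  · exact h1 _ _ _
  · exact h2 _ _ _

lemma lcC_left (h1 : ∀ l s e, 0 ≤ Vc l s e) (h2 : ∀ l s e, 0 ≤ Vx l s e) {p M b pr M' b' pr' : ℕ}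
    {τ τ' : IT} {e : ℕ × ℕ} (h : p ∈ τ.mt e.1) (hM : ¬ p ∣ M) :
    (b:ℝ) * b' * Vc p (SE M b pr M' b' pr' e) e +
      (b:ℝ) * b' * VT Vc Vx p (UI M' pr' e.2) (SE M b pr M' b' pr' e) e ≤
      lcC Vc Vx p M b pr M' b' pr' τ τ' e := by
  unfold VT
  split_ifs with hz
  · exact lcC_two h1 h2 (Finset.mem_union_left _ h)
  · exact lcC_exit h1 h2 (Or.inl ⟨h, fun hd => hM (hd.trans (FI_dvd _ _ _)),
      fun hd => hz (hd.trans (Nat.div_dvd_of_dvd (Nat.gcd_dvd_left _ _)))⟩)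

lemma lcC_right (h1 : ∀ l s e, 0 ≤ Vc l s e) (h2 : ∀ l s e, 0 ≤ Vx l s e) {p M b pr M' b' pr' : ℕ}
    {τ τ' : IT} {e : ℕ × ℕ} (h : p ∈ τ'.mt e.2) (hM : ¬ p ∣ M') :
    (b:ℝ) * b' * Vc p (SE M b pr M' b' pr' e) e +
      (b:ℝ) * b' * VT Vc Vx p (UI M pr e.1) (SE M b pr M' b' pr' e) e ≤
      lcC Vc Vx p M b pr M' b' pr' τ τ' e := by
  unfold VT
  split_ifs with hz
  · exact lcC_two h1 h2 (Finset.mem_union_right _ h)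
  · exact lcC_exit h1 h2 (Or.inr ⟨h, fun hd => hM (hd.trans (FI_dvd _ _ _)),
      fun hd => hz (hd.trans (Nat.div_dvd_of_dvd (Nat.gcd_dvd_left _ _)))⟩)

end vals

lemma Qi_sub {σ τ : IT} {A A₂ : Finset Λ} (h : σ.items ⊆ τ.items) (hA : A₂ ⊆ A) :
    Qi D Al σ A₂ ⊆ Qi D Al τ A := by
  intro q hq
  obtain ⟨h1, h2, j, hj, rfl⟩ := mem_Qi.1 hq
  exact mem_Qi.2 ⟨h h1, h2, j, hA hj, rfl⟩

lemma Qi_empty (σ : IT) : Qi D Al σ (∅ : Finset Λ) = ∅ := by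
  rw [Finset.eq_empty_iff_forall_notMem]
  intro q hq
  obtain ⟨-, -, j, hj, -⟩ := mem_Qi.1 hq
  exact absurd hj (Finset.notMem_empty j)

lemma mt_mem {p : ℕ} {S : Finset ℕ} {t₁ t₀ : IT} {q : ℕ} (h : q ∈ t₀.items) :
    p ∈ (IT.br p S t₁ t₀).mt q := by
  simp only [IT.mt, if_pos h]
  exact Finset.mem_insert_self _ _

/-! ### block bounds -/

section blocks
variable [WRel κ]

/-- bounds of a tie against a tie -/
structure TT (D : Par Λ κ) (Al : Finset ℕ) (Vc Vx : ℕ → ℝ × ℝ → ℕ × ℕ → ℝ) (g : ℝ)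
    (p M b pr : ℕ) (t₀ : IT) (A : Finset Λ) (M' b' pr' : ℕ) (t₀' : IT) (A' : Finset Λ) : Prop where
  nm : Q (Ro (D.rho p)) (D.uA M (b * p) pr t₀ A p) (D.uA M' (b' * p) pr' t₀' A' p) ≤
    g + ∑ e ∈ Qi D Al t₀ A ×ˢ Qi D Al t₀' A', (b:ℝ) * b' * Vc p (SE M b pr M' b' pr' e) e
  ex : 1 / (p:ℝ) * (1 / (p:ℝ)) *
      Q (Ro (D.rho p)) (D.uA M (b * p) pr t₀ A 1) (D.uA M' (b' * p) pr' t₀' A' 1) ≤
    g + ∑ e ∈ Qi D Al t₀ A ×ˢ Qi D Al t₀' A', (b:ℝ) * b' * Vx p (SE M b pr M' b' pr' e) e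

/-- bounds of a left tie against a part of the right side -/
structure TB (D : Par Λ κ) (Al : Finset ℕ) (Vc Vx : ℕ → ℝ × ℝ → ℕ × ℕ → ℝ) (g : ℝ)
    (p M b pr : ℕ) (t₀ : IT) (A : Finset Λ) (M' b' pr' : ℕ) (σ' : IT) (A₂ : Finset Λ) : Prop where
  os : Q (Ro (D.rho p)) (D.uA M (b * p) pr t₀ A p) (D.uA M' b' pr' σ' A₂ 1) ≤
    g + ∑ e ∈ Qi D Al t₀ A ×ˢ Qi D Al σ' A₂, (b:ℝ) * b' * Vc p (SE M b pr M' b' pr' e) e
  ex : 1 / (p:ℝ) * Q (Ro (D.rho p)) (D.uA M (b * p) pr t₀ A 1) (D.uA (p * M') b' pr' σ' A₂ 1) ≤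
    g + ∑ e ∈ Qi D Al t₀ A ×ˢ Qi D Al σ' A₂,
      (b:ℝ) * b' * VT Vc Vx p (UI M' pr' e.2) (SE M b pr M' b' pr' e) e

/-- bounds of a right tie against a part of the left side -/
structure TB' (D : Par Λ κ) (Al : Finset ℕ) (Vc Vx : ℕ → ℝ × ℝ → ℕ × ℕ → ℝ) (g : ℝ)
    (p M b pr : ℕ) (σ : IT) (A₂ : Finset Λ) (M' b' pr' : ℕ) (t₀' : IT) (A' : Finset Λ) : Prop where
  os : Q (Ro (D.rho p)) (D.uA M b pr σ A₂ 1) (D.uA M' (b' * p) pr' t₀' A' p) ≤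
    g + ∑ e ∈ Qi D Al σ A₂ ×ˢ Qi D Al t₀' A', (b:ℝ) * b' * Vc p (SE M b pr M' b' pr' e) e
  ex : 1 / (p:ℝ) * Q (Ro (D.rho p)) (D.uA (p * M) b pr σ A₂ 1) (D.uA M' (b' * p) pr' t₀' A' 1) ≤
    g + ∑ e ∈ Qi D Al σ A₂ ×ˢ Qi D Al t₀' A',
      (b:ℝ) * b' * VT Vc Vx p (UI M pr e.1) (SE M b pr M' b' pr' e) e

variable {sp : ℕ → Finset Λ} {p : ℕ} {Vc Vx : ℕ → ℝ × ℝ → ℕ × ℕ → ℝ}

open Classical in
/-- **(tie, tie)** -/
theorem case_tt (h1 : ∀ l s e, 0 ≤ Vc l s e) (h2 : ∀ l s e, 0 ≤ Vx l s e)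
    {μ : TrG Λ κ → Finset Λ → ℝ} {B : ℝ} (hB : 0 ≤ B) (hμ : ∀ t : TrG Λ κ, t.Ok → ∀ A, 0 ≤ μ t A) {g : ℝ}
    {s : St Λ κ} {b pr b' pr' : ℕ} {S S' : Finset ℕ} {t₁ t₀ t₁' t₀' : IT} {d d' : DT Λ κ}
    (h : SideI D sp b pr (.br p S t₁ t₀) s.A d) (h' : SideI D sp b' pr' (.br p S' t₁' t₀') s.A' d')
    (hM : 0 < s.M) (hM' : 0 < s.M') (hpM : ¬ p ∣ s.M)
    (f : ∀ q ∈ t₀.items, ¬ p ∣ q / pr) (f' : ∀ q ∈ t₀'.items, ¬ p ∣ q / pr')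
    (hT : TT D Al Vc Vx g p s.M b pr t₀ s.A s.M' b' pr' t₀' s.A') :
    Q (orel κ) (avg s.M (rk s.A (D.rho p) (GD D b pr p t₁ t₀)))
      (avg s.M' (rk s.A' (D.rho p) (GD D b' pr' p t₁' t₀'))) +
    1 / (p:ℝ) * (1 / (p:ℝ)) * Xs μ B { s with R := Ro (D.rho p), t := D.toDT sp (b * p) pr t₀, t' := D.toDT sp (b' * p) pr' t₀' } ≤
    2 * g + ∑ e ∈ Qi D Al (.br p S t₁ t₀) s.A ×ˢ Qi D Al (.br p S' t₁' t₀') s.A',
        lcC Vc Vx p s.M b pr s.M' b' pr' (.br p S t₁ t₀) (.br p S' t₁' t₀') e := by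
  have hpp : p.Prime := h'.hF.1
  have hp0 : 0 < p := hpp.pos
  have hpR : (0:ℝ) < p := by exact_mod_cast hp0
  have nm := (nm_Q h h' hM hM').trans hT.nm
  have hst : StI D sp { s with R := Ro (D.rho p), t := D.toDT sp (b * p) pr t₀, t' := D.toDT sp (b' * p) pr' t₀' }
      (b * p) pr t₀ (b' * p) pr' t₀' := ⟨h.br₀, h'.br₀, hM, hM'⟩
  have hQ0 : 0 ≤ Q (Ro (D.rho p)) (D.uA s.M (b * p) pr t₀ s.A 1) (D.uA s.M' (b' * p) pr' t₀' s.A' 1) :=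
    Q_uA_nonneg hM hM' h.br₀.hb h'.br₀.hb h.br₀.hF h'.br₀.hF h.br₀.hW h'.br₀.hW (one_dvd _)
      (one_dvd _) _
  have ex : 1 / (p:ℝ) * (1 / (p:ℝ)) * Xs μ B { s with R := Ro (D.rho p), t := D.toDT sp (b * p) pr t₀, t' := D.toDT sp (b' * p) pr' t₀' } ≤
      g + ∑ e ∈ Qi D Al t₀ s.A ×ˢ Qi D Al t₀' s.A',
        (b:ℝ) * b' * Vx p (SE s.M b pr s.M' b' pr' e) e := by
    refine le_trans (mul_le_mul_of_nonneg_left (Xs_le_of hB hμ (SideI.okg hst.L) (SideI.okg hst.R) (Qs_Q hst).le hQ0) (by positivity)) hT.ex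
  have s0 : ∑ e ∈ Qi D Al t₀ s.A ×ˢ Qi D Al t₀' s.A',
        (b:ℝ) * b' * Vc p (SE s.M b pr s.M' b' pr' e) e +
      ∑ e ∈ Qi D Al t₀ s.A ×ˢ Qi D Al t₀' s.A',
        (b:ℝ) * b' * Vx p (SE s.M b pr s.M' b' pr' e) e ≤
      ∑ e ∈ Qi D Al (.br p S t₁ t₀) s.A ×ˢ Qi D Al (.br p S' t₁' t₀') s.A',
        lcC Vc Vx p s.M b pr s.M' b' pr' (.br p S t₁ t₀) (.br p S' t₁' t₀') e := by
    rw [← Finset.sum_add_distrib]
    refine le_trans (Finset.sum_le_sum fun e he => ?_)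
      (Finset.sum_le_sum_of_subset_of_nonneg (s := Qi D Al t₀ s.A ×ˢ Qi D Al t₀' s.A')
        (Finset.product_subset_product (Qi_sub Finset.subset_union_right (Finset.Subset.refl _))
          (Qi_sub Finset.subset_union_right (Finset.Subset.refl _)))
        fun e _ _ => lcC_nonneg h1 h2 _ _ _ _ _ _ _ _ _ e)
    obtain ⟨a1, a2⟩ := Finset.mem_product.1 he
    have i1 : e.1 ∈ t₀.items := (mem_Qi.1 a1).1
    have i2 : e.2 ∈ t₀'.items := (mem_Qi.1 a2).1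
    refine lcC_exit h1 h2 (Or.inl ⟨mt_mem i1, fun hd => hpM (hd.trans (FI_dvd _ _ _)), fun hd => ?_⟩)
    refine f' _ i2 (hd.trans ((Nat.div_dvd_of_dvd (Nat.gcd_dvd_left _ _)).trans ?_))
    exact Nat.div_dvd_of_dvd (Nat.gcd_dvd_right _ _)
  linarith

/-- sums over two disjoint blocks of the right side -/
lemma blocksR {V V₀ V' W₁ W₀ : Finset ℕ} (hV : V₀ ⊆ V) (hW₁ : W₁ ⊆ V') (hW₀ : W₀ ⊆ V')
    (hd : Disjoint W₁ W₀) {F G H : ℕ × ℕ → ℝ} (hH : ∀ e, 0 ≤ H e)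
    (hF : ∀ e ∈ V₀ ×ˢ W₁, F e ≤ H e) (hG : ∀ e ∈ V₀ ×ˢ W₀, G e ≤ H e) :
    ∑ e ∈ V₀ ×ˢ W₁, F e + ∑ e ∈ V₀ ×ˢ W₀, G e ≤ ∑ e ∈ V ×ˢ V', H e :=
  two_blocks hV hW₁ hW₀ hd hH hF hG

open Classical in
/-- **(tie, other)**, two parts -/
theorem case_t2 (h1 : ∀ l s e, 0 ≤ Vc l s e) (h2 : ∀ l s e, 0 ≤ Vx l s e)
    {μ : TrG Λ κ → Finset Λ → ℝ} {B : ℝ} (hB : 0 ≤ B)
    (hμ : ∀ t : TrG Λ κ, t.Ok → ∀ A, 0 ≤ μ t A) {g₁ g₀ : ℝ} {s : St Λ κ} {b pr b' pr' : ℕ} {S : Finset ℕ}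
    {t₁ t₀ σ' τ' : IT} {d u : DT Λ κ} {A₁ A₀ : Finset Λ}
    (h : SideI D sp b pr (.br p S t₁ t₀) s.A d) (k₁ : SideI D sp b' pr' σ' A₁ u)
    (k₀ : SideI D sp b' pr' σ' A₀ u)
    (hM : 0 < s.M) (hM' : 0 < s.M') (hpM : ¬ p ∣ s.M)
    (sub1 : Qi D Al σ' A₁ ⊆ Qi D Al τ' s.A') (sub0 : Qi D Al σ' A₀ ⊆ Qi D Al τ' s.A')
    (hdj : Disjoint (Qi D Al σ' A₁) (Qi D Al σ' A₀))
    (T₁ : TB D Al Vc Vx g₁ p s.M b pr t₀ s.A s.M' b' pr' σ' A₁)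
    (T₀ : TB D Al Vc Vx g₀ p s.M b pr t₀ s.A s.M' b' pr' σ' A₀) (O : Finset ℕ) :
    os (orel κ) p (avg s.M (rk s.A (D.rho p) (GD D b pr p t₁ t₀)))
      (sm (D.rho p) (avg s.M' (rv A₁ u.g.val))) +
    os (orel κ) p (avg s.M (rk s.A (D.rho p) (GD D b pr p t₁ t₀)))
      (sm (D.rho p) (avg s.M' (rv A₀ u.g.val))) +
    1 / (p:ℝ) * Xs μ B { s with M' := p * s.M', O := O, R := Ro (D.rho p), t := D.toDT sp (b * p) pr t₀, t' := u, A' := A₀ } ≤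
    g₁ + g₀ + g₀ + ∑ e ∈ Qi D Al (.br p S t₁ t₀) s.A ×ˢ Qi D Al τ' s.A',
        lcC Vc Vx p s.M b pr s.M' b' pr' (.br p S t₁ t₀) τ' e := by
  have hpp : p.Prime := h.hF.1
  have hp0 : 0 < p := hpp.pos
  have hpR : (0:ℝ) < p := by exact_mod_cast hp0
  have one1 := (os_Q h k₁ hM hM').trans T₁.os
  have one0 := (os_Q h k₀ hM hM').trans T₀.os
  have hM2 : 0 < p * s.M' := Nat.mul_pos hp0 hM'
  have hst : StI D sp { s with M' := p * s.M', O := O, R := Ro (D.rho p), t := D.toDT sp (b * p) pr t₀, t' := u, A' := A₀ }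
      (b * p) pr t₀ b' pr' σ' := ⟨h.br₀, k₀, hM, hM2⟩
  have hQ0 : 0 ≤ Q (Ro (D.rho p)) (D.uA s.M (b * p) pr t₀ s.A 1) (D.uA (p * s.M') b' pr' σ' A₀ 1) :=
    Q_uA_nonneg hM hM2 h.br₀.hb k₀.hb h.br₀.hF k₀.hF h.br₀.hW k₀.hW (one_dvd _)
      (one_dvd _) _
  have ex := le_trans (mul_le_mul_of_nonneg_left (Xs_le_of hB hμ (SideI.okg hst.L) (SideI.okg hst.R) (Qs_Q hst).le hQ0)
    (by positivity : (0:ℝ) ≤ 1 / (p:ℝ))) T₀.ex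
  have hH : ∀ e, 0 ≤ lcC Vc Vx p s.M b pr s.M' b' pr' (.br p S t₁ t₀) τ' e := fun e =>
    lcC_nonneg h1 h2 _ _ _ _ _ _ _ _ _ e
  have sb := blocksR (V := Qi D Al (.br p S t₁ t₀) s.A) (V₀ := Qi D Al t₀ s.A)
    (Qi_sub Finset.subset_union_right (Finset.Subset.refl _)) sub1 sub0 hdj hH
    (F := fun e => (b:ℝ) * b' * Vc p (SE s.M b pr s.M' b' pr' e) e)
    (G := fun e => (b:ℝ) * b' * Vc p (SE s.M b pr s.M' b' pr' e) e +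
      (b:ℝ) * b' * VT Vc Vx p (UI s.M' pr' e.2) (SE s.M b pr s.M' b' pr' e) e)
    (fun e he => lcC_one h1 h2 (Finset.mem_union_left _
      (mt_mem (mem_Qi.1 (Finset.mem_product.1 he).1).1)))
    (fun e he => lcC_left h1 h2 (mt_mem (mem_Qi.1 (Finset.mem_product.1 he).1).1) hpM)
  rw [Finset.sum_add_distrib] at sb
  linarith

open Classical in
/-- **(tie, other)**, one part -/
theorem case_t1 (h1 : ∀ l s e, 0 ≤ Vc l s e) (h2 : ∀ l s e, 0 ≤ Vx l s e)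
    {μ : TrG Λ κ → Finset Λ → ℝ} {B : ℝ} (hB : 0 ≤ B)
    (hμ : ∀ t : TrG Λ κ, t.Ok → ∀ A, 0 ≤ μ t A) {g₀ : ℝ} {s : St Λ κ} {b pr b' pr' : ℕ} {S : Finset ℕ}
    {t₁ t₀ σ' τ' : IT} {d u : DT Λ κ}
    (h : SideI D sp b pr (.br p S t₁ t₀) s.A d) (k₀ : SideI D sp b' pr' σ' s.A' u)
    (hM : 0 < s.M) (hM' : 0 < s.M') (hpM : ¬ p ∣ s.M)
    (sub0 : Qi D Al σ' s.A' ⊆ Qi D Al τ' s.A')
    (T₀ : TB D Al Vc Vx g₀ p s.M b pr t₀ s.A s.M' b' pr' σ' s.A') (O : Finset ℕ) :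
    os (orel κ) p (avg s.M (rk s.A (D.rho p) (GD D b pr p t₁ t₀)))
      (sm (D.rho p) (avg s.M' (rv s.A' u.g.val))) +
    1 / (p:ℝ) * Xs μ B { s with M' := p * s.M', O := O, R := Ro (D.rho p), t := D.toDT sp (b * p) pr t₀, t' := u } ≤
    g₀ + g₀ + ∑ e ∈ Qi D Al (.br p S t₁ t₀) s.A ×ˢ Qi D Al τ' s.A',
        lcC Vc Vx p s.M b pr s.M' b' pr' (.br p S t₁ t₀) τ' e := by
  have hpp : p.Prime := h.hF.1
  have hp0 : 0 < p := hpp.pos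
  have hpR : (0:ℝ) < p := by exact_mod_cast hp0
  have one0 := (os_Q h k₀ hM hM').trans T₀.os
  have hM2 : 0 < p * s.M' := Nat.mul_pos hp0 hM'
  have hst : StI D sp { s with M' := p * s.M', O := O, R := Ro (D.rho p), t := D.toDT sp (b * p) pr t₀, t' := u }
      (b * p) pr t₀ b' pr' σ' := ⟨h.br₀, k₀, hM, hM2⟩
  have hQ0 : 0 ≤ Q (Ro (D.rho p)) (D.uA s.M (b * p) pr t₀ s.A 1) (D.uA (p * s.M') b' pr' σ' s.A' 1) :=
    Q_uA_nonneg hM hM2 h.br₀.hb k₀.hb h.br₀.hF k₀.hF h.br₀.hW k₀.hW (one_dvd _)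
      (one_dvd _) _
  have ex := le_trans (mul_le_mul_of_nonneg_left (Xs_le_of hB hμ (SideI.okg hst.L) (SideI.okg hst.R) (Qs_Q hst).le hQ0)
    (by positivity : (0:ℝ) ≤ 1 / (p:ℝ))) T₀.ex
  have hH : ∀ e, 0 ≤ lcC Vc Vx p s.M b pr s.M' b' pr' (.br p S t₁ t₀) τ' e := fun e =>
    lcC_nonneg h1 h2 _ _ _ _ _ _ _ _ _ e
  have sb : ∑ e ∈ Qi D Al t₀ s.A ×ˢ Qi D Al σ' s.A', ((b:ℝ) * b' * Vc p (SE s.M b pr s.M' b' pr' e) e +
      (b:ℝ) * b' * VT Vc Vx p (UI s.M' pr' e.2) (SE s.M b pr s.M' b' pr' e) e) ≤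
      ∑ e ∈ Qi D Al (.br p S t₁ t₀) s.A ×ˢ Qi D Al τ' s.A',
        lcC Vc Vx p s.M b pr s.M' b' pr' (.br p S t₁ t₀) τ' e := by
    refine le_trans (Finset.sum_le_sum (g := fun e =>
      lcC Vc Vx p s.M b pr s.M' b' pr' (.br p S t₁ t₀) τ' e) fun e he =>
      lcC_left h1 h2 (mt_mem (mem_Qi.1 (Finset.mem_product.1 he).1).1) hpM) ?_
    exact Finset.sum_le_sum_of_subset_of_nonneg (Finset.product_subset_product
      (Qi_sub Finset.subset_union_right (Finset.Subset.refl _)) sub0) fun e _ _ => hH e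
  rw [Finset.sum_add_distrib] at sb
  linarith

open Classical in
/-- **(other, tie)**, two parts -/
theorem case_2t (h1 : ∀ l s e, 0 ≤ Vc l s e) (h2 : ∀ l s e, 0 ≤ Vx l s e)
    {μ : TrG Λ κ → Finset Λ → ℝ} {B : ℝ} (hB : 0 ≤ B)
    (hμ : ∀ t : TrG Λ κ, t.Ok → ∀ A, 0 ≤ μ t A) {g₁ g₀ : ℝ} {s : St Λ κ} {b pr b' pr' : ℕ} {S' : Finset ℕ}
    {t₁' t₀' σ τ : IT} {d' u : DT Λ κ} {A₁ A₀ : Finset Λ}
    (h' : SideI D sp b' pr' (.br p S' t₁' t₀') s.A' d') (k₁ : SideI D sp b pr σ A₁ u)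
    (k₀ : SideI D sp b pr σ A₀ u)
    (hM : 0 < s.M) (hM' : 0 < s.M') (hpM : ¬ p ∣ s.M')
    (sub1 : Qi D Al σ A₁ ⊆ Qi D Al τ s.A) (sub0 : Qi D Al σ A₀ ⊆ Qi D Al τ s.A)
    (hdj : Disjoint (Qi D Al σ A₁) (Qi D Al σ A₀))
    (T₁ : TB' D Al Vc Vx g₁ p s.M b pr σ A₁ s.M' b' pr' t₀' s.A')
    (T₀ : TB' D Al Vc Vx g₀ p s.M b pr σ A₀ s.M' b' pr' t₀' s.A') (O' : Finset ℕ) :
    os (orel κ) p (avg s.M' (rk s.A' (D.rho p) (GD D b' pr' p t₁' t₀')))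
      (sm (D.rho p) (avg s.M (rv A₁ u.g.val))) +
    os (orel κ) p (avg s.M' (rk s.A' (D.rho p) (GD D b' pr' p t₁' t₀')))
      (sm (D.rho p) (avg s.M (rv A₀ u.g.val))) +
    1 / (p:ℝ) * Xs μ B { s with M := p * s.M, O' := O', R := Ro (D.rho p), t := u, A := A₀, t' := D.toDT sp (b' * p) pr' t₀' } ≤
    g₁ + g₀ + g₀ + ∑ e ∈ Qi D Al τ s.A ×ˢ Qi D Al (.br p S' t₁' t₀') s.A',
        lcC Vc Vx p s.M b pr s.M' b' pr' τ (.br p S' t₁' t₀') e := by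
  have hpp : p.Prime := h'.hF.1
  have hp0 : 0 < p := hpp.pos
  have hpR : (0:ℝ) < p := by exact_mod_cast hp0
  have one1 := (os_Q' k₁ h' hM hM').trans T₁.os
  have one0 := (os_Q' k₀ h' hM hM').trans T₀.os
  have hM2 : 0 < p * s.M := Nat.mul_pos hp0 hM
  have hst : StI D sp { s with M := p * s.M, O' := O', R := Ro (D.rho p), t := u, A := A₀, t' := D.toDT sp (b' * p) pr' t₀' }
      b pr σ (b' * p) pr' t₀' := ⟨k₀, h'.br₀, hM2, hM'⟩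
  have hQ0 : 0 ≤ Q (Ro (D.rho p)) (D.uA (p * s.M) b pr σ A₀ 1) (D.uA s.M' (b' * p) pr' t₀' s.A' 1) :=
    Q_uA_nonneg hM2 hM' k₀.hb h'.br₀.hb k₀.hF h'.br₀.hF k₀.hW h'.br₀.hW (one_dvd _)
      (one_dvd _) _
  have ex := le_trans (mul_le_mul_of_nonneg_left (Xs_le_of hB hμ (SideI.okg hst.L) (SideI.okg hst.R) (Qs_Q hst).le hQ0)
    (by positivity : (0:ℝ) ≤ 1 / (p:ℝ))) T₀.ex
  have hH : ∀ e, 0 ≤ lcC Vc Vx p s.M b pr s.M' b' pr' τ (.br p S' t₁' t₀') e := fun e =>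
    lcC_nonneg h1 h2 _ _ _ _ _ _ _ _ _ e
  have sb := two_blocks' (V' := Qi D Al (.br p S' t₁' t₀') s.A') (W₀' := Qi D Al t₀' s.A')
    (Qi_sub Finset.subset_union_right (Finset.Subset.refl _)) sub1 sub0 hdj hH
    (F := fun e => (b:ℝ) * b' * Vc p (SE s.M b pr s.M' b' pr' e) e)
    (G := fun e => (b:ℝ) * b' * Vc p (SE s.M b pr s.M' b' pr' e) e +
      (b:ℝ) * b' * VT Vc Vx p (UI s.M pr e.1) (SE s.M b pr s.M' b' pr' e) e)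
    (fun e he => lcC_one h1 h2 (Finset.mem_union_right _
      (mt_mem (mem_Qi.1 (Finset.mem_product.1 he).2).1)))
    (fun e he => lcC_right h1 h2 (mt_mem (mem_Qi.1 (Finset.mem_product.1 he).2).1) hpM)
  rw [Finset.sum_add_distrib] at sb
  linarith

open Classical in
/-- **(other, tie)**, one part -/
theorem case_1t (h1 : ∀ l s e, 0 ≤ Vc l s e) (h2 : ∀ l s e, 0 ≤ Vx l s e)
    {μ : TrG Λ κ → Finset Λ → ℝ} {B : ℝ} (hB : 0 ≤ B)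
    (hμ : ∀ t : TrG Λ κ, t.Ok → ∀ A, 0 ≤ μ t A) {g₀ : ℝ} {s : St Λ κ} {b pr b' pr' : ℕ} {S' : Finset ℕ}
    {t₁' t₀' σ τ : IT} {d' u : DT Λ κ}
    (h' : SideI D sp b' pr' (.br p S' t₁' t₀') s.A' d') (k₀ : SideI D sp b pr σ s.A u)
    (hM : 0 < s.M) (hM' : 0 < s.M') (hpM : ¬ p ∣ s.M')
    (sub0 : Qi D Al σ s.A ⊆ Qi D Al τ s.A)
    (T₀ : TB' D Al Vc Vx g₀ p s.M b pr σ s.A s.M' b' pr' t₀' s.A') (O' : Finset ℕ) :
    os (orel κ) p (avg s.M' (rk s.A' (D.rho p) (GD D b' pr' p t₁' t₀')))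
      (sm (D.rho p) (avg s.M (rv s.A u.g.val))) +
    1 / (p:ℝ) * Xs μ B { s with M := p * s.M, O' := O', R := Ro (D.rho p), t := u, t' := D.toDT sp (b' * p) pr' t₀' } ≤
    g₀ + g₀ + ∑ e ∈ Qi D Al τ s.A ×ˢ Qi D Al (.br p S' t₁' t₀') s.A',
        lcC Vc Vx p s.M b pr s.M' b' pr' τ (.br p S' t₁' t₀') e := by
  have hpp : p.Prime := h'.hF.1
  have hp0 : 0 < p := hpp.pos
  have hpR : (0:ℝ) < p := by exact_mod_cast hp0
  have one0 := (os_Q' k₀ h' hM hM').trans T₀.os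
  have hM2 : 0 < p * s.M := Nat.mul_pos hp0 hM
  have hst : StI D sp { s with M := p * s.M, O' := O', R := Ro (D.rho p), t := u, t' := D.toDT sp (b' * p) pr' t₀' }
      b pr σ (b' * p) pr' t₀' := ⟨k₀, h'.br₀, hM2, hM'⟩
  have hQ0 : 0 ≤ Q (Ro (D.rho p)) (D.uA (p * s.M) b pr σ s.A 1) (D.uA s.M' (b' * p) pr' t₀' s.A' 1) :=
    Q_uA_nonneg hM2 hM' k₀.hb h'.br₀.hb k₀.hF h'.br₀.hF k₀.hW h'.br₀.hW (one_dvd _)
      (one_dvd _) _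
  have ex := le_trans (mul_le_mul_of_nonneg_left (Xs_le_of hB hμ (SideI.okg hst.L) (SideI.okg hst.R) (Qs_Q hst).le hQ0)
    (by positivity : (0:ℝ) ≤ 1 / (p:ℝ))) T₀.ex
  have hH : ∀ e, 0 ≤ lcC Vc Vx p s.M b pr s.M' b' pr' τ (.br p S' t₁' t₀') e := fun e =>
    lcC_nonneg h1 h2 _ _ _ _ _ _ _ _ _ e
  have sb : ∑ e ∈ Qi D Al σ s.A ×ˢ Qi D Al t₀' s.A', ((b:ℝ) * b' * Vc p (SE s.M b pr s.M' b' pr' e) e +
      (b:ℝ) * b' * VT Vc Vx p (UI s.M pr e.1) (SE s.M b pr s.M' b' pr' e) e) ≤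
      ∑ e ∈ Qi D Al τ s.A ×ˢ Qi D Al (.br p S' t₁' t₀') s.A',
        lcC Vc Vx p s.M b pr s.M' b' pr' τ (.br p S' t₁' t₀') e := by
    refine le_trans (Finset.sum_le_sum (g := fun e =>
      lcC Vc Vx p s.M b pr s.M' b' pr' τ (.br p S' t₁' t₀') e) fun e he =>
      lcC_right h1 h2 (mt_mem (mem_Qi.1 (Finset.mem_product.1 he).2).1) hpM) ?_
    exact Finset.sum_le_sum_of_subset_of_nonneg (Finset.product_subset_product sub0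
      (Qi_sub Finset.subset_union_right (Finset.Subset.refl _))) fun e _ _ => hH e
  rw [Finset.sum_add_distrib] at sb
  linarith

/-! ### raw sides -/

section raw
variable {Lo : ℝ × ℝ → ℕ × ℕ → Prop} {P : ℕ → ℕ × ℕ → Prop}

lemma smv_avg_raise {M b pr q : ℕ} (hp : p.Prime) (hM : 0 < M) (h : ¬ p ∣ UI M pr q) :
    SMv p false M b pr (p * M) b pr q := mv_avg_raise h hp hM _

lemma smv_avg_drop {M b pr q : ℕ} (hp : p.Prime) (hM : 0 < M) (hq : 0 < q / pr)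
    (h : p ∣ UI M pr q) : SMv p true M b pr (p * M) b pr q := mv_avg_drop h hp hM hq _

open Classical in
/-- raw left tie against a raw side -/
theorem TB_raw (hLo : LoOk Lo ρ) (hR : D.Rad ρ) (hdead : ∀ j, D.it j ∉ Al → ∀ a, D.om j a = 0)
    {M M' b pr b' pr' : ℕ} {S : Finset ℕ} {t₁ t₀ σ' : IT} {A A₂ : Finset Λ} {d u : DT Λ κ}
    (h : SideI D sp b pr (.br p S t₁ t₀) A d) (k : SideI D sp b' pr' σ' A₂ u)
    (hM : 0 < M) (hM' : 0 < M') (f : ∀ q ∈ t₀.items, ¬ p ∣ q / pr)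
    (hP₁ : ∀ e ∈ D.PE (Ro (D.rho p)) (D.uA M (b * p) pr t₀ A p) (D.uA M' b' pr' σ' A₂ 1), P p e)
    (hP₂ : ∀ e ∈ D.PE (Ro (D.rho p)) (D.uA M (b * p) pr t₀ A 1) (D.uA (p * M') b' pr' σ' A₂ 1),
      P p e) :
    TB D Al (VcL P D.γ ρ Lo) (VxL P D.γ ρ Lo) (6 * (SR ρ b (Qi D Al t₀ A) * SR ρ b' (Qi D Al σ' A₂)))
      p M b pr t₀ A M' b' pr' σ' A₂ := by
  have hpp : p.Prime := h.hF.1
  have hp0 : 0 < p := hpp.pos
  have hpR : (0:ℝ) < p := by exact_mod_cast hp0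
  have hM2 : 0 < p * M' := Nat.mul_pos hp0 hM'
  constructor
  · refine (Q_pb_le hR hdead hM hM' h.br₀.hb k.hb h.br₀.hF k.hF h.br₀.hW k.hW
      (Dvd.intro_left b rfl) (one_dvd _) _ A A₂ (P p) hP₁).trans ?_
    rw [Finset.sum_congr rfl fun e _ => pb_colL hp0 M b pr M' b' pr' e]
    exact blkL hR.pos _ _ _ (fun e _ he => vE_leL hLo hR.pos he) fun e =>
      mul_nonneg (by positivity) (VcL_nonneg hR.pos _ _ _)
  · have h0 : (0:ℝ) ≤ 1 / (p:ℝ) := by positivity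
    refine (mul_le_mul_of_nonneg_left (Q_pb_le hR hdead hM hM2 h.br₀.hb k.hb h.br₀.hF k.hF
      h.br₀.hW k.hW (one_dvd _) (one_dvd _) _ A A₂ (P p) hP₂) h0).trans ?_
    rw [Finset.mul_sum]
    refine blkL hR.pos _ _ _ (fun e he hPe => ?_) fun e => mul_nonneg (by positivity)
      (VT_nonneg (fun _ _ _ => VcL_nonneg hR.pos _ _ _) (fun _ _ _ => VxL_nonneg hR.pos _ _ _) _ _ _ _)
    obtain ⟨a1, a2⟩ := Finset.mem_product.1 he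
    have f1 : ¬ p ∣ e.1 / pr := f _ (mem_Qi.1 a1).1
    obtain ⟨q0, q1, -⟩ := k.hF.item _ (mem_Qi.1 a2).1
    have w0' : 0 < e.2 / pr' := Nat.div_pos (Nat.le_of_dvd q0 q1) (Nat.pos_of_dvd_of_pos q1 q0)
    rw [pb_one]
    unfold VT
    split_ifs with hd
    · rw [vE_drop hpp D.γ (smv_missing f1) (smv_avg_drop hpp hM' w0' hd) (Or.inr rfl)
        (by push_cast; ring)]
      exact vE_leL hLo hR.pos hPe
    · rw [vE_exit hpp D.γ (smv_missing f1) (smv_avg_raise hpp hM' hd) (by push_cast; ring)]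
      exact vX_leL hLo hR.pos hPe

open Classical in
/-- raw right tie against a raw side -/
theorem TB'_raw (hLo : LoOk Lo ρ) (hR : D.Rad ρ) (hdead : ∀ j, D.it j ∉ Al → ∀ a, D.om j a = 0)
    {M M' b pr b' pr' : ℕ} {S' : Finset ℕ} {t₁' t₀' σ : IT} {A' A₂ : Finset Λ} {d' u : DT Λ κ}
    (h' : SideI D sp b' pr' (.br p S' t₁' t₀') A' d') (k : SideI D sp b pr σ A₂ u)
    (hM : 0 < M) (hM' : 0 < M') (f' : ∀ q ∈ t₀'.items, ¬ p ∣ q / pr')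
    (hP₁ : ∀ e ∈ D.PE (Ro (D.rho p)) (D.uA M b pr σ A₂ 1) (D.uA M' (b' * p) pr' t₀' A' p), P p e)
    (hP₂ : ∀ e ∈ D.PE (Ro (D.rho p)) (D.uA (p * M) b pr σ A₂ 1) (D.uA M' (b' * p) pr' t₀' A' 1),
      P p e) :
    TB' D Al (VcL P D.γ ρ Lo) (VxL P D.γ ρ Lo) (6 * (SR ρ b (Qi D Al σ A₂) * SR ρ b' (Qi D Al t₀' A')))
      p M b pr σ A₂ M' b' pr' t₀' A' := by
  have hpp : p.Prime := h'.hF.1
  have hp0 : 0 < p := hpp.pos
  have hpR : (0:ℝ) < p := by exact_mod_cast hp0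
  have hM2 : 0 < p * M := Nat.mul_pos hp0 hM
  constructor
  · refine (Q_pb_le hR hdead hM hM' k.hb h'.br₀.hb k.hF h'.br₀.hF k.hW h'.br₀.hW
      (one_dvd _) (Dvd.intro_left b' rfl) _ A₂ A' (P p) hP₁).trans ?_
    have e0 : ∀ e : ℕ × ℕ, D.pb ρ M b pr 1 e.1 M' (b' * p) pr' p e.2 =
        vE D.γ ρ M b pr M' b' pr' e := by
      intro e
      rw [← pb_one (D := D)]
      unfold Par.pb
      have h : ((b' * p : ℕ):ℝ) / p = (b':ℝ) / (1:ℕ) := by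
        push_cast
        field_simp
      rw [h]
    rw [Finset.sum_congr rfl fun e _ => e0 e]
    exact blkL hR.pos _ _ _ (fun e _ he => vE_leL hLo hR.pos he) fun e =>
      mul_nonneg (by positivity) (VcL_nonneg hR.pos _ _ _)
  · have h0 : (0:ℝ) ≤ 1 / (p:ℝ) := by positivity
    refine (mul_le_mul_of_nonneg_left (Q_pb_le hR hdead hM2 hM' k.hb h'.br₀.hb k.hF h'.br₀.hF
      k.hW h'.br₀.hW (one_dvd _) (one_dvd _) _ A₂ A' (P p) hP₂) h0).trans ?_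
    rw [Finset.mul_sum]
    refine blkL hR.pos _ _ _ (fun e he hPe => ?_) fun e => mul_nonneg (by positivity)
      (VT_nonneg (fun _ _ _ => VcL_nonneg hR.pos _ _ _) (fun _ _ _ => VxL_nonneg hR.pos _ _ _) _ _ _ _)
    obtain ⟨a1, a2⟩ := Finset.mem_product.1 he
    have f1 : ¬ p ∣ e.2 / pr' := f' _ (mem_Qi.1 a2).1
    obtain ⟨q0, q1, -⟩ := k.hF.item _ (mem_Qi.1 a1).1
    have w0 : 0 < e.1 / pr := Nat.div_pos (Nat.le_of_dvd q0 q1) (Nat.pos_of_dvd_of_pos q1 q0)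
    rw [pb_one]
    unfold VT
    split_ifs with hd
    · rw [vE_drop hpp D.γ (smv_avg_drop hpp hM w0 hd) (smv_missing f1) (Or.inl rfl)
        (by push_cast; ring)]
      exact vE_leL hLo hR.pos hPe
    · rw [vE_exit hpp D.γ (smv_avg_raise hpp hM hd) (smv_missing f1) (by push_cast; ring)]
      exact vX_leL hLo hR.pos hPe

open Classical in
/-- raw tie against a raw tie -/
theorem TT_raw (hLo : LoOk Lo ρ) (hR : D.Rad ρ) (hdead : ∀ j, D.it j ∉ Al → ∀ a, D.om j a = 0)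
    {M M' b pr b' pr' : ℕ} {S S' : Finset ℕ} {t₁ t₀ t₁' t₀' : IT} {A A' : Finset Λ} {d d' : DT Λ κ}
    (h : SideI D sp b pr (.br p S t₁ t₀) A d) (h' : SideI D sp b' pr' (.br p S' t₁' t₀') A' d')
    (hM : 0 < M) (hM' : 0 < M') (f : ∀ q ∈ t₀.items, ¬ p ∣ q / pr)
    (f' : ∀ q ∈ t₀'.items, ¬ p ∣ q / pr')
    (hP₁ : ∀ e ∈ D.PE (Ro (D.rho p)) (D.uA M (b * p) pr t₀ A p) (D.uA M' (b' * p) pr' t₀' A' p),
      P p e)
    (hP₂ : ∀ e ∈ D.PE (Ro (D.rho p)) (D.uA M (b * p) pr t₀ A 1) (D.uA M' (b' * p) pr' t₀' A' 1),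
      P p e) :
    TT D Al (VcL P D.γ ρ Lo) (VxL P D.γ ρ Lo) (6 * (SR ρ b (Qi D Al t₀ A) * SR ρ b' (Qi D Al t₀' A')))
      p M b pr t₀ A M' b' pr' t₀' A' := by
  have hpp : p.Prime := h.hF.1
  have hp0 : 0 < p := hpp.pos
  have hpR : (0:ℝ) < p := by exact_mod_cast hp0
  constructor
  · refine (Q_pb_le hR hdead hM hM' h.br₀.hb h'.br₀.hb h.br₀.hF h'.br₀.hF h.br₀.hW h'.br₀.hW
      (Dvd.intro_left b rfl) (Dvd.intro_left b' rfl) _ A A' (P p) hP₁).trans ?_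
    rw [Finset.sum_congr rfl fun e _ => pb_col2 hp0 M b pr M' b' pr' e]
    exact blkL hR.pos _ _ _ (fun e _ he => vE_leL hLo hR.pos he) fun e =>
      mul_nonneg (by positivity) (VcL_nonneg hR.pos _ _ _)
  · have h0 : (0:ℝ) ≤ 1 / (p:ℝ) * (1 / (p:ℝ)) := by positivity
    refine (mul_le_mul_of_nonneg_left (Q_pb_le hR hdead hM hM' h.br₀.hb h'.br₀.hb h.br₀.hF
      h'.br₀.hF h.br₀.hW h'.br₀.hW (one_dvd _) (one_dvd _) _ A A' (P p) hP₂) h0).trans ?_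
    rw [Finset.mul_sum]
    refine blkL hR.pos _ _ _ (fun e he hPe => ?_) fun e => mul_nonneg (by positivity)
      (VxL_nonneg hR.pos _ _ _)
    obtain ⟨a1, a2⟩ := Finset.mem_product.1 he
    rw [pb_one, vE_exit2 hpp D.γ (smv_missing (f _ (mem_Qi.1 a1).1))
      (smv_missing (f' _ (mem_Qi.1 a2).1)) (by push_cast; ring)]
    exact vX_leL hLo hR.pos hPe

end raw

end blocks

end Crest.Agent.R4P.CrossLocC25
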