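import Crest.Agent.R4.CrossLocY709
import Crest.Agent.R4P.NMS800
import Crest.Agent.R4P.AvgSym710

/-!
R4P (S0004), helper25, module D, group [X]: LOCAL BOUNDS of the cross walk at one state, in the letters of the
invariant scale pair `sc` of `R4.CrossInv709` (tree free) : port of helper709's `R4/CrossLoc709` and the symbol part of
`R4/CrossLocY709` to the trees with powers.
-/

set_option autoImplicit false
set_option linter.unusedSectionVars false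
set_option linter.unusedVariables false
open Finset

namespace Crest.Agent.R4P.CrossLoc25

export Crest.Agent.R4.CrossInv709 (sd Mv gcd_mul_right' mv_pull mv_miss mv_avg_dvd mv_avg_not sc
  cof_mul_mul cof_mul_r cof_mul_l sc_inv sc_exit Da_eq_sc RelSc rel_iff_sc pbd_six raised_le)

export Crest.Agent.R4.CrossLoc709 (RelN Dsc Fsc Flo Flo_nonneg Fsc_nonneg Fsc_le Dsc_mul pbd_sc
  sc_raise2 sc_raiseL sc_raiseR SE vE vX vE_nonneg vX_nonneg vEl vXl vE_le vX_le sum_gen SMv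
  smv_present smv_missing smv_avg_dvd smv_avg_not SE_inv vE_inv vEl_inv vXl_inv)

export Crest.Agent.R4.CrossLocY709 (F1 F1_nonneg Fsc_le1 F1_le Dsc_swap RelN_swap' RelN_swap
  Fsc_swap sc_swap SE_pos SR SR_nonneg sum_prod_swap blk vE_drop SR_col ndiv_of ndiv_div
  two_blocks two_blocks' pm_mul)

open Crest.Agent.R4.HVW560 Crest.Agent.R4P.AvgItem710 Crest.Agent.R4.Deg709
open Crest.Agent.R4.Tour104 Crest.Agent.R4.Tour758 Crest.Agent.R4.Avg758 Crest.Agent.R4.Clos758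
open Crest.Agent.R4.ClosL758 Crest.Agent.R4.ClosG758 Crest.Agent.R4.ClosR758
open Crest.Agent.R4.Lam368 (mult lamF DW BW fW Nested Dat)
open Crest.Agent.R4.Fam464 Crest.Agent.R4P.Cnt588 Crest.Agent.R4P.Walk560 Crest.Agent.R4.Piece464
open Crest.Agent.R4P.GInst194 Crest.Agent.R4P.WalkIT579 Crest.Agent.R4P.Item758
open Crest.Agent.R4P.NMW710
open Crest.Agent.R4P.Bld532 (NS All NodeOk Bk)

variable {Λ κ : Type*} [Fintype Λ] [DecidableEq Λ] [Fintype κ] [DecidableEq κ]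
variable {D : Par Λ κ} {ρ : ℕ → ℝ} {Al : Finset ℕ}

/-- `pb` at a state -/
lemma pb_one (M b pr M' b' pr' : ℕ) (e : ℕ × ℕ) :
    D.pb ρ M b pr 1 e.1 M' b' pr' 1 e.2 = vE D.γ ρ M b pr M' b' pr' e := by
  unfold Par.pb vE SE
  rw [Nat.cast_one, div_one, div_one]
  exact pbd_sc _ _ _ _ _ _ _ _ _

lemma pb_colL {p : ℕ} (hp : 0 < p) (M b pr M' b' pr' : ℕ) (e : ℕ × ℕ) :
    D.pb ρ M (b * p) pr p e.1 M' b' pr' 1 e.2 = vE D.γ ρ M b pr M' b' pr' e := by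
  rw [← pb_one (D := D)]
  unfold Par.pb
  have h : ((b * p : ℕ):ℝ) / p = (b:ℝ) / (1:ℕ) := by
    have : (p:ℝ) ≠ 0 := by exact_mod_cast hp.ne'
    push_cast
    field_simp
  rw [h]

lemma pb_col2 {p : ℕ} (hp : 0 < p) (M b pr M' b' pr' : ℕ) (e : ℕ × ℕ) :
    D.pb ρ M (b * p) pr p e.1 M' (b' * p) pr' p e.2 = vE D.γ ρ M b pr M' b' pr' e := by
  rw [← pb_one (D := D)]
  unfold Par.pb
  have h : ∀ b : ℕ, ((b * p : ℕ):ℝ) / p = (b:ℝ) / (1:ℕ) := fun b => by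
    have : (p:ℝ) ≠ 0 := by exact_mod_cast hp.ne'
    push_cast
    field_simp
  rw [h, h]

/-- exit of type (tie, tie) -/
lemma pb_exit_tt {p : ℕ} (hp : 0 < p) (M b pr M' b' pr' : ℕ) (e : ℕ × ℕ) :
    1 / (p:ℝ) * (1 / (p:ℝ)) * D.pb ρ M (b * p) pr 1 e.1 M' (b' * p) pr' 1 e.2 =
      vX D.γ ρ p M b pr M' b' pr' e := by
  have hp0 : (p:ℝ) ≠ 0 := by exact_mod_cast hp.ne'
  rw [pb_one]
  unfold vE vX SE
  have h : ∀ b : ℕ, ((b * p : ℕ):ℝ) = (p:ℝ) * b := fun b => by push_cast; ring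
  rw [h, h, sc_raise2]
  field_simp

/-- averaging over `p` an item whose rest does not contain another `p` raises -/
lemma mv_avg_raise {p M w : ℕ} (hw : ¬ p ∣ w / M.gcd w) (hp : p.Prime) (hM : 0 < M) (β : ℝ) :
    Mv p false (sd w M β) (sd w (p * M) β) := by
  have hg : 0 < M.gcd w := Nat.gcd_pos_of_pos_left _ hM
  obtain ⟨g, M₁, w₁, hg0, hcop, e1, e2⟩ : ∃ g M₁ w₁, 0 < g ∧ Nat.Coprime M₁ w₁ ∧ M = g * M₁ ∧
      w = g * w₁ := by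
    refine ⟨M.gcd w, M / M.gcd w, w / M.gcd w, hg, Nat.coprime_div_gcd_div_gcd hg, ?_, ?_⟩
    · exact (Nat.mul_div_cancel' (Nat.gcd_dvd_left _ _)).symm
    · exact (Nat.mul_div_cancel' (Nat.gcd_dvd_right _ _)).symm
  subst e1 e2
  have g1 : (g * M₁).gcd (g * w₁) = g := by
    rw [Nat.gcd_mul_left, hcop.gcd_eq_one, mul_one]
  have hw1 : ¬ p ∣ w₁ := by
    rw [g1, Nat.mul_div_cancel_left _ hg0] at hw
    exact hw
  have hc : Nat.Coprime p w₁ := (Nat.Prime.coprime_iff_not_dvd hp).2 hw1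
  have g2 : (p * (g * M₁)).gcd (g * w₁) = g := by
    rw [← mul_assoc, mul_comm p g, mul_assoc, Nat.gcd_mul_left,
      (Nat.Coprime.mul_left hc hcop).gcd_eq_one, mul_one]
  have r1 : rf (g * w₁) (g * M₁) = M₁ := by
    unfold rf; rw [g1, Nat.mul_div_cancel_left _ hg0]
  have r2 : rf (g * w₁) (p * (g * M₁)) = p * M₁ := by
    unfold rf
    rw [g2, ← mul_assoc, mul_comm p g, mul_assoc, Nat.mul_div_cancel_left _ hg0]
  have e : sd (g * w₁) (p * (g * M₁)) β = (w₁, p * ((M₁:ℝ) * β)) := by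
    unfold sd
    rw [g2, Nat.mul_div_cancel_left _ hg0]
    have : (Crest.Agent.R4.AvgItem710.rf (g * w₁) (p * (g * M₁)) : ℝ) = p * M₁ := by
      rw [show Crest.Agent.R4.AvgItem710.rf (g * w₁) (p * (g * M₁)) = p * M₁ from r2]; push_cast; ring
    rw [this]; ring_nf
  have e' : sd (g * w₁) (g * M₁) β = (w₁, (M₁:ℝ) * β) := by
    unfold sd
    rw [g1, Nat.mul_div_cancel_left _ hg0]
    rw [show Crest.Agent.R4.AvgItem710.rf (g * w₁) (g * M₁) = M₁ from r1]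
  rw [e, e']
  exact Crest.Agent.R4.CrossInv709.Mv.raise _ _ hw1

/-- averaging over `p` an item whose rest contains another `p` drops -/
lemma mv_avg_drop {p M w : ℕ} (hw : p ∣ w / M.gcd w) (hp : p.Prime) (hM : 0 < M) (hw0 : 0 < w) (β : ℝ) :
    Mv p true (sd w M β) (sd w (p * M) β) := by
  have hg : 0 < M.gcd w := Nat.gcd_pos_of_pos_left _ hM
  obtain ⟨g, M₁, w₁, hg0, hcop, e1, e2⟩ : ∃ g M₁ w₁, 0 < g ∧ Nat.Coprime M₁ w₁ ∧ M = g * M₁ ∧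
      w = g * w₁ := by
    refine ⟨M.gcd w, M / M.gcd w, w / M.gcd w, hg, Nat.coprime_div_gcd_div_gcd hg, ?_, ?_⟩
    · exact (Nat.mul_div_cancel' (Nat.gcd_dvd_left _ _)).symm
    · exact (Nat.mul_div_cancel' (Nat.gcd_dvd_right _ _)).symm
  subst e1 e2
  have g1 : (g * M₁).gcd (g * w₁) = g := by
    rw [Nat.gcd_mul_left, hcop.gcd_eq_one, mul_one]
  rw [g1, Nat.mul_div_cancel_left _ hg0] at hw
  obtain ⟨w₂, rfl⟩ := hw
  have hc2 : Nat.Coprime M₁ w₂ := Nat.Coprime.coprime_mul_left_right hcop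
  have g2 : (p * (g * M₁)).gcd (g * (p * w₂)) = g * p := by
    rw [show p * (g * M₁) = g * (p * M₁) by ring, Nat.gcd_mul_left, Nat.gcd_mul_left,
      hc2.gcd_eq_one, mul_one]
  have hgp : 0 < g * p := Nat.mul_pos hg0 hp.pos
  have r1 : Crest.Agent.R4.AvgItem710.rf (g * (p * w₂)) (g * M₁) = M₁ := by
    unfold Crest.Agent.R4.AvgItem710.rf; rw [g1, Nat.mul_div_cancel_left _ hg0]
  have r2 : Crest.Agent.R4.AvgItem710.rf (g * (p * w₂)) (p * (g * M₁)) = M₁ := by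
    unfold Crest.Agent.R4.AvgItem710.rf
    rw [g2, show p * (g * M₁) = g * p * M₁ by ring, Nat.mul_div_cancel_left _ hgp]
  have e : sd (g * (p * w₂)) (p * (g * M₁)) β = (w₂, (M₁:ℝ) * β) := by
    unfold sd
    rw [r2, g2, show g * (p * w₂) = g * p * w₂ by ring, Nat.mul_div_cancel_left _ hgp]
  have e' : sd (g * (p * w₂)) (g * M₁) β = (p * w₂, (M₁:ℝ) * β) := by
    unfold sd
    rw [g1, r1, Nat.mul_div_cancel_left _ hg0]
  rw [e, e']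
  exact Crest.Agent.R4.CrossInv709.Mv.drop _ _

/-! ### the symbols as energies of populations -/

variable [WRel κ] {sp : ℕ → Finset Λ} {p : ℕ}

/-- class functions of a tie of an item tree -/
noncomputable def GD (D : Par Λ κ) (b pr p : ℕ) (t₁ t₀ : IT) : κ → ℝ → ℝ := fun a =>
  DW p (fun j => (D.toFT b (pr * p) t₁).U 1 j) (fun j => (D.toFT (b * p) pr t₀).U p j)
    (fun j => (D.toFT (b * p) pr t₀).U 1 j) (fun _ => D.rho p) (0 + 1) (clz (D.rho p) a)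

open Classical in
/-- energies below item values -/
lemma Q_pb_le (hR : D.Rad ρ) (hdead : ∀ j, D.it j ∉ Al → ∀ a, D.om j a = 0)
    {M M' b pr c b' pr' c' : ℕ} {t t' : IT} (hM : 0 < M) (hM' : 0 < M') (hb : 0 < b) (hb' : 0 < b')
    (hF : Fit b pr t) (hF' : Fit b' pr' t') (hW : D.Wts pr t) (hW' : D.Wts pr' t') (hc : c ∣ b)
    (hc' : c' ∣ b') (R : Finset (Λ × Λ)) (A A' : Finset Λ) (P : ℕ × ℕ → Prop)
    (hP : ∀ e ∈ D.PE R (D.uA M b pr t A c) (D.uA M' b' pr' t' A' c'), P e) :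
    Q R (D.uA M b pr t A c) (D.uA M' b' pr' t' A' c') ≤
    ∑ e ∈ (Qi D Al t A ×ˢ Qi D Al t' A').filter P, D.pb ρ M b pr c e.1 M' b' pr' c' e.2 := by
  rw [D.Q_eq]
  have hsub := PE_sub hdead hM hM' hb hb' hF hF' hW hW' hc hc' R A A'
  refine le_trans (Finset.sum_le_sum fun e he => ?_)
    (Finset.sum_le_sum_of_subset_of_nonneg
      (s := D.PE R (D.uA M b pr t A c) (D.uA M' b' pr' t' A' c')) ?_
      fun e _ _ => Par.pb_nonneg hR.pos _ _ _ _ _ _ _ _ _ _)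
  · have h := Finset.mem_product.1 (hsub he)
    exact iF_le hR hM hM' hb hb' hF hF' hW hW' hc hc' R A A' e (mem_Qi.1 h.1).1 (mem_Qi.1 h.2).1
  · intro e he
    exact Finset.mem_filter.2 ⟨hsub he, hP e he⟩

/-- **(NM)** as an energy -/
theorem nm_Q {M M' b pr b' pr' : ℕ} {S S' : Finset ℕ} {t₁ t₀ t₁' t₀' : IT} {A A' : Finset Λ}
    {d d' : DT Λ κ} (h : SideI D sp b pr (.br p S t₁ t₀) A d)
    (h' : SideI D sp b' pr' (.br p S' t₁' t₀') A' d') (hM : 0 < M) (hM' : 0 < M') :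
    Q (orel κ) (avg M (rk A (D.rho p) (GD D b pr p t₁ t₀)))
      (avg M' (rk A' (D.rho p) (GD D b' pr' p t₁' t₀'))) ≤
    Q (Ro (D.rho p)) (D.uA M (b * p) pr t₀ A p) (D.uA M' (b' * p) pr' t₀' A' p) :=
  Q_offd_le h.sat_br h'.sat_br hM hM' h.pb_G h'.pb_G h.pb_g h'.pb_g h.G_le h'.G_le

/-- **(ONE)**, left tie, as an energy -/
theorem os_Q {M M' b pr b' pr' : ℕ} {S : Finset ℕ} {t₁ t₀ τ' : IT} {A A' : Finset Λ} {d d' : DT Λ κ}
    (h : SideI D sp b pr (.br p S t₁ t₀) A d) (h' : SideI D sp b' pr' τ' A' d')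
    (hM : 0 < M) (hM' : 0 < M') :
    os (orel κ) p (avg M (rk A (D.rho p) (GD D b pr p t₁ t₀)))
      (sm (D.rho p) (avg M' (rv A' d'.g.val))) ≤
    Q (Ro (D.rho p)) (D.uA M (b * p) pr t₀ A p) (D.uA M' b' pr' τ' A' 1) := by
  have hp0 : 0 < p := h.hF.1.pos
  rw [h'.val]
  have pF : ∀ j, PB (avg M' (rv A' fun j => (D.toFT b' pr' τ').U 1 j) j) := fun j =>
    PB_uA hM' h'.hb h'.hF h'.hW (one_dvd _) j
  exact os_le_Q h.sat_br hM hp0 h.pb_G h.pb_g pF h.G_le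

/-- symmetric relations -/
lemma Q_Ro_swap (r : Λ → κ) (f g : Λ → ℝ → ℝ) : Q (Ro r) f g = Q (Ro r) g f := by
  unfold Q
  refine Finset.sum_nbij' (fun e => (e.2, e.1)) (fun e => (e.2, e.1)) ?_ ?_ ?_ ?_ ?_
  · rintro ⟨i, j⟩ h
    rw [mem_Ro] at h ⊢
    exact WRel.symm h
  · rintro ⟨i, j⟩ h
    rw [mem_Ro] at h ⊢
    exact WRel.symm h
  · intro e _; rfl
  · intro e _; rfl
  · intro e _
    congr 1
    funext y
    ring

/-- **(ONE)**, right tie, as an energy -/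
theorem os_Q' {M M' b pr b' pr' : ℕ} {S' : Finset ℕ} {τ t₁' t₀' : IT} {A A' : Finset Λ}
    {d d' : DT Λ κ} (h : SideI D sp b pr τ A d) (h' : SideI D sp b' pr' (.br p S' t₁' t₀') A' d')
    (hM : 0 < M) (hM' : 0 < M') :
    os (orel κ) p (avg M' (rk A' (D.rho p) (GD D b' pr' p t₁' t₀')))
      (sm (D.rho p) (avg M (rv A d.g.val))) ≤
    Q (Ro (D.rho p)) (D.uA M b pr τ A 1) (D.uA M' (b' * p) pr' t₀' A' p) := by
  rw [Q_Ro_swap]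
  exact os_Q h' h hM' hM

/-- cross energy of a state -/
theorem Qs_Q {s : St Λ κ} {b pr b' pr' : ℕ} {τ τ' : IT} (h : StI D sp s b pr τ b' pr' τ') :
    Qs s = Q s.R (D.uA s.M b pr τ s.A 1) (D.uA s.M' b' pr' τ' s.A' 1) := by
  unfold Qs
  rw [h.L.val, h.R.val]
  rfl

lemma Xs_le_of {μ : TrG Λ κ → Finset Λ → ℝ} {B : ℝ} (hB : 0 ≤ B)
    (hμ : ∀ t : TrG Λ κ, t.Ok → ∀ A, 0 ≤ μ t A) {s : St Λ κ} (hL : s.t.g.Ok) (hR : s.t'.g.Ok)
    {y : ℝ} (h : Qs s ≤ y) (hy : 0 ≤ y) : Xs μ B s ≤ y := by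
  unfold Xs
  refine max_le hy ?_
  have := mul_nonneg hB (mul_nonneg (hμ s.t.g hL s.A) (hμ s.t'.g hR s.A'))
  linarith

lemma SideI.okg {b pr : ℕ} {t : IT} {A : Finset Λ} {d : DT Λ κ} (h : SideI D sp b pr t A d) :
    d.g.Ok := by
  rw [h.eq, D.toDT_g]; exact D.toG_Ok h.hb h.hF h.hW

lemma uA_nonneg {M b pr c : ℕ} {t : IT} {A : Finset Λ} (hM : 0 < M) (hb : 0 < b) (hF : Fit b pr t)
    (hW : D.Wts pr t) (hc : c ∣ b) (j : Λ) (y : ℝ) : 0 ≤ D.uA M b pr t A c j y :=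
  (PB_uA hM hb hF hW hc j).nonneg y

lemma Q_uA_nonneg {M M' b pr c b' pr' c' : ℕ} {t t' : IT} {A A' : Finset Λ} (hM : 0 < M)
    (hM' : 0 < M') (hb : 0 < b) (hb' : 0 < b') (hF : Fit b pr t) (hF' : Fit b' pr' t')
    (hW : D.Wts pr t) (hW' : D.Wts pr' t') (hc : c ∣ b) (hc' : c' ∣ b') (R : Finset (Λ × Λ)) :
    0 ≤ Q R (D.uA M b pr t A c) (D.uA M' b' pr' t' A' c') := by
  unfold Q
  exact Finset.sum_nonneg fun e _ => I_nonneg fun y =>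
    mul_nonneg (uA_nonneg hM hb hF hW hc _ y) (uA_nonneg hM' hb' hF' hW' hc' _ y)

/-! ### value functions of the raw sides -/

/-- a pair of items with a pair of pieces related at the column `p` -/
def Pc (D : Par Λ κ) (p : ℕ) (e : ℕ × ℕ) : Prop :=
  ∃ j j', (j, j') ∈ Ro (D.rho p) ∧ D.it j = e.1 ∧ D.it j' = e.2

lemma Pc_swap {D : Par Λ κ} {p q r : ℕ} (h : Pc D p (r, q)) : Pc D p (q, r) := by
  obtain ⟨j, j', h1, h2, h3⟩ := h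
  refine ⟨j', j, ?_, h3, h2⟩
  rw [mem_Ro] at h1 ⊢
  exact WRel.symm h1

lemma Pc_of_PE {M M' b pr c b' pr' c' : ℕ} {t t' : IT} {A A' : Finset Λ} (hM : 0 < M) (hM' : 0 < M') :
    ∀ e ∈ D.PE (Ro (D.rho p)) (D.uA M b pr t A c) (D.uA M' b' pr' t' A' c'), Pc D p e := by
  intro e he
  obtain ⟨j, j', h1, -, -, h3, h4, -⟩ := Par.PE_ex hM hM' he
  exact ⟨j, j', h1, h3, h4⟩

open Classical in
/-- low part, threshold predicate `Lo` -/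
noncomputable def FL (Lo : ℝ × ℝ → ℕ × ℕ → Prop) (ρ : ℕ → ℝ) (γ : ℝ) (s : ℝ × ℝ) (e : ℕ × ℕ) : ℝ :=
  if Lo s e ∧ 0 ≤ s.1 then Fsc γ (ρ e.1) (ρ e.2) s else 0

/-- the threshold predicate: pairs which are not low have `D > 1` -/
def LoOk (Lo : ℝ × ℝ → ℕ × ℕ → Prop) (ρ : ℕ → ℝ) : Prop :=
  ∀ s e, ¬ Lo s e → 1 < Dsc (ρ e.1) (ρ e.2) s

lemma FL_nonneg {Lo : ℝ × ℝ → ℕ × ℕ → Prop} (hρ : ∀ q, 0 < ρ q) (γ : ℝ) (s : ℝ × ℝ)
    (e : ℕ × ℕ) : 0 ≤ FL Lo ρ γ s e := by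
  unfold FL
  split_ifs with h
  · exact Fsc_nonneg (hρ _).le (hρ _).le h.2
  · exact le_rfl

lemma Fsc_leL {Lo : ℝ × ℝ → ℕ × ℕ → Prop} (hLo : LoOk Lo ρ) (hρ : ∀ q, 0 < ρ q) (γ : ℝ) {s : ℝ × ℝ}
    (hs : 0 ≤ s.1) (e : ℕ × ℕ) : Fsc γ (ρ e.1) (ρ e.2) s ≤ 6 * (ρ e.1 * ρ e.2) + FL Lo ρ γ s e := by
  have h0 : 0 ≤ ρ e.1 * ρ e.2 := mul_nonneg (hρ _).le (hρ _).le
  unfold FL
  split_ifs with h1
  · linarith
  · have h2 := hLo s e (fun h => h1 ⟨h, hs⟩)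
    unfold Fsc
    rw [if_neg (fun h => by linarith)]
    have h3 : ρ e.1 * ρ e.2 / Dsc (ρ e.1) (ρ e.2) s ≤ ρ e.1 * ρ e.2 := by
      rw [div_le_iff₀ (by linarith)]
      nlinarith
    linarith

open Classical in
/-- value function of a column; `P p e` = pairs of items which have related pieces at a lower state (at least
`Pc D p e`) -/
noncomputable def VcL (P : ℕ → ℕ × ℕ → Prop) (γ : ℝ) (ρ : ℕ → ℝ) (Lo : ℝ × ℝ → ℕ × ℕ → Prop) (p : ℕ)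
    (s : ℝ × ℝ) (e : ℕ × ℕ) : ℝ :=
  if P p e then FL Lo ρ γ s e else 0

open Classical in
/-- value function of an exit -/
noncomputable def VxL (P : ℕ → ℕ × ℕ → Prop) (γ : ℝ) (ρ : ℕ → ℝ) (Lo : ℝ × ℝ → ℕ × ℕ → Prop) (p : ℕ)
    (s : ℝ × ℝ) (e : ℕ × ℕ) : ℝ :=
  if P p e then FL Lo ρ γ (p * s.1, p * s.2) e else 0

section
variable {P : ℕ → ℕ × ℕ → Prop} {γ : ℝ}

lemma VcL_nonneg {Lo : ℝ × ℝ → ℕ × ℕ → Prop} (hρ : ∀ q, 0 < ρ q) (p : ℕ) (s : ℝ × ℝ)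
    (e : ℕ × ℕ) : 0 ≤ VcL P γ ρ Lo p s e := by
  unfold VcL; split_ifs
  · exact FL_nonneg hρ _ _ _
  · exact le_rfl

lemma VxL_nonneg {Lo : ℝ × ℝ → ℕ × ℕ → Prop} (hρ : ∀ q, 0 < ρ q) (p : ℕ) (s : ℝ × ℝ)
    (e : ℕ × ℕ) : 0 ≤ VxL P γ ρ Lo p s e := by
  unfold VxL; split_ifs
  · exact FL_nonneg hρ _ _ _
  · exact le_rfl

end

open Classical in
/-- blocks: pairs which are not low are generic -/
lemma blkL (hρ : ∀ q, 0 < ρ q) (V W : Finset ℕ) (P : ℕ × ℕ → Prop) {b b' : ℕ} {F G : ℕ × ℕ → ℝ}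
    (h : ∀ e ∈ V ×ˢ W, P e → F e ≤ 6 * ((b * ρ e.1) * (b' * ρ e.2)) + G e) (hG : ∀ e, 0 ≤ G e) :
    ∑ e ∈ (V ×ˢ W).filter P, F e ≤
      6 * (SR ρ b V * SR ρ b' W) + ∑ e ∈ V ×ˢ W, G e := blk hρ V W P h hG

lemma vE_leL {Lo : ℝ × ℝ → ℕ × ℕ → Prop} {P : ℕ → ℕ × ℕ → Prop} {γ : ℝ} (hLo : LoOk Lo ρ)
    (hρ : ∀ q, 0 < ρ q) {M b pr M' b' pr' : ℕ} {e : ℕ × ℕ} (h : P p e) :
    vE γ ρ M b pr M' b' pr' e ≤ 6 * ((b * ρ e.1) * (b' * ρ e.2)) +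
      (b:ℝ) * b' * VcL P γ ρ Lo p (SE M b pr M' b' pr' e) e := by
  unfold vE VcL
  rw [if_pos h]
  have h1 := Fsc_leL hLo hρ γ (SE_pos M b pr M' b' pr' e) e
  have hb : (0:ℝ) ≤ (b:ℝ) * b' := by positivity
  nlinarith [mul_le_mul_of_nonneg_left h1 hb]

lemma vX_leL {Lo : ℝ × ℝ → ℕ × ℕ → Prop} {P : ℕ → ℕ × ℕ → Prop} {γ : ℝ} (hLo : LoOk Lo ρ)
    (hρ : ∀ q, 0 < ρ q) {M b pr M' b' pr' : ℕ} {e : ℕ × ℕ} (h : P p e) :
    vX γ ρ p M b pr M' b' pr' e ≤ 6 * ((b * ρ e.1) * (b' * ρ e.2)) +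
      (b:ℝ) * b' * VxL P γ ρ Lo p (SE M b pr M' b' pr' e) e := by
  unfold vX VxL
  rw [if_pos h]
  have h1 := Fsc_leL hLo hρ γ (s := (p * (SE M b pr M' b' pr' e).1, p * (SE M b pr M' b' pr' e).2))
    (mul_nonneg (Nat.cast_nonneg _) (SE_pos M b pr M' b' pr' e)) e
  have hb : (0:ℝ) ≤ (b:ℝ) * b' := by positivity
  nlinarith [mul_le_mul_of_nonneg_left h1 hb]

/-- raising both sides multiplies the scale pair by `p` -/
lemma SE_raise {M b pr M₂ b₂ pr₂ M' b' pr' M₂' b₂' pr₂' : ℕ} {e : ℕ × ℕ}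
    (h : SMv p false M b pr M₂ b₂ pr₂ e.1) (h' : SMv p false M' b' pr' M₂' b₂' pr₂' e.2) :
    SE M₂ b₂ pr₂ M₂' b₂' pr₂' e = (p * (SE M b pr M' b' pr' e).1, p * (SE M b pr M' b' pr' e).2) :=
  sc_exit h h'

/-- exits at which both sides raise -/
lemma vE_exit {M b pr M₂ b₂ pr₂ M' b' pr' M₂' b₂' pr₂' : ℕ} {e : ℕ × ℕ} (hp : p.Prime)
    (γ : ℝ) (h : SMv p false M b pr M₂ b₂ pr₂ e.1) (h' : SMv p false M' b' pr' M₂' b₂' pr₂' e.2)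
    (hb : (b₂:ℝ) * b₂' = p * (b * b')) :
    1 / (p:ℝ) * vE γ ρ M₂ b₂ pr₂ M₂' b₂' pr₂' e = vX γ ρ p M b pr M' b' pr' e := by
  have hp0 : (p:ℝ) ≠ 0 := by exact_mod_cast hp.ne_zero
  unfold vE vX
  rw [SE_raise h h', hb]
  field_simp

/-- exits of type (tie, tie) -/
lemma vE_exit2 {M b pr M₂ b₂ pr₂ M' b' pr' M₂' b₂' pr₂' : ℕ} {e : ℕ × ℕ} (hp : p.Prime)
    (γ : ℝ) (h : SMv p false M b pr M₂ b₂ pr₂ e.1) (h' : SMv p false M' b' pr' M₂' b₂' pr₂' e.2)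
    (hb : (b₂:ℝ) * b₂' = p * p * (b * b')) :
    1 / (p:ℝ) * (1 / (p:ℝ)) * vE γ ρ M₂ b₂ pr₂ M₂' b₂' pr₂' e = vX γ ρ p M b pr M' b' pr' e := by
  have hp0 : (p:ℝ) ≠ 0 := by exact_mod_cast hp.ne_zero
  unfold vE vX
  rw [SE_raise h h', hb]
  field_simp

end Crest.Agent.R4P.CrossLoc25
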