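import Crest.Agent.R4P.Xfer_36
import Crest.Agent.R4P.VWalkM_36

/-!
R4 (S0004) with powers, `TgtCrs`, helper26: **the group walk with separated leaves**.

At the column `p` a group `g` is resolved (`rsG`) and split into `L = gLf p g` (leaves), `B = gB p g`
(ties and pulls at `p`) and `R = gRn p g` (the other members which are not leaves).

* `XP ℓ n p g h` : sum of `ℓ p` over the separated pairs `L × all`, `N × L`, `B × R`, `R × B`.
* `XP_self` : for `g = h` and symmetric `ℓ`.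
* `kX wr` : the kernel = energy of the same-`ix` pairs of the column `p`.
* `Cs p t` : the codes (number of ties and pulls at `p`) of the members which are not leaves.
-/

set_option autoImplicit false
set_option linter.unusedSectionVars false
set_option linter.unusedVariables false
open MeasureTheory Filter Set

namespace Crest.Agent.R4P.CrsD26

open Crest.Agent.R4.Tour104 Crest.Agent.R4.Tour758 Crest.Agent.R4.Avg758 Crest.Agent.R4.Clos758
open Crest.Agent.R4.ClosL758 Crest.Agent.R4.ClosG758 Crest.Agent.R4.ClosR758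
open Crest.Agent.R4P.ClosR442 Crest.Agent.R4P.Walk560 Crest.Agent.R4P.Grp36 Crest.Agent.R4P.Xfer36
open Crest.Agent.R4P.VWalk36 (crs)

variable {Λ κ : Type*}

/-- leaf test -/
def isLf : DT Λ κ → Bool
  | .leaf _ _ => true
  | _ => false

lemma isLf_iff {t : DT Λ κ} : isLf t = true ↔ t.isLeaf := by
  cases t <;> simp [isLf, DT.isLeaf]

lemma isLf_false {t : DT Λ κ} : isLf t = false ↔ ¬ t.isLeaf := by
  cases t <;> simp [isLf, DT.isLeaf]

/-- the leaves -/
def gLf (p : ℕ) (g : Gp Λ κ) : Gp Λ κ := (rsG p g).filter fun m => isLf m.2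

/-- the members which are not leaves -/
def gNl (p : ℕ) (g : Gp Λ κ) : Gp Λ κ := (rsG p g).filter fun m => !isLf m.2

/-- the members which are neither leaves nor ties / pulls at `p` -/
def gRn (p : ℕ) (g : Gp Λ κ) : Gp Λ κ := (gR p g).filter fun m => !isLf m.2

@[simp] lemma gLf_nil (p : ℕ) : gLf p ([] : Gp Λ κ) = [] := rfl
@[simp] lemma gNl_nil (p : ℕ) : gNl p ([] : Gp Λ κ) = [] := rfl
@[simp] lemma gRn_nil (p : ℕ) : gRn p ([] : Gp Λ κ) = [] := rfl

lemma gLf_append (p : ℕ) (g h : Gp Λ κ) : gLf p (g ++ h) = gLf p g ++ gLf p h := by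
  simp [gLf, rsG_append, List.filter_append]

lemma gNl_append (p : ℕ) (g h : Gp Λ κ) : gNl p (g ++ h) = gNl p g ++ gNl p h := by
  simp [gNl, rsG_append, List.filter_append]

lemma gRn_append (p : ℕ) (g h : Gp Λ κ) : gRn p (g ++ h) = gRn p g ++ gRn p h := by
  simp [gRn, gR_append, List.filter_append]

lemma gLf_smG (p : ℕ) (c : ℝ) (g : Gp Λ κ) : gLf p (smG c g) = smG c (gLf p g) := by
  unfold gLf; rw [rsG_smG, filter_smG c (fun t => isLf t)]

lemma gNl_smG (p : ℕ) (c : ℝ) (g : Gp Λ κ) : gNl p (smG c g) = smG c (gNl p g) := by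
  unfold gNl; rw [rsG_smG, filter_smG c (fun t => !isLf t)]

lemma gRn_smG (p : ℕ) (c : ℝ) (g : Gp Λ κ) : gRn p (smG c g) = smG c (gRn p g) := by
  unfold gRn; rw [gR_smG, filter_smG c (fun t => !isLf t)]

lemma Wg_filter {g : Gp Λ κ} (h : Wg g) (F : ℝ × DT Λ κ → Bool) : Wg (g.filter F) :=
  fun m hm => h m (List.mem_filter.1 hm).1

lemma wgLf {p : ℕ} {g : Gp Λ κ} (h : Wg g) : Wg (gLf p g) := Wg_filter h.rsG _
lemma wgNl {p : ℕ} {g : Gp Λ κ} (h : Wg g) : Wg (gNl p g) := Wg_filter h.rsG _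
lemma wgRn {p : ℕ} {g : Gp Λ κ} (h : Wg g) : Wg (gRn p g) := Wg_filter h.gR _

lemma gLf_congr {p : ℕ} {g g' : Gp Λ κ} (h : rsG p g = rsG p g') : gLf p g = gLf p g' := by
  unfold gLf; rw [h]
lemma gNl_congr {p : ℕ} {g g' : Gp Λ κ} (h : rsG p g = rsG p g') : gNl p g = gNl p g' := by
  unfold gNl; rw [h]
lemma gRn_congr {p : ℕ} {g g' : Gp Λ κ} (h : rsG p g = rsG p g') : gRn p g = gRn p g' := by
  unfold gRn; rw [gR_congr h]

/-- the local term: all the pairs which are separated at the column `p` -/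
noncomputable def lX (ℓ : ℕ → Gp Λ κ → Gp Λ κ → ℝ) (p : ℕ) (g h : Gp Λ κ) : ℝ :=
  ℓ p (gLf p g) (rsG p h) + ℓ p (gNl p g) (gLf p h) + ℓ p (gB p g) (gRn p h) +
    ℓ p (gRn p g) (gB p h)

/-- **the crossing sum over the product walk of two groups** -/
noncomputable def XP (ℓ : ℕ → Gp Λ κ → Gp Λ κ → ℝ) : ℕ → ℕ → Gp Λ κ → Gp Λ κ → ℝ
  | 0, _, _, _ => 0
  | n + 1, p, g, h => if p = 0 then 0 else
      lX ℓ p g h + XP ℓ n p (gC p g) (gC p h) + XP ℓ n (p - 1) (gRn p g) (gRn p h)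

/-- **the crossing sum of one group** -/
noncomputable def XW (ℓ : ℕ → Gp Λ κ → Gp Λ κ → ℝ) : ℕ → ℕ → Gp Λ κ → ℝ
  | 0, _, _ => 0
  | n + 1, p, g => if p = 0 then 0 else
      ℓ p (gLf p g) (gLf p g) + 2 * ℓ p (gLf p g) (gB p g) + 2 * ℓ p (gLf p g) (gRn p g) +
        2 * ℓ p (gB p g) (gRn p g) + XW ℓ n p (gC p g) + XW ℓ n (p - 1) (gRn p g)

section bil
variable {ℓ : ℕ → Gp Λ κ → Gp Λ κ → ℝ}

lemma lX_add_left (hl : ∀ p g g' h, ℓ p (g ++ g') h = ℓ p g h + ℓ p g' h) (p : ℕ)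
    (g g' h : Gp Λ κ) : lX ℓ p (g ++ g') h = lX ℓ p g h + lX ℓ p g' h := by
  unfold lX
  rw [gLf_append, gNl_append, gB_append, gRn_append, hl, hl, hl, hl]; ring

lemma lX_add_right (hl : ∀ p g h h', ℓ p g (h ++ h') = ℓ p g h + ℓ p g h') (p : ℕ)
    (g h h' : Gp Λ κ) : lX ℓ p g (h ++ h') = lX ℓ p g h + lX ℓ p g h' := by
  unfold lX
  rw [gLf_append, rsG_append, gB_append, gRn_append, hl, hl, hl, hl]; ring

lemma lX_sm_left {c : ℝ} (hl : ∀ p g h, ℓ p (smG c g) h = c * ℓ p g h) (p : ℕ)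
    (g h : Gp Λ κ) : lX ℓ p (smG c g) h = c * lX ℓ p g h := by
  unfold lX
  rw [gLf_smG, gNl_smG, gB_smG, gRn_smG, hl, hl, hl, hl]; ring

lemma lX_sm_right {c : ℝ} (hl : ∀ p g h, ℓ p g (smG c h) = c * ℓ p g h) (p : ℕ)
    (g h : Gp Λ κ) : lX ℓ p g (smG c h) = c * lX ℓ p g h := by
  unfold lX
  rw [gLf_smG, rsG_smG, gB_smG, gRn_smG, hl, hl, hl, hl]; ring

lemma XP_add_left (hl : ∀ p g g' h, ℓ p (g ++ g') h = ℓ p g h + ℓ p g' h) :
    ∀ (n p : ℕ) (g g' h : Gp Λ κ), XP ℓ n p (g ++ g') h = XP ℓ n p g h + XP ℓ n p g' h := by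
  intro n
  induction n with
  | zero => intro p g g' h; simp [XP]
  | succ n ih =>
    intro p g g' h
    unfold XP
    split_ifs with hp
    · simp
    · rw [lX_add_left hl, gC_append, gRn_append, ih, ih]; ring

lemma XP_add_right (hl : ∀ p g h h', ℓ p g (h ++ h') = ℓ p g h + ℓ p g h') :
    ∀ (n p : ℕ) (g h h' : Gp Λ κ), XP ℓ n p g (h ++ h') = XP ℓ n p g h + XP ℓ n p g h' := by
  intro n
  induction n with
  | zero => intro p g g' h; simp [XP]
  | succ n ih =>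
    intro p g g' h
    unfold XP
    split_ifs with hp
    · simp
    · rw [lX_add_right hl, gC_append, gRn_append, ih, ih]; ring

lemma XP_sm_left {c : ℝ} (hl : ∀ p g h, ℓ p (smG c g) h = c * ℓ p g h) :
    ∀ (n p : ℕ) (g h : Gp Λ κ), XP ℓ n p (smG c g) h = c * XP ℓ n p g h := by
  intro n
  induction n with
  | zero => intro p g h; simp [XP]
  | succ n ih =>
    intro p g h
    unfold XP
    split_ifs with hp
    · simp
    · rw [lX_sm_left hl, gC_smG, gRn_smG, ih, ih]; ring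

lemma XP_sm_right {c : ℝ} (hl : ∀ p g h, ℓ p g (smG c h) = c * ℓ p g h) :
    ∀ (n p : ℕ) (g h : Gp Λ κ), XP ℓ n p g (smG c h) = c * XP ℓ n p g h := by
  intro n
  induction n with
  | zero => intro p g h; simp [XP]
  | succ n ih =>
    intro p g h
    unfold XP
    split_ifs with hp
    · simp
    · rw [lX_sm_right hl, gC_smG, gRn_smG, ih, ih]; ring

lemma XP_congr_left {n p : ℕ} {g g' : Gp Λ κ} (e : rsG p g = rsG p g') (h : Gp Λ κ) :
    XP ℓ n p g h = XP ℓ n p g' h := by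
  cases n with
  | zero => rfl
  | succ n =>
    unfold XP lX
    rw [gLf_congr e, gNl_congr e, gB_congr e, gRn_congr e, gC_congr e]

lemma XP_congr_right {n p : ℕ} {h h' : Gp Λ κ} (e : rsG p h = rsG p h') (g : Gp Λ κ) :
    XP ℓ n p g h = XP ℓ n p g h' := by
  cases n with
  | zero => rfl
  | succ n =>
    unfold XP lX
    rw [gLf_congr e, e, gB_congr e, gRn_congr e, gC_congr e]

end bil

/-! ### nonnegative kernels -/

section kers
variable {k : ℕ → DT Λ κ → DT Λ κ → ℝ}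

lemma lX_nonneg (hk : ∀ p m m', 0 ≤ k p m m') {p : ℕ} {g h : Gp Λ κ} (hg : Wg g) (hh : Wg h) :
    0 ≤ lX (ker k) p g h := by
  unfold lX
  have a1 := ker_nonneg hk (p := p) (wgLf (p := p) hg) (hh.rsG (p := p))
  have a2 := ker_nonneg hk (p := p) (wgNl (p := p) hg) (wgLf (p := p) hh)
  have a3 := ker_nonneg hk (p := p) (hg.gB (p := p)) (wgRn (p := p) hh)
  have a4 := ker_nonneg hk (p := p) (wgRn (p := p) hg) (hh.gB (p := p))
  positivity

lemma XP_nonneg (hk : ∀ p m m', 0 ≤ k p m m') : ∀ (n p : ℕ) (g h : Gp Λ κ), Wg g → Wg h →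
    0 ≤ XP (ker k) n p g h := by
  intro n
  induction n with
  | zero => intro p g h _ _; exact le_rfl
  | succ n ih =>
    intro p g h hg hh
    unfold XP
    split_ifs with hp
    · exact le_rfl
    · exact add_nonneg (add_nonneg (lX_nonneg hk hg hh) (ih p _ _ hg.gC hh.gC))
        (ih (p - 1) _ _ (wgRn hg) (wgRn hh))

lemma XP_succ (hk : ∀ p m m', 0 ≤ k p m m') : ∀ (n p : ℕ) (g h : Gp Λ κ), Wg g → Wg h →
    XP (ker k) n p g h ≤ XP (ker k) (n + 1) p g h := by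
  intro n
  induction n with
  | zero =>
    intro p g h hg hh
    exact XP_nonneg hk 1 p g h hg hh
  | succ n ih =>
    intro p g h hg hh
    show (if p = 0 then 0 else lX (ker k) p g h + XP (ker k) n p (gC p g) (gC p h) +
      XP (ker k) n (p - 1) (gRn p g) (gRn p h)) ≤
      (if p = 0 then 0 else lX (ker k) p g h + XP (ker k) (n + 1) p (gC p g) (gC p h) +
      XP (ker k) (n + 1) (p - 1) (gRn p g) (gRn p h))
    split_ifs with hp
    · exact le_rfl
    · have h1 := ih p _ _ (hg.gC (p := p)) (hh.gC (p := p))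
      have h2 := ih (p - 1) _ _ (wgRn (p := p) hg) (wgRn (p := p) hh)
      linarith

lemma XP_mono_n (hk : ∀ p m m', 0 ≤ k p m m') {n n' p : ℕ} (hn : n ≤ n') {g h : Gp Λ κ}
    (hg : Wg g) (hh : Wg h) : XP (ker k) n p g h ≤ XP (ker k) n' p g h := by
  induction hn with
  | refl => exact le_rfl
  | step _ ih => exact ih.trans (XP_succ hk _ p g h hg hh)

end kers

/-! ### codes -/

/-- the codes of the members which are not leaves -/
def Cs (p : ℕ) : DT Λ κ → Set ℕ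
  | .leaf _ _ => ∅
  | .br q w _ t₁ _ _ _ _ => {e | (q ≠ p ∧ e = 0) ∨ (q = p ∧ w ≠ 0 ∧ e = 1) ∨
      (q = p ∧ w = 0 ∧ ∃ e' ∈ Cs p t₁, e = e' + 1)}
  | .add q _ t₁ t₀ => {e | (q ≠ p ∧ e = 0) ∨ (q = p ∧ (e ∈ Cs p t₁ ∨ e ∈ Cs p t₀))}
  | .up q _ t => {e | (q ≠ p ∧ e = 0) ∨ (q = p ∧ e ∈ Cs p t)}

/-- item-level values at the pulls -/
def PulC : DT Λ κ → Prop
  | .br p w _ t₁ _ v _ _ => w = 0 → ∀ j x, v j x = t₁.g.val j (p * x)
  | _ => True

section kernel
variable [Fintype Λ] [DecidableEq Λ] [DecidableEq κ] [WRel κ]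

open Classical in
/-- **the kernel**: same-`ix` pairs of the column `p` -/
noncomputable def kX (wr : ℕ → Λ → κ) (p : ℕ) (m m' : DT Λ κ) : ℝ :=
  max 0 (Q ((Finset.univ : Finset (Λ × Λ)) \ Ro (wr p)) m.g.val m'.g.val)

lemma kX_nonneg (wr : ℕ → Λ → κ) (p : ℕ) (m m' : DT Λ κ) : 0 ≤ kX wr p m m' := le_max_left _ _

/-- **the codes of the crossing pairs are disjoint** (hypothesis of the transfer) -/
def CD (stp : Stp Λ κ) (s : St Λ κ) : Prop :=
  ∀ a b : ℕ, s.M = s.p ^ a → s.M' = s.p ^ b → (a = 0 ∨ b = 0) →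
    ∀ z ∈ crs stp s, ∀ e ∈ Cs s.p z.t, ∀ e' ∈ Cs s.p z.t', b + e ≠ a + e'

end kernel

end Crest.Agent.R4P.CrsD26
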