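import Crest.Agent.R4P.TopX_36
import Crest.Agent.R4P.ItemDT758

/-!
R4 (S0004) with powers, group [W-eSHR], helper36: **the exact tie data of the nodes**.

For a tie or pull `t = br p w r t₁ t₀ v B G` : `aT t c y = sm r t₁.g.val c y`,
`bT t c y = sm r t₀.g.val c y` (label `c`, children circle).
* `TieOk t` : `B c y = a - w (a - b)^+`, `Lift p ((b - a)^+) (G c)`, `v` of the class `c` is
  `B c (p x) + G c x`; `w = 1/p`, or `w = 0` and `b = 0`.
* `toDT_TieOk` : all nodes of `toDT` satisfy it; `ctx_TieOk`.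
* `gT_le` : the local term of the group walk in terms of `a`, `b`.
* `tgtTop_of'` : `TgtTop` with this local term.
-/

set_option autoImplicit false
set_option linter.unusedSectionVars false
set_option linter.unusedVariables false
open MeasureTheory Filter Set

namespace Crest.Agent.R4P.PN36

open Crest.Agent.R4.Tour104 Crest.Agent.R4.Tour758 Crest.Agent.R4.Avg758 Crest.Agent.R4.Clos758
open Crest.Agent.R4.ClosL758 Crest.Agent.R4.ClosG758 Crest.Agent.R4.ClosR758
open Crest.Agent.R4.Fam464 Crest.Agent.R4.Lam368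
open Crest.Agent.R4P.ClosR442 Crest.Agent.R4P.Grp36
open Crest.Agent.R4P.Xfer36 Crest.Agent.R4P.TopC36
open Crest.Agent.R4P.Walk560 (DT)

variable {Λ κ : Type*} [Fintype Λ] [DecidableEq Λ] [Fintype κ] [DecidableEq κ]

/-! ### one column -/

section col
variable {p n : ℕ} {f g G : Λ → ℝ → ℝ} {c : ℕ → Λ → κ}

lemma clz_cases (r : Λ → κ) (a : κ) :
    clz r a = ∅ ∨ ∃ w₀, clz r a = cl' r w₀ := by
  rcases (clz r a).eq_empty_or_nonempty with h0 | ⟨w₀, hw⟩
  · exact Or.inl h0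
  · refine Or.inr ⟨w₀, ?_⟩
    have hw' : r w₀ = a := (Finset.mem_filter.1 hw).2
    ext w
    rw [mem_cl', hw']
    simp [clz]

/-- the lifts of the unmatched part -/
lemma lift_DW (hd : Dat p f g G) (hN : Nested c) (a : κ) :
    Lift p (fun y => max (fW G (clz (c n) a) y - fW f (clz (c n) a) y) 0)
      (DW p f g G c (n + 1) (clz (c n) a)) := by
  intro y
  rcases clz_cases (c n) a with h0 | ⟨w₀, h0⟩
  · rw [h0]
    simp [DW, fW, RW]
  · rw [h0]
    have hs : ∑ i ∈ Finset.range p, DW p f g G c (n + 1) (cl' (c n) w₀) ((y + i) / p) =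
        fW G (cl' (c n) w₀) y -
          ∑ i ∈ Finset.range p, RW p f g G c (n + 1) (cl' (c n) w₀) ((y + i) / p) := by
      rw [← lift_fW hd (cl' (c n) w₀) y, ← Finset.sum_sub_distrib]
      rfl
    rw [hs]
    show _ = max (fW G (cl' (c n) w₀) y - fW f (cl' (c n) w₀) y) 0
    rcases dichotomy (n := n + 1) hd hN (Nat.lt_succ_self n) w₀ y with ⟨h1, h2, -⟩ | ⟨h1, -, h3⟩
    · have e : ∑ i ∈ Finset.range p, RW p f g G c (n + 1) (cl' (c n) w₀) ((y + i) / p) =
          fW f (cl' (c n) w₀) y := h2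
      rw [e, max_eq_left]
      have : fW f (cl' (c n) w₀) y ≤ fW G (cl' (c n) w₀) y := h1
      linarith
    · have h1' : fW G (cl' (c n) w₀) y ≤ fW f (cl' (c n) w₀) y := h1
      rw [max_eq_right (by linarith)]
      have e1 : ∑ i ∈ Finset.range p, RW p f g G c (n + 1) (cl' (c n) w₀) ((y + i) / p) =
          ∑ i ∈ Finset.range p, fW g (cl' (c n) w₀) ((y + i) / p) := by
        refine Finset.sum_congr rfl fun i _ => le_antisymm ?_ (h3 i)
        exact RW_le_top (n := n) hd hN w₀ _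
      rw [e1, lift_fW hd (cl' (c n) w₀) y, sub_self]

/-- the part which is constant on the fibres -/
lemma BW_eq (hd : Dat p f g G) (hN : Nested c) (a : κ) (y : ℝ) :
    BW p f g G c (n + 1) (clz (c n) a) y = fW f (clz (c n) a) y -
      1 / (p : ℝ) * max (fW f (clz (c n) a) y - fW G (clz (c n) a) y) 0 := by
  have hp' : (p : ℝ) ≠ 0 := by exact_mod_cast hd.hp.ne'
  have h1 : Ep p (RW p f g G c (n + 1) (clz (c n) a)) y =
      (fW G (clz (c n) a) y - max (fW G (clz (c n) a) y - fW f (clz (c n) a) y) 0) / p := by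
    have e := lift_DW (n := n) hd hN a y
    simp only at e
    rw [← e, ← lift_fW hd (clz (c n) a) y, ← Finset.sum_sub_distrib]
    unfold Ep
    congr 1
    refine Finset.sum_congr rfl fun i _ => ?_
    unfold DW
    ring
  unfold BW
  rw [h1]
  rcases le_total (fW f (clz (c n) a) y) (fW G (clz (c n) a) y) with h | h
  · rw [max_eq_left (by linarith), max_eq_right (by linarith)]
    field_simp
    ring
  · rw [max_eq_right (by linarith), max_eq_left (by linarith)]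
    field_simp
    ring

end col

/-! ### decorated trees -/

/-- the present part of a tie -/
noncomputable def aT : DT Λ κ → κ → ℝ → ℝ
  | .br _ _ r t₁ _ _ _ _ => fun c y => sm r t₁.g.val c y
  | _ => fun _ _ => 0

/-- the missing part of a tie -/
noncomputable def bT : DT Λ κ → κ → ℝ → ℝ
  | .br _ _ r _ t₀ _ _ _ => fun c y => sm r t₀.g.val c y
  | _ => fun _ _ => 0

/-- the exact data of a tie or pull -/
structure TieD (p : ℕ) (w : ℝ) (r : Λ → κ) (a b v : Λ → ℝ → ℝ) (B G : κ → ℝ → ℝ) : Prop where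
  hp : 0 < p
  hw : w = 1 / (p : ℝ) ∨ (w = 0 ∧ ∀ c y, sm r b c y = 0)
  eB : ∀ c y, B c y = sm r a c y - w * max (sm r a c y - sm r b c y) 0
  eG : ∀ c, Lift p (fun y => max (sm r b c y - sm r a c y) 0) (G c)
  ev : ∀ c x, sm r v c x = B c (p * x) + G c x

/-- the exact data at the ties and pulls -/
def TieOk : DT Λ κ → Prop
  | .br p w r t₁ t₀ v B G => TieD p w r t₁.g.val t₀.g.val v B G
  | _ => True

lemma tieD_lam {p n : ℕ} {f g G : Λ → ℝ → ℝ} (hd : Dat p f g G) {c : ℕ → Λ → κ}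
    (hN : Nested c) :
    TieD p (1 / (p : ℝ)) (c n) f G (fun j => lamF p f g G c (n + 1) j)
      (fun a => BW p f g G c (n + 1) (clz (c n) a))
      (fun a => DW p f g G c (n + 1) (clz (c n) a)) where
  hp := hd.hp
  hw := Or.inl rfl
  eB := fun a y => BW_eq hd hN a y
  eG := fun a => lift_DW hd hN a
  ev := fun a x => FW_eq_BW_add _ x

/-- **all nodes of `toDT`** -/
theorem toDT_TieOk (D : Item758.Par Λ κ) (sp : ℕ → Finset Λ) (t : Cnt588.IT) : ∀ b pr : ℕ, 0 < b →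
    (D.toFT b pr t).Adm b → (D.toDT sp b pr t).All TieOk := by
  induction t with
  | leaf S => intro b pr hb h; exact trivial
  | br p Sp t₁ t₀ ih₁ ih₀ =>
    intro b pr hb h
    have hd := FT.dat hb h
    obtain ⟨hp, hpb, hN, a1, a0⟩ := h
    have hbp : 0 < b * p := Nat.mul_pos hb hp
    refine ⟨?_, ih₁ b (pr * p) hb a1, ih₀ (b * p) pr hbp a0⟩
    have v1 : (D.toDT sp b (pr * p) t₁).g.val = fun j => (D.toFT b (pr * p) t₁).U 1 j := by
      rw [D.toDT_g]; exact FT.toG_val _ b hb a1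
    have v0 : (D.toDT sp (b * p) pr t₀).g.val = fun j => (D.toFT (b * p) pr t₀).U 1 j := by
      rw [D.toDT_g]; exact FT.toG_val _ _ hbp a0
    show TieD p (1 / (p : ℝ)) (D.rho p) (D.toDT sp b (pr * p) t₁).g.val
      (D.toDT sp (b * p) pr t₀).g.val _ _ _
    rw [v1, v0]
    exact tieD_lam (n := 0) hd hN
  | add p t₁ t₀ ih₁ ih₀ =>
    intro b pr hb h
    exact ⟨trivial, ih₁ b pr hb h.1, ih₀ b pr hb h.2⟩
  | up b' Sp t ih =>
    intro b pr hb h
    exact ⟨trivial, ih b pr hb h⟩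
  | pl p t ih =>
    intro b pr hb h
    obtain ⟨hp, hpb, a1⟩ := h
    refine ⟨?_, ih b (pr * p) hb a1, trivial⟩
    have v1 : (D.toDT sp b (pr * p) t).g.val = fun j => (D.toFT b (pr * p) t).U 1 j := by
      rw [D.toDT_g]; exact FT.toG_val _ b hb a1
    have z : ∀ (c : κ) (y : ℝ), sm (D.rho p) (fun _ _ => (0 : ℝ)) c y = 0 := fun c y => by
      simp [sm]
    have pbs : ∀ c, PB (sm (D.rho p) ((D.toFT b (pr * p) t).U 1) c) := fun c =>
      PB_sm (fun j => FT.pb hb a1 (one_dvd _) j) _ c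
    show TieD p 0 (D.rho p) (D.toDT sp b (pr * p) t).g.val (fun _ _ => 0)
      (fun j x => (D.toFT b (pr * p) t).U 1 j (p * x))
      (fun a => sm (D.rho p) ((D.toFT b (pr * p) t).U 1) a) (fun _ _ => 0)
    rw [v1]
    refine ⟨hp, Or.inr ⟨rfl, z⟩, fun c y => ?_, fun c y => ?_, fun c x => ?_⟩
    · rw [zero_mul, sub_zero]
    · simp only [z, Finset.sum_const_zero]
      rw [max_eq_right]
      have := (pbs c).nonneg y
      show 0 - sm (D.rho p) ((D.toFT b (pr * p) t).U 1) c y ≤ 0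
      linarith
    · rw [add_zero]; rfl
  | far p t₁ t₀ ih₁ ih₀ =>
    intro b pr hb h
    exact ⟨trivial, ih₁ b pr hb h.1, ih₀ b pr hb h.2⟩

/-! ### the local term -/

lemma TieOk.br {p : ℕ} {w : ℝ} {r : Λ → κ} {t₁ t₀ : DT Λ κ} {v : Λ → ℝ → ℝ} {B G : κ → ℝ → ℝ}
    (h : TieOk (DT.br p w r t₁ t₀ v B G)) : TieD p w r t₁.g.val t₀.g.val v B G := h

/-- sums of squares of the lifts -/
lemma sum_sq_le {ι : Type*} (s : Finset ι) (e : ι → ℝ) (he : ∀ i ∈ s, 0 ≤ e i) :
    ∑ i ∈ s, e i ^ 2 ≤ (∑ i ∈ s, e i) ^ 2 := by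
  rw [sq (∑ i ∈ s, e i), Finset.sum_mul]
  refine Finset.sum_le_sum fun i hi => ?_
  rw [sq]
  exact mul_le_mul_of_nonneg_left (Finset.single_le_sum (f := e) he hi) (he i hi)

/-- **a lift has at most the square of its fibre sum** -/
lemma I_sq_lift {p : ℕ} (hp : 0 < p) {h g : ℝ → ℝ} (hg : PB g) (hh : PB h) (hl : Lift p h g) :
    I (fun x => g x ^ 2) ≤ 1 / (p : ℝ) * I (fun y => h y ^ 2) := by
  have hp' : (0 : ℝ) < p := by exact_mod_cast hp
  have pg : PB fun x => g x ^ 2 := PBsq hg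
  have ph : PB fun x => h x ^ 2 := PBsq hh
  rw [← I_Ep hp pg.integrableOn, ← I_smul]
  refine I_mono (pg.Ep hp).integrableOn (ph.smul (by positivity)).integrableOn fun y => ?_
  unfold Ep
  rw [div_eq_inv_mul, ← one_div]
  refine mul_le_mul_of_nonneg_left ?_ (by positivity)
  rw [← hl y]
  exact sum_sq_le _ _ fun i _ => hg.nonneg _

/-! ### groups with a property of all nodes -/

/-- a property of all nodes of the members -/
def GAll (F : DT Λ κ → Prop) (g : Gp Λ κ) : Prop := ∀ m ∈ g, m.2.All F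

section gall
variable {F : DT Λ κ → Prop}

lemma GAll.one {c : ℝ} {t : DT Λ κ} (h : t.All F) : GAll F [(c, t)] := by
  intro m hm
  rw [List.mem_singleton.1 hm]
  exact h

lemma GAll.rsG {p : ℕ} {g : Gp Λ κ} (h : GAll F g) : GAll F (rsG p g) := by
  intro m hm
  obtain ⟨m', h1, h2, h3⟩ := mem_rsG hm
  exact rs_all p (h m' h1) _ h3

lemma GAll.gB {p : ℕ} {g : Gp Λ κ} (h : GAll F g) : GAll F (gB p g) :=
  fun m hm => (h.rsG (p := p)) m (List.mem_filter.1 hm).1

lemma GAll.gR {p : ℕ} {g : Gp Λ κ} (h : GAll F g) : GAll F (gR p g) :=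
  fun m hm => (h.rsG (p := p)) m (List.mem_filter.1 hm).1

lemma GAll.gC {p : ℕ} {g : Gp Λ κ} (h : GAll F g) : GAll F (gC p g) := by
  intro m hm
  obtain ⟨m', h1, q, h2, rfl⟩ := mem_gC hm
  have h3 := h.gB (p := p) m' h1
  obtain ⟨w, r, t₁, t₀, v, B, G, e⟩ := isB_eq (mem_gB h1).2
  rw [e] at h3 h2
  simp only [chd, List.mem_cons, List.not_mem_nil, or_false] at h2
  rcases h2 with rfl | rfl
  · exact h3.2.1
  · exact h3.2.2

/-- monotony of the group sums on groups of good nodes -/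
lemma GS_monoF {loc loc' : ℕ → Gp Λ κ → ℝ}
    (h : ∀ p g, p ≠ 0 → Wg g → GAll F g → (∀ m ∈ g, isB p m.2 = true) → loc p g ≤ loc' p g) :
    ∀ (n p : ℕ) (g : Gp Λ κ), Wg g → GAll F g → GS loc n p g ≤ GS loc' n p g := by
  intro n
  induction n with
  | zero => intro p g _ _; exact le_rfl
  | succ n ih =>
    intro p g hg hf
    unfold GS
    split_ifs with hp
    · exact le_rfl
    · exact add_le_add (add_le_add (h p _ hp hg.gB hf.gB fun m hm => (mem_gB hm).2)
        (ih p _ hg.gC hf.gC)) (ih (p - 1) _ hg.gR hf.gR)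

end gall

/-- good nodes: exact tie data and `Ok` -/
def NOk (t : DT Λ κ) : Prop := TieOk t ∧ t.g.Ok

lemma lift_add {p : ℕ} {b b' g g' : ℝ → ℝ} (h : Lift p b g) (h' : Lift p b' g') :
    Lift p (fun y => b y + b' y) (fun x => g x + g' x) := by
  intro y
  rw [Finset.sum_add_distrib, h y, h' y]

lemma lift_smul {p : ℕ} {b g : ℝ → ℝ} (c : ℝ) (h : Lift p b g) :
    Lift p (fun y => c * b y) (fun x => c * g x) := by
  intro y
  rw [← Finset.mul_sum, h y]

lemma lift_zero {p : ℕ} : Lift p (fun _ => (0 : ℝ)) (fun _ => (0 : ℝ)) := by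
  intro y
  simp

lemma lift_sum {ι : Type*} {p : ℕ} (s : Finset ι) {b g : ι → ℝ → ℝ} (h : ∀ i ∈ s, Lift p (b i) (g i)) :
    Lift p (fun y => ∑ i ∈ s, b i y) (fun x => ∑ i ∈ s, g i x) := by
  intro y
  rw [Finset.sum_comm]
  exact Finset.sum_congr rfl fun i hi => h i hi y

/-- the unmatched part of a tie -/
noncomputable def dT (t : DT Λ κ) (c : κ) (y : ℝ) : ℝ := max (bT t c y - aT t c y) 0

lemma dT_nonneg (t : DT Λ κ) (c : κ) (y : ℝ) : 0 ≤ dT t c y := le_max_right _ _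

lemma PB_max0 {f g : ℝ → ℝ} (hf : PB f) (hg : PB g) : PB fun y => max (f y - g y) 0 := by
  obtain ⟨B, hB⟩ := hf.bdd
  refine ⟨(hf.meas.sub hg.meas).max measurable_const, fun y => le_max_right _ _,
    ⟨max B 0, fun y => max_le_max (by linarith [hB y, hg.nonneg y]) le_rfl⟩, fun y => by
      rw [hf.per, hg.per]⟩

lemma PB_dT {p : ℕ} {t : DT Λ κ} (h : t.g.Ok) (ht : isB p t = true) (c : κ) : PB (dT t c) := by
  obtain ⟨w, r, t₁, t₀, v, B, G, e⟩ := isB_eq ht
  subst e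
  exact PB_max0 (PB_sm (fun j => h.2.1.pb j) r c) (PB_sm (fun j => h.1.pb j) r c)

lemma lift_Gm {p : ℕ} {t : DT Λ κ} (h : NOk t) (ht : isB p t = true) (c : κ) :
    Lift p (dT t c) (Gm t c) := by
  obtain ⟨w, r, t₁, t₀, v, B, G, e⟩ := isB_eq ht
  subst e
  have hG : ∀ c, PB (G c) := fun c => (h.2.2.2.col c).pG
  have e1 : Gm (DT.br p w r t₁ t₀ v B G) c = G c := by
    funext x
    unfold Gm
    simp only [if_pos hG]
  rw [e1]
  exact (TieOk.br h.1).eG c

/-- the unmatched parts of a group -/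
noncomputable def dG (g : Gp Λ κ) (c : κ) (y : ℝ) : ℝ := (g.map fun m => m.1 * dT m.2 c y).sum

lemma dG_cons (m : ℝ × DT Λ κ) (g : Gp Λ κ) (c : κ) :
    dG (m :: g) c = fun y => m.1 * dT m.2 c y + dG g c y := by
  funext y
  simp [dG]

lemma lift_dG [WRel κ] {p : ℕ} {g : Gp Λ κ} (hg : ∀ m ∈ g, NOk m.2) (hb : ∀ m ∈ g, isB p m.2 = true)
    (c : κ) : Lift p (dG g c) (GmG g c) := by
  induction g with
  | nil => exact lift_zero
  | cons m g ih =>
    have e : GmG (m :: g) c = fun x => m.1 * Gm m.2 c x + GmG g c x := by rw [GmG_cons]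
    rw [dG_cons, e]
    exact lift_add (lift_smul _ (lift_Gm (hg m (by simp)) (hb m (by simp)) c))
      (ih (fun a ha => hg a (List.mem_cons_of_mem _ ha))
        (fun a ha => hb a (List.mem_cons_of_mem _ ha)))

lemma PB_dG {p : ℕ} {g : Gp Λ κ} (hw : ∀ m ∈ g, 0 ≤ m.1) (hg : ∀ m ∈ g, NOk m.2)
    (hb : ∀ m ∈ g, isB p m.2 = true) (c : κ) : PB (dG g c) := by
  induction g with
  | nil => exact PB.const le_rfl
  | cons m g ih =>
    rw [dG_cons]
    exact ((PB_dT (hg m (by simp)).2 (hb m (by simp)) c).smul (hw m (by simp))).add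
      (ih (fun a ha => hw a (List.mem_cons_of_mem _ ha))
        (fun a ha => hg a (List.mem_cons_of_mem _ ha))
        (fun a ha => hb a (List.mem_cons_of_mem _ ha)))

/-- **the local term with the parts of the ties** -/
noncomputable def lD {ι : Type*} [Fintype ι] [DecidableEq ι] (ix : κ → ι) (p : ℕ)
    (g : Gp Λ κ) : ℝ :=
  1 / (p : ℝ) * I (fun y => ∑ z, (∑ c ∈ Finset.univ.filter (fun c => ix c = z), dG g c y) ^ 2)

/-- **the local term of the group walk in terms of the parts** -/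
theorem lG_le [WRel κ] {ι : Type*} [Fintype ι] [DecidableEq ι] {ix : κ → ι} {p : ℕ} {g : Gp Λ κ}
    (hp : p ≠ 0) (hw : Wg g) (hg : ∀ m ∈ g, NOk m.2) (hb : ∀ m ∈ g, isB p m.2 = true) :
    I (fun x => ∑ z, ixF ix (GmG g) z x ^ 2) ≤ lD ix p g := by
  have pG : ∀ c, PB (GmG g c) := PB_GmG hw
  have pd : ∀ c, PB (dG g c) := fun c => PB_dG (fun m hm => (hw m hm).1) hg hb c
  have pd2 : ∀ z : ι, PB fun y => ∑ c ∈ Finset.univ.filter (fun c => ix c = z), dG g c y :=
    fun z => PB.sum _ fun c _ => pd c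
  unfold lD
  rw [I_sum _ fun z _ => (PBsq (PB_ixF pG z)).integrableOn, I_sum _ fun z _ =>
    (PBsq (pd2 z)).integrableOn, Finset.mul_sum]
  refine Finset.sum_le_sum fun z _ => ?_
  refine I_sq_lift (Nat.pos_of_ne_zero hp) (PB_ixF pG z) (pd2 z) ?_
  exact lift_sum _ fun c _ => lift_dG hg hb c

/-- **the group walk** -/
theorem GS_lD_le [WRel κ] {ι : Type*} [Fintype ι] [DecidableEq ι] {ix : κ → ι} (n p : ℕ)
    {g : Gp Λ κ} (hw : Wg g) (hg : GAll NOk g) :
    GS (fun _ g => I (fun x => ∑ z, ixF ix (GmG g) z x ^ 2)) n p g ≤ GS (lD ix) n p g :=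
  GS_monoF (fun p g hp hw hg hb => lG_le hp hw (fun m hm => (hg m hm).self) hb) n p g hw hg

/-! ### contexts -/

section ctx
open Crest.Agent.R4P.Cnt588 Crest.Agent.R4P.Data758 Crest.Agent.R4P.Skel189
open Crest.Agent.R4P.Bld532 (NS All)
open Crest.Agent.R4P.Fin5 (CF)
open Crest.Agent.R4P.FinT26 Crest.Agent.R4P.TopX36 Crest.Agent.R4P.Mrg35
open Crest.Agent.R4P.Item758

variable {N : Skel189.Num} {γ : ℝ} {p0 P₀ : ℕ}

lemma ok_all {t : DT Λ κ} (h : t.g.Ok) : t.All fun t => t.g.Ok := by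
  induction t with
  | leaf r f => exact h
  | br q w r t₁ t₀ v B G ih₁ ih₀ => exact ⟨h, ih₁ h.1, ih₀ h.2.1⟩
  | add q r t₁ t₀ ih₁ ih₀ => exact ⟨h, ih₁ h.1, ih₀ h.2⟩
  | up q Sp t ih => exact ⟨h, ih h⟩

/-- **all nodes of a context have exact tie data** -/
theorem ctx_NOk (X : Ctx N γ p0 P₀) (j₀ : X.c.Lam) :
    All (fun u τ => (X.self u τ Finset.univ).t.All NOk) ⟨top X.S, 1, 1, 1⟩ X.c.t :=
  All.mono (fun u τ hh => by
    obtain ⟨h, hs⟩ := hh
    refine DT.All.and ?_ (ok_all hs.2.ok)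
    exact toDT_TieOk (X.c.D.par X.Y) X.c.sp τ u.B u.A h.B_pos
      ((X.c.D.par X.Y).toFT_Adm τ u.B u.A h.B_pos h.fit (RseNd23.node_wts h X.Y)))
    (All.and (Step588.ctx_NDt (X := X)) (ctx_side X j₀))

/-- **`TgtTop` from the group walks of the parts** -/
theorem tgtTop_of' (h : ∃ a : ℝ, 0 ≤ a ∧ Ev N γ fun p0 P₀ X => CF X → ∀ j₀ : X.c.Lam,
    All (fun u τ => ∀ n, GS (lD (ixL (X := X))) n (X.self u τ Finset.univ).p
      [((1 : ℝ), (X.self u τ Finset.univ).t)] ≤ a * (X.mu j₀ u τ Finset.univ +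
      X.mu j₀ u τ Finset.univ * X.mu j₀ u τ Finset.univ)) ⟨top X.S, 1, 1, 1⟩ X.c.t) :
    TgtTop N γ := by
  obtain ⟨a, ha, h⟩ := h
  refine tgtTop_of ⟨a, ha, h.mono fun p0 P₀ X hh hC j₀ => ?_⟩
  exact All.mono (fun u τ hh n => (GS_lD_le n _ hh.2.1 (GAll.one hh.2.2)).trans (hh.1 n))
    (All.and (hh hC j₀) (All.and (ctx_Wg X j₀) (ctx_NOk X j₀)))

end ctx

end Crest.Agent.R4P.PN36
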