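import Crest.Agent.R4P.WtI_25
import Crest.Agent.R4P.PN_36
import Crest.Agent.R4P.AsmX_26
import Crest.Agent.R4P.SkelF_29

/-!
R4 (S0004) with powers, [W-eSHR] T2, helper25: **the second order term of the group walk**.

* `SO p g = I (fun y => (Ep p (fun x => ∑ c, GmG g c x) y) ^ 2)` (= `GWe343.SOl`);
* `SO_le` : one step, `SO ≤ 1/p² W Σ m.1 I (n0 m ^ 2)`, `n0` = total of the missing child, `W` = weight
  of the ties (`≤ 1`: `WtI25.tieW_le`);
* `GS_SO_le` : the whole walk is at most the tree sum of `1/q² I (tot(t₀)²)`;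
* `tsum_le` : tree sums with `φ ≤ a q · c Ws`;
* `ctx_SO` : **`GS SO ≤ ε mu` at all nodes of a context** under the bootstrap hypothesis.
-/

set_option autoImplicit false
set_option linter.unusedSectionVars false
set_option linter.unusedVariables false
open MeasureTheory Filter Set

namespace Crest.Agent.R4P.SecO25

open Crest.Agent.R4.Tour104 Crest.Agent.R4.Tour758 Crest.Agent.R4.Avg758 Crest.Agent.R4.Clos758
open Crest.Agent.R4.ClosL758 Crest.Agent.R4.ClosG758 Crest.Agent.R4.ClosR758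
open Crest.Agent.R4.Fam464
open Crest.Agent.R4P.ClosR442 Crest.Agent.R4P.Grp36
open Crest.Agent.R4P.Xfer36 Crest.Agent.R4P.TopC36 Crest.Agent.R4P.PN36
open Crest.Agent.R4P.Walk560 (DT)
open Crest.Agent.R4P.Cnt588 Crest.Agent.R4P.Item758
open Crest.Agent.R4P.NodeG33 Crest.Agent.R4P.WtI25
open Crest.Agent.R4P.Bld532 (NS All NodeOk Bk Ws_nonneg Ws_mono)

section loc
variable {Λ κ : Type*} [Fintype Λ] [DecidableEq Λ] [Fintype κ] [DecidableEq κ]

/-- total of the missing child of a tie or pull -/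
noncomputable def n0 : DT Λ κ → ℝ → ℝ
  | .br _ _ _ _ t₀ _ _ _ => fun y => ∑ j, t₀.g.val j y
  | _ => fun _ => 0

/-- **second order term** of a group of ties and pulls -/
noncomputable def SO (p : ℕ) (g : Gp Λ κ) : ℝ :=
  I (fun y => (Ep p (fun x => ∑ c, GmG g c x) y) ^ 2)

lemma n0_PB {p : ℕ} {t : DT Λ κ} (h : t.g.Ok) (ht : isB p t = true) : PB (n0 t) := by
  obtain ⟨w, r, t₁, t₀, v, B, G, e⟩ := isB_eq ht
  subst e
  exact PB.sum _ fun j _ => h.2.1.pb j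

lemma sum_dT_le {p : ℕ} {t : DT Λ κ} (h : t.g.Ok) (ht : isB p t = true) (y : ℝ) :
    ∑ c, dT t c y ≤ n0 t y := by
  obtain ⟨w, r, t₁, t₀, v, B, G, e⟩ := isB_eq ht
  subst e
  have e1 : n0 (DT.br p w r t₁ t₀ v B G) y = ∑ c, sm r t₀.g.val c y := by
    unfold sm
    exact (Finset.sum_fiberwise Finset.univ r fun j => t₀.g.val j y).symm
  rw [e1]
  refine Finset.sum_le_sum fun c _ => ?_
  have h1 : 0 ≤ sm r t₁.g.val c y := Finset.sum_nonneg fun j _ => (h.1.pb j).nonneg _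
  have h0 : 0 ≤ sm r t₀.g.val c y := Finset.sum_nonneg fun j _ => (h.2.1.pb j).nonneg _
  show max (sm r t₀.g.val c y - sm r t₁.g.val c y) 0 ≤ _
  exact max_le (by linarith) h0

/-- weighted Cauchy-Schwarz for lists, `u = 1` where `f` does not vanish -/
lemma cs_list {α : Type*} (l : List (ℝ × α)) (hw : ∀ m ∈ l, 0 ≤ m.1) (f u : α → ℝ)
    (hu : ∀ m ∈ l, (u m.2 = 1) ∨ (0 ≤ u m.2 ∧ f m.2 = 0)) :
    ((l.map fun m => m.1 * f m.2).sum) ^ 2 ≤
      (l.map fun m => m.1 * u m.2).sum * (l.map fun m => m.1 * f m.2 ^ 2).sum ∧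
    0 ≤ (l.map fun m => m.1 * u m.2).sum ∧ 0 ≤ (l.map fun m => m.1 * f m.2 ^ 2).sum := by
  induction l with
  | nil => simp
  | cons m l ih =>
    obtain ⟨h1, h2, h3⟩ := ih (fun a ha => hw a (List.mem_cons_of_mem _ ha))
      (fun a ha => hu a (List.mem_cons_of_mem _ ha))
    simp only [List.map_cons, List.sum_cons]
    set F := (l.map fun m => m.1 * f m.2).sum
    set S := (l.map fun m => m.1 * u m.2).sum
    set R := (l.map fun m => m.1 * f m.2 ^ 2).sum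
    have hm := hw m (by simp)
    rcases hu m (by simp) with h | ⟨h, h0⟩
    · rw [h]
      refine ⟨?_, by positivity, by positivity⟩
      have k1 : |2 * (f m.2 * F)| ≤ S * f m.2 ^ 2 + R := by
        refine abs_le_of_sq_le_sq ?_ (by positivity)
        have : f m.2 ^ 2 * F ^ 2 ≤ f m.2 ^ 2 * (S * R) :=
          mul_le_mul_of_nonneg_left h1 (sq_nonneg _)
        nlinarith [sq_nonneg (S * f m.2 ^ 2 - R)]
      have k2 := (abs_le.1 k1).2
      nlinarith [mul_le_mul_of_nonneg_left k2 hm]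
    · rw [h0]
      refine ⟨?_, by positivity, by positivity⟩
      nlinarith [mul_nonneg (mul_nonneg hm h) h3]

lemma I_list {α : Type*} (l : List (ℝ × α)) (f : α → ℝ → ℝ) (hf : ∀ m ∈ l, PB (f m.2))
    (hw : ∀ m ∈ l, 0 ≤ m.1) :
    PB (fun y => (l.map fun m => m.1 * f m.2 y).sum) ∧
    I (fun y => (l.map fun m => m.1 * f m.2 y).sum) = (l.map fun m => m.1 * I (f m.2)).sum := by
  induction l with
  | nil =>
    refine ⟨PB.const le_rfl, ?_⟩
    simp [I]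
  | cons m l ih =>
    obtain ⟨h1, h2⟩ := ih (fun a ha => hf a (List.mem_cons_of_mem _ ha))
      (fun a ha => hw a (List.mem_cons_of_mem _ ha))
    have h3 : PB fun y => m.1 * f m.2 y := (hf m (by simp)).smul (hw m (by simp))
    have e : (fun y => ((m :: l).map fun m => m.1 * f m.2 y).sum) =
        fun y => m.1 * f m.2 y + (l.map fun m => m.1 * f m.2 y).sum := by
      funext y; simp
    rw [e]
    refine ⟨h3.add h1, ?_⟩
    rw [I_add h3.integrableOn h1.integrableOn, h2, I_smul]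
    simp

/-- the mean of the lifts -/
lemma Ep_GmG [WRel κ] {p : ℕ} {g : Gp Λ κ} (hg : ∀ m ∈ g, NOk m.2)
    (hb : ∀ m ∈ g, isB p m.2 = true) (y : ℝ) :
    Ep p (fun x => ∑ c, GmG g c x) y = 1 / (p : ℝ) * ∑ c, dG g c y := by
  have h := lift_sum (p := p) Finset.univ fun c _ => lift_dG hg hb c
  have h1 := h y
  simp only at h1
  rw [← h1]
  unfold Ep
  rw [div_eq_inv_mul, ← one_div]

lemma sum_dG_le {p : ℕ} {g : Gp Λ κ} (hw : ∀ m ∈ g, 0 ≤ m.1) (hg : ∀ m ∈ g, NOk m.2)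
    (hb : ∀ m ∈ g, isB p m.2 = true) (y : ℝ) :
    ∑ c, dG g c y ≤ (g.map fun m => m.1 * n0 m.2 y).sum := by
  induction g with
  | nil => simp [dG]
  | cons m g ih =>
    have e : ∀ c, dG (m :: g) c y = m.1 * dT m.2 c y + dG g c y := fun c => by rw [dG_cons]
    rw [Finset.sum_congr rfl fun c _ => e c, Finset.sum_add_distrib, ← Finset.mul_sum,
      List.map_cons, List.sum_cons]
    exact add_le_add (mul_le_mul_of_nonneg_left
      (sum_dT_le (hg m (by simp)).2 (hb m (by simp)) y) (hw m (by simp)))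
      (ih (fun a ha => hw a (List.mem_cons_of_mem _ ha))
        (fun a ha => hg a (List.mem_cons_of_mem _ ha))
        (fun a ha => hb a (List.mem_cons_of_mem _ ha)))

/-- **one step** -/
theorem SO_le [WRel κ] {p : ℕ} {g : Gp Λ κ} (hw : ∀ m ∈ g, 0 ≤ m.1)
    (hg : ∀ m ∈ g, NOk m.2) (hb : ∀ m ∈ g, isB p m.2 = true) (u : DT Λ κ → ℝ)
    (hu : ∀ m ∈ g, (u m.2 = 1) ∨ (0 ≤ u m.2 ∧ ∀ y, n0 m.2 y = 0)) {Wt : ℝ}
    (hW : (g.map fun m => m.1 * u m.2).sum ≤ Wt) :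
    SO p g ≤ (1 / (p : ℝ)) ^ 2 * (Wt * (g.map fun m => m.1 * I (fun y => n0 m.2 y ^ 2)).sum) := by
  have pn : ∀ m ∈ g, PB (n0 m.2) := fun m hm => n0_PB (hg m hm).2 (hb m hm)
  have pn2 : ∀ m ∈ g, PB (fun y => n0 m.2 y ^ 2) := fun m hm => PBsq (pn m hm)
  obtain ⟨q1, q2⟩ := I_list g (fun t y => n0 t y ^ 2) pn2 hw
  have pd : ∀ c, PB (dG g c) := fun c => PB_dG hw hg hb c
  have pS : PB fun y => ∑ c, dG g c y := PB.sum _ fun c _ => pd c
  have e1 : SO p g = I (fun y => (1 / (p : ℝ) * ∑ c, dG g c y) ^ 2) := by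
    unfold SO
    congr 1
    funext y
    rw [Ep_GmG hg hb]
  rw [e1, ← q2, ← mul_assoc, ← I_smul]
  have pL : PB (fun y => (1 / (p : ℝ) * ∑ c, dG g c y) ^ 2) := PBsq (pS.smul (by positivity))
  have hS0 : 0 ≤ (g.map fun m => m.1 * u m.2).sum := (cs_list g hw (fun t => n0 t 0) u (fun m hm => by
    rcases hu m hm with h | ⟨h, h0⟩
    · exact Or.inl h
    · exact Or.inr ⟨h, h0 0⟩)).2.1
  refine I_mono pL.integrableOn (q1.smul (mul_nonneg (sq_nonneg _) (hS0.trans hW))).integrableOn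
    fun y => ?_
  have h1 := sum_dG_le hw hg hb y
  have h2 := cs_list g hw (fun t => n0 t y) u (fun m hm => by
    rcases hu m hm with h | ⟨h, h0⟩
    · exact Or.inl h
    · exact Or.inr ⟨h, h0 y⟩)
  have h3 : 0 ≤ ∑ c, dG g c y := pS.nonneg y
  have h4 : (∑ c, dG g c y) ^ 2 ≤ ((g.map fun m => m.1 * n0 m.2 y).sum) ^ 2 :=
    pow_le_pow_left₀ h3 h1 2
  rw [mul_pow, mul_assoc]
  refine mul_le_mul_of_nonneg_left (h4.trans (h2.1.trans ?_)) (sq_nonneg _)
  exact mul_le_mul_of_nonneg_right hW h2.2.2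

end loc

/-! ### node level -/

section node
variable {Λ κ : Type*} [Fintype Λ] [DecidableEq Λ] [Fintype κ] [DecidableEq κ] [WRel κ]
variable (D : Item758.Par Λ κ) (sp : ℕ → Finset Λ)

/-- energy of the missing child, with the factor `1/q²` -/
noncomputable def ph : NS → IT → ℝ
  | s, .br q _ _ t₀ => (1 / (q : ℝ)) ^ 2 *
      I (fun y => (∑ j, (D.toDT sp (s.B * q) s.A t₀).g.val j y) ^ 2)
  | _, _ => 0

lemma ph_nonneg (s : NS) (t : IT) : 0 ≤ ph D sp s t := by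
  cases t with
  | br q Sp t₁ t₀ => exact mul_nonneg (sq_nonneg _) (I_nonneg fun y => sq_nonneg _)
  | _ => exact le_rfl

variable {D sp} {P : Bld532.Par} {W : ℕ → ℝ} {Q : NS → IT → Prop} {c0 : ℝ} {T p : ℕ} {G : NGp}

/-- **one step of the node walk** -/
theorem SO_im (hg : ∀ s t, Q s t → NOk (D.toDT sp s.B s.A t)) (hI : IV p G) (hG : NG Q c0 T G) :
    SO p (im D sp (gBN p G)) ≤ linN (phN (ph D sp)) (gBN p G) := by
  have hw := ngw0 (hG.gB p)
  have hB := hG.gB p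
  have hb : ∀ m ∈ gBN p G, isBN p m.2 = true := fun m hm => (List.mem_filter.1 hm).2
  have hT := tieW_le hI hG
  set g := gBN p G with hgd
  have hw' : ∀ m ∈ im D sp g, 0 ≤ m.1 := by
    intro m hm
    obtain ⟨m', h1, rfl⟩ := List.mem_map.1 hm
    exact hw m' h1
  have hb' : ∀ m ∈ im D sp g, isB p m.2 = true := by
    intro m hm
    obtain ⟨m', h1, rfl⟩ := List.mem_map.1 hm
    show isB p (imN D sp m'.2) = true
    rw [isB_imN]
    exact hb m' h1
  have hg' : ∀ m ∈ im D sp g, NOk m.2 := by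
    intro m hm
    obtain ⟨m', h1, rfl⟩ := List.mem_map.1 hm
    have h2 := hB m' h1
    have h3 := hb m' h1
    rcases m' with ⟨c, x⟩
    rcases isBN_cases h3 with ⟨s, Sp, t₁, t₀, e⟩ | ⟨s, t, e⟩
    · simp only at e
      subst e
      exact hg _ _ h2.1.self
    · simp only at e
      subst e
      exact hg _ _ h2.1.self
  -- weights of the ties
  classical
  let u : DT Λ κ → ℝ := fun t => if ∀ y, n0 t y = 0 then 0 else 1
  have hu : ∀ m ∈ im D sp g, (u m.2 = 1) ∨ (0 ≤ u m.2 ∧ ∀ y, n0 m.2 y = 0) := by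
    intro m _
    by_cases h : ∀ y, n0 m.2 y = 0
    · right
      refine ⟨?_, h⟩
      show 0 ≤ if ∀ y, n0 m.2 y = 0 then (0 : ℝ) else 1
      rw [if_pos h]
    · left
      show (if ∀ y, n0 m.2 y = 0 then (0 : ℝ) else 1) = 1
      rw [if_neg h]
  have hle : ((im D sp g).map fun m => m.1 * u m.2).sum ≤ 1 := by
    refine le_trans ?_ hT
    have e : ((im D sp g).map fun m => m.1 * u m.2).sum = linN (fun x => u (imN D sp x)) g := by
      unfold linN im
      rw [List.map_map]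
      rfl
    rw [e]
    refine linN_le fun m hm => mul_le_mul_of_nonneg_left ?_ (hw m hm)
    rcases isBN_cases (hb m hm) with ⟨s, Sp, t₁, t₀, e⟩ | ⟨s, t, e⟩
    · rw [e]
      show (if _ then (0 : ℝ) else 1) ≤ 1
      split_ifs <;> norm_num
    · rw [e]
      show (if ∀ y, n0 (imN D sp (.inl (s, .pl p t))) y = 0 then (0 : ℝ) else 1) ≤ 0
      rw [if_pos]
      intro y
      show ∑ j : Λ, (fun _ _ => (0 : ℝ)) j y = 0
      simp
  have key := SO_le hw' hg' hb' u hu hle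
  refine key.trans (le_of_eq ?_)
  rw [one_mul]
  have e2 : ((im D sp g).map fun m => m.1 * I (fun y => n0 m.2 y ^ 2)).sum =
      linN (fun x => I (fun y => n0 (imN D sp x) y ^ 2)) g := by
    unfold linN im
    rw [List.map_map]
    rfl
  rw [e2]
  have e3 : ∀ (l : NGp), (∀ m ∈ l, isBN p m.2 = true) →
      (1 / (p : ℝ)) ^ 2 * linN (fun x => I (fun y => n0 (imN D sp x) y ^ 2)) l =
      linN (phN (ph D sp)) l := by
    intro l
    induction l with
    | nil => intro _; simp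
    | cons m l ih =>
      intro hl
      rw [linN_cons, linN_cons, mul_add, ih fun a ha => hl a (List.mem_cons_of_mem _ ha)]
      congr 1
      rcases isBN_cases (hl m (by simp)) with ⟨s, Sp, t₁, t₀, e⟩ | ⟨s, t, e⟩
      · rw [e]
        show (1 / (p : ℝ)) ^ 2 * (m.1 *
            I (fun y => (∑ j, (D.toDT sp (s.B * p) s.A t₀).g.val j y) ^ 2)) =
          m.1 * ((1 / (p : ℝ)) ^ 2 *
            I (fun y => (∑ j, (D.toDT sp (s.B * p) s.A t₀).g.val j y) ^ 2))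
        ring
      · rw [e]
        have e4 : (fun y => n0 (imN D sp (.inl (s, .pl p t))) y ^ 2) = fun _ => (0 : ℝ) := by
          funext y
          have : n0 (imN D sp (.inl (s, .pl p t))) y = 0 := by
            show ∑ j : Λ, (fun _ _ => (0 : ℝ)) j y = 0
            simp
          rw [this]; norm_num
        rw [e4]
        show (1 / (p : ℝ)) ^ 2 * (m.1 * I (fun _ => (0 : ℝ))) = m.1 * 0
        simp [I]
  exact e3 g hb

/-- **the whole walk** -/
theorem GS_SO_le (hP : PO P W) (hC : C2 Q) (hQ : ∀ s t, Q s t → NodeOk P W s t)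
    (hg : ∀ s t, Q s t → NOk (D.toDT sp s.B s.A t)) {u : NS} {τ : IT} (h : All Q u τ)
    (n p : ℕ) : GS SO n p [((1 : ℝ), D.toDT sp u.B u.A τ)] ≤ tsum (ph D sp) u τ := by
  have e : ([((1 : ℝ), D.toDT sp u.B u.A τ)] : Gp Λ κ) = im D sp [((1 : ℝ), .inl (u, τ))] := rfl
  have h1 := GSN_monoW (P := P) (W := W) (c0 := u.c) hP hQ
    (loc := fun p B _ => SO p (im D sp B)) (loc' := fun _ B _ => linN (phN (ph D sp)) B) hC
    (fun p T G hp hG hI => SO_im hg hI hG) n p (u.A * u.B) _ (NG.start h)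
    (IV.start hP (All.mono hQ h) p)
  have h2 := GSN_lin (fun s t => ph_nonneg D sp s t) hC n p (u.A * u.B) _ (NG.start h)
  rw [e, GS_im]
  refine h1.trans (h2.trans (le_of_eq ?_))
  rw [linN_cons, linN_nil, add_zero, one_mul]
  rfl

end node

/-! ### tree sums -/

section tree
variable {P : Bld532.Par} {W : ℕ → ℝ}

/-- sum of `a` over the columns in `(p0, n)` -/
noncomputable def Fa (a : ℕ → ℝ) (p0 n : ℕ) : ℝ := ∑ q ∈ Finset.Ioo p0 n, a q

lemma Fa_mono {a : ℕ → ℝ} (ha : ∀ q, 0 ≤ a q) {p0 m n : ℕ} (h : m ≤ n) :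
    Fa a p0 m ≤ Fa a p0 n :=
  Finset.sum_le_sum_of_subset_of_nonneg (Finset.Ioo_subset_Ioo le_rfl h) fun q _ _ => ha q

lemma Fa_nonneg {a : ℕ → ℝ} (ha : ∀ q, 0 ≤ a q) (p0 n : ℕ) : 0 ≤ Fa a p0 n :=
  Finset.sum_nonneg fun q _ => ha q

lemma Fa_succ (a : ℕ → ℝ) {p0 q : ℕ} (h : p0 < q) : Fa a p0 (q + 1) = Fa a p0 q + a q := by
  have e : Finset.Ioo p0 (q + 1) = insert q (Finset.Ioo p0 q) := by
    ext r
    simp only [Finset.mem_Ioo, Finset.mem_insert]
    omega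
  unfold Fa
  rw [e, Finset.sum_insert (by simp), add_comm]

/-- **tree sums** : local terms `≤ a q · (mass of the node)` -/
theorem tsum_le {φ : NS → IT → ℝ} {a : ℕ → ℝ} (ha : ∀ q, 0 ≤ a q) (hW : ∀ q, 0 ≤ W q) (t : IT) :
    ∀ s : NS, All (fun s t => NodeOk P W s t ∧ 0 ≤ s.c ∧
      (∀ q Sp t₁ t₀, t = .br q Sp t₁ t₀ → φ s t ≤ a q * (s.c * Ws W t.items)) ∧
      (∀ q t', t = .pl q t' → φ s t ≤ 0)) s t →
    tsum φ s t ≤ Fa a P.p0 s.n * (s.c * Ws W t.items) := by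
  have hm : ∀ (s : NS) (S : Finset ℕ), 0 ≤ s.c → 0 ≤ s.c * Ws W S := fun s S h =>
    mul_nonneg h (Ws_nonneg hW S)
  have hdis : ∀ {A k : ℕ} {S T U : Finset ℕ}, T = Bld532.dv A k S → U = Bld532.nd A k S → T ∪ U = S →
      Ws W S = Ws W T + Ws W U := by
    intro A k S T U h1 h2 h3
    unfold Ws
    rw [← h3, Finset.sum_union]
    rw [h1, h2]
    exact Finset.disjoint_left.2 fun q hq hq' => (Bld532.mem_nd.1 hq').2 (Bld532.mem_dv.1 hq).2
  induction t with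
  | leaf S => intro s h; exact mul_nonneg (Fa_nonneg ha _ _) (hm _ _ h.2.1)
  | br q Sp t₁ t₀ ih₁ ih₀ =>
    intro s h
    obtain ⟨hn, hc, hφ, -⟩ := h.self
    obtain ⟨hp, h1, h2, h3, h4, h5, h6, h7⟩ := hn
    have hq2 : (2 : ℝ) ≤ q := by exact_mod_cast hp.two_le
    have hq0 : (0 : ℝ) < q := by linarith
    have hq1 : 0 < 1 - 1 / (q : ℝ) := by
      rw [sub_pos, div_lt_one hq0]; linarith
    have k1 := ih₁ _ h.2.1
    have k0 := ih₀ _ h.2.2
    have k2 := hφ q Sp t₁ t₀ rfl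
    have hW' : Ws W (t₁.items ∪ t₀.items) = Ws W t₁.items + Ws W t₀.items := hdis h5 h6 rfl
    unfold NodeG33.tsum
    have e1 : (1 - 1 / (q : ℝ)) * (Fa a P.p0 q * (s.c / (1 - 1 / (q : ℝ)) * Ws W t₁.items)) =
        Fa a P.p0 q * (s.c * Ws W t₁.items) := by
      have hne := hq1.ne'
      generalize 1 - 1 / (q : ℝ) = v at hne ⊢
      field_simp
    have e0 : 1 / (q : ℝ) * (Fa a P.p0 q * (s.c * q * Ws W t₀.items)) =
        Fa a P.p0 q * (s.c * Ws W t₀.items) := by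
      field_simp
    have k1' := mul_le_mul_of_nonneg_left k1 hq1.le
    have k0' := mul_le_mul_of_nonneg_left k0 (show (0 : ℝ) ≤ 1 / (q : ℝ) by positivity)
    simp only at k1' k0'
    rw [e1] at k1'
    rw [e0] at k0'
    have hS : (IT.br q Sp t₁ t₀).items = t₁.items ∪ t₀.items := rfl
    rw [hS] at k2 ⊢
    have hF : Fa a P.p0 (q + 1) ≤ Fa a P.p0 s.n := Fa_mono ha (by omega)
    rw [Fa_succ a h2] at hF
    calc φ s (.br q Sp t₁ t₀) + (1 - 1 / (q : ℝ)) * NodeG33.tsum φ _ t₁ + 1 / (q : ℝ) * NodeG33.tsum φ _ t₀ ≤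
        a q * (s.c * Ws W (t₁.items ∪ t₀.items)) + Fa a P.p0 q * (s.c * Ws W t₁.items) +
          Fa a P.p0 q * (s.c * Ws W t₀.items) := add_le_add (add_le_add k2 k1') k0'
      _ = (Fa a P.p0 q + a q) * (s.c * Ws W (t₁.items ∪ t₀.items)) := by rw [hW']; ring
      _ ≤ _ := mul_le_mul_of_nonneg_right hF (hm _ _ hc)
  | add q t₁ t₀ ih₁ ih₀ =>
    intro s h
    obtain ⟨hn, hc, -, -⟩ := h.self
    obtain ⟨hp, h1, h2, h3, h4, ⟨j, t', hj, h5, h6, h7, h8⟩, h9⟩ := hn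
    have k1 := ih₁ _ h.2.1
    have k0 := ih₀ _ h.2.2
    have hW' : Ws W (t₁.items ∪ t₀.items) = Ws W t₁.items + Ws W t₀.items := hdis h6 h7 rfl
    have hF : Fa a P.p0 (q + 1) ≤ Fa a P.p0 s.n := Fa_mono ha (by omega)
    unfold NodeG33.tsum
    have hS : (IT.add q t₁ t₀).items = t₁.items ∪ t₀.items := rfl
    rw [hS, hW', mul_add, mul_add]
    simp only at k1 k0
    exact add_le_add (k1.trans (mul_le_mul_of_nonneg_right hF (hm _ _ hc)))
      (k0.trans (mul_le_mul_of_nonneg_right hF (hm _ _ hc)))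
  | up q Sp t ih =>
    intro s h
    obtain ⟨hn, hc, -, -⟩ := h.self
    have h1 := hn.2.1
    have k := ih _ h.2
    simp only at k
    exact k.trans (mul_le_mul_of_nonneg_right (Fa_mono ha h1.le) (hm _ _ hc))
  | pl q t ih =>
    intro s h
    obtain ⟨hn, hc, -, hφ⟩ := h.self
    have h1 := hn.2.1
    have k := ih _ h.2
    have k2 := hφ q t rfl
    have hF : Fa a P.p0 (q + 1) ≤ Fa a P.p0 s.n := Fa_mono ha (by omega)
    unfold NodeG33.tsum
    have hS : (IT.pl q t).items = t.items := rfl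
    rw [hS]
    simp only at k
    have k3 := k.trans (mul_le_mul_of_nonneg_right hF (hm _ _ hc))
    linarith
  | far q t₁ t₀ ih₁ ih₀ =>
    intro s h
    obtain ⟨hn, hc, -, -⟩ := h.self
    obtain ⟨hp, h1, h2, h3, h4, ⟨K, h5, h6, h7⟩, h9⟩ := hn
    have k1 := ih₁ _ h.2.1
    have k0 := ih₀ _ h.2.2
    have hW' : Ws W (t₁.items ∪ t₀.items) = Ws W t₁.items + Ws W t₀.items := by
      have e1 : t₁.items = Bld532.farS q s.A K (t₁.items ∪ t₀.items) := by
        conv_lhs => rw [h5]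
        rfl
      unfold Ws
      rw [Finset.sum_union]
      rw [e1, h6]
      refine Finset.disjoint_left.2 fun r hr hr' => ?_
      have a1 := (Bld532.mem_farS.1 hr).2
      have a2 := (Bld532.mem_nearS.1 hr').2
      tauto
    have hF : Fa a P.p0 (q + 1) ≤ Fa a P.p0 s.n := Fa_mono ha (by omega)
    unfold NodeG33.tsum
    have hS : (IT.far q t₁ t₀).items = t₁.items ∪ t₀.items := rfl
    rw [hS, hW', mul_add, mul_add]
    simp only at k1 k0
    exact add_le_add (k1.trans (mul_le_mul_of_nonneg_right hF (hm _ _ hc)))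
      (k0.trans (mul_le_mul_of_nonneg_right hF (hm _ _ hc)))

end tree

/-! ### numbers -/

/-- `C (log q)^D / q²` has small tails -/
lemma tail_le (C D : ℝ) (hC : 0 ≤ C) {ε : ℝ} (hε : 0 < ε) : ∃ p₁ : ℕ, 3 ≤ p₁ ∧ ∀ p0 ≥ p₁, ∀ n : ℕ,
    ∑ q ∈ Finset.Ioo p0 n, C * Real.log q ^ D * (1 / (q : ℝ)) ^ 2 ≤ ε := by
  have hs : Summable fun n : ℕ => 1 / (n : ℝ) ^ (3 / 2 : ℝ) :=
    Real.summable_one_div_nat_rpow.2 (by norm_num)
  obtain ⟨s, hs⟩ := summable_iff_vanishing_norm.1 hs ε hε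
  have hlit := (isLittleO_log_rpow_rpow_atTop D (show (0 : ℝ) < 1 / 2 by norm_num)).bound
    (show (0 : ℝ) < 1 / (C + 1) by positivity)
  obtain ⟨x, hx⟩ := Filter.eventually_atTop.1 hlit
  refine ⟨⌈|x|⌉₊ + s.sup id + 3, by omega, fun p0 hp0 n => ?_⟩
  have hd : Disjoint (Finset.Ioo p0 n) s := by
    refine Finset.disjoint_left.2 fun q hq hq' => ?_
    have h1 : q ≤ s.sup id := Finset.le_sup (f := id) hq'
    have h2 := (Finset.mem_Ioo.1 hq).1
    omega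
  have h1 := (hs _ hd).le
  rw [Real.norm_eq_abs, abs_of_nonneg (Finset.sum_nonneg fun q _ => by positivity)] at h1
  refine le_trans (Finset.sum_le_sum fun q hq => ?_) h1
  have h2 := (Finset.mem_Ioo.1 hq).1
  have hq3 : 3 ≤ q := by omega
  have hq0 : (0 : ℝ) < q := by positivity
  have hl := Bld532.one_le_log_nat hq3
  have hxq : x ≤ q := by
    have h5 : |x| ≤ ⌈|x|⌉₊ := Nat.le_ceil _
    have h6 : ((⌈|x|⌉₊ : ℕ) : ℝ) ≤ q := by
      have : ⌈|x|⌉₊ ≤ q := by omega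
      exact_mod_cast this
    linarith [le_abs_self x]
  have h8 := hx q hxq
  rw [Real.norm_eq_abs, Real.norm_eq_abs, abs_of_nonneg (by positivity),
    abs_of_nonneg (by positivity)] at h8
  have hC1 : 0 < C + 1 := by linarith
  have h9 : C * Real.log q ^ D ≤ (q : ℝ) ^ (1 / 2 : ℝ) := by
    have h10 : Real.log q ^ D * (C + 1) ≤ (q : ℝ) ^ (1 / 2 : ℝ) := by
      have := mul_le_mul_of_nonneg_right h8 hC1.le
      rwa [mul_comm (1 / (C + 1)), mul_assoc, one_div_mul_cancel hC1.ne', mul_one] at this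
    have h11 : 0 ≤ Real.log q ^ D := by positivity
    nlinarith
  have h12 : (q : ℝ) ^ (1 / 2 : ℝ) * (1 / (q : ℝ)) ^ 2 = 1 / (q : ℝ) ^ (3 / 2 : ℝ) := by
    have e : (q : ℝ) ^ 2 = (q : ℝ) ^ (1 / 2 : ℝ) * (q : ℝ) ^ (3 / 2 : ℝ) := by
      rw [← Real.rpow_add hq0, ← Real.rpow_natCast]
      norm_num
    have hh : (0 : ℝ) < (q : ℝ) ^ (1 / 2 : ℝ) := by positivity
    rw [one_div_pow, e]
    field_simp
  rw [← h12]
  exact mul_le_mul_of_nonneg_right h9 (sq_nonneg _)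

/-! ### contexts -/

section ctx
open Crest.Agent.R4P.Data758 Crest.Agent.R4P.Skel189
open Crest.Agent.R4P.Step588 (ctx_NDt All_All)
open Crest.Agent.R4P.AsmX26 (QE ctx_QE)
open Crest.Agent.R4P.SkelF29 (BootF)
open Crest.Agent.R4P.Strip29 (AdF)
open Crest.Agent.R4P.Frame758 Crest.Agent.R4.Soft104
open Crest.Agent.R4P.CtxNF36 (par_PG)

variable {N : Skel189.Num} {γ : ℝ} {p0 P₀ : ℕ}

/-- the missing children of the ties satisfy `F` -/
def Kid0 (X : Ctx N γ p0 P₀) (F : TrG X.c.Lam (Lb (WL X.c.Lam) X.Y) → Prop) (s : NS) : IT → Prop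
  | .br q _ _ t₀ => F (X.g ⟨q, s.c * q, s.A, s.B * q⟩ t₀)
  | _ => True

lemma kid_all (X : Ctx N γ p0 P₀) {F : TrG X.c.Lam (Lb (WL X.c.Lam) X.Y) → Prop} (t : IT) :
    ∀ s : NS, (X.g s t).All F → All (Kid0 X F) s t := by
  induction t with
  | leaf S => intro s h; exact trivial
  | br q Sp t₁ t₀ ih₁ ih₀ =>
    intro s h
    have h0 : (X.g ⟨q, s.c * q, s.A, s.B * q⟩ t₀).All F := h.2.2
    exact ⟨h0.self, ih₁ ⟨q, _, s.A * q, s.B⟩ h.2.1, ih₀ _ h0⟩
  | add q t₁ t₀ ih₁ ih₀ =>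
    intro s h
    exact ⟨trivial, ih₁ ⟨q + 1, s.c, s.A, s.B⟩ h.2.1, ih₀ ⟨q + 1, s.c, s.A, s.B⟩ h.2.2⟩
  | up q Sp t ih => intro s h; exact ⟨trivial, ih ⟨q, s.c, s.A, s.B⟩ h⟩
  | pl q t ih => intro s h; exact ⟨trivial, ih ⟨q + 1, s.c, s.A * q, s.B⟩ h.2.1⟩
  | far q t₁ t₀ ih₁ ih₀ =>
    intro s h
    exact ⟨trivial, ih₁ ⟨q + 1, s.c, s.A, s.B⟩ h.2.1, ih₀ ⟨q + 1, s.c, s.A, s.B⟩ h.2.2⟩

lemma kid_below (X : Ctx N γ p0 P₀) {F : TrG X.c.Lam (Lb (WL X.c.Lam) X.Y) → Prop} (t : IT) :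
    ∀ s : NS, Below F (X.g s t) → All (Kid0 X F) s t := by
  induction t with
  | leaf S => intro s h; exact trivial
  | br q Sp t₁ t₀ ih₁ ih₀ =>
    intro s h
    have h0 : (X.g ⟨q, s.c * q, s.A, s.B * q⟩ t₀).All F := h.2
    exact ⟨h0.self, kid_all X t₁ ⟨q, _, s.A * q, s.B⟩ h.1, kid_all X t₀ _ h0⟩
  | add q t₁ t₀ ih₁ ih₀ =>
    intro s h
    exact ⟨trivial, kid_all X t₁ ⟨q + 1, s.c, s.A, s.B⟩ h.1,
      kid_all X t₀ ⟨q + 1, s.c, s.A, s.B⟩ h.2⟩
  | up q Sp t ih => intro s h; exact ⟨trivial, ih ⟨q, s.c, s.A, s.B⟩ h⟩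
  | pl q t ih => intro s h; exact ⟨trivial, kid_all X t ⟨q + 1, s.c, s.A * q, s.B⟩ h.1⟩
  | far q t₁ t₀ ih₁ ih₀ =>
    intro s h
    exact ⟨trivial, kid_all X t₁ ⟨q + 1, s.c, s.A, s.B⟩ h.1,
      kid_all X t₀ ⟨q + 1, s.c, s.A, s.B⟩ h.2⟩

/-- **the second order term of the group walks of a context** -/
theorem ctx_SO (N : Skel189.Num) (M : ℝ) (hM : 0 ≤ M) {ε : ℝ} (hε : 0 < ε) : ∃ p₁ : ℕ,
    ∀ p0 ≥ p₁, ∀ (γ : ℝ) (P₀ : ℕ) (X : Ctx N γ p0 P₀) (j₀ : X.c.Lam) (Kb : ℝ), 0 ≤ Kb →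
      Kb ≤ M * Real.log p0 ^ M →
      All (fun u τ => BootF X j₀ (fun _ _ => 0) Kb u τ → ∀ n p,
        GS SO n p [((1 : ℝ), (X.self u τ Finset.univ).t)] ≤ ε * X.mu j₀ u τ Finset.univ)
        ⟨top X.S, 1, 1, 1⟩ X.c.t := by
  have hB0 : 0 ≤ N.B := by have := N.hB; have := N.hC1; have := N.hc2; linarith
  have hc0 : 0 ≤ N.c2 := N.hc2
  obtain ⟨p1, h1⟩ := par_PG N
  obtain ⟨p2, hp3, h2⟩ := tail_le (M * 6) (M + (N.B + (N.B + N.c2))) (by positivity) hε
  refine ⟨p1 + p2, fun p0 hp0 γ P₀ X j₀ Kb hK0 hK => ?_⟩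
  have hψ : ∀ q, 0 ≤ w X.ψ q := fun q => by
    have := X.sys.nonneg q
    unfold w
    positivity
  have hG : StratX36.PG X.par (w X.ψ) := h1 p0 (by omega) (w X.ψ) hψ
  have hPO : PO X.par (w X.ψ) :=
    ⟨hG.w0, hG.lo0, fun k hk hk' => by have := hG.sg8 k hk hk'; have := hG.sg0 k; linarith⟩
  have hQE := ctx_QE X j₀ (Q' := fun _ _ => True) (All.mono (fun _ _ _ => trivial) (ctx_NDt X))
  refine All.mono (fun u τ hh hb n p => ?_) ((All_All _ _ hQE).and (All_All _ _ (ctx_NOk X j₀)))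
  obtain ⟨hq, hnok⟩ := hh
  have hkid := kid_below X τ u hb
  -- the walk
  have hall : All (fun s t => QE X j₀ (fun _ _ => True) s t ∧
      ((X.self s t Finset.univ).t.All NOk)) u τ := hq.and hnok
  have key := GS_SO_le (D := X.c.D.par X.Y) (sp := X.c.sp) (P := X.par) (W := w X.ψ)
    (Q := fun s t => QE X j₀ (fun _ _ => True) s t ∧ ((X.self s t Finset.univ).t.All NOk)) hPO
    (fun s q Sp t₁ t₀ h => h.1.nd.self.node.1.two_le)
    (fun s t h => h.1.nd.self.node) (fun s t h => h.2.self) hall n p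
  refine key.trans ?_
  -- the energies of the missing children
  set a : ℕ → ℝ := fun q => M * 6 * Real.log q ^ (M + (N.B + (N.B + N.c2))) * (1 / (q : ℝ)) ^ 2
    with ha
  have ha0 : ∀ q, 0 ≤ a q := fun q => by
    have := Real.log_natCast_nonneg q
    positivity
  have hmu : X.mu j₀ u τ Finset.univ = u.c * Ws (w X.ψ) τ.items := hq.self.mass
  have hc0' : 0 ≤ u.c := hq.self.nf.c0.le
  rw [hmu]
  refine le_trans (tsum_le (P := X.par) (W := w X.ψ) ha0 hψ τ u (All.mono (fun s t hst => ?_)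
    ((All_All _ _ hq).and hkid))) (mul_le_mul_of_nonneg_right (h2 p0 (by omega) _)
      (mul_nonneg hc0' (Ws_nonneg hψ _)))
  obtain ⟨h, k⟩ := hst
  refine ⟨h.self.nd.self.node, h.self.nf.c0.le, fun q Sp t₁ t₀ e => ?_, fun q t' e => ?_⟩
  · subst e
    have hmass : X.tn j₀ (X.g ⟨q, s.c * q, s.A, s.B * q⟩ t₀) =
      s.c * q * Ws (w X.ψ) t₀.items := h.2.2.self.mass
    have hsc : 0 ≤ s.c := h.self.nf.c0.le
    obtain ⟨hp, g1, g2, g3, g4, g5, g6, g7, g8, hlo, hhi, hsg, -⟩ := h.self.nd.self.node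
    have hq3 : 3 ≤ q := by
      have : p0 < q := g2
      omega
    have hq0 : (0 : ℝ) < q := by positivity
    have hL := Bld532.one_le_log_nat hq3
    have hL0 : 0 < Real.log q := by linarith
    have kk := k Finset.univ (Or.inr rfl)
    have e1 : (fun x => tt Finset.univ (X.g ⟨q, s.c * q, s.A, s.B * q⟩ t₀) x ^ 2) =
        fun y => (∑ j, ((X.c.D.par X.Y).toDT X.c.sp (s.B * q) s.A t₀).g.val j y) ^ 2 := by
      funext y
      unfold tt
      rw [rv_univ, Item758.Par.toDT_g]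
      rfl
    rw [e1] at kk
    set m0 : ℝ := s.c * q * Ws (w X.ψ) t₀.items with hm0
    have e2 : X.tm j₀ (X.g ⟨q, s.c * q, s.A, s.B * q⟩ t₀) Finset.univ = m0 := hmass
    have kk' : I (fun y => (∑ j, ((X.c.D.par X.Y).toDT X.c.sp (s.B * q) s.A t₀).g.val j y) ^ 2) ≤
        Kb * (m0 + m0 * m0 + 0) := by
      have k2 := kk
      rw [e2, hmass] at k2
      exact k2
    rw [add_zero] at kk'
    set μ : ℝ := s.c * Ws (w X.ψ) (t₁.items ∪ t₀.items) with hμ
    have hμ0 : 0 ≤ μ := mul_nonneg hsc (Ws_nonneg hψ _)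
    have hm00 : 0 ≤ m0 := mul_nonneg (mul_nonneg hsc hq0.le) (Ws_nonneg hψ _)
    set L := Real.log (q : ℝ) with hLd
    have hLB : 0 < L ^ N.B := Real.rpow_pos_of_pos hL0 _
    have hLc : 1 ≤ L ^ (N.B + N.c2) := Real.one_le_rpow hL (by linarith)
    have hsg' : Ws (w X.ψ) t₀.items ≤
        2 * (L ^ N.B / q) * Ws (w X.ψ) (t₁.items ∪ t₀.items) := hsg
    have hhi' : μ ≤ L ^ N.c2 := hhi
    have hm1 : m0 ≤ 2 * L ^ N.B * μ := by
      have h5 : m0 ≤ s.c * q * (2 * (L ^ N.B / q) * Ws (w X.ψ) (t₁.items ∪ t₀.items)) :=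
        mul_le_mul_of_nonneg_left hsg' (mul_nonneg hsc hq0.le)
      refine h5.trans (le_of_eq ?_)
      rw [hμ]
      field_simp
    have hm2 : m0 ≤ 2 * L ^ (N.B + N.c2) := by
      rw [Real.rpow_add hL0]
      have : L ^ N.B * μ ≤ L ^ N.B * L ^ N.c2 := mul_le_mul_of_nonneg_left hhi' hLB.le
      linarith
    have hm3 : m0 + m0 * m0 ≤ 6 * L ^ N.B * L ^ (N.B + N.c2) * μ := by
      have h5 : m0 * m0 ≤ m0 * (2 * L ^ (N.B + N.c2)) := mul_le_mul_of_nonneg_left hm2 hm00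
      have h6 : m0 ≤ m0 * L ^ (N.B + N.c2) := by nlinarith
      have h7 : m0 * L ^ (N.B + N.c2) ≤ 2 * L ^ N.B * μ * L ^ (N.B + N.c2) :=
        mul_le_mul_of_nonneg_right hm1 (by linarith)
      nlinarith
    have hK' : Kb ≤ M * L ^ M := by
      refine hK.trans (mul_le_mul_of_nonneg_left ?_ hM)
      refine Real.rpow_le_rpow (Real.log_natCast_nonneg _) ?_ hM
      have hp00 : (0 : ℝ) < p0 := by
        have : 0 < p0 := by omega
        exact_mod_cast this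
      exact Real.log_le_log hp00 (by exact_mod_cast (show p0 < q from g2).le)
    show (1 / (q : ℝ)) ^ 2 *
      I (fun y => (∑ j, ((X.c.D.par X.Y).toDT X.c.sp (s.B * q) s.A t₀).g.val j y) ^ 2) ≤
      a q * μ
    have hLa : L ^ (M + (N.B + (N.B + N.c2))) = L ^ M * (L ^ N.B * L ^ (N.B + N.c2)) := by
      rw [Real.rpow_add hL0, Real.rpow_add hL0]
    calc (1 / (q : ℝ)) ^ 2 *
        I (fun y => (∑ j, ((X.c.D.par X.Y).toDT X.c.sp (s.B * q) s.A t₀).g.val j y) ^ 2) ≤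
          (1 / (q : ℝ)) ^ 2 * ((M * L ^ M) * (6 * L ^ N.B * L ^ (N.B + N.c2) * μ)) :=
          mul_le_mul_of_nonneg_left (kk'.trans (mul_le_mul hK' hm3
            (add_nonneg hm00 (mul_self_nonneg _)) (by positivity))) (sq_nonneg _)
      _ = a q * μ := by
          show _ = M * 6 * L ^ (M + (N.B + (N.B + N.c2))) * (1 / (q : ℝ)) ^ 2 * μ
          rw [hLa]; ring
  · subst e
    exact le_rfl

end ctx

end Crest.Agent.R4P.SecO25
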