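import Crest.Agent.R4P.PruneAcc2_17

/-!
R4 (S0004), POWERS (helper12): **prune of the births of labels.**

`Bir κ ω τ θ T p`: for some scale `t ∈ [T, exp (p^τ)]` the number `p θ` is within `t^(-ω)` of a fraction
`h / k` with `k ≤ t^κ` and `p ∤ h` (so the label `h/k` of `pθ` does not come from the label `h/(pk)` of
`θ`: it is BORN at the missing tie `p`).

* `bir_dens`: for fixed `θ` the primes `p ∈ (P, 2P]` with `Bir` have density
  `≤ C P^(-1/5) + C T^(-1/5)` (`2 κ + 3/10 ≤ ω`, `τ ≤ 2/5`).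
* `NoBir`, `SxBir`, `SxBir_mass`, `NoBir.of`: the pruned set, as in `PruneAcc2_17`.
-/

set_option autoImplicit false

namespace Crest.Agent.R4P.PruneBir12

open Crest.Agent.R4P.Cnt588 Crest.Agent.R4P.Bld532 Finset

/-! ### number theory -/

/-- birth of a label at `p`, target `θ`, scale `≥ T` -/
def Bir (κ ω τ θ T : ℝ) (p : ℕ) : Prop :=
  ∃ t : ℝ, T ≤ t ∧ t ≤ Real.exp ((p : ℝ) ^ τ) ∧ ∃ k : ℕ, 1 ≤ k ∧ (k : ℝ) ≤ t ^ κ ∧
    ∃ h : ℤ, ¬ (p : ℤ) ∣ h ∧ |(k : ℝ) * p * θ - h| ≤ k * t ^ (-ω)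

lemma Bir.mono {κ ω τ θ T T' : ℝ} (h : T' ≤ T) {p : ℕ} (hA : Bir κ ω τ θ T p) :
    Bir κ ω τ θ T' p := by
  obtain ⟨t, h1, h2⟩ := hA
  exact ⟨t, h.trans h1, h2⟩

/-- primes `> P` dividing `b ≤ B`: at most `log B / log P` -/
lemma card_primes_dvd {s : Finset ℕ} {P b : ℕ} (hP : 2 ≤ P) (hb : b ≠ 0)
    (h : ∀ p ∈ s, p.Prime ∧ P < p ∧ p ∣ b) {B : ℝ} (hB : (b : ℝ) ≤ B) :
    (s.card : ℝ) ≤ Real.log B / Real.log P := by
  have h1 : ∏ p ∈ s, p ∣ b :=
    Finset.prod_primes_dvd b (fun p hp => (h p hp).1.prime) (fun p hp => (h p hp).2.2)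
  have h2 : P ^ s.card ≤ ∏ p ∈ s, p := by
    rw [← Finset.prod_const]
    exact Finset.prod_le_prod' fun p hp => (h p hp).2.1.le
  have h3 : P ^ s.card ≤ b := h2.trans (Nat.le_of_dvd (Nat.pos_of_ne_zero hb) h1)
  have h4 : ((P : ℝ)) ^ s.card ≤ B := by
    have : ((P ^ s.card : ℕ) : ℝ) ≤ b := by exact_mod_cast h3
    push_cast at this
    exact this.trans hB
  have hP0 : (0 : ℝ) < P := by exact_mod_cast (by omega : 0 < P)
  have hlP : 0 < Real.log P := Real.log_pos (by exact_mod_cast (by omega : 1 < P))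
  rw [le_div_iff₀ hlP]
  have h5 := Real.log_le_log (by positivity) h4
  rwa [Real.log_pow] at h5

open Classical in
/-- primes of `(P, 2P]` with a fraction `h/k` near `pθ`, `k ≤ K`, `p ∤ h` -/
noncomputable def BSet (θ K δ : ℝ) (P : ℕ) : Finset ℕ :=
  (Finset.Ioc P (2 * P)).filter fun p => p.Prime ∧ ∃ k : ℕ, 1 ≤ k ∧ (k : ℝ) ≤ K ∧
    ∃ h : ℤ, ¬ (p : ℤ) ∣ h ∧ |(k : ℝ) * p * θ - h| ≤ k * δ

/-- separated rationals in an interval -/
lemma card_sep {s : Finset ℚ} {M a L : ℝ} (hM : 0 < M) (hL : 0 ≤ L)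
    (hsep : ∀ x ∈ s, ∀ y ∈ s, x < y → 1 ≤ M * ((y : ℝ) - x))
    (hin : ∀ x ∈ s, a ≤ (x : ℝ) ∧ (x : ℝ) ≤ a + L) :
    (s.card : ℝ) ≤ M * L + 2 := by
  classical
  have hinj : Set.InjOn (fun x : ℚ => ⌊M * (x : ℝ)⌋) (s : Set ℚ) := by
    intro x hx y hy hxy
    by_contra hne
    have key : ∀ x ∈ s, ∀ y ∈ s, x < y → ⌊M * (x : ℝ)⌋ ≠ ⌊M * (y : ℝ)⌋ := by
      intro x hx y hy hlt he
      have h1 := hsep x hx y hy hlt
      have h2 := Int.floor_le (M * (x : ℝ))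
      have h3 := Int.lt_floor_add_one (M * (y : ℝ))
      rw [← he] at h3
      linarith
    rcases lt_or_gt_of_ne hne with h | h
    · exact key x hx y hy h hxy
    · exact key y hy x hx h hxy.symm
  rw [← Finset.card_image_of_injOn hinj]
  have hsub : s.image (fun x : ℚ => ⌊M * (x : ℝ)⌋) ⊆ Finset.Icc ⌊M * a⌋ ⌊M * (a + L)⌋ := by
    intro w hw
    obtain ⟨x, hx, rfl⟩ := Finset.mem_image.1 hw
    obtain ⟨h1, h2⟩ := hin x hx
    rw [Finset.mem_Icc]
    exact ⟨Int.floor_le_floor (mul_le_mul_of_nonneg_left h1 hM.le),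
      Int.floor_le_floor (mul_le_mul_of_nonneg_left h2 hM.le)⟩
  have h1 := Finset.card_le_card hsub
  rw [Int.card_Icc] at h1
  have hfl : ⌊M * a⌋ ≤ ⌊M * (a + L)⌋ :=
    Int.floor_le_floor (mul_le_mul_of_nonneg_left (by linarith) hM.le)
  have h2 : (((s.image (fun x : ℚ => ⌊M * (x : ℝ)⌋)).card : ℕ) : ℤ) ≤
      ⌊M * (a + L)⌋ + 1 - ⌊M * a⌋ := by omega
  have h3 : ((s.image (fun x : ℚ => ⌊M * (x : ℝ)⌋)).card : ℝ) ≤
      (⌊M * (a + L)⌋ : ℝ) + 1 - (⌊M * a⌋ : ℝ) := by exact_mod_cast h2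
  have h4 := Int.floor_le (M * (a + L))
  have h5 := Int.lt_floor_add_one (M * a)
  nlinarith

/-- **counting of the births at one scale** -/
theorem card_BSet (θ : ℝ) {K δ : ℝ} (hK : 1 ≤ K) (hδ : 0 ≤ δ) {P : ℕ} (hP : 2 ≤ P) :
    ((BSet θ K δ P).card : ℝ) ≤
      (8 * P * (K ^ 2 * δ) + 2) * (Real.log (2 * P * K) / Real.log P) := by
  classical
  have hP0 : (0 : ℝ) < P := by exact_mod_cast (by omega : 0 < P)
  have hP1 : (1 : ℝ) < P := by exact_mod_cast (by omega : 1 < P)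
  have hlP : 0 < Real.log P := Real.log_pos hP1
  have hK0 : 0 < K := by linarith
  have hmL : 0 ≤ Real.log (2 * P * K) / Real.log P :=
    div_nonneg (Real.log_nonneg (by nlinarith)) hlP.le
  -- choose the fraction
  have hch : ∀ p : ℕ, ∃ kh : ℕ × ℤ, p ∈ BSet θ K δ P → (1 ≤ kh.1 ∧ (kh.1 : ℝ) ≤ K ∧
      ¬ (p : ℤ) ∣ kh.2 ∧ |(kh.1 : ℝ) * p * θ - kh.2| ≤ kh.1 * δ) := by
    intro p
    by_cases hp : p ∈ BSet θ K δ P
    · obtain ⟨k, h1, h2, h, h3, h4⟩ := (Finset.mem_filter.1 hp).2.2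
      exact ⟨(k, h), fun _ => ⟨h1, h2, h3, h4⟩⟩
    · exact ⟨(0, 0), fun h => absurd h hp⟩
  choose kh hkh using hch
  set v : ℕ → ℚ := fun p => ((kh p).2 : ℚ) / ((((kh p).1 * p : ℕ) : ℤ) : ℚ) with hv
  have hmem : ∀ p ∈ BSet θ K δ P, p.Prime ∧ P < p ∧ p ≤ 2 * P := by
    intro p hp
    have h1 := Finset.mem_filter.1 hp
    have h2 := Finset.mem_Ioc.1 h1.1
    exact ⟨h1.2.1, h2.1, h2.2⟩
  have hden : ∀ p ∈ BSet θ K δ P, (((v p).den : ℕ) : ℝ) ≤ 2 * P * K := by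
    intro p hp
    obtain ⟨h1, h2, h3, h4⟩ := hkh p hp
    obtain ⟨g1, g2, g3⟩ := hmem p hp
    have hpos : 0 < (kh p).1 * p := Nat.mul_pos (by omega) g1.pos
    have hd : (((v p).den : ℕ) : ℤ) ∣ (((kh p).1 * p : ℕ) : ℤ) := by
      have := Rat.den_dvd ((kh p).2) ((((kh p).1 * p : ℕ) : ℤ))
      rw [← Rat.intCast_div_eq_divInt] at this
      exact this
    have hd' : (v p).den ∣ (kh p).1 * p := by exact_mod_cast hd
    have hle := Nat.le_of_dvd hpos hd'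
    have h5 : (((v p).den : ℕ) : ℝ) ≤ (kh p).1 * p := by exact_mod_cast hle
    have h6 : (p : ℝ) ≤ 2 * P := by exact_mod_cast g3
    calc (((v p).den : ℕ) : ℝ) ≤ (kh p).1 * p := h5
      _ ≤ K * (2 * P) := mul_le_mul h2 h6 (by positivity) hK0.le
      _ = 2 * P * K := by ring
  -- the fibers
  have hfib : ∀ w ∈ (BSet θ K δ P).image v,
      ((((BSet θ K δ P).filter (fun p => v p = w)).card : ℕ) : ℝ) ≤
        Real.log (2 * P * K) / Real.log P := by
    intro w hw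
    obtain ⟨p0, hp0, hp0w⟩ := Finset.mem_image.1 hw
    refine card_primes_dvd (b := w.den) hP w.den_ne_zero ?_ (by
      rw [← hp0w]; exact hden p0 hp0)
    intro p hp
    obtain ⟨hp1, hp2⟩ := Finset.mem_filter.1 hp
    obtain ⟨h1, h2, h3, h4⟩ := hkh p hp1
    obtain ⟨g1, g2, g3⟩ := hmem p hp1
    refine ⟨g1, g2, ?_⟩
    have hpos : (0 : ℚ) < ((((kh p).1 * p : ℕ) : ℤ) : ℚ) := by
      have : 0 < (kh p).1 * p := Nat.mul_pos (by omega) g1.pos
      exact_mod_cast this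
    have e1 : (w.num : ℚ) / (w.den : ℚ) = ((kh p).2 : ℚ) / ((((kh p).1 * p : ℕ) : ℤ) : ℚ) := by
      rw [Rat.num_div_den, ← hp2]
    have hden0 : (w.den : ℚ) ≠ 0 := by exact_mod_cast w.den_ne_zero
    rw [div_eq_div_iff hden0 hpos.ne'] at e1
    have e2 : w.num * (((kh p).1 * p : ℕ) : ℤ) = (kh p).2 * (w.den : ℤ) := by exact_mod_cast e1
    have hdv : (p : ℤ) ∣ (kh p).2 * (w.den : ℤ) := by
      rw [← e2]
      exact Dvd.dvd.mul_left (by push_cast; exact dvd_mul_left _ _) _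
    have hpp : Prime (p : ℤ) := Nat.prime_iff_prime_int.1 g1
    rcases hpp.dvd_or_dvd hdv with h5 | h5
    · exact absurd h5 h3
    · exact_mod_cast h5
  -- number of the values
  set M : ℝ := (2 * P * K) ^ 2 with hM
  have hM0 : 0 < M := by positivity
  have himg : (((BSet θ K δ P).image v).card : ℝ) ≤ M * (2 * (δ / P)) + 2 := by
    refine card_sep (a := θ - δ / P) hM0 (by positivity) ?_ ?_
    · intro x hx y hy hlt
      obtain ⟨p, hp, rfl⟩ := Finset.mem_image.1 hx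
      obtain ⟨q, hq, rfl⟩ := Finset.mem_image.1 hy
      have h1 := hden p hp
      have h2 := hden q hq
      have hdp : (0 : ℝ) < (v p).den := by exact_mod_cast (v p).den_pos
      have hdq : (0 : ℝ) < (v q).den := by exact_mod_cast (v q).den_pos
      have e : ((v q : ℚ) : ℝ) - (v p : ℚ) =
          (((v q).num * (v p).den - (v p).num * (v q).den : ℤ) : ℝ) / ((v p).den * (v q).den) := by
        have ep : ((v p : ℚ) : ℝ) = (v p).num / (v p).den := Rat.cast_def _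
        have eq : ((v q : ℚ) : ℝ) = (v q).num / (v q).den := Rat.cast_def _
        rw [ep, eq]
        push_cast
        field_simp
      have hpos : 0 < ((v q : ℚ) : ℝ) - (v p : ℚ) := by
        have : ((v p : ℚ) : ℝ) < (v q : ℚ) := by exact_mod_cast hlt
        linarith
      have hnum : (1 : ℝ) ≤ (((v q).num * (v p).den - (v p).num * (v q).den : ℤ) : ℝ) := by
        rw [e] at hpos
        have h3 : 0 < (((v q).num * (v p).den - (v p).num * (v q).den : ℤ) : ℝ) := by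
          by_contra hc
          push Not at hc
          have := div_nonpos_of_nonpos_of_nonneg hc (mul_pos hdp hdq).le
          linarith
        have h4 : 0 < ((v q).num * (v p).den - (v p).num * (v q).den : ℤ) := by exact_mod_cast h3
        exact_mod_cast h4
      rw [e, ← mul_div_assoc, le_div_iff₀ (mul_pos hdp hdq), one_mul]
      calc ((v p).den : ℝ) * (v q).den ≤ (2 * P * K) * (2 * P * K) :=
            mul_le_mul h1 h2 hdq.le (by positivity)
        _ = M * 1 := by rw [hM]; ring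
        _ ≤ M * _ := mul_le_mul_of_nonneg_left hnum hM0.le
    · intro x hx
      obtain ⟨p, hp, rfl⟩ := Finset.mem_image.1 hx
      obtain ⟨h1, h2, h3, h4⟩ := hkh p hp
      obtain ⟨g1, g2, g3⟩ := hmem p hp
      have hk0 : (0 : ℝ) < (kh p).1 := by exact_mod_cast (by omega : 0 < (kh p).1)
      have hp0 : (0 : ℝ) < p := by exact_mod_cast g1.pos
      have hpP : (P : ℝ) ≤ p := by exact_mod_cast g2.le
      have ev : ((v p : ℚ) : ℝ) = (kh p).2 / ((kh p).1 * p) := by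
        rw [hv]; push_cast; rfl
      have h5 : |θ - (v p : ℚ)| ≤ δ / P := by
        rw [ev]
        have e : θ - ((kh p).2 : ℝ) / ((kh p).1 * p) =
            ((kh p).1 * p * θ - (kh p).2) / ((kh p).1 * p) := by field_simp
        rw [e, abs_div, abs_of_pos (mul_pos hk0 hp0), div_le_div_iff₀ (mul_pos hk0 hp0) hP0]
        calc |((kh p).1 : ℝ) * p * θ - (kh p).2| * P ≤ ((kh p).1 * δ) * p :=
              mul_le_mul h4 hpP hP0.le (by positivity)
          _ = δ * ((kh p).1 * p) := by ring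
      have h6 := abs_le.1 h5
      constructor <;> linarith
  have hcard : ((BSet θ K δ P).card : ℝ) ≤
      ∑ w ∈ (BSet θ K δ P).image v, Real.log (2 * P * K) / Real.log P := by
    rw [Finset.card_eq_sum_card_image v (BSet θ K δ P)]
    push_cast
    exact Finset.sum_le_sum fun w hw => hfib w hw
  rw [Finset.sum_const, nsmul_eq_mul] at hcard
  refine hcard.trans (mul_le_mul_of_nonneg_right (himg.trans (le_of_eq ?_)) hmL)
  rw [hM]; field_simp; ring


lemma two_rpow_le : (2 : ℝ) ^ (-(1 / 5) : ℝ) ≤ 7 / 8 := by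
  have h : ((2 : ℝ) ^ (-(1 / 5) : ℝ)) ^ 5 = 1 / 2 := by
    rw [← Real.rpow_natCast, ← Real.rpow_mul (by norm_num)]
    norm_num
  by_contra hc
  push Not at hc
  have h2 : (7 / 8 : ℝ) ^ 5 < ((2 : ℝ) ^ (-(1 / 5) : ℝ)) ^ 5 :=
    pow_lt_pow_left₀ hc (by norm_num) (by norm_num)
  rw [h] at h2
  norm_num at h2

lemma sum_scales {T : ℝ} (hT : 0 < T) (I : ℕ) :
    ∑ i ∈ Finset.range I, ((2 : ℝ) ^ i * T) ^ (-(1 / 5) : ℝ) ≤ 8 * T ^ (-(1 / 5) : ℝ) := by
  have e : ∀ i : ℕ, ((2 : ℝ) ^ i * T) ^ (-(1 / 5) : ℝ) =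
      ((2 : ℝ) ^ (-(1 / 5) : ℝ)) ^ i * T ^ (-(1 / 5) : ℝ) := by
    intro i
    rw [Real.mul_rpow (by positivity) hT.le, ← Real.rpow_natCast, ← Real.rpow_mul (by norm_num),
      ← Real.rpow_natCast, ← Real.rpow_mul (by norm_num)]
    ring_nf
  have hr0 : 0 ≤ (2 : ℝ) ^ (-(1 / 5) : ℝ) := by positivity
  have hr := two_rpow_le
  calc ∑ i ∈ Finset.range I, ((2 : ℝ) ^ i * T) ^ (-(1 / 5) : ℝ)
      ≤ ∑ i ∈ Finset.range I, (7 / 8 : ℝ) ^ i * T ^ (-(1 / 5) : ℝ) := by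
        refine Finset.sum_le_sum fun i _ => ?_
        rw [e i]
        exact mul_le_mul_of_nonneg_right (pow_le_pow_left₀ hr0 hr i) (by positivity)
    _ = (∑ i ∈ Finset.range I, (7 / 8 : ℝ) ^ i) * T ^ (-(1 / 5) : ℝ) := by rw [Finset.sum_mul]
    _ ≤ 8 * T ^ (-(1 / 5) : ℝ) := by
        apply mul_le_mul_of_nonneg_right _ (by positivity)
        rw [geom_sum_eq (by norm_num)]
        have : 0 ≤ (7 / 8 : ℝ) ^ I := by positivity
        rw [div_le_iff_of_neg (by norm_num)]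
        linarith

open Classical in
/-- **density of the births** -/
theorem bir_dens {κ ω τ : ℝ} (hκ : 0 ≤ κ) (hκ1 : κ ≤ 1) (hω : 2 * κ + 3 / 10 ≤ ω) (hτ0 : 0 ≤ τ)
    (hτ : τ ≤ 2 / 5) (θ : ℝ) {T : ℝ} (hT : 1 ≤ T) {P : ℕ} (hP : 3 ≤ P) :
    ∑ b ∈ (Finset.Ioc P (2 * P)).filter (fun b => b.Prime ∧ Bir κ ω τ θ T b), (1 / (b : ℝ)) ≤
      3328 * T ^ (-(1 / 5) : ℝ) + 144 * (P : ℝ) ^ (-(1 / 5) : ℝ) := by
  have hT0 : 0 < T := by linarith
  have hP0 : (0 : ℝ) < P := by exact_mod_cast (by omega : 0 < P)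
  have hP1 : (1 : ℝ) ≤ P := by exact_mod_cast (by omega : 1 ≤ P)
  have hP3 : (3 : ℝ) ≤ P := by exact_mod_cast hP
  set Y : ℝ := (2 * (P : ℝ)) ^ τ with hY
  have hY1 : 1 ≤ Y := Real.one_le_rpow (by linarith) hτ0
  have hl2 : 0 < Real.log 2 := Real.log_pos (by norm_num)
  have hl2a : Real.log 2 ≤ 1 := by have := Real.log_two_lt_d9; linarith
  have hl2b : 1 / 2 ≤ Real.log 2 := by have := Real.log_two_gt_d9; linarith
  have hlP : 1 ≤ Real.log P := by
    rw [Real.le_log_iff_exp_le hP0]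
    have := Real.exp_one_lt_d9
    linarith
  set A := (Finset.Ioc P (2 * P)).filter (fun b => b.Prime ∧ Bir κ ω τ θ T b) with hA
  have hAsub : A ⊆ Finset.Ioc P (2 * P) := Finset.filter_subset _ _
  refine (Crest.Agent.R4.Acc864.sum_inv_le (by omega) hAsub).trans ?_
  have hPm : (P : ℝ) ^ (4 / 5 : ℝ) = (P : ℝ) ^ (-(1 / 5) : ℝ) * P := by
    nth_rewrite 3 [← Real.rpow_one (P : ℝ)]
    rw [← Real.rpow_add hP0]; norm_num
  rw [div_le_iff₀ hP0]
  -- the empty case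
  by_cases hTY : Real.log T ≤ Y
  swap
  · have hemp : A = ∅ := by
      rw [Finset.eq_empty_iff_forall_notMem]
      intro b hb
      obtain ⟨hbI, hbp, t, ht1, ht2, _⟩ := Finset.mem_filter.1 hb
      have hb2 : (b : ℝ) ≤ 2 * P := by exact_mod_cast (Finset.mem_Ioc.1 hbI).2
      apply hTY
      have h1 : Real.log T ≤ Real.log (Real.exp ((b : ℝ) ^ τ)) :=
        Real.log_le_log hT0 (ht1.trans ht2)
      rw [Real.log_exp] at h1
      exact h1.trans (Real.rpow_le_rpow (Nat.cast_nonneg b) hb2 hτ0)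
    rw [hemp]
    simp only [Finset.card_empty, Nat.cast_zero]
    positivity
  set I := ⌊2 * Y⌋₊ + 1 with hI
  have hIR : (I : ℝ) ≤ 3 * Y := by
    rw [hI]; push_cast
    have := Nat.floor_le (show 0 ≤ 2 * Y by linarith)
    linarith
  let X : ℕ → ℝ := fun i => 2 ^ i * T
  have hX1 : ∀ i, 1 ≤ X i := fun i => by
    have : (1 : ℝ) ≤ 2 ^ i := one_le_pow₀ (by norm_num)
    show 1 ≤ 2 ^ i * T
    nlinarith
  have hω0 : 0 ≤ ω := by linarith
  have hsub : A ⊆ (Finset.range I).biUnion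
      (fun i => BSet θ ((2 * X i) ^ κ) ((X i) ^ (-ω)) P) := by
    intro b hb
    obtain ⟨hbI, hbp, t, ht1, ht2, k, hk1, hk2, h, hh1, hh2⟩ := Finset.mem_filter.1 hb
    have hb2 : (b : ℝ) ≤ 2 * P := by exact_mod_cast (Finset.mem_Ioc.1 hbI).2
    have ht0 : 0 < t := by linarith
    have hx : 1 ≤ t / T := (one_le_div hT0).2 ht1
    obtain ⟨i, hi1, hi2⟩ := exists_nat_pow_near hx (show (1 : ℝ) < 2 by norm_num)
    have hi1' : X i ≤ t := by
      rw [le_div_iff₀ hT0] at hi1; exact hi1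
    have hi2' : t ≤ 2 * X i := by
      rw [div_lt_iff₀ hT0, pow_succ] at hi2
      show t ≤ 2 * (2 ^ i * T)
      linarith
    have hXi0 : 0 < X i := by have := hX1 i; linarith
    refine Finset.mem_biUnion.2 ⟨i, ?_, ?_⟩
    · rw [Finset.mem_range, hI]
      have h1 : (2 : ℝ) ^ i ≤ Real.exp Y := by
        have h2 : (2 : ℝ) ^ i ≤ X i := by
          show (2 : ℝ) ^ i ≤ 2 ^ i * T
          have : (0 : ℝ) < 2 ^ i := by positivity
          nlinarith
        refine (h2.trans hi1').trans (ht2.trans (Real.exp_le_exp.2 ?_))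
        exact Real.rpow_le_rpow (Nat.cast_nonneg b) hb2 hτ0
      have h3 : (i : ℝ) * Real.log 2 ≤ Y := by
        have := Real.log_le_log (by positivity) h1
        rwa [Real.log_pow, Real.log_exp] at this
      have h4 : (i : ℝ) ≤ 2 * Y := by nlinarith [Nat.cast_nonneg (α := ℝ) i]
      exact Nat.lt_succ_of_le (Nat.le_floor h4)
    · refine Finset.mem_filter.2 ⟨hbI, hbp, k, hk1, ?_, h, hh1, ?_⟩
      · exact hk2.trans (Real.rpow_le_rpow ht0.le hi2' hκ)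
      · refine hh2.trans (mul_le_mul_of_nonneg_left ?_ (Nat.cast_nonneg k))
        exact Real.rpow_le_rpow_of_nonpos hXi0 hi1' (by linarith)
  have hcard : (A.card : ℝ) ≤ ∑ i ∈ Finset.range I,
      ((BSet θ ((2 * X i) ^ κ) ((X i) ^ (-ω)) P).card : ℝ) := by
    have := (Finset.card_le_card hsub).trans Finset.card_biUnion_le
    exact_mod_cast this
  have hone : ∀ i ∈ Finset.range I, ((BSet θ ((2 * X i) ^ κ) ((X i) ^ (-ω)) P).card : ℝ) ≤
      416 * P * (X i) ^ (-(1 / 5) : ℝ) + 24 * Y := by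
    intro i hi
    have hiI := Finset.mem_range.1 hi
    have hX := hX1 i
    have hX0 : 0 < X i := by linarith
    have h2X : 1 ≤ 2 * X i := by linarith
    have hK : 1 ≤ (2 * X i) ^ κ := Real.one_le_rpow h2X hκ
    have hδ : 0 ≤ (X i) ^ (-ω) := by positivity
    refine (card_BSet θ hK hδ (by omega : 2 ≤ P)).trans ?_
    have hlX0 : 0 ≤ Real.log (X i) := Real.log_nonneg hX
    -- the number of primes of a fiber
    have hm : Real.log (2 * P * (2 * X i) ^ κ) / Real.log P ≤ 3 + Real.log (X i) := by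
      rw [div_le_iff₀ (by linarith)]
      rw [Real.log_mul (by positivity) (by positivity), Real.log_mul (by norm_num) (by positivity),
        Real.log_rpow (by positivity), Real.log_mul (by norm_num) (by positivity)]
      have h1 : κ * (Real.log 2 + Real.log (X i)) ≤ 1 * (Real.log 2 + Real.log (X i)) :=
        mul_le_mul_of_nonneg_right hκ1 (by linarith)
      nlinarith
    have hm0 : 0 ≤ Real.log (2 * P * (2 * X i) ^ κ) / Real.log P := by
      apply div_nonneg (Real.log_nonneg _) (by linarith)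
      nlinarith
    have hlX : Real.log (X i) ≤ 10 * (X i) ^ (1 / 10 : ℝ) := by
      have := Real.log_le_rpow_div hX0.le (show (0 : ℝ) < 1 / 10 by norm_num)
      linarith
    have hX10 : 1 ≤ (X i) ^ (1 / 10 : ℝ) := Real.one_le_rpow hX (by norm_num)
    have hKδ : ((2 * X i) ^ κ) ^ 2 * (X i) ^ (-ω) ≤ 4 * (X i) ^ (-(3 / 10) : ℝ) := by
      have e1 : ((2 * X i) ^ κ) ^ 2 = (2 : ℝ) ^ (2 * κ) * (X i) ^ (2 * κ) := by
        rw [← Real.rpow_natCast, ← Real.rpow_mul (by positivity),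
          Real.mul_rpow (by norm_num) hX0.le]
        push_cast; ring_nf
      have e2 : (2 : ℝ) ^ (2 * κ) ≤ 4 := by
        calc (2 : ℝ) ^ (2 * κ) ≤ (2 : ℝ) ^ (2 : ℝ) :=
              Real.rpow_le_rpow_of_exponent_le (by norm_num) (by linarith)
          _ = 4 := by norm_num
      have e3 : (X i) ^ (2 * κ) * (X i) ^ (-ω) ≤ (X i) ^ (-(3 / 10) : ℝ) := by
        rw [← Real.rpow_add hX0]
        exact Real.rpow_le_rpow_of_exponent_le hX (by linarith)
      rw [e1, mul_assoc]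
      exact mul_le_mul e2 e3 (by positivity) (by norm_num)
    have hXX : (X i) ^ (-(3 / 10) : ℝ) * (X i) ^ (1 / 10 : ℝ) = (X i) ^ (-(1 / 5) : ℝ) := by
      rw [← Real.rpow_add hX0]; norm_num
    have hfirst : 8 * P * (((2 * X i) ^ κ) ^ 2 * (X i) ^ (-ω)) *
        (Real.log (2 * P * (2 * X i) ^ κ) / Real.log P) ≤ 416 * P * (X i) ^ (-(1 / 5) : ℝ) := by
      calc 8 * P * (((2 * X i) ^ κ) ^ 2 * (X i) ^ (-ω)) *
          (Real.log (2 * P * (2 * X i) ^ κ) / Real.log P)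
          ≤ 8 * P * (4 * (X i) ^ (-(3 / 10) : ℝ)) * (13 * (X i) ^ (1 / 10 : ℝ)) := by
            refine mul_le_mul (mul_le_mul_of_nonneg_left hKδ (by positivity)) (by linarith) hm0
              (by positivity)
        _ = 416 * P * ((X i) ^ (-(3 / 10) : ℝ) * (X i) ^ (1 / 10 : ℝ)) := by ring
        _ = _ := by rw [hXX]
    have hsec : Real.log (2 * P * (2 * X i) ^ κ) / Real.log P ≤ 12 * Y := by
      have e : Real.log (X i) = i * Real.log 2 + Real.log T := by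
        show Real.log (2 ^ i * T) = _
        rw [Real.log_mul (by positivity) (by positivity), Real.log_pow]
      have hiR : (i : ℝ) ≤ 3 * Y := by
        have : (i : ℝ) ≤ I := by exact_mod_cast hiI.le
        linarith
      have h1 : (i : ℝ) * Real.log 2 ≤ 3 * Y * 1 :=
        mul_le_mul hiR hl2a hl2.le (by linarith)
      linarith
    calc (8 * P * (((2 * X i) ^ κ) ^ 2 * (X i) ^ (-ω)) + 2) *
          (Real.log (2 * P * (2 * X i) ^ κ) / Real.log P)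
        = 8 * P * (((2 * X i) ^ κ) ^ 2 * (X i) ^ (-ω)) *
          (Real.log (2 * P * (2 * X i) ^ κ) / Real.log P) +
          2 * (Real.log (2 * P * (2 * X i) ^ κ) / Real.log P) := by ring
      _ ≤ _ := by linarith
  have hsum : (A.card : ℝ) ≤ 416 * P * (8 * T ^ (-(1 / 5) : ℝ)) + I * (24 * Y) := by
    refine hcard.trans ((Finset.sum_le_sum hone).trans ?_)
    rw [Finset.sum_add_distrib, ← Finset.mul_sum, Finset.sum_const, Finset.card_range,
      nsmul_eq_mul]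
    have := mul_le_mul_of_nonneg_left (sum_scales hT0 I) (show (0 : ℝ) ≤ 416 * P by positivity)
    linarith
  have hYY : Y * Y ≤ 2 * (P : ℝ) ^ (4 / 5 : ℝ) := by
    rw [hY, ← Real.rpow_add (by positivity)]
    calc (2 * (P : ℝ)) ^ (τ + τ) ≤ (2 * (P : ℝ)) ^ (4 / 5 : ℝ) :=
          Real.rpow_le_rpow_of_exponent_le (by linarith) (by linarith)
      _ = (2 : ℝ) ^ (4 / 5 : ℝ) * (P : ℝ) ^ (4 / 5 : ℝ) := Real.mul_rpow (by norm_num) hP0.le
      _ ≤ 2 * (P : ℝ) ^ (4 / 5 : ℝ) := by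
          apply mul_le_mul_of_nonneg_right _ (by positivity)
          calc (2 : ℝ) ^ (4 / 5 : ℝ) ≤ (2 : ℝ) ^ (1 : ℝ) :=
                Real.rpow_le_rpow_of_exponent_le (by norm_num) (by norm_num)
            _ = 2 := Real.rpow_one 2
  have hIY : (I : ℝ) * (24 * Y) ≤ 144 * (P : ℝ) ^ (4 / 5 : ℝ) := by
    have h1 : (I : ℝ) * (24 * Y) ≤ 3 * Y * (24 * Y) :=
      mul_le_mul_of_nonneg_right hIR (by linarith)
    nlinarith
  calc (A.card : ℝ) ≤ 416 * P * (8 * T ^ (-(1 / 5) : ℝ)) + I * (24 * Y) := hsum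
    _ ≤ 416 * P * (8 * T ^ (-(1 / 5) : ℝ)) + 144 * (P : ℝ) ^ (4 / 5 : ℝ) := by linarith
    _ = (3328 * T ^ (-(1 / 5) : ℝ) + 144 * (P : ℝ) ^ (-(1 / 5) : ℝ)) * P := by rw [hPm]; ring


/-- density of the births at the scales `≥ (log p)^A` -/
lemma bir_log {κ ω τ : ℝ} (hκ : 0 ≤ κ) (hκ1 : κ ≤ 1) (hω : 2 * κ + 3 / 10 ≤ ω) (hτ0 : 0 ≤ τ)
    (hτ : τ ≤ 2 / 5) (E : ℝ) (hE : 0 ≤ E) :
    ∃ p₁ : ℕ, ∀ A : ℝ, 5 * (E + 1) ≤ A → ∀ P ≥ p₁, ∀ θ : ℝ,
    open Classical in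
    ∑ p ∈ (blk P (2 * P)).filter (fun p : ℕ => Bir κ ω τ θ (Real.log p ^ A) p), (1 / (p : ℝ)) ≤
      Real.log P ^ (-E) := by
  classical
  have hlit := (isLittleO_log_rpow_rpow_atTop E (show (0 : ℝ) < 1 / 5 by norm_num)).bound
    (show (0 : ℝ) < 1 / 288 by norm_num)
  obtain ⟨y, hy⟩ := Filter.eventually_atTop.1 hlit
  refine ⟨⌈|y|⌉₊ + ⌈Real.exp 6656⌉₊ + 3, fun A hA P hP θ => ?_⟩
  have hP3 : 3 ≤ P := by omega
  have hP0 : (0 : ℝ) < P := by exact_mod_cast (by omega : 0 < P)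
  have hx : 6656 ≤ Real.log P := by
    rw [Real.le_log_iff_exp_le hP0]
    have h1 : Real.exp 6656 ≤ ⌈Real.exp 6656⌉₊ := Nat.le_ceil _
    have h2 : ((⌈Real.exp 6656⌉₊ : ℕ) : ℝ) ≤ P := by
      have : ⌈Real.exp 6656⌉₊ ≤ P := by omega
      exact_mod_cast this
    linarith
  have hX0 : 0 < Real.log P := by linarith
  have hX1 : 1 ≤ Real.log P := by linarith
  have hyP : y ≤ P := by
    have h5 : |y| ≤ ⌈|y|⌉₊ := Nat.le_ceil _
    have h6 : ((⌈|y|⌉₊ : ℕ) : ℝ) ≤ P := by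
      have : ⌈|y|⌉₊ ≤ P := by omega
      exact_mod_cast this
    linarith [le_abs_self y]
  have h8 := hy P hyP
  rw [Real.norm_eq_abs, Real.norm_eq_abs, abs_of_nonneg (by positivity),
    abs_of_nonneg (by positivity)] at h8
  have hA0 : 0 ≤ A := by linarith
  -- the scale
  set T := Real.log P ^ A with hT
  have hT1 : 1 ≤ T := Real.one_le_rpow hX1 hA0
  have hT49 : Real.log P ^ (E + 1) ≤ T ^ (1 / 5 : ℝ) := by
    rw [hT, ← Real.rpow_mul hX0.le]
    exact Real.rpow_le_rpow_of_exponent_le hX1 (by linarith)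
  have hsub : (blk P (2 * P)).filter (fun p : ℕ => Bir κ ω τ θ (Real.log p ^ A) p) ⊆
      (Finset.Ioc P (2 * P)).filter (fun b : ℕ => b.Prime ∧ Bir κ ω τ θ T b) := by
    intro p hp
    obtain ⟨h1, h2⟩ := Finset.mem_filter.1 hp
    have h3 := mem_blk33.1 h1
    refine Finset.mem_filter.2 ⟨Finset.mem_Ioc.2 ⟨h3.1, h3.2.1⟩, h3.2.2, Bir.mono ?_ h2⟩
    exact Real.rpow_le_rpow hX0.le (Real.log_le_log hP0 (by exact_mod_cast h3.1.le)) hA0
  refine (Finset.sum_le_sum_of_subset_of_nonneg hsub fun _ _ _ => by positivity).trans ?_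
  refine (bir_dens hκ hκ1 hω hτ0 hτ θ hT1 hP3).trans ?_
  have e1 : 3328 * T ^ (-(1 / 5) : ℝ) ≤ 1 / 2 * Real.log P ^ (-E) := by
    rw [Real.rpow_neg (by positivity), Real.rpow_neg hX0.le, ← one_div, ← one_div]
    have h9 : 1 / T ^ (1 / 5 : ℝ) ≤ 1 / Real.log P ^ (E + 1) :=
      one_div_le_one_div_of_le (by positivity) hT49
    have h10 : 1 / Real.log P ^ (E + 1) = 1 / Real.log P ^ E * (1 / Real.log P) := by
      rw [Real.rpow_add hX0, Real.rpow_one]; field_simp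
    have h11 : 1 / Real.log P ≤ 1 / 6656 := one_div_le_one_div_of_le (by norm_num) hx
    have h12 : 0 ≤ 1 / Real.log P ^ E := by positivity
    calc 3328 * (1 / T ^ (1 / 5 : ℝ)) ≤ 3328 * (1 / Real.log P ^ E * (1 / Real.log P)) := by
          rw [← h10]; linarith
      _ ≤ 3328 * (1 / Real.log P ^ E * (1 / 6656)) := by
          have := mul_le_mul_of_nonneg_left h11 h12
          linarith
      _ = 1 / 2 * (1 / Real.log P ^ E) := by ring
  have e2 : 144 * (P : ℝ) ^ (-(1 / 5) : ℝ) ≤ 1 / 2 * Real.log P ^ (-E) := by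
    rw [Real.rpow_neg hP0.le, Real.rpow_neg hX0.le]
    have h9 : 0 < Real.log P ^ E := by positivity
    have h10 : 0 < (P : ℝ) ^ (1 / 5 : ℝ) := by positivity
    rw [← one_div, ← one_div, mul_one_div, mul_one_div, div_le_div_iff₀ h10 h9]
    linarith
  linarith

/-! ### the prune -/

/-- **no birth at the missing ties and the up primes**, denominators `≤ t^(1/4)`, windows `t^(-4/5)`,
scales `t ∈ [(log p)^A, exp (p^(1/4))]` -/
def NoBir (γ A : ℝ) (t : IT) (q : ℕ) : Prop :=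
  ∀ p, (p ∈ t.mt q ∨ p ∈ t.uq q) →
    ¬ Bir (1 / 4) (4 / 5) (1 / 4) (PruneAcc17.Bab t q p * γ) (Real.log p ^ A) p

open Crest.Agent.R4.Max709 Crest.Agent.R4.Soft104 Crest.Agent.R4P.Skel189

open Classical in
/-- **the pruned set**: no births, target `γ`, scales `≥ (log p)^A` -/
noncomputable def SxBir (γ A B C1 c2 : ℝ) (p0 : ℕ) (ψ : ℕ → ℝ) (S : Finset ℕ) : Finset ℕ :=
  S.filter fun q => NoBir γ A (bld (Bld532.par B C1 c2 p0) (w ψ) (top S) 1 1 S) q

/-- **mass of the pruned set** (form of `TagN.hS2'`) -/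
theorem SxBir_mass (γ A B C1 c2 ε : ℝ) (hε : 0 < ε) (hB : 0 ≤ B) (hC1 : 0 ≤ C1) (hc2 : 0 ≤ c2)
    (hA : 5 * (B + C1 + c2 + 3) ≤ A) :
    ∃ p₁ : ℕ, ∀ p0 ≥ p₁, ∃ Q₁ : ℕ, ∀ P₀ ≥ Q₁, ∀ (ψ : ℕ → ℝ) (S : Finset ℕ), SysM P₀ ψ S →
      SxBir γ A B C1 c2 p0 ψ S ⊆ S ∧
        (1 - ε) * Ws (w ψ) S ≤ Ws (w ψ) (SxBir γ A B C1 c2 p0 ψ S) := by
  classical
  obtain ⟨p1, h1⟩ := PruneAcc17.prune_ev B C1 c2 ε hε hB hC1 hc2
  obtain ⟨p2, h2⟩ := bir_log (κ := 1 / 4) (ω := 4 / 5) (τ := 1 / 4) (by norm_num) (by norm_num)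
    (by norm_num) (by norm_num) (by norm_num) (B + C1 + c2 + 2) (by positivity)
  refine ⟨p1 + p2, fun p0 hp0 => ⟨0, fun P₀ _ ψ S hS => ⟨Finset.filter_subset _ _, ?_⟩⟩⟩
  have key := (h1 p0 (by omega)).2
    (fun B' p => Bir (1 / 4) (4 / 5) (1 / 4) ((B' : ℝ) * γ) (Real.log p ^ A) p)
    (fun B' P hP => by
      have := h2 A (by linarith) P (by omega) ((B' : ℝ) * γ)
      convert this using 2)
    (w ψ) (fun q => w_nonneg hS.nonneg q) (top S) S hS.pos
  exact key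

/-- **the items of a context have no births** -/
theorem NoBir.of {N : Skel189.Num} {γ : ℝ} {p0 P₀ : ℕ} {A : ℝ} (X : Ctx N γ p0 P₀)
    (h : N.S2 p0 X.ψ X.S ⊆ SxBir γ A N.B N.C1 N.c2 p0 X.ψ X.S) {q : ℕ} (hq : q ∈ X.S') :
    NoBir γ A X.c.t q := by
  classical
  have h1 := h (X.prn.sub2 hq)
  have h2 := (Finset.mem_filter.1 h1).2
  rw [X.ht]
  exact h2

end Crest.Agent.R4P.PruneBir12
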