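import Crest.Agent.R4P.FinEE_26
import Crest.Agent.R4P.SxT_6

/-!
R4 (S0004), POWERS, helper26: **S0004 from the two targets with absorption, for a smaller prune**
(copy of helper6's `SxT_6` for `TgtTopE`, `TgtCrsE`).

* `TgtWPE ε N γ P loc`, `TgtTopPE ε Sy`, `TgtCrsPE ε Sy`; `TgtWE.toP`.
* `S0004_PE` : **S0004 from `TgtTopPE (1/16) Sy`, `TgtCrsPE (1/16) Sy`**.
-/

set_option autoImplicit false
set_option linter.unusedSectionVars false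
set_option linter.unusedVariables false

open MeasureTheory Filter

namespace Crest.Agent.R4P.SxE26

open Crest.Agent.R4.Tour104 Crest.Agent.R4.Tour758 Crest.Agent.R4.Avg758 Crest.Agent.R4.Clos758
open Crest.Agent.R4.ClosL758 Crest.Agent.R4.ClosG758 Crest.Agent.R4.ClosR758
open Crest.Agent.R4.Fam464 Crest.Agent.R4P.Cnt588 Crest.Agent.R4P.Walk560 Crest.Agent.R4P.Item758
open Crest.Agent.R4.Soft104 Crest.Agent.R4.Max709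
open Crest.Agent.R4P.Bld532 (NS All NodeOk)
open Crest.Agent.R4P.Data758 Crest.Agent.R4P.SkelF29 Crest.Agent.R4P.Strip29
open Crest.Agent.R4P.Skel189 Crest.Agent.R4P.OSWS245 Crest.Agent.R4P.ParF5 Crest.Agent.R4P.Fin5
open Crest.Agent.R4P.NumX34
open Crest.Agent.R4.Fin532 (MAIN)
open Crest.Agent.R4P.FinAll26 Crest.Agent.R4P.FinT26 Crest.Agent.R4P.FinE26
open Crest.Agent.R4P.ExK26 Crest.Agent.R4P.PowTag83 Crest.Agent.R4P.FinX26 Crest.Agent.R4P.PayA26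
open Crest.Agent.R4P.TW17 Crest.Agent.R4P.StripT26 Crest.Agent.R4P.SkelE26 Crest.Agent.R4P.FrameT26
open Crest.Agent.R4P.TE26 Crest.Agent.R4P.StripE26 Crest.Agent.R4P.Mrg35 Crest.Agent.R4P.PayR26
open Crest.Agent.R4P.NumG23 (exists_numFinG NumG SxF SxF_mass aAcc)
open Crest.Agent.R4P

open Crest.Agent.R4P.SxT6 Crest.Agent.R4P.FinEE26

/-- **a local error is paid at the self states, in the contexts with `P`**, with absorption -/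
def TgtWPE (ε : ℝ) (N : Skel189.Num) (γ : ℝ) (P : ∀ {p0 P₀ : ℕ} (X : Ctx N γ p0 P₀), Prop)
    (loc : ∀ {p0 P₀ : ℕ} (X : Ctx N γ p0 P₀) (j₀ : X.c.Lam), Fl × X.Sta → ℝ) : Prop :=
  ∃ a : ℝ, 0 ≤ a ∧ Ev N γ fun p0 P₀ X => CF X → P X → ∀ (j₀ : X.c.Lam) (Hb : NS → IT → Prop),
    PartTE X j₀ Hb (loc X j₀) ε a

lemma TgtWE.toP {ε : ℝ} {N : Skel189.Num} {γ : ℝ} {P : ∀ {p0 P₀ : ℕ} (X : Ctx N γ p0 P₀), Prop}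
    {loc : ∀ {p0 P₀ : ℕ} (X : Ctx N γ p0 P₀) (j₀ : X.c.Lam), Fl × X.Sta → ℝ}
    (h : TgtWE ε N γ loc) : TgtWPE ε N γ P loc := by
  obtain ⟨a, ha, h⟩ := h
  exact ⟨a, ha, h.mono fun p0 P₀ X hh hC _ => hh hC⟩

lemma TgtWP.toE {ε : ℝ} (hε : 0 ≤ ε) {N : Skel189.Num} {γ : ℝ}
    {P : ∀ {p0 P₀ : ℕ} (X : Ctx N γ p0 P₀), Prop}
    {loc : ∀ {p0 P₀ : ℕ} (X : Ctx N γ p0 P₀) (j₀ : X.c.Lam), Fl × X.Sta → ℝ}
    (h : TgtWP N γ P loc) : TgtWPE ε N γ P loc := by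
  obtain ⟨a, ha, h⟩ := h
  exact ⟨a, ha, h.mono fun p0 P₀ X hh hC hP j₀ Hb => PartT.toE hε (hh hC hP j₀ Hb)⟩

/-- **`TgtTop` with absorption and a further prune** -/
def TgtTopPE (ε : ℝ) (Sy : ℝ → ℝ → ℕ → (ℕ → ℝ) → Finset ℕ → Finset ℕ) (N : Skel189.Num) (γ : ℝ) :
    Prop :=
  TgtWPE ε N γ (fun X => InS Sy N γ X) fun X j₀ => xC (SXN X j₀)

/-- **`TgtCrs` with absorption and a further prune** -/
def TgtCrsPE (ε : ℝ) (Sy : ℝ → ℝ → ℕ → (ℕ → ℝ) → Finset ℕ → Finset ℕ) (N : Skel189.Num) (γ : ℝ) :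
    Prop :=
  TgtWPE ε N γ (fun X => InS Sy N γ X) fun X j₀ => xX (X.c.D.par X.Y).rho (SXN X j₀)

/-! ### the transport -/

variable {N : Skel189.Num} {S2 : ℕ → (ℕ → ℝ) → Finset ℕ → Finset ℕ} {γ : ℝ}

theorem tgtWPE_up {ε : ℝ} {th : ℕ → ℕ → ℝ} {Ct C₀ : ℝ} {Sx : ℕ → (ℕ → ℝ) → Finset ℕ → Finset ℕ}
    (h : NumOK N th Ct C₀ Sx) (hs : ∀ p0 ψ S, S2 p0 ψ S ⊆ N.S2 p0 ψ S)
    {P : ∀ {p0 P₀ : ℕ} (X : Ctx N γ p0 P₀), Prop}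
    (hP : ∀ {p0 P₀ : ℕ} (X : Ctx (mk N S2) γ p0 P₀), P (upC hs X))
    {loc : ∀ {p0 P₀ : ℕ} (X : Ctx N γ p0 P₀) (j₀ : X.c.Lam), Fl × X.Sta → ℝ}
    {loc' : ∀ {p0 P₀ : ℕ} (X : Ctx (mk N S2) γ p0 P₀) (j₀ : X.c.Lam), Fl × X.Sta → ℝ}
    (hl : ∀ {p0 P₀ : ℕ} (X : Ctx (mk N S2) γ p0 P₀) (j₀ : X.c.Lam) (Hb : NS → IT → Prop) (a : ℝ),
      PartTE (upC hs X) j₀ Hb (loc (upC hs X) j₀) ε a → PartTE X j₀ Hb (loc' X j₀) ε a)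
    (hT : TgtWPE ε N γ P loc) : TgtWE ε (mk N S2) γ loc' := by
  obtain ⟨a, ha, hT⟩ := hT
  obtain ⟨p1, h1⟩ := NumOK.facts h
  have hC : Ev N γ fun p0 P₀ X => CF X := Ev.of (p₁ := p1) fun p0 hp P₀ _ X => h1 p0 hp γ P₀ X
  exact ⟨a, ha, (Ev.up hs (hC.and hT)).mono fun p0 P₀ X hh _ j₀ Hb =>
    hl X j₀ Hb a (hh.2 hh.1 (hP X) j₀ Hb)⟩

lemma partTE_top {ε : ℝ} (hs : ∀ p0 ψ S, S2 p0 ψ S ⊆ N.S2 p0 ψ S) {p0 P₀ : ℕ}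
    (X : Ctx (mk N S2) γ p0 P₀) (j₀ : X.c.Lam) (Hb : NS → IT → Prop) (a : ℝ)
    (h : PartTE (upC hs X) j₀ Hb (xC (SXN (upC hs X) j₀)) ε a) :
    PartTE X j₀ Hb (xC (SXN X j₀)) ε a := h

lemma partTE_crs {ε : ℝ} (hs : ∀ p0 ψ S, S2 p0 ψ S ⊆ N.S2 p0 ψ S) {p0 P₀ : ℕ}
    (X : Ctx (mk N S2) γ p0 P₀) (j₀ : X.c.Lam) (Hb : NS → IT → Prop) (a : ℝ)
    (h : PartTE (upC hs X) j₀ Hb (xX ((upC hs X).c.D.par (upC hs X).Y).rho (SXN (upC hs X) j₀)) ε a) :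
    PartTE X j₀ Hb (xX (X.c.D.par X.Y).rho (SXN X j₀)) ε a := h

/-- **`MAIN` from the targets with a further prune** -/
theorem MAIN_PE {th : ℕ → ℕ → ℝ} {Ct C₀ : ℝ} {Sx : ℕ → (ℕ → ℝ) → Finset ℕ → Finset ℕ}
    {Sy : ℝ → ℝ → ℕ → (ℕ → ℝ) → Finset ℕ → Finset ℕ} (h : NumOK N th Ct C₀ Sx)
    (hx : ∃ p₁ : ℕ, ∀ p0 ≥ p₁, ∃ Q₁ : ℕ, ∀ P₀ ≥ Q₁, ∀ (ψ : ℕ → ℝ) (S : Finset ℕ), SysM P₀ ψ S →
      Sx p0 ψ S ⊆ S ∧ (1 - 1 / 8) * Ws (w ψ) S ≤ Ws (w ψ) (Sx p0 ψ S))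
    (hy : MassP (Sy γ N.C1)) (hX : TgtX (mk N fun p0 ψ S => S2t p0 ψ S ∩ (Sx p0 ψ S ∩
      Sy γ N.C1 p0 ψ S)) γ)
    (hSe : TgtSelf N γ) (hTo : TgtTopPE (1 / 16) Sy N γ) (hCr : TgtCrsPE (1 / 16) Sy N γ)
    (hL : TgtL N γ) (hD : TgtD N γ) : MAIN γ := by
  classical
  have hs : ∀ p0 ψ S, S2t p0 ψ S ∩ (Sx p0 ψ S ∩ Sy γ N.C1 p0 ψ S) ⊆ N.S2 p0 ψ S := by
    intro p0 ψ S q hq
    rw [h.S2]
    rw [Finset.mem_inter] at hq ⊢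
    exact ⟨hq.1, (Finset.mem_inter.1 hq.2).1⟩
  have hP : ∀ {p0 P₀ : ℕ} (X : Ctx (mk N fun p0 ψ S => S2t p0 ψ S ∩ (Sx p0 ψ S ∩
      Sy γ N.C1 p0 ψ S)) γ p0 P₀), InS Sy N γ (upC hs X) := by
    intro p0 P₀ X q hq
    have h1 := X.prn.sub2 hq
    exact (Finset.mem_inter.1 (Finset.mem_inter.1 h1).2).2
  obtain ⟨p1, h1⟩ := NumOK.facts h
  have hC : Ev N γ fun p0 P₀ X => CF X := Ev.of (p₁ := p1) fun p0 hp P₀ _ X => h1 p0 hp γ P₀ X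
  refine MAIN_EE (numOK_mk h hx hy) hX ?_ ?_ ?_ ?_ ?_
  · exact tgtWP_up h hs (P := fun _ => True) (fun _ => trivial)
      (fun X j₀ Hb a hh => partT_self hs X j₀ Hb a hh)
      (TgtW.toP (loc := fun X j₀ => xS (X.c.D.par X.Y).rho (SXN X j₀)) hSe)
  · exact tgtWPE_up h hs hP (fun X j₀ Hb a hh => partTE_top hs X j₀ Hb a hh) hTo
  · exact tgtWPE_up h hs hP (fun X j₀ Hb a hh => partTE_crs hs X j₀ Hb a hh) hCr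
  · obtain ⟨B₀, a, ha, hL⟩ := hL
    exact ⟨B₀, a, ha, (Ev.up hs (hC.and hL)).mono fun p0 P₀ X hh _ B hB j₀ Hb =>
      partT_L hs X j₀ Hb a B (hh.2 hh.1 B hB j₀ Hb)⟩
  · obtain ⟨a, ha, hD⟩ := hD
    exact ⟨a, ha, (Ev.up hs (hC.and hD)).mono fun p0 P₀ X hh _ j₀ Hb =>
      partF_D hs X j₀ Hb a (hh.2 hh.1 j₀ Hb)⟩

/-- **S0004 from the two targets with a further prune** `Sy` of mass `≥ 1 - 1/16` -/
theorem S0004_PE {Sy : ℝ → ℝ → ℕ → (ℕ → ℝ) → Finset ℕ → Finset ℕ} {cS : ℝ}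
    (hSy : ∀ γ C1 : ℝ, cS ≤ C1 → MassP (Sy γ C1))
    (hTo : ForN ParT21.thF SxF (TgtTopPE (1 / 16) Sy))
    (hCr : ForN ParT21.thF SxF (TgtCrsPE (1 / 16) Sy))
    (γ : ℝ) (ψ : ℕ → ℝ)
    (hψ : ∀ q, 0 ≤ ψ q) (hdiv : ¬ Summable fun q : ℕ => (Nat.totient q : ℝ) / q * ψ q) :
    ∀ᵐ x : ℝ, ∃ᶠ q : ℕ in atTop, |(q : ℝ) * x - γ - round ((q : ℝ) * x - γ)| < ψ q := by
  obtain ⟨cX, hX⟩ := TgtXF26.tgtX_fin
  obtain ⟨c1, h1⟩ := TgSelf10.tgtSelf_fin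
  obtain ⟨c2, h2⟩ := hTo
  obtain ⟨c3, h3⟩ := hCr
  obtain ⟨c4, h4⟩ := ExL26.tgtL_fin EK17.tgtEK_fin
  obtain ⟨c5, h5⟩ := TgtDF7.tgtD_fin
  obtain ⟨C₀, -, H⟩ := exists_numFinG
  refine Fin5.S0004_of (fun γ => ?_) γ ψ hψ hdiv
  set cM := max (max (max cX c1) (max c2 c3)) (max (max c4 c5) (max cS 0)) with hcM
  have l1 : cX ≤ cM := ((le_max_left _ _).trans (le_max_left _ _)).trans (le_max_left _ _)
  have l2 : c1 ≤ cM := ((le_max_right _ _).trans (le_max_left _ _)).trans (le_max_left _ _)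
  have l3 : c2 ≤ cM := ((le_max_left _ _).trans (le_max_right _ _)).trans (le_max_left _ _)
  have l4 : c3 ≤ cM := ((le_max_right _ _).trans (le_max_right _ _)).trans (le_max_left _ _)
  have l5 : c4 ≤ cM := ((le_max_left _ _).trans (le_max_left _ _)).trans (le_max_right _ _)
  have l6 : c5 ≤ cM := ((le_max_right _ _).trans (le_max_left _ _)).trans (le_max_right _ _)
  have l7 : cS ≤ cM := ((le_max_left _ _).trans (le_max_right _ _)).trans (le_max_right _ _)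
  have l8 : 0 ≤ cM := ((le_max_right _ _).trans (le_max_right _ _)).trans (le_max_right _ _)
  have hxx : ∀ C1 : ℝ, cM ≤ C1 → ∃ p₁ : ℕ, ∀ p0 ≥ p₁, ∃ Q₁ : ℕ, ∀ P₀ ≥ Q₁, ∀ (ψ : ℕ → ℝ)
      (S : Finset ℕ), SysM P₀ ψ S →
      SxF γ C1 p0 ψ S ⊆ S ∧ (1 - 1 / 8) * Ws (w ψ) S ≤ Ws (w ψ) (SxF γ C1 p0 ψ S) :=
    fun C1 hC1 => SxF_mass γ C1 (l8.trans hC1)
  obtain ⟨N, Ct, m1, m2, m3⟩ := H cM ParT21.thF (SxF γ) ParT21.thF_ok hxx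
  have red : ∀ c : ℝ, c ≤ cM → NumFin N (ParT21.thF Ct) Ct c := fun c hc =>
    ⟨hc.trans m2.C1, m2.c2, m2.B, m2.A, m2.a', m2.a, m2.Ct, m2.rg⟩
  have hy : MassP (Sy γ N.C1) := hSy γ N.C1 (l7.trans m2.C1)
  refine MAIN_PE m1 (hxx N.C1 m2.C1) hy ?_ (h1 N Ct C₀ γ m1 (red _ l2) m3)
    (h2 N Ct C₀ γ m1 (red _ l3) m3) (h3 N Ct C₀ γ m1 (red _ l4) m3)
    (h4 N Ct C₀ γ m1 (red _ l5) m3) (h5 N Ct C₀ γ m1 (red _ l6) m3)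
  exact hX _ (ParT21.thF Ct) Ct C₀ γ _ (numOK_mk m1 (hxx N.C1 m2.C1) hy) (numFin_mk (red _ l1))

end Crest.Agent.R4P.SxE26
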