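import Crest.Agent.R4P.GainX_36
import Crest.Agent.R4P.SxE_26

/-!
R4 (S0004) with powers, group [W-eSHR], helper36: **`TgtTopPE ε Sy` from the group walks of the parts**
(with absorption of `ε I (tot²)` and a further prune).

* `tgtTopPE_of` : from bounds of `GS (lD ix)` at the nodes (`lD` of PN_36).
* `GTop ε N γ P a` : the hypothesis in one definition; `tgtTopPE_of_W1` : with the gains of `W1`.
-/

set_option autoImplicit false
set_option linter.unusedSectionVars false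
set_option linter.unusedVariables false
open MeasureTheory Filter

namespace Crest.Agent.R4P.TopE36

open Crest.Agent.R4.Tour104 Crest.Agent.R4.Tour758 Crest.Agent.R4.Avg758 Crest.Agent.R4.Clos758
open Crest.Agent.R4.ClosL758 Crest.Agent.R4.ClosG758 Crest.Agent.R4.ClosR758
open Crest.Agent.R4P.ClosR442 Crest.Agent.R4P.Walk560 Crest.Agent.R4P.Grp36
open Crest.Agent.R4P.Xfer36 Crest.Agent.R4P.TopC36 Crest.Agent.R4P.TW17 Crest.Agent.R4P.TE26
open Crest.Agent.R4P.Cnt588 Crest.Agent.R4P.Data758 Crest.Agent.R4P.Skel189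
open Crest.Agent.R4P.Bld532 (NS All)
open Crest.Agent.R4P.Fin5 (CF)
open Crest.Agent.R4P.FinT26 Crest.Agent.R4P.FinE26 Crest.Agent.R4P.FinX26
open Crest.Agent.R4P.Mrg35 Crest.Agent.R4P.SkelF29 Crest.Agent.R4P.Item758
open Crest.Agent.R4P.TopX36 Crest.Agent.R4P.PN36 Crest.Agent.R4P.GainX36
open Crest.Agent.R4P.FinEE26 Crest.Agent.R4P.SxE26 Crest.Agent.R4P.SxT6
open Crest.Agent.R4P.StripT26
open Crest.Agent.R4P

variable {N : Skel189.Num} {γ : ℝ}

/-- the group walks of the parts at all nodes, with the error `a (μ + μ²) + ε I (tot²)` -/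
def GTop (ε : ℝ) (N : Skel189.Num) (γ : ℝ) (P : ∀ {p0 P₀ : ℕ} (X : Ctx N γ p0 P₀), Prop) : Prop :=
  ∃ a : ℝ, 0 ≤ a ∧ Ev N γ fun p0 P₀ X => CF X → P X → ∀ j₀ : X.c.Lam,
    All (fun u τ => ∀ n, GS (lD (ixL (X := X))) n (X.self u τ Finset.univ).p
      [((1 : ℝ), (X.self u τ Finset.univ).t)] ≤ a * (X.mu j₀ u τ Finset.univ +
      X.mu j₀ u τ Finset.univ * X.mu j₀ u τ Finset.univ) +
      ε * I (fun x => tt Finset.univ (X.g u τ) x ^ 2)) ⟨top X.S, 1, 1, 1⟩ X.c.t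

/-- **the top target from the group walks of the parts** -/
theorem tgtWPE_of {ε : ℝ} {P : ∀ {p0 P₀ : ℕ} (X : Ctx N γ p0 P₀), Prop} (h : GTop ε N γ P) :
    TgtWPE ε N γ P fun X j₀ => xC (SXN X j₀) := by
  obtain ⟨a, ha, h⟩ := h
  refine ⟨a, ha, h.mono fun p0 P₀ X hh hC hP j₀ Hb => ?_⟩
  refine All.mono (fun u τ hh _ _ => ?_) (All.and (All.and (hh hC hP j₀) (ctx_xC_le X j₀))
    (All.and (ctx_Wg X j₀) (ctx_NOk X j₀)))
  obtain ⟨n, hn⟩ := hh.1.2
  have h1 := hn.trans (GS_lD_le n _ hh.2.1 (GAll.one hh.2.2))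
  have h2 := hh.1.1 n
  show WF (SXN X j₀) (xC (SXN X j₀)) (Fl.self, X.self u τ Finset.univ) -
    ε * I (fun x => tt Finset.univ (X.g u τ) x ^ 2) ≤ _
  linarith

theorem tgtTopPE_of {ε : ℝ} {Sy : ℝ → ℝ → ℕ → (ℕ → ℝ) → Finset ℕ → Finset ℕ}
    (h : GTop ε N γ fun X => InS Sy N γ X) : TgtTopPE ε Sy N γ := tgtWPE_of h

theorem tgtTopE_of {ε : ℝ} (h : GTop ε N γ fun _ => True) : TgtTopE ε N γ := by
  obtain ⟨a, ha, h⟩ := tgtWPE_of h
  exact ⟨a, ha, h.mono fun p0 P₀ X hh hC j₀ => hh hC trivial j₀⟩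

end Crest.Agent.R4P.TopE36
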