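import Crest.Agent.R4P.SxE_26
import Crest.Agent.R4P.TopE_36
import Crest.Agent.R4P.SecO_25

/-!
R4 (S0004), POWERS, helper25: **S0004 from the two targets with the bootstrap hypothesis** (copy of
helper26's `FinEE_26`, `SxE_26` and of helper36's `TopE_36`).

* `TgtWPB ε N γ P loc` : the local error is paid at the nodes which satisfy the bootstrap hypothesis
  `BootF X j₀ 0 Kb`, for all `Kb ≤ M (log p0)^M`; `TgtTopB`, `TgtCrsB`, `TgtTopPB`, `TgtCrsPB`.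
* `MAIN_EB`, `MAIN_PB`, `S0004_PB` : **S0004 from `TgtTopPB (1/16) Sy`, `TgtCrsPB (1/16) Sy`**;
  `S0004_PB1` : from `TgtTopPB (1/16) Sy` and `TgtCrsE (1/16)`.
* `GTopB`, `tgtTopPB_of` : `TgtTopPB` from the group walks of the parts.
-/

set_option autoImplicit false
set_option linter.unusedSectionVars false
set_option linter.unusedVariables false

open MeasureTheory Filter

namespace Crest.Agent.R4P.FinEB25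

open Crest.Agent.R4.Tour104 Crest.Agent.R4.Tour758 Crest.Agent.R4.Avg758 Crest.Agent.R4.Clos758
open Crest.Agent.R4.ClosL758 Crest.Agent.R4.ClosG758 Crest.Agent.R4.ClosR758
open Crest.Agent.R4.Fam464 Crest.Agent.R4P.Cnt588 Crest.Agent.R4P.Walk560 Crest.Agent.R4P.Item758
open Crest.Agent.R4.Soft104 Crest.Agent.R4.Max709
open Crest.Agent.R4P.Bld532 (NS All NodeOk)
open Crest.Agent.R4P.Data758 Crest.Agent.R4P.SkelF29 Crest.Agent.R4P.Strip29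
open Crest.Agent.R4P.Skel189 Crest.Agent.R4P.OSWS245 Crest.Agent.R4P.ParF5 Crest.Agent.R4P.Fin5
open Crest.Agent.R4P.NumX34
open Crest.Agent.R4.Fin532 (MAIN)
open Crest.Agent.R4P.PayA26 Crest.Agent.R4P.FinX26 Crest.Agent.R4P.Mrg35 Crest.Agent.R4P.PayR26
open Crest.Agent.R4P.KindPay36 (CA KOk)
open Crest.Agent.R4P.AccAl31 (alX)
open Crest.Agent.R4P.FinAll26 Crest.Agent.R4P.TW17 Crest.Agent.R4P.StripT26
open Crest.Agent.R4P.SkelE26 Crest.Agent.R4P.FrameT26 Crest.Agent.R4P.FinT26 Crest.Agent.R4P.FinE26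
open Crest.Agent.R4P.TE26 Crest.Agent.R4P.StripE26
open Crest.Agent.R4P.NumG23 (exists_numFinG NumG SxF SxF_mass aAcc)
open Crest.Agent.R4P
open Crest.Agent.R4P.FinEE26 Crest.Agent.R4P.SxT6 Crest.Agent.R4P.SxE26

variable {N : Skel189.Num} {γ : ℝ}

/-- **a local error is paid at the self states of the nodes with the bootstrap hypothesis** -/
def TgtWPB (ε : ℝ) (N : Skel189.Num) (γ : ℝ) (P : ∀ {p0 P₀ : ℕ} (X : Ctx N γ p0 P₀), Prop)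
    (loc : ∀ {p0 P₀ : ℕ} (X : Ctx N γ p0 P₀) (j₀ : X.c.Lam), Fl × X.Sta → ℝ) : Prop :=
  ∃ a : ℝ, 0 ≤ a ∧ ∀ M : ℝ, 0 ≤ M → Ev N γ fun p0 P₀ X => CF X → P X → ∀ (j₀ : X.c.Lam) (Kb : ℝ),
    0 ≤ Kb → Kb ≤ M * Real.log p0 ^ M →
      PartTE X j₀ (BootF X j₀ (fun _ _ => 0) Kb) (loc X j₀) ε a

/-- the same for all the contexts -/
def TgtWB (ε : ℝ) (N : Skel189.Num) (γ : ℝ)
    (loc : ∀ {p0 P₀ : ℕ} (X : Ctx N γ p0 P₀) (j₀ : X.c.Lam), Fl × X.Sta → ℝ) : Prop :=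
  ∃ a : ℝ, 0 ≤ a ∧ ∀ M : ℝ, 0 ≤ M → Ev N γ fun p0 P₀ X => CF X → ∀ (j₀ : X.c.Lam) (Kb : ℝ),
    0 ≤ Kb → Kb ≤ M * Real.log p0 ^ M →
      PartTE X j₀ (BootF X j₀ (fun _ _ => 0) Kb) (loc X j₀) ε a

lemma TgtWPE.toB {ε : ℝ} {P : ∀ {p0 P₀ : ℕ} (X : Ctx N γ p0 P₀), Prop}
    {loc : ∀ {p0 P₀ : ℕ} (X : Ctx N γ p0 P₀) (j₀ : X.c.Lam), Fl × X.Sta → ℝ}
    (h : TgtWPE ε N γ P loc) : TgtWPB ε N γ P loc := by
  obtain ⟨a, ha, h⟩ := h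
  exact ⟨a, ha, fun M _ => h.mono fun p0 P₀ X hh hC hP j₀ Kb _ _ => hh hC hP j₀ _⟩

lemma TgtWE.toB {ε : ℝ}
    {loc : ∀ {p0 P₀ : ℕ} (X : Ctx N γ p0 P₀) (j₀ : X.c.Lam), Fl × X.Sta → ℝ}
    (h : TgtWE ε N γ loc) : TgtWB ε N γ loc := by
  obtain ⟨a, ha, h⟩ := h
  exact ⟨a, ha, fun M _ => h.mono fun p0 P₀ X hh hC j₀ Kb _ _ => hh hC j₀ _⟩

lemma TgtWB.toP {ε : ℝ} {P : ∀ {p0 P₀ : ℕ} (X : Ctx N γ p0 P₀), Prop}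
    {loc : ∀ {p0 P₀ : ℕ} (X : Ctx N γ p0 P₀) (j₀ : X.c.Lam), Fl × X.Sta → ℝ}
    (h : TgtWB ε N γ loc) : TgtWPB ε N γ P loc := by
  obtain ⟨a, ha, h⟩ := h
  exact ⟨a, ha, fun M hM => (h M hM).mono fun p0 P₀ X hh hC _ => hh hC⟩

/-- the two-sided columns of the top states, with the bootstrap hypothesis -/
def TgtTopB (ε : ℝ) (N : Skel189.Num) (γ : ℝ) : Prop := TgtWB ε N γ fun X j₀ => xC (SXN X j₀)

/-- the crossing states of the top states, with the bootstrap hypothesis -/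
def TgtCrsB (ε : ℝ) (N : Skel189.Num) (γ : ℝ) : Prop :=
  TgtWB ε N γ fun X j₀ => xX (X.c.D.par X.Y).rho (SXN X j₀)

/-- **`TgtTop` with absorption, bootstrap and a further prune** -/
def TgtTopPB (ε : ℝ) (Sy : ℝ → ℝ → ℕ → (ℕ → ℝ) → Finset ℕ → Finset ℕ) (N : Skel189.Num) (γ : ℝ) :
    Prop :=
  TgtWPB ε N γ (fun X => InS Sy N γ X) fun X j₀ => xC (SXN X j₀)

/-- **`TgtCrs` with absorption, bootstrap and a further prune** -/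
def TgtCrsPB (ε : ℝ) (Sy : ℝ → ℝ → ℕ → (ℕ → ℝ) → Finset ℕ → Finset ℕ) (N : Skel189.Num) (γ : ℝ) :
    Prop :=
  TgtWPB ε N γ (fun X => InS Sy N γ X) fun X j₀ => xX (X.c.D.par X.Y).rho (SXN X j₀)

/-- the bootstrap constant is a power of `log p0` -/
lemma Kbt_le (N : Skel189.Num) {K C₀ η B : ℝ} (hK : 0 ≤ K) (hC : 0 ≤ C₀) (hη : 0 ≤ η)
    (hB : 0 ≤ B) : ∃ M : ℝ, 0 ≤ M ∧ ∀ p0 : ℕ, 3 ≤ p0 →
      0 ≤ Kbt N K C₀ (fun _ => η) (fun _ => B) p0 ∧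
      Kbt N K C₀ (fun _ => η) (fun _ => B) p0 ≤ M * Real.log p0 ^ M := by
  have hc2 := N.hc2
  refine ⟨16 * (K + C₀ + η + B + 1) + N.c2, by positivity, fun p0 hp0 => ?_⟩
  have hl := Bld532.one_le_log_nat hp0
  have hl0 : 0 < Real.log (p0 : ℝ) := by linarith
  have h1 : 0 ≤ Real.log (p0 : ℝ) ^ N.c2 := by positivity
  unfold Kbt
  refine ⟨by positivity, ?_⟩
  set M := 16 * (K + C₀ + η + B + 1) + N.c2 with hM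
  have h2 : Real.log (p0 : ℝ) ^ N.c2 ≤ Real.log (p0 : ℝ) ^ M :=
    Real.rpow_le_rpow_of_exponent_le hl (by rw [hM]; linarith)
  have h3 : 1 ≤ Real.log (p0 : ℝ) ^ M := Real.one_le_rpow hl (by positivity)
  have h4 : K * Real.log (p0 : ℝ) ^ N.c2 ≤ K * Real.log (p0 : ℝ) ^ M :=
    mul_le_mul_of_nonneg_left h2 hK
  have h5 : 0 ≤ (C₀ + η + B + 1) * (Real.log (p0 : ℝ) ^ M - 1) :=
    mul_nonneg (by linarith) (by linarith)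
  have h6 : 0 ≤ N.c2 * Real.log (p0 : ℝ) ^ M := mul_nonneg hc2 (by linarith)
  rw [hM] at h4 h5 h6 ⊢
  nlinarith

/-- **`MAIN` from the targets with the bootstrap hypothesis** -/
theorem MAIN_EB {th : ℕ → ℕ → ℝ} {Ct C₀ : ℝ}
    {Sx : ℕ → (ℕ → ℝ) → Finset ℕ → Finset ℕ} (h : NumOK N th Ct C₀ Sx) (hX : TgtX N γ)
    (hSe : TgtSelf N γ) (hTo : TgtTopB (1 / 16) N γ) (hCr : TgtCrsB (1 / 16) N γ)
    (hL : TgtL N γ) (hD : TgtD N γ) : MAIN γ := by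
  obtain ⟨C, Ce, K₁, s₁, s₂, B₁, A, hk, hA, hX⟩ := hX
  obtain ⟨b1, hb1, hSe⟩ := hSe
  obtain ⟨b2, hb2, hTo⟩ := hTo
  obtain ⟨b3, hb3, hCr⟩ := hCr
  obtain ⟨B₃, b4, hb4, hL⟩ := hL
  obtain ⟨a', ha', hD⟩ := hD
  obtain ⟨pX, hpX⟩ := part_eXR N (Ce := Ce) hk hA
  have hXR : Ev N γ fun p0 P₀ X => ∀ (j₀ : X.c.Lam) (Q' : NS → IT → Prop),
      All Q' ⟨top X.S, 1, 1, 1⟩ X.c.t → ∀ B₁ B : ℝ, B₁ + 1 ≤ B →
      CBX X j₀ Q' B₁ C Ce K₁ s₁ s₂ (alX A γ (1 / (1 - s₂))) → ∀ Hb : NS → IT → Prop,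
      PartWF X j₀ Hb (SXN X j₀) (eXR (SXN X j₀) (X.c.D.par X.Y).rho (X.tm j₀) B) (a6X N.B K₁) :=
    Ev_P2 N ⟨pX, fun p0 hp0 P₀ hP X j₀ => hpX p0 hp0 γ P₀ hP X j₀⟩
  obtain ⟨B₀, p7, h7⟩ := StopCtx9.part_eSTOP N
  obtain ⟨p2, h2⟩ := RseNd23.part_rse N (κ := 1) one_pos
  obtain ⟨p3, h3⟩ := NMPart10.part_eNM N (κ := 1) one_pos
  obtain ⟨p1, h1⟩ := NumOK.facts h
  have h6 := a6X_nonneg (B := N.B) hk.K0
  set B : ℝ := max 0 (max (max B₀ B₃) (B₁ + 1)) with hBd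
  have hB0 : 0 ≤ B := le_max_left _ _
  have hB1 : B₀ ≤ B := ((le_max_left _ _).trans (le_max_left _ _)).trans (le_max_right _ _)
  have hB3 : B₃ ≤ B := ((le_max_right _ _).trans (le_max_left _ _)).trans (le_max_right _ _)
  have hB2 : B₁ + 1 ≤ B := (le_max_right _ _).trans (le_max_right _ _)
  refine MAIN_of_nodesE N h.hS2 (C₀ := C₀) (by have := h.C₀1; linarith) h.leaf
    (fun {p0 P₀} X j₀ b d A => WF (SXN X j₀) (eT (SXN X j₀) (X.tm j₀) (X.tn j₀) b)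
      (Fl.self, selfSt d A))
    (B := fun _ => B) (a₁ := fun _ => a') (a₂ := fun _ => 1)
    (a₃ := fun _ => 8 + a6X N.B K₁ + 1 + (b1 + b2 + b3 + b4)) (fun _ => hB0) (fun _ => ha')
    (fun _ => by norm_num) (fun _ => by positivity) ?_ ?_
  · refine Ev_P2 N ⟨0, fun p0 _ P₀ _ X j₀ => ?_⟩
    exact selfE_walkE hB0 (SXN_blind X j₀) (SXN_nosplit X j₀)
      (fun s hO hO' hs => stpN_root s hO hO' ((SXN_st X j₀ s).1 hs))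
      (fun d A => SXN_jt X j₀ d A)
  · intro K hK Kb hKb
    obtain ⟨M, hM, hKM⟩ := Kbt_le N hK (C₀ := C₀) (by have := h.C₀1; linarith)
      (η := a' + 1 + (8 + a6X N.B K₁ + 1 + (b1 + b2 + b3 + b4))) (by positivity) hB0
    have hKE : Ev N γ fun p0 P₀ X => 0 ≤ Kb p0 ∧ Kb p0 ≤ M * Real.log p0 ^ M :=
      Ev.of (p₁ := 3) fun p0 hp0 P₀ _ X => by rw [hKb]; exact hKM p0 hp0
    have hTo := hTo M hM
    have hCr := hCr M hM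
    have hcl : Ev N γ fun _ _ X => CF X ∧ ∀ j₀ : X.c.Lam,
        (∀ Hb : NS → IT → Prop, Part X j₀ Hb (fun u τ A => rseR A (X.g u τ)) 1) ∧
        (∀ (Hb : NS → IT → Prop) (stp : X.STP), (∀ s : X.Sta, ¬ stp s → ¬ stpN s) →
          PartW X j₀ Hb stp (eNM stp) (4 * (1 + 1))) ∧
        (∀ (Hb : NS → IT → Prop) (stp : X.STP), (∀ s, stp s → stpN s) →
          (∀ s : X.Sta, ¬ stp s → ¬ stpN s) → ∀ (B η : ℝ), B₀ ≤ B → 0 ≤ η →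
          PartW X j₀ Hb stp (eSTOP stp (X.tm j₀) (X.tn j₀) B) η) := by
      refine Ev.of (p₁ := p1 + p2 + p3 + p7) fun p0 hp0 P₀ hP X => ?_
      have hC := h1 p0 (by omega) γ P₀ X
      exact ⟨hC, fun j₀ => ⟨fun Hb => h2 p0 (by omega) γ P₀ hP X hC.rse j₀ Hb,
        fun Hb stp hst => h3 p0 (by omega) γ P₀ hP X hC.wnm j₀ Hb stp hst,
        fun Hb stp hstp hst B η hB hη => h7 p0 (by omega) γ P₀ hP X hC.tag hC.d1 hC.dep hC.wnm j₀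
          Hb stp hstp hst B η hB hη⟩⟩
    refine ((((((((hcl.and hX).and hXR).and hSe).and hTo).and hCr).and hL).and hD).and hKE).mono ?_
    rintro p0 P₀ X ⟨⟨⟨⟨⟨⟨⟨⟨⟨hC, hc⟩, x1⟩, x2⟩, y1⟩, y2⟩, y3⟩, y4⟩, x4⟩, hK1, hK2⟩ j₀
    obtain ⟨c2, c3, c7⟩ := hc j₀
    obtain ⟨Q', hQ, hQ'⟩ := x1 hC j₀
    have hs1 : ∀ s, SXN X j₀ s → stpN s := fun s => (SXN_st X j₀ s).1
    have hs2 : ∀ s : X.Sta, ¬ SXN X j₀ s → ¬ stpN s :=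
      fun s hn hh => hn ((SXN_st X j₀ s).2 hh)
    refine ⟨x4 hC j₀ _, (c2 _).toF, ?_⟩
    have z3 := c3 (BootF X j₀ (fun _ _ => 0) (Kb p0)) (SXN X j₀) hs2
    have e : (4 * (1 + 1) : ℝ) = 8 := by norm_num
    rw [e] at z3
    exact part_eTE z3.toF (x2 j₀ Q' hQ B₁ B hB2 hQ' _)
      (c7 _ _ hs1 hs2 B 1 hB1 zero_le_one).toF (y1 hC j₀ _) (y2 hC j₀ _ hK1 hK2)
      (y3 hC j₀ _ hK1 hK2)
      (y4 hC B hB3 j₀ _)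

section up
variable {S2 : ℕ → (ℕ → ℝ) → Finset ℕ → Finset ℕ}

theorem tgtWPB_up {ε : ℝ} {th : ℕ → ℕ → ℝ} {Ct C₀ : ℝ} {Sx : ℕ → (ℕ → ℝ) → Finset ℕ → Finset ℕ}
    (h : NumOK N th Ct C₀ Sx) (hs : ∀ p0 ψ S, S2 p0 ψ S ⊆ N.S2 p0 ψ S)
    {P : ∀ {p0 P₀ : ℕ} (X : Ctx N γ p0 P₀), Prop}
    (hP : ∀ {p0 P₀ : ℕ} (X : Ctx (mk N S2) γ p0 P₀), P (upC hs X))
    {loc : ∀ {p0 P₀ : ℕ} (X : Ctx N γ p0 P₀) (j₀ : X.c.Lam), Fl × X.Sta → ℝ}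
    {loc' : ∀ {p0 P₀ : ℕ} (X : Ctx (mk N S2) γ p0 P₀) (j₀ : X.c.Lam), Fl × X.Sta → ℝ}
    (hl : ∀ {p0 P₀ : ℕ} (X : Ctx (mk N S2) γ p0 P₀) (j₀ : X.c.Lam) (Hb : NS → IT → Prop) (a : ℝ),
      PartTE (upC hs X) j₀ Hb (loc (upC hs X) j₀) ε a → PartTE X j₀ Hb (loc' X j₀) ε a)
    (hT : TgtWPB ε N γ P loc) : TgtWB ε (mk N S2) γ loc' := by
  obtain ⟨a, ha, hT⟩ := hT
  obtain ⟨p1, h1⟩ := NumOK.facts h
  have hC : Ev N γ fun p0 P₀ X => CF X := Ev.of (p₁ := p1) fun p0 hp P₀ _ X => h1 p0 hp γ P₀ X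
  exact ⟨a, ha, fun M hM => (Ev.up hs (hC.and (hT M hM))).mono fun p0 P₀ X hh _ j₀ Kb k1 k2 =>
    hl X j₀ _ a (hh.2 hh.1 (hP X) j₀ Kb k1 k2)⟩

/-- **`MAIN` from the targets with a further prune** -/
theorem MAIN_PB {th : ℕ → ℕ → ℝ} {Ct C₀ : ℝ} {Sx : ℕ → (ℕ → ℝ) → Finset ℕ → Finset ℕ}
    {Sy : ℝ → ℝ → ℕ → (ℕ → ℝ) → Finset ℕ → Finset ℕ} (h : NumOK N th Ct C₀ Sx)
    (hx : ∃ p₁ : ℕ, ∀ p0 ≥ p₁, ∃ Q₁ : ℕ, ∀ P₀ ≥ Q₁, ∀ (ψ : ℕ → ℝ) (S : Finset ℕ), SysM P₀ ψ S →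
      Sx p0 ψ S ⊆ S ∧ (1 - 1 / 8) * Ws (w ψ) S ≤ Ws (w ψ) (Sx p0 ψ S))
    (hy : MassP (Sy γ N.C1)) (hX : TgtX (mk N fun p0 ψ S => S2t p0 ψ S ∩ (Sx p0 ψ S ∩
      Sy γ N.C1 p0 ψ S)) γ)
    (hSe : TgtSelf N γ) (hTo : TgtTopPB (1 / 16) Sy N γ) (hCr : TgtCrsPB (1 / 16) Sy N γ)
    (hL : TgtL N γ) (hD : TgtD N γ) : MAIN γ := by
  classical
  have hs : ∀ p0 ψ S, S2t p0 ψ S ∩ (Sx p0 ψ S ∩ Sy γ N.C1 p0 ψ S) ⊆ N.S2 p0 ψ S := by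
    intro p0 ψ S q hq
    rw [h.S2]
    rw [Finset.mem_inter] at hq ⊢
    exact ⟨hq.1, (Finset.mem_inter.1 hq.2).1⟩
  have hP : ∀ {p0 P₀ : ℕ} (X : Ctx (mk N fun p0 ψ S => S2t p0 ψ S ∩ (Sx p0 ψ S ∩
      Sy γ N.C1 p0 ψ S)) γ p0 P₀), InS Sy N γ (upC hs X) := by
    intro p0 P₀ X q hq
    have h1 := X.prn.sub2 hq
    exact (Finset.mem_inter.1 (Finset.mem_inter.1 h1).2).2
  obtain ⟨p1, h1⟩ := NumOK.facts h
  have hC : Ev N γ fun p0 P₀ X => CF X := Ev.of (p₁ := p1) fun p0 hp P₀ _ X => h1 p0 hp γ P₀ X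
  refine MAIN_EB (numOK_mk h hx hy) hX ?_ ?_ ?_ ?_ ?_
  · exact tgtWP_up h hs (P := fun _ => True) (fun _ => trivial)
      (fun X j₀ Hb a hh => partT_self hs X j₀ Hb a hh)
      (TgtW.toP (loc := fun X j₀ => xS (X.c.D.par X.Y).rho (SXN X j₀)) hSe)
  · exact tgtWPB_up h hs hP (fun X j₀ Hb a hh => partTE_top hs X j₀ Hb a hh) hTo
  · exact tgtWPB_up h hs hP (fun X j₀ Hb a hh => partTE_crs hs X j₀ Hb a hh) hCr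
  · obtain ⟨B₀, a, ha, hL⟩ := hL
    exact ⟨B₀, a, ha, (Ev.up hs (hC.and hL)).mono fun p0 P₀ X hh _ B hB j₀ Hb =>
      partT_L hs X j₀ Hb a B (hh.2 hh.1 B hB j₀ Hb)⟩
  · obtain ⟨a, ha, hD⟩ := hD
    exact ⟨a, ha, (Ev.up hs (hC.and hD)).mono fun p0 P₀ X hh _ j₀ Hb =>
      partF_D hs X j₀ Hb a (hh.2 hh.1 j₀ Hb)⟩

/-- **S0004 from the two targets with a further prune** `Sy` of mass `≥ 1 - 1/16` -/
theorem S0004_PB {Sy : ℝ → ℝ → ℕ → (ℕ → ℝ) → Finset ℕ → Finset ℕ} {cS : ℝ}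
    (hSy : ∀ γ C1 : ℝ, cS ≤ C1 → MassP (Sy γ C1))
    (hTo : ForN ParT21.thF SxF (TgtTopPB (1 / 16) Sy))
    (hCr : ForN ParT21.thF SxF (TgtCrsPB (1 / 16) Sy))
    (γ : ℝ) (ψ : ℕ → ℝ)
    (hψ : ∀ q, 0 ≤ ψ q) (hdiv : ¬ Summable fun q : ℕ => (Nat.totient q : ℝ) / q * ψ q) :
    ∀ᵐ x : ℝ, ∃ᶠ q : ℕ in atTop, |(q : ℝ) * x - γ - round ((q : ℝ) * x - γ)| < ψ q := by
  obtain ⟨cX, hX⟩ := TgtXF26.tgtX_fin
  obtain ⟨c1, h1⟩ := TgSelf10.tgtSelf_fin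
  obtain ⟨c2, h2⟩ := hTo
  obtain ⟨c3, h3⟩ := hCr
  obtain ⟨c4, h4⟩ := ExL26.tgtL_fin EK17.tgtEK_fin
  obtain ⟨c5, h5⟩ := TgtDF7.tgtD_fin
  obtain ⟨C₀, -, H⟩ := exists_numFinG
  refine Fin5.S0004_of (fun γ => ?_) γ ψ hψ hdiv
  set cM := max (max (max cX c1) (max c2 c3)) (max (max c4 c5) (max cS 0)) with hcM
  have l1 : cX ≤ cM := ((le_max_left _ _).trans (le_max_left _ _)).trans (le_max_left _ _)
  have l2 : c1 ≤ cM := ((le_max_right _ _).trans (le_max_left _ _)).trans (le_max_left _ _)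
  have l3 : c2 ≤ cM := ((le_max_left _ _).trans (le_max_right _ _)).trans (le_max_left _ _)
  have l4 : c3 ≤ cM := ((le_max_right _ _).trans (le_max_right _ _)).trans (le_max_left _ _)
  have l5 : c4 ≤ cM := ((le_max_left _ _).trans (le_max_left _ _)).trans (le_max_right _ _)
  have l6 : c5 ≤ cM := ((le_max_right _ _).trans (le_max_left _ _)).trans (le_max_right _ _)
  have l7 : cS ≤ cM := ((le_max_left _ _).trans (le_max_right _ _)).trans (le_max_right _ _)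
  have l8 : 0 ≤ cM := ((le_max_right _ _).trans (le_max_right _ _)).trans (le_max_right _ _)
  have hxx : ∀ C1 : ℝ, cM ≤ C1 → ∃ p₁ : ℕ, ∀ p0 ≥ p₁, ∃ Q₁ : ℕ, ∀ P₀ ≥ Q₁, ∀ (ψ : ℕ → ℝ)
      (S : Finset ℕ), SysM P₀ ψ S →
      SxF γ C1 p0 ψ S ⊆ S ∧ (1 - 1 / 8) * Ws (w ψ) S ≤ Ws (w ψ) (SxF γ C1 p0 ψ S) :=
    fun C1 hC1 => SxF_mass γ C1 (l8.trans hC1)
  obtain ⟨N, Ct, m1, m2, m3⟩ := H cM ParT21.thF (SxF γ) ParT21.thF_ok hxx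
  have red : ∀ c : ℝ, c ≤ cM → NumFin N (ParT21.thF Ct) Ct c := fun c hc =>
    ⟨hc.trans m2.C1, m2.c2, m2.B, m2.A, m2.a', m2.a, m2.Ct, m2.rg⟩
  have hy : MassP (Sy γ N.C1) := hSy γ N.C1 (l7.trans m2.C1)
  refine MAIN_PB m1 (hxx N.C1 m2.C1) hy ?_ (h1 N Ct C₀ γ m1 (red _ l2) m3)
    (h2 N Ct C₀ γ m1 (red _ l3) m3) (h3 N Ct C₀ γ m1 (red _ l4) m3)
    (h4 N Ct C₀ γ m1 (red _ l5) m3) (h5 N Ct C₀ γ m1 (red _ l6) m3)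
  exact hX _ (ParT21.thF Ct) Ct C₀ γ _ (numOK_mk m1 (hxx N.C1 m2.C1) hy) (numFin_mk (red _ l1))

/-- **S0004 from `TgtTopPB (1/16) Sy` and `TgtCrsE (1/16)`** -/
theorem S0004_PB1 {Sy : ℝ → ℝ → ℕ → (ℕ → ℝ) → Finset ℕ → Finset ℕ} {cS : ℝ}
    (hSy : ∀ γ C1 : ℝ, cS ≤ C1 → MassP (Sy γ C1))
    (hTo : ForN ParT21.thF SxF (TgtTopPB (1 / 16) Sy))
    (hCr : ForN ParT21.thF SxF (TgtCrsE (1 / 16)))
    (γ : ℝ) (ψ : ℕ → ℝ)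
    (hψ : ∀ q, 0 ≤ ψ q) (hdiv : ¬ Summable fun q : ℕ => (Nat.totient q : ℝ) / q * ψ q) :
    ∀ᵐ x : ℝ, ∃ᶠ q : ℕ in atTop, |(q : ℝ) * x - γ - round ((q : ℝ) * x - γ)| < ψ q := by
  obtain ⟨c3, h3⟩ := hCr
  exact S0004_PB hSy hTo ⟨c3, fun N Ct C₀ γ m1 m2 m3 =>
    TgtWPE.toB (TgtWE.toP (h3 N Ct C₀ γ m1 m2 m3))⟩ γ ψ hψ hdiv

end up

/-! ### the top target from the group walks -/

open Crest.Agent.R4P.Grp36 Crest.Agent.R4P.Xfer36 Crest.Agent.R4P.TopC36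
open Crest.Agent.R4P.TopX36 Crest.Agent.R4P.PN36 Crest.Agent.R4P.GainX36
open Crest.Agent.R4P.TopE36

/-- the group walks of the parts at all nodes with the bootstrap hypothesis -/
def GTopB (ε : ℝ) (N : Skel189.Num) (γ : ℝ) (P : ∀ {p0 P₀ : ℕ} (X : Ctx N γ p0 P₀), Prop) : Prop :=
  ∃ a : ℝ, 0 ≤ a ∧ ∀ M : ℝ, 0 ≤ M → Ev N γ fun p0 P₀ X => CF X → P X → ∀ (j₀ : X.c.Lam) (Kb : ℝ),
    0 ≤ Kb → Kb ≤ M * Real.log p0 ^ M →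
    All (fun u τ => BootF X j₀ (fun _ _ => 0) Kb u τ → ∀ n,
      GS (lD (ixL (X := X))) n (X.self u τ Finset.univ).p
      [((1 : ℝ), (X.self u τ Finset.univ).t)] ≤ a * (X.mu j₀ u τ Finset.univ +
      X.mu j₀ u τ Finset.univ * X.mu j₀ u τ Finset.univ) +
      ε * I (fun x => tt Finset.univ (X.g u τ) x ^ 2)) ⟨top X.S, 1, 1, 1⟩ X.c.t

lemma GTop.toB {ε : ℝ} {P : ∀ {p0 P₀ : ℕ} (X : Ctx N γ p0 P₀), Prop} (h : GTop ε N γ P) :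
    GTopB ε N γ P := by
  obtain ⟨a, ha, h⟩ := h
  refine ⟨a, ha, fun M _ => h.mono fun p0 P₀ X hh hC hP j₀ Kb _ _ => ?_⟩
  refine All.mono (fun u τ h1 => ?_) (hh hC hP j₀)
  intro _
  exact h1

/-- **the top target from the group walks of the parts** -/
theorem tgtWPB_of {ε : ℝ} {P : ∀ {p0 P₀ : ℕ} (X : Ctx N γ p0 P₀), Prop} (h : GTopB ε N γ P) :
    TgtWPB ε N γ P fun X j₀ => xC (SXN X j₀) := by
  obtain ⟨a, ha, h⟩ := h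
  refine ⟨a, ha, fun M hM => (h M hM).mono fun p0 P₀ X hh hC hP j₀ Kb k1 k2 => ?_⟩
  refine All.mono (fun u τ hh _ hb => ?_) (All.and (All.and (hh hC hP j₀ Kb k1 k2)
    (ctx_xC_le X j₀)) (All.and (ctx_Wg X j₀) (ctx_NOk X j₀)))
  obtain ⟨n, hn⟩ := hh.1.2
  have h1 := hn.trans (GS_lD_le n _ hh.2.1 (GAll.one hh.2.2))
  have h2 := hh.1.1 hb n
  show WF (SXN X j₀) (xC (SXN X j₀)) (Fl.self, X.self u τ Finset.univ) -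
    ε * I (fun x => tt Finset.univ (X.g u τ) x ^ 2) ≤ _
  linarith

theorem tgtTopPB_of {ε : ℝ} {Sy : ℝ → ℝ → ℕ → (ℕ → ℝ) → Finset ℕ → Finset ℕ}
    (h : GTopB ε N γ fun X => InS Sy N γ X) : TgtTopPB ε Sy N γ := tgtWPB_of h

end Crest.Agent.R4P.FinEB25
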