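import Crest.Agent.R4P.RseP_24

/-!
R4P (S0004, all `q`), helper24: **`dLLM`** (helper23 #4008 (1b)): two items with DIFFERENT labels at a
column of a missing tie `p`.  The labels `λ` are valid for `θ_v` at the radii `R / p`; on the child circle
the exact relation is for `p λ`, which in general is not valid for `p θ_v`.
-/

set_option autoImplicit false
open Finset

namespace Crest.Agent.R4P.LLM24

open Crest.Agent.R4.HVW560 Crest.Agent.R4.HVWX793 Crest.Agent.R4.LLpair207 Crest.Agent.R4.LL207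
open Crest.Agent.R4.LF363 (Lab rat_gap)
open Crest.Agent.R4.InX944 (DP DP_pos)
open Crest.Agent.R4.StopAsm709
open Crest.Agent.R4.StopHvw709
open Crest.Agent.R4

/-- gap with the gcd -/
lemma gap_gcd {ρ σ : ℚ} (hne : ρ ≠ σ) :
    1 ≤ |(ρ : ℝ) - σ| * ((Zc ρ σ : ℕ) * (Nat.gcd ρ.den σ.den : ℕ)) := by
  set g := Nat.gcd ρ.den σ.den with hg
  have hg0 : 0 < g := Nat.gcd_pos_of_pos_left _ ρ.den_pos
  obtain ⟨k', hk'⟩ : g ∣ ρ.den := Nat.gcd_dvd_left _ _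
  obtain ⟨l', hl'⟩ : g ∣ σ.den := Nat.gcd_dvd_right _ _
  have hkd : ρ.den / g = k' := by rw [hk']; exact Nat.mul_div_cancel_left _ hg0
  have hld : σ.den / g = l' := by rw [hl']; exact Nat.mul_div_cancel_left _ hg0
  have hk0 : 0 < k' := Nat.pos_of_ne_zero (by rintro rfl; have := ρ.den_pos; omega)
  have hl0 : 0 < l' := Nat.pos_of_ne_zero (by rintro rfl; have := σ.den_pos; omega)
  have hZ : Zc ρ σ = k' * l' := by unfold Zc; rw [← hg, hkd, hld]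
  have e1 : (ρ : ℝ) * (g * k') = ρ.num := by
    have : (ρ : ℚ) * (ρ.den : ℚ) = ρ.num := Rat.mul_den_eq_num ρ
    rw [hk'] at this
    exact_mod_cast this
  have e2 : (σ : ℝ) * (g * l') = σ.num := by
    have : (σ : ℚ) * (σ.den : ℚ) = σ.num := Rat.mul_den_eq_num σ
    rw [hl'] at this
    exact_mod_cast this
  have e3 : ((ρ : ℝ) - σ) * (((k' * l' : ℕ) : ℝ) * g) = ((ρ.num * l' - σ.num * k' : ℤ) : ℝ) := by
    push_cast
    rw [← e1, ← e2]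
    ring
  have hpos : (0:ℝ) ≤ ((k' * l' : ℕ) : ℝ) * g := by positivity
  rw [hZ]
  have e4 : |(ρ : ℝ) - σ| * (((k' * l' : ℕ) : ℝ) * g) = |((ρ.num * l' - σ.num * k' : ℤ) : ℝ)| := by
    rw [← e3, abs_mul, abs_of_nonneg hpos]
  rw [e4, ← Int.cast_abs]
  have hne2 : (ρ.num * l' - σ.num * k' : ℤ) ≠ 0 := by
    intro h0
    have h1 : ((ρ : ℝ) - σ) * (((k' * l' : ℕ) : ℝ) * g) = 0 := by rw [e3, h0]; simp
    have h2 : (((k' * l' : ℕ) : ℝ) * g) ≠ 0 := by positivity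
    have h3 : (ρ : ℝ) - σ = 0 := (mul_eq_zero.1 h1).resolve_right h2
    apply hne
    have : (ρ : ℝ) = σ := by linarith
    exact_mod_cast this
  exact_mod_cast Int.one_le_abs hne2

/-- two different valid labels of one target, sharper -/
lemma gap5 {θ a b : ℝ} {ρ σ : ℚ} (h : Lab θ a ρ) (h' : Lab θ b σ) (hne : ρ ≠ σ) :
    1 ≤ 32 * (max a b)^3 * ((Zc ρ σ : ℕ) : ℝ)^5 := by
  have ha := h.pos
  have hb := h'.pos
  set m := max a b with hm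
  have hm0 : 0 < m := lt_max_of_lt_left ha
  have n1 : |θ - ρ|^5 ≤ m^4 := h.near.trans (pow_le_pow_left₀ ha.le (le_max_left _ _) 4)
  have n2 : |θ - σ|^5 ≤ m^4 := h'.near.trans (pow_le_pow_left₀ hb.le (le_max_right _ _) 4)
  have g2 : |(ρ : ℝ) - σ| ≤ 2 * max |θ - ρ| |θ - σ| := by
    have := abs_sub (θ - σ) (θ - ρ)
    have e : (θ - σ) - (θ - ρ) = (ρ : ℝ) - σ := by ring
    rw [e] at this
    have h3 := le_max_left |θ - ρ| |θ - σ|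
    have h4 := le_max_right |θ - ρ| |θ - σ|
    linarith
  have n3 : (max |θ - ρ| |θ - σ|)^5 ≤ m^4 := by
    rcases max_choice |θ - ρ| |θ - σ| with h4 | h4 <;> rw [h4] <;> assumption
  have n0 : 0 ≤ max |θ - ρ| |θ - σ| := le_max_of_le_left (abs_nonneg _)
  set g : ℝ := ((Nat.gcd ρ.den σ.den : ℕ) : ℝ) with hg
  have hg0 : 0 ≤ g := by positivity
  set Z : ℝ := ((Zc ρ σ : ℕ) : ℝ) with hZ
  have hZ0 : 0 ≤ Z := by positivity
  have hgk : g ≤ ρ.den := by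
    rw [hg]
    exact_mod_cast Nat.le_of_dvd ρ.den_pos (Nat.gcd_dvd_left _ _)
  have hgl : g ≤ σ.den := by
    rw [hg]
    exact_mod_cast Nat.le_of_dvd σ.den_pos (Nat.gcd_dvd_right _ _)
  have hgm : g^5 * m ≤ 1 := by
    rcases max_choice a b with h4 | h4
    · rw [hm, h4]
      exact (mul_le_mul_of_nonneg_right (pow_le_pow_left₀ hg0 hgk 5) ha.le).trans h.den
    · rw [hm, h4]
      exact (mul_le_mul_of_nonneg_right (pow_le_pow_left₀ hg0 hgl 5) hb.le).trans h'.den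
  have g1 := gap_gcd hne
  calc (1 : ℝ) ≤ (|(ρ : ℝ) - σ| * (Z * g)) ^ 5 := one_le_pow₀ g1
    _ ≤ ((2 * max |θ - ρ| |θ - σ|) * (Z * g)) ^ 5 := by gcongr
    _ = 32 * (max |θ - ρ| |θ - σ|) ^ 5 * (Z * g) ^ 5 := by ring
    _ ≤ 32 * m^4 * (Z * g)^5 := by gcongr
    _ = 32 * m^3 * Z^5 * (g^5 * m) := by ring
    _ ≤ 32 * m^3 * Z^5 * 1 := mul_le_mul_of_nonneg_left hgm (by positivity)
    _ = _ := by ring

/-- **one pair of labels**, weaker lower bound of `D` -/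
theorem ll_label5 {V W : Finset ℕ} {R R' : ℕ → ℝ}
    (hV : ∀ v ∈ V, 0 < v ∧ 0 < R v) (hW : ∀ w ∈ W, 0 < w ∧ 0 < R' w)
    {z₁ z₂ : ℕ} (hz₁ : 0 < z₁) (hz₂ : 0 < z₂) {K : ℝ} (hK : 0 ≤ K) {F : ℕ × ℕ → ℝ}
    {E : Finset (ℕ × ℕ)}
    (hE : E ⊆ V ×ˢ W) (hz : ∀ e ∈ E, z₁ ∣ cof e.1 e.2 ∧ z₂ ∣ cof e.2 e.1)
    (hD : ∀ e ∈ E, 1 ≤ 32 * Dp R R' e * ((z₁ * z₂ : ℕ) : ℝ)^5)
    (hF : ∀ e ∈ E, F e ≤ K * ((wt R e.1 * wt R' e.2) / Dp R R' e)) :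
    ∑ e ∈ E, F e ≤ (10^6 * CL e1) * (K * ((z₁ * z₂ : ℕ) : ℝ)^(-(1/3) : ℝ)) *
      ((∑ v ∈ V, wt R v) * ∑ w ∈ W, wt R' w)^(1/2+e1) := by
  have he1 : 0 < e1 := by unfold e1; norm_num
  have he4 : e1 ≤ 1/4 := by unfold e1; norm_num
  have hV0 : ∀ v ∈ V, 0 < v := fun v hv => (hV v hv).1
  set Z : ℝ := ((z₁ * z₂ : ℕ) : ℝ) with hZ
  have hZ1 : 1 ≤ Z := by rw [hZ]; exact_mod_cast Nat.mul_pos hz₁ hz₂
  have hZ0 : 0 < Z := by linarith
  set δ : ℝ := 1/33 * Z^(-5 : ℝ) with hδd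
  have hδ : 0 < δ := by positivity
  have hδ4 : δ * Z^5 = 1/33 := by
    rw [hδd, ← Real.rpow_natCast Z 5, mul_assoc, ← Real.rpow_add hZ0]
    norm_num
  have h1 : ∀ e ∈ E, δ < Dp R R' e := by
    intro e he
    by_contra hc
    push Not at hc
    have h2 := hD e he
    have h4 : 32 * Dp R R' e * Z^5 ≤ 32 * (δ * Z^5) := by
      have : (0:ℝ) ≤ Z^5 := by positivity
      nlinarith [mul_le_mul_of_nonneg_right hc this]
    rw [hδ4] at h4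
    norm_num at h4
    linarith
  have key := Crest.Agent.R4P.LLG24.ll_class he1 he4 hV hW hK hδ hE hz h1 hF
  refine key.trans ?_
  have hM : 0 ≤ ((∑ v ∈ V, wt R v) * ∑ w ∈ W, wt R' w)^(1/2+e1) := by
    apply Real.rpow_nonneg
    exact mul_nonneg (Finset.sum_nonneg fun q hq => wt_nonneg (hV q hq).2.le)
      (Finset.sum_nonneg fun q hq => wt_nonneg (hW q hq).2.le)
  apply mul_le_mul_of_nonneg_right _ hM
  have hCL := CL_nonneg he1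
  have d1 : δ^(-(2*e1)) ≤ 33 * Z^(1/100:ℝ) := by
    have b : δ^(-(2*e1)) = 33^(2*e1) * Z^(1/100:ℝ) := by
      rw [hδd, Real.mul_rpow (by norm_num) (by positivity), ← Real.rpow_mul hZ0.le, one_div,
        Real.inv_rpow (by norm_num), Real.rpow_neg (by norm_num), inv_inv]
      congr 2
      unfold e1; norm_num
    rw [b]
    apply mul_le_mul_of_nonneg_right _ (by positivity)
    calc (33:ℝ)^(2*e1) ≤ 33^(1:ℝ) :=
          Real.rpow_le_rpow_of_exponent_le (by norm_num) (by unfold e1; norm_num)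
      _ = 33 := Real.rpow_one _
  have d2 := Bz_le hz₁ hz₂
  rw [← hZ] at d2
  have d3 : Bz z₁ z₂ e1 * δ^(-(2*e1)) ≤ 10^6 * Z^(-(1/3):ℝ) := by
    calc Bz z₁ z₂ e1 * δ^(-(2*e1)) ≤ (10^4 * Z^(-(48/100) : ℝ)) * (33 * Z^(1/100:ℝ)) :=
          mul_le_mul d2 d1 (by positivity) (by positivity)
      _ = 330000 * Z^(-(48/100) + 1/100 : ℝ) := by rw [Real.rpow_add hZ0]; ring
      _ ≤ 10^6 * Z^(-(1/3):ℝ) := by
          apply mul_le_mul (by norm_num) _ (by positivity) (by norm_num)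
          exact Real.rpow_le_rpow_of_exponent_le hZ1 (by norm_num)
  calc CL e1 * (K * Bz z₁ z₂ e1 * δ^(-(2*e1))) = (CL e1 * K) * (Bz z₁ z₂ e1 * δ^(-(2*e1))) := by ring
    _ ≤ (CL e1 * K) * (10^6 * Z^(-(1/3):ℝ)) := mul_le_mul_of_nonneg_left d3 (by positivity)
    _ = _ := by ring

/-- row sums of a lacunary family -/
theorem row_lac {P : ℝ} (hP : 1 ≤ P) {Λ : Finset ℚ}
    (hlac : ∀ σ ∈ Λ, ∀ τ ∈ Λ, σ ≠ τ → σ.den ≤ τ.den → 2 * σ.den ≤ τ.den) (ρ : ℚ) :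
    ∑ σ ∈ Λ, cc P ρ σ ≤ CX * P^(-(1/6) : ℝ) := by
  classical
  have hP0 : 0 < P := by linarith
  have hle : ∀ σ, cc P ρ σ ≤ P^(-(1/6) : ℝ) * ((Zc ρ σ : ℕ) : ℝ)^(-(1/6) : ℝ) := by
    intro σ
    have hZ : (0:ℝ) < (Zc ρ σ : ℕ) := by exact_mod_cast Zc_pos ρ σ
    unfold cc
    split_ifs with h
    · have e : ((Zc ρ σ : ℕ) : ℝ)^(-(1/3) : ℝ) =
          ((Zc ρ σ : ℕ) : ℝ)^(-(1/6) : ℝ) * ((Zc ρ σ : ℕ) : ℝ)^(-(1/6) : ℝ) := by
        rw [← Real.rpow_add hZ]; norm_num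
      rw [e]
      apply mul_le_mul_of_nonneg_right _ (by positivity)
      exact Real.rpow_le_rpow_of_nonpos hP0 h (by norm_num)
    · positivity
  calc ∑ σ ∈ Λ, cc P ρ σ ≤ ∑ σ ∈ Λ, P^(-(1/6) : ℝ) * ((Zc ρ σ : ℕ) : ℝ)^(-(1/6) : ℝ) :=
        Finset.sum_le_sum fun σ _ => hle σ
    _ = P^(-(1/6) : ℝ) * ∑ σ ∈ Λ, ((Zc ρ σ : ℕ) : ℝ)^(-(1/6) : ℝ) := by rw [Finset.mul_sum]
    _ ≤ P^(-(1/6) : ℝ) * CX := by
        apply mul_le_mul_of_nonneg_left _ (by positivity)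
        exact lac_sum Λ (fun σ => σ.den) (fun σ _ => σ.den_pos) hlac ρ.den_pos
          (Y := fun σ => ((Zc ρ σ : ℕ) : ℝ)) (fun σ _ => Zc_ge ρ σ)
    _ = _ := by ring

/-- the labelled pairs, abstract row sums and abstract lower bound of `D` -/
theorem ll_total5 {P K Q : ℝ} (hK : 0 ≤ K) {S : Finset ℕ} {R : ℕ → ℝ}
    {lab : ℕ → ℚ} (hS : ∀ q ∈ S, 0 < q ∧ 0 < R q)
    (hrow : ∀ ρ ∈ S.image lab, ∑ σ ∈ S.image lab, cc P ρ σ ≤ Q)
    {E : Finset (ℕ × ℕ)} (hE : E ⊆ S ×ˢ S) {F : ℕ × ℕ → ℝ}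
    (hF : ∀ e ∈ E, F e ≤ K * ((wt R e.1 * wt R e.2) / Dp R R e))
    (hex : ∀ e ∈ E, 0 < F e → P ≤ (Zc (lab e.1) (lab e.2) : ℝ) ∧
      1 ≤ 32 * Dp R R e * ((Zc (lab e.1) (lab e.2) : ℕ) : ℝ)^5 ∧
      ∃ n m : ℤ, ((n:ℝ) + lab e.1) * (cof e.2 e.1 : ℕ) = (m + lab e.2) * (cof e.1 e.2 : ℕ)) :
    ∑ e ∈ E, F e ≤ (10^6 * CL e1) * K * Q * (∑ q ∈ S, wt R q)^(1+2*e1) := by
  classical
  have he1 : 0 < e1 := by unfold e1; norm_num
  have hS0 : ∀ q ∈ S, 0 < q := fun q hq => (hS q hq).1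
  -- only the positive pairs
  have hred : ∑ e ∈ E, F e ≤ ∑ e ∈ E.filter (fun e => 0 < F e), F e := by
    rw [← Finset.sum_filter_add_sum_filter_not E (fun e => 0 < F e)]
    have : ∑ e ∈ E.filter (fun e => ¬ 0 < F e), F e ≤ 0 :=
      Finset.sum_nonpos fun e he => not_lt.1 (Finset.mem_filter.1 he).2
    linarith
  refine hred.trans ?_
  set E' := E.filter (fun e => 0 < F e) with hE'
  have hE'S : E' ⊆ S ×ˢ S := (Finset.filter_subset _ _).trans hE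
  set Λ := S.image lab with hΛ
  have hCL := CL_nonneg he1
  refine (schur (Λ := Λ) (S := S) (lab := lab) (fun q hq => Finset.mem_image_of_mem lab hq)
    (m := wt R) (fun q hq => wt_nonneg (hS q hq).2.le) hE'S (F := F) (P := P)
    (K := (10^6 * CL e1) * K) (Q := Q) (ε := e1) (by positivity) he1
    ?_ hrow)
  intro ρ _ σ _
  set Eρ := E'.filter (fun e => lab e.1 = ρ ∧ lab e.2 = σ) with hEρ
  have hmem : ∀ e ∈ Eρ, e ∈ E ∧ 0 < F e ∧ lab e.1 = ρ ∧ lab e.2 = σ := by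
    intro e he
    obtain ⟨h1, h2⟩ := Finset.mem_filter.1 he
    obtain ⟨h3, h4⟩ := Finset.mem_filter.1 h1
    exact ⟨h3, h4, h2⟩
  have hnn : 0 ≤ ((∑ q ∈ S.filter (fun q => lab q = ρ), wt R q) *
      ∑ q ∈ S.filter (fun q => lab q = σ), wt R q)^(1/2+e1) := by
    apply Real.rpow_nonneg
    exact mul_nonneg (Finset.sum_nonneg fun q hq => wt_nonneg (hS q (Finset.mem_filter.1 hq).1).2.le)
      (Finset.sum_nonneg fun q hq => wt_nonneg (hS q (Finset.mem_filter.1 hq).1).2.le)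
  rcases Eρ.eq_empty_or_nonempty with h0 | ⟨e₀, he₀⟩
  · rw [h0, Finset.sum_empty]
    have := cc_nonneg P ρ σ
    positivity
  obtain ⟨g1, g2, g3, g4⟩ := hmem e₀ he₀
  have hPZ : P ≤ (Zc ρ σ : ℝ) := by
    have := (hex e₀ g1 g2).1
    rwa [g3, g4] at this
  have hcc : cc P ρ σ = ((Zc ρ σ : ℕ) : ℝ)^(-(1/3) : ℝ) := if_pos hPZ
  rw [hcc]
  obtain ⟨p1, p2⟩ := div_gcd_pos ρ σ
  have hZe : (σ.den / Nat.gcd ρ.den σ.den) * (ρ.den / Nat.gcd ρ.den σ.den) = Zc ρ σ := by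
    unfold Zc; ring
  have key := ll_label5 (V := S.filter (fun q => lab q = ρ)) (W := S.filter (fun q => lab q = σ))
    (R := R) (R' := R) (fun v hv => hS v (Finset.mem_filter.1 hv).1)
    (fun v hv => hS v (Finset.mem_filter.1 hv).1) p2 p1 hK (F := F) (E := Eρ)
    (by
      intro e he
      obtain ⟨h1, _, h3, h4⟩ := hmem e he
      have h5 := Finset.mem_product.1 (hE h1)
      exact Finset.mem_product.2 ⟨Finset.mem_filter.2 ⟨h5.1, h3⟩, Finset.mem_filter.2 ⟨h5.2, h4⟩⟩)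
    (by
      intro e he
      obtain ⟨h1, h2, h3, h4⟩ := hmem e he
      obtain ⟨_, _, n, m, h5⟩ := hex e h1 h2
      rw [h3, h4] at h5
      exact Crest.Agent.R4.LL207.dvd_of_exact ρ σ h5)
    (by
      intro e he
      obtain ⟨h1, h2, h3, h4⟩ := hmem e he
      obtain ⟨_, h5, _⟩ := hex e h1 h2
      rw [hZe]
      rwa [h3, h4] at h5)
    (fun e he => hF e (hmem e he).1)
  rw [hZe] at key
  refine key.trans (le_of_eq ?_)
  ring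

/-! ### multiplying the labels by a prime -/

lemma den_mul (p : ℕ) (ρ : ℚ) : ((p : ℚ) * ρ).den = ρ.den / Nat.gcd p ρ.den := by
  rw [Rat.mul_den]
  have h1 : ((p : ℚ)).den = 1 := Rat.den_natCast p
  have h2 : ((p : ℚ)).num = p := Rat.num_natCast p
  rw [h1, h2, one_mul]
  congr 1
  rw [Int.natAbs_mul, Int.natAbs_natCast]
  have h3 : Nat.Coprime ρ.num.natAbs ρ.den := ρ.reduced
  exact Nat.Coprime.gcd_mul_right_cancel p h3

lemma den_mul_dvd {p : ℕ} {ρ : ℚ} (h : p ∣ ρ.den) :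
    ((p : ℚ) * ρ).den = ρ.den / p := by
  rw [den_mul p, Nat.gcd_eq_left h]

lemma den_mul_ndvd {p : ℕ} (hp : p.Prime) {ρ : ℚ} (h : ¬ p ∣ ρ.den) :
    ((p : ℚ) * ρ).den = ρ.den := by
  rw [den_mul p, (Nat.Prime.coprime_iff_not_dvd hp).2 h, Nat.div_one]

/-- `p` divides both denominators -/
lemma Zc_both {p : ℕ} (hp : 0 < p) {ρ σ : ℚ} (h : p ∣ ρ.den) (h' : p ∣ σ.den) :
    Zc ((p : ℚ) * ρ) ((p : ℚ) * σ) = Zc ρ σ := by
  unfold Zc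
  rw [den_mul_dvd h, den_mul_dvd h']
  obtain ⟨k', hk⟩ := h
  obtain ⟨l', hl⟩ := h'
  rw [hk, hl, Nat.mul_div_cancel_left _ hp, Nat.mul_div_cancel_left _ hp, Nat.gcd_mul_left,
    Nat.mul_div_mul_left _ _ hp, Nat.mul_div_mul_left _ _ hp]

/-- `p` divides no denominator -/
lemma Zc_none {p : ℕ} (hp : p.Prime) {ρ σ : ℚ} (h : ¬ p ∣ ρ.den) (h' : ¬ p ∣ σ.den) :
    Zc ((p : ℚ) * ρ) ((p : ℚ) * σ) = Zc ρ σ := by
  unfold Zc
  rw [den_mul_ndvd hp h, den_mul_ndvd hp h']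

/-- `p` divides the second denominator only -/
lemma Zc_one {p : ℕ} (hp : p.Prime) {ρ σ : ℚ} (h : ¬ p ∣ ρ.den) (h' : p ∣ σ.den) :
    p * Zc ((p : ℚ) * ρ) ((p : ℚ) * σ) = Zc ρ σ := by
  unfold Zc
  rw [den_mul_ndvd hp h, den_mul_dvd h']
  obtain ⟨l', hl⟩ := h'
  rw [hl, Nat.mul_div_cancel_left _ hp.pos]
  have hc : Nat.gcd ρ.den (p * l') = Nat.gcd ρ.den l' := by
    have h1 : Nat.Coprime ρ.den p := ((Nat.Prime.coprime_iff_not_dvd hp).2 h).symm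
    exact Nat.Coprime.gcd_mul_left_cancel_right l' h1.symm
  rw [hc, Nat.mul_div_assoc p (Nat.gcd_dvd_right ρ.den l')]
  ring

lemma Zc_one' {p : ℕ} (hp : p.Prime) {ρ σ : ℚ} (h : p ∣ ρ.den) (h' : ¬ p ∣ σ.den) :
    p * Zc ((p : ℚ) * ρ) ((p : ℚ) * σ) = Zc ρ σ := by
  rw [Zc_symm, Zc_symm ρ σ]
  exact Zc_one hp h' h

lemma Zc_mul_ge {p : ℕ} (hp : p.Prime) (ρ σ : ℚ) :
    Zc ρ σ ≤ p * Zc ((p : ℚ) * ρ) ((p : ℚ) * σ) := by
  have h1 : Zc ((p : ℚ) * ρ) ((p : ℚ) * σ) ≤ p * Zc ((p : ℚ) * ρ) ((p : ℚ) * σ) :=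
    Nat.le_mul_of_pos_left _ hp.pos
  by_cases h : p ∣ ρ.den <;> by_cases h' : p ∣ σ.den
  · rw [Zc_both hp.pos h h'] at h1 ⊢; exact h1
  · exact (Zc_one' hp h h').ge
  · exact (Zc_one hp h h').ge
  · rw [Zc_none hp h h'] at h1 ⊢; exact h1

/-- row sums of the labels `p λ` -/
theorem row_mul {θ P : ℝ} (hP : 1 ≤ P) {p : ℕ} (hp : p.Prime) {Λ : Finset ℚ} {a : ℚ → ℝ}
    (hΛ : ∀ ρ ∈ Λ, Lab θ (a ρ) ρ) (ρ : ℚ) :
    ∑ σ ∈ Λ.image (fun ρ => (p:ℚ) * ρ), cc P ρ σ ≤ 2 * CX * P^(-(1/6) : ℝ) := by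
  classical
  have hp0 : (p:ℚ) ≠ 0 := by exact_mod_cast hp.ne_zero
  set Λ1 := Λ.filter (fun ρ => p ∣ ρ.den) with h1
  set Λ2 := Λ.filter (fun ρ => ¬ p ∣ ρ.den) with h2
  have hU : Λ.image (fun ρ => (p:ℚ) * ρ) =
      Λ1.image (fun ρ => (p:ℚ) * ρ) ∪ Λ2.image (fun ρ => (p:ℚ) * ρ) := by
    rw [← Finset.image_union, h1, h2, Finset.filter_union_filter_not_eq]
  rw [hU]
  have s1 : ∑ σ ∈ Λ1.image (fun ρ => (p:ℚ) * ρ), cc P ρ σ ≤ CX * P^(-(1/6) : ℝ) := by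
    apply row_lac hP
    intro σ hσ τ hτ hne hle
    obtain ⟨σ, hσ', rfl⟩ := Finset.mem_image.1 hσ
    obtain ⟨τ, hτ', rfl⟩ := Finset.mem_image.1 hτ
    obtain ⟨m1, d1⟩ := Finset.mem_filter.1 hσ'
    obtain ⟨m2, d2⟩ := Finset.mem_filter.1 hτ'
    rw [den_mul_dvd d1, den_mul_dvd d2] at hle ⊢
    have hne' : σ ≠ τ := fun h => hne (by rw [h])
    obtain ⟨k', hk⟩ := d1
    obtain ⟨l', hl⟩ := d2
    rw [hk, hl, Nat.mul_div_cancel_left _ hp.pos, Nat.mul_div_cancel_left _ hp.pos] at hle ⊢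
    have h3 := double (hΛ σ m1) (hΛ τ m2) hne' (by rw [hk, hl]; exact Nat.mul_le_mul_left _ hle)
    rw [hk, hl] at h3
    have h4 : p * (2 * k') ≤ p * l' := by nlinarith
    exact Nat.le_of_mul_le_mul_left h4 hp.pos
  have s2 : ∑ σ ∈ Λ2.image (fun ρ => (p:ℚ) * ρ), cc P ρ σ ≤ CX * P^(-(1/6) : ℝ) := by
    apply row_lac hP
    intro σ hσ τ hτ hne hle
    obtain ⟨σ, hσ', rfl⟩ := Finset.mem_image.1 hσ
    obtain ⟨τ, hτ', rfl⟩ := Finset.mem_image.1 hτ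
    obtain ⟨m1, d1⟩ := Finset.mem_filter.1 hσ'
    obtain ⟨m2, d2⟩ := Finset.mem_filter.1 hτ'
    rw [den_mul_ndvd hp d1, den_mul_ndvd hp d2] at hle ⊢
    have hne' : σ ≠ τ := fun h => hne (by rw [h])
    exact double (hΛ σ m1) (hΛ τ m2) hne' hle
  have s3 : ∑ σ ∈ Λ1.image (fun ρ => (p:ℚ) * ρ) ∪ Λ2.image (fun ρ => (p:ℚ) * ρ), cc P ρ σ ≤
      ∑ σ ∈ Λ1.image (fun ρ => (p:ℚ) * ρ), cc P ρ σ + ∑ σ ∈ Λ2.image (fun ρ => (p:ℚ) * ρ), cc P ρ σ := by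
    rw [← Finset.sum_union_inter]
    have : 0 ≤ ∑ σ ∈ Λ1.image (fun ρ => (p:ℚ) * ρ) ∩ Λ2.image (fun ρ => (p:ℚ) * ρ), cc P ρ σ :=
      Finset.sum_nonneg fun σ _ => cc_nonneg P ρ σ
    linarith
  linarith

/-- the label of the fatter item has a small denominator -/
lemma key_Zc {θ a b : ℝ} {p : ℕ} (hp : p.Prime) {ρ σ : ℚ} (h : Lab θ a ρ) (h' : Lab θ b σ)
    (hne : ρ ≠ σ) (hK : p * (max a b)^3 ≤ 1 / p)
    (hbad : ∀ (τ : ℚ) (c : ℝ), Lab θ c τ → p ∣ τ.den → (p:ℝ)^3 ≤ τ.den) :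
    (p:ℝ) ≤ 32 * ((Zc ((p:ℚ) * ρ) ((p:ℚ) * σ) : ℕ) : ℝ)^5 := by
  have hp1 : (1:ℝ) ≤ p := by exact_mod_cast hp.pos
  have hp0 : (0:ℝ) < p := by linarith
  set Z' : ℝ := ((Zc ((p:ℚ) * ρ) ((p:ℚ) * σ) : ℕ) : ℝ) with hZ'
  set Z : ℝ := ((Zc ρ σ : ℕ) : ℝ) with hZ
  have hZ'0 : 0 ≤ Z' := by positivity
  have hZ0 : 0 ≤ Z := by positivity
  have g5 := gap5 h h' hne
  rw [← hZ] at g5
  set m := max a b with hm
  have hm0 : 0 < m := lt_max_of_lt_left h.pos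
  have hge : Z ≤ p * Z' := by
    rw [hZ, hZ']; exact_mod_cast Zc_mul_ge hp ρ σ
  have same : Z = Z' → (p:ℝ) ≤ 32 * Z'^5 := by
    intro e
    rw [← e]
    have h1 : (p:ℝ) * 1 ≤ p * (32 * m^3 * Z^5) := mul_le_mul_of_nonneg_left g5 hp0.le
    have h2 : (p:ℝ) * (32 * m^3 * Z^5) = (p * m^3) * (32 * Z^5) := by ring
    have h3 : (p * m^3) * (32 * Z^5) ≤ 1 * (32 * Z^5) := by
      apply mul_le_mul_of_nonneg_right _ (by positivity)
      refine hK.trans ?_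
      rw [div_le_one hp0]; exact hp1
    linarith
  -- the different case
  have aux : ∀ (k l : ℕ) (Z'' : ℝ), 0 < k → (k:ℝ)^5 * m ≤ 1 → (¬ p ∣ k ∨ p ∣ k) →
      ((k:ℝ) < p → (p:ℝ)^3 ≤ l) → (l:ℝ)/k ≤ Z → (p:ℝ) ≤ 32 * Z'^5 := by
    intro k l _ hk hkm _ hl hlk
    by_cases hc : m ≤ 1 / (p:ℝ)^2
    · have h1 : m^3 ≤ (1 / (p:ℝ)^2)^3 := pow_le_pow_left₀ hm0.le hc 3
      have h2 : Z^5 ≤ (p * Z')^5 := pow_le_pow_left₀ hZ0 hge 5
      have h3 : (1:ℝ) ≤ 32 * (1 / (p:ℝ)^2)^3 * (p * Z')^5 := by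
        refine g5.trans ?_
        gcongr
      have h4 : 32 * (1 / (p:ℝ)^2)^3 * (p * Z')^5 = (32 * Z'^5) / p := by
        field_simp
      rw [h4, le_div_iff₀ hp0] at h3
      linarith
    · push Not at hc
      have hk0 : (0:ℝ) < k := by exact_mod_cast hk
      have hk1 : (1:ℝ) ≤ k := by exact_mod_cast hk
      have h1 : (k:ℝ)^5 < p^2 := by
        have h2 : (k:ℝ)^5 * (1/(p:ℝ)^2) < (k:ℝ)^5 * m := mul_lt_mul_of_pos_left hc (by positivity)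
        have h3 : (k:ℝ)^5 * (1/(p:ℝ)^2) < 1 := lt_of_lt_of_le h2 hkm
        rw [mul_one_div, div_lt_one (by positivity)] at h3
        exact h3
      have hkp : (k:ℝ) < p := by
        by_contra hcon
        push Not at hcon
        have h2 : (p:ℝ)^5 ≤ (k:ℝ)^5 := pow_le_pow_left₀ hp0.le hcon 5
        have h3 : (p:ℝ)^2 ≤ (p:ℝ)^5 := pow_le_pow_right₀ hp1 (by norm_num)
        linarith
      have h2 := hl hkp
      have h3 : (p:ℝ) ≤ Z' := by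
        have h4 : (l:ℝ)/k ≤ p * Z' := hlk.trans hge
        have h5 : (p:ℝ)^3 / p ≤ (l:ℝ)/k := by
          apply div_le_div₀ (by positivity) h2 hk0 hkp.le
        have h6 : (p:ℝ)^3 / p = p * p := by field_simp
        rw [h6] at h5
        exact le_of_mul_le_mul_left (h5.trans h4) hp0
      have h4 : (1:ℝ) ≤ Z' := hp1.trans h3
      have h5 : Z' ≤ Z'^5 := by
        calc Z' = Z'^1 := (pow_one _).symm
          _ ≤ Z'^5 := pow_le_pow_right₀ h4 (by norm_num)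
      nlinarith [pow_nonneg hZ'0 5]
  obtain ⟨z1, z2⟩ := Zc_ge ρ σ
  rw [← hZ] at z1 z2
  have fat : (ρ.den : ℝ)^5 * m ≤ 1 ∨ (σ.den : ℝ)^5 * m ≤ 1 := by
    rcases max_choice a b with h4 | h4
    · left; rw [hm, h4]; exact h.den
    · right; rw [hm, h4]; exact h'.den
  by_cases hd : p ∣ ρ.den <;> by_cases hd' : p ∣ σ.den
  · apply same; rw [hZ, hZ', Zc_both hp.pos hd hd']
  · rcases fat with hf | hf
    · refine aux ρ.den σ.den 0 ρ.den_pos hf (Or.inr hd) ?_ z1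
      intro hlt
      exfalso
      have := Nat.le_of_dvd ρ.den_pos hd
      have h6 : (p:ℝ) ≤ ρ.den := by exact_mod_cast this
      linarith
    · exact aux σ.den ρ.den 0 σ.den_pos hf (Or.inl hd') (fun _ => hbad ρ a h hd) z2
  · rcases fat with hf | hf
    · exact aux ρ.den σ.den 0 ρ.den_pos hf (Or.inl hd) (fun _ => hbad σ b h' hd') z1
    · refine aux σ.den ρ.den 0 σ.den_pos hf (Or.inr hd') ?_ z2
      intro hlt
      exfalso
      have := Nat.le_of_dvd σ.den_pos hd'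
      have h6 : (p:ℝ) ≤ σ.den := by exact_mod_cast this
      linarith
  · apply same; rw [hZ, hZ', Zc_none hp hd hd']

/-- lower bound of `D` -/
lemma key_D {θ a b D : ℝ} {p : ℕ} (hp : p.Prime) {ρ σ : ℚ} (h : Lab θ a ρ) (h' : Lab θ b σ)
    (hne : ρ ≠ σ) (hD : p * max a b ≤ D)
    (hZ : (p:ℝ) ≤ 32 * ((Zc ((p:ℚ) * ρ) ((p:ℚ) * σ) : ℕ) : ℝ)^5) :
    1 ≤ 32 * D * ((Zc ((p:ℚ) * ρ) ((p:ℚ) * σ) : ℕ) : ℝ)^5 := by
  have hp1 : (1:ℝ) ≤ p := by exact_mod_cast hp.pos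
  have hp0 : (0:ℝ) < p := by linarith
  have g5 := gap5 h h' hne
  have hge : ((Zc ρ σ : ℕ) : ℝ) ≤ p * ((Zc ((p:ℚ) * ρ) ((p:ℚ) * σ) : ℕ) : ℝ) := by
    exact_mod_cast Zc_mul_ge hp ρ σ
  set Z' : ℝ := ((Zc ((p:ℚ) * ρ) ((p:ℚ) * σ) : ℕ) : ℝ) with hZ'
  set Z : ℝ := ((Zc ρ σ : ℕ) : ℝ) with hZd
  have hZ'0 : 0 ≤ Z' := by positivity
  have hZ0 : 0 ≤ Z := by positivity
  set m := max a b with hm
  have hm0 : 0 < m := lt_max_of_lt_left h.pos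
  have hD0 : 0 < D := lt_of_lt_of_le (by positivity) hD
  have h1 : (1:ℝ) ≤ 32 * m^3 * (p * Z')^5 := by
    refine g5.trans ?_
    gcongr
  have h2 : 32 * m^3 * (p * Z')^5 = 32 * (p * m)^3 * (p^2 * Z'^5) := by ring
  have h3 : 32 * (p * m)^3 * (p^2 * Z'^5) ≤ 32 * D^3 * ((32 * Z'^5)^2 * Z'^5) := by
    gcongr
  have h4 : 32 * D^3 * ((32 * Z'^5)^2 * Z'^5) = (32 * D * Z'^5)^3 := by ring
  have h5 : (1:ℝ) ≤ (32 * D * Z'^5)^3 := by rw [← h4]; linarith [h1, h2.le, h2.ge, h3]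
  by_contra hc
  push Not at hc
  have h6 : (32 * D * Z'^5)^3 < 1 := pow_lt_one₀ (by positivity) hc (by norm_num)
  linarith

set_option maxHeartbeats 1000000 in
/-- **(1b)** two items with different labels at a column of a missing tie `p` -/
theorem dLLM (CL C2 : ℝ) (hCL : 0 ≤ CL) (hC2 : 0 ≤ C2) :
    ∃ p₁ : ℕ, ∀ p : ℕ, p₁ ≤ p → p.Prime →
    ∀ (θ : ℝ) (S : Finset ℕ) (E : Finset (ℕ × ℕ)) (R : ℕ → ℝ) (lam : ℕ → ℚ) (F : ℕ × ℕ → ℝ),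
    E ⊆ S ×ˢ S →
    (∀ w ∈ S, 0 < w ∧ 0 < R w) → (∀ w ∈ S, R w ≤ CL * Real.log p * wt R w) →
    (∀ w ∈ S, R w ≤ Real.log p ^ C2) →
    ∑ w ∈ S, wt R w ≤ Real.log p ^ C2 →
    (∀ q ∈ S, Lab θ (R q / p) (lam q)) →
    (∀ (ρ : ℚ) (a : ℝ), Lab θ a ρ → p ∣ ρ.den → Real.exp ((p:ℝ)^(1/20:ℝ)) < ρ.den) →
    (∀ e ∈ E, F e ≤ 2 * ((R e.1 * R e.2) / DP R R e)) →
    (∀ e ∈ E, 0 < F e → lam e.1 ≠ lam e.2 ∧ ∃ m m' : ℤ,
      ((m:ℝ) + (((p:ℚ) * lam e.1 : ℚ) : ℝ)) * (cof e.2 e.1 : ℕ) =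
        (m' + (((p:ℚ) * lam e.2 : ℚ) : ℝ)) * (cof e.1 e.2 : ℕ)) →
    ∑ e ∈ E, F e ≤ (p:ℝ)^(-(1/40):ℝ) * ∑ w ∈ S, wt R w := by
  classical
  have hCX := CX_pos
  have hLe := CL_nonneg (ε := e1) (by unfold e1; norm_num)
  obtain ⟨pb, hpb⟩ := Crest.Agent.R4.RseN207.log_large 1
  obtain ⟨p4, hp4⟩ := RseP24.log_le_rpow (10^6 * LL207.CL e1 * (2 * CL^2) * (4 * CX)) (2 + C2)
    (δ := 1/120) (by norm_num)
  obtain ⟨p5, hp5⟩ := RseP24.log_le_rpow 1 C2 (δ := 1/3) (by norm_num)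
  obtain ⟨p6, hp6⟩ := RseP24.log_le_rpow 3 1 (δ := 1/20) (by norm_num)
  refine ⟨pb + p4 + p5 + p6 + 32, fun p hp hpp => ?_⟩
  intro θ S E R lam F hES hS hLS hRb hMb hlab hbad hF hex
  have hl1 := hpb p (by omega)
  set ℓ := Real.log (p:ℝ) with hℓ
  have hℓ0 : 0 < ℓ := by linarith
  have hpN : 0 < p := by omega
  have hp0 : (0:ℝ) < p := by exact_mod_cast hpN
  have hp1R : (1:ℝ) ≤ p := by exact_mod_cast hpN
  have hp32 : (32:ℝ) ≤ p := by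
    have : 32 ≤ p := by omega
    exact_mod_cast this
  set L := CL * ℓ with hL
  have hL0 : 0 ≤ L := by positivity
  set M := ∑ w ∈ S, wt R w with hM
  have hwt : ∀ q ∈ S, 0 ≤ wt R q := fun q hq => by
    unfold wt; exact mul_nonneg (hS q hq).2.le (by positivity)
  have hM0 : 0 ≤ M := Finset.sum_nonneg hwt
  have hmem : ∀ e ∈ E, e.1 ∈ S ∧ e.2 ∈ S := fun e he => Finset.mem_product.1 (hES he)
  have hMC : ∀ x : ℝ, 0 ≤ x → x ≤ 1 → M^(1+x) ≤ M * ℓ^C2 := by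
    intro x hx0 hx1
    rcases hM0.eq_or_lt with h0 | h0
    · rw [← h0, Real.zero_rpow (by linarith)]; simp
    · rw [Real.rpow_add h0, Real.rpow_one]
      apply mul_le_mul_of_nonneg_left _ hM0
      calc M^x ≤ (ℓ^C2)^x := Real.rpow_le_rpow hM0 hMb hx0
        _ = ℓ^(C2*x) := by rw [← Real.rpow_mul hℓ0.le]
        _ ≤ ℓ^C2 := Real.rpow_le_rpow_of_exponent_le hl1 (by nlinarith)
  -- the radii
  have hC5 := hp5 p (by omega)
  rw [one_mul] at hC5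
  have hbad' : ∀ (τ : ℚ) (c : ℝ), Lab θ c τ → p ∣ τ.den → (p:ℝ)^3 ≤ τ.den := by
    intro τ c hl hd
    refine le_trans ?_ (hbad τ c hl hd).le
    have h1 := hp6 p (by omega)
    rw [Real.rpow_one] at h1
    calc (p:ℝ)^3 = Real.exp (3 * ℓ) := by
          rw [mul_comm, Real.exp_mul, hℓ, Real.exp_log hp0]
          exact_mod_cast (Real.rpow_natCast (p:ℝ) 3).symm
      _ ≤ _ := Real.exp_le_exp.2 h1
  have hKp : ∀ e ∈ E, p * (max (R e.1 / p) (R e.2 / p))^3 ≤ 1 / p := by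
    intro e he
    have hh := hmem e he
    have h0 : 0 < max (R e.1 / p) (R e.2 / p) :=
      lt_max_of_lt_left (div_pos (hS _ hh.1).2 hp0)
    have h1 : max (R e.1 / p) (R e.2 / p) ≤ (p:ℝ)^(1/3:ℝ) / p :=
      max_le (div_le_div_of_nonneg_right ((hRb _ hh.1).trans hC5) hp0.le)
        (div_le_div_of_nonneg_right ((hRb _ hh.2).trans hC5) hp0.le)
    have h2 : (max (R e.1 / p) (R e.2 / p))^3 ≤ ((p:ℝ)^(1/3:ℝ) / p)^3 :=
      pow_le_pow_left₀ h0.le h1 3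
    have h3 : ((p:ℝ)^(1/3:ℝ) / p)^3 = 1/(p:ℝ)^2 := by
      rw [div_pow, ← Real.rpow_natCast ((p:ℝ)^(1/3:ℝ)) 3, ← Real.rpow_mul hp0.le]
      norm_num
      field_simp
    rw [h3] at h2
    calc p * (max (R e.1 / p) (R e.2 / p))^3 ≤ p * (1/(p:ℝ)^2) := mul_le_mul_of_nonneg_left h2 hp0.le
      _ = 1/p := by field_simp
  have hDge : ∀ e ∈ E, p * max (R e.1 / p) (R e.2 / p) ≤ Dp R R e := by
    intro e he
    have hh := hmem e he
    have r1 := (hS _ hh.1).2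
    have r2 := (hS _ hh.2).2
    have c1 : (1:ℝ) ≤ (cof e.1 e.2 : ℕ) := by exact_mod_cast cof_pos (hS _ hh.1).1
    have c2 : (1:ℝ) ≤ (cof e.2 e.1 : ℕ) := by exact_mod_cast cof_pos (hS _ hh.2).1
    have d1 : R e.1 ≤ Dp R R e := by
      refine le_trans ?_ (le_max_right _ _)
      nlinarith
    have d2 : R e.2 ≤ Dp R R e := by
      refine le_trans ?_ (le_max_left _ _)
      nlinarith
    rcases max_choice (R e.1 / p) (R e.2 / p) with h4 | h4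
    · rw [h4, mul_div_cancel₀ _ hp0.ne']; exact d1
    · rw [h4, mul_div_cancel₀ _ hp0.ne']; exact d2
  set P : ℝ := (p:ℝ)^(1/5:ℝ) / 2 with hP
  have hP5 : 32 * P^5 = p := by
    rw [hP, div_pow, ← Real.rpow_natCast ((p:ℝ)^(1/5:ℝ)) 5, ← Real.rpow_mul hp0.le]
    norm_num
    ring
  have hPpos : 0 < P := by positivity
  have hP1 : 1 ≤ P := by
    by_contra hc
    push Not at hc
    have : P^5 < 1 := pow_lt_one₀ hPpos.le hc (by norm_num)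
    linarith
  have hZP : ∀ z : ℝ, 0 ≤ z → (p:ℝ) ≤ 32 * z^5 → P ≤ z := by
    intro z hz h
    by_contra hc
    push Not at hc
    have := pow_lt_pow_left₀ hc hz (by norm_num : (5:ℕ) ≠ 0)
    linarith
  have hch : ∀ ρ : ℚ, ∃ b : ℝ, ρ ∈ S.image lam → Lab θ b ρ := by
    intro ρ
    by_cases hρ : ρ ∈ S.image lam
    · obtain ⟨q, hq, rfl⟩ := Finset.mem_image.1 hρ
      exact ⟨R q / p, fun _ => hlab q hq⟩
    · exact ⟨0, fun h => absurd h hρ⟩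
  choose b hb using hch
  have bF := ll_total5 (P := P) (K := 2 * L^2) (Q := 2 * CX * P^(-(1/6) : ℝ)) (by positivity) (S := S)
    (R := R) (lab := fun q => (p:ℚ) * lam q) hS
    (fun ρ _ => by
      have h1 := row_mul (θ := θ) hP1 hpp (Λ := S.image lam) (a := b) (fun ρ hρ => hb ρ hρ) ρ
      rw [Finset.image_image] at h1
      exact h1) (E := E) hES (F := F)
    (fun e he => by
      have hh := hmem e he
      have hR := (hS _ hh.1).2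
      have hR' := (hS _ hh.2).2
      have hD := DP_pos (R := R) (R' := R) (hS _ hh.2).1 hR
      have eD : LLpair207.Dp R R e = DP R R e := by
        unfold LLpair207.Dp DP
        exact max_comm _ _
      rw [eD]
      have hRR : R e.1 * R e.2 ≤ L^2 * (wt R e.1 * wt R e.2) := by
        have f1 := hLS _ hh.1
        have f2 := hLS _ hh.2
        have f5 : 0 ≤ L * wt R e.1 := hR.le.trans f1
        calc R e.1 * R e.2 ≤ (L * wt R e.1) * (L * wt R e.2) := mul_le_mul f1 f2 hR'.le f5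
          _ = _ := by ring
      calc F e ≤ 2 * ((R e.1 * R e.2) / DP R R e) := hF e he
        _ ≤ 2 * ((L^2 * (wt R e.1 * wt R e.2)) / DP R R e) := by gcongr
        _ = 2 * L^2 * (wt R e.1 * wt R e.2 / DP R R e) := by ring)
    (fun e he h0 => by
      have hh := hmem e he
      obtain ⟨hne, hmm⟩ := hex e he h0
      have k1 := key_Zc hpp (hlab _ hh.1) (hlab _ hh.2) hne (hKp e he) hbad'
      have k2 := key_D hpp (hlab _ hh.1) (hlab _ hh.2) hne (hDge e he) k1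
      exact ⟨hZP _ (by positivity) k1, k2, hmm⟩)
  refine bF.trans ?_
  have h := hp4 p (by omega)
  have he1 : LL207.e1 = 1/1000 := rfl
  have h1 : (∑ q ∈ S, wt R q)^(1+2*LL207.e1) ≤ M * ℓ^C2 :=
    hMC (2*LL207.e1) (by rw [he1]; norm_num) (by rw [he1]; norm_num)
  have h3 : 0 ≤ (∑ q ∈ S, wt R q)^(1+2*LL207.e1) := by positivity
  have hPc : P^(-(1/6) : ℝ) ≤ 2 * (p:ℝ)^(-(1/30) : ℝ) := by
    rw [hP, Real.div_rpow (by positivity) (by norm_num), ← Real.rpow_mul hp0.le,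
      Real.rpow_neg (by norm_num : (0:ℝ) ≤ 2), div_inv_eq_mul, mul_comm]
    have e3 : (1/5 : ℝ) * (-(1/6)) = -(1/30) := by norm_num
    rw [e3]
    apply mul_le_mul_of_nonneg_right _ (by positivity)
    calc (2:ℝ)^(1/6:ℝ) ≤ 2^(1:ℝ) := Real.rpow_le_rpow_of_exponent_le (by norm_num) (by norm_num)
      _ = 2 := Real.rpow_one _
  have hW : (p:ℝ)^(1/120:ℝ) * (p:ℝ)^(-(1/30) : ℝ) = (p:ℝ)^(-(1/40) : ℝ) := by
    rw [← Real.rpow_add hp0]; congr 1; norm_num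
  calc (10^6 * LL207.CL LL207.e1) * (2 * L^2) * (2 * CX * P^(-(1/6) : ℝ)) *
      (∑ q ∈ S, wt R q)^(1+2*LL207.e1)
      ≤ (10^6 * LL207.CL LL207.e1) * (2 * L^2) * (2 * CX * (2 * (p:ℝ)^(-(1/30) : ℝ))) *
        (M * ℓ^C2) := by
        gcongr
    _ = (10^6 * LL207.CL LL207.e1 * (2 * CL^2) * (4 * CX)) * (ℓ^(2:ℝ) * ℓ^C2) *
        (p:ℝ)^(-(1/30) : ℝ) * M := by
        rw [hL, Real.rpow_two]; ring
    _ = (10^6 * LL207.CL LL207.e1 * (2 * CL^2) * (4 * CX)) * ℓ^(2 + C2) *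
        (p:ℝ)^(-(1/30) : ℝ) * M := by
        rw [← Real.rpow_add hℓ0]
    _ ≤ (p:ℝ)^(1/120:ℝ) * (p:ℝ)^(-(1/30) : ℝ) * M :=
        mul_le_mul_of_nonneg_right (mul_le_mul_of_nonneg_right h (by positivity)) hM0
    _ = (p:ℝ)^(-(1/40) : ℝ) * M := by rw [hW]

end Crest.Agent.R4P.LLM24
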