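import Crest.Agent.R4P.GainKL2_24
import Crest.Agent.R4P.ClsT4_24
import Crest.Agent.R4P.LLM_24

/-!
R4P (S0004, all `q`), helper24: **`ll_death2`** (helper23 #4008 (2), #4199): exact pairs of one node with
DIFFERENT labels, the left item carries one dead label `τ0` (radius `≤ Q^(-5)`), the right item a valid
label; exponent `47/1000`, a free cut `Y`, no factor for the number of labels.
-/

set_option autoImplicit false
open Finset

namespace Crest.Agent.R4P.LLD2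

open Crest.Agent.R4 Crest.Agent.R4.HVW560 Crest.Agent.R4.HVWX793
open Crest.Agent.R4.StopAsm709 Crest.Agent.R4.StopHvw709
open Crest.Agent.R4.Schur709
open Crest.Agent.R4.ClsS (eps1 Af)
open Crest.Agent.R4.LF363 (Lab lab_unique)
open Crest.Agent.R4.LF11 (DD ew DD_pos ew_nonneg)
open Crest.Agent.R4.InX944
open Crest.Agent.R4.LF765 (Struct)
open Crest.Agent.R4.ClsAll (Gen)
open Crest.Agent.R4.LL207 (Zc Zc_ge Zc_pos geo_inj two_labels)
open Crest.Agent.R4P.GainKL24 (uns_k uns_l absorb rat_int N2_le cof_ne)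
open Crest.Agent.R4P.LLM24 (gap_gcd)
open Crest.Agent.R4P.ClsT4 (Gen4 Uns scale_energy4)

/-! ### the middle range: classification -/

section Cls
variable {Q t : ℝ}

/-- the overlap seen from the labels -/
lemma ov_lab {θ D : ℝ} {ρ σ : ℚ} {x y : ℕ} {m m' : ℤ}
    (hex : ((m:ℝ) + ρ) * y = (m' + σ) * x)
    (hov : |(m + θ) * y - (m' + θ) * x| ≤ 2 * D) :
    |θ - ρ| * y ≤ 2 * D + |θ - σ| * x ∧ |(θ - ρ) * y - (θ - σ) * x| ≤ 2 * D := by
  have e : (m + θ) * y - (m' + θ) * x = (θ - ρ) * y - (θ - σ) * x := by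
    linear_combination hex
  rw [e] at hov
  refine ⟨?_, hov⟩
  have h1 : |(θ - ρ) * y| ≤ |(θ - ρ) * y - (θ - σ) * x| + |(θ - σ) * x| := by
    have := abs_add_le ((θ - ρ) * y - (θ - σ) * x) ((θ - σ) * x)
    simpa using this
  rw [abs_mul, abs_mul, abs_of_nonneg (by positivity : (0:ℝ) ≤ y),
    abs_of_nonneg (by positivity : (0:ℝ) ≤ x)] at h1
  linarith

/-- a balanced side -/
lemma bal {t η D w : ℝ} (ht0 : 0 < t) (hη : 0 < η) (hD : η * D ≤ 1/t)
    (h : t^(-(51/50):ℝ) < η * w) : D < t^(1/50:ℝ) * w := by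
  have hs0 : 0 < t^(1/50:ℝ) := by positivity
  have e51 : t^(-(51/50):ℝ) = (1/t) * (t^(1/50:ℝ))⁻¹ := by
    rw [one_div, ← Real.rpow_neg_one, ← Real.rpow_neg ht0.le, ← Real.rpow_add ht0]; norm_num
  rw [e51] at h
  have h1 : 1/t < t^(1/50:ℝ) * (η * w) := by
    have h2 : (1/t) * (t^(1/50:ℝ))⁻¹ * t^(1/50:ℝ) < η * w * t^(1/50:ℝ) :=
      mul_lt_mul_of_pos_right h hs0
    rw [mul_assoc, inv_mul_cancel₀ hs0.ne', mul_one] at h2
    linarith
  have h3 : η * D < η * (t^(1/50:ℝ) * w) := by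
    calc η * D ≤ 1/t := hD
      _ < t^(1/50:ℝ) * (η * w) := h1
      _ = _ := by ring
  exact lt_of_mul_lt_mul_left h3 hη.le

set_option maxHeartbeats 800000 in
/-- large denominators -/
theorem gen4_k {θ η : ℝ} {ρ σ : ℚ} {x y : ℕ} {r r' : ℝ} {m m' : ℤ} (hQ : (2:ℝ)^400 ≤ Q)
    (h8 : Q^8 ≤ t) (h82 : t ≤ Q^(41/5:ℝ)) (hη : 0 < η) (hx : 0 < x) (hy : 0 < y)
    (hσ : Lab θ r' σ) (hne : ρ ≠ σ) (hZ : (Zc ρ σ : ℝ) < Q^(1/6:ℝ))
    (hex : ((m:ℝ) + ρ) * y = (m' + σ) * x)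
    (hov : |(m + θ) * y - (m' + θ) * x| ≤ 2 * max ((y:ℝ) * r) ((x:ℝ) * r'))
    (hD : η * max ((y:ℝ) * r) ((x:ℝ) * r') ≤ 1/t)
    (hlow : Q^(-8:ℝ) < max ((y:ℝ) * r) ((x:ℝ) * r'))
    (hden : Q ≤ ρ.den) : Gen4 ρ σ t x y (η * r) (η * r') := by
  have hQ0 : 0 < Q := lt_of_lt_of_le (by positivity) hQ
  have hQ1 : 1 ≤ Q := le_trans (one_le_pow₀ (by norm_num)) hQ
  have ht0 : 0 < t := lt_of_lt_of_le (by positivity) h8
  have hpw : ∀ a b : ℝ, Q^a * Q^b = Q^(a+b) := fun a b => (Real.rpow_add hQ0 a b).symm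
  obtain ⟨hN, hs⟩ := N2_le hQ ht0 h82
  refine ⟨⟨m * y - m' * x, ?_⟩, ?_⟩
  · have e : ((m * y - m' * x : ℤ):ℝ) - ((σ:ℝ) * x - ρ * y) = 0 := by
      push_cast; linear_combination hex
    rw [e, abs_zero]; positivity
  by_cases hb : (x:ℝ) * (η * r') ≤ t^(-(51/50):ℝ) ∨ (y:ℝ) * (η * r) ≤ t^(-(51/50):ℝ)
  · exact Or.inl hb
  right; right
  push Not at hb
  obtain ⟨hb1, hb2⟩ := hb
  set D := max ((y:ℝ) * r) ((x:ℝ) * r') with hDd
  set N : ℝ := t^(1/10:ℝ) with hNd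
  set s : ℝ := t^(1/50:ℝ) with hsd
  have hN0 : 0 < N := by positivity
  have hs0 : 0 < s := by positivity
  have hx0 : (0:ℝ) < x := by exact_mod_cast hx
  have hy0 : (0:ℝ) < y := by exact_mod_cast hy
  have hx1 : (1:ℝ) ≤ x := by exact_mod_cast hx
  have hy1 : (1:ℝ) ≤ y := by exact_mod_cast hy
  have hr' := hσ.pos
  have hDx : D < s * (x * r') := bal ht0 hη hD (by
    calc t^(-(51/50):ℝ) < (x:ℝ) * (η * r') := hb1
      _ = η * (x * r') := by ring)
  -- the denominators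
  set k : ℝ := (ρ.den : ℝ) with hk
  set l : ℝ := (σ.den : ℝ) with hl
  have hk0 : 0 < k := by rw [hk]; exact_mod_cast ρ.den_pos
  have hl0 : 0 < l := by rw [hl]; exact_mod_cast σ.den_pos
  have hl1 : 1 ≤ l := by rw [hl]; exact_mod_cast σ.den_pos
  set P : ℝ := Q^(1/6:ℝ) with hP
  have hP0 : 0 < P := by positivity
  obtain ⟨-, z2⟩ := Zc_ge ρ σ
  have hkl : k < P * l := by
    have := z2.trans_lt hZ
    rwa [div_lt_iff₀ hl0] at this
  have hlQ : Q^(5/6:ℝ) < l := by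
    have h1 : Q < P * l := lt_of_le_of_lt hden hkl
    have h2 : P * Q^(5/6:ℝ) = Q := by
      rw [hP, hpw]; norm_num
    have h3 : P * Q^(5/6:ℝ) < P * l := by rw [h2]; exact h1
    exact lt_of_mul_lt_mul_left h3 hP0.le
  have hNl : N < l := by
    refine lt_of_le_of_lt hN (lt_trans ?_ hlQ)
    have := absorb hQ (c := 1) (a := 41/50) (b := 5/6) (by norm_num) (by norm_num)
    rwa [one_mul] at this
  have hNk : N < k := by
    refine lt_of_le_of_lt hN (lt_of_lt_of_le ?_ hden)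
    have := absorb hQ (c := 1) (a := 41/50) (b := 1) (by norm_num) (by norm_num)
    rwa [one_mul, Real.rpow_one] at this
  have hl3 : Q^(5/2:ℝ) < l^3 := by
    calc Q^(5/2:ℝ) = (Q^(5/6:ℝ))^3 := by
          rw [← Real.rpow_natCast (Q^(5/6:ℝ)) 3, ← Real.rpow_mul hQ0.le]; norm_num
      _ < l^3 := pow_lt_pow_left₀ hlQ (by positivity) (by norm_num)
  have hbig : 4 * (s * N * P) < l^3 := by
    refine lt_of_le_of_lt ?_ hl3
    calc 4 * (s * N * P) ≤ 4 * (Q^(41/250:ℝ) * Q^(41/50:ℝ) * Q^(1/6:ℝ)) := by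
          apply mul_le_mul_of_nonneg_left _ (by norm_num)
          apply mul_le_mul _ le_rfl hP0.le (by positivity)
          exact mul_le_mul hs hN hN0.le (by positivity)
      _ = 4 * Q^(41/250+41/50+1/6:ℝ) := by rw [hpw, hpw]
      _ ≤ Q^(5/2:ℝ) := (absorb hQ (by norm_num) (by norm_num)).le
  have hN1 : 1 ≤ N := Real.one_le_rpow (le_trans (one_le_pow₀ hQ1) h8) (by norm_num)
  have hs1 : 1 ≤ s := Real.one_le_rpow (le_trans (one_le_pow₀ hQ1) h8) (by norm_num)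
  have hP1 : 1 ≤ P := Real.one_le_rpow hQ1 (by norm_num)
  have hl34 : l^3 ≤ l^4 := pow_le_pow_right₀ hl1 (by norm_num)
  have hdr := hσ.den
  rw [← hl] at hdr
  have herr := hσ.err
  rw [← hl] at herr
  have hDl : D * l^5 < s * x := by
    calc D * l^5 < s * (x * r') * l^5 := mul_lt_mul_of_pos_right hDx (by positivity)
      _ = s * x * (l^5 * r') := by ring
      _ ≤ s * x * 1 := mul_le_mul_of_nonneg_left hdr (by positivity)
      _ = s * x := mul_one _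
  obtain ⟨hov1, -⟩ := ov_lab hex hov
  have hD0 : 0 < D := lt_trans (by positivity) hlow
  -- x is large
  have hxN : N < x := by
    by_contra hcon
    push Not at hcon
    have g1 := gap_gcd hne
    have hg : ((Nat.gcd ρ.den σ.den : ℕ):ℝ) ≤ l := by
      rw [hl]; exact_mod_cast Nat.le_of_dvd σ.den_pos (Nat.gcd_dvd_right _ _)
    have g2 : |(ρ:ℝ) - σ| ≤ |θ - ρ| + |θ - σ| := by
      have := abs_sub (θ - σ) (θ - ρ)
      have e : (θ - σ) - (θ - ρ) = (ρ : ℝ) - σ := by ring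
      rw [e] at this
      linarith
    have h1 : |θ - ρ| ≤ 2 * D + |θ - σ| * x := by
      refine le_trans ?_ hov1
      exact le_mul_of_one_le_right (abs_nonneg _) hy1
    have hDl4 : D * l^4 ≤ s * N := by
      have h2 : D * l^4 * l ≤ s * N * l := by
        calc D * l^4 * l = D * l^5 := by ring
          _ ≤ s * x := hDl.le
          _ ≤ s * N := mul_le_mul_of_nonneg_left hcon hs0.le
          _ ≤ s * N * l := le_mul_of_one_le_right (by positivity) hl1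
      exact le_of_mul_le_mul_right h2 hl0
    have h3 : |(ρ:ℝ) - σ| * l^4 ≤ 4 * (s * N) := by
      have h4 : |(ρ:ℝ) - σ| * l^4 ≤ (2 * D + |θ - σ| * x + |θ - σ|) * l^4 :=
        mul_le_mul_of_nonneg_right (by linarith) (by positivity)
      have h5 : (2 * D + |θ - σ| * x + |θ - σ|) * l^4 =
          2 * (D * l^4) + (|θ - σ| * l^4) * x + |θ - σ| * l^4 := by ring
      have h6 : (|θ - σ| * l^4) * x ≤ 1 * N := mul_le_mul herr hcon hx0.le (by norm_num)
      have h7 : N ≤ s * N := le_mul_of_one_le_left hN0.le hs1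
      have h8' : 1 ≤ s * N := hN1.trans h7
      linarith
    have h4 : 1 ≤ |(ρ:ℝ) - σ| * (P * l) := by
      refine g1.trans ?_
      apply mul_le_mul_of_nonneg_left _ (abs_nonneg _)
      exact mul_le_mul hZ.le hg (by positivity) hP0.le
    have h5 : l^3 ≤ 4 * (s * N) * P := by
      calc l^3 = 1 * l^3 := (one_mul _).symm
        _ ≤ |(ρ:ℝ) - σ| * (P * l) * l^3 := mul_le_mul_of_nonneg_right h4 (by positivity)
        _ = (|(ρ:ℝ) - σ| * l^4) * P := by ring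
        _ ≤ 4 * (s * N) * P := mul_le_mul_of_nonneg_right h3 hP0.le
    have h6 : 4 * (s * N) * P = 4 * (s * N * P) := by ring
    linarith
  -- the quantity `t x`
  have e8 : Q^(-8:ℝ) * Q^8 = 1 := by
    rw [← Real.rpow_natCast Q 8, ← Real.rpow_add hQ0]; norm_num
  have htx : l^5 < s * (t * x) := by
    have h1 : Q^(-8:ℝ) * l^5 < s * x := (mul_lt_mul_of_pos_right hlow (by positivity)).trans hDl
    calc l^5 = (Q^(-8:ℝ) * l^5) * Q^8 := by
          rw [mul_right_comm, e8, one_mul]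
      _ < (s * x) * Q^8 := mul_lt_mul_of_pos_right h1 (by positivity)
      _ ≤ (s * x) * t := mul_le_mul_of_nonneg_left h8 (by positivity)
      _ = s * (t * x) := by ring
  have hunsx : ∀ d : ℝ, d ≤ P * l → ∀ X : ℝ, 0 < X → (x:ℝ) ≤ 2 * X → 2 * N * d < t * X := by
    intro d hd X hX0 hxX
    have h1 : s * (t * x) ≤ s * (t * (2 * X)) := by gcongr
    have h2 : 4 * (s * N * P) * l^2 < l^3 * l^2 := mul_lt_mul_of_pos_right hbig (by positivity)
    have h3 : l ≤ l^2 := by nlinarith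
    have h4 : 4 * (s * N * P) * l ≤ 4 * (s * N * P) * l^2 := mul_le_mul_of_nonneg_left h3 (by positivity)
    have h5 : s * (4 * (N * d)) ≤ 4 * (s * N * P) * l := by
      calc s * (4 * (N * d)) ≤ s * (4 * (N * (P * l))) := by gcongr
        _ = _ := by ring
    have h6 : s * (4 * (N * d)) < s * (t * (2 * X)) := by
      calc s * (4 * (N * d)) ≤ 4 * (s * N * P) * l^2 := h5.trans h4
        _ < l^3 * l^2 := h2
        _ = l^5 := by ring
        _ < s * (t * x) := htx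
        _ ≤ _ := h1
    have h7 := lt_of_mul_lt_mul_left h6 hs0.le
    linarith
  refine ⟨hxN, ?_, ?_⟩
  · intro X hX0 _ hxX
    apply uns_k ht0 hX0 hNl
    exact hunsx l (le_mul_of_one_le_left hl0.le hP1) X hX0 hxX
  · by_cases hyx : y ≤ x
    · exact Or.inl hyx
    · right
      intro Y hY0 _ hyY
      apply uns_k ht0 hY0 hNk
      apply hunsx k hkl.le Y hY0
      have : (x:ℝ) ≤ y := by exact_mod_cast (not_le.1 hyx).le
      linarith

set_option maxHeartbeats 1600000 in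
/-- small denominators, the dead label is far -/
theorem gen4_l {θ η : ℝ} {ρ σ : ℚ} {x y : ℕ} {r r' : ℝ} {m m' : ℤ} (hQ : (2:ℝ)^400 ≤ Q)
    (h8 : Q^8 ≤ t) (h82 : t ≤ Q^(41/5:ℝ)) (hη : 0 < η) (hη1 : η ≤ 1) (hx : 0 < x) (hy : 0 < y)
    (hr : 0 < r) (hσ : Lab θ r' σ) (hne : ρ ≠ σ) (hZ : (Zc ρ σ : ℝ) < Q^(1/6:ℝ))
    (hex : ((m:ℝ) + ρ) * y = (m' + σ) * x)
    (hov : |(m + θ) * y - (m' + θ) * x| ≤ 2 * max ((y:ℝ) * r) ((x:ℝ) * r'))
    (hD : η * max ((y:ℝ) * r) ((x:ℝ) * r') ≤ 1/t)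
    (hr5 : r ≤ Q^(-5:ℝ)) (hden : (ρ.den:ℝ) < Q) (hfar : Q * r ≤ |θ - ρ|) :
    Gen4 (ρ + η * (θ - ρ)) (σ + η * (θ - σ)) t x y (η * r) (η * r') := by
  have hQ0 : 0 < Q := lt_of_lt_of_le (by positivity) hQ
  have hQ1 : 1 ≤ Q := le_trans (one_le_pow₀ (by norm_num)) hQ
  have ht0 : 0 < t := lt_of_lt_of_le (by positivity) h8
  have hpw : ∀ a b : ℝ, Q^a * Q^b = Q^(a+b) := fun a b => (Real.rpow_add hQ0 a b).symm
  obtain ⟨hN, hs⟩ := N2_le hQ ht0 h82
  refine ⟨⟨m * y - m' * x, ?_⟩, ?_⟩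
  · have e : ((m * y - m' * x : ℤ):ℝ) - (((σ:ℝ) + η * (θ - σ)) * x - (ρ + η * (θ - ρ)) * y) =
        η * ((m + θ) * y - (m' + θ) * x) := by
      push_cast; linear_combination (1 - η) * hex
    rw [e, abs_mul, abs_of_pos hη]
    calc η * |(m + θ) * y - (m' + θ) * x| ≤ η * (2 * max ((y:ℝ) * r) ((x:ℝ) * r')) :=
          mul_le_mul_of_nonneg_left hov hη.le
      _ = 2 * (η * max ((y:ℝ) * r) ((x:ℝ) * r')) := by ring
      _ ≤ 2 * (1/t) := mul_le_mul_of_nonneg_left hD (by norm_num)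
      _ = 2/t := by ring
  by_cases hb : (x:ℝ) * (η * r') ≤ t^(-(51/50):ℝ) ∨ (y:ℝ) * (η * r) ≤ t^(-(51/50):ℝ)
  · exact Or.inl hb
  right
  push Not at hb
  obtain ⟨hb1, hb2⟩ := hb
  set D := max ((y:ℝ) * r) ((x:ℝ) * r') with hDd
  set N : ℝ := t^(1/10:ℝ) with hNd
  set s : ℝ := t^(1/50:ℝ) with hsd
  have hN0 : 0 < N := by positivity
  have hs0 : 0 < s := by positivity
  have hx0 : (0:ℝ) < x := by exact_mod_cast hx
  have hy0 : (0:ℝ) < y := by exact_mod_cast hy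
  have hx1 : (1:ℝ) ≤ x := by exact_mod_cast hx
  have hy1 : (1:ℝ) ≤ y := by exact_mod_cast hy
  have hr' := hσ.pos
  have hDy : D < s * (y * r) := bal ht0 hη hD (by
    calc t^(-(51/50):ℝ) < (y:ℝ) * (η * r) := hb2
      _ = η * (y * r) := by ring)
  have hDxr : x * r' ≤ D := le_max_right _ _
  have hDyr : y * r ≤ D := le_max_left _ _
  have hD0 : 0 < D := lt_of_lt_of_le (by positivity) hDxr
  -- `t η y r` is at least `1 / s`
  have hbal : 1 < s * (t * (η * (y * r))) := by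
    have e51 : t^(-(51/50):ℝ) * (s * t) = 1 := by
      rw [hsd]
      nth_rewrite 3 [← Real.rpow_one t]
      rw [← Real.rpow_add ht0, ← Real.rpow_add ht0]; norm_num
    calc (1:ℝ) = t^(-(51/50):ℝ) * (s * t) := e51.symm
      _ < (y:ℝ) * (η * r) * (s * t) := mul_lt_mul_of_pos_right hb2 (by positivity)
      _ = _ := by ring
  have ht1 : 1 ≤ t := le_trans (one_le_pow₀ hQ1) h8
  have hN1 : 1 ≤ N := Real.one_le_rpow ht1 (by norm_num)
  have hs1 : 1 ≤ s := Real.one_le_rpow ht1 (by norm_num)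
  obtain ⟨hov1, hov2⟩ := ov_lab hex hov
  -- the denominators
  set k : ℝ := (ρ.den : ℝ) with hk
  set l : ℝ := (σ.den : ℝ) with hl
  have hk0 : 0 < k := by rw [hk]; exact_mod_cast ρ.den_pos
  have hl0 : 0 < l := by rw [hl]; exact_mod_cast σ.den_pos
  set P : ℝ := Q^(1/6:ℝ) with hP
  have hP0 : 0 < P := by positivity
  have hPQ : P * Q = Q^(7/6:ℝ) := by
    calc P * Q = Q^(1/6:ℝ) * Q^(1:ℝ) := by rw [Real.rpow_one]
      _ = Q^(7/6:ℝ) := by rw [hpw]; norm_num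
  obtain ⟨z1, -⟩ := Zc_ge ρ σ
  have hlQ : l < Q^(7/6:ℝ) := by
    have h1 := z1.trans_lt hZ
    rw [div_lt_iff₀ hk0] at h1
    rw [← hPQ]
    exact h1.trans (mul_lt_mul_of_pos_left hden hP0)
  have hgap : 1 ≤ |(ρ:ℝ) - σ| * Q^(7/6:ℝ) := by
    refine (gap_gcd hne).trans ?_
    apply mul_le_mul_of_nonneg_left _ (abs_nonneg _)
    rw [← hPQ]
    have hg : ((Nat.gcd ρ.den σ.den : ℕ):ℝ) ≤ Q := by
      have : ((Nat.gcd ρ.den σ.den : ℕ):ℝ) ≤ ρ.den := by
        exact_mod_cast Nat.le_of_dvd ρ.den_pos (Nat.gcd_dvd_left _ _)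
      linarith
    exact mul_le_mul hZ.le hg (by positivity) hP0.le
  have g2 : |(ρ:ℝ) - σ| ≤ |θ - ρ| + |θ - σ| := by
    have := abs_sub (θ - σ) (θ - ρ)
    have e : (θ - σ) - (θ - ρ) = (ρ : ℝ) - σ := by ring
    rw [e] at this
    linarith
  have h76 : 1 ≤ (|θ - ρ| + |θ - σ|) * Q^(7/6:ℝ) :=
    hgap.trans (mul_le_mul_of_nonneg_right g2 (by positivity))
  -- `D ≤ s y Q^(-5)`
  have hDy5 : D * Q^(5:ℝ) ≤ s * y := by
    have h1 : D ≤ s * (y * Q^(-5:ℝ)) :=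
      hDy.le.trans (by gcongr)
    calc D * Q^(5:ℝ) ≤ s * (y * Q^(-5:ℝ)) * Q^(5:ℝ) := mul_le_mul_of_nonneg_right h1 (by positivity)
      _ = s * y * (Q^(-5:ℝ) * Q^(5:ℝ)) := by ring
      _ = s * y := by rw [hpw]; norm_num
  have hερ : |η * (θ - ρ)| = η * |θ - ρ| := by rw [abs_mul, abs_of_pos hη]
  have hεσ : |η * (θ - σ)| = η * |θ - σ| := by rw [abs_mul, abs_of_pos hη]
  have htQ : Q^(8:ℝ) ≤ t := by
    calc Q^(8:ℝ) = Q^8 := by exact_mod_cast Real.rpow_natCast Q 8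
      _ ≤ t := h8
  -- `4 N / t` is small
  have hNt : 4 * N / t ≤ Q^(-7:ℝ) := by
    rw [div_le_iff₀ ht0]
    calc 4 * N ≤ 4 * Q^(41/50:ℝ) := by linarith
      _ ≤ Q^(1:ℝ) := (absorb hQ (by norm_num) (by norm_num)).le
      _ = Q^(-7:ℝ) * Q^(8:ℝ) := by rw [hpw]; norm_num
      _ ≤ Q^(-7:ℝ) * t := mul_le_mul_of_nonneg_left htQ (by positivity)
  have hNY : ∀ (z Y : ℝ), 1 ≤ z → 0 < Y → z ≤ 2 * Y → 2 * N / (t * Y) ≤ 4 * N / t ∧
      2 * N / (t * Y) ≤ 4 * N / (t * z) := by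
    intro z Y hz hY hzY
    have hz0 : 0 < z := by linarith
    have h1 : 2 * N / (t * Y) ≤ 4 * N / (t * z) := by
      rw [div_le_div_iff₀ (by positivity) (by positivity)]
      calc 2 * N * (t * z) ≤ 2 * N * (t * (2 * Y)) := by gcongr
        _ = 4 * N * (t * Y) := by ring
    refine ⟨h1.trans ?_, h1⟩
    apply div_le_div_of_nonneg_left (by positivity) ht0
    exact le_mul_of_one_le_right ht0.le hz
  by_cases hA : Q^(-(7/6):ℝ) / 2 ≤ |θ - σ|
  · -- A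
    left
    have h1 : Q^(-6:ℝ) ≤ r'^4 := by
      calc Q^(-6:ℝ) ≤ (Q^(-(7/6):ℝ) / 2)^5 := by
            rw [div_pow, ← Real.rpow_natCast (Q^(-(7/6):ℝ)) 5, ← Real.rpow_mul hQ0.le,
              le_div_iff₀ (by norm_num)]
            have h2 := absorb hQ (c := 8) (a := -6) (b := -(71/12)) (by norm_num) (by norm_num)
            have h3 := absorb hQ (c := 4) (a := -(71/12)) (b := -(35/6)) (by norm_num) (by norm_num)
            have e5 : (-(7/6) * ((5:ℕ):ℝ) : ℝ) = -(35/6) := by norm_num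
            rw [e5]
            have h4 : (2:ℝ)^5 = 32 := by norm_num
            rw [h4]
            linarith
        _ ≤ |θ - σ|^5 := pow_le_pow_left₀ (by positivity) hA 5
        _ ≤ r'^4 := hσ.near
    have h2 : Q^(-(3/2):ℝ) ≤ r' := by
      have h3 : (Q^(-(3/2):ℝ))^4 ≤ r'^4 := by
        rw [← Real.rpow_natCast (Q^(-(3/2):ℝ)) 4, ← Real.rpow_mul hQ0.le]
        have e5 : (-(3/2) * ((4:ℕ):ℝ) : ℝ) = -6 := by norm_num
        rw [e5]; exact h1
      exact le_of_pow_le_pow_left₀ (by norm_num) hr'.le h3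
    have hxD : x ≤ D * Q^(3/2:ℝ) := by
      have h3 : x * Q^(-(3/2):ℝ) ≤ D := (mul_le_mul_of_nonneg_left h2 hx0.le).trans hDxr
      calc (x:ℝ) = (x * Q^(-(3/2):ℝ)) * Q^(3/2:ℝ) := by rw [mul_assoc, hpw]; norm_num
        _ ≤ _ := mul_le_mul_of_nonneg_right h3 (by positivity)
    have hQs : 8 * (N * s) ≤ Q := by
      calc 8 * (N * s) ≤ 8 * (Q^(41/50:ℝ) * Q^(41/250:ℝ)) := by gcongr
        _ = 8 * Q^(41/50+41/250:ℝ) := by rw [hpw]
        _ ≤ Q^(1:ℝ) := (absorb hQ (by norm_num) (by norm_num)).le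
        _ = Q := Real.rpow_one Q
    have hNs0 : 0 < N * s := by positivity
    have hsQ : s ≤ Q := by
      calc s ≤ N * s := le_mul_of_one_le_left hs0.le hN1
        _ ≤ 8 * (N * s) := le_mul_of_one_le_left hNs0.le (by norm_num)
        _ ≤ Q := hQs
    have hy7 : D * Q^(4:ℝ) ≤ y := by
      have h3 : D * Q^(5:ℝ) ≤ Q * y := hDy5.trans (mul_le_mul_of_nonneg_right hsQ hy0.le)
      have h4 : D * Q^(5:ℝ) = Q * (D * Q^(4:ℝ)) := by
        have : Q^(5:ℝ) = Q^(1:ℝ) * Q^(4:ℝ) := by rw [hpw]; norm_num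
        rw [this, Real.rpow_one]; ring
      rw [h4] at h3
      exact le_of_mul_le_mul_left h3 hQ0
    have hDlow : Q^(-(3/2):ℝ) ≤ D := h2.trans ((le_mul_of_one_le_left hr'.le hx1).trans hDxr)
    have hyQ : Q^(5/2:ℝ) ≤ y := by
      calc Q^(5/2:ℝ) = Q^(-(3/2):ℝ) * Q^(4:ℝ) := by rw [hpw]; norm_num
        _ ≤ D * Q^(4:ℝ) := mul_le_mul_of_nonneg_right hDlow (by positivity)
        _ ≤ y := hy7
    refine ⟨?_, ?_, Or.inl ?_⟩
    · refine lt_of_lt_of_le (lt_of_le_of_lt hN ?_) hyQ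
      have := absorb hQ (c := 1) (a := 41/50) (b := 5/2) (by norm_num) (by norm_num)
      rwa [one_mul] at this
    · intro Y hY0 _ hyY
      obtain ⟨n1, n2⟩ := hNY y Y hy1 hY0 hyY
      -- `|θ - ρ|` is small
      have herr1 : |θ - σ| ≤ 1 := by
        have h3 : |θ - σ|^5 ≤ 1 := hσ.near.trans (pow_le_one₀ hr'.le (hσ.le.trans (by norm_num)))
        by_contra hc
        push Not at hc
        have := one_lt_pow₀ hc (by norm_num : (5:ℕ) ≠ 0)
        linarith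
      have h3 : |θ - ρ| * y ≤ 3 * (D * Q^(3/2:ℝ)) := by
        have h4 : |θ - σ| * x ≤ 1 * (D * Q^(3/2:ℝ)) := mul_le_mul herr1 hxD hx0.le (by norm_num)
        have h5 : 1 ≤ Q^(3/2:ℝ) := Real.one_le_rpow hQ1 (by norm_num)
        have h6 : D ≤ D * Q^(3/2:ℝ) := le_mul_of_one_le_right hD0.le h5
        linarith
      have h4 : |θ - ρ| ≤ Q^(-2:ℝ) := by
        have h5 : |θ - ρ| * (D * Q^(4:ℝ)) ≤ 3 * (D * Q^(3/2:ℝ)) :=
          (mul_le_mul_of_nonneg_left hy7 (abs_nonneg _)).trans h3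
        have h6 : 3 * Q^(3/2:ℝ) ≤ Q^(2:ℝ) := (absorb hQ (by norm_num) (by norm_num)).le
        have h7 : |θ - ρ| * (D * Q^(4:ℝ)) ≤ Q^(-2:ℝ) * (D * Q^(4:ℝ)) := by
          calc |θ - ρ| * (D * Q^(4:ℝ)) ≤ D * (3 * Q^(3/2:ℝ)) := by linarith
            _ ≤ D * Q^(2:ℝ) := mul_le_mul_of_nonneg_left h6 hD0.le
            _ = D * (Q^(-2:ℝ) * Q^(4:ℝ)) := by rw [hpw]; norm_num
            _ = _ := by ring
        exact le_of_mul_le_mul_right h7 (by positivity)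
      have hkinv : Q^(-1:ℝ) < 1 / k := by
        rw [Real.rpow_neg_one, ← one_div]
        exact one_div_lt_one_div_of_lt hk0 hden
      apply uns_l
      · rw [hερ]
        refine lt_of_le_of_lt ?_ hkinv
        have h5 : N * (η * |θ - ρ|) ≤ Q^(41/50:ℝ) * (1 * Q^(-2:ℝ)) := by gcongr
        have h6 : 2 * Q^(41/50+(-2):ℝ) ≤ Q^(-1:ℝ) := (absorb hQ (by norm_num) (by norm_num)).le
        have h7 : 2 * Q^(-7:ℝ) ≤ Q^(-1:ℝ) := (absorb hQ (by norm_num) (by norm_num)).le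
        rw [one_mul, hpw] at h5
        linarith [n1.trans hNt]
      · rw [hερ]
        refine lt_of_le_of_lt n2 ?_
        rw [div_lt_iff₀ (by positivity)]
        have h5 : Q < s * (η * |θ - ρ| * (t * y)) := by
          calc Q = Q * 1 := (mul_one Q).symm
            _ < Q * (s * (t * (η * (y * r)))) := mul_lt_mul_of_pos_left hbal hQ0
            _ = s * (η * (Q * r) * (t * y)) := by ring
            _ ≤ s * (η * |θ - ρ| * (t * y)) := by gcongr
        have h6 : s * (4 * N) ≤ Q := by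
          calc s * (4 * N) = 4 * (N * s) := by ring
            _ ≤ 8 * (N * s) := mul_le_mul_of_nonneg_right (by norm_num) hNs0.le
            _ ≤ Q := hQs
        exact lt_of_mul_lt_mul_left (lt_of_le_of_lt h6 h5) hs0.le
    · have h3 : D * Q^(3/2:ℝ) ≤ D * Q^(4:ℝ) := by
        apply mul_le_mul_of_nonneg_left _ hD0.le
        exact Real.rpow_le_rpow_of_exponent_le hQ1 (by norm_num)
      have : (x:ℝ) ≤ y := hxD.trans (h3.trans hy7)
      exact_mod_cast this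
  · -- B
    right
    push Not at hA
    have hρfar : Q^(-(7/6):ℝ) / 2 ≤ |θ - ρ| := by
      have h1 : Q^(-(7/6):ℝ) * Q^(7/6:ℝ) = 1 := by rw [hpw]; norm_num
      have h2 : Q^(-(7/6):ℝ) ≤ |θ - ρ| + |θ - σ| := by
        by_contra hc
        push Not at hc
        have h3 : (|θ - ρ| + |θ - σ|) * Q^(7/6:ℝ) < Q^(-(7/6):ℝ) * Q^(7/6:ℝ) :=
          mul_lt_mul_of_pos_right hc (by positivity)
        linarith
      linarith
    -- `2 D ≤ |θ - ρ| y / 2`
    have h2D : 2 * D ≤ |θ - ρ| * y / 2 := by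
      have h1 : D ≤ s * y * Q^(-5:ℝ) := by
        calc D = (D * Q^(5:ℝ)) * Q^(-5:ℝ) := by rw [mul_assoc, hpw]; norm_num
          _ ≤ s * y * Q^(-5:ℝ) := mul_le_mul_of_nonneg_right hDy5 (by positivity)
      have h2 : 8 * (s * Q^(-5:ℝ)) ≤ Q^(-(7/6):ℝ) := by
        calc 8 * (s * Q^(-5:ℝ)) ≤ 8 * (Q^(41/250:ℝ) * Q^(-5:ℝ)) := by gcongr
          _ = 8 * Q^(41/250+(-5):ℝ) := by rw [hpw]
          _ ≤ _ := (absorb hQ (by norm_num) (by norm_num)).le
      calc 2 * D ≤ 2 * (s * y * Q^(-5:ℝ)) := by linarith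
        _ = (8 * (s * Q^(-5:ℝ))) * y / 4 := by ring
        _ ≤ Q^(-(7/6):ℝ) * y / 4 := by gcongr
        _ = (Q^(-(7/6):ℝ) / 2) * y / 2 := by ring
        _ ≤ |θ - ρ| * y / 2 := by gcongr
    have hσx : Q^(-(7/6):ℝ) / 4 * y ≤ |θ - σ| * x := by
      have h1 : |θ - ρ| * y / 2 ≤ |θ - σ| * x := by linarith
      calc Q^(-(7/6):ℝ) / 4 * y = (Q^(-(7/6):ℝ) / 2) * y / 2 := by ring
        _ ≤ |θ - ρ| * y / 2 := by gcongr
        _ ≤ _ := h1
    have hσ0 : 0 < |θ - σ| := by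
      by_contra hc
      have h1 : |θ - σ| = 0 := le_antisymm (not_lt.1 hc) (abs_nonneg _)
      rw [h1, zero_mul] at hσx
      have : 0 < Q^(-(7/6):ℝ) / 4 * y := by positivity
      linarith
    -- the radius is tiny
    have hr'1 : r' < 4 * s * Q^(-(23/6):ℝ) * |θ - σ| := by
      have h1 : x * r' < s * (y * Q^(-5:ℝ)) := by
        calc x * r' ≤ D := hDxr
          _ < s * (y * r) := hDy
          _ ≤ _ := by gcongr
      have h2 : Q^(-(7/6):ℝ) / 4 * y * r' < |θ - σ| * (s * (y * Q^(-5:ℝ))) := by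
        calc Q^(-(7/6):ℝ) / 4 * y * r' ≤ |θ - σ| * x * r' := mul_le_mul_of_nonneg_right hσx hr'.le
          _ = |θ - σ| * (x * r') := by ring
          _ < _ := mul_lt_mul_of_pos_left h1 hσ0
      have e5 : Q^(-5:ℝ) = Q^(-(7/6):ℝ) * Q^(-(23/6):ℝ) := by rw [hpw]; norm_num
      have h3 : (Q^(-(7/6):ℝ) / 4 * y) * r' <
          (Q^(-(7/6):ℝ) / 4 * y) * (4 * s * Q^(-(23/6):ℝ) * |θ - σ|) := by
        calc (Q^(-(7/6):ℝ) / 4 * y) * r' < |θ - σ| * (s * (y * Q^(-5:ℝ))) := h2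
          _ = _ := by rw [e5]; ring
      exact lt_of_mul_lt_mul_left h3 (by positivity)
    have hσs : |θ - σ| ≤ Q^(-14:ℝ) := by
      have h1 : |θ - σ|^5 < (4 * s * Q^(-(23/6):ℝ) * |θ - σ|)^4 :=
        lt_of_le_of_lt hσ.near (pow_lt_pow_left₀ hr'1 hr'.le (by norm_num))
      have h2 : |θ - σ|^4 * |θ - σ| < |θ - σ|^4 * (4 * s * Q^(-(23/6):ℝ))^4 := by
        calc |θ - σ|^4 * |θ - σ| = |θ - σ|^5 := by ring
          _ < _ := h1
          _ = _ := by ring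
      have h3 : |θ - σ| < (4 * s * Q^(-(23/6):ℝ))^4 := lt_of_mul_lt_mul_left h2 (by positivity)
      refine h3.le.trans ?_
      have h4 : 4 * s * Q^(-(23/6):ℝ) ≤ Q^(-(7/2):ℝ) := by
        calc 4 * s * Q^(-(23/6):ℝ) ≤ 4 * Q^(41/250:ℝ) * Q^(-(23/6):ℝ) := by gcongr
          _ = 4 * Q^(41/250+(-(23/6)):ℝ) := by rw [mul_assoc, hpw]
          _ ≤ _ := (absorb hQ (by norm_num) (by norm_num)).le
      calc (4 * s * Q^(-(23/6):ℝ))^4 ≤ (Q^(-(7/2):ℝ))^4 := pow_le_pow_left₀ (by positivity) h4 4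
        _ = Q^(-14:ℝ) := by
            rw [← Real.rpow_natCast (Q^(-(7/2):ℝ)) 4, ← Real.rpow_mul hQ0.le]; norm_num
    have hxy : Q^(12:ℝ) * y ≤ x := by
      have h1 : Q^(-(7/6):ℝ) / 4 * y ≤ Q^(-14:ℝ) * x := hσx.trans (mul_le_mul_of_nonneg_right hσs hx0.le)
      have h2 : 4 * Q^(-2:ℝ) ≤ Q^(-(7/6):ℝ) := (absorb hQ (by norm_num) (by norm_num)).le
      have h3 : Q^(-14:ℝ) * (Q^(12:ℝ) * y) ≤ Q^(-14:ℝ) * x := by
        calc Q^(-14:ℝ) * (Q^(12:ℝ) * y) = (4 * Q^(-2:ℝ)) / 4 * y := by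
              rw [← mul_assoc, hpw]; norm_num
          _ ≤ Q^(-(7/6):ℝ) / 4 * y := by gcongr
          _ ≤ _ := h1
      exact le_of_mul_le_mul_left h3 (by positivity)
    have hQ12 : (1:ℝ) ≤ Q^(12:ℝ) := Real.one_le_rpow hQ1 (by norm_num)
    refine ⟨?_, ?_, Or.inl ?_⟩
    · have h1 : Q^(12:ℝ) ≤ x := (le_mul_of_one_le_right (by positivity) hy1).trans hxy
      refine lt_of_lt_of_le (lt_of_le_of_lt hN ?_) h1
      have := absorb hQ (c := 1) (a := 41/50) (b := 12) (by norm_num) (by norm_num)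
      rwa [one_mul] at this
    · intro X hX0 _ hxX
      obtain ⟨n1, n2⟩ := hNY x X hx1 hX0 hxX
      have hlinv : Q^(-(7/6):ℝ) < 1 / l := by
        rw [Real.rpow_neg hQ0.le, ← one_div]
        exact one_div_lt_one_div_of_lt hl0 hlQ
      apply uns_l
      · rw [hεσ]
        refine lt_of_le_of_lt ?_ hlinv
        have h5 : N * (η * |θ - σ|) ≤ Q^(41/50:ℝ) * (1 * Q^(-14:ℝ)) := by gcongr
        have h6 : 2 * Q^(41/50+(-14):ℝ) ≤ Q^(-(7/6):ℝ) := (absorb hQ (by norm_num) (by norm_num)).le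
        have h7 : 2 * Q^(-7:ℝ) ≤ Q^(-(7/6):ℝ) := (absorb hQ (by norm_num) (by norm_num)).le
        rw [one_mul, hpw] at h5
        linarith [n1.trans hNt]
      · rw [hεσ]
        refine lt_of_le_of_lt n2 ?_
        rw [div_lt_iff₀ (by positivity)]
        -- `t η y ≥ Q^5 / s`
        have h5 : Q^(5:ℝ) < s * (t * (η * y)) := by
          have h6 : (1:ℝ) < s * (t * (η * y)) * Q^(-5:ℝ) := by
            calc (1:ℝ) < s * (t * (η * (y * r))) := hbal
              _ ≤ s * (t * (η * (y * Q^(-5:ℝ)))) := by gcongr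
              _ = _ := by ring
          have h7 : 1 * Q^(5:ℝ) < s * (t * (η * y)) * Q^(-5:ℝ) * Q^(5:ℝ) :=
            mul_lt_mul_of_pos_right h6 (by positivity)
          have h7' : Q^(-5:ℝ) * Q^(5:ℝ) = 1 := by rw [hpw]; norm_num
          rw [one_mul, mul_assoc, h7', mul_one] at h7
          exact h7
        have h8' : Q^(5:ℝ) * (Q^(-(7/6):ℝ) / 4) < s * (η * |θ - σ| * (t * x)) := by
          calc Q^(5:ℝ) * (Q^(-(7/6):ℝ) / 4) < s * (t * (η * y)) * (Q^(-(7/6):ℝ) / 4) :=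
                mul_lt_mul_of_pos_right h5 (by positivity)
            _ = s * (t * η) * (Q^(-(7/6):ℝ) / 4 * y) := by ring
            _ ≤ s * (t * η) * (|θ - σ| * x) := mul_le_mul_of_nonneg_left hσx (by positivity)
            _ = _ := by ring
        have h9 : s * (4 * N) ≤ Q^(5:ℝ) * (Q^(-(7/6):ℝ) / 4) := by
          have h10 : 8 * (Q^(41/250:ℝ) * Q^(41/50:ℝ)) ≤ Q^(3/2:ℝ) := by
            rw [hpw]; exact (absorb hQ (by norm_num) (by norm_num)).le
          have h11 : 8 * Q^(3/2:ℝ) ≤ Q^(23/6:ℝ) := (absorb hQ (by norm_num) (by norm_num)).le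
          have h12 : s * N ≤ Q^(41/250:ℝ) * Q^(41/50:ℝ) := by gcongr
          have h13 : Q^(5:ℝ) * Q^(-(7/6):ℝ) = Q^(23/6:ℝ) := by rw [hpw]; norm_num
          have h14 : Q^(5:ℝ) * (Q^(-(7/6):ℝ) / 4) = Q^(23/6:ℝ) / 4 := by rw [← h13]; ring
          rw [h14]
          calc s * (4 * N) = 4 * (s * N) := by ring
            _ ≤ 4 * (Q^(41/250:ℝ) * Q^(41/50:ℝ)) := mul_le_mul_of_nonneg_left h12 (by norm_num)
            _ = (8 * (Q^(41/250:ℝ) * Q^(41/50:ℝ))) / 2 := by ring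
            _ ≤ Q^(3/2:ℝ) / 2 := div_le_div_of_nonneg_right h10 (by norm_num)
            _ ≤ (8 * Q^(3/2:ℝ)) / 4 := by
                have : 0 < Q^(3/2:ℝ) := by positivity
                linarith
            _ ≤ Q^(23/6:ℝ) / 4 := div_le_div_of_nonneg_right h11 (by norm_num)
        exact lt_of_mul_lt_mul_left (lt_of_le_of_lt h9 h8') hs0.le
    · have h1 : (y:ℝ) ≤ x := (le_mul_of_one_le_left hy0.le hQ12).trans hxy
      exact_mod_cast h1

set_option maxHeartbeats 800000 in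
/-- deep case: different labels, one of them valid: the pair is generic for the target itself -/
theorem gen_dd {θ : ℝ} {ρ σ : ℚ} {x y : ℕ} {r r' : ℝ} {m m' : ℤ} (ht : (2:ℝ)^400 ≤ t)
    (hx : 0 < x) (hy : 0 < y) (hne : x ≠ y) (hσ : Lab θ r' σ) (hρσ : ρ ≠ σ)
    (hex : ((m:ℝ) + ρ) * y = (m' + σ) * x)
    (hov : |(m + θ) * y - (m' + θ) * x| ≤ 2 * max ((y:ℝ) * r) ((x:ℝ) * r'))
    (hD : max ((y:ℝ) * r) ((x:ℝ) * r') ≤ 1/t) : Gen θ t x y r r' := by
  have ht0 : 0 < t := lt_of_lt_of_le (by positivity) ht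
  have ht1 : 1 ≤ t := le_trans (one_le_pow₀ (by norm_num)) ht
  have hx0 : (0:ℝ) < x := by exact_mod_cast hx
  have hy0 : (0:ℝ) < y := by exact_mod_cast hy
  have hx1 : (1:ℝ) ≤ x := by exact_mod_cast hx
  have hr' := hσ.pos
  have hrel : |((m * y - m' * x : ℤ):ℝ) - θ * ((x:ℝ) - y)| ≤ 2 / t := by
    have e : ((m * y - m' * x : ℤ):ℝ) - θ * ((x:ℝ) - y) = (m + θ) * y - (m' + θ) * x := by
      push_cast; ring
    rw [e]
    calc _ ≤ 2 * max ((y:ℝ) * r) ((x:ℝ) * r') := hov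
      _ ≤ 2 * (1/t) := mul_le_mul_of_nonneg_left hD (by norm_num)
      _ = 2 / t := by ring
  refine ⟨hx, hy, hne, ⟨m * y - m' * x, hrel⟩, ?_⟩
  by_contra hcon
  push Not at hcon
  obtain ⟨⟨hb1, hb2⟩, Y, hY0, -, hzY, k, hk1, hk2, h, hkh⟩ := hcon
  have hxz : (x:ℝ) ≤ 2 * Y := le_trans (by rw [Nat.cast_max]; exact le_max_left _ _) hzY
  have hyz : (y:ℝ) ≤ 2 * Y := le_trans (by rw [Nat.cast_max]; exact le_max_right _ _) hzY
  set s : ℝ := t^(1/50:ℝ) with hs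
  have hs0 : 0 < s := by positivity
  have hts : t = s^50 := by
    rw [hs, ← Real.rpow_natCast, ← Real.rpow_mul ht0.le]; norm_num
  have h5 : t^(1/10:ℝ) = s^5 := by
    rw [hs, ← Real.rpow_natCast, ← Real.rpow_mul ht0.le]; norm_num
  have hs8 : (2:ℝ)^8 ≤ s := by
    have h1 : ((2:ℝ)^400)^(1/50:ℝ) ≤ s := Real.rpow_le_rpow (by positivity) ht (by norm_num)
    have h2 : ((2:ℝ)^400)^(1/50:ℝ) = 2^8 := by
      rw [← Real.rpow_natCast (2:ℝ) 400, ← Real.rpow_natCast (2:ℝ) 8, ← Real.rpow_mul (by norm_num)]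
      norm_num
    rwa [h2] at h1
  have hs2 : (2:ℝ) ≤ s := le_trans (by norm_num) hs8
  have hs1 : (1:ℝ) ≤ s := by linarith
  rw [h5] at hk2 hkh
  have hk0 : (0:ℝ) < k := by exact_mod_cast hk1
  have hk1' : (1:ℝ) ≤ k := by exact_mod_cast hk1
  -- the pair is exact for h / k
  have hyx : |(x:ℝ) - y| ≤ 2 * Y := by
    rw [abs_le]; constructor <;> linarith
  have hn : (h * ((x:ℤ) - y) - k * (m * y - m' * x) : ℤ) = 0 := by
    have e : (((h * ((x:ℤ) - y) - k * (m * y - m' * x) : ℤ)):ℝ) =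
        -((θ * k - h) * ((x:ℝ) - y)) -
          k * (((m * y - m' * x : ℤ):ℝ) - θ * ((x:ℝ) - y)) := by
      push_cast; ring
    have b1 : |(θ * k - h) * ((x:ℝ) - y)| ≤ 4 * s^5 / t := by
      rw [abs_mul]
      calc |θ * k - h| * |(x:ℝ) - y| ≤ 2 * s^5 / (t * Y) * (2 * Y) :=
            mul_le_mul hkh hyx (abs_nonneg _) (by positivity)
        _ = 4 * s^5 / t := by field_simp; ring
    have b2 : |(k:ℝ) * (((m * y - m' * x : ℤ):ℝ) - θ * ((x:ℝ) - y))| ≤ 2 * s^5 / t := by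
      rw [abs_mul, abs_of_pos hk0]
      calc (k:ℝ) * |((m * y - m' * x : ℤ):ℝ) - θ * ((x:ℝ) - y)| ≤ s^5 * (2 / t) :=
            mul_le_mul hk2 hrel (abs_nonneg _) (by positivity)
        _ = 2 * s^5 / t := by ring
    have b3 : |(((h * ((x:ℤ) - y) - k * (m * y - m' * x) : ℤ)):ℝ)| < 1 := by
      rw [e]
      refine lt_of_le_of_lt (abs_sub _ _) ?_
      rw [abs_neg]
      have b4 : 6 * s^5 / t < 1 := by
        rw [div_lt_one ht0, hts]
        calc 6 * s^5 < s * s^5 := mul_lt_mul_of_pos_right (by linarith) (by positivity)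
          _ = s^6 := by ring
          _ ≤ s^50 := pow_le_pow_right₀ hs1 (by norm_num)
      calc _ ≤ 4 * s^5 / t + 2 * s^5 / t := add_le_add b1 b2
        _ = 6 * s^5 / t := by ring
        _ < 1 := b4
    by_contra h0
    have h1 := Int.one_le_abs h0
    have h2 : (1:ℝ) ≤ |(((h * ((x:ℤ) - y) - k * (m * y - m' * x) : ℤ)):ℝ)| := by
      exact_mod_cast h1
    linarith
  set τ : ℚ := (h : ℚ) / k with hτd
  have hτ : (τ:ℝ) * k = h := by
    rw [hτd]; push_cast; field_simp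
  have hden : (τ.den:ℝ) ≤ s^5 := by
    have := Nat.le_of_dvd hk1 (rat_int hτ)
    exact le_trans (by exact_mod_cast this) hk2
  have hdiff : |θ - τ| ≤ 2 * s^5 / (t * Y) := by
    have e : (θ - τ) * k = θ * k - h := by rw [← hτ]; ring
    calc |θ - τ| ≤ |θ - τ| * k := le_mul_of_one_le_right (abs_nonneg _) hk1'
      _ = |(θ - τ) * k| := by rw [abs_mul, abs_of_pos hk0]
      _ ≤ 2 * s^5 / (t * Y) := by rw [e]; exact hkh
  have e51 : t^(-(51/50):ℝ) = 1 / (s * t) := by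
    rw [Real.rpow_neg ht0.le, one_div]
    congr 1
    rw [hs]
    conv_rhs => rw [← Real.rpow_one t, ← Real.rpow_mul ht0.le, one_mul, ← Real.rpow_add ht0]
    norm_num
  have main : ∀ (c w : ℝ), 0 < c → 1 ≤ w → w ≤ 2 * Y → w * c ≤ 1/t → 1 / (s * t) < w * c →
      Lab θ c τ := by
    intro c w hc hw hwY hwc hbal
    have h1 : 2 * s^5 / (t * Y) ≤ 8 * s^6 * c := by
      rw [div_le_iff₀ (by positivity)]
      rw [div_lt_iff₀ (by positivity)] at hbal
      have h2 : 1 ≤ 2 * Y * c * (s * t) := by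
        refine hbal.le.trans ?_
        exact mul_le_mul_of_nonneg_right (mul_le_mul_of_nonneg_right hwY hc.le) (by positivity)
      calc 2 * s^5 = (2 * s^5) * 1 := by ring
        _ ≤ (2 * s^5) * (2 * Y * c * (s * t)) := mul_le_mul_of_nonneg_left h2 (by positivity)
        _ = 4 * (s^6 * c * (t * Y)) := by ring
        _ ≤ 8 * (s^6 * c * (t * Y)) := by
            have : 0 ≤ s^6 * c * (t * Y) := by positivity
            linarith
        _ = 8 * s^6 * c * (t * Y) := by ring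
    have h3 : c * s^50 ≤ 1 := by
      rw [← hts]
      have : c ≤ 1/t := (le_mul_of_one_le_left hc.le hw).trans hwc
      rwa [le_div_iff₀ ht0] at this
    have := LF765.lab_eta (η := 1) hs2 one_pos le_rfl (by
      rw [one_pow, mul_one]; exact pow_le_pow_left₀ (by norm_num) hs2 20) hc h3 hden (hdiff.trans h1)
    rwa [one_mul] at this
  rw [e51] at hb1
  have hl := main r' x hr' hx1 hxz ((le_max_right _ _).trans hD) hb1
  have hτσ : τ = σ := lab_unique hl hσ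
  -- the pair would be exact for one label
  have hR : (h:ℝ) * ((x:ℝ) - y) - k * (m * y - m' * x) = 0 := by exact_mod_cast hn
  have h6 : ((m:ℝ) + τ) * y = (m' + τ) * x := by
    have h7 : (k:ℝ) * (((m:ℝ) + τ) * y - (m' + τ) * x) = 0 := by
      linear_combination (-1:ℝ) * hR + ((y:ℝ) - x) * hτ
    have h8 := (mul_eq_zero.1 h7).resolve_left hk0.ne'
    linarith
  rw [hτσ, ← hex] at h6
  have h7 := mul_right_cancel₀ hy0.ne' h6
  apply hρσ
  have : (ρ:ℝ) = σ := by linarith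
  exact_mod_cast this

end Cls

/-! ### lacunary sums, general exponent -/

/-- constant of `lac_sum'` -/
noncomputable def CY (α : ℝ) : ℝ := 4/(1-(2:ℝ)^(-α))

lemma xα_lt {α : ℝ} (hα : 0 < α) : (2:ℝ)^(-α) < 1 :=
  Real.rpow_lt_one_of_one_lt_of_neg (by norm_num) (by linarith)

lemma CY_pos {α : ℝ} (hα : 0 < α) : 0 < CY α := by
  unfold CY
  have h1 := xα_lt hα
  have h2 : 0 < 1-(2:ℝ)^(-α) := by linarith
  positivity

/-- **lacunary sum** -/
theorem lac_sum' {α : ℝ} (hα : 0 < α) (hα1 : α ≤ 1) {ι : Type*} (T : Finset ι) (f : ι → ℕ)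
    (hf : ∀ i ∈ T, 0 < f i)
    (hlac : ∀ i ∈ T, ∀ j ∈ T, i ≠ j → f i ≤ f j → 2 * f i ≤ f j) {k : ℕ} (hk : 0 < k)
    {Y : ι → ℝ} (hY : ∀ i ∈ T, (f i : ℝ) / k ≤ Y i ∧ (k : ℝ) / f i ≤ Y i) :
    ∑ i ∈ T, (Y i)^(-α) ≤ CY α := by
  classical
  set x : ℝ := (2:ℝ)^(-α) with hx
  have hx0 : 0 < x := by positivity
  have hx1 : x < 1 := xα_lt hα
  have hk' : (0:ℝ) < k := by exact_mod_cast hk
  set l := Nat.log 2 k with hl
  set g : ι → ℕ := fun i => Nat.log 2 (f i) with hg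
  have inj : ∀ i ∈ T, ∀ j ∈ T, g i = g j → i = j := by
    have aux : ∀ i ∈ T, ∀ j ∈ T, i ≠ j → f i ≤ f j → g i < g j := by
      intro i hi j hj hne hle
      have h1 := hlac i hi j hj hne hle
      have h2 : Nat.log 2 (f i * 2) ≤ Nat.log 2 (f j) := Nat.log_mono_right (by omega)
      rw [Nat.log_mul_base (by norm_num) (hf i hi).ne'] at h2
      exact h2
    intro i hi j hj e
    by_contra hne
    rcases le_total (f i) (f j) with h | h
    · exact absurd e (aux i hi j hj hne h).ne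
    · exact absurd e (aux j hj i hi (Ne.symm hne) h).ne'
  have x2 : ∀ n : ℕ, ((2:ℝ)^n)^(-α) = x^n := by
    intro n
    rw [hx, ← Real.rpow_natCast, ← Real.rpow_natCast, ← Real.rpow_mul (by norm_num),
      ← Real.rpow_mul (by norm_num), mul_comm]
  have xm : x⁻¹ ≤ 2 := by
    rw [hx, Real.rpow_neg (by norm_num), inv_inv]
    calc (2:ℝ)^α ≤ 2^(1:ℝ) := Real.rpow_le_rpow_of_exponent_le (by norm_num) hα1
      _ = 2 := Real.rpow_one _
  -- term bounds
  have key : ∀ u v : ℕ, 0 < u → 0 < v → ∀ y : ℝ, (u : ℝ)/v ≤ y → Nat.log 2 v ≤ Nat.log 2 u →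
      y^(-α) ≤ 2 * x^(Nat.log 2 u - Nat.log 2 v) := by
    intro u v hu hv y hy hle
    have hv' : (0:ℝ) < v := by exact_mod_cast hv
    have b1 : (2:ℝ)^(Nat.log 2 u) ≤ u := by exact_mod_cast Nat.pow_log_le_self 2 hu.ne'
    have b2 : (v:ℝ) ≤ 2^(Nat.log 2 v + 1) := by
      exact_mod_cast (Nat.lt_pow_succ_log_self (by norm_num) v).le
    have b3 : (2:ℝ)^(Nat.log 2 u - Nat.log 2 v) / 2 ≤ y := by
      refine le_trans ?_ hy
      rw [div_le_div_iff₀ (by norm_num) hv']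
      calc (2:ℝ)^(Nat.log 2 u - Nat.log 2 v) * v
          ≤ (2:ℝ)^(Nat.log 2 u - Nat.log 2 v) * 2^(Nat.log 2 v + 1) := by gcongr
        _ = (2:ℝ)^(Nat.log 2 u) * 2 := by
            rw [← pow_add, ← pow_succ]; congr 1; omega
        _ ≤ u * 2 := by gcongr
    have b4 : (0:ℝ) < (2:ℝ)^(Nat.log 2 u - Nat.log 2 v) / 2 := by positivity
    calc y^(-α) ≤ ((2:ℝ)^(Nat.log 2 u - Nat.log 2 v) / 2)^(-α) :=
          Real.rpow_le_rpow_of_nonpos b4 b3 (by linarith)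
      _ = x^(Nat.log 2 u - Nat.log 2 v) * x⁻¹ := by
          rw [Real.div_rpow (by positivity) (by norm_num), x2, hx]; rfl
      _ ≤ x^(Nat.log 2 u - Nat.log 2 v) * 2 := mul_le_mul_of_nonneg_left xm (by positivity)
      _ = _ := by ring
  rw [← Finset.sum_filter_add_sum_filter_not T (fun i => l ≤ g i)]
  have s1 : ∑ i ∈ T.filter (fun i => l ≤ g i), (Y i)^(-α) ≤ 2 * (1/(1-x)) := by
    calc ∑ i ∈ T.filter (fun i => l ≤ g i), (Y i)^(-α)
        ≤ ∑ i ∈ T.filter (fun i => l ≤ g i), 2 * x^(g i - l) := by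
          apply Finset.sum_le_sum
          intro i hi
          obtain ⟨hiT, hil⟩ := Finset.mem_filter.1 hi
          exact key (f i) k (hf i hiT) hk _ (hY i hiT).1 hil
      _ = 2 * ∑ i ∈ T.filter (fun i => l ≤ g i), x^(g i - l) := by rw [Finset.mul_sum]
      _ ≤ _ := by
          apply mul_le_mul_of_nonneg_left _ (by norm_num)
          apply geo_inj _ _ _ hx0 hx1
          intro i hi j hj e
          obtain ⟨hiT, hil⟩ := Finset.mem_filter.1 (Finset.mem_coe.1 hi)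
          obtain ⟨hjT, hjl⟩ := Finset.mem_filter.1 (Finset.mem_coe.1 hj)
          exact inj i hiT j hjT (by simp only at e; omega)
  have s2 : ∑ i ∈ T.filter (fun i => ¬ l ≤ g i), (Y i)^(-α) ≤ 2 * (1/(1-x)) := by
    calc ∑ i ∈ T.filter (fun i => ¬ l ≤ g i), (Y i)^(-α)
        ≤ ∑ i ∈ T.filter (fun i => ¬ l ≤ g i), 2 * x^(l - g i) := by
          apply Finset.sum_le_sum
          intro i hi
          obtain ⟨hiT, hil⟩ := Finset.mem_filter.1 hi
          exact key k (f i) hk (hf i hiT) _ (hY i hiT).2 (not_le.1 hil).le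
      _ = 2 * ∑ i ∈ T.filter (fun i => ¬ l ≤ g i), x^(l - g i) := by rw [Finset.mul_sum]
      _ ≤ _ := by
          apply mul_le_mul_of_nonneg_left _ (by norm_num)
          apply geo_inj _ _ _ hx0 hx1
          intro i hi j hj e
          obtain ⟨hiT, hil⟩ := Finset.mem_filter.1 (Finset.mem_coe.1 hi)
          obtain ⟨hjT, hjl⟩ := Finset.mem_filter.1 (Finset.mem_coe.1 hj)
          exact inj i hiT j hjT (by simp only at e; omega)
  calc _ ≤ 2 * (1/(1-x)) + 2 * (1/(1-x)) := add_le_add s1 s2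
    _ = CY α := by unfold CY; rw [← hx]; ring

/-- valid labels: lacunary sum of `Zc` -/
lemma zc_sum {α θ : ℝ} (hα : 0 < α) (hα1 : α ≤ 1) {Λ : Finset ℚ} {a : ℚ → ℝ}
    (hΛ : ∀ σ ∈ Λ, Lab θ (a σ) σ) (ρ : ℚ) :
    ∑ σ ∈ Λ, ((Zc ρ σ : ℕ) : ℝ)^(-α) ≤ CY α :=
  lac_sum' hα hα1 Λ (fun σ => σ.den) (fun σ _ => σ.den_pos)
    (fun σ hσ τ hτ hne hle => Crest.Agent.R4.LL207.double (hΛ σ hσ) (hΛ τ hτ) hne hle) ρ.den_pos
    (fun σ _ => Zc_ge ρ σ)

/-- few labels with a small `Zc` -/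
lemma zc_card {α θ P : ℝ} (hα : 0 < α) (hα1 : α ≤ 1) (hP : 0 < P) {Λ : Finset ℚ} {a : ℚ → ℝ}
    (hΛ : ∀ σ ∈ Λ, Lab θ (a σ) σ) (ρ : ℚ) (h : ∀ σ ∈ Λ, ((Zc ρ σ : ℕ) : ℝ) ≤ P) :
    ((Λ.card : ℕ) : ℝ) ≤ CY α * P^α := by
  have h1 : ∑ σ ∈ Λ, P^(-α) ≤ ∑ σ ∈ Λ, ((Zc ρ σ : ℕ) : ℝ)^(-α) := by
    apply Finset.sum_le_sum
    intro σ hσ
    have : (0:ℝ) < (Zc ρ σ : ℕ) := by exact_mod_cast Zc_pos ρ σ
    exact Real.rpow_le_rpow_of_nonpos this (h σ hσ) (by linarith)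
  rw [Finset.sum_const, nsmul_eq_mul] at h1
  have h2 := h1.trans (zc_sum hα hα1 hΛ ρ)
  have h3 : P^(-α) * P^α = 1 := by rw [← Real.rpow_add hP]; norm_num
  calc ((Λ.card : ℕ) : ℝ) = (Λ.card * P^(-α)) * P^α := by rw [mul_assoc, h3, mul_one]
    _ ≤ CY α * P^α := mul_le_mul_of_nonneg_right h2 (by positivity)

/-! ### the two-target theorem at scaled radii -/

set_option maxHeartbeats 1600000 in
/-- the two-target theorem at scaled radii -/
theorem scaled4 : ∃ C c0 : ℝ, 1 ≤ C ∧ 0 < c0 ∧ ∀ c1 : ℝ, 0 < c1 → c1 ≤ c0 → ∃ T0 : ℝ, 1 ≤ T0 ∧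
    ∀ (θ θ' T X K L η : ℝ) (V W : Finset ℕ) (E : Finset (ℕ × ℕ)) (R R' : ℕ → ℝ) (F : ℕ × ℕ → ℝ)
      (G : ℕ),
    T0 ≤ T → X ≤ Real.exp (T^c1) → 0 ≤ K → 0 < G → 0 < η → η ≤ 1 →
    (∀ w ∈ V, 0 < w ∧ 0 < R w) → (∀ w ∈ W, 0 < w ∧ 0 < R' w) →
    (∀ w ∈ V, R w ≤ L * wt R w) → (∀ w ∈ W, R' w ≤ L * wt R' w) →
    (∀ z : ℝ, X ≤ z → ∀ w ∈ V, Crest.Agent.R4.ClsB.Tame z G w) →
    (∀ z : ℝ, X ≤ z → ∀ w ∈ W, Crest.Agent.R4.ClsB.Tame z G w) →
    E ⊆ V ×ˢ W → (∀ e ∈ E, η * DP R R' e ≤ 1/T) →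
    (∀ e ∈ E, F e ≤ K * ((R e.1 * R' e.2) / DP R R' e)) →
    (∀ e ∈ E, ∀ t : ℝ, T ≤ t → 1/(2*t) < η * DP R R' e → η * DP R R' e ≤ 1/t → 0 < F e →
      Gen4 θ θ' t (cof e.1 e.2) (cof e.2 e.1) (η * R e.1) (η * R' e.2)) →
    ∑ e ∈ E, F e ≤ C * K * L^2 * T^(-(6/1000):ℝ) *
      ((∑ q ∈ V, wt R q) * (∑ r ∈ W, wt R' r))^(1/2+eps1) := by
  classical
  obtain ⟨C, c0, hC1, hc0, hC⟩ := scale_energy4
  set κ : ℝ := (2:ℝ)^(-(6/1000):ℝ) with hκ
  have hκ0 : 0 < κ := by positivity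
  have hκ1 : κ < 1 := Real.rpow_lt_one_of_one_lt_of_neg (by norm_num) (by norm_num)
  set Cg : ℝ := 1/(1-κ) with hCg
  have hd : 0 < 1 - κ := by linarith
  have hCg0 : 0 < Cg := by positivity
  have hCg1 : 1 ≤ Cg := by rw [hCg, le_div_iff₀ hd]; linarith
  refine ⟨2 * C * Cg, c0, by nlinarith, hc0, ?_⟩
  intro c1 hc1 hc10
  obtain ⟨T0, hT0⟩ := hC c1 hc1 hc10
  refine ⟨max T0 1, le_max_right _ _, ?_⟩
  intro θ θ' T X K L η V W E R R' F G hT hX hK hG hη hη1 hV hW hLV hLW hVt hWt hE hD hF hgen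
  have he1 : eps1 = 1/1000 := rfl
  have hT01 : T0 ≤ T := (le_max_left _ _).trans hT
  have hT1' : 1 ≤ T := (le_max_right _ _).trans hT
  have hTp : 0 < T := by linarith
  set ψ : ℕ → ℝ := fun w => η * R w with hψ
  set ψ' : ℕ → ℝ := fun w => η * R' w with hψ'
  have hDe : ∀ e, DD ψ ψ' e = η * DP R R' e := by
    intro e
    unfold DD DP
    rw [mul_max_of_nonneg _ _ hη.le, hψ, hψ']
    congr 1 <;> ring
  have hmem : ∀ e ∈ E, e.1 ∈ V ∧ e.2 ∈ W := fun e he => Finset.mem_product.1 (hE he)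
  have hDPpos : ∀ e ∈ E, 0 < DP R R' e := fun e he =>
    DP_pos (hW _ (hmem e he).2).1 (hV _ (hmem e he).1).2
  have hmu : ∀ q ∈ V, 0 ≤ wt R q := fun q hq => by
    unfold wt; exact mul_nonneg (hV q hq).2.le (by positivity)
  have hmu' : ∀ q ∈ W, 0 ≤ wt R' q := fun q hq => by
    unfold wt; exact mul_nonneg (hW q hq).2.le (by positivity)
  have hwe : ∀ q, wt ψ q = η * wt R q := fun q => by unfold wt; rw [hψ]; ring
  have hwe' : ∀ q, wt ψ' q = η * wt R' q := fun q => by unfold wt; rw [hψ']; ring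
  have hsum : ∑ q ∈ V, wt ψ q = η * ∑ q ∈ V, wt R q := by
    rw [Finset.mul_sum]; exact Finset.sum_congr rfl fun q _ => hwe q
  have hsum' : ∑ q ∈ W, wt ψ' q = η * ∑ q ∈ W, wt R' q := by
    rw [Finset.mul_sum]; exact Finset.sum_congr rfl fun q _ => hwe' q
  have hM0 := Finset.sum_nonneg hmu
  have hM0' := Finset.sum_nonneg hmu'
  set M := (∑ v ∈ V, wt R v) * (∑ w ∈ W, wt R' w) with hM
  have hMM0 : 0 ≤ M := mul_nonneg hM0 hM0'
  have hMs : 0 ≤ M^(1/2+eps1) := Real.rpow_nonneg hMM0 _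
  have hMψ : ((∑ v ∈ V, wt ψ v) * (∑ w ∈ W, wt ψ' w))^(1/2+eps1) ≤ η * M^(1/2+eps1) := by
    rw [hsum, hsum']
    have e1 : (η * ∑ q ∈ V, wt R q) * (η * ∑ r ∈ W, wt R' r) = η^2 * M := by rw [hM]; ring
    rw [e1, Real.mul_rpow (by positivity) hMM0]
    have e2 : (η^2)^(1/2+eps1) = η * η^(2*eps1) := by
      rw [← Real.rpow_natCast, ← Real.rpow_mul hη.le]
      conv_rhs => rw [← Real.rpow_one η, ← Real.rpow_mul hη.le, ← Real.rpow_add hη]
      congr 1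
      rw [he1]; norm_num
    rw [e2]
    apply mul_le_mul_of_nonneg_right _ hMs
    have h3 : η^(2*eps1) ≤ 1 := Real.rpow_le_one hη.le hη1 (by rw [he1]; norm_num)
    calc η * η^(2*eps1) ≤ η * 1 := mul_le_mul_of_nonneg_left h3 hη.le
      _ = η := mul_one η
  have hRR : ∀ e ∈ E, R e.1 * R' e.2 ≤ L^2 * (wt R e.1 * wt R' e.2) := by
    intro e he
    have h1 := hLV _ (hmem e he).1
    have h2 := hLW _ (hmem e he).2
    have h5 : 0 ≤ L * wt R e.1 := (hV _ (hmem e he).1).2.le.trans h1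
    calc R e.1 * R' e.2 ≤ (L * wt R e.1) * (L * wt R' e.2) :=
          mul_le_mul h1 h2 (hW _ (hmem e he).2).2.le h5
      _ = _ := by ring
  set E' := E.filter (fun e => 0 < F e) with hE'
  have hstep0 : ∑ e ∈ E, F e ≤ ∑ e ∈ E', F e := by
    rw [hE', ← Finset.sum_filter_add_sum_filter_not E (fun e => 0 < F e)]
    have : ∑ e ∈ E.filter (fun e => ¬ 0 < F e), F e ≤ 0 :=
      Finset.sum_nonpos fun e he => not_lt.1 (Finset.mem_filter.1 he).2
    linarith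
  refine hstep0.trans ?_
  set Di : ℕ × ℕ → ℝ := fun e => DD ψ ψ' e with hDi
  have hE'E : ∀ e ∈ E', e ∈ E := fun e he => (Finset.mem_filter.1 he).1
  have hDpos : ∀ e ∈ E', 0 < Di e := by
    intro e he
    rw [hDi]
    simp only
    rw [hDe]
    exact mul_pos hη (hDPpos e (hE'E e he))
  set ix : ℕ × ℕ → ℕ := fun e => Nat.log 2 ⌊1/(T * Di e)⌋₊ with hix
  have hixp : ∀ e ∈ E', 1 / (2 * (2^(ix e) * T)) < Di e ∧ Di e ≤ 1 / (2^(ix e) * T) := by
    intro e he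
    have h0 := hDpos e he
    have h1 : 1 ≤ 1/(T * Di e) := by
      rw [le_div_iff₀ (by positivity), one_mul]
      have := hD e (hE'E e he)
      rw [← hDe, le_div_iff₀ hTp] at this
      simp only [hDi]; linarith
    have hfl : 1 ≤ ⌊1/(T * Di e)⌋₊ := Nat.le_floor (by simpa using h1)
    have h2 : 2^(ix e) ≤ ⌊1/(T * Di e)⌋₊ := Nat.pow_log_le_self 2 (by omega)
    have h3 : ⌊1/(T * Di e)⌋₊ < 2^(ix e + 1) := Nat.lt_pow_succ_log_self (by norm_num) _
    have h2' : (2:ℝ)^(ix e) ≤ 1/(T * Di e) := by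
      calc (2:ℝ)^(ix e) ≤ (⌊1/(T * Di e)⌋₊ : ℝ) := by exact_mod_cast h2
        _ ≤ _ := Nat.floor_le (by positivity)
    have h3' : 1/(T * Di e) < (2:ℝ)^(ix e + 1) := by
      have := Nat.lt_of_floor_lt h3
      push_cast at this; exact this
    have hp : (0:ℝ) < 2^(ix e) := by positivity
    rw [le_div_iff₀ (by positivity)] at h2'
    rw [div_lt_iff₀ (by positivity), pow_succ] at h3'
    constructor
    · rw [div_lt_iff₀ (by positivity)]; nlinarith
    · rw [le_div_iff₀ (by positivity)]; nlinarith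
  set J : ℕ := E'.sup ix + 1 with hJ
  have hmaps : ∀ e ∈ E', ix e ∈ range J := by
    intro e he
    rw [Finset.mem_range]
    have : ix e ≤ E'.sup ix := Finset.le_sup (f := ix) he
    omega
  have hscale : ∀ j ∈ range J, ∑ e ∈ E'.filter (fun e => ix e = j), F e
      ≤ 2 * C * K * L^2 * T^(-(6/1000):ℝ) * M^(1/2+eps1) * κ^j := by
    intro j _
    set t : ℝ := 2^j * T with ht
    have h2j : (1:ℝ) ≤ 2^j := one_le_pow₀ (by norm_num)
    have htT : T ≤ t := by rw [ht]; nlinarith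
    have ht0 : 0 < t := by linarith
    have hXt : X ≤ Real.exp (t^c1) :=
      hX.trans (Real.exp_le_exp.2 (Real.rpow_le_rpow hTp.le htT hc1.le))
    set E2 := E'.filter (fun e => ix e = j) with hE2
    have hFE : ∀ e ∈ E2, e ∈ E' := fun e he => (Finset.mem_filter.1 he).1
    have hFD : ∀ e ∈ E2, 1/(2*t) < DD ψ ψ' e ∧ DD ψ ψ' e ≤ 1/t := by
      intro e he
      have h := hixp e (hFE e he)
      rw [(Finset.mem_filter.1 he).2] at h
      exact h
    have h5 := hT0 θ θ' t V W E2 ψ ψ' G (hT01.trans htT)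
      { hδ := by positivity
        hV := fun v hv => (hV v hv).1
        hW := fun v hv => (hW v hv).1
        hψ := fun v hv => (mul_pos hη (hV v hv).2).le
        hθ := fun v hv => (mul_pos hη (hW v hv).2).le
        hE := fun e he => hE (hE'E e (hFE e he))
        h1 := fun e he => (le_max_right _ _).trans (hFD e he).2
        h2 := fun e he => (le_max_left _ _).trans (hFD e he).2 } hG
      (hVt _ hXt) (hWt _ hXt)
      (fun e he => hgen e (hE'E e (hFE e he)) t htT (by rw [← hDe]; exact (hFD e he).1)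
        (by rw [← hDe]; exact (hFD e he).2) (Finset.mem_filter.1 (hFE e he)).2)
    have h6 : ∑ e ∈ E2, F e ≤ K * L^2 * (2*t) / η *
        ∑ e ∈ E2, wt ψ e.1 * wt ψ' e.2 * (Af (cof e.1 e.2) * Af (cof e.2 e.1)) := by
      rw [Finset.mul_sum]
      apply Finset.sum_le_sum
      intro e he
      have heE := hE'E e (hFE e he)
      have hDp := hDPpos e heE
      have f1 := Crest.Agent.R4.ClsS.one_le_Af (cof e.1 e.2)
      have f2 := Crest.Agent.R4.ClsS.one_le_Af (cof e.2 e.1)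
      have f4 : 0 ≤ wt R e.1 * wt R' e.2 :=
        mul_nonneg (hmu _ (hmem e heE).1) (hmu' _ (hmem e heE).2)
      have f5 : wt R e.1 * wt R' e.2 ≤
          wt R e.1 * wt R' e.2 * (Af (cof e.1 e.2) * Af (cof e.2 e.1)) :=
        le_mul_of_one_le_right f4 (by nlinarith)
      have f6 : 0 ≤ wt R e.1 * wt R' e.2 * (Af (cof e.1 e.2) * Af (cof e.2 e.1)) := f4.trans f5
      have h7 : 1 / DP R R' e ≤ 2 * t * η := by
        rw [div_le_iff₀ hDp]
        have := (hFD e he).1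
        rw [hDe, div_lt_iff₀ (by positivity)] at this
        nlinarith
      calc F e ≤ K * ((R e.1 * R' e.2) / DP R R' e) := hF e heE
        _ = K * (R e.1 * R' e.2) * (1 / DP R R' e) := by ring
        _ ≤ K * (L^2 * (wt R e.1 * wt R' e.2 * (Af (cof e.1 e.2) * Af (cof e.2 e.1)))) *
              (2 * t * η) := by
            apply mul_le_mul _ h7 (by positivity) (by positivity)
            apply mul_le_mul_of_nonneg_left _ hK
            exact (hRR e heE).trans (mul_le_mul_of_nonneg_left f5 (by positivity))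
        _ = K * L^2 * (2*t) / η *
              (wt ψ e.1 * wt ψ' e.2 * (Af (cof e.1 e.2) * Af (cof e.2 e.1))) := by
            rw [hwe, hwe']
            field_simp
    have h8 := h5.trans (mul_le_mul_of_nonneg_left hMψ (by positivity))
    have e1 : t^(-(6/1000):ℝ) = T^(-(6/1000):ℝ) * κ^j := by
      rw [ht, Real.mul_rpow (by positivity) hTp.le, hκ, ← Real.rpow_natCast, ← Real.rpow_natCast,
        ← Real.rpow_mul (by norm_num), ← Real.rpow_mul (by norm_num), mul_comm (j:ℝ)]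
      ring
    have e2 : t * t^(-(1006/1000):ℝ) = t^(-(6/1000):ℝ) := by
      nth_rw 1 [← Real.rpow_one t]
      rw [← Real.rpow_add ht0]; norm_num
    calc ∑ e ∈ E2, F e ≤ K * L^2 * (2*t) / η *
          (C * t^(-(1006/1000):ℝ) * (η * M^(1/2+eps1))) :=
          h6.trans (mul_le_mul_of_nonneg_left h8 (by positivity))
      _ = 2 * C * K * L^2 * (t * t^(-(1006/1000):ℝ)) * M^(1/2+eps1) := by field_simp
      _ = _ := by rw [e2, e1]; ring
  rw [← Finset.sum_fiberwise_of_maps_to hmaps]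
  refine (Finset.sum_le_sum hscale).trans ?_
  rw [← Finset.mul_sum]
  have hgeo : ∑ j ∈ range J, κ^j ≤ Cg := by
    rw [geom_sum_eq (by linarith), hCg]
    have h1 : 0 ≤ κ^J := by positivity
    rw [show (κ^J - 1)/(κ - 1) = (1 - κ^J)/(1-κ) by
      rw [← neg_div_neg_eq]; congr 1 <;> ring]
    apply div_le_div_of_nonneg_right _ (by linarith)
    linarith
  calc 2 * C * K * L^2 * T^(-(6/1000):ℝ) * M^(1/2+eps1) * ∑ j ∈ range J, κ^j
      ≤ 2 * C * K * L^2 * T^(-(6/1000):ℝ) * M^(1/2+eps1) * Cg :=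
        mul_le_mul_of_nonneg_left hgeo (by positivity)
    _ = _ := by ring


/-! ### windows -/

set_option maxHeartbeats 800000 in
/-- cutting `Q^(-8) < D ≤ Y` into windows of ratio `Q^(1/5)` -/
theorem windows {Q Y B1 : ℝ} (hQ2 : 1 < Q) (hY : 1 ≤ Y) (hB10 : 0 ≤ B1) {E : Finset (ℕ × ℕ)}
    {F D : ℕ × ℕ → ℝ} (hD0 : ∀ e ∈ E, 0 < D e) (hD : ∀ e ∈ E, Q^(-8:ℝ) < D e ∧ D e ≤ Y)
    (mid : ∀ (η : ℝ) (E' : Finset (ℕ × ℕ)), 0 < η → η ≤ 1 → E' ⊆ E →
      (∀ e ∈ E', η * D e ≤ 1/Q^8) → (∀ e ∈ E', Q^(-(41/5):ℝ) ≤ η * D e) →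
      ∑ e ∈ E', F e ≤ B1) :
    ∑ e ∈ E, F e ≤ (5 * (Real.log Y / Real.log Q + 8) + 1) * B1 := by
  classical
  have hQ0 : 0 < Q := by linarith
  have hlQ : 0 < Real.log Q := Real.log_pos hQ2
  have hlY : 0 ≤ Real.log Y := Real.log_nonneg hY
  have hY0 : 0 < Y := by linarith
  have e8 : Q^(-8:ℝ) = 1/Q^8 := by
    rw [Real.rpow_neg hQ0.le, one_div]
    congr 1
    rw [← Real.rpow_natCast]; norm_num
  set z : ℝ := 5 * (Real.log Y / Real.log Q + 8) with hz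
  have hz0 : 0 ≤ z := by positivity
  set ix : ℕ × ℕ → ℕ := fun e => ⌊5 * Real.log (Y / D e) / Real.log Q⌋₊ with hix
  have hixp : ∀ e ∈ E, (ix e : ℝ) < z ∧ Y * Q^(-((ix e : ℝ) + 1)/5) < D e ∧
      D e ≤ Y * Q^(-(ix e : ℝ)/5) := by
    intro e he
    obtain ⟨he2, hDY⟩ := hD e he
    have hD0 := hD0 e he
    have hr1 : 1 ≤ Y / D e := by rw [le_div_iff₀ hD0]; linarith
    have hl0 : 0 ≤ Real.log (Y / D e) := Real.log_nonneg hr1
    have hv0 : 0 ≤ 5 * Real.log (Y / D e) / Real.log Q := by positivity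
    have h1 : (ix e : ℝ) ≤ 5 * Real.log (Y / D e) / Real.log Q := Nat.floor_le hv0
    have h2 : 5 * Real.log (Y / D e) / Real.log Q < (ix e : ℝ) + 1 := Nat.lt_floor_add_one _
    refine ⟨?_, ?_, ?_⟩
    · refine lt_of_le_of_lt h1 ?_
      have h3 : Real.log (Y / D e) < Real.log Y + 8 * Real.log Q := by
        rw [Real.log_div hY0.ne' hD0.ne']
        have h4 := Real.log_lt_log (by positivity) he2
        rw [Real.log_rpow hQ0] at h4
        linarith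
      rw [hz, div_lt_iff₀ hlQ]
      have h5 : 5 * (Real.log Y / Real.log Q + 8) * Real.log Q =
          5 * (Real.log Y + 8 * Real.log Q) := by field_simp
      rw [h5]; linarith
    · rw [div_lt_iff₀ hlQ] at h2
      have h3 : Real.log (Y * Q^(-((ix e : ℝ) + 1)/5)) < Real.log (D e) := by
        rw [Real.log_mul hY0.ne' (by positivity), Real.log_rpow hQ0]
        rw [Real.log_div hY0.ne' hD0.ne'] at h2
        linarith
      exact (Real.log_lt_log_iff (by positivity) hD0).1 h3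
    · rw [le_div_iff₀ hlQ] at h1
      have h3 : Real.log (D e) ≤ Real.log (Y * Q^(-(ix e : ℝ)/5)) := by
        rw [Real.log_mul hY0.ne' (by positivity), Real.log_rpow hQ0]
        rw [Real.log_div hY0.ne' hD0.ne'] at h1
        linarith
      exact (Real.log_le_log_iff hD0 (by positivity)).1 h3
  set J : ℕ := ⌈z⌉₊ with hJ
  have hmaps : ∀ e ∈ E, ix e ∈ range J := by
    intro e he
    rw [Finset.mem_range, hJ, Nat.lt_ceil]
    exact (hixp e he).1
  have hwin : ∀ i ∈ range J, ∑ e ∈ E.filter (fun e => ix e = i), F e ≤ B1 := by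
    intro i hi
    have hiz : (i:ℝ) < z := by
      rw [Finset.mem_range, hJ, Nat.lt_ceil] at hi; exact hi
    set η : ℝ := Q^(-8:ℝ) / (Y * Q^(-(i:ℝ)/5)) with hηd
    have hηpos : 0 < η := by positivity
    have hη1 : η ≤ 1 := by
      rw [hηd, div_le_one (by positivity)]
      have h1 : Real.log (Q^(-8:ℝ)) ≤ Real.log (Y * Q^(-(i:ℝ)/5)) := by
        rw [Real.log_mul hY0.ne' (by positivity), Real.log_rpow hQ0, Real.log_rpow hQ0]
        have h5 : (i:ℝ) * Real.log Q ≤ 5 * (Real.log Y + 8 * Real.log Q) := by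
          calc (i:ℝ) * Real.log Q ≤ z * Real.log Q := mul_le_mul_of_nonneg_right hiz.le hlQ.le
            _ = 5 * (Real.log Y + 8 * Real.log Q) := by rw [hz]; field_simp
        linarith
      exact (Real.log_le_log_iff (by positivity) (by positivity)).1 h1
    refine mid η (E.filter (fun e => ix e = i)) hηpos hη1 (Finset.filter_subset _ _) ?_ ?_
    · intro e he
      obtain ⟨he1, he2⟩ := Finset.mem_filter.1 he
      have h := (hixp e he1).2.2
      rw [he2] at h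
      calc η * D e ≤ η * (Y * Q^(-(i:ℝ)/5)) := mul_le_mul_of_nonneg_left h hηpos.le
        _ = Q^(-8:ℝ) := by rw [hηd]; field_simp
        _ = 1/Q^8 := e8
    · intro e he
      obtain ⟨he1, he2⟩ := Finset.mem_filter.1 he
      have h := (hixp e he1).2.1
      rw [he2] at h
      calc Q^(-(41/5):ℝ) = η * (Y * Q^(-((i:ℝ) + 1)/5)) := by
            rw [hηd]
            have e1 : Q^(-((i:ℝ) + 1)/5) = Q^(-(i:ℝ)/5) * Q^(-(1/5):ℝ) := by
              rw [← Real.rpow_add hQ0]; congr 1; ring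
            have e2 : Q^(-(41/5):ℝ) = Q^(-8:ℝ) * Q^(-(1/5):ℝ) := by
              rw [← Real.rpow_add hQ0]; norm_num
            rw [e1, e2]; field_simp
        _ ≤ η * D e := mul_le_mul_of_nonneg_left h.le hηpos.le
  rw [← Finset.sum_fiberwise_of_maps_to hmaps]
  refine (Finset.sum_le_sum hwin).trans ?_
  rw [Finset.sum_const, Finset.card_range, nsmul_eq_mul]
  apply mul_le_mul_of_nonneg_right _ hB10
  exact (Nat.ceil_lt_add_one hz0).le

/-! ### the theorem -/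

set_option maxHeartbeats 4000000 in
/-- **LL DEATH, second form**: exact pairs of one node with different labels: the left item carries the
label `τ0`, which has a large denominator or is far at the radius `R e.1 ≤ Q^(-5)`; the right item carries
a valid label. -/
theorem ll_death2 : ∃ C c0 : ℝ, 1 ≤ C ∧ 0 < c0 ∧ ∀ c1 : ℝ, 0 < c1 → c1 ≤ c0 → ∃ T0 : ℝ, 1 ≤ T0 ∧
    ∀ (X L K θ Q Y : ℝ) (τ0 : ℚ) (τ' : ℕ → ℚ) (G : ℕ) (V W : Finset ℕ) (E : Finset (ℕ × ℕ))
      (R R' : ℕ → ℝ) (F : ℕ × ℕ → ℝ),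
    (2:ℝ)^400 ≤ Q → T0 ≤ Q → X ≤ Real.exp (Q^c1) → 1 ≤ Y → 0 < G → 0 ≤ K → E ⊆ V ×ˢ W →
    (∀ w ∈ V, 0 < w ∧ 0 < R w) → (∀ w ∈ W, 0 < w ∧ 0 < R' w) →
    (∀ w ∈ V, R w ≤ L * wt R w) → (∀ w ∈ W, R' w ≤ L * wt R' w) →
    (∀ z : ℝ, X ≤ z → ∀ w ∈ V, Crest.Agent.R4.ClsB.Tame z G w) →
    (∀ z : ℝ, X ≤ z → ∀ w ∈ W, Crest.Agent.R4.ClsB.Tame z G w) →
    (∀ e ∈ E, F e ≤ K * ((R e.1 * R' e.2) / DP R R' e)) →
    (∀ e ∈ E, 0 < F e → e.1 ≠ e.2 ∧ R e.1 ≤ Q^(-5:ℝ) ∧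
      (Q ≤ τ0.den ∨ Q * R e.1 ≤ |θ - τ0|) ∧ Lab θ (R' e.2) (τ' e.2) ∧ τ0 ≠ τ' e.2 ∧
      ∃ m m' : ℤ, ((m:ℝ) + τ0) * (cof e.2 e.1 : ℕ) = (m' + τ' e.2) * (cof e.1 e.2 : ℕ) ∧
        |(m + θ) * (cof e.2 e.1 : ℕ) - (m' + θ) * (cof e.1 e.2 : ℕ)| ≤ 2 * DP R R' e) →
    ∑ e ∈ E, F e ≤ K * L^2 *
        (Y⁻¹ * ((∑ q ∈ V, wt R q) * ∑ r ∈ W, wt R' r) +
          C * (1 + Real.log Y / Real.log Q) * Q^(-(47/1000):ℝ) *
            ((∑ q ∈ V, wt R q) * ∑ r ∈ W, wt R' r)^(1/2+eps1)) := by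
  classical
  obtain ⟨C2, c2, hC21, hc2, hC2⟩ := GainKL24.scaled2
  obtain ⟨C4, c4, hC41, hc4, hC4⟩ := scaled4
  have hCL := LL207.CL_nonneg (ε := LL207.e1) (by unfold LL207.e1; norm_num)
  have hCY := CY_pos (α := 1/200) (by norm_num)
  refine ⟨C2 + 41 * C4 * CY (1/200) + 10^4 * LL207.CL LL207.e1 * CY (1/200), min c2 c4, ?_,
    lt_min hc2 hc4, ?_⟩
  · have : 0 ≤ 41 * C4 * CY (1/200) := by positivity
    have : 0 ≤ 10^4 * LL207.CL LL207.e1 * CY (1/200) := by positivity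
    linarith
  intro c1 hc1 hc10
  obtain ⟨T2, hT21, hT2⟩ := hC2 c1 hc1 (hc10.trans (min_le_left _ _))
  obtain ⟨T4, hT41, hT4⟩ := hC4 c1 hc1 (hc10.trans (min_le_right _ _))
  refine ⟨max T2 T4, hT21.trans (le_max_left _ _), ?_⟩
  intro X L K θ Q Y τ0 τ' G V W E R R' F hQ hTQ hX hY hG hK hES hV hW hLV hLW hVt hWt hF hP
  have hQ0 : 0 < Q := lt_of_lt_of_le (by positivity) hQ
  have hQ1 : 1 ≤ Q := le_trans (one_le_pow₀ (by norm_num)) hQ
  have hQ2 : 1 < Q := lt_of_lt_of_le (one_lt_pow₀ (by norm_num) (by norm_num)) hQ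
  have hlQ : 0 < Real.log Q := Real.log_pos hQ2
  have hlY : 0 ≤ Real.log Y := Real.log_nonneg hY
  have hY0 : 0 < Y := by linarith
  have hQ8 : Q ≤ Q^8 := le_self_pow₀ hQ1 (by norm_num)
  have hT28 : T2 ≤ Q^8 := (le_max_left _ _).trans (hTQ.trans hQ8)
  have hT48 : T4 ≤ Q^8 := (le_max_right _ _).trans (hTQ.trans hQ8)
  have hX8 : X ≤ Real.exp ((Q^8)^c1) :=
    hX.trans (Real.exp_le_exp.2 (Real.rpow_le_rpow hQ0.le hQ8 hc1.le))
  have hmem : ∀ e ∈ E, e.1 ∈ V ∧ e.2 ∈ W := fun e he => Finset.mem_product.1 (hES he)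
  have hDpos : ∀ e ∈ E, 0 < DP R R' e := fun e he => DP_pos (hW _ (hmem e he).2).1 (hV _ (hmem e he).1).2
  have hmu : ∀ q ∈ V, 0 ≤ wt R q := fun q hq => by
    unfold wt; exact mul_nonneg (hV q hq).2.le (by positivity)
  have hmu' : ∀ q ∈ W, 0 ≤ wt R' q := fun q hq => by
    unfold wt; exact mul_nonneg (hW q hq).2.le (by positivity)
  have hM0 := Finset.sum_nonneg hmu
  have hM0' := Finset.sum_nonneg hmu'
  set MM : ℝ := (∑ q ∈ V, wt R q) * ∑ r ∈ W, wt R' r with hMM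
  have hMM0 : 0 ≤ MM := mul_nonneg hM0 hM0'
  have hPP : 0 ≤ MM^(1/2+eps1) := Real.rpow_nonneg hMM0 _
  have hRR : ∀ e ∈ E, R e.1 * R' e.2 ≤ L^2 * (wt R e.1 * wt R' e.2) := by
    intro e he
    have h1 := hLV _ (hmem e he).1
    have h2 := hLW _ (hmem e he).2
    have h5 : 0 ≤ L * wt R e.1 := (hV _ (hmem e he).1).2.le.trans h1
    calc R e.1 * R' e.2 ≤ (L * wt R e.1) * (L * wt R' e.2) :=
          mul_le_mul h1 h2 (hW _ (hmem e he).2).2.le h5
      _ = _ := by ring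
  have hcof : ∀ e ∈ E, 0 < cof e.1 e.2 ∧ 0 < cof e.2 e.1 := fun e he =>
    ⟨cof_pos (hV _ (hmem e he).1).1, cof_pos (hW _ (hmem e he).2).1⟩
  have g8 : (Q^8)^(-(6/1000):ℝ) = Q^(-(48/1000):ℝ) := by
    rw [← Real.rpow_natCast, ← Real.rpow_mul hQ0.le]; norm_num
  have e8 : Q^(-8:ℝ) = 1/Q^8 := by
    rw [Real.rpow_neg hQ0.le, one_div]
    congr 1
    rw [← Real.rpow_natCast]; norm_num
  have h4847 : Q^(-(48/1000):ℝ) ≤ Q^(-(47/1000):ℝ) :=
    Real.rpow_le_rpow_of_exponent_le hQ1 (by norm_num)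
  -- only the positive pairs
  set Ep := E.filter (fun e => 0 < F e) with hEp
  have hEpE : ∀ e ∈ Ep, e ∈ E ∧ 0 < F e := fun e he => Finset.mem_filter.1 he
  have hsum0 : ∑ e ∈ E, F e ≤ ∑ e ∈ Ep, F e := by
    rw [hEp, ← Finset.sum_filter_add_sum_filter_not E (fun e => 0 < F e)]
    have : ∑ e ∈ E.filter (fun e => ¬ 0 < F e), F e ≤ 0 :=
      Finset.sum_nonpos fun e he => not_lt.1 (Finset.mem_filter.1 he).2
    linarith
  refine hsum0.trans ?_
  -- splitting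
  set EB := Ep.filter (fun e => Y < DP R R' e) with hEB
  set E1 := Ep.filter (fun e => ¬ Y < DP R R' e) with hE1
  set EM := E1.filter (fun e => Q^(-8:ℝ) < DP R R' e) with hEM
  set ED := E1.filter (fun e => ¬ Q^(-8:ℝ) < DP R R' e) with hED
  have hsplit : ∑ e ∈ Ep, F e = ∑ e ∈ EB, F e + (∑ e ∈ EM, F e + ∑ e ∈ ED, F e) := by
    rw [hEM, hED, Finset.sum_filter_add_sum_filter_not, hEB, hE1, Finset.sum_filter_add_sum_filter_not]
  have m1 : ∀ e ∈ E1, e ∈ Ep := fun e he => (Finset.mem_filter.1 he).1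
  -- (B)
  have bB : ∑ e ∈ EB, F e ≤ K * L^2 * (Y⁻¹ * MM) := by
    have hterm : ∀ e ∈ EB, F e ≤ K * L^2 * Y⁻¹ * (wt R e.1 * wt R' e.2) := by
      intro e he
      have heE := (hEpE e (Finset.mem_filter.1 he).1).1
      have hD := (Finset.mem_filter.1 he).2
      have hww : 0 ≤ wt R e.1 * wt R' e.2 :=
        mul_nonneg (hmu _ (hmem e heE).1) (hmu' _ (hmem e heE).2)
      calc F e ≤ K * ((R e.1 * R' e.2) / DP R R' e) := hF e heE
        _ ≤ K * ((L^2 * (wt R e.1 * wt R' e.2)) / Y) := by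
            apply mul_le_mul_of_nonneg_left _ hK
            exact div_le_div₀ (by positivity) (hRR e heE) hY0 hD.le
        _ = K * L^2 * Y⁻¹ * (wt R e.1 * wt R' e.2) := by
            field_simp
    calc ∑ e ∈ EB, F e ≤ ∑ e ∈ EB, K * L^2 * Y⁻¹ * (wt R e.1 * wt R' e.2) :=
          Finset.sum_le_sum hterm
      _ ≤ ∑ e ∈ V ×ˢ W, K * L^2 * Y⁻¹ * (wt R e.1 * wt R' e.2) := by
          apply Finset.sum_le_sum_of_subset_of_nonneg
          · exact fun e he => hES (hEpE e (Finset.mem_filter.1 he).1).1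
          · intro e he _
            have := Finset.mem_product.1 he
            have h1 := hmu _ this.1
            have h2 := hmu' _ this.2
            positivity
      _ = K * L^2 * (Y⁻¹ * MM) := by
          rw [← Finset.mul_sum, hMM, Finset.sum_mul_sum, Finset.sum_product]
          ring
  -- (D)
  have bD : ∑ e ∈ ED, F e ≤ C2 * K * L^2 * Q^(-(48/1000):ℝ) * MM^(1/2+eps1) := by
    rw [← g8]
    have ht400 : ∀ t : ℝ, Q^8 ≤ t → (2:ℝ)^400 ≤ t := fun t ht => hQ.trans (hQ8.trans ht)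
    refine hT2 θ (Q^8) X K L 1 V W ED R R' F G hT28 hX8 hK hG one_pos le_rfl hV hW hLV hLW hVt hWt
      (fun e he => hES (hEpE e (m1 e (Finset.mem_filter.1 he).1)).1) ?_
      (fun e he => hF e (hEpE e (m1 e (Finset.mem_filter.1 he).1)).1) ?_
    · intro e he
      rw [one_mul, ← e8]
      exact not_lt.1 (Finset.mem_filter.1 he).2
    · intro e he t ht h3 h4 hFe
      rw [one_mul] at h3 h4
      have heE := (hEpE e (m1 e (Finset.mem_filter.1 he).1)).1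
      obtain ⟨hne, -, -, hlab, hρσ, m, m', hex, hov⟩ := hP e heE hFe
      have hcf := hcof e heE
      rw [one_mul, one_mul]
      exact gen_dd (ht400 t ht) hcf.1 hcf.2 (cof_ne hne) hlab hρσ hex hov h4
  -- (M)
  set P : ℝ := Q^(1/6:ℝ) with hPd
  have hP0 : 0 < P := by positivity
  have hP1 : 1 ≤ P := Real.one_le_rpow hQ1 (by norm_num)
  set Λ := EM.image (fun e => τ' e.2) with hΛ
  have hEMd : ∀ e ∈ EM, e ∈ E ∧ 0 < F e ∧ Q^(-8:ℝ) < DP R R' e ∧ DP R R' e ≤ Y := by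
    intro e he
    obtain ⟨he1, he2⟩ := Finset.mem_filter.1 he
    obtain ⟨h3, h4⟩ := hEpE e (m1 e he1)
    exact ⟨h3, h4, he2, not_lt.1 (Finset.mem_filter.1 he1).2⟩
  have hch : ∀ σ : ℚ, ∃ b : ℝ, σ ∈ Λ → Lab θ b σ := by
    intro σ
    by_cases hσ : σ ∈ Λ
    · obtain ⟨e, he, rfl⟩ := Finset.mem_image.1 hσ
      obtain ⟨h1, h2, -, -⟩ := hEMd e he
      exact ⟨R' e.2, fun _ => (hP e h1 h2).2.2.2.1⟩
    · exact ⟨0, fun h => absurd h hσ⟩
  choose b hb using hch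
  set ΛS := Λ.filter (fun σ => (Zc τ0 σ : ℝ) < P) with hΛS
  set ΛL := Λ.filter (fun σ => ¬ (Zc τ0 σ : ℝ) < P) with hΛL
  have hfib : ∑ e ∈ EM, F e = ∑ σ ∈ ΛS, ∑ e ∈ EM.filter (fun e => τ' e.2 = σ), F e +
      ∑ σ ∈ ΛL, ∑ e ∈ EM.filter (fun e => τ' e.2 = σ), F e := by
    rw [hΛS, hΛL, Finset.sum_filter_add_sum_filter_not]
    exact (Finset.sum_fiberwise_of_maps_to (fun e he => Finset.mem_image_of_mem _ he) F).symm
  have hKL : 0 ≤ K * L^2 := by positivity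
  -- small `Zc`
  set B1 : ℝ := C4 * K * L^2 * Q^(-(48/1000):ℝ) * MM^(1/2+eps1) with hB1
  have hC40 : 0 ≤ C4 := by linarith
  have hB10 : 0 ≤ B1 := by positivity
  have bS1 : ∀ σ ∈ ΛS, ∑ e ∈ EM.filter (fun e => τ' e.2 = σ), F e ≤
      (5 * (Real.log Y / Real.log Q + 8) + 1) * B1 := by
    intro σ hσ
    have hZσ : (Zc τ0 σ : ℝ) < Q^(1/6:ℝ) := (Finset.mem_filter.1 hσ).2
    have hd : ∀ e ∈ EM.filter (fun e => τ' e.2 = σ), e ∈ EM ∧ τ' e.2 = σ := fun e he =>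
      Finset.mem_filter.1 he
    apply windows hQ2 hY hB10 (D := fun e => DP R R' e)
      (fun e he => hDpos e (hEMd e (hd e he).1).1)
      (fun e he => (hEMd e (hd e he).1).2.2)
    intro η E' hη hη1 hE'E h1 h2
    rw [hB1, ← g8]
    have hup : ∀ e ∈ E', ∀ t : ℝ, 0 < t → η * DP R R' e ≤ 1/t → t ≤ Q^(41/5:ℝ) := by
      intro e he t ht h3
      have h4 := (h2 e he).trans h3
      rw [Real.rpow_neg hQ0.le, ← one_div] at h4
      exact (one_div_le_one_div (by positivity) ht).1 h4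
    have hE'd : ∀ e ∈ E', e ∈ E ∧ τ' e.2 = σ ∧ Q^(-8:ℝ) < DP R R' e := fun e he =>
      ⟨(hEMd e (hd e (hE'E he)).1).1, (hd e (hE'E he)).2, (hEMd e (hd e (hE'E he)).1).2.2.1⟩
    by_cases hden : Q ≤ τ0.den
    · refine hT4 (τ0:ℝ) (σ:ℝ) (Q^8) X K L η V W E' R R' F G hT48 hX8 hK hG hη hη1 hV hW hLV hLW hVt hWt
        (fun e he => hES (hE'd e he).1) h1 (fun e he => hF e (hE'd e he).1) ?_
      intro e he t ht h3 h4 hFe
      have ht0 : 0 < t := lt_of_lt_of_le (by positivity) ht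
      obtain ⟨heE, heσ, hlow⟩ := hE'd e he
      obtain ⟨-, -, -, hlab, hρσ, m, m', hex, hov⟩ := hP e heE hFe
      rw [heσ] at hlab hρσ hex
      have hcf := hcof e heE
      exact gen4_k hQ ht (hup e he t ht0 h4) hη hcf.1 hcf.2 hlab hρσ hZσ hex hov h4 hlow hden
    · rw [not_le] at hden
      refine hT4 (τ0 + η * (θ - τ0)) (σ + η * (θ - σ)) (Q^8) X K L η V W E' R R' F G hT48 hX8 hK hG hη
        hη1 hV hW hLV hLW hVt hWt (fun e he => hES (hE'd e he).1) h1 (fun e he => hF e (hE'd e he).1) ?_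
      intro e he t ht h3 h4 hFe
      have ht0 : 0 < t := lt_of_lt_of_le (by positivity) ht
      obtain ⟨heE, heσ, hlow⟩ := hE'd e he
      obtain ⟨-, hr5, hdd, hlab, hρσ, m, m', hex, hov⟩ := hP e heE hFe
      rw [heσ] at hlab hρσ hex
      have hcf := hcof e heE
      have hfar := hdd.resolve_left (not_le.2 hden)
      exact gen4_l hQ ht (hup e he t ht0 h4) hη hη1 hcf.1 hcf.2 (hV _ (hmem e heE).1).2 hlab hρσ hZσ
        hex hov h4 hr5 hden hfar
  have bS : ∑ σ ∈ ΛS, ∑ e ∈ EM.filter (fun e => τ' e.2 = σ), F e ≤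
      41 * C4 * CY (1/200) * (1 + Real.log Y / Real.log Q) * (K * L^2) * Q^(-(47/1000):ℝ) *
        MM^(1/2+eps1) := by
    have hcard : ((ΛS.card : ℕ) : ℝ) ≤ CY (1/200) * P^(1/200:ℝ) :=
      zc_card (θ := θ) (a := b) (by norm_num) (by norm_num) hP0
        (fun σ hσ => hb σ (Finset.mem_filter.1 hσ).1) τ0 (fun σ hσ => (Finset.mem_filter.1 hσ).2.le)
    have hP2 : P^(1/200:ℝ) * Q^(-(48/1000):ℝ) ≤ Q^(-(47/1000):ℝ) := by
      rw [hPd, ← Real.rpow_mul hQ0.le, ← Real.rpow_add hQ0]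
      exact Real.rpow_le_rpow_of_exponent_le hQ1 (by norm_num)
    have hlg : 0 ≤ Real.log Y / Real.log Q := by positivity
    have hz2 : 5 * (Real.log Y / Real.log Q + 8) + 1 ≤ 41 * (1 + Real.log Y / Real.log Q) := by
      linarith
    calc ∑ σ ∈ ΛS, ∑ e ∈ EM.filter (fun e => τ' e.2 = σ), F e
        ≤ ∑ _σ ∈ ΛS, (5 * (Real.log Y / Real.log Q + 8) + 1) * B1 := Finset.sum_le_sum bS1
      _ = ΛS.card * ((5 * (Real.log Y / Real.log Q + 8) + 1) * B1) := by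
          rw [Finset.sum_const, nsmul_eq_mul]
      _ ≤ (CY (1/200) * P^(1/200:ℝ)) * ((41 * (1 + Real.log Y / Real.log Q)) * B1) := by
          apply mul_le_mul hcard _ (by positivity) (by positivity)
          exact mul_le_mul_of_nonneg_right hz2 hB10
      _ = 41 * C4 * CY (1/200) * (1 + Real.log Y / Real.log Q) * (K * L^2) *
            (P^(1/200:ℝ) * Q^(-(48/1000):ℝ)) * MM^(1/2+eps1) := by rw [hB1]; ring
      _ ≤ _ := by
          apply mul_le_mul_of_nonneg_right _ hPP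
          exact mul_le_mul_of_nonneg_left hP2 (by positivity)
  -- large `Zc`
  have he1 : LL207.e1 = 1/1000 := rfl
  have hep : eps1 = 1/1000 := rfl
  have bL1 : ∀ σ ∈ ΛL, ∑ e ∈ EM.filter (fun e => τ' e.2 = σ), F e ≤
      10^4 * LL207.CL LL207.e1 * (K * L^2) * (Q^(16/1000:ℝ) * ((Zc τ0 σ : ℕ) : ℝ)^(-(48/100) : ℝ)) *
        MM^(1/2+eps1) := by
    intro σ hσ
    have hd : ∀ e ∈ EM.filter (fun e => τ' e.2 = σ), e ∈ E ∧ 0 < F e ∧ τ' e.2 = σ ∧
        Q^(-8:ℝ) < DP R R' e := fun e he => by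
      obtain ⟨h1, h2⟩ := Finset.mem_filter.1 he
      obtain ⟨h3, h4, h5, -⟩ := hEMd e h1
      exact ⟨h3, h4, h2, h5⟩
    obtain ⟨p1, p2⟩ := LL207.div_gcd_pos τ0 σ
    have hZe : (σ.den / Nat.gcd τ0.den σ.den) * (τ0.den / Nat.gcd τ0.den σ.den) = Zc τ0 σ := by
      unfold LL207.Zc; ring
    have eD : ∀ e, LLpair207.Dp R R' e = DP R R' e := by
      intro e
      unfold LLpair207.Dp DP
      exact max_comm _ _
    have key := LLG24.ll_class (ε := LL207.e1) (by rw [he1]; norm_num) (by rw [he1]; norm_num)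
      (V := V) (W := W) (R := R) (R' := R') hV hW
      (z₁ := σ.den / Nat.gcd τ0.den σ.den) (z₂ := τ0.den / Nat.gcd τ0.den σ.den)
      (K := K * L^2) (δ := Q^(-8:ℝ)) hKL (by positivity) (F := F)
      (E := EM.filter (fun e => τ' e.2 = σ)) (fun e he => hES (hd e he).1)
      (fun e he => by
        obtain ⟨h1, h2, h3, -⟩ := hd e he
        obtain ⟨-, -, -, -, -, m, m', hex, -⟩ := hP e h1 h2
        rw [h3] at hex
        exact LL207.dvd_of_exact τ0 σ hex)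
      (fun e he => by rw [eD]; exact (hd e he).2.2.2)
      (fun e he => by
        have heE := (hd e he).1
        rw [eD]
        calc F e ≤ K * ((R e.1 * R' e.2) / DP R R' e) := hF e heE
          _ ≤ K * ((L^2 * (wt R e.1 * wt R' e.2)) / DP R R' e) := by
              apply mul_le_mul_of_nonneg_left _ hK
              exact div_le_div_of_nonneg_right (hRR e heE) (hDpos e heE).le
          _ = _ := by ring)
    have hBz := LL207.Bz_le p2 p1
    rw [hZe] at hBz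
    have hδ : (Q^(-8:ℝ))^(-(2*LL207.e1)) = Q^(16/1000:ℝ) := by
      rw [← Real.rpow_mul hQ0.le, he1]; norm_num
    rw [hδ] at key
    have hexp : (1/2 + LL207.e1 : ℝ) = 1/2+eps1 := rfl
    rw [hexp, ← hMM] at key
    refine key.trans ?_
    apply mul_le_mul_of_nonneg_right _ hPP
    calc LL207.CL LL207.e1 * (K * L^2 * LLpair207.Bz (σ.den / Nat.gcd τ0.den σ.den)
          (τ0.den / Nat.gcd τ0.den σ.den) LL207.e1 * Q^(16/1000:ℝ))
        ≤ LL207.CL LL207.e1 * (K * L^2 * (10^4 * ((Zc τ0 σ : ℕ) : ℝ)^(-(48/100) : ℝ)) *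
          Q^(16/1000:ℝ)) := by
          apply mul_le_mul_of_nonneg_left _ hCL
          apply mul_le_mul_of_nonneg_right _ (by positivity)
          exact mul_le_mul_of_nonneg_left hBz hKL
      _ = _ := by ring
  have bL : ∑ σ ∈ ΛL, ∑ e ∈ EM.filter (fun e => τ' e.2 = σ), F e ≤
      10^4 * LL207.CL LL207.e1 * CY (1/200) * (K * L^2) * Q^(-(47/1000):ℝ) * MM^(1/2+eps1) := by
    have hterm : ∀ σ ∈ ΛL, ((Zc τ0 σ : ℕ) : ℝ)^(-(48/100) : ℝ) ≤
        P^(-(475/1000):ℝ) * ((Zc τ0 σ : ℕ) : ℝ)^(-(1/200) : ℝ) := by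
      intro σ hσ
      have h1 : P ≤ ((Zc τ0 σ : ℕ) : ℝ) := not_lt.1 (Finset.mem_filter.1 hσ).2
      have h0 : (0:ℝ) < ((Zc τ0 σ : ℕ) : ℝ) := by linarith
      have e : ((Zc τ0 σ : ℕ) : ℝ)^(-(48/100) : ℝ) =
          ((Zc τ0 σ : ℕ) : ℝ)^(-(475/1000) : ℝ) * ((Zc τ0 σ : ℕ) : ℝ)^(-(1/200) : ℝ) := by
        rw [← Real.rpow_add h0]; norm_num
      rw [e]
      apply mul_le_mul_of_nonneg_right _ (by positivity)
      exact Real.rpow_le_rpow_of_nonpos hP0 h1 (by norm_num)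
    have hzs : ∑ σ ∈ ΛL, ((Zc τ0 σ : ℕ) : ℝ)^(-(1/200) : ℝ) ≤ CY (1/200) :=
      zc_sum (θ := θ) (a := b) (by norm_num) (by norm_num)
        (fun σ hσ => hb σ (Finset.mem_filter.1 hσ).1) τ0
    have hnum : Q^(16/1000:ℝ) * P^(-(475/1000):ℝ) ≤ Q^(-(47/1000):ℝ) := by
      rw [hPd, ← Real.rpow_mul hQ0.le, ← Real.rpow_add hQ0]
      exact Real.rpow_le_rpow_of_exponent_le hQ1 (by norm_num)
    set A : ℝ := 10^4 * LL207.CL LL207.e1 * (K * L^2) with hA
    have hA0 : 0 ≤ A := by positivity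
    calc ∑ σ ∈ ΛL, ∑ e ∈ EM.filter (fun e => τ' e.2 = σ), F e
        ≤ ∑ σ ∈ ΛL, A * (Q^(16/1000:ℝ) * (P^(-(475/1000):ℝ) *
            ((Zc τ0 σ : ℕ) : ℝ)^(-(1/200) : ℝ))) * MM^(1/2+eps1) := by
          apply Finset.sum_le_sum
          intro σ hσ
          refine (bL1 σ hσ).trans ?_
          apply mul_le_mul_of_nonneg_right _ hPP
          apply mul_le_mul_of_nonneg_left _ hA0
          exact mul_le_mul_of_nonneg_left (hterm σ hσ) (by positivity)
      _ = A * (Q^(16/1000:ℝ) * P^(-(475/1000):ℝ)) *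
            (∑ σ ∈ ΛL, ((Zc τ0 σ : ℕ) : ℝ)^(-(1/200) : ℝ)) * MM^(1/2+eps1) := by
          rw [Finset.mul_sum, Finset.sum_mul]
          apply Finset.sum_congr rfl
          intro σ _
          ring
      _ ≤ A * Q^(-(47/1000):ℝ) * CY (1/200) * MM^(1/2+eps1) := by
          apply mul_le_mul_of_nonneg_right _ hPP
          apply mul_le_mul _ hzs _ (by positivity)
          · exact mul_le_mul_of_nonneg_left hnum hA0
          · exact Finset.sum_nonneg fun σ _ => by positivity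
      _ = _ := by rw [hA]; ring
  rw [hsplit, hfib]
  have hlg : 1 ≤ 1 + Real.log Y / Real.log Q := by
    have : 0 ≤ Real.log Y / Real.log Q := by positivity
    linarith
  have bD' : ∑ e ∈ ED, F e ≤ C2 * (1 + Real.log Y / Real.log Q) * (K * L^2) * Q^(-(47/1000):ℝ) *
      MM^(1/2+eps1) := by
    refine bD.trans ?_
    apply mul_le_mul_of_nonneg_right _ hPP
    have h1 : C2 * K * L^2 = C2 * 1 * (K * L^2) := by ring
    have hC20 : 0 ≤ C2 := by linarith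
    rw [h1]
    gcongr
  have bL' : 10^4 * LL207.CL LL207.e1 * CY (1/200) * (K * L^2) * Q^(-(47/1000):ℝ) * MM^(1/2+eps1) ≤
      10^4 * LL207.CL LL207.e1 * CY (1/200) * (1 + Real.log Y / Real.log Q) * (K * L^2) *
        Q^(-(47/1000):ℝ) * MM^(1/2+eps1) := by
    apply mul_le_mul_of_nonneg_right _ hPP
    apply mul_le_mul_of_nonneg_right _ (by positivity)
    apply mul_le_mul_of_nonneg_right _ hKL
    exact le_mul_of_one_le_right (by positivity) hlg
  calc _ ≤ K * L^2 * (Y⁻¹ * MM) +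
        ((41 * C4 * CY (1/200) * (1 + Real.log Y / Real.log Q) * (K * L^2) * Q^(-(47/1000):ℝ) *
          MM^(1/2+eps1) +
        10^4 * LL207.CL LL207.e1 * CY (1/200) * (1 + Real.log Y / Real.log Q) * (K * L^2) *
          Q^(-(47/1000):ℝ) * MM^(1/2+eps1)) +
        C2 * (1 + Real.log Y / Real.log Q) * (K * L^2) * Q^(-(47/1000):ℝ) * MM^(1/2+eps1)) :=
        add_le_add bB (add_le_add (add_le_add bS (bL.trans bL')) bD')
    _ = _ := by ring

end Crest.Agent.R4P.LLD2
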