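import Crest.Agent.R4P.DseT_23
import Crest.Agent.R4P.LLD2_24

/-!
R4 (S0004), powers pass, [W-dseR] D5, helper7: **the lost labels** (`WL`): two different labels at the
column, one of them lost.  The lost label is the fat one, the other one is valid: `ll_death2` (helper24).
-/

set_option autoImplicit false
set_option linter.unusedVariables false

open Finset

namespace Crest.Agent.R4P.DseW7

open Crest.Agent.R4.HVW560 (cof wt)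
open Crest.Agent.R4.InX944 (DP)
open Crest.Agent.R4.LF363 (Lab)
open Crest.Agent.R4.ClsS (eps1)
open Crest.Agent.R4P.DseN23
open Crest.Agent.R4

set_option maxHeartbeats 1000000 in
open Classical in
/-- **the first label is lost** -/
theorem w1 : ∃ K₀ : ℝ, ∀ CL C2 Cθ κ : ℝ, 0 ≤ CL → 0 ≤ C2 → 0 ≤ κ → K₀ < Cθ →
    κ + 2 + C2/500 < 47/5000 * Cθ → ∃ p₁ : ℕ, ∀ c : CD, c.Ok CL C2 →
      (∀ w ∈ c.S, ∀ ρ, c.s w = some ρ → Lab c.θ (c.R w) ρ ∨ ρ ∈ c.Λf) → p₁ ≤ c.m →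
      c.T ≤ Real.log c.m ^ (-Cθ) →
      ∑ e ∈ c.W1, c.F e ≤ Real.log c.m ^ (-κ) * ∑ w ∈ c.S, wt c.R w := by
  obtain ⟨C, c0, hC1, hc0, H⟩ := LLD2.ll_death2
  obtain ⟨T0, hT0, H⟩ := H c0 hc0 le_rfl
  refine ⟨5 / c0, fun CL C2 Cθ κ hCL hC2 hκ hCθ hk => ?_⟩
  have hCθ0 : 0 < Cθ := lt_trans (by positivity) hCθ
  obtain ⟨p1, h1⟩ := numQ c0 T0 hc0 hCθ
  obtain ⟨p2, h2⟩ := numD CL C2 Cθ κ C (47/1000) hCL hC2 (by linarith) hκ hCθ0 (by norm_num)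
    (by linarith)
  refine ⟨p1 + p2 + 1, fun c h hvl hm hT => ?_⟩
  have hm0 : (0:ℝ) < c.m := by
    have : 0 < c.m := by omega
    exact_mod_cast this
  have hTpos : 0 < c.T := (Real.rpow_pos_of_pos hm0 _).trans_le h.T0
  obtain ⟨hl, g1⟩ := h1 c.m (by omega)
  obtain ⟨g2, g3, g4, g5, g6, g7⟩ := g1 c.T hTpos hT
  set Q := c.T ^ (-(1/5):ℝ) with hQ
  have hQ0 : 0 < Q := Real.rpow_pos_of_pos hTpos _
  have hQ2 : 2 ≤ Q := (show (2:ℝ) ≤ 10 by norm_num).trans (two400.trans g3)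
  set l := Real.log (c.m:ℝ) with hld
  have hl0 : 0 < l := by linarith
  have hY1 : 1 ≤ l ^ (C2 + κ + 3) := Real.one_le_rpow hl.le (by positivity)
  have hQT : Q ^ (-5:ℝ) = c.T := by
    rw [hQ, ← Real.rpow_mul hTpos.le]
    norm_num
  -- the fat label
  rcases Finset.eq_empty_or_nonempty c.Λf with h0 | ⟨τ0, hτ0⟩
  · have e1 : c.W1 = ∅ := by
      rw [Finset.eq_empty_iff_forall_notMem]
      intro e he
      obtain ⟨x1, ρ, ρ', x2, x3, x4, x5, x6⟩ := Finset.mem_filter.1 he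
      rcases hvl _ (h.mem x1).1 ρ x2 with h3 | h3
      · exact x6 h3
      · rw [h0] at h3
        exact absurd h3 (Finset.notMem_empty _)
    rw [e1, Finset.sum_empty]
    exact mul_nonneg (Real.rpow_nonneg hl0.le _) h.M0
  have huniq : ∀ ρ ∈ c.Λf, ρ = τ0 := fun ρ hρ => Finset.card_le_one.1 h.card ρ hρ τ0 hτ0
  have hW : ∀ e ∈ c.W1, e ∈ c.E ∧ c.s e.1 = some τ0 ∧ c.R e.1 ≤ c.T ∧ ¬ Lab c.θ (c.R e.1) τ0 ∧
      ∃ ρ', c.s e.2 = some ρ' ∧ τ0 ≠ ρ' ∧ Lab c.θ (c.R e.2) ρ' := by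
    intro e he
    obtain ⟨x1, ρ, ρ', x2, x3, x4, x5, x6⟩ := Finset.mem_filter.1 he
    obtain ⟨m1, m2⟩ := h.mem x1
    have e1 : ρ = τ0 := by
      rcases hvl _ m1 ρ x2 with h3 | h3
      · exact absurd h3 x6
      · exact huniq ρ h3
    rw [e1] at x2 x4 x6
    refine ⟨x1, x2, x5, x6, ρ', x3, x4, ?_⟩
    rcases hvl _ m2 ρ' x3 with h3 | h3
    · exact h3
    · exact absurd (huniq ρ' h3).symm x4
  refine (H ((c.m:ℝ)^2) (CL * l) 2 c.θ Q (l ^ (C2 + κ + 3)) τ0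
    (fun w => (c.s w).getD 0) 1 c.S c.S c.W1 c.R c.R c.F g3 g4 g7 hY1 one_pos (by norm_num)
    ((W1_sub c).trans h.sub) h.pos h.pos h.lo h.lo h.tame h.tame ?_ ?_).trans ?_
  · intro e he
    obtain ⟨x1, x2, -⟩ := hW e he
    exact h.Fs e x1 τ0 x2
  · intro e he _
    obtain ⟨x1, x2, x3, x4, ρ', x5, x6, x7⟩ := hW e he
    obtain ⟨m1, m2⟩ := h.mem x1
    obtain ⟨a, a', hk'⟩ := h.lk e x1
    obtain ⟨ρ'', y1, y2⟩ := hk'.lks τ0 x2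
    have hρ : ρ'' = ρ' := by
      rw [x5] at y1
      exact (Option.some.inj y1).symm
    rw [hρ] at y2
    simp only [x5, Option.getD_some]
    unfold Ex at y2
    refine ⟨h.ne e x1, by rw [hQT]; exact x3,
      notLab_gain (h.pos _ m1).2 x3 g2 hQ0 g6 x4, x7, x6, a, a', y2, ?_⟩
    have h5 := hk'.pt
    unfold dv at h5
    exact h5
  · exact h2 c.m (by omega) Q _ hl hQ2 g5 h.M0 h.mass

lemma mem_W2 {c : CD} {x y : ℕ} : (x, y) ∈ c.W2 ↔ (y, x) ∈ c.sw.W1 := by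
  classical
  unfold CD.W2 CD.W1
  rw [Finset.mem_filter, Finset.mem_filter, mem_sw]
  constructor
  · rintro ⟨h1, ρ, ρ', h2, h3, h4, h5, h6⟩
    exact ⟨h1, ρ', ρ, h3, h2, h4.symm, h5, h6⟩
  · rintro ⟨h1, ρ, ρ', h2, h3, h4, h5, h6⟩
    exact ⟨h1, ρ', ρ, h3, h2, h4.symm, h5, h6⟩

/-- **the lost labels** -/
theorem wL : ∃ K₀ : ℝ, ∀ CL C2 Cθ κ : ℝ, 0 ≤ CL → 0 ≤ C2 → 0 ≤ κ → K₀ < Cθ →
    κ + 2 + C2/500 < 47/5000 * Cθ → WL CL C2 Cθ κ := by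
  obtain ⟨K₀, H⟩ := w1
  refine ⟨K₀, fun CL C2 Cθ κ hCL hC2 hκ hCθ hk => ?_⟩
  obtain ⟨p₁, h1⟩ := H CL C2 Cθ κ hCL hC2 hκ hCθ hk
  refine ⟨p₁, fun c h hvl hm hT => ⟨h1 c h hvl hm hT, ?_⟩⟩
  rw [sum_sw (c := c) (E₁ := c.sw.W1) (E₂ := c.W2) fun x y => mem_W2]
  exact h1 c.sw h.sw hvl hm hT

end Crest.Agent.R4P.DseW7
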