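import Crest.Agent.R4P.ShrW_34
import Crest.Agent.R4P.SameLb_34
import Crest.Agent.R4P.CopM_34

/-!
R4 (S0004) with powers, module D, helper34: **classification of the merges in a context**.

* `RgOk c rg` : `rg` = ranges: thinness, depth and accuracy threshold are constant on every range;
* `st_const` : in one range and with no missing tie in between the state of an item is constant;
* `ix_const_rg` : the same for the index of a piece;
* `IX_ctx` : `ShrW34.IX` in a context.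
* `ctx_shr` : merges of a cross walk in a context.
-/

set_option autoImplicit false
set_option linter.unusedSectionVars false
set_option linter.unusedVariables false
open Finset

namespace Crest.Agent.R4P.IxRange34

open Crest.Agent.R4.HVW560 Crest.Agent.R4P.AvgItem710
open Crest.Agent.R4.Tour104 Crest.Agent.R4.Tour758 Crest.Agent.R4.Avg758 Crest.Agent.R4.Clos758
open Crest.Agent.R4.ClosL758 Crest.Agent.R4.ClosG758 Crest.Agent.R4.ClosR758
open Crest.Agent.R4P.Cnt588 Crest.Agent.R4P.Walk560 Crest.Agent.R4P.Item758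
open Crest.Agent.R4P.Bld532 (NS All NodeOk Bk dv nd mem_dv mem_nd)
open Crest.Agent.R4P.GSt927 Crest.Agent.R4P.WalkIT579 Crest.Agent.R4P.NMW710
open Crest.Agent.R4P.CrossLoc25 Crest.Agent.R4P.CrossLocC25 Crest.Agent.R4P.WalkC
open Crest.Agent.R4P.YI25 Crest.Agent.R4P.ShrW34 Crest.Agent.R4P.SameLb34 Crest.Agent.R4P.CopM34
open Crest.Agent.R4P.W363 Crest.Agent.R4P.Data758
open Crest.Agent.R4P.Skel189 (Ctx top)
open Crest.Agent.R4P.Step588 (NDt)
open Crest.Agent.R4.Soft104 (w)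
open Crest.Agent.R4P.SameIx30
open Crest.Agent.R4P.LfDat734 (etaL etaL_pos)

/-! ### constant states -/

lemma filter_lt_congr {B : Finset ℕ} {p₂ p : ℕ} (hp : p₂ ≤ p) (h : ∀ l ∈ B, p₂ < l → p < l) :
    B.filter (p₂ < ·) = B.filter (p < ·) := by
  refine Finset.filter_congr fun l hl => ⟨h l hl, fun k => lt_of_le_of_lt hp k⟩

lemma lst_congr {B : Finset ℕ} {p₂ p : ℕ} (hp : p₂ ≤ p) (h : ∀ l ∈ B, p₂ < l → p < l) :
    lst B p₂ = lst B p := by
  unfold lst
  rw [filter_lt_congr hp h]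

lemma sta_congr {thr : ℕ → ℝ} {γ ψ : ℝ} (L : List ℕ) {p₂ p : ℕ} (h : thr p₂ = thr p) :
    sta thr γ ψ L p₂ = sta thr γ ψ L p := by
  cases L with
  | nil => rfl
  | cons s L => simp only [sta, h]

/-- **the state of an item is constant** in a range, between its missing ties -/
theorem st_const {P : WP} {lam : ℕ → ℝ} {γ : ℝ} {r : ℕ → ℝ} {t : IT} {p₂ p q : ℕ} (hp : p₂ ≤ p)
    (h1 : P.thr p₂ = P.thr p) (h2 : lam p₂ = lam p) (h : ∀ l ∈ t.mt q, p₂ < l → p < l) :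
    stA P lam γ r t p₂ q = stA P lam γ r t p q := by
  have e : P.st γ r t p₂ q = P.st γ r t p q := by
    unfold WP.st
    rw [lst_congr hp h, sta_congr _ h1]
  unfold stA
  rw [e, h2]

/-- the flag of the anticipated births is constant between the missing ties -/
lemma btA_congr {PL : WP} {r : ℕ → ℝ} {t : IT} {lv : ℕ → ℕ} {p₂ p q : ℕ} (hp : p₂ ≤ p)
    (h : ∀ l ∈ t.mt q, p₂ < l → p < l) : btA PL r t lv p₂ q ↔ btA PL r t lv p q := by
  unfold btA
  refine or_congr ⟨?_, ?_⟩ Iff.rfl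
  · rintro ⟨s, h1, h2⟩
    exact ⟨s, h1, h2.trans hp⟩
  · rintro ⟨s, h1, h2⟩
    refine ⟨s, h1, ?_⟩
    by_contra hc
    exact absurd (h s h1 (not_le.1 hc)) (not_lt.2 h2)

/-- **the column state of an item is constant** in a range, between its missing ties (`stB`) -/
theorem stB_const {P PL : WP} {lam : ℕ → ℝ} {γ : ℝ} {r : ℕ → ℝ} {t : IT} {lv : ℕ → ℕ} {p₂ p q : ℕ}
    (hp : p₂ ≤ p) (h1 : P.thr p₂ = P.thr p) (h2 : lam p₂ = lam p)
    (h : ∀ l ∈ t.mt q, p₂ < l → p < l) :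
    stB P PL lam γ r t lv p₂ q = stB P PL lam γ r t lv p q := by
  have e : P.st γ r t p₂ q = P.st γ r t p q := by
    unfold WP.st
    rw [lst_congr hp h, sta_congr _ h1]
  have e2 : fbA PL γ r t lv p₂ q = fbA PL γ r t lv p q := by
    unfold fbA
    rw [lst_congr hp h]
    by_cases hb : btA PL r t lv p q
    · rw [if_pos hb, if_pos ((btA_congr hp h).2 hb)]
    · rw [if_neg hb, if_neg (fun k => hb ((btA_congr hp h).1 k))]
  unfold stB
  rw [e, e2, st_const hp h1 h2 h]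

/-- **ranges**: thinness, depth and accuracy threshold are constant on every range -/
structure RgOk (P : WP) (lam : ℕ → ℝ) (rg : ℕ → ℕ) : Prop where
  mono : Monotone rg
  thr : ∀ {p₂ p : ℕ}, p₂ ≤ p → rg p₂ = rg p → P.thr p₂ = P.thr p
  dep : ∀ {p₂ p : ℕ}, p₂ ≤ p → rg p₂ = rg p → P.dep p₂ = P.dep p
  lam : ∀ {p₂ p : ℕ}, p₂ ≤ p → rg p₂ = rg p → lam p₂ = lam p

/-- **the index of a piece is constant** in a range, between the missing ties of its item -/
theorem ix_const_rg {c : Cf} {rg : ℕ → ℕ} (hr : RgOk c.wp c.lam rg) {p₂ p : ℕ} (hp : p₂ ≤ p)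
    (hrg : rg p₂ = rg p) (j : ℕ × ℕ) (h : ∀ l ∈ c.t.mt j.1, p₂ < l → p < l) :
    (c.world p₂ j).1 = (c.world p j).1 := by
  have e : c.st p₂ j.1 = c.st p j.1 := stB_const hp (hr.thr hp hrg) (hr.lam hp hrg) h
  unfold Cf.world
  simp only
  rw [e]
  unfold WP.ix
  refine Prod.ext rfl ?_
  show cell (c.wp.E p₂ _) _ = cell (c.wp.E p _) _
  congr 1
  cases c.st p j.1 with
  | none => unfold WP.E; simp only [hr.dep hp hrg]
  | some σ => rfl

/-- **`ShrW34.IX` in a context** -/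
theorem IX_cf {c : Cf} {rg : ℕ → ℕ} (hr : RgOk c.wp c.lam rg) (Y : Finset (ℕ × ℕ × Finset ℕ)) :
    IX (c.D.par Y) c.t.mt rg where
  mono := hr.mono
  same := by
    intro p₂ p j j' hp hrg h1 h2 h
    rw [Cf.Ro_par, Cf.mem_Ro] at h ⊢
    rw [ix_const_rg hr hp hrg j.1 h1, ix_const_rg hr hp hrg j'.1 h2]
    exact h

/-! ### a cross walk in a context -/

lemma col_top_le {Λ κ : Type*} {n : ℕ} {t : DT Λ κ} (h : t.Col n) : t.top ≤ n := by
  cases t with
  | leaf r f => exact Nat.zero_le _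
  | br p w r t₁ t₀ v B G => exact h.2.1.le
  | add b r t₁ t₀ => exact h.2.1.le
  | up b Sp t => exact h.2.1.le

section ctx
variable {N : Skel189.Num} {γ : ℝ} {p0 P₀ : ℕ} {X : Ctx N γ p0 P₀}

/-- **the pair bound of the merges** at a state of a cross walk of a context -/
theorem hpair_ctx {sp : ℕ → Finset X.c.Lam} {Qp : NS → IT → Prop}
    {RP : Finset (X.c.Lam × X.c.Lam) → Prop}
    (hnd : ∀ u τ, Qp u τ → NDt X.par (w X.ψ) X.c.t u τ) {Y : Finset (ℕ × ℕ × Finset ℕ)}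
    {P : Bld532.Par} {W : ℕ → ℝ} (hh : YH (X.c.D.par Y) sp P W Qp)
    (hlv : ∀ u τ, Qp u τ → u.n ≤ top X.S)
    {rg : ℕ → ℕ} {η : ℕ → ℝ} {s : St X.c.Lam (Lb (WL X.c.Lam) Y)} {u u' : NS} {τ τ' : IT}
    (h : YI (X.c.D.par Y) sp Qp RP s u u' τ τ') (hc : Cop s)
    (hlam : s.p.Prime → s.p ≤ top X.S → X.c.lam s.p = 0)
    (hη : s.p.Prime → s.p ≤ top X.S → etaL X.c.wp s.p ≤ η (rg s.p))
    {PP : ℕ × ℕ → Prop} (hl : ¬ (s.t.isLeaf ∧ s.t'.isLeaf)) {e : ℕ × ℕ}
    (he : e ∈ Ep (X.c.D.par Y) X.S' s τ τ') (hP : PP e) :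
    (X.c.D.par Y).iF (s.R \ Ro ((X.c.D.par Y).rho s.p))
      ((X.c.D.par Y).uA s.M u.B u.A τ s.A 1) ((X.c.D.par Y).uA s.M' u'.B u'.A τ' s.A' 1) e ≤
      ((u.B : ℝ) * u'.B) * UV 4 η X.c.rr (Vm PP X.c.rr) (rg s.p)
        (SE s.M u.B u.A s.M' u'.B u'.A e) e := by
  obtain ⟨hpp, l1, l2⟩ := h.lev hh hl
  have hp : s.p ≤ top X.S := by
    have n1 := hlv _ _ h.L.q.self
    have n2 := hlv _ _ h.R.q.self
    have c1 : s.t.top ≤ u.n := by
      rw [h.L.S.eq]
      exact col_top_le ((X.c.D.par Y).toDT_Col sp τ u.n u.B u.A h.L.ok)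
    have c2 : s.t'.top ≤ u'.n := by
      rw [h.R.S.eq]
      exact col_top_le ((X.c.D.par Y).toDT_Col sp τ' u'.n u'.B u'.A h.R.ok)
    exact max_le (c1.trans n1) (c2.trans n2)
  obtain ⟨a, b⟩ := Finset.mem_product.1 he
  exact iF_ixV (hnd _ _ h.L.q.self) (hnd _ _ h.R.q.self) hp (hlam hpp hp) h.mL.pos h.mR.pos h.circ hc
    Y (IXR_sdiff Y s.p s.R) s.A s.A' (mem_Qi.1 a).1 (mem_Qi.1 b).1 hP (hη hpp hp)

end ctx

end Crest.Agent.R4P.IxRange34
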