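import Crest.Agent.R4P.RseSt_23
import Crest.Agent.R4P.IxRange_34
import Crest.Agent.R4P.LLCtx_30

/-!
R4 (S0004), powers pass, [W-dseR], helper21: **transitions of the column states** (`DataA758.stB`,
anticipated births).

`p'` = a lower column, `Bl c l q` = product of the missing ties of `q` above the level `l`.

Cf level (`lam = 0`):
* `same_fat`  : same stage, fat at `p'`: the state does not change;
* `thin`      : thin: the state is the label of the present stage;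
* `same_thin_none` : same stage, no state at `p`, thin at `p'`: no state at `p'`;
* `miss_some`, `miss_none`, `miss_none_bt` : missing tie at the column `p`, fat at `p'`;
* `leaf_thin`, `leaf_fat_same`, `leaf_fat_miss`, `leaf_same_none` : the state `lfst` of the leaf.

Node level (`NDt`): `node_same`, `node_miss`, `leaf_same`, `leaf_miss`.
-/

set_option autoImplicit false
set_option linter.unusedSectionVars false
set_option linter.unusedVariables false

namespace Crest.Agent.R4P.StB21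

open Crest.Agent.R4P.Cnt588 Crest.Agent.R4P.Item758 Crest.Agent.R4P.W363
open Crest.Agent.R4P.Data758 Crest.Agent.R4P.OmSt532 Crest.Agent.R4P.OmData532
open Crest.Agent.R4P.LfDat734 Crest.Agent.R4P.WPex189
open Crest.Agent.R4P.Bld532 (NS All NodeOk Bk)
open Crest.Agent.R4P.Step588 (NDt ND1 ctx_NDt uq_lt)
open Crest.Agent.R4P.WalkIT579 (tp isL nodeOk_hi top_of_nodeOk)
open Crest.Agent.R4P.Skel189 Crest.Agent.R4P.RseSt23
open Crest.Agent.R4P.Link758 (Bl)
open Crest.Agent.R4.Soft104 (w)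
open Crest.Agent.R4.LF363 (Lab)

section cf
variable {c : Cf} {n p p' q : ℕ}

/-- **state of an item at its leaf** -/
noncomputable abbrev lfst (c : Cf) (q : ℕ) : Option ℚ :=
  c.wpL.st c.γ c.r c.t (c.lv q) q

/-- the flag of the anticipated births -/
abbrev bt (c : Cf) (p q : ℕ) : Prop := btA c.wpL c.r c.t c.lv p q

/-- **thin: the state is the label of the present stage** -/
theorem thin (hl : c.lam p = 0) (h : (Bl c p q : ℝ) * c.r q ≤ c.wp.thr p) :
    c.st p q = lab0 c.γ (c.r q) (Bl c p q) := stB_thin_zero hl h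

/-- **same stage, fat at the lower column: the state is kept** -/
theorem same_fat (hl : c.lam p = 0) (hl' : c.lam p' = 0) (hp : p' ≤ p)
    (hm : ∀ l ∈ c.t.mt q, p' < l → p < l) (hthr : c.wp.thr p ≤ c.wp.thr p')
    (hfat : c.wp.thr p' < (Bl c p' q : ℝ) * c.r q) : c.st p' q = c.st p q := by
  have hL : lst (c.t.mt q) p' = lst (c.t.mt q) p := IxRange34.lst_congr hp hm
  have e : c.wp.st c.γ c.r c.t p' q = c.wp.st c.γ c.r c.t p q := by
    unfold WP.st
    unfold Bl at hfat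
    rw [hL] at hfat ⊢
    cases h : lst (c.t.mt q) p with
    | nil => rfl
    | cons s L =>
      rw [h, List.prod_cons] at hfat
      unfold Crest.Agent.R4.W363.sta
      rw [if_neg (not_le.2 hfat), if_neg (not_le.2 (lt_of_le_of_lt hthr hfat))]
  have e2 : fbA c.wpL c.γ c.r c.t c.lv p' q = fbA c.wpL c.γ c.r c.t c.lv p q := by
    unfold fbA
    rw [hL]
    by_cases hb : btA c.wpL c.r c.t c.lv p q
    · rw [if_pos hb, if_pos ((IxRange34.btA_congr hp hm).2 hb)]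
    · rw [if_neg hb, if_neg (fun k => hb ((IxRange34.btA_congr hp hm).1 k))]
  show stB c.wp c.wpL c.lam c.γ c.r c.t c.lv p' q = stB c.wp c.wpL c.lam c.γ c.r c.t c.lv p q
  unfold stB
  rw [stA_zero hl, stA_zero hl', e, e2]

/-- the product of all the missing ties -/
lemma Bl_all (hO : c.t.Ok n) (h : ∀ s ∈ c.t.mt q, p < s) : Bl c p q = mp c.t q := by
  unfold Bl
  rw [Crest.Agent.R4.W363.lst_prod, Finset.filter_true_of_mem h, BldF542.mp_eq_prod c.t n hO q]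

/-- **same stage, no state at `p`, thin at `p'`: no state at `p'`** -/
theorem same_thin_none (hO : c.t.Ok n) (hl : c.lam p = 0) (hl' : c.lam p' = 0) (hp : p' ≤ p)
    (hm : ∀ l ∈ c.t.mt q, p' < l → p < l) (h : c.st p q = none)
    (hthin : (Bl c p' q : ℝ) * c.r q ≤ c.wp.thr p') (hL' : c.wp.thr p' ≤ c.wpL.thr (c.lv q)) :
    c.st p' q = none := by
  have hL : lst (c.t.mt q) p' = lst (c.t.mt q) p := IxRange34.lst_congr hp hm
  rw [thin hl' hthin]
  by_cases hb : btA c.wpL c.r c.t c.lv p q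
  · have h1 := (stB_none_zero hl h).2 hb
    unfold Bl
    rw [hL]
    exact h1
  · exfalso
    unfold btA at hb
    push Not at hb
    obtain ⟨h1, h2⟩ := hb
    rw [Bl_all hO (fun s hs => lt_of_le_of_lt hp (h1 s hs))] at hthin
    exact absurd (hthin.trans hL') (not_le.2 h2)

/-- **missing tie at the column `p`, thin there, fat at `p'`: a label is kept** -/
theorem miss_some (hl : c.lam p = 0) (hl' : c.lam p' = 0)
    (hL : lst (c.t.mt q) p' = p :: lst (c.t.mt q) p)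
    (hthin : (Bl c p q : ℝ) * c.r q ≤ c.wp.thr p)
    (hfat : c.wp.thr p' < (Bl c p' q : ℝ) * c.r q) {σ : ℚ} (h : c.st p q = some σ) :
    c.st p' q = some σ := by
  rw [thin hl hthin] at h
  refine stB_zero_some hl' ?_
  unfold WP.st
  unfold Bl at hfat
  rw [hL] at hfat ⊢
  rw [List.prod_cons] at hfat
  unfold Crest.Agent.R4.W363.sta
  rw [if_neg (not_le.2 hfat), sta_thin hthin]
  exact h

/-- **missing tie at the column `p`, thin there without a label, fat at `p'`** -/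
theorem miss_none (hl : c.lam p = 0)
    (hL : lst (c.t.mt q) p' = p :: lst (c.t.mt q) p)
    (hthin : (Bl c p q : ℝ) * c.r q ≤ c.wp.thr p)
    (hfat : c.wp.thr p' < (Bl c p' q : ℝ) * c.r q) (h : c.st p q = none) :
    c.st p' q = fbA c.wpL c.γ c.r c.t c.lv p' q := by
  rw [thin hl hthin] at h
  refine stB_of_none ?_
  unfold WP.st
  unfold Bl at hfat
  rw [hL] at hfat ⊢
  rw [List.prod_cons] at hfat
  unfold Crest.Agent.R4.W363.sta
  rw [if_neg (not_le.2 hfat), sta_thin hthin]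
  exact h

/-- the same, births anticipated: the label of the new stage -/
theorem miss_none_bt (hl : c.lam p = 0)
    (hL : lst (c.t.mt q) p' = p :: lst (c.t.mt q) p)
    (hthin : (Bl c p q : ℝ) * c.r q ≤ c.wp.thr p)
    (hfat : c.wp.thr p' < (Bl c p' q : ℝ) * c.r q) (h : c.st p q = none) (hb : bt c p' q) :
    c.st p' q = lab0 c.γ (c.r q) (Bl c p' q) := by
  rw [miss_none hl hL hthin hfat h]
  unfold fbA
  rw [if_pos hb]
  rfl

/-! ### leaves -/

/-- thin at the leaf -/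
theorem leaf_thin (h : (Bl c (c.lv q) q : ℝ) * c.r q ≤ c.wpL.thr (c.lv q)) :
    lfst c q = lab0 c.γ (c.r q) (Bl c (c.lv q) q) := by
  show c.wpL.st c.γ c.r c.t (c.lv q) q = _
  unfold WP.st
  exact sta_thin h

/-- a thin leaf: births are anticipated at every column above it -/
theorem bt_of_leaf (hO : c.t.Ok n) (hm : ∀ l ∈ c.t.mt q, c.lv q < l)
    (h : (Bl c (c.lv q) q : ℝ) * c.r q ≤ c.wpL.thr (c.lv q)) : bt c p q := by
  right
  rw [← Bl_all hO hm]
  exact h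

/-- **same stage, thin at the leaf, no state at the column: no state at the leaf** -/
theorem leaf_same_none (hO : c.t.Ok n) (hl : c.lam p = 0)
    (hm : ∀ l ∈ c.t.mt q, c.lv q < l) (hm' : ∀ l ∈ c.t.mt q, p < l)
    (hthin : (Bl c (c.lv q) q : ℝ) * c.r q ≤ c.wpL.thr (c.lv q)) (h : c.st p q = none) :
    lfst c q = none := by
  rw [leaf_thin hthin, Bl_all hO hm, ← Bl_all hO hm']
  exact (stB_none_zero hl h).2 (bt_of_leaf hO hm hthin)

/-- **same stage, fat at the leaf: the state of the leaf is the state of the column**. `hs`: at the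
last missing tie `s` the item was thin -/
theorem leaf_fat_same (hO : c.t.Ok n) (hl : c.lam p = 0)
    (hm : ∀ l ∈ c.t.mt q, c.lv q < l) (hm' : ∀ l ∈ c.t.mt q, p < l)
    (hfat : c.wpL.thr (c.lv q) < (Bl c (c.lv q) q : ℝ) * c.r q)
    (hthr : c.wp.thr p ≤ c.wpL.thr (c.lv q))
    (hs : ∀ s L, lst (c.t.mt q) p = s :: L → (L.prod : ℝ) * c.r q ≤ c.wp.thr s ∧
      (L.prod : ℝ) * c.r q ≤ c.wpL.thr s) : lfst c q = c.st p q := by
  have hLm : lst (c.t.mt q) (c.lv q) = lst (c.t.mt q) p := by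
    unfold Crest.Agent.R4.W363.lst
    congr 1
    rw [Finset.filter_true_of_mem hm, Finset.filter_true_of_mem hm']
  have hnb : ¬ btA c.wpL c.r c.t c.lv p q := by
    unfold btA
    rw [← Bl_all hO hm]
    push Not
    exact ⟨hm', hfat⟩
  have e : c.wpL.st c.γ c.r c.t (c.lv q) q = c.wp.st c.γ c.r c.t p q := by
    unfold WP.st
    unfold Bl at hfat
    rw [hLm] at hfat ⊢
    cases h : lst (c.t.mt q) p with
    | nil => rfl
    | cons s L =>
      obtain ⟨h1, h2⟩ := hs s L h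
      rw [h, List.prod_cons] at hfat
      unfold Crest.Agent.R4.W363.sta
      rw [if_neg (not_le.2 hfat), if_neg (not_le.2 (lt_of_le_of_lt hthr hfat)), sta_thin h1,
        sta_thin h2]
  show c.wpL.st c.γ c.r c.t (c.lv q) q = _
  cases h : c.wp.st c.γ c.r c.t p q with
  | none =>
    rw [e, h]
    symm
    show stB c.wp c.wpL c.lam c.γ c.r c.t c.lv p q = none
    rw [stB_of_none h]
    unfold fbA
    rw [if_neg hnb]
  | some σ =>
    rw [e, h]
    exact (stB_zero_some hl h).symm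

/-- **missing tie at the last column `p`, thin there, fat at the leaf** -/
theorem leaf_fat_miss (hl : c.lam p = 0)
    (hL : lst (c.t.mt q) (c.lv q) = p :: lst (c.t.mt q) p)
    (hthin : (Bl c p q : ℝ) * c.r q ≤ c.wp.thr p) (hthin' : (Bl c p q : ℝ) * c.r q ≤ c.wpL.thr p)
    (hfat : c.wpL.thr (c.lv q) < (Bl c (c.lv q) q : ℝ) * c.r q) : lfst c q = c.st p q := by
  rw [thin hl hthin]
  show c.wpL.st c.γ c.r c.t (c.lv q) q = _
  unfold WP.st
  unfold Bl at hfat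
  rw [hL] at hfat ⊢
  rw [List.prod_cons] at hfat
  unfold Crest.Agent.R4.W363.sta
  rw [if_neg (not_le.2 hfat), sta_thin hthin']
  rfl

end cf

/-! ### nodes -/

/-- the list of the missing ties after a missing tie -/
lemma LB_mul {B p : ℕ} (hp : p.Prime) (hB : B ≠ 0) (h : ∀ l ∈ B.primeFactors, p < l) :
    LB (B * p) = p :: LB B := by
  unfold LB
  have e : (B * p).primeFactors = insert p B.primeFactors := by
    rw [Nat.primeFactors_mul hB hp.ne_zero, hp.primeFactors, Finset.union_comm]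
    rfl
  rw [e]
  exact Finset.sort_insert (· ≤ ·) (fun b hb => (h b hb).le) (fun h' => lt_irrefl p (h p h'))

/-- **the thinness profile of a context** -/
structure TH {N : Skel189.Num} {γ : ℝ} {p0 P₀ : ℕ} (X : Ctx N γ p0 P₀) : Prop where
  lam : ∀ p, X.c.lam p = 0
  pos : ∀ p, p0 ≤ p → 0 < X.c.wp.thr p
  anti : ∀ l p : ℕ, p0 ≤ l → l ≤ p → X.c.wp.thr p ≤ X.c.wp.thr l
  leL : ∀ l p : ℕ, p0 ≤ l → l ≤ p → X.c.wp.thr p ≤ X.c.wpL.thr l
  hi : ∀ p : ℕ, p0 < p → Real.log p ^ (N.B + N.c2 + 2) ≤ p * X.c.wp.thr p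

section node
variable {N : Skel189.Num} {γ : ℝ} {p0 P₀ : ℕ} {X : Ctx N γ p0 P₀} {u u' : NS} {τ τ' : IT}

lemma Bl_node (h : NDt X.par (w X.ψ) X.c.t u τ) (hl : ¬ isL τ) {q : ℕ} (hq : q ∈ τ.items) :
    Bl X.c (tp τ) q = u.B := by
  unfold Bl
  rw [lst_node h X.tOk hl hq, LB_prod h.bk.sfB]

/-- missing ties above the column of a lower node of the same stage -/
lemma mt_same (h : NDt X.par (w X.ψ) X.c.t u τ) (h' : NDt X.par (w X.ψ) X.c.t u' τ')
    (hl : ¬ isL τ) (hl' : ¬ isL τ') {q : ℕ} (hq : q ∈ τ.items) (hq' : q ∈ τ'.items)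
    (hB : u'.B = u.B) : ∀ l ∈ X.c.t.mt q, tp τ' < l → tp τ < l := by
  intro l h1 h2
  have h3 : l ∈ (X.c.t.mt q).filter (tp τ' < ·) := Finset.mem_filter.2 ⟨h1, h2⟩
  rw [mt_node h' X.tOk hl' hq', hB, ← mt_node h X.tOk hl hq] at h3
  exact (Finset.mem_filter.1 h3).2

lemma LB_miss (h : NDt X.par (w X.ψ) X.c.t u τ) (hl : ¬ isL τ) :
    LB (u.B * tp τ) = tp τ :: LB u.B := by
  obtain ⟨k1, k2, k3⟩ := top_of_nodeOk h.self.node hl
  exact LB_mul k1 h.bk.sfB.ne_zero fun l hl' =>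
    k2.trans_le (h.bk.geB l (Nat.prime_of_mem_primeFactors hl') (Nat.dvd_of_mem_primeFactors hl'))

/-- **thinness at a missing tie above a node** -/
theorem thin_at (hT : TH X) (h : NDt X.par (w X.ψ) X.c.t u τ) (hr : Step588.RdOk X u τ) {q : ℕ}
    (hq : q ∈ τ.items) (hqs : q ∈ X.S') {s b : ℕ} (hs : s.Prime) (hsp : p0 < s)
    (hsB : u.B = s * b) : (b : ℝ) * X.c.r q ≤ X.c.wp.thr s := by
  have h1 := hr.gen q hq hqs s hsp (h.bk.geB s hs ⟨b, hsB⟩)
  have hrr : X.c.rr q = X.c.r q := if_pos (X.rpos hqs)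
  rw [hrr, hsB, Nat.cast_mul, mul_assoc] at h1
  have hs0 : (0:ℝ) < s := by exact_mod_cast hs.pos
  exact le_of_mul_le_mul_left (h1.trans (hT.hi s hsp)) hs0

/-- **state of a thin item of a node** -/
theorem node_thin (hT : TH X) (h : NDt X.par (w X.ψ) X.c.t u τ) (hl : ¬ isL τ) {q : ℕ}
    (hq : q ∈ τ.items) (hthin : (u.B : ℝ) * X.c.r q ≤ X.c.wp.thr (tp τ)) :
    X.c.st (tp τ) q = lab0 X.c.γ (X.c.r q) u.B := by
  rw [← Bl_node h hl hq] at hthin ⊢
  exact thin (hT.lam _) hthin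

/-! #### the same stage -/

/-- **(T0), same stage**: fat at the lower column: the state is kept -/
theorem node_same_fat (hT : TH X) (h : NDt X.par (w X.ψ) X.c.t u τ)
    (h' : NDt X.par (w X.ψ) X.c.t u' τ') (hl : ¬ isL τ) (hl' : ¬ isL τ') {q : ℕ}
    (hq : q ∈ τ.items) (hq' : q ∈ τ'.items) (hB : u'.B = u.B) (hp : tp τ' ≤ tp τ)
    (hfat : X.c.wp.thr (tp τ') < (u'.B : ℝ) * X.c.r q) : X.c.st (tp τ') q = X.c.st (tp τ) q := by
  have k := (nodeOk_hi h'.self.node hl').2.1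
  rw [← Bl_node h' hl' hq'] at hfat
  exact same_fat (hT.lam _) (hT.lam _) hp (mt_same h h' hl hl' hq hq' hB)
    (hT.anti _ _ (le_of_lt k) hp) hfat

/-- **(T1), same stage**: no birth -/
theorem node_same_none (hT : TH X) (h : NDt X.par (w X.ψ) X.c.t u τ)
    (h' : NDt X.par (w X.ψ) X.c.t u' τ') (hl : ¬ isL τ) (hl' : ¬ isL τ') {q : ℕ}
    (hq : q ∈ τ.items) (hq' : q ∈ τ'.items) (hB : u'.B = u.B) (hp : tp τ' ≤ tp τ)
    (hlv : p0 ≤ X.c.lv q) (hlv' : X.c.lv q ≤ tp τ') (hn : X.c.st (tp τ) q = none) :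
    X.c.st (tp τ') q = none := by
  rcases lt_or_ge (X.c.wp.thr (tp τ')) ((u'.B : ℝ) * X.c.r q) with hf | hf
  · rw [node_same_fat hT h h' hl hl' hq hq' hB hp hf, hn]
  · rw [← Bl_node h' hl' hq'] at hf
    exact same_thin_none X.tOk (hT.lam _) (hT.lam _) hp (mt_same h h' hl hl' hq hq' hB) hn hf
      (hT.leL _ _ hlv hlv')

/-- **(T2)**: same stage, same range: the state does not change -/
theorem node_range (hT : TH X) (h : NDt X.par (w X.ψ) X.c.t u τ)
    (h' : NDt X.par (w X.ψ) X.c.t u' τ') (hl : ¬ isL τ) (hl' : ¬ isL τ') {q : ℕ}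
    (hq : q ∈ τ.items) (hq' : q ∈ τ'.items) (hB : u'.B = u.B) (hp : tp τ' ≤ tp τ)
    (hthr : X.c.wp.thr (tp τ') = X.c.wp.thr (tp τ)) : X.c.st (tp τ') q = X.c.st (tp τ) q := by
  rcases lt_or_ge (X.c.wp.thr (tp τ')) ((u'.B : ℝ) * X.c.r q) with hf | hf
  · exact node_same_fat hT h h' hl hl' hq hq' hB hp hf
  · rw [node_thin hT h' hl' hq' hf, node_thin hT h hl hq (by rw [← hB, ← hthr]; exact hf), hB]

/-! #### a missing tie -/

/-- **(T3)**: at the column of a missing tie every alive item is thin -/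
theorem miss_thin (hT : TH X) (h : NDt X.par (w X.ψ) X.c.t u τ) (hl : ¬ isL τ)
    (h' : NDt X.par (w X.ψ) X.c.t u' τ') (hr' : Step588.RdOk X u' τ') {q : ℕ}
    (hq' : q ∈ τ'.items) (hqs : q ∈ X.S') (hB : u'.B = u.B * tp τ) :
    (u.B : ℝ) * X.c.r q ≤ X.c.wp.thr (tp τ) := by
  obtain ⟨k1, k2, k3⟩ := top_of_nodeOk h.self.node hl
  exact thin_at hT h' hr' hq' hqs k1 (nodeOk_hi h.self.node hl).2.1 (by rw [hB, mul_comm])

/-- **(T3)**, the state at the column of a missing tie -/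
theorem miss_st (hT : TH X) (h : NDt X.par (w X.ψ) X.c.t u τ) (hl : ¬ isL τ)
    (h' : NDt X.par (w X.ψ) X.c.t u' τ') (hr' : Step588.RdOk X u' τ') {q : ℕ}
    (hq : q ∈ τ.items) (hq' : q ∈ τ'.items) (hqs : q ∈ X.S') (hB : u'.B = u.B * tp τ) :
    X.c.st (tp τ) q = lab0 X.c.γ (X.c.r q) u.B :=
  node_thin hT h hl hq (miss_thin hT h hl h' hr' hq' hqs hB)

lemma lst_miss (h : NDt X.par (w X.ψ) X.c.t u τ) (h' : NDt X.par (w X.ψ) X.c.t u' τ')
    (hl : ¬ isL τ) (hl' : ¬ isL τ') {q : ℕ} (hq : q ∈ τ.items) (hq' : q ∈ τ'.items)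
    (hB : u'.B = u.B * tp τ) :
    lst (X.c.t.mt q) (tp τ') = tp τ :: lst (X.c.t.mt q) (tp τ) := by
  rw [lst_node h' X.tOk hl' hq', lst_node h X.tOk hl hq, hB, LB_miss h hl]

/-- **(T0)**, missing tie, fat at the lower column: a label is kept -/
theorem node_miss_some (hT : TH X) (h : NDt X.par (w X.ψ) X.c.t u τ)
    (h' : NDt X.par (w X.ψ) X.c.t u' τ') (hr' : Step588.RdOk X u' τ') (hl : ¬ isL τ)
    (hl' : ¬ isL τ') {q : ℕ} (hq : q ∈ τ.items) (hq' : q ∈ τ'.items) (hqs : q ∈ X.S')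
    (hB : u'.B = u.B * tp τ) (hfat : X.c.wp.thr (tp τ') < (u'.B : ℝ) * X.c.r q) {σ : ℚ}
    (hs : X.c.st (tp τ) q = some σ) : X.c.st (tp τ') q = some σ := by
  have h1 := miss_thin hT h hl h' hr' hq' hqs hB
  rw [← Bl_node h hl hq] at h1
  rw [← Bl_node h' hl' hq'] at hfat
  exact miss_some (hT.lam _) (hT.lam _) (lst_miss h h' hl hl' hq hq' hB) h1 hfat hs

/-- **(T0')**, missing tie, fat at the lower column, no label at the upper column -/
theorem node_miss_none (hT : TH X) (h : NDt X.par (w X.ψ) X.c.t u τ)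
    (h' : NDt X.par (w X.ψ) X.c.t u' τ') (hr' : Step588.RdOk X u' τ') (hl : ¬ isL τ)
    (hl' : ¬ isL τ') {q : ℕ} (hq : q ∈ τ.items) (hq' : q ∈ τ'.items) (hqs : q ∈ X.S')
    (hB : u'.B = u.B * tp τ) (hfat : X.c.wp.thr (tp τ') < (u'.B : ℝ) * X.c.r q)
    (hs : X.c.st (tp τ) q = none) :
    (bt X.c (tp τ') q → X.c.st (tp τ') q = lab0 X.c.γ (X.c.r q) u'.B) ∧
    (¬ bt X.c (tp τ') q → X.c.st (tp τ') q = none) := by
  have h1 := miss_thin hT h hl h' hr' hq' hqs hB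
  rw [← Bl_node h hl hq] at h1
  have e := Bl_node h' hl' hq'
  rw [← e] at hfat ⊢
  have e1 := miss_none (hT.lam _) (lst_miss h h' hl hl' hq hq' hB) h1 hfat hs
  constructor
  · intro hb
    rw [e1]
    unfold fbA
    rw [if_pos hb]
    rfl
  · intro hb
    rw [e1]
    unfold fbA
    rw [if_neg hb]

/-! #### leaves -/

/-- missing ties of the items of a leaf lie above its level -/
lemma leaf_mt {S : Finset ℕ} {G : ℕ}
    (hL : LeafF X.par (w X.ψ) X.c.t (top X.S) u' S G) {q : ℕ} (hq : q ∈ S) :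
    (∀ l ∈ X.c.t.mt q, X.c.lv q < l) ∧ lst (X.c.t.mt q) (X.c.lv q) = LB u'.B ∧
      Bl X.c (X.c.lv q) q = u'.B := by
  have h0 : ∀ l ∈ X.c.t.mt q, X.c.lv q < l := by
    intro l hl
    rw [hL.mt q hq] at hl
    have h1 := hL.bk.geB l (Nat.prime_of_mem_primeFactors hl) (Nat.dvd_of_mem_primeFactors hl)
    have h2 : X.c.lv q = u'.n - 1 := by rw [X.lv]; exact hL.lvl q hq
    have h3 := (Nat.prime_of_mem_primeFactors hl).pos
    omega
  have h1 : lst (X.c.t.mt q) (X.c.lv q) = LB u'.B := by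
    unfold Crest.Agent.R4.W363.lst LB
    rw [Finset.filter_true_of_mem h0, hL.mt q hq]
  refine ⟨h0, h1, ?_⟩
  unfold Bl
  rw [h1, LB_prod hL.bk.sfB]

/-- **leaf, thin**: the label of the stage -/
theorem leaf_th {S : Finset ℕ} {G : ℕ} (hL : LeafF X.par (w X.ψ) X.c.t (top X.S) u' S G)
    {q : ℕ} (hq : q ∈ S) (hthin : (u'.B : ℝ) * X.c.r q ≤ X.c.wpL.thr (X.c.lv q)) :
    lfst X.c q = lab0 X.c.γ (X.c.r q) u'.B := by
  obtain ⟨h0, h1, h2⟩ := leaf_mt hL hq
  rw [← h2] at hthin ⊢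
  exact leaf_thin hthin

lemma leaf_mt_same {S : Finset ℕ} {G : ℕ} (h : NDt X.par (w X.ψ) X.c.t u τ) (hl : ¬ isL τ)
    (hL : LeafF X.par (w X.ψ) X.c.t (top X.S) u' S G) {q : ℕ} (hq : q ∈ τ.items) (hq' : q ∈ S)
    (hB : u'.B = u.B) : ∀ l ∈ X.c.t.mt q, tp τ < l := by
  intro l h1
  rw [hL.mt q hq', hB, ← mt_node h X.tOk hl hq] at h1
  exact (Finset.mem_filter.1 h1).2

lemma lst_cons (hT : TH X) (h : NDt X.par (w X.ψ) X.c.t u τ) (hr : Step588.RdOk X u τ)
    (hl : ¬ isL τ) {q : ℕ} (hq : q ∈ τ.items) (hqs : q ∈ X.S') {s : ℕ} {L : List ℕ}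
    (hL : lst (X.c.t.mt q) (tp τ) = s :: L) :
    (L.prod : ℝ) * X.c.r q ≤ X.c.wp.thr s ∧ (L.prod : ℝ) * X.c.r q ≤ X.c.wpL.thr s := by
  have h1 : s ∈ lst (X.c.t.mt q) (tp τ) := by rw [hL]; exact List.mem_cons_self
  have h2 := (Crest.Agent.R4.W363.mem_lst.1 h1).1
  have h3 := (Bld532.cols_of_All _ _ _ _ X.nodes q s (Or.inl h2)).2.1
  have h4 := (BldF542.mt_lt X.c.t (top X.S) X.tOk q s h2).1
  have h5 : u.B = s * L.prod := by
    rw [← Bl_node h hl hq]
    unfold Bl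
    rw [hL, List.prod_cons]
  have h6 := thin_at hT h hr hq hqs h4 h3 h5
  exact ⟨h6, h6.trans (hT.leL _ _ (le_of_lt h3) le_rfl)⟩

/-- **leaf of the same stage, fat: the state is kept** -/
theorem leaf_same_fat {S : Finset ℕ} {G : ℕ} (hT : TH X) (h : NDt X.par (w X.ψ) X.c.t u τ)
    (hr : Step588.RdOk X u τ) (hl : ¬ isL τ) (hL : LeafF X.par (w X.ψ) X.c.t (top X.S) u' S G)
    {q : ℕ} (hq : q ∈ τ.items) (hq' : q ∈ S) (hqs : q ∈ X.S') (hB : u'.B = u.B)
    (hlv : p0 ≤ X.c.lv q) (hlv' : X.c.lv q ≤ tp τ)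
    (hfat : X.c.wpL.thr (X.c.lv q) < (u'.B : ℝ) * X.c.r q) :
    lfst X.c q = X.c.st (tp τ) q := by
  obtain ⟨h0, h1, h2⟩ := leaf_mt hL hq'
  rw [← h2] at hfat
  exact leaf_fat_same X.tOk (hT.lam _) h0 (leaf_mt_same h hl hL hq hq' hB) hfat
    (hT.leL _ _ hlv hlv') fun s L hs => lst_cons hT h hr hl hq hqs hs

/-- **leaf of the same stage**: no birth -/
theorem leaf_none {S : Finset ℕ} {G : ℕ} (hT : TH X) (h : NDt X.par (w X.ψ) X.c.t u τ)
    (hr : Step588.RdOk X u τ) (hl : ¬ isL τ) (hL : LeafF X.par (w X.ψ) X.c.t (top X.S) u' S G)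
    {q : ℕ} (hq : q ∈ τ.items) (hq' : q ∈ S) (hqs : q ∈ X.S') (hB : u'.B = u.B)
    (hlv : p0 ≤ X.c.lv q) (hlv' : X.c.lv q ≤ tp τ)
    (hn : X.c.st (tp τ) q = none) : lfst X.c q = none := by
  rcases lt_or_ge (X.c.wpL.thr (X.c.lv q)) ((u'.B : ℝ) * X.c.r q) with hf | hf
  · rw [leaf_same_fat hT h hr hl hL hq hq' hqs hB hlv hlv' hf, hn]
  · obtain ⟨h0, h1, h2⟩ := leaf_mt hL hq'
    rw [← h2] at hf
    exact leaf_same_none X.tOk (hT.lam _) h0 (leaf_mt_same h hl hL hq hq' hB) hf hn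

/-- **leaf below a missing tie**: the items were thin at the column -/
theorem leaf_miss_st {S : Finset ℕ} (hT : TH X) (h : NDt X.par (w X.ψ) X.c.t u τ)
    (hl : ¬ isL τ) (h' : NDt X.par (w X.ψ) X.c.t u' (.leaf S))
    (hr' : Step588.RdOk X u' (.leaf S)) {q : ℕ} (hq : q ∈ τ.items) (hq' : q ∈ S) (hqs : q ∈ X.S')
    (hB : u'.B = u.B * tp τ) :
    (u.B : ℝ) * X.c.r q ≤ X.c.wp.thr (tp τ) ∧
      X.c.st (tp τ) q = lab0 X.c.γ (X.c.r q) u.B := by
  obtain ⟨k1, k2, k3⟩ := top_of_nodeOk h.self.node hl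
  have h1 := thin_at hT h' hr' hq' hqs k1 (nodeOk_hi h.self.node hl).2.1 (b := u.B)
    (by rw [hB, mul_comm])
  exact ⟨h1, node_thin hT h hl hq h1⟩

/-- **leaf below a missing tie, fat: the state of the column is kept** -/
theorem leaf_miss_fat {S : Finset ℕ} {G : ℕ} (hT : TH X) (h : NDt X.par (w X.ψ) X.c.t u τ)
    (hl : ¬ isL τ) (hL : LeafF X.par (w X.ψ) X.c.t (top X.S) u' S G)
    (h' : NDt X.par (w X.ψ) X.c.t u' (.leaf S)) (hr' : Step588.RdOk X u' (.leaf S)) {q : ℕ}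
    (hq : q ∈ τ.items) (hq' : q ∈ S) (hqs : q ∈ X.S') (hB : u'.B = u.B * tp τ)
    (hfat : X.c.wpL.thr (X.c.lv q) < (u'.B : ℝ) * X.c.r q) :
    lfst X.c q = X.c.st (tp τ) q := by
  obtain ⟨h0, h1, h2⟩ := leaf_mt hL hq'
  have k := (leaf_miss_st hT h hl h' hr' hq hq' hqs hB).1
  have kp := (nodeOk_hi h.self.node hl).2.1
  have e : lst (X.c.t.mt q) (X.c.lv q) = tp τ :: lst (X.c.t.mt q) (tp τ) := by
    rw [h1, hB, LB_miss h hl, lst_node h X.tOk hl hq]
  rw [← h2] at hfat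
  rw [← Bl_node h hl hq] at k
  exact leaf_fat_miss (hT.lam _) e k (k.trans (hT.leL _ _ (le_of_lt kp) le_rfl)) hfat

/-! ### levels of the leaves -/

lemma lst_n {P : Bld532.Par} {W : ℕ → ℝ} : ∀ (τ : IT) (u : NS), All (NodeOk P W) u τ →
    P.p0 < u.n → ∀ q, P.p0 < (Bld532.lst τ u q).n ∧ (Bld532.lst τ u q).n ≤ u.n := by
  intro τ
  induction τ with
  | leaf S => intro u _ h0 q; exact ⟨h0, le_rfl⟩
  | br p Sp t₁ t₀ ih₁ ih₀ =>
    intro u h h0 q
    obtain ⟨h1, h2, h3⟩ := h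
    have a := h1.2.1
    have b := h1.2.2.1
    simp only [Bld532.lst]
    split_ifs
    · have := ih₀ ⟨p, u.c * p, u.A, u.B * p⟩ h3 b q
      exact ⟨this.1, this.2.trans (le_of_lt a)⟩
    · have := ih₁ _ h2 b q
      exact ⟨this.1, this.2.trans (le_of_lt a)⟩
  | add p t₁ t₀ ih₁ ih₀ =>
    intro u h h0 q
    obtain ⟨h1, h2, h3⟩ := h
    have a := h1.2.1
    have b := h1.2.2.1
    simp only [Bld532.lst]
    split_ifs
    · have := ih₀ _ h3 (Nat.lt_succ_of_lt b) q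
      exact ⟨this.1, this.2.trans a⟩
    · have := ih₁ _ h2 (Nat.lt_succ_of_lt b) q
      exact ⟨this.1, this.2.trans a⟩
  | up p Sp t ih =>
    intro u h h0 q
    obtain ⟨h1, h2⟩ := h
    have a := h1.2.1
    have b := h1.2.2.1
    simp only [Bld532.lst]
    have := ih _ h2 b q
    exact ⟨this.1, this.2.trans (le_of_lt a)⟩
  | pl p t ih =>
    intro u h h0 q
    obtain ⟨h1, h2⟩ := h
    have a := h1.2.1
    have b := h1.2.2.1
    simp only [Bld532.lst]
    have := ih _ h2 (Nat.lt_succ_of_lt b) q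
    exact ⟨this.1, this.2.trans a⟩
  | far p t₁ t₀ ih₁ ih₀ =>
    intro u h h0 q
    obtain ⟨h1, h2, h3⟩ := h
    have a := h1.2.1
    have b := h1.2.2.1
    simp only [Bld532.lst]
    split_ifs
    · have := ih₀ _ h3 (Nat.lt_succ_of_lt b) q
      exact ⟨this.1, this.2.trans a⟩
    · have := ih₁ _ h2 (Nat.lt_succ_of_lt b) q
      exact ⟨this.1, this.2.trans a⟩

lemma lst_tp {P : Bld532.Par} {W : ℕ → ℝ} {τ : IT} {u : NS} (h : All (NodeOk P W) u τ)
    (hl : ¬ isL τ) (q : ℕ) :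
    P.p0 < (Bld532.lst τ u q).n ∧ (Bld532.lst τ u q).n ≤ tp τ + 1 := by
  cases τ with
  | leaf S => exact absurd trivial hl
  | br p Sp t₁ t₀ =>
    obtain ⟨h1, h2, h3⟩ := h
    have b := h1.2.2.1
    simp only [Bld532.lst]
    split_ifs
    · have := lst_n t₀ ⟨p, u.c * p, u.A, u.B * p⟩ h3 b q
      exact ⟨this.1, this.2.trans (Nat.le_succ _)⟩
    · have := lst_n t₁ _ h2 b q
      exact ⟨this.1, this.2.trans (Nat.le_succ _)⟩
  | add p t₁ t₀ =>
    obtain ⟨h1, h2, h3⟩ := h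
    have b := h1.2.2.1
    simp only [Bld532.lst]
    split_ifs
    · exact lst_n t₀ _ h3 (Nat.lt_succ_of_lt b) q
    · exact lst_n t₁ _ h2 (Nat.lt_succ_of_lt b) q
  | up p Sp t =>
    obtain ⟨h1, h2⟩ := h
    have := lst_n t _ h2 h1.2.2.1 q
    exact ⟨this.1, this.2.trans (Nat.le_succ _)⟩
  | pl p t =>
    obtain ⟨h1, h2⟩ := h
    exact lst_n t _ h2 (Nat.lt_succ_of_lt h1.2.2.1) q
  | far p t₁ t₀ =>
    obtain ⟨h1, h2, h3⟩ := h
    have b := h1.2.2.1
    simp only [Bld532.lst]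
    split_ifs
    · exact lst_n t₀ _ h3 (Nat.lt_succ_of_lt b) q
    · exact lst_n t₁ _ h2 (Nat.lt_succ_of_lt b) q

/-- levels of the items of a node -/
def LvF (X : Ctx N γ p0 P₀) (u : NS) (τ : IT) : Prop :=
  ¬ isL τ → ∀ q ∈ τ.items, p0 ≤ X.c.lv q ∧ X.c.lv q ≤ tp τ

/-- **the leaf levels lie between `p0` and the column** -/
theorem ctx_LvF (X : Ctx N γ p0 P₀) : All (LvF X) ⟨top X.S, 1, 1, 1⟩ X.c.t := by
  have h2 := LfDat734.All_lst (t' := X.c.t) (s₀ := ⟨top X.S, 1, 1, 1⟩) X.c.t (top X.S)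
    ⟨top X.S, 1, 1, 1⟩ X.tOk (fun q hq => ⟨hq, rfl⟩)
  refine All.mono (fun u τ hh hl q hq => ?_) ((ctx_NDt X).and h2)
  obtain ⟨h, h3⟩ := hh
  have h4 : All (NodeOk X.par (w X.ψ)) u τ := All.mono (fun _ _ k => k.node) h.all
  obtain ⟨h5, h6⟩ := lst_tp h4 hl q
  have h7 : X.c.lv q = (Bld532.lst τ u q).n - 1 := by
    rw [X.lv]
    unfold LfDat734.lv
    rw [(h3 q hq).2]
  have h8 : p0 < (Bld532.lst τ u q).n := h5
  omega

end node

end Crest.Agent.R4P.StB21
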