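import Crest.Agent.R4P.DseE_23
import Crest.Agent.R4P.StB_21

/-!
R4 (S0004), powers pass, helper23 ([W-dseR], D5): **the children of the nodes of a context**.

* `Kid X v V u τ` : `(u, τ)` is (the head of) a child of the node `(v, V)`;
* `kids_all` : bounds at all the children give `KidsOk` at all the nodes;
* `RC_mem`, `RC_same` : the relation of a child in terms of the worlds; `RC = ∅` if the column of the
  child is the column of the parent.
-/

set_option autoImplicit false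
set_option linter.unusedSectionVars false
set_option linter.unusedVariables false

open MeasureTheory Filter

namespace Crest.Agent.R4P.DseKid23

open Crest.Agent.R4P.Cnt588 Crest.Agent.R4P.Item758 Crest.Agent.R4P.W363
open Crest.Agent.R4P.Data758 Crest.Agent.R4P.LfDat734
open Crest.Agent.R4P.Bld532 (NS All NodeOk Bk)
open Crest.Agent.R4P.Step588 (NDt ND1 ctx_NDt uq_lt)
open Crest.Agent.R4P.WalkIT579 (tp isL nodeOk_hi top_of_nodeOk)
open Crest.Agent.R4P.Skel189 Crest.Agent.R4P.RseSt23 Crest.Agent.R4P.RseNd23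
open Crest.Agent.R4P.AvgItem710
open Crest.Agent.R4.ClosL758 Crest.Agent.R4.ClosR758 Crest.Agent.R4.Tour104 Crest.Agent.R4.Fam464
open Crest.Agent.R4.Tour758 Crest.Agent.R4.Avg758 Crest.Agent.R4.ClosG758
open Crest.Agent.R4P.Frame758
open Crest.Agent.R4.Soft104 (w)
open Crest.Agent.R4P.StB21
open Crest.Agent.R4P.DseCh23
open Crest.Agent.R4

section ctx
variable {N : Skel189.Num} {γ : ℝ} {p0 P₀ : ℕ}

/-- **a child `(u, τ)` of a node `(v, V)`** -/
structure Kid (X : Ctx N γ p0 P₀) (v : NS) (V : IT) (u : NS) (τ : IT) : Prop where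
  hv : NF X v V
  lV : ¬ isL V
  lvV : LvF X v V
  hu : NF X u τ
  nu : notUp τ
  lvu : LvF X u τ
  sub : τ.items ⊆ V.items
  B : u.B = v.B ∨ u.B = v.B * tp V
  n : u.n ≤ tp V + 1
  lf : ∀ S, τ = .leaf S → LeafF X.par (w X.ψ) X.c.t (top X.S) u S 1
  ms : u.c * Ws (w X.ψ) τ.items ≤ 4 * Real.log u.n ^ (N.B + N.c2)

/-- facts of all the nodes -/
structure KB (X : Ctx N γ p0 P₀) (u : NS) (τ : IT) : Prop where
  nf : NF X u τ
  lv : LvF X u τ
  lf : ∀ S, τ = .leaf S → LeafF X.par (w X.ψ) X.c.t (top X.S) u S 1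
  ms : u.c * Ws (w X.ψ) τ.items ≤ 4 * Real.log u.n ^ (N.B + N.c2)

/-- **facts of all the nodes of a context** -/
theorem ctx_KB (N : Skel189.Num) : ∃ p₁ : ℕ, ∀ p0 ≥ p₁, ∀ (γ : ℝ) (P₀ : ℕ), 2 ≤ P₀ →
    ∀ X : Ctx N γ p0 P₀, All (KB X) ⟨top X.S, 1, 1, 1⟩ X.c.t := by
  obtain ⟨p₁, h1⟩ := ctx_NF N
  refine ⟨p₁ + 2, fun p0 hp0 γ P₀ hP X => ?_⟩
  have hall := (((h1 p0 (by omega) γ P₀ hP X).and (ctx_LvF X)).and (LLCtx30.ctx_LeafF X)).and
    (Step588.ctx_mass X hP (by omega))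
  exact All.mono (fun u τ hh => ⟨hh.1.1.1, hh.1.1.2, hh.1.2, hh.2.2⟩) hall

lemma kid_of {X : Ctx N γ p0 P₀} {v : NS} {V : IT} (hv : KB X v V) (lV : ¬ isL V) {s : NS} {t : IT}
    (h : All (KB X) s t) (hsub : t.items ⊆ V.items) (hB : s.B = v.B ∨ s.B = v.B * tp V)
    (hn : s.n ≤ tp V + 1) : Kid X v V (hu s t) (hd t) := by
  have h1 := (All_hd t s h).self
  refine
    { hv := hv.nf
      lV := lV
      lvV := hv.lv
      hu := h1.nf
      nu := hd_notUp t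
      lvu := h1.lv
      sub := by rw [hd_items]; exact hsub
      B := by rw [hu_B]; exact hB
      n := (hu_n (Q := KB X) (P := X.par) (W := w X.ψ)
        (fun u t hq => hq.nf.nd.self.node) t s h).trans hn
      lf := h1.lf
      ms := h1.ms }

/-- **bounds at all the children give `KidsOk` at all the nodes** -/
theorem kids_all {X : Ctx N γ p0 P₀} {Y : Finset (ℕ × ℕ × Finset ℕ)} {A : Finset X.c.Lam}
    {W : X.c.Lam → ℝ} {ε : ℕ → NS → IT → X.c.Lam → ℝ} {ζ : ℕ → NS → IT → IT → X.c.Lam → ℝ}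
    (hch : ∀ v V u τ, Kid X v V u τ → ChOk X Y A W ε (tp V) u τ)
    (t : IT) : ∀ u : NS, All (KB X) u t →
      All (fun u τ => ∀ b t₁ t₀, τ = .add b t₁ t₀ ∨ τ = .far b t₁ t₀ →
        CrOk X Y A W ζ b u t₁ t₀) u t → All (KidsOk X Y A W ε ζ) u t := by
  induction t with
  | leaf S => intro u _ _; exact trivial
  | br p Sp t₁ t₀ ih₁ ih₀ =>
    intro u h hC
    refine ⟨⟨?_, ?_⟩, ih₁ _ h.2.1 hC.2.1, ih₀ _ h.2.2 hC.2.2⟩
    · exact hch u (.br p Sp t₁ t₀) _ _ (kid_of h.1 (fun hh => hh) h.2.1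
        (Finset.subset_union_left) (Or.inl rfl) (Nat.le_succ p))
    · exact hch u (.br p Sp t₁ t₀) _ _ (kid_of h.1 (fun hh => hh) h.2.2
        (Finset.subset_union_right) (Or.inr rfl) (Nat.le_succ p))
  | add b t₁ t₀ ih₁ ih₀ =>
    intro u h hC
    refine ⟨⟨?_, ?_, hC.1 b t₁ t₀ (Or.inl rfl)⟩, ih₁ _ h.2.1 hC.2.1, ih₀ _ h.2.2 hC.2.2⟩
    · exact hch u (.add b t₁ t₀) _ _ (kid_of h.1 (fun hh => hh) h.2.1
        (Finset.subset_union_left) (Or.inl rfl) le_rfl)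
    · exact hch u (.add b t₁ t₀) _ _ (kid_of h.1 (fun hh => hh) h.2.2
        (Finset.subset_union_right) (Or.inl rfl) le_rfl)
  | up b Sp t ih => intro u h hC; exact ⟨trivial, ih _ h.2 hC.2⟩
  | pl b t ih =>
    intro u h hC
    refine ⟨?_, ih _ h.2 hC.2⟩
    exact hch u (.pl b t) _ _ (kid_of h.1 (fun hh => hh) h.2 (Finset.Subset.refl _)
      (Or.inl rfl) le_rfl)
  | far b t₁ t₀ ih₁ ih₀ =>
    intro u h hC
    refine ⟨⟨?_, ?_, hC.1 b t₁ t₀ (Or.inr rfl)⟩, ih₁ _ h.2.1 hC.2.1, ih₀ _ h.2.2 hC.2.2⟩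
    · exact hch u (.far b t₁ t₀) _ _ (kid_of h.1 (fun hh => hh) h.2.1
        (Finset.subset_union_left) (Or.inl rfl) le_rfl)
    · exact hch u (.far b t₁ t₀) _ _ (kid_of h.1 (fun hh => hh) h.2.2
        (Finset.subset_union_right) (Or.inl rfl) le_rfl)

/-! ### the relation of a child -/

/-- the partition of a node which is not a leaf and not an `up` node -/
lemma part_node (X : Ctx N γ p0 P₀) (Y : Finset (ℕ × ℕ × Finset ℕ)) {τ : IT} (hl : ¬ isL τ)
    (hu : notUp τ) (b pr : ℕ) :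
    ((X.c.D.par Y).toG b pr τ).part = (X.c.D.par Y).rho (tp τ) := by
  cases τ with
  | leaf S => exact absurd trivial hl
  | br p Sp t₁ t₀ => rfl
  | add p t₁ t₀ => rfl
  | up p Sp t => exact absurd hu id
  | pl p t => rfl
  | far p t₁ t₀ => rfl

lemma part_leaf (X : Ctx N γ p0 P₀) (Y : Finset (ℕ × ℕ × Finset ℕ)) (S : Finset ℕ) (b pr : ℕ) :
    ((X.c.D.par Y).toG b pr (.leaf S)).part = (X.c.D.par Y).rhoL b pr S := rfl

/-- **the relation of a child which is not a leaf** -/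
lemma mem_RC_node {X : Ctx N γ p0 P₀} {Y : Finset (ℕ × ℕ × Finset ℕ)} {p : ℕ} {u : NS} {τ : IT}
    (hl : ¬ isL τ) (hu : notUp τ) {x : X.c.Lam × X.c.Lam} :
    x ∈ RC X Y p u τ ↔ X.c.world p x.1.1 = X.c.world p x.2.1 ∧
      X.c.world (tp τ) x.1.1 ≠ X.c.world (tp τ) x.2.1 := by
  unfold RC
  rw [part_node X Y hl hu, Finset.mem_sdiff]
  unfold Dr
  rw [Finset.mem_filter, Finset.mem_filter]
  have h1 : (X.c.D.par Y).rho p x.1 = (X.c.D.par Y).rho p x.2 ↔ _ :=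
    (X.c.D.rho_eq Y p x.1 x.2).trans (Cf.D_rho X.c p x.1 x.2)
  have h2 : (X.c.D.par Y).rho (tp τ) x.1 = (X.c.D.par Y).rho (tp τ) x.2 ↔ _ :=
    (X.c.D.rho_eq Y (tp τ) x.1 x.2).trans (Cf.D_rho X.c (tp τ) x.1 x.2)
  rw [h1, h2]
  simp only [Finset.mem_univ, true_and, ne_eq]

/-- **the relation of a leaf** -/
lemma mem_RC_leaf {X : Ctx N γ p0 P₀} {Y : Finset (ℕ × ℕ × Finset ℕ)} {p : ℕ} {u : NS}
    {S : Finset ℕ} {x : X.c.Lam × X.c.Lam} :
    x ∈ RC X Y p u (.leaf S) ↔ X.c.world p x.1.1 = X.c.world p x.2.1 ∧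
      X.c.D.rhoL x.1 ≠ X.c.D.rhoL x.2 := by
  unfold RC
  rw [part_leaf X Y S, Finset.mem_sdiff]
  unfold Dr
  rw [Finset.mem_filter, Finset.mem_filter]
  have h1 : (X.c.D.par Y).rho p x.1 = (X.c.D.par Y).rho p x.2 ↔ _ :=
    (X.c.D.rho_eq Y p x.1 x.2).trans (Cf.D_rho X.c p x.1 x.2)
  rw [h1, X.c.D.rhoL_eq Y u.B u.A S x.1 x.2]
  simp only [Finset.mem_univ, true_and, ne_eq]

/-- the column of the child is the column of the parent: nothing happens -/
lemma ChE_same {X : Ctx N γ p0 P₀} {Y : Finset (ℕ × ℕ × Finset ℕ)} {A : Finset X.c.Lam}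
    {u : NS} {τ : IT} (hl : ¬ isL τ) (hu : notUp τ) : ChE X Y A (tp τ) u τ = 0 := by
  have h : RC X Y (tp τ) u τ = ∅ := by
    rw [Finset.eq_empty_iff_forall_notMem]
    intro x hx
    rw [mem_RC_node hl hu] at hx
    exact hx.2 hx.1
  unfold ChE
  rw [h]
  unfold Q
  exact Finset.sum_empty

end ctx

end Crest.Agent.R4P.DseKid23
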