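import Crest.Agent.R4P.Mrg_35
import Crest.Agent.R4P.AsmX_26

/-!
R4 (S0004) with powers, helper35, group [X] / [W-eSHR]: **(DOM) in a context**.

* `dom_self` : at the self states there are no pending pairs:
  `WS (eSHR + eMX) (self) ≤ WS eNew (self)` for every decorated tree whose add nodes carry the worlds of
  their column (`AddN`; true for `Par.toDT`).
* `ctx_dom_self` : the same at all the nodes of a context.
* `part_SHR_X` : **`a₅` and the merged part of `a₆` from the births**: if `WS eNew (self) ≤ a (μ + μ μ)` at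
  the nodes then `PartWF (eSHR)` with `a`, and `PartWF (eX)` with `a + a'` if the crossing errors with the
  relation of the column (`eXR`) have `a'`.
-/

set_option autoImplicit false
set_option linter.unusedSectionVars false
set_option linter.unusedVariables false
open MeasureTheory Filter Set

namespace Crest.Agent.R4P.Mrg35

open Crest.Agent.R4.Tour104 Crest.Agent.R4.Tour758 Crest.Agent.R4.Avg758 Crest.Agent.R4.Clos758
open Crest.Agent.R4.ClosL758 Crest.Agent.R4.ClosG758 Crest.Agent.R4.ClosR758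
open Crest.Agent.R4P.ClosR442 Crest.Agent.R4P.Walk560
open Crest.Agent.R4P.VWalk36 (crs eX_eq)

section gen
variable {Λ κ : Type*} [Fintype Λ] [DecidableEq Λ] [DecidableEq κ] [WRel κ] [Fintype κ]
  {wr : ℕ → Λ → κ} {Ad : TrG Λ κ → Finset Λ → Prop}
  {μ : TrG Λ κ → Finset Λ → ℝ} {ν : TrG Λ κ → ℝ} {n : ℕ}

/-- the add nodes carry the worlds of their column -/
def AddN (wr : ℕ → Λ → κ) : DT Λ κ → Prop
  | .add b r _ _ => r = wr b
  | _ => True

lemma WS_trm {stp : Stp Λ κ} {s : St Λ κ} (h : (s.t.isLeaf ∨ s.t'.isLeaf) ∨ stp s)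
    (loc : St Λ κ → ℝ) : WS stp loc s = loc s := by
  have e1 : nxt0 stp s = [] := by
    rcases h with h | h
    · simp [nxt0, h]
    · by_cases h1 : s.t.isLeaf ∨ s.t'.isLeaf
      · simp [nxt0, h1]
      · simp [nxt0, h1, h]
  rw [WS_eq0, e1]
  simp

lemma eNew_trm {stp : Stp Λ κ} {s : St Λ κ} (h : (s.t.isLeaf ∨ s.t'.isLeaf) ∨ stp s) :
    eNew wr stp s = 0 := by
  have e1 : nxt0 stp s = [] := by
    rcases h with h | h
    · simp [nxt0, h]
    · by_cases h1 : s.t.isLeaf ∨ s.t'.isLeaf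
      · simp [nxt0, h1]
      · simp [nxt0, h1, h]
  unfold eNew
  rw [e1]
  simp

lemma loc_trm {stp : Stp Λ κ} {s : St Λ κ} (h : (s.t.isLeaf ∨ s.t'.isLeaf) ∨ stp s) :
    eSHR stp s + eMX wr stp s = 0 := by
  have e1 : crs stp s = [] := by
    rcases h with h | h
    · simp [crs, h]
    · by_cases h1 : s.t.isLeaf ∨ s.t'.isLeaf
      · simp [crs, h1]
      · simp [crs, h1, h]
  have e2 : eSHR stp s = 0 := by
    rcases h with h | h
    · simp [eSHR, h]
    · by_cases h1 : s.t.isLeaf ∨ s.t'.isLeaf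
      · simp [eSHR, h1]
      · simp [eSHR, h1, h]
  unfold eMX
  rw [e1, e2]
  simp

/-- **no pending pairs at the self states** -/
theorem dom_self {stp : Stp Λ κ} (d : DT Λ κ) : ∀ (n : ℕ) (A : Finset Λ), 0 < n →
    Side wr Ad μ ν n d A → d.All (AddN wr) →
    WS stp (fun s => eSHR stp s + eMX wr stp s) (selfSt d A) ≤ WS stp (eNew wr stp) (selfSt d A) := by
  induction d with
  | leaf r f =>
    intro n A hn h _
    have ht : ((selfSt (.leaf r f) A).t.isLeaf ∨ (selfSt (.leaf r f) A).t'.isLeaf) ∨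
        stp (selfSt (.leaf r f) A) := Or.inl (Or.inl trivial)
    rw [WS_trm ht, WS_trm ht, loc_trm ht, eNew_trm ht]
  | br p w r t₁ t₀ v B G ih₁ ih₀ =>
    intro n A hn h _
    have hr : r = wr p := h.br.2.2.2.1
    have h0 : pend wr stp (selfSt (.br p w r t₁ t₀ v B G) A) = 0 := by
      refine pend_sub ?_
      have e : (selfSt (.br p w r t₁ t₀ v B G) A).p = p := max_self p
      rw [e]
      show Ro r ⊆ Ro (wr p)
      rw [hr]
    have := dom (stp := stp) (s := selfSt (.br p w r t₁ t₀ v B G) A) ⟨n, Inv_self h⟩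
    rw [h0, zero_add] at this
    exact this
  | add b r t₁ t₀ ih₁ ih₀ =>
    intro n A hn h ha
    have hr : r = wr b := ha.1
    have h0 : pend wr stp (selfSt (.add b r t₁ t₀) A) = 0 := by
      refine pend_sub ?_
      have e : (selfSt (.add b r t₁ t₀) A).p = b := max_self b
      rw [e]
      show Ro r ⊆ Ro (wr b)
      rw [hr]
    have := dom (stp := stp) (s := selfSt (.add b r t₁ t₀) A) ⟨n, Inv_self h⟩
    rw [h0, zero_add] at this
    exact this
  | up b Sp t ih =>
    intro n A hn h ha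
    set s : St Λ κ := selfSt (.up b Sp t) A with hs
    by_cases ht : (s.t.isLeaf ∨ s.t'.isLeaf) ∨ stp s
    · rw [WS_trm ht, WS_trm ht, loc_trm ht, eNew_trm ht]
    · rw [not_or] at ht
      obtain ⟨h1, h2⟩ := ht
      have hp : s.p = b := max_self b
      have hv : vw s.p s.t = .up Sp t := by
        rw [hp]
        show vw b (.up b Sp t) = _
        simp [vw]
      have hv' : vw s.p s.t' = .up Sp t := hv
      have hPL : ¬ s.isPL := by
        unfold St.isPL; rw [hv, hv']; exact id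
      have hPR : ¬ s.isPR := by
        unfold St.isPR; rw [hv, hv']; exact id
      have en : nxt0 stp s = [(1, selfSt t A)] := by
        simp only [nxt0, h1, h2, hPL, hPR, hv, hv', if_false]
        rfl
      have hI : Inv wr Ad μ ν n s := Inv_self h
      have hq := (hI.next0 (stp := stp) (1, selfSt t A) (by rw [en]; exact List.mem_cons_self)).1
      have hb : b.Prime := h.col.1
      have key := ih s.p A (by rw [hp]; exact hb.pos) hq.L ha.2
      have e1 : eSHR stp s + eMX wr stp s = 0 := by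
        have e1 : crs stp s = [] := by simp [crs, h1, h2, hPL, hPR, hv, hv']
        have e2 : eSHR stp s = 0 := by simp [eSHR, h1, h2, hPL, hPR, hv, hv']
        unfold eMX
        rw [e1, e2]
        simp
      have e2 := eNew_nn (stp := stp) hI
      rw [WS_eq0, WS_eq0, en, e1]
      simp only [List.map_cons, List.map_nil, List.sum_cons, List.sum_nil, one_mul, add_zero]
      linarith

end gen

section toDT
variable {Λ κ : Type*} [Fintype Λ] [DecidableEq Λ] [Fintype κ] [DecidableEq κ]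

open Crest.Agent.R4P.Item758 in
theorem addN_toDT (D : Par Λ κ) (sp : ℕ → Finset Λ) (t : Crest.Agent.R4P.Cnt588.IT) :
    ∀ b pr : ℕ, (D.toDT sp b pr t).All (AddN D.rho) := by
  induction t with
  | leaf S => intro b pr; exact trivial
  | br p Sp t₁ t₀ ih₁ ih₀ => intro b pr; exact ⟨trivial, ih₁ _ _, ih₀ _ _⟩
  | add p t₁ t₀ ih₁ ih₀ => intro b pr; exact ⟨rfl, ih₁ _ _, ih₀ _ _⟩
  | up b' Sp t ih => intro b pr; exact ⟨trivial, ih _ _⟩
  | pl p t ih => intro b pr; exact ⟨trivial, ih _ _, trivial⟩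
  | far p t₁ t₀ ih₁ ih₀ => intro b pr; exact ⟨rfl, ih₁ _ _, ih₀ _ _⟩

end toDT

section ctx

open Crest.Agent.R4.Fam464 Crest.Agent.R4P.Cnt588 Crest.Agent.R4.Piece464
open Crest.Agent.R4P.Item758
open Crest.Agent.R4P.Data758
open Crest.Agent.R4P.Bld532 (NS All)
open Crest.Agent.R4P.Skel189 (Ctx top Part PartW)
open Crest.Agent.R4P.Frame758 (tM tN tG tD wt)
open Crest.Agent.R4P.ClosP542 (PulG)
open Crest.Agent.R4.Soft104
open Crest.Agent.R4P.SkelF29 Crest.Agent.R4P.AsmX26 Crest.Agent.R4P.CtxX26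
open Crest.Agent.R4P.GSt927 Crest.Agent.R4P.OSWS245

variable {N : Skel189.Num} {γ : ℝ} {p0 P₀ : ℕ}

/-- the invariant of the self states of a context -/
theorem ctx_side (X : Ctx N γ p0 P₀) (j₀ : X.c.Lam) :
    All (fun u τ => 0 < u.n ∧ Side (X.c.D.par X.Y).rho (Item758.AdI (X.c.D.par X.Y).it) (X.tm j₀)
      (X.tn j₀) u.n (X.self u τ Finset.univ).t Finset.univ) ⟨top X.S, 1, 1, 1⟩ X.c.t := by
  have h0 := ctx_QE X j₀ (Q' := fun _ _ => True) (All.mono (fun _ _ _ => trivial) (ctx_nu X j₀))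
  refine All.mono (fun u τ hq => ?_) (Step588.All_All _ _ h0)
  have hI := wix_inv (wix_start (J := fun _ _ _ _ _ => True) hq trivial)
  refine ⟨hq.self.n0, ?_⟩
  have hok : ((X.self u τ Finset.univ).t).Col u.n :=
    (X.c.D.par X.Y).toDT_Col X.c.sp τ u.n u.B u.A hq.self.ok
  have h1 : (X.self u τ Finset.univ).t.top < u.n := hok.top_lt hq.self.n0
  exact hI.L.down h1.le

/-- **(DOM) at the self states of a context** -/
theorem ctx_dom_self (X : Ctx N γ p0 P₀) (j₀ : X.c.Lam) (stp : X.STP) :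
    All (fun u τ =>
      WS stp (fun s => eSHR stp s + eMX (X.c.D.par X.Y).rho stp s) (X.self u τ Finset.univ) ≤
        WS stp (eNew (X.c.D.par X.Y).rho stp) (X.self u τ Finset.univ)) ⟨top X.S, 1, 1, 1⟩ X.c.t :=
  All.mono (fun u τ h => dom_self _ u.n _ h.1 h.2 (addN_toDT _ _ _ _ _)) (ctx_side X j₀)

/-- **`a₅` from the births** (with the merged pairs of the crossing states) -/
theorem part_SHR_MX {X : Ctx N γ p0 P₀} {j₀ : X.c.Lam} {Hb : NS → IT → Prop} {stp : X.STP} {a : ℝ}
    (h : PartWF X j₀ Hb stp (eNew (X.c.D.par X.Y).rho stp) a) :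
    PartWF X j₀ Hb stp (fun s => eSHR stp s + eMX (X.c.D.par X.Y).rho stp s) a :=
  All.mono (fun u τ hh hp hb => (hh.2.trans (hh.1 hp hb))) (All.and h (ctx_dom_self X j₀ stp))

/-- **`a₅`** -/
theorem part_SHR {X : Ctx N γ p0 P₀} {j₀ : X.c.Lam} {Hb : NS → IT → Prop} {stp : X.STP} {a : ℝ}
    (h : PartWF X j₀ Hb stp (eNew (X.c.D.par X.Y).rho stp) a) :
    PartWF X j₀ Hb stp (eSHR stp) a :=
  All.mono (fun u τ hh hp hb => by
    refine le_trans ?_ (hh.1 hp hb)
    exact WS_mono (Ad := Item758.AdI (X.c.D.par X.Y).it) (μ := X.tm j₀) (ν := X.tn j₀)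
      (wr := (X.c.D.par X.Y).rho) (fun s hs => by
        obtain ⟨n, hs⟩ := hs
        have := eMX_nn (stp := stp) hs
        linarith) ⟨u.n, Inv_self hh.2.2⟩) (All.and (part_SHR_MX h) (ctx_side X j₀))

/-- **the merged part of `a₆`** -/
theorem part_MX {X : Ctx N γ p0 P₀} {j₀ : X.c.Lam} {Hb : NS → IT → Prop} {stp : X.STP} {a : ℝ}
    (h : PartWF X j₀ Hb stp (eNew (X.c.D.par X.Y).rho stp) a) :
    PartWF X j₀ Hb stp (eMX (X.c.D.par X.Y).rho stp) a :=
  All.mono (fun u τ hh hp hb => by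
    refine le_trans ?_ (hh.1 hp hb)
    exact WS_mono (Ad := Item758.AdI (X.c.D.par X.Y).it) (μ := X.tm j₀) (ν := X.tn j₀)
      (wr := (X.c.D.par X.Y).rho) (fun s hs => by
        obtain ⟨n, hs⟩ := hs
        have : 0 ≤ eSHR stp s := by
          rcases step3 (stp := stp) hs with ⟨hl, en, ec, es⟩ | ⟨hl, hs', ec, es, hR⟩ |
            ⟨hl, hs', es, hR, hR', hA⟩
          · rw [es]
          · rw [es]; exact Qs_nn hs _
          · rw [es]
        linarith) ⟨u.n, Inv_self hh.2.2⟩) (All.and (part_SHR_MX h) (ctx_side X j₀))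

/-- **`a₆` from the births and the crossing errors with the relation of the column** -/
theorem part_X {X : Ctx N γ p0 P₀} {j₀ : X.c.Lam} {Hb : NS → IT → Prop} {stp : X.STP} {a a' B : ℝ}
    (h : PartWF X j₀ Hb stp (eNew (X.c.D.par X.Y).rho stp) a)
    (h' : PartWF X j₀ Hb stp (eXR (X.c.D.par X.Y).rho stp (X.tm j₀) B) a') :
    PartWF X j₀ Hb stp (eX stp (X.tm j₀) B) (a' + a) :=
  All.mono (fun u τ hh hp hb => by
    refine le_trans ?_ (hh.1 hp hb)
    exact WS_mono (Ad := Item758.AdI (X.c.D.par X.Y).it) (μ := X.tm j₀) (ν := X.tn j₀)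
      (wr := (X.c.D.par X.Y).rho) (fun s hs => by
        obtain ⟨n, hs⟩ := hs
        exact eX_cut hs) ⟨u.n, Inv_self hh.2.2⟩) (All.and (h'.add (part_MX h)) (ctx_side X j₀))

/-- **`a₅` and `a₆` together: the births are paid once** -/
theorem part_SHR_X {X : Ctx N γ p0 P₀} {j₀ : X.c.Lam} {Hb : NS → IT → Prop} {stp : X.STP}
    {a a' B : ℝ} (h : PartWF X j₀ Hb stp (eNew (X.c.D.par X.Y).rho stp) a)
    (h' : PartWF X j₀ Hb stp (eXR (X.c.D.par X.Y).rho stp (X.tm j₀) B) a') :
    PartWF X j₀ Hb stp (fun s => eSHR stp s + eX stp (X.tm j₀) B s) (a + a') :=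
  All.mono (fun u τ hh hp hb => by
    refine le_trans ?_ (hh.1 hp hb)
    refine WS_mono (Ad := Item758.AdI (X.c.D.par X.Y).it) (μ := X.tm j₀) (ν := X.tn j₀)
      (wr := (X.c.D.par X.Y).rho) (fun s hs => ?_) ⟨u.n, Inv_self hh.2.2⟩
    obtain ⟨n, hs⟩ := hs
    have := eX_cut (stp := stp) (B := B) hs
    linarith) (All.and ((part_SHR_MX h).add h') (ctx_side X j₀))

end ctx

end Crest.Agent.R4P.Mrg35
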