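import Crest.Agent.R4P.SkelNodeA_2

/-!
R4 (S0004), powers pass, [W-dseR] (N6), helper30: **sums along the path of an alive item**.

* `tailK` : a set with at most `(log P)^D` members up to `P`: `∑_{b > P} (log b)^(-K) ≤ ε (log P)^(-A)`
  for `A + D + 1 ≤ K`;
* `prmK`  : primes: `∑_{b > P} (log b)^(-K) / b ≤ ε (log P)^(-A)` for `A + 1 ≤ K`;
* `sqI`   : `∑_{b > P} 1 / b^2 ≤ 1 / P`;
* `rngK`, `rngPk` : dyadic / squaring ranges;
* `mtK`, `uqK`, `ctx_mtK`, `ctx_uqK` : the missing ties and the up columns of a pruned item;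
* `ctx_path` : the four sums of a context, at most `ε`.
-/

set_option autoImplicit false
open Finset

namespace Crest.Agent.R4P.RseN630

open Crest.Agent.R4P.Cnt588 Crest.Agent.R4P.PrunePar33 Crest.Agent.R4P.Skel189
open Crest.Agent.R4.Soft104 (w)

/-- sum over squaring blocks, inside a finset all of whose members are large -/
theorem sum_blk_le' {P : ℕ} (h2 : 2 ≤ P) (M : Finset ℕ) (hM : ∀ b ∈ M, P < b) (f : ℕ → ℝ)
    (hf : ∀ b ∈ M, 0 ≤ f b) {T : ℝ} (hT : 0 ≤ T)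
    (h : ∀ k, ∑ b ∈ M.filter (fun b => Pk P k < b ∧ b ≤ Pk P (k + 1)), f b ≤
      T * (1 / 2) ^ (k + 1)) :
    ∑ b ∈ M, f b ≤ T := by
  have h1 := sum_blk_le h2 M f hf hT h
  rwa [Finset.filter_true_of_mem hM] at h1

/-- `x^(-K)` at `x = 2^k L` -/
lemma pow_blk {A K x L : ℝ} (hA : 0 ≤ A) (hK : A + 1 ≤ K) (hL : 0 < L) (hL1 : 1 ≤ L) {k : ℕ}
    (hx : x = 2 ^ k * L) : x ^ (-K) ≤ L ^ (-A) * (2 * (1 / 2) ^ (k + 1) / L) := by
  have h2k : (1 : ℝ) ≤ 2 ^ k := one_le_pow₀ (by norm_num)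
  have hxL : L ≤ x := by rw [hx]; nlinarith
  have hx0 : 0 < x := by linarith
  have h7 : x ^ (-K) ≤ x ^ (-A - 1) :=
    Real.rpow_le_rpow_of_exponent_le (by linarith) (by linarith)
  have h8 : x ^ (-A - 1) ≤ L ^ (-A) * x⁻¹ := by
    have : x ^ (-A - 1) = x ^ (-A) * x⁻¹ := by
      rw [sub_eq_add_neg, Real.rpow_add hx0, Real.rpow_neg_one]
    rw [this]
    exact mul_le_mul_of_nonneg_right
      (Real.rpow_le_rpow_of_nonpos hL hxL (by linarith)) (by positivity)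
  have h9 : x⁻¹ = 2 * (1 / 2) ^ (k + 1) / L := by
    rw [hx, one_div, inv_pow, pow_succ]
    field_simp
  rw [← h9]
  exact h7.trans h8

/-- **tail of a sparse set**, logarithmic gain -/
theorem tailK (D K A : ℝ) {ε : ℝ} (hD : 0 ≤ D) (hA : 0 ≤ A) (hK : A + D + 1 ≤ K) (hε : 0 < ε) :
    ∃ p₁ : ℕ, ∀ p0 ≥ p₁, ∀ M : Finset ℕ,
    (∀ P : ℕ, p0 ≤ P → ((M.filter (· ≤ P)).card : ℝ) ≤ Real.log P ^ D) →
    ∀ P : ℕ, p0 ≤ P → ∑ b ∈ M.filter (fun b => P < b), Real.log b ^ (-K) ≤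
      ε * Real.log P ^ (-A) := by
  set T := 1 + 2 * 2 ^ D / ε with hT
  have hT1 : 1 ≤ T := by
    have : 0 ≤ 2 * (2:ℝ) ^ D / ε := by positivity
    linarith
  refine ⟨⌈Real.exp T⌉₊ + 3, fun p0 hp0 M hM P hP => ?_⟩
  have hPT : Real.exp T ≤ P := by
    have h1 : Real.exp T ≤ ⌈Real.exp T⌉₊ := Nat.le_ceil _
    have h2 : ((⌈Real.exp T⌉₊ : ℕ) : ℝ) ≤ P := by
      have : ⌈Real.exp T⌉₊ ≤ P := by omega
      exact_mod_cast this
    linarith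
  have hP0 : (0 : ℝ) < P := lt_of_lt_of_le (Real.exp_pos _) hPT
  have hL : T ≤ Real.log P := (Real.le_log_iff_exp_le hP0).2 hPT
  have hL1 : 1 ≤ Real.log P := hT1.trans hL
  have hL0 : 0 < Real.log P := by linarith
  have h2P : 2 ≤ P := by omega
  apply sum_blk_le h2P M _ (fun b _ => Real.rpow_nonneg (Real.log_natCast_nonneg b) _)
    (by positivity)
  intro k
  set x := 2 ^ k * Real.log P with hx
  have h2k : (1 : ℝ) ≤ 2 ^ k := one_le_pow₀ (by norm_num)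
  have hxL : Real.log P ≤ x := by rw [hx]; nlinarith
  have hx0 : 0 < x := by linarith
  have hK0 : 0 ≤ K := by linarith
  have hcard : ((M.filter (fun b => Pk P k < b ∧ b ≤ Pk P (k + 1))).card : ℝ) ≤ (2 * x) ^ D := by
    have h4 : ((M.filter (fun b => Pk P k < b ∧ b ≤ Pk P (k + 1))).card : ℝ) ≤
        ((M.filter (· ≤ Pk P (k + 1))).card : ℝ) := by
      have : (M.filter (fun b => Pk P k < b ∧ b ≤ Pk P (k + 1))) ⊆
          M.filter (· ≤ Pk P (k + 1)) := by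
        intro b hb
        obtain ⟨h5, _, h6⟩ := Finset.mem_filter.1 hb
        exact Finset.mem_filter.2 ⟨h5, h6⟩
      exact_mod_cast Finset.card_le_card this
    refine h4.trans ((hM _ (hP.trans (Pk_ge (p0 := P) (by omega) _))).trans (le_of_eq ?_))
    rw [log_Pk, hx, pow_succ]
    congr 1; ring
  have hterm : ∀ b ∈ M.filter (fun b => Pk P k < b ∧ b ≤ Pk P (k + 1)),
      Real.log b ^ (-K) ≤ x ^ (-K) := by
    intro b hb
    obtain ⟨_, hb1, hb2⟩ := Finset.mem_filter.1 hb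
    have hPk : 0 < Pk P k := lt_of_lt_of_le (by omega) (Pk_ge (p0 := P) (by omega) k)
    have h4 : x ≤ Real.log b := by
      rw [hx, ← log_Pk]
      exact Real.log_le_log (by exact_mod_cast hPk) (by exact_mod_cast hb1.le)
    exact Real.rpow_le_rpow_of_nonpos hx0 h4 (by linarith)
  refine (Finset.sum_le_card_nsmul _ _ _ hterm).trans ?_
  rw [nsmul_eq_mul]
  have hxK : 0 ≤ x ^ (-K) := Real.rpow_nonneg hx0.le _
  refine (mul_le_mul_of_nonneg_right hcard hxK).trans ?_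
  have h6 : (2 * x) ^ D * x ^ (-K) = 2 ^ D * x ^ (-(K - D)) := by
    rw [Real.mul_rpow (by norm_num) hx0.le, mul_assoc, ← Real.rpow_add hx0]; congr 2; ring
  rw [h6]
  have h7 := pow_blk (K := K - D) hA (by linarith) hL0 hL1 hx
  have hε1 : 2 * 2 ^ D / Real.log P ≤ ε := by
    rw [div_le_iff₀ hL0]
    have h10 : 2 * (2 : ℝ) ^ D / ε ≤ Real.log P := by linarith
    rw [div_le_iff₀ hε] at h10
    linarith
  have h11 : 0 ≤ Real.log P ^ (-A) * (1 / 2) ^ (k + 1) := by positivity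
  calc (2 : ℝ) ^ D * x ^ (-(K - D))
      ≤ 2 ^ D * (Real.log P ^ (-A) * (2 * (1 / 2) ^ (k + 1) / Real.log P)) :=
        mul_le_mul_of_nonneg_left h7 (by positivity)
    _ = (2 * 2 ^ D / Real.log P) * (Real.log P ^ (-A) * (1 / 2) ^ (k + 1)) := by ring
    _ ≤ ε * (Real.log P ^ (-A) * (1 / 2) ^ (k + 1)) := mul_le_mul_of_nonneg_right hε1 h11
    _ = ε * Real.log P ^ (-A) * (1 / 2) ^ (k + 1) := by ring

/-- **primes**: `∑ (log b)^(-K) / b` is small -/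
theorem prmK (K A : ℝ) {ε : ℝ} (hA : 0 ≤ A) (hK : A + 1 ≤ K) (hε : 0 < ε) :
    ∃ p₁ : ℕ, ∀ P ≥ p₁, ∀ M : Finset ℕ, (∀ b ∈ M, b.Prime ∧ P < b) →
      ∑ b ∈ M, Real.log b ^ (-K) / b ≤ ε * Real.log P ^ (-A) := by
  set T := 24 + 2 / ε with hT
  have hT1 : 24 ≤ T := by
    have : 0 ≤ 2 / ε := by positivity
    linarith
  refine ⟨⌈Real.exp T⌉₊ + 3, fun P hP M hM => ?_⟩
  have hPT : Real.exp T ≤ P := by
    have h1 : Real.exp T ≤ ⌈Real.exp T⌉₊ := Nat.le_ceil _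
    have h2 : ((⌈Real.exp T⌉₊ : ℕ) : ℝ) ≤ P := by
      have : ⌈Real.exp T⌉₊ ≤ P := by omega
      exact_mod_cast this
    linarith
  have hP0 : (0 : ℝ) < P := lt_of_lt_of_le (Real.exp_pos _) hPT
  have hL : T ≤ Real.log P := (Real.le_log_iff_exp_le hP0).2 hPT
  have hL24 : 24 ≤ Real.log P := hT1.trans hL
  have hL0 : 0 < Real.log P := by linarith
  have h2P : 2 ≤ P := by omega
  apply sum_blk_le' h2P M (fun b hb => (hM b hb).2) _
    (fun b _ => div_nonneg (Real.rpow_nonneg (Real.log_natCast_nonneg b) _) (Nat.cast_nonneg b))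
    (by positivity)
  intro k
  set x := 2 ^ k * Real.log P with hx
  have h2k : (1 : ℝ) ≤ 2 ^ k := one_le_pow₀ (by norm_num)
  have hxL : Real.log P ≤ x := by rw [hx]; nlinarith
  have hx0 : 0 < x := by linarith
  have hxK : 0 ≤ x ^ (-K) := Real.rpow_nonneg hx0.le _
  have hterm : ∀ b ∈ M.filter (fun b => Pk P k < b ∧ b ≤ Pk P (k + 1)),
      Real.log b ^ (-K) / b ≤ x ^ (-K) * (1 / (b : ℝ)) := by
    intro b hb
    obtain ⟨_, hb1, hb2⟩ := Finset.mem_filter.1 hb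
    have hPk : 0 < Pk P k := lt_of_lt_of_le (by omega) (Pk_ge (p0 := P) (by omega) k)
    have h4 : x ≤ Real.log b := by
      rw [hx, ← log_Pk]
      exact Real.log_le_log (by exact_mod_cast hPk) (by exact_mod_cast hb1.le)
    rw [div_eq_mul_one_div]
    exact mul_le_mul_of_nonneg_right
      (Real.rpow_le_rpow_of_nonpos hx0 h4 (by linarith)) (by positivity)
  have hsub : M.filter (fun b => Pk P k < b ∧ b ≤ Pk P (k + 1)) ⊆
      blk (Pk P k) (Pk P (k + 1)) := by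
    intro b hb
    obtain ⟨hbM, hb1, hb2⟩ := Finset.mem_filter.1 hb
    exact Finset.mem_filter.2 ⟨Finset.mem_Ioc.2 ⟨hb1, hb2⟩, (hM b hbM).1⟩
  have hsum : ∑ b ∈ M.filter (fun b => Pk P k < b ∧ b ≤ Pk P (k + 1)), (1 / (b : ℝ)) ≤ 1 :=
    (Finset.sum_le_sum_of_subset_of_nonneg hsub fun b _ _ => by positivity).trans
      (blk_sum_le hL24 h2P k)
  have h7 := pow_blk (K := K) hA hK hL0 (by linarith) hx
  have hε1 : 2 / Real.log P ≤ ε := by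
    rw [div_le_iff₀ hL0]
    have h10 : 2 / ε ≤ Real.log P := by linarith
    rw [div_le_iff₀ hε] at h10
    linarith
  have h11 : 0 ≤ Real.log P ^ (-A) * (1 / 2) ^ (k + 1) := by positivity
  calc ∑ b ∈ M.filter (fun b => Pk P k < b ∧ b ≤ Pk P (k + 1)), Real.log b ^ (-K) / b
      ≤ ∑ b ∈ M.filter (fun b => Pk P k < b ∧ b ≤ Pk P (k + 1)), x ^ (-K) * (1 / (b : ℝ)) :=
        Finset.sum_le_sum hterm
    _ = x ^ (-K) * ∑ b ∈ M.filter (fun b => Pk P k < b ∧ b ≤ Pk P (k + 1)), (1 / (b : ℝ)) := by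
        rw [Finset.mul_sum]
    _ ≤ x ^ (-K) * 1 := mul_le_mul_of_nonneg_left hsum hxK
    _ = x ^ (-K) := mul_one _
    _ ≤ Real.log P ^ (-A) * (2 * (1 / 2) ^ (k + 1) / Real.log P) := h7
    _ = (2 / Real.log P) * (Real.log P ^ (-A) * (1 / 2) ^ (k + 1)) := by ring
    _ ≤ ε * (Real.log P ^ (-A) * (1 / 2) ^ (k + 1)) := mul_le_mul_of_nonneg_right hε1 h11
    _ = ε * Real.log P ^ (-A) * (1 / 2) ^ (k + 1) := by ring

/-- **squares**: `∑_{b > P} 1 / b^2 ≤ 1 / P` -/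
theorem sqI {P : ℕ} (hP : 0 < P) (M : Finset ℕ) (hM : ∀ b ∈ M, P < b) :
    ∑ b ∈ M, 1 / (b : ℝ) ^ 2 ≤ 1 / (P : ℝ) := by
  have hsub : M ⊆ Finset.Ioc P (max P (M.sup id)) := fun b hb =>
    Finset.mem_Ioc.2 ⟨hM b hb, (Finset.le_sup (f := id) hb).trans (le_max_right _ _)⟩
  have h1 := sum_Ioc_inv_sq_le_sub (α := ℝ) (k := P) (n := max P (M.sup id)) hP.ne'
    (le_max_left _ _)
  have h2 : (0 : ℝ) ≤ ((max P (M.sup id) : ℕ) : ℝ)⁻¹ := by positivity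
  calc ∑ b ∈ M, 1 / (b : ℝ) ^ 2 = ∑ b ∈ M, ((b : ℝ) ^ 2)⁻¹ :=
        Finset.sum_congr rfl fun b _ => one_div _
    _ ≤ ∑ b ∈ Finset.Ioc P (max P (M.sup id)), ((b : ℝ) ^ 2)⁻¹ :=
        Finset.sum_le_sum_of_subset_of_nonneg hsub fun b _ _ => by positivity
    _ ≤ (P : ℝ)⁻¹ := by linarith
    _ = 1 / P := (one_div _).symm

/-- squares, `rpow` form -/
theorem sqI' {P : ℕ} (hP : 0 < P) (M : Finset ℕ) (hM : ∀ b ∈ M, P < b) :
    ∑ b ∈ M, (b : ℝ) ^ (-(2:ℝ)) ≤ 1 / (P : ℝ) := by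
  refine (le_of_eq ?_).trans (sqI hP M hM)
  refine Finset.sum_congr rfl fun b _ => ?_
  rw [Real.rpow_neg (Nat.cast_nonneg b), one_div]
  congr 1
  exact_mod_cast Real.rpow_natCast (b : ℝ) 2

/-- geometric sums over a finset of exponents -/
lemma geo_fin (k₀ : ℕ) (J : Finset ℕ) (hJ : ∀ k ∈ J, k₀ ≤ k) :
    ∑ k ∈ J, (1 / 2 : ℝ) ^ k ≤ 2 * (1 / 2) ^ k₀ := by
  have h1 : ∑ k ∈ J, (1 / 2 : ℝ) ^ k ≤ ∑ k ∈ Finset.Ico k₀ (k₀ + (J.sup id + 1)),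
      (1 / 2 : ℝ) ^ k := by
    refine Finset.sum_le_sum_of_subset_of_nonneg (fun k hk => ?_) fun k _ _ => by positivity
    have := Finset.le_sup (f := id) hk
    simp only [id] at this
    exact Finset.mem_Ico.2 ⟨hJ k hk, by omega⟩
  have h2 : ∀ m : ℕ, ∑ k ∈ Finset.Ico k₀ (k₀ + m), (1 / 2 : ℝ) ^ k =
      2 * (1 / 2) ^ k₀ - 2 * (1 / 2) ^ (k₀ + m) := by
    intro m
    induction m with
    | zero => simp
    | succ m ih =>
      rw [← Nat.add_assoc, Finset.sum_Ico_succ_top (by omega), ih, pow_succ]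
      ring
  rw [h2] at h1
  have h3 : (0 : ℝ) ≤ 2 * (1 / 2) ^ (k₀ + (J.sup id + 1)) := by positivity
  linarith

/-- **dyadic ranges**: `∑ (2^k)^(-K)` over ranges above `log P` -/
theorem rngK (K A : ℝ) {ε : ℝ} (hA : 0 ≤ A) (hK : A + 1 ≤ K) (hε : 0 < ε) :
    ∃ p₁ : ℕ, ∀ P ≥ p₁, ∀ J : Finset ℕ, (∀ k ∈ J, Real.log P ≤ 2 ^ (k + 1)) →
      ∑ k ∈ J, ((2:ℝ) ^ k) ^ (-K) ≤ ε * Real.log P ^ (-A) := by
  set T := 2 + 4 * 2 ^ A / ε with hT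
  have hT1 : 2 ≤ T := by
    have : 0 ≤ 4 * (2:ℝ) ^ A / ε := by positivity
    linarith
  refine ⟨⌈Real.exp T⌉₊ + 3, fun P hP J hJ => ?_⟩
  have hPT : Real.exp T ≤ P := by
    have h1 : Real.exp T ≤ ⌈Real.exp T⌉₊ := Nat.le_ceil _
    have h2 : ((⌈Real.exp T⌉₊ : ℕ) : ℝ) ≤ P := by
      have : ⌈Real.exp T⌉₊ ≤ P := by omega
      exact_mod_cast this
    linarith
  have hP0 : (0 : ℝ) < P := lt_of_lt_of_le (Real.exp_pos _) hPT
  have hL : T ≤ Real.log P := (Real.le_log_iff_exp_le hP0).2 hPT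
  have hL0 : 0 < Real.log P := by linarith
  have hterm : ∀ k ∈ J, ((2:ℝ) ^ k) ^ (-K) ≤ (Real.log P / 2) ^ (-A) * (1 / 2) ^ k := by
    intro k hk
    have h3 : Real.log P / 2 ≤ 2 ^ k := by
      have := hJ k hk
      rw [pow_succ] at this
      linarith
    have h1k : (1:ℝ) ≤ 2 ^ k := one_le_pow₀ (by norm_num)
    calc ((2:ℝ) ^ k) ^ (-K) ≤ ((2:ℝ) ^ k) ^ (-A + -1) :=
          Real.rpow_le_rpow_of_exponent_le h1k (by linarith)
      _ = ((2:ℝ) ^ k) ^ (-A) * (1 / 2) ^ k := by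
          rw [Real.rpow_add (by positivity), Real.rpow_neg_one, one_div, inv_pow]
      _ ≤ _ := mul_le_mul_of_nonneg_right
          (Real.rpow_le_rpow_of_nonpos (by linarith) h3 (by linarith)) (by positivity)
  have hgeo : ∑ k ∈ J, (1 / 2 : ℝ) ^ k ≤ 4 / Real.log P := by
    rcases J.eq_empty_or_nonempty with h0 | h0
    · rw [h0, Finset.sum_empty]; positivity
    · set k₀ := J.min' h0 with hk₀
      have h3 := geo_fin k₀ J fun k hk => Finset.min'_le J k hk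
      have h4 : Real.log P ≤ 2 ^ (k₀ + 1) := hJ k₀ (Finset.min'_mem J h0)
      refine h3.trans ?_
      rw [one_div, inv_pow, le_div_iff₀ hL0]
      have h5 : (0:ℝ) < 2 ^ k₀ := by positivity
      rw [pow_succ] at h4
      calc 2 * ((2:ℝ) ^ k₀)⁻¹ * Real.log P ≤ 2 * ((2:ℝ) ^ k₀)⁻¹ * (2 ^ k₀ * 2) :=
            mul_le_mul_of_nonneg_left h4 (by positivity)
        _ = 4 := by field_simp; norm_num
  have h0 : 0 ≤ (Real.log P / 2) ^ (-A) := Real.rpow_nonneg (by linarith) _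
  have h6 : (Real.log P / 2) ^ (-A) = 2 ^ A * Real.log P ^ (-A) := by
    rw [Real.div_rpow hL0.le (by norm_num), Real.rpow_neg (by norm_num : (0:ℝ) ≤ 2) A,
      div_inv_eq_mul, mul_comm]
  have hε1 : 4 * 2 ^ A / Real.log P ≤ ε := by
    rw [div_le_iff₀ hL0]
    have h10 : 4 * (2 : ℝ) ^ A / ε ≤ Real.log P := by linarith
    rw [div_le_iff₀ hε] at h10
    linarith
  calc ∑ k ∈ J, ((2:ℝ) ^ k) ^ (-K) ≤ ∑ k ∈ J, (Real.log P / 2) ^ (-A) * (1 / 2) ^ k :=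
        Finset.sum_le_sum hterm
    _ = (Real.log P / 2) ^ (-A) * ∑ k ∈ J, (1 / 2 : ℝ) ^ k := by rw [Finset.mul_sum]
    _ ≤ (Real.log P / 2) ^ (-A) * (4 / Real.log P) := mul_le_mul_of_nonneg_left hgeo h0
    _ = (4 * 2 ^ A / Real.log P) * Real.log P ^ (-A) := by rw [h6]; ring
    _ ≤ ε * Real.log P ^ (-A) := mul_le_mul_of_nonneg_right hε1 (by positivity)

/-- **squaring ranges**: `∑ (log (Pk P k))^(-K)` -/
theorem rngPk (K A : ℝ) {ε : ℝ} (hA : 0 ≤ A) (hK : A + 1 ≤ K) (hε : 0 < ε) :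
    ∃ p₁ : ℕ, ∀ P ≥ p₁, ∀ J : Finset ℕ,
      ∑ k ∈ J, Real.log (Pk P k) ^ (-K) ≤ ε * Real.log P ^ (-A) := by
  set T := 1 + 2 / ε with hT
  have hT1 : 1 ≤ T := by
    have : 0 ≤ 2 / ε := by positivity
    linarith
  refine ⟨⌈Real.exp T⌉₊ + 3, fun P hP J => ?_⟩
  have hPT : Real.exp T ≤ P := by
    have h1 : Real.exp T ≤ ⌈Real.exp T⌉₊ := Nat.le_ceil _
    have h2 : ((⌈Real.exp T⌉₊ : ℕ) : ℝ) ≤ P := by
      have : ⌈Real.exp T⌉₊ ≤ P := by omega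
      exact_mod_cast this
    linarith
  have hP0 : (0 : ℝ) < P := lt_of_lt_of_le (Real.exp_pos _) hPT
  have hL : T ≤ Real.log P := (Real.le_log_iff_exp_le hP0).2 hPT
  have hL0 : 0 < Real.log P := by linarith
  have hε1 : 2 / Real.log P ≤ ε := by
    rw [div_le_iff₀ hL0]
    have h10 : 2 / ε ≤ Real.log P := by linarith
    rw [div_le_iff₀ hε] at h10
    linarith
  have hterm : ∀ k ∈ J, Real.log (Pk P k) ^ (-K) ≤
      (Real.log P ^ (-A) / Real.log P) * (1 / 2) ^ k := by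
    intro k _
    rw [log_Pk]
    refine (pow_blk hA hK hL0 (by linarith) rfl).trans (le_of_eq ?_)
    rw [pow_succ]; ring
  calc ∑ k ∈ J, Real.log (Pk P k) ^ (-K) ≤ ∑ k ∈ J, (Real.log P ^ (-A) / Real.log P) *
        (1 / 2) ^ k := Finset.sum_le_sum hterm
    _ = (Real.log P ^ (-A) / Real.log P) * ∑ k ∈ J, (1 / 2 : ℝ) ^ k := by rw [Finset.mul_sum]
    _ ≤ (Real.log P ^ (-A) / Real.log P) * (2 * (1 / 2) ^ 0) :=
        mul_le_mul_of_nonneg_left (geo_fin 0 J fun _ _ => Nat.zero_le _) (by positivity)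
    _ = (2 / Real.log P) * Real.log P ^ (-A) := by ring
    _ ≤ ε * Real.log P ^ (-A) := mul_le_mul_of_nonneg_right hε1 (by positivity)

/-! ### pruned items -/

/-- missing ties of a pruned item -/
theorem mtK (C B K A : ℝ) {ε : ℝ} (hC : 0 ≤ C) (hA : 0 ≤ A) (hK : A + C + 2 ≤ K) (hε : 0 < ε) :
    ∃ p₁ : ℕ, ∀ p0 ≥ p₁, ∀ (t : IT) (q : ℕ), Pr t p0 C B q → ∀ P : ℕ, p0 ≤ P →
      ∑ p ∈ (t.mt q).filter (fun p => P < p), Real.log p ^ (-K) ≤ ε * Real.log P ^ (-A) := by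
  obtain ⟨p₁, h⟩ := tailK (C + 1) K A (by linarith) hA (by linarith) hε
  exact ⟨p₁, fun p0 hp0 t q hq P hP => h p0 hp0 _ hq.mt P hP⟩

/-- up columns of a pruned item -/
theorem uqK (C B K A : ℝ) {ε : ℝ} (hB : 0 ≤ B) (hA : 0 ≤ A) (hK : A + B + 2 ≤ K) (hε : 0 < ε) :
    ∃ p₁ : ℕ, ∀ p0 ≥ p₁, ∀ (t : IT) (q : ℕ), Pr t p0 C B q → ∀ P : ℕ, p0 ≤ P →
      ∑ b ∈ (t.uq q).filter (fun b => P < b), Real.log b ^ (-K) ≤ ε * Real.log P ^ (-A) := by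
  obtain ⟨p₁, h⟩ := tailK (B + 1) K A (by linarith) hA (by linarith) hε
  exact ⟨p₁, fun p0 hp0 t q hq P hP => h p0 hp0 _ hq.uq P hP⟩

/-- SEP columns of a pruned item: `∑ (log b)^a / b` -/
theorem spK (C B a A : ℝ) (ha : 0 ≤ a) (hA : 0 ≤ A) (hB : A + a + C + 3 ≤ B) :
    ∃ p₁ : ℕ, ∀ p0 ≥ p₁, ∀ (t : IT) (q : ℕ), Pr t p0 C B q → ∀ P : ℕ, p0 ≤ P →
      ∑ b ∈ (t.sp q).filter (fun b => P < b), Real.log b ^ a / b ≤ 1 / 2 * Real.log P ^ (-A) := by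
  obtain ⟨p₁, h⟩ := tail_log (B - C - 2) a A ha hA (by linarith)
  exact ⟨p₁, fun p0 hp0 t q hq P hP => h p0 hp0 _ hq.sp P hP⟩

variable {N : Skel189.Num} {γ : ℝ} {p0 P₀ : ℕ}

/-- the columns of a context are primes above `p0` -/
theorem ctx_cols (X : Ctx N γ p0 P₀) {q p : ℕ}
    (h : p ∈ X.c.t.mt q ∨ p ∈ X.c.t.sp q ∨ p ∈ X.c.t.uq q) : p.Prime ∧ p0 < p :=
  let h1 := Bld532.cols_of_All X.par (w X.ψ) X.c.t _ X.nodes q p h
  ⟨h1.1, h1.2.1⟩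

/-- **missing ties** of a pruned item of a context, above `P` -/
theorem ctx_mtK (N : Skel189.Num) (K A : ℝ) {ε : ℝ} (hA : 0 ≤ A) (hK : A + (N.C1 + N.c2) + 2 ≤ K)
    (hε : 0 < ε) : ∃ p₁ : ℕ, ∀ p0 ≥ p₁, ∀ (γ : ℝ) (P₀ : ℕ) (X : Ctx N γ p0 P₀), ∀ q ∈ X.S',
      ∀ P : ℕ, p0 ≤ P →
      ∑ p ∈ (X.c.t.mt q).filter (fun p => P < p), Real.log p ^ (-K) ≤ ε * Real.log P ^ (-A) := by
  obtain ⟨p₁, h⟩ := mtK (N.C1 + N.c2) N.B K A (add_nonneg N.hC1 N.hc2) hA hK hε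
  exact ⟨p₁, fun p0 hp0 γ P₀ X q hq P hP => h p0 hp0 _ q (X.pr' hq) P hP⟩

/-- **up columns** of a pruned item of a context, above `P` -/
theorem ctx_uqK (N : Skel189.Num) (K A : ℝ) {ε : ℝ} (hA : 0 ≤ A) (hK : A + N.B + 2 ≤ K)
    (hε : 0 < ε) : ∃ p₁ : ℕ, ∀ p0 ≥ p₁, ∀ (γ : ℝ) (P₀ : ℕ) (X : Ctx N γ p0 P₀), ∀ q ∈ X.S',
      ∀ P : ℕ, p0 ≤ P →
      ∑ b ∈ (X.c.t.uq q).filter (fun b => P < b), Real.log b ^ (-K) ≤
        ε * Real.log P ^ (-A) := by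
  have hB : 0 ≤ N.B := by have := N.hB; have := N.hC1; have := N.hc2; linarith
  obtain ⟨p₁, h⟩ := uqK (N.C1 + N.c2) N.B K A hB hA hK hε
  exact ⟨p₁, fun p0 hp0 γ P₀ X q hq P hP => h p0 hp0 _ q (X.pr' hq) P hP⟩

/-- **the path sums of an alive item of a context** -/
theorem ctx_path (N : Skel189.Num) (K : ℝ) {ε : ℝ} (hK : N.B + 2 ≤ K) (hε : 0 < ε) :
    ∃ p₁ : ℕ, ∀ p0 ≥ p₁, ∀ (γ : ℝ) (P₀ : ℕ) (X : Ctx N γ p0 P₀),
      (∀ q ∈ X.S', ∑ b ∈ X.c.t.uq q, Real.log b ^ (-K) ≤ ε) ∧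
      (∀ q ∈ X.S', ∑ p ∈ X.c.t.mt q, Real.log p ^ (-K) ≤ ε) ∧
      (∀ M : Finset ℕ, (∀ b ∈ M, b.Prime ∧ p0 < b) →
        ∑ b ∈ M, (Real.log b ^ (-K) / b + 1 / (b : ℝ) ^ 2) ≤ ε) ∧
      (∀ J : Finset ℕ, (∀ k ∈ J, Real.log p0 ≤ 2 ^ (k + 1)) → ∑ k ∈ J, ((2:ℝ) ^ k) ^ (-K) ≤ ε) := by
  have hB := N.hB
  have hC1 := N.hC1
  have hc2 := N.hc2
  obtain ⟨p1, h1⟩ := ctx_uqK N K 0 le_rfl (by linarith) hε
  obtain ⟨p2, h2⟩ := ctx_mtK N K 0 le_rfl (by linarith) hε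
  obtain ⟨p3, h3⟩ := prmK K 0 le_rfl (by linarith) (half_pos hε)
  obtain ⟨p4, h4⟩ := rngK K 0 le_rfl (by linarith) hε
  refine ⟨p1 + p2 + p3 + p4 + ⌈2 / ε⌉₊ + 3, fun p0 hp0 γ P₀ X => ⟨fun q hq => ?_, fun q hq => ?_,
    fun M hM => ?_, fun J hJ => ?_⟩⟩
  · have h := h1 p0 (by omega) γ P₀ X q hq p0 le_rfl
    rw [Finset.filter_true_of_mem fun b hb => (ctx_cols X (Or.inr (Or.inr hb))).2] at h
    simpa using h
  · have h := h2 p0 (by omega) γ P₀ X q hq p0 le_rfl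
    rw [Finset.filter_true_of_mem fun b hb => (ctx_cols X (Or.inl hb)).2] at h
    simpa using h
  · have h := h3 p0 (by omega) M hM
    have h' := sqI (P := p0) (by omega) M fun b hb => (hM b hb).2
    have h5 : 1 / (p0 : ℝ) ≤ ε / 2 := by
      have h6 : (2 / ε) ≤ p0 := by
        have h7 : 2 / ε ≤ ⌈2 / ε⌉₊ := Nat.le_ceil _
        have h8 : ((⌈2 / ε⌉₊ : ℕ) : ℝ) ≤ p0 := by
          have : ⌈2 / ε⌉₊ ≤ p0 := by omega
          exact_mod_cast this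
        linarith
      have hp : (0:ℝ) < p0 := by
        have : 0 < p0 := by omega
        exact_mod_cast this
      rw [div_le_iff₀ hε] at h6
      rw [div_le_iff₀ hp]
      linarith
    rw [Finset.sum_add_distrib]
    rw [neg_zero, Real.rpow_zero, mul_one] at h
    linarith
  · have h := h4 p0 (by omega) J hJ
    simpa using h

end Crest.Agent.R4P.RseN630
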