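import Crest.Agent.R4P.DseE_23
import Crest.Agent.R4P.StB_21
import Crest.Agent.R4P.RseN6_30
import Crest.Agent.R4P.SkelF_29
import Crest.Agent.R4P.ParF_5

/-!
R4 (S0004), powers pass, [W-dseR], helper21: **ASSEMBLY of `dseR`**: the charges `eD` (DseE_23) of the
children, summed along the path of an item, are at most `a + 10`; the final part.

* `Phi X K κ a q m` : potential of the item `q` at the level `m`;
* `step` : `eD + (log p)^(-κ) ≤ Phi p - Phi m + (log m)^(-κ)` at a child of level `m` of a node `p`;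
* `path_all` : `chE (eC (eD K a) 0) ≤ Phi` at all the nodes;
* `Phi_le` : `Phi ≤ a + 10`;
* `part_dse` : the part `dseR` of the node errors from the bounds of the children.
-/

set_option autoImplicit false
set_option linter.unusedSectionVars false
set_option linter.unusedVariables false

namespace Crest.Agent.R4P.DseFin21

open Crest.Agent.R4P.Cnt588 Crest.Agent.R4P.Item758 Crest.Agent.R4P.W363
open Crest.Agent.R4P.Data758 Crest.Agent.R4P.LfDat734
open Crest.Agent.R4P.Bld532 (NS All NodeOk Bk)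
open Crest.Agent.R4P.Step588 (NDt ND1 ctx_NDt uq_lt)
open Crest.Agent.R4P.WalkIT579 (tp isL nodeOk_hi top_of_nodeOk)
open Crest.Agent.R4P.Skel189 Crest.Agent.R4P.RseSt23 Crest.Agent.R4P.DseCh23
open Crest.Agent.R4P.BadB16 (BadB ctx_bad)
open Crest.Agent.R4P.PruneAcc17 (Bab)
open Crest.Agent.R4P.Dse22 (chE LocOk dse_le)
open Crest.Agent.R4P.ParF5 (rg)
open Crest.Agent.R4P.LLCtx30 (ctx_LeafF)
open Crest.Agent.R4.Soft104 (w)

/-! ### additivity of the charges -/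

section
variable {N : Skel189.Num} {γ : ℝ} {p0 P₀ : ℕ} {X : Ctx N γ p0 P₀}

lemma eC_add (ε : ℕ → NS → IT → X.c.Lam → ℝ) (ζ : ℕ → NS → IT → IT → X.c.Lam → ℝ)
    (t : IT) : ∀ (u : NS) (j : X.c.Lam), eC X ε ζ u t j =
      eC X ε (fun _ _ _ _ _ => 0) u t j + eC X (fun _ _ _ _ => 0) ζ u t j := by
  induction t with
  | leaf S => intro u j; simp [eC]
  | br p Sp t₁ t₀ ih₁ ih₀ =>
    intro u j
    simp only [eC]
    split_ifs <;> ring
  | add b t₁ t₀ ih₁ ih₀ =>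
    intro u j
    simp only [eC]
    split_ifs <;> ring
  | up b S t ih => intro u j; exact ih _ j
  | pl b t ih => intro u j; simp [eC]
  | far b t₁ t₀ ih₁ ih₀ =>
    intro u j
    simp only [eC]
    split_ifs <;> ring

lemma chE_add (it : X.c.Lam → ℕ) {e e₁ e₂ : NS → IT → X.c.Lam → ℝ}
    (he : ∀ u t j, e u t j = e₁ u t j + e₂ u t j) (t : IT) :
    ∀ (u : NS) (j : X.c.Lam), chE it e u t j = chE it e₁ u t j + chE it e₂ u t j := by
  induction t with
  | leaf S => intro u j; simp [chE]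
  | br p Sp t₁ t₀ ih₁ ih₀ =>
    intro u j
    simp only [chE]
    split_ifs
    · rw [he, ih₀]; ring
    · rw [he, ih₁]; ring
  | add b t₁ t₀ ih₁ ih₀ =>
    intro u j
    simp only [chE]
    split_ifs
    · rw [he, ih₀]; ring
    · rw [he, ih₁]; ring
  | up b S t ih => intro u j; exact ih _ j
  | pl b t ih =>
    intro u j
    simp only [chE]
    rw [he, ih]; ring
  | far b t₁ t₀ ih₁ ih₀ =>
    intro u j
    simp only [chE]
    split_ifs
    · rw [he, ih₀]; ring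
    · rw [he, ih₁]; ring

/-! ### the potential -/

open Classical in
/-- charge of a prime `b` of the path of the item `q` -/
noncomputable def fP (X : Ctx N γ p0 P₀) (K : ℝ) (q b : ℕ) : ℝ :=
  Real.log b ^ (-K) * ((if b ∈ X.c.t.uq q then 1 else 0) + 1 / (b:ℝ)) +
    if BadB X.c.γ (Bab X.c.t q b) b then (b:ℝ) ^ (-(1/7):ℝ) else 0

/-- charge of a missing tie -/
noncomputable def gM (κ : ℝ) (s : ℕ) : ℝ := 2 * Real.log s ^ (-κ)

/-- charge of a dyadic scale -/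
noncomputable def gD (K : ℝ) (k : ℕ) : ℝ := ((k:ℝ) * Real.log 2) ^ (-K)

lemma log_nn (b : ℕ) : 0 ≤ Real.log b := Real.log_natCast_nonneg b

lemma fP_nonneg (K : ℝ) (q b : ℕ) : 0 ≤ fP X K q b := by
  classical
  unfold fP
  have h1 : 0 ≤ Real.log b ^ (-K) := Real.rpow_nonneg (log_nn b) _
  have h2 : (0:ℝ) ≤ (b:ℝ) ^ (-(1/7):ℝ) := Real.rpow_nonneg (Nat.cast_nonneg b) _
  have h3 : (0:ℝ) ≤ (if b ∈ X.c.t.uq q then 1 else 0) + 1 / (b:ℝ) := by
    split_ifs <;> positivity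
  have h4 := mul_nonneg h1 h3
  split_ifs at h4 ⊢ <;> linarith

lemma gM_nonneg (κ : ℝ) (s : ℕ) : 0 ≤ gM κ s := by
  unfold gM
  have h1 : 0 ≤ Real.log s ^ (-κ) := Real.rpow_nonneg (log_nn s) _
  linarith

lemma gD_nonneg (K : ℝ) (k : ℕ) : 0 ≤ gD K k := by
  unfold gD
  have : 0 ≤ Real.log 2 := Real.log_nonneg (by norm_num)
  exact Real.rpow_nonneg (by positivity) _

/-- **potential of the item `q` at the level `m`** -/
noncomputable def Phi (X : Ctx N γ p0 P₀) (K κ a : ℝ) (q m : ℕ) : ℝ :=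
  4 * ∑ b ∈ (Finset.Ioc p0 m).filter Nat.Prime, fP X K q b +
  ∑ s ∈ (X.c.t.mt q).filter (fun s => s ≤ m), gM κ s +
  ∑ k ∈ Finset.Ico (rg p0) (rg m), ((2:ℝ) ^ k) ^ (-(2:ℝ)) +
  ∑ k ∈ Finset.Ico (Nat.log 2 p0) (Nat.log 2 m), gD K k + a + Real.log p0 ^ (-κ)

/-- the increments of the potential -/
lemma Phi_sub {K κ a : ℝ} {q m p : ℕ} (h0 : 0 < p0) (hm : p0 ≤ m) (hp : m ≤ p) :
    Phi X K κ a q p = Phi X K κ a q m +
      (4 * ∑ b ∈ (Finset.Ioc m p).filter Nat.Prime, fP X K q b +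
      ∑ s ∈ (X.c.t.mt q).filter (fun s => m < s ∧ s ≤ p), gM κ s +
      ∑ k ∈ Finset.Ico (rg m) (rg p), ((2:ℝ) ^ k) ^ (-(2:ℝ)) +
      ∑ k ∈ Finset.Ico (Nat.log 2 m) (Nat.log 2 p), gD K k) := by
  classical
  have e1 : ∑ b ∈ (Finset.Ioc p0 p).filter Nat.Prime, fP X K q b =
      ∑ b ∈ (Finset.Ioc p0 m).filter Nat.Prime, fP X K q b +
      ∑ b ∈ (Finset.Ioc m p).filter Nat.Prime, fP X K q b := by
    rw [← Finset.sum_union]
    · congr 1
      rw [← Finset.filter_union, Finset.Ioc_union_Ioc_eq_Ioc hm hp]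
    · exact Finset.disjoint_filter_filter (Finset.Ioc_disjoint_Ioc_of_le le_rfl)
  have e2 : ∑ s ∈ (X.c.t.mt q).filter (fun s => s ≤ p), gM κ s =
      ∑ s ∈ (X.c.t.mt q).filter (fun s => s ≤ m), gM κ s +
      ∑ s ∈ (X.c.t.mt q).filter (fun s => m < s ∧ s ≤ p), gM κ s := by
    rw [← Finset.sum_union]
    · congr 1
      ext s
      simp only [Finset.mem_filter, Finset.mem_union]
      constructor
      · rintro ⟨h1, h2⟩
        rcases le_or_gt s m with h3 | h3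
        · exact Or.inl ⟨h1, h3⟩
        · exact Or.inr ⟨h1, h3, h2⟩
      · rintro (⟨h1, h2⟩ | ⟨h1, h2, h3⟩)
        · exact ⟨h1, h2.trans hp⟩
        · exact ⟨h1, h3⟩
    · rw [Finset.disjoint_filter]
      intro s _ h1 h2
      exact absurd h1 (not_le.2 h2.1)
  have e3 : ∑ k ∈ Finset.Ico (rg p0) (rg p), ((2:ℝ) ^ k) ^ (-(2:ℝ)) =
      ∑ k ∈ Finset.Ico (rg p0) (rg m), ((2:ℝ) ^ k) ^ (-(2:ℝ)) +
      ∑ k ∈ Finset.Ico (rg m) (rg p), ((2:ℝ) ^ k) ^ (-(2:ℝ)) :=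
    (Finset.sum_Ico_consecutive _ (ParF5.rg_mono h0 hm) (ParF5.rg_mono (by omega) hp)).symm
  have e4 : ∑ k ∈ Finset.Ico (Nat.log 2 p0) (Nat.log 2 p), gD K k =
      ∑ k ∈ Finset.Ico (Nat.log 2 p0) (Nat.log 2 m), gD K k +
      ∑ k ∈ Finset.Ico (Nat.log 2 m) (Nat.log 2 p), gD K k :=
    (Finset.sum_Ico_consecutive _ (Nat.log_mono_right hm) (Nat.log_mono_right hp)).symm
  unfold Phi
  rw [e1, e2, e3, e4]
  ring

lemma rg_term_nonneg (s : Finset ℕ) : 0 ≤ ∑ k ∈ s, ((2:ℝ) ^ k) ^ (-(2:ℝ)) :=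
  Finset.sum_nonneg fun k _ => Real.rpow_nonneg (by positivity) _

lemma Phi_nonneg {K κ a : ℝ} (ha : 0 ≤ a) (q m : ℕ) : 0 ≤ Phi X K κ a q m := by
  unfold Phi
  have h1 : 0 ≤ ∑ b ∈ (Finset.Ioc p0 m).filter Nat.Prime, fP X K q b :=
    Finset.sum_nonneg fun b _ => fP_nonneg K q b
  have h2 : 0 ≤ ∑ s ∈ (X.c.t.mt q).filter (fun s => s ≤ m), gM κ s :=
    Finset.sum_nonneg fun s _ => gM_nonneg κ s
  have h3 := rg_term_nonneg (Finset.Ico (rg p0) (rg m))
  have h4 : 0 ≤ ∑ k ∈ Finset.Ico (Nat.log 2 p0) (Nat.log 2 m), gD K k :=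
    Finset.sum_nonneg fun k _ => gD_nonneg K k
  have h5 : 0 ≤ Real.log p0 ^ (-κ) := Real.rpow_nonneg (log_nn p0) _
  linarith

/-! ### one step -/

/-- **the prime charges of one step** -/
lemma cE_le {K : ℝ} {q m p B : ℕ} (hsf : Squarefree B)
    (hB : (X.c.t.mt q).filter (m < ·) = B.primeFactors) (hge : ∀ l ∈ B.primeFactors, p ≤ l) :
    cE K X.c.γ m p B (X.c.t.uq q) ≤
      ∑ b ∈ (Finset.Ioc m p).filter Nat.Prime, fP X K q b := by
  classical
  unfold cE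
  refine Finset.sum_le_sum ?_
  intro b hb
  obtain ⟨h1, h2⟩ := Finset.mem_filter.1 hb
  obtain ⟨h3, h4⟩ := Finset.mem_Ioc.1 h1
  have hnn : (0:ℝ) ≤ (b:ℝ) ^ (-(1/7):ℝ) := Real.rpow_nonneg (Nat.cast_nonneg b) _
  by_cases hc : b ∣ B
  · simp only [fP]
    by_cases hu : b ∈ X.c.t.uq q <;> by_cases hb1 : BadB X.c.γ B b <;>
      by_cases hb2 : BadB X.c.γ (Bab X.c.t q b) b <;>
      simp only [hu, hb1, hb2, hc, not_true, and_false, if_true, if_false] <;> linarith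
  · have hBab : Bab X.c.t q b = B := by
      unfold Crest.Agent.R4P.PruneAcc17.Bab
      have e : (X.c.t.mt q).filter (b < ·) = B.primeFactors := by
        rw [← hB]
        ext s
        simp only [Finset.mem_filter]
        constructor
        · rintro ⟨k1, k2⟩; exact ⟨k1, h3.trans k2⟩
        · rintro ⟨k1, k2⟩
          refine ⟨k1, ?_⟩
          have k3 : s ∈ B.primeFactors := by
            rw [← hB]; exact Finset.mem_filter.2 ⟨k1, k2⟩
          have k4 := hge s k3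
          rcases lt_or_eq_of_le (h4.trans k4) with k5 | k5
          · exact k5
          · exfalso
            apply hc
            rw [k5]; exact Nat.dvd_of_mem_primeFactors k3
      rw [e]
      exact Nat.prod_primeFactors_of_squarefree hsf
    simp only [fP, hBab]
    by_cases hu : b ∈ X.c.t.uq q <;> by_cases hb1 : BadB X.c.γ B b <;>
      simp only [hu, hb1, hc, not_false_iff, and_true, if_true, if_false] <;> linarith

/-- the thinness is constant on the ranges -/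
def RG (X : Ctx N γ p0 P₀) : Prop :=
  ∀ m p : ℕ, p0 < m → m ≤ p → rg m = rg p → X.c.wp.thr p = X.c.wp.thr m

/-- **the charge of a child which is not a leaf** -/
lemma step_col {K κ a : ℝ} (hK : 0 ≤ K) (hk0 : 0 ≤ κ) (hkK : κ ≤ K) (h0 : 2 ≤ p0) (hR : RG X) {q p : ℕ} {u : NS} {τ : IT}
    {j : X.c.Lam} (hj : j.1.1 = q)
    (hl : ¬ isL τ) (hm0 : p0 < tp τ) (hmp : tp τ ≤ p) (hpp : p.Prime) (hsf : Squarefree u.B)
    (hB : (X.c.t.mt q).filter (tp τ < ·) = u.B.primeFactors)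
    (hge : ∀ l ∈ u.B.primeFactors, p ≤ l) :
    eD X K κ a p u τ j + Real.log p ^ (-κ) + Phi X K κ a q (tp τ) ≤
      Phi X K κ a q p + Real.log (tp τ) ^ (-κ) := by
  classical
  set m := tp τ with hm
  have hm3 : 3 ≤ m := by omega
  have hlm : 1 < Real.log m := ParF5.one_lt_log hm3
  have hlm0 : 0 < Real.log m := by linarith
  have hmpR : Real.log m ≤ Real.log p :=
    Real.log_le_log (by exact_mod_cast (by omega : 0 < m)) (by exact_mod_cast hmp)
  have hlp : Real.log p ^ (-κ) ≤ Real.log m ^ (-κ) :=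
    Real.rpow_le_rpow_of_nonpos hlm0 hmpR (by linarith)
  have hlK : Real.log p ^ (-K) ≤ Real.log p ^ (-κ) :=
    Real.rpow_le_rpow_of_exponent_le (by linarith) (by linarith)
  rw [Phi_sub (X := X) (q := q) (K := K) (κ := κ) (a := a) (by omega) hm0.le hmp]
  have n1 : 0 ≤ ∑ b ∈ (Finset.Ioc m p).filter Nat.Prime, fP X K q b :=
    Finset.sum_nonneg fun b _ => fP_nonneg K q b
  have n2 : 0 ≤ ∑ s ∈ (X.c.t.mt q).filter (fun s => m < s ∧ s ≤ p), gM κ s :=
    Finset.sum_nonneg fun s _ => gM_nonneg κ s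
  have n3 := rg_term_nonneg (Finset.Ico (rg m) (rg p))
  have n4 : 0 ≤ ∑ k ∈ Finset.Ico (Nat.log 2 m) (Nat.log 2 p), gD K k :=
    Finset.sum_nonneg fun k _ => gD_nonneg K k
  -- the increments
  have i3 : (if X.c.wp.thr p ≠ X.c.wp.thr m then Real.log m ^ (-(2:ℝ)) else 0) ≤
      ∑ k ∈ Finset.Ico (rg m) (rg p), ((2:ℝ) ^ k) ^ (-(2:ℝ)) := by
    split_ifs with h
    · have h1 : rg m < rg p := by
        rcases lt_or_eq_of_le (ParF5.rg_mono (by omega) hmp) with h2 | h2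
        · exact h2
        · exact absurd (hR m p hm0 hmp h2) h
      have h3 : ((2:ℝ) ^ rg m) ^ (-(2:ℝ)) ≤
          ∑ k ∈ Finset.Ico (rg m) (rg p), ((2:ℝ) ^ k) ^ (-(2:ℝ)) :=
        Finset.single_le_sum (f := fun k => ((2:ℝ) ^ k) ^ (-(2:ℝ)))
          (fun k _ => Real.rpow_nonneg (by positivity) _) (Finset.mem_Ico.2 ⟨le_rfl, h1⟩)
      refine le_trans ?_ h3
      exact Real.rpow_le_rpow_of_nonpos (by positivity) (ParF5.rg_le hm3) (by norm_num)
    · exact n3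
  have i4 : (if Nat.log 2 m < Nat.log 2 p then Real.log m ^ (-K) else 0) ≤
      ∑ k ∈ Finset.Ico (Nat.log 2 m) (Nat.log 2 p), gD K k := by
    split_ifs with h
    · have h3 : gD K (Nat.log 2 m) ≤ ∑ k ∈ Finset.Ico (Nat.log 2 m) (Nat.log 2 p), gD K k :=
        Finset.single_le_sum (f := fun k => gD K k)
          (fun k _ => gD_nonneg K k) (Finset.mem_Ico.2 ⟨le_rfl, h⟩)
      refine le_trans ?_ h3
      unfold gD
      have h4 : 0 < Nat.log 2 m := Nat.log_pos (by norm_num) (by omega)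
      have hl2 : 0 < Real.log 2 := Real.log_pos (by norm_num)
      refine Real.rpow_le_rpow_of_nonpos (by positivity) ?_ (by linarith)
      have h5 : 2 ^ Nat.log 2 m ≤ m := Nat.pow_log_le_self 2 (by omega)
      have h6 : ((2:ℝ) ^ Nat.log 2 m) ≤ m := by exact_mod_cast h5
      have h7 := Real.log_le_log (by positivity) h6
      rwa [Real.log_pow] at h7
    · exact n4
  have i1 := cE_le (K := K) hsf hB hge
  unfold eD
  rw [hj, if_neg hl]
  by_cases hq : q ∈ X.S'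
  · rw [if_pos hq]
    by_cases hlt : m < p
    · rw [if_pos hlt]
      by_cases hpB : p ∣ u.B
      · rw [if_pos hpB]
        have hpm : p ∈ (X.c.t.mt q).filter (fun s => m < s ∧ s ≤ p) := by
          have k1 : p ∈ u.B.primeFactors := Nat.mem_primeFactors.2 ⟨hpp, hpB, hsf.ne_zero⟩
          rw [← hB] at k1
          exact Finset.mem_filter.2 ⟨(Finset.mem_filter.1 k1).1, hlt, le_rfl⟩
        have i2 : gM κ p ≤ ∑ s ∈ (X.c.t.mt q).filter (fun s => m < s ∧ s ≤ p), gM κ s :=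
          Finset.single_le_sum (f := fun s => gM κ s) (fun k _ => gM_nonneg κ k) hpm
        change 2 * Real.log p ^ (-κ) ≤ _ at i2
        linarith
      · rw [if_neg hpB]
        linarith
    · rw [if_neg hlt]
      linarith
  · rw [if_neg hq]
    linarith

/-- **the charge of a leaf** -/
lemma step_leaf {K κ a : ℝ} (hK : 0 ≤ K) (hk0 : 0 ≤ κ) (ha : 0 ≤ a) (h0 : 3 ≤ p0) {q p : ℕ} {u : NS} {S : Finset ℕ}
    {j : X.c.Lam} (hj : j.1.1 = q) (hpp : p.Prime) (hp : p0 < p) (hn : u.n - 1 ≤ p)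
    (hsf : Squarefree u.B) (hB : X.c.t.mt q = u.B.primeFactors)
    (hge : ∀ l ∈ u.B.primeFactors, p ≤ l ∧ u.n ≤ l) :
    eD X K κ a p u (.leaf S) j + Real.log p ^ (-κ) ≤ Phi X K κ a q p := by
  classical
  set m := max (u.n - 1) p0 with hm
  have hm0 : p0 ≤ m := le_max_right _ _
  have hmp : m ≤ p := max_le hn hp.le
  have hlm : 1 < Real.log p0 := ParF5.one_lt_log h0
  have hlp : Real.log p ^ (-κ) ≤ Real.log p0 ^ (-κ) :=
    Real.rpow_le_rpow_of_nonpos (by linarith)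
      (Real.log_le_log (by exact_mod_cast (by omega : 0 < p0)) (by exact_mod_cast hp.le))
      (by linarith)
  have e := Phi_sub (X := X) (q := q) (K := K) (κ := κ) (a := a) (by omega) hm0 hmp
  have n2 : 0 ≤ ∑ s ∈ (X.c.t.mt q).filter (fun s => m < s ∧ s ≤ p), gM κ s :=
    Finset.sum_nonneg fun s _ => gM_nonneg κ s
  have n3 := rg_term_nonneg (Finset.Ico (rg m) (rg p))
  have n4 : 0 ≤ ∑ k ∈ Finset.Ico (Nat.log 2 m) (Nat.log 2 p), gD K k :=
    Finset.sum_nonneg fun k _ => gD_nonneg K k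
  have n5 : a + Real.log p0 ^ (-κ) ≤ Phi X K κ a q m := by
    have := Phi_nonneg (X := X) (K := K) (κ := κ) (a := 0) le_rfl q m
    unfold Phi at this ⊢
    have h1 : 0 ≤ ∑ b ∈ (Finset.Ioc p0 m).filter Nat.Prime, fP X K q b :=
      Finset.sum_nonneg fun b _ => fP_nonneg K q b
    have h2 : 0 ≤ ∑ s ∈ (X.c.t.mt q).filter (fun s => s ≤ m), gM κ s :=
      Finset.sum_nonneg fun s _ => gM_nonneg κ s
    have h3 := rg_term_nonneg (Finset.Ico (rg p0) (rg m))
    have h4 : 0 ≤ ∑ k ∈ Finset.Ico (Nat.log 2 p0) (Nat.log 2 m), gD K k :=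
      Finset.sum_nonneg fun k _ => gD_nonneg K k
    linarith
  have n6 : 0 ≤ ∑ b ∈ (Finset.Ioc m p).filter Nat.Prime, fP X K q b :=
    Finset.sum_nonneg fun b _ => fP_nonneg K q b
  have hpn : 0 ≤ Real.log p ^ (-κ) := Real.rpow_nonneg (log_nn p) _
  unfold eD
  rw [hj]
  by_cases hq : q ∈ X.S'
  · rw [if_pos hq, if_pos (show isL (.leaf S) from trivial)]
    have hlv : lvl u (.leaf S) = u.n - 1 := rfl
    rw [hlv, ← hm]
    rcases Nat.eq_or_lt_of_le hmp with heq | hlt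
    · have : cE K X.c.γ m p u.B (X.c.t.uq q) = 0 := by
        unfold cE
        rw [heq, Finset.Ioc_self]
        rfl
      rw [this, e]
      linarith
    · have hBm : (X.c.t.mt q).filter (m < ·) = u.B.primeFactors := by
        rw [hB]
        refine Finset.filter_true_of_mem fun l hl => ?_
        exact lt_of_lt_of_le hlt (hge l hl).1
      have i1 := cE_le (K := K) hsf hBm (fun l hl => (hge l hl).1)
      rw [e]
      linarith
  · rw [if_neg hq, e]
    linarith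

/-! ### the path sum -/

/-- the facts of the nodes used by the path sum -/
structure PF (X : Ctx N γ p0 P₀) (u : NS) (τ : IT) : Prop where
  nd : NDt X.par (w X.ψ) X.c.t u τ
  lf : ∀ S, τ = .leaf S → LeafF X.par (w X.ψ) X.c.t (top X.S) u S 1

theorem ctx_PF (X : Ctx N γ p0 P₀) : All (PF X) ⟨top X.S, 1, 1, 1⟩ X.c.t :=
  All.mono (fun _ _ h => ⟨h.1, h.2⟩) ((ctx_NDt X).and (ctx_LeafF X))

/-- the charges without the cross terms -/
noncomputable abbrev e1 (X : Ctx N γ p0 P₀) (K κ a : ℝ) : NS → IT → X.c.Lam → ℝ :=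
  eC X (eD X K κ a) (fun _ _ _ _ _ => 0)

/-- the claim at a node -/
def PCl (X : Ctx N γ p0 P₀) (K κ a : ℝ) (u : NS) (t : IT) : Prop :=
  ∀ j : X.c.Lam, j.1.1 ∈ t.items →
    (isL (hd t) → chE X.c.D.it (e1 X K κ a) u t j = 0) ∧
    (¬ isL (hd t) → chE X.c.D.it (e1 X K κ a) u t j + Real.log (tp (hd t)) ^ (-κ) ≤
      Phi X K κ a j.1.1 (tp (hd t)))

lemma kid {K κ a : ℝ} (hK : 0 ≤ K) (hk0 : 0 ≤ κ) (hkK : κ ≤ K) (ha : 0 ≤ a) (h0 : 3 ≤ p0) (hR : RG X) {p : ℕ} (hpp : p.Prime)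
    (hp : p0 < p) {u : NS} {t : IT} (h : All (PF X) u t) (hn : p ≤ u.n) (hn' : u.n ≤ p + 1)
    (ih : PCl X K κ a u t) {j : X.c.Lam} (hj : j.1.1 ∈ t.items) :
    eD X K κ a p (hu u t) (hd t) j + chE X.c.D.it (e1 X K κ a) u t j + Real.log p ^ (-κ) ≤
      Phi X K κ a j.1.1 p := by
  obtain ⟨i1, i2⟩ := ih j hj
  have hh := (All_hd t u h).self
  have hnu : (hu u t).n ≤ u.n :=
    hu_n (P := X.par) (W := w X.ψ) (fun u t h => h.nd.self.node) t u h
  have hj' : j.1.1 ∈ (hd t).items := by rw [hd_items]; exact hj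
  have hge : ∀ l ∈ (hu u t).B.primeFactors, p ≤ l := by
    intro l hl
    rw [hu_B] at hl
    exact hn.trans (h.self.nd.bk.geB l (Nat.prime_of_mem_primeFactors hl)
      (Nat.dvd_of_mem_primeFactors hl))
  by_cases hl : isL (hd t)
  · rw [i1 hl]
    obtain ⟨S, hS⟩ : ∃ S, hd t = .leaf S := by
      cases h1 : hd t with
      | leaf S => exact ⟨S, rfl⟩
      | br _ _ _ _ => rw [h1] at hl; exact hl.elim
      | add _ _ _ => rw [h1] at hl; exact hl.elim
      | up _ _ _ => rw [h1] at hl; exact hl.elim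
      | pl _ _ => rw [h1] at hl; exact hl.elim
      | far _ _ _ => rw [h1] at hl; exact hl.elim
    have hL := hh.lf S hS
    have hjS : j.1.1 ∈ S := by rw [hS] at hj'; exact hj'
    have key := step_leaf (X := X) (u := hu u t) (S := S) (j := j) hK hk0 ha h0 rfl hpp hp (by omega)
      hh.nd.bk.sfB (hL.mt _ hjS) (fun l hl => ⟨hge l hl, hh.nd.bk.geB l
        (Nat.prime_of_mem_primeFactors hl) (Nat.dvd_of_mem_primeFactors hl)⟩)
    rw [hS, add_zero]
    exact key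
  · have i3 := i2 hl
    have k := nodeOk_hi hh.nd.self.node hl
    have key := step_col (X := X) (u := hu u t) (τ := hd t) (j := j) hK hk0 hkK (by omega) hR rfl hl
      (K := K) (κ := κ) (a := a) (p := p) k.2.1 (by have := k.2.2.1; omega) hpp hh.nd.bk.sfB
      (mt_node hh.nd X.tOk hl hj') hge
    linarith

theorem path_all {K κ a : ℝ} (hK : 0 ≤ K) (hk0 : 0 ≤ κ) (hkK : κ ≤ K) (ha : 0 ≤ a) (h0 : 3 ≤ p0) (hR : RG X) :
    ∀ (t : IT) (u : NS), All (PF X) u t → All (PCl X K κ a) u t := by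
  intro t
  induction t with
  | leaf S =>
    intro u h j hj
    exact ⟨fun _ => rfl, fun h' => absurd trivial h'⟩
  | br p Sp t₁ t₀ ih₁ ih₀ =>
    intro u h
    have hO := h.1.nd.self.node
    have j1 := ih₁ _ h.2.1
    have j0 := ih₀ _ h.2.2
    refine ⟨fun j hj => ⟨fun h' => h'.elim, fun _ => ?_⟩, j1, j0⟩
    have hpp : p.Prime := hO.1
    have hp0 : p0 < p := hO.2.2.1
    by_cases hin : j.1.1 ∈ t₀.items
    · have key := kid hK hk0 hkK ha h0 hR hpp hp0 h.2.2 (le_refl p) (Nat.le_succ p) j0.self hin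
      have e : chE X.c.D.it (e1 X K κ a) u (.br p Sp t₁ t₀) j =
          eD X K κ a p (hu ⟨p, u.c * p, u.A, u.B * p⟩ t₀) (hd t₀) j +
          chE X.c.D.it (e1 X K κ a) ⟨p, u.c * p, u.A, u.B * p⟩ t₀ j := by
        show (if j.1.1 ∈ t₀.items then _ else _) + (if j.1.1 ∈ t₀.items then _ else _) = _
        rw [if_pos hin, if_pos hin]
      rw [e]
      exact key
    · have hin1 : j.1.1 ∈ t₁.items := (Finset.mem_union.1 hj).resolve_right hin
      have key := kid hK hk0 hkK ha h0 hR hpp hp0 h.2.1 (le_refl p) (Nat.le_succ p) j1.self hin1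
      have e : chE X.c.D.it (e1 X K κ a) u (.br p Sp t₁ t₀) j =
          eD X K κ a p (hu ⟨p, u.c / (1 - 1 / (p : ℝ)), u.A * p, u.B⟩ t₁) (hd t₁) j +
          chE X.c.D.it (e1 X K κ a) ⟨p, u.c / (1 - 1 / (p : ℝ)), u.A * p, u.B⟩ t₁ j := by
        show (if j.1.1 ∈ t₀.items then _ else _) + (if j.1.1 ∈ t₀.items then _ else _) = _
        rw [if_neg hin, if_neg hin]
      rw [e]
      exact key
  | add p t₁ t₀ ih₁ ih₀ =>
    intro u h
    have hO := h.1.nd.self.node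
    have j1 := ih₁ _ h.2.1
    have j0 := ih₀ _ h.2.2
    refine ⟨fun j hj => ⟨fun h' => h'.elim, fun _ => ?_⟩, j1, j0⟩
    have hpp : p.Prime := hO.1
    have hp0 : p0 < p := hO.2.2.1
    by_cases hin : j.1.1 ∈ t₀.items
    · have key := kid hK hk0 hkK ha h0 hR hpp hp0 h.2.2 (Nat.le_succ p) (le_refl (p+1)) j0.self hin
      have e : chE X.c.D.it (e1 X K κ a) u (.add p t₁ t₀) j =
          eD X K κ a p (hu ⟨p + 1, u.c, u.A, u.B⟩ t₀) (hd t₀) j +
          chE X.c.D.it (e1 X K κ a) ⟨p + 1, u.c, u.A, u.B⟩ t₀ j := by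
        show (0 + (if j.1.1 ∈ t₀.items then _ else _)) + (if j.1.1 ∈ t₀.items then _ else _) = _
        rw [if_pos hin, if_pos hin, zero_add]
      rw [e]
      exact key
    · have hin1 : j.1.1 ∈ t₁.items := (Finset.mem_union.1 hj).resolve_right hin
      have key := kid hK hk0 hkK ha h0 hR hpp hp0 h.2.1 (Nat.le_succ p) (le_refl (p+1)) j1.self hin1
      have e : chE X.c.D.it (e1 X K κ a) u (.add p t₁ t₀) j =
          eD X K κ a p (hu ⟨p + 1, u.c, u.A, u.B⟩ t₁) (hd t₁) j +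
          chE X.c.D.it (e1 X K κ a) ⟨p + 1, u.c, u.A, u.B⟩ t₁ j := by
        show (0 + (if j.1.1 ∈ t₀.items then _ else _)) + (if j.1.1 ∈ t₀.items then _ else _) = _
        rw [if_neg hin, if_neg hin, zero_add]
      rw [e]
      exact key
  | up p Sp t ih =>
    intro u h
    have j1 := ih _ h.2
    exact ⟨fun j hj => j1.self j hj, j1⟩
  | pl p t ih =>
    intro u h
    have hO := h.1.nd.self.node
    have j1 := ih _ h.2
    refine ⟨fun j hj => ⟨fun h' => h'.elim, fun _ => ?_⟩, j1⟩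
    exact kid hK hk0 hkK ha h0 hR hO.1 hO.2.2.1 h.2 (Nat.le_succ p) (le_refl (p+1)) j1.self hj
  | far p t₁ t₀ ih₁ ih₀ =>
    intro u h
    have hO := h.1.nd.self.node
    have j1 := ih₁ _ h.2.1
    have j0 := ih₀ _ h.2.2
    refine ⟨fun j hj => ⟨fun h' => h'.elim, fun _ => ?_⟩, j1, j0⟩
    have hpp : p.Prime := hO.1
    have hp0 : p0 < p := hO.2.2.1
    by_cases hin : j.1.1 ∈ t₀.items
    · have key := kid hK hk0 hkK ha h0 hR hpp hp0 h.2.2 (Nat.le_succ p) (le_refl (p+1)) j0.self hin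
      have e : chE X.c.D.it (e1 X K κ a) u (.far p t₁ t₀) j =
          eD X K κ a p (hu ⟨p + 1, u.c, u.A, u.B⟩ t₀) (hd t₀) j +
          chE X.c.D.it (e1 X K κ a) ⟨p + 1, u.c, u.A, u.B⟩ t₀ j := by
        show (0 + (if j.1.1 ∈ t₀.items then _ else _)) + (if j.1.1 ∈ t₀.items then _ else _) = _
        rw [if_pos hin, if_pos hin, zero_add]
      rw [e]
      exact key
    · have hin1 : j.1.1 ∈ t₁.items := (Finset.mem_union.1 hj).resolve_right hin
      have key := kid hK hk0 hkK ha h0 hR hpp hp0 h.2.1 (Nat.le_succ p) (le_refl (p+1)) j1.self hin1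
      have e : chE X.c.D.it (e1 X K κ a) u (.far p t₁ t₀) j =
          eD X K κ a p (hu ⟨p + 1, u.c, u.A, u.B⟩ t₁) (hd t₁) j +
          chE X.c.D.it (e1 X K κ a) ⟨p + 1, u.c, u.A, u.B⟩ t₁ j := by
        show (0 + (if j.1.1 ∈ t₀.items then _ else _)) + (if j.1.1 ∈ t₀.items then _ else _) = _
        rw [if_neg hin, if_neg hin, zero_add]
      rw [e]
      exact key

end

/-! ### the potential is bounded -/

section num
variable {N : Skel189.Num}

/-- **the potential is at most `a + 12`** -/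
theorem Phi_le (N : Skel189.Num) {K κ : ℝ} (hK : N.B + 2 ≤ K) (hk : N.C1 + N.c2 + 2 ≤ κ) : ∃ p₁ : ℕ, ∀ p0 ≥ p₁, ∀ (γ : ℝ)
    (P₀ : ℕ) (X : Ctx N γ p0 P₀) (a : ℝ), ∀ q ∈ X.S', ∀ m : ℕ, Phi X K κ a q m ≤ a + 12 := by
  classical
  have hB := N.hB
  have hC1 := N.hC1
  have hc2 := N.hc2
  have hK2 : 2 ≤ K := by linarith
  obtain ⟨p1, h1⟩ := RseN630.ctx_path N K (ε := 1 / 20) hK (by norm_num)
  obtain ⟨p2, h2⟩ := ctx_bad N
  obtain ⟨p3, h3⟩ := RseN630.ctx_mtK N κ 0 (ε := 1 / 20) le_rfl (by linarith) (by norm_num)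
  refine ⟨p1 + p2 + p3 + 16, fun p0 hp0 γ P₀ X a q hq m => ?_⟩
  obtain ⟨c1, c2, c3, -⟩ := h1 p0 (by omega) γ P₀ X
  have g1 := c1 q hq
  have g2 : ∑ s ∈ X.c.t.mt q, Real.log s ^ (-κ) ≤ 1 / 20 := by
    have k1 := h3 p0 (by omega) γ P₀ X q hq p0 le_rfl
    have k2 : (X.c.t.mt q).filter (fun p => p0 < p) = X.c.t.mt q :=
      Finset.filter_true_of_mem fun b hb => (RseN630.ctx_cols X (Or.inl hb)).2
    rw [k2, neg_zero, Real.rpow_zero, mul_one] at k1
    exact k1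
  have g3 := c3 ((Finset.Ioc p0 m).filter Nat.Prime) (fun b hb => by
    obtain ⟨k1, k2⟩ := Finset.mem_filter.1 hb
    exact ⟨k2, (Finset.mem_Ioc.1 k1).1⟩)
  have g4 := h2 p0 (by omega) γ P₀ X q hq p0 le_rfl
    (((Finset.Ioc p0 m).filter Nat.Prime).filter (fun b => BadB X.c.γ (Bab X.c.t q b) b))
    (fun b hb => by
      obtain ⟨k0, k3⟩ := Finset.mem_filter.1 hb
      obtain ⟨k1, k2⟩ := Finset.mem_filter.1 k0
      rw [X.hγ] at k3
      exact ⟨k2, (Finset.mem_Ioc.1 k1).1, k3⟩)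
  have hp1 : (1:ℝ) ≤ p0 := by exact_mod_cast (by omega : 1 ≤ p0)
  have g5 : (p0 : ℝ) ^ (-(1 / 100) : ℝ) ≤ 1 :=
    Real.rpow_le_one_of_one_le_of_nonpos hp1 (by norm_num)
  have hlp : 1 < Real.log p0 := ParF5.one_lt_log (by omega)
  -- primes
  have a1 : ∑ b ∈ (Finset.Ioc p0 m).filter Nat.Prime, fP X K q b ≤ 1 / 20 + 1 / 20 + 1 := by
    have e : ∀ b ∈ (Finset.Ioc p0 m).filter Nat.Prime, fP X K q b ≤
        (if b ∈ X.c.t.uq q then Real.log b ^ (-K) else 0) +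
        (Real.log b ^ (-K) / b + 1 / (b:ℝ) ^ 2) +
        (if BadB X.c.γ (Bab X.c.t q b) b then (b:ℝ) ^ (-(1/7):ℝ) else 0) := by
      intro b _
      have hn : (0:ℝ) ≤ 1 / (b:ℝ) ^ 2 := by positivity
      simp only [fP]
      by_cases hu : b ∈ X.c.t.uq q <;> by_cases hb1 : BadB X.c.γ (Bab X.c.t q b) b <;>
        simp only [hu, hb1, if_true, if_false] <;> ring_nf <;> ring_nf at hn <;> linarith
    refine (Finset.sum_le_sum e).trans ?_
    rw [Finset.sum_add_distrib, Finset.sum_add_distrib]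
    have s1 : ∑ b ∈ (Finset.Ioc p0 m).filter Nat.Prime,
        (if b ∈ X.c.t.uq q then Real.log b ^ (-K) else 0) ≤
        ∑ b ∈ X.c.t.uq q, Real.log b ^ (-K) := by
      rw [← Finset.sum_filter]
      refine Finset.sum_le_sum_of_subset_of_nonneg (fun b hb => (Finset.mem_filter.1 hb).2)
        fun b _ _ => Real.rpow_nonneg (log_nn b) _
    have s2 : ∑ b ∈ (Finset.Ioc p0 m).filter Nat.Prime,
        (if BadB X.c.γ (Bab X.c.t q b) b then (b:ℝ) ^ (-(1/7):ℝ) else 0) ≤ 1 := by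
      rw [← Finset.sum_filter]
      exact g4.trans g5
    linarith
  -- missing ties
  have a2 : ∑ s ∈ (X.c.t.mt q).filter (fun s => s ≤ m), gM κ s ≤ 2 * (1 / 20) := by
    calc ∑ s ∈ (X.c.t.mt q).filter (fun s => s ≤ m), gM κ s ≤ ∑ s ∈ X.c.t.mt q, gM κ s :=
          Finset.sum_le_sum_of_subset_of_nonneg (Finset.filter_subset _ _)
            fun s _ _ => gM_nonneg κ s
      _ = 2 * ∑ s ∈ X.c.t.mt q, Real.log s ^ (-κ) := by unfold gM; rw [Finset.mul_sum]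
      _ ≤ 2 * (1 / 20) := by linarith
  -- ranges
  have a3 : ∑ k ∈ Finset.Ico (rg p0) (rg m), ((2:ℝ) ^ k) ^ (-(2:ℝ)) ≤ 2 := by
    have e : ∀ k ∈ Finset.Ico (rg p0) (rg m), ((2:ℝ) ^ k) ^ (-(2:ℝ)) ≤ (1 / 2 : ℝ) ^ k := by
      intro k _
      have h2k : (1:ℝ) ≤ 2 ^ k := one_le_pow₀ (by norm_num)
      have : ((2:ℝ) ^ k) ^ (-(2:ℝ)) ≤ ((2:ℝ) ^ k) ^ (-(1:ℝ)) :=
        Real.rpow_le_rpow_of_exponent_le h2k (by norm_num)
      refine this.trans (le_of_eq ?_)
      rw [Real.rpow_neg_one, one_div, inv_pow]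
    refine (Finset.sum_le_sum e).trans ((RseN630.geo_fin 0 _ fun k _ => Nat.zero_le k).trans ?_)
    norm_num
  -- dyadic scales
  have a4 : ∑ k ∈ Finset.Ico (Nat.log 2 p0) (Nat.log 2 m), gD K k ≤ 4 := by
    have hl2 : (1:ℝ) / 2 ≤ Real.log 2 := by
      have := Real.log_two_gt_d9; linarith
    have hk4 : 4 ≤ Nat.log 2 p0 := by
      have : Nat.log 2 16 ≤ Nat.log 2 p0 := Nat.log_mono_right (by omega)
      have h16 : Nat.log 2 16 = 4 := by
        rw [show (16:ℕ) = 2 ^ 4 by norm_num, Nat.log_pow (by norm_num)]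
      omega
    have e : ∀ k ∈ Finset.Ico (Nat.log 2 p0) (Nat.log 2 m), gD K k ≤ 4 * (1 / (k:ℝ) ^ 2) := by
      intro k hk
      have hk1 := (Finset.mem_Ico.1 hk).1
      have hk2 : (4:ℝ) ≤ k := by exact_mod_cast hk4.trans hk1
      have hx : (k:ℝ) / 2 ≤ k * Real.log 2 := by nlinarith
      have hx1 : 1 ≤ (k:ℝ) * Real.log 2 := by linarith
      unfold gD
      have s1 : ((k:ℝ) * Real.log 2) ^ (-K) ≤ ((k:ℝ) * Real.log 2) ^ (-(2:ℝ)) :=
        Real.rpow_le_rpow_of_exponent_le hx1 (by linarith)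
      have s2 : ((k:ℝ) * Real.log 2) ^ (-(2:ℝ)) ≤ ((k:ℝ) / 2) ^ (-(2:ℝ)) :=
        Real.rpow_le_rpow_of_nonpos (by linarith) hx (by norm_num)
      refine s1.trans (s2.trans (le_of_eq ?_))
      rw [Real.rpow_neg (by linarith), show ((2:ℝ)) = ((2:ℕ):ℝ) by norm_num, Real.rpow_natCast]
      push_cast
      field_simp
      ring
    refine (Finset.sum_le_sum e).trans ?_
    rw [← Finset.mul_sum]
    have := RseN630.sqI (P := 3) (by norm_num) (Finset.Ico (Nat.log 2 p0) (Nat.log 2 m))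
      (fun b hb => by have := (Finset.mem_Ico.1 hb).1; omega)
    push_cast at this
    linarith
  have a5 : Real.log p0 ^ (-κ) ≤ 1 :=
    Real.rpow_le_one_of_one_le_of_nonpos hlp.le (by linarith)
  unfold Phi
  linarith

/-! ### the final part -/

section fin
variable {γ : ℝ} {p0 P₀ : ℕ} {X : Ctx N γ p0 P₀}

lemma eD_dead {K κ a : ℝ} {p : ℕ} {u : NS} {τ : IT} {j : X.c.Lam} (hj : j.1.1 ∉ X.S') :
    eD X K κ a p u τ j = 0 := by
  unfold eD
  rw [if_neg hj]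

/-- the charges of the dead items vanish -/
lemma e1_dead {K κ a : ℝ} {j : X.c.Lam} (hj : j.1.1 ∉ X.S') (t : IT) :
    ∀ u : NS, e1 X K κ a u t j = 0 := by
  induction t with
  | leaf S => intro u; rfl
  | br p Sp t₁ t₀ ih₁ ih₀ =>
    intro u
    show (if j.1.1 ∈ t₀.items then eD X K κ a p _ _ j else eD X K κ a p _ _ j) = 0
    rw [eD_dead hj, eD_dead hj, ite_self]
  | add b t₁ t₀ ih₁ ih₀ =>
    intro u
    show 0 + (if j.1.1 ∈ t₀.items then eD X K κ a b _ _ j else eD X K κ a b _ _ j) = 0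
    rw [eD_dead hj, eD_dead hj, ite_self, add_zero]
  | up b S t ih => intro u; exact ih _
  | pl b t ih =>
    intro u
    show eD X K κ a b _ _ j = 0
    exact eD_dead hj
  | far b t₁ t₀ ih₁ ih₀ =>
    intro u
    show 0 + (if j.1.1 ∈ t₀.items then eD X K κ a b _ _ j else eD X K κ a b _ _ j) = 0
    rw [eD_dead hj, eD_dead hj, ite_self, add_zero]

lemma ch_dead {e : NS → IT → X.c.Lam → ℝ} {j : X.c.Lam} (he : ∀ u t, e u t j = 0) (t : IT) :
    ∀ u : NS, chE X.c.D.it e u t j = 0 := by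
  induction t with
  | leaf S => intro u; rfl
  | br p Sp t₁ t₀ ih₁ ih₀ =>
    intro u
    simp only [chE]
    rw [he, ih₁, ih₀, ite_self, add_zero]
  | add b t₁ t₀ ih₁ ih₀ =>
    intro u
    simp only [chE]
    rw [he, ih₁, ih₀, ite_self, add_zero]
  | up b S t ih => intro u; exact ih _
  | pl b t ih =>
    intro u
    simp only [chE]
    rw [he, ih, add_zero]
  | far b t₁ t₀ ih₁ ih₀ =>
    intro u
    simp only [chE]
    rw [he, ih₁, ih₀, ite_self, add_zero]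

lemma chE_lf {e : NS → IT → X.c.Lam → ℝ} {j : X.c.Lam} (t : IT) :
    ∀ u : NS, isL (hd t) → chE X.c.D.it e u t j = 0 := by
  induction t with
  | leaf S => intro u _; rfl
  | up b S t ih => intro u h; exact ih _ h
  | _ => intro u h; exact h.elim

end fin

/-- **the path sum of the charges of the children is at most `a + 12`** at all the nodes -/
theorem path_le (N : Skel189.Num) {K κ : ℝ} (hK : N.B + 2 ≤ K) (hk : N.C1 + N.c2 + 2 ≤ κ)
    (hkK : κ ≤ K) : ∃ p₁ : ℕ, ∀ p0 ≥ p₁, ∀ (γ : ℝ)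
    (P₀ : ℕ) (X : Ctx N γ p0 P₀), RG X → ∀ a : ℝ, 0 ≤ a →
      All (fun u τ => ∀ j : X.c.Lam, j.1.1 ∈ τ.items → chE X.c.D.it (e1 X K κ a) u τ j ≤ a + 12)
        ⟨top X.S, 1, 1, 1⟩ X.c.t := by
  have hB := N.hB
  have hC1 := N.hC1
  have hc2 := N.hc2
  obtain ⟨p1, h1⟩ := Phi_le N hK hk
  refine ⟨p1 + 3, fun p0 hp0 γ P₀ X hR a ha => ?_⟩
  have hall := path_all (X := X) (K := K) (κ := κ) (a := a) (by linarith) (by linarith) hkK ha
    (by omega) hR X.c.t _ (ctx_PF X)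
  refine All.mono (fun u τ h j hj => ?_) hall
  by_cases hq : j.1.1 ∈ X.S'
  · by_cases hl : isL (hd τ)
    · rw [(h j hj).1 hl]; linarith
    · have k1 := (h j hj).2 hl
      have k2 := h1 p0 (by omega) γ P₀ X a j.1.1 hq (tp (hd τ))
      have k3 : 0 ≤ Real.log (tp (hd τ)) ^ (-κ) := Real.rpow_nonneg (log_nn _) _
      linarith
  · rw [ch_dead (fun u t => e1_dead hq t u) τ u]
    linarith

/-- **the charges of the cross terms** along the paths, at all the nodes -/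
def ZOk {γ : ℝ} {p0 P₀ : ℕ} (X : Ctx N γ p0 P₀) (ζ : ℕ → NS → IT → IT → X.c.Lam → ℝ) (z : ℝ) :
    Prop :=
  All (fun u τ => ∀ j : X.c.Lam, j.1.1 ∈ τ.items →
    chE X.c.D.it (eC X (fun _ _ _ _ => 0) ζ) u τ j ≤ z) ⟨top X.S, 1, 1, 1⟩ X.c.t

/-- **`dseR` at all the nodes of a context**, any population -/
theorem node_dse (N : Skel189.Num) {K κ : ℝ} (hK : N.B + 2 ≤ K) (hk : N.C1 + N.c2 + 2 ≤ κ)
    (hkK : κ ≤ K) : ∃ p₁ : ℕ, ∀ p0 ≥ p₁, ∀ (γ : ℝ)
    (P₀ : ℕ) (X : Ctx N γ p0 P₀), RG X → ∀ (a z : ℝ), 0 ≤ a →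
      ∀ ζ : ℕ → NS → IT → IT → X.c.Lam → ℝ, ZOk X ζ z →
      All (fun u τ => ∀ A : Finset X.c.Lam,
        All (KidsOk X X.Y A (Frame758.wt X.c.D) (eD X K κ a) ζ) u τ →
        Crest.Agent.R4.ClosR758.dseR A (X.g u τ) ≤
          (a + 12 + z) * (u.c * ∑ j ∈ A.filter (fun j => X.c.D.it j ∈ τ.items),
            Frame758.wt X.c.D j)) ⟨top X.S, 1, 1, 1⟩ X.c.t := by
  obtain ⟨p1, h1⟩ := path_le N hK hk hkK
  refine ⟨p1, fun p0 hp0 γ P₀ X hR a z ha ζ hz => ?_⟩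
  have hN := Crest.Agent.R4P.Step588.All_All X.c.t _ (ctx_NDt X)
  refine All.mono (fun u τ hh A hk => ?_)
    ((((h1 p0 hp0 γ P₀ X hR a ha).and hz).and (ctx_cpos X)).and hN)
  obtain ⟨⟨⟨k1, k2⟩, hc⟩, hn⟩ := hh
  have hl := LocD_of (Y := X.Y) (A := A) (W := Frame758.wt X.c.D) (ε := eD X K κ a) (ζ := ζ) τ u hn hk
  have key := dse_le (X.c.D.par X.Y) (W := Frame758.wt X.c.D) (fun j => wt_nonneg X j) (A := A)
    (e := eC X (eD X K κ a) ζ) (t := τ) (s := u) hc.le hn.self.fit hl (η := a + 12 + z)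
    (fun j _ hj => by
      have e := chE_add (X := X) X.c.D.it (e := eC X (eD X K κ a) ζ)
        (e₁ := eC X (eD X K κ a) (fun _ _ _ _ _ => 0)) (e₂ := eC X (fun _ _ _ _ => 0) ζ)
        (fun u t j => eC_add (eD X K κ a) ζ t u j) τ u j
      show chE X.c.D.it (eC X (eD X K κ a) ζ) u τ j ≤ a + 12 + z
      rw [e]
      have := k1 j hj
      have := k2 j hj
      linarith)
  exact key

/-- **the part `dseR` of the node errors**, population `univ` -/
theorem part_dse (N : Skel189.Num) {K κ : ℝ} (hK : N.B + 2 ≤ K) (hk : N.C1 + N.c2 + 2 ≤ κ)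
    (hkK : κ ≤ K) : ∃ p₁ : ℕ, ∀ p0 ≥ p₁, ∀ (γ : ℝ)
    (P₀ : ℕ) (X : Ctx N γ p0 P₀), RG X → ∀ (a z : ℝ), 0 ≤ a → 0 ≤ z →
      ∀ ζ : ℕ → NS → IT → IT → X.c.Lam → ℝ, ZOk X ζ z → ∀ (j₀ : X.c.Lam) (Hb : NS → IT → Prop),
      All (fun u τ => ¬ Crest.Agent.R4P.ClosP542.PulG (X.g u τ) → Hb u τ →
        All (KidsOk X X.Y Finset.univ (Frame758.wt X.c.D) (eD X K κ a) ζ) u τ)
        ⟨top X.S, 1, 1, 1⟩ X.c.t →
      SkelF29.PartF X j₀ Hb (fun u τ A => Crest.Agent.R4.ClosR758.dseR A (X.g u τ)) (a + 12 + z) := by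
  obtain ⟨p1, h1⟩ := node_dse N hK hk hkK
  refine ⟨p1, fun p0 hp0 γ P₀ X hR a z ha hz0 ζ hz j₀ Hb hk => ?_⟩
  refine All.mono (fun u τ hh hp hb => ?_)
    ((((h1 p0 hp0 γ P₀ X hR a z ha ζ hz).and (ctx_tM X j₀)).and (ctx_mumu X j₀)).and hk)
  obtain ⟨⟨⟨k1, k2⟩, k3⟩, k4⟩ := hh
  refine (k1 Finset.univ (k4 hp hb)).trans (mul_le_mul_of_nonneg_left ?_ (by linarith))
  have e : X.mu j₀ u τ Finset.univ =
      u.c * ∑ j ∈ Finset.univ.filter (fun j => X.c.D.it j ∈ τ.items), Frame758.wt X.c.D j :=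
    k2 Finset.univ
  rw [← e]
  have := (k3 Finset.univ).2
  linarith

end num

end Crest.Agent.R4P.DseFin21
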