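import Crest.Agent.R4P.EndD_23
import Crest.Agent.R4P.DseW_7
import Crest.Agent.R4P.FarEnd_7

/-!
R4 (S0004), powers pass, helper7: **the target `TgtD` of [W-dseR] for the final numbers**, no hypothesis
left (`DseW7.wL` : the lost labels, `FarPay7.tfar` : the far nodes).
-/

set_option autoImplicit false

namespace Crest.Agent.R4P.TgtDF7

open Crest.Agent.R4P.Skel189 Crest.Agent.R4P.ParF5 Crest.Agent.R4P.ParT21
open Crest.Agent.R4P.FinAll26 (TgtD NumFin)
open Crest.Agent.R4P.NumG23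

/-- **[W-dseR]** : `TgtD` for the thinness `thF` and the prune `SxF` -/
theorem tgtD_fin : ∃ c : ℝ, ∀ (N : Skel189.Num) (Ct C₀ γ : ℝ),
    NumOK N (thF Ct) Ct C₀ (SxF γ N.C1) → NumFin N (thF Ct) Ct c → NumG N → TgtD N γ :=
  EndD23.tgtD_end DseW7.wL ⟨0, fun N Ct C₀ γ h _ _ => FarPay7.tfar h γ⟩

end Crest.Agent.R4P.TgtDF7
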