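import Crest.Agent.R4P.RsCtx_19
import Crest.Agent.R4P.ChU8_17
import Crest.Agent.R4P.TgtDF_7

/-!
R4 (S0004), [W-eSHR] / TgtCrs, helper19: **the linear sum of the in-node one-index energies of the nodes
is at most `a (mu + mu^2)`, for the final numbers**.

* `TgtSd` : `SSd (rho) (X.self u τ A).t ≤ a (mu + mu^2)` at the non pull nodes; `tgtSd_fin`.
-/

set_option autoImplicit false
set_option linter.unusedSectionVars false
set_option linter.unusedVariables false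
open MeasureTheory Filter

namespace Crest.Agent.R4P.RsFin19

open Crest.Agent.R4P.Cnt588 Crest.Agent.R4P.Item758 Crest.Agent.R4P.W363
open Crest.Agent.R4P.Data758 Crest.Agent.R4P.LfDat734
open Crest.Agent.R4P.Bld532 (NS All NodeOk Bk Ws_nonneg)
open Crest.Agent.R4P.Skel189
open Crest.Agent.R4P.Fin5 (CF)
open Crest.Agent.R4P.FinE26 (ForN)
open Crest.Agent.R4P.FinAll26 (NumFin Ev_P2 TgtD)
open Crest.Agent.R4P.ParF5 Crest.Agent.R4P.NumX34 Crest.Agent.R4P.ParT21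
open Crest.Agent.R4P.NumG23
open Crest.Agent.R4P.SkelF29 (PartF)
open Crest.Agent.R4P.RsSum19 Crest.Agent.R4P.RsFut19 Crest.Agent.R4P.RsCtx19
open Crest.Agent.R4.Soft104 (w)

/-- **the linear sum of the one-index energies at the nodes** -/
def TgtSd (N : Skel189.Num) (γ : ℝ) : Prop :=
  ∃ a : ℝ, 0 ≤ a ∧ Ev N γ fun p0 P₀ X => CF X → ∀ (j₀ : X.c.Lam) (Hb : NS → IT → Prop),
    PartF X j₀ Hb (fun u τ A => SSd (X.c.D.par X.Y).rho (X.self u τ A).t) a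

/-- **for the final numbers** -/
theorem tgtSd_fin : ForN ParT21.thF NumG23.SxF TgtSd := by
  obtain ⟨c1, HD⟩ := TgtDF7.tgtD_fin
  obtain ⟨c3, HL⟩ := LfK244.tgtLK_fin
  obtain ⟨c4, HA⟩ := ChU17.ka_fin
  obtain ⟨c5, HT⟩ := ChU17.tds_fin
  refine ⟨max (max c1 10) (max c3 (max c4 c5)), fun N Ct C₀ γ h hN hG => ?_⟩
  have w1 : NumFin N (thF Ct) Ct c1 :=
    Crest.Agent.R4P.EndD23.NumFin.weaken hN ((le_max_left _ _).trans (le_max_left _ _))
  have w2 : NumFin N (thF Ct) Ct 10 :=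
    Crest.Agent.R4P.EndD23.NumFin.weaken hN ((le_max_right _ _).trans (le_max_left _ _))
  have w3 : NumFin N (thF Ct) Ct c3 :=
    Crest.Agent.R4P.EndD23.NumFin.weaken hN ((le_max_left _ _).trans (le_max_right _ _))
  have w4 : NumFin N (thF Ct) Ct c4 :=
    Crest.Agent.R4P.EndD23.NumFin.weaken hN
      (((le_max_left _ _).trans (le_max_right _ _)).trans (le_max_right _ _))
  have w5 : NumFin N (thF Ct) Ct c5 :=
    Crest.Agent.R4P.EndD23.NumFin.weaken hN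
      (((le_max_right _ _).trans (le_max_right _ _)).trans (le_max_right _ _))
  have hB0 : 0 ≤ N.B := by have := N.hB; have := N.hC1; have := N.hc2; linarith
  set K : ℝ := 2 * N.B + 2 with hK
  have hK0 : 0 ≤ K := by rw [hK]; linarith
  obtain ⟨a, ha, qD, HD⟩ := HD N Ct C₀ γ h w1 hG
  obtain ⟨Ke, hKe, qL, HL⟩ := HL N Ct C₀ γ h w3 hG
  obtain ⟨qA, HA⟩ := HA N Ct C₀ γ h w4 hG
  obtain ⟨qT, HT⟩ := HT N Ct C₀ γ h w5 hG
  obtain ⟨q1, H1⟩ := RSK17.ctx_GR h w2 hG le_rfl K (κ := 1) one_pos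
  obtain ⟨q2, H2⟩ := DseKid23.ctx_KB N
  obtain ⟨qf, Hf⟩ := fq_le N (K := K) le_rfl
  refine ⟨a + (Ke + 3) + 13, by linarith, qD + qL + qA + qT + q1 + q2 + qf + 3, fun p0 hp0 => ?_⟩
  obtain ⟨rD, HD⟩ := HD p0 (by omega)
  obtain ⟨rL, HL⟩ := HL p0 (by omega)
  obtain ⟨rA, HA⟩ := HA p0 (by omega)
  obtain ⟨rT, HT⟩ := HT p0 (by omega)
  refine ⟨rD + rL + rA + rT + 2, fun P₀ hP X hC j₀ Hb => ?_⟩
  have hP2 : 2 ≤ P₀ := by omega
  have k1 := HD P₀ (by omega) X hC j₀ Hb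
  have k2 := HL P₀ (by omega) X hC
  have k3 := HA P₀ (by omega) X
  have k4 := HT P₀ (by omega) X
  have k5 := RSK17.rkid_all (H1 p0 (by omega) P₀ hP2 X) _ _ (H2 p0 (by omega) γ P₀ hP2 X)
  have key := ctx_SSg X j₀ (by omega) hK0 hKe (Hf p0 (by omega) γ P₀ X) k5 k2 k3
  unfold PartF at k1 ⊢
  refine All.mono (fun u τ hh hp hb => ?_)
    (((k1.and key).and (k4.and (ctx_mumu X j₀))).and ((Step588.ctx_NDt X).and
      (CtxX26.ctx_nu X j₀)))
  obtain ⟨⟨⟨g1, g2⟩, g3, g4⟩, hn, -, g5⟩ := hh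
  have m3 := g1 hp hb
  have m7 : 0 ≤ X.mu j₀ u τ Finset.univ * X.mu j₀ u τ Finset.univ := mul_self_nonneg _
  have m0 : 0 ≤ X.mu j₀ u τ Finset.univ := (g4 Finset.univ).1
  have e2 : X.mu j₀ u τ Finset.univ = X.tm j₀ (X.g u τ) Finset.univ := rfl
  have hok : (X.g u τ).Ok :=
    (X.c.D.par X.Y).toG_Ok hn.B_pos hn.fit (Crest.Agent.R4P.RseNd23.node_wts hn X.Y)
  have hok' : ((X.c.D.par X.Y).toDT X.c.sp u.B u.A τ).g.Ok := by rw [toDT_g']; exact hok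
  have s1 := SSd_le_add (wr := (X.c.D.par X.Y).rho) _ hok'
  rw [← g5, ← e2] at g3
  rw [← e2] at g2
  have e3 : SSd (X.c.D.par X.Y).rho (X.self u τ Finset.univ).t =
      SSd (X.c.D.par X.Y).rho ((X.c.D.par X.Y).toDT X.c.sp u.B u.A τ) := rfl
  show SSd (X.c.D.par X.Y).rho (X.self u τ Finset.univ).t ≤ _
  rw [e3]
  refine s1.trans ?_
  clear_value K
  have m3' : Crest.Agent.R4.ClosR758.dseR Finset.univ (X.g u τ) ≤ a * (X.mu j₀ u τ Finset.univ +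
    X.mu j₀ u τ Finset.univ * X.mu j₀ u τ Finset.univ) := m3
  have n1 := mul_nonneg (show (0:ℝ) ≤ Ke + 3 + 13 by linarith) m7
  nlinarith

end Crest.Agent.R4P.RsFin19
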