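import Crest.Agent.R4P.CtxCP_9
import Crest.Agent.R4P.RsFin_19
import Crest.Agent.R4P.FinEB_25

/-!
R4 (S0004) with powers, helper26: **`TgtCrsE (1/16)` for the final numbers**, and the statement of
S0004 from the single remaining target `TgtTopE (1/16)` (or `TgtTopPB (1/16) Sy`).

* `tgtSSd_fin` : `SSd ≤ a (μ + μ²)` (`RsFin19.tgtSd_fin` with the trivial node hypothesis).
* **`tgtCrsE_fin`** : `ForN ParT21.thF NumG23.SxF (TgtCrsE ε)` for every `ε > 0`.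
* **`S0004_top`**, **`S0004_topPB`** : S0004 from the top target alone.
-/

set_option autoImplicit false
set_option linter.unusedSectionVars false
set_option linter.unusedVariables false
open MeasureTheory Filter

namespace Crest.Agent.R4P.CrsFin26

open Crest.Agent.R4P.FinE26 (ForN)
open Crest.Agent.R4P.CrsG29 (forN_mono)
open Crest.Agent.R4P.FinEE26 (TgtCrsE TgtTopE)
open Crest.Agent.R4P.FinEB25 (TgtTopPB)
open Crest.Agent.R4P.SxT6 (MassP)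
open Crest.Agent.R4P.CtxCP9 (TgtSSd SSdAt forN_tgtCrsE_SSd)
open Crest.Agent.R4P.Bld532 (NS All)
open Crest.Agent.R4P.Skel189

/-- **the tree sums are paid, for the final numbers** -/
theorem tgtSSd_fin : ForN ParT21.thF NumG23.SxF TgtSSd := by
  refine forN_mono RsFin19.tgtSd_fin fun N γ h => ?_
  obtain ⟨a, ha, h⟩ := h
  exact ⟨a, ha, h.mono fun p0 P₀ X hh hC j₀ =>
    All.mono (fun u τ k hp => k hp trivial) (hh hC j₀ fun _ _ => True)⟩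

/-- **`TgtCrsE` for the final numbers** -/
theorem tgtCrsE_fin {ε : ℝ} (hε : 0 < ε) : ForN ParT21.thF NumG23.SxF (TgtCrsE ε) :=
  forN_tgtCrsE_SSd hε tgtSSd_fin

/-- **S0004 from `TgtTopE (1/16)`** -/
theorem S0004_top (hTo : ForN ParT21.thF NumG23.SxF (TgtTopE (1 / 16))) (γ : ℝ) (ψ : ℕ → ℝ)
    (hψ : ∀ q, 0 ≤ ψ q) (hdiv : ¬ Summable fun q : ℕ => (Nat.totient q : ℝ) / q * ψ q) :
    ∀ᵐ x : ℝ, ∃ᶠ q : ℕ in atTop, |(q : ℝ) * x - γ - round ((q : ℝ) * x - γ)| < ψ q :=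
  FinEE26.S0004_2e hTo (tgtCrsE_fin (by norm_num)) γ ψ hψ hdiv

/-- **S0004 from `TgtTopPB (1/16) Sy`** -/
theorem S0004_topPB {Sy : ℝ → ℝ → ℕ → (ℕ → ℝ) → Finset ℕ → Finset ℕ} {cS : ℝ}
    (hSy : ∀ γ C1 : ℝ, cS ≤ C1 → MassP (Sy γ C1))
    (hTo : ForN ParT21.thF NumG23.SxF (TgtTopPB (1 / 16) Sy)) (γ : ℝ) (ψ : ℕ → ℝ)
    (hψ : ∀ q, 0 ≤ ψ q) (hdiv : ¬ Summable fun q : ℕ => (Nat.totient q : ℝ) / q * ψ q) :
    ∀ᵐ x : ℝ, ∃ᶠ q : ℕ in atTop, |(q : ℝ) * x - γ - round ((q : ℝ) * x - γ)| < ψ q :=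
  FinEB25.S0004_PB1 hSy hTo (tgtCrsE_fin (by norm_num)) γ ψ hψ hdiv

end Crest.Agent.R4P.CrsFin26
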