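import Crest.Agent.R4P.SkelE_26
import Crest.Agent.R4P.End2_26

/-!
R4 (S0004), POWERS, helper26, [W-eSHR] / [M8]: **MAIN and S0004 from the targets with absorption**.

* `PartTE X j₀ Hb loc ε a` : the flagged walk of `loc` is at most `a (μ + μ²) + ε I (tot²)`;
  `TgtWE`, `TgtTopE ε`, `TgtCrsE ε`; `TgtW.toE`.
* `MAIN_EE`, `S0004_EE`, `S0004_2e` : **S0004 from `TgtTopE (1/16)` and `TgtCrsE (1/16)`**.
-/

set_option autoImplicit false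
set_option linter.unusedSectionVars false
set_option linter.unusedVariables false

open MeasureTheory Filter

namespace Crest.Agent.R4P.FinEE26

open Crest.Agent.R4.Tour104 Crest.Agent.R4.Tour758 Crest.Agent.R4.Avg758 Crest.Agent.R4.Clos758
open Crest.Agent.R4.ClosL758 Crest.Agent.R4.ClosG758 Crest.Agent.R4.ClosR758
open Crest.Agent.R4.Fam464 Crest.Agent.R4P.Cnt588 Crest.Agent.R4P.Walk560 Crest.Agent.R4P.Item758
open Crest.Agent.R4.Soft104 Crest.Agent.R4.Max709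
open Crest.Agent.R4P.Bld532 (NS All NodeOk)
open Crest.Agent.R4P.Data758 Crest.Agent.R4P.SkelF29 Crest.Agent.R4P.Strip29
open Crest.Agent.R4P.Skel189 Crest.Agent.R4P.OSWS245 Crest.Agent.R4P.ParF5 Crest.Agent.R4P.Fin5
open Crest.Agent.R4P.NumX34
open Crest.Agent.R4.Fin532 (MAIN)
open Crest.Agent.R4P.PayA26 Crest.Agent.R4P.FinX26 Crest.Agent.R4P.Mrg35 Crest.Agent.R4P.PayR26
open Crest.Agent.R4P.KindPay36 (CA KOk)
open Crest.Agent.R4P.AccAl31 (alX)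
open Crest.Agent.R4P.FinAll26 Crest.Agent.R4P.TW17 Crest.Agent.R4P.StripT26
open Crest.Agent.R4P.SkelE26 Crest.Agent.R4P.FrameT26 Crest.Agent.R4P.FinT26 Crest.Agent.R4P.FinE26
open Crest.Agent.R4P.TE26 Crest.Agent.R4P.StripE26
open Crest.Agent.R4P.NumG23 (exists_numFinG NumG)
open Crest.Agent.R4P

variable {N : Skel189.Num} {γ : ℝ}

/-- the part of a local error of the flagged walk, with `ε` of the energy of the node -/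
def PartTE {N : Skel189.Num} {γ : ℝ} {p0 P₀ : ℕ} (X : Ctx N γ p0 P₀) (j₀ : X.c.Lam)
    (Hb : NS → IT → Prop) (loc : Fl × X.Sta → ℝ) (ε η : ℝ) : Prop :=
  PartF X j₀ Hb (fun u τ A => WF (SXN X j₀) loc (Fl.self, X.self u τ A) -
    ε * I (fun x => tt A (X.g u τ) x ^ 2)) η

/-- **a local error of the flagged walk is paid**, with `ε` of the energy of the node -/
def TgtWE (ε : ℝ) (N : Skel189.Num) (γ : ℝ)
    (loc : ∀ {p0 P₀ : ℕ} (X : Ctx N γ p0 P₀) (j₀ : X.c.Lam), Fl × X.Sta → ℝ) : Prop :=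
  ∃ a : ℝ, 0 ≤ a ∧ Ev N γ fun p0 P₀ X => CF X → ∀ (j₀ : X.c.Lam) (Hb : NS → IT → Prop),
    PartTE X j₀ Hb (loc X j₀) ε a

/-- the two-sided columns of the top states -/
def TgtTopE (ε : ℝ) (N : Skel189.Num) (γ : ℝ) : Prop := TgtWE ε N γ fun X j₀ => xC (SXN X j₀)

/-- the crossing states of the top states -/
def TgtCrsE (ε : ℝ) (N : Skel189.Num) (γ : ℝ) : Prop :=
  TgtWE ε N γ fun X j₀ => xX (X.c.D.par X.Y).rho (SXN X j₀)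

lemma PartT.toE {p0 P₀ : ℕ} {X : Ctx N γ p0 P₀} {j₀ : X.c.Lam} {Hb : NS → IT → Prop}
    {loc : Fl × X.Sta → ℝ} {a ε : ℝ} (hε : 0 ≤ ε) (h : PartT X j₀ Hb loc a) :
    PartTE X j₀ Hb loc ε a :=
  All.mono (fun u τ hh hp hb => by
    have h1 := hh hp hb
    have h2 : 0 ≤ ε * I (fun x => tt Finset.univ (X.g u τ) x ^ 2) :=
      mul_nonneg hε (I_nonneg fun x => sq_nonneg _)
    exact le_trans (sub_le_self _ h2) h1) h

lemma TgtW.toE {ε : ℝ} (hε : 0 ≤ ε)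
    {loc : ∀ {p0 P₀ : ℕ} (X : Ctx N γ p0 P₀) (j₀ : X.c.Lam), Fl × X.Sta → ℝ}
    (h : TgtW N γ loc) : TgtWE ε N γ loc := by
  obtain ⟨a, ha, h⟩ := h
  exact ⟨a, ha, h.mono fun p0 P₀ X hh hC j₀ Hb => PartT.toE hε (hh hC j₀ Hb)⟩

/-- **the error of the certificate with terminal exits in a context, with absorption** -/
theorem part_eTE {p0 P₀ : ℕ} {X : Ctx N γ p0 P₀} {j₀ : X.c.Lam} {Hb : NS → IT → Prop} {B : ℝ}
    {a3 a6 a7 b1 b2 b3 b4 : ℝ}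
    (h3 : PartWF X j₀ Hb (SXN X j₀) (eNM (SXN X j₀)) a3)
    (h6 : PartWF X j₀ Hb (SXN X j₀) (eXR (SXN X j₀) (X.c.D.par X.Y).rho (X.tm j₀) B) a6)
    (h7 : PartWF X j₀ Hb (SXN X j₀) (eSTOP (SXN X j₀) (X.tm j₀) (X.tn j₀) B) a7)
    (k1 : PartT X j₀ Hb (xS (X.c.D.par X.Y).rho (SXN X j₀)) b1)
    (k2 : PartTE X j₀ Hb (xC (SXN X j₀)) (1 / 16) b2)
    (k3 : PartTE X j₀ Hb (xX (X.c.D.par X.Y).rho (SXN X j₀)) (1 / 16) b3)
    (k4 : PartT X j₀ Hb (xT (SXN X j₀) (X.tm j₀) (X.tn j₀) B) b4) :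
    PartTE X j₀ Hb (eT (SXN X j₀) (X.tm j₀) (X.tn j₀) B) (1 / 8)
      (a3 + a6 + a7 + (b1 + b2 + b3 + b4)) := by
  have k : PartF X j₀ Hb (fun u τ A => ((WS (SXN X j₀) (eNM (SXN X j₀)) (X.self u τ A) +
      WS (SXN X j₀) (eXR (SXN X j₀) (X.c.D.par X.Y).rho (X.tm j₀) B) (X.self u τ A)) +
      WS (SXN X j₀) (eSTOP (SXN X j₀) (X.tm j₀) (X.tn j₀) B) (X.self u τ A)) +
      (((WF (SXN X j₀) (xS (X.c.D.par X.Y).rho (SXN X j₀)) (Fl.self, X.self u τ A) +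
      (WF (SXN X j₀) (xC (SXN X j₀)) (Fl.self, X.self u τ A) -
        1 / 16 * I (fun x => tt A (X.g u τ) x ^ 2))) +
      (WF (SXN X j₀) (xX (X.c.D.par X.Y).rho (SXN X j₀)) (Fl.self, X.self u τ A) -
        1 / 16 * I (fun x => tt A (X.g u τ) x ^ 2))) +
      WF (SXN X j₀) (xT (SXN X j₀) (X.tm j₀) (X.tn j₀) B) (Fl.self, X.self u τ A)))
      (a3 + a6 + a7 + (b1 + b2 + b3 + b4)) :=
    PartF.add (PartF.add (PartF.add h3 h6) h7) (PartF.add (PartF.add (PartF.add k1 k2) k3) k4)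
  refine All.mono (fun u τ hh hp hb => ?_) (All.and k (ctx_side X j₀))
  have key := WF_eT_le (Ad := Item758.AdI (X.c.D.par X.Y).it) (μ := X.tm j₀) (ν := X.tn j₀)
      (wr := (X.c.D.par X.Y).rho) (stp := SXN X j₀) (B := B) (SXN_jt' X j₀)
      (z := (Fl.self, X.self u τ Finset.univ)) ⟨u.n, Inv_self hh.2.2⟩ (fun _ => Diag.self _ _)
  rw [WF_xFE] at key
  have key' : WF (SXN X j₀) (eT (SXN X j₀) (X.tm j₀) (X.tn j₀) B)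
        (Fl.self, X.self u τ Finset.univ) ≤
      ((WS (SXN X j₀) (eNM (SXN X j₀)) (X.self u τ Finset.univ) +
      WS (SXN X j₀) (eXR (SXN X j₀) (X.c.D.par X.Y).rho (X.tm j₀) B) (X.self u τ Finset.univ)) +
      WS (SXN X j₀) (eSTOP (SXN X j₀) (X.tm j₀) (X.tn j₀) B) (X.self u τ Finset.univ)) +
      (((WF (SXN X j₀) (xS (X.c.D.par X.Y).rho (SXN X j₀)) (Fl.self, X.self u τ Finset.univ) +
      WF (SXN X j₀) (xC (SXN X j₀)) (Fl.self, X.self u τ Finset.univ)) +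
      WF (SXN X j₀) (xX (X.c.D.par X.Y).rho (SXN X j₀)) (Fl.self, X.self u τ Finset.univ)) +
      WF (SXN X j₀) (xT (SXN X j₀) (X.tm j₀) (X.tn j₀) B) (Fl.self, X.self u τ Finset.univ)) := key
  have h1 := hh.1 hp hb
  beta_reduce at h1
  show WF (SXN X j₀) (eT (SXN X j₀) (X.tm j₀) (X.tn j₀) B) (Fl.self, X.self u τ Finset.univ) -
    1 / 8 * I (fun x => tt Finset.univ (X.g u τ) x ^ 2) ≤ _
  linarith

/-- **`MAIN` from the targets of the walk with terminal exits** -/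
theorem MAIN_EE {th : ℕ → ℕ → ℝ} {Ct C₀ : ℝ}
    {Sx : ℕ → (ℕ → ℝ) → Finset ℕ → Finset ℕ} (h : NumOK N th Ct C₀ Sx) (hX : TgtX N γ)
    (hSe : TgtSelf N γ) (hTo : TgtTopE (1 / 16) N γ) (hCr : TgtCrsE (1 / 16) N γ)
    (hL : TgtL N γ) (hD : TgtD N γ) : MAIN γ := by
  obtain ⟨C, Ce, K₁, s₁, s₂, B₁, A, hk, hA, hX⟩ := hX
  obtain ⟨b1, hb1, hSe⟩ := hSe
  obtain ⟨b2, hb2, hTo⟩ := hTo
  obtain ⟨b3, hb3, hCr⟩ := hCr
  obtain ⟨B₃, b4, hb4, hL⟩ := hL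
  obtain ⟨a', ha', hD⟩ := hD
  obtain ⟨pX, hpX⟩ := part_eXR N (Ce := Ce) hk hA
  have hXR : Ev N γ fun p0 P₀ X => ∀ (j₀ : X.c.Lam) (Q' : NS → IT → Prop),
      All Q' ⟨top X.S, 1, 1, 1⟩ X.c.t → ∀ B₁ B : ℝ, B₁ + 1 ≤ B →
      CBX X j₀ Q' B₁ C Ce K₁ s₁ s₂ (alX A γ (1 / (1 - s₂))) → ∀ Hb : NS → IT → Prop,
      PartWF X j₀ Hb (SXN X j₀) (eXR (SXN X j₀) (X.c.D.par X.Y).rho (X.tm j₀) B) (a6X N.B K₁) :=
    Ev_P2 N ⟨pX, fun p0 hp0 P₀ hP X j₀ => hpX p0 hp0 γ P₀ hP X j₀⟩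
  obtain ⟨B₀, p7, h7⟩ := StopCtx9.part_eSTOP N
  obtain ⟨p2, h2⟩ := RseNd23.part_rse N (κ := 1) one_pos
  obtain ⟨p3, h3⟩ := NMPart10.part_eNM N (κ := 1) one_pos
  obtain ⟨p1, h1⟩ := NumOK.facts h
  have h6 := a6X_nonneg (B := N.B) hk.K0
  set B : ℝ := max 0 (max (max B₀ B₃) (B₁ + 1)) with hBd
  have hB0 : 0 ≤ B := le_max_left _ _
  have hB1 : B₀ ≤ B := ((le_max_left _ _).trans (le_max_left _ _)).trans (le_max_right _ _)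
  have hB3 : B₃ ≤ B := ((le_max_right _ _).trans (le_max_left _ _)).trans (le_max_right _ _)
  have hB2 : B₁ + 1 ≤ B := (le_max_right _ _).trans (le_max_right _ _)
  refine MAIN_of_nodesE N h.hS2 (C₀ := C₀) (by have := h.C₀1; linarith) h.leaf
    (fun {p0 P₀} X j₀ b d A => WF (SXN X j₀) (eT (SXN X j₀) (X.tm j₀) (X.tn j₀) b)
      (Fl.self, selfSt d A))
    (B := fun _ => B) (a₁ := fun _ => a') (a₂ := fun _ => 1)
    (a₃ := fun _ => 8 + a6X N.B K₁ + 1 + (b1 + b2 + b3 + b4)) (fun _ => hB0) (fun _ => ha')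
    (fun _ => by norm_num) (fun _ => by positivity) ?_ ?_
  · refine Ev_P2 N ⟨0, fun p0 _ P₀ _ X j₀ => ?_⟩
    exact selfE_walkE hB0 (SXN_blind X j₀) (SXN_nosplit X j₀)
      (fun s hO hO' hs => stpN_root s hO hO' ((SXN_st X j₀ s).1 hs))
      (fun d A => SXN_jt X j₀ d A)
  · intro K hK Kb hKb
    have hcl : Ev N γ fun _ _ X => CF X ∧ ∀ j₀ : X.c.Lam,
        (∀ Hb : NS → IT → Prop, Part X j₀ Hb (fun u τ A => rseR A (X.g u τ)) 1) ∧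
        (∀ (Hb : NS → IT → Prop) (stp : X.STP), (∀ s : X.Sta, ¬ stp s → ¬ stpN s) →
          PartW X j₀ Hb stp (eNM stp) (4 * (1 + 1))) ∧
        (∀ (Hb : NS → IT → Prop) (stp : X.STP), (∀ s, stp s → stpN s) →
          (∀ s : X.Sta, ¬ stp s → ¬ stpN s) → ∀ (B η : ℝ), B₀ ≤ B → 0 ≤ η →
          PartW X j₀ Hb stp (eSTOP stp (X.tm j₀) (X.tn j₀) B) η) := by
      refine Ev.of (p₁ := p1 + p2 + p3 + p7) fun p0 hp0 P₀ hP X => ?_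
      have hC := h1 p0 (by omega) γ P₀ X
      exact ⟨hC, fun j₀ => ⟨fun Hb => h2 p0 (by omega) γ P₀ hP X hC.rse j₀ Hb,
        fun Hb stp hst => h3 p0 (by omega) γ P₀ hP X hC.wnm j₀ Hb stp hst,
        fun Hb stp hstp hst B η hB hη => h7 p0 (by omega) γ P₀ hP X hC.tag hC.d1 hC.dep hC.wnm j₀
          Hb stp hstp hst B η hB hη⟩⟩
    refine (((((((hcl.and hX).and hXR).and hSe).and hTo).and hCr).and hL).and hD).mono ?_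
    rintro p0 P₀ X ⟨⟨⟨⟨⟨⟨⟨⟨hC, hc⟩, x1⟩, x2⟩, y1⟩, y2⟩, y3⟩, y4⟩, x4⟩ j₀
    obtain ⟨c2, c3, c7⟩ := hc j₀
    obtain ⟨Q', hQ, hQ'⟩ := x1 hC j₀
    have hs1 : ∀ s, SXN X j₀ s → stpN s := fun s => (SXN_st X j₀ s).1
    have hs2 : ∀ s : X.Sta, ¬ SXN X j₀ s → ¬ stpN s :=
      fun s hn hh => hn ((SXN_st X j₀ s).2 hh)
    refine ⟨x4 hC j₀ _, (c2 _).toF, ?_⟩
    have z3 := c3 (BootF X j₀ (fun _ _ => 0) (Kb p0)) (SXN X j₀) hs2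
    have e : (4 * (1 + 1) : ℝ) = 8 := by norm_num
    rw [e] at z3
    exact part_eTE z3.toF (x2 j₀ Q' hQ B₁ B hB2 hQ' _)
      (c7 _ _ hs1 hs2 B 1 hB1 zero_le_one).toF (y1 hC j₀ _) (y2 hC j₀ _) (y3 hC j₀ _)
      (y4 hC B hB3 j₀ _)

/-- **S0004 from the targets of the walk with terminal exits**, the prune depends on `γ` -/
theorem S0004_EE {th : ℝ → ℕ → ℕ → ℝ} {Sx : ℝ → ℝ → ℕ → (ℕ → ℝ) → Finset ℕ → Finset ℕ} {cS : ℝ}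
    (hth : ∀ Ct : ℝ, 0 ≤ Ct → (∃ p₁ : ℕ, ∀ p0 ≥ p₁, ∀ p ≥ p0, Real.log p ^ (-Ct) ≤ th Ct p0 p) ∧
      ∀ p0 : ℕ, RgTh (th Ct) p0)
    (hSx : ∀ γ C1 : ℝ, cS ≤ C1 → ∃ p₁ : ℕ, ∀ p0 ≥ p₁, ∃ Q₁ : ℕ, ∀ P₀ ≥ Q₁, ∀ (ψ : ℕ → ℝ)
      (S : Finset ℕ), SysM P₀ ψ S →
      Sx γ C1 p0 ψ S ⊆ S ∧ (1 - 1 / 8) * Ws (w ψ) S ≤ Ws (w ψ) (Sx γ C1 p0 ψ S))
    (hSe : ForN th Sx TgtSelf) (hTo : ForN th Sx (TgtTopE (1 / 16)))
    (hCr : ForN th Sx (TgtCrsE (1 / 16)))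
    (hL : ForN th Sx TgtL) (hD : ForN th Sx TgtD)
    (γ : ℝ) (ψ : ℕ → ℝ)
    (hψ : ∀ q, 0 ≤ ψ q) (hdiv : ¬ Summable fun q : ℕ => (Nat.totient q : ℝ) / q * ψ q) :
    ∀ᵐ x : ℝ, ∃ᶠ q : ℕ in atTop, |(q : ℝ) * x - γ - round ((q : ℝ) * x - γ)| < ψ q := by
  obtain ⟨cX, hX⟩ := TgtXF26.tgtX_fin
  obtain ⟨c1, h1⟩ := hSe
  obtain ⟨c2, h2⟩ := hTo
  obtain ⟨c3, h3⟩ := hCr
  obtain ⟨c4, h4⟩ := hL
  obtain ⟨c5, h5⟩ := hD
  obtain ⟨C₀, -, H⟩ := exists_numFinG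
  refine Fin5.S0004_of (fun γ => ?_) γ ψ hψ hdiv
  set cM := max (max (max cX c1) (max c2 c3)) (max (max c4 c5) cS) with hcM
  have l1 : cX ≤ cM := ((le_max_left _ _).trans (le_max_left _ _)).trans (le_max_left _ _)
  have l2 : c1 ≤ cM := ((le_max_right _ _).trans (le_max_left _ _)).trans (le_max_left _ _)
  have l3 : c2 ≤ cM := ((le_max_left _ _).trans (le_max_right _ _)).trans (le_max_left _ _)
  have l4 : c3 ≤ cM := ((le_max_right _ _).trans (le_max_right _ _)).trans (le_max_left _ _)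
  have l5 : c4 ≤ cM := ((le_max_left _ _).trans (le_max_left _ _)).trans (le_max_right _ _)
  have l6 : c5 ≤ cM := ((le_max_right _ _).trans (le_max_left _ _)).trans (le_max_right _ _)
  have l7 : cS ≤ cM := (le_max_right _ _).trans (le_max_right _ _)
  obtain ⟨N, Ct, m1, m2, m3⟩ := H cM th (Sx γ) hth (fun C1 hC1 => hSx γ C1 (l7.trans hC1))
  have red : ∀ c : ℝ, c ≤ cM → NumFin N (th Ct) Ct c := fun c hc =>
    ⟨hc.trans m2.C1, m2.c2, m2.B, m2.A, m2.a', m2.a, m2.Ct, m2.rg⟩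
  exact MAIN_EE m1 (hX N (th Ct) Ct C₀ γ _ m1 (red _ l1)) (h1 N Ct C₀ γ m1 (red _ l2) m3)
    (h2 N Ct C₀ γ m1 (red _ l3) m3) (h3 N Ct C₀ γ m1 (red _ l4) m3)
    (h4 N Ct C₀ γ m1 (red _ l5) m3) (h5 N Ct C₀ γ m1 (red _ l6) m3)

/-- **S0004 from the two targets with absorption** -/
theorem S0004_2e (hTo : ForN ParT21.thF NumG23.SxF (TgtTopE (1 / 16)))
    (hCr : ForN ParT21.thF NumG23.SxF (TgtCrsE (1 / 16)))
    (γ : ℝ) (ψ : ℕ → ℝ)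
    (hψ : ∀ q, 0 ≤ ψ q) (hdiv : ¬ Summable fun q : ℕ => (Nat.totient q : ℝ) / q * ψ q) :
    ∀ᵐ x : ℝ, ∃ᶠ q : ℕ in atTop, |(q : ℝ) * x - γ - round ((q : ℝ) * x - γ)| < ψ q :=
  S0004_EE (th := ParT21.thF) (Sx := NumG23.SxF) (cS := 0) ParT21.thF_ok
    (fun γ C1 hC1 => NumG23.SxF_mass γ C1 hC1) TgSelf10.tgtSelf_fin hTo hCr
    (ExL26.tgtL_fin EK17.tgtEK_fin) TgtDF7.tgtD_fin γ ψ hψ hdiv

end Crest.Agent.R4P.FinEE26
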