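import Crest.Agent.R4P.Sep_244
import Crest.Agent.R4P.CtxNF_36
import Crest.Agent.R4P.SkelF_29

/-!
R4 (S0004), powers, `TgtCrs`, helper244: **`CD` at all the states of the walks of a context**.

* `par_PS` : the parameters of the builder (`8 sg hi < lo` for large `p0`).
* `QS X j₀` : the node facts, `ctx_QS`, `qh`.
* `SWX X j₀ s` : the witness invariant (existential form): `swx_self`, `swx_next`, `swx_nextF`.
* `swx_cd` : **`CD (SX X j₀ st) s`** (`SX X j₀ st = StX st (X.tm j₀) X.c.D.it (rdB j₀) X.par.sg`).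
-/

set_option autoImplicit false
set_option linter.unusedSectionVars false
set_option linter.unusedVariables false
open MeasureTheory Filter Set

namespace Crest.Agent.R4P.Sep244

open Crest.Agent.R4.Tour104 Crest.Agent.R4.Tour758 Crest.Agent.R4.Avg758 Crest.Agent.R4.Clos758
open Crest.Agent.R4.ClosL758 Crest.Agent.R4.ClosG758 Crest.Agent.R4.ClosR758
open Crest.Agent.R4P.Cnt588 Crest.Agent.R4P.Walk560 Crest.Agent.R4P.Item758
open Crest.Agent.R4P.Bld532 (NS All NodeOk Bk Ws_nonneg)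
open Crest.Agent.R4 Crest.Agent.R4P
open Crest.Agent.R4P.StratN36 Crest.Agent.R4P.StratX36 Crest.Agent.R4P.CtxNF36
open Crest.Agent.R4P.Skel189 Crest.Agent.R4P.Frame758 Crest.Agent.R4P.Data758
open Crest.Agent.R4.Soft104 Crest.Agent.R4.Fam464 Crest.Agent.R4P.CrsD26
open Crest.Agent.R4P.Step588 (All_All)

/-- the gap of the parameters -/
theorem par_gap (B C1 c2 : ℝ) : ∃ p₁ : ℕ, ∀ p0 ≥ p₁, ∀ k : ℕ, k.Prime →
    (Bld532.par B C1 c2 p0).p0 < k → 8 * (Bld532.par B C1 c2 p0).sg k *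
      (Bld532.par B C1 c2 p0).hi k < (Bld532.par B C1 c2 p0).lo k := by
  have hlit := (isLittleO_log_rpow_rpow_atTop (B + c2 + C1) (show (0 : ℝ) < 1 by norm_num)).bound
    (show (0 : ℝ) < 1 / 32 by norm_num)
  obtain ⟨x, hx⟩ := Filter.eventually_atTop.1 hlit
  refine ⟨⌈|x|⌉₊ + 3, fun p0 hp0 k hk hkp => ?_⟩
  have hkp' : p0 < k := hkp
  have hk3 : 3 ≤ k := by omega
  have hl := Bld532.one_le_log_nat hk3
  have hk0 : (0 : ℝ) < k := by exact_mod_cast hk.pos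
  have hxk : x ≤ k := by
    have h5 : |x| ≤ ⌈|x|⌉₊ := Nat.le_ceil _
    have h6 : ((⌈|x|⌉₊ : ℕ) : ℝ) ≤ k := by
      have : ⌈|x|⌉₊ ≤ k := by omega
      exact_mod_cast this
    linarith [le_abs_self x]
  have h8 := hx k hxk
  have hlp : 0 < Real.log (k : ℝ) := by linarith
  rw [Real.norm_eq_abs, Real.norm_eq_abs, Real.rpow_one, abs_of_nonneg (by positivity),
    abs_of_nonneg (by positivity)] at h8
  show 8 * (Real.log k ^ B / k) * Real.log k ^ c2 < Real.log k ^ (-C1)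
  have h9 : Real.log k ^ B * Real.log k ^ c2 * Real.log k ^ C1 = Real.log k ^ (B + c2 + C1) := by
    rw [← Real.rpow_add hlp, ← Real.rpow_add hlp]
  rw [Real.rpow_neg hlp.le, lt_inv_comm₀ (by positivity) (by positivity)]
  rw [lt_inv_comm₀ (by positivity) (by positivity)]
  rw [← one_div, lt_div_iff₀ (by positivity)]
  calc 8 * (Real.log k ^ B / k) * Real.log k ^ c2 * Real.log k ^ C1
      = 8 * (Real.log k ^ B * Real.log k ^ c2 * Real.log k ^ C1) / k := by ring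
    _ = 8 * Real.log k ^ (B + c2 + C1) / k := by rw [h9]
    _ ≤ 8 * (1 / 32 * k) / k := by gcongr
    _ < 1 := by
      rw [div_lt_one hk0]; linarith

/-- **the parameters of a context** -/
theorem par_PS (N : Skel189.Num) : ∃ p₁ : ℕ, ∀ p0 ≥ p₁, ∀ (W : ℕ → ℝ), (∀ q, 0 ≤ W q) →
    PS (Bld532.par N.B N.C1 N.c2 p0) W := by
  obtain ⟨p₁, h1⟩ := par_PG N
  obtain ⟨p₂, h2⟩ := par_gap N.B N.C1 N.c2
  exact ⟨max p₁ p₂, fun p0 hp0 W hW => ⟨h1 p0 ((le_max_left _ _).trans hp0) W hW,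
    h2 p0 ((le_max_right _ _).trans hp0)⟩⟩

section
variable {N : Skel189.Num} {γ : ℝ} {p0 P₀ : ℕ} (X : Ctx N γ p0 P₀) (j₀ : X.c.Lam)

/-- the node facts of a context -/
def QS (u : NS) (τ : IT) : Prop :=
  NF (X.c.D.par X.Y) X.par (w X.ψ) (X.tm j₀) (rdB j₀) u τ ∧ Hd τ

/-- **they hold at all the nodes** -/
theorem ctx_QS : All (QS X j₀) ⟨Skel189.top X.S, 1, 1, 1⟩ X.c.t := by
  have h1 := ctx_NF X j₀
  have h2 : All (fun _ τ => Hd τ) ⟨Skel189.top X.S, 1, 1, 1⟩ X.c.t := by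
    refine Hd_All _ _ ?_
    rw [X.ht']
    exact (bld_Hd (w X.ψ) _ _ _ _).1
  exact h1.and h2

theorem qh : QH (X.c.D.par X.Y) X.par (w X.ψ) (X.tm j₀) (rdB j₀) (QS X j₀) :=
  ⟨fun _ _ h => h.1, fun _ _ h => h.2⟩

/-- **the witness invariant of a context** -/
def SWX (s : X.Sta) : Prop :=
  ∃ v v' σ σ', SW (X.c.D.par X.Y) X.c.sp X.par (w X.ψ) (QS X j₀) s v v' σ σ'

/-- self states -/
theorem swx_self : All (fun u τ => ∀ A, SWX X j₀ (X.self u τ A)) ⟨Skel189.top X.S, 1, 1, 1⟩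
    X.c.t :=
  All.mono (fun u τ h A => ⟨u, u, τ, τ, SW.self h A⟩) (All_All _ _ (ctx_QS X j₀))

variable {X j₀}

/-- the invariant along the walk -/
theorem swx_next (hG : PG X.par (w X.ψ)) {stp : X.STP} {s : X.Sta} (h : SWX X j₀ s) :
    ∀ q ∈ nxt stp s, SWX X j₀ q.2 := by
  obtain ⟨v, v', σ, σ', h⟩ := h
  exact h.next hG (qh X j₀)

/-- **`CD` at the states of the walks** -/
theorem swx_cd (hS : PS X.par (w X.ψ)) {st : X.Sta → Prop} {s : X.Sta} (h : SWX X j₀ s) :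
    CD (StX st (X.tm j₀) X.c.D.it (rdB j₀) X.par.sg) s := by
  obtain ⟨v, v', σ, σ', h⟩ := h
  have h2 : CD (StX st (X.tm j₀) (X.c.D.par X.Y).it (rdB j₀) X.par.sg) s :=
    SW.cd (D := X.c.D.par X.Y) (P := X.par) (W := w X.ψ) (μ := X.tm j₀) (rB := rdB j₀)
      (Qp := QS X j₀) (st := st) hS (qh X j₀) h
  exact h2

end

end Crest.Agent.R4P.Sep244
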