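import Crest.Agent.R4P.CrsS_26
import Crest.Agent.R4P.SepC_244
import Crest.Agent.R4P.FinEE_26
import Crest.Agent.R4P.ExL_26

/-!
R4 (S0004) with powers, `TgtCrs`, helper26: **the crossing pairs of the walks of a context are
bounded by the product walk of the groups**: `ctx_xX`.
-/

set_option autoImplicit false
set_option linter.unusedSectionVars false
set_option linter.unusedVariables false
set_option linter.unusedSimpArgs false
open MeasureTheory Set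

namespace Crest.Agent.R4P.CrsN26

open Crest.Agent.R4.Tour104 Crest.Agent.R4.Tour758 Crest.Agent.R4.Avg758 Crest.Agent.R4.Clos758
open Crest.Agent.R4.ClosL758 Crest.Agent.R4.ClosG758 Crest.Agent.R4.ClosR758
open Crest.Agent.R4.Fam464 Crest.Agent.R4P.Cnt588 Crest.Agent.R4P.Walk560 Crest.Agent.R4.Piece464
open Crest.Agent.R4P.Item758 Crest.Agent.R4P.AvgItem710
open Crest.Agent.R4P.Data758 Crest.Agent.R4P.WalkIT579
open Crest.Agent.R4P.Bld532 (NS All NodeOk Bk Ws_nonneg Ws_mono)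
open Crest.Agent.R4P.Res927 Crest.Agent.R4P.GSt927 Crest.Agent.R4P.OSWS245
open Crest.Agent.R4P.Skel189 (Ctx top Part PartW Ev)
open Crest.Agent.R4P.Frame758 (tM tN tG tD wt)
open Crest.Agent.R4P.ClosP542 (PulG)
open Crest.Agent.R4.Item758 (AdI AdI_univ)
open Crest.Agent.R4P.Strip29 (Blind NoSplit)
open Crest.Agent.R4.Soft104
open Crest.Agent.R4P.CtxX26 Crest.Agent.R4P.DeadX26 Crest.Agent.R4P.CrossSum29
open Crest.Agent.R4P.StratX36 Crest.Agent.R4P.SkelF29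
open Crest.Agent.R4P.AsmX26 Crest.Agent.R4P.CrsFacts26
open Crest.Agent.R4P.StratN36 (ex)
open Crest.Agent.R4P.Step588 (All_All)
open Crest.Agent.R4P.ExS26 Crest.Agent.R4P.ExQ26 Crest.Agent.R4P.ExK26 Crest.Agent.R4P.TE26
open Crest.Agent.R4P.TW17 Crest.Agent.R4P.LvN26 Crest.Agent.R4P.ExC26 Crest.Agent.R4P.ExW17
open Crest.Agent.R4P.FinX26 Crest.Agent.R4P.FinT26 Crest.Agent.R4P.FinE26 Crest.Agent.R4P.ExL26
open Crest.Agent.R4P.CrsD26 Crest.Agent.R4P.CrsT26 Crest.Agent.R4P.CrsS26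
open Crest.Agent.R4P.Sep244 (SWX swx_self swx_next swx_cd par_PS PS)
open Crest.Agent.R4P.XEx29 (Gd toDT_Gd)
open Crest.Agent.R4P

section ctx
variable {N : Skel189.Num} {γ : ℝ} {p0 P₀ : ℕ}

/-- the invariant of the states -/
def JN26 (X : Ctx N γ p0 P₀) (j₀ : X.c.Lam) (u₀ : NS) (z : Fl × X.Sta) : Prop :=
  IF X j₀ (fun _ _ => True) u₀ z.1 z.2 ∧ SWX X j₀ z.2

/-- **the walk data of a context** -/
theorem jw_ctx {X : Ctx N γ p0 P₀} (hS : PS X.par (w X.ψ)) (hG : PG X.par (w X.ψ)) (hp0 : 1 ≤ p0)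
    (j₀ : X.c.Lam) (u₀ : NS) :
    JW (X.c.D.par X.Y).rho (AdI (X.c.D.par X.Y).it) (X.tm j₀) (X.tn j₀) (SXN X j₀)
      (JN26 X j₀ u₀) where
  inv z hz := by
    obtain ⟨n, hn⟩ := hz.1.inv
    exact ⟨n, hn⟩
  nxt z hz q hq := ⟨hz.1.next hG hp0 q hq, swx_next hG hz.2 _ (mem_nxF_nxt hq)⟩
  st s hs := by
    obtain ⟨⟨x, v, v', σ, σ', -, -, -, h⟩, -⟩ := hs
    exact h rfl
  cd s hs := swx_cd hS hs.2

/-- the trees of the nodes are good -/
theorem node_Gd {X : Ctx N γ p0 P₀} {j₀ : X.c.Lam} {Q' : NS → IT → Prop} {u : NS} {τ : IT}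
    (hq : All (QE X j₀ Q') u τ) : ((X.c.D.par X.Y).toDT X.c.sp u.B u.A τ).All Gd := by
  have hs := hq.self
  have hnodes := Bld532.All.mono (fun s t h => h.node) hs.nd.all
  have hF : Fit u.B u.A τ := Bld532.Fit_of_NodeOk hnodes
  have hB' : 0 < u.B := Nat.pos_of_ne_zero hs.nd.bk.sfB.ne_zero
  have hW : (X.c.D.par X.Y).Wts u.A τ := by
    intro j hj
    rw [← hs.nd.self.pp _ hj]
    exact X.ok.wt _ (Cf.mem_S j) _
  exact toDT_Gd _ _ _ _ _ hB' hF hW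

/-- **T1: the crossing pairs of the walks of a context** -/
theorem ctx_xX (N : Skel189.Num) : ∃ p₁ : ℕ, ∀ p0 ≥ p₁, ∀ (γ : ℝ) (P₀ : ℕ)
    (X : Ctx N γ p0 P₀) (j₀ : X.c.Lam),
    All (fun u τ => ∃ n, WF (SXN X j₀) (xX (X.c.D.par X.Y).rho (SXN X j₀))
        (Fl.self, X.self u τ Finset.univ) ≤
      XP (Xfer36.ker (kX (X.c.D.par X.Y).rho)) n ((X.c.D.par X.Y).toDT X.c.sp u.B u.A τ).top
        [((1 : ℝ), (X.c.D.par X.Y).toDT X.c.sp u.B u.A τ)]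
        [((1 : ℝ), (X.c.D.par X.Y).toDT X.c.sp u.B u.A τ)]) ⟨top X.S, 1, 1, 1⟩ X.c.t := by
  obtain ⟨p1, h1⟩ := par_PS N
  obtain ⟨p2, h2⟩ := CtxNF36.par_PG N
  refine ⟨p1 + p2 + 2, fun p0 hp0 γ P₀ X j₀ => ?_⟩
  have hψ : ∀ q, 0 ≤ w X.ψ q := fun q => by
    have := X.sys.nonneg q
    unfold w
    positivity
  have hS : PS X.par (w X.ψ) := h1 p0 (by omega) (w X.ψ) hψ
  have hG : PG X.par (w X.ψ) := h2 p0 (by omega) (w X.ψ) hψ
  have hT : All (fun _ _ => True) ⟨top X.S, 1, 1, 1⟩ X.c.t :=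
    All.mono (fun _ _ _ => trivial) (ctx_QE X j₀ (Q' := fun _ _ => True)
      (All.mono (fun _ _ _ => trivial) (CtxNF36.ctx_NF X j₀)))
  refine All.mono (fun u τ h => ?_) ((All_All _ _ (ctx_QE X j₀ hT)).and (swx_self X j₀))
  obtain ⟨hq, hsw⟩ := h
  have hn0 := hq.self.n0
  have hcol : (X.self u τ Finset.univ).p ≤ u.n := by
    have h := ((X.c.D.par X.Y).toDT_Col X.c.sp τ u.n u.B u.A hq.self.ok).top_lt hn0
    exact (max_le h.le h.le)
  have hstart : WIX X j₀ (fun _ _ => True) (JN X) u (XSt.st u.n (X.self u τ Finset.univ)) u u τ τ :=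
    wix_start hq ⟨JC.self (PrN_toDT _ _ _ _ _ _ hq.self.ok), hcol, hcol⟩
  have hIF : IF X j₀ (fun _ _ => True) u Fl.self (X.self u τ Finset.univ) :=
    ⟨_, u, u, τ, τ, rfl, hstart, fun _ => Diag.self _ _, fun h => by cases h⟩
  exact WF_xX_self (jw_ctx hS hG (by omega) j₀ u) (SXN_nosplit X j₀) (SXN_jt' X j₀) (node_Gd hq)
    ⟨hIF, hsw _⟩

end ctx

end Crest.Agent.R4P.CrsN26
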