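import Crest.Agent.R4P.StripE_26
import Crest.Agent.R4P.FinT_26

/-!
R4 (S0004), POWERS, helper26, [M8]: **MAIN and S0004 from the targets of the walk with terminal exits**.

* `TgtL` : the exits (`xT`) are paid for all large `B`; `TgtSelf`, `TgtTop`, `TgtCrs` as in `FinT_26`
  (no `TgtOld`, no `TgtExit`).
* `MAIN_E`, `S0004_E`, `S0004_EF`.
-/

set_option autoImplicit false
set_option linter.unusedSectionVars false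
set_option linter.unusedVariables false

open MeasureTheory Filter

namespace Crest.Agent.R4P.FinE26

open Crest.Agent.R4.Tour104 Crest.Agent.R4.Tour758 Crest.Agent.R4.Avg758 Crest.Agent.R4.Clos758
open Crest.Agent.R4.ClosL758 Crest.Agent.R4.ClosG758 Crest.Agent.R4.ClosR758
open Crest.Agent.R4.Fam464 Crest.Agent.R4P.Cnt588 Crest.Agent.R4P.Walk560 Crest.Agent.R4P.Item758
open Crest.Agent.R4.Soft104 Crest.Agent.R4.Max709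
open Crest.Agent.R4P.Bld532 (NS All NodeOk)
open Crest.Agent.R4P.Data758 Crest.Agent.R4P.SkelF29 Crest.Agent.R4P.Strip29
open Crest.Agent.R4P.Skel189 Crest.Agent.R4P.OSWS245 Crest.Agent.R4P.ParF5 Crest.Agent.R4P.Fin5
open Crest.Agent.R4P.NumX34
open Crest.Agent.R4.Fin532 (MAIN)
open Crest.Agent.R4P.PayA26 Crest.Agent.R4P.FinX26 Crest.Agent.R4P.Mrg35 Crest.Agent.R4P.PayR26
open Crest.Agent.R4P.KindPay36 (CA KOk)
open Crest.Agent.R4P.AccAl31 (alX)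
open Crest.Agent.R4P.FinAll26 Crest.Agent.R4P.TW17 Crest.Agent.R4P.StripT26
open Crest.Agent.R4P.SkelT26 Crest.Agent.R4P.FrameT26 Crest.Agent.R4P.FinT26
open Crest.Agent.R4P.TE26 Crest.Agent.R4P.StripE26
open Crest.Agent.R4P.NumG23 (exists_numFinG NumG)
open Crest.Agent.R4P

variable {N : Skel189.Num} {γ : ℝ}

/-- **the exits** are paid for all large `B` -/
def TgtL (N : Skel189.Num) (γ : ℝ) : Prop :=
  ∃ B₀ a : ℝ, 0 ≤ a ∧ Ev N γ fun p0 P₀ X => CF X → ∀ B : ℝ, B₀ ≤ B → ∀ (j₀ : X.c.Lam)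
    (Hb : NS → IT → Prop), PartT X j₀ Hb (xT (SXN X j₀) (X.tm j₀) (X.tn j₀) B) a

/-- the diagonal states are processed jointly -/
lemma SXN_jt' {p0 P₀ : ℕ} (X : Ctx N γ p0 P₀) (j₀ : X.c.Lam) (s : X.Sta) (h : Diag s) :
    (SXN X j₀).jt s := by
  refine ⟨?_, ?_, ?_⟩
  · rw [h.t]; exact StratX36.not_add_up
  · rw [h.t]; exact fun hh => StratX36.not_add_up ⟨hh.2, hh.1⟩
  · rw [h.t]

/-- **the error of the certificate with terminal exits in a context** -/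
theorem part_eT {p0 P₀ : ℕ} {X : Ctx N γ p0 P₀} {j₀ : X.c.Lam} {Hb : NS → IT → Prop} {B : ℝ}
    {a3 a6 a7 b1 b2 b3 b4 : ℝ}
    (h3 : PartWF X j₀ Hb (SXN X j₀) (eNM (SXN X j₀)) a3)
    (h6 : PartWF X j₀ Hb (SXN X j₀) (eXR (SXN X j₀) (X.c.D.par X.Y).rho (X.tm j₀) B) a6)
    (h7 : PartWF X j₀ Hb (SXN X j₀) (eSTOP (SXN X j₀) (X.tm j₀) (X.tn j₀) B) a7)
    (k1 : PartT X j₀ Hb (xS (X.c.D.par X.Y).rho (SXN X j₀)) b1)
    (k2 : PartT X j₀ Hb (xC (SXN X j₀)) b2)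
    (k3 : PartT X j₀ Hb (xX (X.c.D.par X.Y).rho (SXN X j₀)) b3)
    (k4 : PartT X j₀ Hb (xT (SXN X j₀) (X.tm j₀) (X.tn j₀) B) b4) :
    PartT X j₀ Hb (eT (SXN X j₀) (X.tm j₀) (X.tn j₀) B)
      (a3 + a6 + a7 + (b1 + b2 + b3 + b4)) := by
  have k : PartF X j₀ Hb (fun u τ A => ((WS (SXN X j₀) (eNM (SXN X j₀)) (X.self u τ A) +
      WS (SXN X j₀) (eXR (SXN X j₀) (X.c.D.par X.Y).rho (X.tm j₀) B) (X.self u τ A)) +
      WS (SXN X j₀) (eSTOP (SXN X j₀) (X.tm j₀) (X.tn j₀) B) (X.self u τ A)) +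
      (((WF (SXN X j₀) (xS (X.c.D.par X.Y).rho (SXN X j₀)) (Fl.self, X.self u τ A) +
      WF (SXN X j₀) (xC (SXN X j₀)) (Fl.self, X.self u τ A)) +
      WF (SXN X j₀) (xX (X.c.D.par X.Y).rho (SXN X j₀)) (Fl.self, X.self u τ A)) +
      WF (SXN X j₀) (xT (SXN X j₀) (X.tm j₀) (X.tn j₀) B) (Fl.self, X.self u τ A)))
      (a3 + a6 + a7 + (b1 + b2 + b3 + b4)) :=
    PartF.add (PartF.add (PartF.add h3 h6) h7) (PartF.add (PartF.add (PartF.add k1 k2) k3) k4)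
  refine All.mono (fun u τ hh hp hb => ?_) (All.and k (ctx_side X j₀))
  have key := WF_eT_le (Ad := Item758.AdI (X.c.D.par X.Y).it) (μ := X.tm j₀) (ν := X.tn j₀)
      (wr := (X.c.D.par X.Y).rho) (stp := SXN X j₀) (B := B) (SXN_jt' X j₀)
      (z := (Fl.self, X.self u τ Finset.univ)) ⟨u.n, Inv_self hh.2.2⟩ (fun _ => Diag.self _ _)
  rw [WF_xFE] at key
  exact le_trans key (hh.1 hp hb)

/-- **`MAIN` from the targets of the walk with terminal exits** -/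
theorem MAIN_E {th : ℕ → ℕ → ℝ} {Ct C₀ : ℝ}
    {Sx : ℕ → (ℕ → ℝ) → Finset ℕ → Finset ℕ} (h : NumOK N th Ct C₀ Sx) (hX : TgtX N γ)
    (hSe : TgtSelf N γ) (hTo : TgtTop N γ) (hCr : TgtCrs N γ) (hL : TgtL N γ)
    (hD : TgtD N γ) : MAIN γ := by
  obtain ⟨C, Ce, K₁, s₁, s₂, B₁, A, hk, hA, hX⟩ := hX
  obtain ⟨b1, hb1, hSe⟩ := hSe
  obtain ⟨b2, hb2, hTo⟩ := hTo
  obtain ⟨b3, hb3, hCr⟩ := hCr
  obtain ⟨B₃, b4, hb4, hL⟩ := hL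
  obtain ⟨a', ha', hD⟩ := hD
  obtain ⟨pX, hpX⟩ := part_eXR N (Ce := Ce) hk hA
  have hXR : Ev N γ fun p0 P₀ X => ∀ (j₀ : X.c.Lam) (Q' : NS → IT → Prop),
      All Q' ⟨top X.S, 1, 1, 1⟩ X.c.t → ∀ B₁ B : ℝ, B₁ + 1 ≤ B →
      CBX X j₀ Q' B₁ C Ce K₁ s₁ s₂ (alX A γ (1 / (1 - s₂))) → ∀ Hb : NS → IT → Prop,
      PartWF X j₀ Hb (SXN X j₀) (eXR (SXN X j₀) (X.c.D.par X.Y).rho (X.tm j₀) B) (a6X N.B K₁) :=
    Ev_P2 N ⟨pX, fun p0 hp0 P₀ hP X j₀ => hpX p0 hp0 γ P₀ hP X j₀⟩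
  obtain ⟨B₀, p7, h7⟩ := StopCtx9.part_eSTOP N
  obtain ⟨p2, h2⟩ := RseNd23.part_rse N (κ := 1) one_pos
  obtain ⟨p3, h3⟩ := NMPart10.part_eNM N (κ := 1) one_pos
  obtain ⟨p1, h1⟩ := NumOK.facts h
  have h6 := a6X_nonneg (B := N.B) hk.K0
  set B : ℝ := max 0 (max (max B₀ B₃) (B₁ + 1)) with hBd
  have hB0 : 0 ≤ B := le_max_left _ _
  have hB1 : B₀ ≤ B := ((le_max_left _ _).trans (le_max_left _ _)).trans (le_max_right _ _)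
  have hB3 : B₃ ≤ B := ((le_max_right _ _).trans (le_max_left _ _)).trans (le_max_right _ _)
  have hB2 : B₁ + 1 ≤ B := (le_max_right _ _).trans (le_max_right _ _)
  refine MAIN_of_nodesT N h.hS2 (C₀ := C₀) (by have := h.C₀1; linarith) h.leaf
    (fun {p0 P₀} X j₀ b d A => WF (SXN X j₀) (eT (SXN X j₀) (X.tm j₀) (X.tn j₀) b)
      (Fl.self, selfSt d A))
    (B := fun _ => B) (a₁ := fun _ => a') (a₂ := fun _ => 1)
    (a₃ := fun _ => 8 + a6X N.B K₁ + 1 + (b1 + b2 + b3 + b4)) (fun _ => hB0) (fun _ => ha')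
    (fun _ => by norm_num) (fun _ => by positivity) ?_ ?_
  · refine Ev_P2 N ⟨0, fun p0 _ P₀ _ X j₀ => ?_⟩
    exact selfE_walkE hB0 (SXN_blind X j₀) (SXN_nosplit X j₀)
      (fun s hO hO' hs => stpN_root s hO hO' ((SXN_st X j₀ s).1 hs))
      (fun d A => SXN_jt X j₀ d A)
  · intro K hK Kb hKb
    have hcl : Ev N γ fun _ _ X => CF X ∧ ∀ j₀ : X.c.Lam,
        (∀ Hb : NS → IT → Prop, Part X j₀ Hb (fun u τ A => rseR A (X.g u τ)) 1) ∧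
        (∀ (Hb : NS → IT → Prop) (stp : X.STP), (∀ s : X.Sta, ¬ stp s → ¬ stpN s) →
          PartW X j₀ Hb stp (eNM stp) (4 * (1 + 1))) ∧
        (∀ (Hb : NS → IT → Prop) (stp : X.STP), (∀ s, stp s → stpN s) →
          (∀ s : X.Sta, ¬ stp s → ¬ stpN s) → ∀ (B η : ℝ), B₀ ≤ B → 0 ≤ η →
          PartW X j₀ Hb stp (eSTOP stp (X.tm j₀) (X.tn j₀) B) η) := by
      refine Ev.of (p₁ := p1 + p2 + p3 + p7) fun p0 hp0 P₀ hP X => ?_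
      have hC := h1 p0 (by omega) γ P₀ X
      exact ⟨hC, fun j₀ => ⟨fun Hb => h2 p0 (by omega) γ P₀ hP X hC.rse j₀ Hb,
        fun Hb stp hst => h3 p0 (by omega) γ P₀ hP X hC.wnm j₀ Hb stp hst,
        fun Hb stp hstp hst B η hB hη => h7 p0 (by omega) γ P₀ hP X hC.tag hC.d1 hC.dep hC.wnm j₀
          Hb stp hstp hst B η hB hη⟩⟩
    refine (((((((hcl.and hX).and hXR).and hSe).and hTo).and hCr).and hL).and hD).mono ?_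
    rintro p0 P₀ X ⟨⟨⟨⟨⟨⟨⟨⟨hC, hc⟩, x1⟩, x2⟩, y1⟩, y2⟩, y3⟩, y4⟩, x4⟩ j₀
    obtain ⟨c2, c3, c7⟩ := hc j₀
    obtain ⟨Q', hQ, hQ'⟩ := x1 hC j₀
    have hs1 : ∀ s, SXN X j₀ s → stpN s := fun s => (SXN_st X j₀ s).1
    have hs2 : ∀ s : X.Sta, ¬ SXN X j₀ s → ¬ stpN s :=
      fun s hn hh => hn ((SXN_st X j₀ s).2 hh)
    refine ⟨x4 hC j₀ _, (c2 _).toF, ?_⟩
    have z3 := c3 (BootF X j₀ (fun _ _ => 0) (Kb p0)) (SXN X j₀) hs2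
    have e : (4 * (1 + 1) : ℝ) = 8 := by norm_num
    rw [e] at z3
    exact part_eT z3.toF (x2 j₀ Q' hQ B₁ B hB2 hQ' _)
      (c7 _ _ hs1 hs2 B 1 hB1 zero_le_one).toF (y1 hC j₀ _) (y2 hC j₀ _) (y3 hC j₀ _)
      (y4 hC B hB3 j₀ _)

/-- the numbers of a target -/
def ForN (th : ℝ → ℕ → ℕ → ℝ) (Sx : ℝ → ℝ → ℕ → (ℕ → ℝ) → Finset ℕ → Finset ℕ)
    (T : Skel189.Num → ℝ → Prop) : Prop :=
  ∃ c : ℝ, ∀ (N : Skel189.Num) (Ct C₀ γ : ℝ), NumOK N (th Ct) Ct C₀ (Sx γ N.C1) →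
    NumFin N (th Ct) Ct c → NumG N → T N γ

/-- **S0004 from the targets of the walk with terminal exits**, the prune depends on `γ` -/
theorem S0004_E {th : ℝ → ℕ → ℕ → ℝ} {Sx : ℝ → ℝ → ℕ → (ℕ → ℝ) → Finset ℕ → Finset ℕ} {cS : ℝ}
    (hth : ∀ Ct : ℝ, 0 ≤ Ct → (∃ p₁ : ℕ, ∀ p0 ≥ p₁, ∀ p ≥ p0, Real.log p ^ (-Ct) ≤ th Ct p0 p) ∧
      ∀ p0 : ℕ, RgTh (th Ct) p0)
    (hSx : ∀ γ C1 : ℝ, cS ≤ C1 → ∃ p₁ : ℕ, ∀ p0 ≥ p₁, ∃ Q₁ : ℕ, ∀ P₀ ≥ Q₁, ∀ (ψ : ℕ → ℝ)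
      (S : Finset ℕ), SysM P₀ ψ S →
      Sx γ C1 p0 ψ S ⊆ S ∧ (1 - 1 / 8) * Ws (w ψ) S ≤ Ws (w ψ) (Sx γ C1 p0 ψ S))
    (hSe : ForN th Sx TgtSelf) (hTo : ForN th Sx TgtTop) (hCr : ForN th Sx TgtCrs)
    (hL : ForN th Sx TgtL) (hD : ForN th Sx TgtD)
    (γ : ℝ) (ψ : ℕ → ℝ)
    (hψ : ∀ q, 0 ≤ ψ q) (hdiv : ¬ Summable fun q : ℕ => (Nat.totient q : ℝ) / q * ψ q) :
    ∀ᵐ x : ℝ, ∃ᶠ q : ℕ in atTop, |(q : ℝ) * x - γ - round ((q : ℝ) * x - γ)| < ψ q := by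
  obtain ⟨cX, hX⟩ := TgtXF26.tgtX_fin
  obtain ⟨c1, h1⟩ := hSe
  obtain ⟨c2, h2⟩ := hTo
  obtain ⟨c3, h3⟩ := hCr
  obtain ⟨c4, h4⟩ := hL
  obtain ⟨c5, h5⟩ := hD
  obtain ⟨C₀, -, H⟩ := exists_numFinG
  refine Fin5.S0004_of (fun γ => ?_) γ ψ hψ hdiv
  set cM := max (max (max cX c1) (max c2 c3)) (max (max c4 c5) cS) with hcM
  have l1 : cX ≤ cM := ((le_max_left _ _).trans (le_max_left _ _)).trans (le_max_left _ _)
  have l2 : c1 ≤ cM := ((le_max_right _ _).trans (le_max_left _ _)).trans (le_max_left _ _)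
  have l3 : c2 ≤ cM := ((le_max_left _ _).trans (le_max_right _ _)).trans (le_max_left _ _)
  have l4 : c3 ≤ cM := ((le_max_right _ _).trans (le_max_right _ _)).trans (le_max_left _ _)
  have l5 : c4 ≤ cM := ((le_max_left _ _).trans (le_max_left _ _)).trans (le_max_right _ _)
  have l6 : c5 ≤ cM := ((le_max_right _ _).trans (le_max_left _ _)).trans (le_max_right _ _)
  have l7 : cS ≤ cM := (le_max_right _ _).trans (le_max_right _ _)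
  obtain ⟨N, Ct, m1, m2, m3⟩ := H cM th (Sx γ) hth (fun C1 hC1 => hSx γ C1 (l7.trans hC1))
  have red : ∀ c : ℝ, c ≤ cM → NumFin N (th Ct) Ct c := fun c hc =>
    ⟨hc.trans m2.C1, m2.c2, m2.B, m2.A, m2.a', m2.a, m2.Ct, m2.rg⟩
  exact MAIN_E m1 (hX N (th Ct) Ct C₀ γ _ m1 (red _ l1)) (h1 N Ct C₀ γ m1 (red _ l2) m3)
    (h2 N Ct C₀ γ m1 (red _ l3) m3) (h3 N Ct C₀ γ m1 (red _ l4) m3)
    (h4 N Ct C₀ γ m1 (red _ l5) m3) (h5 N Ct C₀ γ m1 (red _ l6) m3)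

/-- **S0004 from the targets of the walk with terminal exits** for `thF`, `SxF` -/
theorem S0004_EF (hSe : ForN ParT21.thF NumG23.SxF TgtSelf)
    (hTo : ForN ParT21.thF NumG23.SxF TgtTop) (hCr : ForN ParT21.thF NumG23.SxF TgtCrs)
    (hL : ForN ParT21.thF NumG23.SxF TgtL) (hD : ForN ParT21.thF NumG23.SxF TgtD)
    (γ : ℝ) (ψ : ℕ → ℝ)
    (hψ : ∀ q, 0 ≤ ψ q) (hdiv : ¬ Summable fun q : ℕ => (Nat.totient q : ℝ) / q * ψ q) :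
    ∀ᵐ x : ℝ, ∃ᶠ q : ℕ in atTop, |(q : ℝ) * x - γ - round ((q : ℝ) * x - γ)| < ψ q :=
  S0004_E (th := ParT21.thF) (Sx := NumG23.SxF) (cS := 0) ParT21.thF_ok
    (fun γ C1 hC1 => NumG23.SxF_mass γ C1 hC1) hSe hTo hCr hL hD γ ψ hψ hdiv

end Crest.Agent.R4P.FinE26
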