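import Crest.Agent.R4P.TopC_36
import Crest.Agent.R4P.FinE_26

/-!
R4 (S0004) with powers, group [W-eSHR], helper36: **`TgtTop` from a bound of the group walks of the nodes**.

* `GW X n u τ` : the group walk of the node `(u, τ)` with the local term
  `I Σ_z (Σ_{c.1.ix = z} GmG g c)^2` (`GmG g c x = Σ_{m ∈ g} m.1 * (lift part of the tie m.2)_c (x)`).
* `ctx_xC_le` : the walk sum of `xC` at the self states of a context is at most `GW`.
* `tgtTop_of` : **`TgtTop` from bounds of the group walks**.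
-/

set_option autoImplicit false
set_option linter.unusedSectionVars false
set_option linter.unusedVariables false
open MeasureTheory Filter

namespace Crest.Agent.R4P.TopX36

open Crest.Agent.R4.Tour104 Crest.Agent.R4.Tour758 Crest.Agent.R4.Avg758 Crest.Agent.R4.Clos758
open Crest.Agent.R4.ClosL758 Crest.Agent.R4.ClosG758 Crest.Agent.R4.ClosR758
open Crest.Agent.R4P.ClosR442 Crest.Agent.R4P.Walk560 Crest.Agent.R4P.Grp36
open Crest.Agent.R4P.Xfer36 Crest.Agent.R4P.TopC36 Crest.Agent.R4P.TW17 Crest.Agent.R4P.TE26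
open Crest.Agent.R4P.Cnt588 Crest.Agent.R4P.Data758 Crest.Agent.R4P.Skel189
open Crest.Agent.R4P.Bld532 (NS All)
open Crest.Agent.R4P.Fin5 (CF)
open Crest.Agent.R4P.FinT26 Crest.Agent.R4P.FinE26 Crest.Agent.R4P.FinX26
open Crest.Agent.R4P.Mrg35 Crest.Agent.R4P.SkelF29 Crest.Agent.R4P.Item758
open Crest.Agent.R4P

variable {N : Skel189.Num} {γ : ℝ} {p0 P₀ : ℕ}

/-- labels of a context -/
abbrev LbX (X : Ctx N γ p0 P₀) : Type := Lb (WL X.c.Lam) X.Y

/-- the index of a label -/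
def ixL {X : Ctx N γ p0 P₀} (c : LbX X) : X.c.Lam := c.1.ix

lemma rel_ixL {X : Ctx N γ p0 P₀} (a b : LbX X) : WRel.rel a b ↔ ixL a ≠ ixL b := Iff.rfl

/-- the local term of the group walk of a context -/
noncomputable def gT (X : Ctx N γ p0 P₀) (_ : ℕ) (g : Gp X.c.Lam (LbX X)) : ℝ :=
  I (fun x => ∑ z, ixF (ixL (X := X)) (GmG g) z x ^ 2)

/-- the group walk of a node -/
noncomputable def GW (X : Ctx N γ p0 P₀) (n : ℕ) (u : NS) (τ : IT) : ℝ :=
  GS (gT X) n (X.self u τ Finset.univ).p [((1 : ℝ), (X.self u τ Finset.univ).t)]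

/-- the trees of a context have weights in `[0, 1]` -/
theorem ctx_Wg (X : Ctx N γ p0 P₀) (j₀ : X.c.Lam) :
    All (fun u τ => Wg [((1 : ℝ), (X.self u τ Finset.univ).t)]) ⟨top X.S, 1, 1, 1⟩ X.c.t :=
  All.mono (fun u τ hh => Wg.one (ok_W01 hh.2.ok)) (ctx_side X j₀)

/-- **`xC` at the self states of a context** -/
theorem ctx_xC_le (X : Ctx N γ p0 P₀) (j₀ : X.c.Lam) :
    All (fun u τ => ∃ n, WF (SXN X j₀) (xC (SXN X j₀)) (Fl.self, X.self u τ Finset.univ) ≤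
      GW X n u τ) ⟨top X.S, 1, 1, 1⟩ X.c.t :=
  All.mono (fun u τ hh => by
    obtain ⟨n, hn⟩ := WF_xC_le (Ad := Item758.AdI (X.c.D.par X.Y).it) (μ := X.tm j₀)
      (ν := X.tn j₀) (wr := (X.c.D.par X.Y).rho) (SXN_jt' X j₀) (Inv_self hh.1.2)
      (Diag.self _ Finset.univ)
    refine ⟨n, hn.trans (le_of_eq ?_)⟩
    exact GS_ker_ix rel_ixL n _ hh.2) (All.and (ctx_side X j₀) (ctx_Wg X j₀))

/-- **`TgtTop` from bounds of the group walks** -/
theorem tgtTop_of (h : ∃ a : ℝ, 0 ≤ a ∧ Ev N γ fun p0 P₀ X => CF X → ∀ j₀ : X.c.Lam,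
    All (fun u τ => ∀ n, GW X n u τ ≤ a * (X.mu j₀ u τ Finset.univ +
      X.mu j₀ u τ Finset.univ * X.mu j₀ u τ Finset.univ)) ⟨top X.S, 1, 1, 1⟩ X.c.t) :
    TgtTop N γ := by
  obtain ⟨a, ha, h⟩ := h
  refine ⟨a, ha, h.mono fun p0 P₀ X hh hC j₀ Hb => ?_⟩
  exact All.mono (fun u τ hh _ _ => by
    obtain ⟨n, hn⟩ := hh.2
    exact hn.trans (hh.1 n)) (All.and (hh hC j₀) (ctx_xC_le X j₀))

end Crest.Agent.R4P.TopX36
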