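import Crest.Agent.R4P.XPr_29
import Crest.Agent.R4P.TopX_36
import Crest.Agent.R4P.FinEE_26
import Crest.Agent.R4P.StepDataD947
import Crest.Agent.R4P.CrsN_26
import Crest.Agent.R4P.FinAll_26

/-!
R4 (S0004) with powers, `TgtCrs`, helper29: **the glue** `TgtCrsE ε` from

* `TgtT1` : (T1) the flagged walk of `xX` at the self state of a node is at most the separated sum
  `XP (ker (kX ρ)) n t.top [(1, t)] [(1, t)]` for some `n`;
* `TgtH kd H0` : (HI) the height integral `I (HgL kd ^2 - H0^2)` is at most `a (μ + μ²)`; `kd` agrees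
  with the index classes at the primes.

`tgtCrsE_of`, `forN_tgtCrsE`.
-/

set_option autoImplicit false
set_option linter.unusedSectionVars false
set_option linter.unusedVariables false
open MeasureTheory Filter Set

namespace Crest.Agent.R4P.CrsG29

open Crest.Agent.R4.Tour104 Crest.Agent.R4.Tour758 Crest.Agent.R4.Avg758 Crest.Agent.R4.Clos758
open Crest.Agent.R4.ClosL758 Crest.Agent.R4.ClosG758 Crest.Agent.R4.ClosR758
open Crest.Agent.R4P.ClosR442 Crest.Agent.R4P.Walk560 Crest.Agent.R4P.Grp36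
open Crest.Agent.R4P.Xfer36 Crest.Agent.R4P.TopC36 Crest.Agent.R4P.TW17 Crest.Agent.R4P.TE26
open Crest.Agent.R4P.Cnt588 Crest.Agent.R4P.Data758 Crest.Agent.R4P.Skel189
open Crest.Agent.R4P.Bld532 (NS All)
open Crest.Agent.R4P.Fin5 (CF)
open Crest.Agent.R4P.FinT26 Crest.Agent.R4P.FinE26 Crest.Agent.R4P.FinX26 Crest.Agent.R4P.FinEE26
open Crest.Agent.R4P.Mrg35 Crest.Agent.R4P.SkelF29 Crest.Agent.R4P.Item758
open Crest.Agent.R4P.TopX36 Crest.Agent.R4P.CrsD26 Crest.Agent.R4P.XEx29 Crest.Agent.R4P.XBr29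
open Crest.Agent.R4P.XPr29 Crest.Agent.R4P.GInst194
open Crest.Agent.R4P.ClosP542 (PulG)
open Crest.Agent.R4P.FinAll26 (Ev_P2 NumFin)
open Crest.Agent.R4P.Step588 (ctx_NDt)
open Crest.Agent.R4P.LogL51 (XL XL_le_eps HgL Ce Ce_nonneg)
open Crest.Agent.R4P.LogG51 (gtot)
open Crest.Agent.R4P

variable {N : Skel189.Num} {γ : ℝ} {p0 P₀ : ℕ}

/-- the group of a node -/
noncomputable abbrev g1 (X : Ctx N γ p0 P₀) (u : NS) (τ : IT) : Gp X.c.Lam (LbX X) :=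
  [((1 : ℝ), (X.self u τ Finset.univ).t)]

/-- the index classes of the columns -/
noncomputable def kdx (X : Ctx N γ p0 P₀) : ℕ → X.c.Lam → X.c.Lam :=
  kdI (X.c.D.par X.Y).rho (ixL (X := X))

/-- **(T1)** in a context -/
def T1At (X : Ctx N γ p0 P₀) (j₀ : X.c.Lam) : Prop :=
  All (fun u τ => ∃ n, WF (SXN X j₀) (xX (X.c.D.par X.Y).rho (SXN X j₀))
      (Fl.self, X.self u τ Finset.univ) ≤
    XP (ker (kX (X.c.D.par X.Y).rho)) n (X.self u τ Finset.univ).t.top (g1 X u τ) (g1 X u τ))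
    ⟨top X.S, 1, 1, 1⟩ X.c.t

/-- **(T1)** -/
def TgtT1 (N : Skel189.Num) (γ : ℝ) : Prop :=
  Ev N γ fun p0 P₀ X => CF X → ∀ j₀ : X.c.Lam, T1At X j₀

/-- **(HI)** in a context -/
def HIAt (X : Ctx N γ p0 P₀) (j₀ : X.c.Lam) (kd : ℕ → X.c.Lam → X.c.Lam) (H0 a : ℝ) : Prop :=
  All (fun u τ => ¬ PulG (X.g u τ) → ∀ n,
    I (fun x => HgL kd H0 n (X.self u τ Finset.univ).t.top (g1 X u τ) x ^ 2 - H0 ^ 2) ≤
      a * (X.mu j₀ u τ Finset.univ + X.mu j₀ u τ Finset.univ * X.mu j₀ u τ Finset.univ))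
    ⟨top X.S, 1, 1, 1⟩ X.c.t

/-- **(HI)** -/
def TgtH (kd : ∀ {N : Skel189.Num} {γ : ℝ} {p0 P₀ : ℕ} (X : Ctx N γ p0 P₀),
    ℕ → X.c.Lam → X.c.Lam) (H0 : ℝ) (N : Skel189.Num) (γ : ℝ) : Prop :=
  ∃ a : ℝ, 0 ≤ a ∧ Ev N γ fun p0 P₀ X => CF X → ∀ j₀ : X.c.Lam, HIAt X j₀ (kd X) H0 a

/-- **(T1) holds** (helper26) -/
theorem tgtT1 (N : Skel189.Num) (γ : ℝ) : TgtT1 N γ := by
  obtain ⟨p1, h1⟩ := CrsN26.ctx_xX N
  exact ⟨p1, fun p0 hp0 => ⟨0, fun P₀ _ X _ j₀ => h1 p0 hp0 γ P₀ X j₀⟩⟩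

/-- the tree of a node of a context -/
theorem ctx_Gd (X : Ctx N γ p0 P₀) :
    All (fun u τ => (X.self u τ Finset.univ).t.All Gd ∧
      (X.self u τ Finset.univ).t.Col ((X.self u τ Finset.univ).t.top + 1))
      ⟨top X.S, 1, 1, 1⟩ X.c.t := by
  refine All.mono (fun u τ hh => ?_) ((ctx_NDt X).and (ctx_fit X))
  obtain ⟨hND, hF⟩ := hh
  have hB : 0 < u.B := Nat.pos_of_ne_zero hND.bk.sfB.ne_zero
  have hW : (X.c.D.par (leafs 1 1 X.c.t)).Wts u.A τ := by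
    intro j hj
    rw [← hND.self.pp _ hj]
    exact X.ok.wt _ (Cf.mem_S j) _
  have hO : τ.Ok u.n := hND.self.ok
  refine ⟨toDT_Gd (X.c.D.par X.Y) X.c.sp τ u.B u.A hB hF hW, ?_⟩
  have hc : (X.self u τ Finset.univ).t.Col u.n :=
    (X.c.D.par X.Y).toDT_Col X.c.sp τ u.n u.B u.A hO
  exact hc.lower (Nat.lt_succ_self _)

/-- the group of a node has the values of the node -/
lemma gtot_g1 (X : Ctx N γ p0 P₀) (u : NS) (τ : IT) (x : ℝ) :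
    gtot (g1 X u τ) x = tt Finset.univ (X.g u τ) x := by
  unfold gtot tt
  refine Finset.sum_congr rfl fun j _ => ?_
  have e : (X.self u τ Finset.univ).t.g = X.g u τ := (X.c.D.par X.Y).toDT_g X.c.sp τ u.B u.A
  show gval [((1 : ℝ), (X.self u τ Finset.univ).t)] j x = _
  rw [CrsU26.gval_one, e, rv_univ]

/-- the mass of a node -/
theorem ctx_mass (N : Skel189.Num) (γ : ℝ) : Ev N γ fun p0 P₀ X => ∀ j₀ : X.c.Lam,
    All (fun u τ => I (gtot (g1 X u τ)) ≤ 4 * X.mu j₀ u τ Finset.univ)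
      ⟨top X.S, 1, 1, 1⟩ X.c.t := by
  obtain ⟨p1, h1⟩ := ctx_sum_mI N
  refine Ev_P2 N ⟨p1, fun p0 hp0 P₀ hP X j₀ => ?_⟩
  refine All.mono (fun u τ hh => ?_) (All.and (h1 p0 hp0 γ P₀ hP X j₀) (ctx_Gd X))
  obtain ⟨hh, hG, hc⟩ := hh
  have k := hh Finset.univ
  have pb : ∀ j, PB (gval (g1 X u τ) j) := fun j => (GX.one hG hc).pbv j
  refine le_trans (le_of_eq ?_) k
  unfold gtot
  rw [I_sum _ fun j _ => (pb j).integrableOn]
  refine Finset.sum_congr rfl fun j _ => ?_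
  unfold mI
  congr 1
  exact congrFun (CrsU26.gval_one _) j

/-- `I (H - H0)^2 ≤ I (H^2 - H0^2)` -/
lemma I_sub_sq_le {H : ℝ → ℝ} {H0 : ℝ} (h0 : 0 ≤ H0) (pH : PB H) (h : ∀ x, H0 ≤ H x) :
    I (fun x => (H x - H0) ^ 2) ≤ I (fun x => H x ^ 2 - H0 ^ 2) := by
  obtain ⟨B, hB⟩ := pH.bdd
  have pH2 : PB fun x => (H x - H0) ^ 2 := by
    refine ⟨(pH.meas.sub measurable_const).pow_const 2, fun x => sq_nonneg _,
      ⟨B ^ 2, fun x => ?_⟩, fun x => ?_⟩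
    · have h3 := hB x
      have h4 := h x
      exact pow_le_pow_left₀ (by linarith) (by linarith) 2
    · show (H (x + 1) - H0) ^ 2 = _
      rw [pH.per]
  have pH3 : PB fun x => H x ^ 2 - H0 ^ 2 := by
    refine ⟨(pH.meas.pow_const 2).sub measurable_const, fun x => ?_, ⟨B ^ 2, fun x => ?_⟩,
      fun x => ?_⟩
    · have := h x
      show 0 ≤ H x ^ 2 - H0 ^ 2
      nlinarith
    · have h3 := hB x
      have h4 := h x
      have := pow_le_pow_left₀ (h0.trans h4) h3 2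
      show H x ^ 2 - H0 ^ 2 ≤ B ^ 2
      nlinarith [sq_nonneg H0]
    · show H (x + 1) ^ 2 - H0 ^ 2 = _
      rw [pH.per]
  refine I_mono pH2.integrableOn pH3.integrableOn fun x => ?_
  have := h x
  show (H x - H0) ^ 2 ≤ H x ^ 2 - H0 ^ 2
  nlinarith

/-- **the glue** -/
theorem tgtCrsE_of {ε : ℝ} (hε : 0 < ε) {H0 : ℝ} (h0 : 0 < H0)
    {kd : ∀ {N : Skel189.Num} {γ : ℝ} {p0 P₀ : ℕ} (X : Ctx N γ p0 P₀), ℕ → X.c.Lam → X.c.Lam}
    (hkd : ∀ {N : Skel189.Num} {γ : ℝ} {p0 P₀ : ℕ} (X : Ctx N γ p0 P₀) (q : ℕ), q.Prime →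
      kd X q = kdx X q)
    (hH : TgtH kd H0 N γ) : TgtCrsE ε N γ := by
  have hT := tgtT1 N γ
  obtain ⟨a, ha, hH⟩ := hH
  refine ⟨Ce ε H0 * (4 + a), mul_nonneg (Ce_nonneg hε h0.le) (by linarith), ?_⟩
  refine ((hT.and hH).and (ctx_mass N γ)).mono ?_
  rintro p0 P₀ X ⟨⟨h1, h2⟩, h3⟩ hC j₀ Hb
  refine All.mono (fun u τ hh hp hb => ?_)
    (All.and (All.and (All.and (h1 hC j₀) (h2 hC j₀)) (h3 j₀))
      (All.and (ctx_Gd X) (ctx_mumu X j₀)))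
  obtain ⟨⟨⟨⟨n, k1⟩, k2⟩, k3⟩, ⟨hG, hc⟩, hmu⟩ := hh
  have k2 := k2 hp n
  set t := (X.self u τ Finset.univ).t with ht
  have hok : GOk (g1 X u τ) := (GX.one hG hc).gok
  have e1 : XP (ker (kX (X.c.D.par X.Y).rho)) n t.top (g1 X u τ) (g1 X u τ) =
      XL (kd X) n t.top (g1 X u τ) := by
    rw [XP_eq_XL_one rel_ixL hG hc]
    exact (XL_congr_one (fun q hq => hkd X q hq) hG hc n).symm
  have k4 := XL_le_eps h0 hε (kd X) n t.top (g1 X u τ) hok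
  have k5 : I (fun x => (HgL (kd X) H0 n t.top (g1 X u τ) x - H0) ^ 2) ≤
      I (fun x => HgL (kd X) H0 n t.top (g1 X u τ) x ^ 2 - H0 ^ 2) :=
    I_sub_sq_le h0.le (LogL51.PB_HgL (kd X) h0.le n t.top hok)
      (LogL51.base_le_HgL (kd X) H0 n t.top (g1 X u τ))
  have e2 : I (fun x => gtot (g1 X u τ) x ^ 2) = I (fun x => tt Finset.univ (X.g u τ) x ^ 2) := by
    congr 1; funext x; rw [gtot_g1]
  have hCe := Ce_nonneg hε h0.le (η := ε) (H0 := H0)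
  set μ := X.mu j₀ u τ Finset.univ with hμ
  have hμ0 : 0 ≤ μ := (hmu Finset.univ).1
  have k6 : Ce ε H0 * (I (gtot (g1 X u τ)) +
      I (fun x => (HgL (kd X) H0 n t.top (g1 X u τ) x - H0) ^ 2)) ≤
      Ce ε H0 * (4 * μ + a * (μ + μ * μ)) :=
    mul_le_mul_of_nonneg_left (add_le_add k3 (k5.trans k2)) hCe
  have k7 : Ce ε H0 * (4 * μ + a * (μ + μ * μ)) ≤ Ce ε H0 * (4 + a) * (μ + μ * μ) := by
    have : 0 ≤ Ce ε H0 * (4 * (μ * μ)) := by positivity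
    nlinarith
  show WF (SXN X j₀) (xX (X.c.D.par X.Y).rho (SXN X j₀)) (Fl.self, X.self u τ Finset.univ) -
    ε * I (fun x => tt Finset.univ (X.g u τ) x ^ 2) ≤ _
  rw [e1] at k1
  rw [e2] at k4
  linarith

/-- `ForN` is monotone -/
theorem forN_mono {th : ℝ → ℕ → ℕ → ℝ} {Sx : ℝ → ℝ → ℕ → (ℕ → ℝ) → Finset ℕ → Finset ℕ}
    {T U : Skel189.Num → ℝ → Prop} (h : ForN th Sx T) (H : ∀ N γ, T N γ → U N γ) :
    ForN th Sx U := by
  obtain ⟨c, h⟩ := h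
  exact ⟨c, fun N Ct C₀ γ m1 m2 m3 => H N γ (h N Ct C₀ γ m1 m2 m3)⟩

/-- `ForN` of two targets -/
theorem forN_and {th : ℝ → ℕ → ℕ → ℝ} {Sx : ℝ → ℝ → ℕ → (ℕ → ℝ) → Finset ℕ → Finset ℕ}
    {T T' U : Skel189.Num → ℝ → Prop} (h : ForN th Sx T) (h' : ForN th Sx T')
    (H : ∀ N γ, T N γ → T' N γ → U N γ) : ForN th Sx U := by
  obtain ⟨c1, h1⟩ := h
  obtain ⟨c2, h2⟩ := h'
  refine ⟨max c1 c2, fun N Ct C₀ γ m1 m2 m3 => ?_⟩
  have red : ∀ c : ℝ, c ≤ max c1 c2 → NumFin N (th Ct) Ct c := fun c hc =>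
    ⟨hc.trans m2.C1, m2.c2, m2.B, m2.A, m2.a', m2.a, m2.Ct, m2.rg⟩
  exact H N γ (h1 N Ct C₀ γ m1 (red _ (le_max_left _ _)) m3)
    (h2 N Ct C₀ γ m1 (red _ (le_max_right _ _)) m3)

/-- **`TgtCrsE` for all the numbers, from the heights** -/
theorem forN_tgtCrsE {th : ℝ → ℕ → ℕ → ℝ} {Sx : ℝ → ℝ → ℕ → (ℕ → ℝ) → Finset ℕ → Finset ℕ}
    {ε : ℝ} (hε : 0 < ε) {H0 : ℝ} (h0 : 0 < H0)
    {kd : ∀ {N : Skel189.Num} {γ : ℝ} {p0 P₀ : ℕ} (X : Ctx N γ p0 P₀), ℕ → X.c.Lam → X.c.Lam}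
    (hkd : ∀ {N : Skel189.Num} {γ : ℝ} {p0 P₀ : ℕ} (X : Ctx N γ p0 P₀) (q : ℕ), q.Prime →
      kd X q = kdx X q)
    (hH : ForN th Sx (TgtH kd H0)) : ForN th Sx (TgtCrsE ε) :=
  forN_mono hH fun N γ h => tgtCrsE_of hε h0 (fun X q hq => hkd X q hq) h

end Crest.Agent.R4P.CrsG29
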