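import Crest.Agent.R4P.GWf_343
import Crest.Agent.R4P.SepC_244

/-!
R4 (S0004) with powers, [MB] T2, helper343: **the bundles of a context**.

* `toDT_AddD`, `toDT_WrN` : built trees.
* `FX wr t` : exact tie data, item means, class maps.
* `ctx_BI` : **the start bundle of every node of a context satisfies `BI (FX rho)`** at its top column.
-/

set_option autoImplicit false
set_option linter.unusedSectionVars false
set_option linter.unusedVariables false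
open MeasureTheory Filter Set

namespace Crest.Agent.R4P.GWg343

open Crest.Agent.R4.Tour104 Crest.Agent.R4.Tour758 Crest.Agent.R4.Avg758 Crest.Agent.R4.Clos758
open Crest.Agent.R4.ClosL758 Crest.Agent.R4.ClosG758 Crest.Agent.R4.ClosR758
open Crest.Agent.R4P.ClosR442 Crest.Agent.R4P.Grp36 Crest.Agent.R4P.PN36
open Crest.Agent.R4P.Cnt588 Crest.Agent.R4P.Walk560 Crest.Agent.R4P.Item758
open Crest.Agent.R4P.Bld532 (NS All NodeOk Bk dv nd mem_dv mem_nd Ws_mono Ws_nonneg)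
open Crest.Agent.R4 Crest.Agent.R4P
open Crest.Agent.R4P.StratN36 Crest.Agent.R4P.StratX36
open Crest.Agent.R4P.WalkIT579 (tp isL)
open Crest.Agent.R4P.Sep244 Crest.Agent.R4P.CrsD26 Crest.Agent.R4P.GWf343
open Crest.Agent.R4P.Mrg35 Crest.Agent.R4P.TopX36

section
variable {Λ κ : Type} [Fintype Λ] [DecidableEq Λ] [Fintype κ] [DecidableEq κ] [WRel κ]
  {D : Par Λ κ} {sp : ℕ → Finset Λ} {P : Bld532.Par} {W : ℕ → ℝ}

/-- **the codes of the two parts of an add node are disjoint** -/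
theorem add_codes (hG : PG P W) {u : NS} (hc : 0 < u.c) {b : ℕ} {t₁ t₀ : IT}
    (h : All (NodeOk P W) u (.add b t₁ t₀)) {k : ℕ} (h1 : StI b t₁ k) (h0 : StI b t₀ k) : False := by
  have hok : NodeOk P W u (.add b t₁ t₀) := h.1
  have hb : b.Prime := hok.1
  have hp0 : P.p0 < b := hok.2.2.1
  have lo0 := hG.lo0 b hb hp0
  have m1 := massI hG hb t₁ ⟨b + 1, u.c, u.A, u.B⟩ k hc h.2.1
    (tp_open h.2.1.self hb rfl (StI_not_leaf h1)) h1
  have m0 := massI hG hb t₀ ⟨b + 1, u.c, u.A, u.B⟩ k hc h.2.2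
    (tp_open h.2.2.self hb rfl (StI_not_leaf h0)) h0
  obtain ⟨q, hq, hqe⟩ := ne_of_ws (by linarith) m1
  obtain ⟨q', hq', hqe'⟩ := ne_of_ws (by linarith) m0
  obtain ⟨J, hJ⟩ := cutN_of hG.w0 hok
  rw [hJ.t1, Finset.mem_filter] at hq
  rw [hJ.t0, Finset.mem_filter] at hq'
  have h3 : ex b q = ex b u.A + k := hqe
  have h4 : ex b q' = ex b u.A + k := hqe'
  omega

theorem toDT_AddD (hG : PG P W) : ∀ (τ : IT) (u : NS), 0 < u.c → All (NodeOk P W) u τ →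
    (D.toDT sp u.B u.A τ).All AddD := by
  intro τ
  induction τ with
  | leaf S => intro u _ _; exact trivial
  | br q Sp t₁ t₀ ih₁ ih₀ =>
    intro u hc hA
    have hq : q.Prime := hA.1.1
    have hq2 : (2 : ℝ) ≤ q := by exact_mod_cast hq.two_le
    have h1 : 0 < 1 - 1 / (q : ℝ) := by
      have : 1 / (q : ℝ) ≤ 1 / 2 := one_div_le_one_div_of_le (by norm_num) hq2
      linarith
    exact ⟨trivial, ih₁ ⟨q, u.c / (1 - 1 / (q : ℝ)), u.A * q, u.B⟩ (div_pos hc h1) hA.2.1,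
      ih₀ ⟨q, u.c * q, u.A, u.B * q⟩ (mul_pos hc (by linarith)) hA.2.2⟩
  | add q t₁ t₀ ih₁ ih₀ =>
    intro u hc hA
    have hq : q.Prime := hA.1.1
    refine ⟨fun e he he' => ?_, ih₁ ⟨q + 1, u.c, u.A, u.B⟩ hc hA.2.1,
      ih₀ ⟨q + 1, u.c, u.A, u.B⟩ hc hA.2.2⟩
    exact add_codes hG hc hA ((Cs_toDT hq.ne_zero _ _ _ _).1 he)
      ((Cs_toDT hq.ne_zero _ _ _ _).1 he')
  | up q Sp t ih =>
    intro u hc hA
    exact ⟨trivial, ih ⟨q, u.c, u.A, u.B⟩ hc hA.2⟩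
  | pl q t ih =>
    intro u hc hA
    exact ⟨trivial, ih ⟨q + 1, u.c, u.A * q, u.B⟩ hc hA.2, trivial⟩
  | far q t₁ t₀ ih₁ ih₀ =>
    intro u hc hA
    have hq : q.Prime := hA.1.1
    refine ⟨fun e he he' => ?_, ih₁ ⟨q + 1, u.c, u.A, u.B⟩ hc hA.2.1,
      ih₀ ⟨q + 1, u.c, u.A, u.B⟩ hc hA.2.2⟩
    obtain ⟨K, -, F, e1⟩ := farN_of hG.w0 hA.1
    subst e1
    exact (Cs_toDT hq.ne_zero _ _ _ _).1 he

theorem toDT_WrN (D : Par Λ κ) (sp : ℕ → Finset Λ) : ∀ (τ : IT) (b pr : ℕ),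
    (D.toDT sp b pr τ).All (WrN D.rho) := by
  intro τ
  induction τ with
  | leaf S => intro b pr; exact trivial
  | br q Sp t₁ t₀ ih₁ ih₀ => intro b pr; exact ⟨rfl, ih₁ _ _, ih₀ _ _⟩
  | add q t₁ t₀ ih₁ ih₀ => intro b pr; exact ⟨trivial, ih₁ _ _, ih₀ _ _⟩
  | up q Sp t ih => intro b pr; exact ⟨trivial, ih _ _⟩
  | pl q t ih => intro b pr; exact ⟨rfl, ih _ _, trivial⟩
  | far q t₁ t₀ ih₁ ih₀ => intro b pr; exact ⟨trivial, ih₁ _ _, ih₀ _ _⟩

/-- exact tie data, item means, class maps -/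
def FX (wr : ℕ → Λ → κ) (t : DT Λ κ) : Prop := NOk t ∧ IMean t ∧ WrN wr t

end

section ctx
open Crest.Agent.R4P.Skel189 Crest.Agent.R4P.Frame758 Crest.Agent.R4P.Data758
open Crest.Agent.R4.Soft104 Crest.Agent.R4.Fam464
open Crest.Agent.R4P.CtxNF36

variable {N : Skel189.Num} {γ : ℝ} {p0 P₀ : ℕ} (X : Ctx N γ p0 P₀)

/-- **the start bundles of a context** -/
theorem ctx_BI (j₀ : X.c.Lam) (hG : PG X.par (w X.ψ)) :
    All (fun u τ => BI (FX (X.c.D.par X.Y).rho) (X.self u τ Finset.univ).t.top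
      [(X.self u τ Finset.univ).t]) ⟨Skel189.top X.S, 1, 1, 1⟩ X.c.t := by
  have h1 := ctx_NOk X j₀
  have h2 := Step588.ctx_NDt (X := X)
  have h3 := ctx_side X j₀
  have h4 := ctx_cpos X
  have h5 := Step588.All_All _ _ X.nodes
  refine All.mono (fun u τ hh => ?_) (All.and h1 (All.and h2 (All.and h3 (All.and h4 h5))))
  obtain ⟨a1, a2, a3, a4, a5⟩ := hh
  have hgd : (X.self u τ Finset.univ).t.All XEx29.Gd :=
    XEx29.toDT_Gd (X.c.D.par X.Y) X.c.sp τ u.B u.A a2.B_pos a2.fit (RseNd23.node_wts a2 X.Y)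
  have hw : (X.self u τ Finset.univ).t.All (WrN (X.c.D.par X.Y).rho) :=
    toDT_WrN (X.c.D.par X.Y) X.c.sp τ u.B u.A
  refine BI.start ?_ ?_ ?_
  · exact ((a1.and hgd).and hw).mono fun t ht => ⟨ht.1.1, ht.1.2.1, ht.2⟩
  · exact toDT_AddD hG τ u a4 a5
  · exact (a3.2.col).lower (Nat.lt_succ_self _)

end ctx

end Crest.Agent.R4P.GWg343
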