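import Crest.Agent.R4P.LogL_51
import Crest.Agent.R4P.PN_36

/-!
R4 (S0004), powers, helper9, [TgtCrs] (C): **the running height of the group walk is in `L²`**.

* `rg W s x = 4 W ((x - s / (2 W))⁺)²` : the reserve of the height `x` at the scale `s`, for groups of
  total weight `≤ W`; `rg_le`, `rg_diff2` (second differences), `rg_anti`, `release`, `tie_pt`.
* `RZ W s k f x` : reserve of the class heights; `rI` : its integral; `rI_tie`, `rI_rs`, `rI_chg`.
* `WOk`, `ROk` : weights of the groups, exact data of the ties.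
* `SS` : the supply; **`HgL_le`** : `I (HgL² - H0²) + reserve ≤ SS`.
-/

set_option autoImplicit false
set_option linter.unusedVariables false
set_option linter.unusedSectionVars false

open MeasureTheory Set

namespace Crest.Agent.R4P.HgR9

open Crest.Agent.R4.Tour104 Crest.Agent.R4.Tour758 Crest.Agent.R4.Clos758
open Crest.Agent.R4.ClosL758 Crest.Agent.R4.ClosG758
open Crest.Agent.R4P.Walk560 Crest.Agent.R4P.Grp36 Crest.Agent.R4P.PN36
open Crest.Agent.R4P.LogG51 Crest.Agent.R4P.LogL51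

/-! ### the reserve -/

/-- the reserve of the height `x` at the scale `s`, for groups of total weight `≤ W` -/
noncomputable def rg (W s x : ℝ) : ℝ := 4 * W * (max (x - s / (2 * W)) 0) ^ 2

lemma rg_nonneg {W : ℝ} (hW : 0 < W) (s x : ℝ) : 0 ≤ rg W s x := by
  unfold rg; positivity

lemma rg_mono {W : ℝ} (hW : 0 < W) (s : ℝ) {x y : ℝ} (h : x ≤ y) : rg W s x ≤ rg W s y := by
  unfold rg
  have h1 : max (x - s / (2 * W)) 0 ≤ max (y - s / (2 * W)) 0 := max_le_max (by linarith) le_rfl
  exact mul_le_mul_of_nonneg_left (pow_le_pow_left₀ (le_max_right _ _) h1 2) (by positivity)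

lemma rg_anti {W : ℝ} (hW : 0 < W) {s s' : ℝ} (h : s ≤ s') (x : ℝ) : rg W s' x ≤ rg W s x := by
  unfold rg
  have h0 : s / (2 * W) ≤ s' / (2 * W) := div_le_div_of_nonneg_right h (by positivity)
  have h1 : max (x - s' / (2 * W)) 0 ≤ max (x - s / (2 * W)) 0 := max_le_max (by linarith) le_rfl
  exact mul_le_mul_of_nonneg_left (pow_le_pow_left₀ (le_max_right _ _) h1 2) (by positivity)

lemma rg_zero {W s : ℝ} (hW : 0 < W) (hs : 0 ≤ s) : rg W s 0 = 0 := by
  unfold rg
  have h0 : 0 ≤ s / (2 * W) := by positivity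
  rw [max_eq_right (by linarith)]
  ring

lemma rg_le {W s x : ℝ} (hW : 0 < W) (hs : 0 ≤ s) (hx : 0 ≤ x) : rg W s x ≤ 4 * W * x ^ 2 := by
  unfold rg
  have h0 : 0 ≤ s / (2 * W) := by positivity
  have h1 : max (x - s / (2 * W)) 0 ≤ x := max_le (by linarith) hx
  exact mul_le_mul_of_nonneg_left (pow_le_pow_left₀ (le_max_right _ _) h1 2) (by positivity)

/-- second differences of `(x⁺)²` -/
lemma sq_diff2 (u : ℝ) {b c : ℝ} (hb : 0 ≤ b) (hc : 0 ≤ c) :
    (max (u + b + c) 0) ^ 2 - (max (u + b) 0) ^ 2 - (max (u + c) 0) ^ 2 + (max u 0) ^ 2 ≤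
      2 * (b * c) := by
  have hbc := mul_nonneg hb hc
  rcases le_total 0 u with h | h
  · rw [max_eq_left (by linarith), max_eq_left (by linarith), max_eq_left (by linarith),
      max_eq_left h]
    nlinarith
  · rw [max_eq_right h]
    rcases le_total 0 (u + b) with h1 | h1
    · rw [max_eq_left (by linarith : 0 ≤ u + b + c), max_eq_left h1]
      rcases le_total 0 (u + c) with h2 | h2
      · rw [max_eq_left h2]; nlinarith
      · rw [max_eq_right h2]
        nlinarith
    · rw [max_eq_right h1]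
      rcases le_total 0 (u + c) with h2 | h2
      · rw [max_eq_left (by linarith : 0 ≤ u + b + c), max_eq_left h2]
        nlinarith
      · rw [max_eq_right h2]
        rcases le_total 0 (u + b + c) with h3 | h3
        · rw [max_eq_left h3]
          nlinarith
        · rw [max_eq_right h3]; nlinarith

/-- **second differences of the reserve** -/
lemma rg_diff2 {W : ℝ} (hW : 0 < W) (s a : ℝ) {b c : ℝ} (hb : 0 ≤ b) (hc : 0 ≤ c) :
    rg W s (a + b + c) ≤ rg W s (a + b) + rg W s (a + c) - rg W s a + 8 * W * (b * c) := by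
  unfold rg
  have h := sq_diff2 (a - s / (2 * W)) hb hc
  have e1 : a - s / (2 * W) + b + c = a + b + c - s / (2 * W) := by ring
  have e2 : a - s / (2 * W) + b = a + b - s / (2 * W) := by ring
  have e3 : a - s / (2 * W) + c = a + c - s / (2 * W) := by ring
  rw [e1, e2, e3] at h
  nlinarith

/-- **join surplus of the reserve** -/
lemma rg_join {W s : ℝ} (hW : 0 < W) (hs : 0 ≤ s) {x y : ℝ} (hx : 0 ≤ x) (hy : 0 ≤ y) :
    rg W s (x + y) ≤ rg W s x + rg W s y + 8 * W * (x * y) := by
  have h := rg_diff2 hW s 0 hx hy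
  rw [rg_zero hW hs, zero_add, zero_add] at h
  linarith

/-- second differences are nonnegative -/
lemma sq_diff2' (u : ℝ) {b c : ℝ} (hb : 0 ≤ b) (hc : 0 ≤ c) :
    (max (u + b) 0) ^ 2 + (max (u + c) 0) ^ 2 ≤ (max (u + b + c) 0) ^ 2 + (max u 0) ^ 2 := by
  have hbc := mul_nonneg hb hc
  rcases le_total 0 u with h | h
  · rw [max_eq_left (by linarith), max_eq_left (by linarith), max_eq_left (by linarith),
      max_eq_left h]
    nlinarith
  · rw [max_eq_right h]
    rcases le_total 0 (u + b) with h1 | h1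
    · rw [max_eq_left (by linarith : 0 ≤ u + b + c), max_eq_left h1]
      rcases le_total 0 (u + c) with h2 | h2
      · rw [max_eq_left h2]; nlinarith
      · rw [max_eq_right h2]
        nlinarith
    · rw [max_eq_right h1]
      rcases le_total 0 (u + c) with h2 | h2
      · rw [max_eq_left (by linarith : 0 ≤ u + b + c), max_eq_left h2]
        nlinarith
      · rw [max_eq_right h2]
        have := sq_nonneg (max (u + b + c) 0)
        linarith

/-- superadditivity -/
lemma rg_super {W s : ℝ} (hW : 0 < W) (hs : 0 ≤ s) {x y : ℝ} (hx : 0 ≤ x) (hy : 0 ≤ y) :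
    rg W s x + rg W s y ≤ rg W s (x + y) := by
  have h := sq_diff2' (0 - s / (2 * W)) hx hy
  have h0 := rg_zero hW hs
  unfold rg at h0 ⊢
  have e1 : 0 - s / (2 * W) + x + y = x + y - s / (2 * W) := by ring
  have e2 : 0 - s / (2 * W) + x = x - s / (2 * W) := by ring
  have e3 : 0 - s / (2 * W) + y = y - s / (2 * W) := by ring
  rw [e1, e2, e3] at h
  nlinarith

/-- convexity -/
lemma rg_conv {W : ℝ} (hW : 0 < W) (s : ℝ) {w x y : ℝ} (h0 : 0 ≤ w) (h1 : w ≤ 1) :
    rg W s ((1 - w) * x + w * y) ≤ (1 - w) * rg W s x + w * rg W s y := by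
  unfold rg
  set t := s / (2 * W) with ht
  have e : (1 - w) * x + w * y - t = (1 - w) * (x - t) + w * (y - t) := by ring
  rw [e]
  set u := x - t
  set v := y - t
  have a1 : u ≤ max u 0 := le_max_left _ _
  have a2 : v ≤ max v 0 := le_max_left _ _
  have a3 : 0 ≤ max u 0 := le_max_right _ _
  have a4 : 0 ≤ max v 0 := le_max_right _ _
  have hw : 0 ≤ 1 - w := by linarith
  have b1 : max ((1 - w) * u + w * v) 0 ≤ (1 - w) * max u 0 + w * max v 0 :=
    max_le (add_le_add (mul_le_mul_of_nonneg_left a1 hw) (mul_le_mul_of_nonneg_left a2 h0))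
      (add_nonneg (mul_nonneg hw a3) (mul_nonneg h0 a4))
  have b2 : (max ((1 - w) * u + w * v) 0) ^ 2 ≤ ((1 - w) * max u 0 + w * max v 0) ^ 2 :=
    pow_le_pow_left₀ (le_max_right _ _) b1 2
  have b3 : ((1 - w) * max u 0 + w * max v 0) ^ 2 ≤
      (1 - w) * (max u 0) ^ 2 + w * (max v 0) ^ 2 := by
    nlinarith [mul_nonneg (mul_nonneg hw h0) (sq_nonneg (max u 0 - max v 0))]
  nlinarith

/-- the tangent inequality behind the release -/
lemma rg_tan {W : ℝ} (hW : 0 < W) {s A : ℝ} (h : s ≤ A) (x : ℝ) :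
    rg W A x + 2 * (A - s) * (2 * x - (A + s) / (2 * W)) ≤ rg W s x := by
  unfold rg
  have hW' : W ≠ 0 := hW.ne'
  set θ : ℝ := 1 / (2 * W) with hθ
  have e1 : s / (2 * W) = θ * s := by rw [hθ]; ring
  have e2 : A / (2 * W) = θ * A := by rw [hθ]; ring
  have e3 : (A + s) / (2 * W) = θ * (A + s) := by rw [hθ]; ring
  have eW : 4 * W * θ = 2 := by rw [hθ]; field_simp; norm_num
  have hθ0 : 0 < θ := by rw [hθ]; positivity
  rw [e1, e2, e3]
  rcases le_total (θ * A) x with h1 | h1
  · have h2 : θ * s ≤ x := (mul_le_mul_of_nonneg_left h hθ0.le).trans h1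
    rw [max_eq_left (by linarith), max_eq_left (by linarith)]
    have : 4 * W * (x - θ * s) ^ 2 - 4 * W * (x - θ * A) ^ 2 =
        (4 * W * θ) * (A - s) * (2 * x - θ * (A + s)) := by ring
    rw [eW] at this
    linarith
  · rcases le_total (θ * s) x with h2 | h2
    · rw [max_eq_right (by linarith), max_eq_left (by linarith)]
      have e : 4 * W * (x - θ * s) ^ 2 - 2 * (A - s) * (2 * x - θ * (A + s)) =
          4 * W * (x - θ * s - θ * (A - s)) ^ 2 + (4 * W * θ - 2) * (A - s) * (2 * (x - θ * s)) -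
            (4 * W * θ - 2) * θ * (A - s) ^ 2 := by ring
      rw [eW] at e
      have h3 : 0 ≤ 4 * W * (x - θ * s - θ * (A - s)) ^ 2 := by positivity
      nlinarith
    · rw [max_eq_right (by linarith), max_eq_right (by linarith)]
      have h3 : 2 * x - θ * (A + s) ≤ 0 := by
        have := mul_le_mul_of_nonneg_left h hθ0.le
        linarith
      nlinarith [mul_nonneg (sub_nonneg.2 h) (neg_nonneg.2 h3)]

/-- **the release** -/
lemma release {ι : Type*} {W s A : ℝ} (hW : 0 < W) (hs : 0 ≤ s) (h : s ≤ A) (g : List ι)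
    (c : ι → ℝ) (x : ι → ℝ) (hc : ∀ m ∈ g, 0 ≤ c m) (hw : (g.map c).sum ≤ W)
    (hA : A ≤ (g.map fun m => c m * x m).sum) :
    A ^ 2 - s ^ 2 + (g.map fun m => c m * rg W A (x m)).sum ≤
      (g.map fun m => c m * rg W s (x m)).sum := by
  have key : ∀ g : List ι, (∀ m ∈ g, 0 ≤ c m) →
      (g.map fun m => c m * rg W A (x m)).sum + 2 * (A - s) *
        (2 * (g.map fun m => c m * x m).sum - (A + s) / (2 * W) * (g.map c).sum) ≤
      (g.map fun m => c m * rg W s (x m)).sum := by
    intro g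
    induction g with
    | nil => intro _; simp
    | cons m g ih =>
      intro hc
      have h1 := ih fun a ha => hc a (List.mem_cons_of_mem _ ha)
      have h2 := mul_le_mul_of_nonneg_left (rg_tan hW h (x m)) (hc m (by simp))
      simp only [List.map_cons, List.sum_cons]
      nlinarith
  have h1 := key g hc
  have hA0 : 0 ≤ A := hs.trans h
  have h2 : (A + s) / (2 * W) * (g.map c).sum ≤ (A + s) / 2 := by
    have : (A + s) / (2 * W) * (g.map c).sum ≤ (A + s) / (2 * W) * W :=
      mul_le_mul_of_nonneg_left hw (by positivity)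
    refine this.trans (le_of_eq ?_)
    field_simp
  have h3 : 2 * (A - s) * (2 * A - (A + s) / 2) ≤ 2 * (A - s) *
      (2 * (g.map fun m => c m * x m).sum - (A + s) / (2 * W) * (g.map c).sum) :=
    mul_le_mul_of_nonneg_left (by linarith) (by linarith)
  have h4 : A ^ 2 - s ^ 2 ≤ 2 * (A - s) * (2 * A - (A + s) / 2) := by nlinarith
  linarith

/-- the spread of a lift is worst when it is concentrated -/
lemma spread {W : ℝ} (hW : 0 < W) (s X : ℝ) {D : ℝ} (n : ℕ) (g : ℕ → ℝ)
    (hg : ∀ i ∈ Finset.range n, 0 ≤ g i) (hD : ∑ i ∈ Finset.range n, g i = D) :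
    ∑ i ∈ Finset.range n, rg W s (X + g i) ≤ n * rg W s X + (rg W s (X + D) - rg W s X) := by
  have hD0 : 0 ≤ D := hD ▸ Finset.sum_nonneg hg
  rcases hD0.eq_or_lt with h0 | h0
  · have hz : ∀ i ∈ Finset.range n, g i = 0 := by
      have := (Finset.sum_eq_zero_iff_of_nonneg hg).1 (hD.trans h0.symm)
      exact this
    rw [← h0, add_zero, sub_self, add_zero]
    have : ∑ i ∈ Finset.range n, rg W s (X + g i) = ∑ i ∈ Finset.range n, rg W s X :=
      Finset.sum_congr rfl fun i hi => by rw [hz i hi, add_zero]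
    rw [this, Finset.sum_const, Finset.card_range, nsmul_eq_mul]
  · have h1 : ∀ i ∈ Finset.range n, rg W s (X + g i) ≤
        rg W s X + g i / D * (rg W s (X + D) - rg W s X) := by
      intro i hi
      have t0 : 0 ≤ g i / D := div_nonneg (hg i hi) h0.le
      have t1 : g i / D ≤ 1 := by
        rw [div_le_one h0, ← hD]
        exact Finset.single_le_sum (f := g) hg hi
      have h2 := rg_conv hW s (x := X) (y := X + D) t0 t1
      have e : (1 - g i / D) * X + g i / D * (X + D) = X + g i := by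
        field_simp; ring
      rw [e] at h2
      linarith
    refine (Finset.sum_le_sum h1).trans ?_
    rw [Finset.sum_add_distrib, Finset.sum_const, Finset.card_range, nsmul_eq_mul, ← Finset.sum_mul,
      ← Finset.sum_div, hD, div_self h0.ne', one_mul]

/-- **the tie, at a point**: the classes `c ∈ S` of one `z` -/
lemma tie_pt {κ : Type*} {W s : ℝ} (hW : 0 < W) (S : Finset κ) {a b B : κ → ℝ} {g : κ → ℕ → ℝ}
    {p : ℕ} {w : ℝ} (hp : 0 < p) (hw : w = 1 / (p : ℝ)) (ha : ∀ c ∈ S, 0 ≤ a c)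
    (hb : ∀ c ∈ S, 0 ≤ b c) (hB : ∀ c ∈ S, B c = a c - w * max (a c - b c) 0)
    (hg : ∀ c ∈ S, ∀ i ∈ Finset.range p, 0 ≤ g c i)
    (hG : ∀ c ∈ S, ∑ i ∈ Finset.range p, g c i = max (b c - a c) 0) :
    (∑ i ∈ Finset.range p, rg W s (∑ c ∈ S, (B c + g c i))) / p ≤
      (1 - w) * rg W s (∑ c ∈ S, a c) + w * rg W s (∑ c ∈ S, b c) +
        8 * W * (w * ((∑ c ∈ S, a c) * (∑ c ∈ S, b c) - ∑ c ∈ S, a c * b c)) := by
  classical
  have hp' : (0 : ℝ) < p := by exact_mod_cast hp
  have hp1 : (1 : ℝ) ≤ p := by exact_mod_cast hp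
  have hw0 : 0 ≤ w := by rw [hw]; positivity
  have hw1 : w ≤ 1 := by rw [hw, div_le_one hp']; exact hp1
  set M := ∑ c ∈ S, min (a c) (b c) with hM
  set U := ∑ c ∈ S, max (a c - b c) 0 with hU
  set D := ∑ c ∈ S, max (b c - a c) 0 with hD
  have ea : ∑ c ∈ S, a c = M + U := by
    rw [hM, hU, ← Finset.sum_add_distrib]
    refine Finset.sum_congr rfl fun c _ => ?_
    rcases le_total (a c) (b c) with h | h
    · rw [min_eq_left h, max_eq_right (by linarith)]; ring
    · rw [min_eq_right h, max_eq_left (by linarith)]; ring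
  have eb : ∑ c ∈ S, b c = M + D := by
    rw [hM, hD, ← Finset.sum_add_distrib]
    refine Finset.sum_congr rfl fun c _ => ?_
    rcases le_total (a c) (b c) with h | h
    · rw [min_eq_left h, max_eq_left (by linarith)]; ring
    · rw [min_eq_right h, max_eq_right (by linarith)]; ring
  have eB : ∑ c ∈ S, B c = M + (1 - w) * U := by
    have h1 : ∑ c ∈ S, B c = ∑ c ∈ S, a c - w * U := by
      rw [hU, Finset.mul_sum, ← Finset.sum_sub_distrib]
      exact Finset.sum_congr rfl fun c hc => hB c hc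
    rw [h1, ea]; ring
  have hM0 : 0 ≤ M := Finset.sum_nonneg fun c hc => le_min (ha c hc) (hb c hc)
  have hU0 : 0 ≤ U := Finset.sum_nonneg fun c _ => le_max_right _ _
  have hD0 : 0 ≤ D := Finset.sum_nonneg fun c _ => le_max_right _ _
  -- concentration
  have h1 := spread hW s (M + (1 - w) * U) (D := D) p (fun i => ∑ c ∈ S, g c i)
    (fun i hi => Finset.sum_nonneg fun c hc => hg c hc i hi) (by
      rw [Finset.sum_comm, hD]
      exact Finset.sum_congr rfl fun c hc => hG c hc)
  have e1 : ∀ i, ∑ c ∈ S, (B c + g c i) = M + (1 - w) * U + ∑ c ∈ S, g c i := by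
    intro i
    rw [Finset.sum_add_distrib, eB]
  have h2 : (∑ i ∈ Finset.range p, rg W s (∑ c ∈ S, (B c + g c i))) / p ≤
      rg W s (M + (1 - w) * U) + w * (rg W s (M + (1 - w) * U + D) - rg W s (M + (1 - w) * U)) := by
    rw [div_le_iff₀ hp']
    have e2 : ∑ i ∈ Finset.range p, rg W s (∑ c ∈ S, (B c + g c i)) =
        ∑ i ∈ Finset.range p, rg W s (M + (1 - w) * U + ∑ c ∈ S, g c i) :=
      Finset.sum_congr rfl fun i _ => by rw [e1]
    rw [e2]
    refine h1.trans (le_of_eq ?_)
    have : w * (p : ℝ) = 1 := by rw [hw]; field_simp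
    linear_combination (rg W s (M + (1 - w) * U) - rg W s (M + (1 - w) * U + D)) * this
  -- second difference
  have h3 := rg_diff2 hW s M (mul_nonneg (sub_nonneg.2 hw1) hU0) hD0
  have h4 : rg W s (M + (1 - w) * U) ≤ (1 - w) * rg W s (M + U) + w * rg W s M := by
    have := rg_conv hW s (x := M + U) (y := M) hw0 hw1
    have e : (1 - w) * (M + U) + w * M = M + (1 - w) * U := by ring
    rw [e] at this
    exact this
  -- the mixed term
  have h5 : U * D ≤ (∑ c ∈ S, a c) * (∑ c ∈ S, b c) - ∑ c ∈ S, a c * b c := by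
    have h6 : ∀ c ∈ S, max (a c - b c) 0 * (D - max (b c - a c) 0) ≤
        a c * (∑ c' ∈ S, b c' - b c) := by
      intro c hc
      have k1 : max (a c - b c) 0 ≤ a c := max_le (by linarith [hb c hc]) (ha c hc)
      have k2 : D - max (b c - a c) 0 ≤ ∑ c' ∈ S, b c' - b c := by
        have k3 : ∑ c' ∈ S.erase c, max (b c' - a c') 0 ≤ ∑ c' ∈ S.erase c, b c' :=
          Finset.sum_le_sum fun c' hc' => max_le
            (by linarith [ha c' (Finset.mem_of_mem_erase hc')]) (hb c' (Finset.mem_of_mem_erase hc'))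
        have k4 := Finset.add_sum_erase S (fun c' => max (b c' - a c') 0) hc
        have k5 := Finset.add_sum_erase S b hc
        rw [hD]
        linarith
      have k6 : 0 ≤ D - max (b c - a c) 0 := by
        have := Finset.single_le_sum (f := fun c' => max (b c' - a c') 0)
          (fun c' _ => le_max_right _ _) hc
        rw [hD]; linarith
      exact mul_le_mul k1 k2 k6 (ha c hc)
    have h7 := Finset.sum_le_sum h6
    have e7 : ∑ c ∈ S, max (a c - b c) 0 * (D - max (b c - a c) 0) = U * D := by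
      have : ∀ c ∈ S, max (a c - b c) 0 * (D - max (b c - a c) 0) = max (a c - b c) 0 * D := by
        intro c _
        rcases le_total (a c) (b c) with h | h
        · rw [max_eq_right (by linarith : a c - b c ≤ 0)]; ring
        · rw [max_eq_right (by linarith : b c - a c ≤ 0)]; ring
      rw [Finset.sum_congr rfl this, ← Finset.sum_mul]
    have e8 : ∑ c ∈ S, a c * (∑ c' ∈ S, b c' - b c) =
        (∑ c ∈ S, a c) * (∑ c ∈ S, b c) - ∑ c ∈ S, a c * b c := by
      rw [Finset.sum_mul, ← Finset.sum_sub_distrib]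
      exact Finset.sum_congr rfl fun c _ => by ring
    rw [e7, e8] at h7
    exact h7
  have h8 : (1 - w) * U * D ≤ U * D := by
    have := mul_nonneg hU0 hD0
    nlinarith
  have h9 : 8 * W * (w * ((1 - w) * U * D)) ≤
      8 * W * (w * ((∑ c ∈ S, a c) * (∑ c ∈ S, b c) - ∑ c ∈ S, a c * b c)) :=
    mul_le_mul_of_nonneg_left (mul_le_mul_of_nonneg_left (h8.trans h5) hw0) (by positivity)
  refine h2.trans ?_
  rw [← ea] at h4
  rw [eb]
  rw [eb] at h9
  have h10 := mul_le_mul_of_nonneg_left h3 hw0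
  nlinarith

/-- joins of several heights -/
lemma rg_joins {ι : Type*} {W s : ℝ} (hW : 0 < W) (hs : 0 ≤ s) (S : Finset ι) {x : ι → ℝ}
    (hx : ∀ i ∈ S, 0 ≤ x i) :
    rg W s (∑ i ∈ S, x i) ≤ ∑ i ∈ S, rg W s (x i) +
      4 * W * ((∑ i ∈ S, x i) ^ 2 - ∑ i ∈ S, x i ^ 2) := by
  classical
  induction S using Finset.induction_on with
  | empty => simp [rg_zero hW hs]
  | insert c S hc ih =>
    have h1 := ih fun i hi => hx i (Finset.mem_insert_of_mem hi)
    have h2 := rg_join hW hs (hx c (Finset.mem_insert_self c S))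
      (Finset.sum_nonneg fun i hi => hx i (Finset.mem_insert_of_mem hi))
    rw [Finset.sum_insert hc, Finset.sum_insert hc, Finset.sum_insert hc]
    nlinarith

/-- splits of a height -/
lemma rg_supers {ι : Type*} {W s : ℝ} (hW : 0 < W) (hs : 0 ≤ s) (S : Finset ι) {x : ι → ℝ}
    (hx : ∀ i ∈ S, 0 ≤ x i) : ∑ i ∈ S, rg W s (x i) ≤ rg W s (∑ i ∈ S, x i) := by
  classical
  induction S using Finset.induction_on with
  | empty => simp [rg_zero hW hs]
  | insert c S hc ih =>
    have h1 := ih fun i hi => hx i (Finset.mem_insert_of_mem hi)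
    have h2 := rg_super hW hs (hx c (Finset.mem_insert_self c S))
      (Finset.sum_nonneg fun i hi => hx i (Finset.mem_insert_of_mem hi))
    rw [Finset.sum_insert hc, Finset.sum_insert hc]
    linarith

/-! ### the reserve of a node -/

lemma PB_rg {W : ℝ} (hW : 0 < W) {S f : ℝ → ℝ} (pS : PB S) (pf : PB f) :
    PB fun x => rg W (S x) (f x) := by
  obtain ⟨B, hB⟩ := pf.bdd
  refine ⟨?_, fun x => rg_nonneg hW _ _, ⟨4 * W * B ^ 2, fun x => ?_⟩, fun x => ?_⟩
  · unfold rg
    exact (((pf.meas.sub (pS.meas.div_const _)).max measurable_const).pow_const 2).const_mul _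
  · refine (rg_le hW (pS.nonneg x) (pf.nonneg x)).trans ?_
    exact mul_le_mul_of_nonneg_left (pow_le_pow_left₀ (pf.nonneg x) (hB x) 2) (by positivity)
  · show rg W (S (x + 1)) (f (x + 1)) = _
    rw [pS.per, pf.per]

section node
variable {Λ κ : Type*} [Fintype Λ] {δ : Type*} [Fintype δ] [DecidableEq δ]

/-- reserve of the class heights -/
noncomputable def RZ (W s : ℝ) (k : Λ → δ) (f : Λ → ℝ → ℝ) (x : ℝ) : ℝ :=
  ∑ z, rg W s (sm k f z x)

/-- its integral, scale `S` -/
noncomputable def rI (W : ℝ) (k : Λ → δ) (S : ℝ → ℝ) (f : Λ → ℝ → ℝ) : ℝ :=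
  I fun x => RZ W (S x) k f x

variable {W : ℝ} (hW : 0 < W) {k : Λ → δ} {S : ℝ → ℝ} {f g : Λ → ℝ → ℝ}

include hW

lemma PB_RZ (k : Λ → δ) (pS : PB S) (pf : ∀ j, PB (f j)) : PB fun x => RZ W (S x) k f x :=
  PB.sum _ fun z _ => PB_rg hW pS (PB_sm pf k z)

lemma rI_nonneg (k : Λ → δ) (S : ℝ → ℝ) (f : Λ → ℝ → ℝ) : 0 ≤ rI W k S f :=
  I_nonneg fun x => Finset.sum_nonneg fun z _ => rg_nonneg hW _ _

lemma rI_anti (k : Λ → δ) {S S' : ℝ → ℝ} (pS : PB S) (pS' : PB S') (pf : ∀ j, PB (f j))
    (h : ∀ x, S x ≤ S' x) : rI W k S' f ≤ rI W k S f :=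
  I_mono (PB_RZ hW k pS' pf).integrableOn (PB_RZ hW k pS pf).integrableOn fun x =>
    Finset.sum_le_sum fun z _ => rg_anti hW (h x) _

lemma rI_le (k : Λ → δ) (pS : PB S) (pf : ∀ j, PB (f j)) :
    rI W k S f ≤ 4 * W * Q (Dr k) f f := by
  rw [Q_Dr_sm k pf pf, ← I_sum _ fun z _ => ((PB_sm pf k z).mul (PB_sm pf k z)).integrableOn,
    ← I_smul]
  have pq : PB fun x => ∑ z, sm k f z x * sm k f z x :=
    PB.sum _ fun z _ => (PB_sm pf k z).mul (PB_sm pf k z)
  refine I_mono (PB_RZ hW k pS pf).integrableOn (pq.smul (by positivity)).integrableOn fun x => ?_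
  unfold RZ
  rw [Finset.mul_sum]
  refine Finset.sum_le_sum fun z _ => ?_
  have := rg_le hW (pS.nonneg x) ((PB_sm pf k z).nonneg x)
  rw [← sq]
  exact this

/-- the join at an add node -/
lemma rI_add (k : Λ → δ) (pS : PB S) (pf : ∀ j, PB (f j)) (pg : ∀ j, PB (g j)) :
    rI W k S (fun j x => f j x + g j x) ≤ rI W k S f + rI W k S g + 8 * W * Q (Dr k) f g := by
  rw [Q_Dr_sm k pf pg, ← I_sum _ fun z _ => ((PB_sm pf k z).mul (PB_sm pg k z)).integrableOn,
    ← I_smul]
  have pq : PB fun x => ∑ z, sm k f z x * sm k g z x :=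
    PB.sum _ fun z _ => (PB_sm pf k z).mul (PB_sm pg k z)
  have p1 := PB_RZ hW k pS pf
  have p2 := PB_RZ hW k pS pg
  have p3 : PB fun x => 8 * W * ∑ z, sm k f z x * sm k g z x := pq.smul (by positivity)
  unfold rI
  rw [← I_add p1.integrableOn p2.integrableOn, ← I_add (p1.add p2).integrableOn p3.integrableOn]
  refine I_mono (PB_RZ hW k pS fun j => (pf j).add (pg j)).integrableOn
    ((p1.add p2).add p3).integrableOn fun x => ?_
  unfold RZ
  rw [Finset.mul_sum, ← Finset.sum_add_distrib, ← Finset.sum_add_distrib]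
  refine Finset.sum_le_sum fun z _ => ?_
  rw [sm_add]
  exact rg_join hW (pS.nonneg x) ((PB_sm pf k z).nonneg x) ((PB_sm pg k z).nonneg x)

omit hW in
lemma Dr_pair {δ' : Type*} [DecidableEq δ'] (k : Λ → δ) (k' : Λ → δ') [DecidableEq Λ] :
    Dr k \ Dr (fun j => (k j, k' j)) = Dr k \ Dr k' := by
  ext e
  unfold Dr
  simp only [Finset.mem_sdiff, Finset.mem_filter, Finset.mem_univ, true_and, Prod.mk.injEq, not_and]
  constructor
  · rintro ⟨h1, h2⟩
    exact ⟨h1, h2 h1⟩
  · rintro ⟨h1, h2⟩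
    exact ⟨h1, fun _ => h2⟩

omit hW in
lemma sm_pair {δ' : Type*} [Fintype δ'] [DecidableEq δ'] (k : Λ → δ) (k' : Λ → δ')
    (f : Λ → ℝ → ℝ) (z : δ) (x : ℝ) :
    sm k f z x = ∑ z', sm (fun j => (k j, k' j)) f (z, z') x := by
  unfold sm
  rw [← Finset.sum_fiberwise_of_maps_to (s := Finset.univ.filter (fun j => k j = z))
    (t := (Finset.univ : Finset δ')) (g := k') (fun _ _ => Finset.mem_univ _)]
  refine Finset.sum_congr rfl fun z' _ => ?_
  refine Finset.sum_congr ?_ fun _ _ => rfl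
  ext j
  simp [Finset.mem_filter, Prod.ext_iff]

omit hW in
lemma sm_pair' {δ' : Type*} [Fintype δ'] [DecidableEq δ'] (k : Λ → δ) (k' : Λ → δ')
    (f : Λ → ℝ → ℝ) (z' : δ') (x : ℝ) :
    sm k' f z' x = ∑ z, sm (fun j => (k j, k' j)) f (z, z') x := by
  unfold sm
  rw [← Finset.sum_fiberwise_of_maps_to (s := Finset.univ.filter (fun j => k' j = z'))
    (t := (Finset.univ : Finset δ)) (g := k) (fun _ _ => Finset.mem_univ _)]
  refine Finset.sum_congr rfl fun z _ => ?_
  refine Finset.sum_congr ?_ fun _ _ => rfl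
  ext j
  simp [Finset.mem_filter, Prod.ext_iff, and_comm]

omit hW in
lemma Q_sdiff_of_subset [DecidableEq Λ] {R R' : Finset (Λ × Λ)} (h : R' ⊆ R)
    (f g : Λ → ℝ → ℝ) : Q (R \ R') f g = Q R f g - Q R' f g := by
  unfold Q
  rw [← Finset.sum_sdiff h]
  ring

/-- **the change of the classes** -/
lemma rI_chg {δ' : Type*} [Fintype δ'] [DecidableEq δ'] [DecidableEq Λ] (k : Λ → δ) (k' : Λ → δ')
    (pS : PB S) (pf : ∀ j, PB (f j)) :
    rI W k S f ≤ rI W k' S f + 4 * W * Q (Dr k \ Dr k') f f := by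
  set kk : Λ → δ × δ' := fun j => (k j, k' j) with hkk
  have hsub : Dr kk ⊆ Dr k := by
    intro e he
    unfold Dr at he ⊢
    simp only [Finset.mem_filter, Finset.mem_univ, true_and, hkk, Prod.mk.injEq] at he ⊢
    exact he.1
  have e0 : Q (Dr k \ Dr k') f f = Q (Dr k) f f - Q (Dr kk) f f := by
    rw [← Dr_pair k k']
    exact Q_sdiff_of_subset hsub f f
  rw [e0, Q_Dr_sm k pf pf, Q_Dr_sm kk pf pf,
    ← I_sum _ fun z _ => ((PB_sm pf k z).mul (PB_sm pf k z)).integrableOn,
    ← I_sum _ fun z _ => ((PB_sm pf kk z).mul (PB_sm pf kk z)).integrableOn]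
  have p1 : PB fun x => ∑ z, sm k f z x * sm k f z x :=
    PB.sum _ fun z _ => (PB_sm pf k z).mul (PB_sm pf k z)
  have p2 : PB fun x => ∑ z, sm kk f z x * sm kk f z x :=
    PB.sum _ fun z _ => (PB_sm pf kk z).mul (PB_sm pf kk z)
  have p3 := PB_RZ hW k' pS pf
  have p4 := PB_RZ hW k pS pf
  have key : rI W k S f + 4 * W * I (fun x => ∑ z, sm kk f z x * sm kk f z x) ≤
      rI W k' S f + 4 * W * I (fun x => ∑ z, sm k f z x * sm k f z x) := by
    unfold rI
    rw [← I_smul, ← I_smul, ← I_add p4.integrableOn (p2.smul (by positivity)).integrableOn,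
      ← I_add p3.integrableOn (p1.smul (by positivity)).integrableOn]
    refine I_mono (p4.add (p2.smul (by positivity))).integrableOn
      (p3.add (p1.smul (by positivity))).integrableOn fun x => ?_
    have hs := pS.nonneg x
    have hn : ∀ zz, 0 ≤ sm kk f zz x := fun zz => (PB_sm pf kk zz).nonneg x
    have h1 : ∀ z, rg W (S x) (sm k f z x) ≤ ∑ z', rg W (S x) (sm kk f (z, z') x) +
        4 * W * (sm k f z x * sm k f z x - ∑ z', sm kk f (z, z') x * sm kk f (z, z') x) := by
      intro z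
      have h2 := rg_joins hW hs (Finset.univ : Finset δ') (x := fun z' => sm kk f (z, z') x)
        fun z' _ => hn _
      have e1 := sm_pair k k' f z x
      have h3 : ∑ z', sm kk f (z, z') x ^ 2 = ∑ z', sm kk f (z, z') x * sm kk f (z, z') x :=
        Finset.sum_congr rfl fun _ _ => sq _
      have e2 : ∑ z', sm kk f (z, z') x = sm k f z x := e1.symm
      rw [e2, h3, sq] at h2
      exact h2
    have h2 : ∀ z', ∑ z, rg W (S x) (sm kk f (z, z') x) ≤ rg W (S x) (sm k' f z' x) := by
      intro z'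
      have h3 := rg_supers hW hs (Finset.univ : Finset δ) (x := fun z => sm kk f (z, z') x)
        fun z _ => hn _
      have e2 : ∑ z, sm kk f (z, z') x = sm k' f z' x := (sm_pair' k k' f z' x).symm
      rw [e2] at h3
      exact h3
    have h3 := Finset.sum_le_sum fun z (_ : z ∈ (Finset.univ : Finset δ)) => h1 z
    have h4 := Finset.sum_le_sum fun z' (_ : z' ∈ (Finset.univ : Finset δ')) => h2 z'
    rw [Finset.sum_add_distrib, ← Finset.mul_sum, Finset.sum_sub_distrib] at h3
    have e3 : ∑ z, ∑ z', sm kk f (z, z') x * sm kk f (z, z') x =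
        ∑ zz, sm kk f zz x * sm kk f zz x :=
      (Fintype.sum_prod_type (fun zz => sm kk f zz x * sm kk f zz x)).symm
    rw [Finset.sum_comm] at h4
    rw [e3] at h3
    unfold RZ
    linarith
  linarith

omit hW in
lemma sm_ix {δ' : Type*} [Fintype δ'] [DecidableEq δ'] {k : Λ → δ} {r : Λ → δ'} {ix : δ' → δ}
    (h : ∀ j, k j = ix (r j)) (f : Λ → ℝ → ℝ) (z : δ) (x : ℝ) :
    sm k f z x = ∑ c ∈ Finset.univ.filter (fun c => ix c = z), sm r f c x := by
  unfold sm
  rw [← Finset.sum_fiberwise_of_maps_to (s := Finset.univ.filter (fun j => k j = z))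
    (t := Finset.univ.filter (fun c => ix c = z)) (g := r) (fun j hj => by
      have := (Finset.mem_filter.1 hj).2
      exact Finset.mem_filter.2 ⟨Finset.mem_univ _, by rw [← h]; exact this⟩)]
  refine Finset.sum_congr rfl fun c hc => ?_
  have hc' := (Finset.mem_filter.1 hc).2
  refine Finset.sum_congr ?_ fun _ _ => rfl
  ext j
  simp only [Finset.mem_filter, Finset.mem_univ, true_and]
  constructor
  · rintro ⟨-, h2⟩; exact h2
  · intro h2
    exact ⟨by rw [h, h2, hc'], h2⟩

/-- **the tie** -/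
lemma rI_tie [DecidableEq Λ] [Fintype κ] [DecidableEq κ] (k : Λ → δ) {r : Λ → κ} {ix : κ → δ}
    (hix : ∀ j, k j = ix (r j)) {p : ℕ} {w : ℝ} {a b v : Λ → ℝ → ℝ} {B G : κ → ℝ → ℝ}
    (h : TieD p w r a b v B G) (hw0 : 0 ≤ w) (hw1 : w ≤ 1) (pS : PB S) (pa : ∀ j, PB (a j))
    (pb : ∀ j, PB (b j)) (pv : ∀ j, PB (v j)) (hG : ∀ c x, 0 ≤ G c x) :
    rI W k (fun x => S (p * x)) v ≤ (1 - w) * rI W k S a + w * rI W k S b +
      8 * W * (w * Q (Dr k \ Dr r) a b) := by
  have hp := h.hp
  have hsub : Dr r ⊆ Dr k := by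
    intro e he
    unfold Dr at he ⊢
    simp only [Finset.mem_filter, Finset.mem_univ, true_and] at he ⊢
    rw [hix, hix, he]
  have e0 : Q (Dr k \ Dr r) a b = Q (Dr k) a b - Q (Dr r) a b := Q_sdiff_of_subset hsub a b
  rw [e0, Q_Dr_sm k pa pb, Q_Dr_sm r pa pb,
    ← I_sum _ fun z _ => ((PB_sm pa k z).mul (PB_sm pb k z)).integrableOn,
    ← I_sum _ fun z _ => ((PB_sm pa r z).mul (PB_sm pb r z)).integrableOn]
  have p1 : PB fun x => ∑ z, sm k a z x * sm k b z x :=
    PB.sum _ fun z _ => (PB_sm pa k z).mul (PB_sm pb k z)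
  have p2 : PB fun x => ∑ z, sm r a z x * sm r b z x :=
    PB.sum _ fun z _ => (PB_sm pa r z).mul (PB_sm pb r z)
  have pv' := PB_RZ hW k (pS.pull p) pv
  have pA := PB_RZ hW k pS pa
  have pB := PB_RZ hW k pS pb
  have h8 : 0 ≤ 8 * W * w := by positivity
  have key : I (fun y => Ep p (fun x => RZ W (S (p * x)) k v x) y +
        8 * W * w * ∑ z, sm r a z y * sm r b z y) ≤
      I (fun y => ((1 - w) * RZ W (S y) k a y + w * RZ W (S y) k b y) +
        8 * W * w * ∑ z, sm k a z y * sm k b z y) := by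
    refine I_mono ((pv'.Ep hp).add (p2.smul h8)).integrableOn
      (((pA.smul (by linarith)).add (pB.smul hw0)).add (p1.smul h8)).integrableOn fun y => ?_
    have e1 : Ep p (fun x => RZ W (S (p * x)) k v x) y =
        ∑ z, (∑ i ∈ Finset.range p, rg W (S y) (∑ c ∈ Finset.univ.filter (fun c => ix c = z),
          (B c y + G c ((y + i) / p)))) / p := by
      unfold Ep RZ
      rw [Finset.sum_comm, Finset.sum_div]
      refine Finset.sum_congr rfl fun z _ => ?_
      congr 1
      refine Finset.sum_congr rfl fun i _ => ?_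
      have e2 : S ((p : ℝ) * ((y + i) / p)) = S y := pull_fibre hp pS.per y i
      rw [e2, sm_ix hix v z]
      congr 1
      refine Finset.sum_congr rfl fun c _ => ?_
      rw [h.ev c ((y + i) / p)]
      congr 1
      have eB : B c = fun y => sm r a c y - w * max (sm r a c y - sm r b c y) 0 := funext (h.eB c)
      have perB : ∀ x, B c (x + 1) = B c x := by
        intro x
        rw [eB]
        show sm r a c (x + 1) - w * max (sm r a c (x + 1) - sm r b c (x + 1)) 0 = _
        rw [(PB_sm pa r c).per, (PB_sm pb r c).per]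
      exact pull_fibre hp perB y i
    rw [e1]
    have hs := pS.nonneg y
    have na : ∀ c, 0 ≤ sm r a c y := fun c => (PB_sm pa r c).nonneg y
    have nb : ∀ c, 0 ≤ sm r b c y := fun c => (PB_sm pb r c).nonneg y
    have h1 : ∀ z, (∑ i ∈ Finset.range p, rg W (S y) (∑ c ∈ Finset.univ.filter (fun c => ix c = z),
          (B c y + G c ((y + i) / p)))) / p ≤
        (1 - w) * rg W (S y) (sm k a z y) + w * rg W (S y) (sm k b z y) + 8 * W * (w *
          (sm k a z y * sm k b z y - ∑ c ∈ Finset.univ.filter (fun c => ix c = z),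
            sm r a c y * sm r b c y)) := by
      intro z
      rw [sm_ix hix a z, sm_ix hix b z]
      rcases h.hw with hw | ⟨hw, hb0⟩
      · exact tie_pt hW (Finset.univ.filter (fun c => ix c = z)) (a := fun c => sm r a c y)
          (b := fun c => sm r b c y) (B := fun c => B c y)
          (g := fun c i => G c ((y + i) / p)) hp hw (fun c _ => na c) (fun c _ => nb c)
          (fun c _ => h.eB c y) (fun c _ i _ => hG c _) (fun c _ => h.eG c y)
      · have g0 : ∀ c, ∀ i ∈ Finset.range p, G c ((y + i) / p) = 0 := by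
          intro c
          have h2 : ∑ i ∈ Finset.range p, G c ((y + i) / p) = max (sm r b c y - sm r a c y) 0 :=
            h.eG c y
          have h3 : max (sm r b c y - sm r a c y) 0 = 0 := by
            rw [hb0 c y]; exact max_eq_right (by linarith [na c])
          rw [h3] at h2
          exact (Finset.sum_eq_zero_iff_of_nonneg fun i _ => hG c _).1 h2
        have e3 : ∀ i ∈ Finset.range p, rg W (S y)
            (∑ c ∈ Finset.univ.filter (fun c => ix c = z), (B c y + G c ((y + i) / p))) =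
            rg W (S y) (∑ c ∈ Finset.univ.filter (fun c => ix c = z), sm r a c y) := by
          intro i hi
          congr 1
          refine Finset.sum_congr rfl fun c _ => ?_
          rw [g0 c i hi, h.eB c y, hw]; ring
        rw [Finset.sum_congr rfl e3, Finset.sum_const, Finset.card_range, nsmul_eq_mul, hw]
        have hp' : (p : ℝ) ≠ 0 := by exact_mod_cast hp.ne'
        rw [mul_div_assoc, mul_div_cancel₀]
        · simp
        · exact hp'
    have h2 := Finset.sum_le_sum fun z (_ : z ∈ (Finset.univ : Finset δ)) => h1 z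
    have e4 : ∑ z, ∑ c ∈ Finset.univ.filter (fun c => ix c = z), sm r a c y * sm r b c y =
        ∑ c, sm r a c y * sm r b c y :=
      Finset.sum_fiberwise_of_maps_to (fun _ _ => Finset.mem_univ _) _
    rw [Finset.sum_add_distrib, Finset.sum_add_distrib, ← Finset.mul_sum, ← Finset.mul_sum,
      ← Finset.mul_sum, ← Finset.mul_sum, Finset.sum_sub_distrib, e4] at h2
    unfold RZ
    linarith
  rw [I_add (pv'.Ep hp).integrableOn (p2.smul h8).integrableOn, I_Ep hp pv'.integrableOn,
    I_add ((pA.smul (by linarith)).add (pB.smul hw0)).integrableOn (p1.smul h8).integrableOn,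
    I_add (pA.smul (by linarith)).integrableOn (pB.smul hw0).integrableOn, I_smul, I_smul, I_smul,
    I_smul] at key
  unfold rI
  linarith

end node

/-! ### linear sums over a group -/

section lsum
variable {Λ κ : Type*}

/-- linear sum of a node functional over a group -/
noncomputable def ls (F : DT Λ κ → ℝ) (g : Gp Λ κ) : ℝ := (g.map fun m => m.1 * F m.2).sum

@[simp] lemma ls_nil (F : DT Λ κ → ℝ) : ls F ([] : Gp Λ κ) = 0 := rfl

lemma ls_cons (F : DT Λ κ → ℝ) (m : ℝ × DT Λ κ) (g : Gp Λ κ) :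
    ls F (m :: g) = m.1 * F m.2 + ls F g := by simp [ls]

lemma ls_append (F : DT Λ κ → ℝ) (g h : Gp Λ κ) : ls F (g ++ h) = ls F g + ls F h := by
  simp [ls]

lemma ls_add (F F' : DT Λ κ → ℝ) (g : Gp Λ κ) :
    ls (fun t => F t + F' t) g = ls F g + ls F' g := by
  induction g with
  | nil => simp
  | cons m g ih => rw [ls_cons, ls_cons, ls_cons, ih]; ring

lemma ls_mul (c : ℝ) (F : DT Λ κ → ℝ) (g : Gp Λ κ) : ls (fun t => c * F t) g = c * ls F g := by
  induction g with
  | nil => simp
  | cons m g ih => rw [ls_cons, ls_cons, ih]; ring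

lemma ls_mono {F F' : DT Λ κ → ℝ} {g : Gp Λ κ} (hc : ∀ m ∈ g, 0 ≤ m.1)
    (h : ∀ m ∈ g, F m.2 ≤ F' m.2) : ls F g ≤ ls F' g := by
  induction g with
  | nil => exact le_rfl
  | cons m g ih =>
    rw [ls_cons, ls_cons]
    exact add_le_add (mul_le_mul_of_nonneg_left (h m (by simp)) (hc m (by simp)))
      (ih (fun a ha => hc a (List.mem_cons_of_mem _ ha)) fun a ha => h a (List.mem_cons_of_mem _ ha))

lemma ls_nonneg {F : DT Λ κ → ℝ} {g : Gp Λ κ} (hc : ∀ m ∈ g, 0 ≤ m.1)
    (h : ∀ m ∈ g, 0 ≤ F m.2) : 0 ≤ ls F g := by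
  have := ls_mono (F := fun _ => 0) hc h
  have e : ls (fun _ : DT Λ κ => (0 : ℝ)) g = 0 := by
    clear this hc h
    induction g with
    | nil => rfl
    | cons m g ih => rw [ls_cons, ih]; ring
  rwa [e] at this

lemma ls_filter (F : DT Λ κ → ℝ) (P : DT Λ κ → Bool) (g : Gp Λ κ) :
    ls F (g.filter fun m => P m.2) + ls F (g.filter fun m => !P m.2) = ls F g := by
  induction g with
  | nil => simp
  | cons m g ih =>
    by_cases h : P m.2 = true
    · rw [List.filter_cons_of_pos (by simpa using h), List.filter_cons_of_neg (by simp [h]),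
        ls_cons, ls_cons]
      linarith
    · rw [List.filter_cons_of_neg (by simpa using h),
        List.filter_cons_of_pos (by simpa using h), ls_cons, ls_cons]
      linarith

lemma ls_split3 (F : DT Λ κ → ℝ) (p : ℕ) (g : Gp Λ κ) :
    ls F (rsG p g) = ls F (gL p g) + ls F (gB p g) + ls F (gN p g) := by
  have h1 := ls_filter F (fun t => isB p t) (rsG p g)
  have h2 := ls_filter F (fun t => isLf t) (gR p g)
  have e1 : ls F (rsG p g) = ls F (gB p g) + ls F (gR p g) := h1.symm
  have e2 : ls F (gR p g) = ls F (gL p g) + ls F (gN p g) := h2.symm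
  rw [e1, e2]
  ring

lemma ls_smG (F : DT Λ κ → ℝ) (c : ℝ) (g : Gp Λ κ) : ls F (smG c g) = c * ls F g := by
  induction g with
  | nil => simp
  | cons m g ih =>
    show ls F ((c * m.1, m.2) :: smG c g) = _
    rw [ls_cons, ls_cons, ih]; ring

lemma ls_map (F : DT Λ κ → ℝ) (c : ℝ) (l : List (DT Λ κ)) :
    ls F (l.map fun t => (c, t)) = c * (l.map F).sum := by
  induction l with
  | nil => simp
  | cons t l ih =>
    rw [List.map_cons, ls_cons, ih, List.map_cons, List.sum_cons]
    ring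

end lsum

/-! ### the supplies -/

section grp
variable {Λ κ : Type*} [Fintype Λ] [DecidableEq Λ] [Fintype κ] [DecidableEq κ]
  {δ : Type*} [Fintype δ] [DecidableEq δ]

/-- in-node joins at the add nodes of the column `p` -/
noncomputable def eA (p : ℕ) (k : Λ → δ) : DT Λ κ → ℝ
  | .leaf _ _ => 0
  | .br _ _ _ _ _ _ _ _ => 0
  | .add q _ t₁ t₀ => if q = p then eA p k t₁ + eA p k t₀ + Q (Dr k) t₁.g.val t₀.g.val else 0
  | .up q _ t => if q = p then eA p k t else 0

/-- mixed pairs of a tie: one class of `k`, different worlds -/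
noncomputable def eT (k : Λ → δ) : DT Λ κ → ℝ
  | .br _ w r t₁ t₀ _ _ _ => w * Q (Dr k \ Dr r) t₁.g.val t₀.g.val
  | _ => 0

/-- the energy of the classes -/
noncomputable def eE (k : Λ → δ) (t : DT Λ κ) : ℝ := Q (Dr k) t.g.val t.g.val

/-- the pairs of one class of `k`, different classes of `k'` -/
noncomputable def eC (k k' : Λ → δ) (t : DT Λ κ) : ℝ := Q (Dr k \ Dr k') t.g.val t.g.val

/-- **the supply** -/
noncomputable def SS (W : ℝ) (kd : ℕ → Λ → δ) : ℕ → ℕ → Gp Λ κ → ℝ
  | 0, p, g => 4 * W * ls (eE (kd p)) g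
  | n + 1, p, g => if p = 0 then 4 * W * ls (eE (kd p)) g else
      8 * W * ls (eA p (kd p)) g + 4 * W * ls (eE (kd p)) (gL p g) +
        8 * W * ls (eT (kd p)) (gB p g) + 4 * W * ls (eC (kd p) (kd (p - 1))) (gN p g) +
        SS W kd n p (gC p g) + SS W kd n (p - 1) (gN p g)

/-- the weights of the groups of the walk are at most `W` -/
def WOk (W : ℝ) : ℕ → ℕ → Gp Λ κ → Prop
  | 0, _, _ => True
  | n + 1, p, g => (g.map fun m => m.1).sum ≤ W ∧
      (p ≠ 0 → WOk W n p (gC p g) ∧ WOk W n (p - 1) (gN p g))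

/-- the worlds of the ties refine the classes of the column -/
def Rf (kd : ℕ → Λ → δ) : DT Λ κ → Prop
  | .br p _ r _ _ _ _ _ => ∃ ix : κ → δ, ∀ j, kd p j = ix (r j)
  | _ => True

variable {W : ℝ} (hW : 0 < W)

lemma cval_eq (k : Λ → δ) (g : Gp Λ κ) (z : δ) (x : ℝ) :
    cval k g z x = (g.map fun m => m.1 * sm k m.2.g.val z x).sum := by
  induction g with
  | nil => simp [cval, gval]
  | cons m g ih =>
    rw [List.map_cons, List.sum_cons, ← ih]
    unfold cval sm
    rw [Finset.mul_sum, ← Finset.sum_add_distrib]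
    exact Finset.sum_congr rfl fun j _ => gval_cons m g j x

include hW

/-- resolution of the add nodes -/
lemma rI_rs (p : ℕ) (k : Λ → δ) {S : ℝ → ℝ} (pS : PB S) {t : DT Λ κ}
    (h : t.All fun t => ∀ j, PB (t.g.val j)) :
    rI W k S t.g.val ≤ ((rs p t).map fun t => rI W k S t.g.val).sum + 8 * W * eA p k t := by
  induction t with
  | leaf r f => simp [rs, eA]
  | br q w r t₁ t₀ v B G => simp [rs, eA]
  | add q r t₁ t₀ ih₁ ih₀ =>
    unfold rs eA
    split_ifs with hq
    · have h1 := ih₁ h.2.1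
      have h0 := ih₀ h.2.2
      have e : (DT.add q r t₁ t₀ : DT Λ κ).g.val = fun j x => t₁.g.val j x + t₀.g.val j x := rfl
      have h2 := rI_add hW k pS h.2.1.self h.2.2.self
      rw [e, List.map_append, List.sum_append]
      linarith
    · simp
  | up q Sp t ih =>
    unfold rs eA
    split_ifs with hq
    · exact ih h.2
    · simp

lemma ls_rsG (p : ℕ) (k : Λ → δ) {S : ℝ → ℝ} (pS : PB S) {g : Gp Λ κ} (hg : GOk g) :
    ls (fun t => rI W k S t.g.val) g ≤
      ls (fun t => rI W k S t.g.val) (rsG p g) + 8 * W * ls (eA p k) g := by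
  induction g with
  | nil => simp
  | cons m g ih =>
    have h1 := ih (hg.sub fun a ha => List.mem_cons_of_mem _ ha)
    have h2 := mul_le_mul_of_nonneg_left (rI_rs hW p k pS (hg.pb m (by simp))) (hg.c m (by simp))
    rw [rsG_cons, ls_append, ls_map, ls_cons, ls_cons]
    nlinarith

/-- **the ties of a group** -/
lemma ls_tie (p : ℕ) (k : Λ → δ) {S : ℝ → ℝ} (pS : PB S) {g : Gp Λ κ} (hg : GOk g)
    (hn : ∀ m ∈ g, NOk m.2) (hr : ∀ m ∈ g, ∀ w r t₁ t₀ v B G, m.2 = .br p w r t₁ t₀ v B G →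
      ∃ ix : κ → δ, ∀ j, k j = ix (r j)) (hb : ∀ m ∈ g, isB p m.2 = true) :
    ls (fun t => rI W k (fun x => S (p * x)) t.g.val) g ≤
      ls (fun t => rI W k S t.g.val) (g.flatMap fun m => (chd m.2).map fun q => (m.1 * q.1, q.2)) +
        8 * W * ls (eT k) g := by
  induction g with
  | nil => simp
  | cons m g ih =>
    have h1 := ih (hg.sub fun a ha => List.mem_cons_of_mem _ ha)
      (fun a ha => hn a (List.mem_cons_of_mem _ ha)) (fun a ha => hr a (List.mem_cons_of_mem _ ha))
      fun a ha => hb a (List.mem_cons_of_mem _ ha)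
    obtain ⟨w, r, t₁, t₀, v, B, G, e⟩ := isB_eq (hb m (by simp))
    obtain ⟨ix, hix⟩ := hr m (by simp) w r t₁ t₀ v B G e
    have him := (hg.im m (by simp)).self
    have hno := hn m (by simp)
    have hpb := hg.pb m (by simp)
    rw [e] at him hno hpb
    have hT : TieD p w r t₁.g.val t₀.g.val v B G := hno.1
    have hO : BrOk p w r t₁.g.val t₀.g.val v B G := hno.2.2.2
    have h2 := rI_tie hW k hix hT him.2.1 him.2.2.1 pS hpb.2.1.self hpb.2.2.self hO.pv
      fun c x => (hO.col c).pG.nonneg x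
    have h3 := mul_le_mul_of_nonneg_left h2 (hg.c m (by simp))
    rw [List.flatMap_cons, ls_append, ls_cons, ls_cons]
    have e1 : ls (fun t => rI W k S t.g.val) ((chd m.2).map fun q => (m.1 * q.1, q.2)) =
        m.1 * (1 - w) * rI W k S t₁.g.val + m.1 * w * rI W k S t₀.g.val := by
      rw [e]
      simp [chd, ls]
    have e2 : eT k m.2 = w * Q (Dr k \ Dr r) t₁.g.val t₀.g.val := by rw [e]; rfl
    have e3 : rI W k (fun x => S (p * x)) m.2.g.val = rI W k (fun x => S (p * x)) v := by
      rw [e]; rfl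
    rw [e1, e2, e3]
    nlinarith

/-- the change of the classes of a group -/
lemma ls_chg (k k' : Λ → δ) {S : ℝ → ℝ} (pS : PB S) {g : Gp Λ κ} (hg : GOk g) :
    ls (fun t => rI W k S t.g.val) g ≤
      ls (fun t => rI W k' S t.g.val) g + 4 * W * ls (eC k k') g := by
  rw [← ls_mul, ← ls_add]
  exact ls_mono hg.c fun m hm => rI_chg hW k k' pS (hg.pb m hm).self

lemma ls_anti (k : Λ → δ) {S S' : ℝ → ℝ} (pS : PB S) (pS' : PB S') (h : ∀ x, S x ≤ S' x)
    {g : Gp Λ κ} (hg : GOk g) :
    ls (fun t => rI W k S' t.g.val) g ≤ ls (fun t => rI W k S t.g.val) g :=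
  ls_mono hg.c fun m hm => rI_anti hW k pS pS' (hg.pb m hm).self h

lemma ls_le (k : Λ → δ) {S : ℝ → ℝ} (pS : PB S) {g : Gp Λ κ} (hg : GOk g) :
    ls (fun t => rI W k S t.g.val) g ≤ 4 * W * ls (eE k) g := by
  rw [← ls_mul]
  exact ls_mono hg.c fun m hm => rI_le hW k pS (hg.pb m hm).self

/-- the pointwise sum -/
lemma ls_I (k : Λ → δ) {S : ℝ → ℝ} (pS : PB S) {g : Gp Λ κ} (hg : GOk g) :
    PB (fun x => (g.map fun m => m.1 * RZ W (S x) k m.2.g.val x).sum) ∧
    I (fun x => (g.map fun m => m.1 * RZ W (S x) k m.2.g.val x).sum) =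
      ls (fun t => rI W k S t.g.val) g := by
  induction g with
  | nil =>
    constructor
    · simpa using PB.const le_rfl
    · simp [I]
  | cons m g ih =>
    obtain ⟨h1, h2⟩ := ih (hg.sub fun a ha => List.mem_cons_of_mem _ ha)
    have h3 := (PB_RZ hW k pS (hg.pb m (by simp)).self).smul (hg.c m (by simp))
    simp only [List.map_cons, List.sum_cons]
    refine ⟨h3.add h1, ?_⟩
    rw [I_add h3.integrableOn h1.integrableOn, h2, I_smul, ls_cons]
    rfl

/-- **the release of a group** -/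
lemma ls_release (k : Λ → δ) {S S' : ℝ → ℝ} (pS : PB S) (pS' : PB S') (h : ∀ x, S' x ≤ S x)
    {g : Gp Λ κ} (hg : GOk g) (hw : (g.map fun m => m.1).sum ≤ W)
    (hh : ∀ x, S x = S' x ∨ ∃ z, S x ≤ cval k g z x) :
    I (fun x => S x ^ 2) + ls (fun t => rI W k S t.g.val) g ≤
      I (fun x => S' x ^ 2) + ls (fun t => rI W k S' t.g.val) g := by
  obtain ⟨q1, e1⟩ := ls_I hW k pS hg
  obtain ⟨q2, e2⟩ := ls_I hW k pS' hg
  have r1 : PB fun x => S x ^ 2 := PBsq pS
  have r2 : PB fun x => S' x ^ 2 := PBsq pS'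
  rw [← e1, ← e2, ← I_add r1.integrableOn q1.integrableOn,
    ← I_add r2.integrableOn q2.integrableOn]
  refine I_mono (r1.add q1).integrableOn (r2.add q2).integrableOn fun x => ?_
  rcases hh x with h1 | ⟨z, hz⟩
  · rw [h1]
  rw [cval_eq] at hz
  have h2 := release hW (pS'.nonneg x) (h x) g (fun m => m.1) (fun m => sm k m.2.g.val z x) hg.c hw hz
  have h3 : ∀ s : ℝ, (g.map fun m => m.1 * RZ W s k m.2.g.val x).sum =
      (g.map fun m => m.1 * rg W s (sm k m.2.g.val z x)).sum +
      (g.map fun m => m.1 * ∑ z' ∈ Finset.univ.erase z, rg W s (sm k m.2.g.val z' x)).sum := by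
    intro s
    rw [← List.sum_map_add]
    congr 1
    refine List.map_congr_left fun m _ => ?_
    unfold RZ
    rw [← Finset.add_sum_erase Finset.univ _ (Finset.mem_univ z)]
    ring
  have h4 : (g.map fun m => m.1 * ∑ z' ∈ Finset.univ.erase z, rg W (S x) (sm k m.2.g.val z' x)).sum ≤
      (g.map fun m => m.1 * ∑ z' ∈ Finset.univ.erase z, rg W (S' x) (sm k m.2.g.val z' x)).sum := by
    refine List.sum_le_sum fun m hm => ?_
    exact mul_le_mul_of_nonneg_left (Finset.sum_le_sum fun z' _ => rg_anti hW (h x) _) (hg.c m hm)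
  rw [h3, h3]
  linarith

omit hW in
lemma cval_part_le (k : Λ → δ) {p : ℕ} {g : Gp Λ κ} (hg : GOk g) (z : δ) (x : ℝ) :
    cval k (gL p g) z x ≤ cval k g z x ∧ cval k (gB p g) z x ≤ cval k g z x ∧
      cval k (gN p g) z x ≤ cval k g z x := by
  have h := cval_split3 k p g z x
  have h1 := (PB_cval k (gOk_gL (p := p) hg) z).nonneg x
  have h2 := (PB_cval k (hg.gB (p := p)) z).nonneg x
  have h3 := (PB_cval k (gOk_gN (p := p) hg) z).nonneg x
  refine ⟨?_, ?_, ?_⟩ <;> linarith

omit hW in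
lemma ht_att (k : Λ → δ) {H0 c : ℝ} {g : Gp Λ κ} {x : ℝ} (h0 : H0 < c) (h : c ≤ ht k H0 g x) :
    ∃ z, c ≤ cval k g z x := by
  unfold ht at h
  rcases (Finset.le_fold_max _).1 h with h1 | ⟨z, -, h1⟩
  · exact absurd h1 (not_le.2 h0)
  · exact ⟨z, h1⟩

/-- **THE THEOREM: the running height of the walk** -/
theorem HgL_le (kd : ℕ → Λ → δ) {H0 : ℝ} (h0 : 0 ≤ H0) : ∀ (n p : ℕ) (g : Gp Λ κ), GOk g →
    GAll NOk g → GAll (Rf kd) g → WOk W n p g →
    I (fun x => HgL kd H0 n p g x ^ 2) + ls (fun t => rI W (kd p) (HgL kd H0 n p g) t.g.val) g ≤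
      H0 ^ 2 + SS W kd n p g := by
  have Ic : I (fun _ : ℝ => H0 ^ 2) = H0 ^ 2 := by simp [I]
  intro n
  induction n with
  | zero =>
    intro p g hg _ _ _
    have h1 := ls_le hW (kd p) (PB.const h0) hg
    have e : HgL kd H0 0 p g = fun _ => H0 := rfl
    rw [e, Ic]
    unfold SS
    linarith
  | succ n ih =>
    intro p g hg hn hr hw
    by_cases hp : p = 0
    · subst hp
      have h1 := ls_le hW (kd 0) (PB.const h0) hg
      have e : HgL kd H0 (n + 1) 0 g = fun _ => H0 := by
        funext x; exact HgL_succ0 kd H0 n g x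
      rw [e, Ic]
      unfold SS
      rw [if_pos rfl]
      linarith
    have hp0 : 0 < p := Nat.pos_of_ne_zero hp
    have oC := hg.gC (p := p)
    have oB := hg.gB (p := p)
    have oL := gOk_gL (p := p) hg
    have oN := gOk_gN (p := p) hg
    have nN : GAll NOk (gN p g) := fun m hm => (hn.gR (p := p)) m (mem_gN hm).1
    have rN : GAll (Rf kd) (gN p g) := fun m hm => (hr.gR (p := p)) m (mem_gN hm).1
    have i1 := ih p _ oC (hn.gC (p := p)) (hr.gC (p := p)) (hw.2 hp).1
    have i2 := ih (p - 1) _ oN nN rN (hw.2 hp).2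
    set SC := HgL kd H0 n p (gC p g) with hSC
    set SN := HgL kd H0 n (p - 1) (gN p g) with hSN
    set S := HgL kd H0 (n + 1) p g with hS
    have pC : PB SC := PB_HgL kd h0 n p oC
    have pN : PB SN := PB_HgL kd h0 n (p - 1) oN
    have pS : PB S := PB_HgL kd h0 (n + 1) p hg
    set S' : ℝ → ℝ := fun x => max (SC (p * x)) (SN x) with hS'
    have pS' : PB S' := PB_max (pC.pull p) pN
    have eS : ∀ x, S x = max (htL (kd p) H0 p g x) (S' x) := fun x => HgL_succ kd H0 n hp g x
    have bC : ∀ x, H0 ≤ SC x := fun x => base_le_HgL kd H0 n p _ x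
    have bN : ∀ x, H0 ≤ SN x := fun x => base_le_HgL kd H0 n (p - 1) _ x
    -- release
    have k1 := ls_release hW (kd p) pS pS' (fun x => by rw [eS]; exact le_max_right _ _) hg hw.1
      (fun x => by
        rcases le_or_gt (htL (kd p) H0 p g x) (S' x) with h | h
        · exact Or.inl (by rw [eS, max_eq_right h])
        · right
          have e1 : S x = htL (kd p) H0 p g x := by rw [eS, max_eq_left h.le]
          have e2 : H0 < S x := by
            rw [e1]
            exact lt_of_le_of_lt ((bN x).trans (le_max_right _ _)) h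
          have e3 : S x ≤ max (ht (kd p) H0 (gL p g) x) (max (ht (kd p) H0 (gB p g) x)
            (ht (kd p) H0 (gN p g) x)) := e1.le
          rcases le_max_iff.1 e3 with e4 | e4
          · obtain ⟨z, hz⟩ := ht_att (kd p) e2 e4
            exact ⟨z, hz.trans (cval_part_le (kd p) hg z x).1⟩
          · rcases le_max_iff.1 e4 with e5 | e5
            · obtain ⟨z, hz⟩ := ht_att (kd p) e2 e5
              exact ⟨z, hz.trans (cval_part_le (kd p) hg z x).2.1⟩
            · obtain ⟨z, hz⟩ := ht_att (kd p) e2 e5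
              exact ⟨z, hz.trans (cval_part_le (kd p) hg z x).2.2⟩)
    -- resolution
    have k2 := ls_rsG hW p (kd p) pS' hg
    rw [ls_split3] at k2
    -- leaves
    have k3 := ls_le hW (kd p) pS' oL
    -- ties
    have k4 := ls_anti hW (kd p) (pC.pull p) pS' (fun x => le_max_left _ _) oB
    have k5 := ls_tie hW p (kd p) pC oB (fun m hm => ((hn.gB (p := p)) m hm).self)
      (fun m hm w r t₁ t₀ v B G e => by
        have := ((hr.gB (p := p)) m hm).self
        rw [e] at this
        exact this) fun m hm => (mem_gB hm).2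
    have k5' : ls (fun t => rI W (kd p) (fun x => SC (p * x)) t.g.val) (gB p g) ≤
        ls (fun t => rI W (kd p) SC t.g.val) (gC p g) + 8 * W * ls (eT (kd p)) (gB p g) := k5
    -- the others
    have k6 := ls_anti hW (kd p) pN pS' (fun x => le_max_right _ _) oN
    have k7 := ls_chg hW (kd p) (kd (p - 1)) pN oN
    -- the scales
    have k8 : I (fun x => S' x ^ 2) + H0 ^ 2 ≤ I (fun x => SC x ^ 2) + I (fun x => SN x ^ 2) := by
      have e1 : I (fun x => SC (p * x) ^ 2) = I (fun x => SC x ^ 2) := by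
        have q := PBsq (pC.pull p)
        rw [← I_Ep hp0 q.integrableOn]
        congr 1
        funext y
        unfold Ep
        have e2 : ∀ i ∈ Finset.range p, SC (p * ((y + i) / p)) ^ 2 = SC y ^ 2 := fun i _ => by
          rw [pull_fibre hp0 pC.per y i]
        rw [Finset.sum_congr rfl e2, Finset.sum_const, Finset.card_range, nsmul_eq_mul]
        have hp' : (p : ℝ) ≠ 0 := by exact_mod_cast hp
        field_simp
      have q1 : PB fun x => SC (p * x) ^ 2 := PBsq (pC.pull p)
      have q2 : PB fun x => SN x ^ 2 := PBsq pN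
      have q3 : PB fun x => S' x ^ 2 := PBsq pS'
      have q4 : PB fun _ : ℝ => H0 ^ 2 := PB.const (by positivity)
      rw [← e1, ← Ic, ← I_add q3.integrableOn q4.integrableOn,
        ← I_add q1.integrableOn q2.integrableOn]
      refine I_mono (q3.add q4).integrableOn (q1.add q2).integrableOn fun x => ?_
      have c1 : H0 ^ 2 ≤ SC (p * x) ^ 2 := pow_le_pow_left₀ h0 (bC _) 2
      have c2 : H0 ^ 2 ≤ SN x ^ 2 := pow_le_pow_left₀ h0 (bN _) 2
      show max (SC (p * x)) (SN x) ^ 2 + H0 ^ 2 ≤ SC (p * x) ^ 2 + SN x ^ 2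
      rcases le_total (SC (p * x)) (SN x) with c | c
      · rw [max_eq_right c]; linarith
      · rw [max_eq_left c]; linarith
    have eSS : SS W kd (n + 1) p g = 8 * W * ls (eA p (kd p)) g + 4 * W * ls (eE (kd p)) (gL p g) +
        8 * W * ls (eT (kd p)) (gB p g) + 4 * W * ls (eC (kd p) (kd (p - 1))) (gN p g) +
        SS W kd n p (gC p g) + SS W kd n (p - 1) (gN p g) := by
      conv_lhs => unfold SS
      rw [if_neg hp]
    rw [eSS]
    linarith

/-- **the running height is in `L²`** -/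
theorem HgL_sub_sq (kd : ℕ → Λ → δ) {H0 : ℝ} (h0 : 0 ≤ H0) (n p : ℕ) {g : Gp Λ κ} (hg : GOk g)
    (hn : GAll NOk g) (hr : GAll (Rf kd) g) (hw : WOk W n p g) :
    I (fun x => (HgL kd H0 n p g x - H0) ^ 2) ≤ SS W kd n p g := by
  have h1 := HgL_le hW kd h0 n p g hg hn hr hw
  have Ic : I (fun _ : ℝ => H0 ^ 2) = H0 ^ 2 := by simp [I]
  have pS := PB_HgL kd h0 n p hg
  have b : ∀ x, H0 ≤ HgL kd H0 n p g x := fun x => base_le_HgL kd H0 n p g x
  have q1 : PB fun x => (HgL kd H0 n p g x - H0) ^ 2 := by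
    obtain ⟨B, hB⟩ := pS.bdd
    refine ⟨(pS.meas.sub measurable_const).pow_const 2, fun x => sq_nonneg _,
      ⟨B ^ 2, fun x => ?_⟩, fun x => ?_⟩
    · exact pow_le_pow_left₀ (sub_nonneg.2 (b x)) (by linarith [hB x]) 2
    · show (HgL kd H0 n p g (x + 1) - H0) ^ 2 = _
      rw [pS.per]
  have q2 : PB fun x => HgL kd H0 n p g x ^ 2 := PBsq pS
  have q3 : PB fun _ : ℝ => H0 ^ 2 := PB.const (by positivity)
  have h2 : I (fun x => (HgL kd H0 n p g x - H0) ^ 2) + H0 ^ 2 ≤
      I (fun x => HgL kd H0 n p g x ^ 2) := by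
    rw [← Ic, ← I_add q1.integrableOn q3.integrableOn]
    refine I_mono (q1.add q3).integrableOn q2.integrableOn fun x => ?_
    nlinarith [b x]
  have h3 : 0 ≤ ls (fun t => rI W (kd p) (HgL kd H0 n p g) t.g.val) g :=
    ls_nonneg hg.c fun m _ => rI_nonneg hW _ _ _
  linarith

/-- **the crossing energies of the group walk** -/
theorem XL_le_SS (kd : ℕ → Λ → δ) {H0 eta : ℝ} (h0 : 0 < H0) (he : 0 < eta) (n p : ℕ)
    {g : Gp Λ κ} (hg : GOk g) (hn : GAll NOk g) (hr : GAll (Rf kd) g) (hw : WOk W n p g) :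
    XL kd n p g ≤ eta * I (fun x => gtot g x ^ 2) +
      Ce eta H0 * (I (fun x => gtot g x) + SS W kd n p g) := by
  have h1 := XL_le_eps h0 he kd n p g hg
  have h2 := HgL_sub_sq hW kd h0.le n p hg hn hr hw
  have h3 := mul_le_mul_of_nonneg_left h2 (Ce_nonneg he h0.le)
  linarith

end grp

end Crest.Agent.R4P.HgR9
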