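import Crest.Agent.R4P.LogG_51

/-!
R4 (S0004) with powers, helper51: **the log functional on the group walk, leaves separated**
(helper26 #26414 (0)).

* `gL p g` : the leaf members of `gR p g`, `gN p g` : the non-leaf members.
* `X kd p g h` : crossing energy of two groups for the classes `kd p`.
* `XL kd n p g` : `X L L + 2 X L B + 2 X L N + 2 X B N` summed over the walk (`gC`, `gN`).
* `HOkL kd H` : admissible height functions (separate bounds for the parts `L`, `B`, `N`).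
* `XL_le_of` : **`XL kd n p g ≤ 6 * I (phi H tot) + I (H * tot)`**.
* `HgL kd H0 n p g` : the adaptive height, `HgL_ok`, `XL_le`, `XL_le_eps`.
-/

set_option autoImplicit false
set_option linter.unusedSectionVars false
set_option linter.unusedVariables false
open MeasureTheory Filter Set

namespace Crest.Agent.R4P.LogL51

open Crest.Agent.R4.Tour104 Crest.Agent.R4.Tour758 Crest.Agent.R4.Avg758 Crest.Agent.R4.Clos758
open Crest.Agent.R4P.Walk560 Crest.Agent.R4P.Grp36 Crest.Agent.R4P.Log51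
open Crest.Agent.R4P.LogG51

variable {Λ κ : Type*}

/-- leaf -/
def isLf : DT Λ κ → Bool
  | .leaf _ _ => true
  | _ => false

lemma isLf_iff (t : DT Λ κ) : isLf t = true ↔ t.isLeaf := by
  cases t <;> simp [isLf, DT.isLeaf]

lemma isLf_false_iff (t : DT Λ κ) : isLf t = false ↔ ¬ t.isLeaf := by
  cases t <;> simp [isLf, DT.isLeaf]

/-- the leaf members of the group at the column `p` -/
def gL (p : ℕ) (g : Gp Λ κ) : Gp Λ κ := (gR p g).filter fun m => isLf m.2

/-- the members which are not ties or pulls at `p` and not leaves -/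
def gN (p : ℕ) (g : Gp Λ κ) : Gp Λ κ := (gR p g).filter fun m => !isLf m.2

@[simp] lemma gL_nil (p : ℕ) : gL p ([] : Gp Λ κ) = [] := rfl
@[simp] lemma gN_nil (p : ℕ) : gN p ([] : Gp Λ κ) = [] := rfl

lemma mem_gL {p : ℕ} {g : Gp Λ κ} {m : ℝ × DT Λ κ} (h : m ∈ gL p g) :
    m ∈ gR p g ∧ isLf m.2 = true := by
  unfold gL at h
  exact List.mem_filter.1 h

lemma mem_gN {p : ℕ} {g : Gp Λ κ} {m : ℝ × DT Λ κ} (h : m ∈ gN p g) :
    m ∈ gR p g ∧ isLf m.2 = false := by
  unfold gN at h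
  have := List.mem_filter.1 h
  simpa using this

lemma gL_append (p : ℕ) (g h : Gp Λ κ) : gL p (g ++ h) = gL p g ++ gL p h := by
  simp [gL, gR_append, List.filter_append]

lemma gN_append (p : ℕ) (g h : Gp Λ κ) : gN p (g ++ h) = gN p g ++ gN p h := by
  simp [gN, gR_append, List.filter_append]

lemma gL_smG (p : ℕ) (c : ℝ) (g : Gp Λ κ) : gL p (smG c g) = smG c (gL p g) := by
  unfold gL; rw [gR_smG, filter_smG c (fun t => isLf t)]

lemma gN_smG (p : ℕ) (c : ℝ) (g : Gp Λ κ) : gN p (smG c g) = smG c (gN p g) := by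
  unfold gN; rw [gR_smG, filter_smG c (fun t => !isLf t)]

lemma gOk_gL {p : ℕ} {g : Gp Λ κ} (h : GOk g) : GOk (gL p g) :=
  (h.gR (p := p)).sub fun m hm => (mem_gL hm).1

lemma gOk_gN {p : ℕ} {g : Gp Λ κ} (h : GOk g) : GOk (gN p g) :=
  (h.gR (p := p)).sub fun m hm => (mem_gN hm).1

/-- the three parts -/
lemma gval_split3 (p : ℕ) (g : Gp Λ κ) (j : Λ) (x : ℝ) :
    gval g j x = gval (gL p g) j x + gval (gB p g) j x + gval (gN p g) j x := by
  have h1 := gval_split p g j x
  have h2 := gval_filter (fun t => isLf t) (gR p g) j x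
  have h3 : gval (gL p g) j x + gval (gN p g) j x = gval (gR p g) j x := h2
  linarith

variable [Fintype Λ]

lemma gtot_split3 (p : ℕ) (g : Gp Λ κ) (x : ℝ) :
    gtot g x = gtot (gL p g) x + gtot (gB p g) x + gtot (gN p g) x := by
  unfold gtot
  rw [← Finset.sum_add_distrib, ← Finset.sum_add_distrib]
  exact Finset.sum_congr rfl fun j _ => gval_split3 p g j x

variable {δ : Type*} [Fintype δ] [DecidableEq δ]

lemma cval_split3 (kd : Λ → δ) (p : ℕ) (g : Gp Λ κ) (d : δ) (x : ℝ) :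
    cval kd g d x = cval kd (gL p g) d x + cval kd (gB p g) d x + cval kd (gN p g) d x := by
  unfold cval
  rw [← Finset.sum_add_distrib, ← Finset.sum_add_distrib]
  exact Finset.sum_congr rfl fun j _ => gval_split3 p g j x

/-- crossing energy of two groups for the classes of the column `p` -/
noncomputable def X (kd : ℕ → Λ → δ) (p : ℕ) (g h : Gp Λ κ) : ℝ :=
  I (fun x => ∑ d, cval (kd p) g d x * cval (kd p) h d x)

lemma X_nonneg (kd : ℕ → Λ → δ) (p : ℕ) {g h : Gp Λ κ} (hg : GOk g) (hh : GOk h) :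
    0 ≤ X kd p g h := I_nonneg (PB_cross (kd p) hg hh).nonneg

lemma X_comm (kd : ℕ → Λ → δ) (p : ℕ) (g h : Gp Λ κ) : X kd p g h = X kd p h g := by
  unfold X
  congr 1
  funext x
  exact Finset.sum_congr rfl fun d _ => mul_comm _ _

/-- **the crossing energies, leaves separated** -/
noncomputable def XL (kd : ℕ → Λ → δ) : ℕ → ℕ → Gp Λ κ → ℝ
  | 0, _, _ => 0
  | n + 1, p, g => if p = 0 then 0 else
      X kd p (gL p g) (gL p g) + 2 * X kd p (gL p g) (gB p g) + 2 * X kd p (gL p g) (gN p g) +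
        2 * X kd p (gB p g) (gN p g) + XL kd n p (gC p g) + XL kd n (p - 1) (gN p g)

lemma XL_zero (kd : ℕ → Λ → δ) (p : ℕ) (g : Gp Λ κ) : XL kd 0 p g = 0 := rfl

lemma XL_succ0 (kd : ℕ → Λ → δ) (n : ℕ) (g : Gp Λ κ) : XL kd (n + 1) 0 g = 0 := by simp [XL]

lemma XL_succ (kd : ℕ → Λ → δ) (n : ℕ) {p : ℕ} (hp : p ≠ 0) (g : Gp Λ κ) : XL kd (n + 1) p g =
    X kd p (gL p g) (gL p g) + 2 * X kd p (gL p g) (gB p g) + 2 * X kd p (gL p g) (gN p g) +
        2 * X kd p (gB p g) (gN p g) + XL kd n p (gC p g) + XL kd n (p - 1) (gN p g) := by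
  show (if p = 0 then 0 else _) = _
  rw [if_neg hp]

lemma XL_nonneg (kd : ℕ → Λ → δ) : ∀ (n p : ℕ) (g : Gp Λ κ), GOk g → 0 ≤ XL kd n p g := by
  intro n
  induction n with
  | zero => intro p g _; exact le_rfl
  | succ n ih =>
    intro p g hg
    by_cases hp : p = 0
    · subst hp; rw [XL_succ0]
    · rw [XL_succ kd n hp]
      have h1 := X_nonneg kd p (gOk_gL (p := p) hg) (gOk_gL (p := p) hg)
      have h2 := X_nonneg kd p (gOk_gL (p := p) hg) (hg.gB (p := p))
      have h3 := X_nonneg kd p (gOk_gL (p := p) hg) (gOk_gN (p := p) hg)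
      have h4 := X_nonneg kd p (hg.gB (p := p)) (gOk_gN (p := p) hg)
      have h5 := ih p _ (hg.gC (p := p))
      have h6 := ih (p - 1) _ (gOk_gN (p := p) hg)
      linarith

/-- admissible height functions -/
structure HOkL (kd : ℕ → Λ → δ) (H : ℕ → ℕ → Gp Λ κ → ℝ → ℝ) : Prop where
  pb : ∀ (n p : ℕ) {g : Gp Λ κ}, GOk g → PB (H n p g)
  pos : ∀ (n p : ℕ) (g : Gp Λ κ) (x : ℝ), 0 < H n p g x
  cL : ∀ (n p : ℕ) {g : Gp Λ κ}, GOk g → p ≠ 0 → ∀ d x, cval (kd p) (gL p g) d x ≤ H (n + 1) p g x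
  cB : ∀ (n p : ℕ) {g : Gp Λ κ}, GOk g → p ≠ 0 → ∀ d x, cval (kd p) (gB p g) d x ≤ H (n + 1) p g x
  cN : ∀ (n p : ℕ) {g : Gp Λ κ}, GOk g → p ≠ 0 → ∀ d x, cval (kd p) (gN p g) d x ≤ H (n + 1) p g x
  C : ∀ (n p : ℕ) {g : Gp Λ κ}, GOk g → p ≠ 0 → ∀ x, H n p (gC p g) (p * x) ≤ H (n + 1) p g x
  N : ∀ (n p : ℕ) {g : Gp Λ κ}, GOk g → p ≠ 0 → ∀ x, H n (p - 1) (gN p g) x ≤ H (n + 1) p g x

/-- the join of a third part whose class heights are `≤ H` to a union of two parts with class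
heights `≤ H` -/
lemma join_cross2 {ι : Type*} (S : Finset ι) {x y z : ι → ℝ} {H a b c : ℝ} (hH : 0 < H)
    (hx0 : ∀ i ∈ S, 0 ≤ x i) (hy0 : ∀ i ∈ S, 0 ≤ y i) (hz0 : ∀ i ∈ S, 0 ≤ z i)
    (hx : ∀ i ∈ S, x i ≤ H) (hy : ∀ i ∈ S, y i ≤ H) (hz : ∀ i ∈ S, z i ≤ H)
    (ha : ∑ i ∈ S, x i = a) (hb : ∑ i ∈ S, y i = b) (hc : ∑ i ∈ S, z i = c) :
    (1 / 3 : ℝ) * (∑ i ∈ S, x i * y i + ∑ i ∈ S, x i * z i) + (2 / 3 : ℝ) * ∑ i ∈ S, y i * z i ≤
      phi H (a + b + c) - phi H a - phi H b - phi H c := by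
  have ha0 : 0 ≤ a := by rw [← ha]; exact Finset.sum_nonneg hx0
  have hb0 : 0 ≤ b := by rw [← hb]; exact Finset.sum_nonneg hy0
  have hc0 : 0 ≤ c := by rw [← hc]; exact Finset.sum_nonneg hz0
  have h1 := join_cross S hH hy0 hz0 hy hz (le_of_eq hb) (le_of_eq hc)
  have h2 := join_ge hH ha0 (add_nonneg hb0 hc0)
  -- the crossing of x with y + z is at most 2 min(a(b+c), Ha, H(b+c))
  have q1 := cross_le S hx0 hy0 hx hy (le_of_eq ha) (le_of_eq hb) hH.le
  have q2 := cross_le S hx0 hz0 hx hz (le_of_eq ha) (le_of_eq hc) hH.le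
  have hm : ∀ {u v w : ℝ}, 0 ≤ u → 0 ≤ v → 0 ≤ w →
      min (u * v) (min (H * u) (H * v)) + min (u * w) (min (H * u) (H * w)) ≤
        2 * min (u * (v + w)) (min (H * u) (H * (v + w))) := by
    intro u v w hu hv hw
    have a1 : min (u * v) (min (H * u) (H * v)) ≤ u * v := min_le_left _ _
    have a2 : min (u * v) (min (H * u) (H * v)) ≤ H * u := (min_le_right _ _).trans (min_le_left _ _)
    have a3 : min (u * v) (min (H * u) (H * v)) ≤ H * v := (min_le_right _ _).trans (min_le_right _ _)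
    have b1 : min (u * w) (min (H * u) (H * w)) ≤ u * w := min_le_left _ _
    have b2 : min (u * w) (min (H * u) (H * w)) ≤ H * u := (min_le_right _ _).trans (min_le_left _ _)
    have b3 : min (u * w) (min (H * u) (H * w)) ≤ H * w := (min_le_right _ _).trans (min_le_right _ _)
    have n1 : 0 ≤ u * (v + w) := mul_nonneg hu (add_nonneg hv hw)
    have n2 : 0 ≤ H * (v + w) := mul_nonneg hH.le (add_nonneg hv hw)
    have key : (min (u * v) (min (H * u) (H * v)) + min (u * w) (min (H * u) (H * w))) / 2 ≤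
        min (u * (v + w)) (min (H * u) (H * (v + w))) := by
      refine le_min ?_ (le_min ?_ ?_)
      · have : u * (v + w) = u * v + u * w := by ring
        linarith
      · linarith
      · have : H * (v + w) = H * v + H * w := by ring
        linarith
    linarith
  have h3 := hm ha0 hb0 hc0
  have e : a + (b + c) = a + b + c := by ring
  rw [e] at h2
  have hmn : 0 ≤ min (a * (b + c)) (min (H * a) (H * (b + c))) :=
    le_min (mul_nonneg ha0 (add_nonneg hb0 hc0))
      (le_min (mul_nonneg hH.le ha0) (mul_nonneg hH.le (add_nonneg hb0 hc0)))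
  linarith

lemma PB_Htot {H t : ℝ → ℝ} (pH : PB H) (pt : PB t) : PB fun x => H x * t x := pH.mul pt

/-- **the theorem**, for any admissible height functions -/
theorem XL_le_of {kd : ℕ → Λ → δ} {H : ℕ → ℕ → Gp Λ κ → ℝ → ℝ} (hk : HOkL kd H) :
    ∀ (n p : ℕ) (g : Gp Λ κ), GOk g →
    XL kd n p g ≤ 6 * I (fun x => phi (H n p g x) (gtot g x)) +
      I (fun x => H n p g x * gtot g x) := by
  intro n
  induction n with
  | zero =>
    intro p g hg
    have h1 := I_phi_nonneg (hk.pos 0 p g) (PB_gtot hg)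
    have h2 : 0 ≤ I (fun x => H 0 p g x * gtot g x) :=
      I_nonneg ((hk.pb 0 p hg).mul (PB_gtot hg)).nonneg
    rw [XL_zero]
    linarith
  | succ n ih =>
    intro p g hg
    have n1 := I_phi_nonneg (hk.pos (n + 1) p g) (PB_gtot hg)
    have n2 : 0 ≤ I (fun x => H (n + 1) p g x * gtot g x) :=
      I_nonneg ((hk.pb (n + 1) p hg).mul (PB_gtot hg)).nonneg
    by_cases hp : p = 0
    · subst hp
      rw [XL_succ0]
      linarith
    have hp0 : 0 < p := Nat.pos_of_ne_zero hp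
    rw [XL_succ kd n hp]
    have oC := hg.gC (p := p)
    have oB := hg.gB (p := p)
    have oL := gOk_gL (p := p) hg
    have oN := gOk_gN (p := p) hg
    have i1 := ih p _ oC
    have i2 := ih (p - 1) _ oN
    have pB := PB_gtot oB
    have pL := PB_gtot oL
    have pN := PB_gtot oN
    have pC := PB_gtot oC
    have pT := PB_gtot hg
    have hC := hk.pb n p oC
    have hN := hk.pb n (p - 1) oN
    have hH := hk.pb (n + 1) p hg
    -- Jensen and the mean
    have j1 : I (fun y => phi (H n p (gC p g) y) (gtot (gC p g) y)) ≤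
        I (fun x => phi (H n p (gC p g) (p * x)) (gtot (gB p g) x)) := by
      have h := I_phi_Ep hp0 hC (hk.pos n p (gC p g)) pB
      have e2 : (fun y => phi (H n p (gC p g) y) (Ep p (gtot (gB p g)) y)) =
          fun y => phi (H n p (gC p g) y) (gtot (gC p g) y) := by
        funext y
        rw [Ep_gtot hg]
      rw [e2] at h
      exact h
    have j2 : I (fun y => H n p (gC p g) y * gtot (gC p g) y) =
        I (fun x => H n p (gC p g) (p * x) * gtot (gB p g) x) := by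
      rw [← I_Ep hp0 ((hC.pull p).mul pB).integrableOn]
      congr 1
      funext y
      rw [Ep_pull_mul hp0 hC.per, Ep_gtot hg]
    -- functions
    have cBN := PB_cross (kd p) oB oN
    have cLB := PB_cross (kd p) oL oB
    have cLN := PB_cross (kd p) oL oN
    have cLL := PB_cross (kd p) oL oL
    have q1 : PB (fun x => phi (H n p (gC p g) (p * x)) (gtot (gB p g) x)) :=
      PB_phi (hC.pull p) (fun x => hk.pos n p _ _) pB
    have q2 : PB (fun x => phi (H n (p - 1) (gN p g) x) (gtot (gN p g) x)) :=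
      PB_phi hN (hk.pos n (p - 1) _) pN
    have q3 : PB (fun x => phi (H (n + 1) p g x) (gtot g x)) :=
      PB_phi hH (hk.pos (n + 1) p _) pT
    -- pointwise facts
    have c0 : ∀ {h : Gp Λ κ}, GOk h → ∀ d x, 0 ≤ cval (kd p) h d x :=
      fun hh d x => (PB_cval (kd p) hh d).nonneg x
    have keyφ : I (fun x => ((1 / 3) * (∑ d, cval (kd p) (gL p g) d x * cval (kd p) (gB p g) d x) +
          (1 / 3) * (∑ d, cval (kd p) (gL p g) d x * cval (kd p) (gN p g) d x)) +
          ((2 / 3) * (∑ d, cval (kd p) (gB p g) d x * cval (kd p) (gN p g) d x) +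
          (phi (H n p (gC p g) (p * x)) (gtot (gB p g) x) +
            phi (H n (p - 1) (gN p g) x) (gtot (gN p g) x)))) ≤
        I (fun x => phi (H (n + 1) p g x) (gtot g x)) := by
      refine I_mono (((cLB.smul (by norm_num)).add (cLN.smul (by norm_num))).add
        ((cBN.smul (by norm_num)).add (q1.add q2))).integrableOn q3.integrableOn fun x => ?_
      have h := join_cross2 (Finset.univ : Finset δ) (hk.pos (n + 1) p g x)
        (fun d _ => c0 oL d x) (fun d _ => c0 oB d x) (fun d _ => c0 oN d x)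
        (fun d _ => hk.cL n p hg hp d x) (fun d _ => hk.cB n p hg hp d x)
        (fun d _ => hk.cN n p hg hp d x) (gtot_cval (kd p) (gL p g) x)
        (gtot_cval (kd p) (gB p g) x) (gtot_cval (kd p) (gN p g) x)
      have m0 : 0 ≤ phi (H (n + 1) p g x) (gtot (gL p g) x) :=
        phi_nonneg (hk.pos (n + 1) p g x) (pL.nonneg x)
      have m1 : phi (H n p (gC p g) (p * x)) (gtot (gB p g) x) ≤
          phi (H (n + 1) p g x) (gtot (gB p g) x) :=
        phi_mono_H (hk.pos n p _ _) (hk.C n p hg hp x) (pB.nonneg x)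
      have m2 : phi (H n (p - 1) (gN p g) x) (gtot (gN p g) x) ≤
          phi (H (n + 1) p g x) (gtot (gN p g) x) :=
        phi_mono_H (hk.pos n (p - 1) _ _) (hk.N n p hg hp x) (pN.nonneg x)
      rw [gtot_split3 p g x]
      linarith
    have keyH : I (fun x => (∑ d, cval (kd p) (gL p g) d x * cval (kd p) (gL p g) d x) +
          (H n p (gC p g) (p * x) * gtot (gB p g) x + H n (p - 1) (gN p g) x * gtot (gN p g) x)) ≤
        I (fun x => H (n + 1) p g x * gtot g x) := by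
      refine I_mono (cLL.add (((hC.pull p).mul pB).add (hN.mul pN))).integrableOn
        (hH.mul pT).integrableOn fun x => ?_
      have s1 : ∑ d, cval (kd p) (gL p g) d x * cval (kd p) (gL p g) d x ≤
          H (n + 1) p g x * gtot (gL p g) x := by
        rw [← gtot_cval (kd p) (gL p g) x, Finset.mul_sum]
        exact Finset.sum_le_sum fun d _ =>
          mul_le_mul_of_nonneg_right (hk.cL n p hg hp d x) (c0 oL d x)
      have s2 := mul_le_mul_of_nonneg_right (hk.C n p hg hp x) (pB.nonneg x)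
      have s3 := mul_le_mul_of_nonneg_right (hk.N n p hg hp x) (pN.nonneg x)
      rw [gtot_split3 p g x]
      linarith
    rw [I_add ((cLB.smul (by norm_num : (0:ℝ) ≤ 1 / 3)).add
        (cLN.smul (by norm_num : (0:ℝ) ≤ 1 / 3))).integrableOn
        ((cBN.smul (by norm_num : (0:ℝ) ≤ 2 / 3)).add (q1.add q2)).integrableOn,
      I_add (cLB.smul (by norm_num : (0:ℝ) ≤ 1 / 3)).integrableOn
        (cLN.smul (by norm_num : (0:ℝ) ≤ 1 / 3)).integrableOn,
      I_add (cBN.smul (by norm_num : (0:ℝ) ≤ 2 / 3)).integrableOn (q1.add q2).integrableOn,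
      I_add q1.integrableOn q2.integrableOn, I_smul, I_smul, I_smul] at keyφ
    rw [I_add cLL.integrableOn (((hC.pull p).mul pB).add (hN.mul pN)).integrableOn,
      I_add ((hC.pull p).mul pB).integrableOn (hN.mul pN).integrableOn, ← j2] at keyH
    have eLL : X kd p (gL p g) (gL p g) =
      I (fun x => ∑ d, cval (kd p) (gL p g) d x * cval (kd p) (gL p g) d x) := rfl
    have eLB : X kd p (gL p g) (gB p g) =
      I (fun x => ∑ d, cval (kd p) (gL p g) d x * cval (kd p) (gB p g) d x) := rfl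
    have eLN : X kd p (gL p g) (gN p g) =
      I (fun x => ∑ d, cval (kd p) (gL p g) d x * cval (kd p) (gN p g) d x) := rfl
    have eBN : X kd p (gB p g) (gN p g) =
      I (fun x => ∑ d, cval (kd p) (gB p g) d x * cval (kd p) (gN p g) d x) := rfl
    have z1 := X_nonneg kd p oB oN
    rw [eBN] at z1
    rw [eLL, eLB, eLN, eBN]
    linarith

/-! ### the adaptive height -/

/-- the largest class height of the three parts, at least `H0` -/
noncomputable def htL (kd : Λ → δ) (H0 : ℝ) (p : ℕ) (g : Gp Λ κ) (x : ℝ) : ℝ :=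
  max (ht kd H0 (gL p g) x) (max (ht kd H0 (gB p g) x) (ht kd H0 (gN p g) x))

/-- **the adaptive height** of the sub-walk over a point -/
noncomputable def HgL (kd : ℕ → Λ → δ) (H0 : ℝ) : ℕ → ℕ → Gp Λ κ → ℝ → ℝ
  | 0, _, _ => fun _ => H0
  | n + 1, p, g => fun x => if p = 0 then H0 else
      max (htL (kd p) H0 p g x)
        (max (HgL kd H0 n p (gC p g) (p * x)) (HgL kd H0 n (p - 1) (gN p g) x))

lemma HgL_zero (kd : ℕ → Λ → δ) (H0 : ℝ) (p : ℕ) (g : Gp Λ κ) (x : ℝ) :
    HgL kd H0 0 p g x = H0 := rfl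

lemma HgL_succ0 (kd : ℕ → Λ → δ) (H0 : ℝ) (n : ℕ) (g : Gp Λ κ) (x : ℝ) :
    HgL kd H0 (n + 1) 0 g x = H0 := by
  simp [HgL]

/-- unfolding -/
lemma HgL_succ (kd : ℕ → Λ → δ) (H0 : ℝ) (n : ℕ) {p : ℕ} (hp : p ≠ 0) (g : Gp Λ κ) (x : ℝ) :
    HgL kd H0 (n + 1) p g x = max (htL (kd p) H0 p g x)
      (max (HgL kd H0 n p (gC p g) (p * x)) (HgL kd H0 n (p - 1) (gN p g) x)) := by
  show (if p = 0 then H0 else _) = _
  rw [if_neg hp]

lemma base_le_HgL (kd : ℕ → Λ → δ) (H0 : ℝ) (n p : ℕ) (g : Gp Λ κ) (x : ℝ) :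
    H0 ≤ HgL kd H0 n p g x := by
  cases n with
  | zero => exact le_rfl
  | succ n =>
    by_cases hp : p = 0
    · subst hp; rw [HgL_succ0]
    · rw [HgL_succ kd H0 n hp]
      exact ((base_le_ht _ _ _ _).trans (le_max_left _ _)).trans (le_max_left _ _)

lemma HgL_pos (kd : ℕ → Λ → δ) {H0 : ℝ} (h0 : 0 < H0) (n p : ℕ) (g : Gp Λ κ) (x : ℝ) :
    0 < HgL kd H0 n p g x := lt_of_lt_of_le h0 (base_le_HgL kd H0 n p g x)

lemma PB_HgL (kd : ℕ → Λ → δ) {H0 : ℝ} (h0 : 0 ≤ H0) : ∀ (n p : ℕ) {g : Gp Λ κ}, GOk g →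
    PB (HgL kd H0 n p g) := by
  intro n
  induction n with
  | zero => intro p g _; exact PB.const h0
  | succ n ih =>
    intro p g hg
    unfold HgL
    by_cases hp : p = 0
    · simp only [if_pos hp]
      exact PB.const h0
    · simp only [if_neg hp]
      refine PB_max ?_ (PB_max ((ih p hg.gC).pull p) (ih (p - 1) (gOk_gN hg)))
      exact PB_max (PB_ht _ h0 (gOk_gL hg)) (PB_max (PB_ht _ h0 hg.gB) (PB_ht _ h0 (gOk_gN hg)))

lemma HgL_ok (kd : ℕ → Λ → δ) {H0 : ℝ} (h0 : 0 < H0) :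
    HOkL kd (fun n p (g : Gp Λ κ) => HgL kd H0 n p g) := by
  refine ⟨fun n p g hg => PB_HgL kd h0.le n p hg, HgL_pos kd h0, ?_, ?_, ?_, ?_, ?_⟩
  · intro n p g hg hp d x
    rw [HgL_succ kd H0 n hp]
    exact ((cval_le_ht (kd p) H0 _ d x).trans (le_max_left _ _)).trans (le_max_left _ _)
  · intro n p g hg hp d x
    rw [HgL_succ kd H0 n hp]
    exact ((cval_le_ht (kd p) H0 _ d x).trans ((le_max_left _ _).trans (le_max_right _ _))).trans
      (le_max_left _ _)
  · intro n p g hg hp d x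
    rw [HgL_succ kd H0 n hp]
    exact ((cval_le_ht (kd p) H0 _ d x).trans ((le_max_right _ _).trans (le_max_right _ _))).trans
      (le_max_left _ _)
  · intro n p g hg hp x
    rw [HgL_succ kd H0 n hp]
    exact (le_max_left _ _).trans (le_max_right _ _)
  · intro n p g hg hp x
    rw [HgL_succ kd H0 n hp]
    exact (le_max_right _ _).trans (le_max_right _ _)

/-- **the theorem** for the adaptive height -/
theorem XL_le (kd : ℕ → Λ → δ) {H0 : ℝ} (h0 : 0 < H0) (n p : ℕ) (g : Gp Λ κ) (hg : GOk g) :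
    XL kd n p g ≤ 6 * I (fun x => phi (HgL kd H0 n p g x) (gtot g x)) +
      I (fun x => HgL kd H0 n p g x * gtot g x) :=
  XL_le_of (HgL_ok kd h0) n p g hg

/-- `I (H t) ≤ H0 I t + eps I t^2 + 1/(4 eps) I (H - H0)^2` -/
theorem I_Ht_le_eps {H0 : ℝ} (h0 : 0 < H0) {H t : ℝ → ℝ} (pH : PB H) (h2 : ∀ x, H0 ≤ H x)
    (pT : PB t) {ε : ℝ} (hε : 0 < ε) :
    I (fun x => H x * t x) ≤ H0 * I t + ε * I (fun x => t x ^ 2) +
      (1 / (4 * ε)) * I (fun x => (H x - H0) ^ 2) := by
  obtain ⟨B, hB⟩ := pH.bdd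
  have pH2 : PB fun x => (H x - H0) ^ 2 := by
    refine ⟨(pH.meas.sub measurable_const).pow_const 2, fun x => sq_nonneg _,
      ⟨B ^ 2, fun x => ?_⟩, fun x => ?_⟩
    · have h3 := hB x
      have h4 := h2 x
      exact pow_le_pow_left₀ (by linarith) (by linarith) 2
    · show (H (x + 1) - H0) ^ 2 = _
      rw [pH.per]
  have q1 := pT.smul h0.le
  have q2 := (PBsq pT).smul hε.le
  have q3 := pH2.smul (show 0 ≤ 1 / (4 * ε) by positivity)
  have key : I (fun x => H x * t x) ≤ I (fun x => (H0 * t x + ε * t x ^ 2) +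
      1 / (4 * ε) * (H x - H0) ^ 2) := by
    refine I_mono (pH.mul pT).integrableOn ((q1.add q2).add q3).integrableOn fun x => ?_
    have h4 : ε * t x ^ 2 + 1 / (4 * ε) * (H x - H0) ^ 2 - (H x - H0) * t x =
        (1 / (4 * ε)) * (2 * ε * t x - (H x - H0)) ^ 2 := by
      field_simp
      ring
    have h5 : 0 ≤ (1 / (4 * ε)) * (2 * ε * t x - (H x - H0)) ^ 2 := by positivity
    have h6 : H x * t x = H0 * t x + (H x - H0) * t x := by ring
    rw [h6]
    linarith
  rw [I_add (q1.add q2).integrableOn q3.integrableOn, I_add q1.integrableOn q2.integrableOn,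
    I_smul, I_smul, I_smul] at key
  exact key

/-- `eps` of the final form -/
noncomputable def eE (η : ℝ) : ℝ := η / 24
/-- `eps_2` of the final form -/
noncomputable def eF (η : ℝ) : ℝ := eE η / (Lc (eE η) + 1)
/-- **the constant of the final form**, depends only on `η` and `H0` -/
noncomputable def Ce (η H0 : ℝ) : ℝ :=
  6 * (Lc (eE η) * H0) + H0 + (6 * (Lc (eE η) * (1 / (4 * eF η))) + 1 / (4 * (η / 2)))

lemma eE_pos {η : ℝ} (hη : 0 < η) : 0 < eE η := by unfold eE; positivity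

lemma eF_pos {η : ℝ} (hη : 0 < η) : 0 < eF η := by
  have h1 := eE_pos hη
  have h2 := Lc_nonneg h1
  unfold eF
  positivity

lemma Ce_nonneg {η H0 : ℝ} (hη : 0 < η) (h0 : 0 ≤ H0) : 0 ≤ Ce η H0 := by
  have h2 := Lc_nonneg (eE_pos hη)
  have h3 := eF_pos hη
  unfold Ce
  positivity

/-- **the final form**: `XL ≤ η I tot^2 + Ce η H0 * (I tot + I (HgL - H0)^2)`. -/
theorem XL_le_eps {H0 : ℝ} (h0 : 0 < H0) {η : ℝ} (hη : 0 < η) (kd : ℕ → Λ → δ) (n p : ℕ)
    (g : Gp Λ κ) (hg : GOk g) :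
    XL kd n p g ≤ η * I (fun x => gtot g x ^ 2) +
        Ce η H0 * (I (gtot g) + I (fun x => (HgL kd H0 n p g x - H0) ^ 2)) := by
  have hε0 := eE_pos hη
  have hL := Lc_nonneg hε0
  have hε20 := eF_pos hη
  have hLε : Lc (eE η) * eF η ≤ eE η := by
    have : eF η = eE η / (Lc (eE η) + 1) := rfl
    rw [this, ← mul_div_assoc, div_le_iff₀ (by positivity)]
    nlinarith
  have hη2 : 0 < η / 2 := by positivity
  have pH := PB_HgL kd h0.le n p hg
  have pT := PB_gtot hg
  have h1 := XL_le kd h0 n p g hg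
  have h2 := I_phi_le_eps h0 pH (base_le_HgL kd H0 n p g) pT hε0 hε20
  have h3 := I_Ht_le_eps h0 pH (base_le_HgL kd H0 n p g) pT hη2
  have t2 : 0 ≤ I (fun x => gtot g x ^ 2) := I_nonneg fun x => sq_nonneg _
  have t1 : 0 ≤ I (gtot g) := I_nonneg pT.nonneg
  have t3 : 0 ≤ I (fun x => (HgL kd H0 n p g x - H0) ^ 2) := I_nonneg fun x => sq_nonneg _
  have k1 : (eE η + Lc (eE η) * eF η) * I (fun x => gtot g x ^ 2) ≤
      (2 * eE η) * I (fun x => gtot g x ^ 2) := mul_le_mul_of_nonneg_right (by linarith) t2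
  have e1 : 6 * (2 * eE η) + η / 2 = η := by unfold eE; ring
  unfold Ce
  generalize Lc (eE η) = L at *
  generalize eF η = F at *
  generalize eE η = E at *
  generalize I (gtot g) = A at *
  generalize I (fun x => gtot g x ^ 2) = B at *
  generalize I (fun x => (HgL kd H0 n p g x - H0) ^ 2) = D at *
  have k2 : 6 * ((2 * E) * B) + η / 2 * B = η * B := by
    calc 6 * ((2 * E) * B) + η / 2 * B = (6 * (2 * E) + η / 2) * B := by ring
      _ = η * B := by rw [e1]
  have c1 : 0 ≤ 6 * (L * H0) + H0 := by positivity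
  have c2 : 0 ≤ 6 * (L * (1 / (4 * F))) + 1 / (4 * (η / 2)) := by positivity
  have k3 : (6 * (L * H0) + H0 + (6 * (L * (1 / (4 * F))) + 1 / (4 * (η / 2)))) * (A + D) =
      (6 * (L * H0) + H0) * A + (6 * (L * (1 / (4 * F))) + 1 / (4 * (η / 2))) * D +
      ((6 * (L * H0) + H0) * D + (6 * (L * (1 / (4 * F))) + 1 / (4 * (η / 2))) * A) := by ring
  have k4 : 0 ≤ (6 * (L * H0) + H0) * D + (6 * (L * (1 / (4 * F))) + 1 / (4 * (η / 2))) * A :=
    add_nonneg (mul_nonneg c1 t3) (mul_nonneg c2 t1)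
  have k5 : (6 * (L * H0) + H0) * A + (6 * (L * (1 / (4 * F))) + 1 / (4 * (η / 2))) * D =
      6 * (L * (H0 * A)) + H0 * A + 6 * (L * (1 / (4 * F) * D)) + 1 / (4 * (η / 2)) * D := by
    ring
  rw [k3, k5, ← k2]
  linarith

end Crest.Agent.R4P.LogL51
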