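import Crest.Agent.R4P.SepC_244
import Crest.Agent.R4P.LogL_51

/-!
R4 (S0004), powers, `TgtCrs`, helper244: **the weights of the groups of a walk** (helper9 #27611 (6)).

* `wt g` : sum of the weights; `nE p E t`, `rE p E t` : the weights of `(gC p)^[E] [(1, t)]` and of its
  non-leaf rest `gN p`.
* `nE_le` : `nE ≤ 2`, `rE_le` : `rE ≤ 1` for the nodes of a built tree.
* `WOk W n p g` : all the groups of the walk `gC`, `gN` from `g` have weight at most `W`;
  `wok_self` : **`WOk 2` at all the nodes of a context**.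
-/

set_option autoImplicit false
set_option linter.unusedSectionVars false
set_option linter.unusedVariables false
open MeasureTheory Filter Set

namespace Crest.Agent.R4P.WOk244

open Crest.Agent.R4.Tour104 Crest.Agent.R4.Tour758 Crest.Agent.R4.Avg758 Crest.Agent.R4.Clos758
open Crest.Agent.R4.ClosL758 Crest.Agent.R4.ClosG758 Crest.Agent.R4.ClosR758
open Crest.Agent.R4P.Cnt588 Crest.Agent.R4P.Walk560 Crest.Agent.R4P.Item758
open Crest.Agent.R4P.Bld532 (NS All NodeOk Bk dv nd mem_dv mem_nd Ws_mono Ws_nonneg plk)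
open Crest.Agent.R4 Crest.Agent.R4P
open Crest.Agent.R4P.StratN36 Crest.Agent.R4P.StratX36 Crest.Agent.R4P.CtxNF36
open Crest.Agent.R4P.WalkIT579 (tp isL top_of_nodeOk bk_of_nodeOk nodeOk_hi)
open Crest.Agent.R4P.Skel189 Crest.Agent.R4P.Frame758 Crest.Agent.R4P.Data758
open Crest.Agent.R4.Soft104 Crest.Agent.R4.Fam464
open Crest.Agent.R4.Lam368 (lamF DW BW)
open Crest.Agent.R4P.Grp36 Crest.Agent.R4P.Xfer36 Crest.Agent.R4P.Sep244
open Crest.Agent.R4P.LogL51 (gN gL isLf isLf_iff isLf_false_iff mem_gN gN_append gN_smG)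
open Crest.Agent.R4P.Step588 (All_All)

section dt
variable {Λ κ : Type*}

/-- the weight of a group -/
def wt (g : Gp Λ κ) : ℝ := (g.map fun m => m.1).sum

@[simp] lemma wt_nil : wt ([] : Gp Λ κ) = 0 := rfl

lemma wt_cons (m : ℝ × DT Λ κ) (g : Gp Λ κ) : wt (m :: g) = m.1 + wt g := by simp [wt]

lemma wt_append (g h : Gp Λ κ) : wt (g ++ h) = wt g + wt h := by simp [wt]

lemma wt_smG (c : ℝ) (g : Gp Λ κ) : wt (smG c g) = c * wt g := by
  induction g with
  | nil => simp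
  | cons m g ih =>
    show wt ((c * m.1, m.2) :: smG c g) = _
    rw [wt_cons, ih, wt_cons]; ring

/-- **all the groups of the walk have weight at most `W`** -/
def WOk (W : ℝ) : ℕ → ℕ → Gp Λ κ → Prop
  | 0, _, _ => True
  | n + 1, p, g => wt g ≤ W ∧ (p ≠ 0 → WOk W n p (gC p g) ∧ WOk W n (p - 1) (gN p g))

lemma WOk.wt_le {W : ℝ} {n p : ℕ} {g : Gp Λ κ} (h : WOk W (n + 1) p g) : wt g ≤ W := h.1
lemma WOk.C {W : ℝ} {n p : ℕ} {g : Gp Λ κ} (h : WOk W (n + 1) p g) (hp : p ≠ 0) :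
    WOk W n p (gC p g) := (h.2 hp).1
lemma WOk.N {W : ℝ} {n p : ℕ} {g : Gp Λ κ} (h : WOk W (n + 1) p g) (hp : p ≠ 0) :
    WOk W n (p - 1) (gN p g) := (h.2 hp).2

lemma WOk.mono {W W' : ℝ} (hW : W ≤ W') : ∀ {n p : ℕ} {g : Gp Λ κ}, WOk W n p g → WOk W' n p g := by
  intro n
  induction n with
  | zero => intro p g _; trivial
  | succ n ih => intro p g h; exact ⟨h.1.trans hW, fun hp => ⟨ih (h.C hp), ih (h.N hp)⟩⟩

/-- weight of the children of depth `E` -/
def nE (p E : ℕ) (t : DT Λ κ) : ℝ := wt ((gC p)^[E] [((1 : ℝ), t)])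

/-- weight of the rest of depth `E` -/
def rE (p E : ℕ) (t : DT Λ κ) : ℝ := wt (gN p ((gC p)^[E] [((1 : ℝ), t)]))

lemma it_nil (p E : ℕ) : (gC p)^[E] ([] : Gp Λ κ) = [] := by
  induction E with
  | zero => rfl
  | succ E ih => rw [Function.iterate_succ_apply, gC_nil, ih]

lemma cons_eq (m : ℝ × DT Λ κ) (g : Gp Λ κ) : m :: g = smG m.1 [((1 : ℝ), m.2)] ++ g := by
  simp [smG]

lemma wt_it (p E : ℕ) (g : Gp Λ κ) : wt ((gC p)^[E] g) = (g.map fun m => m.1 * nE p E m.2).sum := by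
  induction g with
  | nil => rw [it_nil]; rfl
  | cons m g ih =>
    rw [cons_eq, it_append, it_sm, wt_append, wt_smG, ih]
    simp [smG, nE]

lemma wt_gN_it (p E : ℕ) (g : Gp Λ κ) :
    wt (gN p ((gC p)^[E] g)) = (g.map fun m => m.1 * rE p E m.2).sum := by
  induction g with
  | nil => rw [it_nil]; rfl
  | cons m g ih =>
    rw [cons_eq, it_append, it_sm, gN_append, gN_smG, wt_append, wt_smG, ih]
    simp [smG, rE]

lemma rsG_add2 {p : ℕ} {r : Λ → κ} {t₁ t₀ : DT Λ κ} :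
    rsG p ([((1 : ℝ), t₁)] ++ [((1 : ℝ), t₀)]) = rsG p [((1 : ℝ), DT.add p r t₁ t₀)] := by
  simp [rsG, rs]

lemma gC_br2 {p : ℕ} {w : ℝ} {r : Λ → κ} {t₁ t₀ : DT Λ κ} {v : Λ → ℝ → ℝ} {B G : κ → ℝ → ℝ} :
    gC p [((1 : ℝ), DT.br p w r t₁ t₀ v B G)] =
      smG (1 - w) [((1 : ℝ), t₁)] ++ smG w [((1 : ℝ), t₀)] := by
  simp [gC, gB, rsG, rs, isB, chd, smG]

variable {p : ℕ}

@[simp] lemma nE_zero (t : DT Λ κ) : nE p 0 t = 1 := by simp [nE, wt]

lemma lo_one {t : DT Λ κ} (h : t.isLeaf ∨ t.top ≠ p) : Lo p [((1 : ℝ), t)] := by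
  intro m hm
  rw [List.mem_singleton.1 hm]
  exact h

lemma it_lo {t : DT Λ κ} (h : t.isLeaf ∨ t.top ≠ p) (E : ℕ) :
    (gC p)^[E + 1] [((1 : ℝ), t)] = [] := by
  rw [Function.iterate_succ_apply, gC_lo (lo_one h), it_nil]

lemma nE_lo {t : DT Λ κ} (h : t.isLeaf ∨ t.top ≠ p) (E : ℕ) : nE p (E + 1) t = 0 := by
  unfold nE; rw [it_lo h]; rfl

lemma rE_lo {t : DT Λ κ} (h : t.isLeaf ∨ t.top ≠ p) (E : ℕ) : rE p (E + 1) t = 0 := by
  unfold rE; rw [it_lo h]; rfl

lemma gN_one {t : DT Λ κ} (h : t.isLeaf ∨ t.top ≠ p) :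
    gN p [((1 : ℝ), t)] = if isLf t then [] else [((1 : ℝ), t)] := by
  unfold gN
  rw [gR_lo (lo_one h)]
  by_cases h2 : isLf t = true
  · rw [List.filter_cons_of_neg (by simp [h2])]; simp [h2]
  · rw [List.filter_cons_of_pos (by simp [h2])]; simp [h2]

lemma rE_zero_lo {t : DT Λ κ} (h : t.isLeaf ∨ t.top ≠ p) : rE p 0 t ≤ 1 := by
  show wt (gN p [((1 : ℝ), t)]) ≤ 1
  rw [gN_one h]
  split_ifs
  · simp
  · simp [wt]

lemma rE_leaf {t : DT Λ κ} (h : t.isLeaf) (E : ℕ) : rE p E t = 0 := by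
  cases E with
  | zero =>
    show wt (gN p [((1 : ℝ), t)]) = 0
    rw [gN_one (Or.inl h), if_pos ((isLf_iff t).2 h)]; rfl
  | succ E => exact rE_lo (Or.inl h) E

/-- add nodes -/
lemma it_add {r : Λ → κ} (t₁ t₀ : DT Λ κ) (E : ℕ) :
    (gC p)^[E + 1] [((1 : ℝ), DT.add p r t₁ t₀)] =
      (gC p)^[E + 1] [((1 : ℝ), t₁)] ++ (gC p)^[E + 1] [((1 : ℝ), t₀)] := by
  rw [Function.iterate_succ_apply, ← gC_congr (rsG_add2 (p := p) (r := r) (t₁ := t₁) (t₀ := t₀)),
    ← Function.iterate_succ_apply, it_append]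

lemma nE_add {r : Λ → κ} (t₁ t₀ : DT Λ κ) (E : ℕ) :
    nE p (E + 1) (DT.add p r t₁ t₀) = nE p (E + 1) t₁ + nE p (E + 1) t₀ := by
  unfold nE; rw [it_add, wt_append]

lemma gN_congr {g g' : Gp Λ κ} (h : rsG p g = rsG p g') : gN p g = gN p g' := by
  unfold gN; rw [gR_congr h]

lemma rE_add {r : Λ → κ} (t₁ t₀ : DT Λ κ) (E : ℕ) :
    rE p E (DT.add p r t₁ t₀) = rE p E t₁ + rE p E t₀ := by
  cases E with
  | zero =>
    show wt (gN p [((1 : ℝ), DT.add p r t₁ t₀)]) = wt (gN p [((1 : ℝ), t₁)]) + wt (gN p [((1 : ℝ), t₀)])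
    rw [← gN_congr (rsG_add2 (p := p) (r := r) (t₁ := t₁) (t₀ := t₀)), gN_append, wt_append]
  | succ E => unfold rE; rw [it_add, gN_append, wt_append]

/-- up nodes -/
lemma rsG_up {Sp : Finset Λ} (t : DT Λ κ) :
    rsG p [((1 : ℝ), DT.up p Sp t)] = rsG p [((1 : ℝ), t)] := by
  simp [rsG, rs]

lemma nE_up {Sp : Finset Λ} (t : DT Λ κ) (E : ℕ) : nE p E (DT.up p Sp t) = nE p E t := by
  cases E with
  | zero => simp
  | succ E =>
    unfold nE
    rw [Function.iterate_succ_apply, gC_congr (rsG_up t), ← Function.iterate_succ_apply]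

lemma rE_up {Sp : Finset Λ} (t : DT Λ κ) (E : ℕ) : rE p E (DT.up p Sp t) = rE p E t := by
  cases E with
  | zero =>
    show wt (gN p [((1 : ℝ), DT.up p Sp t)]) = wt (gN p [((1 : ℝ), t)])
    rw [gN_congr (rsG_up t)]
  | succ E =>
    unfold rE
    rw [Function.iterate_succ_apply, gC_congr (rsG_up t), ← Function.iterate_succ_apply]

variable {w : ℝ} {r : Λ → κ} {t₁ t₀ : DT Λ κ} {v : Λ → ℝ → ℝ} {B G : κ → ℝ → ℝ}

/-- ties and pulls -/
lemma it_br (E : ℕ) : (gC p)^[E + 1] [((1 : ℝ), DT.br p w r t₁ t₀ v B G)] =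
    smG (1 - w) ((gC p)^[E] [((1 : ℝ), t₁)]) ++ smG w ((gC p)^[E] [((1 : ℝ), t₀)]) := by
  rw [Function.iterate_succ_apply, gC_br2, it_append, it_sm, it_sm]

lemma nE_br (E : ℕ) : nE p (E + 1) (DT.br p w r t₁ t₀ v B G) =
    (1 - w) * nE p E t₁ + w * nE p E t₀ := by
  unfold nE; rw [it_br, wt_append, wt_smG, wt_smG]

lemma rE_br (E : ℕ) : rE p (E + 1) (DT.br p w r t₁ t₀ v B G) =
    (1 - w) * rE p E t₁ + w * rE p E t₀ := by
  unfold rE; rw [it_br, gN_append, gN_smG, gN_smG, wt_append, wt_smG, wt_smG]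

lemma rE_br0 : rE p 0 (DT.br p w r t₁ t₀ v B G) = 0 := by
  show wt (gN p [((1 : ℝ), DT.br p w r t₁ t₀ v B G)]) = 0
  have e : gR p [((1 : ℝ), DT.br p w r t₁ t₀ v B G)] = [] := by simp [gR, rsG, rs, isB]
  unfold gN
  rw [e]; rfl

end dt

/-! ### the built trees -/

/-- the lower part of a cut is fresh -/
def Ha : IT → Prop
  | .leaf _ => True
  | .br _ _ t₁ t₀ => Ha t₁ ∧ Ha t₀
  | .add _ t₁ t₀ => Fr t₀ ∧ Ha t₁ ∧ Ha t₀
  | .up _ _ t => Ha t
  | .pl _ t => Ha t
  | .far _ t₁ t₀ => Ha t₁ ∧ Ha t₀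

section item
variable {P : Bld532.Par} {W : ℕ → ℝ}

lemma plk_Ha (p j : ℕ) {t : IT} (h : Ha t) : Ha (plk p j t) := by
  induction j with
  | zero => exact h
  | succ j ih => exact ih

lemma chain_Ha (W : ℕ → ℝ) (p : ℕ) (rec : ℝ → ℕ → Finset ℕ → IT)
    (hrec : ∀ c A S, Ha (rec c A S)) (hfr : ∀ c A S, Hd (rec c A S) ∧ Fr (rec c A S)) :
    ∀ (f : ℕ) (c : ℝ) (A : ℕ) (S : Finset ℕ), Ha (Bld532.chain P W p rec f c A S) := by
  intro f
  induction f with
  | zero => intro c A S; exact trivial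
  | succ f ih =>
    intro c A S
    unfold Bld532.chain
    split_ifs with h1 h2
    · exact trivial
    · exact ⟨(chain_Hd W p rec hfr _ _ _ _).2, plk_Ha _ _ (ih _ _ _), ih _ _ _⟩
    · have key : ∀ (K : ℕ) (S' : Finset ℕ), Ha (Bld532.fin1 P W p rec c A K S') := by
        intro K S'
        unfold Bld532.fin1
        split_ifs with h3
        · exact trivial
        · cases K with
          | zero => exact hrec _ _ _
          | succ K => exact plk_Ha _ _ ⟨hrec _ _ _, hrec _ _ _⟩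
      unfold Bld532.farw
      split_ifs with h4
      · exact key _ _
      · exact ⟨trivial, key _ _⟩

/-- **the built tree** -/
theorem bld_Ha (W : ℕ → ℝ) : ∀ (n : ℕ) (c : ℝ) (A : ℕ) (S : Finset ℕ),
    Ha (Bld532.bld P W n c A S) := by
  intro n
  induction n with
  | zero => intro c A S; exact trivial
  | succ k ih =>
    intro c A S
    unfold Bld532.bld
    split_ifs with hk
    · exact chain_Ha W k _ ih (bld_Hd W k) _ _ _ _
    · exact ih _ _ _

lemma Ha_All : ∀ (t : IT) (s : NS), Ha t → All (fun _ τ => Ha τ) s t := by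
  intro t
  induction t with
  | leaf S => intro s h; exact h
  | br p Sp t₁ t₀ ih1 ih0 => intro s h; exact ⟨h, ih1 _ h.1, ih0 _ h.2⟩
  | add b t₁ t₀ ih1 ih0 => intro s h; exact ⟨h, ih1 _ h.2.1, ih0 _ h.2.2⟩
  | up b Sp t ih => intro s h; exact ⟨h, ih _ h⟩
  | pl b t ih => intro s h; exact ⟨h, ih _ h⟩
  | far b t₁ t₀ ih1 ih0 => intro s h; exact ⟨h, ih1 _ h.1, ih0 _ h.2⟩

lemma dd_not_leaf {τ : IT} (h : ¬ ddI τ) : ¬ isL τ := by
  cases τ with
  | leaf S => exact absurd trivial h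
  | br q Sp t₁ t₀ => exact id
  | add q t₁ t₀ => exact id
  | up q Sp t => exact id
  | pl q t => exact id
  | far q t₁ t₀ => exact id

/-- an alive open node is not light -/
lemma alive_lo (hG : PG P W) {p : ℕ} (hp : p.Prime) : ∀ (τ : IT) (u : NS), All (NodeOk P W) u τ →
    tp τ = p → ¬ ddI τ → P.lo p ≤ u.c * Ws W τ.items := by
  intro τ
  induction τ with
  | leaf S => intro u _ _ h; exact absurd trivial h
  | br q Sp t₁ t₀ _ _ =>
    intro u hA ht _
    have e : q = p := ht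
    subst e
    have hok : NodeOk P W u (.br q Sp t₁ t₀) := hA.1
    exact hok.2.2.2.2.2.2.2.2.2.1
  | add q t₁ t₀ _ _ =>
    intro u hA ht _
    have e : q = p := ht
    subst e
    have hok : NodeOk P W u (.add q t₁ t₀) := hA.1
    exact hok.2.2.2.2.2.2.1
  | up q Sp t _ =>
    intro u hA ht _
    have e : q = p := ht
    subst e
    have hok : NodeOk P W u (.up q Sp t) := hA.1
    exact hok.2.2.2.2.2.2.2.1
  | pl q t ih =>
    intro u hA ht h
    have e : q = p := ht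
    subst e
    exact ih ⟨q + 1, u.c, u.A * q, u.B⟩ hA.2 (tp_open hA.2.self hp rfl (dd_not_leaf h)) h
  | far q t₁ t₀ _ _ =>
    intro u hA ht _
    have e : q = p := ht
    subst e
    have hok : NodeOk P W u (.far q t₁ t₀) := hA.1
    exact hok.2.2.2.2.2.2.1

/-- the top column of a closed node -/
lemma tp_closed {u : NS} {τ : IT} {p : ℕ} (h : NodeOk P W u τ) (hn : u.n ≤ p) :
    isL τ ∨ tp τ ≠ p := by
  by_cases hl : isL τ
  · exact Or.inl hl
  · exact Or.inr (ne_of_lt ((top_of_nodeOk h hl).2.1.trans_le hn))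

lemma c_pos {u : NS} {τ : IT} (h : NodeOk P W u τ) : 0 < u.c := by
  linarith [(bk_of_nodeOk h).one_le_c]

lemma ne_of_pos {S : Finset ℕ} (h : 0 < Ws W S) : S.Nonempty := by
  by_contra hn
  rw [Finset.not_nonempty_iff_eq_empty] at hn
  rw [hn] at h
  simp [Ws] at h

/-- a closed node has the code `0` -/
lemma StI_zero {p : ℕ} {τ : IT} (hl : ¬ isL τ) (ht : tp τ ≠ p) : StI p τ 0 := by
  cases τ with
  | leaf S => exact absurd trivial hl
  | br q Sp t₁ t₀ => exact Or.inl ⟨ht, rfl⟩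
  | add q t₁ t₀ => exact Or.inl ⟨ht, rfl⟩
  | up q Sp t => exact Or.inl ⟨ht, rfl⟩
  | pl q t => exact Or.inl ⟨ht, rfl⟩
  | far q t₁ t₀ => exact Or.inl ⟨ht, rfl⟩

end item

section main
variable {Λ κ : Type*} [Fintype Λ] [DecidableEq Λ] [Fintype κ] [DecidableEq κ] [WRel κ]
  {D : Par Λ κ} {sp : ℕ → Finset Λ} {P : Bld532.Par} {W : ℕ → ℝ}

lemma cl_dt {b pr : ℕ} {τ : IT} {p : ℕ} (h : isL τ ∨ tp τ ≠ p) :
    (D.toDT sp b pr τ).isLeaf ∨ (D.toDT sp b pr τ).top ≠ p := by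
  rcases h with h | h
  · exact Or.inl ((WalkIT579.toDT_leaf D sp _ _ _).2 h)
  · right
    rw [WalkIT579.toDT_top]
    exact h

/-- the children of an open node are open -/
lemma op_child {u : NS} {τ : IT} {p : ℕ} (h : NodeOk P W u τ) (hp : p.Prime) (hn : u.n = p + 1) :
    isL τ ∨ tp τ = p := by
  by_cases hl : isL τ
  · exact Or.inl hl
  · exact Or.inr (tp_open h hp hn hl)

lemma nE_plk {p : ℕ} : ∀ (j E b pr : ℕ) (t : IT), E ≤ j → nE p E (D.toDT sp b pr (plk p j t)) = 1 := by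
  intro j
  induction j with
  | zero => intro E b pr t h; rw [Nat.le_zero.1 h]; simp
  | succ j ih =>
    intro E b pr t h
    cases E with
    | zero => simp
    | succ E =>
      show nE p (E + 1) (DT.br p 0 (D.rho p) (D.toDT sp b (pr * p) (plk p j t)) _ _ _ _) = 1
      rw [nE_br, ih E b (pr * p) t (by omega)]
      ring

/-- **(Z) children of depth `E + 1` need items of exponent `E + 1`** -/
theorem nE_ne (hG : PG P W) {p : ℕ} (hp : p.Prime) : ∀ (τ : IT) (u : NS) (E : ℕ),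
    All (NodeOk P W) u τ → (isL τ ∨ tp τ = p) → τ.items.Nonempty →
    nE p (E + 1) (D.toDT sp u.B u.A τ) ≠ 0 → ∃ q ∈ τ.items, ex p u.A + E + 1 ≤ ex p q := by
  intro τ
  induction τ with
  | leaf S => intro u E _ _ _ h; exact absurd (nE_lo (cl_dt (τ := .leaf S) (Or.inl trivial)) E) h
  | br q Sp t₁ t₀ ih₁ ih₀ =>
    intro u E hA ht hne h
    have e : q = p := ht.resolve_left id
    subst e
    have hok : NodeOk P W u (.br q Sp t₁ t₀) := hA.1
    cases E with
    | zero =>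
      have := massI hG hp (.br q Sp t₁ t₀) u 1 (c_pos hA.self) hA rfl (Or.inr ⟨rfl, rfl⟩)
      obtain ⟨x, hx, hxe⟩ := ne_of_ws (by linarith [hG.lo0 q hp hok.2.2.1]) this
      exact ⟨x, hx, hxe.ge⟩
    | succ E =>
      refine absurd ?_ h
      show nE q (E + 1 + 1) (DT.br q (1 / (q : ℝ)) (D.rho q) (D.toDT sp u.B (u.A * q) t₁)
        (D.toDT sp (u.B * q) u.A t₀) _ _ _) = 0
      rw [nE_br, nE_lo (cl_dt (tp_closed hA.2.1.self le_rfl)),
        nE_lo (cl_dt (tp_closed hA.2.2.self le_rfl))]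
      ring
  | add q t₁ t₀ ih₁ ih₀ =>
    intro u E hA ht hne h
    have e : q = p := ht.resolve_left id
    subst e
    have hok : NodeOk P W u (.add q t₁ t₀) := hA.1
    have hsW : 0 ≤ P.sg q * Ws W (t₁.items ∪ t₀.items) :=
      mul_nonneg (hG.sg0 q) (Ws_nonneg hG.w0 _)
    have h' : nE q (E + 1) (D.toDT sp u.B u.A t₁) + nE q (E + 1) (D.toDT sp u.B u.A t₀) ≠ 0 := by
      rw [← nE_add (r := D.rho q)]; exact h
    by_cases h1 : nE q (E + 1) (D.toDT sp u.B u.A t₁) = 0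
    · rw [h1, zero_add] at h'
      obtain ⟨x, hx, hxe⟩ := ih₀ ⟨q + 1, u.c, u.A, u.B⟩ E hA.2.2 (op_child hA.2.2.self hp rfl)
        (ne_of_pos (hsW.trans_lt hok.2.2.2.2.2.2.2.2.1)) h'
      exact ⟨x, Finset.mem_union_right _ hx, hxe⟩
    · obtain ⟨x, hx, hxe⟩ := ih₁ ⟨q + 1, u.c, u.A, u.B⟩ E hA.2.1 (op_child hA.2.1.self hp rfl)
        (ne_of_pos (hsW.trans_lt hok.2.2.2.2.2.2.2.2.2)) h1
      exact ⟨x, Finset.mem_union_left _ hx, hxe⟩
  | up q Sp t ih =>
    intro u E hA ht hne h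
    have e : q = p := ht.resolve_left id
    subst e
    refine absurd ?_ h
    show nE q (E + 1) (DT.up q (sp q) (D.toDT sp u.B u.A t)) = 0
    rw [nE_up, nE_lo (cl_dt (tp_closed hA.2.self le_rfl))]
  | pl q t ih =>
    intro u E hA ht hne h
    have e : q = p := ht.resolve_left id
    subst e
    have hok : NodeOk P W u (.pl q t) := hA.1
    have hBk := bk_of_nodeOk hA.1
    have h' : nE q E (D.toDT sp u.B (u.A * q) t) ≠ 0 := by
      intro h0
      refine h ?_
      show nE q (E + 1) (DT.br q 0 (D.rho q) (D.toDT sp u.B (u.A * q) t) _ _ _ _) = 0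
      rw [nE_br, h0]; ring
    cases E with
    | zero =>
      obtain ⟨x, hx⟩ := hne
      refine ⟨x, hx, ?_⟩
      have h2 := hok.2.2.2.2.2.1 x hx
      rw [← pow_one q, dvd_iff hp (hBk.pos x hx) (hBk.dvd x hx)] at h2
      exact h2
    | succ E =>
      obtain ⟨x, hx, hxe⟩ := ih ⟨q + 1, u.c, u.A * q, u.B⟩ E hA.2 (op_child hA.2.self hp rfl) hne h'
      refine ⟨x, hx, ?_⟩
      have e2 : ex q (u.A * q) = ex q u.A + 1 := ex_mul hp hBk.Apos
      have hxe' : ex q (u.A * q) + E + 1 ≤ ex q x := hxe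
      omega
  | far q t₁ t₀ ih₁ ih₀ =>
    intro u E hA ht hne h
    have e : q = p := ht.resolve_left id
    subst e
    have hok : NodeOk P W u (.far q t₁ t₀) := hA.1
    obtain ⟨-, -, hp0, -, -, ⟨K, hl, -, -, -⟩, hlo, -, hsm⟩ := hok
    have hl1 : isL t₁ := by rw [hl]; trivial
    have h' : nE q (E + 1) (D.toDT sp u.B u.A t₁) + nE q (E + 1) (D.toDT sp u.B u.A t₀) ≠ 0 := by
      rw [← nE_add (r := D.rho q)]; exact h
    rw [nE_lo (cl_dt (Or.inl hl1)), zero_add] at h'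
    have hpos : 0 < Ws W (t₁.items ∪ t₀.items) :=
      pos_of_mul_pos_right ((hG.lo0 q hp hp0).trans_le hlo) (c_pos hA.1).le
    have h8 := hG.sg8 q hp hp0
    have hun := ws_union_le hG.w0 t₁.items t₀.items
    have hs2 : 2 * P.sg q * Ws W (t₁.items ∪ t₀.items) ≤ 1 / 2 * Ws W (t₁.items ∪ t₀.items) :=
      mul_le_mul_of_nonneg_right (by linarith [hG.sg0 q]) hpos.le
    have h0 : 0 < Ws W t₀.items := by linarith
    obtain ⟨x, hx, hxe⟩ := ih₀ ⟨q + 1, u.c, u.A, u.B⟩ E hA.2.2 (op_child hA.2.2.self hp rfl)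
      (ne_of_pos h0) h'
    exact ⟨x, Finset.mem_union_right _ hx, hxe⟩

/-- **(T) nodes with the top exponent `e`** -/
theorem nE_top (hG : PG P W) {p : ℕ} (hp : p.Prime) : ∀ (τ : IT) (u : NS) (E e : ℕ),
    All (NodeOk P W) u τ → Ha τ → (isL τ ∨ tp τ = p) → (∀ x ∈ τ.items, ex p x ≤ e) →
    u.c * Ws W (τ.items.filter fun x => ex p x < e) < P.lo p →
    nE p E (D.toDT sp u.B u.A τ) ≤ 1 := by
  intro τ
  induction τ with
  | leaf S =>
    intro u E e _ _ _ _ _
    cases E with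
    | zero => simp
    | succ E => rw [nE_lo (cl_dt (τ := .leaf S) (Or.inl trivial)) E]; norm_num
  | br q Sp t₁ t₀ ih₁ ih₀ =>
    intro u E e hA hh ht hx hm
    have e' : q = p := ht.resolve_left id
    subst e'
    rcases E with _ | E
    · simp
    · show nE q (E + 1) (DT.br q (1 / (q : ℝ)) (D.rho q) (D.toDT sp u.B (u.A * q) t₁)
        (D.toDT sp (u.B * q) u.A t₀) _ _ _) ≤ 1
      rw [nE_br]
      rcases E with _ | E
      · simp
      · rw [nE_lo (cl_dt (tp_closed hA.2.1.self le_rfl)),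
          nE_lo (cl_dt (tp_closed hA.2.2.self le_rfl))]
        norm_num
  | add q t₁ t₀ ih₁ ih₀ =>
    intro u E e hA hh ht hx hm
    have e' : q = p := ht.resolve_left id
    subst e'
    have hok : NodeOk P W u (.add q t₁ t₀) := hA.1
    obtain ⟨-, -, hp0, -, hBk, ⟨j, t', hj, htj, h1, h0, hs⟩, hlo, hhi, hm0, hm1⟩ := hok
    have hsW : 0 ≤ P.sg q * Ws W (t₁.items ∪ t₀.items) :=
      mul_nonneg (hG.sg0 q) (Ws_nonneg hG.w0 _)
    obtain ⟨y, hy⟩ := ne_of_pos (hsW.trans_lt hm1)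
    have hye : ex q u.A + j ≤ ex q y := by
      have hy' := hy
      rw [h1, mem_dv] at hy'
      exact (dvd_iff hp (hBk.pos y hy'.1) (hBk.dvd y hy'.1)).1 hy'.2
    have hye2 := hx y (Finset.mem_union_left _ hy)
    have hsub : t₀.items ⊆ (t₁.items ∪ t₀.items).filter (fun x => ex q x < e) := by
      intro x hx0
      have hx' := hx0
      rw [h0, mem_nd] at hx'
      refine Finset.mem_filter.2 ⟨hx'.1, ?_⟩
      have h3 := hx'.2
      rw [dvd_iff hp (hBk.pos x hx'.1) (hBk.dvd x hx'.1)] at h3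
      omega
    have hl0 : isL t₀ := by
      by_contra hn
      have hdd : ¬ ddI t₀ := hh.1.resolve_left hn
      have h3 := alive_lo hG hp t₀ ⟨q + 1, u.c, u.A, u.B⟩ hA.2.2 (tp_open hA.2.2.self hp rfl hn) hdd
      have h4 : u.c * Ws W t₀.items ≤
          u.c * Ws W ((t₁.items ∪ t₀.items).filter fun x => ex q x < e) :=
        mul_le_mul_of_nonneg_left (Ws_mono hG.w0 hsub) (c_pos hA.1).le
      exact absurd (h3.trans h4) (not_le.2 hm)
    rcases E with _ | E
    · simp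
    · show nE q (E + 1) (DT.add q (D.rho q) (D.toDT sp u.B u.A t₁) (D.toDT sp u.B u.A t₀)) ≤ 1
      rw [nE_add, nE_lo (cl_dt (Or.inl hl0)), add_zero]
      refine ih₁ ⟨q + 1, u.c, u.A, u.B⟩ (E + 1) e hA.2.1 hh.2.1 (op_child hA.2.1.self hp rfl)
        (fun x hx1 => hx x (Finset.mem_union_left _ hx1)) (lt_of_le_of_lt ?_ hm)
      exact mul_le_mul_of_nonneg_left (Ws_mono hG.w0
        (Finset.filter_subset_filter _ Finset.subset_union_left)) (c_pos hA.1).le
  | up q Sp t ih =>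
    intro u E e hA hh ht hx hm
    have e' : q = p := ht.resolve_left id
    subst e'
    rcases E with _ | E
    · simp
    · show nE q (E + 1) (DT.up q (sp q) (D.toDT sp u.B u.A t)) ≤ 1
      rw [nE_up, nE_lo (cl_dt (tp_closed hA.2.self le_rfl))]
      norm_num
  | pl q t ih =>
    intro u E e hA hh ht hx hm
    have e' : q = p := ht.resolve_left id
    subst e'
    rcases E with _ | E
    · simp
    · show nE q (E + 1) (DT.br q 0 (D.rho q) (D.toDT sp u.B (u.A * q) t) _ _ _ _) ≤ 1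
      rw [nE_br]
      have := ih ⟨q + 1, u.c, u.A * q, u.B⟩ E e hA.2 hh (op_child hA.2.self hp rfl) hx hm
      have h2 : nE q E (D.toDT sp u.B (u.A * q) t) ≤ 1 := this
      linarith
  | far q t₁ t₀ ih₁ ih₀ =>
    intro u E e hA hh ht hx hm
    have e' : q = p := ht.resolve_left id
    subst e'
    have hok : NodeOk P W u (.far q t₁ t₀) := hA.1
    obtain ⟨-, -, hp0, -, -, ⟨K, hl, -, -, -⟩, hlo, -, hsm⟩ := hok
    have hl1 : isL t₁ := by rw [hl]; trivial
    rcases E with _ | E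
    · simp
    · show nE q (E + 1) (DT.add q (D.rho q) (D.toDT sp u.B u.A t₁) (D.toDT sp u.B u.A t₀)) ≤ 1
      rw [nE_add, nE_lo (cl_dt (Or.inl hl1)), zero_add]
      refine ih₀ ⟨q + 1, u.c, u.A, u.B⟩ (E + 1) e hA.2.2 hh.2 (op_child hA.2.2.self hp rfl)
        (fun x hx1 => hx x (Finset.mem_union_right _ hx1)) (lt_of_le_of_lt ?_ hm)
      exact mul_le_mul_of_nonneg_left (Ws_mono hG.w0
        (Finset.filter_subset_filter _ Finset.subset_union_right)) (c_pos hA.1).le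

/-- **(G) the children of depth `E` have weight at most `2`** -/
theorem nE_two (hS : PS P W) {p : ℕ} (hp : p.Prime) : ∀ (τ : IT) (u : NS) (E : ℕ),
    All (NodeOk P W) u τ → Ha τ → (isL τ ∨ tp τ = p) → nE p E (D.toDT sp u.B u.A τ) ≤ 2 := by
  have hG := hS.pg
  intro τ
  induction τ with
  | leaf S =>
    intro u E _ _ _
    cases E with
    | zero => simp
    | succ E => rw [nE_lo (cl_dt (τ := .leaf S) (Or.inl trivial)) E]; norm_num
  | br q Sp t₁ t₀ ih₁ ih₀ =>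
    intro u E hA hh ht
    have e' : q = p := ht.resolve_left id
    subst e'
    rcases E with _ | E
    · simp
    · show nE q (E + 1) (DT.br q (1 / (q : ℝ)) (D.rho q) (D.toDT sp u.B (u.A * q) t₁)
        (D.toDT sp (u.B * q) u.A t₀) _ _ _) ≤ 2
      rw [nE_br]
      rcases E with _ | E
      · simp
      · rw [nE_lo (cl_dt (tp_closed hA.2.1.self le_rfl)),
          nE_lo (cl_dt (tp_closed hA.2.2.self le_rfl))]
        norm_num
  | add q t₁ t₀ ih₁ ih₀ =>
    intro u E hA hh ht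
    have e' : q = p := ht.resolve_left id
    subst e'
    have hok : NodeOk P W u (.add q t₁ t₀) := hA.1
    obtain ⟨-, -, hp0, -, hBk, ⟨j, t', hj, htj, h1, h0, hs⟩, hlo, hhi, hm0, hm1⟩ := hok
    have hsW : 0 ≤ P.sg q * Ws W (t₁.items ∪ t₀.items) :=
      mul_nonneg (hG.sg0 q) (Ws_nonneg hG.w0 _)
    have c0 := c_pos hA.1
    have hx0 : ∀ x ∈ t₀.items, x ∈ t₁.items ∪ t₀.items ∧ ex q x < ex q u.A + j := by
      intro x hx0
      have hx' := hx0
      rw [h0, mem_nd] at hx'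
      refine ⟨hx'.1, ?_⟩
      have h3 := hx'.2
      rw [dvd_iff hp (hBk.pos x hx'.1) (hBk.dvd x hx'.1)] at h3
      exact not_le.1 h3
    rcases E with _ | E
    · simp
    · show nE q (E + 1) (DT.add q (D.rho q) (D.toDT sp u.B u.A t₁) (D.toDT sp u.B u.A t₀)) ≤ 2
      rw [nE_add]
      by_cases hE : E + 1 ≤ j
      · have e1 : nE q (E + 1) (D.toDT sp u.B u.A t₁) = 1 := by
          rw [htj]; exact nE_plk j (E + 1) u.B u.A t' hE
        have e0 : nE q (E + 1) (D.toDT sp u.B u.A t₀) ≤ 1 := by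
          refine nE_top hG hp t₀ ⟨q + 1, u.c, u.A, u.B⟩ (E + 1) (ex q u.A + (j - 1)) hA.2.2 hh.2.2
            (op_child hA.2.2.self hp rfl) (fun x hx => ?_) ?_
          · have := (hx0 x hx).2; omega
          · have hsub : t₀.items.filter (fun x => ex q x < ex q u.A + (j - 1)) ⊆
                nd u.A (q ^ (j - 1)) (t₁.items ∪ t₀.items) := by
              intro x hx
              obtain ⟨hx, hxe⟩ := Finset.mem_filter.1 hx
              have hxS := (hx0 x hx).1
              rw [mem_nd]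
              refine ⟨hxS, ?_⟩
              rw [dvd_iff hp (hBk.pos x hxS) (hBk.dvd x hxS)]
              exact not_le.2 hxe
            have h3 : u.c * Ws W (t₀.items.filter fun x => ex q x < ex q u.A + (j - 1)) ≤
                u.c * (P.sg q * Ws W (t₁.items ∪ t₀.items)) :=
              mul_le_mul_of_nonneg_left ((Ws_mono hG.w0 hsub).trans hs) c0.le
            have h4 : u.c * (P.sg q * Ws W (t₁.items ∪ t₀.items)) ≤ P.sg q * P.hi q := by
              have := mul_le_mul_of_nonneg_left hhi (hG.sg0 q)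
              linarith [mul_left_comm u.c (P.sg q) (Ws W (t₁.items ∪ t₀.items))]
            have h5 := hS.gap q hp hp0
            have h6 := hG.lo0 q hp hp0
            show u.c * Ws W (t₀.items.filter fun x => ex q x < ex q u.A + (j - 1)) < P.lo q
            linarith
        linarith
      · have e0 : nE q (E + 1) (D.toDT sp u.B u.A t₀) = 0 := by
          by_contra hne
          obtain ⟨x, hx, hxe⟩ := nE_ne (D := D) (sp := sp) hG hp t₀ ⟨q + 1, u.c, u.A, u.B⟩ E hA.2.2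
            (op_child hA.2.2.self hp rfl) (ne_of_pos (hsW.trans_lt hm0)) hne
          have h2 := (hx0 x hx).2
          have hxe' : ex q u.A + E + 1 ≤ ex q x := hxe
          omega
        rw [e0, add_zero]
        exact ih₁ ⟨q + 1, u.c, u.A, u.B⟩ (E + 1) hA.2.1 hh.2.1 (op_child hA.2.1.self hp rfl)
  | up q Sp t ih =>
    intro u E hA hh ht
    have e' : q = p := ht.resolve_left id
    subst e'
    rcases E with _ | E
    · simp
    · show nE q (E + 1) (DT.up q (sp q) (D.toDT sp u.B u.A t)) ≤ 2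
      rw [nE_up, nE_lo (cl_dt (tp_closed hA.2.self le_rfl))]
      norm_num
  | pl q t ih =>
    intro u E hA hh ht
    have e' : q = p := ht.resolve_left id
    subst e'
    rcases E with _ | E
    · simp
    · show nE q (E + 1) (DT.br q 0 (D.rho q) (D.toDT sp u.B (u.A * q) t) _ _ _ _) ≤ 2
      rw [nE_br]
      have h2 : nE q E (D.toDT sp u.B (u.A * q) t) ≤ 2 :=
        ih ⟨q + 1, u.c, u.A * q, u.B⟩ E hA.2 hh (op_child hA.2.self hp rfl)
      linarith
  | far q t₁ t₀ ih₁ ih₀ =>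
    intro u E hA hh ht
    have e' : q = p := ht.resolve_left id
    subst e'
    have hok : NodeOk P W u (.far q t₁ t₀) := hA.1
    obtain ⟨-, -, hp0, -, -, ⟨K, hl, -, -, -⟩, hlo, -, hsm⟩ := hok
    have hl1 : isL t₁ := by rw [hl]; trivial
    rcases E with _ | E
    · simp
    · show nE q (E + 1) (DT.add q (D.rho q) (D.toDT sp u.B u.A t₁) (D.toDT sp u.B u.A t₀)) ≤ 2
      rw [nE_add, nE_lo (cl_dt (Or.inl hl1)), zero_add]
      exact ih₀ ⟨q + 1, u.c, u.A, u.B⟩ (E + 1) hA.2.2 hh.2 (op_child hA.2.2.self hp rfl)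

/-- **the rest of depth `E` needs the code `E`** -/
theorem rE_St {p : ℕ} (hp : p.Prime) : ∀ (τ : IT) (u : NS) (E : ℕ), All (NodeOk P W) u τ →
    (isL τ ∨ tp τ = p) → rE p E (D.toDT sp u.B u.A τ) ≠ 0 → StI p τ E := by
  intro τ
  induction τ with
  | leaf S =>
    intro u E _ _ h
    exact absurd (rE_leaf ((WalkIT579.toDT_leaf D sp u.B u.A (.leaf S)).2 trivial) E) h
  | br q Sp t₁ t₀ ih₁ ih₀ =>
    intro u E hA ht h
    have e' : q = p := ht.resolve_left id
    subst e'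
    have h' : rE q E (DT.br q (1 / (q : ℝ)) (D.rho q) (D.toDT sp u.B (u.A * q) t₁)
      (D.toDT sp (u.B * q) u.A t₀) (fun j => lamF q (fun j => (D.toFT u.B (u.A * q) t₁).U 1 j)
        (fun j => (D.toFT (u.B * q) u.A t₀).U q j) (fun j => (D.toFT (u.B * q) u.A t₀).U 1 j)
        (fun _ => D.rho q) (0 + 1) j) _ _) ≠ 0 := h
    rcases E with _ | E
    · exact absurd rE_br0 h'
    · rw [rE_br] at h'
      rcases E with _ | E
      · exact Or.inr ⟨rfl, rfl⟩
      · rw [rE_lo (cl_dt (tp_closed hA.2.1.self le_rfl)),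
          rE_lo (cl_dt (tp_closed hA.2.2.self le_rfl))] at h'
        exact absurd (by ring) h'
  | add q t₁ t₀ ih₁ ih₀ =>
    intro u E hA ht h
    have e' : q = p := ht.resolve_left id
    subst e'
    have h' : rE q E (D.toDT sp u.B u.A t₁) + rE q E (D.toDT sp u.B u.A t₀) ≠ 0 := by
      rw [← rE_add (r := D.rho q)]; exact h
    refine Or.inr ⟨rfl, ?_⟩
    by_cases h1 : rE q E (D.toDT sp u.B u.A t₁) = 0
    · rw [h1, zero_add] at h'
      exact Or.inr (ih₀ ⟨q + 1, u.c, u.A, u.B⟩ E hA.2.2 (op_child hA.2.2.self hp rfl) h')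
    · exact Or.inl (ih₁ ⟨q + 1, u.c, u.A, u.B⟩ E hA.2.1 (op_child hA.2.1.self hp rfl) h1)
  | up q Sp t ih =>
    intro u E hA ht h
    have e' : q = p := ht.resolve_left id
    subst e'
    have h' : rE q E (DT.up q (sp q) (D.toDT sp u.B u.A t)) ≠ 0 := h
    rw [rE_up] at h'
    have hc := tp_closed (p := q) hA.2.self le_rfl
    rcases E with _ | E
    · have hl : ¬ isL t := fun hl => h' (rE_leaf ((WalkIT579.toDT_leaf D sp u.B u.A t).2 hl) 0)
      exact Or.inr ⟨rfl, StI_zero hl (hc.resolve_left hl)⟩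
    · exact absurd (rE_lo (cl_dt hc) E) h'
  | pl q t ih =>
    intro u E hA ht h
    have e' : q = p := ht.resolve_left id
    subst e'
    have h' : rE q E (DT.br q 0 (D.rho q) (D.toDT sp u.B (u.A * q) t)
      (.leaf (D.rho q) fun _ _ => 0) (fun j x => (D.toFT u.B (u.A * q) t).U 1 j (q * x))
      (fun a => sm (D.rho q) ((D.toFT u.B (u.A * q) t).U 1) a) (fun _ _ => 0)) ≠ 0 := h
    rcases E with _ | E
    · exact absurd rE_br0 h'
    · rw [rE_br, sub_zero, one_mul, zero_mul, add_zero] at h'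
      exact Or.inr ⟨rfl, E, ih ⟨q + 1, u.c, u.A * q, u.B⟩ E hA.2 (op_child hA.2.self hp rfl) h', rfl⟩
  | far q t₁ t₀ ih₁ ih₀ =>
    intro u E hA ht h
    have e' : q = p := ht.resolve_left id
    subst e'
    have h' : rE q E (D.toDT sp u.B u.A t₁) + rE q E (D.toDT sp u.B u.A t₀) ≠ 0 := by
      rw [← rE_add (r := D.rho q)]; exact h
    refine Or.inr ⟨rfl, ?_⟩
    by_cases h1 : rE q E (D.toDT sp u.B u.A t₁) = 0
    · rw [h1, zero_add] at h'
      exact Or.inr (ih₀ ⟨q + 1, u.c, u.A, u.B⟩ E hA.2.2 (op_child hA.2.2.self hp rfl) h')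
    · exact Or.inl (ih₁ ⟨q + 1, u.c, u.A, u.B⟩ E hA.2.1 (op_child hA.2.1.self hp rfl) h1)

/-- **(R) the rest of depth `E` has weight at most `1`** -/
theorem rE_one (hG : PG P W) {p : ℕ} (hp : p.Prime) : ∀ (τ : IT) (u : NS) (E : ℕ),
    All (NodeOk P W) u τ → (isL τ ∨ tp τ = p) → rE p E (D.toDT sp u.B u.A τ) ≤ 1 := by
  intro τ
  induction τ with
  | leaf S =>
    intro u E _ _
    rw [rE_leaf ((WalkIT579.toDT_leaf D sp u.B u.A (.leaf S)).2 trivial) E]
    norm_num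
  | br q Sp t₁ t₀ ih₁ ih₀ =>
    intro u E hA ht
    have e' : q = p := ht.resolve_left id
    subst e'
    show rE q E (DT.br q (1 / (q : ℝ)) (D.rho q) (D.toDT sp u.B (u.A * q) t₁)
      (D.toDT sp (u.B * q) u.A t₀) _ _ _) ≤ 1
    rcases E with _ | E
    · rw [rE_br0]; norm_num
    · rw [rE_br]
      have c1 := cl_dt (D := D) (sp := sp) (b := u.B) (pr := u.A * q)
        (tp_closed (p := q) hA.2.1.self le_rfl)
      have c0 := cl_dt (D := D) (sp := sp) (b := u.B * q) (pr := u.A)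
        (tp_closed (p := q) hA.2.2.self le_rfl)
      rcases E with _ | E
      · have h1 := rE_zero_lo c1
        have h0 := rE_zero_lo c0
        have hq : (1 : ℝ) ≤ q := by exact_mod_cast hp.one_lt.le
        have w0 : 0 ≤ 1 / (q : ℝ) := by positivity
        have w1 : 1 / (q : ℝ) ≤ 1 := by rw [div_le_one (by linarith)]; exact hq
        nlinarith
      · rw [rE_lo c1, rE_lo c0]
        norm_num
  | add q t₁ t₀ ih₁ ih₀ =>
    intro u E hA ht
    have e' : q = p := ht.resolve_left id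
    subst e'
    have hok : NodeOk P W u (.add q t₁ t₀) := hA.1
    obtain ⟨-, -, hp0, -, hBk, ⟨j, t', hj, htj, h1, h0, hs⟩, -, -, -, -⟩ := hok
    have c0 := c_pos hA.1
    have l0 := hG.lo0 q hp hp0
    have o1 := op_child (p := q) hA.2.1.self hp rfl
    have o0 := op_child (p := q) hA.2.2.self hp rfl
    have i1 := ih₁ ⟨q + 1, u.c, u.A, u.B⟩ E hA.2.1 o1
    have i0 := ih₀ ⟨q + 1, u.c, u.A, u.B⟩ E hA.2.2 o0
    show rE q E (DT.add q (D.rho q) (D.toDT sp u.B u.A t₁) (D.toDT sp u.B u.A t₀)) ≤ 1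
    rw [rE_add]
    by_cases n1 : rE q E (D.toDT sp u.B u.A t₁) = 0
    · rw [n1, zero_add]; exact i0
    by_cases n0 : rE q E (D.toDT sp u.B u.A t₀) = 0
    · rw [n0, add_zero]; exact i1
    exfalso
    have s1 := rE_St (D := D) (sp := sp) hp t₁ ⟨q + 1, u.c, u.A, u.B⟩ E hA.2.1 o1 n1
    have s0 := rE_St (D := D) (sp := sp) hp t₀ ⟨q + 1, u.c, u.A, u.B⟩ E hA.2.2 o0 n0
    obtain ⟨x, hx, hxe⟩ := ne_of_ws (by linarith) (massI hG hp t₁ ⟨q + 1, u.c, u.A, u.B⟩ E c0
      hA.2.1 (o1.resolve_left (StI_not_leaf s1)) s1)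
    obtain ⟨y, hy, hye⟩ := ne_of_ws (by linarith) (massI hG hp t₀ ⟨q + 1, u.c, u.A, u.B⟩ E c0
      hA.2.2 (o0.resolve_left (StI_not_leaf s0)) s0)
    have hxe' : ex q x = ex q u.A + E := hxe
    have hye' : ex q y = ex q u.A + E := hye
    rw [h1, mem_dv] at hx
    rw [h0, mem_nd] at hy
    have h3 := (dvd_iff hp (hBk.pos x hx.1) (hBk.dvd x hx.1)).1 hx.2
    have h4 := hy.2
    rw [dvd_iff hp (hBk.pos y hy.1) (hBk.dvd y hy.1)] at h4
    omega
  | up q Sp t ih =>
    intro u E hA ht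
    have e' : q = p := ht.resolve_left id
    subst e'
    show rE q E (DT.up q (sp q) (D.toDT sp u.B u.A t)) ≤ 1
    rw [rE_up]
    have hc := cl_dt (D := D) (sp := sp) (b := u.B) (pr := u.A)
      (tp_closed (p := q) hA.2.self le_rfl)
    rcases E with _ | E
    · exact rE_zero_lo hc
    · rw [rE_lo hc]; norm_num
  | pl q t ih =>
    intro u E hA ht
    have e' : q = p := ht.resolve_left id
    subst e'
    show rE q E (DT.br q 0 (D.rho q) (D.toDT sp u.B (u.A * q) t) _ _ _ _) ≤ 1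
    rcases E with _ | E
    · rw [rE_br0]; norm_num
    · rw [rE_br, sub_zero, one_mul, zero_mul, add_zero]
      exact ih ⟨q + 1, u.c, u.A * q, u.B⟩ E hA.2 (op_child hA.2.self hp rfl)
  | far q t₁ t₀ ih₁ ih₀ =>
    intro u E hA ht
    have e' : q = p := ht.resolve_left id
    subst e'
    have hok : NodeOk P W u (.far q t₁ t₀) := hA.1
    obtain ⟨-, -, hp0, -, -, ⟨K, hl, -, -, -⟩, hlo, -, hsm⟩ := hok
    have hl1 : isL t₁ := by rw [hl]; trivial
    show rE q E (DT.add q (D.rho q) (D.toDT sp u.B u.A t₁) (D.toDT sp u.B u.A t₀)) ≤ 1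
    rw [rE_add, rE_leaf ((WalkIT579.toDT_leaf D sp u.B u.A t₁).2 hl1), zero_add]
    exact ih₀ ⟨q + 1, u.c, u.A, u.B⟩ E hA.2.2 (op_child hA.2.2.self hp rfl)

/-! ### members of the groups -/

/-- **member**: a leaf, or a built node with columns at most `p` -/
def Mb (D : Par Λ κ) (sp : ℕ → Finset Λ) (P : Bld532.Par) (W : ℕ → ℝ) (p : ℕ) (t : DT Λ κ) : Prop :=
  t.isLeaf ∨ ∃ (v : NS) (σ : IT), t = D.toDT sp v.B v.A σ ∧ All (NodeOk P W) v σ ∧ Ha σ ∧ tp σ ≤ p

lemma Mb.node {p : ℕ} {v : NS} {σ : IT} (h : All (NodeOk P W) v σ) (hh : Ha σ) (ht : tp σ ≤ p) :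
    Mb D sp P W p (D.toDT sp v.B v.A σ) := Or.inr ⟨v, σ, rfl, h, hh, ht⟩

lemma tp_le_of {τ : IT} {p : ℕ} (h : isL τ ∨ tp τ = p) : tp τ ≤ p := by
  rcases h with h | h
  · cases τ with
    | leaf S => exact Nat.zero_le p
    | br q Sp t₁ t₀ => exact absurd h id
    | add q t₁ t₀ => exact absurd h id
    | up q Sp t => exact absurd h id
    | pl q t => exact absurd h id
    | far q t₁ t₀ => exact absurd h id
  · exact h.le

lemma tp_le_cl {u : NS} {τ : IT} {p : ℕ} (h : NodeOk P W u τ) (hn : u.n ≤ p) : tp τ ≤ p := by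
  by_cases hl : isL τ
  · exact tp_le_of (Or.inl hl)
  · exact ((top_of_nodeOk h hl).2.1.trans_le hn).le

/-- children of a node at its column `q` -/
lemma tp_le_op {u : NS} {τ : IT} {q : ℕ} (h : NodeOk P W u τ) (hp : q.Prime) (hn : u.n = q + 1) :
    tp τ ≤ q := tp_le_of (op_child h hp hn)

lemma rs_ne {p : ℕ} {t : DT Λ κ} (h : t.isLeaf ∨ t.top ≠ p) {s : DT Λ κ} (hs : s ∈ rs p t) :
    s = t := by
  rw [rs_of_ne h] at hs
  exact List.mem_singleton.1 hs

/-- resolved members -/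
theorem rs_Mb {p : ℕ} : ∀ (σ : IT) (v : NS), All (NodeOk P W) v σ → Ha σ → tp σ ≤ p →
    ∀ s ∈ rs p (D.toDT sp v.B v.A σ), Mb D sp P W p s ∧ (isB p s = true ∨ s.isLeaf ∨ s.top ≠ p) := by
  intro σ
  induction σ with
  | leaf S =>
    intro v hA hh ht s hs
    have hl : (D.toDT sp v.B v.A (.leaf S)).isLeaf := (WalkIT579.toDT_leaf D sp v.B v.A (.leaf S)).2 trivial
    rw [rs_ne (Or.inl hl) hs]
    exact ⟨Or.inl hl, Or.inr (Or.inl hl)⟩
  | br q Sp t₁ t₀ ih₁ ih₀ =>
    intro v hA hh ht s hs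
    have hs' : s = D.toDT sp v.B v.A (.br q Sp t₁ t₀) := List.mem_singleton.1 hs
    rw [hs']
    refine ⟨Mb.node hA hh ht, ?_⟩
    by_cases hq : q = p
    · left; show decide (q = p) = true; simp [hq]
    · exact Or.inr (Or.inr hq)
  | add q t₁ t₀ ih₁ ih₀ =>
    intro v hA hh ht s hs
    by_cases hq : q = p
    · subst hq
      have hp := (top_of_nodeOk hA.self id).1
      have hs' : s ∈ rs q (DT.add q (D.rho q) (D.toDT sp v.B v.A t₁) (D.toDT sp v.B v.A t₀)) := hs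
      simp only [rs, if_true] at hs'
      rcases List.mem_append.1 hs' with h | h
      · exact ih₁ ⟨q + 1, v.c, v.A, v.B⟩ hA.2.1 hh.2.1 (tp_le_op hA.2.1.self hp rfl) s h
      · exact ih₀ ⟨q + 1, v.c, v.A, v.B⟩ hA.2.2 hh.2.2 (tp_le_op hA.2.2.self hp rfl) s h
    · have hne : (D.toDT sp v.B v.A (.add q t₁ t₀)).isLeaf ∨
          (D.toDT sp v.B v.A (.add q t₁ t₀)).top ≠ p := cl_dt (Or.inr hq)
      rw [rs_ne hne hs]
      exact ⟨Mb.node hA hh ht, Or.inr hne⟩
  | up q Sp t ih =>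
    intro v hA hh ht s hs
    by_cases hq : q = p
    · subst hq
      have hs' : s ∈ rs q (DT.up q (sp q) (D.toDT sp v.B v.A t)) := hs
      simp only [rs, if_true] at hs'
      exact ih ⟨q, v.c, v.A, v.B⟩ hA.2 hh (tp_le_cl hA.2.self le_rfl) s hs'
    · have hne : (D.toDT sp v.B v.A (.up q Sp t)).isLeaf ∨
          (D.toDT sp v.B v.A (.up q Sp t)).top ≠ p := cl_dt (Or.inr hq)
      rw [rs_ne hne hs]
      exact ⟨Mb.node hA hh ht, Or.inr hne⟩
  | pl q t ih =>
    intro v hA hh ht s hs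
    have hs' : s = D.toDT sp v.B v.A (.pl q t) := List.mem_singleton.1 hs
    rw [hs']
    refine ⟨Mb.node hA hh ht, ?_⟩
    by_cases hq : q = p
    · left; show decide (q = p) = true; simp [hq]
    · exact Or.inr (Or.inr hq)
  | far q t₁ t₀ ih₁ ih₀ =>
    intro v hA hh ht s hs
    by_cases hq : q = p
    · subst hq
      have hp := (top_of_nodeOk hA.self id).1
      have hs' : s ∈ rs q (DT.add q (D.rho q) (D.toDT sp v.B v.A t₁) (D.toDT sp v.B v.A t₀)) := hs
      simp only [rs, if_true] at hs'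
      rcases List.mem_append.1 hs' with h | h
      · exact ih₁ ⟨q + 1, v.c, v.A, v.B⟩ hA.2.1 hh.1 (tp_le_op hA.2.1.self hp rfl) s h
      · exact ih₀ ⟨q + 1, v.c, v.A, v.B⟩ hA.2.2 hh.2 (tp_le_op hA.2.2.self hp rfl) s h
    · have hne : (D.toDT sp v.B v.A (.far q t₁ t₀)).isLeaf ∨
          (D.toDT sp v.B v.A (.far q t₁ t₀)).top ≠ p := cl_dt (Or.inr hq)
      rw [rs_ne hne hs]
      exact ⟨Mb.node hA hh ht, Or.inr hne⟩

lemma Mb.rs {p : ℕ} {t : DT Λ κ} (h : Mb D sp P W p t) {s : DT Λ κ} (hs : s ∈ rs p t) :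
    Mb D sp P W p s ∧ (isB p s = true ∨ s.isLeaf ∨ s.top ≠ p) := by
  rcases h with h | ⟨v, σ, rfl, hA, hh, ht⟩
  · rw [rs_ne (Or.inl h) hs]
    exact ⟨Or.inl h, Or.inr (Or.inl h)⟩
  · exact rs_Mb σ v hA hh ht s hs

lemma Mb.pred {p : ℕ} {t : DT Λ κ} (h : Mb D sp P W p t) (ht : t.isLeaf ∨ t.top ≠ p) :
    Mb D sp P W (p - 1) t := by
  rcases h with h | ⟨v, σ, rfl, hA, hh, hσ⟩
  · exact Or.inl h
  · by_cases hl : (D.toDT sp v.B v.A σ).isLeaf
    · exact Or.inl hl
    · have h2 := ht.resolve_left hl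
      rw [WalkIT579.toDT_top] at h2
      exact Mb.node hA hh (by omega)

lemma Mb.chd {p : ℕ} {t : DT Λ κ} (h : Mb D sp P W p t) (hB : isB p t = true) :
    ∀ q ∈ chd t, 0 ≤ q.1 ∧ Mb D sp P W p q.2 := by
  intro m hm
  rcases h with h | ⟨v, σ, rfl, hA, hh, ht⟩
  · cases t with
    | leaf r f => exact absurd hB (by simp [isB])
    | br q w r t₁ t₀ v B G => exact absurd h id
    | add q r t₁ t₀ => exact absurd hB (by simp [isB])
    | up q Sp t => exact absurd hB (by simp [isB])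
  · cases σ with
    | leaf S => exact absurd hB (by simp [Par.toDT, isB])
    | br q Sp t₁ t₀ =>
      have hq : q = p := by simpa [Par.toDT, isB] using hB
      subst hq
      have hp := (top_of_nodeOk hA.self id).1
      have hp' : q.Prime := hp
      have hm' : m = (1 - 1 / (q : ℝ), D.toDT sp v.B (v.A * q) t₁) ∨
          m = (1 / (q : ℝ), D.toDT sp (v.B * q) v.A t₀) := by
        simpa [Par.toDT, Grp36.chd] using hm
      have hq1 : (1 : ℝ) ≤ q := by exact_mod_cast hp'.one_lt.le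
      have w1 : 1 / (q : ℝ) ≤ 1 := by rw [div_le_one (by linarith)]; exact hq1
      rcases hm' with rfl | rfl
      · refine ⟨by linarith, ?_⟩
        exact Mb.node (v := ⟨q, v.c / (1 - 1 / (q : ℝ)), v.A * q, v.B⟩) hA.2.1 hh.1
          (tp_le_cl hA.2.1.self le_rfl)
      · refine ⟨by positivity, ?_⟩
        exact Mb.node (v := ⟨q, v.c * q, v.A, v.B * q⟩) hA.2.2 hh.2
          (tp_le_cl hA.2.2.self le_rfl)
    | add q t₁ t₀ => exact absurd hB (by simp [Par.toDT, isB])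
    | up q Sp t => exact absurd hB (by simp [Par.toDT, isB])
    | pl q t =>
      have hq : q = p := by simpa [Par.toDT, isB] using hB
      subst hq
      have hp : q.Prime := (top_of_nodeOk hA.self id).1
      have hm' : m = ((1 : ℝ), D.toDT sp v.B (v.A * q) t) ∨
          m = ((0 : ℝ), DT.leaf (D.rho q) fun _ _ => 0) := by
        simpa [Par.toDT, Grp36.chd] using hm
      rcases hm' with rfl | rfl
      · exact ⟨zero_le_one, Mb.node (v := ⟨q + 1, v.c, v.A * q, v.B⟩) hA.2 hh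
          (tp_le_op hA.2.self hp rfl)⟩
      · exact ⟨le_rfl, Or.inl trivial⟩
    | far q t₁ t₀ => exact absurd hB (by simp [Par.toDT, isB])

lemma Mb.nE_le (hS : PS P W) {p : ℕ} {t : DT Λ κ} (h : Mb D sp P W p t) (E : ℕ) : nE p E t ≤ 2 := by
  have triv : t.isLeaf ∨ t.top ≠ p → nE p E t ≤ 2 := by
    intro hc
    cases E with
    | zero => simp
    | succ E => rw [nE_lo hc]; norm_num
  rcases h with h | ⟨v, σ, rfl, hA, hh, ht⟩
  · exact triv (Or.inl h)
  · by_cases hl : isL σ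
    · exact triv (Or.inl ((WalkIT579.toDT_leaf D sp _ _ _).2 hl))
    · by_cases hq : tp σ = p
      · exact nE_two hS (hq ▸ (top_of_nodeOk hA.self hl).1) σ v E hA hh (Or.inr hq)
      · exact triv (cl_dt (Or.inr hq))

lemma Mb.rE_le (hG : PG P W) {p : ℕ} {t : DT Λ κ} (h : Mb D sp P W p t) (E : ℕ) : rE p E t ≤ 1 := by
  have triv : t.isLeaf ∨ t.top ≠ p → rE p E t ≤ 1 := by
    intro hc
    cases E with
    | zero => exact rE_zero_lo hc
    | succ E => rw [rE_lo hc]; norm_num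
  rcases h with h | ⟨v, σ, rfl, hA, hh, ht⟩
  · exact triv (Or.inl h)
  · by_cases hl : isL σ
    · exact triv (Or.inl ((WalkIT579.toDT_leaf D sp _ _ _).2 hl))
    · by_cases hq : tp σ = p
      · exact rE_one hG (hq ▸ (top_of_nodeOk hA.self hl).1) σ v E hA (Or.inr hq)
      · exact triv (cl_dt (Or.inr hq))

/-- groups of members with nonnegative weights -/
def GM (D : Par Λ κ) (sp : ℕ → Finset Λ) (P : Bld532.Par) (W : ℕ → ℝ) (p : ℕ) (g : Gp Λ κ) : Prop :=
  ∀ m ∈ g, 0 ≤ m.1 ∧ Mb D sp P W p m.2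

lemma GM.gC {p : ℕ} {g : Gp Λ κ} (h : GM D sp P W p g) : GM D sp P W p (gC p g) := by
  intro m hm
  obtain ⟨m', h1, q, h2, rfl⟩ := mem_gC hm
  obtain ⟨h3, h4⟩ := mem_gB h1
  obtain ⟨m'', h5, h6, h7⟩ := mem_rsG h3
  obtain ⟨h8, -⟩ := (h m'' h5).2.rs h7
  obtain ⟨h9, h10⟩ := h8.chd h4 q h2
  exact ⟨mul_nonneg (by rw [h6]; exact (h m'' h5).1) h9, h10⟩

lemma GM.it {p : ℕ} {g : Gp Λ κ} (h : GM D sp P W p g) (E : ℕ) :
    GM D sp P W p ((Grp36.gC p)^[E] g) := by
  induction E generalizing g with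
  | zero => exact h
  | succ E ih => exact ih h.gC

lemma GM.nxtN {p : ℕ} {g : Gp Λ κ} (h : GM D sp P W p g) : GM D sp P W (p - 1) (gN p g) := by
  intro m hm
  obtain ⟨h1, h2⟩ := mem_gN hm
  obtain ⟨h3, h4⟩ := List.mem_filter.1 h1
  obtain ⟨m'', h5, h6, h7⟩ := mem_rsG h3
  obtain ⟨h8, h9⟩ := (h m'' h5).2.rs h7
  refine ⟨by rw [h6]; exact (h m'' h5).1, h8.pred ?_⟩
  rcases h9 with h9 | h9
  · simp [h9] at h4
  · exact h9

/-- **the groups of the walk have weight at most `2`** -/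
theorem GM.wok (hS : PS P W) : ∀ (n p : ℕ) (g : Gp Λ κ), GM D sp P W p g → wt g ≤ 1 →
    ∀ E, WOk 2 n p ((Grp36.gC p)^[E] g) := by
  intro n
  induction n with
  | zero => intro p g _ _ E; trivial
  | succ n ih =>
    intro p g hg hw E
    refine ⟨?_, fun hp => ⟨?_, ?_⟩⟩
    · rw [wt_it]
      have h1 : (g.map fun m => m.1 * nE p E m.2).sum ≤ (g.map fun m => m.1 * 2).sum :=
        List.sum_le_sum fun m hm => mul_le_mul_of_nonneg_left ((hg m hm).2.nE_le hS E) (hg m hm).1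
      have h2 : (g.map fun m => m.1 * 2).sum = 2 * wt g := by
        rw [List.sum_map_mul_right, mul_comm]; rfl
      rw [h2] at h1
      linarith
    · have := ih p g hg hw (E + 1)
      rw [Function.iterate_succ_apply'] at this
      exact this
    · have h3 : wt (gN p ((Grp36.gC p)^[E] g)) ≤ 1 := by
        rw [wt_gN_it]
        have h1 : (g.map fun m => m.1 * rE p E m.2).sum ≤ (g.map fun m => m.1 * 1).sum :=
          List.sum_le_sum fun m hm => mul_le_mul_of_nonneg_left ((hg m hm).2.rE_le hS.pg E) (hg m hm).1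
        have h2 : (g.map fun m => m.1 * 1).sum = wt g := by
          simp [wt]
        rw [h2] at h1
        exact h1.trans hw
      exact ih (p - 1) _ (hg.it E).nxtN h3 0

/-- **one node**: all the groups of its walk have weight at most `2` -/
theorem wok_node (hS : PS P W) {u : NS} {τ : IT} (hA : All (NodeOk P W) u τ) (hh : Ha τ) (n p : ℕ)
    (hp : tp τ ≤ p) : WOk 2 n p [((1 : ℝ), D.toDT sp u.B u.A τ)] := by
  refine GM.wok (D := D) (sp := sp) hS n p _ (fun m hm => ?_) (by simp [wt]) 0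
  rw [List.mem_singleton.1 hm]
  exact ⟨zero_le_one, Mb.node hA hh hp⟩

end main

section ctx
variable {N : Skel189.Num} {γ : ℝ} {p0 P₀ : ℕ} (X : Ctx N γ p0 P₀)

/-- the lower parts of the cuts of a context are fresh -/
theorem ctx_Ha : All (fun _ τ => Ha τ) ⟨Skel189.top X.S, 1, 1, 1⟩ X.c.t := by
  refine Ha_All _ _ ?_
  rw [X.ht']
  exact bld_Ha (w X.ψ) _ _ _ _

/-- **the groups of the walks of all the nodes of a context have weight at most `2`** -/
theorem wok_self (hS : PS X.par (w X.ψ)) : All (fun u τ => ∀ (A : Finset X.c.Lam) (n : ℕ),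
    WOk 2 n (X.self u τ A).p [((1 : ℝ), (X.self u τ A).t)]) ⟨Skel189.top X.S, 1, 1, 1⟩ X.c.t := by
  refine All.mono (fun u τ h A n => ?_) ((All_All _ _ X.nodes).and (ctx_Ha X))
  have e : (X.self u τ A).p = tp τ := by
    show max ((X.c.D.par X.Y).toDT X.c.sp u.B u.A τ).top
      ((X.c.D.par X.Y).toDT X.c.sp u.B u.A τ).top = tp τ
    rw [max_self]
    exact WalkIT579.toDT_top _ _ _ _ τ
  rw [e]
  exact wok_node (D := X.c.D.par X.Y) (sp := X.c.sp) hS h.1 h.2 n _ le_rfl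

end ctx

end Crest.Agent.R4P.WOk244
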