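import Crest.Agent.R4P.TWcert_17

/-!
R4 (S0004), powers, helper26, [M8]: **the flagged walk with TERMINAL exits**.

The flagged walk (`TW17.nxF`, `TW17.WF`) is not changed; the certificate stops at the exits
(`PWRz.stop`), the states after the exit (`old`) cost nothing.

* `xL` : cost of a terminal exit `max 0 (Qs {z with R := univ} - B Lh)`;
* `eT` : local error of the certificate: self `eAll`, top as `eF` with `xL` instead of `ex`, old `0`;
* `xT` : the exit part, `eT_le : eT (f, s) ≤ eOld s + xS (f, s) + xC (f, s) + xX (f, s) + xT (f, s)`,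
  `WF_eT_le` : the walk sums;
* `walk_certE`, `selfZ_walkE` : the certificate;
* `xL_le` : `xL ≤ Xs {z with R := Ro (wr b)} + max 0 (Qs {z with R := univ \ Ro (wr b)} - B₂ Lh)`.
-/

set_option autoImplicit false
set_option linter.unusedSectionVars false
set_option linter.unusedVariables false
set_option linter.unusedSimpArgs false
open MeasureTheory Filter Set

namespace Crest.Agent.R4P.TE26

open Crest.Agent.R4.Tour104 Crest.Agent.R4.Tour758 Crest.Agent.R4.Avg758 Crest.Agent.R4.Clos758
open Crest.Agent.R4.ClosL758 Crest.Agent.R4.ClosG758 Crest.Agent.R4.ClosR758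
open Crest.Agent.R4P.ClosR442 Crest.Agent.R4P.ClosP542 Crest.Agent.R4P.Walk560
open Crest.Agent.R4P.TWc17
open Crest.Agent.R4P.VWalk36 (crs eX_eq)
open Crest.Agent.R4P.ExcSplit32 (Qs_nonneg)
open Crest.Agent.R4P.Mrg35 Crest.Agent.R4P.TW17

variable {Λ κ : Type*} [Fintype Λ] [DecidableEq Λ] [DecidableEq κ] [WRel κ] [Fintype κ]

/-! ### the local errors -/

/-- cost of a terminal exit -/
noncomputable def xL (μ : TrG Λ κ → Finset Λ → ℝ) (ν : TrG Λ κ → ℝ) (B : ℝ) (s : St Λ κ) : ℝ :=
  max 0 (Qs { s with R := Finset.univ } -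
    B * Lh (μ s.t.g s.A) (ν s.t.g) (μ s.t'.g s.A') (ν s.t'.g))

open Classical in
/-- cost of the exit of a child of a top state -/
noncomputable def xLS (μ : TrG Λ κ → Finset Λ → ℝ) (ν : TrG Λ κ → ℝ) (B : ℝ) (q : St Λ κ) : ℝ :=
  if stay q then 0 else xL μ ν B q

open Classical in
/-- **local error of the certificate with terminal exits** -/
noncomputable def eT (stp : Stp Λ κ) (μ : TrG Λ κ → Finset Λ → ℝ) (ν : TrG Λ κ → ℝ)
    (B : ℝ) : Fl × St Λ κ → ℝ
  | (.self, s) => eAll stp μ ν B s
  | (.old, _) => 0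
  | (.top, s) =>
      if s.t.isLeaf ∨ s.t'.isLeaf then 0
      else if exH stp s then xL μ ν B s
      else if two s then eG s
      else ((crs stp s).map fun z => Xs μ B { z with R := Finset.univ }).sum +
        ((nxt0 stp s).map fun q => q.1 * xLS μ ν B q.2).sum

open Classical in
/-- extra error at the terminal exits -/
noncomputable def xT (stp : Stp Λ κ) (μ : TrG Λ κ → Finset Λ → ℝ) (ν : TrG Λ κ → ℝ)
    (B : ℝ) : Fl × St Λ κ → ℝ
  | (.top, s) =>
      if s.t.isLeaf ∨ s.t'.isLeaf then 0 else if exH stp s then xL μ ν B s else if two s then 0 else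
        ((nxt0 stp s).map fun q => q.1 * xLS μ ν B q.2).sum
  | _ => 0

/-- all extra errors -/
noncomputable def xFE (wr : ℕ → Λ → κ) (stp : Stp Λ κ) (μ : TrG Λ κ → Finset Λ → ℝ)
    (ν : TrG Λ κ → ℝ) (B : ℝ) (z : Fl × St Λ κ) : ℝ :=
  xS wr stp z + xC stp z + xX wr stp z + xT stp μ ν B z

/-! ### the decomposition -/

section dec
variable {wr : ℕ → Λ → κ} {Ad : TrG Λ κ → Finset Λ → Prop}
  {μ : TrG Λ κ → Finset Λ → ℝ} {ν : TrG Λ κ → ℝ} {n : ℕ} {stp : Stp Λ κ} {B : ℝ} {s : St Λ κ}

lemma xL_nn (s : St Λ κ) : 0 ≤ xL μ ν B s := le_max_left _ _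

lemma xLS_nn (s : St Λ κ) : 0 ≤ xLS μ ν B s := by
  unfold xLS
  split_ifs
  · exact le_rfl
  · exact xL_nn s

lemma xLsum_nn (h : Inv wr Ad μ ν n s) :
    0 ≤ ((nxt0 stp s).map fun q => q.1 * xLS μ ν B q.2).sum :=
  sum_map_nonneg (fun q hq => (h.next0 q hq).2) fun q hq => xLS_nn _

lemma eXR_nn (h : Inv wr Ad μ ν n s) : 0 ≤ eXR wr stp μ B s :=
  List.sum_nonneg fun x hx => by
    obtain ⟨z, hz, rfl⟩ := List.mem_map.1 hx
    exact le_max_left _ _

lemma eNM_nn (h : Inv wr Ad μ ν n s) : 0 ≤ eNM stp s := by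
  by_cases h2 : two s
  · obtain ⟨hPL, hPR, w, r, t₁, t₀, v, B₁, G, w', r', t₁', t₀', v', B₁', G', hv, hv'⟩ :=
      two_cases h2
    have err : r = r' := by
      have hL := h.L
      have hR := h.R
      rw [vw_br hv] at hL
      rw [vw_br hv'] at hR
      rw [hL.br.2.2.2.1, hR.br.2.2.2.1]
    have p1 := PBG h.aL.M0 h.L hv
    have p2 : ∀ c, PB (avg s.M' (rk s.A' r G') c) := by
      have := PBG h.aR.M0 h.R hv'
      rw [← err] at this
      exact this
    unfold eNM
    simp only [hv, hv']
    split_ifs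
    · exact le_rfl
    · exact le_rfl
    · exact le_rfl
    · exact Q_nonneg p1 p2
  · rw [eNM_not_two h2]

lemma eSTOP_nn (s : St Λ κ) : 0 ≤ eSTOP stp μ ν B s := by
  unfold eSTOP
  split_ifs
  · exact le_rfl
  · exact le_max_left _ _
  · exact le_rfl

/-- one-sided columns of the self states (they do not exist) -/
noncomputable def xO1 (stp : Stp Λ κ) : Fl × St Λ κ → ℝ
  | (.self, s) => eOS stp s
  | _ => 0

/-- the errors of the old walk which are paid -/
noncomputable def eOld1 (wr : ℕ → Λ → κ) (stp : Stp Λ κ) (μ : TrG Λ κ → Finset Λ → ℝ)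
    (ν : TrG Λ κ → ℝ) (B : ℝ) (s : St Λ κ) : ℝ :=
  eNM stp s + eXR wr stp μ B s + eSTOP stp μ ν B s

lemma eOld1_nn (h : Inv wr Ad μ ν n s) : 0 ≤ eOld1 wr stp μ ν B s :=
  add_nonneg (add_nonneg (eNM_nn h) (eXR_nn h)) (eSTOP_nn s)

lemma xT_nn (h : Inv wr Ad μ ν n s) (f : Fl) : 0 ≤ xT stp μ ν B (f, s) := by
  cases f with
  | self => exact le_rfl
  | top =>
    simp only [xT]
    split_ifs
    · exact le_rfl
    · exact xL_nn s
    · exact le_rfl
    · exact xLsum_nn h
  | old => exact le_rfl

lemma xFE_nn (h : Inv wr Ad μ ν n s) (f : Fl) : 0 ≤ xFE wr stp μ ν B (f, s) :=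
  add_nonneg (add_nonneg (add_nonneg (xS_nn h f) (xC_nn h f)) (xX_nn h f)) (xT_nn h f)

/-- **the decomposition of the local error** -/
theorem eT_le (h : Inv wr Ad μ ν n s) (f : Fl) :
    eT stp μ ν B (f, s) ≤ eOld1 wr stp μ ν B s + xFE wr stp μ ν B (f, s) + xO1 stp (f, s) := by
  cases f with
  | self =>
    have hc := eX_cut (stp := stp) (B := B) h
    simp only [eT, eOld1, xFE, xO1, xS, xC, xX, xT, eAll]
    linarith
  | old =>
    have := eOld1_nn (stp := stp) (B := B) h
    simp only [eT, xFE, xO1, xS, xC, xX, xT]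
    linarith
  | top =>
    by_cases hl : s.t.isLeaf ∨ s.t'.isLeaf
    · have := eOld1_nn (stp := stp) (B := B) h
      simp only [eT, xFE, xO1, xS, xC, xX, xT, if_pos hl]
      linarith
    by_cases hx : exH stp s
    · have := eOld1_nn (stp := stp) (B := B) h
      simp only [eT, xFE, xO1, xS, xC, xX, xT, if_neg hl, if_pos hx]
      linarith
    have hs : ¬ stp s := fun hs => hx (Or.inl hs)
    have ho : ¬ one s := fun ho => hx (Or.inr ho)
    by_cases h2 : two s
    · have e1 := crs_two (stp := stp) h2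
      have e2 := eOS_not_one (stp := stp) ho
      have e3 : eSTOP stp μ ν B s = 0 := eSTOP_not hs
      have key := eG_le h hl hs h2
      simp only [eT, eOld1, xFE, xO1, xS, xC, xX, xT, if_neg hl, if_neg hx, if_pos h2, e1, e2, e3, eXR,
        List.map_nil, List.sum_nil]
      linarith
    · have e1 := eNM_not_two (stp := stp) h2
      have e2 := eOS_not_one (stp := stp) ho
      have e3 : eSTOP stp μ ν B s = 0 := eSTOP_not hs
      have key : ((crs stp s).map fun z => Xs μ B { z with R := Finset.univ }).sum ≤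
          ((crs stp s).map fun z => Xs μ B { z with R := Ro (wr s.p) }).sum +
          ((crs stp s).map fun z => Qs { z with R := Finset.univ \ Ro (wr s.p) }).sum := by
        refine sum_map_le_add _ _ _ _ fun z hz => ?_
        have hz' := (crs_inv h z hz).1
        exact Xs_cutR (z := { z with R := Finset.univ }) hz'.L.ok hz'.R.ok hz'.aL.M0 hz'.aR.M0 _
      simp only [eT, eOld1, xFE, xO1, xS, xC, xX, xT, if_neg hl, if_neg hx, if_neg h2, e1, e2, e3, eXR]
      linarith

/-! ### the diagonal states -/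

/-- both sides are the same tree, no averages -/
structure Diag (s : St Λ κ) : Prop where
  M : s.M = 1
  M' : s.M' = 1
  t : s.t' = s.t
  A : s.A' = s.A

lemma Diag.self (d : DT Λ κ) (A : Finset Λ) : Diag (selfSt d A) := ⟨rfl, rfl, rfl, rfl⟩

lemma Diag.not_one (h : Diag s) : ¬ one s := by
  rintro ⟨h1, h2, h3⟩
  rw [h.t] at h3
  rcases hv : vw s.p s.t with ⟨w, r, t₁, t₀, v, B₁, G⟩ | ⟨r, t₁, t₀⟩ | ⟨Sp, u⟩ <;>
    simp only [hv] at h3

lemma Diag.next (hd : Diag s) (hj : stp.jt s) (h : Inv wr Ad μ ν n s) :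
    ∀ q ∈ nxF0 stp (Fl.self, s), q.2.1 = Fl.self → Diag q.2.2 := by
  intro q hq hf
  by_cases hl : s.t.isLeaf ∨ s.t'.isLeaf
  · have e : nxt0 stp s = [] := by simp [nxt0, hl]
    simp only [nxF0, e, List.map_nil, List.not_mem_nil] at hq
  by_cases hs : stp s
  · have e : nxt0 stp s = [] := by simp [nxt0, hl, hs]
    simp only [nxF0, e, List.map_nil, List.not_mem_nil] at hq
  have hl' := hl
  rw [not_or] at hl'
  have hp := (p_prime h hl'.1 hl'.2).1
  have hd1 : ¬ s.p ∣ 1 := fun hh => hp.one_lt.ne' (Nat.dvd_one.1 hh)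
  have e' : vw s.p s.t' = vw s.p s.t := by rw [hd.t]
  rcases hv : vw s.p s.t with ⟨w, r, t₁, t₀, v, B₁, G⟩ | ⟨r, t₁, t₀⟩ | ⟨Sp, u⟩
  · rw [hv] at e'
    have hPL : ¬ s.isPL := by
      unfold St.isPL
      simp only [hv, e', hd.M]
      exact hd1
    have hPR : ¬ s.isPR := by
      unfold St.isPR
      simp only [hv, e', hd.M']
      exact hd1
    have e : nxt0 stp s = [((1 - w) * (1 - w), { s with R := Ro r, t := t₁, t' := t₁ }),
        ((1 - w) * w, { s with R := Ro r, t := t₁, t' := t₀ }),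
        (w * (1 - w), { s with R := Ro r, t := t₀, t' := t₁ }),
        (w * w, { s with R := Ro r, t := t₀, t' := t₀ })] := by
      simp [nxt0, hl, hs, hPL, hPR, hv, e', hj]
    simp only [nxF0, e, List.mem_cons, List.not_mem_nil, or_false] at hq
    rcases hq with rfl | rfl | rfl | rfl
    · exact ⟨hd.M, hd.M', rfl, hd.A⟩
    · cases hf
    · cases hf
    · exact ⟨hd.M, hd.M', rfl, hd.A⟩
  · rw [hv] at e'
    have hPL : ¬ s.isPL := by unfold St.isPL; simp only [hv, e']; exact fun h => h
    have hPR : ¬ s.isPR := by unfold St.isPR; simp only [hv, e']; exact fun h => h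
    have e : nxt0 stp s =
        [(1, { s with t := t₁, t' := t₁ }), (1, { s with t := t₀, t' := t₀ })] := by
      simp [nxt0, hl, hs, hPL, hPR, hv, e', hj]
    simp only [nxF0, e, List.map_cons, List.map_nil, List.mem_cons, List.not_mem_nil,
      or_false] at hq
    rcases hq with rfl | rfl
    · exact ⟨hd.M, hd.M', rfl, hd.A⟩
    · exact ⟨hd.M, hd.M', rfl, hd.A⟩
  · rw [hv] at e'
    have hPL : ¬ s.isPL := by unfold St.isPL; simp only [hv, e']; exact fun h => h
    have hPR : ¬ s.isPR := by unfold St.isPR; simp only [hv, e']; exact fun h => h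
    have e : nxt0 stp s = [(1, { s with t := u, t' := u })] := by
      simp [nxt0, hl, hs, hPL, hPR, hv, e', hj]
    simp only [nxF0, e, List.map_cons, List.map_nil, List.mem_cons, List.not_mem_nil,
      or_false] at hq
    subst hq
    exact ⟨hd.M, hd.M', rfl, hd.A⟩

/-- **an error which vanishes at the diagonal self states and at the other flags** -/
theorem WF_diag (hjt : ∀ s : St Λ κ, Diag s → stp.jt s) {loc : Fl × St Λ κ → ℝ}
    (h0 : ∀ f s, f ≠ Fl.self → loc (f, s) = 0) (h1 : ∀ s, Diag s → loc (Fl.self, s) = 0) :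
    ∀ (k : ℕ) (z : Fl × St Λ κ), rkF z < k → InvE wr Ad μ ν z.2 → (z.1 = Fl.self → Diag z.2) →
      WF stp loc z = 0 := by
  intro k
  induction k with
  | zero => intro z hz; omega
  | succ k ih =>
    rintro ⟨f, s⟩ hz hI hd
    have hsum : ((nxF stp (f, s)).map fun q => q.1 * WF stp loc q.2).sum = 0 := by
      refine List.sum_eq_zero fun x hx => ?_
      obtain ⟨q, hq, rfl⟩ := List.mem_map.1 hx
      have hr := nxF_rank stp (f, s) q hq
      have hI' := (InvE.nextF (z := (f, s)) hI q hq).1
      rw [ih q.2 (by omega) hI' ?_, mul_zero]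
      intro hq1
      cases f with
      | self =>
        obtain ⟨n, hn⟩ := hI
        exact Diag.next (hd rfl) (hjt _ (hd rfl)) hn q (mem_nxF.1 hq).1 hq1
      | top =>
        have hm := (mem_nxF.1 hq).1
        have key : ∀ (g : St Λ κ → Fl), (∀ s, g s ≠ Fl.self) →
            q ∉ (nxt0 stp s).map fun q => (q.1, (g q.2, q.2)) := by
          intro g hg hm'
          obtain ⟨q', -, rfl⟩ := List.mem_map.1 hm'
          exact hg _ hq1
        simp only [nxF0] at hm
        split_ifs at hm
        · exact absurd hm (key (fun _ => Fl.old) fun s hh => by cases hh)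
        · exact absurd hm (key (fun _ => Fl.top) fun s hh => by cases hh)
        · exact absurd hm (key flS fun s hh => by
            unfold flS at hh
            split_ifs at hh)
      | old =>
        have hm := (mem_nxF.1 hq).1
        obtain ⟨q', -, rfl⟩ := List.mem_map.1 hm
        cases hq1
    rw [WF_eq, hsum, add_zero]
    cases f with
    | self => exact h1 s (hd rfl)
    | top => exact h0 _ _ (by intro hh; cases hh)
    | old => exact h0 _ _ (by intro hh; cases hh)

/-- **the walk sum of the certificate** -/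
theorem WF_eT_le (hjt : ∀ s : St Λ κ, Diag s → stp.jt s) {z : Fl × St Λ κ}
    (hz : InvE wr Ad μ ν z.2) (hd : z.1 = Fl.self → Diag z.2) :
    WF stp (eT stp μ ν B) z ≤ WS stp (eNM stp) z.2 +
      WS stp (eXR wr stp μ B) z.2 + WS stp (eSTOP stp μ ν B) z.2 +
      WF stp (xFE wr stp μ ν B) z := by
  have h1 : WF stp (eT stp μ ν B) z ≤
      WF stp (fun z => (eOld1 wr stp μ ν B z.2 + xFE wr stp μ ν B z) + xO1 stp z) z :=
    WF_mono (fun z hz => by
      obtain ⟨n, h⟩ := hz
      exact eT_le h z.1) hz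
  have h2 : WF stp (xO1 stp) z = 0 := by
    refine WF_diag hjt (fun f s hf => ?_) (fun s hs => ?_) (rkF z + 1) z (Nat.lt_succ_self _) hz hd
    · cases f with
      | self => exact absurd rfl hf
      | top => rfl
      | old => rfl
    · exact eOS_not_one hs.not_one
  have e : WS stp (eOld1 wr stp μ ν B) z.2 = WS stp (eNM stp) z.2 +
      WS stp (eXR wr stp μ B) z.2 + WS stp (eSTOP stp μ ν B) z.2 := by
    show WS stp (fun s => (eNM stp s + eXR wr stp μ B s) + eSTOP stp μ ν B s) z.2 = _
    rw [WS_add, WS_add]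
  rw [WF_add, WF_add, WF_snd, e, h2, add_zero] at h1
  exact h1

/-- the four parts of the extra errors -/
theorem WF_xFE (z : Fl × St Λ κ) : WF stp (xFE wr stp μ ν B) z =
    WF stp (xS wr stp) z + WF stp (xC stp) z + WF stp (xX wr stp) z + WF stp (xT stp μ ν B) z := by
  show WF stp (fun z => ((xS wr stp z + xC stp z) + xX wr stp z) + xT stp μ ν B z) z = _
  rw [WF_add, WF_add, WF_add]

/-- **the cost of an exit**: pairs of the relation `R`, the rest is absorbed by `B₂ Lh` -/
theorem xL_le {z : St Λ κ} (h : Inv wr Ad μ ν n z) (R : Finset (Λ × Λ)) {B₁ B₂ : ℝ}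
    (hB₁ : 0 ≤ B₁) (hB : B₁ + B₂ ≤ B) :
    xL μ ν B z ≤ Xs μ B₁ { z with R := R } +
      max 0 (Qs { z with R := Finset.univ \ R } -
        B₂ * Lh (μ z.t.g z.A) (ν z.t.g) (μ z.t'.g z.A') (ν z.t'.g)) := by
  have bL := h.L.wf.self.mass.base
  have bR := h.R.wf.self.mass.base
  have h1 := bL.nn _ h.L.ad
  have h2 := bR.nn _ h.R.ad
  have h3 := bL.nu
  have h4 := bR.nu
  set L := Lh (μ z.t.g z.A) (ν z.t.g) (μ z.t'.g z.A') (ν z.t'.g) with hLd
  have hL : 0 ≤ L := Lh_nonneg h1 h3 h2 h4
  have hP : μ z.t.g z.A * μ z.t'.g z.A' ≤ L := by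
    rw [hLd]
    unfold Lh
    have := mul_nonneg h1 h4
    have := mul_nonneg h3 h2
    linarith
  have hQ : Qs { z with R := Finset.univ } ≤ Qs { z with R := R } +
      Qs { z with R := Finset.univ \ R } :=
    Q_le_sdiff _ _ (PB_avg h.aL.M0 (PB_rv (fun j => h.L.ok.pb j) z.A))
      (PB_avg h.aR.M0 (PB_rv (fun j => h.R.ok.pb j) z.A'))
  have e1 : Qs { z with R := R } - B₁ * (μ z.t.g z.A * μ z.t'.g z.A') ≤
      Xs μ B₁ { z with R := R } := le_max_right _ _
  have e2 := le_max_right 0 (Qs { z with R := Finset.univ \ R } - B₂ * L)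
  have e3 : B₁ * (μ z.t.g z.A * μ z.t'.g z.A') ≤ B₁ * L := mul_le_mul_of_nonneg_left hP hB₁
  have e4 : (B₁ + B₂) * L ≤ B * L := mul_le_mul_of_nonneg_right hB hL
  refine max_le (add_nonneg (le_max_left _ _) (le_max_left _ _)) ?_
  linarith

end dec

/-! ### the certificate -/

section cert
variable {wr : ℕ → Λ → κ} {Ad : TrG Λ κ → Finset Λ → Prop}
  {μ : TrG Λ κ → Finset Λ → ℝ} {ν : TrG Λ κ → ℝ} {n : ℕ} {B : ℝ}

/-- the old states cost nothing -/
lemma WF_old (stp : Stp Λ κ) (s : St Λ κ) : WF stp (eT stp μ ν B) (Fl.old, s) = 0 := by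
  suffices ∀ (k : ℕ) (s : St Λ κ), s.rank < k → WF stp (eT stp μ ν B) (Fl.old, s) = 0 from
    this _ s (Nat.lt_succ_self _)
  intro k
  induction k with
  | zero => intro s hs; omega
  | succ k ih =>
    intro s hs
    rw [WF_eq0, nxF0_old, sum_flag s (fun _ => Fl.old)]
    have e : ((nxt0 stp s).map fun q => q.1 * WF stp (eT stp μ ν B) (Fl.old, q.2)).sum = 0 := by
      refine List.sum_eq_zero fun x hx => ?_
      obtain ⟨q, hq, rfl⟩ := List.mem_map.1 hx
      have := nxt0_rank stp s q hq
      rw [ih q.2 (by omega), mul_zero]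
    rw [e]
    show (0 : ℝ) + 0 = 0
    norm_num

/-- a terminal exit -/
lemma cert_xL (s : St Λ κ) : PWRz Ad μ ν B s.M s.M' Finset.univ s.t.g s.A s.t'.g s.A'
    (xL μ ν B s) := by
  refine PWRz.stop ?_
  have := le_max_right 0 (Qs { s with R := Finset.univ } -
    B * Lh (μ s.t.g s.A) (ν s.t.g) (μ s.t'.g s.A') (ν s.t'.g))
  unfold xL
  unfold Qs at this ⊢
  linarith

set_option maxHeartbeats 4000000 in
/-- **the flagged walk with terminal exits is a certificate** -/
theorem walk_certE {stp : Stp Λ κ} (hB : 0 ≤ B) :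
    ∀ (k n : ℕ) (z : Fl × St Λ κ), rkF z < k → Inv wr Ad μ ν n z.2 → z.1 ≠ Fl.old →
      PWRz Ad μ ν B z.2.M z.2.M' (z.1.R z.2.R) z.2.t.g z.2.A z.2.t'.g z.2.A'
        (WF stp (eT stp μ ν B) z) := by
  intro k
  induction k with
  | zero => intro n z hz; omega
  | succ k ih =>
    rintro n ⟨f, s⟩ hz h hfo
    simp only at h ⊢
    have hcont : ∀ (f' : Fl), f' ≠ Fl.old → ∀ q ∈ nxt0 stp s,
        PWRz Ad μ ν B q.2.M q.2.M' (f'.R q.2.R) q.2.t.g
        q.2.A q.2.t'.g q.2.A' (WF stp (eT stp μ ν B) (f', q.2)) := fun f' hf' q hq =>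
      ih s.p (f', q.2) (by
        have := nxt0_rank stp s q hq
        have e1 : rkF (f', q.2) = q.2.rank := rfl
        have e2 : rkF (f, s) = s.rank := rfl
        omega) (h.next0 q hq).1 hf'
    cases f with
    | old => exact absurd rfl hfo
    | self =>
      show PWRz Ad μ ν B s.M s.M' s.R s.t.g s.A s.t'.g s.A' _
      -- the self step
      have hold : PWRz Ad μ ν B s.M s.M' s.R s.t.g s.A s.t'.g s.A'
          (eAll stp μ ν B s + ((nxt0 stp s).map fun q =>
            q.1 * WF stp (eT stp μ ν B) (Fl.self, q.2)).sum) := by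
        by_cases h1 : s.t.isLeaf ∨ s.t'.isLeaf
        · have e0 : eAll stp μ ν B s = 0 := by
            simp [eAll, eNM, eOS, eSHR, eX, eSTOP, h1]
          have e1 : nxt0 stp s = [] := by simp [nxt0, h1]
          rw [e0, e1]
          simp only [List.map_nil, List.sum_nil, add_zero]
          exact cert_end (stp := stp) le_rfl h1
        by_cases h2 : stp s
        · have e1 : nxt0 stp s = [] := by simp [nxt0, h1, h2]
          have e0 : eAll stp μ ν B s =
              max 0 (Qs s - B * Lh (μ s.t.g s.A) (ν s.t.g) (μ s.t'.g s.A') (ν s.t'.g)) := by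
            simp [eAll, eNM, eOS, eSHR, eX, eSTOP, h1, h2]
          rw [e0, e1]
          simp only [List.map_nil, List.sum_nil, add_zero]
          refine PWRz.stop ?_
          have := le_max_right 0 (Qs s - B * Lh (μ s.t.g s.A) (ν s.t.g) (μ s.t'.g s.A') (ν s.t'.g))
          unfold Qs at this ⊢
          linarith
        have key := step_cert (ν := ν) hB Fl.self
          (F := fun q => WF stp (eT stp μ ν B) (Fl.self, q)) h h1 h2
          (fun q hq => hcont Fl.self (by decide) q hq)
        rw [eZ_id (ν := ν) (by decide) h1 h2] at key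
        exact key
      rw [WF_eq0]
      show PWRz Ad μ ν B s.M s.M' s.R s.t.g s.A s.t'.g s.A' (eAll stp μ ν B s + _)
      by_cases h2 : two s ∧ ¬ (s.t.isLeaf ∨ s.t'.isLeaf) ∧ ¬ stp s
      · obtain ⟨h2, h1, hs⟩ := h2
        obtain ⟨hPL, hPR, w, r, t₁, t₀, v, B₁, G, w', r', t₁', t₀', v', B₁', G', hv, hv'⟩ :=
          two_cases h2
        have h1' := h1
        rw [not_or] at h1'
        obtain ⟨hpp, hpn⟩ := p_prime h h1'.1 h1'.2
        have hL := h.L
        have hR := h.R
        have e1 : nxt0 stp s = [((1 - w) * (1 - w'), { s with R := Ro r, t := t₁, t' := t₁' }),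
            ((1 - w) * w', { s with R := Ro r, t := t₁, t' := t₀' }),
            (w * (1 - w'), { s with R := Ro r, t := t₀, t' := t₁' }),
            (w * w', { s with R := Ro r, t := t₀, t' := t₀' })] := by
          simp [nxt0, h1, hs, hPL, hPR, hv, hv']
        have e2 : nxF0 stp (Fl.self, s) =
            [((1 - w) * (1 - w'), (Fl.self, { s with R := Ro r, t := t₁, t' := t₁' })),
            ((1 - w) * w', (Fl.top, { s with R := Ro r, t := t₁, t' := t₀' })),
            (w * (1 - w'), (Fl.top, { s with R := Ro r, t := t₀, t' := t₁' })),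
            (w * w', (Fl.self, { s with R := Ro r, t := t₀, t' := t₀' }))] := by
          simp only [nxF0, e1]
        have e0 : eAll stp μ ν B s = Q (orel κ) (avg s.M (rk s.A r G)) (avg s.M' (rk s.A' r G')) +
            Qs { s with R := s.R \ Ro r } := by
          simp [eAll, eNM, eOS, eSHR, eX, eSTOP, h1, hs, hPL, hPR, hv, hv']
        have m11 : ((1 - w) * (1 - w'), ({ s with R := Ro r, t := t₁, t' := t₁' } : St Λ κ)) ∈
          nxt0 stp s := by rw [e1]; simp
        have m10 : ((1 - w) * w', ({ s with R := Ro r, t := t₁, t' := t₀' } : St Λ κ)) ∈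
          nxt0 stp s := by rw [e1]; simp
        have m01 : (w * (1 - w'), ({ s with R := Ro r, t := t₀, t' := t₁' } : St Λ κ)) ∈
          nxt0 stp s := by rw [e1]; simp
        have m00 : (w * w', ({ s with R := Ro r, t := t₀, t' := t₀' } : St Λ κ)) ∈
          nxt0 stp s := by rw [e1]; simp
        have c11 := hcont Fl.self (by decide) _ m11
        have c10 := PWRz.sub (hcont Fl.top (by decide) _ m10) (Finset.subset_univ (Ro r))
        have c01 := PWRz.sub (hcont Fl.top (by decide) _ m01) (Finset.subset_univ (Ro r))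
        have c00 := hcont Fl.self (by decide) _ m00
        have cL : Nat.Coprime s.p s.M :=
          (Nat.Prime.coprime_iff_not_dvd hpp).2 (St.not_isPL_br hPL hv hv')
        have cR : Nat.Coprime s.p s.M' :=
          (Nat.Prime.coprime_iff_not_dvd hpp).2 (St.not_isPR_br hPR hv hv')
        have et := vw_br hv
        have et' := vw_br hv'
        rw [et] at hL
        rw [et'] at hR
        obtain ⟨-, -, -, hr, -⟩ := hL.br
        obtain ⟨-, -, -, hr', -⟩ := hR.br
        have err : r' = r := by rw [hr, hr']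
        subst err
        have conv : ∀ {t t' : TrG Λ κ} {e : ℝ}, PWRz Ad μ ν B s.M s.M' (Ro r') t s.A t' s.A' e →
            PWRz Ad μ ν B s.M s.M' (Rz (orel κ) r') t s.A t' s.A' e := fun hh => by
          rw [Rz_orel]; exact hh
        have key : PWRz Ad μ ν B s.M s.M' (Rz (orel κ) r') (TrG.br s.p w r' t₁.g t₀.g v B₁ G) s.A
            (TrG.br s.p w' r' t₁'.g t₀'.g v' B₁' G') s.A' _ :=
          PWRz.col2 (w := w) (w' := w') ZS_orel cL cR (conv c11) (conv c10) (conv c01) (conv c00) le_rfl
        have eg : s.t.g = TrG.br s.p w r' t₁.g t₀.g v B₁ G := congrArg DT.g et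
        have eg' : s.t'.g = TrG.br s.p w' r' t₁'.g t₀'.g v' B₁' G' := congrArg DT.g et'
        rw [← eg, ← eg', Rz_orel] at key
        rw [e0, e2]
        refine PWRz.shrink key ?_
        simp only [List.map_cons, List.map_nil, List.sum_cons, List.sum_nil, Qs]
        linarith
      · have e2 : nxF0 stp (Fl.self, s) = (nxt0 stp s).map fun q => (q.1, (Fl.self, q.2)) := by
          have hne : ∀ a b c d, nxt0 stp s ≠ [a, b, c, d] := by
            intro a b c d hh
            refine h2 ?_
            have hl : ¬ (s.t.isLeaf ∨ s.t'.isLeaf) := by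
              intro hl
              simp [nxt0, hl] at hh
            have hs : ¬ stp s := by
              intro hs
              simp [nxt0, hl, hs] at hh
            refine ⟨?_, hl, hs⟩
            have hPL : ¬ s.isPL := by
              intro hPL
              obtain ⟨w, r, t₁, t₀, v, B₁, G, hv, et, h3⟩ := St.isPL_cases hPL
              rcases h3 with ⟨-, e⟩ | ⟨-, -, e⟩ <;> simp [nxt0, hl, hs, hPL, e] at hh
            have hPR : ¬ s.isPR := by
              intro hPR
              obtain ⟨w, r, t₁, t₀, v, B₁, G, hv, et, h3⟩ := St.isPR_cases hPR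
              rcases h3 with ⟨-, e⟩ | ⟨-, -, e⟩ <;> simp [nxt0, hl, hs, hPL, hPR, e] at hh
            refine ⟨hPL, hPR, ?_⟩
            rcases hv : vw s.p s.t with ⟨w, r, t₁, t₀, v, B₁, G⟩ | ⟨r, t₁, t₀⟩ | ⟨Sp, u⟩ <;>
            rcases hv' : vw s.p s.t' with ⟨w', r', t₁', t₀', v', B₁', G'⟩ | ⟨r', t₁', t₀'⟩ |
              ⟨Sp', u'⟩ <;>
            simp only [nxt0, if_neg hl, if_neg hs, if_neg hPL, if_neg hPR, hv, hv'] at hh ⊢
            all_goals (first | trivial | (split_ifs at hh <;> simp at hh) | simp at hh)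
          simp only [nxF0]
        rw [e2, sum_flag s (fun _ => Fl.self)]
        exact hold
    | top =>
      show PWRz Ad μ ν B s.M s.M' Finset.univ s.t.g s.A s.t'.g s.A' _
      rw [WF_eq0]
      by_cases h1 : s.t.isLeaf ∨ s.t'.isLeaf
      · refine cert_end (stp := stp) ?_ h1
        have e1 : nxt0 stp s = [] := by simp [nxt0, h1]
        have e2 : nxF0 stp (Fl.top, s) = [] := by
          simp only [nxF0, e1]
          split_ifs <;> rfl
        rw [e2]
        simp only [eT, if_pos h1, List.map_nil, List.sum_nil, add_zero]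
        exact le_rfl
      by_cases hx : exH stp s
      · have e2 : nxF0 stp (Fl.top, s) = (nxt0 stp s).map fun q => (q.1, (Fl.old, q.2)) := by
          simp only [nxF0, if_pos hx]
        have e3 : eT stp μ ν B (Fl.top, s) = xL μ ν B s := by
          simp only [eT, if_neg h1, if_pos hx]
        have e4 : ((nxt0 stp s).map fun q =>
            q.1 * WF stp (eT stp μ ν B) (Fl.old, q.2)).sum = 0 := by
          refine List.sum_eq_zero fun x hx => ?_
          obtain ⟨q, hq, rfl⟩ := List.mem_map.1 hx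
          rw [WF_old, mul_zero]
        rw [e2, e3, sum_flag s (fun _ => Fl.old), e4, add_zero]
        exact cert_xL s
      have hs : ¬ stp s := fun hs => hx (Or.inl hs)
      have ho : ¬ one s := fun ho => hx (Or.inr ho)
      by_cases h2 : two s
      · have e2 : nxF0 stp (Fl.top, s) = (nxt0 stp s).map fun q => (q.1, (Fl.top, q.2)) := by
          simp only [nxF0, if_neg hx, if_pos h2]
        have e3 : eT stp μ ν B (Fl.top, s) = eG s := by
          simp only [eT, if_neg h1, if_neg hx, if_pos h2]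
        rw [e2, e3, sum_flag s (fun _ => Fl.top), ← eZ_two (stp := stp) (μ := μ) (B := B) h2]
        exact step_cert (ν := ν) hB Fl.top (F := fun q => WF stp (eT stp μ ν B) (Fl.top, q)) h h1
          hs (fun q hq => hcont Fl.top (by decide) q hq)
      · have e2 : nxF0 stp (Fl.top, s) = (nxt0 stp s).map fun q => (q.1, (flS q.2, q.2)) := by
          simp only [nxF0, if_neg hx, if_neg h2]
        have e3 : eT stp μ ν B (Fl.top, s) =
            ((crs stp s).map fun z => Xs μ B { z with R := Finset.univ }).sum +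
            ((nxt0 stp s).map fun q => q.1 * xLS μ ν B q.2).sum := by
          simp only [eT, if_neg h1, if_neg hx, if_neg h2]
        rw [e2, e3, sum_flag s flS, ← eZ_add h1 hs h2 ho]
        have key := step_cert (ν := ν) hB Fl.top
          (F := fun q => WF stp (eT stp μ ν B) (flS q, q) + xLS μ ν B q) h h1 hs (fun q hq => by
            show PWRz Ad μ ν B q.2.M q.2.M' Finset.univ q.2.t.g q.2.A q.2.t'.g q.2.A'
              (WF stp (eT stp μ ν B) (flS q.2, q.2) + xLS μ ν B q.2)
            by_cases hst : stay q.2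
            · have e4 : flS q.2 = Fl.top := by unfold flS; rw [if_pos hst]
              have e5 : xLS μ ν B q.2 = 0 := by unfold xLS; rw [if_pos hst]
              rw [e4, e5, add_zero]
              exact hcont Fl.top (by decide) q hq
            · have e4 : flS q.2 = Fl.old := by unfold flS; rw [if_neg hst]
              have e5 : xLS μ ν B q.2 = xL μ ν B q.2 := by unfold xLS; rw [if_neg hst]
              rw [e4, e5, WF_old, zero_add]
              exact cert_xL q.2)
        have e6 : ((nxt0 stp s).map fun q => q.1 *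
            (WF stp (eT stp μ ν B) (flS q.2, q.2) + xLS μ ν B q.2)).sum =
            ((nxt0 stp s).map fun q => q.1 * WF stp (eT stp μ ν B) (flS q.2, q.2)).sum +
            ((nxt0 stp s).map fun q => q.1 * xLS μ ν B q.2).sum :=
          sum_map_add _ (fun q => WF stp (eT stp μ ν B) (flS q, q)) (xLS μ ν B)
        rw [e6] at key
        have e7 : eZ stp μ B Fl.top s + (((nxt0 stp s).map fun q => q.1 *
            WF stp (eT stp μ ν B) (flS q.2, q.2)).sum +
            ((nxt0 stp s).map fun q => q.1 * xLS μ ν B q.2).sum) =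
            eZ stp μ B Fl.top s + ((nxt0 stp s).map fun q => q.1 * xLS μ ν B q.2).sum +
            ((nxt0 stp s).map fun q => q.1 * WF stp (eT stp μ ν B) (flS q.2, q.2)).sum := by ring
        rw [e7] at key
        exact key

set_option maxHeartbeats 2000000 in
/-- **the self certificate of a node** -/
theorem selfZ_walkE {stp : Stp Λ κ} (hB : 0 ≤ B)
    (hstp : ∀ s : St Λ κ, s.O = ∅ → s.O' = ∅ → ¬ stp s)
    (hjt : ∀ (d : DT Λ κ) (A : Finset Λ), stp.jt (selfSt d A)) (d : DT Λ κ) :
    ∀ (n : ℕ) (A : Finset Λ), Side wr Ad μ ν n d A → ¬ PulG d.g →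
      SelfZ Ad μ ν B d.g A (WF stp (eT stp μ ν B) (Fl.self, selfSt d A)) := by
  induction d with
  | leaf r f =>
    intro n A h hpul
    show (0 : ℝ) ≤ _
    rw [WF_eq0]
    have hl : (selfSt (DT.leaf r f : DT Λ κ) A).t.isLeaf ∨
      (selfSt (DT.leaf r f : DT Λ κ) A).t'.isLeaf := Or.inl trivial
    have e0 : eT stp μ ν B (Fl.self, selfSt (DT.leaf r f : DT Λ κ) A) = 0 := by
      show eAll stp μ ν B (selfSt (DT.leaf r f : DT Λ κ) A) = 0
      simp [eAll, eNM, eOS, eSHR, eX, eSTOP, hl]
    have e1 : nxt0 stp (selfSt (DT.leaf r f : DT Λ κ) A) = [] := by simp [nxt0, hl]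
    have e2 : nxF0 stp (Fl.self, selfSt (DT.leaf r f : DT Λ κ) A) = [] := by
      simp only [nxF0, e1, List.map_nil]
    rw [e0, e2]; simp
  | br p w r t₁ t₀ v B₁ G ih₁ ih₀ =>
    intro n A h hpul
    set s := selfSt (DT.br p w r t₁ t₀ v B₁ G : DT Λ κ) A with hs
    have hl : ¬ (s.t.isLeaf ∨ s.t'.isLeaf) := by simp [hs, selfSt, DT.isLeaf]
    have hst : ¬ stp s := hstp s rfl rfl
    have hj : stp.jt s := hjt _ _
    have hp : s.p = p := by simp [hs, St.p, selfSt, DT.top]
    have hv : vw s.p s.t = .br w r t₁ t₀ v B₁ G := by rw [hp]; simp [hs, selfSt, vw]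
    have hv' : vw s.p s.t' = .br w r t₁ t₀ v B₁ G := by rw [hp]; simp [hs, selfSt, vw]
    have hpp : p.Prime := h.col.1
    have hw : w ≠ 0 := fun hw => hpul ⟨hw, (h.wf.1.pul hw).2⟩
    have hd : ¬ p ∣ 1 := fun hd => hpp.one_lt.ne' (Nat.dvd_one.1 hd)
    have hPL : ¬ s.isPL := by
      unfold St.isPL
      simp only [hv, hv']
      rw [hp]
      exact hd
    have hPR : ¬ s.isPR := by
      unfold St.isPR
      simp only [hv, hv']
      rw [hp]
      exact hd
    have e1 : nxt0 stp s = [((1 - w) * (1 - w), { s with R := Ro r, t := t₁, t' := t₁ }),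
        ((1 - w) * w, { s with R := Ro r, t := t₁, t' := t₀ }),
        (w * (1 - w), { s with R := Ro r, t := t₀, t' := t₁ }),
        (w * w, { s with R := Ro r, t := t₀, t' := t₀ })] := by
      simp [nxt0, hl, hst, hPL, hPR, hv, hv', hj]
    have e2 : nxF0 stp (Fl.self, s) =
        [((1 - w) * (1 - w), (Fl.self, { s with R := Ro r, t := t₁, t' := t₁ })),
        ((1 - w) * w, (Fl.top, { s with R := Ro r, t := t₁, t' := t₀ })),
        (w * (1 - w), (Fl.top, { s with R := Ro r, t := t₀, t' := t₁ })),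
        (w * w, (Fl.self, { s with R := Ro r, t := t₀, t' := t₀ }))] := by
      simp only [nxF0, e1]
    have e0 : eT stp μ ν B (Fl.self, s) =
        Q (orel κ) (avg s.M (rk s.A r G)) (avg s.M' (rk s.A' r G)) +
        Qs { s with R := s.R \ Ro r } := by
      show eAll stp μ ν B s = _
      simp [eAll, eNM, eOS, eSHR, eX, eSTOP, hl, hst, hPL, hPR, hv, hv', hj]
    have hI := Inv_self h
    have hc : ∀ (f : Fl), f ≠ Fl.old → ∀ q ∈ nxt0 stp s,
        PWRz Ad μ ν B q.2.M q.2.M' (f.R q.2.R) q.2.t.g q.2.A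
        q.2.t'.g q.2.A' (WF stp (eT stp μ ν B) (f, q.2)) := fun f hf q hq =>
      walk_certE hB (rkF (f, q.2) + 1) s.p (f, q.2) (Nat.lt_succ_self _) (hI.next0 q hq).1 hf
    have m11 : ((1 - w) * (1 - w), ({ s with R := Ro r, t := t₁, t' := t₁ } : St Λ κ)) ∈
      nxt0 stp s := by rw [e1]; simp
    have m10 : ((1 - w) * w, ({ s with R := Ro r, t := t₁, t' := t₀ } : St Λ κ)) ∈
      nxt0 stp s := by rw [e1]; simp
    have m01 : (w * (1 - w), ({ s with R := Ro r, t := t₀, t' := t₁ } : St Λ κ)) ∈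
      nxt0 stp s := by rw [e1]; simp
    have m00 : (w * w, ({ s with R := Ro r, t := t₀, t' := t₀ } : St Λ κ)) ∈
      nxt0 stp s := by rw [e1]; simp
    have c11 := hc Fl.self (by decide) _ m11
    have c10 := PWRz.sub (hc Fl.top (by decide) _ m10) (Finset.subset_univ (Ro r))
    have c01 := PWRz.sub (hc Fl.top (by decide) _ m01) (Finset.subset_univ (Ro r))
    have c00 := hc Fl.self (by decide) _ m00
    rw [WF_eq0, e0, e2]
    have hR : s.R = Ro r := rfl
    rw [hR, Qs_sdiff_self]
    refine ⟨_, _, _, _, c11, c10, c01, c00, ?_⟩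
    have hM : s.M = 1 := rfl
    have hM' : s.M' = 1 := rfl
    have hA : s.A = A := rfl
    have hA' : s.A' = A := rfl
    simp only [List.map_cons, List.map_nil, List.sum_cons, List.sum_nil]
    rw [hM, hM', hA, hA']
    have ea : avg 1 (rk A r G) = rk A r G := avg_one _
    rw [ea]
    linarith
  | add b r t₁ t₀ ih₁ ih₀ =>
    intro n A h hpul
    set s := selfSt (DT.add b r t₁ t₀ : DT Λ κ) A with hs
    have hl : ¬ (s.t.isLeaf ∨ s.t'.isLeaf) := by simp [hs, selfSt, DT.isLeaf]
    have hst : ¬ stp s := hstp s rfl rfl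
    have hj : stp.jt s := hjt _ _
    have hp : s.p = b := by simp [hs, St.p, selfSt, DT.top]
    have hv : vw s.p s.t = .add r t₁ t₀ := by rw [hp]; simp [hs, selfSt, vw]
    have hv' : vw s.p s.t' = .add r t₁ t₀ := by rw [hp]; simp [hs, selfSt, vw]
    have hPL : ¬ s.isPL := by unfold St.isPL; simp only [hv, hv']; exact fun h => h
    have hPR : ¬ s.isPR := by unfold St.isPR; simp only [hv, hv']; exact fun h => h
    have e1 : nxt0 stp s =
        [(1, { s with t := t₁, t' := t₁ }), (1, { s with t := t₀, t' := t₀ })] := by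
      simp [nxt0, hl, hst, hPL, hPR, hv, hv', hj]
    have e2 : nxF0 stp (Fl.self, s) =
        [(1, (Fl.self, { s with t := t₁, t' := t₁ })),
          (1, (Fl.self, { s with t := t₀, t' := t₀ }))] := by
      simp only [nxF0, e1, List.map_cons, List.map_nil]
    have e0 : eT stp μ ν B (Fl.self, s) =
        Xs μ B { s with t := t₁, t' := t₀ } + Xs μ B { s with t := t₀, t' := t₁ } := by
      show eAll stp μ ν B s = _
      simp [eAll, eNM, eOS, eSHR, eX, eSTOP, hl, hst, hPL, hPR, hv, hv', hj]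
    have hI := Inv_self h
    have hc : ∀ q ∈ nxt0 stp s, PWRz Ad μ ν B q.2.M q.2.M' q.2.R q.2.t.g q.2.A
        q.2.t'.g q.2.A' (WF stp (eT stp μ ν B) (Fl.self, q.2)) := fun q hq =>
      walk_certE hB (rkF (Fl.self, q.2) + 1) s.p (Fl.self, q.2) (Nat.lt_succ_self _)
        (hI.next0 q hq).1 (fun hh => by cases hh)
    have m1 : ((1 : ℝ), ({ s with t := t₁, t' := t₁ } : St Λ κ)) ∈ nxt0 stp s := by rw [e1]; simp
    have m0 : ((1 : ℝ), ({ s with t := t₀, t' := t₀ } : St Λ κ)) ∈ nxt0 stp s := by rw [e1]; simp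
    have c1 := hc _ m1
    have c0 := hc _ m0
    rw [WF_eq0, e0, e2]
    have hX := Qs_le_Xs μ B { s with t := t₁, t' := t₀ }
    have hY := Qs_le_Xs μ B { s with t := t₀, t' := t₁ }
    have hQ : ∀ (f f' : Λ → ℝ → ℝ), Q s.R (avg s.M (rv s.A f)) (avg s.M' (rv s.A' f')) =
        Q (Ro r) (rv A f) (rv A f') := by
      intro f f'
      show Q (Ro r) (avg 1 (rv A f)) (avg 1 (rv A f')) = _
      rw [avg_one, avg_one]
    unfold Qs at hX hY
    simp only at hX hY
    rw [hQ] at hX hY
    refine ⟨_, _, _, _, c1, c0, hX, hY, ?_⟩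
    simp only [List.map_cons, List.map_nil, List.sum_cons, List.sum_nil]
    linarith
  | up b Sp u ih =>
    intro n A h hpul
    set s := selfSt (DT.up b Sp u : DT Λ κ) A with hs
    have hl : ¬ (s.t.isLeaf ∨ s.t'.isLeaf) := by simp [hs, selfSt, DT.isLeaf]
    have hst : ¬ stp s := hstp s rfl rfl
    have hj : stp.jt s := hjt _ _
    have hp : s.p = b := by simp [hs, St.p, selfSt, DT.top]
    have hv : vw s.p s.t = .up Sp u := by rw [hp]; simp [hs, selfSt, vw]
    have hv' : vw s.p s.t' = .up Sp u := by rw [hp]; simp [hs, selfSt, vw]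
    have hPL : ¬ s.isPL := by unfold St.isPL; simp only [hv, hv']; exact fun h => h
    have hPR : ¬ s.isPR := by unfold St.isPR; simp only [hv, hv']; exact fun h => h
    have e1 : nxt0 stp s = [(1, { s with t := u, t' := u })] := by
      simp [nxt0, hl, hst, hPL, hPR, hv, hv', hj]
    have e2 : nxF0 stp (Fl.self, s) = [(1, (Fl.self, { s with t := u, t' := u }))] := by
      simp only [nxF0, e1, List.map_cons, List.map_nil]
    have e0 : eT stp μ ν B (Fl.self, s) = 0 := by
      show eAll stp μ ν B s = _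
      simp [eAll, eNM, eOS, eSHR, eX, eSTOP, hl, hst, hPL, hPR, hv, hv', hj]
    have e3 : ({ s with t := u, t' := u } : St Λ κ) = selfSt u A := rfl
    have := ih b A ⟨h.ok, h.ad, h.col.2.2.mono (Nat.le_succ b), h.wf.2⟩ hpul
    rw [WF_eq0, e0, e2, e3]
    simp only [List.map_cons, List.map_nil, List.sum_cons, List.sum_nil, zero_add, one_mul,
      add_zero]
    exact this

end cert

end Crest.Agent.R4P.TE26
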