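import Crest.Agent.R4P.CrsT_26
import Crest.Agent.R4P.TE_26

/-!
R4 (S0004) with powers, `TgtCrs`, helper26: **the crossing pairs of the self states are bounded by the
product walk of the groups**: `WF_xX_self`.
-/

set_option autoImplicit false
set_option linter.unusedSectionVars false
set_option linter.unusedVariables false
set_option linter.unusedSimpArgs false
open MeasureTheory Filter Set

namespace Crest.Agent.R4P.CrsS26

open Crest.Agent.R4.Tour104 Crest.Agent.R4.Tour758 Crest.Agent.R4.Avg758 Crest.Agent.R4.Clos758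
open Crest.Agent.R4.ClosL758 Crest.Agent.R4.ClosG758 Crest.Agent.R4.ClosR758
open Crest.Agent.R4P.ClosR442 Crest.Agent.R4P.Walk560 Crest.Agent.R4P.Grp36 Crest.Agent.R4P.Xfer36
open Crest.Agent.R4P.CrsD26 Crest.Agent.R4P.CrsU26 Crest.Agent.R4P.TW17 Crest.Agent.R4P.CrsT26
open Crest.Agent.R4P.XEx29 (Gd GX qX qX_it_le_XP)
open Crest.Agent.R4P.VWalk36 (crs)
open Crest.Agent.R4P.TE26 (Diag)

variable {Λ κ : Type*} [Fintype Λ] [DecidableEq Λ] [Fintype κ] [DecidableEq κ] [WRel κ]
  {wr : ℕ → Λ → κ} {Ad : TrG Λ κ → Finset Λ → Prop} {μ : TrG Λ κ → Finset Λ → ℝ}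
  {ν : TrG Λ κ → ℝ} {stp : Stp Λ κ}

lemma WF_self_nil {s : St Λ κ} (e : nxt0 stp s = []) : WF stp (xX wr stp) (Fl.self, s) = 0 := by
  rw [WF_eq0]
  have e1 : xX wr stp (Fl.self, s) = 0 := rfl
  rw [e1]
  simp only [nxF0, e, List.map_nil, List.sum_nil, add_zero]

/-- raising the level of a state -/
lemma raiseS {p : ℕ} {x : ℝ} {t t' : DT Λ κ} (gt : t.All Gd) (gt' : t'.All Gd)
    (tl : t.top ≤ p) (tr : t'.top ≤ p) (hl : ¬ t.isLeaf) (hl' : ¬ t'.isLeaf)
    (h : ∃ n, x ≤ XP (ker (kX wr)) n (max t.top t'.top) [((1 : ℝ), t)] [((1 : ℝ), t')]) :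
    UX wr p ((gC p)^[0] [((1 : ℝ), t)]) ((gC p)^[0] [((1 : ℝ), t')]) x (EE wr p 0 0 t t') := by
  simp only [Function.iterate_zero, id_eq]
  rw [EE_zero gt gt']
  obtain ⟨m, hm⟩ := h
  obtain ⟨m', hm'⟩ := XP_raise (wr := wr) (max_le tl tr) (n := m) (GOk.one1 gt) (GOk.one1 gt')
    (fun z hz => by rw [List.mem_singleton.1 hz]; exact le_max_left _ _)
    (fun z hz => by rw [List.mem_singleton.1 hz]; exact le_max_right _ _)
    (fun z hz => by rw [List.mem_singleton.1 hz]; exact hl)
    (fun z hz => by rw [List.mem_singleton.1 hz]; exact hl')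
  exact UX.of0 (GOk.one1 gt) (GOk.one1 gt') ⟨m', hm.trans hm'⟩

set_option maxHeartbeats 4000000 in
/-- **the crossing pairs below a self state** -/
theorem xferS {J : Fl × St Λ κ → Prop} (hJ : JW wr Ad μ ν stp J) (hns : Strip29.NoSplit stp)
    (hjt : ∀ s : St Λ κ, Diag s → stp.jt s) :
    ∀ (N : ℕ) (s : St Λ κ), s.rank < N → J (Fl.self, s) → SG s → Diag s →
      ¬ (s.t.isLeaf ∨ s.t'.isLeaf) →
      ∃ n, WF stp (xX wr stp) (Fl.self, s) ≤
        XP (ker (kX wr)) n s.p [((1 : ℝ), s.t)] [((1 : ℝ), s.t')] := by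
  intro N
  induction N with
  | zero => intro s hN; exact absurd hN (Nat.not_lt_zero _)
  | succ N ih =>
    intro s hN hJs gs hd hl
    obtain ⟨n, hn⟩ := hJ.inv _ hJs
    simp only at hn
    have hl' := not_or.1 hl
    obtain ⟨hpp, hpn⟩ := p_prime hn hl'.1 hl'.2
    have hp0 := hpp.pos
    have hj := hjt s hd
    have hd1 : ¬ s.p ∣ 1 := fun hh => hpp.one_lt.ne' (Nat.dvd_one.1 hh)
    by_cases hs : stp s
    · refine ⟨0, ?_⟩
      rw [WF_self_nil (by simp [nxt0, hl, hs])]
      exact le_rfl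
    -- the children
    have child : ∀ (c : ℝ) (f : Fl) (q : St Λ κ), (c, (f, q)) ∈ nxF0 stp (Fl.self, s) → c ≠ 0 →
        SG q → q.M = 1 → q.M' = 1 →
        UX wr s.p ((gC s.p)^[0] [((1 : ℝ), q.t)]) ((gC s.p)^[0] [((1 : ℝ), q.t')])
          (WF stp (xX wr stp) (f, q)) (EE wr s.p 0 0 q.t q.t') := by
      intro c f q hq hc gq m1 m2
      have h0 := UX.mean' (wr := wr) hpp.pos gq.l gq.r 0 0
      have hJq : J (f, q) := hJ.nxt _ hJs _ (mem_nxF.2 ⟨hq, hc⟩)
      have hq' : (c, q) ∈ nxt0 stp s := mem_nxF0 hq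
      have hinv := (hn.next0 _ hq').1
      have hr := nxt0_rank stp s _ hq'
      simp only at hinv hr
      have tl : q.t.top ≤ s.p := hinv.L.col.top_le
      have tr : q.t'.top ≤ s.p := hinv.R.col.top_le
      by_cases hql : q.t.isLeaf ∨ q.t'.isLeaf
      · have e0 : nxt0 stp q = [] := by simp [nxt0, hql]
        have e1 : WF stp (xX wr stp) (f, q) = 0 := by
          cases f with
          | self => exact WF_self_nil e0
          | old => exact WF_old _
          | top => exact WF_leaf hql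
        rw [e1]; exact h0
      have hql' := not_or.1 hql
      cases f with
      | old => rw [WF_old]; exact h0
      | self =>
        have hdq := hd.next hj hn (c, (Fl.self, q)) hq rfl
        exact raiseS gq.l gq.r tl tr hql'.1 hql'.2 (ih q (by omega) hJq gq hdq hql)
      | top =>
        have key := xferX hJ hns (q.rank + 1) q 0 0 (Nat.lt_succ_self _) hJq gq hql
          ⟨by rw [m1, pow_zero], by rw [m2, pow_zero], Or.inl rfl, fun h => absurd rfl h,
            fun h => absurd rfl h⟩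
        unfold Cl at key
        simp only [Function.iterate_zero, id_eq] at key
        rw [EE_zero gq.l gq.r] at key
        exact raiseS gq.l gq.r tl tr hql'.1 hql'.2 (UX.at0 (GOk.one1 gq.l) (GOk.one1 gq.r) key)
    have e' : vw s.p s.t' = vw s.p s.t := by rw [hd.t]
    suffices h : UX wr s.p [((1 : ℝ), s.t)] [((1 : ℝ), s.t')] (WF stp (xX wr stp) (Fl.self, s))
        (Q (SI wr s.p) (gval [((1 : ℝ), s.t)]) (gval [((1 : ℝ), s.t')])) from
      UX.at0 (GOk.one1 gs.l) (GOk.one1 gs.r) h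
    rw [← EE_zero gs.l gs.r]
    rcases hv : vw s.p s.t with ⟨w, r, t₁, t₀, v, B₁, G⟩ | ⟨r, t₁, t₀⟩ | ⟨Sp, u⟩
    · rw [hv] at e'
      have hPL : ¬ s.isPL := by
        unfold St.isPL
        simp only [hv, e', hd.M]
        exact hd1
      have hPR : ¬ s.isPR := by
        unfold St.isPR
        simp only [hv, e', hd.M']
        exact hd1
      have e : nxt0 stp s = [((1 - w) * (1 - w), { s with R := Ro r, t := t₁, t' := t₁ }),
          ((1 - w) * w, { s with R := Ro r, t := t₁, t' := t₀ }),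
          (w * (1 - w), { s with R := Ro r, t := t₀, t' := t₁ }),
          (w * w, { s with R := Ro r, t := t₀, t' := t₀ })] := by
        simp [nxt0, hl, hs, hPL, hPR, hv, e']
      have eF : nxF0 stp (Fl.self, s) =
          [((1 - w) * (1 - w), (Fl.self, { s with R := Ro r, t := t₁, t' := t₁ })),
          ((1 - w) * w, (Fl.top, { s with R := Ro r, t := t₁, t' := t₀ })),
          (w * (1 - w), (Fl.top, { s with R := Ro r, t := t₀, t' := t₁ })),
          (w * w, (Fl.self, { s with R := Ro r, t := t₀, t' := t₀ }))] := by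
        simp only [nxF0, e]
      have ht := vw_br hv
      have ht' := vw_br e'
      have gt : (DT.br s.p w r t₁ t₀ v B₁ G).All Gd := by rw [← ht]; exact gs.l
      have r1 : 1 - w ≠ 0 → UX wr s.p ((gC s.p)^[0] [((1 : ℝ), t₁)])
          ((gC s.p)^[0 + 1] [((1 : ℝ), DT.br s.p w r t₁ t₀ v B₁ G)]) _ _ := fun hc =>
        UX.brR gt (GOk.it (GOk.one1 gt.2.1) 0)
          (fun hc' => child ((1 - w) * (1 - w)) Fl.self { s with R := Ro r, t := t₁, t' := t₁ }
            (by rw [eF]; simp) (mul_ne_zero hc hc') ⟨gt.2.1, gt.2.1, gs.A, gs.A'⟩ hd.M hd.M')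
          (fun hc' => child ((1 - w) * w) Fl.top { s with R := Ro r, t := t₁, t' := t₀ }
            (by rw [eF]; simp) (mul_ne_zero hc hc') ⟨gt.2.1, gt.2.2, gs.A, gs.A'⟩ hd.M hd.M')
      have r0 : w ≠ 0 → UX wr s.p ((gC s.p)^[0] [((1 : ℝ), t₀)])
          ((gC s.p)^[0 + 1] [((1 : ℝ), DT.br s.p w r t₁ t₀ v B₁ G)]) _ _ := fun hc =>
        UX.brR gt (GOk.it (GOk.one1 gt.2.2) 0)
          (fun hc' => child (w * (1 - w)) Fl.top { s with R := Ro r, t := t₀, t' := t₁ }
            (by rw [eF]; simp) (mul_ne_zero hc hc') ⟨gt.2.2, gt.2.1, gs.A, gs.A'⟩ hd.M hd.M')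
          (fun hc' => child (w * w) Fl.self { s with R := Ro r, t := t₀, t' := t₀ }
            (by rw [eF]; simp) (mul_ne_zero hc hc') ⟨gt.2.2, gt.2.2, gs.A, gs.A'⟩ hd.M hd.M')
      have l := UX.brL gt (GOk.it (GOk.one1 gt) (0 + 1)) r1 r0
      rw [← EE_brR hp0 gt gt.2.1, ← EE_brR hp0 gt gt.2.2, ← EE_brL hp0 gt gt] at l
      have e11 : EE wr s.p (0 + 1) (0 + 1) (DT.br s.p w r t₁ t₀ v B₁ G)
          (DT.br s.p w r t₁ t₀ v B₁ G) =
          Q (SI wr s.p) (gval (gC s.p [((1 : ℝ), DT.br s.p w r t₁ t₀ v B₁ G)]))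
            (gval (gC s.p [((1 : ℝ), DT.br s.p w r t₁ t₀ v B₁ G)])) := by
        unfold EE
        rw [avg_br hp0 gt 0, gval_gC_br]
        simp only [pow_zero, avg_one]
      rw [e11] at l
      have l2 := UX.two hpp.ne_zero (GOk.one1 gt) (GOk.one1 gt) l
      rw [← EE_zero gt gt, ← ht] at l2
      rw [hd.t]
      refine UX.of l2 (le_of_eq ?_)
      rw [WF_eq0, eF]
      have e1 : xX wr stp (Fl.self, s) = 0 := rfl
      rw [e1]
      simp only [List.map_cons, List.map_nil, List.sum_cons, List.sum_nil]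
      ring
    · rw [hv] at e'
      have hPL : ¬ s.isPL := by unfold St.isPL; simp only [hv, e']; exact fun h => h
      have hPR : ¬ s.isPR := by unfold St.isPR; simp only [hv, e']; exact fun h => h
      have e : nxt0 stp s =
          [(1, { s with t := t₁, t' := t₁ }), (1, { s with t := t₀, t' := t₀ })] := by
        simp [nxt0, hl, hs, hPL, hPR, hv, e', hj]
      have eF : nxF0 stp (Fl.self, s) =
          [(1, (Fl.self, { s with t := t₁, t' := t₁ })),
            (1, (Fl.self, { s with t := t₀, t' := t₀ }))] := by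
        simp only [nxF0, e, List.map_cons, List.map_nil]
      have ht := vw_add hv
      have gt : (DT.add s.p r t₁ t₀).All Gd := by rw [← ht]; exact gs.l
      have c1 := child 1 Fl.self { s with t := t₁, t' := t₁ } (by rw [eF]; simp) one_ne_zero
        ⟨gt.2.1, gt.2.1, gs.A, gs.A'⟩ hd.M hd.M'
      have c0 := child 1 Fl.self { s with t := t₀, t' := t₀ } (by rw [eF]; simp) one_ne_zero
        ⟨gt.2.2, gt.2.2, gs.A, gs.A'⟩ hd.M hd.M'
      have z1 := UX.mean' (wr := wr) hp0 gt.2.1 gt.2.2 0 0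
      have z0 := UX.mean' (wr := wr) hp0 gt.2.2 gt.2.1 0 0
      have k1 := UX.addR gt.2.1 gt.2.2 gt c1 z1
      have k0 := UX.addR gt.2.1 gt.2.2 gt z0 c0
      have key := UX.addL gt.2.1 gt.2.2 gt k1 k0
      simp only [Function.iterate_zero, id_eq] at key
      rw [← EE_addR hp0 gt.2.1 gt.2.2 gt.2.1, ← EE_addR hp0 gt.2.1 gt.2.2 gt.2.2,
        ← EE_addL hp0 gt.2.1 gt.2.2 gt, ← ht] at key
      rw [hd.t]
      refine UX.of key (le_of_eq ?_)
      rw [WF_eq0, eF]
      have e1 : xX wr stp (Fl.self, s) = 0 := rfl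
      rw [e1]
      simp only [List.map_cons, List.map_nil, List.sum_cons, List.sum_nil]
      ring
    · rw [hv] at e'
      have hPL : ¬ s.isPL := by unfold St.isPL; simp only [hv, e']; exact fun h => h
      have hPR : ¬ s.isPR := by unfold St.isPR; simp only [hv, e']; exact fun h => h
      have e : nxt0 stp s = [(1, { s with t := u, t' := u })] := by
        simp [nxt0, hl, hs, hPL, hPR, hv, e']
      have eF : nxF0 stp (Fl.self, s) = [(1, (Fl.self, { s with t := u, t' := u }))] := by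
        simp only [nxF0, e, List.map_cons, List.map_nil]
      have gu : u.All Gd := vw_up_all hv gs.l
      have c1 := child 1 Fl.self { s with t := u, t' := u } (by rw [eF]; simp) one_ne_zero
        ⟨gu, gu, gs.A, gs.A'⟩ hd.M hd.M'
      have key := UX.upL hv gu gs.l (UX.upR hv gu gs.l c1)
      simp only [Function.iterate_zero, id_eq] at key
      rw [EE_upL hv, EE_upR hv] at key
      rw [hd.t]
      refine UX.of key (le_of_eq ?_)
      rw [WF_eq0, eF]
      have e1 : xX wr stp (Fl.self, s) = 0 := rfl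
      rw [e1]
      simp only [List.map_cons, List.map_nil, List.sum_cons, List.sum_nil]
      ring

/-- **the crossing pairs below a node** -/
theorem WF_xX_self {J : Fl × St Λ κ → Prop} (hJ : JW wr Ad μ ν stp J) (hns : Strip29.NoSplit stp)
    (hjt : ∀ s : St Λ κ, Diag s → stp.jt s) {d : DT Λ κ} (hd : d.All Gd)
    (hJ0 : J (Fl.self, selfSt d Finset.univ)) :
    ∃ n, WF stp (xX wr stp) (Fl.self, selfSt d Finset.univ) ≤
      XP (ker (kX wr)) n d.top [((1 : ℝ), d)] [((1 : ℝ), d)] := by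
  have e : (selfSt d Finset.univ : St Λ κ).p = d.top := max_self _
  by_cases hl : d.isLeaf
  · refine ⟨0, ?_⟩
    rw [WF_self_nil (by simp [nxt0, selfSt, hl])]
    exact le_rfl
  · have := xferS hJ hns hjt _ (selfSt d Finset.univ) (Nat.lt_succ_self _) hJ0
      ⟨hd, hd, rfl, rfl⟩ (Diag.self _ _) (fun h => h.elim hl hl)
    rw [e] at this
    exact this

end Crest.Agent.R4P.CrsS26
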