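import Crest.Agent.R4P.WalkB560

/-!
R4 (S0004), powers, helper17, [W-eSHR] / M6 (TOP walk), part 1: **pair-walk certificates with any class
relation**.

`PWRz` = `ClosR442.PWRf` where the relation at the columns is `Rz Z r` for an arbitrary symmetric set `Z`
of pairs of classes (`Z = orel κ` : `Ro r`; `Z = univ` : all pairs, the TOP relation).
`pair_boundZ`, `SelfZ`, `closureZ_root` (nothing is required at the free pulls).
-/

set_option autoImplicit false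
set_option linter.unusedSectionVars false
set_option linter.unusedVariables false
open MeasureTheory Filter Set

namespace Crest.Agent.R4P.TWc17

open Crest.Agent.R4.Tour104 Crest.Agent.R4.Tour758 Crest.Agent.R4.Avg758 Crest.Agent.R4.Clos758
open Crest.Agent.R4.ClosL758 Crest.Agent.R4.ClosG758 Crest.Agent.R4.ClosR758
open Crest.Agent.R4P.ClosR442 Crest.Agent.R4P.ClosP542

variable {Λ κ : Type*} [Fintype Λ] [DecidableEq Λ] [Fintype κ] [DecidableEq κ]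

/-! ### relations of classes -/

/-- pairs of finest worlds whose classes are in `Z` -/
def Rz (Z : Finset (κ × κ)) (r : Λ → κ) : Finset (Λ × Λ) :=
  Finset.univ.filter fun e => (r e.1, r e.2) ∈ Z

/-- symmetric relations of classes -/
def ZS (Z : Finset (κ × κ)) : Prop := ∀ e ∈ Z, (e.2, e.1) ∈ Z

lemma mem_Rz {Z : Finset (κ × κ)} {r : Λ → κ} {e : Λ × Λ} : e ∈ Rz Z r ↔ (r e.1, r e.2) ∈ Z := by
  simp [Rz]

lemma Rz_orel [WRel κ] (r : Λ → κ) : Rz (orel κ) r = Ro r := by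
  ext e
  rw [mem_Rz, mem_orel, mem_Ro]

lemma Rz_univ (r : Λ → κ) : Rz (Finset.univ : Finset (κ × κ)) r = Finset.univ := by
  ext e
  rw [mem_Rz]
  simp

lemma ZS_orel [WRel κ] : ZS (orel κ) := fun e he => mem_orel.2 (WRel.symm (mem_orel.1 he))

lemma ZS_univ : ZS (Finset.univ : Finset (κ × κ)) := fun _ _ => Finset.mem_univ _

lemma Q_Z_sm (Z : Finset (κ × κ)) (r : Λ → κ) {f f' : Λ → ℝ → ℝ} (hf : ∀ j, PB (f j))
    (hf' : ∀ j, PB (f' j)) : Q Z (sm r f) (sm r f') = Q (Rz Z r) f f' := by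
  unfold Q
  rw [Finset.sum_congr rfl fun e _ => I_sm_mul r hf hf' e.1 e.2]
  rw [← Finset.sum_fiberwise_of_maps_to (s := Rz Z r) (t := Z)
    (g := fun e => (r e.1, r e.2)) (fun e he => mem_Rz.1 he)]
  refine Finset.sum_congr rfl fun e he => ?_
  refine Finset.sum_congr ?_ fun _ _ => rfl
  ext z
  simp only [Finset.mem_filter, Finset.mem_univ, true_and, mem_Rz, Prod.ext_iff]
  constructor
  · rintro ⟨h1, h2⟩; exact ⟨by rw [h1, h2]; exact he, h1, h2⟩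
  · rintro ⟨-, h1, h2⟩; exact ⟨h1, h2⟩

lemma Rz_swap {Z : Finset (κ × κ)} (hZ : ZS Z) (r : Λ → κ) (f f' : Λ → ℝ → ℝ) :
    Q (Rz Z r) f f' = Q (Rz Z r) f' f := by
  unfold Q
  refine Finset.sum_nbij' (fun e => (e.2, e.1)) (fun e => (e.2, e.1)) ?_ ?_ ?_ ?_ ?_
  · intro e he
    exact mem_Rz.2 (hZ _ (mem_Rz.1 he))
  · intro e he
    exact mem_Rz.2 (hZ _ (mem_Rz.1 he))
  · intro e _; rfl
  · intro e _; rfl
  · intro e _; congr 1; funext x; ring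

/-- **the free column**: an identity -/
theorem Q_freeZ (Z : Finset (κ × κ)) {P M M' : ℕ} (hM : 0 < M) (hM' : 0 < M') {w : ℝ} {r : Λ → κ}
    {a b v f : Λ → ℝ → ℝ} {B G : κ → ℝ → ℝ} (h : BrOk P w r a b v B G) (ha : ∀ j, PB (a j))
    (hb : ∀ j, PB (b j)) (hf : ∀ j, PB (f j)) :
    Q (Rz Z r) (avg (P * M) v) (avg M' f) =
      (1 - w) * Q (Rz Z r) (avg M a) (avg M' f) + w * Q (Rz Z r) (avg M b) (avg M' f) := by
  have hPM : 0 < P * M := Nat.mul_pos h.hP hM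
  have pv := PB_avg hPM h.pv
  have pa := PB_avg hM ha
  have pb := PB_avg hM hb
  have pf := PB_avg hM' hf
  rw [← Q_Z_sm Z r pv pf, ← Q_Z_sm Z r pa pf, ← Q_Z_sm Z r pb pf]
  exact Q_lin_left (by linarith [h.w1]) h.w0 (PB_sm pa r) (PB_sm pb r) (PB_sm pf r)
    (fun c y => avg_free hM h c y)

/-! ### pair-walk certificates -/

/-- certificates of pair walks of restricted populations; `e` is the total error -/
inductive PWRz (Ad : TrG Λ κ → Finset Λ → Prop) (μ : TrG Λ κ → Finset Λ → ℝ) (ν : TrG Λ κ → ℝ)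
    (B : ℝ) :
    ℕ → ℕ → Finset (Λ × Λ) → TrG Λ κ → Finset Λ → TrG Λ κ → Finset Λ → ℝ → Prop
  | stop {M M' : ℕ} {R : Finset (Λ × Λ)} {t t' : TrG Λ κ} {A A' : Finset Λ} {e : ℝ}
      (h : Q R (avg M (rv A t.val)) (avg M' (rv A' t'.val)) ≤
        B * Lh (μ t A) (ν t) (μ t' A') (ν t') + e) : PWRz Ad μ ν B M M' R t A t' A' e
  | leafL {M M' : ℕ} {R : Finset (Λ × Λ)} {r : Λ → κ} {f : Λ → ℝ → ℝ} {t' : TrG Λ κ}
      {A A' : Finset Λ} {e : ℝ} (he : 0 ≤ e) : PWRz Ad μ ν B M M' R (.leaf r f) A t' A' e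
  | leafR {M M' : ℕ} {R : Finset (Λ × Λ)} {r : Λ → κ} {f : Λ → ℝ → ℝ} {t : TrG Λ κ}
      {A A' : Finset Λ} {e : ℝ} (he : 0 ≤ e) : PWRz Ad μ ν B M M' R t A (.leaf r f) A' e
  | shrink {M M' : ℕ} {R R' : Finset (Λ × Λ)} {t t' : TrG Λ κ} {A A' : Finset Λ} {e e' : ℝ}
      (h : PWRz Ad μ ν B M M' R' t A t' A' e')
      (he : e' + Q (R \ R') (avg M (rv A t.val)) (avg M' (rv A' t'.val)) ≤ e) :
      PWRz Ad μ ν B M M' R t A t' A' e
  | col2 {Z : Finset (κ × κ)} (hZ : ZS Z) {M M' P : ℕ} {w w' : ℝ} {r : Λ → κ} {t₁ t₀ t₁' t₀' : TrG Λ κ} {v v' : Λ → ℝ → ℝ}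
      {B₁ G B₁' G' : κ → ℝ → ℝ} {A A' : Finset Λ} {e₁₁ e₁₀ e₀₁ e₀₀ e : ℝ}
      (hc : Nat.Coprime P M) (hc' : Nat.Coprime P M')
      (h₁₁ : PWRz Ad μ ν B M M' (Rz Z r) t₁ A t₁' A' e₁₁) (h₁₀ : PWRz Ad μ ν B M M' (Rz Z r) t₁ A t₀' A' e₁₀)
      (h₀₁ : PWRz Ad μ ν B M M' (Rz Z r) t₀ A t₁' A' e₀₁) (h₀₀ : PWRz Ad μ ν B M M' (Rz Z r) t₀ A t₀' A' e₀₀)
      (he : Q Z (avg M (rk A r G)) (avg M' (rk A' r G')) + (1 - w) * (1 - w') * e₁₁ +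
        (1 - w) * w' * e₁₀ + w * (1 - w') * e₀₁ + w * w' * e₀₀ ≤ e) :
      PWRz Ad μ ν B M M' (Rz Z r) (.br P w r t₁ t₀ v B₁ G) A (.br P w' r t₁' t₀' v' B₁' G') A' e
  | colL {Z : Finset (κ × κ)} (hZ : ZS Z) {M M' P : ℕ} {w : ℝ} {r : Λ → κ} {t₁ t₀ t' : TrG Λ κ} {v : Λ → ℝ → ℝ}
      {B₁ G : κ → ℝ → ℝ} {A A' : Finset Λ} {e₁ e₀ e : ℝ} (hc : Nat.Coprime P M)
      (h₁ : PWRz Ad μ ν B M (P * M') (Rz Z r) t₁ A t' A' e₁)
      (h₀ : PWRz Ad μ ν B M (P * M') (Rz Z r) t₀ A t' A' e₀)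
      (he : os Z P (avg M (rk A r G)) (sm r (avg M' (rv A' t'.val))) + (1 - w) * e₁ +
        w * e₀ ≤ e) :
      PWRz Ad μ ν B M M' (Rz Z r) (.br P w r t₁ t₀ v B₁ G) A t' A' e
  | colR {Z : Finset (κ × κ)} (hZ : ZS Z) {M M' P : ℕ} {w : ℝ} {r : Λ → κ} {t t₁' t₀' : TrG Λ κ} {v' : Λ → ℝ → ℝ}
      {B₁' G' : κ → ℝ → ℝ} {A A' : Finset Λ} {e₁ e₀ e : ℝ} (hc : Nat.Coprime P M')
      (h₁ : PWRz Ad μ ν B (P * M) M' (Rz Z r) t A t₁' A' e₁)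
      (h₀ : PWRz Ad μ ν B (P * M) M' (Rz Z r) t A t₀' A' e₀)
      (he : os Z P (avg M' (rk A' r G')) (sm r (avg M (rv A t.val))) + (1 - w) * e₁ +
        w * e₀ ≤ e) :
      PWRz Ad μ ν B M M' (Rz Z r) t A (.br P w r t₁' t₀' v' B₁' G') A' e
  | dec {M M' : ℕ} {R : Finset (Λ × Λ)} {t t₁ t₀ t' t₁' t₀' : TrG Λ κ}
      {A A₁ A₀ A' A₁' A₀' : Finset Λ} {e₁ e₀ x₁₀ x₀₁ e : ℝ}
      (hd : Dec Ad t A t₁ A₁ t₀ A₀) (hd' : Dec Ad t' A' t₁' A₁' t₀' A₀')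
      (h₁ : PWRz Ad μ ν B M M' R t₁ A₁ t₁' A₁' e₁) (h₀ : PWRz Ad μ ν B M M' R t₀ A₀ t₀' A₀' e₀)
      (hx : Q R (avg M (rv A₁ t₁.val)) (avg M' (rv A₀' t₀'.val)) ≤
        B * (μ t₁ A₁ * μ t₀' A₀') + x₁₀)
      (hy : Q R (avg M (rv A₀ t₀.val)) (avg M' (rv A₁' t₁'.val)) ≤
        B * (μ t₀ A₀ * μ t₁' A₁') + x₀₁)
      (he : e₁ + e₀ + x₁₀ + x₀₁ ≤ e) : PWRz Ad μ ν B M M' R t A t' A' e
  | fcL {Z : Finset (κ × κ)} (hZ : ZS Z) {M₁ M' P : ℕ} {w : ℝ} {r : Λ → κ} {t₁ t₀ t' : TrG Λ κ} {v : Λ → ℝ → ℝ}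
      {B₁ G : κ → ℝ → ℝ} {A A' : Finset Λ} {e₁ e₀ e : ℝ}
      (h₁ : PWRz Ad μ ν B M₁ M' (Rz Z r) t₁ A t' A' e₁)
      (h₀ : PWRz Ad μ ν B M₁ M' (Rz Z r) t₀ A t' A' e₀)
      (he : (1 - w) * e₁ + w * e₀ ≤ e) :
      PWRz Ad μ ν B (P * M₁) M' (Rz Z r) (.br P w r t₁ t₀ v B₁ G) A t' A' e
  | fcR {Z : Finset (κ × κ)} (hZ : ZS Z) {M M₁' P : ℕ} {w : ℝ} {r : Λ → κ} {t t₁' t₀' : TrG Λ κ} {v' : Λ → ℝ → ℝ}
      {B₁' G' : κ → ℝ → ℝ} {A A' : Finset Λ} {e₁ e₀ e : ℝ}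
      (h₁ : PWRz Ad μ ν B M M₁' (Rz Z r) t A t₁' A' e₁)
      (h₀ : PWRz Ad μ ν B M M₁' (Rz Z r) t A t₀' A' e₀)
      (he : (1 - w) * e₁ + w * e₀ ≤ e) :
      PWRz Ad μ ν B M (P * M₁') (Rz Z r) t A (.br P w r t₁' t₀' v' B₁' G') A' e

set_option maxHeartbeats 2000000 in
/-- **pair walk bound** for restricted populations -/
theorem pair_boundZ {Ad : TrG Λ κ → Finset Λ → Prop} {μ : TrG Λ κ → Finset Λ → ℝ}
    {ν : TrG Λ κ → ℝ} {δ : TrG Λ κ → Finset Λ → ℝ} {C K B β : ℝ} (hC : 0 ≤ C) (hK : 0 ≤ K)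
    (hβ : Real.sqrt (C * K) ≤ β) (hB : B ≤ β) {M M' : ℕ} {R : Finset (Λ × Λ)}
    {t t' : TrG Λ κ} {A A' : Finset Λ} {e : ℝ} (hw : PWRz Ad μ ν B M M' R t A t' A' e)
    (hM : 0 < M) (hM' : 0 < M')
    (h : t.Ok) (h' : t'.Ok) (hN : t.All (AdN Ad)) (hN' : t'.All (AdN Ad)) (hA : Ad t A)
    (hA' : Ad t' A') (hm : t.All (MassOk Ad μ ν)) (hm' : t'.All (MassOk Ad μ ν))
    (hd : t.All (SlackR Ad δ)) (hd' : t'.All (SlackR Ad δ))
    (hl : t.All (LeafSMR Ad μ ν C)) (hl' : t'.All (LeafSMR Ad μ ν C))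
    (hs : t.All (SMR Ad μ ν δ K)) (hs' : t'.All (SMR Ad μ ν δ K)) :
    Q R (avg M (rv A t.val)) (avg M' (rv A' t'.val)) ≤ β * Po μ ν δ t A t' A' + e := by
  have hβ0 : 0 ≤ β := (Real.sqrt_nonneg _).trans hβ
  induction hw with
  | @stop M M' R t t' A A' e hst =>
    have a := Lh_nonneg (hm.self.base.nn _ hA) hm.self.base.nu (hm'.self.base.nn _ hA')
      hm'.self.base.nu
    have b := Lh_le_Po (μ := μ) (ν := ν) (δ := δ) (t := t) (t' := t') (A := A) (A' := A')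
    have c := mul_le_mul_of_nonneg_right hB a
    have d := mul_le_mul_of_nonneg_left b hβ0
    linarith
  | @leafL M M' R r f t' A A' e he =>
    have a1 := Lh_nonneg (hm.self.base.nn _ hA) hm.self.base.nu (hm'.self.base.nn _ hA')
      hm'.self.base.nu
    have a2 := mul_nonneg (gh_nonneg (μ (TrG.leaf r f) A) (ν (TrG.leaf r f)))
      (Real.sqrt_nonneg (δ t' A'))
    have a3 := mul_nonneg (gh_nonneg (μ t' A') (ν t'))
      (Real.sqrt_nonneg (δ (TrG.leaf r f) A))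
    have hst := Q_stopR (R := R) hM hM' hC hK h h' (hd'.self.base.1 _ hA')
      (hm.self.base.nn _ hA) hm.self.base.nu (hm'.self.base.nn _ hA') hm'.self.base.nu (hl _ hA)
      (hs'.self _ hA')
    have a4 := mul_le_mul_of_nonneg_right hβ (add_nonneg a1 a2)
    have a5 := mul_nonneg hβ0 a3
    unfold Po
    nlinarith
  | @leafR M M' R r f t A A' e he =>
    have a1 := Lh_nonneg (hm.self.base.nn _ hA) hm.self.base.nu (hm'.self.base.nn _ hA')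
      hm'.self.base.nu
    have a2 := mul_nonneg (gh_nonneg (μ (TrG.leaf r f) A') (ν (TrG.leaf r f)))
      (Real.sqrt_nonneg (δ t A))
    have a3 := mul_nonneg (gh_nonneg (μ t A) (ν t))
      (Real.sqrt_nonneg (δ (TrG.leaf r f) A'))
    have hst := Q_stopR' (R := R) hM hM' hC hK h h' (hd.self.base.1 _ hA)
      (hm.self.base.nn _ hA) hm.self.base.nu (hm'.self.base.nn _ hA') hm'.self.base.nu
      (hs.self _ hA) (hl' _ hA')
    have a4 := mul_le_mul_of_nonneg_right hβ (add_nonneg a1 a2)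
    have a5 := mul_nonneg hβ0 a3
    unfold Po
    nlinarith
  | @shrink M M' R R' t t' A A' e e' hw he ih =>
    have i := ih hM hM' h h' hN hN' hA hA' hm hm' hd hd' hl hl' hs hs'
    have j := Q_le_sdiff R R' (PB_avg hM (PB_rv (fun j => h.pb j) A))
      (PB_avg hM' (PB_rv (fun j => h'.pb j) A'))
    linarith
  | @col2 Z hZ M M' P w w' r t₁ t₀ t₁' t₀' v v' B₁ G B₁' G' A A' e₁₁ e₁₀ e₀₁ e₀₀ e hc hc' h₁₁ h₁₀ h₀₁
      h₀₀ he ih₁₁ ih₁₀ ih₀₁ ih₀₀ =>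
    obtain ⟨sA, A1, A0⟩ := hN.1 A hA
    obtain ⟨sA', A1', A0'⟩ := hN'.1 A' hA'
    obtain ⟨k1, k0, hb⟩ := h
    obtain ⟨k1', k0', hb'⟩ := h'
    have hr := BrOk.res hb sA
    have hr' := BrOk.res hb' sA'
    have i11 := ih₁₁ hM hM' k1 k1' hN.2.1 hN'.2.1 A1 A1' hm.2.1 hm'.2.1 hd.2.1 hd'.2.1 hl.2.1
      hl'.2.1 hs.2.1 hs'.2.1
    have i10 := ih₁₀ hM hM' k1 k0' hN.2.1 hN'.2.2 A1 A0' hm.2.1 hm'.2.2 hd.2.1 hd'.2.2 hl.2.1
      hl'.2.2 hs.2.1 hs'.2.2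
    have i01 := ih₀₁ hM hM' k0 k1' hN.2.2 hN'.2.1 A0 A1' hm.2.2 hm'.2.1 hd.2.2 hd'.2.1 hl.2.2
      hl'.2.1 hs.2.2 hs'.2.1
    have i00 := ih₀₀ hM hM' k0 k0' hN.2.2 hN'.2.2 A0 A0' hm.2.2 hm'.2.2 hd.2.2 hd'.2.2 hl.2.2
      hl'.2.2 hs.2.2 hs'.2.2
    have hq : 0 ≤ 1 - w := by linarith [hb.w1]
    have hq' : 0 ≤ 1 - w' := by linarith [hb'.w1]
    have p1 := PB_avg hM (PB_rv (fun j => k1.pb j) A)
    have p0 := PB_avg hM (PB_rv (fun j => k0.pb j) A)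
    have p1' := PB_avg hM' (PB_rv (fun j => k1'.pb j) A')
    have p0' := PB_avg hM' (PB_rv (fun j => k0'.pb j) A')
    have pv := PB_avg hM hr.pv
    have pv' := PB_avg hM' hr'.pv
    have key := Q_col2_le (R := Z) hb.hP hb.w0 hb.w1 hb'.w0 hb'.w1
      (fun c => hr.avg_col hM hc c) (fun c => hr'.avg_col hM' hc' c)
      (PB_sm p1 r) (PB_sm p0 r) (PB_sm p1' r) (PB_sm p0' r)
      (fun c y => hr.avg_mean hM c y) (fun c y => hr'.avg_mean hM' c y)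
    rw [Q_Z_sm Z r pv pv', Q_Z_sm Z r p1 p1', Q_Z_sm Z r p1 p0', Q_Z_sm Z r p0 p1',
      Q_Z_sm Z r p0 p0'] at key
    have w11 := mul_le_mul_of_nonneg_left i11 (mul_nonneg hq hq')
    have w10 := mul_le_mul_of_nonneg_left i10 (mul_nonneg hq hb'.w0)
    have w01 := mul_le_mul_of_nonneg_left i01 (mul_nonneg hb.w0 hq')
    have w00 := mul_le_mul_of_nonneg_left i00 (mul_nonneg hb.w0 hb'.w0)
    have hPot := Po_col2 (δ := δ) (t := .br P w r t₁ t₀ v B₁ G) (t' := .br P w' r t₁' t₀' v' B₁' G')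
      hb.w0 hb.w1 hb'.w0 hb'.w1 (hm.2.1.self.base.nn _ A1) (hm.2.2.self.base.nn _ A0)
      (hm'.2.1.self.base.nn _ A1') (hm'.2.2.self.base.nn _ A0') hm.2.1.self.base.nu
      hm.2.2.self.base.nu hm'.2.1.self.base.nu hm'.2.2.self.base.nu (hm.1.2.1 _ hA) hm.1.2.2
      (hm'.1.2.1 _ hA') hm'.1.2.2
      (hd.2.1.self.base.1 _ A1) (hd.2.2.self.base.1 _ A0) (hd'.2.1.self.base.1 _ A1')
      (hd'.2.2.self.base.1 _ A0') (hd.1.2 _ hA) (hd'.1.2 _ hA')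
    have hPot' := mul_le_mul_of_nonneg_left hPot hβ0
    show Q (Rz Z r) (avg M (rv A v)) (avg M' (rv A' v')) ≤ _
    have eG : Q Z (fun c => Ep M (rk A r G c)) (fun c => Ep M' (rk A' r G' c)) =
      Q Z (avg M (rk A r G)) (avg M' (rk A' r G')) := rfl
    rw [eG] at key
    linarith
  | @colL Z hZ M M' P w r t₁ t₀ t' v B₁ G A A' e₁ e₀ e hc h₁ h₀ he ih₁ ih₀ =>
    obtain ⟨sA, A1, A0⟩ := hN.1 A hA
    obtain ⟨k1, k0, hb⟩ := h
    have hr := BrOk.res hb sA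
    have hPM : 0 < P * M' := Nat.mul_pos hb.hP hM'
    have i1 := ih₁ hM hPM k1 h' hN.2.1 hN' A1 hA' hm.2.1 hm' hd.2.1 hd' hl.2.1 hl'
      hs.2.1 hs'
    have i0 := ih₀ hM hPM k0 h' hN.2.2 hN' A0 hA' hm.2.2 hm' hd.2.2 hd' hl.2.2 hl'
      hs.2.2 hs'
    have hq : 0 ≤ 1 - w := by linarith [hb.w1]
    have q' := PB_rv (fun j => h'.pb j) A'
    have p1 := PB_avg hM (PB_rv (fun j => k1.pb j) A)
    have p0 := PB_avg hM (PB_rv (fun j => k0.pb j) A)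
    have pv := PB_avg hM hr.pv
    have pt' := PB_avg hM' q'
    have key := Q_col1_eq (R := Z) hb.hP hb.w0 hb.w1
      (fun c => hr.avg_col hM hc c) (PB_sm pt' r) (PB_sm p1 r) (PB_sm p0 r)
      (fun c y => hr.avg_mean hM c y)
    have pPM := PB_avg hPM q'
    have eF : avg P (sm r (avg M' (rv A' t'.val))) = sm r (avg (P * M') (rv A' t'.val)) := by
      funext c y
      unfold avg
      have : sm r (fun j => Ep M' (rv A' t'.val j)) c = Ep M' (sm r (rv A' t'.val) c) :=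
        sm_avg r (rv A' t'.val) c
      rw [this, Ep_mul hb.hP hM']
      exact (congrFun (sm_avg (M := P * M') r (rv A' t'.val) c) y).symm
    rw [eF, Q_Z_sm Z r pv pt', Q_Z_sm Z r p1 pPM, Q_Z_sm Z r p0 pPM] at key
    have w1 := mul_le_mul_of_nonneg_left i1 hq
    have w0 := mul_le_mul_of_nonneg_left i0 hb.w0
    have hPot := Po_col1 (δ := δ) (t := .br P w r t₁ t₀ v B₁ G) (t' := t') (A' := A')
      hb.w0 hb.w1 (hm.2.1.self.base.nn _ A1) (hm.2.2.self.base.nn _ A0) (hm'.self.base.nn _ hA')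
      hm.2.1.self.base.nu hm.2.2.self.base.nu hm'.self.base.nu (hm.1.2.1 _ hA) hm.1.2.2
      (hd.2.1.self.base.1 _ A1) (hd.2.2.self.base.1 _ A0)
      (hd'.self.base.1 _ hA') (hd.1.2 _ hA)
    have hPot' := mul_le_mul_of_nonneg_left hPot hβ0
    show Q (Rz Z r) (avg M (rv A v)) (avg M' (rv A' t'.val)) ≤ _
    have eG : os Z P (fun c => Ep M (rk A r G c)) (sm r (avg M' (rv A' t'.val))) =
      os Z P (avg M (rk A r G)) (sm r (avg M' (rv A' t'.val))) := rfl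
    rw [eG] at key
    linarith
  | @colR Z hZ M M' P w r t t₁' t₀' v' B₁' G' A A' e₁ e₀ e hc h₁ h₀ he ih₁ ih₀ =>
    obtain ⟨sA, A1, A0⟩ := hN'.1 A' hA'
    obtain ⟨k1, k0, hb⟩ := h'
    have hr := BrOk.res hb sA
    have hPM : 0 < P * M := Nat.mul_pos hb.hP hM
    have i1 := ih₁ hPM hM' h k1 hN hN'.2.1 hA A1 hm hm'.2.1 hd hd'.2.1 hl hl'.2.1
      hs hs'.2.1
    have i0 := ih₀ hPM hM' h k0 hN hN'.2.2 hA A0 hm hm'.2.2 hd hd'.2.2 hl hl'.2.2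
      hs hs'.2.2
    have hq : 0 ≤ 1 - w := by linarith [hb.w1]
    have q' := PB_rv (fun j => h.pb j) A
    have p1 := PB_avg hM' (PB_rv (fun j => k1.pb j) A')
    have p0 := PB_avg hM' (PB_rv (fun j => k0.pb j) A')
    have pv := PB_avg hM' hr.pv
    have pt' := PB_avg hM q'
    have key := Q_col1_eq (R := Z) hb.hP hb.w0 hb.w1
      (fun c => hr.avg_col hM' hc c) (PB_sm pt' r) (PB_sm p1 r) (PB_sm p0 r)
      (fun c y => hr.avg_mean hM' c y)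
    have pPM := PB_avg hPM q'
    have eF : avg P (sm r (avg M (rv A t.val))) = sm r (avg (P * M) (rv A t.val)) := by
      funext c y
      unfold avg
      have : sm r (fun j => Ep M (rv A t.val j)) c = Ep M (sm r (rv A t.val) c) :=
        sm_avg r (rv A t.val) c
      rw [this, Ep_mul hb.hP hM]
      exact (congrFun (sm_avg (M := P * M) r (rv A t.val) c) y).symm
    rw [eF, Q_Z_sm Z r pv pt', Q_Z_sm Z r p1 pPM, Q_Z_sm Z r p0 pPM] at key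
    rw [Rz_swap hZ r (avg M' (rv A' v')) , Rz_swap hZ r (avg M' (rv A' t₁'.val)),
      Rz_swap hZ r (avg M' (rv A' t₀'.val))] at key
    have w1 := mul_le_mul_of_nonneg_left i1 hq
    have w0 := mul_le_mul_of_nonneg_left i0 hb.w0
    have hPot := Po_col1 (δ := δ) (t := .br P w r t₁' t₀' v' B₁' G') (t' := t) (A' := A)
      hb.w0 hb.w1 (hm'.2.1.self.base.nn _ A1) (hm'.2.2.self.base.nn _ A0) (hm.self.base.nn _ hA)
      hm'.2.1.self.base.nu hm'.2.2.self.base.nu hm.self.base.nu (hm'.1.2.1 _ hA') hm'.1.2.2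
      (hd'.2.1.self.base.1 _ A1) (hd'.2.2.self.base.1 _ A0)
      (hd.self.base.1 _ hA) (hd'.1.2 _ hA')
    rw [Po_symm μ ν δ t₁' t, Po_symm μ ν δ t₀' t, Po_symm μ ν δ _ t] at hPot
    have hPot' := mul_le_mul_of_nonneg_left hPot hβ0
    show Q (Rz Z r) (avg M (rv A t.val)) (avg M' (rv A' v')) ≤ _
    have eG : os Z P (fun c => Ep M' (rk A' r G' c)) (sm r (avg M (rv A t.val))) =
      os Z P (avg M' (rk A' r G')) (sm r (avg M (rv A t.val))) := rfl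
    rw [eG] at key
    linarith
  | @dec M M' R t t₁ t₀ t' t₁' t₀' A A₁ A₀ A' A₁' A₀' e₁ e₀ x₁₀ x₀₁ e hdc hdc' h₁ h₀ hx hy he
      ih₁ ih₀ =>
    have k := hdc.ok h
    have k' := hdc'.ok h'
    have ad := hdc.ad hN hA
    have ad' := hdc'.ad hN' hA'
    have i1 := ih₁ hM hM' k.1 k'.1 (hdc.all hN).1 (hdc'.all hN').1 ad.1 ad'.1 (hdc.all hm).1
      (hdc'.all hm').1 (hdc.all hd).1 (hdc'.all hd').1 (hdc.all hl).1 (hdc'.all hl').1 (hdc.all hs).1 (hdc'.all hs').1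
    have i0 := ih₀ hM hM' k.2 k'.2 (hdc.all hN).2 (hdc'.all hN').2 ad.2 ad'.2 (hdc.all hm).2
      (hdc'.all hm').2 (hdc.all hd).2 (hdc'.all hd').2 (hdc.all hl).2 (hdc'.all hl').2 (hdc.all hs).2 (hdc'.all hs').2
    have p1 := PB_avg hM (PB_rv (fun j => k.1.pb j) A₁)
    have p0 := PB_avg hM (PB_rv (fun j => k.2.pb j) A₀)
    have p1' := PB_avg hM' (PB_rv (fun j => k'.1.pb j) A₁')
    have p0' := PB_avg hM' (PB_rv (fun j => k'.2.pb j) A₀')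
    have eQ : Q R (avg M (rv A t.val)) (avg M' (rv A' t'.val)) =
        Q R (avg M (rv A₁ t₁.val)) (avg M' (rv A₁' t₁'.val)) +
        Q R (avg M (rv A₁ t₁.val)) (avg M' (rv A₀' t₀'.val)) +
        (Q R (avg M (rv A₀ t₀.val)) (avg M' (rv A₁' t₁'.val)) +
        Q R (avg M (rv A₀ t₀.val)) (avg M' (rv A₀' t₀'.val))) := by
      rw [hdc.val, hdc'.val, avg_add, avg_add,
        Q_add_left p1 p0 (fun j => (p1' j).add (p0' j)), Q_add_right p1 p1' p0',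
        Q_add_right p0 p1' p0']
    have m1 := (hdc.all hm).1.self.base.nn _ ad.1
    have m0 := (hdc.all hm).2.self.base.nn _ ad.2
    have m1' := (hdc'.all hm').1.self.base.nn _ ad'.1
    have m0' := (hdc'.all hm').2.self.base.nn _ ad'.2
    have y10 := mul_le_mul_of_nonneg_right hB (mul_nonneg m1 m0')
    have y01 := mul_le_mul_of_nonneg_right hB (mul_nonneg m0 m1')
    have hPot := Po_dec (δ := δ) hdc hdc' hm hm' hd hd' hN hN' hA hA'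
    have hPot' := mul_le_mul_of_nonneg_left hPot hβ0
    rw [eQ]
    linarith
  | @fcL Z hZ M₁ M' P w r t₁ t₀ t' v B₁ G A A' e₁ e₀ e h₁ h₀ he ih₁ ih₀ =>
    obtain ⟨sA, A1, A0⟩ := hN.1 A hA
    obtain ⟨k1, k0, hb⟩ := h
    have hr := BrOk.res hb sA
    have hM1 : 0 < M₁ := Nat.pos_of_mul_pos_left hM
    have i1 := ih₁ hM1 hM' k1 h' hN.2.1 hN' A1 hA' hm.2.1 hm' hd.2.1 hd' hl.2.1 hl'
      hs.2.1 hs'
    have i0 := ih₀ hM1 hM' k0 h' hN.2.2 hN' A0 hA' hm.2.2 hm' hd.2.2 hd' hl.2.2 hl'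
      hs.2.2 hs'
    have hq : 0 ≤ 1 - w := by linarith [hb.w1]
    have key := Q_freeZ Z hM1 hM' hr (PB_rv (fun j => k1.pb j) A) (PB_rv (fun j => k0.pb j) A)
      (PB_rv (fun j => h'.pb j) A')
    have w1 := mul_le_mul_of_nonneg_left i1 hq
    have w0 := mul_le_mul_of_nonneg_left i0 hb.w0
    have hPot := Po_col1 (δ := δ) (t := .br P w r t₁ t₀ v B₁ G) (t' := t') (A' := A')
      hb.w0 hb.w1 (hm.2.1.self.base.nn _ A1) (hm.2.2.self.base.nn _ A0) (hm'.self.base.nn _ hA')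
      hm.2.1.self.base.nu hm.2.2.self.base.nu hm'.self.base.nu (hm.1.2.1 _ hA) hm.1.2.2
      (hd.2.1.self.base.1 _ A1) (hd.2.2.self.base.1 _ A0)
      (hd'.self.base.1 _ hA') (hd.1.2 _ hA)
    have hPot' := mul_le_mul_of_nonneg_left hPot hβ0
    show Q (Rz Z r) (avg (P * M₁) (rv A v)) (avg M' (rv A' t'.val)) ≤ _
    rw [key]
    linarith
  | @fcR Z hZ M M₁' P w r t t₁' t₀' v' B₁' G' A A' e₁ e₀ e h₁ h₀ he ih₁ ih₀ =>
    obtain ⟨sA, A1, A0⟩ := hN'.1 A' hA'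
    obtain ⟨k1, k0, hb⟩ := h'
    have hr := BrOk.res hb sA
    have hM1 : 0 < M₁' := Nat.pos_of_mul_pos_left hM'
    have i1 := ih₁ hM hM1 h k1 hN hN'.2.1 hA A1 hm hm'.2.1 hd hd'.2.1 hl hl'.2.1
      hs hs'.2.1
    have i0 := ih₀ hM hM1 h k0 hN hN'.2.2 hA A0 hm hm'.2.2 hd hd'.2.2 hl hl'.2.2
      hs hs'.2.2
    have hq : 0 ≤ 1 - w := by linarith [hb.w1]
    have key := Q_freeZ Z hM1 hM hr (PB_rv (fun j => k1.pb j) A') (PB_rv (fun j => k0.pb j) A')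
      (PB_rv (fun j => h.pb j) A)
    rw [Rz_swap hZ r (avg (P * M₁') (rv A' v')), Rz_swap hZ r (avg M₁' (rv A' t₁'.val)),
      Rz_swap hZ r (avg M₁' (rv A' t₀'.val))] at key
    have w1 := mul_le_mul_of_nonneg_left i1 hq
    have w0 := mul_le_mul_of_nonneg_left i0 hb.w0
    have hPot := Po_col1 (δ := δ) (t := .br P w r t₁' t₀' v' B₁' G') (t' := t) (A' := A)
      hb.w0 hb.w1 (hm'.2.1.self.base.nn _ A1) (hm'.2.2.self.base.nn _ A0) (hm.self.base.nn _ hA)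
      hm'.2.1.self.base.nu hm'.2.2.self.base.nu hm.self.base.nu (hm'.1.2.1 _ hA') hm'.1.2.2
      (hd'.2.1.self.base.1 _ A1) (hd'.2.2.self.base.1 _ A0)
      (hd.self.base.1 _ hA) (hd'.1.2 _ hA')
    rw [Po_symm μ ν δ t₁' t, Po_symm μ ν δ t₀' t, Po_symm μ ν δ _ t] at hPot
    have hPot' := mul_le_mul_of_nonneg_left hPot hβ0
    show Q (Rz Z r) (avg M (rv A t.val)) (avg (P * M₁') (rv A' v')) ≤ _
    rw [key]
    linarith

/-! ### closure -/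

/-- certificate of the self pair of a node, population `A` -/
def SelfZ [WRel κ] (Ad : TrG Λ κ → Finset Λ → Prop) (μ : TrG Λ κ → Finset Λ → ℝ) (ν : TrG Λ κ → ℝ)
    (B : ℝ) : TrG Λ κ → Finset Λ → ℝ → Prop
  | .leaf _ _, _, e => 0 ≤ e
  | .br _ w r t₁ t₀ _ _ G, A, e => ∃ e₁₁ e₁₀ e₀₁ e₀₀ : ℝ,
      PWRz Ad μ ν B 1 1 (Ro r) t₁ A t₁ A e₁₁ ∧ PWRz Ad μ ν B 1 1 (Ro r) t₁ A t₀ A e₁₀ ∧
      PWRz Ad μ ν B 1 1 (Ro r) t₀ A t₁ A e₀₁ ∧ PWRz Ad μ ν B 1 1 (Ro r) t₀ A t₀ A e₀₀ ∧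
      Q (orel κ) (rk A r G) (rk A r G) + (1 - w) * (1 - w) * e₁₁ + (1 - w) * w * e₁₀ +
        w * (1 - w) * e₀₁ + w * w * e₀₀ ≤ e
  | .add r t₁ t₀, A, e => ∃ e₁ e₀ x₁₀ x₀₁ : ℝ, PWRz Ad μ ν B 1 1 (Ro r) t₁ A t₁ A e₁ ∧
      PWRz Ad μ ν B 1 1 (Ro r) t₀ A t₀ A e₀ ∧
      Q (Ro r) (rv A t₁.val) (rv A t₀.val) ≤ B * (μ t₁ A * μ t₀ A) + x₁₀ ∧
      Q (Ro r) (rv A t₀.val) (rv A t₁.val) ≤ B * (μ t₀ A * μ t₁ A) + x₀₁ ∧
      e₁ + e₀ + x₁₀ + x₀₁ ≤ e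


set_option maxHeartbeats 1000000 in
/-- **closure with restricted populations**; the error hypothesis may use the conclusion at all
proper descendants; nothing is required at the free pulls. -/
theorem closureZ [WRel κ] {Ad : TrG Λ κ → Finset Λ → Prop} {μ : TrG Λ κ → Finset Λ → ℝ}
    {ν : TrG Λ κ → ℝ} {δ : TrG Λ κ → Finset Λ → ℝ} {C C₀ η K B β : ℝ} (hC : 0 ≤ C)
    (hK : 0 ≤ K) (hCK : C ≤ K) (hβ : Real.sqrt (C * K) ≤ β) (hB : B ≤ β) (hC₀ : 0 ≤ C₀)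
    (hη : 0 ≤ η) (hK2 : C₀ + η + 3 * β ≤ K) (hK3 : 1 + β ≤ K)
    (t : TrG Λ κ) (h : t.Ok) (hN : t.All (AdN Ad)) (hM : t.All (MassOk Ad μ ν))
    (hd : t.All (SlackR Ad δ)) (hl : t.All (LeafSMR Ad μ ν C)) (hl0 : t.All (LeafIn Ad μ C₀))
    (herr : t.All fun r => ¬ PulG r → Below (SMR Ad μ ν δ K) r → ∀ A, Ad r A → A.Nonempty →
      ∃ e, SelfZ Ad μ ν B r A e ∧
        dseR A r + rseR A r + e ≤ η * (μ r A + μ r A * (ν r)) + δ r A) :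
    t.All (SMR Ad μ ν δ K) := by
  have hβ0 : 0 ≤ β := (Real.sqrt_nonneg _).trans hβ
  have hempty : ∀ (r : TrG Λ κ), MassB Ad μ ν r → (∀ A, Ad r A → 0 ≤ δ r A) → Ad r ∅ →
      I (fun x => tt (∅ : Finset Λ) r x ^ 2) ≤ K * (μ r ∅ + μ r ∅ * ν r + δ r ∅) := by
    intro r hr hδ had
    have e : (fun x => tt (∅ : Finset Λ) r x ^ 2) = fun _ => (0 : ℝ) := by
      funext x; simp [tt, rv]
    have e0 : I (fun _ : ℝ => (0 : ℝ)) = 0 := by simp [I]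
    rw [e, e0]
    have := hr.nn _ had
    have h2 := hr.nu
    have h3 := hδ ∅ had
    positivity
  induction t with
  | leaf r f =>
    intro A hA
    have hl' := hl A hA
    have hm := hM.base.nn A hA
    have hh := hM.base.nu
    have hd0 := hd.base.1 A hA
    have h1 := mul_le_mul_of_nonneg_right hCK
      (by positivity : 0 ≤ μ (TrG.leaf r f) A +
        μ (TrG.leaf r f) A * ν (TrG.leaf r f))
    have h2 := mul_nonneg hK hd0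
    linarith
  | br Pc w r t₁ t₀ v B₁ G ih₁ ih₀ =>
    have hOk := h
    obtain ⟨k1, k0, hb⟩ := h
    have s1 := ih₁ k1 hN.2.1 hM.2.1 hd.2.1 hl.2.1 hl0.2.1 herr.2.1
    have s0 := ih₀ k0 hN.2.2 hM.2.2 hd.2.2 hl.2.2 hl0.2.2 herr.2.2
    refine ⟨?_, s1, s0⟩
    by_cases hpul : PulG (TrG.br Pc w r t₁ t₀ v B₁ G)
    · exact pull_SMR hK hpul hOk hN hM hd s1.self
    intro A hA
    rcases A.eq_empty_or_nonempty with rfl | hne
    · exact hempty _ hM.1.1 hd.1.1.1 hA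
    obtain ⟨sA, A1, A0⟩ := hN.1 A hA
    have hr := BrOk.res hb sA
    obtain ⟨e, ⟨e₁₁, e₁₀, e₀₁, e₀₀, c11, c10, c01, c00, he⟩, herr1⟩ :=
      herr.1 hpul ⟨s1, s0⟩ A hA hne
    have i11 := pair_boundZ hC hK hβ hB c11 one_pos one_pos k1 k1 hN.2.1 hN.2.1 A1 A1
      hM.2.1 hM.2.1 hd.2.1 hd.2.1 hl.2.1 hl.2.1 s1 s1
    have i10 := pair_boundZ hC hK hβ hB c10 one_pos one_pos k1 k0 hN.2.1 hN.2.2 A1 A0
      hM.2.1 hM.2.2 hd.2.1 hd.2.2 hl.2.1 hl.2.2 s1 s0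
    have i01 := pair_boundZ hC hK hβ hB c01 one_pos one_pos k0 k1 hN.2.2 hN.2.1 A0 A1
      hM.2.2 hM.2.1 hd.2.2 hd.2.1 hl.2.2 hl.2.1 s0 s1
    have i00 := pair_boundZ hC hK hβ hB c00 one_pos one_pos k0 k0 hN.2.2 hN.2.2 A0 A0
      hM.2.2 hM.2.2 hd.2.2 hd.2.2 hl.2.2 hl.2.2 s0 s0
    rw [avg_one] at i11 i00
    rw [avg_one, avg_one] at i10 i01
    have p1 := PB_rv (fun j => k1.pb j) A
    have p0 := PB_rv (fun j => k0.pb j) A
    have key := Q_col2_le (R := orel κ) hb.hP hb.w0 hb.w1 hb.w0 hb.w1 hr.col hr.col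
      (PB_sm p1 r) (PB_sm p0 r) (PB_sm p1 r) (PB_sm p0 r) hr.mean hr.mean
    rw [Q_orel_sm r hr.pv hr.pv, Q_orel_sm r p1 p1, Q_orel_sm r p1 p0, Q_orel_sm r p0 p1,
      Q_orel_sm r p0 p0] at key
    have hq : 0 ≤ 1 - w := by linarith [hb.w1]
    have w11 := mul_le_mul_of_nonneg_left i11 (mul_nonneg hq hq)
    have w10 := mul_le_mul_of_nonneg_left i10 (mul_nonneg hq hb.w0)
    have w01 := mul_le_mul_of_nonneg_left i01 (mul_nonneg hb.w0 hq)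
    have w00 := mul_le_mul_of_nonneg_left i00 (mul_nonneg hb.w0 hb.w0)
    have hPot := Po_col2 (δ := δ) (t := .br Pc w r t₁ t₀ v B₁ G) (t' := .br Pc w r t₁ t₀ v B₁ G)
      hb.w0 hb.w1 hb.w0 hb.w1 (hM.2.1.self.base.nn _ A1) (hM.2.2.self.base.nn _ A0)
      (hM.2.1.self.base.nn _ A1) (hM.2.2.self.base.nn _ A0) hM.2.1.self.base.nu
      hM.2.2.self.base.nu hM.2.1.self.base.nu hM.2.2.self.base.nu (hM.1.2.1 _ hA) hM.1.2.2
      (hM.1.2.1 _ hA) hM.1.2.2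
      (hd.2.1.self.base.1 _ A1) (hd.2.2.self.base.1 _ A0) (hd.2.1.self.base.1 _ A1)
      (hd.2.2.self.base.1 _ A0) (hd.1.2 _ hA) (hd.1.2 _ hA)
    have hPot' := mul_le_mul_of_nonneg_left hPot hβ0
    refine node_closeR hC₀ hβ0 hK2 hK3 _ hOk hN hM hl0 hA (hd.1.1.1 A hA) herr1 ?_
    show Q (Ro r) (rv A v) (rv A v) ≤ _
    linarith
  | add r t₁ t₀ ih₁ ih₀ =>
    have hOk := h
    obtain ⟨k1, k0⟩ := h
    have s1 := ih₁ k1 hN.2.1 hM.2.1 hd.2.1 hl.2.1 hl0.2.1 herr.2.1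
    have s0 := ih₀ k0 hN.2.2 hM.2.2 hd.2.2 hl.2.2 hl0.2.2 herr.2.2
    refine ⟨?_, s1, s0⟩
    intro A hA
    rcases A.eq_empty_or_nonempty with rfl | hne
    · exact hempty _ hM.1.1 hd.1.1.1 hA
    obtain ⟨sA, A1, A0⟩ := hN.1 A hA
    obtain ⟨e, ⟨e₁, e₀, x₁₀, x₀₁, c1, c0, hx, hy, he⟩, herr1⟩ := herr.1 (fun h => h) ⟨s1, s0⟩ A hA hne
    have i1 := pair_boundZ hC hK hβ hB c1 one_pos one_pos k1 k1 hN.2.1 hN.2.1 A1 A1
      hM.2.1 hM.2.1 hd.2.1 hd.2.1 hl.2.1 hl.2.1 s1 s1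
    have i0 := pair_boundZ hC hK hβ hB c0 one_pos one_pos k0 k0 hN.2.2 hN.2.2 A0 A0
      hM.2.2 hM.2.2 hd.2.2 hd.2.2 hl.2.2 hl.2.2 s0 s0
    rw [avg_one] at i1 i0
    have p1 := PB_rv (fun j => k1.pb j) A
    have p0 := PB_rv (fun j => k0.pb j) A
    have eQ : Q (Ro r) (rv A (TrG.add r t₁ t₀).val) (rv A (TrG.add r t₁ t₀).val) =
        Q (Ro r) (rv A t₁.val) (rv A t₁.val) + Q (Ro r) (rv A t₁.val) (rv A t₀.val) +
        (Q (Ro r) (rv A t₀.val) (rv A t₁.val) + Q (Ro r) (rv A t₀.val) (rv A t₀.val)) := by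
      have e : rv A (TrG.add r t₁ t₀).val = fun j x => rv A t₁.val j x + rv A t₀.val j x :=
        rv_add A t₁.val t₀.val
      rw [e, Q_add_left p1 p0 (fun j => (p1 j).add (p0 j)), Q_add_right p1 p1 p0,
        Q_add_right p0 p1 p0]
    have m1 := hM.2.1.self.base.nn _ A1
    have m0 := hM.2.2.self.base.nn _ A0
    have y10 := mul_le_mul_of_nonneg_right hB (mul_nonneg m1 m0)
    have y01 := mul_le_mul_of_nonneg_right hB (mul_nonneg m0 m1)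
    have hdc : Dec Ad (TrG.add r t₁ t₀) A t₁ A t₀ A := Dec.add
    have hPot := Po_dec (δ := δ) hdc hdc hM hM hd hd hN hN hA hA
    have hPot' := mul_le_mul_of_nonneg_left hPot hβ0
    refine node_closeR hC₀ hβ0 hK2 hK3 _ hOk hN hM hl0 hA (hd.1.1.1 A hA) herr1 ?_
    show Q (Ro r) (rv A (TrG.add r t₁ t₀).val) (rv A (TrG.add r t₁ t₀).val) ≤ _
    rw [eQ]
    linarith

/-- version at the root: `K = 16 (C + C₀ + η + B + 1)` works. -/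
theorem closureZ_root [WRel κ] {Ad : TrG Λ κ → Finset Λ → Prop} {μ : TrG Λ κ → Finset Λ → ℝ}
    {ν : TrG Λ κ → ℝ} {δ : TrG Λ κ → Finset Λ → ℝ}
    {C C₀ η B : ℝ} (hC : 0 ≤ C) (hC₀ : 0 ≤ C₀) (hη : 0 ≤ η) (hB : 0 ≤ B)
    (t : TrG Λ κ) (h : t.Ok) (hN : t.All (AdN Ad)) (hM : t.All (MassOk Ad μ ν))
    (hd : t.All (SlackR Ad δ)) (hl : t.All (LeafSMR Ad μ ν C)) (hl0 : t.All (LeafIn Ad μ C₀))
    (herr : t.All fun r => ¬ PulG r → Below (SMR Ad μ ν δ (16 * (C + C₀ + η + B + 1))) r →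
      ∀ A, Ad r A → A.Nonempty →
      ∃ e, SelfZ Ad μ ν B r A e ∧
        dseR A r + rseR A r + e ≤ η * (μ r A + μ r A * ν r) + δ r A)
    (hU : Ad t Finset.univ) :
    I (fun x => t.tot x ^ 2) ≤ (16 * (C + C₀ + η + B + 1)) *
      (μ t Finset.univ + μ t Finset.univ * ν t + δ t Finset.univ) := by
  set K := 16 * (C + C₀ + η + B + 1) with hKdef
  have hK : 0 ≤ K := by positivity
  have hsq : Real.sqrt (C * K) ≤ K / 4 := by
    rw [show K / 4 = Real.sqrt ((K / 4) ^ 2) from (Real.sqrt_sq (by positivity)).symm]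
    refine Real.sqrt_le_sqrt ?_
    have : C ≤ K / 16 := by rw [hKdef]; linarith
    nlinarith
  have := (closureZ (β := K / 4) hC hK (by rw [hKdef]; linarith) hsq (by rw [hKdef]; linarith) hC₀
    hη (by rw [hKdef]; linarith) (by rw [hKdef]; linarith) t h hN hM hd hl hl0 herr).self
      Finset.univ hU
  rw [tt_univ] at this
  exact this


/-! ### rules -/

section rules
variable {Ad : TrG Λ κ → Finset Λ → Prop} {μ : TrG Λ κ → Finset Λ → ℝ} {ν : TrG Λ κ → ℝ}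
  {B : ℝ} {M M' : ℕ} {R : Finset (Λ × Λ)}

/-- an empty population costs nothing -/
lemma PWRz.emptyR (hB : 0 ≤ B) {t t' : TrG Λ κ} {A : Finset Λ} (hm : MassOk Ad μ ν t)
    (hm' : MassOk Ad μ ν t') (hA : Ad t A) (hE : Ad t' ∅) :
    PWRz Ad μ ν B M M' R t A t' ∅ 0 := by
  refine PWRz.stop ?_
  rw [Q_empty_right]
  have := Lh_nonneg (hm.base.nn _ hA) hm.base.nu (hm'.base.nn _ hE) hm'.base.nu
  positivity

lemma PWRz.emptyL (hB : 0 ≤ B) {t t' : TrG Λ κ} {A' : Finset Λ} (hm : MassOk Ad μ ν t)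
    (hm' : MassOk Ad μ ν t') (hA' : Ad t' A') (hE : Ad t ∅) :
    PWRz Ad μ ν B M M' R t ∅ t' A' 0 := by
  refine PWRz.stop ?_
  rw [Q_empty_left]
  have := Lh_nonneg (hm.base.nn _ hE) hm.base.nu (hm'.base.nn _ hA') hm'.base.nu
  positivity

/-- one part of the left side continues against the whole right side -/
lemma PWRz.decL (hB : 0 ≤ B) {t t₁ t₀ t' : TrG Λ κ} {A A₁ A₀ A' : Finset Λ} {e₁ x e : ℝ}
    (hN : t.All (AdN Ad)) (hm : t.All (MassOk Ad μ ν)) (hm' : t'.All (MassOk Ad μ ν))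
    (hA : Ad t A) (hA' : Ad t' A') (hE : Ad t' ∅)
    (hd : Dec Ad t A t₁ A₁ t₀ A₀) (h₁ : PWRz Ad μ ν B M M' R t₁ A₁ t' A' e₁)
    (hx : Q R (avg M (rv A₀ t₀.val)) (avg M' (rv A' t'.val)) ≤ B * (μ t₀ A₀ * μ t' A') + x)
    (he : e₁ + x ≤ e) : PWRz Ad μ ν B M M' R t A t' A' e := by
  have ad := hd.ad hN hA
  have n1 := (hd.all hm).1.self.base.nn _ ad.1
  have nE := hm'.self.base.nn _ hE
  refine PWRz.dec (x₁₀ := 0) (x₀₁ := x) (e₁ := e₁) (e₀ := 0) hd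
    (Dec.set (A₁ := A') (A₀ := ∅) (by simp) (Finset.disjoint_empty_right _) hA' hE) h₁
    (PWRz.emptyR hB (hd.all hm).2.self hm'.self ad.2 hE) ?_ hx (by linarith)
  rw [Q_empty_right]; positivity

lemma PWRz.decR (hB : 0 ≤ B) {t t' t₁' t₀' : TrG Λ κ} {A A' A₁' A₀' : Finset Λ} {e₁ x e : ℝ}
    (hN' : t'.All (AdN Ad)) (hm : t.All (MassOk Ad μ ν)) (hm' : t'.All (MassOk Ad μ ν))
    (hA : Ad t A) (hA' : Ad t' A') (hE : Ad t ∅)
    (hd : Dec Ad t' A' t₁' A₁' t₀' A₀') (h₁ : PWRz Ad μ ν B M M' R t A t₁' A₁' e₁)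
    (hx : Q R (avg M (rv A t.val)) (avg M' (rv A₀' t₀'.val)) ≤ B * (μ t A * μ t₀' A₀') + x)
    (he : e₁ + x ≤ e) : PWRz Ad μ ν B M M' R t A t' A' e := by
  have ad := hd.ad hN' hA'
  have n1 := (hd.all hm').1.self.base.nn _ ad.1
  have nE := hm.self.base.nn _ hE
  refine PWRz.dec (x₁₀ := x) (x₀₁ := 0) (e₁ := e₁) (e₀ := 0)
    (Dec.set (A₁ := A) (A₀ := ∅) (by simp) (Finset.disjoint_empty_right _) hA hE) hd h₁
    (PWRz.emptyL hB hm.self (hd.all hm').2.self ad.2 hE) hx ?_ (by linarith)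
  rw [Q_empty_left]; positivity

end rules

end Crest.Agent.R4P.TWc17
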