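import Crest.Agent.R4P.Mrg_35
import Crest.Agent.R4P.TWc_17

/-!
R4 (S0004), powers, helper17, [W-eSHR] / M6 (TOP walk), part 2: **the flagged walk** (design #10040).

The old walk (`St`, `nxt0`, weights, `s.R`) is not changed; a flag `Fl` is carried along.

* `self` : the two trees are the same node; two-sided tie: children 11, 00 self, 10, 01 **top**;
* `top` : relation = all pairs.  Two-sided column: all children top.  Stop or one-sided tie: EXIT at
  the state itself (`exH`), children old.  Add / up / pre-steps: a child `q` stays top if `stay q`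
  (leaf state, or `O ∪ O' ⊆ {q.p}`), otherwise it is old (EXIT at the child).
* `old` : the old walk, stays old.

`nxF`, `WF` (walk sum), `WF_snd` (errors which do not depend on the flag), `eF` (local error of the
certificate), `xS`, `xC`, `xX`, `xE`, `xO` (the five extra errors) and
`eF_le : eF (f, s) ≤ eNM s + eOS s + eXR s + eSTOP s + xF (f, s)`, `WF_eF_le`.

**Statement of the closure theorem** (R4P/TWcert_17, same hypotheses as `Walk560.closure_walk`):

theorem closure_walkF {δ : TrG Λ κ → Finset Λ → ℝ} {C C₀ η B : ℝ} (hC : 0 ≤ C) (hC₀ : 0 ≤ C₀)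
    (hη : 0 ≤ η) (hB : 0 ≤ B) {stp : Stp Λ κ}
    (hstp : ∀ s : St Λ κ, s.O = ∅ → s.O' = ∅ → ¬ stp s)
    (hjt : ∀ (d : DT Λ κ) (A : Finset Λ), stp.jt (selfSt d A)) (d : DT Λ κ) (h : d.g.Ok)
    (hcol : d.Col n) (hwf : d.All (NodeOk wr Ad μ ν)) (hd : d.g.All (SlackR Ad δ))
    (hl : d.g.All (LeafSMR Ad μ ν C)) (hl0 : d.g.All (LeafIn Ad μ C₀))
    (herr : d.All fun r => ¬ PulG r.g →
      Below (SMR Ad μ ν δ (16 * (C + C₀ + η + B + 1))) r.g →
      ∀ A, Ad r.g A → A.Nonempty →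
      dseR A r.g + rseR A r.g + WF stp (eF stp μ ν B) (Fl.self, selfSt r A) ≤
        η * (μ r.g A + μ r.g A * ν r.g) + δ r.g A)
    (hU : Ad d.g Finset.univ) :
    I (fun x => d.g.tot x ^ 2) ≤ (16 * (C + C₀ + η + B + 1)) *
      (μ d.g Finset.univ + μ d.g Finset.univ * ν d.g + δ d.g Finset.univ)
-/

set_option autoImplicit false
set_option linter.unusedSectionVars false
set_option linter.unusedVariables false
set_option linter.unusedSimpArgs false
open MeasureTheory Filter Set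

namespace Crest.Agent.R4P.TW17

open Crest.Agent.R4.Tour104 Crest.Agent.R4.Tour758 Crest.Agent.R4.Avg758 Crest.Agent.R4.Clos758
open Crest.Agent.R4.ClosL758 Crest.Agent.R4.ClosG758 Crest.Agent.R4.ClosR758
open Crest.Agent.R4P.ClosR442 Crest.Agent.R4P.Walk560 Crest.Agent.R4P.TWc17
open Crest.Agent.R4P.VWalk36 (crs eX_eq)
open Crest.Agent.R4P.ExcSplit32 (Qs_nonneg)
open Crest.Agent.R4P.Mrg35

/-- the flags -/
inductive Fl : Type
  | self : Fl
  | top : Fl
  | old : Fl
deriving DecidableEq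

variable {Λ κ : Type*} [Fintype Λ] [DecidableEq Λ] [DecidableEq κ]

/-- two-sided column, not a pre-step -/
def two (s : St Λ κ) : Prop :=
  ¬ s.isPL ∧ ¬ s.isPR ∧ (match vw s.p s.t, vw s.p s.t' with
    | .br _ _ _ _ _ _ _, .br _ _ _ _ _ _ _ => True
    | _, _ => False)

/-- one-sided tie, not a pre-step -/
def one (s : St Λ κ) : Prop :=
  ¬ s.isPL ∧ ¬ s.isPR ∧ (match vw s.p s.t, vw s.p s.t' with
    | .br _ _ _ _ _ _ _, .up _ _ => True
    | .up _ _, .br _ _ _ _ _ _ _ => True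
    | _, _ => False)

/-- a top state which exits itself -/
def exH [WRel κ] (stp : Stp Λ κ) (s : St Λ κ) : Prop := stp s ∨ one s

/-- a child of a top state which stays top -/
def stay (q : St Λ κ) : Prop := q.t.isLeaf ∨ q.t'.isLeaf ∨ q.O ∪ q.O' ⊆ {q.p}

/-- energy of the pairs which are not in the relation of the state -/
noncomputable def ex (s : St Λ κ) : ℝ := Qs { s with R := Finset.univ \ s.R }

open Classical in
/-- flag of the child of a top state at an add / up / pre-step -/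
noncomputable def flS (q : St Λ κ) : Fl := if stay q then Fl.top else Fl.old

open Classical in
/-- cost of the exit of a child of a top state -/
noncomputable def exS (q : St Λ κ) : ℝ := if stay q then 0 else ex q

section walk
variable [WRel κ]

open Classical in
/-- the continuing flagged states, with the phantoms -/
noncomputable def nxF0 (stp : Stp Λ κ) : Fl × St Λ κ → List (ℝ × (Fl × St Λ κ))
  | (.old, s) => (nxt0 stp s).map fun q => (q.1, (Fl.old, q.2))
  | (.self, s) => match nxt0 stp s with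
      | [a, b, c, d] => [(a.1, (Fl.self, a.2)), (b.1, (Fl.top, b.2)), (c.1, (Fl.top, c.2)),
          (d.1, (Fl.self, d.2))]
      | l => l.map fun q => (q.1, (Fl.self, q.2))
  | (.top, s) =>
      if exH stp s then (nxt0 stp s).map fun q => (q.1, (Fl.old, q.2))
      else if two s then (nxt0 stp s).map fun q => (q.1, (Fl.top, q.2))
      else (nxt0 stp s).map fun q => (q.1, (flS q.2, q.2))

open Classical in
/-- the continuing flagged states -/
noncomputable def nxF (stp : Stp Λ κ) (z : Fl × St Λ κ) : List (ℝ × (Fl × St Λ κ)) :=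
  (nxF0 stp z).filter fun q => q.1 ≠ 0

/-- rank of a flagged state -/
def rkF (z : Fl × St Λ κ) : ℕ := z.2.rank

/-- without the flags this is the old walk -/
lemma nxF0_snd (stp : Stp Λ κ) (z : Fl × St Λ κ) :
    (nxF0 stp z).map (fun q => (q.1, q.2.2)) = nxt0 stp z.2 := by
  obtain ⟨f, s⟩ := z
  have key : ∀ (g : St Λ κ → Fl) (l : List (ℝ × St Λ κ)),
      (l.map fun q => (q.1, (g q.2, q.2))).map (fun q => (q.1, q.2.2)) = l := by
    intro g l
    rw [List.map_map]
    exact List.map_id'' (fun _ => rfl) l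
  cases f with
  | self =>
    simp only [nxF0]
    split
    · rename_i a b c d h
      rw [h]; rfl
    · exact key (fun _ => Fl.self) _
  | top =>
    simp only [nxF0]
    split_ifs
    · exact key (fun _ => Fl.old) _
    · exact key (fun _ => Fl.top) _
    · exact key flS _
  | old => exact key (fun _ => Fl.old) _

lemma mem_nxF {stp : Stp Λ κ} {z : Fl × St Λ κ} {q : ℝ × (Fl × St Λ κ)} :
    q ∈ nxF stp z ↔ q ∈ nxF0 stp z ∧ q.1 ≠ 0 := by
  simp [nxF, List.mem_filter]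

/-- a flagged child is a child -/
lemma mem_nxF0 {stp : Stp Λ κ} {z : Fl × St Λ κ} {q : ℝ × (Fl × St Λ κ)} (h : q ∈ nxF0 stp z) :
    (q.1, q.2.2) ∈ nxt0 stp z.2 := by
  rw [← nxF0_snd]
  exact List.mem_map.2 ⟨q, h, rfl⟩

lemma mem_nxF_nxt {stp : Stp Λ κ} {z : Fl × St Λ κ} {q : ℝ × (Fl × St Λ κ)} (h : q ∈ nxF stp z) :
    (q.1, q.2.2) ∈ nxt stp z.2 :=
  mem_nxt.2 ⟨mem_nxF0 (mem_nxF.1 h).1, (mem_nxF.1 h).2⟩

lemma nxF0_rank (stp : Stp Λ κ) (z : Fl × St Λ κ) : ∀ q ∈ nxF0 stp z, rkF q.2 < rkF z :=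
  fun q hq => nxt0_rank stp z.2 _ (mem_nxF0 hq)

lemma nxF_rank (stp : Stp Λ κ) (z : Fl × St Λ κ) : ∀ q ∈ nxF stp z, rkF q.2 < rkF z :=
  fun q hq => nxF0_rank stp z q (mem_nxF.1 hq).1

/-- the phantom states do not contribute -/
lemma nxF_sum (stp : Stp Λ κ) (z : Fl × St Λ κ) (F : Fl × St Λ κ → ℝ) :
    ((nxF stp z).map fun q => q.1 * F q.2).sum = ((nxF0 stp z).map fun q => q.1 * F q.2).sum := by
  unfold nxF
  induction nxF0 stp z with
  | nil => rfl
  | cons a l ih =>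
    by_cases h : a.1 = 0
    · rw [List.filter_cons_of_neg (by simp [h]), ih, List.map_cons, List.sum_cons, h]
      simp
    · rw [List.filter_cons_of_pos (by simp [h]), List.map_cons, List.sum_cons, ih, List.map_cons,
        List.sum_cons]

/-- **the flagged walk sum** -/
noncomputable def WF (stp : Stp Λ κ) (loc : Fl × St Λ κ → ℝ) (z : Fl × St Λ κ) : ℝ :=
  W (nxF stp) rkF loc z

lemma WF_eq (stp : Stp Λ κ) (loc : Fl × St Λ κ → ℝ) (z : Fl × St Λ κ) :
    WF stp loc z = loc z + ((nxF stp z).map fun q => q.1 * WF stp loc q.2).sum :=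
  W_eq (fun s => nxF_rank stp s) loc z

lemma WF_eq0 (stp : Stp Λ κ) (loc : Fl × St Λ κ → ℝ) (z : Fl × St Λ κ) :
    WF stp loc z = loc z + ((nxF0 stp z).map fun q => q.1 * WF stp loc q.2).sum := by
  rw [WF_eq, nxF_sum]

lemma WF_add (stp : Stp Λ κ) (f g : Fl × St Λ κ → ℝ) (z : Fl × St Λ κ) :
    WF stp (fun z => f z + g z) z = WF stp f z + WF stp g z :=
  W_add (fun s => nxF_rank stp s) f g z

lemma WF_smul (stp : Stp Λ κ) (c : ℝ) (f : Fl × St Λ κ → ℝ) (z : Fl × St Λ κ) :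
    WF stp (fun z => c * f z) z = c * WF stp f z :=
  W_smul (fun s => nxF_rank stp s) c f z

/-- **errors which do not depend on the flag**: the old walk sum -/
theorem WF_snd [Fintype κ] (stp : Stp Λ κ) (loc : St Λ κ → ℝ) (z : Fl × St Λ κ) :
    WF stp (fun z => loc z.2) z = WS stp loc z.2 := by
  suffices ∀ (k : ℕ) (z : Fl × St Λ κ), rkF z < k →
      WF stp (fun z => loc z.2) z = WS stp loc z.2 from this _ z (Nat.lt_succ_self _)
  intro k
  induction k with
  | zero => intro z hz; omega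
  | succ k ih =>
    intro z hz
    rw [WF_eq0, WS_eq0, ← nxF0_snd, List.map_map]
    congr 2
    refine List.map_congr_left fun q hq => ?_
    have := nxF0_rank stp z q hq
    simp only [Function.comp]
    rw [ih q.2 (by omega)]

/-! ### the local errors -/

variable [Fintype κ]

open Classical in
/-- two-sided column with the full relation -/
noncomputable def eG (s : St Λ κ) : ℝ :=
  match vw s.p s.t, vw s.p s.t' with
  | .br _ r _ _ _ _ G, .br _ _ _ _ _ _ G' =>
      Q (Finset.univ : Finset (κ × κ)) (avg s.M (rk s.A r G)) (avg s.M' (rk s.A' r G'))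
  | _, _ => 0

open Classical in
/-- the pairs of a two-sided column which are not in `orel` (same `ix`) -/
noncomputable def eC (s : St Λ κ) : ℝ :=
  match vw s.p s.t, vw s.p s.t' with
  | .br _ r _ _ _ _ G, .br _ _ _ _ _ _ G' =>
      Q ((Finset.univ : Finset (κ × κ)) \ orel κ) (avg s.M (rk s.A r G)) (avg s.M' (rk s.A' r G'))
  | _, _ => 0

open Classical in
/-- **local error of the flagged certificate** -/
noncomputable def eF (stp : Stp Λ κ) (μ : TrG Λ κ → Finset Λ → ℝ) (ν : TrG Λ κ → ℝ)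
    (B : ℝ) : Fl × St Λ κ → ℝ
  | (.self, s) => eAll stp μ ν B s
  | (.old, s) => eAll stp μ ν B s
  | (.top, s) =>
      if s.t.isLeaf ∨ s.t'.isLeaf then 0
      else if exH stp s then ex s + eAll stp μ ν B s
      else if two s then eG s
      else ((crs stp s).map fun z => Xs μ B { z with R := Finset.univ }).sum +
        ((nxt0 stp s).map fun q => q.1 * exS q.2).sum

open Classical in
/-- extra error of the self states: relation changes and pending pairs at the crossing states -/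
noncomputable def xS (wr : ℕ → Λ → κ) (stp : Stp Λ κ) : Fl × St Λ κ → ℝ
  | (.self, s) => eSHR stp s + eMX wr stp s
  | _ => 0

open Classical in
/-- extra error at the two-sided columns of the top states: `Q (univ \ orel) G G'` -/
noncomputable def xC (stp : Stp Λ κ) : Fl × St Λ κ → ℝ
  | (.top, s) =>
      if s.t.isLeaf ∨ s.t'.isLeaf then 0 else if exH stp s then 0 else if two s then eC s else 0
  | _ => 0

open Classical in
/-- extra error at the crossing states of the top states: the same-`ix` pairs -/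
noncomputable def xX (wr : ℕ → Λ → κ) (stp : Stp Λ κ) : Fl × St Λ κ → ℝ
  | (.top, s) =>
      if s.t.isLeaf ∨ s.t'.isLeaf then 0 else if exH stp s then 0 else
        ((crs stp s).map fun z => Qs { z with R := Finset.univ \ Ro (wr s.p) }).sum
  | _ => 0

open Classical in
/-- extra error at the exits -/
noncomputable def xE (stp : Stp Λ κ) : Fl × St Λ κ → ℝ
  | (.top, s) =>
      if s.t.isLeaf ∨ s.t'.isLeaf then 0 else if exH stp s then ex s else if two s then 0 else
        ((nxt0 stp s).map fun q => q.1 * exS q.2).sum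
  | _ => 0

open Classical in
/-- extra error after the exit: relation changes and pending pairs at the crossing states -/
noncomputable def xO (wr : ℕ → Λ → κ) (stp : Stp Λ κ) : Fl × St Λ κ → ℝ
  | (.old, s) => eSHR stp s + eMX wr stp s
  | (.top, s) => if s.t.isLeaf ∨ s.t'.isLeaf then 0 else
      if exH stp s then eSHR stp s + eMX wr stp s else 0
  | _ => 0

/-- all extra errors -/
noncomputable def xF (wr : ℕ → Λ → κ) (stp : Stp Λ κ) (z : Fl × St Λ κ) : ℝ :=
  xS wr stp z + xC stp z + xX wr stp z + xE stp z + xO wr stp z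

/-- the errors of the old walk which are paid -/
noncomputable def eOld (wr : ℕ → Λ → κ) (stp : Stp Λ κ) (μ : TrG Λ κ → Finset Λ → ℝ)
    (ν : TrG Λ κ → ℝ) (B : ℝ) (s : St Λ κ) : ℝ :=
  eNM stp s + eOS stp s + eXR wr stp μ B s + eSTOP stp μ ν B s

/-! ### the decomposition -/

section dec
variable {wr : ℕ → Λ → κ} {Ad : TrG Λ κ → Finset Λ → Prop}
  {μ : TrG Λ κ → Finset Λ → ℝ} {ν : TrG Λ κ → ℝ} {n : ℕ} {stp : Stp Λ κ} {B : ℝ} {s : St Λ κ}

/-- the views at a two-sided column -/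
lemma two_cases (h : two s) : ¬ s.isPL ∧ ¬ s.isPR ∧ ∃ w r t₁ t₀ v B₁ G w' r' t₁' t₀' v' B₁' G',
    vw s.p s.t = .br w r t₁ t₀ v B₁ G ∧ vw s.p s.t' = .br w' r' t₁' t₀' v' B₁' G' := by
  obtain ⟨h1, h2, h3⟩ := h
  refine ⟨h1, h2, ?_⟩
  rcases hv : vw s.p s.t with ⟨w, r, t₁, t₀, v, B₁, G⟩ | ⟨r, t₁, t₀⟩ | ⟨Sp, u⟩ <;>
  rcases hv' : vw s.p s.t' with ⟨w', r', t₁', t₀', v', B₁', G'⟩ | ⟨r', t₁', t₀'⟩ | ⟨Sp', u'⟩ <;>
  simp only [hv, hv'] at h3
  exact ⟨_, _, _, _, _, _, _, _, _, _, _, _, _, _, rfl, rfl⟩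

lemma two_of {w : ℝ} {r : Λ → κ} {t₁ t₀ : DT Λ κ} {v : Λ → ℝ → ℝ} {B₁ G : κ → ℝ → ℝ}
    {w' : ℝ} {r' : Λ → κ} {t₁' t₀' : DT Λ κ} {v' : Λ → ℝ → ℝ} {B₁' G' : κ → ℝ → ℝ}
    (hPL : ¬ s.isPL) (hPR : ¬ s.isPR) (hv : vw s.p s.t = .br w r t₁ t₀ v B₁ G)
    (hv' : vw s.p s.t' = .br w' r' t₁' t₀' v' B₁' G') : two s := by
  refine ⟨hPL, hPR, ?_⟩
  rw [hv, hv']
  trivial

lemma eNM_not_two (h : ¬ two s) : eNM stp s = 0 := by
  by_cases h1 : s.t.isLeaf ∨ s.t'.isLeaf
  · simp [eNM, h1]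
  by_cases h2 : stp s
  · simp [eNM, h1, h2]
  by_cases h3 : s.isPL ∨ s.isPR
  · simp [eNM, h1, h2, h3]
  rw [not_or] at h3
  rcases hv : vw s.p s.t with ⟨w, r, t₁, t₀, v, B₁, G⟩ | ⟨r, t₁, t₀⟩ | ⟨Sp, u⟩ <;>
  rcases hv' : vw s.p s.t' with ⟨w', r', t₁', t₀', v', B₁', G'⟩ | ⟨r', t₁', t₀'⟩ | ⟨Sp', u'⟩
  · exact absurd (two_of h3.1 h3.2 hv hv') h
  all_goals simp [eNM, h1, h2, h3, hv, hv']

lemma eOS_not_one (h : ¬ one s) : eOS stp s = 0 := by
  by_cases h1 : s.t.isLeaf ∨ s.t'.isLeaf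
  · simp [eOS, h1]
  by_cases h2 : stp s
  · simp [eOS, h1, h2]
  by_cases h3 : s.isPL ∨ s.isPR
  · simp [eOS, h1, h2, h3]
  rw [not_or] at h3
  rcases hv : vw s.p s.t with ⟨w, r, t₁, t₀, v, B₁, G⟩ | ⟨r, t₁, t₀⟩ | ⟨Sp, u⟩ <;>
  rcases hv' : vw s.p s.t' with ⟨w', r', t₁', t₀', v', B₁', G'⟩ | ⟨r', t₁', t₀'⟩ | ⟨Sp', u'⟩
  · simp [eOS, h1, h2, h3, hv, hv']
  · simp [eOS, h1, h2, h3, hv, hv']
  · exact absurd ⟨h3.1, h3.2, by rw [hv, hv']; trivial⟩ h
  · simp [eOS, h1, h2, h3, hv, hv']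
  · simp [eOS, h1, h2, h3, hv, hv']
  · simp [eOS, h1, h2, h3, hv, hv']
  · exact absurd ⟨h3.1, h3.2, by rw [hv, hv']; trivial⟩ h
  · simp [eOS, h1, h2, h3, hv, hv']
  · simp [eOS, h1, h2, h3, hv, hv']

lemma eSTOP_not (h : ¬ stp s) : eSTOP stp μ ν B s = 0 := by
  simp [eSTOP, h]

lemma crs_two (h : two s) : crs stp s = [] := by
  obtain ⟨h1, h2, w, r, t₁, t₀, v, B₁, G, w', r', t₁', t₀', v', B₁', G', hv, hv'⟩ := two_cases h
  by_cases hl : s.t.isLeaf ∨ s.t'.isLeaf
  · simp [crs, hl]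
  by_cases hs : stp s
  · simp [crs, hl, hs]
  simp [crs, hl, hs, h1, h2, hv, hv']

lemma PB_rk' {A : Finset Λ} {r : Λ → κ} {G : κ → ℝ → ℝ} (h : ∀ c, PB (G c)) (c : κ) :
    PB (rk A r G c) := by
  classical
  unfold rk
  split_ifs
  · exact h c
  · exact PB.const le_rfl

/-- `avg` of the missing parts is piecewise bounded -/
lemma PBG {d : DT Λ κ} {A : Finset Λ} {M p : ℕ} {w : ℝ} {r : Λ → κ} {t₁ t₀ : DT Λ κ}
    {v : Λ → ℝ → ℝ} {B₁ G : κ → ℝ → ℝ} (hM : 0 < M) (hS : Side wr Ad μ ν n d A)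
    (hv : vw p d = .br w r t₁ t₀ v B₁ G) : ∀ c, PB (avg M (rk A r G) c) := by
  rw [vw_br hv] at hS
  obtain ⟨-, -, hb, -, -⟩ := hS.br
  exact PB_avg hM (PB_rk' fun c => (hb.col c).pG)

lemma eG_le (h : Inv wr Ad μ ν n s) (hl : ¬ (s.t.isLeaf ∨ s.t'.isLeaf)) (hs : ¬ stp s)
    (h2 : two s) : eG s ≤ eNM stp s + eC s := by
  obtain ⟨hPL, hPR, w, r, t₁, t₀, v, B₁, G, w', r', t₁', t₀', v', B₁', G', hv, hv'⟩ := two_cases h2
  have e1 : eNM stp s = Q (orel κ) (avg s.M (rk s.A r G)) (avg s.M' (rk s.A' r G')) := by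
    simp [eNM, hl, hs, hPL, hPR, hv, hv']
  have err : r = r' := by
    have hL := h.L
    have hR := h.R
    rw [vw_br hv] at hL
    rw [vw_br hv'] at hR
    rw [hL.br.2.2.2.1, hR.br.2.2.2.1]
  have p1 := PBG h.aL.M0 h.L hv
  have p2 : ∀ c, PB (avg s.M' (rk s.A' r G') c) := by
    have := PBG h.aR.M0 h.R hv'
    rw [← err] at this
    exact this
  rw [e1]
  unfold eG eC
  simp only [hv, hv']
  exact Q_le_sdiff _ _ p1 p2

lemma ex_nn (h : Inv wr Ad μ ν n s) : 0 ≤ ex s := Qs_nn h _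

lemma exS_nn (h : Inv wr Ad μ ν n s) : 0 ≤ exS s := by
  unfold exS
  split_ifs
  · exact le_rfl
  · exact ex_nn h

lemma eSHR_nn (h : Inv wr Ad μ ν n s) : 0 ≤ eSHR stp s := by
  rcases step3 (stp := stp) h with ⟨hl, en, ec, es⟩ | ⟨hl, hs, ec, es, hR⟩ |
    ⟨hl, hs, es, hR, hR', hA⟩
  · rw [es]
  · rw [es]; exact Qs_nn h _
  · rw [es]

lemma exsum_nn (h : Inv wr Ad μ ν n s) : 0 ≤ ((nxt0 stp s).map fun q => q.1 * exS q.2).sum :=
  sum_map_nonneg (fun q hq => (h.next0 q hq).2) fun q hq => exS_nn (h.next0 q hq).1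

lemma eC_nn (h : Inv wr Ad μ ν n s) : 0 ≤ eC s := by
  unfold eC
  rcases hv : vw s.p s.t with ⟨w, r, t₁, t₀, v, B₁, G⟩ | ⟨r, t₁, t₀⟩ | ⟨Sp, u⟩ <;>
  rcases hv' : vw s.p s.t' with ⟨w', r', t₁', t₀', v', B₁', G'⟩ | ⟨r', t₁', t₀'⟩ | ⟨Sp', u'⟩ <;>
  simp only [hv, hv', le_refl]
  have err : r = r' := by
    have hL := h.L
    have hR := h.R
    rw [vw_br hv] at hL
    rw [vw_br hv'] at hR
    rw [hL.br.2.2.2.1, hR.br.2.2.2.1]
  have p1 := PBG h.aL.M0 h.L hv
  have p2 : ∀ c, PB (avg s.M' (rk s.A' r G') c) := by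
    have := PBG h.aR.M0 h.R hv'
    rw [← err] at this
    exact this
  exact Q_nonneg p1 p2

lemma xS_nn (h : Inv wr Ad μ ν n s) (f : Fl) : 0 ≤ xS wr stp (f, s) := by
  cases f with
  | self => exact add_nonneg (eSHR_nn h) (eMX_nn h)
  | top => exact le_rfl
  | old => exact le_rfl

lemma xC_nn (h : Inv wr Ad μ ν n s) (f : Fl) : 0 ≤ xC stp (f, s) := by
  cases f with
  | self => exact le_rfl
  | top =>
    simp only [xC]
    split_ifs
    · exact le_rfl
    · exact le_rfl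
    · exact eC_nn h
    · exact le_rfl
  | old => exact le_rfl

lemma xX_nn (h : Inv wr Ad μ ν n s) (f : Fl) : 0 ≤ xX wr stp (f, s) := by
  cases f with
  | self => exact le_rfl
  | top =>
    simp only [xX]
    split_ifs
    · exact le_rfl
    · exact le_rfl
    · refine List.sum_nonneg fun x hx => ?_
      obtain ⟨z, hz, rfl⟩ := List.mem_map.1 hx
      exact Qs_nn (crs_inv h z hz).1 _
  | old => exact le_rfl

lemma xE_nn (h : Inv wr Ad μ ν n s) (f : Fl) : 0 ≤ xE stp (f, s) := by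
  cases f with
  | self => exact le_rfl
  | top =>
    simp only [xE]
    split_ifs
    · exact le_rfl
    · exact ex_nn h
    · exact le_rfl
    · exact exsum_nn h
  | old => exact le_rfl

lemma xO_nn (h : Inv wr Ad μ ν n s) (f : Fl) : 0 ≤ xO wr stp (f, s) := by
  cases f with
  | self => exact le_rfl
  | top =>
    simp only [xO]
    split_ifs
    · exact le_rfl
    · exact add_nonneg (eSHR_nn h) (eMX_nn h)
    · exact le_rfl
  | old => exact add_nonneg (eSHR_nn h) (eMX_nn h)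

lemma xF_nn (h : Inv wr Ad μ ν n s) (f : Fl) : 0 ≤ xF wr stp (f, s) :=
  add_nonneg (add_nonneg (add_nonneg (add_nonneg (xS_nn h f) (xC_nn h f)) (xX_nn h f)) (xE_nn h f))
    (xO_nn h f)

/-- **the decomposition of the local error** -/
theorem eF_le (h : Inv wr Ad μ ν n s) (f : Fl) :
    eF stp μ ν B (f, s) ≤ eOld wr stp μ ν B s + xF wr stp (f, s) := by
  have hc := eX_cut (stp := stp) (B := B) h
  cases f with
  | self =>
    simp only [eF, eOld, xF, xS, xC, xX, xE, xO, eAll]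
    linarith
  | old =>
    simp only [eF, eOld, xF, xS, xC, xX, xE, xO, eAll]
    linarith
  | top =>
    by_cases hl : s.t.isLeaf ∨ s.t'.isLeaf
    · have e1 : crs stp s = [] := by simp [crs, hl]
      simp [eF, eOld, xF, xS, xC, xX, xE, xO, hl, eNM, eOS, eSTOP, eXR, e1]
    by_cases hx : exH stp s
    · simp only [eF, eOld, xF, xS, xC, xX, xE, xO, eAll, if_neg hl, if_pos hx]
      linarith
    have hs : ¬ stp s := fun hs => hx (Or.inl hs)
    have ho : ¬ one s := fun ho => hx (Or.inr ho)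
    by_cases h2 : two s
    · have e1 := crs_two (stp := stp) h2
      have e2 := eOS_not_one (stp := stp) ho
      have e3 : eSTOP stp μ ν B s = 0 := eSTOP_not hs
      have key := eG_le h hl hs h2
      simp only [eF, eOld, xF, xS, xC, xX, xE, xO, if_neg hl, if_neg hx, if_pos h2, e1, e2, e3, eXR,
        List.map_nil, List.sum_nil]
      linarith
    · have e1 := eNM_not_two (stp := stp) h2
      have e2 := eOS_not_one (stp := stp) ho
      have e3 : eSTOP stp μ ν B s = 0 := eSTOP_not hs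
      have key : ((crs stp s).map fun z => Xs μ B { z with R := Finset.univ }).sum ≤
          ((crs stp s).map fun z => Xs μ B { z with R := Ro (wr s.p) }).sum +
          ((crs stp s).map fun z => Qs { z with R := Finset.univ \ Ro (wr s.p) }).sum := by
        refine sum_map_le_add _ _ _ _ fun z hz => ?_
        have hz' := (crs_inv h z hz).1
        exact Xs_cutR (z := { z with R := Finset.univ }) hz'.L.ok hz'.R.ok hz'.aL.M0 hz'.aR.M0 _
      simp only [eF, eOld, xF, xS, xC, xX, xE, xO, if_neg hl, if_neg hx, if_neg h2, e1, e2, e3, eXR]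
      linarith

/-- the invariant of the flagged states -/
lemma InvE.nextF {z : Fl × St Λ κ} (h : InvE wr Ad μ ν z.2) :
    ∀ q ∈ nxF stp z, InvE wr Ad μ ν q.2.2 ∧ 0 ≤ q.1 :=
  fun q hq => InvE.next (stp := stp) h _ (mem_nxF_nxt hq)

theorem WF_mono {f g : Fl × St Λ κ → ℝ} (hfg : ∀ z, InvE wr Ad μ ν z.2 → f z ≤ g z)
    {z : Fl × St Λ κ} (hz : InvE wr Ad μ ν z.2) : WF stp f z ≤ WF stp g z :=
  W_mono (Inv := fun z : Fl × St Λ κ => InvE wr Ad μ ν z.2) (fun s => nxF_rank stp s)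
    (fun s hs => InvE.nextF hs) hfg z hz

theorem WF_nonneg {f : Fl × St Λ κ → ℝ} (hf : ∀ z, InvE wr Ad μ ν z.2 → 0 ≤ f z)
    {z : Fl × St Λ κ} (hz : InvE wr Ad μ ν z.2) : 0 ≤ WF stp f z :=
  W_nonneg (Inv := fun z : Fl × St Λ κ => InvE wr Ad μ ν z.2) (fun s => nxF_rank stp s)
    (fun s hs => InvE.nextF hs) hf z hz

/-- supersolutions -/
theorem WF_le_super {loc Φ : Fl × St Λ κ → ℝ}
    (hΦ : ∀ z, InvE wr Ad μ ν z.2 → loc z + ((nxF stp z).map fun q => q.1 * Φ q.2).sum ≤ Φ z)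
    {z : Fl × St Λ κ} (hz : InvE wr Ad μ ν z.2) : WF stp loc z ≤ Φ z :=
  W_le_super (Inv := fun z : Fl × St Λ κ => InvE wr Ad μ ν z.2) (fun s => nxF_rank stp s)
    (fun s hs => InvE.nextF hs) hΦ z hz

/-- **the walk sum of the flagged certificate** -/
theorem WF_eF_le {z : Fl × St Λ κ} (hz : InvE wr Ad μ ν z.2) :
    WF stp (eF stp μ ν B) z ≤ WS stp (eNM stp) z.2 + WS stp (eOS stp) z.2 +
      WS stp (eXR wr stp μ B) z.2 + WS stp (eSTOP stp μ ν B) z.2 + WF stp (xF wr stp) z := by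
  have h1 : WF stp (eF stp μ ν B) z ≤
      WF stp (fun z => eOld wr stp μ ν B z.2 + xF wr stp z) z :=
    WF_mono (fun z hz => by
      obtain ⟨n, h⟩ := hz
      exact eF_le h z.1) hz
  have e : WS stp (eOld wr stp μ ν B) z.2 = WS stp (eNM stp) z.2 + WS stp (eOS stp) z.2 +
      WS stp (eXR wr stp μ B) z.2 + WS stp (eSTOP stp μ ν B) z.2 := by
    show WS stp (fun s => (eNM stp s + eOS stp s + eXR wr stp μ B s) + eSTOP stp μ ν B s) z.2 = _
    rw [WS_add, WS_add, WS_add]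
  rw [WF_add, WF_snd, e] at h1
  exact h1

/-- the five parts of the extra errors -/
theorem WF_xF (z : Fl × St Λ κ) : WF stp (xF wr stp) z =
    WF stp (xS wr stp) z + WF stp (xC stp) z + WF stp (xX wr stp) z + WF stp (xE stp) z +
      WF stp (xO wr stp) z := by
  show WF stp (fun z => (((xS wr stp z + xC stp z) + xX wr stp z) + xE stp z) + xO wr stp z) z = _
  rw [WF_add, WF_add, WF_add, WF_add]

end dec

end walk

end Crest.Agent.R4P.TW17
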