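import Crest.Agent.R4P.CrsD_26
import Crest.Agent.R4P.ColCov_9
import Crest.Agent.R4P.ItemDT758

/-!
R4 (S0004) with powers, `TgtCrs`, helper29: **the separated pairs of two groups with disjoint codes**.

* `qX wr p g h` : energy of the same-`ix` pairs of the groups `g`, `h` at the column `p`
  (`ker_kX` : it is `ker (kX wr)` on good groups).
* `qX_step` : `qX g h = lX g h + (ties and pulls) + (members without `p`)`.
* `Q_BB` : pairs of ties / pulls, at least one of them a pull: the energy is the one of the means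
  (a pull is constant on the lifts).
* `qX_le_XP` : **groups with disjoint codes are separated: `qX ≤ XP (ker (kX wr))`**; `qX_it_le_XP` for
  the iterated children of two nodes with shifted codes.
* `gval_it_le`, `qX_it_le_avg` : the mean inequality for the iterated children.
* `toDT_Gd` : the hypotheses for the trees of items.
-/

set_option autoImplicit false
set_option linter.unusedSectionVars false
set_option linter.unusedVariables false
open MeasureTheory Filter Set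

namespace Crest.Agent.R4P.XEx29

open Crest.Agent.R4.Tour104 Crest.Agent.R4.Tour758 Crest.Agent.R4.Avg758 Crest.Agent.R4.Clos758
open Crest.Agent.R4.ClosL758 Crest.Agent.R4.ClosG758 Crest.Agent.R4.ClosR758
open Crest.Agent.R4P.ClosR442 Crest.Agent.R4P.Walk560 Crest.Agent.R4P.Grp36 Crest.Agent.R4P.Xfer36
open Crest.Agent.R4P.CrsD26

section qfun
variable {Λ : Type*}

lemma Q_smul_left {R : Finset (Λ × Λ)} (c : ℝ) (f g : Λ → ℝ → ℝ) :
    Q R (fun j x => c * f j x) g = c * Q R f g := by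
  unfold Q
  rw [Finset.mul_sum]
  refine Finset.sum_congr rfl fun e _ => ?_
  rw [← I_smul]
  congr 1
  funext x
  ring

lemma Q_smul_right {R : Finset (Λ × Λ)} (c : ℝ) (f g : Λ → ℝ → ℝ) :
    Q R f (fun j x => c * g j x) = c * Q R f g := by
  unfold Q
  rw [Finset.mul_sum]
  refine Finset.sum_congr rfl fun e _ => ?_
  rw [← I_smul]
  congr 1
  funext x
  ring

lemma Q_zero_left {R : Finset (Λ × Λ)} (g : Λ → ℝ → ℝ) : Q R (fun _ _ => (0 : ℝ)) g = 0 := by
  unfold Q
  refine Finset.sum_eq_zero fun e _ => ?_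
  simp [I]

lemma Q_zero_right {R : Finset (Λ × Λ)} (g : Λ → ℝ → ℝ) : Q R g (fun _ _ => (0 : ℝ)) = 0 := by
  unfold Q
  refine Finset.sum_eq_zero fun e _ => ?_
  simp [I]

lemma Q_mono2 {R : Finset (Λ × Λ)} {f f' g g' : Λ → ℝ → ℝ} (hf : ∀ j, PB (f j))
    (hf' : ∀ j, PB (f' j)) (hg : ∀ j, PB (g j)) (hg' : ∀ j, PB (g' j))
    (h : ∀ j x, f j x ≤ f' j x) (h' : ∀ j x, g j x ≤ g' j x) : Q R f g ≤ Q R f' g' := by
  unfold Q
  refine Finset.sum_le_sum fun e _ => I_mono ((hf _).mul (hg _)).integrableOn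
    ((hf' _).mul (hg' _)).integrableOn fun x => ?_
  exact mul_le_mul (h _ x) (h' _ x) ((hg _).nonneg x) ((hf' _).nonneg x)

/-- one side is constant on the lifts -/
lemma Q_pull {R : Finset (Λ × Λ)} {p : ℕ} (hp : 0 < p) {u f : Λ → ℝ → ℝ} (hu : ∀ j, PB (u j))
    (hf : ∀ j, PB (f j)) :
    Q R (fun j x => u j (p * x)) f = Q R u (fun j => Ep p (f j)) := by
  unfold Q
  exact Finset.sum_congr rfl fun e _ => I_pull_mul hp (hu e.1) (hf e.2)

lemma Q_pull' {R : Finset (Λ × Λ)} {p : ℕ} (hp : 0 < p) {u f : Λ → ℝ → ℝ} (hu : ∀ j, PB (u j))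
    (hf : ∀ j, PB (f j)) :
    Q R f (fun j x => u j (p * x)) = Q R (fun j => Ep p (f j)) u := by
  unfold Q
  refine Finset.sum_congr rfl fun e _ => ?_
  have h := I_pull_mul hp (hu e.2) (hf e.1)
  have e1 : (fun x => f e.1 x * u e.2 (p * x)) = fun x => u e.2 (p * x) * f e.1 x :=
    funext fun x => mul_comm _ _
  have e2 : (fun x => Ep p (f e.1) x * u e.2 x) = fun y => u e.2 y * Ep p (f e.1) y :=
    funext fun x => mul_comm _ _
  rw [e1, e2]
  exact h

end qfun

variable {Λ κ : Type*}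

/-- the facts of a node -/
def Gd (t : DT Λ κ) : Prop := IMean t ∧ PulC t ∧ PulN t ∧ (∀ j, PB (t.g.val j))

/-- good groups at the column `p` -/
structure GX (p : ℕ) (g : Gp Λ κ) : Prop where
  c : ∀ m ∈ g, 0 ≤ m.1
  gd : ∀ m ∈ g, m.2.All Gd
  col : ∀ m ∈ g, m.2.Col (p + 1)

lemma GX.nil {p : ℕ} : GX p ([] : Gp Λ κ) := ⟨by simp, by simp, by simp⟩

lemma GX.one {p : ℕ} {t : DT Λ κ} (h : t.All Gd) (hc : t.Col (p + 1)) :
    GX p [((1 : ℝ), t)] := by
  refine ⟨fun m hm => ?_, fun m hm => ?_, fun m hm => ?_⟩ <;> rw [List.mem_singleton.1 hm]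
  · exact zero_le_one
  · exact h
  · exact hc

lemma GX.sub {p : ℕ} {g h : Gp Λ κ} (hg : GX p g) (hh : ∀ m ∈ h, m ∈ g) : GX p h :=
  ⟨fun m hm => hg.c m (hh m hm), fun m hm => hg.gd m (hh m hm), fun m hm => hg.col m (hh m hm)⟩

lemma GX.append {p : ℕ} {g h : Gp Λ κ} (hg : GX p g) (hh : GX p h) : GX p (g ++ h) :=
  ⟨fun m hm => (List.mem_append.1 hm).elim (hg.c m) (hh.c m),
    fun m hm => (List.mem_append.1 hm).elim (hg.gd m) (hh.gd m),
    fun m hm => (List.mem_append.1 hm).elim (hg.col m) (hh.col m)⟩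

lemma GX.gok {p : ℕ} {g : Gp Λ κ} (h : GX p g) : GOk g :=
  ⟨h.c, fun m hm => (h.gd m hm).mono fun t ht => ht.1,
    fun m hm => (h.gd m hm).mono fun t ht => ht.2.2.2⟩

lemma rs_col {p : ℕ} {t : DT Λ κ} (h : t.Col (p + 1)) : ∀ s ∈ rs p t, s.Col (p + 1) := by
  induction t with
  | leaf r f => intro s hs; simp only [rs, List.mem_singleton] at hs; rw [hs]; exact h
  | br q w r t₁ t₀ v B G => intro s hs; simp only [rs, List.mem_singleton] at hs; rw [hs]; exact h
  | add q r t₁ t₀ ih₁ ih₀ =>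
    intro s hs
    unfold rs at hs
    split_ifs at hs with hq
    · subst hq
      rcases List.mem_append.1 hs with hs | hs
      · exact ih₁ h.2.2.1 s hs
      · exact ih₀ h.2.2.2 s hs
    · rw [List.mem_singleton.1 hs]; exact h
  | up q Sp t ih =>
    intro s hs
    unfold rs at hs
    split_ifs at hs with hq
    · subst hq
      exact ih (h.2.2.mono (Nat.le_succ _)) s hs
    · rw [List.mem_singleton.1 hs]; exact h

lemma GX.rsG {p : ℕ} {g : Gp Λ κ} (h : GX p g) : GX p (rsG p g) := by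
  refine ⟨fun m hm => ?_, fun m hm => ?_, fun m hm => ?_⟩ <;> obtain ⟨m', h1, h2, h3⟩ := mem_rsG hm
  · rw [h2]; exact h.c m' h1
  · exact rs_all p (h.gd m' h1) _ h3
  · exact rs_col (h.col m' h1) _ h3

lemma GX.gLf {p : ℕ} {g : Gp Λ κ} (h : GX p g) : GX p (gLf p g) :=
  h.rsG.sub fun m hm => (List.mem_filter.1 hm).1

lemma GX.gNl {p : ℕ} {g : Gp Λ κ} (h : GX p g) : GX p (gNl p g) :=
  h.rsG.sub fun m hm => (List.mem_filter.1 hm).1

lemma GX.gB {p : ℕ} {g : Gp Λ κ} (h : GX p g) : GX p (gB p g) :=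
  h.rsG.sub fun m hm => (List.mem_filter.1 hm).1

lemma GX.gRn {p : ℕ} {g : Gp Λ κ} (h : GX p g) : GX p (gRn p g) :=
  h.rsG.sub fun m hm => (List.mem_filter.1 (List.mem_filter.1 hm).1).1

/-- the members of `gC` -/
lemma mem_gC' {p : ℕ} {g : Gp Λ κ} (h : GX p g) {m : ℝ × DT Λ κ} (hm : m ∈ gC p g) :
    ∃ m' ∈ gB p g, ∃ w r t₁ t₀ v B G, m'.2 = .br p w r t₁ t₀ v B G ∧ 0 ≤ w ∧ w ≤ 1 ∧
      (m = (m'.1 * (1 - w), t₁) ∨ m = (m'.1 * w, t₀)) := by
  obtain ⟨m', h1, q, h2, rfl⟩ := mem_gC hm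
  obtain ⟨w, r, t₁, t₀, v, B, G, e⟩ := isB_eq (mem_gB h1).2
  have h3 := (h.gB.gd m' h1).self
  rw [e] at h3 h2
  simp only [chd, List.mem_cons, List.not_mem_nil, or_false] at h2
  refine ⟨m', h1, w, r, t₁, t₀, v, B, G, e, h3.1.2.1, h3.1.2.2.1, ?_⟩
  rcases h2 with rfl | rfl
  · exact Or.inl rfl
  · exact Or.inr rfl

lemma GX.gC {p : ℕ} {g : Gp Λ κ} (h : GX p g) : GX p (gC p g) := by
  have hB := h.gB
  refine ⟨fun m hm => ?_, fun m hm => ?_, fun m hm => ?_⟩ <;>
    obtain ⟨m', h1, w, r, t₁, t₀, v, B, G, e, hw0, hw1, h2⟩ := mem_gC' h hm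
  · have := hB.c m' h1
    rcases h2 with rfl | rfl
    · exact mul_nonneg this (by linarith)
    · exact mul_nonneg this hw0
  · have h3 := hB.gd m' h1
    rw [e] at h3
    rcases h2 with rfl | rfl
    · exact h3.2.1
    · exact h3.2.2
  · have h3 := hB.col m' h1
    rw [e] at h3
    rcases h2 with rfl | rfl
    · exact h3.2.2.1
    · exact h3.2.2.2.1

/-! ### sizes -/

lemma rs_size {p : ℕ} (t : DT Λ κ) : ∀ s ∈ rs p t, s.size ≤ t.size := by
  induction t with
  | leaf r f => intro s hs; simp only [rs, List.mem_singleton] at hs; rw [hs]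
  | br q w r t₁ t₀ v B G => intro s hs; simp only [rs, List.mem_singleton] at hs; rw [hs]
  | add q r t₁ t₀ ih₁ ih₀ =>
    intro s hs
    unfold rs at hs
    split_ifs at hs with hq
    · have e : (DT.add q r t₁ t₀).size = t₁.size + t₀.size + 1 := rfl
      rcases List.mem_append.1 hs with hs | hs
      · have := ih₁ s hs; omega
      · have := ih₀ s hs; omega
    · rw [List.mem_singleton.1 hs]
  | up q Sp t ih =>
    intro s hs
    unfold rs at hs
    split_ifs at hs with hq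
    · have e : (DT.up q Sp t).size = t.size + 1 := rfl
      have := ih s hs; omega
    · rw [List.mem_singleton.1 hs]

lemma gC_size {p N : ℕ} {g : Gp Λ κ} (hg : GX p g) (h : ∀ m ∈ g, m.2.size < N + 1) :
    ∀ m ∈ gC p g, m.2.size < N := by
  intro m hm
  obtain ⟨m', h1, w, r, t₁, t₀, v, B, G, e, -, -, h2⟩ := mem_gC' hg hm
  obtain ⟨m'', h3, -, h4⟩ := mem_rsG (mem_gB h1).1
  have h5 := rs_size _ _ h4
  have h6 := h m'' h3
  have e2 : (DT.br p w r t₁ t₀ v B G).size = t₁.size + t₀.size + 1 := rfl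
  rw [e, e2] at h5
  rcases h2 with rfl | rfl
  · show t₁.size < N
    omega
  · show t₀.size < N
    omega

/-! ### codes -/

lemma Cs_closed {p : ℕ} {t : DT Λ κ} (h : t.isLeaf ∨ t.top ≠ p) : ∀ e ∈ Cs p t, e = 0 := by
  intro e he
  cases t with
  | leaf r f => exact absurd he (by simp [Cs])
  | br q w r t₁ t₀ v B G =>
    have hq : q ≠ p := h.resolve_left id
    rcases he with ⟨-, he⟩ | ⟨h', -⟩ | ⟨h', -⟩
    · exact he
    · exact absurd h' hq
    · exact absurd h' hq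
  | add q r t₁ t₀ =>
    have hq : q ≠ p := h.resolve_left id
    rcases he with ⟨-, he⟩ | ⟨h', -⟩
    · exact he
    · exact absurd h' hq
  | up q Sp t =>
    have hq : q ≠ p := h.resolve_left id
    rcases he with ⟨-, he⟩ | ⟨h', -⟩
    · exact he
    · exact absurd h' hq

lemma zero_mem_Cs {p : ℕ} {t : DT Λ κ} (hl : ¬ t.isLeaf) (h : t.top ≠ p) : 0 ∈ Cs p t := by
  cases t with
  | leaf r f => exact absurd trivial hl
  | br q w r t₁ t₀ v B G => exact Or.inl ⟨h, rfl⟩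
  | add q r t₁ t₀ => exact Or.inl ⟨h, rfl⟩
  | up q Sp t => exact Or.inl ⟨h, rfl⟩

lemma Cs_rs {p : ℕ} (t : DT Λ κ) : ∀ s ∈ rs p t, ∀ e ∈ Cs p s, e ∈ Cs p t := by
  induction t with
  | leaf r f => intro s hs; simp only [rs, List.mem_singleton] at hs; rw [hs]; exact fun e he => he
  | br q w r t₁ t₀ v B G =>
    intro s hs; simp only [rs, List.mem_singleton] at hs; rw [hs]; exact fun e he => he
  | add q r t₁ t₀ ih₁ ih₀ =>
    intro s hs e he
    unfold rs at hs
    split_ifs at hs with hq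
    · rcases List.mem_append.1 hs with hs | hs
      · exact Or.inr ⟨hq, Or.inl (ih₁ s hs e he)⟩
      · exact Or.inr ⟨hq, Or.inr (ih₀ s hs e he)⟩
    · rw [List.mem_singleton.1 hs] at he; exact he
  | up q Sp t ih =>
    intro s hs e he
    unfold rs at hs
    split_ifs at hs with hq
    · exact Or.inr ⟨hq, ih s hs e he⟩
    · rw [List.mem_singleton.1 hs] at he; exact he

lemma closed_of_col {p : ℕ} {t : DT Λ κ} (h : t.Col p) : t.isLeaf ∨ t.top ≠ p := by
  cases t with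
  | leaf r f => exact Or.inl trivial
  | br q w r t₁ t₀ v B G => exact Or.inr h.2.1.ne
  | add q r t₁ t₀ => exact Or.inr h.2.1.ne
  | up q Sp t => exact Or.inr h.2.1.ne

/-- the codes of the members of a group -/
def CsG (p : ℕ) (g : Gp Λ κ) : Set ℕ := {e | ∃ m ∈ g, e ∈ Cs p m.2}

lemma CsG_rsG {p : ℕ} {g : Gp Λ κ} {e : ℕ} (h : e ∈ CsG p (rsG p g)) : e ∈ CsG p g := by
  obtain ⟨m, hm, he⟩ := h
  obtain ⟨m', h1, -, h3⟩ := mem_rsG hm
  exact ⟨m', h1, Cs_rs _ _ h3 _ he⟩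

lemma CsG_sub {p : ℕ} {g h : Gp Λ κ} (hs : ∀ m ∈ h, m ∈ g) {e : ℕ} (he : e ∈ CsG p h) :
    e ∈ CsG p g := by
  obtain ⟨m, hm, he⟩ := he
  exact ⟨m, hs m hm, he⟩

/-- the codes of the children -/
lemma CsG_gC {p : ℕ} {g : Gp Λ κ} (hg : GX p g) {e : ℕ} (h : e ∈ CsG p (gC p g)) :
    e + 1 ∈ CsG p g := by
  obtain ⟨m, hm, he⟩ := h
  obtain ⟨m', h1, w, r, t₁, t₀, v, B, G, e1, -, -, h2⟩ := mem_gC' hg hm
  refine CsG_rsG ⟨m', (mem_gB h1).1, ?_⟩
  have h3 := (hg.gB.gd m' h1).self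
  have h4 := hg.gB.col m' h1
  rw [e1] at h3 h4 ⊢
  by_cases hw : w = 0
  · obtain ⟨e2, -⟩ := h3.2.2.1 hw
    rcases h2 with rfl | rfl
    · exact Or.inr (Or.inr ⟨rfl, hw, e, he, rfl⟩)
    · simp only [e2] at he
      exact absurd he (by simp [Cs])
  · obtain ⟨k1, k0⟩ := h4.2.2.2.2 hw
    have he0 : e = 0 := by
      rcases h2 with rfl | rfl
      · exact Cs_closed (closed_of_col k1) _ he
      · exact Cs_closed (closed_of_col k0) _ he
    subst he0
    exact Or.inr (Or.inl ⟨rfl, hw, rfl⟩)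

lemma CsG_it {p : ℕ} (a : ℕ) : ∀ {g : Gp Λ κ}, GX p g → ∀ {e : ℕ},
    e ∈ CsG p ((Grp36.gC p)^[a] g) → e + a ∈ CsG p g := by
  induction a with
  | zero => intro g _ e he; exact he
  | succ a ih =>
    intro g hg e he
    rw [Function.iterate_succ_apply] at he
    have := CsG_gC hg (ih hg.gC he)
    rw [show e + (a + 1) = e + a + 1 by ring]
    exact this

lemma GX.it {p : ℕ} {g : Gp Λ κ} (h : GX p g) (a : ℕ) : GX p ((Grp36.gC p)^[a] g) := by
  induction a generalizing g with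
  | zero => exact h
  | succ a ih => exact ih h.gC

/-! ### splitting of the group function -/

lemma gval_LN (p : ℕ) (g : Gp Λ κ) (j : Λ) (x : ℝ) :
    gval g j x = gval (gLf p g) j x + gval (gNl p g) j x := by
  rw [← gval_rsG p g, ← gval_filter (fun t => isLf t) (rsG p g)]
  rfl

lemma isB_of_isLf {p : ℕ} {t : DT Λ κ} (h : isLf t = true) : isB p t = false := by
  cases t with
  | leaf r f => rfl
  | br q w r t₁ t₀ v B G => simp [isLf] at h
  | add q r t₁ t₀ => rfl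
  | up q Sp t => rfl

lemma filter_gR (p : ℕ) (g : Gp Λ κ) : (gR p g).filter (fun m => isLf m.2) = gLf p g := by
  unfold gR gLf
  rw [List.filter_filter]
  refine List.filter_congr fun m _ => ?_
  by_cases h : isLf m.2 = true
  · simp [h, isB_of_isLf h]
  · simp [Bool.not_eq_true] at h; simp [h]

lemma gval_BR (p : ℕ) (g : Gp Λ κ) (j : Λ) (x : ℝ) :
    gval (gNl p g) j x = gval (gB p g) j x + gval (gRn p g) j x := by
  have h1 := gval_LN p g j x
  have h2 := gval_split p g j x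
  have h3 := gval_filter (fun t => isLf t) (gR p g) j x
  rw [filter_gR] at h3
  have h4 : gval (gRn p g) j x = gval ((gR p g).filter fun m => !isLf m.2) j x := rfl
  linarith

/-! ### the energy of two groups -/

section energy
variable [Fintype Λ] [DecidableEq Λ] [DecidableEq κ] [WRel κ]

/-- **energy of the same-`ix` pairs of two groups** -/
noncomputable def qX (wr : ℕ → Λ → κ) (p : ℕ) (g h : Gp Λ κ) : ℝ :=
  Q ((Finset.univ : Finset (Λ × Λ)) \ Ro (wr p)) (gval g) (gval h)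

lemma gval_cons_fun (m : ℝ × DT Λ κ) (g : Gp Λ κ) :
    gval (m :: g) = fun j x => m.1 * m.2.g.val j x + gval g j x :=
  funext fun j => funext fun x => gval_cons m g j x

lemma gval_nil_fun : gval ([] : Gp Λ κ) = fun _ _ => (0 : ℝ) := rfl

variable {wr : ℕ → Λ → κ}

lemma GX.pb {p : ℕ} {g : Gp Λ κ} (h : GX p g) {m : ℝ × DT Λ κ} (hm : m ∈ g) (j : Λ) :
    PB (m.2.g.val j) := (h.gd m hm).self.2.2.2 j

lemma GX.pbv {p : ℕ} {g : Gp Λ κ} (h : GX p g) (j : Λ) : PB (gval g j) := PB_gval h.gok j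

lemma kX_eq {p q : ℕ} {m m' : DT Λ κ} (h : ∀ j, PB (m.g.val j)) (h' : ∀ j, PB (m'.g.val j)) :
    kX wr p m m' = Q ((Finset.univ : Finset (Λ × Λ)) \ Ro (wr p)) m.g.val m'.g.val := by
  unfold kX
  exact max_eq_right (Q_nonneg h h')

lemma ker_kX1 {p q : ℕ} {m : ℝ × DT Λ κ} {h : Gp Λ κ} (hm : ∀ j, PB (m.2.g.val j))
    (hh : GX q h) : (h.map fun m' => m.1 * m'.1 * kX wr p m.2 m'.2).sum =
      m.1 * Q ((Finset.univ : Finset (Λ × Λ)) \ Ro (wr p)) m.2.g.val (gval h) := by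
  induction h with
  | nil => rw [gval_nil_fun, Q_zero_right]; simp
  | cons m' h ih =>
    have hh' : GX q h := hh.sub fun a ha => List.mem_cons_of_mem _ ha
    have pm' : ∀ j, PB (m'.2.g.val j) := fun j => hh.pb (by simp) j
    rw [List.map_cons, List.sum_cons, ih hh', gval_cons_fun,
      Q_add_right hm (fun j => (pm' j).smul (hh.c m' (by simp))) (fun j => hh'.pbv j),
      Q_smul_right, kX_eq (q := q) hm pm']
    ring

/-- **the kernel of two groups** -/
theorem ker_kX {p q : ℕ} {g h : Gp Λ κ} (hg : GX q g) (hh : GX q h) :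
    ker (kX wr) p g h = qX wr p g h := by
  unfold qX
  induction g with
  | nil => rw [gval_nil_fun, Q_zero_left]; rfl
  | cons m g ih =>
    have hg' : GX q g := hg.sub fun a ha => List.mem_cons_of_mem _ ha
    have pm : ∀ j, PB (m.2.g.val j) := fun j => hg.pb (by simp) j
    rw [ker_cons, ih hg', gval_cons_fun,
      Q_add_left (fun j => (pm j).smul (hg.c m (by simp))) (fun j => hg'.pbv j)
        (fun j => hh.pbv j), Q_smul_left, ker_kX1 (p := p) (q := q) pm hh]

lemma qX_nonneg {p q : ℕ} {g h : Gp Λ κ} (hg : GX q g) (hh : GX q h) : 0 ≤ qX wr p g h :=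
  Q_nonneg hg.pbv hh.pbv

/-- **the step**: separated pairs, ties and pulls, members without `p` -/
theorem qX_step {p : ℕ} {g h : Gp Λ κ} (hg : GX p g) (hh : GX p h) :
    qX wr p g h = lX (ker (kX wr)) p g h + qX wr p (gB p g) (gB p h) +
      qX wr p (gRn p g) (gRn p h) := by
  have e1 : gval g = fun j x => gval (gLf p g) j x + gval (gNl p g) j x :=
    funext fun j => funext fun x => gval_LN p g j x
  have e2 : gval h = fun j x => gval (gLf p h) j x + gval (gNl p h) j x :=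
    funext fun j => funext fun x => gval_LN p h j x
  have e3 : gval (gNl p g) = fun j x => gval (gB p g) j x + gval (gRn p g) j x :=
    funext fun j => funext fun x => gval_BR p g j x
  have e4 : gval (gNl p h) = fun j x => gval (gB p h) j x + gval (gRn p h) j x :=
    funext fun j => funext fun x => gval_BR p h j x
  have e5 : gval (rsG p h) = gval h := funext fun j => funext fun x => gval_rsG p h j x
  unfold lX
  rw [ker_kX (p := p) hg.gLf hh.rsG, ker_kX (p := p) hg.gNl hh.gLf, ker_kX (p := p) hg.gB hh.gRn,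
    ker_kX (p := p) hg.gRn hh.gB]
  unfold qX
  rw [e5]
  have k1 : Q ((Finset.univ : Finset (Λ × Λ)) \ Ro (wr p)) (gval g) (gval h) =
      Q ((Finset.univ : Finset (Λ × Λ)) \ Ro (wr p)) (gval (gLf p g)) (gval h) +
      Q ((Finset.univ : Finset (Λ × Λ)) \ Ro (wr p)) (gval (gNl p g)) (gval h) := by
    conv_lhs => rw [e1]
    exact Q_add_left hg.gLf.pbv hg.gNl.pbv hh.pbv
  have k2 : Q ((Finset.univ : Finset (Λ × Λ)) \ Ro (wr p)) (gval (gNl p g)) (gval h) =
      Q ((Finset.univ : Finset (Λ × Λ)) \ Ro (wr p)) (gval (gNl p g)) (gval (gLf p h)) +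
      Q ((Finset.univ : Finset (Λ × Λ)) \ Ro (wr p)) (gval (gNl p g)) (gval (gNl p h)) := by
    conv_lhs => rw [e2]
    exact Q_add_right hg.gNl.pbv hh.gLf.pbv hh.gNl.pbv
  have k3 : Q ((Finset.univ : Finset (Λ × Λ)) \ Ro (wr p)) (gval (gNl p g)) (gval (gNl p h)) =
      Q ((Finset.univ : Finset (Λ × Λ)) \ Ro (wr p)) (gval (gB p g)) (gval (gNl p h)) +
      Q ((Finset.univ : Finset (Λ × Λ)) \ Ro (wr p)) (gval (gRn p g)) (gval (gNl p h)) := by
    conv_lhs => rw [e3]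
    exact Q_add_left hg.gB.pbv hg.gRn.pbv hh.gNl.pbv
  have k4 : Q ((Finset.univ : Finset (Λ × Λ)) \ Ro (wr p)) (gval (gB p g)) (gval (gNl p h)) =
      Q ((Finset.univ : Finset (Λ × Λ)) \ Ro (wr p)) (gval (gB p g)) (gval (gB p h)) +
      Q ((Finset.univ : Finset (Λ × Λ)) \ Ro (wr p)) (gval (gB p g)) (gval (gRn p h)) := by
    conv_lhs => rw [e4]
    exact Q_add_right hg.gB.pbv hh.gB.pbv hh.gRn.pbv
  have k5 : Q ((Finset.univ : Finset (Λ × Λ)) \ Ro (wr p)) (gval (gRn p g)) (gval (gNl p h)) =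
      Q ((Finset.univ : Finset (Λ × Λ)) \ Ro (wr p)) (gval (gRn p g)) (gval (gB p h)) +
      Q ((Finset.univ : Finset (Λ × Λ)) \ Ro (wr p)) (gval (gRn p g)) (gval (gRn p h)) := by
    conv_lhs => rw [e4]
    exact Q_add_right hg.gRn.pbv hh.gB.pbv hh.gRn.pbv
  rw [k1, k2, k3, k4, k5]
  ring

/-! ### pulls are constant on the lifts -/

/-- the node is a pull at `p` -/
def isPu (p : ℕ) (t : DT Λ κ) : Prop := ∃ r t₁ t₀ v B G, t = .br p 0 r t₁ t₀ v B G

lemma pull_val {p : ℕ} {t : DT Λ κ} (h : t.All Gd) (hp : isPu p t) : 0 < p ∧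
    ∃ u : Λ → ℝ → ℝ, (∀ j, PB (u j)) ∧ (t.g.val = fun j x => u j (p * x)) ∧
      (∀ j, Ep p (t.g.val j) = u j) := by
  obtain ⟨r, t₁, t₀, v, B, G, rfl⟩ := hp
  obtain ⟨h1, h2, h3, h4⟩ := h.self
  have h5 := h.2.1.self.2.2.2
  refine ⟨h1.1, t₁.g.val, h5, ?_, fun j => ?_⟩
  · funext j x
    exact h2 rfl j x
  · funext y
    have := h1.2.2.2 j y
    show Ep p (v j) y = _
    rw [this]; ring

/-- a pull against a function -/
lemma Q_pu_left {R : Finset (Λ × Λ)} {p : ℕ} {t : DT Λ κ} (h : t.All Gd) (hp : isPu p t)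
    {f : Λ → ℝ → ℝ} (hf : ∀ j, PB (f j)) :
    Q R t.g.val f = Q R (fun j => Ep p (t.g.val j)) (fun j => Ep p (f j)) := by
  obtain ⟨hp0, u, pu, e1, e2⟩ := pull_val h hp
  have e3 : (fun j => Ep p (t.g.val j)) = u := funext e2
  rw [e3]
  conv_lhs => rw [e1]
  exact Q_pull hp0 pu hf

lemma Q_pu_right {R : Finset (Λ × Λ)} {p : ℕ} {t : DT Λ κ} (h : t.All Gd) (hp : isPu p t)
    {f : Λ → ℝ → ℝ} (hf : ∀ j, PB (f j)) :
    Q R f t.g.val = Q R (fun j => Ep p (f j)) (fun j => Ep p (t.g.val j)) := by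
  obtain ⟨hp0, u, pu, e1, e2⟩ := pull_val h hp
  have e3 : (fun j => Ep p (t.g.val j)) = u := funext e2
  rw [e3]
  conv_lhs => rw [e1]
  exact Q_pull' hp0 pu hf

lemma Ep_gval_cons {p : ℕ} (m : ℝ × DT Λ κ) (g : Gp Λ κ) :
    (fun j => Ep p (gval (m :: g) j)) =
      fun j x => m.1 * Ep p (m.2.g.val j) x + Ep p (gval g j) x := by
  funext j y
  have e : gval (m :: g) j = fun x => m.1 * m.2.g.val j x + gval g j x :=
    funext fun x => gval_cons m g j x
  rw [e, Ep_add, Ep_smul]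

lemma Ep_gval_nil {p : ℕ} : (fun j => Ep p (gval ([] : Gp Λ κ) j)) = fun _ _ => (0 : ℝ) := by
  funext j y
  show Ep p (fun _ => (0 : ℝ)) y = 0
  unfold Ep; simp

/-- **at least one of every pair is a pull: the energy of the means** -/
theorem Q_BB {R : Finset (Λ × Λ)} {p : ℕ} (hp : 0 < p) {G H : Gp Λ κ} (hG : GX p G) (hH : GX p H)
    (h : ∀ m ∈ G, ∀ m' ∈ H, isPu p m.2 ∨ isPu p m'.2) :
    Q R (gval G) (gval H) = Q R (fun j => Ep p (gval G j)) (fun j => Ep p (gval H j)) := by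
  have one : ∀ (m : ℝ × DT Λ κ), m.2.All Gd → ∀ K : Gp Λ κ, GX p K →
      (∀ m' ∈ K, isPu p m.2 ∨ isPu p m'.2) →
      Q R m.2.g.val (gval K) = Q R (fun j => Ep p (m.2.g.val j)) (fun j => Ep p (gval K j)) := by
    intro m hm K
    have pm : ∀ j, PB (m.2.g.val j) := hm.self.2.2.2
    induction K with
    | nil => intro _ _; rw [Ep_gval_nil, gval_nil_fun, Q_zero_right, Q_zero_right]
    | cons m' K ih =>
      intro hK h'
      have hK' : GX p K := hK.sub fun a ha => List.mem_cons_of_mem _ ha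
      have pm' : ∀ j, PB (m'.2.g.val j) := fun j => hK.pb (by simp) j
      have c' : 0 ≤ m'.1 := hK.c m' (by simp)
      have key : Q R m.2.g.val m'.2.g.val =
          Q R (fun j => Ep p (m.2.g.val j)) (fun j => Ep p (m'.2.g.val j)) := by
        rcases h' m' (by simp) with h1 | h1
        · exact Q_pu_left hm h1 pm'
        · exact Q_pu_right (hK.gd m' (by simp)) h1 pm
      rw [Ep_gval_cons, gval_cons_fun,
        Q_add_right pm (fun j => (pm' j).smul c') (fun j => hK'.pbv j),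
        Q_add_right (fun j => (pm j).Ep hp) (fun j => ((pm' j).Ep hp).smul c')
          (fun j => (hK'.pbv j).Ep hp),
        Q_smul_right, Q_smul_right m'.1, key,
        ih hK' fun a ha => h' a (List.mem_cons_of_mem _ ha)]
  induction G with
  | nil => rw [Ep_gval_nil, gval_nil_fun, Q_zero_left, Q_zero_left]
  | cons m G ih =>
    have hG' : GX p G := hG.sub fun a ha => List.mem_cons_of_mem _ ha
    have pm : ∀ j, PB (m.2.g.val j) := fun j => hG.pb (by simp) j
    have c : 0 ≤ m.1 := hG.c m (by simp)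
    rw [Ep_gval_cons, gval_cons_fun,
      Q_add_left (fun j => (pm j).smul c) (fun j => hG'.pbv j) (fun j => hH.pbv j),
      Q_add_left (fun j => ((pm j).Ep hp).smul c) (fun j => (hG'.pbv j).Ep hp)
        (fun j => (hH.pbv j).Ep hp),
      Q_smul_left, Q_smul_left, one m (hG.gd m (by simp)) H hH fun a ha => h m (by simp) a ha,
      ih hG' fun a ha b hb => h a (List.mem_cons_of_mem _ ha) b hb]

/-! ### disjoint codes -/

lemma W01_of_Gd {t : DT Λ κ} (h : Gd t) : W01 t := by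
  obtain ⟨h1, -⟩ := h
  cases t with
  | leaf r f => trivial
  | br q w r t₁ t₀ v B G => exact ⟨h1.2.1, h1.2.2.1⟩
  | add q r t₁ t₀ => trivial
  | up q Sp t => trivial

lemma GX.wg {p : ℕ} {g : Gp Λ κ} (h : GX p g) : Wg g :=
  fun m hm => ⟨h.c m hm, (h.gd m hm).mono fun _ => W01_of_Gd⟩

omit [Fintype Λ] [DecidableEq Λ] [DecidableEq κ] [WRel κ] in
lemma rs_shape {p : ℕ} (t : DT Λ κ) : ∀ s ∈ rs p t, isB p s = true ∨ s.isLeaf ∨ s.top ≠ p := by
  induction t with
  | leaf r f =>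
    intro s hs; simp only [rs, List.mem_singleton] at hs; rw [hs]; exact Or.inr (Or.inl trivial)
  | br q w r t₁ t₀ v B G =>
    intro s hs; simp only [rs, List.mem_singleton] at hs; rw [hs]
    by_cases hq : q = p
    · exact Or.inl (by simp [isB, hq])
    · exact Or.inr (Or.inr hq)
  | add q r t₁ t₀ ih₁ ih₀ =>
    intro s hs
    unfold rs at hs
    split_ifs at hs with hq
    · rcases List.mem_append.1 hs with hs | hs
      · exact ih₁ s hs
      · exact ih₀ s hs
    · rw [List.mem_singleton.1 hs]; exact Or.inr (Or.inr hq)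
  | up q Sp t ih =>
    intro s hs
    unfold rs at hs
    split_ifs at hs with hq
    · exact ih s hs
    · rw [List.mem_singleton.1 hs]; exact Or.inr (Or.inr hq)

omit [Fintype Λ] [DecidableEq Λ] [DecidableEq κ] [WRel κ] in
/-- the members without `p` which are not leaves have the code `0` -/
lemma zero_of_gRn {p : ℕ} {g : Gp Λ κ} {m : ℝ × DT Λ κ} (h : m ∈ gRn p g) : 0 ∈ CsG p g := by
  obtain ⟨h1, h2⟩ := List.mem_filter.1 h
  obtain ⟨h3, h4⟩ := List.mem_filter.1 h1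
  obtain ⟨m', h5, -, h6⟩ := mem_rsG h3
  have hl : ¬ m.2.isLeaf := isLf_false.1 (by simpa using h2)
  have hB : ¬ isB p m.2 = true := by simpa using h4
  have htop : m.2.top ≠ p := by
    rcases rs_shape m'.2 m.2 h6 with h7 | h7 | h7
    · exact absurd h7 hB
    · exact absurd h7 hl
    · exact h7
  exact ⟨m', h5, Cs_rs _ _ h6 _ (zero_mem_Cs hl htop)⟩

omit [Fintype Λ] [DecidableEq Λ] [DecidableEq κ] [WRel κ] in
/-- a tie or pull is a pull or has the code `1` -/
lemma pu_of_gB {p : ℕ} {g : Gp Λ κ} {m : ℝ × DT Λ κ} (h : m ∈ gB p g) :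
    isPu p m.2 ∨ 1 ∈ CsG p g := by
  obtain ⟨w, r, t₁, t₀, v, B, G, e⟩ := isB_eq (mem_gB h).2
  obtain ⟨m', h5, -, h6⟩ := mem_rsG (mem_gB h).1
  by_cases hw : w = 0
  · subst hw
    exact Or.inl ⟨r, t₁, t₀, v, B, G, e⟩
  · refine Or.inr ⟨m', h5, Cs_rs _ _ h6 _ ?_⟩
    rw [e]
    exact Or.inr (Or.inl ⟨rfl, hw, rfl⟩)

/-- pairs of ties and pulls, one of them a pull: the pairs of the children -/
lemma qX_gB {p : ℕ} (hp : 0 < p) {g h : Gp Λ κ} (hg : GX p g) (hh : GX p h)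
    (hpl : ∀ m ∈ gB p g, ∀ m' ∈ gB p h, isPu p m.2 ∨ isPu p m'.2) :
    qX wr p (gB p g) (gB p h) = qX wr p (gC p g) (gC p h) := by
  unfold qX
  rw [Q_BB hp hg.gB hh.gB hpl]
  congr 1
  · funext j y; exact Ep_gB hg.gok j y
  · funext j y; exact Ep_gB hh.gok j y

lemma qX_nil_left {p : ℕ} (h : Gp Λ κ) : qX wr p [] h = 0 := by
  unfold qX; rw [gval_nil_fun, Q_zero_left]

lemma qX_nil_right {p : ℕ} (g : Gp Λ κ) : qX wr p g [] = 0 := by
  unfold qX; rw [gval_nil_fun, Q_zero_right]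

lemma XP_succ_eq {k : ℕ → Gp Λ κ → Gp Λ κ → ℝ} {n p : ℕ} (hp : p ≠ 0) (g h : Gp Λ κ) :
    XP k (n + 1) p g h = lX k p g h + XP k n p (gC p g) (gC p h) +
      XP k n (p - 1) (gRn p g) (gRn p h) := by
  show (if p = 0 then 0 else _) = _
  rw [if_neg hp]

/-- **one step with a pull** (free steps, pre-steps): equality up to the pairs without `p` -/
lemma step_pull {p : ℕ} (hp : 0 < p) {g h : Gp Λ κ} (hg : GX p g) (hh : GX p h)
    (hpl : ∀ m ∈ gB p g, ∀ m' ∈ gB p h, isPu p m.2 ∨ isPu p m'.2)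
    (hR : gRn p g = [] ∨ gRn p h = []) (n : ℕ) :
    qX wr p g h + XP (ker (kX wr)) n p (gC p g) (gC p h) ≤
      qX wr p (gC p g) (gC p h) + XP (ker (kX wr)) (n + 1) p g h := by
  have h0 : qX wr p (gRn p g) (gRn p h) = 0 := by
    rcases hR with e | e
    · rw [e, qX_nil_left]
    · rw [e, qX_nil_right]
  have h1 := XP_nonneg (k := kX wr) (fun p m m' => kX_nonneg wr p m m') n (p - 1) _ _
    (hg.gRn.wg) (hh.gRn.wg)
  rw [qX_step hg hh, qX_gB hp hg hh hpl, h0, XP_succ_eq hp.ne']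
  linarith

/-- **groups with disjoint codes are separated** -/
theorem qX_le_XP {p : ℕ} (hp : 0 < p) : ∀ (N : ℕ) (g h : Gp Λ κ), (∀ m ∈ g, m.2.size < N) →
    GX p g → GX p h → (∀ e ∈ CsG p g, ∀ e' ∈ CsG p h, e ≠ e') →
    qX wr p g h ≤ XP (ker (kX wr)) N p g h := by
  intro N
  induction N with
  | zero =>
    intro g h hN _ _ _
    have e : g = [] := by
      cases g with
      | nil => rfl
      | cons m g => exact absurd (hN m (by simp)) (Nat.not_lt_zero _)
    subst e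
    rw [qX_nil_left]
    exact le_rfl
  | succ N ih =>
    intro g h hN hg hh hd
    have hpl : ∀ m ∈ gB p g, ∀ m' ∈ gB p h, isPu p m.2 ∨ isPu p m'.2 := by
      intro m hm m' hm'
      rcases pu_of_gB hm with h1 | h1
      · exact Or.inl h1
      · rcases pu_of_gB hm' with h2 | h2
        · exact Or.inr h2
        · exact absurd rfl (hd 1 h1 1 h2)
    have hR : gRn p g = [] ∨ gRn p h = [] := by
      rcases List.eq_nil_or_concat' (gRn p g) with e | ⟨l, m, e⟩
      · exact Or.inl e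
      · rcases List.eq_nil_or_concat' (gRn p h) with e' | ⟨l', m', e'⟩
        · exact Or.inr e'
        · have h1 : 0 ∈ CsG p g := zero_of_gRn (m := m) (by rw [e]; simp)
          have h2 : 0 ∈ CsG p h := zero_of_gRn (m := m') (by rw [e']; simp)
          exact absurd rfl (hd 0 h1 0 h2)
    have h1 := step_pull (wr := wr) hp hg hh hpl hR N
    have h2 := ih (gC p g) (gC p h) (gC_size hg hN) hg.gC hh.gC (fun e he e' he' hne => by
      subst hne
      exact hd _ (CsG_gC hg he) _ (CsG_gC hh he') rfl)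
    linarith

omit [Fintype Λ] [DecidableEq Λ] [DecidableEq κ] [WRel κ] in
lemma exists_size (g : Gp Λ κ) : ∃ N, ∀ m ∈ g, m.2.size < N := by
  induction g with
  | nil => exact ⟨0, by simp⟩
  | cons m g ih =>
    obtain ⟨N, hN⟩ := ih
    refine ⟨max N (m.2.size + 1), fun a ha => ?_⟩
    rcases List.mem_cons.1 ha with rfl | ha
    · exact lt_of_lt_of_le (Nat.lt_succ_self _) (le_max_right _ _)
    · exact lt_of_lt_of_le (hN a ha) (le_max_left _ _)

omit [Fintype Λ] [DecidableEq Λ] [DecidableEq κ] [WRel κ] in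
lemma CsG_one {p : ℕ} {t : DT Λ κ} {e : ℕ} (h : e ∈ CsG p [((1 : ℝ), t)]) : e ∈ Cs p t := by
  obtain ⟨m, hm, he⟩ := h
  rw [List.mem_singleton.1 hm] at he
  exact he

/-- **[EX]**: iterated children of two nodes with disjoint shifted codes -/
theorem qX_it_le_XP {p : ℕ} (hp : 0 < p) {t t' : DT Λ κ} (ht : t.All Gd) (ht' : t'.All Gd)
    (hc : t.Col (p + 1)) (hc' : t'.Col (p + 1)) (a b : ℕ)
    (hd : ∀ e ∈ Cs p t, ∀ e' ∈ Cs p t', b + e ≠ a + e') :
    ∃ n, qX wr p ((gC p)^[a] [((1 : ℝ), t)]) ((gC p)^[b] [((1 : ℝ), t')]) ≤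
      XP (ker (kX wr)) n p ((gC p)^[a] [((1 : ℝ), t)]) ((gC p)^[b] [((1 : ℝ), t')]) := by
  have hg : GX p [((1 : ℝ), t)] := GX.one ht hc
  have hh : GX p [((1 : ℝ), t')] := GX.one ht' hc'
  obtain ⟨N, hN⟩ := exists_size ((gC p)^[a] [((1 : ℝ), t)])
  refine ⟨N, qX_le_XP hp N _ _ hN (hg.it a) (hh.it b) fun e he e' he' hne => ?_⟩
  subst hne
  have h1 := CsG_one (CsG_it a hg he)
  have h2 := CsG_one (CsG_it b hh he')
  exact hd _ h1 _ h2 (by omega)

/-! ### the mean inequality -/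

/-- the iterated children are below the mean -/
theorem gval_it_le {p : ℕ} (hp : 0 < p) (a : ℕ) : ∀ {g : Gp Λ κ}, GX p g → ∀ (j : Λ) (y : ℝ),
    gval ((gC p)^[a] g) j y ≤ Ep (p ^ a) (gval g j) y := by
  induction a with
  | zero =>
    intro g _ j y
    rw [pow_zero, Ep_one]
    exact le_rfl
  | succ a ih =>
    intro g hg j y
    rw [Function.iterate_succ_apply]
    refine (ih hg.gC j y).trans ?_
    have h1 : ∀ x, gval (gC p g) j x ≤ Ep p (gval g j) x := fun x => by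
      rw [← Ep_gB hg.gok j x]
      refine Ep_mono (fun z => ?_) x
      have h2 := gval_split p g j z
      have h3 := (PB_gval (hg.gok.gR (p := p)) j).nonneg z
      linarith
    refine (Ep_mono h1 y).trans (le_of_eq ?_)
    rw [Ep_mul (pow_pos hp a) hp, pow_succ]

theorem qX_it_le_avg {p : ℕ} (hp : 0 < p) {t t' : DT Λ κ} (ht : t.All Gd) (ht' : t'.All Gd)
    (hc : t.Col (p + 1)) (hc' : t'.Col (p + 1)) (a b : ℕ) :
    qX wr p ((gC p)^[a] [((1 : ℝ), t)]) ((gC p)^[b] [((1 : ℝ), t')]) ≤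
      Q ((Finset.univ : Finset (Λ × Λ)) \ Ro (wr p)) (avg (p ^ a) t.g.val)
        (avg (p ^ b) t'.g.val) := by
  have hg : GX p [((1 : ℝ), t)] := GX.one ht hc
  have hh : GX p [((1 : ℝ), t')] := GX.one ht' hc'
  have e : ∀ u : DT Λ κ, gval [((1 : ℝ), u)] = u.g.val := fun u => by
    funext j x; simp [gval]
  refine Q_mono2 (hg.it a).pbv (PB_avg (pow_pos hp a) ht.self.2.2.2) (hh.it b).pbv
    (PB_avg (pow_pos hp b) ht'.self.2.2.2) (fun j x => ?_) (fun j x => ?_)
  · have := gval_it_le hp a hg j x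
    rw [e] at this
    exact this
  · have := gval_it_le hp b hh j x
    rw [e] at this
    exact this

end energy

/-! ### the trees of items -/

section item
open Crest.Agent.R4.Lam368 Crest.Agent.R4.Fam464 Crest.Agent.R4P.Item758 Crest.Agent.R4P.Cnt588
variable [Fintype Λ] [DecidableEq Λ] [Fintype κ] [DecidableEq κ]

/-- values of a tree of items -/
lemma toDT_val (D : Par Λ κ) (sp : ℕ → Finset Λ) {t : IT} {b pr : ℕ} (hb : 0 < b)
    (hF : Fit b pr t) (hW : D.Wts pr t) :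
    (D.toDT sp b pr t).g.val = fun j => (D.toFT b pr t).U 1 j := by
  rw [D.toDT_g, D.toG_val hb hF hW]

/-- **the node facts for the trees of items** -/
theorem toDT_Gd (D : Par Λ κ) (sp : ℕ → Finset Λ) (t : IT) : ∀ b pr : ℕ, 0 < b → Fit b pr t →
    D.Wts pr t → (D.toDT sp b pr t).All Gd := by
  induction t with
  | leaf S =>
    intro b pr hb hF hW
    exact ⟨trivial, trivial, trivial, fun j => (D.L_ok hb hF hW).1 1 (one_dvd _) j⟩
  | br p Sp t₁ t₀ ih₁ ih₀ =>
    intro b pr hb hF hW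
    have hA := D.toFT_Adm _ b pr hb hF hW
    have hdat := FT.dat hb hA
    obtain ⟨hp, hpb, hd, h1, h0⟩ := hF
    have hbp : 0 < b * p := Nat.mul_pos hb hp.pos
    have W1 := hW.br₁ hd
    have W0 := hW.br₀
    have hpR : (0 : ℝ) < p := by exact_mod_cast hp.pos
    have hp1 : (1 : ℝ) ≤ p := by exact_mod_cast hp.one_lt.le
    have hw : (1 / (p : ℝ)) ≠ 0 := by positivity
    refine ⟨⟨⟨hp.pos, by positivity, ?_, fun j y => ?_⟩, fun h => absurd h hw,
      fun h => absurd h hw, fun j => PB_lamF hdat j⟩, ih₁ _ _ hb h1 W1, ih₀ _ _ hbp h0 W0⟩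
    · rw [div_le_one hpR]; exact hp1
    · rw [toDT_val D sp hb h1 W1, toDT_val D sp hbp h0 W0]
      exact ColCov9.Ep_lamF_item' hdat j y
  | add p t₁ t₀ ih₁ ih₀ =>
    intro b pr hb hF hW
    obtain ⟨hd, h1, h0⟩ := hF
    have k1 := ih₁ _ _ hb h1 (hW.add₁ hd)
    have k0 := ih₀ _ _ hb h0 hW.add₀
    exact ⟨⟨trivial, trivial, trivial, fun j => (k1.self.2.2.2 j).add (k0.self.2.2.2 j)⟩, k1, k0⟩
  | up b' Sp t ih =>
    intro b pr hb hF hW
    have k := ih _ _ hb hF hW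
    exact ⟨⟨trivial, trivial, trivial, k.self.2.2.2⟩, k⟩
  | pl p t ih =>
    intro b pr hb hF hW
    obtain ⟨hp, hpb, h1⟩ := hF
    have k := ih _ _ hb h1 hW.pl
    have hv := toDT_val D sp hb h1 hW.pl
    have pU : ∀ j, PB ((D.toFT b (pr * p) t).U 1 j) := fun j => by
      have := k.self.2.2.2 j
      rw [hv] at this
      exact this
    refine ⟨⟨⟨hp.pos, le_rfl, zero_le_one, fun j y => ?_⟩, fun _ j x => ?_,
      fun _ => ⟨rfl, rfl⟩, fun j => (pU j).pull p⟩, k, trivial, trivial, trivial,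
      fun j => PB.const le_rfl⟩
    · rw [hv]
      have := Ep_pull hp.pos (pU j).per y
      rw [this]; ring
    · rw [hv]
  | far p t₁ t₀ ih₁ ih₀ =>
    intro b pr hb hF hW
    obtain ⟨hd, h1, h0⟩ := hF
    have k1 := ih₁ _ _ hb h1 (hW.far₁ hd)
    have k0 := ih₀ _ _ hb h0 hW.far₀
    exact ⟨⟨trivial, trivial, trivial, fun j => (k1.self.2.2.2 j).add (k0.self.2.2.2 j)⟩, k1, k0⟩

end item

end Crest.Agent.R4P.XEx29
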