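import Crest.Agent.R4P.CrsU_26
import Crest.Agent.R4P.XEx_29
import Crest.Agent.R4P.TWdef_17

/-!
R4 (S0004) with powers, `TgtCrs`, helper26: **transfer of the crossing pairs of the flagged walk to the
product walk of the groups**.

`xferX` : along the top states, `WF xX (top, s) + K(s) ≤ T(s) + XP(s)`, `K` = energy of the iterated
children, `T` = `EE` = raw energy of the averages.
-/

set_option autoImplicit false
set_option linter.unusedSectionVars false
set_option linter.unusedVariables false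
set_option linter.unusedSimpArgs false
open MeasureTheory Filter Set

namespace Crest.Agent.R4P.CrsT26

open Crest.Agent.R4.Tour104 Crest.Agent.R4.Tour758 Crest.Agent.R4.Avg758 Crest.Agent.R4.Clos758
open Crest.Agent.R4.ClosL758 Crest.Agent.R4.ClosG758 Crest.Agent.R4.ClosR758
open Crest.Agent.R4P.ClosR442 Crest.Agent.R4P.Walk560 Crest.Agent.R4P.Grp36 Crest.Agent.R4P.Xfer36
open Crest.Agent.R4P.CrsD26 Crest.Agent.R4P.CrsU26 Crest.Agent.R4P.TW17
open Crest.Agent.R4P.XEx29 (Gd GX qX qX_it_le_XP)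
open Crest.Agent.R4P.VWalk36 (crs)
open Crest.Agent.R4P.Mrg35 (crs_inv)

variable {Λ κ : Type*} [Fintype Λ] [DecidableEq Λ] [Fintype κ] [DecidableEq κ] [WRel κ]
  {wr : ℕ → Λ → κ}

/-- raw energy of the averages -/
noncomputable def EE (wr : ℕ → Λ → κ) (p a b : ℕ) (t t' : DT Λ κ) : ℝ :=
  Q (SI wr p) (avg (p ^ a) t.g.val) (avg (p ^ b) t'.g.val)

lemma GOk.one1 {t : DT Λ κ} (h : t.All Gd) : GOk [((1 : ℝ), t)] := by
  refine ⟨fun m hm => ?_, fun m hm => ?_, fun m hm => ?_⟩ <;> rw [List.mem_singleton.1 hm]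
  · exact zero_le_one
  · exact h.mono fun t ht => ht.1
  · exact h.mono fun t ht => ht.2.2.2

lemma Gd.pb {t : DT Λ κ} (h : t.All Gd) (j : Λ) : PB (t.g.val j) := h.self.2.2.2 j

section en
variable {p a b : ℕ} {w : ℝ} {r : Λ → κ} {t₁ t₀ t t' : DT Λ κ} {v : Λ → ℝ → ℝ} {B G : κ → ℝ → ℝ}

lemma UX.mean' (hp : 0 < p) (h : t.All Gd) (h' : t'.All Gd) (a b : ℕ) :
    UX wr p ((gC p)^[a] [((1 : ℝ), t)]) ((gC p)^[b] [((1 : ℝ), t')]) 0 (EE wr p a b t t') := by
  have := UX.mean (wr := wr) hp (GOk.one1 h) (GOk.one1 h') a b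
  rw [gval_one, gval_one] at this
  exact this

lemma avg_br (hp : 0 < p) (h : (DT.br p w r t₁ t₀ v B G).All Gd) (a : ℕ) :
    avg (p ^ (a + 1)) (DT.br p w r t₁ t₀ v B G).g.val =
      fun j x => (1 - w) * avg (p ^ a) t₁.g.val j x + w * avg (p ^ a) t₀.g.val j x := by
  have hi := h.self.1
  have e1 : (DT.br p w r t₁ t₀ v B G).g.val = v := rfl
  rw [e1]
  funext j x
  show Ep (p ^ (a + 1)) (v j) x = _
  rw [pow_succ, ← Ep_mul (pow_pos hp a) hp]
  have e2 : Ep p (v j) = fun y => (1 - w) * t₁.g.val j y + w * t₀.g.val j y :=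
    funext fun y => hi.2.2.2 j y
  rw [e2, Ep_add, Ep_smul, Ep_smul]
  rfl

lemma PB_avgv {M : ℕ} (hM : 0 < M) (h : t.All Gd) : ∀ j, PB (avg M t.g.val j) :=
  PB_avg hM (Gd.pb h)

lemma EE_brL (hp : 0 < p) (h : (DT.br p w r t₁ t₀ v B G).All Gd) (h' : t'.All Gd) :
    EE wr p (a + 1) b (DT.br p w r t₁ t₀ v B G) t' =
      (1 - w) * EE wr p a b t₁ t' + w * EE wr p a b t₀ t' := by
  unfold EE
  have hw := h.self.1
  have w1 : 0 ≤ 1 - w := by linarith [hw.2.2.1]
  have p1 := PB_avgv (pow_pos hp a) h.2.1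
  have p0 := PB_avgv (pow_pos hp a) h.2.2
  rw [avg_br hp h a, Q_add_left (f := fun j x => (1 - w) * avg (p ^ a) t₁.g.val j x)
    (g := fun j x => w * avg (p ^ a) t₀.g.val j x) (fun j => (p1 j).smul w1)
    (fun j => (p0 j).smul hw.2.1) (PB_avgv (pow_pos hp b) h'), Q_smul_left, Q_smul_left]

lemma EE_brR (hp : 0 < p) (h : (DT.br p w r t₁ t₀ v B G).All Gd) (h' : t.All Gd) :
    EE wr p a (b + 1) t (DT.br p w r t₁ t₀ v B G) =
      (1 - w) * EE wr p a b t t₁ + w * EE wr p a b t t₀ := by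
  unfold EE
  have hw := h.self.1
  have w1 : 0 ≤ 1 - w := by linarith [hw.2.2.1]
  have p1 := PB_avgv (pow_pos hp b) h.2.1
  have p0 := PB_avgv (pow_pos hp b) h.2.2
  rw [avg_br hp h b, Q_add_right (g := fun j x => (1 - w) * avg (p ^ b) t₁.g.val j x)
    (h := fun j x => w * avg (p ^ b) t₀.g.val j x) (PB_avgv (pow_pos hp a) h')
    (fun j => (p1 j).smul w1) (fun j => (p0 j).smul hw.2.1), Q_smul_right, Q_smul_right]

lemma EE_pullL (hp : 0 < p) (h : (DT.br p 0 r t₁ t₀ v B G).All Gd) (h' : t'.All Gd) :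
    EE wr p 0 b (DT.br p 0 r t₁ t₀ v B G) t' = EE wr p 0 (b + 1) t₁ t' := by
  unfold EE
  have hv := h.self.2.1 rfl
  have e1 : (DT.br p 0 r t₁ t₀ v B G).g.val = fun j x => t₁.g.val j (p * x) := by
    funext j x; exact hv j x
  rw [pow_zero, avg_one, avg_one, e1, Q_push hp _ (Gd.pb h.2.1) (PB_avgv (pow_pos hp b) h')]
  congr 1
  funext j
  rw [avg_mul hp (pow_pos hp b), pow_succ, mul_comm]

lemma EE_pullR (hp : 0 < p) (h : (DT.br p 0 r t₁ t₀ v B G).All Gd) (h' : t.All Gd) :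
    EE wr p a 0 t (DT.br p 0 r t₁ t₀ v B G) = EE wr p (a + 1) 0 t t₁ := by
  unfold EE
  have hv := h.self.2.1 rfl
  have e1 : (DT.br p 0 r t₁ t₀ v B G).g.val = fun j x => t₁.g.val j (p * x) := by
    funext j x; exact hv j x
  rw [pow_zero, avg_one, avg_one, e1, Q_push' hp _ (Gd.pb h.2.1) (PB_avgv (pow_pos hp a) h')]
  congr 1
  funext j
  rw [avg_mul hp (pow_pos hp a), pow_succ, mul_comm]

lemma avg_addt (M : ℕ) {q : ℕ} :
    avg M (DT.add q r t₁ t₀).g.val = fun j x => avg M t₁.g.val j x + avg M t₀.g.val j x :=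
  avg_add t₁.g.val t₀.g.val

lemma EE_addL {q : ℕ} (hp : 0 < p) (h1 : t₁.All Gd) (h0 : t₀.All Gd) (h' : t'.All Gd) :
    EE wr p a b (DT.add q r t₁ t₀) t' = EE wr p a b t₁ t' + EE wr p a b t₀ t' := by
  unfold EE
  rw [avg_addt, Q_add_left (PB_avgv (pow_pos hp a) h1) (PB_avgv (pow_pos hp a) h0)
    (PB_avgv (pow_pos hp b) h')]

lemma EE_addR {q : ℕ} (hp : 0 < p) (h1 : t₁.All Gd) (h0 : t₀.All Gd) (h' : t.All Gd) :
    EE wr p a b t (DT.add q r t₁ t₀) = EE wr p a b t t₁ + EE wr p a b t t₀ := by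
  unfold EE
  rw [avg_addt, Q_add_right (PB_avgv (pow_pos hp a) h') (PB_avgv (pow_pos hp b) h1)
    (PB_avgv (pow_pos hp b) h0)]

lemma vw_up_val {u : DT Λ κ} {Sp : Finset Λ} (h : vw p t = .up Sp u) : u.g.val = t.g.val := by
  rw [vw_up_g h]

lemma EE_upL {u : DT Λ κ} {Sp : Finset Λ} (h : vw p t = .up Sp u) :
    EE wr p a b u t' = EE wr p a b t t' := by
  unfold EE; rw [vw_up_val h]

lemma EE_upR {u : DT Λ κ} {Sp : Finset Λ} (h : vw p t' = .up Sp u) :
    EE wr p a b t u = EE wr p a b t t' := by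
  unfold EE; rw [vw_up_val h]

lemma EE_zero (h : t.All Gd) (h' : t'.All Gd) :
    EE wr p 0 0 t t' = Q (SI wr p) (gval [((1 : ℝ), t)]) (gval [((1 : ℝ), t')]) := by
  unfold EE
  rw [pow_zero, avg_one, avg_one, gval_one, gval_one]

end en

/-! ### rules -/

section rules
variable {p a b : ℕ} {w : ℝ} {r : Λ → κ} {t₁ t₀ t : DT Λ κ} {v : Λ → ℝ → ℝ} {B G : κ → ℝ → ℝ}
  {g h : Gp Λ κ} {x₁ x₀ y₁ y₀ : ℝ}

lemma UX.brL (ht : (DT.br p w r t₁ t₀ v B G).All Gd) (oh : GOk h)
    (u₁ : 1 - w ≠ 0 → UX wr p ((gC p)^[a] [((1 : ℝ), t₁)]) h x₁ y₁)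
    (u₀ : w ≠ 0 → UX wr p ((gC p)^[a] [((1 : ℝ), t₀)]) h x₀ y₀) :
    UX wr p ((gC p)^[a + 1] [((1 : ℝ), DT.br p w r t₁ t₀ v B G)]) h
      ((1 - w) * x₁ + w * x₀) ((1 - w) * y₁ + w * y₀) := by
  have hw := ht.self.1
  rw [Function.iterate_succ_apply, gC_br1, it_append, it_sm, it_sm]
  exact UX.appL (UX.smL (by linarith [hw.2.2.1]) (GOk.it (GOk.one1 ht.2.1) a) oh u₁)
    (UX.smL hw.2.1 (GOk.it (GOk.one1 ht.2.2) a) oh u₀)

lemma UX.brR (ht : (DT.br p w r t₁ t₀ v B G).All Gd) (og : GOk g)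
    (u₁ : 1 - w ≠ 0 → UX wr p g ((gC p)^[b] [((1 : ℝ), t₁)]) x₁ y₁)
    (u₀ : w ≠ 0 → UX wr p g ((gC p)^[b] [((1 : ℝ), t₀)]) x₀ y₀) :
    UX wr p g ((gC p)^[b + 1] [((1 : ℝ), DT.br p w r t₁ t₀ v B G)])
      ((1 - w) * x₁ + w * x₀) ((1 - w) * y₁ + w * y₀) := by
  have hw := ht.self.1
  rw [Function.iterate_succ_apply, gC_br1, it_append, it_sm, it_sm]
  exact UX.appR (UX.smR (by linarith [hw.2.2.1]) og (GOk.it (GOk.one1 ht.2.1) b) u₁)
    (UX.smR hw.2.1 og (GOk.it (GOk.one1 ht.2.2) b) u₀)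

lemma UX.addL (h1 : t₁.All Gd) (h0 : t₀.All Gd) (ht : (DT.add p r t₁ t₀).All Gd)
    (u₁ : UX wr p ((gC p)^[a] [((1 : ℝ), t₁)]) h x₁ y₁)
    (u₀ : UX wr p ((gC p)^[a] [((1 : ℝ), t₀)]) h x₀ y₀) :
    UX wr p ((gC p)^[a] [((1 : ℝ), DT.add p r t₁ t₀)]) h (x₁ + x₀) (y₁ + y₀) := by
  refine UX.congrL (rsG_add1 (r := r)) ((GOk.one1 h1).append (GOk.one1 h0)) (GOk.one1 ht) ?_
  rw [it_append]
  exact UX.appL u₁ u₀

lemma UX.addR (h1 : t₁.All Gd) (h0 : t₀.All Gd) (ht : (DT.add p r t₁ t₀).All Gd)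
    (u₁ : UX wr p g ((gC p)^[b] [((1 : ℝ), t₁)]) x₁ y₁)
    (u₀ : UX wr p g ((gC p)^[b] [((1 : ℝ), t₀)]) x₀ y₀) :
    UX wr p g ((gC p)^[b] [((1 : ℝ), DT.add p r t₁ t₀)]) (x₁ + x₀) (y₁ + y₀) := by
  refine UX.congrR (rsG_add1 (r := r)) ((GOk.one1 h1).append (GOk.one1 h0)) (GOk.one1 ht) ?_
  rw [it_append]
  exact UX.appR u₁ u₀

lemma UX.upL {u : DT Λ κ} {Sp : Finset Λ} {x y : ℝ} (hv : vw p t = .up Sp u) (hu : u.All Gd)
    (ht : t.All Gd) (U : UX wr p ((gC p)^[a] [((1 : ℝ), u)]) h x y) :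
    UX wr p ((gC p)^[a] [((1 : ℝ), t)]) h x y :=
  UX.congrL (rsG_up1 hv) (GOk.one1 hu) (GOk.one1 ht) U

lemma UX.upR {u : DT Λ κ} {Sp : Finset Λ} {x y : ℝ} (hv : vw p t = .up Sp u) (hu : u.All Gd)
    (ht : t.All Gd) (U : UX wr p g ((gC p)^[b] [((1 : ℝ), u)]) x y) :
    UX wr p g ((gC p)^[b] [((1 : ℝ), t)]) x y :=
  UX.congrR (rsG_up1 hv) (GOk.one1 hu) (GOk.one1 ht) U

end rules

/-! ### the flagged walk -/

section walk
variable {Ad : TrG Λ κ → Finset Λ → Prop} {μ : TrG Λ κ → Finset Λ → ℝ} {ν : TrG Λ κ → ℝ}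
  {stp : Stp Λ κ}

lemma WF_old (s : St Λ κ) : WF stp (xX wr stp) (Fl.old, s) = 0 := by
  suffices ∀ (k : ℕ) (s : St Λ κ), s.rank < k → WF stp (xX wr stp) (Fl.old, s) = 0 from
    this _ s (Nat.lt_succ_self _)
  intro k
  induction k with
  | zero => intro s hs; omega
  | succ k ih =>
    intro s hs
    rw [WF_eq0]
    have e : xX wr stp (Fl.old, s) = 0 := rfl
    rw [e, zero_add]
    refine List.sum_eq_zero fun y hy => ?_
    obtain ⟨q, hq, rfl⟩ := List.mem_map.1 hy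
    simp only [nxF0] at hq
    obtain ⟨q', hq', rfl⟩ := List.mem_map.1 hq
    have := nxt0_rank stp s q' hq'
    simp only
    rw [ih q'.2 (by omega), mul_zero]

lemma WF_leaf {s : St Λ κ} (h : s.t.isLeaf ∨ s.t'.isLeaf) :
    WF stp (xX wr stp) (Fl.top, s) = 0 := by
  rw [WF_eq0]
  have e : nxt0 stp s = [] := by simp [nxt0, h]
  have e1 : xX wr stp (Fl.top, s) = 0 := by simp [xX, h]
  rw [e1]
  simp only [nxF0, e, List.map_nil, ite_self, List.sum_nil, add_zero]

lemma WF_exH {s : St Λ κ} (h : exH stp s) : WF stp (xX wr stp) (Fl.top, s) = 0 := by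
  rw [WF_eq0]
  have e1 : xX wr stp (Fl.top, s) = 0 := by simp [xX, h]
  rw [e1, zero_add]
  refine List.sum_eq_zero fun y hy => ?_
  obtain ⟨q, hq, rfl⟩ := List.mem_map.1 hy
  simp only [nxF0, if_pos h] at hq
  obtain ⟨q', hq', rfl⟩ := List.mem_map.1 hq
  simp only
  rw [WF_old, mul_zero]

/-- the value of a child of a top state which is not a two-sided column -/
noncomputable def vS (wr : ℕ → Λ → κ) (stp : Stp Λ κ) (q : St Λ κ) : ℝ :=
  WF stp (xX wr stp) (flS q, q)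

lemma WF_step {s : St Λ κ} (hl : ¬ (s.t.isLeaf ∨ s.t'.isLeaf)) (hx : ¬ exH stp s) (h2 : ¬ two s) :
    WF stp (xX wr stp) (Fl.top, s) =
      ((crs stp s).map fun z => Qs { z with R := SI wr s.p }).sum +
      ((nxt0 stp s).map fun q => q.1 * vS wr stp q.2).sum := by
  rw [WF_eq0]
  have e1 : xX wr stp (Fl.top, s) =
      ((crs stp s).map fun z => Qs { z with R := SI wr s.p }).sum := by
    simp only [xX, if_neg hl, if_neg hx]
    unfold SI
    congr!
  rw [e1]
  simp only [nxF0, if_neg hx, if_neg h2, List.map_map]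
  rfl

lemma WF_two {s : St Λ κ} (hl : ¬ (s.t.isLeaf ∨ s.t'.isLeaf)) (hx : ¬ exH stp s) (h2 : two s) :
    WF stp (xX wr stp) (Fl.top, s) =
      ((nxt0 stp s).map fun q => q.1 * WF stp (xX wr stp) (Fl.top, q.2)).sum := by
  rw [WF_eq0]
  have e1 : xX wr stp (Fl.top, s) = 0 := by
    simp only [xX, if_neg hl, if_neg hx, crs_two h2, List.map_nil, List.sum_nil]
  rw [e1]
  simp only [nxF0, if_neg hx, if_pos h2, List.map_map, zero_add]
  rfl

lemma Qs_EE {z : St Λ κ} {p a b : ℕ} (hA : z.A = Finset.univ) (hA' : z.A' = Finset.univ)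
    (hM : z.M = p ^ a) (hM' : z.M' = p ^ b) :
    Qs { z with R := SI wr p } = EE wr p a b z.t z.t' := by
  unfold Qs EE
  simp only [hA, hA', rv_univ, hM, hM']

/-- the rule of the crossing states -/
lemma UX_cross {p a b : ℕ} {t t' : DT Λ κ} (hp : 0 < p) (ht : t.All Gd) (ht' : t'.All Gd)
    (hc : t.Col (p + 1)) (hc' : t'.Col (p + 1))
    (hd : ∀ e ∈ Cs p t, ∀ e' ∈ Cs p t', b + e ≠ a + e') :
    UX wr p ((gC p)^[a] [((1 : ℝ), t)]) ((gC p)^[b] [((1 : ℝ), t')])
      (EE wr p a b t t') (EE wr p a b t t') := by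
  obtain ⟨n, hn⟩ := qX_it_le_XP (wr := wr) hp ht ht' hc hc' a b hd
  refine ⟨GOk.it (GOk.one1 ht) a, GOk.it (GOk.one1 ht') b, n, ?_⟩
  have e : ker (kX wr) p ((gC p)^[a] [((1 : ℝ), t)]) ((gC p)^[b] [((1 : ℝ), t')]) =
      qX wr p ((gC p)^[a] [((1 : ℝ), t)]) ((gC p)^[b] [((1 : ℝ), t')]) :=
    XEx29.ker_kX ((GX.one ht hc).it a) ((GX.one ht' hc').it b)
  rw [e]
  linarith

lemma stay_Stay {q : St Λ κ} (h : stay q) (hl : ¬ (q.t.isLeaf ∨ q.t'.isLeaf)) : Stay q := by
  rcases h with h | h | h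
  · exact absurd (Or.inl h) hl
  · exact absurd (Or.inr h) hl
  · exact ⟨Finset.subset_union_left.trans h, Finset.subset_union_right.trans h⟩

/-- the class of states of the transfer -/
structure JW (wr : ℕ → Λ → κ) (Ad : TrG Λ κ → Finset Λ → Prop) (μ : TrG Λ κ → Finset Λ → ℝ)
    (ν : TrG Λ κ → ℝ) (stp : Stp Λ κ) (J : Fl × St Λ κ → Prop) : Prop where
  inv : ∀ z, J z → ∃ n, Inv wr Ad μ ν n z.2
  nxt : ∀ z, J z → ∀ q ∈ nxF stp z, J q.2
  st : ∀ s, J (Fl.top, s) → stay s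
  cd : ∀ s, J (Fl.top, s) → CD stp s

/-- the claim for a state -/
def Cl (wr : ℕ → Λ → κ) (stp : Stp Λ κ) (a b : ℕ) (s : St Λ κ) : Prop :=
  UX wr s.p ((gC s.p)^[a] [((1 : ℝ), s.t)]) ((gC s.p)^[b] [((1 : ℝ), s.t')])
    (WF stp (xX wr stp) (Fl.top, s)) (EE wr s.p a b s.t s.t')

/-- good states -/
structure SG (s : St Λ κ) : Prop where
  l : s.t.All Gd
  r : s.t'.All Gd
  A : s.A = Finset.univ
  A' : s.A' = Finset.univ

/-- **the child rule**: a child at the level of its parent -/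
lemma child_rule {J : Fl × St Λ κ → Prop} (hJ : JW wr Ad μ ν stp J) {n : ℕ} {s : St Λ κ}
    (hn : Inv wr Ad μ ν n s) (hp : s.p.Prime) (h : J (Fl.top, s)) {N : ℕ} (hN : s.rank < N + 1)
    (ih : ∀ (s : St Λ κ) (a b : ℕ), s.rank < N → J (Fl.top, s) → SG s →
      ¬ (s.t.isLeaf ∨ s.t'.isLeaf) → TI s.p a b s → Cl wr stp a b s)
    {c : ℝ} {f : Fl} {q : St Λ κ} (hq : (c, (f, q)) ∈ nxF0 stp (Fl.top, s)) (hc : c ≠ 0)
    (hf : f ≠ Fl.self) (gq : SG q) {a' b' : ℕ} (hT : TI s.p a' b' q) :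
    UX wr s.p ((gC s.p)^[a'] [((1 : ℝ), q.t)]) ((gC s.p)^[b'] [((1 : ℝ), q.t')])
      (WF stp (xX wr stp) (f, q)) (EE wr s.p a' b' q.t q.t') := by
  have h0 := UX.mean' (wr := wr) hp.pos gq.l gq.r a' b'
  have hJq : J (f, q) := hJ.nxt _ h _ (mem_nxF.2 ⟨hq, hc⟩)
  have hq' : (c, q) ∈ nxt0 stp s := mem_nxF0 hq
  have hinv := (hn.next0 _ hq').1
  have hr := nxt0_rank stp s _ hq'
  simp only at hinv hr
  cases f with
  | self => exact absurd rfl hf
  | old => rw [WF_old]; exact h0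
  | top =>
    by_cases hl : q.t.isLeaf ∨ q.t'.isLeaf
    · rw [WF_leaf hl]; exact h0
    have hs := stay_Stay (hJ.st _ hJq) hl
    have hl' := not_or.1 hl
    have tl : q.t.top ≤ s.p := hinv.L.col.top_le
    have tr : q.t'.top ≤ s.p := hinv.R.col.top_le
    have hqp : q.p ≤ s.p := max_le tl tr
    by_cases e : q.p = s.p
    · have := ih q a' b' (by omega) hJq gq hl (by rw [e]; exact hT)
      unfold Cl at this
      rw [e] at this
      exact this
    · have ha : a' = 0 := by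
        by_contra hne
        exact e (Finset.mem_singleton.1 (hs.2 (hT.oL hne))).symm
      have hb : b' = 0 := by
        by_contra hne
        exact e (Finset.mem_singleton.1 (hs.1 (hT.oR hne))).symm
      subst ha hb
      have key := ih q 0 0 (by omega) hJq gq hl
        ⟨by rw [hT.M]; simp, by rw [hT.M']; simp, Or.inl rfl, fun h => absurd rfl h,
          fun h => absurd rfl h⟩
      unfold Cl at key
      simp only [Function.iterate_zero, id_eq] at key ⊢
      rw [EE_zero gq.l gq.r] at key ⊢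
      obtain ⟨m, hm⟩ := UX.at0 (GOk.one1 gq.l) (GOk.one1 gq.r) key
      obtain ⟨m', hm'⟩ := XP_raise (wr := wr) hqp (n := m) (GOk.one1 gq.l) (GOk.one1 gq.r)
        (fun z hz => by rw [List.mem_singleton.1 hz]; exact le_max_left _ _)
        (fun z hz => by rw [List.mem_singleton.1 hz]; exact le_max_right _ _)
        (fun z hz => by rw [List.mem_singleton.1 hz]; exact hl'.1)
        (fun z hz => by rw [List.mem_singleton.1 hz]; exact hl'.2)
      exact UX.of0 (GOk.one1 gq.l) (GOk.one1 gq.r) ⟨m', hm.trans hm'⟩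

lemma not_two_of {s : St Λ κ} (h : s.isPL ∨ s.isPR) : ¬ two s := fun h2 => by
  rcases h with h | h
  · exact h2.1 h
  · exact h2.2.1 h

/-- flags of the children of a step which is not two-sided -/
lemma mem_flS {s : St Λ κ} (hx : ¬ exH stp s) (h2 : ¬ two s) {c : ℝ} {q : St Λ κ}
    (h : (c, q) ∈ nxt0 stp s) : (c, (flS q, q)) ∈ nxF0 stp (Fl.top, s) := by
  simp only [nxF0, if_neg hx, if_neg h2]
  exact List.mem_map.2 ⟨(c, q), h, rfl⟩

lemma flS_ne (q : St Λ κ) : flS q ≠ Fl.self := by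
  unfold flS; split_ifs <;> simp

set_option maxHeartbeats 4000000 in
/-- **TRANSFER of the crossing pairs of the top states** -/
theorem xferX {J : Fl × St Λ κ → Prop} (hJ : JW wr Ad μ ν stp J) (hns : Strip29.NoSplit stp) :
    ∀ (N : ℕ) (s : St Λ κ) (a b : ℕ), s.rank < N → J (Fl.top, s) → SG s →
      ¬ (s.t.isLeaf ∨ s.t'.isLeaf) → TI s.p a b s → Cl wr stp a b s := by
  intro N
  induction N with
  | zero => intro s a b hN; exact absurd hN (Nat.not_lt_zero _)
  | succ N ih =>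
    intro s a b hN hJs gs hl hTI
    obtain ⟨n, hn⟩ := hJ.inv _ hJs
    simp only at hn
    unfold Cl
    have hl' := not_or.1 hl
    obtain ⟨hpp, hpn⟩ := p_prime hn hl'.1 hl'.2
    have hp0 := hpp.pos
    by_cases hx : exH stp s
    · rw [WF_exH hx]; exact UX.mean' hp0 gs.l gs.r a b
    have hstp : ¬ stp s := fun h => hx (Or.inl h)
    have hone : ¬ one s := fun h => hx (Or.inr h)
    have hpL : s.t.top ≤ s.p := le_max_left _ _
    have hpR : s.t'.top ≤ s.p := le_max_right _ _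
    have cL : s.t.Col (s.p + 1) := (hn.L.down hpL).col
    have cR : s.t'.Col (s.p + 1) := (hn.R.down hpR).col
    -- the children
    have child : ¬ two s → ∀ (c : ℝ) (q : St Λ κ), (c, q) ∈ nxt0 stp s → c ≠ 0 → SG q →
        ∀ a' b', TI s.p a' b' q →
        UX wr s.p ((gC s.p)^[a'] [((1 : ℝ), q.t)]) ((gC s.p)^[b'] [((1 : ℝ), q.t')])
          (vS wr stp q) (EE wr s.p a' b' q.t q.t') := fun h2 c q hq hc gq a' b' hT =>
      child_rule hJ hn hpp hJs hN ih (mem_flS hx h2 hq) hc (flS_ne q) gq hT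
    -- the crossing states
    have cross : ∀ z ∈ crs stp s, z.t.All Gd → z.t'.All Gd → z.t.Col (s.p + 1) →
        z.t'.Col (s.p + 1) → z.A = Finset.univ → z.A' = Finset.univ →
        UX wr s.p ((gC s.p)^[a] [((1 : ℝ), z.t)]) ((gC s.p)^[b] [((1 : ℝ), z.t')])
          (Qs { z with R := SI wr s.p }) (EE wr s.p a b z.t z.t') := by
      intro z hz g1 g2 c1 c2 hA hA'
      obtain ⟨-, -, m1, m2, -, -⟩ := crs_inv hn z hz
      rw [Qs_EE (a := a) (b := b) hA hA' (by rw [m1, hTI.M]) (by rw [m2, hTI.M'])]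
      exact UX_cross hp0 g1 g2 c1 c2 (hJ.cd _ hJs a b hTI.M hTI.M' hTI.ab z hz)
    by_cases hpl : s.isPL
    · obtain ⟨w, r, t₁, t₀, v, B, G, hv, ht, hcase⟩ := St.isPL_cases hpl
      have h2 : ¬ two s := not_two_of (Or.inl hpl)
      have hcr : crs stp s = [] := by simp [crs, hl, hstp, hpl]
      have hL : nxt0 stp s = s.stL := by unfold nxt0; rw [if_neg hl, if_neg hstp, if_pos hpl]
      have gt : (DT.br s.p w r t₁ t₀ v B G).All Gd := by rw [← ht]; exact gs.l
      rw [WF_step hl hx h2, hcr]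
      rcases hcase with ⟨hd, hst⟩ | ⟨hd, hw, hst⟩
      · have ha : a ≠ 0 := by
          rintro rfl
          rw [hTI.M, pow_zero] at hd
          exact hpp.one_lt.ne' (Nat.dvd_one.1 hd)
        obtain ⟨a', rfl⟩ := Nat.exists_eq_succ_of_ne_zero ha
        have hb : b = 0 := hTI.ab.resolve_left ha
        subst hb
        have hT : ∀ t, TI s.p a' 0 (s.fL r t) := fun t => by
          have e : s.M / s.p = s.p ^ a' := by
            rw [hTI.M, pow_succ]; exact Nat.mul_div_cancel _ hpp.pos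
          refine ⟨e, hTI.M', Or.inr rfl, fun hne => ?_, fun h => absurd rfl h⟩
          show s.p ∈ dwn s.p (s.M / s.p) s.O'
          unfold dwn
          rw [if_pos (by rw [e]; exact dvd_pow_self _ hne)]
          exact hTI.oL ha
        have c1 : 1 - w ≠ 0 → UX wr s.p ((gC s.p)^[a'] [((1 : ℝ), t₁)])
            ((gC s.p)^[0] [((1 : ℝ), s.t')]) (vS wr stp (s.fL r t₁)) (EE wr s.p a' 0 t₁ s.t') :=
          fun hc => child h2 (1 - w) (s.fL r t₁) (by rw [hL, hst]; simp) hc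
            ⟨gt.2.1, gs.r, gs.A, gs.A'⟩ a' 0 (hT t₁)
        have c0 : w ≠ 0 → UX wr s.p ((gC s.p)^[a'] [((1 : ℝ), t₀)])
            ((gC s.p)^[0] [((1 : ℝ), s.t')]) (vS wr stp (s.fL r t₀)) (EE wr s.p a' 0 t₀ s.t') :=
          fun hc => child h2 w (s.fL r t₀) (by rw [hL, hst]; simp) hc
            ⟨gt.2.2, gs.r, gs.A, gs.A'⟩ a' 0 (hT t₀)
        have key := UX.brL gt (GOk.it (GOk.one1 gs.r) 0) c1 c0
        rw [← EE_brL hp0 gt gs.r, ← ht] at key
        rw [hL, hst]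
        simpa using key
      · subst hw
        have ha : a = 0 := by
          by_contra hne
          exact hd (by rw [hTI.M]; exact dvd_pow_self _ hne)
        subst ha
        have hT : ∀ t, TI s.p 0 (b + 1) (s.pL r t) := fun t => by
          refine ⟨hTI.M, ?_, Or.inl rfl, fun h => absurd rfl h, fun _ => ?_⟩
          · show s.p * s.M' = _
            rw [hTI.M', pow_succ, mul_comm]
          · show s.p ∈ insert s.p s.O
            exact Finset.mem_insert_self _ _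
        have c1 : (1 : ℝ) - 0 ≠ 0 → UX wr s.p ((gC s.p)^[0] [((1 : ℝ), t₁)])
            ((gC s.p)^[b + 1] [((1 : ℝ), s.t')]) (vS wr stp (s.pL r t₁))
            (EE wr s.p 0 (b + 1) t₁ s.t') :=
          fun hc => child h2 (1 - 0) (s.pL r t₁) (by rw [hL, hst]; simp) hc
            ⟨gt.2.1, gs.r, gs.A, gs.A'⟩ 0 (b + 1) (hT t₁)
        have c0 : (0 : ℝ) ≠ 0 → UX wr s.p ((gC s.p)^[0] [((1 : ℝ), t₀)])
            ((gC s.p)^[b + 1] [((1 : ℝ), s.t')]) (vS wr stp (s.pL r t₀))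
            (EE wr s.p 0 (b + 1) t₀ s.t') := fun hc => absurd rfl hc
        have key := UX.brL gt (GOk.it (GOk.one1 gs.r) (b + 1)) c1 c0
        rw [Function.iterate_succ_apply' (gC s.p) b, Function.iterate_succ_apply,
          Function.iterate_zero, id_eq] at key
        have key2 := UX.pullL hp0 (gt.self.2.1 rfl) (GOk.one1 gt) (GOk.it (GOk.one1 gs.r) b)
          (Gd.pb gt.2.1) key
        rw [hL, hst, ht, EE_pullL hp0 gt gs.r]
        simpa using key2
    by_cases hpr : s.isPR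
    · obtain ⟨w, r, t₁, t₀, v, B, G, hv, ht, hcase⟩ := St.isPR_cases hpr
      have h2 : ¬ two s := not_two_of (Or.inr hpr)
      have hcr : crs stp s = [] := by simp [crs, hl, hstp, hpr]
      have hL : nxt0 stp s = s.stR := by
        unfold nxt0; rw [if_neg hl, if_neg hstp, if_neg hpl, if_pos hpr]
      have gt : (DT.br s.p w r t₁ t₀ v B G).All Gd := by rw [← ht]; exact gs.r
      rw [WF_step hl hx h2, hcr]
      rcases hcase with ⟨hd, hst⟩ | ⟨hd, hw, hst⟩
      · have hb : b ≠ 0 := by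
          rintro rfl
          rw [hTI.M', pow_zero] at hd
          exact hpp.one_lt.ne' (Nat.dvd_one.1 hd)
        obtain ⟨b', rfl⟩ := Nat.exists_eq_succ_of_ne_zero hb
        have ha : a = 0 := hTI.ab.resolve_right hb
        subst ha
        have hT : ∀ t, TI s.p 0 b' (s.fR r t) := fun t => by
          have e : s.M' / s.p = s.p ^ b' := by
            rw [hTI.M', pow_succ]; exact Nat.mul_div_cancel _ hpp.pos
          refine ⟨hTI.M, e, Or.inl rfl, fun h => absurd rfl h, fun hne => ?_⟩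
          show s.p ∈ dwn s.p (s.M' / s.p) s.O
          unfold dwn
          rw [if_pos (by rw [e]; exact dvd_pow_self _ hne)]
          exact hTI.oR hb
        have c1 : 1 - w ≠ 0 → UX wr s.p ((gC s.p)^[0] [((1 : ℝ), s.t)])
            ((gC s.p)^[b'] [((1 : ℝ), t₁)]) (vS wr stp (s.fR r t₁)) (EE wr s.p 0 b' s.t t₁) :=
          fun hc => child h2 (1 - w) (s.fR r t₁) (by rw [hL, hst]; simp) hc
            ⟨gs.l, gt.2.1, gs.A, gs.A'⟩ 0 b' (hT t₁)
        have c0 : w ≠ 0 → UX wr s.p ((gC s.p)^[0] [((1 : ℝ), s.t)])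
            ((gC s.p)^[b'] [((1 : ℝ), t₀)]) (vS wr stp (s.fR r t₀)) (EE wr s.p 0 b' s.t t₀) :=
          fun hc => child h2 w (s.fR r t₀) (by rw [hL, hst]; simp) hc
            ⟨gs.l, gt.2.2, gs.A, gs.A'⟩ 0 b' (hT t₀)
        have key := UX.brR gt (GOk.it (GOk.one1 gs.l) 0) c1 c0
        rw [← EE_brR hp0 gt gs.l, ← ht] at key
        rw [hL, hst]
        simpa using key
      · subst hw
        have hb : b = 0 := by
          by_contra hne
          exact hd (by rw [hTI.M']; exact dvd_pow_self _ hne)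
        subst hb
        have hT : ∀ t, TI s.p (a + 1) 0 (s.pR r t) := fun t => by
          refine ⟨?_, hTI.M', Or.inr rfl, fun _ => ?_, fun h => absurd rfl h⟩
          · show s.p * s.M = _
            rw [hTI.M, pow_succ, mul_comm]
          · show s.p ∈ insert s.p s.O'
            exact Finset.mem_insert_self _ _
        have c1 : (1 : ℝ) - 0 ≠ 0 → UX wr s.p ((gC s.p)^[a + 1] [((1 : ℝ), s.t)])
            ((gC s.p)^[0] [((1 : ℝ), t₁)]) (vS wr stp (s.pR r t₁))
            (EE wr s.p (a + 1) 0 s.t t₁) :=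
          fun hc => child h2 (1 - 0) (s.pR r t₁) (by rw [hL, hst]; simp) hc
            ⟨gs.l, gt.2.1, gs.A, gs.A'⟩ (a + 1) 0 (hT t₁)
        have c0 : (0 : ℝ) ≠ 0 → UX wr s.p ((gC s.p)^[a + 1] [((1 : ℝ), s.t)])
            ((gC s.p)^[0] [((1 : ℝ), t₀)]) (vS wr stp (s.pR r t₀))
            (EE wr s.p (a + 1) 0 s.t t₀) := fun hc => absurd rfl hc
        have key := UX.brR gt (GOk.it (GOk.one1 gs.l) (a + 1)) c1 c0
        rw [Function.iterate_succ_apply' (gC s.p) a,
          Function.iterate_succ_apply (gC s.p) 0 [((1 : ℝ), DT.br s.p 0 r t₁ t₀ v B G)],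
          Function.iterate_zero, id_eq] at key
        have key2 := UX.pullR hp0 (gt.self.2.1 rfl) (GOk.it (GOk.one1 gs.l) a) (GOk.one1 gt)
          (Gd.pb gt.2.1) key
        rw [hL, hst, ht, EE_pullR hp0 gt gs.l]
        simpa using key2
    -- a step of a right add
    have doR : ∀ (r' : Λ → κ) (t₁' t₀' : DT Λ κ), s.t' = .add s.p r' t₁' t₀' → ¬ two s →
        nxt0 stp s = [(1, { s with t' := stp.c s t₁' t₀' })] →
        crs stp s = [{ s with t' := stp.x s t₁' t₀' }] →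
        UX wr s.p ((gC s.p)^[a] [((1 : ℝ), s.t)]) ((gC s.p)^[b] [((1 : ℝ), s.t')])
          (WF stp (xX wr stp) (Fl.top, s)) (EE wr s.p a b s.t s.t') := by
      intro r' t₁' t₀' ht' h2 hnx hcr
      have gt' : (DT.add s.p r' t₁' t₀').All Gd := by rw [← ht']; exact gs.r
      have cR' : (DT.add s.p r' t₁' t₀').Col (s.p + 1) := by rw [← ht']; exact cR
      have hT : ∀ t', TI s.p a b { s with t' := t' } := fun t' =>
        ⟨hTI.M, hTI.M', hTI.ab, hTI.oL, hTI.oR⟩
      rw [WF_step hl hx h2, hcr, hnx]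
      have cc : stp.c s t₁' t₀' = t₁' ∨ stp.c s t₁' t₀' = t₀' :=
        (stp.c_or s t₁' t₀').imp (fun h => h.1) (fun h => h.1)
      have gc : (stp.c s t₁' t₀').All Gd := by
        rcases cc with h | h <;> rw [h]
        · exact gt'.2.1
        · exact gt'.2.2
      have u := child h2 1 { s with t' := stp.c s t₁' t₀' } (by rw [hnx]; simp) one_ne_zero
        ⟨gs.l, gc, gs.A, gs.A'⟩ a b (hT _)
      have cx : stp.x s t₁' t₀' = t₁' ∨ stp.x s t₁' t₀' = t₀' :=
        (stp.c_or s t₁' t₀').symm.imp (fun h => h.2) (fun h => h.2)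
      have gx : (stp.x s t₁' t₀').All Gd ∧ (stp.x s t₁' t₀').Col (s.p + 1) := by
        rcases cx with h | h <;> rw [h]
        · exact ⟨gt'.2.1, cR'.2.2.1⟩
        · exact ⟨gt'.2.2, cR'.2.2.2⟩
      have x := cross { s with t' := stp.x s t₁' t₀' } (by rw [hcr]; simp) gs.l gx.1 cL gx.2
        gs.A gs.A'
      have key : UX wr s.p ((gC s.p)^[a] [((1 : ℝ), s.t)])
          ((gC s.p)^[b] [((1 : ℝ), DT.add s.p r' t₁' t₀')])
          (vS wr stp { s with t' := stp.c s t₁' t₀' } +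
            Qs { { s with t' := stp.x s t₁' t₀' } with R := SI wr s.p })
          (EE wr s.p a b s.t (DT.add s.p r' t₁' t₀')) := by
        rw [EE_addR hp0 gt'.2.1 gt'.2.2 gs.l]
        rcases stp.c_or s t₁' t₀' with ⟨h1, h0⟩ | ⟨h1, h0⟩
        · simp only [h1, h0] at u x ⊢
          exact UX.addR gt'.2.1 gt'.2.2 gt' u x
        · simp only [h1, h0] at u x ⊢
          have := UX.addR gt'.2.1 gt'.2.2 gt' x u
          rwa [add_comm (Qs _) (vS _ _ _)] at this
      rw [← ht'] at key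
      refine UX.of key (le_of_eq ?_)
      simp only [List.map_cons, List.map_nil, List.sum_cons, List.sum_nil]
      ring
    -- a step of a left add
    have doL : ∀ (r : Λ → κ) (t₁ t₀ : DT Λ κ), s.t = .add s.p r t₁ t₀ → ¬ two s →
        nxt0 stp s = [(1, { s with t := stp.c s t₁ t₀ })] →
        crs stp s = [{ s with t := stp.x s t₁ t₀ }] →
        UX wr s.p ((gC s.p)^[a] [((1 : ℝ), s.t)]) ((gC s.p)^[b] [((1 : ℝ), s.t')])
          (WF stp (xX wr stp) (Fl.top, s)) (EE wr s.p a b s.t s.t') := by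
      intro r t₁ t₀ ht h2 hnx hcr
      have gt : (DT.add s.p r t₁ t₀).All Gd := by rw [← ht]; exact gs.l
      have cL' : (DT.add s.p r t₁ t₀).Col (s.p + 1) := by rw [← ht]; exact cL
      have hT : ∀ t, TI s.p a b { s with t := t } := fun t =>
        ⟨hTI.M, hTI.M', hTI.ab, hTI.oL, hTI.oR⟩
      rw [WF_step hl hx h2, hcr, hnx]
      have cc : stp.c s t₁ t₀ = t₁ ∨ stp.c s t₁ t₀ = t₀ :=
        (stp.c_or s t₁ t₀).imp (fun h => h.1) (fun h => h.1)
      have gc : (stp.c s t₁ t₀).All Gd := by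
        rcases cc with h | h <;> rw [h]
        · exact gt.2.1
        · exact gt.2.2
      have u := child h2 1 { s with t := stp.c s t₁ t₀ } (by rw [hnx]; simp) one_ne_zero
        ⟨gc, gs.r, gs.A, gs.A'⟩ a b (hT _)
      have cx : stp.x s t₁ t₀ = t₁ ∨ stp.x s t₁ t₀ = t₀ :=
        (stp.c_or s t₁ t₀).symm.imp (fun h => h.2) (fun h => h.2)
      have gx : (stp.x s t₁ t₀).All Gd ∧ (stp.x s t₁ t₀).Col (s.p + 1) := by
        rcases cx with h | h <;> rw [h]
        · exact ⟨gt.2.1, cL'.2.2.1⟩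
        · exact ⟨gt.2.2, cL'.2.2.2⟩
      have x := cross { s with t := stp.x s t₁ t₀ } (by rw [hcr]; simp) gx.1 gs.r gx.2 cR
        gs.A gs.A'
      have key : UX wr s.p ((gC s.p)^[a] [((1 : ℝ), DT.add s.p r t₁ t₀)])
          ((gC s.p)^[b] [((1 : ℝ), s.t')])
          (vS wr stp { s with t := stp.c s t₁ t₀ } +
            Qs { { s with t := stp.x s t₁ t₀ } with R := SI wr s.p })
          (EE wr s.p a b (DT.add s.p r t₁ t₀) s.t') := by
        rw [EE_addL hp0 gt.2.1 gt.2.2 gs.r]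
        rcases stp.c_or s t₁ t₀ with ⟨h1, h0⟩ | ⟨h1, h0⟩
        · simp only [h1, h0] at u x ⊢
          exact UX.addL gt.2.1 gt.2.2 gt u x
        · simp only [h1, h0] at u x ⊢
          have := UX.addL gt.2.1 gt.2.2 gt x u
          rwa [add_comm (Qs _) (vS _ _ _)] at this
      rw [← ht] at key
      refine UX.of key (le_of_eq ?_)
      simp only [List.map_cons, List.map_nil, List.sum_cons, List.sum_nil]
      ring
    -- no pre-step
    have hLe := nxt0.eq_1 stp s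
    rw [if_neg hl, if_neg hstp, if_neg hpl, if_neg hpr] at hLe
    rcases hv : vw s.p s.t with ⟨w, r, t₁, t₀, v, B, G⟩ | ⟨r, t₁, t₀⟩ | ⟨Sp, u⟩ <;>
      rcases hv' : vw s.p s.t' with ⟨w', r', t₁', t₀', v', B', G'⟩ | ⟨r', t₁', t₀'⟩ | ⟨Sp', u'⟩ <;>
      simp only [hv, hv'] at hLe
    · -- br br
      have h2 : two s := two_of hpl hpr hv hv'
      have ha : a = 0 := by
        by_contra hne
        exact St.not_isPL_br hpl hv hv' (by rw [hTI.M]; exact dvd_pow_self _ hne)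
      have hb : b = 0 := by
        by_contra hne
        exact St.not_isPR_br hpr hv hv' (by rw [hTI.M']; exact dvd_pow_self _ hne)
      subst ha hb
      have ht := vw_br hv
      have ht' := vw_br hv'
      have gt : (DT.br s.p w r t₁ t₀ v B G).All Gd := by rw [← ht]; exact gs.l
      have gt' : (DT.br s.p w' r' t₁' t₀' v' B' G').All Gd := by rw [← ht']; exact gs.r
      have hT : ∀ t t' : DT Λ κ, TI s.p 0 0 { s with R := Ro r, t := t, t' := t' } := fun t t' =>
        ⟨hTI.M, hTI.M', hTI.ab, hTI.oL, hTI.oR⟩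
      have ch : ∀ (c : ℝ) (t t' : DT Λ κ), (c, { s with R := Ro r, t := t, t' := t' }) ∈ nxt0 stp s →
          c ≠ 0 → t.All Gd → t'.All Gd →
          UX wr s.p ((gC s.p)^[0] [((1 : ℝ), t)]) ((gC s.p)^[0] [((1 : ℝ), t')])
            (WF stp (xX wr stp) (Fl.top, { s with R := Ro r, t := t, t' := t' }))
            (EE wr s.p 0 0 t t') := by
        intro c t t' hq hc g g'
        have hq' : (c, (Fl.top, { s with R := Ro r, t := t, t' := t' })) ∈ nxF0 stp (Fl.top, s) := by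
          simp only [nxF0, if_neg hx, if_pos h2]
          exact List.mem_map.2 ⟨_, hq, rfl⟩
        exact child_rule hJ hn hpp hJs hN ih hq' hc (by simp) ⟨g, g', gs.A, gs.A'⟩ (hT t t')
      rw [WF_two hl hx h2, hLe]
      have r1 : 1 - w ≠ 0 → UX wr s.p ((gC s.p)^[0] [((1 : ℝ), t₁)])
          ((gC s.p)^[0 + 1] [((1 : ℝ), DT.br s.p w' r' t₁' t₀' v' B' G')]) _ _ := fun hc =>
        UX.brR gt' (GOk.it (GOk.one1 gt.2.1) 0)
          (fun hc' => ch ((1 - w) * (1 - w')) t₁ t₁' (by rw [hLe]; simp) (mul_ne_zero hc hc')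
            gt.2.1 gt'.2.1)
          (fun hc' => ch ((1 - w) * w') t₁ t₀' (by rw [hLe]; simp) (mul_ne_zero hc hc')
            gt.2.1 gt'.2.2)
      have r0 : w ≠ 0 → UX wr s.p ((gC s.p)^[0] [((1 : ℝ), t₀)])
          ((gC s.p)^[0 + 1] [((1 : ℝ), DT.br s.p w' r' t₁' t₀' v' B' G')]) _ _ := fun hc =>
        UX.brR gt' (GOk.it (GOk.one1 gt.2.2) 0)
          (fun hc' => ch (w * (1 - w')) t₀ t₁' (by rw [hLe]; simp) (mul_ne_zero hc hc')
            gt.2.2 gt'.2.1)
          (fun hc' => ch (w * w') t₀ t₀' (by rw [hLe]; simp) (mul_ne_zero hc hc')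
            gt.2.2 gt'.2.2)
      have l := UX.brL gt (GOk.it (GOk.one1 gt') (0 + 1)) r1 r0
      rw [← EE_brR hp0 gt' gt.2.1, ← EE_brR hp0 gt' gt.2.2, ← EE_brL hp0 gt gt'] at l
      have e11 : EE wr s.p (0 + 1) (0 + 1) (DT.br s.p w r t₁ t₀ v B G)
          (DT.br s.p w' r' t₁' t₀' v' B' G') =
          Q (SI wr s.p) (gval (gC s.p [((1 : ℝ), DT.br s.p w r t₁ t₀ v B G)]))
            (gval (gC s.p [((1 : ℝ), DT.br s.p w' r' t₁' t₀' v' B' G')])) := by
        unfold EE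
        rw [avg_br hp0 gt 0, avg_br hp0 gt' 0, gval_gC_br, gval_gC_br]
        simp only [pow_zero, avg_one]
      rw [e11] at l
      have l2 := UX.two hpp.ne_zero (GOk.one1 gt) (GOk.one1 gt') l
      rw [← EE_zero gt gt', ← ht, ← ht'] at l2
      refine UX.of l2 (le_of_eq ?_)
      simp only [List.map_cons, List.map_nil, List.sum_cons, List.sum_nil]
      ring
    · -- br add
      have h2 : ¬ two s := fun h => by have := h.2.2; rw [hv, hv'] at this; exact this
      exact doR r' t₁' t₀' (vw_add hv') h2 hLe (by simp [crs, hl, hstp, hpl, hpr, hv, hv'])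
    · -- br up
      exact absurd (show one s from ⟨hpl, hpr, by rw [hv, hv']; trivial⟩) hone
    · -- add br
      have h2 : ¬ two s := fun h => by have := h.2.2; rw [hv, hv'] at this; exact this
      exact doL r t₁ t₀ (vw_add hv) h2 hLe (by simp [crs, hl, hstp, hpl, hpr, hv, hv'])
    · -- add add
      have h2 : ¬ two s := fun h => by have := h.2.2; rw [hv, hv'] at this; exact this
      by_cases hj : stp.jt s
      · rw [if_pos hj] at hLe
        have hcr : crs stp s = [{ s with t := t₁, t' := t₀' }, { s with t := t₀, t' := t₁' }] := by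
          simp [crs, hl, hstp, hpl, hpr, hv, hv', hj]
        have ht := vw_add hv
        have ht' := vw_add hv'
        have gt : (DT.add s.p r t₁ t₀).All Gd := by rw [← ht]; exact gs.l
        have gt' : (DT.add s.p r' t₁' t₀').All Gd := by rw [← ht']; exact gs.r
        have cL' : (DT.add s.p r t₁ t₀).Col (s.p + 1) := by rw [← ht]; exact cL
        have cR' : (DT.add s.p r' t₁' t₀').Col (s.p + 1) := by rw [← ht']; exact cR
        have hT : ∀ t t' : DT Λ κ, TI s.p a b { s with t := t, t' := t' } := fun t t' =>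
          ⟨hTI.M, hTI.M', hTI.ab, hTI.oL, hTI.oR⟩
        rw [WF_step hl hx h2, hcr, hLe]
        have u1 := child h2 1 { s with t := t₁, t' := t₁' } (by rw [hLe]; simp) one_ne_zero
          ⟨gt.2.1, gt'.2.1, gs.A, gs.A'⟩ a b (hT _ _)
        have u0 := child h2 1 { s with t := t₀, t' := t₀' } (by rw [hLe]; simp) one_ne_zero
          ⟨gt.2.2, gt'.2.2, gs.A, gs.A'⟩ a b (hT _ _)
        have x1 := cross { s with t := t₁, t' := t₀' } (by rw [hcr]; simp) gt.2.1 gt'.2.2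
          cL'.2.2.1 cR'.2.2.2 gs.A gs.A'
        have x0 := cross { s with t := t₀, t' := t₁' } (by rw [hcr]; simp) gt.2.2 gt'.2.1
          cL'.2.2.2 cR'.2.2.1 gs.A gs.A'
        have k1 := UX.addR gt'.2.1 gt'.2.2 gt' u1 x1
        have k0 := UX.addR gt'.2.1 gt'.2.2 gt' x0 u0
        have key := UX.addL gt.2.1 gt.2.2 gt k1 k0
        have e : EE wr s.p a b s.t s.t' = EE wr s.p a b t₁ t₁' + EE wr s.p a b t₁ t₀' +
            (EE wr s.p a b t₀ t₁' + EE wr s.p a b t₀ t₀') := by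
          rw [ht, ht', EE_addL hp0 gt.2.1 gt.2.2 gt', EE_addR hp0 gt'.2.1 gt'.2.2 gt.2.1,
            EE_addR hp0 gt'.2.1 gt'.2.2 gt.2.2]
        rw [← ht, ← ht'] at key
        refine UX.of key (le_of_eq ?_)
        simp only [List.map_cons, List.map_nil, List.sum_cons, List.sum_nil]
        rw [e]
        ring
      · rw [if_neg hj] at hLe
        by_cases hlf : stp.lf s
        · rw [if_pos hlf] at hLe
          exact doL r t₁ t₀ (vw_add hv) h2 hLe
            (by simp [crs, hl, hstp, hpl, hpr, hv, hv', hj, hlf])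
        · rw [if_neg hlf] at hLe
          exact doR r' t₁' t₀' (vw_add hv') h2 hLe
            (by simp [crs, hl, hstp, hpl, hpr, hv, hv', hj, hlf])
    · -- add up
      have h2 : ¬ two s := fun h => by have := h.2.2; rw [hv, hv'] at this; exact this
      have hj : ¬ stp.jt s := hns.1 s r t₁ t₀ u' Sp' hv hv'
      rw [if_neg hj] at hLe
      exact doL r t₁ t₀ (vw_add hv) h2 hLe (by simp [crs, hl, hstp, hpl, hpr, hv, hv', hj])
    · -- up br
      exact absurd (show one s from ⟨hpl, hpr, by rw [hv, hv']; trivial⟩) hone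
    · -- up add
      have h2 : ¬ two s := fun h => by have := h.2.2; rw [hv, hv'] at this; exact this
      have hj : ¬ stp.jt s := hns.2 s r' t₁' t₀' u Sp hv hv'
      rw [if_neg hj] at hLe
      exact doR r' t₁' t₀' (vw_add hv') h2 hLe (by simp [crs, hl, hstp, hpl, hpr, hv, hv', hj])
    · -- up up
      have h2 : ¬ two s := fun h => by have := h.2.2; rw [hv, hv'] at this; exact this
      have hcr : crs stp s = [] := by simp [crs, hl, hstp, hpl, hpr, hv, hv']
      have gu : u.All Gd := vw_up_all hv gs.l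
      have gu' : u'.All Gd := vw_up_all hv' gs.r
      have c := child h2 1 { s with t := u, t' := u' } (by rw [hLe]; simp) one_ne_zero
        ⟨gu, gu', gs.A, gs.A'⟩ a b ⟨hTI.M, hTI.M', hTI.ab, hTI.oL, hTI.oR⟩
      have key := UX.upL hv gu gs.l (UX.upR hv' gu' gs.r c)
      rw [WF_step hl hx h2, hcr, hLe]
      refine UX.of key (le_of_eq ?_)
      simp only [List.map_cons, List.map_nil, List.sum_cons, List.sum_nil]
      rw [EE_upL hv, EE_upR hv']
      ring

end walk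

end Crest.Agent.R4P.CrsT26
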