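import Crest.Agent.R4P.CrsD_26
import Crest.Agent.R4P.CtxX_26

/-!
R4 (S0004) with powers, `TgtCrs`, helper26: **upper bounds by the crossing sum of the product walk**.

`UX wr p g h x y` : `x + K(g, h) ≤ y + XP(g, h)`, `K = ker (kX wr)` = same-`ix` energy of the groups.
Closure rules: `appL`, `appR`, `smL`, `smR`, `congrL`, `congrR`, `mean` (value `0` at the raw energy of the
averages), `pullL`, `pullR` (a step of a pull), `two` (a two-sided column), `raise`.
-/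

set_option autoImplicit false
set_option linter.unusedSectionVars false
set_option linter.unusedVariables false
open MeasureTheory Filter Set

namespace Crest.Agent.R4P.CrsU26

open Crest.Agent.R4.Tour104 Crest.Agent.R4.Tour758 Crest.Agent.R4.Avg758 Crest.Agent.R4.Clos758
open Crest.Agent.R4.ClosL758 Crest.Agent.R4.ClosG758 Crest.Agent.R4.ClosR758
open Crest.Agent.R4P.ClosR442 Crest.Agent.R4P.Walk560 Crest.Agent.R4P.Grp36 Crest.Agent.R4P.Xfer36
open Crest.Agent.R4P.CrsD26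
open Crest.Agent.R4.AvgItem710 (Q_mono_fun)

variable {Λ κ : Type*} [Fintype Λ] [DecidableEq Λ] [Fintype κ] [DecidableEq κ] [WRel κ]
  {wr : ℕ → Λ → κ}

/-- the same-`ix` pairs of the column `p` -/
noncomputable def SI (wr : ℕ → Λ → κ) (p : ℕ) : Finset (Λ × Λ) := (Finset.univ : Finset (Λ × Λ)) \ Ro (wr p)

lemma kX_eq (wr : ℕ → Λ → κ) (p : ℕ) (m m' : DT Λ κ) :
    kX wr p m m' = max 0 (Q (SI wr p) m.g.val m'.g.val) := by
  unfold kX SI
  congr!

lemma GOk.wg {g : Gp Λ κ} (h : GOk g) : Wg g := by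
  intro m hm
  refine ⟨h.c m hm, ?_⟩
  refine (h.im m hm).mono fun t ht => ?_
  cases t with
  | leaf r f => trivial
  | br q w r t₁ t₀ v B G => exact ⟨ht.2.1, ht.2.2.1⟩
  | add q r t₁ t₀ => trivial
  | up q Sp t => trivial

lemma GOk.it {p : ℕ} {g : Gp Λ κ} (h : GOk g) (a : ℕ) : GOk ((gC p)^[a] g) := by
  induction a generalizing g with
  | zero => exact h
  | succ a ih => exact ih h.gC

lemma GOk.sm {c : ℝ} (hc : 0 ≤ c) {g : Gp Λ κ} (h : GOk g) : GOk (smG c g) := by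
  refine ⟨fun m hm => ?_, fun m hm => ?_, fun m hm => ?_⟩ <;>
    obtain ⟨m', hm', rfl⟩ := List.mem_map.1 hm
  · exact mul_nonneg hc (h.c m' hm')
  · exact h.im m' hm'
  · exact h.pb m' hm'

lemma Q_smul_left (R : Finset (Λ × Λ)) (c : ℝ) (f h : Λ → ℝ → ℝ) :
    Q R (fun j x => c * f j x) h = c * Q R f h := by
  unfold Q
  rw [Finset.mul_sum]
  refine Finset.sum_congr rfl fun e _ => ?_
  rw [← I_smul]
  congr 1
  funext x; ring

lemma Q_smul_right (R : Finset (Λ × Λ)) (c : ℝ) (f h : Λ → ℝ → ℝ) :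
    Q R f (fun j x => c * h j x) = c * Q R f h := by
  unfold Q
  rw [Finset.mul_sum]
  refine Finset.sum_congr rfl fun e _ => ?_
  rw [← I_smul]
  congr 1
  funext x; ring

lemma Q_zero_left (R : Finset (Λ × Λ)) (h : Λ → ℝ → ℝ) : Q R (fun _ _ => 0) h = 0 := by
  unfold Q
  refine Finset.sum_eq_zero fun e _ => ?_
  have : (fun x => (0 : ℝ) * h e.2 x) = fun x => 0 := by funext x; ring
  rw [this]
  unfold I; simp

lemma Q_zero_right (R : Finset (Λ × Λ)) (f : Λ → ℝ → ℝ) : Q R f (fun _ _ => 0) = 0 := by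
  unfold Q
  refine Finset.sum_eq_zero fun e _ => ?_
  have : (fun x => f e.1 x * (0 : ℝ)) = fun x => 0 := by funext x; ring
  rw [this]
  unfold I; simp

lemma gval_nil_fun : gval ([] : Gp Λ κ) = fun _ _ => 0 := by
  funext j x; rfl

lemma gval_cons_fun (m : ℝ × DT Λ κ) (g : Gp Λ κ) :
    gval (m :: g) = fun j x => m.1 * m.2.g.val j x + gval g j x := by
  funext j x; exact gval_cons m g j x

lemma gval_one (t : DT Λ κ) : gval [((1 : ℝ), t)] = t.g.val := by
  funext j x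
  rw [gval_cons]
  simp [gval]

/-- **the kernel form is the energy of the group functions** -/
lemma ker_kX (p : ℕ) {g h : Gp Λ κ} (hg : GOk g) (hh : GOk h) :
    ker (kX wr) p g h = Q (SI wr p) (gval g) (gval h) := by
  induction g with
  | nil => rw [ker_nil_left, gval_nil_fun, Q_zero_left]
  | cons m g ih =>
    have hg' : GOk g := hg.sub fun a ha => List.mem_cons_of_mem _ ha
    have hm : ∀ j, PB (m.2.g.val j) := (hg.pb m (by simp)).self
    have hc := hg.c m (by simp)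
    rw [ker_cons, ih hg', gval_cons_fun, Q_add_left (f := fun j x => m.1 * m.2.g.val j x)
      (fun j => (hm j).smul hc) (PB_gval hg') (PB_gval hh), Q_smul_left]
    congr 1
    clear ih
    induction h with
    | nil => rw [gval_nil_fun, Q_zero_right]; simp
    | cons m' h ih =>
      have hh' : GOk h := hh.sub fun a ha => List.mem_cons_of_mem _ ha
      have hm' : ∀ j, PB (m'.2.g.val j) := (hh.pb m' (by simp)).self
      have hc' := hh.c m' (by simp)
      rw [List.map_cons, List.sum_cons, ih hh', gval_cons_fun,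
        Q_add_right (g := fun j x => m'.1 * m'.2.g.val j x) hm (fun j => (hm' j).smul hc')
          (PB_gval hh'), Q_smul_right, kX_eq, max_eq_right (Q_nonneg hm hm')]
      ring

lemma gval_gC {p : ℕ} {g : Gp Λ κ} (h : GOk g) (j : Λ) :
    gval (gC p g) j = Ep p (gval (gB p g) j) := by
  funext y; exact (Ep_gB h j y).symm

lemma gval_nn {g : Gp Λ κ} (h : GOk g) (j : Λ) (x : ℝ) : 0 ≤ gval g j x := (PB_gval h j).nonneg x

lemma gval_gB_le {p : ℕ} {g : Gp Λ κ} (h : GOk g) (j : Λ) (x : ℝ) :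
    gval (gB p g) j x ≤ gval g j x := by
  rw [gval_split p g j x]
  have := gval_nn (h.gR (p := p)) j x
  linarith

/-- the function of the children of depth `a` -/
lemma gval_it_le {p : ℕ} (hp : 0 < p) {g : Gp Λ κ} (h : GOk g) (a : ℕ) (j : Λ) (y : ℝ) :
    gval ((gC p)^[a] g) j y ≤ avg (p ^ a) (gval g) j y := by
  induction a generalizing y with
  | zero => rw [pow_zero, avg_one]; exact le_rfl
  | succ a ih =>
    rw [Function.iterate_succ_apply', gval_gC (GOk.it h a), pow_succ, mul_comm]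
    have e := congrFun (avg_mul hp (pow_pos hp a) (gval g) j) y
    rw [← e]
    exact Ep_mono (fun x => (gval_gB_le (GOk.it h a) j x).trans (ih x)) y

/-- **bounds by the crossing sum of the product walk** -/
structure UX (wr : ℕ → Λ → κ) (p : ℕ) (g h : Gp Λ κ) (x y : ℝ) : Prop where
  og : GOk g
  oh : GOk h
  le : ∃ n, x + ker (kX wr) p g h ≤ y + XP (ker (kX wr)) n p g h

section ux
variable {p : ℕ} {g g' h h' : Gp Λ κ} {x y x' y' : ℝ}

lemma UX.of (u : UX wr p g h x y) (hx : x' + y ≤ x + y') : UX wr p g h x' y' := by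
  obtain ⟨n, hn⟩ := u.le
  exact ⟨u.og, u.oh, n, by linarith⟩

lemma UX.appL (u : UX wr p g h x y) (v : UX wr p g' h x' y') :
    UX wr p (g ++ g') h (x + x') (y + y') := by
  obtain ⟨n, hn⟩ := u.le
  obtain ⟨m, hm⟩ := v.le
  refine ⟨u.og.append v.og, u.oh, max n m, ?_⟩
  rw [XP_add_left ker_add_left, ker_add_left]
  have h1 := XP_mono_n (p := p) (kX_nonneg wr) (le_max_left n m) (GOk.wg u.og) (GOk.wg u.oh)
  have h2 := XP_mono_n (p := p) (kX_nonneg wr) (le_max_right n m) (GOk.wg v.og) (GOk.wg v.oh)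
  linarith

lemma UX.appR (u : UX wr p g h x y) (v : UX wr p g h' x' y') :
    UX wr p g (h ++ h') (x + x') (y + y') := by
  obtain ⟨n, hn⟩ := u.le
  obtain ⟨m, hm⟩ := v.le
  refine ⟨u.og, u.oh.append v.oh, max n m, ?_⟩
  rw [XP_add_right ker_add_right, ker_add_right]
  have h1 := XP_mono_n (p := p) (kX_nonneg wr) (le_max_left n m) (GOk.wg u.og) (GOk.wg u.oh)
  have h2 := XP_mono_n (p := p) (kX_nonneg wr) (le_max_right n m) (GOk.wg v.og) (GOk.wg v.oh)
  linarith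

lemma UX.smL {c : ℝ} (hc : 0 ≤ c) (og : GOk g) (oh : GOk h) (u : c ≠ 0 → UX wr p g h x y) :
    UX wr p (smG c g) h (c * x) (c * y) := by
  by_cases h0 : c = 0
  · refine ⟨GOk.sm hc og, oh, 0, ?_⟩
    rw [ker_sm_left, h0]
    simp [XP]
  · obtain ⟨n, hn⟩ := (u h0).le
    refine ⟨GOk.sm hc og, oh, n, ?_⟩
    rw [ker_sm_left, XP_sm_left (ker_sm_left c), ← mul_add, ← mul_add]
    exact mul_le_mul_of_nonneg_left hn hc

lemma UX.smR {c : ℝ} (hc : 0 ≤ c) (og : GOk g) (oh : GOk h) (u : c ≠ 0 → UX wr p g h x y) :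
    UX wr p g (smG c h) (c * x) (c * y) := by
  by_cases h0 : c = 0
  · refine ⟨og, GOk.sm hc oh, 0, ?_⟩
    rw [ker_sm_right, h0]
    simp [XP]
  · obtain ⟨n, hn⟩ := (u h0).le
    refine ⟨og, GOk.sm hc oh, n, ?_⟩
    rw [ker_sm_right, XP_sm_right (ker_sm_right c), ← mul_add, ← mul_add]
    exact mul_le_mul_of_nonneg_left hn hc

lemma gval_congr (e : rsG p g = rsG p g') : gval g = gval g' := by
  funext j x
  rw [← gval_rsG p g, e, gval_rsG]

lemma UX.congrL {a : ℕ} (e : rsG p g = rsG p g') (og : GOk g) (og' : GOk g')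
    (u : UX wr p ((gC p)^[a] g) h x y) : UX wr p ((gC p)^[a] g') h x y := by
  obtain ⟨n, hn⟩ := u.le
  refine ⟨GOk.it og' a, u.oh, n, ?_⟩
  cases a with
  | zero =>
    simp only [Function.iterate_zero, id_eq] at hn ⊢
    rw [ker_kX p og' u.oh, ← gval_congr e, ← ker_kX p og u.oh, ← XP_congr_left e]
    exact hn
  | succ a =>
    rw [Function.iterate_succ_apply, ← gC_congr e, ← Function.iterate_succ_apply]
    exact hn

lemma UX.congrR {b : ℕ} (e : rsG p h = rsG p h') (oh : GOk h) (oh' : GOk h')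
    (u : UX wr p g ((gC p)^[b] h) x y) : UX wr p g ((gC p)^[b] h') x y := by
  obtain ⟨n, hn⟩ := u.le
  refine ⟨u.og, GOk.it oh' b, n, ?_⟩
  cases b with
  | zero =>
    simp only [Function.iterate_zero, id_eq] at hn ⊢
    rw [ker_kX p u.og oh', ← gval_congr e, ← ker_kX p u.og oh, ← XP_congr_right e]
    exact hn
  | succ a =>
    rw [Function.iterate_succ_apply, ← gC_congr e, ← Function.iterate_succ_apply]
    exact hn

/-- **value `0`** : the energy of the children is at most the energy of the averages -/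
lemma UX.mean (hp : 0 < p) (og : GOk g) (oh : GOk h) (a b : ℕ) :
    UX wr p ((gC p)^[a] g) ((gC p)^[b] h) 0
      (Q (SI wr p) (avg (p ^ a) (gval g)) (avg (p ^ b) (gval h))) := by
  refine ⟨GOk.it og a, GOk.it oh b, 0, ?_⟩
  rw [ker_kX p (GOk.it og a) (GOk.it oh b)]
  have := Q_mono_fun (R := SI wr p) (PB_gval (GOk.it (p := p) og a))
    (PB_avg (pow_pos hp a) (PB_gval og)) (PB_gval (GOk.it (p := p) oh b))
    (PB_avg (pow_pos hp b) (PB_gval oh)) (fun j y => gval_it_le hp og a j y)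
    (fun j y => gval_it_le hp oh b j y)
  simp only [XP]
  linarith

/-- at depth `0` the two energies cancel -/
lemma UX.at0 (og : GOk g) (oh : GOk h) (u : UX wr p g h x (Q (SI wr p) (gval g) (gval h))) :
    ∃ n, x ≤ XP (ker (kX wr)) n p g h := by
  obtain ⟨n, hn⟩ := u.le
  rw [ker_kX p og oh] at hn
  exact ⟨n, by linarith⟩

lemma UX.of0 (og : GOk g) (oh : GOk h) (u : ∃ n, x ≤ XP (ker (kX wr)) n p g h) :
    UX wr p g h x (Q (SI wr p) (gval g) (gval h)) := by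
  obtain ⟨n, hn⟩ := u
  refine ⟨og, oh, n, ?_⟩
  rw [ker_kX p og oh]
  linarith

/-- **a two-sided column** -/
lemma UX.two (hp : p ≠ 0) (og : GOk g) (oh : GOk h)
    (u : UX wr p (gC p g) (gC p h) x (Q (SI wr p) (gval (gC p g)) (gval (gC p h)))) :
    UX wr p g h x (Q (SI wr p) (gval g) (gval h)) := by
  obtain ⟨n, hn⟩ := UX.at0 (og.gC) (oh.gC) u
  refine UX.of0 og oh ⟨n + 1, ?_⟩
  unfold XP
  rw [if_neg hp]
  have h1 := lX_nonneg (kX_nonneg wr) (p := p) (GOk.wg og) (GOk.wg oh)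
  have h2 := XP_nonneg (kX_nonneg wr) n (p - 1) (gRn p g) (gRn p h) (wgRn (GOk.wg og))
    (wgRn (GOk.wg oh))
  linarith

end ux

/-! ### raising the level -/

lemma gRn_lo {p : ℕ} {g : Gp Λ κ} (h : Lo p g) (hl : ∀ m ∈ g, ¬ m.2.isLeaf) : gRn p g = g := by
  unfold gRn
  rw [gR_lo h]
  refine List.filter_eq_self.2 fun m hm => ?_
  simp [isLf_false.2 (hl m hm)]

lemma XP_raise1 {n p : ℕ} {g h : Gp Λ κ} (og : GOk g) (oh : GOk h) (lg : Lo (p + 1) g)
    (lh : Lo (p + 1) h) (hg : ∀ m ∈ g, ¬ m.2.isLeaf) (hh : ∀ m ∈ h, ¬ m.2.isLeaf) :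
    XP (ker (kX wr)) n p g h ≤ XP (ker (kX wr)) (n + 1) (p + 1) g h := by
  conv_rhs => unfold XP
  rw [if_neg (Nat.succ_ne_zero p), gRn_lo lg hg, gRn_lo lh hh]
  have h1 := lX_nonneg (kX_nonneg wr) (p := p + 1) (GOk.wg og) (GOk.wg oh)
  have h2 := XP_nonneg (kX_nonneg wr) n (p + 1) _ _ (GOk.wg (og.gC (p := p + 1)))
    (GOk.wg (oh.gC (p := p + 1)))
  have e : p + 1 - 1 = p := by omega
  rw [e]
  linarith

lemma XP_raise {p q : ℕ} (hpq : p ≤ q) {n : ℕ} {g h : Gp Λ κ} (og : GOk g) (oh : GOk h)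
    (tg : ∀ m ∈ g, m.2.top ≤ p) (th : ∀ m ∈ h, m.2.top ≤ p)
    (hg : ∀ m ∈ g, ¬ m.2.isLeaf) (hh : ∀ m ∈ h, ¬ m.2.isLeaf) :
    ∃ n', XP (ker (kX wr)) n p g h ≤ XP (ker (kX wr)) n' q g h := by
  induction q, hpq using Nat.le_induction with
  | base => exact ⟨n, le_rfl⟩
  | succ q hq ih =>
    obtain ⟨n', hn'⟩ := ih
    refine ⟨n' + 1, hn'.trans (XP_raise1 og oh (fun m hm => Or.inr ?_) (fun m hm => Or.inr ?_)
      hg hh)⟩
    · have := tg m hm; omega
    · have := th m hm; omega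

/-! ### pulls -/

/-- the parts of a group at the column `p` -/
lemma gval_parts (p : ℕ) (g : Gp Λ κ) (j : Λ) (x : ℝ) :
    gval g j x = gval (gLf p g) j x + gval (gNl p g) j x := by
  rw [← gval_rsG p g, ← gval_filter (fun t => isLf t) (rsG p g)]
  rfl

lemma isB_notLf {p : ℕ} {t : DT Λ κ} (h : isB p t = true) : isLf t = false := by
  cases t <;> simp [isB, isLf] at h ⊢

lemma gval_rsG_parts (p : ℕ) (g : Gp Λ κ) (j : Λ) (x : ℝ) :
    gval g j x = gval (gLf p g) j x + (gval (gB p g) j x + gval (gRn p g) j x) := by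
  rw [gval_split p g j x]
  have e1 : gval (gR p g) j x = gval ((gR p g).filter fun m => isLf m.2) j x +
      gval (gRn p g) j x := by
    rw [← gval_filter (fun t => isLf t) (gR p g)]
    rfl
  have e2 : ((gR p g).filter fun m => isLf m.2) = gLf p g := by
    unfold gR gLf
    rw [List.filter_filter]
    refine List.filter_congr fun m _ => ?_
    by_cases hB : isB p m.2 = true
    · simp [hB, isB_notLf hB]
    · simp [hB]
  rw [e1, e2]
  ring

lemma gOk_gLf {p : ℕ} {g : Gp Λ κ} (h : GOk g) : GOk (gLf p g) :=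
  (h.rsG (p := p)).sub fun m hm => (List.mem_filter.1 hm).1

lemma gOk_gRn {p : ℕ} {g : Gp Λ κ} (h : GOk g) : GOk (gRn p g) :=
  (h.gR (p := p)).sub fun m hm => (List.mem_filter.1 hm).1

lemma gOk_gNl {p : ℕ} {g : Gp Λ κ} (h : GOk g) : GOk (gNl p g) :=
  (h.rsG (p := p)).sub fun m hm => (List.mem_filter.1 hm).1

section pull
variable {p : ℕ} {r : Λ → κ} {t₁ t₀ : DT Λ κ} {v : Λ → ℝ → ℝ} {B G : κ → ℝ → ℝ}

lemma gLf_br1 {w : ℝ} : gLf p [((1 : ℝ), DT.br p w r t₁ t₀ v B G)] = [] := by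
  simp [gLf, rsG, rs, isLf]

lemma gNl_br1 {w : ℝ} : gNl p [((1 : ℝ), DT.br p w r t₁ t₀ v B G)] =
    [((1 : ℝ), DT.br p w r t₁ t₀ v B G)] := by
  simp [gNl, rsG, rs, isLf]

lemma rsG_br1 {w : ℝ} : rsG p [((1 : ℝ), DT.br p w r t₁ t₀ v B G)] =
    [((1 : ℝ), DT.br p w r t₁ t₀ v B G)] := by
  simp [rsG, rs]

lemma gval_gC_br {w : ℝ} : gval (gC p [((1 : ℝ), DT.br p w r t₁ t₀ v B G)]) =
    fun j x => (1 - w) * t₁.g.val j x + w * t₀.g.val j x := by
  funext j x
  rw [gC_br1, gval_append, gval_smG, gval_smG, gval_one, gval_one]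

/-- `∫ f(p x) g(x) = ∫ f(y) (Ep g)(y)` for the energies -/
lemma Q_push (hp : 0 < p) (R : Finset (Λ × Λ)) {f g : Λ → ℝ → ℝ} (hf : ∀ j, PB (f j))
    (hg : ∀ j, PB (g j)) :
    Q R (fun j x => f j (p * x)) g = Q R f (fun j => Ep p (g j)) := by
  unfold Q
  refine Finset.sum_congr rfl fun e _ => ?_
  exact push_left hp (hf e.1) (hg e.2)

lemma Q_push' (hp : 0 < p) (R : Finset (Λ × Λ)) {f g : Λ → ℝ → ℝ} (hf : ∀ j, PB (f j))
    (hg : ∀ j, PB (g j)) :
    Q R g (fun j x => f j (p * x)) = Q R (fun j => Ep p (g j)) f := by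
  unfold Q
  refine Finset.sum_congr rfl fun e _ => ?_
  have h := push_left hp (hf e.2) (hg e.1)
  have e1 : (fun x => g e.1 x * f e.2 (p * x)) = fun x => f e.2 (p * x) * g e.1 x := by
    funext x; ring
  have e2 : (fun x => Ep p (g e.1) x * f e.2 x) = fun y => f e.2 y * Ep p (g e.1) y := by
    funext x; ring
  rw [e1, e2, h]

/-- **a pull on the left** -/
lemma UX.pullL (hp : 0 < p) (hv : ∀ j x, v j x = t₁.g.val j (p * x))
    {h : Gp Λ κ} {x y : ℝ} (og : GOk [((1 : ℝ), DT.br p 0 r t₁ t₀ v B G)]) (oh : GOk h)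
    (p1 : ∀ j, PB (t₁.g.val j))
    (u : UX wr p (gC p [((1 : ℝ), DT.br p 0 r t₁ t₀ v B G)]) (gC p h) x y) :
    UX wr p [((1 : ℝ), DT.br p 0 r t₁ t₀ v B G)] h x y := by
  obtain ⟨n, hn⟩ := u.le
  refine ⟨og, oh, n + 1, ?_⟩
  have eX : XP (ker (kX wr)) (n + 1) p [((1 : ℝ), DT.br p 0 r t₁ t₀ v B G)] h =
      lX (ker (kX wr)) p [((1 : ℝ), DT.br p 0 r t₁ t₀ v B G)] h +
      XP (ker (kX wr)) n p (gC p [((1 : ℝ), DT.br p 0 r t₁ t₀ v B G)]) (gC p h) +
      XP (ker (kX wr)) n (p - 1) (gRn p [((1 : ℝ), DT.br p 0 r t₁ t₀ v B G)]) (gRn p h) := by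
    conv_lhs => unfold XP
    rw [if_neg hp.ne']
  rw [eX]
  have h0 := XP_nonneg (kX_nonneg wr) n (p - 1) (gRn p [((1 : ℝ), DT.br p 0 r t₁ t₀ v B G)])
    (gRn p h) (wgRn (GOk.wg og)) (wgRn (GOk.wg oh))
  have pL := PB_gval (gOk_gLf (p := p) oh)
  have pB := PB_gval (oh.gB (p := p))
  have pR := PB_gval (gOk_gRn (p := p) oh)
  have key : ker (kX wr) p [((1 : ℝ), DT.br p 0 r t₁ t₀ v B G)] h ≤
      lX (ker (kX wr)) p [((1 : ℝ), DT.br p 0 r t₁ t₀ v B G)] h +
      ker (kX wr) p (gC p [((1 : ℝ), DT.br p 0 r t₁ t₀ v B G)]) (gC p h) := by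
    have e1 : gval h = fun j x => gval (gLf p h) j x + (gval (gB p h) j x + gval (gRn p h) j x) := by
      funext j x; exact gval_rsG_parts p h j x
    rw [ker_kX p og oh, e1, Q_add_right (h := fun j x => gval (gB p h) j x + gval (gRn p h) j x)
      (PB_gval og) pL (fun j => (pB j).add (pR j)), Q_add_right (PB_gval og) pB pR]
    have e2 : Q (SI wr p) (gval [((1 : ℝ), DT.br p 0 r t₁ t₀ v B G)]) (gval (gB p h)) =
        ker (kX wr) p (gC p [((1 : ℝ), DT.br p 0 r t₁ t₀ v B G)]) (gC p h) := by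
      rw [ker_kX p og.gC oh.gC, gval_one, gval_gC_br]
      have e3 : (DT.br p 0 r t₁ t₀ v B G).g.val = fun j x => t₁.g.val j (p * x) := by
        funext j x; exact hv j x
      have e4 : (fun (j : Λ) (x : ℝ) => (1 - (0 : ℝ)) * t₁.g.val j x + 0 * t₀.g.val j x) =
          t₁.g.val := by
        funext j x; ring
      have e5 : gval (gC p h) = fun j => Ep p (gval (gB p h) j) := by
        funext j; exact gval_gC oh j
      rw [e3, e4, e5]
      exact Q_push hp _ p1 pB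
    have e6 : lX (ker (kX wr)) p [((1 : ℝ), DT.br p 0 r t₁ t₀ v B G)] h =
        ker (kX wr) p (gLf p [((1 : ℝ), DT.br p 0 r t₁ t₀ v B G)]) (rsG p h) +
        ker (kX wr) p [((1 : ℝ), DT.br p 0 r t₁ t₀ v B G)] (gLf p h) +
        ker (kX wr) p [((1 : ℝ), DT.br p 0 r t₁ t₀ v B G)] (gRn p h) +
        ker (kX wr) p (gRn p [((1 : ℝ), DT.br p 0 r t₁ t₀ v B G)]) (gB p h) := by
      unfold lX
      rw [gNl_br1, gB_br1]
    have a1 := ker_nonneg (kX_nonneg wr) (p := p)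
      (wgLf (p := p) (GOk.wg og)) ((GOk.wg oh).rsG (p := p))
    have a4 := ker_nonneg (kX_nonneg wr) (p := p)
      (wgRn (p := p) (GOk.wg og)) ((GOk.wg oh).gB (p := p))
    rw [e6, e2, ker_kX p og (gOk_gLf oh), ker_kX p og (gOk_gRn oh)]
    linarith
  linarith

/-- **a pull on the right** -/
lemma UX.pullR (hp : 0 < p) (hv : ∀ j x, v j x = t₁.g.val j (p * x))
    {g : Gp Λ κ} {x y : ℝ} (og : GOk g) (oh : GOk [((1 : ℝ), DT.br p 0 r t₁ t₀ v B G)])
    (p1 : ∀ j, PB (t₁.g.val j))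
    (u : UX wr p (gC p g) (gC p [((1 : ℝ), DT.br p 0 r t₁ t₀ v B G)]) x y) :
    UX wr p g [((1 : ℝ), DT.br p 0 r t₁ t₀ v B G)] x y := by
  obtain ⟨n, hn⟩ := u.le
  refine ⟨og, oh, n + 1, ?_⟩
  have eX : XP (ker (kX wr)) (n + 1) p g [((1 : ℝ), DT.br p 0 r t₁ t₀ v B G)] =
      lX (ker (kX wr)) p g [((1 : ℝ), DT.br p 0 r t₁ t₀ v B G)] +
      XP (ker (kX wr)) n p (gC p g) (gC p [((1 : ℝ), DT.br p 0 r t₁ t₀ v B G)]) +
      XP (ker (kX wr)) n (p - 1) (gRn p g) (gRn p [((1 : ℝ), DT.br p 0 r t₁ t₀ v B G)]) := by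
    conv_lhs => unfold XP
    rw [if_neg hp.ne']
  rw [eX]
  have h0 := XP_nonneg (kX_nonneg wr) n (p - 1) (gRn p g)
    (gRn p [((1 : ℝ), DT.br p 0 r t₁ t₀ v B G)]) (wgRn (GOk.wg og)) (wgRn (GOk.wg oh))
  have pL := PB_gval (gOk_gLf (p := p) og)
  have pB := PB_gval (og.gB (p := p))
  have pR := PB_gval (gOk_gRn (p := p) og)
  have key : ker (kX wr) p g [((1 : ℝ), DT.br p 0 r t₁ t₀ v B G)] ≤
      lX (ker (kX wr)) p g [((1 : ℝ), DT.br p 0 r t₁ t₀ v B G)] +
      ker (kX wr) p (gC p g) (gC p [((1 : ℝ), DT.br p 0 r t₁ t₀ v B G)]) := by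
    have e1 : gval g = fun j x => gval (gLf p g) j x + (gval (gB p g) j x + gval (gRn p g) j x) := by
      funext j x; exact gval_rsG_parts p g j x
    rw [ker_kX p og oh, e1, Q_add_left (g := fun j x => gval (gB p g) j x + gval (gRn p g) j x)
      pL (fun j => (pB j).add (pR j)) (PB_gval oh), Q_add_left pB pR (PB_gval oh)]
    have e2 : Q (SI wr p) (gval (gB p g)) (gval [((1 : ℝ), DT.br p 0 r t₁ t₀ v B G)]) =
        ker (kX wr) p (gC p g) (gC p [((1 : ℝ), DT.br p 0 r t₁ t₀ v B G)]) := by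
      rw [ker_kX p og.gC oh.gC, gval_one, gval_gC_br]
      have e3 : (DT.br p 0 r t₁ t₀ v B G).g.val = fun j x => t₁.g.val j (p * x) := by
        funext j x; exact hv j x
      have e4 : (fun (j : Λ) (x : ℝ) => (1 - (0 : ℝ)) * t₁.g.val j x + 0 * t₀.g.val j x) =
          t₁.g.val := by
        funext j x; ring
      have e5 : gval (gC p g) = fun j => Ep p (gval (gB p g) j) := by
        funext j; exact gval_gC og j
      rw [e3, e4, e5]
      exact Q_push' hp _ p1 pB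
    have e6 : lX (ker (kX wr)) p g [((1 : ℝ), DT.br p 0 r t₁ t₀ v B G)] =
        ker (kX wr) p (gLf p g) [((1 : ℝ), DT.br p 0 r t₁ t₀ v B G)] +
        ker (kX wr) p (gNl p g) (gLf p [((1 : ℝ), DT.br p 0 r t₁ t₀ v B G)]) +
        ker (kX wr) p (gB p g) (gRn p [((1 : ℝ), DT.br p 0 r t₁ t₀ v B G)]) +
        ker (kX wr) p (gRn p g) [((1 : ℝ), DT.br p 0 r t₁ t₀ v B G)] := by
      unfold lX
      rw [gB_br1, rsG_br1]
    have a1 := ker_nonneg (kX_nonneg wr) (p := p)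
      (wgNl (p := p) (GOk.wg og)) (wgLf (p := p) (GOk.wg oh))
    have a4 := ker_nonneg (kX_nonneg wr) (p := p)
      ((GOk.wg og).gB (p := p)) (wgRn (p := p) (GOk.wg oh))
    rw [e6, e2, ker_kX p (gOk_gLf og) oh, ker_kX p (gOk_gRn og) oh]
    linarith
  linarith

end pull

end Crest.Agent.R4P.CrsU26
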