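import Crest.Agent.R4P.SSp_9
import Crest.Agent.R4P.CrsH_29

/-!
R4 (S0004), powers, helper9, [TgtCrs] (2), context instance: **`TgtCrsE` from the tree sums `SSd`**.

* `toDT_CPn` : the children of a column have the next column, in a tree with `NodeOk`.
* `kdX X` : the classes of the group walk of a context (index of the world of the largest prime `≤ l`).
* `TgtSSd` : `SSd ≤ a (μ + μ²)` at the nodes which are not pulls; `forN_tgtCrsE_SSd`.
-/

set_option autoImplicit false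
set_option linter.unusedVariables false
set_option linter.unusedSectionVars false
open MeasureTheory Filter Set

namespace Crest.Agent.R4P.CtxCP9

open Crest.Agent.R4.Tour104 Crest.Agent.R4.Tour758 Crest.Agent.R4.Avg758 Crest.Agent.R4.Clos758
open Crest.Agent.R4.ClosL758 Crest.Agent.R4.ClosG758 Crest.Agent.R4.ClosR758
open Crest.Agent.R4P.ClosR442 Crest.Agent.R4P.Walk560 Crest.Agent.R4P.Grp36
open Crest.Agent.R4P.Xfer36 Crest.Agent.R4P.TopC36 Crest.Agent.R4P.TW17 Crest.Agent.R4P.TE26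
open Crest.Agent.R4P.Cnt588 Crest.Agent.R4P.Data758 Crest.Agent.R4P.Skel189
open Crest.Agent.R4P.Bld532 (NS All NodeOk)
open Crest.Agent.R4P.Fin5 (CF)
open Crest.Agent.R4P.FinT26 Crest.Agent.R4P.FinE26 Crest.Agent.R4P.FinX26 Crest.Agent.R4P.FinEE26
open Crest.Agent.R4P.Mrg35 Crest.Agent.R4P.SkelF29 Crest.Agent.R4P.Item758
open Crest.Agent.R4P.TopX36 Crest.Agent.R4P.CrsD26 Crest.Agent.R4P.XEx29 Crest.Agent.R4P.XBr29
open Crest.Agent.R4P.XPr29 Crest.Agent.R4P.CrsG29 Crest.Agent.R4P.PN36 Crest.Agent.R4P.CrsH29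
open Crest.Agent.R4P.ClosP542 (PulG)
open Crest.Agent.R4P.LogL51 (XL XL_succ XL_zero XL_succ0 XL_nonneg Ce Ce_nonneg gOk_gN)
open Crest.Agent.R4P.LogG51 (gtot)
open Crest.Agent.R4P.HgR9 (SS Rf XL_le_SS)
open Crest.Agent.R4P.RsSum19 (SSd chg)
open Crest.Agent.R4P.SSp9 (kdp CP CPn dep SS_le_SSd kdp_prime)
open Crest.Agent.R4P

/-! ### the columns of the built trees -/

section tree
variable {Λ κ : Type} [Fintype Λ] [DecidableEq Λ] [Fintype κ] [DecidableEq κ] [WRel κ]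
  {D : Par Λ κ} {sp : ℕ → Finset Λ} {P : Bld532.Par} {W : ℕ → ℝ}

lemma top_lt_n {u : NS} {τ : IT} (h : NodeOk P W u τ) (b pr : ℕ) :
    (D.toDT sp b pr τ).isLeaf ∨ ((D.toDT sp b pr τ).top.Prime ∧ (D.toDT sp b pr τ).top < u.n ∧
      ∀ r, r.Prime → r < u.n → r ≤ (D.toDT sp b pr τ).top) := by
  cases τ with
  | leaf S => exact Or.inl trivial
  | br q Sp t₁ t₀ => exact Or.inr ⟨h.1, h.2.1, h.2.2.2.1⟩
  | add q t₁ t₀ => exact Or.inr ⟨h.1, h.2.1, h.2.2.2.1⟩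
  | up q Sp t => exact Or.inr ⟨h.1, h.2.1, h.2.2.2.1⟩
  | pl q t => exact Or.inr ⟨h.1, h.2.1, h.2.2.2.1⟩
  | far q t₁ t₀ => exact Or.inr ⟨h.1, h.2.1, h.2.2.2.1⟩

lemma toDT_CP {u : NS} {τ : IT} (h : NodeOk P W u τ) {q : ℕ} (h1 : q ≤ u.n) (h2 : u.n ≤ q + 1)
    (b pr : ℕ) : CP q (D.toDT sp b pr τ) := by
  rcases top_lt_n (D := D) (sp := sp) h b pr with hl | ⟨a1, a2, a3⟩
  · exact Or.inl hl
  · exact Or.inr ⟨a1, by omega, fun r hr hlt => a3 r hr (by omega)⟩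

/-- **the children of a column have the next column** -/
theorem toDT_CPn : ∀ (τ : IT) (u : NS), All (NodeOk P W) u τ → ∀ b pr : ℕ,
    (D.toDT sp b pr τ).All (CPn D.rho) := by
  intro τ
  induction τ with
  | leaf S => intro u _ b pr; exact trivial
  | br q Sp t₁ t₀ ih₁ ih₀ =>
    intro u hA b pr
    have hq : q.Prime := hA.1.1
    have hq1 : (1 : ℝ) ≤ q := by exact_mod_cast hq.one_lt.le
    refine ⟨⟨hq, by positivity, ?_, rfl, ?_, ?_⟩, ih₁ _ hA.2.1 _ _, ih₀ _ hA.2.2 _ _⟩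
    · rw [div_le_one (by linarith)]; exact hq1
    · exact toDT_CP hA.2.1.self le_rfl (Nat.le_succ _) _ _
    · exact toDT_CP hA.2.2.self le_rfl (Nat.le_succ _) _ _
  | add q t₁ t₀ ih₁ ih₀ =>
    intro u hA b pr
    have hq : q.Prime := hA.1.1
    exact ⟨⟨hq, toDT_CP hA.2.1.self (Nat.le_succ _) le_rfl _ _,
      toDT_CP hA.2.2.self (Nat.le_succ _) le_rfl _ _⟩, ih₁ _ hA.2.1 _ _, ih₀ _ hA.2.2 _ _⟩
  | up q Sp t ih =>
    intro u hA b pr
    have hq : q.Prime := hA.1.1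
    exact ⟨⟨hq, toDT_CP hA.2.self le_rfl (Nat.le_succ _) _ _⟩, ih _ hA.2 _ _⟩
  | pl q t ih =>
    intro u hA b pr
    have hq : q.Prime := hA.1.1
    exact ⟨⟨hq, le_rfl, zero_le_one, rfl, toDT_CP hA.2.self (Nat.le_succ _) le_rfl _ _,
      Or.inl trivial⟩, ih _ hA.2 _ _, trivial⟩
  | far q t₁ t₀ ih₁ ih₀ =>
    intro u hA b pr
    have hq : q.Prime := hA.1.1
    exact ⟨⟨hq, toDT_CP hA.2.1.self (Nat.le_succ _) le_rfl _ _,
      toDT_CP hA.2.2.self (Nat.le_succ _) le_rfl _ _⟩, ih₁ _ hA.2.1 _ _, ih₀ _ hA.2.2 _ _⟩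

end tree

/-! ### the context -/

variable {N : Skel189.Num} {γ : ℝ} {p0 P₀ : ℕ}

/-- the classes of the group walk of a context -/
noncomputable def kdX (X : Ctx N γ p0 P₀) : ℕ → X.c.Lam → X.c.Lam :=
  kdp (X.c.D.par X.Y).rho (ixL (X := X))

lemma kdX_prime (X : Ctx N γ p0 P₀) (q : ℕ) (hq : q.Prime) : kdX X q = kdx X q := by
  show kdp (X.c.D.par X.Y).rho (ixL (X := X)) q = _
  rw [kdp_prime _ _ hq]
  rfl

/-- the children of a column have the next column, in a context -/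
theorem ctx_CPn (X : Ctx N γ p0 P₀) :
    All (fun u τ => (X.self u τ Finset.univ).t.All (CPn (X.c.D.par X.Y).rho) ∧
      (¬ (X.self u τ Finset.univ).t.isLeaf → (X.self u τ Finset.univ).t.top.Prime))
      ⟨top X.S, 1, 1, 1⟩ X.c.t := by
  refine All.mono (fun u τ h5 => ⟨?_, ?_⟩) (Step588.All_All _ _ X.nodes)
  · exact toDT_CPn (D := X.c.D.par X.Y) (sp := X.c.sp) τ u h5 u.B u.A
  · intro hl
    rcases top_lt_n (D := X.c.D.par X.Y) (sp := X.c.sp) h5.self u.B u.A with h | h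
    · exact absurd h hl
    · exact h.1

/-- bound of the tree sums in a context -/
def SSdAt (X : Ctx N γ p0 P₀) (j₀ : X.c.Lam) (a : ℝ) : Prop :=
  All (fun u τ => ¬ PulG (X.g u τ) →
    SSd (X.c.D.par X.Y).rho (X.self u τ Finset.univ).t ≤
      a * (X.mu j₀ u τ Finset.univ + X.mu j₀ u τ Finset.univ * X.mu j₀ u τ Finset.univ))
    ⟨top X.S, 1, 1, 1⟩ X.c.t

/-- **the tree sums are paid** -/
def TgtSSd (N : Skel189.Num) (γ : ℝ) : Prop :=
  ∃ a : ℝ, 0 ≤ a ∧ Ev N γ fun p0 P₀ X => CF X → ∀ j₀ : X.c.Lam, SSdAt X j₀ a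

/-- the walk of a node from the tree sum -/
theorem ctx_SS (X : Ctx N γ p0 P₀) (j₀ : X.c.Lam) {a : ℝ} (h : SSdAt X j₀ a) :
    All (fun u τ => ¬ PulG (X.g u τ) → (X.self u τ Finset.univ).t.top ≠ 0 → ∀ n, ∃ m, n ≤ m ∧
      SS 2 (kdX X) m (X.self u τ Finset.univ).t.top (g1 X u τ) ≤
        16 * a * (X.mu j₀ u τ Finset.univ +
          X.mu j₀ u τ Finset.univ * X.mu j₀ u τ Finset.univ)) ⟨top X.S, 1, 1, 1⟩ X.c.t := by
  refine All.mono (fun u τ hh hp ht n => ?_) (All.and (All.and h (ctx_CPn X)) (ctx_Gd X))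
  obtain ⟨⟨h1, h2, h3⟩, hG, hc⟩ := hh
  set t := (X.self u τ Finset.univ).t with htd
  have hl : ¬ t.isLeaf := by
    intro hl
    cases hh : t with
    | leaf r f => rw [hh] at ht; exact ht rfl
    | br q w r t₁ t₀ v B G => rw [hh] at hl; exact hl
    | add q r t₁ t₀ => rw [hh] at hl; exact hl
    | up q Sp t => rw [hh] at hl; exact hl
  have hok : GOk (g1 X u τ) := (GX.one hG hc).gok
  have h4 := (SS_le_SSd (W := 2) (ix := ixL (X := X)) (by norm_num) rel_ixL t h2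
    (hok.pb _ (List.mem_singleton_self _))).1 hl (h3 hl) (max n (t.top + dep t)) (le_max_right _ _)
  refine ⟨max n (t.top + dep t), le_max_left _ _, ?_⟩
  have h5 := h1 hp
  have h6 : SS 2 (kdX X) (max n (t.top + dep t)) t.top (g1 X u τ) ≤
      8 * 2 * SSd (X.c.D.par X.Y).rho t := h4
  linarith

/-- **`TgtCrsE` from the tree sums** -/
theorem tgtCrsE_of_SSd {ε : ℝ} (hε : 0 < ε) (hH : TgtSSd N γ) : TgtCrsE ε N γ := by
  have hT := tgtT1 N γ
  obtain ⟨a, ha, hH⟩ := hH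
  refine ⟨Ce ε 1 * (4 + 16 * a), mul_nonneg (Ce_nonneg hε zero_le_one) (by linarith), ?_⟩
  refine (((hT.and hH).and (ctx_mass N γ)).and (ctx_HF N γ)).mono ?_
  rintro p0 P₀ X ⟨⟨⟨h1, h2⟩, h3⟩, h4⟩ hC j₀ Hb
  refine All.mono (fun u τ hh hp hb => ?_)
    (All.and (All.and (All.and (All.and (h1 hC j₀) (ctx_SS X j₀ (h2 hC j₀))) (h3 j₀)) (h4 j₀))
      (All.and (ctx_Gd X) (ctx_mumu X j₀)))
  obtain ⟨⟨⟨⟨⟨n, k1⟩, k2⟩, k3⟩, kN, kW, kO⟩, ⟨hG, hc⟩, hmu⟩ := hh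
  set t := (X.self u τ Finset.univ).t with ht
  have hok : GOk (g1 X u τ) := (GX.one hG hc).gok
  have e1 : XP (ker (kX (X.c.D.par X.Y).rho)) n t.top (g1 X u τ) (g1 X u τ) =
      XL (kdX X) n t.top (g1 X u τ) := by
    rw [XP_eq_XL_one rel_ixL hG hc]
    exact (XL_congr_one (fun q hq => kdX_prime X q hq) hG hc n).symm
  have e2 : I (fun x => gtot (g1 X u τ) x ^ 2) = I (fun x => tt Finset.univ (X.g u τ) x ^ 2) := by
    congr 1; funext x; rw [gtot_g1]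
  have hCe := Ce_nonneg hε zero_le_one (η := ε) (H0 := 1)
  have hμ0 : 0 ≤ X.mu j₀ u τ Finset.univ := (hmu Finset.univ).1
  by_cases h0 : t.top = 0
  · have e3 : XL (kdX X) n t.top (g1 X u τ) = 0 := by
      rw [h0]
      cases n with
      | zero => exact XL_zero _ _ _
      | succ n => exact XL_succ0 _ _ _
    have e4 : 0 ≤ I (fun x => tt Finset.univ (X.g u τ) x ^ 2) := I_nonneg fun x => sq_nonneg _
    show WF (SXN X j₀) (xX (X.c.D.par X.Y).rho (SXN X j₀)) (Fl.self, X.self u τ Finset.univ) -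
      ε * I (fun x => tt Finset.univ (X.g u τ) x ^ 2) ≤ _
    rw [e1, e3] at k1
    have e5 : 0 ≤ Ce ε 1 * (4 + 16 * a) *
        (X.mu j₀ u τ Finset.univ + X.mu j₀ u τ Finset.univ * X.mu j₀ u τ Finset.univ) := by
      positivity
    nlinarith
  obtain ⟨m, hm, k2⟩ := k2 hp h0 n
  have hRf : PN36.GAll (Rf (kdX X)) (g1 X u τ) := fun m' hm' => by
    rw [List.mem_singleton.1 hm']
    have hw := kW _ (List.mem_singleton.2 rfl)
    exact Rf_of (fun q hq => kdX_prime X q hq) hc hw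
  have k4 := XL_mono (kdX X) hm t.top hok
  have k5 := XL_le_SS (W := 2) (by norm_num) (kdX X) (H0 := 1) (eta := ε) one_pos hε m t.top hok kN
    hRf (kO m)
  set μ := X.mu j₀ u τ Finset.univ with hμ
  have k6 : Ce ε 1 * (I (fun x => gtot (g1 X u τ) x) + SS 2 (kdX X) m t.top (g1 X u τ)) ≤
      Ce ε 1 * (4 * μ + 16 * a * (μ + μ * μ)) :=
    mul_le_mul_of_nonneg_left (add_le_add k3 k2) hCe
  have k7 : Ce ε 1 * (4 * μ + 16 * a * (μ + μ * μ)) ≤ Ce ε 1 * (4 + 16 * a) * (μ + μ * μ) := by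
    have : 0 ≤ Ce ε 1 * (4 * (μ * μ)) := by positivity
    nlinarith
  show WF (SXN X j₀) (xX (X.c.D.par X.Y).rho (SXN X j₀)) (Fl.self, X.self u τ Finset.univ) -
    ε * I (fun x => tt Finset.univ (X.g u τ) x ^ 2) ≤ _
  rw [e1] at k1
  rw [e2] at k5
  linarith

/-- **`TgtCrsE` for all the numbers, from the tree sums** -/
theorem forN_tgtCrsE_SSd {th : ℝ → ℕ → ℕ → ℝ} {Sx : ℝ → ℝ → ℕ → (ℕ → ℝ) → Finset ℕ → Finset ℕ}
    {ε : ℝ} (hε : 0 < ε) (hH : ForN th Sx TgtSSd) : ForN th Sx (TgtCrsE ε) :=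
  forN_mono hH fun N γ h => tgtCrsE_of_SSd hε h

end Crest.Agent.R4P.CtxCP9
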