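import Crest.Agent.R4P.StepItem95
import Crest.Agent.R4.StepRes189

/-!
R4 (S0004), powers pass: port of helper189's `R4/StepRes189` (helper6): **dead pieces do not matter**
(T9').  The tree-free half (`sum_cl_res`, `mult_res`, `rttA`) is exported.

* `Par.res Al` : the family of the pieces of the items of `Al`.
* `U_res`, `Fq_res` : if the weights of all the other pieces vanish, the values agree.
* `item_step_al` : `item_step` with hypotheses for the alive mates only.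
-/

set_option autoImplicit false
set_option linter.unusedSectionVars false
set_option linter.unusedVariables false
open MeasureTheory Filter

namespace Crest.Agent.R4P.Step588

open Crest.Agent.R4.Tour104 Crest.Agent.R4.Tour758 Crest.Agent.R4.Avg758 Crest.Agent.R4.Clos758
open Crest.Agent.R4.ClosL758 Crest.Agent.R4.ClosG758 Crest.Agent.R4.Lam368
open Crest.Agent.R4.Piece464 Crest.Agent.R4.Fam464 Crest.Agent.R4P.Cnt588 Crest.Agent.R4P.Item758
open Crest.Agent.R4P.W363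

export Crest.Agent.R4.Step588 (sum_cl_res mult_res rttA)

/-- the family of the pieces of the items of `Al` -/
def _root_.Crest.Agent.R4P.Item758.Par.res {Λ κ : Type*} (D : Par Λ κ) (Al : Finset ℕ) :
    Par {j : Λ // D.it j ∈ Al} κ where
  γ := D.γ
  it j := D.it j.1
  al j := D.al j.1
  be j := D.be j.1
  om j := D.om j.1
  rho p j := D.rho p j.1
  rhoL b pr S j := D.rhoL b pr S j.1


section
variable {Λ κ : Type*} [Fintype Λ] [DecidableEq κ]

/-- pieces without weight vanish -/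
lemma U_dead (D : Par Λ κ) {k : Λ} (hk : ∀ a, D.om k a = 0) (t : IT) : ∀ (b pr c : ℕ) (x : ℝ),
    (D.toFT b pr t).U c k x = 0 := by
  induction t with
  | leaf S =>
    intro b pr c x
    show D.L b pr S c k x = 0
    unfold Par.L
    split_ifs
    · unfold Par.pcs pc
      exact Finset.sum_eq_zero fun a _ => hk _
    · rfl
  | br p Sp t₁ t₀ ih₁ ih₀ =>
    intro b pr c x
    show mult _ _ _ _ _ _ _ _ * (D.toFT b (pr * p) t₁).U c k (p * x) +
      (D.toFT (b * p) pr t₀).U (c * p) k x = 0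
    rw [ih₁, ih₀, mul_zero, add_zero]
  | add p t₁ t₀ ih₁ ih₀ =>
    intro b pr c x
    show (D.toFT b pr t₁).U c k x + (D.toFT b pr t₀).U c k x = 0
    rw [ih₁, ih₀, add_zero]
  | up p Sp t ih =>
    intro b pr c x
    exact ih b pr c x
  | pl p t ih =>
    intro b pr c x
    exact ih b (pr * p) c (p * x)
  | far p t₁ t₀ ih₁ ih₀ =>
    intro b pr c x
    show (D.toFT b pr t₁).U c k x + (D.toFT b pr t₀).U c k x = 0
    rw [ih₁, ih₀, add_zero]

variable [DecidableEq Λ]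

/-- **the values of the alive pieces do not see the dead ones** -/
theorem U_res (D : Par Λ κ) {Al : Finset ℕ} (hdead : ∀ j, D.it j ∉ Al → ∀ a, D.om j a = 0)
    (t : IT) : ∀ {b pr : ℕ}, 0 < b → Fit b pr t → D.Wts pr t → ∀ (c : ℕ)
      (j : {j : Λ // D.it j ∈ Al}) (x : ℝ),
      (D.toFT b pr t).U c j.1 x = ((D.res Al).toFT b pr t).U c j x := by
  induction t with
  | leaf S => intro b pr _ _ _ c j x; rfl
  | br p Sp t₁ t₀ ih₁ ih₀ =>
    intro b pr hb hF hW c j x
    have hW' : (D.res Al).Wts pr (.br p Sp t₁ t₀) := fun j hj => hW j.1 hj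
    have hA : (D.toFT b pr (.br p Sp t₁ t₀)).Adm b := D.toFT_Adm _ b pr hb hF hW
    have hdat := FT.dat hb hA
    have hA' : ((D.res Al).toFT b pr (.br p Sp t₁ t₀)).Adm b := (D.res Al).toFT_Adm _ b pr hb hF hW'
    have hdat' := FT.dat hb hA'
    obtain ⟨hp, hpb, hd, h1, h0⟩ := hF
    have hbp : 0 < b * p := Nat.mul_pos hb hp.pos
    have i1 := ih₁ hb h1 (hW.br₁ hd)
    have i0 := ih₀ hbp h0 hW.br₀
    have e1 : (fun j : {j : Λ // D.it j ∈ Al} => ((D.res Al).toFT b (pr * p) t₁).U 1 j) =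
        fun j => (D.toFT b (pr * p) t₁).U 1 j.1 := by
      funext j y; exact (i1 1 j y).symm
    have e2 : (fun j : {j : Λ // D.it j ∈ Al} => ((D.res Al).toFT (b * p) pr t₀).U p j) =
        fun j => (D.toFT (b * p) pr t₀).U p j.1 := by
      funext j y; exact (i0 p j y).symm
    have e3 : (fun j : {j : Λ // D.it j ∈ Al} => ((D.res Al).toFT (b * p) pr t₀).U 1 j) =
        fun j => (D.toFT (b * p) pr t₀).U 1 j.1 := by
      funext j y; exact (i0 1 j y).symm
    have hdat2 : Dat p (fun j : {j : Λ // D.it j ∈ Al} => (D.toFT b (pr * p) t₁).U 1 j.1)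
        (fun j => (D.toFT (b * p) pr t₀).U p j.1)
        (fun j => (D.toFT (b * p) pr t₀).U 1 j.1) := by
      rw [← e1, ← e2, ← e3]; exact hdat'
    have hm := mult_res (Q := fun j : Λ => D.it j ∈ Al) (r := D.rho p) hdat hdat2
      (fun k hk x => U_dead D (hdead k hk) t₁ _ _ _ x)
      (fun k hk x => U_dead D (hdead k hk) t₀ _ _ _ x)
      (fun k hk x => U_dead D (hdead k hk) t₀ _ _ _ x) j (c * x)
    show mult p (fun j => (D.toFT b (pr * p) t₁).U 1 j) (fun j => (D.toFT (b * p) pr t₀).U p j)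
        (fun j => (D.toFT (b * p) pr t₀).U 1 j) (fun _ => D.rho p) (0 + 1) j.1 (c * x) *
        (D.toFT b (pr * p) t₁).U c j.1 (p * x) + (D.toFT (b * p) pr t₀).U (c * p) j.1 x =
      mult p (fun j => ((D.res Al).toFT b (pr * p) t₁).U 1 j)
        (fun j => ((D.res Al).toFT (b * p) pr t₀).U p j)
        (fun j => ((D.res Al).toFT (b * p) pr t₀).U 1 j) (fun _ => (D.res Al).rho p) (0 + 1) j
        (c * x) *
        ((D.res Al).toFT b (pr * p) t₁).U c j (p * x) +
        ((D.res Al).toFT (b * p) pr t₀).U (c * p) j x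
    rw [e1, e2, e3, ← i1 c j, ← i0 (c * p) j]
    have hm' : mult p (fun j => (D.toFT b (pr * p) t₁).U 1 j)
        (fun j => (D.toFT (b * p) pr t₀).U p j)
        (fun j => (D.toFT (b * p) pr t₀).U 1 j) (fun _ => D.rho p) (0 + 1) j.1 (c * x) =
      mult p (fun j : {j : Λ // D.it j ∈ Al} => (D.toFT b (pr * p) t₁).U 1 j.1)
        (fun j => (D.toFT (b * p) pr t₀).U p j.1)
        (fun j => (D.toFT (b * p) pr t₀).U 1 j.1) (fun _ => (D.res Al).rho p) (0 + 1) j
        (c * x) := hm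
    rw [hm']
  | add p t₁ t₀ ih₁ ih₀ =>
    intro b pr hb hF hW c j x
    obtain ⟨hd, h1, h0⟩ := hF
    show (D.toFT b pr t₁).U c j.1 x + (D.toFT b pr t₀).U c j.1 x =
      ((D.res Al).toFT b pr t₁).U c j x + ((D.res Al).toFT b pr t₀).U c j x
    rw [ih₁ hb h1 (hW.add₁ hd), ih₀ hb h0 hW.add₀]
  | up p Sp t ih =>
    intro b pr hb hF hW c j x
    exact ih hb hF hW c j x
  | pl p t ih =>
    intro b pr hb hF hW c j x
    exact ih hb hF.2.2 hW.pl c j (p * x)
  | far p t₁ t₀ ih₁ ih₀ =>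
    intro b pr hb hF hW c j x
    obtain ⟨hd, h1, h0⟩ := hF
    show (D.toFT b pr t₁).U c j.1 x + (D.toFT b pr t₀).U c j.1 x =
      ((D.res Al).toFT b pr t₁).U c j x + ((D.res Al).toFT b pr t₀).U c j x
    rw [ih₁ hb h1 (hW.far₁ hd), ih₀ hb h0 hW.far₀]

/-- the item sums agree -/
theorem Fq_res (D : Par Λ κ) {Al : Finset ℕ} (hdead : ∀ j, D.it j ∉ Al → ∀ a, D.om j a = 0)
    {t : IT} {b pr : ℕ} (hb : 0 < b) (hF : Fit b pr t) (hW : D.Wts pr t) (c q : ℕ) :
    Fq D b pr t c q = Fq (D.res Al) b pr t c q := by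
  classical
  funext x
  unfold Fq
  have e1 : ∑ j ∈ Finset.univ.filter (fun j => D.it j = q), (D.toFT b pr t).U c j x =
      ∑ j ∈ (Finset.univ.filter (fun j => D.it j = q)).filter (fun j => D.it j ∈ Al),
        (D.toFT b pr t).U c j x := by
    symm
    refine Finset.sum_subset (Finset.filter_subset _ _) ?_
    intro k hk hk2
    exact U_dead D (hdead k fun h => hk2 (Finset.mem_filter.2 ⟨hk, h⟩)) t _ _ _ x
  rw [e1]
  symm
  refine Finset.sum_bij (fun k _ => k.1) ?_ ?_ ?_ ?_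
  · intro k hk
    exact Finset.mem_filter.2 ⟨Finset.mem_filter.2 ⟨Finset.mem_univ _, (Finset.mem_filter.1 hk).2⟩,
      k.2⟩
  · intro k _ k' _ e
    exact Subtype.ext e
  · intro k hk
    obtain ⟨h1, h2⟩ := Finset.mem_filter.1 hk
    exact ⟨⟨k, h2⟩, Finset.mem_filter.2 ⟨Finset.mem_univ _, (Finset.mem_filter.1 h1).2⟩, rfl⟩
  · intro k _
    exact (U_res D hdead t hb hF hW c k x).symm

end

section
variable {Λ κ : Type*} {D : Par Λ κ} {Al : Finset ℕ}

lemma Cov.res {R : ℕ → ℝ} (h : Cov D R) : Cov (D.res Al) R where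
  cov := by
    intro j z h1 h2
    obtain ⟨k, hk, h3⟩ := h.cov j.1 z h1 h2
    exact ⟨⟨k, by rw [hk]; exact j.2⟩, hk, h3⟩
  al := fun j => h.al j.1
  be := fun j => h.be j.1
  dj := fun j k z e h1 h2 h3 h4 => Subtype.ext (h.dj j.1 k.1 z e h1 h2 h3 h4)

lemma Wld.res {P : WP} {stt : ℕ → ℕ → Option ℚ} {rtt : ℕ → ℕ → ℕ} {C : Finset ℕ}
    (h : Wld D P stt rtt C) : Wld (D.res Al) P stt (rttA Al rtt) C where
  rho := by
    intro p hp j k
    have e1 : rttA Al rtt p (D.it j.1) = rtt p (D.it j.1) + 1 := if_pos j.2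
    have e2 : rttA Al rtt p (D.it k.1) = rtt p (D.it k.1) + 1 := if_pos k.2
    show D.rho p j.1 = D.rho p k.1 ↔
      (P.ix D.γ p (D.it j.1) (stt p (D.it j.1)) (D.al j.1) =
      P.ix D.γ p (D.it k.1) (stt p (D.it k.1)) (D.al k.1) ∧
      rttA Al rtt p (D.it j.1) = rttA Al rtt p (D.it k.1))
    rw [e1, e2, h.rho p hp j.1 k.1, Nat.add_right_cancel_iff]
  pt := fun p hp j z h1 h2 => h.pt p hp j.1 z h1 h2

lemma WOk.res {P : WP} {stt : ℕ → ℕ → Option ℚ} {C T : Finset ℕ} {dm N : ℕ}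
    (h : WOk D P stt C T dm N) : WOk (D.res Al) P stt C T dm N where
  dep := h.dep
  δ := h.δ
  snap := h.snap
  rng := fun p hp j hj σ hσ z h1 h2 => h.rng p hp j.1 hj σ hσ z h1 h2

/-- `OmC` for the alive mates -/
def OmCA (D : Par Λ κ) (P : WP) (t : IT) (dm c sn pr B : ℕ) (R : ℕ → ℝ) (rp : ℕ → ℕ) (q : ℕ)
    (Al : Finset ℕ) : Prop :=
  ∀ x x' : ℝ, (∀ r ∈ t.items, r ∈ Al → rp r = rp q → ∀ e ∈ crit P dm sn (R r) r,
      ⌊(B : ℝ) * (((r / pr : ℕ) : ℝ) * x - sn * D.γ - e)⌋ =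
      ⌊(B : ℝ) * (((r / pr : ℕ) : ℝ) * x' - sn * D.γ - e)⌋) →
    ∀ j k M, D.it j ∈ t.items → D.it j ∈ Al → rp (D.it j) = rp q → D.it k = D.it j →
      alv D sn pr B x j M → alv D sn pr B x' k M →
      ∀ z : ℤ, z * B = M * ((c * mp t (D.it j) : ℕ) : ℤ) → D.om j z = D.om k z

/-- weights which depend on the item only -/
lemma OmCA.of_item {P : WP} {t : IT} {dm c sn pr B : ℕ} {R : ℕ → ℝ} {rp : ℕ → ℕ}
    {q : ℕ} (h : ∀ j k, D.it j = D.it k → D.om j = D.om k) :
    OmCA D P t dm c sn pr B R rp q Al :=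
  fun _ _ _ j k _ _ _ _ e _ _ z _ => by rw [h j k e.symm]

variable [Fintype Λ] [DecidableEq κ] [DecidableEq Λ]

/-- **`item_step` with hypotheses for the alive mates only** -/
theorem item_step_al (hdead : ∀ j, D.it j ∉ Al → ∀ a, D.om j a = 0)
    {P : WP} {stt : ℕ → ℕ → Option ℚ} {rtt : ℕ → ℕ → ℕ}
    {C : Finset ℕ} {dm b pr N y K V0 u NR q : ℕ} {R : ℕ → ℝ} {t : IT} (hC : Cov D R)
    (hom : ∀ j a, D.om j a ≤ 1)
    (hab : ∀ j, D.al j ≤ D.be j) (hw : Wld D P stt rtt C) (hρ : 0 < P.ρ₀) (hb : 0 < b)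
    (hF : Fit b pr t) (hW : D.Wts pr t) (hO : t.Ok N) (hy : y ≤ N) (hq : q ∈ t.items)
    (hqA : q ∈ Al)
    (ho : WOk D P stt C (subt y t q).items dm (mpc y t q * pml y * b))
    (hfine : ∀ j, (b : ℝ) * (D.be j - D.al j) * ((mpc y t q * pml y : ℕ) : ℝ) ≤ 1)
    (hcols : cols (subt y t q) ⊆ C)
    {rp : ℕ → ℕ} (hrp : ∀ p ∈ cols (subt y t q), ∀ q' ∈ (subt y t q).items,
      ∀ r ∈ (subt y t q).items, rtt p q' = rtt p r → rp q' = rp r)
    (hK : 0 < K) (hu : 0 < u) {v : ℕ → ℕ}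
    (hv : ∀ r ∈ (subt y t q).items, r ∈ Al → rp r = rp q → r / (pr * ppc y t q) = u * v r)
    (hV : ∀ r ∈ (subt y t q).items, r ∈ Al → rp r = rp q → v r ≤ V0)
    (hper : ∀ j, D.it j ∈ (subt y t q).items → D.it j ∈ Al → rp (D.it j) = rp q →
      ∀ a, D.om j (a + v (D.it j)) = D.om j a)
    (hR : ∀ r ∈ (subt y t q).items, r ∈ Al → rp r = rp q → 0 < R r ∧ (b : ℝ) * R r ≤ 1 / 2)
    (hNR : ((subt y t q).items.filter (fun r => r ∈ Al ∧ rp r = rp q)).card ≤ NR)
    (homc : OmCA D P (subt y t q) dm (mpc y t q) b (pr * ppc y t q) (mpc y t q * pml y) R rp q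
      Al) :
    ∃ κ' : ℕ → ℤ → ℝ, WFOk (b * R q) K (v q) (q / pr) (wl (b * R q) K)
        (fun i => wl (b * R q) K (i + 1)) κ' ∧
      (∀ x, Fq D b pr t 1 q x ≤ WF (b * D.γ) K (wl (b * R q) K) (fun i => wl (b * R q) K (i + 1))
        (q / pr) κ' x) ∧
      I (WF (b * D.γ) K (wl (b * R q) K) (fun i => wl (b * R q) K (i + 1)) (q / pr) κ') ≤
        I (Fq D b pr t 1 q) / prfc y t q +
          30 * NR * ((mpc y t q * pml y : ℕ) : ℝ) * (V0 : ℝ) ^ 2 * (2 ^ (dm + 2) + 1) * √K *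
            (2 * (b * R q) / (K * v q)) := by
  classical
  set rp' : ℕ → ℕ := fun r => if r ∈ Al then rp r + 1 else 0 with hrp'
  have key : ∀ r, rp' r = rp' q → r ∈ Al ∧ rp r = rp q := by
    intro r h
    simp only [hrp', if_pos hqA] at h
    by_cases hr : r ∈ Al
    · rw [if_pos hr] at h
      exact ⟨hr, Nat.add_right_cancel h⟩
    · rw [if_neg hr] at h
      omega
  rw [Fq_res D hdead hb hF hW 1 q]
  refine item_step (D := D.res Al) (P := P) (stt := stt) (rtt := rttA Al rtt) (C := C) (dm := dm)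
    (N := N) (u := u) (NR := NR) (rp := rp') hC.res (fun j a => hom j.1 a) (fun j => hab j.1)
    hw.res hρ hb hF (fun j hj => hW j.1 hj) hO hy hq ho.res (fun j => hfine j.1) hcols ?_ hK hu
    (fun r hr e => hv r hr (key r e).1 (key r e).2) (fun r hr e => hV r hr (key r e).1 (key r e).2)
    (fun j hj e => hper j.1 hj j.2 (key _ e).2) (fun r hr e => hR r hr (key r e).1 (key r e).2)
    ?_ ?_
  · intro p hp q' hq' r hr e
    unfold rttA at e
    simp only [hrp']
    by_cases h1 : q' ∈ Al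
    · by_cases h2 : r ∈ Al
      · rw [if_pos h1, if_pos h2] at e
        rw [if_pos h1, if_pos h2, hrp p hp q' hq' r hr (Nat.add_right_cancel e)]
      · rw [if_pos h1, if_neg h2] at e
        omega
    · by_cases h2 : r ∈ Al
      · rw [if_neg h1, if_pos h2] at e
        omega
      · rw [if_neg h1, if_neg h2]
  · refine le_trans (Finset.card_le_card fun r hr => ?_) hNR
    obtain ⟨h1, h2⟩ := Finset.mem_filter.1 hr
    exact Finset.mem_filter.2 ⟨h1, key r h2⟩
  · intro x x' hfl j k M hj hj2 ek a1 a2 z hz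
    refine homc x x' (fun r hr hrA hre e he => ?_) j.1 k.1 M hj j.2 (key _ hj2).2 ek a1 a2 z hz
    refine hfl r hr ?_ e he
    simp only [hrp', if_pos hrA, if_pos hqA, hre]

end

end Crest.Agent.R4P.Step588
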