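import Crest.Agent.R4P.StepDataD947
import Crest.Agent.R4P.StepExt546
import Crest.Agent.R4P.StepUV189
import Crest.Agent.R4P.Chi464b
import Crest.Agent.R4P.StepFlat588
import Crest.Agent.R4P.StepRes_6
import Crest.Agent.R4P.TagOkDef_6

/-!
R4 (S0004), powers pass: port of helper189's `R4/CtxItem189` (helper6), the facts at a node of a context.

* `NDt.fit`, `NDt.B_pos`, `NDt.wts`, `fl`.
* `ctx_step'` : everything at a cut of a node, `hdep` only for the columns of the cut tree; equal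
  worlds force equal common parts `X.fac.uc y` (`TagOk`).
-/

set_option autoImplicit false
set_option linter.unusedSectionVars false
set_option linter.unusedVariables false
open MeasureTheory Filter

namespace Crest.Agent.R4P.Step588

open Crest.Agent.R4.Tour104 Crest.Agent.R4.Tour758 Crest.Agent.R4.Avg758 Crest.Agent.R4.Clos758
open Crest.Agent.R4.ClosL758 Crest.Agent.R4.ClosG758 Crest.Agent.R4.Lam368
open Crest.Agent.R4.Piece464 Crest.Agent.R4.Fam464 Crest.Agent.R4P.Cnt588 Crest.Agent.R4P.Item758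
open Crest.Agent.R4P.W363 Crest.Agent.R4P.Data758
open Crest.Agent.R4P.Bld532 (NS All NodeOk Bk)
open Crest.Agent.R4P.Fac393 (Fac)
open Crest.Agent.R4P.Frame758

/-! ### nodes -/

section
variable {P : Bld532.Par} {W : ℕ → ℝ} {t' : IT} {u : NS} {τ : IT}

lemma NDt.fit (h : NDt P W t' u τ) : Fit u.B u.A τ :=
  Bld532.Fit_of_NodeOk (All.mono (fun _ _ hh => hh.node) h.all)

lemma NDt.B_pos (h : NDt P W t' u τ) : 0 < u.B := Nat.pos_of_ne_zero h.bk.sfB.ne_zero

lemma NDt.A_pos (h : NDt P W t' u τ) : 0 < u.A := h.bk.Apos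

/-- leaf weights of the tree are weights of the node -/
lemma NDt.wts {Λ κ : Type*} {D : Par Λ κ} (h : NDt P W t' u τ)
    (hW : ∀ j, D.it j ∈ t'.items → Wt (D.it j / pp t' (D.it j)) (D.om j)) : D.Wts u.A τ := by
  intro j hj
  rw [← h.self.pp _ hj]
  exact hW j (h.self.sub hj)

/-- the primes of the product of the present ties of a cut are `≥ y` -/
lemma NDt.A2_ge (h : NDt P W t' u τ) {y : ℕ} (hy : y < u.n) (q : ℕ) {l : ℕ} (hl : l.Prime)
    (hd : l ∣ u.A * ppc y τ q) : y ≤ l := by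
  rcases (Nat.Prime.dvd_mul hl).1 hd with h1 | h1
  · have := h.bk.geA l hl h1
    omega
  · exact Chi464.ppc_prime hl τ h.self.ok h1

/-- **equal retained parts: equal exponents of the primes `≥ y`** at the cut -/
lemma NDt.val_eq (h : NDt P W t' u τ) {n : ℕ} (hO : t'.Ok n) {y : ℕ} (hyn : y ≤ u.n) {q : ℕ}
    {p : ℕ} (hp : p ∈ cols (Step588.subt y τ q)) {r r' : ℕ}
    (hr : r ∈ (Step588.subt y τ q).items) (hr' : r' ∈ (Step588.subt y τ q).items)
    (e : W363.ret t' p r = W363.ret t' p r') {l : ℕ} (hl : l.Prime) (hyl : y ≤ l) :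
    r.factorization l = r'.factorization l := by
  obtain ⟨m, c', hm, h2⟩ := h.subt hyn q
  by_cases hlf : WalkIT579.isL (Step588.subt y τ q)
  · rw [cols_of_isL hlf] at hp; simp at hp
  have hty := tp_subt_lt y q τ hlf
  have hlm : m ≤ l := by
    rcases WalkIT579.prime_ge h2.self.node hlf hl (hty.le.trans hyl) with h6 | h6
    · omega
    · exact h6
  rw [h2.val hr hl hlm, h2.val hr' hl hlm]
  have h5 := h.rgh_eq hO hyn hp hr hr' e
  have h6 := h.uq_iff hO hyn hr hr' h5 hyl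
  by_cases h7 : l ∈ t'.uq r
  · rw [if_pos h7, if_pos (h6.1 h7)]
  · rw [if_neg h7, if_neg fun h8 => h7 (h6.2 h8)]

end

/-! ### contexts -/

section ctx
open Crest.Agent.R4P.Skel189
open Crest.Agent.R4.Soft104 (w)

variable {N : Skel189.Num} {γ : ℝ} {p0 P₀ : ℕ} {X : Ctx N γ p0 P₀} {u : NS} {τ : IT}

/-- the item family with the weights `f` -/
noncomputable abbrev fl (X : Ctx N γ p0 P₀) (Y : Finset (ℕ × ℕ × Finset ℕ))
    (f : X.c.Lam → ℤ → ℝ) : Par X.c.Lam (Lb (WL X.c.Lam) Y) := (X.c.D.par Y).flat f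

/-- `PV (top S) ≤ Kc S` -/
lemma PV_le_Kc (X : Ctx N γ p0 P₀) : X.fac.PV (top X.S) ≤ Kc X.S := by
  have h1 := X.fac.size (top X.S) (one_le_top X.S)
  refine h1.trans ?_
  unfold Kc
  exact Nat.le_mul_of_pos_left _ (Finset.prod_pos fun i hi => (Finset.mem_Icc.1 hi).1)

/-- everything at a cut of a node, `hdep` only for the columns of the cut tree -/
theorem ctx_step' (hT : TagOk X) (h : NDt X.par (w X.ψ) X.c.t u τ)
    (Y : Finset (ℕ × ℕ × Finset ℕ)) {y dm : ℕ}
    (hy : y < u.n) (hyt : y ≤ top X.S) {q : ℕ} (hq : q ∈ τ.items)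
    (hdep : ∀ p ∈ cols (subt y τ q), X.c.wp.dep p ≤ dm)
    (hd1 : X.c.d1 * Kc X.S ≤ 1) :
    Wld (X.c.D.par Y) X.c.wp X.c.st X.c.rtg (cols (subt y τ q)) ∧
    WOk (X.c.D.par Y) X.c.wp X.c.st (cols (subt y τ q))
      (subt y τ q).items dm ((mpc y τ q * X.fac.PV y) * u.B) ∧
    (∀ j, (u.B : ℝ) * ((X.c.D.par Y).be j - (X.c.D.par Y).al j) *
      ((mpc y τ q * X.fac.PV y : ℕ) : ℝ) ≤ 1) ∧
    ∀ p ∈ cols (subt y τ q), ∀ r ∈ (subt y τ q).items, ∀ r' ∈ (subt y τ q).items,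
      X.c.rtg p r = X.c.rtg p r' →
        X.fac.uc y (r / (u.A * ppc y τ q)) = X.fac.uc y (r' / (u.A * ppc y τ q)) := by
  have hcl : ∀ p ∈ cols (subt y τ q), p < y := fun p hp =>
    (cols_lt _ (Ok_subt y τ q h.self.ok hy.le) p hp).2
  have hC : ∀ p ∈ cols (subt y τ q), p ≤ top X.S := fun p hp => (hcl p hp).le.trans hyt
  have hN : (mpc y τ q * X.fac.PV y) * u.B ≤ Kc X.S :=
    (Nat.le_of_dvd (X.fac.PV0 _) (ctx_N_dvd h hy.le hyt hq)).trans (PV_le_Kc X)
  refine ⟨data_Wld X.ok Y hC, data_WOk X.ok Y X.fine hC ?_ hdep hN,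
    fun j => data_fine X.ok Y ?_ j, ?_⟩
  · intro r hr
    have h1 := h.self.sub (subt_items y τ q hr)
    rw [X.items] at h1
    rw [X.hS]; exact h1
  · have hd0 : 0 < X.c.d1 := by rw [X.d1]; exact N.hd1 p0 X.ψ X.S
    have h1 : (((mpc y τ q * X.fac.PV y) * u.B : ℕ) : ℝ) ≤ Kc X.S := by exact_mod_cast hN
    have h2 : (u.B : ℝ) * X.c.d1 * ((mpc y τ q * X.fac.PV y : ℕ) : ℝ) =
        X.c.d1 * (((mpc y τ q * X.fac.PV y) * u.B : ℕ) : ℝ) := by push_cast; ring
    rw [h2]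
    exact (mul_le_mul_of_nonneg_left h1 hd0.le).trans hd1
  · intro p hp r hr r' hr' e
    have e3 : W363.ret X.c.t p r = W363.ret X.c.t p r' := X.c.rtg_ret p r r' e
    have e4 : X.c.tg p r = X.c.tg p r' := X.c.rtg_tg p r r' e
    obtain ⟨m, c', -, h2⟩ := h.subt hy.le q
    have mS : ∀ a ∈ (subt y τ q).items, a ∈ X.S := fun a ha => by
      have h1 := h.self.sub (subt_items y τ q ha)
      rwa [X.items] at h1
    have d1 : u.A * ppc y τ q ∣ r := h2.bk.dvd r hr
    have d2 : u.A * ppc y τ q ∣ r' := h2.bk.dvd r' hr'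
    refine hT.uc (hcl p hp) hyt (mS r hr) (mS r' hr') d1 d2
      (fun l hl hd => h.A2_ge hy q hl hd) (fun l hl hly => ?_) e4
    rw [Nat.factorization_div d1, Nat.factorization_div d2, Finsupp.tsub_apply,
      Finsupp.tsub_apply, h.val_eq X.tOk hy.le hp hr hr' e3 hl hly]

end ctx

end Crest.Agent.R4P.Step588
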