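import Crest.Agent.R4P.StepItem2F_6
import Crest.Agent.R4P.CtxItem_6

/-!
R4 (S0004), powers pass: port of the second half of helper588's `R4/StepItem2F588` (helper6):
**the majorant of an item of a context**, for any function below the item sum of the cut of a flat
family, with the common parts `Fac.uc y` as classes of mates.
-/

set_option autoImplicit false
set_option linter.unusedSectionVars false
set_option linter.unusedVariables false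
open MeasureTheory Filter

namespace Crest.Agent.R4P.Step588

open Crest.Agent.R4.Tour104 Crest.Agent.R4.Tour758 Crest.Agent.R4.Avg758 Crest.Agent.R4.Clos758
open Crest.Agent.R4.ClosL758 Crest.Agent.R4.ClosG758 Crest.Agent.R4.Lam368
open Crest.Agent.R4.Piece464 Crest.Agent.R4.Fam464 Crest.Agent.R4P.Cnt588 Crest.Agent.R4P.Item758
open Crest.Agent.R4P.W363 Crest.Agent.R4P.Data758
open Crest.Agent.R4P.Bld532 (NS All NodeOk Bk)
open Crest.Agent.R4P.Fac393 (Fac)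
open Crest.Agent.R4P.Frame758

section ctx
open Crest.Agent.R4P.Skel189
open Crest.Agent.R4.Soft104 (w)

variable {N : Skel189.Num} {γ : ℝ} {p0 P₀ : ℕ} {X : Ctx N γ p0 P₀} {u : NS} {τ : IT}

/-- `pml y ∣ PV y` -/
lemma pml_dvd_PV (Fc : Fac) (y : ℕ) : pml y ∣ Fc.PV y :=
  (Dvd.intro_left _ rfl).trans (Fc.vdvd (w := 1) one_ne_zero (dvd_refl (pml y)))

/-- `vc y w ∣ PV y` -/
lemma vc_dvd_PV (Fc : Fac) {y w : ℕ} (hw : w ≠ 0) : Fc.vc y w ∣ Fc.PV y :=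
  (Dvd.intro _ rfl).trans (Fc.vdvd hw (one_dvd (pml y)))

/-- **mates have the same `uN`** (factorisations `Fac`) -/
theorem ndt_uN_eq {P : Bld532.Par} {W : ℕ → ℝ} {t' : IT} {u : NS} {τ : IT} (Fc : Fac)
    (h : NDt P W t' u τ) {n : ℕ} (hO : t'.Ok n) {y : ℕ} (hyn : y ≤ u.n)
    (E : ℕ → Prop) {q r r' : ℕ} (hr : r ∈ (Step588.subt y τ q).items)
    (hr' : r' ∈ (Step588.subt y τ q).items)
    (e : Fc.uc y (r / (u.A * ppc y τ q)) = Fc.uc y (r' / (u.A * ppc y τ q))) :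
    uN (Fc.uc y) t' y E (u.A * ppc y τ q) r = uN (Fc.uc y) t' y E (u.A * ppc y τ q) r' := by
  classical
  have h1 := h.cut_ne hyn hr
  have h2 := h.cut_ne hyn hr'
  have e2 := rgh_of_uc (y := y) h1 h2 (Fc.mul y _ h1) (Fc.mul y _ h2)
    (fun b hb hyb hd => Fc.dvdu h1 hb hyb hd) (fun b hb hyb hd => Fc.dvdu h2 hb hyb hd) e
  unfold uN sP
  rw [e]
  congr 1
  refine Finset.prod_congr ?_ fun _ _ => rfl
  ext l
  simp only [Finset.mem_filter]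
  constructor
  · rintro ⟨a1, a2, a3⟩
    exact ⟨(h.uq_iff hO hyn hr hr' e2 a2).1 a1, a2, a3⟩
  · rintro ⟨a1, a2, a3⟩
    exact ⟨(h.uq_iff hO hyn hr hr' e2 a2).2 a1, a2, a3⟩

/-- **hv of `item_step`** (factorisations `Fac`) -/
theorem ndt_uv {P : Bld532.Par} {W : ℕ → ℝ} {t' : IT} {u : NS} {τ : IT} (Fc : Fac)
    (h : NDt P W t' u τ) {n : ℕ} (hO : t'.Ok n) {y : ℕ} (hyn : y ≤ u.n)
    (E : ℕ → Prop) {q r : ℕ} (hq : q ∈ τ.items) (hr : r ∈ (Step588.subt y τ q).items)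
    (e : Fc.uc y (r / (u.A * ppc y τ q)) = Fc.uc y (q / (u.A * ppc y τ q))) :
    r / (u.A * ppc y τ q) =
      uN (Fc.uc y) t' y E (u.A * ppc y τ q) q * vN (Fc.vc y) t' y E (u.A * ppc y τ q) r := by
  rw [← ndt_uN_eq Fc h hO hyn E hr (mem_subt y τ hq) e]
  exact (uN_mul_vN hO (Fc.mul y _ (h.cut_ne hyn hr)) (h.uq_dvd_uc hO hyn hr
    fun b hb hyb hd => Fc.dvdu (h.cut_ne hyn hr) hb hyb hd)).symm

/-- **THE MAJORANT OF AN ITEM OF A CONTEXT**, any function below the item sum of the cut of the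
flat family -/
theorem ctx_itemF (hT : TagOk X) (h : NDt X.par (w X.ψ) X.c.t u τ)
    (Y : Finset (ℕ × ℕ × Finset ℕ)) {y dm K V0 : ℕ}
    (hy : y < u.n) (hyt : y ≤ top X.S) {q : ℕ} (hq : q ∈ τ.items)
    (hdep : ∀ p ∈ cols (subt y τ q), X.c.wp.dep p ≤ dm)
    (hd1 : X.c.d1 * Kc X.S ≤ 1) (hqS : q ∈ X.S')
    {f : X.c.Lam → ℤ → ℝ} (hf0 : ∀ j : X.c.Lam, j.1.1 ∉ X.S' → ∀ a, f j a = 0)
    (hf1 : ∀ j a, f j a ≤ 1) (hfW : ∀ j : X.c.Lam, Wt (j.1.1 / pp X.c.t j.1.1) (f j))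
    (E : ℕ → Prop)
    (hper : ∀ j : X.c.Lam, j.1.1 ∈ (subt y τ q).items → j.1.1 ∈ X.S' →
      X.fac.uc y (j.1.1 / (u.A * ppc y τ q)) = X.fac.uc y (q / (u.A * ppc y τ q)) →
      ∀ a, f j (a + vN (X.fac.vc y) X.c.t y E (u.A * ppc y τ q) j.1.1) = f j a)
    (hK : 0 < K)
    (hV : ∀ r ∈ (subt y τ q).items, r ∈ X.S' →
      X.fac.uc y (r / (u.A * ppc y τ q)) = X.fac.uc y (q / (u.A * ppc y τ q)) →
      vN (X.fac.vc y) X.c.t y E (u.A * ppc y τ q) r ≤ V0) {E0 : ℝ} (hE0 : 1 / 2 ≤ E0)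
    (hR : ∀ r ∈ (subt y τ q).items, r ∈ X.S' →
      X.fac.uc y (r / (u.A * ppc y τ q)) = X.fac.uc y (q / (u.A * ppc y τ q)) →
      (u.B : ℝ) * X.c.rr r ≤ E0)
    (homc : OmCA (fl X Y f) X.c.wp (subt y τ q) dm (mpc y τ q) u.B (u.A * ppc y τ q)
      (mpc y τ q * X.fac.PV y) X.c.rr (fun r => X.fac.uc y (r / (u.A * ppc y τ q))) q X.S')
    {F : ℝ → ℝ} (hFle : ∀ x, F x ≤ Fq (fl X Y f) (u.B * mpc y τ q) (u.A * ppc y τ q)
      (subt y τ q) (mpc y τ q) q ((ppc y τ q : ℕ) * x)) :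
    IZ2 F (u.B * X.c.rr q) K (vN (X.fac.vc y) X.c.t y E (u.A * ppc y τ q) q)
      (q / u.A) (u.B * X.c.γ)
      (I (Fq (fl X Y f) u.B u.A τ 1 q) / prfc y τ q +
          60 * E0 * (X.fac.PV y : ℕ) * ((mpc y τ q * X.fac.PV y : ℕ) : ℝ) * (V0 : ℝ) ^ 2 *
            (2 ^ (dm + 2) + 1) * √K *
            (2 * (3 * (u.B * X.c.rr q)) /
              (K * vN (X.fac.vc y) X.c.t y E (u.A * ppc y τ q) q))) (2 * E0) := by
  classical
  obtain ⟨h1, h2, h3, h4⟩ := ctx_step' hT h Y hy hyt hq hdep hd1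
  have hab : ∀ j, (fl X Y f).al j ≤ (fl X Y f).be j := fun j =>
    X.ok.bpm _ (Cf.mem_S j) (Cf.r_pos j) (Nat.le_succ _)
  have hrr : ∀ r, 0 < X.c.rr r := fun r => by
    unfold Cf.rr; split_ifs with hr
    · exact hr
    · exact one_pos
  have hW : (fl X Y f).Wts u.A τ := h.wts (D := fl X Y f) fun j _ => hfW j
  have hmul : ∀ w, w ≠ 0 → X.fac.uc y w * X.fac.vc y w = w := fun w hw => X.fac.mul y w hw
  have hqn := h.cut_ne hy.le (mem_subt y τ hq)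
  refine item_step2F_al (D := fl X Y f) (Al := X.S') hf0 (P := X.c.wp)
    (stt := X.c.st)
    (rtt := X.c.rtg) (C := cols (subt y τ q)) (dm := dm) (N := u.n)
    (u := uN (X.fac.uc y) X.c.t y E (u.A * ppc y τ q) q) (NR := X.fac.PV y) (PV := X.fac.PV y)
    (K := K) (V0 := V0)
    (rp := fun r => X.fac.uc y (r / (u.A * ppc y τ q)))
    (v := vN (X.fac.vc y) X.c.t y E (u.A * ppc y τ q)) (X.fac.PV0 y) (pml_dvd_PV X.fac y)
    (ctx_Cov X Y).flat hf1 hab h1.flat X.fine.ρ0 h.B_pos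
    h.fit hW h.self.ok hy.le hq hqS h2.flat h3 (Finset.Subset.refl _) h4 hK
    (uN_pos X.tOk (hmul _ hqn) (h.uq_dvd_uc X.tOk hy.le (mem_subt y τ hq)
      fun b hb hyb hd => X.fac.dvdu hqn hb hyb hd) hqn)
    (fun r hr _ e => ndt_uv X.fac h X.tOk hy.le E hq hr e)
    (fun r hr hrS e => hV r hr hrS e) (fun j hj hjS e => hper j hj hjS e) hE0
    (fun r hr hrS e => ⟨hrr r, hR r hr hrS e⟩) ?_ homc hFle
  · refine le_trans (Finset.card_le_card fun r hr => ?_) (h.card_mates hy.le q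
      (X.fac.uc y (q / (u.A * ppc y τ q))) (X.fac.PV0 y) hmul
      (fun r hr => vc_dvd_PV X.fac (h.cut_ne hy.le hr)))
    obtain ⟨a1, a2⟩ := Finset.mem_filter.1 hr
    exact Finset.mem_filter.2 ⟨a1, a2.2⟩

end ctx

end Crest.Agent.R4P.Step588
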