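import Crest.Agent.R4P.CzE_36
import Crest.Agent.R4P.PayA_26

/-!
R4P (S0004), helper36, group [X]: **the bound of the crossing states of a context**.

* `XDc` : the bounds of helper25 (`ctx_XD`) for one context;
* `IFc` : two-sided bound of the own term;
* `NC` : numeric facts of a column;
* `cbx_of` : **`CBX`** for one context.
-/

set_option autoImplicit false
set_option linter.unusedSectionVars false
set_option linter.unusedVariables false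
open Finset

namespace Crest.Agent.R4P.CzBX36

open Crest.Agent.R4.Tour104 Crest.Agent.R4.Tour758 Crest.Agent.R4.Avg758 Crest.Agent.R4.Clos758
open Crest.Agent.R4.ClosL758 Crest.Agent.R4.ClosG758 Crest.Agent.R4.ClosR758
open Crest.Agent.R4.Fam464 Crest.Agent.R4P.Cnt588 Crest.Agent.R4P.Walk560 Crest.Agent.R4.Piece464
open Crest.Agent.R4P.Item758 Crest.Agent.R4P.AvgItem710
open Crest.Agent.R4P.Data758 Crest.Agent.R4P.WalkIT579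
open Crest.Agent.R4P.Bld532 (NS All NodeOk Bk)
open Crest.Agent.R4P.Res927 Crest.Agent.R4P.GSt927
open Crest.Agent.R4P.Skel189 (Ctx top Part PartW)
open Crest.Agent.R4.Soft104
open Crest.Agent.R4P.CrsFacts26 Crest.Agent.R4P.AsmX26
open Crest.Agent.R4P.StratN36 (ex)
open Crest.Agent.R4.AvgItem710 (rf)
open Crest.Agent.R4.CrossShot709 (lev)
open Crest.Agent.R4P.ClsCtx36 Crest.Agent.R4P.PotSum32 Crest.Agent.R4P.ClsSh36 Crest.Agent.R4P.TotC36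
open Crest.Agent.R4.CrossLoc709 (SE)
open Crest.Agent.R4.NMW710 (Dq ESI)
open Crest.Agent.R4.ClsS (eps1)
open Crest.Agent.R4.ShotG223 (eps2 acc acc_nonneg)
open Crest.Agent.R4P.AccAl31 (alX)
open Crest.Agent.R4P.ShotBig33 (BoxB)
open Crest.Agent.R4P.EqNum32 (BoxE)
open Crest.Agent.R4P.KindPay36 (CO CW offS eqS)
open Crest.Agent.R4P.KindTab36 (cm)
open Crest.Agent.R4P.EqLeaf26 (CE2)
open Crest.Agent.R4P.PayK26 (xm CBd)
open Crest.Agent.R4P.PayA26 (CBX)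
open Crest.Agent.R4P.Dd26 (dd)
open Crest.Agent.R4P.CzSum36 Crest.Agent.R4P.CzTot36 Crest.Agent.R4P.CzCO36 Crest.Agent.R4P.CzE36
open Crest.Agent.R4P.YI25 (pot potS Ep)
open Crest.Agent.R4P.LocX25 (TOT0 payZ payZ' iFs QX TX)
open Crest.Agent.R4P.VNum34 (US)
open Crest.Agent.R4P.CopM34 (Cop)
open Crest.Agent.R4P.CrossLoc25 (Dsc)
open Crest.Agent.R4P

lemma CE2_monoC {b : ℕ} {C C' K₁ s₁ s₂ : ℝ} {tw x y : ℕ → ℝ} {φ : ℕ → ℕ → ℝ}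
    (h : CE2 b C K₁ s₁ s₂ tw x y φ) (hb : 1 ≤ Real.log b) (hC : C ≤ C') : CE2 b C' K₁ s₁ s₂ tw x y φ where
  x0 := h.x0
  y0 := h.y0
  le := fun i => by
    have hx := h.x0 i
    have hy := h.y0 i
    have e : (Real.log b)^C ≤ (Real.log b)^C' := Real.rpow_le_rpow_of_exponent_le hb hC
    refine (h.le i).trans (add_le_add ?_ le_rfl)
    gcongr
  tx := h.tx

/-- numeric facts of a column -/
structure NC (CT : ℝ) (s₁ : ℕ) (K Kf : ℝ) (b : ℕ) : Prop where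
  s1 : s₁ ≤ b
  sl : (200 * Real.log b)^(3:ℝ) ≤ (b:ℝ)^(1:ℝ)
  l23 : 23 ≤ Real.log b
  lK : 5 * (K + Kf) + 4 * Kf ≤ Real.log b
  b24 : 2 ^ 24 ≤ b
  tx : TX b ≤ (Real.log b)^CT

section ctx
variable {N : Skel189.Num} {γ : ℝ} {p0 P₀ : ℕ} {X : Ctx N γ p0 P₀} {j₀ : X.c.Lam} {Q' : NS → IT → Prop}

/-- **the bounds of the crossing states of a context** (helper25) -/
def XDc (X : Ctx N γ p0 P₀) (j₀ : X.c.Lam) (Q' : NS → IT → Prop) (B₁ K Kf Kt : ℝ) : Prop :=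
  ∀ (b : ℕ) (z : X.Sta) (v v' : NS) (σ σ' : IT), CZ X j₀ Q' b z v v' σ σ' →
      z.R = Ro ((X.c.D.par X.Y).rho b) →
      ∑ l ∈ US z.M z.M' b, 1 / (l : ℝ) ≤ (b : ℝ) ^ (-(1 / 3) : ℝ) → Cop z →
      (Xs (X.tm j₀) B₁ z ≤ PayV29.Vz z + ∑ e ∈ Ep (X.c.D.par X.Y) X.S' z σ σ',
        CzTot36.TOT X (QE X j₀ Q') (TX b) 3 2 b z v v' σ σ' e) ∧
      (Dd26.dd z.t → ¬ Dd26.dd z.t' → ∀ TW : ℕ × ℕ → Prop,
        (∀ e, TW e → Dsc (X.c.rr e.1) (X.c.rr e.2) (SE z.M v.B v.A z.M' v'.B v'.A e) ≤ 1 / 2) →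
        Xs (X.tm j₀) B₁ z ≤ ∑ e ∈ Ep (X.c.D.par X.Y) X.S' z σ σ',
          payZ X (QE X j₀ Q') TW (TX b) (K + Kf) Kf Kt b z v v' σ σ' e) ∧
      (Dd26.dd z.t' → ¬ Dd26.dd z.t → ∀ TW : ℕ × ℕ → Prop,
        (∀ e, TW e → Dsc (X.c.rr e.1) (X.c.rr e.2) (SE z.M v.B v.A z.M' v'.B v'.A e) ≤ 1 / 2) →
        Xs (X.tm j₀) B₁ z ≤ ∑ e ∈ Ep (X.c.D.par X.Y) X.S' z σ σ',
          payZ' X (QE X j₀ Q') TW (TX b) (K + Kf) Kf Kt b z v v' σ σ' e)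

/-- **the own term of a pair**, two-sided -/
def IFc (X : Ctx N γ p0 P₀) (j₀ : X.c.Lam) (Q' : NS → IT → Prop) : Prop :=
  ∀ (b : ℕ) (z : X.Sta) (v v' : NS) (σ σ' : IT), CZ X j₀ Q' b z v v' σ σ' →
    (∀ e, 0 ≤ iFs X z v v' σ σ' e) ∧ ∀ e ∈ SI X σ.items ×ˢ SI X σ'.items,
      Dsc (X.c.rr e.1) (X.c.rr e.2) (SE z.M v.B v.A z.M' v'.B v'.A e) ≤ 1 / 2 →
      iFs X z v v' σ σ' e ≤ 4 * (v.c * w X.ψ e.1 / (rf (e.2 / v'.A) z.M' : ℝ)) ∧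
      iFs X z v v' σ σ' e ≤ 4 * (v'.c * w X.ψ e.2 / (rf (e.1 / v.A) z.M : ℝ))

set_option maxHeartbeats 1000000 in
/-- **`CBX` OF A CONTEXT** -/
theorem cbx_of {B₁ K Kf Kt CL C CT cl cl' A KB KB' KE Cm Ce CO' : ℝ} {s₁ : ℕ}
    (hbox : Box (C+1) CT cl CL s₁ KB) (hboxB : BoxB (C+1) CT cl CL s₁ KB')
    (hboxF : BoxE False (C+1) cl' CL s₁ KE) (hboxT : BoxE True (C+1) cl' CL s₁ KE)
    (hK : 0 ≤ K) (hKf : 0 ≤ Kf) (hKt : 0 ≤ Kt) (hA : 0 ≤ A) (hKE : 0 ≤ KE) (hCm : 1 ≤ Cm) (hCC : C = Cm + 1)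
    (hCe : Ce = KE + Cm + 5) (hCO : max (KB + A*(6/1000) + 3) (KB' + 1) + 1 ≤ CO')
    (hXD : XDc X j₀ Q' B₁ K Kf Kt) (hIF : IFc X j₀ Q')
    (hNC : ∀ b : ℕ, p0 < b → NC CT s₁ K Kf b)
    (hCF : ∀ (b : ℕ) (z : X.Sta) (v v' : NS) (σ σ' : IT), CZ X j₀ Q' b z v v' σ σ' → CF X CL b z v v' σ σ')
    (hNm : ∀ b : ℕ, p0 < b → b ≤ top X.S → Nm X (QE X j₀ Q') cl b ∧ Nm X (QE X j₀ Q') cl' b)
    (hρ : ∀ q, 0 < X.c.rr q)
    (hm : ∀ q ∈ X.S', ∑ l ∈ X.c.t.mt q, (l:ℝ)^(-(11/12):ℝ) ≤ 1)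
    (hmn : ∀ b : ℕ, p0 < b → ∀ q ∈ X.S', (((X.c.t.mt q).filter (· ≤ b)).card : ℝ) ≤ (Real.log b)^Cm) :
    CBX X j₀ Q' B₁ CO' Ce (2 * (4 + Kt)) (1/2+eps1) (1/2+eps2) (alX A γ (1/(1-(1/2+eps2)))) := by
  classical
  intro b z v v' σ σ' hz hbt hcop hR hs
  have hb0 := hz.b0
  obtain ⟨s1, sl, l23, lK, b24, htx⟩ := hNC b hb0
  have hl8 : 8 ≤ Real.log b := by linarith
  have hl1 : 1 ≤ Real.log b := by linarith
  obtain ⟨n1, n2⟩ := hNm b hb0 hbt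
  have hC := hCF b z v v' σ σ' hz
  have hc : 0 ≤ v.c := hz.L.q.self.nf.c0.le
  have hc' : 0 ≤ v'.c := hz.R.q.self.nf.c0.le
  have hmb := hmn b hb0
  obtain ⟨x1, x2, x3⟩ := hXD b z v v' σ σ' hz hR hs hcop
  obtain ⟨i0, i1⟩ := hIF b z v v' σ σ' hz
  have hV := PayA26.CZ.vz hz
  have hmin : z.M.factorization b = 0 ∨ z.M'.factorization b = 0 := by
    by_contra hne
    have hne' := not_or.1 hne
    have d1 : b ∣ z.M := (Nat.dvd_of_factorization_pos hne'.1)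
    have d2 : b ∣ z.M' := (Nat.dvd_of_factorization_pos hne'.2)
    exact hz.bp.one_lt.ne' (Nat.dvd_one.1 (by
      have := Nat.dvd_gcd d1 d2
      rwa [Nat.Coprime.gcd_eq_one hcop] at this))
  obtain ⟨n, hsum⟩ := sum_blkE b v.B v'.B (SI X σ.items) (SI X σ'.items)
  -- constants
  have hCm0 : 0 ≤ Cm := by linarith
  have hL0 : (0:ℝ) ≤ (Real.log b)^Cm := Real.rpow_nonneg (by linarith) _
  have a1 : 0 ≤ KAx 3 2 ((Real.log b)^Cm) b := KAx_nonneg (by norm_num) (by norm_num) hL0 b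
  have a2 : KAx 3 2 ((Real.log b)^Cm) b ≤ (Real.log b)^C := by
    rw [hCC]; exact KAx_le (by norm_num) (by norm_num) hCm (by linarith) hl1
  have a3 : 0 ≤ KAx (K + Kf) Kf ((Real.log b)^Cm) b := KAx_nonneg (by linarith) hKf hL0 b
  have a4 : KAx (K + Kf) Kf ((Real.log b)^Cm) b ≤ (Real.log b)^C := by
    rw [hCC]; exact KAx_le (by linarith) hKf hCm lK hl1
  have a5 : (3:ℝ) ≤ (Real.log b)^C := by
    calc (3:ℝ) ≤ Real.log b := by linarith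
      _ = (Real.log b)^(1:ℝ) := (Real.rpow_one _).symm
      _ ≤ _ := Real.rpow_le_rpow_of_exponent_le hl1 (by linarith)
  have hK1 : 1 ≤ KE + Cm + 4 := by linarith
  -- the pairs `[E]`
  have iL : ∀ e ∈ SI X σ.items ×ˢ SI X σ'.items, EE X b z v v' e →
      iFs X z v v' σ σ' e ≤ 4 * (v.c * w X.ψ e.1 / (rf (e.2 / v'.A) z.M' : ℝ)) := fun e he hE =>
    (i1 e he (DscE32.Dsc_of_ESI hE.2)).1
  have iR : ∀ e ∈ SI X σ.items ×ˢ SI X σ'.items, EE X b z v v' e →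
      iFs X z v v' σ σ' e ≤ 4 * (v'.c * w X.ψ e.2 / (rf (e.1 / v.A) z.M : ℝ)) := fun e he hE =>
    (i1 e he (DscE32.Dsc_of_ESI hE.2)).2
  have t0 : ∀ e ∈ SI X σ.items ×ˢ SI X σ'.items, TOT0 X (QE X j₀ Q') (TX b) (K + Kf) Kf b z v v' σ σ' e ≤
      KAx (K + Kf) Kf ((Real.log b)^Cm) b * ((v.B:ℝ) * v'.B * Uz X (QE X j₀ Q') (TX b) b z v v' e) := fun e he =>
    tot0_le hz hρ (by linarith) hKf he hmb
  have t0n : ∀ e, 0 ≤ TOT0 X (QE X j₀ Q') (TX b) (K + Kf) Kf b z v v' σ σ' e := fun e =>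
    TOT0_nonneg hρ (by linarith) hKf e
  have hWn := X.hW
  have m1n : ∀ e : ℕ × ℕ, 0 ≤ Kt * (v.c * w X.ψ e.1 / (rf (e.2 / v'.A) z.M' : ℝ)) := fun e =>
    mul_nonneg hKt (div_nonneg (mul_nonneg hc (hWn _)) (Nat.cast_nonneg _))
  have m2n : ∀ e : ℕ × ℕ, 0 ≤ Kt * (v'.c * w X.ψ e.2 / (rf (e.1 / v.A) z.M : ℝ)) := fun e =>
    mul_nonneg hKt (div_nonneg (mul_nonneg hc' (hWn _)) (Nat.cast_nonneg _))
  by_cases hD : (dd z.t ∧ ¬ dd z.t') ∧ ¬ b ∣ v.B ∧ ¬ b ∣ v'.B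
  · -- a dead left side
    obtain ⟨⟨hd, hnd⟩, hbB, hbB'⟩ := hD
    set F : ℕ × ℕ → ℝ := pay (EE X b z v v') (iFs X z v v' σ σ')
      (fun e => Kt * (v.c * w X.ψ e.1 / (rf (e.2 / v'.A) z.M' : ℝ)))
      (TOT0 X (QE X j₀ Q') (TX b) (K + Kf) Kf b z v v' σ σ') with hF
    have k1 := cz_payCO (A := A) (iF := iFs X z v v' σ σ')
      (m := fun e => Kt * (v.c * w X.ψ e.1 / (rf (e.2 / v'.A) z.M' : ℝ)))
      hbox hboxB s1 sl hl8 hA hz hC n1 hρ hc hc' htx a3 a4 hm t0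
    have k2 := cz_payCW (m := fun e => Kt * (v.c * w X.ψ e.1 / (rf (e.2 / v'.A) z.M' : ℝ)))
      hboxF s1 hl8 hz hC hmin n2 hρ hc hc' htx a3 a4 hCm0 b24 hK1 hm hmb t0 i0 iL iR
    obtain ⟨tw, k3⟩ := cz_payCE (Kt := Kt) (m := fun e => Kt * (v.c * w X.ψ e.1 / (rf (e.2 / v'.A) z.M' : ℝ)))
      hboxT s1 hl8 hz hC hmin n2 hρ hc hc' htx a3 a4 hbB hbB' b24 hKt t0 i0 m1n iL (fun e => le_rfl)
    refine ⟨n, blkE b v.B v'.B (SI X σ.items) (SI X σ'.items) F, CO_monoC k1 hl1 hCO (fun _ _ => le_rfl),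
      CW_monoC k2 hl1 (by linarith), fun _ _ _ => ⟨tw, CE2_monoC k3 hl1 (by linarith)⟩,
      fun hd' _ _ => absurd hd hd'.2, ?_⟩
    rw [← hsum F]
    have key := x2 hd hnd (fun e => EE X b z v v' e ∧
      Kt * (v.c * w X.ψ e.1 / (rf (e.2 / v'.A) z.M' : ℝ)) ≤ TOT0 X (QE X j₀ Q') (TX b) (K + Kf) Kf b z v v' σ σ' e)
      (fun e he => DscE32.Dsc_of_ESI he.1.2)
    have e1 : ∀ e, payZ X (QE X j₀ Q') (fun e => EE X b z v v' e ∧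
      Kt * (v.c * w X.ψ e.1 / (rf (e.2 / v'.A) z.M' : ℝ)) ≤ TOT0 X (QE X j₀ Q') (TX b) (K + Kf) Kf b z v v' σ σ' e)
      (TX b) (K + Kf) Kf Kt b z v v' σ σ' e = F e := fun e => by
      rw [hF]
      unfold LocX25.payZ CzE36.pay
      by_cases hw : (fun e => EE X b z v v' e ∧
        (fun e => Kt * (v.c * w X.ψ e.1 / (rf (e.2 / v'.A) z.M' : ℝ))) e ≤ TOT0 X (QE X j₀ Q') (TX b) (K + Kf) Kf b z v v' σ σ' e) e
      · exact (if_pos hw).trans (if_pos hw).symm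
      · exact (if_neg hw).trans (if_neg hw).symm
    rw [Finset.sum_congr rfl fun e _ => e1 e] at key
    have h5 : ∑ e ∈ Ep (X.c.D.par X.Y) X.S' z σ σ', F e ≤ ∑ e ∈ SI X σ.items ×ˢ SI X σ'.items, F e :=
      Finset.sum_le_sum_of_subset_of_nonneg Ep_sub fun e _ _ => pay_nonneg (i0 e) (m1n e) (t0n e)
    linarith
  by_cases hD' : (dd z.t' ∧ ¬ dd z.t) ∧ ¬ b ∣ v.B ∧ ¬ b ∣ v'.B
  · -- a dead right side
    obtain ⟨⟨hd, hnd⟩, hbB, hbB'⟩ := hD'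
    set F : ℕ × ℕ → ℝ := pay (EE X b z v v') (iFs X z v v' σ σ')
      (fun e => Kt * (v'.c * w X.ψ e.2 / (rf (e.1 / v.A) z.M : ℝ)))
      (TOT0 X (QE X j₀ Q') (TX b) (K + Kf) Kf b z v v' σ σ') with hF
    have k1 := cz_payCO (A := A) (iF := iFs X z v v' σ σ')
      (m := fun e => Kt * (v'.c * w X.ψ e.2 / (rf (e.1 / v.A) z.M : ℝ)))
      hbox hboxB s1 sl hl8 hA hz hC n1 hρ hc hc' htx a3 a4 hm t0
    have k2 := cz_payCW (m := fun e => Kt * (v'.c * w X.ψ e.2 / (rf (e.1 / v.A) z.M : ℝ)))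
      hboxF s1 hl8 hz hC hmin n2 hρ hc hc' htx a3 a4 hCm0 b24 hK1 hm hmb t0 i0 iL iR
    obtain ⟨tw, k3⟩ := cz_payCE' (Kt := Kt) (m := fun e => Kt * (v'.c * w X.ψ e.2 / (rf (e.1 / v.A) z.M : ℝ)))
      hboxT s1 hl8 hz hC hmin n2 hρ hc hc' htx a3 a4 hbB hbB' b24 hKt t0 i0 m2n iR (fun e => le_rfl)
    refine ⟨n, blkE b v.B v'.B (SI X σ.items) (SI X σ'.items) F, CO_monoC k1 hl1 hCO (fun _ _ => le_rfl),
      CW_monoC k2 hl1 (by linarith), fun hd' _ _ => absurd hd hd'.2,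
      fun _ _ _ => ⟨tw, CE2_monoC k3 hl1 (by linarith)⟩, ?_⟩
    rw [← hsum F]
    have key := x3 hd hnd (fun e => EE X b z v v' e ∧
      Kt * (v'.c * w X.ψ e.2 / (rf (e.1 / v.A) z.M : ℝ)) ≤ TOT0 X (QE X j₀ Q') (TX b) (K + Kf) Kf b z v v' σ σ' e)
      (fun e he => DscE32.Dsc_of_ESI he.1.2)
    have e1 : ∀ e, payZ' X (QE X j₀ Q') (fun e => EE X b z v v' e ∧
      Kt * (v'.c * w X.ψ e.2 / (rf (e.1 / v.A) z.M : ℝ)) ≤ TOT0 X (QE X j₀ Q') (TX b) (K + Kf) Kf b z v v' σ σ' e)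
      (TX b) (K + Kf) Kf Kt b z v v' σ σ' e = F e := fun e => by
      rw [hF]
      unfold LocX25.payZ' CzE36.pay
      by_cases hw : (fun e => EE X b z v v' e ∧
        (fun e => Kt * (v'.c * w X.ψ e.2 / (rf (e.1 / v.A) z.M : ℝ))) e ≤ TOT0 X (QE X j₀ Q') (TX b) (K + Kf) Kf b z v v' σ σ' e) e
      · exact (if_pos hw).trans (if_pos hw).symm
      · exact (if_neg hw).trans (if_neg hw).symm
    rw [Finset.sum_congr rfl fun e _ => e1 e] at key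
    have h5 : ∑ e ∈ Ep (X.c.D.par X.Y) X.S' z σ σ', F e ≤ ∑ e ∈ SI X σ.items ×ˢ SI X σ'.items, F e :=
      Finset.sum_le_sum_of_subset_of_nonneg Ep_sub fun e _ _ => pay_nonneg (i0 e) (m2n e) (t0n e)
    linarith
  -- the general case
  set F : ℕ × ℕ → ℝ := TOT X (QE X j₀ Q') (TX b) 3 2 b z v v' σ σ' with hF
  have hPB : ∀ e ∈ SI X σ.items ×ˢ SI X σ'.items,
      F e ≤ PB X (QE X j₀ Q') (TX b) (KAx 3 2 ((Real.log b)^Cm) b) 3 b z v v' σ σ' e := fun e he => by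
    refine (tot_le hz hρ (by norm_num) (by norm_num) (cz_p hz) he hmb).trans (le_of_eq ?_)
    unfold CzCO36.PB CzE36.KAx
    rfl
  have k1 := cz_CO (A := A) (F := F) hbox hboxB s1 sl hl8 hA hz hC n1 hρ hc hc' htx a1 a2 (by norm_num) a5 hm
    (fun e he _ => hPB e he)
  have k2 := cz_CW (F := F) hboxF s1 hl8 hz hC hmin n2 hρ hc hc' htx a1 a2 (by norm_num) a5 hCm0 hm hmb
    (fun e he _ => hPB e he)
  have cm0 : ∀ (u : NS) (τ : IT), 0 ≤ u.c → ∀ i, 0 ≤ cm (w X.ψ) u.c b (ex b u.B) τ.items i := fun u τ h i =>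
    mul_nonneg h (Bld532.Ws_nonneg X.hW _)
  have k3 : CW b (KE + Cm + 4 + 1) (1/2+eps1) (1/2+eps2)
      (cm (w X.ψ) v.c b (ex b v.B) σ.items) (cm (w X.ψ) v'.c b (ex b v'.B) σ'.items)
      (blkE b v.B v'.B (SI X σ.items) (SI X σ'.items) F) :=
    CW_min (dead := False) (a₀ := a0 b v.B v'.B) hz.bp.two_le (by linarith) (a0_le hz.bp.pos _ _)
      (cm0 v σ hc) (cm0 v' σ' hc') fun i => (k2 i).trans (le_add_of_nonneg_right (mul_nonneg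
        (Real.rpow_nonneg (by linarith) _) (le_min (cm0 v σ hc i) (cm0 v' σ' hc' i))))
  refine ⟨n, blkE b v.B v'.B (SI X σ.items) (SI X σ'.items) F, CO_monoC k1 hl1 hCO (fun _ _ => le_rfl),
      CW_monoC k3 hl1 (by linarith), fun hd h1 h2 => absurd ⟨hd, h1, h2⟩ hD,
      fun hd h1 h2 => absurd ⟨hd, h2, h1⟩ hD', ?_⟩
  rw [← hsum F]
  have h5 : ∑ e ∈ Ep (X.c.D.par X.Y) X.S' z σ σ', F e ≤ ∑ e ∈ SI X σ.items ×ˢ SI X σ'.items, F e :=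
    Finset.sum_le_sum_of_subset_of_nonneg Ep_sub fun e _ _ => TOT_nonneg hρ (by norm_num) (by norm_num) e
  linarith

end ctx

end Crest.Agent.R4P.CzBX36
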