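import Mathlib
import Crest.Agent.R4P.LowT_33

/-!
R4P (S0004), helper32, group [X]: **one-shot numbers WITHOUT the matching term**: the `[E]` pairs have to satisfy
the same inequality as the `[F]` pairs.

* `low_coreE` : `LowP33.low_core` without the matching part;
* `shot_E` : `LowT33.shot_T`, `[E]` and `[F]` pairs with `1 < 2 (A₁ mm²)^10 D` (or `Q`), no accidents.
-/

set_option autoImplicit false
open Finset

namespace Crest.Agent.R4P.LowE32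
open Crest.Agent.R4.HVW560 Crest.Agent.R4.HVWX793
open Crest.Agent.R4.Schur709 Crest.Agent.R4.StopHvw709 Crest.Agent.R4.StopAsm709
open Crest.Agent.R4.ClsS (eps1)
open Crest.Agent.R4.OSCore709 Crest.Agent.R4.CrossShot709 Crest.Agent.R4.Bad223 Crest.Agent.R4.ShotG223
open Crest.Agent.R4P.LowP33 Crest.Agent.R4P.LowT33

open Classical Crest.Agent.R4.ClsS in
/-- **LOW part, plain** without the matching part. -/
theorem low_coreE {Gen : ℝ → ℝ → ℝ → ℕ → ℕ → ℝ → ℝ → Prop} {κ : ℝ} (hGen : DeepHyp Gen κ) :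
    ∃ C c0 : ℝ, 1 ≤ C ∧ 0 < c0 ∧ ∀ c1 : ℝ, 0 < c1 → c1 ≤ c0 → ∃ T0 : ℝ, 1 ≤ T0 ∧
    ∀ (X K2 L : ℝ) (n N G : ℕ) (O O' V W : Finset ℕ) (R R' : ℕ → ℝ)
    (γ γ' : Finset ℕ → ℝ) (F : ℕ × ℕ → ℝ) (PG : ℕ × ℕ → Prop),
    T0 ≤ (2:ℝ)^n → X ≤ Real.exp (((2:ℝ)^n)^c1) → 0 < G → 0 ≤ K2 →
    (∀ p ∈ O, p.Prime ∧ N ≤ p) → (∀ p ∈ O', p.Prime ∧ N ≤ p) →
    (∀ w ∈ V, 0 < w ∧ 0 < R w) → (∀ w ∈ W, 0 < w ∧ 0 < R' w) →
    (∀ w ∈ V, R w ≤ L * mu O' R w) → (∀ w ∈ W, R' w ≤ L * mu O R' w) →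
    (∀ z : ℝ, X ≤ z → ∀ w ∈ V, Crest.Agent.R4.ClsB.Tame z G (uu O' w)) →
    (∀ z : ℝ, X ≤ z → ∀ w ∈ W, Crest.Agent.R4.ClsB.Tame z G (uu O w)) →
    (∀ e ∈ V ×ˢ W, Dc O O' R R' e ≤ 1 → F e ≤ K2 * ((R e.1 * R' e.2) / Dc O O' R R' e)) →
    (∀ e ∈ V ×ˢ W, PG e → ∀ t : ℝ, (2:ℝ)^n ≤ t → 1/(2*t) < Dc O O' R R' e →
      Dc O O' R R' e ≤ 1/t → 0 < F e →
      Gen (γ (miss O' e.1)) (γ' (miss O e.2)) t (cof (uu O' e.1) (uu O e.2))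
        (cof (uu O e.2) (uu O' e.1)) (Rc O' R e.1) (Rc O R' e.2)) →
    ∑ e ∈ (V ×ˢ W).filter (fun e => Dc O O' R R' e ≤ 1), F e ≤
      K2 * L^2 * (n * (2 * KH 1 0 eps1 * (2:ℝ)^(2*eps1*n)) + C * ((2:ℝ)^n)^(-κ)) *
        (Real.exp ((1/2-eps1) * (3 * (∑ p ∈ O, 1/(p:ℝ)) + 3 * ∑ p ∈ O', 1/(p:ℝ))) *
        ((∑ q ∈ V, mu O' R q) * (∑ r ∈ W, mu O R' r))^(1/2+eps1)) +
      ∑ e ∈ (V ×ˢ W).filter (fun e => Dc O O' R R' e ≤ 1/2^n ∧ ¬ PG e), F e := by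
  obtain ⟨C, c0, hC1, hc0, hC⟩ := deepB_of hGen
  refine ⟨C, c0, hC1, hc0, ?_⟩
  intro c1 hc1 hc10
  obtain ⟨T0, hT01, hT0⟩ := hC c1 hc1 hc10
  refine ⟨T0, hT01, ?_⟩
  intro X K2 L n N G O O' V W R R' γ γ' F PG hTn hX hG hK20 hO hO' hV hW hLV hLW hVt hWt
    hsmall hgen
  have he1 : eps1 = 1/1000 := rfl
  have h2n : (0:ℝ) < (2:ℝ)^n := by positivity
  set D : ℕ × ℕ → ℝ := Dc O O' R R' with hDdef
  have hDpos : ∀ e ∈ V ×ˢ W, 0 < D e := by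
    intro e he
    have h := Finset.mem_product.1 he
    exact Dc_pos hO hO' (hV _ h.1).2 (hW _ h.2).1
  have hc : ∀ r ∈ W, (0:ℝ) ≤ ∑ p ∈ O.filter (fun p => ¬ p ∣ r), 1/(p:ℝ) := fun r _ =>
    Finset.sum_nonneg fun p _ => by positivity
  have hc' : ∀ q ∈ V, (0:ℝ) ≤ ∑ p ∈ O'.filter (fun p => ¬ p ∣ q), 1/(p:ℝ) := fun q _ =>
    Finset.sum_nonneg fun p _ => by positivity
  set P := V ×ˢ W with hP
  set EN := P.filter (fun e => D e ≤ 1) with hEN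
  set EY := EN.filter (fun e => (1/2:ℝ)^n < D e) with hEY
  set EX := EN.filter (fun e => ¬ (1/2:ℝ)^n < D e) with hEX
  set EG := EX.filter (fun e => PG e) with hEG
  set EH := EX.filter (fun e => ¬ PG e) with hEH
  have hsplit : ∑ e ∈ EN, F e = ∑ e ∈ EY, F e +
      (∑ e ∈ EG, F e + ∑ e ∈ EH, F e) := by
    rw [hEG, hEH, Finset.sum_filter_add_sum_filter_not,
      hEY, hEX, Finset.sum_filter_add_sum_filter_not]
  have hENP : ∀ e ∈ EN, e ∈ P ∧ D e ≤ 1 := fun e he => Finset.mem_filter.1 he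
  have hEYP : ∀ e ∈ EY, e ∈ EN := fun e he => (Finset.mem_filter.1 he).1
  have hEXP : ∀ e ∈ EX, e ∈ EN := fun e he => (Finset.mem_filter.1 he).1
  have hEGP : ∀ e ∈ EG, e ∈ EX := fun e he => (Finset.mem_filter.1 he).1
  have hEHP : ∀ e ∈ EH, e ∈ EX := fun e he => (Finset.mem_filter.1 he).1
  have hRR : ∀ e ∈ P, R e.1 * R' e.2 ≤ L^2 * (mu O' R e.1 * mu O R' e.2) := by
    intro e he
    have h := Finset.mem_product.1 he
    have h1 := hLV _ h.1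
    have h2 := hLW _ h.2
    have h3 := (hW _ h.2).2
    have h5 : 0 ≤ L * mu O' R e.1 := (hV _ h.1).2.le.trans h1
    calc R e.1 * R' e.2 ≤ (L * mu O' R e.1) * (L * mu O R' e.2) :=
          mul_le_mul h1 h2 h3.le h5
      _ = _ := by ring
  have hFmu : ∀ e ∈ EN, F e ≤ K2 * L^2 * ((mu O' R e.1 * mu O R' e.2) / D e) := by
    intro e he
    have heP := hENP e he
    calc F e ≤ K2 * ((R e.1 * R' e.2) / D e) := hsmall e heP.1 heP.2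
      _ ≤ K2 * ((L^2 * (mu O' R e.1 * mu O R' e.2)) / D e) :=
          mul_le_mul_of_nonneg_left (div_le_div_of_nonneg_right (hRR e heP.1) (hDpos e heP.1).le) hK20
      _ = K2 * L^2 * ((mu O' R e.1 * mu O R' e.2) / D e) := by ring
  have boundY := mid_dyadic (ε := eps1) (by rw [he1]; norm_num) (by rw [he1]; norm_num) (N := N) hO hO'
    hV hW (c := 0) (c' := 0) hc hc' (K := K2 * L^2) (by positivity) (F := F) n EY
    (fun e he => (hENP e (hEYP e he)).1)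
    (fun e he => (hENP e (hEYP e he)).2)
    (fun e he => (Finset.mem_filter.1 he).2)
    (fun e he => hFmu e (hEYP e he))
  have hpow : (1/2:ℝ)^n = 1/2^n := by rw [div_pow, one_pow]
  have hEXD : ∀ e ∈ EX, D e ≤ 1/2^n := by
    intro e he
    have := not_lt.1 (Finset.mem_filter.1 he).2
    rw [hpow] at this
    exact this
  have boundG := hT0 ((2:ℝ)^n) X (K2 * L^2) N G O O' V W EG R R' γ γ' F 0 0 hTn hX (by positivity)
    hG hO hO' hV hW hVt hWt (fun e he => (hENP e (hEXP e (hEGP e he))).1) hc hc'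
    (fun e he => hEXD e (hEGP e he))
    (fun e he => hFmu e (hEXP e (hEGP e he)))
    (by
      intro e he t ht h1 h2 h3
      exact hgen e (hENP e (hEXP e (hEGP e he))).1 (Finset.mem_filter.1 he).2
        t ht h1 h2 h3)
  have eR : EH = P.filter (fun e => D e ≤ 1/2^n ∧ ¬ PG e) := by
    ext e
    constructor
    · intro he
      exact Finset.mem_filter.2 ⟨(hENP e (hEXP e (hEHP e he))).1, hEXD e (hEHP e he),
        (Finset.mem_filter.1 he).2⟩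
    · intro he
      obtain ⟨h0, h2, h3⟩ := Finset.mem_filter.1 he
      have h2' : D e ≤ 1/2^n := h2
      have h5 : D e ≤ 1 := by
        refine h2'.trans ?_
        rw [div_le_one h2n]
        exact one_le_pow₀ (by norm_num)
      exact Finset.mem_filter.2 ⟨Finset.mem_filter.2 ⟨Finset.mem_filter.2
        ⟨h0, h5⟩, not_lt.2 (by rw [hpow]; exact h2')⟩, h3⟩
  have z1 : -(N * (0:ℝ)) + 3 * (∑ p ∈ O, 1/(p:ℝ)) + (-(N * (0:ℝ)) + 3 * ∑ p ∈ O', 1/(p:ℝ))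
      = 3 * (∑ p ∈ O, 1/(p:ℝ)) + 3 * ∑ p ∈ O', 1/(p:ℝ) := by ring
  rw [z1] at boundY boundG
  rw [hsplit, ← eR]
  set X1 := Real.exp ((1/2-eps1) * (3 * (∑ p ∈ O, 1/(p:ℝ)) + 3 * ∑ p ∈ O', 1/(p:ℝ))) with hX1
  set Y1 := ((∑ q ∈ V, mu O' R q) * (∑ r ∈ W, mu O R' r))^(1/2+eps1) with hY1
  have hfin : K2 * L^2 * (n * (2 * KH 1 0 eps1 * (2:ℝ)^(2*eps1*n)) + C * ((2:ℝ)^n)^(-κ)) * (X1 * Y1)
      = (n * (2 * (K2 * L^2) * KH 1 0 eps1 * (2:ℝ)^(2*eps1*n)) * (X1 * Y1) +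
        C * (K2 * L^2) * ((2:ℝ)^n)^(-κ) * X1 * Y1) := by
    ring
  rw [hfin]
  linarith


set_option maxHeartbeats 1000000 in
open Classical in
/-- **the one-shot number, plain, free level**: `[E]` and `[F]` pairs have large factors (`A₁ mm²`), or `Q`; no
matching term. -/
theorem shot_E {CL C0 : ℝ} (hCL : 1 ≤ CL) (hC0 : 0 ≤ C0) : ∃ cl₀ : ℝ, 0 < cl₀ ∧ ∀ cl : ℝ, cl₀ ≤ cl →
    ∃ b₁ : ℕ, 3 ≤ b₁ ∧
    (∀ b : ℕ, b₁ ≤ b → 400 ≤ lev cl b ∧ (Real.log b)^cl ≤ (2:ℝ)^(lev cl b) ∧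
      (2:ℝ)^(lev cl b) ≤ (Real.log b)^(cl+1) ∧ 2 ≤ Real.log b) ∧
    ∀ (N G b : ℕ) (O O' V W : Finset ℕ) (R R' : ℕ → ℝ)
    (γ γ' : Finset ℕ → ℝ) (F : ℕ × ℕ → ℝ) (Q : ℕ × ℕ → Prop) (A₁ : ℝ),
    b₁ ≤ b → 0 < G → 1 ≤ A₁ →
    (∀ p ∈ O, p.Prime ∧ N ≤ p) → (∀ p ∈ O', p.Prime ∧ N ≤ p) →
    ∑ p ∈ O, (p:ℝ)^(-(11/12):ℝ) ≤ 1 → ∑ p ∈ O', (p:ℝ)^(-(11/12):ℝ) ≤ 1 →
    (∀ w ∈ V, 0 < w ∧ 0 < R w) → (∀ w ∈ W, 0 < w ∧ 0 < R' w) →
    (∀ w ∈ V, R w ≤ (CL * Real.log b) * mu O' R w) → (∀ w ∈ W, R' w ≤ (CL * Real.log b) * mu O R' w) →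
    (∀ z : ℝ, (b:ℝ) ≤ z → ∀ w ∈ V, Crest.Agent.R4.ClsB.Tame z G (uu O' w)) →
    (∀ z : ℝ, (b:ℝ) ≤ z → ∀ w ∈ W, Crest.Agent.R4.ClsB.Tame z G (uu O w)) →
    (∀ e ∈ V ×ˢ W, Dc O O' R R' e ≤ 1 →
      F e ≤ (Real.log b)^C0 * ((R e.1 * R' e.2) / Dc O O' R R' e)) →
    (∀ e ∈ V ×ˢ W, Dc O O' R R' e ≤ 1/2^(lev cl b) → 0 < F e → RelG O O' R R' γ γ' e) →
    (∀ e ∈ V ×ˢ W, Dc O O' R R' e ≤ 1/2^(lev cl b) → 0 < F e →
      (EG O O' R R' γ γ' e ∨ FG O O' R R' γ γ' (lev cl b) e) →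
      1 < 2 * (A₁ * (mm O O' e)^2)^10 * Dc O O' R R' e ∨ Q e) →
    ∑ e ∈ (V ×ˢ W).filter (fun e => Dc O O' R R' e ≤ 1), F e ≤
      (Real.log b)^(C0 + 5 + cl/500) * ((∑ q ∈ V, mu O' R q) * (∑ r ∈ W, mu O R' r))^(1/2+eps1) +
      (Real.log b)^(C0 + 5 + cl/500) * A₁^(6/1000:ℝ) *
        ((∑ q ∈ V, mu O' R q) * (∑ r ∈ W, mu O R' r))^(1/2+eps2) +
      ∑ e ∈ (V ×ˢ W).filter (fun e => 0 < F e ∧ (Dc O O' R R' e ≤ 1/2^(lev cl b) ∧ Q e)), F e := by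
  obtain ⟨C, c0, hC1, hc0, hC⟩ := low_coreE Crest.Agent.R4.ClsT2.deepHyp_Gen3
  refine ⟨2/c0, by positivity, fun cl hcl => ?_⟩
  have hcl0 : 0 < cl := lt_of_lt_of_le (by positivity) hcl
  have hc1' : 2/cl ≤ c0 := by
    rw [div_le_iff₀ hcl0]; rw [div_le_iff₀ hc0] at hcl; linarith
  obtain ⟨T0, hT01, hT0⟩ := hC (2/cl) (by positivity) hc1'
  obtain ⟨x0, hx0⟩ := lev_numT cl T0 hcl0
  have hKH := (KH_pos 1 0 eps1).le
  have hKH2 := (KH_pos 1 0 eps2).le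
  have he1 : eps1 = 1/1000 := rfl
  have he2 : eps2 = 1/4000 := rfl
  set C2 : ℝ := cl/500 + 1/500 + 1 with hC2
  have hC20 : 0 < C2 := by positivity
  obtain ⟨x1, hx1⟩ := Filter.eventually_atTop.1
    ((Real.tendsto_log_atTop.eventually_ge_atTop
      (1 + CL^2 * (2 * KH 1 0 eps1 + C) * Real.exp 3 + Real.exp 3 +
        CL^2 * (120000 * KH 1 0 eps2) * Real.exp 1 + CL^2 * (4 * KH 1 0 eps2) * Real.exp 3)))
  have hbig : ∀ b : ℕ, max 3 ⌈max x0 x1⌉₊ ≤ b → 1 ≤ Real.log b ∧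
      CL^2 * (2 * KH 1 0 eps1 + C) * Real.exp 3 ≤ Real.log b ∧ Real.exp 3 ≤ Real.log b ∧
      CL^2 * (120000 * KH 1 0 eps2) * Real.exp 1 ≤ Real.log b ∧
      CL^2 * (4 * KH 1 0 eps2) * Real.exp 3 ≤ Real.log b := by
    intro b hb
    have hbx : max x0 x1 ≤ (b:ℝ) := (Nat.le_ceil _).trans (by exact_mod_cast (le_max_right _ _).trans hb)
    have hlog := hx1 b ((le_max_right _ _).trans hbx)
    have a1 : 0 ≤ CL^2 * (2 * KH 1 0 eps1 + C) * Real.exp 3 := by positivity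
    have a2 := Real.exp_nonneg 3
    have a3 : 0 ≤ CL^2 * (120000 * KH 1 0 eps2) * Real.exp 1 := by positivity
    have a4 : 0 ≤ CL^2 * (4 * KH 1 0 eps2) * Real.exp 3 := by positivity
    refine ⟨by linarith, by linarith, by linarith, by linarith, by linarith⟩
  refine ⟨max 3 ⌈max x0 x1⌉₊, le_max_left _ _, ?_, ?_⟩
  · intro b hb
    have hbx : max x0 x1 ≤ (b:ℝ) := (Nat.le_ceil _).trans (by exact_mod_cast (le_max_right _ _).trans hb)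
    obtain ⟨g1, _, _, g4, g5, _, g7⟩ := hx0 b ((le_max_left _ _).trans hbx)
    exact ⟨g1, g5, g4, g7⟩
  intro N G b O O' V W R R' γ γ' F Q A₁ hb hG hA₁ hO hO' hsO hsO' hV hW hLV hLW hVt hWt hsmall hrel hFG
  have hbx : max x0 x1 ≤ (b:ℝ) := (Nat.le_ceil _).trans (by exact_mod_cast (le_max_right _ _).trans hb)
  obtain ⟨g1, g2, g3, g4, g5, g6, g7⟩ := hx0 b ((le_max_left _ _).trans hbx)
  obtain ⟨hl1, hlc, hle, hlf, hla⟩ := hbig b hb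
  have hl0 : 0 < Real.log b := by linarith
  have hs1 : ∑ p ∈ O, 1/(p:ℝ) ≤ 1 :=
    (Finset.sum_le_sum fun p hp => Crest.Agent.R4.ShotFF223.inv_le_pow (hO p hp).1.one_lt.le).trans hsO
  have hs1' : ∑ p ∈ O', 1/(p:ℝ) ≤ 1 :=
    (Finset.sum_le_sum fun p hp => Crest.Agent.R4.ShotFF223.inv_le_pow (hO' p hp).1.one_lt.le).trans hsO'
  set n := lev cl b with hn
  set ℓ := Real.log b with hℓ
  have hOp : ∀ p ∈ O, p.Prime := fun q hq => (hO q hq).1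
  have hOp' : ∀ p ∈ O', p.Prime := fun q hq => (hO' q hq).1
  have main0 := hT0 b (ℓ^C0) (CL * ℓ) n N G O O' V W R R' γ γ' F (AltG O O' R R' γ γ' n) g2 g3 hG (by positivity)
    hO hO' hV hW hLV hLW hVt hWt hsmall (by
      intro e he hA t ht h1 h2 hF
      obtain ⟨m, m', hm⟩ := hrel e he (inv_le_of ht h2) hF
      exact gen3_of hm hA ht h1 h2)
  have main := main0.trans (add_le_add le_rfl (rest_le (Q := fun e => Dc O O' R R' e ≤ 1/2^n ∧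
      ¬ AltG O O' R R' γ γ' n e) (Q' := fun e => Dc O O' R R' e ≤ 1/2^n ∧
        (EG O O' R R' γ γ' e ∨ FG O O' R R' γ γ' n e)) (by
    intro e he hQ hF
    have h := Finset.mem_product.1 he
    obtain ⟨hD, hnG⟩ := hQ
    refine ⟨hD, ?_⟩
    rcases classify_G g1 hOp hOp' (hV _ h.1) (hW _ h.2) (hrel e he hD hF) with h1 | h1 | h1
    · exact absurd h1 hnG
    · exact Or.inl h1
    · exact Or.inr h1)))
  have hmu : ∀ q ∈ V, 0 ≤ mu O' R q := fun q hq => mu_nonneg (hV q hq).2.le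
  have hmu' : ∀ q ∈ W, 0 ≤ mu O R' q := fun q hq => mu_nonneg (hW q hq).2.le
  have hmm : 0 ≤ (∑ q ∈ V, mu O' R q) * (∑ r ∈ W, mu O R' r) :=
    mul_nonneg (Finset.sum_nonneg hmu) (Finset.sum_nonneg hmu')
  have hZ := Real.rpow_nonneg hmm (1/2+eps1)
  have hZ2 := Real.rpow_nonneg hmm (1/2+eps2)
  -- the `[F]` part
  set P := V ×ˢ W with hP
  set EA := P.filter (fun e => 0 < F e ∧ (Dc O O' R R' e ≤ 1/2^n ∧
        (EG O O' R R' γ γ' e ∨ FG O O' R R' γ γ' n e))) with hEA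
  obtain ⟨c1, hc1⟩ : ∃ c : ℕ × ℕ → Prop, c = fun e =>
      1 < 2 * (A₁ * (mm O O' e)^2)^10 * Dc O O' R R' e := ⟨_, rfl⟩
  have hAP : ∀ e ∈ EA, e ∈ P := fun e he => (Finset.mem_filter.1 he).1
  have hFpos : ∀ e ∈ EA, 0 < F e := fun e he => (Finset.mem_filter.1 he).2.1
  have hD1 : ∀ e ∈ EA, Dc O O' R R' e ≤ 1 := by
    intro e he
    have h := (Finset.mem_filter.1 he).2.2.1
    refine h.trans ?_
    rw [div_le_one (by positivity)]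
    exact one_le_pow₀ (by norm_num)
  have hDpos : ∀ e ∈ P, 0 < Dc O O' R R' e := by
    intro e he
    have h := Finset.mem_product.1 he
    exact Dc_pos hO hO' (hV _ h.1).2 (hW _ h.2).1
  obtain ⟨c2, hc2⟩ : ∃ c : ℕ × ℕ → Prop, c = fun _ => False := ⟨_, rfl⟩
  have hcase : ∀ e ∈ EA, c1 e ∨ c2 e ∨ Q e := by
    intro e he
    obtain ⟨h3, h4, h5, h6⟩ := Finset.mem_filter.1 he
    rw [hc1]
    rcases hFG e h3 h5 h4 h6 with h | h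
    · exact Or.inl h
    · exact Or.inr (Or.inr h)
  have hsum := three_split EA c1 c2 Q F (fun e he => (hFpos e he).le) hcase
  have hz0 : ∑ e ∈ EA.filter c2, F e = 0 := by
    refine Finset.sum_eq_zero fun e he => ?_
    have := (Finset.mem_filter.1 he).2
    rw [hc2] at this
    exact this.elim
  rw [hz0] at hsum
  have hRRm : ∀ e ∈ P, R e.1 * R' e.2 ≤ (CL * ℓ)^2 * (mu O' R e.1 * mu O R' e.2) := by
    intro e he
    have h := Finset.mem_product.1 he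
    have h1 := hLV _ h.1
    have h2 := hLW _ h.2
    have h3 := (hW _ h.2).2
    have h5 : 0 ≤ CL * ℓ * mu O' R e.1 := (hV _ h.1).2.le.trans h1
    calc R e.1 * R' e.2 ≤ (CL * ℓ * mu O' R e.1) * (CL * ℓ * mu O R' e.2) :=
          mul_le_mul h1 h2 h3.le h5
      _ = _ := by ring
  have hFmu : ∀ e ∈ EA, F e ≤ ℓ^C0 * (CL * ℓ)^2 * ((mu O' R e.1 * mu O R' e.2) / Dc O O' R R' e) := by
    intro e he
    have heP := hAP e he
    calc F e ≤ ℓ^C0 * ((R e.1 * R' e.2) / Dc O O' R R' e) := hsmall e heP (hD1 e he)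
      _ ≤ ℓ^C0 * (((CL * ℓ)^2 * (mu O' R e.1 * mu O R' e.2)) / Dc O O' R R' e) :=
          mul_le_mul_of_nonneg_left (div_le_div_of_nonneg_right (hRRm e heP) (hDpos e heP).le) (by positivity)
      _ = _ := by ring
  have fA : ∀ {c : ℕ × ℕ → Prop} (e : ℕ × ℕ), e ∈ EA.filter c → e ∈ EA :=
    fun e he => (Finset.mem_filter.1 he).1
  set Z := ((∑ q ∈ V, mu O' R q) * (∑ r ∈ W, mu O R' r))^(1/2+eps1) with hZd
  set Z2 := ((∑ q ∈ V, mu O' R q) * (∑ r ∈ W, mu O R' r))^(1/2+eps2) with hZd2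
  have bound1 := ffp_all (E := EA.filter c1) (F := F) (K := ℓ^C0 * (CL * ℓ)^2) (A := A₁) (j := 2)
    hO hO' hV hW (fun e he => hAP e (fA e he)) (by norm_num) (by positivity) hA₁
    (fun e he => hD1 e (fA e he)) (fun e he => by have := (Finset.mem_filter.1 he).2; rwa [hc1] at this)
    (fun e he => hFmu e (fA e he)) hsO hsO'
  have boundQ : ∑ e ∈ EA.filter Q, F e ≤
      ∑ e ∈ P.filter (fun e => 0 < F e ∧ (Dc O O' R R' e ≤ 1/2^n ∧ Q e)), F e := by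
    apply Finset.sum_le_sum_of_subset_of_nonneg
    · intro e he
      obtain ⟨h1, h2⟩ := Finset.mem_filter.1 he
      obtain ⟨h3, h4, h5, h6⟩ := Finset.mem_filter.1 h1
      exact Finset.mem_filter.2 ⟨h3, h4, h5, h2⟩
    · intro e he _
      exact (Finset.mem_filter.1 he).2.1.le
  rw [← hZd2] at bound1
  -- numbers
  have h2n : (0:ℝ) < (2:ℝ)^n := by positivity
  have h2n1 : (1:ℝ) ≤ (2:ℝ)^n := one_le_pow₀ (by norm_num)
  have hnn : (n:ℝ) * (2:ℝ)^(2*eps1*n) ≤ ℓ^C2 := by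
    have a2 : (2:ℝ)^(2*eps1*n) ≤ ℓ^((cl+1)*(2*eps1)) := by
      calc (2:ℝ)^(2*eps1*n) = ((2:ℝ)^n)^(2*eps1) := by
            rw [← Real.rpow_natCast 2 n, ← Real.rpow_mul (by norm_num)]; congr 1; ring
        _ ≤ (ℓ^(cl+1))^(2*eps1) := Real.rpow_le_rpow h2n.le g4 (by rw [he1]; norm_num)
        _ = _ := by rw [← Real.rpow_mul hl0.le]
    calc (n:ℝ) * (2:ℝ)^(2*eps1*n) ≤ ℓ * ℓ^((cl+1)*(2*eps1)) := mul_le_mul g6 a2 (by positivity) hl0.le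
      _ = ℓ^(1 + (cl+1)*(2*eps1)) := by rw [Real.rpow_add hl0, Real.rpow_one]
      _ = ℓ^C2 := by rw [hC2, he1]; congr 1; ring
  have hpow : ((2:ℝ)^n)^(-(1/1000):ℝ) ≤ 1 :=
    Real.rpow_le_one_of_one_le_of_nonpos h2n1 (by norm_num)
  have hℓ1 : 1 ≤ ℓ^C2 := Real.one_le_rpow hl1 (by positivity)
  have hC0' : 0 ≤ C := by linarith
  have hcoef : n * (2 * KH 1 0 eps1 * (2:ℝ)^(2*eps1*n)) + C * ((2:ℝ)^n)^(-(1/1000):ℝ)
      ≤ (2 * KH 1 0 eps1 + C) * ℓ^C2 := by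
    have q1 : n * (2 * KH 1 0 eps1 * (2:ℝ)^(2*eps1*n)) ≤ 2 * KH 1 0 eps1 * ℓ^C2 := by
      calc n * (2 * KH 1 0 eps1 * (2:ℝ)^(2*eps1*n))
          = 2 * KH 1 0 eps1 * ((n:ℝ) * (2:ℝ)^(2*eps1*n)) := by ring
        _ ≤ 2 * KH 1 0 eps1 * ℓ^C2 := mul_le_mul_of_nonneg_left hnn (by positivity)
    have q2 : C * ((2:ℝ)^n)^(-(1/1000):ℝ) ≤ C * ℓ^C2 :=
      mul_le_mul_of_nonneg_left (hpow.trans hℓ1) hC0'
    linarith
  have hexp1 : Real.exp ((1/2-eps1) * (3 * (∑ p ∈ O, 1/(p:ℝ)) + 3 * ∑ p ∈ O', 1/(p:ℝ))) ≤ Real.exp 3 := by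
    apply Real.exp_le_exp.2
    rw [he1]; linarith
  have hexp2 : Real.exp ((1/2) * (3 * (∑ p ∈ O, 1/(p:ℝ)) + 3 * ∑ p ∈ O', 1/(p:ℝ))) ≤ Real.exp 3 := by
    apply Real.exp_le_exp.2
    linarith
  have hT1 : (0:ℝ) ≤ ((2:ℝ)^n)^(-(1/1000):ℝ) := by positivity
  have hfirst : ℓ^C0 * (CL * ℓ)^2 * (n * (2 * KH 1 0 eps1 * (2:ℝ)^(2*eps1*n)) +
        C * ((2:ℝ)^n)^(-(1/1000):ℝ)) *
        (Real.exp ((1/2-eps1) * (3 * (∑ p ∈ O, 1/(p:ℝ)) + 3 * ∑ p ∈ O', 1/(p:ℝ))) * Z)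
      ≤ ℓ^(C0 + 5 + cl/500) * Z := by
    calc _ ≤ ℓ^C0 * (CL * ℓ)^2 * ((2 * KH 1 0 eps1 + C) * ℓ^C2) *
          (Real.exp 3 * Z) := by
          apply mul_le_mul _ (mul_le_mul_of_nonneg_right hexp1 hZ) (by positivity) (by positivity)
          exact mul_le_mul_of_nonneg_left hcoef (by positivity)
      _ = (ℓ^C0 * ℓ^2 * ℓ^C2 * (CL^2 * (2 * KH 1 0 eps1 + C) * Real.exp 3)) * Z := by ring
      _ ≤ (ℓ^C0 * ℓ^2 * ℓ^C2 * ℓ) * Z := by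
          apply mul_le_mul_of_nonneg_right _ hZ
          exact mul_le_mul_of_nonneg_left hlc (by positivity)
      _ = ℓ^(C0 + 2 + C2 + 1) * Z := by
          have e1 : ℓ^(C0 + 2 + C2 + 1) = ℓ^(C0 + 2 + C2) * ℓ := by rw [Real.rpow_add hl0, Real.rpow_one]
          have e2 : ℓ^(C0 + 2 + C2) = ℓ^(C0 + 2) * ℓ^C2 := Real.rpow_add hl0 _ _
          have e3 : ℓ^(C0 + 2) = ℓ^C0 * ℓ^2 := by rw [Real.rpow_add hl0, Real.rpow_two]
          rw [e1, e2, e3]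
      _ ≤ _ := by
          apply mul_le_mul_of_nonneg_right _ hZ
          exact Real.rpow_le_rpow_of_exponent_le hl1 (by rw [hC2]; linarith)
  have hll : ℓ^C0 * ℓ^2 * ℓ ≤ ℓ^(C0 + 5 + cl/500) := by
    have e : ℓ^C0 * ℓ^2 * ℓ = ℓ^(C0+3) := by
      rw [show C0 + 3 = C0 + 2 + 1 by ring, Real.rpow_add hl0, Real.rpow_add hl0, Real.rpow_one,
        Real.rpow_two]
    rw [e]
    exact Real.rpow_le_rpow_of_exponent_le hl1 (by linarith)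
  have hA6 : (0:ℝ) ≤ A₁^(6/1000:ℝ) := Real.rpow_nonneg (by linarith) _
  have b1 : ∑ e ∈ EA.filter c1, F e ≤ ℓ^(C0 + 5 + cl/500) * (A₁^(6/1000:ℝ) * Z2) := by
    refine bound1.trans ?_
    calc ℓ^C0 * (CL * ℓ)^2 * (120000 * KH 1 0 eps2 * A₁^(6/1000:ℝ)) * Real.exp 1 * Z2
        = (ℓ^C0 * ℓ^2) * (CL^2 * (120000 * KH 1 0 eps2) * Real.exp 1) * (A₁^(6/1000:ℝ) * Z2) := by ring
      _ ≤ (ℓ^C0 * ℓ^2) * ℓ * (A₁^(6/1000:ℝ) * Z2) := by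
          apply mul_le_mul_of_nonneg_right _ (by positivity)
          exact mul_le_mul_of_nonneg_left hlf (by positivity)
      _ ≤ _ := mul_le_mul_of_nonneg_right hll (by positivity)
  have hfin : ℓ^(C0 + 5 + cl/500) * A₁^(6/1000:ℝ) * Z2 = ℓ^(C0 + 5 + cl/500) * (A₁^(6/1000:ℝ) * Z2) := by ring
  rw [hfin]
  linarith

end Crest.Agent.R4P.LowE32
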