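import Crest.Agent.R4P.ColG710

/-!
R4P (S0004), helper32, module D, group [X]: **item pairs with EQUAL exponents of the crossing prime**, tree free.

All items of `V` have the exact exponent `k` at the prime `β`, those of `W` the exponent `k'`; `pr`, `pr'`, `M`,
`M'` may contain `β`; `k - i - m = k' - i' - m' ≥ 0`, i.e. the EFFECTIVE exponents are equal.  The powers of `β`
are stripped (`W` gets a fresh factor `N`, so that one function `ρ` serves both sides), the plain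
`ColG710.k_itemsG` applies.
-/

set_option autoImplicit false
set_option linter.unusedSectionVars false
set_option linter.unusedVariables false
open Finset

namespace Crest.Agent.R4P.ExcStrip32

open Crest.Agent.R4.HVW560 Crest.Agent.R4.Schur709 Crest.Agent.R4.StopHvw709
open Crest.Agent.R4.StopAsm709 Crest.Agent.R4.AvgItem710 Crest.Agent.R4.DeepSt579
open Crest.Agent.R4P.Rad800 Crest.Agent.R4P.NMW710 Crest.Agent.R4P.ColW710
open Crest.Agent.R4.OSCore709 (om om_nonneg om_le_one mm)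
open Crest.Agent.R4.ClsS (eps1)

/-! ### removing a common power -/

section strip
variable {β a m w M : ℕ}

lemma gcd_strip (hβ : β.Prime) (hM : ¬ β ∣ M) (h : m ≤ a) :
    (β ^ m * M).gcd (β ^ a * w) = β ^ m * M.gcd w := by
  obtain ⟨d, rfl⟩ := Nat.exists_eq_add_of_le h
  rw [pow_add, mul_assoc, Nat.gcd_mul_left]
  congr 1
  exact Nat.Coprime.gcd_mul_left_cancel_right w
    (((Nat.Prime.coprime_iff_not_dvd hβ).2 hM).pow_left d)

lemma rf_strip (hβ : β.Prime) (hM : ¬ β ∣ M) (h : m ≤ a) : rf (β ^ a * w) (β ^ m * M) = rf w M := by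
  unfold rf
  rw [gcd_strip hβ hM h, Nat.mul_div_mul_left _ _ (pow_pos hβ.pos m)]

lemma div_strip (hβ : β.Prime) (hM : ¬ β ∣ M) (h : m ≤ a) :
    (β ^ a * w) / (β ^ m * M).gcd (β ^ a * w) = β ^ (a - m) * (w / M.gcd w) := by
  rw [gcd_strip hβ hM h]
  obtain ⟨d, rfl⟩ := Nat.exists_eq_add_of_le h
  rw [pow_add, mul_assoc, Nat.mul_div_mul_left _ _ (pow_pos hβ.pos m), Nat.add_sub_cancel_left,
    Nat.mul_div_assoc _ (Nat.gcd_dvd_right M w)]

end strip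

/-- the stripped data of one side -/
structure St1 (β k i m : ℕ) (pr pr0 M M0 : ℕ) : Prop where
  hpr : pr = β ^ i * pr0
  hM : M = β ^ m * M0
  ndM : ¬ β ∣ M0
  le : i + m ≤ k
  pos : 0 < pr0
  ndp : ¬ β ∣ pr0

section side
variable {β k i m pr pr0 M M0 x : ℕ}

lemma St1.w (hβ : β.Prime) (h : St1 β k i m pr pr0 M M0) (hx : pr0 ∣ x) :
    β ^ k * x / pr = β ^ (k - i) * (x / pr0) := by
  obtain ⟨y, rfl⟩ := hx
  have h1 : i ≤ k := (Nat.le_add_right _ _).trans h.le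
  have e : β ^ k * (pr0 * y) = (β ^ i * pr0) * (β ^ (k - i) * y) := by
    rw [← Nat.sub_add_cancel h1]
    simp only [Nat.add_sub_cancel]
    rw [pow_add]; ring
  rw [h.hpr, e, Nat.mul_div_cancel_left _ (Nat.mul_pos (pow_pos hβ.pos _) h.pos),
    Nat.mul_div_cancel_left _ h.pos]

lemma St1.le' (h : St1 β k i m pr pr0 M M0) : m ≤ k - i := by
  have := h.le
  omega

lemma St1.rfe (hβ : β.Prime) (h : St1 β k i m pr pr0 M M0) (hx : pr0 ∣ x) :
    rf (β ^ k * x / pr) M = rf (x / pr0) M0 := by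
  rw [h.w hβ hx, h.hM]
  exact rf_strip hβ h.ndM h.le'

lemma St1.dv (hβ : β.Prime) (h : St1 β k i m pr pr0 M M0) (hx : pr0 ∣ x) :
    β ^ k * x / pr / M.gcd (β ^ k * x / pr) = β ^ (k - i - m) * (x / pr0 / M0.gcd (x / pr0)) := by
  rw [h.w hβ hx, h.hM]
  exact div_strip hβ h.ndM h.le'

end side

section pair
variable {β k i m k' i' m' pr pr0 M M0 pr' pr0' M' M0' : ℕ}

lemma cofs (hβ : β.Prime) (h : St1 β k i m pr pr0 M M0) (h' : St1 β k' i' m' pr' pr0' M' M0')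
    (he : k - i - m = k' - i' - m') {x y : ℕ} (hx : pr0 ∣ x) (hy : pr0' ∣ y) :
    cof (β ^ k * x / pr / M.gcd (β ^ k * x / pr)) (β ^ k' * y / pr' / M'.gcd (β ^ k' * y / pr')) =
      cof (x / pr0 / M0.gcd (x / pr0)) (y / pr0' / M0'.gcd (y / pr0')) ∧
    cof (β ^ k' * y / pr' / M'.gcd (β ^ k' * y / pr')) (β ^ k * x / pr / M.gcd (β ^ k * x / pr)) =
      cof (y / pr0' / M0'.gcd (y / pr0')) (x / pr0 / M0.gcd (x / pr0)) := by
  rw [h.dv hβ hx, h'.dv hβ hy, he]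
  exact ⟨Crest.Agent.R4.HVW560.cof_mul_left (pow_pos hβ.pos _) _ _,
    Crest.Agent.R4.HVW560.cof_mul_left (pow_pos hβ.pos _) _ _⟩

/-- multiplying the items and the product of the primes above by one number -/
lemma fresh_div {N : ℕ} (hN : 0 < N) (y pr0 : ℕ) : N * y / (N * pr0) = y / pr0 :=
  Nat.mul_div_mul_left _ _ hN

variable {N : ℕ}

lemma Dq_strip (hβ : β.Prime) (h : St1 β k i m pr pr0 M M0) (h' : St1 β k' i' m' pr' pr0' M' M0')
    (he : k - i - m = k' - i' - m') (hN : 0 < N) {x y : ℕ} (hx : pr0 ∣ x) (hy : pr0' ∣ y)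
    {ρ ρ0 : ℕ → ℝ} (h1 : ρ0 x = ρ (β ^ k * x)) (h2 : ρ0 (N * y) = ρ (β ^ k' * y)) (b c b' c' : ℕ) :
    Dq ρ M b pr c M' b' pr' c' (β ^ k * x, β ^ k' * y) =
      Dq ρ0 M0 b pr0 c M0' b' (N * pr0') c' (x, N * y) := by
  obtain ⟨e1, e2⟩ := cofs hβ h h' he hx hy
  unfold Dq Da Dp rd
  simp only
  rw [e1, e2, h.rfe hβ hx, h'.rfe hβ hy, fresh_div hN, h1, h2]

lemma ESI_strip (hβ : β.Prime) (h : St1 β k i m pr pr0 M M0) (h' : St1 β k' i' m' pr' pr0' M' M0')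
    (he : k - i - m = k' - i' - m') (hN : 0 < N) {x y : ℕ} (hx : pr0 ∣ x) (hy : pr0' ∣ y)
    {ρ ρ0 : ℕ → ℝ} (h1 : ρ0 x = ρ (β ^ k * x)) (h2 : ρ0 (N * y) = ρ (β ^ k' * y)) (γ : ℝ)
    (b c b' c' : ℕ) :
    ESI γ ρ M b pr c M' b' pr' c' (β ^ k * x, β ^ k' * y) ↔
      ESI γ ρ0 M0 b pr0 c M0' b' (N * pr0') c' (x, N * y) := by
  obtain ⟨e1, e2⟩ := cofs hβ h h' he hx hy
  unfold ESI rd
  simp only
  rw [e1, e2, h.rfe hβ hx, h'.rfe hβ hy, fresh_div hN, h1, h2]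

lemma FSI_strip (hβ : β.Prime) (h : St1 β k i m pr pr0 M M0) (h' : St1 β k' i' m' pr' pr0' M' M0')
    (he : k - i - m = k' - i' - m') (hN : 0 < N) {x y : ℕ} (hx : pr0 ∣ x) (hy : pr0' ∣ y)
    {ρ ρ0 : ℕ → ℝ} (h1 : ρ0 x = ρ (β ^ k * x)) (h2 : ρ0 (N * y) = ρ (β ^ k' * y)) (γ : ℝ) (n : ℕ)
    (b c b' c' : ℕ) :
    FSI γ ρ n M b pr c M' b' pr' c' (β ^ k * x, β ^ k' * y) ↔
      FSI γ ρ0 n M0 b pr0 c M0' b' (N * pr0') c' (x, N * y) := by
  obtain ⟨e1, e2⟩ := cofs hβ h h' he hx hy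
  unfold FSI rd
  simp only
  rw [e1, e2, h.rfe hβ hx, h'.rfe hβ hy, fresh_div hN, h1, h2]

lemma pbd_strip (hβ : β.Prime) (h : St1 β k i m pr pr0 M M0) (h' : St1 β k' i' m' pr' pr0' M' M0')
    (he : k - i - m = k' - i' - m') (hN : 0 < N) {x y : ℕ} (hx : pr0 ∣ x) (hy : pr0' ∣ y)
    (θ r θ' r' : ℝ) :
    pbd θ r (β ^ k * x / pr) M θ' r' (β ^ k' * y / pr') M' =
      pbd θ r (x / pr0) M0 θ' r' (N * y / (N * pr0')) M0' := by
  obtain ⟨e1, e2⟩ := cofs hβ h h' he hx hy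
  unfold pbd Ra Da Dp
  rw [e1, e2, h.rfe hβ hx, h'.rfe hβ hy, fresh_div hN]

end pair

lemma tq_strip {β a w : ℕ} (hβ : β.Prime) (hw : 0 < w) : tq w ≤ 2 * tq (β ^ a * w) := by
  have hb : (2:ℝ) ≤ β := by exact_mod_cast hβ.two_le
  have h0 : 0 < β ^ a * w := Nat.mul_pos (pow_pos hβ.pos _) hw
  rw [tq_prod hw, tq_prod h0]
  have hnn : ∀ (S : Finset ℕ), (∀ l ∈ S, l.Prime) → 0 ≤ ∏ l ∈ S, (1 - 1 / (l:ℝ)) := fun S hS =>
    Finset.prod_nonneg fun l hl => by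
      have h1 : (1:ℝ) ≤ l := by exact_mod_cast (hS l hl).pos
      have : 1 / (l:ℝ) ≤ 1 := by rw [div_le_one (by linarith)]; exact h1
      linarith
  by_cases ha : a = 0
  · subst ha
    rw [pow_zero, one_mul]
    have := hnn w.primeFactors (fun l hl => Nat.prime_of_mem_primeFactors hl)
    linarith
  have e : (β ^ a * w).primeFactors = insert β w.primeFactors := by
    rw [Nat.primeFactors_mul (pow_pos hβ.pos _).ne' hw.ne', Nat.primeFactors_prime_pow ha hβ]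
    rfl
  rw [e]
  by_cases hd : β ∈ w.primeFactors
  · rw [Finset.insert_eq_of_mem hd]
    have := hnn w.primeFactors (fun l hl => Nat.prime_of_mem_primeFactors hl)
    linarith
  · rw [Finset.prod_insert hd]
    have h1 := hnn w.primeFactors (fun l hl => Nat.prime_of_mem_primeFactors hl)
    have h2 : 1 / (β:ℝ) ≤ 1 / 2 := one_div_le_one_div_of_le (by norm_num) hb
    nlinarith

open Classical in
/-- **item pairs with equal effective exponents at `β`** -/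
theorem k_itemsE {CL : ℝ} {p₀ : ℕ}
    (hcol : KClsX CL p₀) {γ : ℝ} {ρ : ℕ → ℝ} {F : ℕ × ℕ → ℝ}
    {n p M b pr c M' b' pr' c' : ℕ} {V W : Finset ℕ}
    {β k i m k' i' m' pr0 M0 pr0' M0' : ℕ} (hβ : β.Prime) (hs1 : St1 β k i m pr pr0 M M0)
    (hs1' : St1 β k' i' m' pr' pr0' M' M0') (hei : k - i - m = k' - i' - m')
    (hp : p₀ ≤ p) (hn : n = ⌊1/4 * Real.log p / Real.log 2⌋₊) (hn1 : 1 ≤ n)
    (hρ : ∀ q, 0 < ρ q) (hb : 0 < b) (hc : 0 < c) (hb' : 0 < b') (hc' : 0 < c')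
    (hCL : 0 ≤ CL * Real.log p)
    (hM : 0 < M) (hM' : 0 < M')
    (hMp : ∀ l : ℕ, l.Prime → l ∣ M → p ≤ l) (hMp' : ∀ l : ℕ, l.Prime → l ∣ M' → p ≤ l)
    (hs : ∑ l ∈ M.primeFactors, (l:ℝ)^(-(11/12):ℝ) ≤ 1)
    (hs' : ∑ l ∈ M'.primeFactors, (l:ℝ)^(-(11/12):ℝ) ≤ 1)
    (hV : ∀ q ∈ V, 0 < q ∧ pr ∣ q) (hW : ∀ q ∈ W, 0 < q ∧ pr' ∣ q)
    (kV : ∀ q ∈ V, ∃ x, q = β ^ k * x ∧ ¬ β ∣ x) (kW : ∀ q ∈ W, ∃ x, q = β ^ k' * x ∧ ¬ β ∣ x)
    (oV : ∀ q ∈ V, ∀ l : ℕ, l.Prime → l ∣ M → l ≠ β → ¬ l ^ 2 ∣ q / pr)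
    (oW : ∀ q ∈ W, ∀ l : ℕ, l.Prime → l ∣ M' → l ≠ β → ¬ l ^ 2 ∣ q / pr')
    (tV : ∀ z : ℝ, (p:ℝ) ≤ z → ∀ q ∈ V, Crest.Agent.R4.ClsB.Tame z 1 (q / pr / M.gcd (q / pr)))
    (tW : ∀ z : ℝ, (p:ℝ) ≤ z → ∀ q ∈ W, Crest.Agent.R4.ClsB.Tame z 1 (q / pr' / M'.gcd (q / pr')))
    (lV : ∀ q ∈ V, 1 ≤ CL * Real.log p * tq (q / pr / M.gcd (q / pr)))
    (lW : ∀ q ∈ W, 1 ≤ CL * Real.log p * tq (q / pr' / M'.gcd (q / pr')))
    (hF : ∀ e ∈ V ×ˢ W, F e ≤ pbd ((b : ℝ) / c * γ) (rd b c ρ e.1) (e.1 / pr) M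
      ((b' : ℝ) / c' * γ) (rd b' c' ρ e.2) (e.2 / pr') M') {Qf : ℕ × ℕ → Prop}
    (hFS' : ∀ e ∈ V ×ˢ W, Dq ρ M b pr c M' b' pr' c' e ≤ 1/2^n → 0 < F e →
      FSI γ ρ n M b pr c M' b' pr' c' e →
      1 < 2 * ((rf (e.1 / pr) M : ℝ) * rf (e.2 / pr') M')^10 * Dq ρ M b pr c M' b' pr' c' e ∨ Qf e) :
    ∑ e ∈ V ×ˢ W, F e ≤
      (Real.log p)^3 * ((16 * ∑ q ∈ V, rd b c ρ q * tq (q / pr)) *
        (16 * ∑ q ∈ W, rd b' c' ρ q * tq (q / pr'))) +
      2 * ((p:ℝ)^(3/4000:ℝ) * ((16 * ∑ q ∈ V, rd b c ρ q * tq (q / pr)) *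
        (16 * ∑ q ∈ W, rd b' c' ρ q * tq (q / pr')))^(1/2+eps1)) +
      ∑ e ∈ (V ×ˢ W).filter (fun e => 0 < F e ∧ (Dq ρ M b pr c M' b' pr' c' e ≤ 1/2^n ∧
        (ESI γ ρ M b pr c M' b' pr' c' e ∨ Qf e))), F e := by
  classical
  have hβk : 0 < β ^ k := pow_pos hβ.pos k
  have hβk' : 0 < β ^ k' := pow_pos hβ.pos k'
  have hb0 : (0:ℝ) < b := by exact_mod_cast hb
  have hc0 : (0:ℝ) < c := by exact_mod_cast hc
  have hb0' : (0:ℝ) < b' := by exact_mod_cast hb'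
  have hc0' : (0:ℝ) < c' := by exact_mod_cast hc'
  set N : ℕ := ∑ q ∈ V, q + 1 with hNd
  have hN : 0 < N := Nat.succ_pos _
  set V0 := V.image (fun q => q / β ^ k) with hV0
  set W0 := W.image (fun q => N * (q / β ^ k')) with hW0
  set ρ0 : ℕ → ℝ := fun x => if x ∈ V0 then ρ (β ^ k * x) else ρ (β ^ k' * (x / N)) with hρ0
  set F0 : ℕ × ℕ → ℝ := fun e => F (β ^ k * e.1, β ^ k' * (e.2 / N)) with hF0
  set Q0 : ℕ × ℕ → Prop := fun e => Qf (β ^ k * e.1, β ^ k' * (e.2 / N)) with hQ0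
  have vm : ∀ q ∈ V, β ^ k * (q / β ^ k) = q := fun q hq => by
    obtain ⟨x, rfl, -⟩ := kV q hq
    rw [Nat.mul_div_cancel_left _ hβk]
  have wm : ∀ q ∈ W, β ^ k' * (q / β ^ k') = q := fun q hq => by
    obtain ⟨x, rfl, -⟩ := kW q hq
    rw [Nat.mul_div_cancel_left _ hβk']
  have nn : ∀ y : ℕ, N * y / N = y := fun y => Nat.mul_div_cancel_left _ hN
  -- stripped items
  have key1 : ∀ {k i m pr pr0 M M0 q : ℕ}, St1 β k i m pr pr0 M M0 → 0 < q → pr ∣ q →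
      (∃ x, q = β ^ k * x ∧ ¬ β ∣ x) → 0 < q / β ^ k ∧ pr0 ∣ q / β ^ k := by
    intro k i m pr pr0 M M0 q hs hq hd ⟨x, hx, hnx⟩
    have e1 : q / β ^ k = x := by rw [hx, Nat.mul_div_cancel_left _ (pow_pos hβ.pos k)]
    rw [e1]
    have hx0 : 0 < x := Nat.pos_of_ne_zero fun h => by rw [hx, h, mul_zero] at hq; exact lt_irrefl _ hq
    refine ⟨hx0, ?_⟩
    have h1 : pr0 ∣ β ^ k * x := by
      rw [← hx]
      exact (Dvd.intro_left _ hs.hpr.symm).trans hd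
    exact Nat.Coprime.dvd_of_dvd_mul_left
      ((((Nat.Prime.coprime_iff_not_dvd hβ).2 hs.ndp).symm).pow_right k) h1
  have hV0' : ∀ q ∈ V, 0 < q / β ^ k ∧ pr0 ∣ q / β ^ k := fun q hq =>
    key1 hs1 (hV q hq).1 (hV q hq).2 (kV q hq)
  have hW0' : ∀ q ∈ W, 0 < q / β ^ k' ∧ pr0' ∣ q / β ^ k' := fun q hq =>
    key1 hs1' (hW q hq).1 (hW q hq).2 (kW q hq)
  have notV : ∀ q ∈ W, N * (q / β ^ k') ∉ V0 := fun q hq h => by
    obtain ⟨x, hx, hx'⟩ := Finset.mem_image.1 h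
    have h1 : x ≤ ∑ q ∈ V, q := Finset.single_le_sum (f := fun q => q) (fun _ _ => Nat.zero_le _) hx
    have h2 : x / β ^ k ≤ x := Nat.div_le_self _ _
    have h3 : N ≤ N * (q / β ^ k') := Nat.le_mul_of_pos_right _ (hW0' q hq).1
    omega
  have rhoV : ∀ q ∈ V, ρ0 (q / β ^ k) = ρ (β ^ k * (q / β ^ k)) := fun q hq => by
    rw [hρ0]; simp only
    rw [if_pos (Finset.mem_image_of_mem _ hq)]
  have rhoW : ∀ q ∈ W, ρ0 (N * (q / β ^ k')) = ρ (β ^ k' * (q / β ^ k')) := fun q hq => by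
    rw [hρ0]; simp only
    rw [if_neg (notV q hq), nn]
  -- the rests
  have dv : ∀ q ∈ V, q / pr / M.gcd (q / pr) = β ^ (k - i - m) * (q / β ^ k / pr0 / M0.gcd (q / β ^ k / pr0)) :=
    fun q hq => by
    have := hs1.dv hβ (hV0' q hq).2
    rw [vm q hq] at this
    exact this
  have dw : ∀ q ∈ W, q / pr' / M'.gcd (q / pr') =
      β ^ (k' - i' - m') * (q / β ^ k' / pr0' / M0'.gcd (q / β ^ k' / pr0')) := fun q hq => by
    have := hs1'.dv hβ (hW0' q hq).2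
    rw [wm q hq] at this
    exact this
  have ev : ∀ q ∈ V, q / pr = β ^ (k - i) * (q / β ^ k / pr0) := fun q hq => by
    have := hs1.w hβ (hV0' q hq).2
    rw [vm q hq] at this
    exact this
  have ew : ∀ q ∈ W, q / pr' = β ^ (k' - i') * (q / β ^ k' / pr0') := fun q hq => by
    have := hs1'.w hβ (hW0' q hq).2
    rw [wm q hq] at this
    exact this
  have pv : ∀ q ∈ V, 0 < q / β ^ k / pr0 := fun q hq =>
    Nat.div_pos (Nat.le_of_dvd (hV0' q hq).1 (hV0' q hq).2) hs1.pos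
  have pw : ∀ q ∈ W, 0 < q / β ^ k' / pr0' := fun q hq =>
    Nat.div_pos (Nat.le_of_dvd (hW0' q hq).1 (hW0' q hq).2) hs1'.pos
  have fw : ∀ q, N * (q / β ^ k') / (N * pr0') = q / β ^ k' / pr0' := fun q => fresh_div hN _ _
  have M0p : 0 < M0 := Nat.pos_of_ne_zero fun h => hs1.ndM (h ▸ dvd_zero _)
  have M0p' : 0 < M0' := Nat.pos_of_ne_zero fun h => hs1'.ndM (h ▸ dvd_zero _)
  have dM : M0 ∣ M := Dvd.intro_left _ hs1.hM.symm
  have dM' : M0' ∣ M' := Dvd.intro_left _ hs1'.hM.symm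
  have sM : ∑ l ∈ M0.primeFactors, (l:ℝ)^(-(11/12):ℝ) ≤ 1 :=
    (Finset.sum_le_sum_of_subset_of_nonneg (Nat.primeFactors_mono dM hM.ne')
      fun l _ _ => by positivity).trans hs
  have sM' : ∑ l ∈ M0'.primeFactors, (l:ℝ)^(-(11/12):ℝ) ≤ 1 :=
    (Finset.sum_le_sum_of_subset_of_nonneg (Nat.primeFactors_mono dM' hM'.ne')
      fun l _ _ => by positivity).trans hs'
  have tame : ∀ {z : ℝ} {d x : ℕ}, 0 < x → Crest.Agent.R4.ClsB.Tame z 1 (β ^ d * x) →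
      Crest.Agent.R4.ClsB.Tame z 1 x := by
    intro z d x hx h
    refine ⟨one_dvd _, le_trans ?_ h.2⟩
    rw [Nat.div_one, Nat.div_one]
    refine Finset.sum_le_sum_of_subset_of_nonneg (Finset.filter_subset_filter _
      (Nat.primeFactors_mono (Dvd.intro_left _ rfl) (Nat.mul_pos (pow_pos hβ.pos _) hx).ne')) ?_
    intro l _ _
    positivity
  have dv0 : ∀ q ∈ V, 0 < q / β ^ k / pr0 / M0.gcd (q / β ^ k / pr0) := fun q hq =>
    div_pos' (pv q hq) M0p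
  have dw0 : ∀ q ∈ W, 0 < q / β ^ k' / pr0' / M0'.gcd (q / β ^ k' / pr0') := fun q hq =>
    div_pos' (pw q hq) M0p'
  -- the pairs
  have mem0 : ∀ f ∈ V0 ×ˢ W0, ∃ e ∈ V ×ˢ W, f = (e.1 / β ^ k, N * (e.2 / β ^ k')) := fun f hf => by
    obtain ⟨h1, h2⟩ := Finset.mem_product.1 hf
    obtain ⟨a, ha, ha'⟩ := Finset.mem_image.1 h1
    obtain ⟨d, hd, hd'⟩ := Finset.mem_image.1 h2
    exact ⟨(a, d), Finset.mem_product.2 ⟨ha, hd⟩, (Prod.ext ha' hd').symm⟩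
  have F0e : ∀ e ∈ V ×ˢ W, F0 (e.1 / β ^ k, N * (e.2 / β ^ k')) = F e := fun e he => by
    obtain ⟨h1, h2⟩ := Finset.mem_product.1 he
    rw [hF0]; simp only; rw [nn, vm _ h1, wm _ h2]
  have Q0e : ∀ e ∈ V ×ˢ W, (Q0 (e.1 / β ^ k, N * (e.2 / β ^ k')) ↔ Qf e) := fun e he => by
    obtain ⟨h1, h2⟩ := Finset.mem_product.1 he
    rw [hQ0]; simp only; rw [nn, vm _ h1, wm _ h2]
  have Dqe : ∀ e ∈ V ×ˢ W, Dq ρ0 M0 b pr0 c M0' b' (N * pr0') c' (e.1 / β ^ k, N * (e.2 / β ^ k')) =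
      Dq ρ M b pr c M' b' pr' c' e := fun e he => by
    obtain ⟨h1, h2⟩ := Finset.mem_product.1 he
    have := Dq_strip hβ hs1 hs1' hei hN (hV0' _ h1).2 (hW0' _ h2).2 (rhoV _ h1) (rhoW _ h2) b c b' c'
    rw [vm _ h1, wm _ h2] at this
    exact this.symm
  have ESe : ∀ e ∈ V ×ˢ W, (ESI γ ρ0 M0 b pr0 c M0' b' (N * pr0') c' (e.1 / β ^ k, N * (e.2 / β ^ k')) ↔
      ESI γ ρ M b pr c M' b' pr' c' e) := fun e he => by
    obtain ⟨h1, h2⟩ := Finset.mem_product.1 he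
    have := ESI_strip hβ hs1 hs1' hei hN (hV0' _ h1).2 (hW0' _ h2).2 (rhoV _ h1) (rhoW _ h2) γ b c b' c'
    rw [vm _ h1, wm _ h2] at this
    exact this.symm
  have FSe : ∀ e ∈ V ×ˢ W, (FSI γ ρ0 n M0 b pr0 c M0' b' (N * pr0') c' (e.1 / β ^ k, N * (e.2 / β ^ k')) ↔
      FSI γ ρ n M b pr c M' b' pr' c' e) := fun e he => by
    obtain ⟨h1, h2⟩ := Finset.mem_product.1 he
    have := FSI_strip hβ hs1 hs1' hei hN (hV0' _ h1).2 (hW0' _ h2).2 (rhoV _ h1) (rhoW _ h2) γ n b c b' c'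
    rw [vm _ h1, wm _ h2] at this
    exact this.symm
  have rfe : ∀ e ∈ V ×ˢ W, rf (e.1 / pr) M = rf (e.1 / β ^ k / pr0) M0 ∧
      rf (e.2 / pr') M' = rf (e.2 / β ^ k' / pr0') M0' := fun e he => by
    obtain ⟨h1, h2⟩ := Finset.mem_product.1 he
    have a1 := hs1.rfe hβ (hV0' _ h1).2
    have a2 := hs1'.rfe hβ (hW0' _ h2).2
    rw [vm _ h1] at a1
    rw [wm _ h2] at a2
    exact ⟨a1, a2⟩
  have hinjV : Set.InjOn (fun q => q / β ^ k) (V : Set ℕ) := by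
    intro e he f hf hef
    simp only at hef
    rw [← vm _ (Finset.mem_coe.1 he), ← vm _ (Finset.mem_coe.1 hf), hef]
  have hinjW : Set.InjOn (fun q => N * (q / β ^ k')) (W : Set ℕ) := by
    intro e he f hf hef
    simp only at hef
    have hef := Nat.eq_of_mul_eq_mul_left hN hef
    rw [← wm _ (Finset.mem_coe.1 he), ← wm _ (Finset.mem_coe.1 hf), hef]
  have hinj : Set.InjOn (fun e : ℕ × ℕ => (e.1 / β ^ k, N * (e.2 / β ^ k')))
      ((V ×ˢ W : Finset (ℕ × ℕ)) : Set (ℕ × ℕ)) := by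
    intro e he f hf hef
    obtain ⟨h1, h2⟩ := Finset.mem_product.1 (Finset.mem_coe.1 he)
    obtain ⟨h3, h4⟩ := Finset.mem_product.1 (Finset.mem_coe.1 hf)
    simp only [Prod.mk.injEq] at hef
    exact Prod.ext (hinjV h1 h3 hef.1) (hinjW h2 h4 hef.2)
  have himg : V0 ×ˢ W0 = (V ×ˢ W).image (fun e : ℕ × ℕ => (e.1 / β ^ k, N * (e.2 / β ^ k'))) := by
    ext f
    constructor
    · intro hf
      obtain ⟨e, he, rfl⟩ := mem0 f hf
      exact Finset.mem_image_of_mem _ he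
    · intro hf
      obtain ⟨e, he, rfl⟩ := Finset.mem_image.1 hf
      obtain ⟨h1, h2⟩ := Finset.mem_product.1 he
      exact Finset.mem_product.2 ⟨Finset.mem_image_of_mem _ h1, Finset.mem_image_of_mem _ h2⟩
  have hsum : ∀ Q : ℕ × ℕ → Prop, ∀ Q₁ : ℕ × ℕ → Prop,
      (∀ e ∈ V ×ˢ W, (Q₁ (e.1 / β ^ k, N * (e.2 / β ^ k')) ↔ Q e)) →
      ∑ f ∈ (V0 ×ˢ W0).filter Q₁, F0 f = ∑ e ∈ (V ×ˢ W).filter Q, F e := by
    intro Q Q₁ h1
    rw [himg, Finset.filter_image, Finset.sum_image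
      (hinj.mono (by intro x hx; exact (Finset.mem_filter.1 (Finset.mem_coe.1 hx)).1))]
    have e1 : (V ×ˢ W).filter (fun a => Q₁ (a.1 / β ^ k, N * (a.2 / β ^ k'))) = (V ×ˢ W).filter Q :=
      Finset.filter_congr fun e he => h1 e he
    rw [e1]
    exact Finset.sum_congr rfl fun e he => F0e e (Finset.mem_filter.1 he).1
  have hsumT : ∑ f ∈ V0 ×ˢ W0, F0 f = ∑ e ∈ V ×ˢ W, F e := by
    have := hsum (fun _ => True) (fun _ => True) (fun _ _ => Iff.rfl)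
    simpa using this
  have key := k_itemsG hcol (γ := γ) (ρ := ρ0) (F := F0) (Qf := Q0) (G := 1) hp hn hn1 one_pos
    (b := b) (pr := pr0) (c := c) (M := M0) (b' := b') (pr' := N * pr0') (c' := c') (M' := M0')
    (V := V0) (W := W0)
    (fun q => by rw [hρ0]; simp only; split_ifs <;> exact hρ _) hb hc hb' hc' M0p M0p'
    (fun l hl hd => hMp l hl (hd.trans dM)) (fun l hl hd => hMp' l hl (hd.trans dM'))
    sM sM'
    (fun q hq => by
      obtain ⟨x, hx, rfl⟩ := Finset.mem_image.1 hq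
      exact hV0' x hx)
    (fun q hq => by
      obtain ⟨x, hx, rfl⟩ := Finset.mem_image.1 hq
      exact ⟨Nat.mul_pos hN (hW0' x hx).1, Nat.mul_dvd_mul_left _ (hW0' x hx).2⟩)
    (fun q hq => by
      obtain ⟨x, hx, rfl⟩ := Finset.mem_image.1 hq
      intro l hl hd hd2
      refine oV x hx l hl (hd.trans dM) (fun h => hs1.ndM (h ▸ hd)) ?_
      rw [ev x hx]
      exact hd2.mul_left _)
    (fun q hq => by
      obtain ⟨x, hx, rfl⟩ := Finset.mem_image.1 hq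
      rw [fw]
      intro l hl hd hd2
      refine oW x hx l hl (hd.trans dM') (fun h => hs1'.ndM (h ▸ hd)) ?_
      rw [ew x hx]
      exact hd2.mul_left _)
    (fun z hz q hq => by
      obtain ⟨x, hx, rfl⟩ := Finset.mem_image.1 hq
      have := tV z hz x hx
      rw [dv x hx] at this
      exact tame (dv0 x hx) this)
    (fun z hz q hq => by
      obtain ⟨x, hx, rfl⟩ := Finset.mem_image.1 hq
      rw [fw]
      have := tW z hz x hx
      rw [dw x hx] at this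
      exact tame (dw0 x hx) this)
    (fun q hq => by
      obtain ⟨x, hx, rfl⟩ := Finset.mem_image.1 hq
      have := lV x hx
      rw [dv x hx] at this
      exact this.trans (mul_le_mul_of_nonneg_left (tq_mono (Dvd.intro_left _ rfl)
        (Nat.mul_pos (pow_pos hβ.pos _) (dv0 x hx))) hCL))
    (fun q hq => by
      obtain ⟨x, hx, rfl⟩ := Finset.mem_image.1 hq
      rw [fw]
      have := lW x hx
      rw [dw x hx] at this
      exact this.trans (mul_le_mul_of_nonneg_left (tq_mono (Dvd.intro_left _ rfl)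
        (Nat.mul_pos (pow_pos hβ.pos _) (dw0 x hx))) hCL))
    (fun f hf => by
      obtain ⟨e, he, rfl⟩ := mem0 f hf
      obtain ⟨h1, h2⟩ := Finset.mem_product.1 he
      rw [F0e e he]
      refine (hF e he).trans (le_of_eq ?_)
      have h3 := pbd_strip hβ hs1 hs1' hei hN (hV0' _ h1).2 (hW0' _ h2).2
        ((b : ℝ) / c * γ) (rd b c ρ e.1) ((b' : ℝ) / c' * γ) (rd b' c' ρ e.2)
      rw [vm _ h1, wm _ h2] at h3
      rw [h3]
      have r1 : rd b c ρ0 (e.1 / β ^ k) = rd b c ρ e.1 := by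
        unfold rd; rw [rhoV _ h1, vm _ h1]
      have r2 : rd b' c' ρ0 (N * (e.2 / β ^ k')) = rd b' c' ρ e.2 := by
        unfold rd; rw [rhoW _ h2, wm _ h2]
      simp only
      rw [r1, r2])
    (fun f hf h1 h2 h3 => by
      obtain ⟨e, he, rfl⟩ := mem0 f hf
      rw [Dqe e he] at h1 ⊢
      rw [F0e e he] at h2
      rw [FSe e he] at h3
      obtain ⟨r1, r2⟩ := rfe e he
      simp only
      rw [fw, ← r1, ← r2, Q0e e he]
      exact hFS' e he h1 h2 h3)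
  rw [hsumT] at key
  have hrest := hsum (fun e => 0 < F e ∧ (Dq ρ M b pr c M' b' pr' c' e ≤ 1/2^n ∧
      (ESI γ ρ M b pr c M' b' pr' c' e ∨ Qf e)))
    (fun e => 0 < F0 e ∧ (Dq ρ0 M0 b pr0 c M0' b' (N * pr0') c' e ≤ 1/2^n ∧
      (ESI γ ρ0 M0 b pr0 c M0' b' (N * pr0') c' e ∨ Q0 e))) (fun e he => by
      rw [F0e e he, Dqe e he, ESe e he, Q0e e he])
  refine key.trans (add_le_add ?_ (le_of_eq (by convert hrest)))
  have rV : ∀ q, 0 ≤ rd b c ρ q := fun q => mul_nonneg (by positivity) (hρ q).le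
  have rW : ∀ q, 0 ≤ rd b' c' ρ q := fun q => mul_nonneg (by positivity) (hρ q).le
  have sV : ∑ q ∈ V0, rd b c ρ0 q * tq (q / pr0) ≤ 2 * ∑ q ∈ V, rd b c ρ q * tq (q / pr) := by
    rw [hV0, Finset.sum_image hinjV, Finset.mul_sum]
    refine Finset.sum_le_sum fun q hq => ?_
    have r1 : rd b c ρ0 (q / β ^ k) = rd b c ρ q := by
      unfold rd; rw [rhoV _ hq, vm _ hq]
    rw [r1, ev q hq]
    have := mul_le_mul_of_nonneg_left (tq_strip (a := k - i) hβ (pv q hq)) (rV q)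
    linarith
  have sW : ∑ q ∈ W0, rd b' c' ρ0 q * tq (q / (N * pr0')) ≤ 2 * ∑ q ∈ W, rd b' c' ρ q * tq (q / pr') := by
    rw [hW0, Finset.sum_image hinjW, Finset.mul_sum]
    refine Finset.sum_le_sum fun q hq => ?_
    have r1 : rd b' c' ρ0 (N * (q / β ^ k')) = rd b' c' ρ q := by
      unfold rd; rw [rhoW _ hq, wm _ hq]
    rw [r1, fw, ew q hq]
    have := mul_le_mul_of_nonneg_left (tq_strip (a := k' - i') hβ (pw q hq)) (rW q)
    linarith
  have hρ0p : ∀ q, 0 < ρ0 q := fun q => by rw [hρ0]; simp only; split_ifs <;> exact hρ _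
  have rV0 : ∀ q, 0 ≤ rd b c ρ0 q := fun q => mul_nonneg (by positivity) (hρ0p _).le
  have rW0 : ∀ q, 0 ≤ rd b' c' ρ0 q := fun q => mul_nonneg (by positivity) (hρ0p _).le
  have nV : 0 ≤ ∑ q ∈ V0, rd b c ρ0 q * tq (q / pr0) :=
    Finset.sum_nonneg fun q _ => mul_nonneg (rV0 q) (tq_nonneg _)
  have nW : 0 ≤ ∑ q ∈ W0, rd b' c' ρ0 q * tq (q / (N * pr0')) :=
    Finset.sum_nonneg fun q _ => mul_nonneg (rW0 q) (tq_nonneg _)
  have nH : 0 ≤ ∑ q ∈ W0, om M0'.primeFactors (q / (N * pr0')) * (rd b' c' ρ0 q * tq (q / (N * pr0'))) :=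
    Finset.sum_nonneg fun q _ => mul_nonneg (om_nonneg _ _) (mul_nonneg (rW0 q) (tq_nonneg _))
  have sH : ∑ q ∈ W0, om M0'.primeFactors (q / (N * pr0')) * (rd b' c' ρ0 q * tq (q / (N * pr0'))) ≤
      ∑ q ∈ W0, rd b' c' ρ0 q * tq (q / (N * pr0')) :=
    Finset.sum_le_sum fun q _ => mul_le_of_le_one_left (mul_nonneg (rW0 q) (tq_nonneg _))
      (om_le_one (fun l hl => (Nat.prime_of_mem_primeFactors hl).pos) _)
  set X := ∑ q ∈ V, rd b c ρ q * tq (q / pr) with hX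
  set Y := ∑ q ∈ W, rd b' c' ρ q * tq (q / pr') with hY
  have nX : 0 ≤ X := Finset.sum_nonneg fun q _ => mul_nonneg (rV q) (tq_nonneg _)
  have nY : 0 ≤ Y := Finset.sum_nonneg fun q _ => mul_nonneg (rW q) (tq_nonneg _)
  have hlog : 0 ≤ (Real.log p)^3 := pow_nonneg (Real.log_natCast_nonneg p) 3
  have hpp0 : (0:ℝ) ≤ (p:ℝ)^(3/4000:ℝ) := by positivity
  have he1 : eps1 = 1/1000 := rfl
  refine add_le_add ?_ ?_
  · refine mul_le_mul_of_nonneg_left ?_ hlog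
    refine mul_le_mul ?_ ?_ (mul_nonneg (by norm_num) nW) (mul_nonneg (by norm_num) nX)
    · linarith
    · linarith
  · refine mul_le_mul_of_nonneg_left (mul_le_mul_of_nonneg_left ?_ hpp0) (by norm_num)
    refine Real.rpow_le_rpow (mul_nonneg (mul_nonneg (by norm_num) nV)
      (mul_nonneg (by norm_num) nH)) ?_ (by rw [he1]; norm_num)
    refine mul_le_mul ?_ ?_ (mul_nonneg (by norm_num) nH) (mul_nonneg (by norm_num) nX)
    · linarith
    · linarith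

/-! ### sum over the classes -/

/-- `∑ (x y)^s ≤ (∑ x ∑ y)^s`, `s ≥ 1/2` -/
theorem sum_rpow_le {ι : Type*} (T : Finset ι) {x y : ι → ℝ} {X Y s : ℝ} (hx : ∀ a ∈ T, 0 ≤ x a)
    (hy : ∀ a ∈ T, 0 ≤ y a) (hX : ∑ a ∈ T, x a ≤ X) (hY : ∑ a ∈ T, y a ≤ Y) (hs : 1/2 ≤ s) :
    ∑ a ∈ T, (x a * y a)^s ≤ (X * Y)^s := by
  have hX0 : 0 ≤ X := (Finset.sum_nonneg hx).trans hX
  have hY0 : 0 ≤ Y := (Finset.sum_nonneg hy).trans hY
  have hs0 : 0 < s := by linarith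
  have hxX : ∀ a ∈ T, x a ≤ X := fun a ha => (Finset.single_le_sum hx ha).trans hX
  have hyY : ∀ a ∈ T, y a ≤ Y := fun a ha => (Finset.single_le_sum hy ha).trans hY
  rcases hX0.eq_or_lt with h0 | hXp
  · have : ∀ a ∈ T, (x a * y a)^s = 0 := fun a ha => by
      have : x a = 0 := le_antisymm (h0 ▸ hxX a ha) (hx a ha)
      rw [this, zero_mul, Real.zero_rpow hs0.ne']
    rw [Finset.sum_eq_zero this]
    exact Real.rpow_nonneg (mul_nonneg hX0 hY0) _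
  rcases hY0.eq_or_lt with h0 | hYp
  · have : ∀ a ∈ T, (x a * y a)^s = 0 := fun a ha => by
      have : y a = 0 := le_antisymm (h0 ▸ hyY a ha) (hy a ha)
      rw [this, mul_zero, Real.zero_rpow hs0.ne']
    rw [Finset.sum_eq_zero this]
    exact Real.rpow_nonneg (mul_nonneg hX0 hY0) _
  have key : ∀ a ∈ T, (x a * y a)^s ≤ (X * Y)^s * ((x a / X + y a / Y) / 2) := by
    intro a ha
    have u0 : 0 ≤ x a / X := div_nonneg (hx a ha) hX0
    have v0 : 0 ≤ y a / Y := div_nonneg (hy a ha) hY0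
    have u1 : x a / X ≤ 1 := (div_le_one hXp).2 (hxX a ha)
    have v1 : y a / Y ≤ 1 := (div_le_one hYp).2 (hyY a ha)
    have e : x a * y a = (X * Y) * (x a / X * (y a / Y)) := by field_simp
    rw [e, Real.mul_rpow (mul_nonneg hX0 hY0) (mul_nonneg u0 v0)]
    refine mul_le_mul_of_nonneg_left ?_ (Real.rpow_nonneg (mul_nonneg hX0 hY0) _)
    have h1 : (x a / X * (y a / Y))^s ≤ (x a / X * (y a / Y))^(1/2:ℝ) := by
      rcases (mul_nonneg u0 v0).eq_or_lt with h | h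
      · rw [← h, Real.zero_rpow hs0.ne', Real.zero_rpow (by norm_num)]
      · exact Real.rpow_le_rpow_of_exponent_ge h (mul_le_one₀ u1 v0 v1) hs
    refine h1.trans ?_
    rw [← Real.sqrt_eq_rpow, Real.sqrt_le_left (by linarith)]
    nlinarith [sq_nonneg (x a / X - y a / Y)]
  calc ∑ a ∈ T, (x a * y a)^s ≤ ∑ a ∈ T, (X * Y)^s * ((x a / X + y a / Y) / 2) :=
        Finset.sum_le_sum key
    _ = (X * Y)^s * (((∑ a ∈ T, x a) / X + (∑ a ∈ T, y a) / Y) / 2) := by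
        rw [← Finset.mul_sum]
        congr 1
        rw [← Finset.sum_div, Finset.sum_add_distrib, Finset.sum_div, Finset.sum_div]
    _ ≤ (X * Y)^s * 1 := by
        refine mul_le_mul_of_nonneg_left ?_ (Real.rpow_nonneg (mul_nonneg hX0 hY0) _)
        have h1 := (div_le_one hXp).2 hX
        have h2 := (div_le_one hYp).2 hY
        linarith
    _ = _ := mul_one _

/-- `∑ x y ≤ ∑ x ∑ y` -/
lemma sum_mul_le {ι : Type*} (T : Finset ι) {x y : ι → ℝ} {X Y : ℝ} (hx : ∀ a ∈ T, 0 ≤ x a)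
    (hy : ∀ a ∈ T, 0 ≤ y a) (hX : ∑ a ∈ T, x a ≤ X) (hY : ∑ a ∈ T, y a ≤ Y) :
    ∑ a ∈ T, x a * y a ≤ X * Y := by
  have := sum_rpow_le T hx hy hX hY (s := 1) (by norm_num)
  simpa [Real.rpow_one] using this

/-- **equal effective exponents** at `β` -/
def Eb (β pr M pr' M' : ℕ) (e : ℕ × ℕ) : Prop :=
  (e.1 / pr).factorization β + M'.factorization β = (e.2 / pr').factorization β + M.factorization β

lemma St1.mk' {β pr M q : ℕ} (hβ : β.Prime) (hpr : 0 < pr) (hM : 0 < M) {k : ℕ}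
    (hk : pr.factorization β + M.factorization β ≤ k) :
    St1 β k (pr.factorization β) (M.factorization β) pr (ordCompl[β] pr) M (ordCompl[β] M) where
  hpr := (Nat.ordProj_mul_ordCompl_eq_self pr β).symm
  hM := (Nat.ordProj_mul_ordCompl_eq_self M β).symm
  ndM := Nat.not_dvd_ordCompl hβ hM.ne'
  le := hk
  pos := Nat.ordCompl_pos β hpr.ne'
  ndp := Nat.not_dvd_ordCompl hβ hpr.ne'

lemma fac_div {β pr q : ℕ} (hd : pr ∣ q) (hq : 0 < q) :
    q.factorization β = pr.factorization β + (q / pr).factorization β := by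
  have h1 : pr * (q / pr) = q := Nat.mul_div_cancel' hd
  have hpr : pr ≠ 0 := fun h => by rw [h, zero_mul] at h1; omega
  have hqp : q / pr ≠ 0 := fun h => by rw [h, mul_zero] at h1; omega
  conv_lhs => rw [← h1]
  rw [Nat.factorization_mul hpr hqp]
  rfl

lemma ex_pow {β q k : ℕ} (hβ : β.Prime) (hq : 0 < q) (hk : q.factorization β = k) :
    ∃ x, q = β ^ k * x ∧ ¬ β ∣ x :=
  ⟨ordCompl[β] q, by rw [← hk]; exact (Nat.ordProj_mul_ordCompl_eq_self q β).symm,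
    Nat.not_dvd_ordCompl hβ hq.ne'⟩

open Classical in
/-- **pairs with equal effective exponents**, all classes -/
theorem k_classE {CL : ℝ} {p₀ : ℕ}
    (hcol : KClsX CL p₀) {γ : ℝ} {ρ : ℕ → ℝ} {F : ℕ × ℕ → ℝ}
    {n p M b pr c M' b' pr' c' : ℕ} {V W : Finset ℕ} {β : ℕ} (hβ : β.Prime)
    (hmin : ¬ β ∣ M ∨ ¬ β ∣ M')
    (hp : p₀ ≤ p) (hn : n = ⌊1/4 * Real.log p / Real.log 2⌋₊) (hn1 : 1 ≤ n)
    (hρ : ∀ q, 0 < ρ q) (hb : 0 < b) (hc : 0 < c) (hb' : 0 < b') (hc' : 0 < c')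
    (hpr : 0 < pr) (hpr' : 0 < pr')
    (hCL : 0 ≤ CL * Real.log p)
    (hM : 0 < M) (hM' : 0 < M')
    (hMp : ∀ l : ℕ, l.Prime → l ∣ M → p ≤ l) (hMp' : ∀ l : ℕ, l.Prime → l ∣ M' → p ≤ l)
    (hs : ∑ l ∈ M.primeFactors, (l:ℝ)^(-(11/12):ℝ) ≤ 1)
    (hs' : ∑ l ∈ M'.primeFactors, (l:ℝ)^(-(11/12):ℝ) ≤ 1)
    (hV : ∀ q ∈ V, 0 < q ∧ pr ∣ q) (hW : ∀ q ∈ W, 0 < q ∧ pr' ∣ q)
    (oV : ∀ q ∈ V, ∀ l : ℕ, l.Prime → l ∣ M → l ≠ β → ¬ l ^ 2 ∣ q / pr)
    (oW : ∀ q ∈ W, ∀ l : ℕ, l.Prime → l ∣ M' → l ≠ β → ¬ l ^ 2 ∣ q / pr')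
    (tV : ∀ z : ℝ, (p:ℝ) ≤ z → ∀ q ∈ V, Crest.Agent.R4.ClsB.Tame z 1 (q / pr / M.gcd (q / pr)))
    (tW : ∀ z : ℝ, (p:ℝ) ≤ z → ∀ q ∈ W, Crest.Agent.R4.ClsB.Tame z 1 (q / pr' / M'.gcd (q / pr')))
    (lV : ∀ q ∈ V, 1 ≤ CL * Real.log p * tq (q / pr / M.gcd (q / pr)))
    (lW : ∀ q ∈ W, 1 ≤ CL * Real.log p * tq (q / pr' / M'.gcd (q / pr')))
    (hF : ∀ e ∈ V ×ˢ W, F e ≤ pbd ((b : ℝ) / c * γ) (rd b c ρ e.1) (e.1 / pr) M
      ((b' : ℝ) / c' * γ) (rd b' c' ρ e.2) (e.2 / pr') M') {Qf : ℕ × ℕ → Prop}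
    (hFS' : ∀ e ∈ V ×ˢ W, Eb β pr M pr' M' e → Dq ρ M b pr c M' b' pr' c' e ≤ 1/2^n → 0 < F e →
      FSI γ ρ n M b pr c M' b' pr' c' e →
      1 < 2 * ((rf (e.1 / pr) M : ℝ) * rf (e.2 / pr') M')^10 * Dq ρ M b pr c M' b' pr' c' e ∨ Qf e) :
    ∑ e ∈ (V ×ˢ W).filter (Eb β pr M pr' M'), F e ≤
      (Real.log p)^3 * ((16 * ∑ q ∈ V, rd b c ρ q * tq (q / pr)) *
        (16 * ∑ q ∈ W, rd b' c' ρ q * tq (q / pr'))) +
      2 * ((p:ℝ)^(3/4000:ℝ) * ((16 * ∑ q ∈ V, rd b c ρ q * tq (q / pr)) *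
        (16 * ∑ q ∈ W, rd b' c' ρ q * tq (q / pr')))^(1/2+eps1)) +
      ∑ e ∈ ((V ×ˢ W).filter (Eb β pr M pr' M')).filter (fun e => 0 < F e ∧
        (Dq ρ M b pr c M' b' pr' c' e ≤ 1/2^n ∧
          (ESI γ ρ M b pr c M' b' pr' c' e ∨ Qf e))), F e := by
  classical
  set m := M.factorization β with hm
  set m' := M'.factorization β with hm'
  set T := V.image (fun q => (q / pr).factorization β) with hT
  set Va : ℕ → Finset ℕ := fun a => V.filter (fun q => (q / pr).factorization β = a) with hVa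
  set Wa : ℕ → Finset ℕ := fun a => W.filter (fun r => a + m' = (r / pr').factorization β + m) with hWa
  -- the partition
  have part : ∀ (Q : ℕ × ℕ → Prop) [DecidablePred Q],
      ∑ e ∈ ((V ×ˢ W).filter (Eb β pr M pr' M')).filter Q, F e =
      ∑ a ∈ T, ∑ e ∈ (Va a ×ˢ Wa a).filter Q, F e := by
    intro Q _
    rw [← Finset.sum_fiberwise_of_maps_to (s := ((V ×ˢ W).filter (Eb β pr M pr' M')).filter Q) (t := T)
      (g := fun e => (e.1 / pr).factorization β) (fun e he => by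
        obtain ⟨h1, -⟩ := Finset.mem_filter.1 he
        obtain ⟨h1, -⟩ := Finset.mem_filter.1 h1
        exact Finset.mem_image_of_mem _ (Finset.mem_product.1 h1).1)]
    refine Finset.sum_congr rfl fun a _ => Finset.sum_congr ?_ fun _ _ => rfl
    ext e
    simp only [Finset.mem_filter, Finset.mem_product, hVa, hWa, Eb, ← hm, ← hm']
    constructor
    · rintro ⟨⟨⟨⟨h1, h2⟩, h3⟩, h4⟩, h5⟩
      exact ⟨⟨⟨h1, h5⟩, h2, by rw [← h5]; exact h3⟩, h4⟩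
    · rintro ⟨⟨⟨h1, h2⟩, h3, h4⟩, h5⟩
      exact ⟨⟨⟨⟨h1, h3⟩, by rw [h2]; exact h4⟩, h5⟩, h2⟩
  have partT : ∑ e ∈ (V ×ˢ W).filter (Eb β pr M pr' M'), F e = ∑ a ∈ T, ∑ e ∈ Va a ×ˢ Wa a, F e := by
    have := part (fun _ => True)
    simpa using this
  rw [partT, part]
  have hb0 : (0:ℝ) ≤ (b:ℝ) / c := by positivity
  have hb0' : (0:ℝ) ≤ (b':ℝ) / c' := by positivity
  have tV0 : ∀ q, 0 ≤ rd b c ρ q * tq (q / pr) := fun q =>
    mul_nonneg (mul_nonneg hb0 (hρ q).le) (tq_nonneg _)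
  have tW0 : ∀ q, 0 ≤ rd b' c' ρ q * tq (q / pr') := fun q =>
    mul_nonneg (mul_nonneg hb0' (hρ q).le) (tq_nonneg _)
  set X := ∑ q ∈ V, rd b c ρ q * tq (q / pr) with hX
  set Y := ∑ q ∈ W, rd b' c' ρ q * tq (q / pr') with hY
  set x : ℕ → ℝ := fun a => 16 * ∑ q ∈ Va a, rd b c ρ q * tq (q / pr) with hx
  set y : ℕ → ℝ := fun a => 16 * ∑ q ∈ Wa a, rd b' c' ρ q * tq (q / pr') with hy
  have x0 : ∀ a ∈ T, 0 ≤ x a := fun a _ =>
    mul_nonneg (by norm_num) (Finset.sum_nonneg fun q _ => tV0 q)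
  have y0 : ∀ a ∈ T, 0 ≤ y a := fun a _ =>
    mul_nonneg (by norm_num) (Finset.sum_nonneg fun q _ => tW0 q)
  have sx : ∑ a ∈ T, x a ≤ 16 * X := by
    rw [hx, ← Finset.mul_sum, hX, ← Finset.sum_fiberwise_of_maps_to (s := V) (t := T)
      (g := fun q => (q / pr).factorization β) (fun q hq => Finset.mem_image_of_mem _ hq)]
  have sy : ∑ a ∈ T, y a ≤ 16 * Y := by
    rw [hy, ← Finset.mul_sum, hY]
    refine mul_le_mul_of_nonneg_left ?_ (by norm_num)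
    rw [← Finset.sum_biUnion (fun a _ b _ hab => by
      rw [Function.onFun, Finset.disjoint_left]
      intro r h1 h2
      have e1 := (Finset.mem_filter.1 h1).2
      have e2 := (Finset.mem_filter.1 h2).2
      exact hab (by omega))]
    refine Finset.sum_le_sum_of_subset_of_nonneg (fun r hr => ?_) fun q _ _ => tW0 q
    obtain ⟨a, -, ha⟩ := Finset.mem_biUnion.1 hr
    exact (Finset.mem_filter.1 ha).1
  have one : ∀ a ∈ T, ∑ e ∈ Va a ×ˢ Wa a, F e ≤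
      (Real.log p)^3 * (x a * y a) + 2 * ((p:ℝ)^(3/4000:ℝ) * (x a * y a)^(1/2+eps1)) +
      ∑ e ∈ (Va a ×ˢ Wa a).filter (fun e => 0 < F e ∧ (Dq ρ M b pr c M' b' pr' c' e ≤ 1/2^n ∧
        (ESI γ ρ M b pr c M' b' pr' c' e ∨ Qf e))), F e := by
    intro a ha
    by_cases hWe : (Wa a).Nonempty
    · obtain ⟨r, hr⟩ := hWe
      have hr2 := (Finset.mem_filter.1 hr).2
      have hle : m ≤ a ∧ m' ≤ (r / pr').factorization β := by
        rcases hmin with h | h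
        · have : m = 0 := Nat.factorization_eq_zero_of_not_dvd h
          constructor <;> omega
        · have : m' = 0 := Nat.factorization_eq_zero_of_not_dvd h
          constructor <;> omega
      have subV : ∀ q ∈ Va a, q ∈ V ∧ (q / pr).factorization β = a := fun q hq => Finset.mem_filter.1 hq
      have subW : ∀ q ∈ Wa a, q ∈ W ∧ a + m' = (q / pr').factorization β + m := fun q hq =>
        Finset.mem_filter.1 hq
      have s1 : St1 β (pr.factorization β + a) (pr.factorization β) m pr (ordCompl[β] pr) M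
          (ordCompl[β] M) := St1.mk' (q := 0) hβ hpr hM (by omega)
      have s1' : St1 β (pr'.factorization β + (a + m' - m)) (pr'.factorization β) m' pr'
          (ordCompl[β] pr') M' (ordCompl[β] M') := St1.mk' (q := 0) hβ hpr' hM' (by omega)
      refine k_itemsE hcol hβ s1 s1' (by omega) hp hn hn1 hρ hb hc hb' hc' hCL hM hM' hMp hMp' hs hs'
        (fun q hq => hV q (subV q hq).1) (fun q hq => hW q (subW q hq).1)
        (fun q hq => ?_) (fun q hq => ?_)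
        (fun q hq => oV q (subV q hq).1) (fun q hq => oW q (subW q hq).1)
        (fun z hz q hq => tV z hz q (subV q hq).1) (fun z hz q hq => tW z hz q (subW q hq).1)
        (fun q hq => lV q (subV q hq).1) (fun q hq => lW q (subW q hq).1)
        (fun e he => ?_) (fun e he => ?_)
      · obtain ⟨h1, h2⟩ := subV q hq
        exact ex_pow hβ (hV q h1).1 (by rw [fac_div (hV q h1).2 (hV q h1).1, h2])
      · obtain ⟨h1, h2⟩ := subW q hq
        exact ex_pow hβ (hW q h1).1 (by rw [fac_div (hW q h1).2 (hW q h1).1]; omega)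
      · obtain ⟨h1, h2⟩ := Finset.mem_product.1 he
        exact hF e (Finset.mem_product.2 ⟨(subV _ h1).1, (subW _ h2).1⟩)
      · obtain ⟨h1, h2⟩ := Finset.mem_product.1 he
        refine hFS' e (Finset.mem_product.2 ⟨(subV _ h1).1, (subW _ h2).1⟩) ?_
        show (e.1 / pr).factorization β + m' = (e.2 / pr').factorization β + m
        rw [(subV _ h1).2]
        exact (subW _ h2).2
    · rw [Finset.not_nonempty_iff_eq_empty] at hWe
      have e1 : Va a ×ˢ Wa a = ∅ := by rw [hWe, Finset.product_empty]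
      have e2 : y a = 0 := by rw [hy]; simp only; rw [hWe, Finset.sum_empty, mul_zero]
      have he1 : eps1 = 1/1000 := rfl
      rw [e1, e2, Finset.filter_empty, Finset.sum_empty, mul_zero,
        Real.zero_rpow (by rw [he1]; norm_num)]
      simp
  refine (Finset.sum_le_sum one).trans ?_
  rw [Finset.sum_add_distrib, Finset.sum_add_distrib, ← Finset.mul_sum, ← Finset.mul_sum,
    ← Finset.mul_sum]
  have he1 : eps1 = 1/1000 := rfl
  refine add_le_add (add_le_add ?_ ?_) le_rfl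
  · exact mul_le_mul_of_nonneg_left (sum_mul_le T x0 y0 sx sy)
      (pow_nonneg (Real.log_natCast_nonneg p) 3)
  · exact mul_le_mul_of_nonneg_left (mul_le_mul_of_nonneg_left
      (sum_rpow_le T x0 y0 sx sy (by rw [he1]; norm_num)) (by positivity)) (by norm_num)

end Crest.Agent.R4P.ExcStrip32
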