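import Mathlib
import Crest.Agent.R4P.ShotTot_33
import Crest.Agent.R4P.ExcStrip_32

/-!
R4P (S0004), helper32, group [X]: **the one-shot number of the exceptional pairs** (equal effective exponents at the
crossing prime `s`), in the letters of `ShotP_33`; no gain, but also no condition on the classes.

* `shot_cls0` : one class, equal effective exponents;
* `shot_exc` : all the exceptional pairs of `V × W`.
-/

set_option autoImplicit false
open Finset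

namespace Crest.Agent.R4P.ShotExc32

open Crest.Agent.R4.HVW560 Crest.Agent.R4.Schur709 Crest.Agent.R4.StopHvw709
open Crest.Agent.R4.StopAsm709 Crest.Agent.R4.AvgItem710 Crest.Agent.R4.DeepSt579
open Crest.Agent.R4P.Rad800 Crest.Agent.R4P.StripP33 Crest.Agent.R4P.BrP33
open Crest.Agent.R4.ClsS (eps1)
open Crest.Agent.R4.OSCore709 Crest.Agent.R4.CrossShot709 Crest.Agent.R4.Bad223 Crest.Agent.R4.ShotG223
open Crest.Agent.R4.NMW710 (Dq)
open Crest.Agent.R4P.ShotP33 Crest.Agent.R4P.ExcStrip32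

lemma dex_zero {a m a' m' : ℕ} (h : a + m' = a' + m) (h0 : m = 0 ∨ m' = 0) : dex a m a' m' = 0 := by
  unfold dex; omega

lemma acc_zero' {b : ℕ} (h : 2 ≤ Real.log b) : acc 1 b 0 = 0 := acc_zero h

open Crest.Agent.R4.ClsB (Tame) in
set_option maxHeartbeats 2000000 in
open Classical in
/-- **the one-shot number of one class, equal effective exponents** -/
theorem shot_cls0 {CL C0 : ℝ} (hCL : 1 ≤ CL) (hC0 : 0 ≤ C0) : ∃ cl₀ : ℝ, 0 < cl₀ ∧ ∀ cl : ℝ, cl₀ ≤ cl →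
    ∃ s₁ : ℕ, 3 ≤ s₁ ∧
    (∀ s : ℕ, s₁ ≤ s → 400 ≤ lev cl s ∧ (Real.log s)^cl ≤ (2:ℝ)^(lev cl s) ∧
      (2:ℝ)^(lev cl s) ≤ (Real.log s)^(cl+1) ∧ 2 ≤ Real.log s) ∧
    ∀ (s M b pr c M' b' pr' c' a a' a₀ : ℕ) (γ : ℝ) (ρ : ℕ → ℝ) (V W : Finset ℕ) (F : ℕ × ℕ → ℝ)
    (Q : ℕ × ℕ → Prop),
    s₁ ≤ s → s.Prime → 1 ≤ a₀ → (∀ q, 0 < ρ q) →
    0 < b → 0 < c → 0 < b' → 0 < c' → 0 < M → 0 < M' →
    (∀ l : ℕ, l.Prime → l ∣ M → l ≠ s → s ≤ l) → (∀ l : ℕ, l.Prime → l ∣ M' → l ≠ s → s ≤ l) →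
    ∑ l ∈ M.primeFactors.erase s, (l:ℝ)^(-(11/12):ℝ) ≤ 1 →
    ∑ l ∈ M'.primeFactors.erase s, (l:ℝ)^(-(11/12):ℝ) ≤ 1 →
    a + M'.factorization s = a' + M.factorization s → (M.factorization s = 0 ∨ M'.factorization s = 0) →
    (∀ q ∈ V, Sd s M pr a q) → (∀ q ∈ W, Sd s M' pr' a' q) →
    (∀ z : ℝ, (s:ℝ) ≤ z → ∀ q ∈ V, Tame z 1 (q / pr / M.gcd (q / pr))) →
    (∀ z : ℝ, (s:ℝ) ≤ z → ∀ q ∈ W, Tame z 1 (q / pr' / M'.gcd (q / pr'))) →
    (∀ q ∈ V, 1 ≤ CL * Real.log s * tq (q / pr / M.gcd (q / pr))) →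
    (∀ q ∈ W, 1 ≤ CL * Real.log s * tq (q / pr' / M'.gcd (q / pr'))) →
    (∀ e ∈ V ×ˢ W, Dq ρ M b pr c M' b' pr' c' e ≤ 1 →
      F e ≤ (Real.log s)^C0 * (rd b c ρ e.1 * rd b' c' ρ e.2 / Dq ρ M b pr c M' b' pr' c' e)) →
    (∀ e ∈ V ×ˢ W, Dq ρ M b pr c M' b' pr' c' e ≤ 1/2^(lev cl s) → 0 < F e →
      RelI γ ρ M b pr c M' b' pr' c' e) →
    (∀ e ∈ V ×ˢ W, Dq ρ M b pr c M' b' pr' c' e ≤ 1/2^(lev cl s) → 0 < F e →
      FSs s γ ρ (lev cl s) M b pr c M' b' pr' c' a a' e →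
      1 < 2 * ((a₀ * rf (itm s pr e.1) (st s M) * rf (itm s pr' e.2) (st s M') : ℕ) : ℝ)^10 *
        Dq ρ M b pr c M' b' pr' c' e ∨ Q e) →
    ∑ e ∈ (V ×ˢ W).filter (fun e => Dq ρ M b pr c M' b' pr' c' e ≤ 1), F e ≤
      (Real.log s)^(C0 + 7 + cl/500) * (
        ((∑ q ∈ V, rd b c ρ q * tq (q / pr)) * (∑ q ∈ W, rd b' c' ρ q * tq (q / pr')))^(1/2+eps1) +
        ((∑ q ∈ V, rd b c ρ q * tq (q / pr)) * (∑ q ∈ W, rd b' c' ρ q * tq (q / pr')))^(1/2:ℝ) +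
        (a₀:ℝ)^(6/1000:ℝ) *
          ((∑ q ∈ V, rd b c ρ q * tq (q / pr)) * (∑ q ∈ W, rd b' c' ρ q * tq (q / pr')))^(1/2+eps2)) +
      ∑ e ∈ (V ×ˢ W).filter (fun e => 0 < F e ∧ (Dq ρ M b pr c M' b' pr' c' e ≤ 1/2^(lev cl s) ∧ Q e)),
        F e := by
  have he1 : eps1 = 1/1000 := rfl
  have he2 : eps2 = 1/4000 := rfl
  obtain ⟨cl₀, hcl₀, hT⟩ := Crest.Agent.R4P.LowT33.shot_T hCL hC0
  refine ⟨cl₀, hcl₀, fun cl hcl => ?_⟩
  obtain ⟨b₁, hb₁, hlev, hmain⟩ := hT cl hcl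
  obtain ⟨x1, hx1⟩ := Filter.eventually_atTop.1
    (Real.tendsto_log_atTop.eventually_ge_atTop (256 * CL))
  refine ⟨max b₁ ⌈x1⌉₊, hb₁.trans (le_max_left _ _), fun s hs => hlev s ((le_max_left _ _).trans hs), ?_⟩
  intro s M b pr c M' b' pr' c' a a' a₀ γ ρ V W F Q hs₁ hs ha₀ hρ hb hc hb' hc' hM hM' hMs hMs'
    hsM hsM' hne hmin hV hW tV tW lV lW hF hrel hFG
  have hsb : b₁ ≤ s := (le_max_left _ _).trans hs₁
  obtain ⟨hl400, hl1, hl2, hlog⟩ := hlev s hsb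
  have hl256 : 256 * CL ≤ Real.log s := hx1 s ((Nat.le_ceil _).trans (by exact_mod_cast (le_max_right _ _).trans hs₁))
  set ℓ := Real.log s with hℓ
  have hℓ0 : 0 < ℓ := by linarith
  have hℓ1 : 1 ≤ ℓ := by linarith
  have hs2 : 2 ≤ s := hs.two_le
  have hs0 : (0:ℝ) < s := by exact_mod_cast hs.pos
  set m := M.factorization s with hm
  set m' := M'.factorization s with hm'
  set P := PL s a m a' m' with hP
  set P' := PL s a' m' a m with hP'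
  set ex' := dex a m a' m' with hex'
  have hPP : P * P' = s ^ ex' := PL_mul s a m a' m'
  have hex0 : ex' = 0 := dex_zero hne hmin
  have hP0 : 0 < P := PL_pos hs.pos
  have hP0' : 0 < P' := PL_pos hs.pos
  have hP0r : (0:ℝ) < P := by exact_mod_cast hP0
  have hP0r' : (0:ℝ) < P' := by exact_mod_cast hP0'
  have hst := st_pos (s := s) hM
  have hst' := st_pos (s := s) hM'
  have xM : (1:ℝ) ≤ ex (st s M) := by exact_mod_cast ex_pos hst
  have xM' : (1:ℝ) ≤ ex (st s M') := by exact_mod_cast ex_pos hst'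
  set E : ℝ := (ex (st s M) : ℝ) * ex (st s M') with hE
  have hE1 : 1 ≤ E := by rw [hE]; nlinarith
  have hrd : ∀ q, 0 < rd b c ρ q := fun q => mul_pos (div_pos (by exact_mod_cast hb) (by exact_mod_cast hc)) (hρ q)
  have hrd' : ∀ q, 0 < rd b' c' ρ q := fun q =>
    mul_pos (div_pos (by exact_mod_cast hb') (by exact_mod_cast hc')) (hρ q)
  set O' := (st s M).primeFactors with hO'
  set O := (st s M').primeFactors with hO
  have hOp : ∀ l ∈ O, l.Prime ∧ s ≤ l := fun l hl => by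
    rw [hO, pf_st hs hM', Finset.mem_erase] at hl
    have h2 := Nat.prime_of_mem_primeFactors hl.2
    exact ⟨h2, hMs' l h2 (Nat.dvd_of_mem_primeFactors hl.2) hl.1⟩
  have hOp' : ∀ l ∈ O', l.Prime ∧ s ≤ l := fun l hl => by
    rw [hO', pf_st hs hM, Finset.mem_erase] at hl
    have h2 := Nat.prime_of_mem_primeFactors hl.2
    exact ⟨h2, hMs l h2 (Nat.dvd_of_mem_primeFactors hl.2) hl.1⟩
  have hsO : ∑ p ∈ O, (p:ℝ)^(-(11/12):ℝ) ≤ 1 := by rw [hO, pf_st hs hM']; exact hsM'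
  have hsO' : ∑ p ∈ O', (p:ℝ)^(-(11/12):ℝ) ≤ 1 := by rw [hO', pf_st hs hM]; exact hsM
  have hs1 : ∑ p ∈ O, 1/(p:ℝ) ≤ 1 :=
    (Finset.sum_le_sum fun p hp => Crest.Agent.R4.ShotFF223.inv_le_pow (hOp p hp).1.one_lt.le).trans hsO
  have hs1' : ∑ p ∈ O', 1/(p:ℝ) ≤ 1 :=
    (Finset.sum_le_sum fun p hp => Crest.Agent.R4.ShotFF223.inv_le_pow (hOp' p hp).1.one_lt.le).trans hsO'
  set V0 := V.image (itm s pr) with hV0
  set W0 := W.image (itm s pr') with hW0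
  set R := Rb s M P b pr c a ρ with hR
  set R' := Rb s M' P' b' pr' c' a' ρ with hR'
  set gL := gb s M P ((b : ℝ) / c * γ) with hgL
  set gR := gb s M' P' ((b' : ℝ) / c' * γ) with hgR
  set κ : ℝ := ((ex (st s M) : ℝ) * P) * ((ex (st s M') : ℝ) * P') with hκ
  have hκ0 : 0 < κ := by rw [hκ]; positivity
  have hκE : κ = E := by
    have : ((P * P' : ℕ) : ℝ) = 1 := by rw [hPP, hex0]; push_cast; ring
    have h2 : κ = E * ((P * P' : ℕ) : ℝ) := by rw [hκ, hE]; push_cast; ring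
    rw [h2, this, mul_one]
  set F0 : ℕ × ℕ → ℝ := fun f => κ * F (bk s pr a f.1, bk s pr' a' f.2) with hF0
  have hDc : ∀ e ∈ V ×ˢ W, Dc O O' R R' (itm s pr e.1, itm s pr' e.2) = Dq ρ M b pr c M' b' pr' c' e := fun e he =>
    Dc_br hs hM hM' (hV _ (Finset.mem_product.1 he).1) (hW _ (Finset.mem_product.1 he).2) b c b' c' ρ
  have hF0e : ∀ e ∈ V ×ˢ W, F0 (itm s pr e.1, itm s pr' e.2) = κ * F e := fun e he => by
    rw [hF0]; simp only
    rw [(hV _ (Finset.mem_product.1 he).1).bk_eq, (hW _ (Finset.mem_product.1 he).2).bk_eq]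
  have mem0 : ∀ f ∈ V0 ×ˢ W0, ∃ e ∈ V ×ˢ W, f = (itm s pr e.1, itm s pr' e.2) := fun f hf => by
    rw [hV0, hW0, prod_img] at hf
    obtain ⟨e, he, rfl⟩ := Finset.mem_image.1 hf
    exact ⟨e, he, rfl⟩
  have hRe : ∀ q ∈ V, R (itm s pr q) = (ex (st s M) : ℝ) * (P * rd b c ρ q) := fun q hq => (hV q hq).Rb_eq P b c ρ
  have hRe' : ∀ q ∈ W, R' (itm s pr' q) = (ex (st s M') : ℝ) * (P' * rd b' c' ρ q) := fun q hq =>
    (hW q hq).Rb_eq P' b' c' ρ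
  have muV : ∀ q ∈ V, mu O' R (itm s pr q) =
      (ex (st s M) : ℝ) * (P * rd b c ρ q) * tq (itm s pr q / (st s M).gcd (itm s pr q)) := fun q hq =>
    (hV q hq).mu_eq hs hM P b c ρ
  have muW : ∀ q ∈ W, mu O R' (itm s pr' q) =
      (ex (st s M') : ℝ) * (P' * rd b' c' ρ q) * tq (itm s pr' q / (st s M').gcd (itm s pr' q)) := fun q hq =>
    (hW q hq).mu_eq hs hM' P' b' c' ρ
  have gV : ∀ q ∈ V, gL (miss O' (itm s pr q)) = (rf (itm s pr q) (st s M) : ℕ) * ((P : ℝ) * ((b : ℝ) / c * γ)) :=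
    fun q hq => (hV q hq).gb_eq hs hM P _
  have gW : ∀ q ∈ W, gR (miss O (itm s pr' q)) =
      (rf (itm s pr' q) (st s M') : ℕ) * ((P' : ℝ) * ((b' : ℝ) / c' * γ)) :=
    fun q hq => (hW q hq).gb_eq hs hM' P' _
  have uV : ∀ q ∈ V, uu O' (itm s pr q) = ui s M pr q := fun q hq => (hV q hq).uu_eq hs hM
  have uW : ∀ q ∈ W, uu O (itm s pr' q) = ui s M' pr' q := fun q hq => (hW q hq).uu_eq hs hM'
  have cV : ∀ q ∈ V, Rc O' R (itm s pr q) = (rf (itm s pr q) (st s M) : ℕ) * ((P : ℝ) * rd b c ρ q) :=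
    fun q hq => (hV q hq).Rc_eq hs hM P b c ρ
  have cW : ∀ q ∈ W, Rc O R' (itm s pr' q) = (rf (itm s pr' q) (st s M') : ℕ) * ((P' : ℝ) * rd b' c' ρ q) :=
    fun q hq => (hW q hq).Rc_eq hs hM' P' b' c' ρ
  set A₁ : ℝ := a₀ * E^2 with hA₁
  have ha1 : (1:ℝ) ≤ a₀ := by exact_mod_cast ha₀
  have hE21 : 1 ≤ E^2 := one_le_pow₀ hE1
  have hA₁1 : 1 ≤ A₁ := by
    rw [hA₁]
    nlinarith
  -- the plain theorem
  have key := hmain s 1 s O O' V0 W0 R R' gL gR F0 (fun f => Q (bk s pr a f.1, bk s pr' a' f.2)) 1 A₁ 0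
    hsb one_pos hA₁1 hOp hOp' hsO hsO'
    (by
      intro w hw
      obtain ⟨q, hq, rfl⟩ := Finset.mem_image.1 hw
      refine ⟨(hV q hq).i0, ?_⟩
      rw [hRe q hq]; have := hrd q; positivity)
    (by
      intro w hw
      obtain ⟨q, hq, rfl⟩ := Finset.mem_image.1 hw
      refine ⟨(hW q hq).i0, ?_⟩
      rw [hRe' q hq]; have := hrd' q; positivity)
    (by
      intro w hw
      obtain ⟨q, hq, rfl⟩ := Finset.mem_image.1 hw
      rw [hRe q hq, muV q hq]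
      have h1 := lV q hq
      have h2 := (hV q hq).tq_ge hs hM
      have h3 : 1 ≤ CL * ℓ * tq (itm s pr q / (st s M).gcd (itm s pr q)) :=
        h1.trans (mul_le_mul_of_nonneg_left h2 (by positivity))
      have h4 : 0 ≤ (ex (st s M) : ℝ) * (P * rd b c ρ q) := by have := hrd q; positivity
      calc (ex (st s M) : ℝ) * (P * rd b c ρ q) = (ex (st s M) : ℝ) * (P * rd b c ρ q) * 1 := (mul_one _).symm
        _ ≤ _ := mul_le_mul_of_nonneg_left h3 h4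
        _ = _ := by ring)
    (by
      intro w hw
      obtain ⟨q, hq, rfl⟩ := Finset.mem_image.1 hw
      rw [hRe' q hq, muW q hq]
      have h1 := lW q hq
      have h2 := (hW q hq).tq_ge hs hM'
      have h3 : 1 ≤ CL * ℓ * tq (itm s pr' q / (st s M').gcd (itm s pr' q)) :=
        h1.trans (mul_le_mul_of_nonneg_left h2 (by positivity))
      have h4 : 0 ≤ (ex (st s M') : ℝ) * (P' * rd b' c' ρ q) := by have := hrd' q; positivity
      calc (ex (st s M') : ℝ) * (P' * rd b' c' ρ q) =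
          (ex (st s M') : ℝ) * (P' * rd b' c' ρ q) * 1 := (mul_one _).symm
        _ ≤ _ := mul_le_mul_of_nonneg_left h3 h4
        _ = _ := by ring)
    (by
      intro z hz w hw
      obtain ⟨q, hq, rfl⟩ := Finset.mem_image.1 hw
      exact (hV q hq).tame hs hM (tV z hz q hq))
    (by
      intro z hz w hw
      obtain ⟨q, hq, rfl⟩ := Finset.mem_image.1 hw
      exact (hW q hq).tame hs hM' (tW z hz q hq))
    (by
      intro f hf h1
      obtain ⟨e, he, rfl⟩ := mem0 f hf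
      obtain ⟨k1, k2⟩ := Finset.mem_product.1 he
      rw [hDc e he] at h1 ⊢
      rw [hF0e e he]
      simp only
      rw [hRe _ k1, hRe' _ k2]
      calc κ * F e ≤ κ * (ℓ^C0 * (rd b c ρ e.1 * rd b' c' ρ e.2 / Dq ρ M b pr c M' b' pr' c' e)) :=
            mul_le_mul_of_nonneg_left (hF e he h1) hκ0.le
        _ = _ := by rw [hκ]; ring)
    (by
      intro f hf h1 h2
      obtain ⟨e, he, rfl⟩ := mem0 f hf
      obtain ⟨k1, k2⟩ := Finset.mem_product.1 he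
      rw [hDc e he] at h1
      rw [hF0e e he] at h2
      have h2 : 0 < F e := (mul_pos_iff_of_pos_left hκ0).1 h2
      obtain ⟨j, j', hj⟩ := hrel e he h1 h2
      refine ⟨bL s a m a' m' * j, bL s a' m' a m * j', ?_⟩
      rw [hDc e he]
      simp only
      rw [gV _ k1, gW _ k2, uV _ k1, uW _ k2]
      refine le_trans (le_of_eq ?_) hj
      have c1 := cof_st hs (hV _ k1).w0 hM (hW _ k2).w0 hM'
      have c2 := cof_st hs (hW _ k2).w0 hM' (hV _ k1).w0 hM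
      rw [(hV _ k1).fa, (hW _ k2).fa] at c1 c2
      have r1 : ((bL s a m a' m' : ℕ) : ℝ) * (rf (e.1 / pr) M : ℕ) = (P : ℝ) * (rf (itm s pr e.1) (st s M) : ℕ) := by
        exact_mod_cast (hV _ k1).brf hs hM a' m'
      have r2 : ((bL s a' m' a m : ℕ) : ℝ) * (rf (e.2 / pr') M' : ℕ) =
          (P' : ℝ) * (rf (itm s pr' e.2) (st s M') : ℕ) := by
        exact_mod_cast (hW _ k2).brf hs hM' a m
      rw [c1, c2]
      congr 1
      have q1 : (rf (itm s pr e.1) (st s M) : ℕ) * ((P : ℝ) * ((b : ℝ) / c * γ)) =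
          (bL s a m a' m' : ℝ) * ((rf (e.1 / pr) M : ℕ) * ((b : ℝ) / c * γ)) := by
        linear_combination (-((b : ℝ) / c * γ)) * r1
      have q2 : (rf (itm s pr' e.2) (st s M') : ℕ) * ((P' : ℝ) * ((b' : ℝ) / c' * γ)) =
          (bL s a' m' a m : ℝ) * ((rf (e.2 / pr') M' : ℕ) * ((b' : ℝ) / c' * γ)) := by
        linear_combination (-((b' : ℝ) / c' * γ)) * r2
      rw [q1, q2]
      have bl1 : bL s a m a' m' = s ^ (a' - M'.factorization s - (a - M.factorization s)) := rfl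
      have bl2 : bL s a' m' a m = s ^ (a - M.factorization s - (a' - M'.factorization s)) := rfl
      rw [← bl1, ← bl2]
      unfold ui itm
      push_cast
      ring)
    (by
      intro f hf h1 h2 h3
      obtain ⟨e, he, rfl⟩ := mem0 f hf
      obtain ⟨k1, k2⟩ := Finset.mem_product.1 he
      have hd0 : 0 < Dc O O' R R' (itm s pr e.1, itm s pr' e.2) := by
        refine Dc_pos (N := s) hOp hOp' ?_ (hW _ k2).i0
        rw [hRe _ k1]; have := hrd e.1; positivity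
      rw [hDc e he] at h1 hd0 ⊢
      rw [hF0e e he] at h2
      have h2 : 0 < F e := (mul_pos_iff_of_pos_left hκ0).1 h2
      have r1 : ((bL s a m a' m' : ℕ) : ℝ) * (rf (e.1 / pr) M : ℕ) = (P : ℝ) * (rf (itm s pr e.1) (st s M) : ℕ) := by
        exact_mod_cast (hV _ k1).brf hs hM a' m'
      have r2 : ((bL s a' m' a m : ℕ) : ℝ) * (rf (e.2 / pr') M' : ℕ) =
          (P' : ℝ) * (rf (itm s pr' e.2) (st s M') : ℕ) := by
        exact_mod_cast (hW _ k2).brf hs hM' a m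
      have hFS : FSs s γ ρ (lev cl s) M b pr c M' b' pr' c' a a' e := by
        have h3' : FS (lev cl s) (gL (miss O' (itm s pr e.1))) (gR (miss O (itm s pr' e.2)))
          (cof (uu O' (itm s pr e.1)) (uu O (itm s pr' e.2))) (cof (uu O (itm s pr' e.2)) (uu O' (itm s pr e.1)))
          (Rc O' R (itm s pr e.1)) (Rc O R' (itm s pr' e.2)) := h3
        rw [gV _ k1, gW _ k2, uV _ k1, uW _ k2, cV _ k1, cW _ k2] at h3'
        unfold FSs
        have q : ∀ x : ℝ, (rf (itm s pr e.1) (st s M) : ℕ) * ((P : ℝ) * x) =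
            (bL s a m a' m' : ℝ) * ((rf (e.1 / pr) M : ℕ) * x) := fun x => by linear_combination (-x) * r1
        have q' : ∀ x : ℝ, (rf (itm s pr' e.2) (st s M') : ℕ) * ((P' : ℝ) * x) =
            (bL s a' m' a m : ℝ) * ((rf (e.2 / pr') M' : ℕ) * x) := fun x => by linear_combination (-x) * r2
        rw [q, q, q', q'] at h3'
        exact h3'
      rcases hFG e he h1 h2 hFS with h4 | h4
      swap
      · right; right
        simp only
        rw [(hV _ k1).bk_eq, (hW _ k2).bk_eq]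
        exact h4
      have hmm := one_le_mm (O := O) (O' := O') (fun p hp => (hOp p hp).1.pos) (fun p hp => (hOp' p hp).1.pos)
        (itm s pr e.1, itm s pr' e.2)
      have hrr : ((rf (itm s pr e.1) (st s M) * rf (itm s pr' e.2) (st s M') : ℕ) : ℝ) =
          E * mm O O' (itm s pr e.1, itm s pr' e.2) := by
        have g1 := ((hV _ k1).once hs hM).miss hst (hV _ k1).i0
        have g2 := ((hW _ k2).once hs hM').miss hst' (hW _ k2).i0
        rw [← g1, ← g2, hE]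
        unfold mm
        push_cast
        ring
      left
      have hmm0 : 0 < mm O O' (itm s pr e.1, itm s pr' e.2) := lt_of_lt_of_le one_pos hmm
      have e1 : ((a₀ * rf (itm s pr e.1) (st s M) * rf (itm s pr' e.2) (st s M') : ℕ) : ℝ) =
          a₀ * (E * mm O O' (itm s pr e.1, itm s pr' e.2)) := by
        rw [← hrr]; push_cast; ring
      rw [e1] at h4
      refine lt_of_lt_of_le h4 ?_
      have hE0 : 0 < E := by linarith
      have hEm : 1 ≤ E * mm O O' (itm s pr e.1, itm s pr' e.2) := by nlinarith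
      have h5 : (a₀:ℝ) * (E * mm O O' (itm s pr e.1, itm s pr' e.2)) ≤
          A₁ * (mm O O' (itm s pr e.1, itm s pr' e.2))^2 := by
        have h6 : E * mm O O' (itm s pr e.1, itm s pr' e.2) ≤
            E^2 * (mm O O' (itm s pr e.1, itm s pr' e.2))^2 := by nlinarith [mul_pos hE0 hmm0]
        rw [hA₁]
        calc _ ≤ (a₀:ℝ) * (E^2 * (mm O O' (itm s pr e.1, itm s pr' e.2))^2) :=
              mul_le_mul_of_nonneg_left h6 (by positivity)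
          _ = _ := by ring
      gcongr)
  -- the sums
  have hsumL : ∑ f ∈ (V0 ×ˢ W0).filter (fun f => Dc O O' R R' f ≤ 1), F0 f =
      κ * ∑ e ∈ (V ×ˢ W).filter (fun e => Dq ρ M b pr c M' b' pr' c' e ≤ 1), F e := by
    have := sum_br hV hW κ F (fun e => Dq ρ M b pr c M' b' pr' c' e ≤ 1) (fun f => Dc O O' R R' f ≤ 1)
      (fun e he => by rw [hDc e he])
    convert this
  have hsumQ : ∑ f ∈ (V0 ×ˢ W0).filter (fun f => 0 < F0 f ∧ (Dc O O' R R' f ≤ 1/2^(lev cl s) ∧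
        Q (bk s pr a f.1, bk s pr' a' f.2))), F0 f =
      κ * ∑ e ∈ (V ×ˢ W).filter (fun e => 0 < F e ∧ (Dq ρ M b pr c M' b' pr' c' e ≤ 1/2^(lev cl s) ∧ Q e)),
        F e := by
    have := sum_br hV hW κ F (fun e => 0 < F e ∧ (Dq ρ M b pr c M' b' pr' c' e ≤ 1/2^(lev cl s) ∧ Q e))
      (fun f => 0 < F0 f ∧ (Dc O O' R R' f ≤ 1/2^(lev cl s) ∧ Q (bk s pr a f.1, bk s pr' a' f.2)))
      (fun e he => by
        rw [hDc e he, hF0e e he, mul_pos_iff_of_pos_left hκ0]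
        simp only
        rw [(hV _ (Finset.mem_product.1 he).1).bk_eq, (hW _ (Finset.mem_product.1 he).2).bk_eq])
    convert this
  rw [hsumL, hsumQ] at key
  -- numbers
  set x := ∑ q ∈ V, rd b c ρ q * tq (q / pr) with hx
  set y := ∑ q ∈ W, rd b' c' ρ q * tq (q / pr') with hy
  have x0 : 0 ≤ x := Finset.sum_nonneg fun q _ => mul_nonneg (hrd q).le (tq_nonneg _)
  have y0 : 0 ≤ y := Finset.sum_nonneg fun q _ => mul_nonneg (hrd' q).le (tq_nonneg _)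
  have xy0 : 0 ≤ x * y := mul_nonneg x0 y0
  have sV := mass_br hs hM hV P b c (fun q => (hρ q).le) hs1'
  have sW := mass_br hs hM' hW P' b' c' (fun q => (hρ q).le) hs1
  have nV := mass_nonneg hs hM hV P b c (fun q => (hρ q).le)
  have nW := mass_nonneg hs hM' hW P' b' c' (fun q => (hρ q).le)
  set SV := ∑ w ∈ V0, mu O' R w with hSV
  set SW := ∑ w ∈ W0, mu O R' w with hSW
  have sV' : SV ≤ (ex (st s M) * P : ℝ) * (16 * x) := sV
  have sW' : SW ≤ (ex (st s M') * P' : ℝ) * (16 * y) := sW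
  have nV' : 0 ≤ SV := nV
  have nW' : 0 ≤ SW := nW
  have hprod : SV * SW ≤ κ * (256 * (x * y)) := by
    calc SV * SW ≤ ((ex (st s M) * P : ℝ) * (16 * x)) * ((ex (st s M') * P' : ℝ) * (16 * y)) :=
          mul_le_mul sV' sW' nW' (nV'.trans sV')
      _ = _ := by rw [hκ]; ring
  have rV : ∑ w ∈ V0, R w ≤ CL * ℓ * SV := by
    rw [hSV, Finset.mul_sum]
    refine Finset.sum_le_sum fun w hw => ?_
    obtain ⟨q, hq, rfl⟩ := Finset.mem_image.1 hw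
    rw [hRe q hq, muV q hq]
    have h3 : 1 ≤ CL * ℓ * tq (itm s pr q / (st s M).gcd (itm s pr q)) :=
      (lV q hq).trans (mul_le_mul_of_nonneg_left ((hV q hq).tq_ge hs hM) (by positivity))
    have h4 : 0 ≤ (ex (st s M) : ℝ) * (P * rd b c ρ q) := by have := hrd q; positivity
    calc (ex (st s M) : ℝ) * (P * rd b c ρ q) = (ex (st s M) : ℝ) * (P * rd b c ρ q) * 1 := (mul_one _).symm
      _ ≤ _ := mul_le_mul_of_nonneg_left h3 h4
      _ = _ := by ring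
  have rW : ∑ w ∈ W0, R' w ≤ CL * ℓ * SW := by
    rw [hSW, Finset.mul_sum]
    refine Finset.sum_le_sum fun w hw => ?_
    obtain ⟨q, hq, rfl⟩ := Finset.mem_image.1 hw
    rw [hRe' q hq, muW q hq]
    have h3 : 1 ≤ CL * ℓ * tq (itm s pr' q / (st s M').gcd (itm s pr' q)) :=
      (lW q hq).trans (mul_le_mul_of_nonneg_left ((hW q hq).tq_ge hs hM') (by positivity))
    have h4 : 0 ≤ (ex (st s M') : ℝ) * (P' * rd b' c' ρ q) := by have := hrd' q; positivity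
    calc (ex (st s M') : ℝ) * (P' * rd b' c' ρ q) =
        (ex (st s M') : ℝ) * (P' * rd b' c' ρ q) * 1 := (mul_one _).symm
      _ ≤ _ := mul_le_mul_of_nonneg_left h3 h4
      _ = _ := by ring
  have rV0 : 0 ≤ ∑ w ∈ V0, R w := Finset.sum_nonneg fun w hw => by
    obtain ⟨q, hq, rfl⟩ := Finset.mem_image.1 hw
    rw [hRe q hq]; have := hrd q; positivity
  have rW0 : 0 ≤ ∑ w ∈ W0, R' w := Finset.sum_nonneg fun w hw => by
    obtain ⟨q, hq, rfl⟩ := Finset.mem_image.1 hw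
    rw [hRe' q hq]; have := hrd' q; positivity
  have gl : ∀ δ : ℝ, δ ≤ 1/100 → κ^(-(1/2-δ)) ≤ 1 := fun δ hδ => by
    rw [hκE]; exact Real.rpow_le_one_of_one_le_of_nonpos hE1 (by linarith)
  have pwr : ∀ δ : ℝ, 0 ≤ δ → δ ≤ 1/100 →
      (κ * (256 * (x * y)))^(1/2+δ) ≤ κ * (κ^(-(1/2-δ)) * (256 * (x * y)^(1/2+δ))) := fun δ h1 h2 => by
    rw [pow_split hκ0 (by positivity), Real.mul_rpow (by norm_num) xy0]
    have h3 : (256:ℝ)^(1/2+δ) ≤ 256 := by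
      calc (256:ℝ)^(1/2+δ) ≤ (256:ℝ)^(1:ℝ) := Real.rpow_le_rpow_of_exponent_le (by norm_num) (by linarith)
        _ = 256 := Real.rpow_one _
    gcongr
  have T1 : (SV * SW)^(1/2+eps1) ≤ κ * (256 * (x * y)^(1/2+eps1)) := by
    calc (SV * SW)^(1/2+eps1) ≤ (κ * (256 * (x * y)))^(1/2+eps1) :=
          Real.rpow_le_rpow (mul_nonneg nV' nW') hprod (by rw [he1]; norm_num)
      _ ≤ κ * (κ^(-(1/2-eps1)) * (256 * (x * y)^(1/2+eps1))) := pwr eps1 (by rw [he1]; norm_num) (by rw [he1]; norm_num)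
      _ ≤ κ * (1 * (256 * (x * y)^(1/2+eps1))) := by
          have := gl eps1 (by rw [he1]; norm_num)
          gcongr
      _ = _ := by ring
  have T2 : ((∑ w ∈ V0, R w) * (∑ w ∈ W0, R' w))^(1/2:ℝ) ≤
      κ * (CL * ℓ * (256 * (x * y)^(1/2:ℝ))) := by
    have hp : (∑ w ∈ V0, R w) * (∑ w ∈ W0, R' w) ≤ (CL * ℓ)^2 * (κ * (256 * (x * y))) := by
      calc _ ≤ (CL * ℓ * SV) * (CL * ℓ * SW) := mul_le_mul rV rW rW0 (by positivity)
        _ = (CL * ℓ)^2 * (SV * SW) := by ring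
        _ ≤ _ := mul_le_mul_of_nonneg_left hprod (by positivity)
    have h0 := pwr 0 le_rfl (by norm_num)
    have h1 := gl 0 (by norm_num)
    simp only [add_zero, sub_zero] at h0 h1
    calc _ ≤ ((CL * ℓ)^2 * (κ * (256 * (x * y))))^(1/2:ℝ) :=
          Real.rpow_le_rpow (mul_nonneg rV0 rW0) hp (by norm_num)
      _ = (CL * ℓ) * (κ * (256 * (x * y)))^(1/2:ℝ) := by
          rw [Real.mul_rpow (by positivity) (by positivity), ← Real.sqrt_eq_rpow, Real.sqrt_sq (by positivity)]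
      _ ≤ (CL * ℓ) * (κ * (κ^(-(1/2):ℝ) * (256 * (x * y)^(1/2:ℝ)))) := by gcongr
      _ ≤ (CL * ℓ) * (κ * (1 * (256 * (x * y)^(1/2:ℝ)))) := by gcongr
      _ = _ := by ring
  have hA₁6 : A₁^(6/1000:ℝ) * κ^(-(1/2-eps2)) ≤ (a₀:ℝ)^(6/1000:ℝ) := by
    rw [hA₁, Real.mul_rpow (by positivity) (by positivity), hκE]
    have hE0 : 0 < E := by linarith
    have h0 : (E^2)^(6/1000:ℝ) * E^(-(1/2-eps2)) ≤ 1 := by
      have : (E^2)^(6/1000:ℝ) = E^(12/1000:ℝ) := by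
        rw [← Real.rpow_natCast, ← Real.rpow_mul hE0.le]; norm_num
      rw [this, ← Real.rpow_add hE0]
      exact Real.rpow_le_one_of_one_le_of_nonpos hE1 (by rw [he2]; norm_num)
    calc _ = (a₀:ℝ)^(6/1000:ℝ) * ((E^2)^(6/1000:ℝ) * E^(-(1/2-eps2))) := by ring
      _ ≤ (a₀:ℝ)^(6/1000:ℝ) * 1 := mul_le_mul_of_nonneg_left h0 (by positivity)
      _ = _ := mul_one _
  have T3 : (A₁^(6/1000:ℝ) + acc 1 s 0) * (SV * SW)^(1/2+eps2) ≤
      κ * (256 * ((a₀:ℝ)^(6/1000:ℝ) * (x * y)^(1/2+eps2))) := by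
    rw [acc_zero hlog, add_zero]
    have h1 : (SV * SW)^(1/2+eps2) ≤ κ * (κ^(-(1/2-eps2)) * (256 * (x * y)^(1/2+eps2))) :=
      (Real.rpow_le_rpow (mul_nonneg nV' nW') hprod (by rw [he2]; norm_num)).trans
        (pwr eps2 (by rw [he2]; norm_num) (by rw [he2]; norm_num))
    calc _ ≤ A₁^(6/1000:ℝ) *
          (κ * (κ^(-(1/2-eps2)) * (256 * (x * y)^(1/2+eps2)))) :=
          mul_le_mul_of_nonneg_left h1 (Real.rpow_nonneg (by linarith) _)
      _ = κ * (256 * (x * y)^(1/2+eps2)) * (A₁^(6/1000:ℝ) * κ^(-(1/2-eps2))) := by ring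
      _ ≤ κ * (256 * (x * y)^(1/2+eps2)) * (a₀:ℝ)^(6/1000:ℝ) :=
          mul_le_mul_of_nonneg_left hA₁6 (by positivity)
      _ = _ := by ring
  set K := C0 + 5 + cl/500 with hK
  have e7 : ℓ^(C0 + 7 + cl/500) = ℓ^K * ℓ^2 := by
    rw [hK, show C0 + 7 + cl/500 = (C0 + 5 + cl/500) + 2 by ring, Real.rpow_add hℓ0, Real.rpow_two]
  have hℓK : 0 < ℓ^K := by positivity
  have h256 : (256:ℝ) ≤ ℓ^2 := by nlinarith
  have h256' : CL * ℓ * 256 ≤ ℓ^2 := by nlinarith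
  have t1 : ℓ^K * (SV * SW)^(1/2+eps1) ≤ κ * (ℓ^(C0 + 7 + cl/500) * (x * y)^(1/2+eps1)) := by
    calc ℓ^K * (SV * SW)^(1/2+eps1) ≤ ℓ^K * (κ * (256 * (x * y)^(1/2+eps1))) :=
          mul_le_mul_of_nonneg_left T1 hℓK.le
      _ = (κ * (x * y)^(1/2+eps1)) * ℓ^K * 256 := by ring
      _ ≤ (κ * (x * y)^(1/2+eps1)) * ℓ^K * ℓ^2 :=
          mul_le_mul_of_nonneg_left h256 (by positivity)
      _ = _ := by rw [e7]; ring
  have t2 : ℓ^K * ((∑ w ∈ V0, R w) * (∑ w ∈ W0, R' w))^(1/2:ℝ) ≤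
      κ * (ℓ^(C0 + 7 + cl/500) * (x * y)^(1/2:ℝ)) := by
    calc ℓ^K * ((∑ w ∈ V0, R w) * (∑ w ∈ W0, R' w))^(1/2:ℝ) ≤
          ℓ^K * (κ * (CL * ℓ * (256 * (x * y)^(1/2:ℝ)))) :=
          mul_le_mul_of_nonneg_left T2 hℓK.le
      _ = (κ * (x * y)^(1/2:ℝ)) * ℓ^K * (CL * ℓ * 256) := by ring
      _ ≤ (κ * (x * y)^(1/2:ℝ)) * ℓ^K * ℓ^2 :=
          mul_le_mul_of_nonneg_left h256' (by positivity)
      _ = _ := by rw [e7]; ring
  have t3 : ℓ^K * ((A₁^(6/1000:ℝ) + acc 1 s 0) * (SV * SW)^(1/2+eps2)) ≤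
      κ * (ℓ^(C0 + 7 + cl/500) * ((a₀:ℝ)^(6/1000:ℝ) * (x * y)^(1/2+eps2))) := by
    calc ℓ^K * ((A₁^(6/1000:ℝ) + acc 1 s 0) * (SV * SW)^(1/2+eps2)) ≤
          ℓ^K * (κ * (256 * ((a₀:ℝ)^(6/1000:ℝ) * (x * y)^(1/2+eps2)))) :=
          mul_le_mul_of_nonneg_left T3 hℓK.le
      _ = (κ * ((a₀:ℝ)^(6/1000:ℝ) * (x * y)^(1/2+eps2))) * ℓ^K * 256 := by ring
      _ ≤ (κ * ((a₀:ℝ)^(6/1000:ℝ) * (x * y)^(1/2+eps2))) * ℓ^K * ℓ^2 :=
          mul_le_mul_of_nonneg_left h256 (by positivity)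
      _ = _ := by rw [e7]; ring
  refine le_of_mul_le_mul_left ?_ hκ0
  calc _ ≤ _ := key
    _ = ℓ^K * (SV * SW)^(1/2+eps1) + ℓ^K * ((∑ w ∈ V0, R w) * (∑ w ∈ W0, R' w))^(1/2:ℝ) +
        ℓ^K * ((A₁^(6/1000:ℝ) + acc 1 s 0) * (SV * SW)^(1/2+eps2)) +
        κ * ∑ e ∈ (V ×ˢ W).filter (fun e => 0 < F e ∧ (Dq ρ M b pr c M' b' pr' c' e ≤ 1/2^(lev cl s) ∧ Q e)),
          F e := by rw [hK]; ring
    _ ≤ _ := add_le_add (add_le_add (add_le_add t1 t2) t3) le_rfl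
    _ = _ := by ring

open Crest.Agent.R4P.ShotTot33 (fe)
open Crest.Agent.R4.ClsB (Tame) in
open Classical in
set_option maxHeartbeats 1000000 in
/-- **the one-shot number of the exceptional pairs** (equal effective exponents at the crossing prime) -/
theorem shot_exc {CL C0 : ℝ} (hCL : 1 ≤ CL) (hC0 : 0 ≤ C0) : ∃ cl₀ : ℝ, 0 < cl₀ ∧ ∀ cl : ℝ, cl₀ ≤ cl →
    ∃ s₁ : ℕ, 3 ≤ s₁ ∧
    (∀ s : ℕ, s₁ ≤ s → 400 ≤ lev cl s ∧ (Real.log s)^cl ≤ (2:ℝ)^(lev cl s) ∧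
      (2:ℝ)^(lev cl s) ≤ (Real.log s)^(cl+1) ∧ 2 ≤ Real.log s) ∧
    ∀ (s M b pr c M' b' pr' c' a₀ : ℕ) (γ : ℝ) (ρ : ℕ → ℝ) (V W : Finset ℕ) (F : ℕ × ℕ → ℝ)
    (Q : ℕ × ℕ → Prop),
    s₁ ≤ s → s.Prime → 1 ≤ a₀ → (∀ q, 0 < ρ q) →
    0 < b → 0 < c → 0 < b' → 0 < c' → 0 < M → 0 < M' →
    (M.factorization s = 0 ∨ M'.factorization s = 0) →
    (∀ l : ℕ, l.Prime → l ∣ M → l ≠ s → s ≤ l) → (∀ l : ℕ, l.Prime → l ∣ M' → l ≠ s → s ≤ l) →
    ∑ l ∈ M.primeFactors.erase s, (l:ℝ)^(-(11/12):ℝ) ≤ 1 →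
    ∑ l ∈ M'.primeFactors.erase s, (l:ℝ)^(-(11/12):ℝ) ≤ 1 →
    (∀ q ∈ V, 0 < q ∧ pr ∣ q) → (∀ q ∈ W, 0 < q ∧ pr' ∣ q) →
    (∀ q ∈ V, ∀ l : ℕ, l.Prime → l ∣ M → l ≠ s → ¬ l ^ 2 ∣ q / pr) →
    (∀ q ∈ W, ∀ l : ℕ, l.Prime → l ∣ M' → l ≠ s → ¬ l ^ 2 ∣ q / pr') →
    (∀ z : ℝ, (s:ℝ) ≤ z → ∀ q ∈ V, Tame z 1 (q / pr / M.gcd (q / pr))) →
    (∀ z : ℝ, (s:ℝ) ≤ z → ∀ q ∈ W, Tame z 1 (q / pr' / M'.gcd (q / pr'))) →
    (∀ q ∈ V, 1 ≤ CL * Real.log s * tq (q / pr / M.gcd (q / pr))) →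
    (∀ q ∈ W, 1 ≤ CL * Real.log s * tq (q / pr' / M'.gcd (q / pr'))) →
    (∀ e ∈ V ×ˢ W, fe s M' pr e.1 = fe s M pr' e.2 → Dq ρ M b pr c M' b' pr' c' e ≤ 1 →
      F e ≤ (Real.log s)^C0 * (rd b c ρ e.1 * rd b' c' ρ e.2 / Dq ρ M b pr c M' b' pr' c' e)) →
    (∀ e ∈ V ×ˢ W, fe s M' pr e.1 = fe s M pr' e.2 →
      Dq ρ M b pr c M' b' pr' c' e ≤ 1/2^(lev cl s) → 0 < F e → RelI γ ρ M b pr c M' b' pr' c' e) →
    (∀ e ∈ V ×ˢ W, fe s M' pr e.1 = fe s M pr' e.2 →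
      Dq ρ M b pr c M' b' pr' c' e ≤ 1/2^(lev cl s) → 0 < F e →
      FSs s γ ρ (lev cl s) M b pr c M' b' pr' c' ((e.1 / pr).factorization s) ((e.2 / pr').factorization s) e →
      1 < 2 * ((a₀ * rf (itm s pr e.1) (st s M) * rf (itm s pr' e.2) (st s M') : ℕ) : ℝ)^10 *
        Dq ρ M b pr c M' b' pr' c' e ∨ Q e) →
    ∑ e ∈ (V ×ˢ W).filter (fun e => fe s M' pr e.1 = fe s M pr' e.2 ∧
        Dq ρ M b pr c M' b' pr' c' e ≤ 1), F e ≤
      (Real.log s)^(C0 + 7 + cl/500) * (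
        ((∑ q ∈ V, rd b c ρ q * tq (q / pr)) * (∑ q ∈ W, rd b' c' ρ q * tq (q / pr')))^(1/2+eps1) +
        ((∑ q ∈ V, rd b c ρ q * tq (q / pr)) * (∑ q ∈ W, rd b' c' ρ q * tq (q / pr')))^(1/2:ℝ) +
        (a₀:ℝ)^(6/1000:ℝ) *
          ((∑ q ∈ V, rd b c ρ q * tq (q / pr)) * (∑ q ∈ W, rd b' c' ρ q * tq (q / pr')))^(1/2+eps2)) +
      ∑ e ∈ (V ×ˢ W).filter (fun e => fe s M' pr e.1 = fe s M pr' e.2 ∧
        (0 < F e ∧ (Dq ρ M b pr c M' b' pr' c' e ≤ 1/2^(lev cl s) ∧ Q e))), F e := by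
  have he1 : eps1 = 1/1000 := rfl
  have he2 : eps2 = 1/4000 := rfl
  obtain ⟨cl₀, hcl₀, hT⟩ := shot_cls0 hCL hC0
  refine ⟨cl₀, hcl₀, fun cl hcl => ?_⟩
  obtain ⟨b₁, hb₁, hlev, hmain⟩ := hT cl hcl
  refine ⟨b₁, hb₁, hlev, ?_⟩
  intro s M b pr c M' b' pr' c' a₀ γ ρ V W F Q hs₁ hs ha₀ hρ hb hc hb' hc' hM hM' hmin hMs hMs'
    hsM hsM' hV hW oV oW tV tW lV lW hF hrel hFG
  obtain ⟨-, -, -, hlog⟩ := hlev s hs₁
  set ℓ := Real.log s with hℓ
  have hℓ0 : 0 < ℓ := by linarith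
  set m := M.factorization s with hm
  set m' := M'.factorization s with hm'
  have hrd : ∀ q, 0 < rd b c ρ q := fun q => mul_pos (div_pos (by exact_mod_cast hb) (by exact_mod_cast hc)) (hρ q)
  have hrd' : ∀ q, 0 < rd b' c' ρ q := fun q =>
    mul_pos (div_pos (by exact_mod_cast hb') (by exact_mod_cast hc')) (hρ q)
  have tV0 : ∀ q, 0 ≤ rd b c ρ q * tq (q / pr) := fun q => mul_nonneg (hrd q).le (tq_nonneg _)
  have tW0 : ∀ q, 0 ≤ rd b' c' ρ q * tq (q / pr') := fun q => mul_nonneg (hrd' q).le (tq_nonneg _)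
  set T := V.image (fun q => (q / pr).factorization s) with hT'
  set Va : ℕ → Finset ℕ := fun a => V.filter (fun q => (q / pr).factorization s = a) with hVa
  set Wa : ℕ → Finset ℕ := fun a => W.filter (fun r => a + m' = (r / pr').factorization s + m) with hWa
  set D : ℕ × ℕ → ℝ := Dq ρ M b pr c M' b' pr' c' with hD
  have part : ∀ (Q : ℕ × ℕ → Prop) [DecidablePred Q],
      ∑ e ∈ (V ×ˢ W).filter (fun e => fe s M' pr e.1 = fe s M pr' e.2 ∧ Q e), F e =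
      ∑ a ∈ T, ∑ e ∈ (Va a ×ˢ Wa a).filter Q, F e := by
    intro Q _
    rw [← Finset.sum_fiberwise_of_maps_to
      (s := (V ×ˢ W).filter (fun e => fe s M' pr e.1 = fe s M pr' e.2 ∧ Q e)) (t := T)
      (g := fun e => (e.1 / pr).factorization s) (fun e he => by
        obtain ⟨h1, -⟩ := Finset.mem_filter.1 he
        exact Finset.mem_image_of_mem _ (Finset.mem_product.1 h1).1)]
    refine Finset.sum_congr rfl fun a _ => Finset.sum_congr ?_ fun _ _ => rfl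
    ext e
    simp only [Finset.mem_filter, Finset.mem_product, hVa, hWa, fe, ← hm, ← hm']
    constructor
    · rintro ⟨⟨⟨h1, h2⟩, h3, h4⟩, h5⟩
      exact ⟨⟨⟨h1, h5⟩, h2, by rw [← h5]; exact h3⟩, h4⟩
    · rintro ⟨⟨⟨h1, h2⟩, h3, h4⟩, h5⟩
      exact ⟨⟨⟨h1, h3⟩, by rw [h2]; exact h4, h5⟩, h2⟩
  set x : ℕ → ℝ := fun a => ∑ q ∈ Va a, rd b c ρ q * tq (q / pr) with hx
  set y : ℕ → ℝ := fun a => ∑ q ∈ Wa a, rd b' c' ρ q * tq (q / pr') with hy
  set X := ∑ q ∈ V, rd b c ρ q * tq (q / pr) with hX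
  set Y := ∑ q ∈ W, rd b' c' ρ q * tq (q / pr') with hY
  have x0 : ∀ a ∈ T, 0 ≤ x a := fun a _ => Finset.sum_nonneg fun q _ => tV0 q
  have y0 : ∀ a ∈ T, 0 ≤ y a := fun a _ => Finset.sum_nonneg fun q _ => tW0 q
  have sx : ∑ a ∈ T, x a ≤ X := by
    rw [hX, ← Finset.sum_fiberwise_of_maps_to (s := V) (t := T)
      (g := fun q => (q / pr).factorization s) (fun q hq => Finset.mem_image_of_mem _ hq)]
  have sy : ∑ a ∈ T, y a ≤ Y := by
    have hdis : Set.PairwiseDisjoint (T : Set ℕ) Wa := by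
      intro a _ a' _ hne
      rw [Function.onFun, Finset.disjoint_left]
      intro r h1 h2
      have e1 := (Finset.mem_filter.1 h1).2
      have e2 := (Finset.mem_filter.1 h2).2
      exact hne (by omega)
    rw [hy]
    simp only
    rw [← Finset.sum_biUnion hdis, hY]
    refine Finset.sum_le_sum_of_subset_of_nonneg (fun r hr => ?_) fun r _ _ => tW0 r
    obtain ⟨a, -, h⟩ := Finset.mem_biUnion.1 hr
    exact (Finset.mem_filter.1 h).1
  have p1 := part (fun e => D e ≤ 1)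
  have p2 := part (fun e => 0 < F e ∧ (D e ≤ 1/2^(lev cl s) ∧ Q e))
  have one : ∀ a ∈ T, ∑ e ∈ (Va a ×ˢ Wa a).filter (fun e => D e ≤ 1), F e ≤
      ℓ^(C0 + 7 + cl/500) * ((x a * y a)^(1/2+eps1) + (x a * y a)^(1/2:ℝ) +
        (a₀:ℝ)^(6/1000:ℝ) * (x a * y a)^(1/2+eps2)) +
      ∑ e ∈ (Va a ×ˢ Wa a).filter (fun e => 0 < F e ∧ (D e ≤ 1/2^(lev cl s) ∧ Q e)), F e := by
    intro a _
    by_cases hWn : (Wa a).Nonempty
    swap
    · rw [Finset.not_nonempty_iff_eq_empty] at hWn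
      rw [hWn]
      simp only [Finset.product_empty, Finset.filter_empty, Finset.sum_empty, add_zero]
      have h1 := Real.rpow_nonneg (mul_nonneg (Finset.sum_nonneg fun q (_ : q ∈ Va a) => tV0 q)
        (Finset.sum_nonneg fun q (_ : q ∈ Wa a) => tW0 q)) (1/2+eps1)
      have h2 := Real.rpow_nonneg (mul_nonneg (Finset.sum_nonneg fun q (_ : q ∈ Va a) => tV0 q)
        (Finset.sum_nonneg fun q (_ : q ∈ Wa a) => tW0 q)) (1/2:ℝ)
      have h3 := Real.rpow_nonneg (mul_nonneg (Finset.sum_nonneg fun q (_ : q ∈ Va a) => tV0 q)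
        (Finset.sum_nonneg fun q (_ : q ∈ Wa a) => tW0 q)) (1/2+eps2)
      exact mul_nonneg (by positivity) (add_nonneg (add_nonneg h1 h2) (mul_nonneg (by positivity) h3))
    obtain ⟨r₀, hr₀⟩ := hWn
    have er₀ := (Finset.mem_filter.1 hr₀).2
    set a' := (r₀ / pr').factorization s with ha'
    have hWa' : ∀ r ∈ Wa a, (r / pr').factorization s = a' := fun r hr => by
      have := (Finset.mem_filter.1 hr).2
      omega
    have mem : ∀ e ∈ Va a ×ˢ Wa a, e ∈ V ×ˢ W ∧ fe s M' pr e.1 = fe s M pr' e.2 ∧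
        (e.1 / pr).factorization s = a ∧ (e.2 / pr').factorization s = a' := fun e he => by
      obtain ⟨h1, h2⟩ := Finset.mem_product.1 he
      obtain ⟨h3, h4⟩ := Finset.mem_filter.1 h1
      obtain ⟨h5, h6⟩ := Finset.mem_filter.1 h2
      refine ⟨Finset.mem_product.2 ⟨h3, h5⟩, ?_, h4, hWa' _ h2⟩
      simp only [fe, ← hm, ← hm']
      rw [h4]; exact h6
    refine hmain s M b pr c M' b' pr' c' a a' a₀ γ ρ (Va a) (Wa a) F Q hs₁ hs ha₀ hρ hb hc hb' hc' hM hM'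
      hMs hMs' hsM hsM' er₀ hmin (fun q hq => ?_) (fun q hq => ?_)
      (fun z hz q hq => tV z hz q (Finset.mem_filter.1 hq).1)
      (fun z hz q hq => tW z hz q (Finset.mem_filter.1 hq).1)
      (fun q hq => lV q (Finset.mem_filter.1 hq).1) (fun q hq => lW q (Finset.mem_filter.1 hq).1)
      (fun e he h1 => hF e (mem e he).1 (mem e he).2.1 h1)
      (fun e he h1 h2 => hrel e (mem e he).1 (mem e he).2.1 h1 h2) (fun e he h1 h2 h3 => ?_)
    · obtain ⟨h1, h2⟩ := Finset.mem_filter.1 hq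
      exact ⟨(hV q h1).1, (hV q h1).2, h2, oV q h1⟩
    · have h1 := (Finset.mem_filter.1 hq).1
      exact ⟨(hW q h1).1, (hW q h1).2, hWa' q hq, oW q h1⟩
    · obtain ⟨k1, k2, k3, k4⟩ := mem e he
      refine hFG e k1 k2 h1 h2 ?_
      rw [k3, k4]; exact h3
  have tot : ∑ a ∈ T, ∑ e ∈ (Va a ×ˢ Wa a).filter (fun e => D e ≤ 1), F e ≤
      ℓ^(C0 + 7 + cl/500) * ((X * Y)^(1/2+eps1) + (X * Y)^(1/2:ℝ) +
        (a₀:ℝ)^(6/1000:ℝ) * (X * Y)^(1/2+eps2)) +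
      ∑ a ∈ T, ∑ e ∈ (Va a ×ˢ Wa a).filter (fun e => 0 < F e ∧ (D e ≤ 1/2^(lev cl s) ∧ Q e)), F e := by
    refine (Finset.sum_le_sum one).trans ?_
    rw [Finset.sum_add_distrib]
    refine add_le_add ?_ le_rfl
    rw [← Finset.mul_sum, Finset.sum_add_distrib, Finset.sum_add_distrib, ← Finset.mul_sum]
    refine mul_le_mul_of_nonneg_left ?_ (by positivity)
    refine add_le_add (add_le_add ?_ ?_) (mul_le_mul_of_nonneg_left ?_ (by positivity))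
    · exact sum_rpow_le T x0 y0 sx sy (by rw [he1]; norm_num)
    · exact sum_rpow_le T x0 y0 sx sy le_rfl
    · exact sum_rpow_le T x0 y0 sx sy (by rw [he2]; norm_num)
  rw [← p1, ← p2] at tot
  exact tot

end Crest.Agent.R4P.ShotExc32
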