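import Mathlib
import Crest.Agent.R4P.LowE_32
import Crest.Agent.R4P.ShotExc_32

/-!
R4P (S0004), helper32, group [X]: **one class, equal effective exponents, `[E]` pairs with the same inequality as
the `[F]` pairs** (item letters of `ShotP_33`): no matching term.
-/

set_option autoImplicit false
set_option linter.unusedVariables false
open Finset

namespace Crest.Agent.R4P.ShotEq32

open Crest.Agent.R4.HVW560 Crest.Agent.R4.Schur709 Crest.Agent.R4.StopHvw709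
open Crest.Agent.R4.StopAsm709 Crest.Agent.R4.AvgItem710 Crest.Agent.R4.DeepSt579
open Crest.Agent.R4P.Rad800 Crest.Agent.R4P.StripP33 Crest.Agent.R4P.BrP33
open Crest.Agent.R4.ClsS (eps1)
open Crest.Agent.R4.OSCore709 Crest.Agent.R4.CrossShot709 Crest.Agent.R4.Bad223 Crest.Agent.R4.ShotG223
open Crest.Agent.R4.NMW710 (Dq)
open Crest.Agent.R4P.ShotP33 Crest.Agent.R4P.ExcStrip32 Crest.Agent.R4P.ShotExc32

/-- class `[E]` of an item pair at the crossing prime, in the letters of `FSs` -/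
def ESs (s : ℕ) (γ : ℝ) (ρ : ℕ → ℝ) (M b pr c M' b' pr' c' a a' : ℕ) (e : ℕ × ℕ) : Prop :=
  ES (bL s a (M.factorization s) a' (M'.factorization s) * (rf (e.1 / pr) M * ((b : ℝ) / c * γ)))
    (bL s a' (M'.factorization s) a (M.factorization s) * (rf (e.2 / pr') M' * ((b' : ℝ) / c' * γ)))
    (cof (ui s M pr e.1) (ui s M' pr' e.2)) (cof (ui s M' pr' e.2) (ui s M pr e.1))
    (bL s a (M.factorization s) a' (M'.factorization s) * (rf (e.1 / pr) M * ((b : ℝ) / c * ρ e.1)))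
    (bL s a' (M'.factorization s) a (M.factorization s) * (rf (e.2 / pr') M' * ((b' : ℝ) / c' * ρ e.2)))

open Crest.Agent.R4.ClsB (Tame) in
set_option maxHeartbeats 2000000 in
open Classical in
/-- **the one-shot number of one class, equal effective exponents, no matching term** -/
theorem shot_clsE {CL C0 : ℝ} (hCL : 1 ≤ CL) (hC0 : 0 ≤ C0) : ∃ cl₀ : ℝ, 0 < cl₀ ∧ ∀ cl : ℝ, cl₀ ≤ cl →
    ∃ s₁ : ℕ, 3 ≤ s₁ ∧
    (∀ s : ℕ, s₁ ≤ s → 400 ≤ lev cl s ∧ (Real.log s)^cl ≤ (2:ℝ)^(lev cl s) ∧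
      (2:ℝ)^(lev cl s) ≤ (Real.log s)^(cl+1) ∧ 2 ≤ Real.log s) ∧
    ∀ (s M b pr c M' b' pr' c' a a' a₀ : ℕ) (γ : ℝ) (ρ : ℕ → ℝ) (V W : Finset ℕ) (F : ℕ × ℕ → ℝ),
    s₁ ≤ s → s.Prime → 1 ≤ a₀ → (∀ q, 0 < ρ q) →
    0 < b → 0 < c → 0 < b' → 0 < c' → 0 < M → 0 < M' →
    (∀ l : ℕ, l.Prime → l ∣ M → l ≠ s → s ≤ l) → (∀ l : ℕ, l.Prime → l ∣ M' → l ≠ s → s ≤ l) →
    ∑ l ∈ M.primeFactors.erase s, (l:ℝ)^(-(11/12):ℝ) ≤ 1 →
    ∑ l ∈ M'.primeFactors.erase s, (l:ℝ)^(-(11/12):ℝ) ≤ 1 →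
    a + M'.factorization s = a' + M.factorization s → (M.factorization s = 0 ∨ M'.factorization s = 0) →
    (∀ q ∈ V, Sd s M pr a q) → (∀ q ∈ W, Sd s M' pr' a' q) →
    (∀ z : ℝ, (s:ℝ) ≤ z → ∀ q ∈ V, Tame z 1 (q / pr / M.gcd (q / pr))) →
    (∀ z : ℝ, (s:ℝ) ≤ z → ∀ q ∈ W, Tame z 1 (q / pr' / M'.gcd (q / pr'))) →
    (∀ q ∈ V, 1 ≤ CL * Real.log s * tq (q / pr / M.gcd (q / pr))) →
    (∀ q ∈ W, 1 ≤ CL * Real.log s * tq (q / pr' / M'.gcd (q / pr'))) →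
    (∀ e ∈ V ×ˢ W, Dq ρ M b pr c M' b' pr' c' e ≤ 1 →
      F e ≤ (Real.log s)^C0 * (rd b c ρ e.1 * rd b' c' ρ e.2 / Dq ρ M b pr c M' b' pr' c' e)) →
    (∀ e ∈ V ×ˢ W, Dq ρ M b pr c M' b' pr' c' e ≤ 1/2^(lev cl s) → 0 < F e →
      RelI γ ρ M b pr c M' b' pr' c' e) →
    (∀ e ∈ V ×ˢ W, Dq ρ M b pr c M' b' pr' c' e ≤ 1/2^(lev cl s) → 0 < F e →
      (ESs s γ ρ M b pr c M' b' pr' c' a a' e ∨ FSs s γ ρ (lev cl s) M b pr c M' b' pr' c' a a' e) →
      1 < 2 * ((a₀ * rf (itm s pr e.1) (st s M) * rf (itm s pr' e.2) (st s M') : ℕ) : ℝ)^10 *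
        Dq ρ M b pr c M' b' pr' c' e) →
    ∑ e ∈ (V ×ˢ W).filter (fun e => Dq ρ M b pr c M' b' pr' c' e ≤ 1), F e ≤
      (Real.log s)^(C0 + 7 + cl/500) * (
        ((∑ q ∈ V, rd b c ρ q * tq (q / pr)) * (∑ q ∈ W, rd b' c' ρ q * tq (q / pr')))^(1/2+eps1) +
        (a₀:ℝ)^(6/1000:ℝ) *
          ((∑ q ∈ V, rd b c ρ q * tq (q / pr)) * (∑ q ∈ W, rd b' c' ρ q * tq (q / pr')))^(1/2+eps2)) := by
  have he1 : eps1 = 1/1000 := rfl
  have he2 : eps2 = 1/4000 := rfl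
  obtain ⟨cl₀, hcl₀, hT⟩ := Crest.Agent.R4P.LowE32.shot_E hCL hC0
  refine ⟨cl₀, hcl₀, fun cl hcl => ?_⟩
  obtain ⟨b₁, hb₁, hlev, hmain⟩ := hT cl hcl
  obtain ⟨x1, hx1⟩ := Filter.eventually_atTop.1
    (Real.tendsto_log_atTop.eventually_ge_atTop (256 * CL))
  refine ⟨max b₁ ⌈x1⌉₊, hb₁.trans (le_max_left _ _), fun s hs => hlev s ((le_max_left _ _).trans hs), ?_⟩
  intro s M b pr c M' b' pr' c' a a' a₀ γ ρ V W F hs₁ hs ha₀ hρ hb hc hb' hc' hM hM' hMs hMs'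
    hsM hsM' hne hmin hV hW tV tW lV lW hF hrel hFG
  have hsb : b₁ ≤ s := (le_max_left _ _).trans hs₁
  obtain ⟨hl400, hl1, hl2, hlog⟩ := hlev s hsb
  have hl256 : 256 * CL ≤ Real.log s := hx1 s ((Nat.le_ceil _).trans (by exact_mod_cast (le_max_right _ _).trans hs₁))
  set ℓ := Real.log s with hℓ
  have hℓ0 : 0 < ℓ := by linarith
  have hℓ1 : 1 ≤ ℓ := by linarith
  have hs2 : 2 ≤ s := hs.two_le
  have hs0 : (0:ℝ) < s := by exact_mod_cast hs.pos
  set m := M.factorization s with hm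
  set m' := M'.factorization s with hm'
  set P := PL s a m a' m' with hP
  set P' := PL s a' m' a m with hP'
  set ex' := dex a m a' m' with hex'
  have hPP : P * P' = s ^ ex' := PL_mul s a m a' m'
  have hex0 : ex' = 0 := dex_zero hne hmin
  have hP0 : 0 < P := PL_pos hs.pos
  have hP0' : 0 < P' := PL_pos hs.pos
  have hP0r : (0:ℝ) < P := by exact_mod_cast hP0
  have hP0r' : (0:ℝ) < P' := by exact_mod_cast hP0'
  have hst := st_pos (s := s) hM
  have hst' := st_pos (s := s) hM'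
  have xM : (1:ℝ) ≤ ex (st s M) := by exact_mod_cast ex_pos hst
  have xM' : (1:ℝ) ≤ ex (st s M') := by exact_mod_cast ex_pos hst'
  set E : ℝ := (ex (st s M) : ℝ) * ex (st s M') with hE
  have hE1 : 1 ≤ E := by rw [hE]; nlinarith
  have hrd : ∀ q, 0 < rd b c ρ q := fun q => mul_pos (div_pos (by exact_mod_cast hb) (by exact_mod_cast hc)) (hρ q)
  have hrd' : ∀ q, 0 < rd b' c' ρ q := fun q =>
    mul_pos (div_pos (by exact_mod_cast hb') (by exact_mod_cast hc')) (hρ q)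
  set O' := (st s M).primeFactors with hO'
  set O := (st s M').primeFactors with hO
  have hOp : ∀ l ∈ O, l.Prime ∧ s ≤ l := fun l hl => by
    rw [hO, pf_st hs hM', Finset.mem_erase] at hl
    have h2 := Nat.prime_of_mem_primeFactors hl.2
    exact ⟨h2, hMs' l h2 (Nat.dvd_of_mem_primeFactors hl.2) hl.1⟩
  have hOp' : ∀ l ∈ O', l.Prime ∧ s ≤ l := fun l hl => by
    rw [hO', pf_st hs hM, Finset.mem_erase] at hl
    have h2 := Nat.prime_of_mem_primeFactors hl.2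
    exact ⟨h2, hMs l h2 (Nat.dvd_of_mem_primeFactors hl.2) hl.1⟩
  have hsO : ∑ p ∈ O, (p:ℝ)^(-(11/12):ℝ) ≤ 1 := by rw [hO, pf_st hs hM']; exact hsM'
  have hsO' : ∑ p ∈ O', (p:ℝ)^(-(11/12):ℝ) ≤ 1 := by rw [hO', pf_st hs hM]; exact hsM
  have hs1 : ∑ p ∈ O, 1/(p:ℝ) ≤ 1 :=
    (Finset.sum_le_sum fun p hp => Crest.Agent.R4.ShotFF223.inv_le_pow (hOp p hp).1.one_lt.le).trans hsO
  have hs1' : ∑ p ∈ O', 1/(p:ℝ) ≤ 1 :=
    (Finset.sum_le_sum fun p hp => Crest.Agent.R4.ShotFF223.inv_le_pow (hOp' p hp).1.one_lt.le).trans hsO'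
  set V0 := V.image (itm s pr) with hV0
  set W0 := W.image (itm s pr') with hW0
  set R := Rb s M P b pr c a ρ with hR
  set R' := Rb s M' P' b' pr' c' a' ρ with hR'
  set gL := gb s M P ((b : ℝ) / c * γ) with hgL
  set gR := gb s M' P' ((b' : ℝ) / c' * γ) with hgR
  set κ : ℝ := ((ex (st s M) : ℝ) * P) * ((ex (st s M') : ℝ) * P') with hκ
  have hκ0 : 0 < κ := by rw [hκ]; positivity
  have hκE : κ = E := by
    have : ((P * P' : ℕ) : ℝ) = 1 := by rw [hPP, hex0]; push_cast; ring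
    have h2 : κ = E * ((P * P' : ℕ) : ℝ) := by rw [hκ, hE]; push_cast; ring
    rw [h2, this, mul_one]
  set F0 : ℕ × ℕ → ℝ := fun f => κ * F (bk s pr a f.1, bk s pr' a' f.2) with hF0
  have hDc : ∀ e ∈ V ×ˢ W, Dc O O' R R' (itm s pr e.1, itm s pr' e.2) = Dq ρ M b pr c M' b' pr' c' e := fun e he =>
    Dc_br hs hM hM' (hV _ (Finset.mem_product.1 he).1) (hW _ (Finset.mem_product.1 he).2) b c b' c' ρ
  have hF0e : ∀ e ∈ V ×ˢ W, F0 (itm s pr e.1, itm s pr' e.2) = κ * F e := fun e he => by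
    rw [hF0]; simp only
    rw [(hV _ (Finset.mem_product.1 he).1).bk_eq, (hW _ (Finset.mem_product.1 he).2).bk_eq]
  have mem0 : ∀ f ∈ V0 ×ˢ W0, ∃ e ∈ V ×ˢ W, f = (itm s pr e.1, itm s pr' e.2) := fun f hf => by
    rw [hV0, hW0, prod_img] at hf
    obtain ⟨e, he, rfl⟩ := Finset.mem_image.1 hf
    exact ⟨e, he, rfl⟩
  have hRe : ∀ q ∈ V, R (itm s pr q) = (ex (st s M) : ℝ) * (P * rd b c ρ q) := fun q hq => (hV q hq).Rb_eq P b c ρ
  have hRe' : ∀ q ∈ W, R' (itm s pr' q) = (ex (st s M') : ℝ) * (P' * rd b' c' ρ q) := fun q hq =>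
    (hW q hq).Rb_eq P' b' c' ρ
  have muV : ∀ q ∈ V, mu O' R (itm s pr q) =
      (ex (st s M) : ℝ) * (P * rd b c ρ q) * tq (itm s pr q / (st s M).gcd (itm s pr q)) := fun q hq =>
    (hV q hq).mu_eq hs hM P b c ρ
  have muW : ∀ q ∈ W, mu O R' (itm s pr' q) =
      (ex (st s M') : ℝ) * (P' * rd b' c' ρ q) * tq (itm s pr' q / (st s M').gcd (itm s pr' q)) := fun q hq =>
    (hW q hq).mu_eq hs hM' P' b' c' ρ
  have gV : ∀ q ∈ V, gL (miss O' (itm s pr q)) = (rf (itm s pr q) (st s M) : ℕ) * ((P : ℝ) * ((b : ℝ) / c * γ)) :=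
    fun q hq => (hV q hq).gb_eq hs hM P _
  have gW : ∀ q ∈ W, gR (miss O (itm s pr' q)) =
      (rf (itm s pr' q) (st s M') : ℕ) * ((P' : ℝ) * ((b' : ℝ) / c' * γ)) :=
    fun q hq => (hW q hq).gb_eq hs hM' P' _
  have uV : ∀ q ∈ V, uu O' (itm s pr q) = ui s M pr q := fun q hq => (hV q hq).uu_eq hs hM
  have uW : ∀ q ∈ W, uu O (itm s pr' q) = ui s M' pr' q := fun q hq => (hW q hq).uu_eq hs hM'
  have cV : ∀ q ∈ V, Rc O' R (itm s pr q) = (rf (itm s pr q) (st s M) : ℕ) * ((P : ℝ) * rd b c ρ q) :=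
    fun q hq => (hV q hq).Rc_eq hs hM P b c ρ
  have cW : ∀ q ∈ W, Rc O R' (itm s pr' q) = (rf (itm s pr' q) (st s M') : ℕ) * ((P' : ℝ) * rd b' c' ρ q) :=
    fun q hq => (hW q hq).Rc_eq hs hM' P' b' c' ρ
  set A₁ : ℝ := a₀ * E^2 with hA₁
  have ha1 : (1:ℝ) ≤ a₀ := by exact_mod_cast ha₀
  have hE21 : 1 ≤ E^2 := one_le_pow₀ hE1
  have hA₁1 : 1 ≤ A₁ := by
    rw [hA₁]
    nlinarith
  obtain ⟨Q0, hQ0⟩ : ∃ Q : ℕ × ℕ → Prop, ∀ e, ¬ Q e := ⟨fun _ => False, fun _ h => h⟩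
  -- the plain theorem
  have key := hmain s 1 s O O' V0 W0 R R' gL gR F0 Q0 A₁
    hsb one_pos hA₁1 hOp hOp' hsO hsO'
    (by
      intro w hw
      obtain ⟨q, hq, rfl⟩ := Finset.mem_image.1 hw
      refine ⟨(hV q hq).i0, ?_⟩
      rw [hRe q hq]; have := hrd q; positivity)
    (by
      intro w hw
      obtain ⟨q, hq, rfl⟩ := Finset.mem_image.1 hw
      refine ⟨(hW q hq).i0, ?_⟩
      rw [hRe' q hq]; have := hrd' q; positivity)
    (by
      intro w hw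
      obtain ⟨q, hq, rfl⟩ := Finset.mem_image.1 hw
      rw [hRe q hq, muV q hq]
      have h1 := lV q hq
      have h2 := (hV q hq).tq_ge hs hM
      have h3 : 1 ≤ CL * ℓ * tq (itm s pr q / (st s M).gcd (itm s pr q)) :=
        h1.trans (mul_le_mul_of_nonneg_left h2 (by positivity))
      have h4 : 0 ≤ (ex (st s M) : ℝ) * (P * rd b c ρ q) := by have := hrd q; positivity
      calc (ex (st s M) : ℝ) * (P * rd b c ρ q) = (ex (st s M) : ℝ) * (P * rd b c ρ q) * 1 := (mul_one _).symm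
        _ ≤ _ := mul_le_mul_of_nonneg_left h3 h4
        _ = _ := by ring)
    (by
      intro w hw
      obtain ⟨q, hq, rfl⟩ := Finset.mem_image.1 hw
      rw [hRe' q hq, muW q hq]
      have h1 := lW q hq
      have h2 := (hW q hq).tq_ge hs hM'
      have h3 : 1 ≤ CL * ℓ * tq (itm s pr' q / (st s M').gcd (itm s pr' q)) :=
        h1.trans (mul_le_mul_of_nonneg_left h2 (by positivity))
      have h4 : 0 ≤ (ex (st s M') : ℝ) * (P' * rd b' c' ρ q) := by have := hrd' q; positivity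
      calc (ex (st s M') : ℝ) * (P' * rd b' c' ρ q) =
          (ex (st s M') : ℝ) * (P' * rd b' c' ρ q) * 1 := (mul_one _).symm
        _ ≤ _ := mul_le_mul_of_nonneg_left h3 h4
        _ = _ := by ring)
    (by
      intro z hz w hw
      obtain ⟨q, hq, rfl⟩ := Finset.mem_image.1 hw
      exact (hV q hq).tame hs hM (tV z hz q hq))
    (by
      intro z hz w hw
      obtain ⟨q, hq, rfl⟩ := Finset.mem_image.1 hw
      exact (hW q hq).tame hs hM' (tW z hz q hq))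
    (by
      intro f hf h1
      obtain ⟨e, he, rfl⟩ := mem0 f hf
      obtain ⟨k1, k2⟩ := Finset.mem_product.1 he
      rw [hDc e he] at h1 ⊢
      rw [hF0e e he]
      simp only
      rw [hRe _ k1, hRe' _ k2]
      calc κ * F e ≤ κ * (ℓ^C0 * (rd b c ρ e.1 * rd b' c' ρ e.2 / Dq ρ M b pr c M' b' pr' c' e)) :=
            mul_le_mul_of_nonneg_left (hF e he h1) hκ0.le
        _ = _ := by rw [hκ]; ring)
    (by
      intro f hf h1 h2
      obtain ⟨e, he, rfl⟩ := mem0 f hf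
      obtain ⟨k1, k2⟩ := Finset.mem_product.1 he
      rw [hDc e he] at h1
      rw [hF0e e he] at h2
      have h2 : 0 < F e := (mul_pos_iff_of_pos_left hκ0).1 h2
      obtain ⟨j, j', hj⟩ := hrel e he h1 h2
      refine ⟨bL s a m a' m' * j, bL s a' m' a m * j', ?_⟩
      rw [hDc e he]
      simp only
      rw [gV _ k1, gW _ k2, uV _ k1, uW _ k2]
      refine le_trans (le_of_eq ?_) hj
      have c1 := cof_st hs (hV _ k1).w0 hM (hW _ k2).w0 hM'
      have c2 := cof_st hs (hW _ k2).w0 hM' (hV _ k1).w0 hM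
      rw [(hV _ k1).fa, (hW _ k2).fa] at c1 c2
      have r1 : ((bL s a m a' m' : ℕ) : ℝ) * (rf (e.1 / pr) M : ℕ) = (P : ℝ) * (rf (itm s pr e.1) (st s M) : ℕ) := by
        exact_mod_cast (hV _ k1).brf hs hM a' m'
      have r2 : ((bL s a' m' a m : ℕ) : ℝ) * (rf (e.2 / pr') M' : ℕ) =
          (P' : ℝ) * (rf (itm s pr' e.2) (st s M') : ℕ) := by
        exact_mod_cast (hW _ k2).brf hs hM' a m
      rw [c1, c2]
      congr 1
      have q1 : (rf (itm s pr e.1) (st s M) : ℕ) * ((P : ℝ) * ((b : ℝ) / c * γ)) =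
          (bL s a m a' m' : ℝ) * ((rf (e.1 / pr) M : ℕ) * ((b : ℝ) / c * γ)) := by
        linear_combination (-((b : ℝ) / c * γ)) * r1
      have q2 : (rf (itm s pr' e.2) (st s M') : ℕ) * ((P' : ℝ) * ((b' : ℝ) / c' * γ)) =
          (bL s a' m' a m : ℝ) * ((rf (e.2 / pr') M' : ℕ) * ((b' : ℝ) / c' * γ)) := by
        linear_combination (-((b' : ℝ) / c' * γ)) * r2
      rw [q1, q2]
      have bl1 : bL s a m a' m' = s ^ (a' - M'.factorization s - (a - M.factorization s)) := rfl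
      have bl2 : bL s a' m' a m = s ^ (a - M.factorization s - (a' - M'.factorization s)) := rfl
      rw [← bl1, ← bl2]
      unfold ui itm
      push_cast
      ring)
    (by
      intro f hf h1 h2 h3
      obtain ⟨e, he, rfl⟩ := mem0 f hf
      obtain ⟨k1, k2⟩ := Finset.mem_product.1 he
      have hd0 : 0 < Dc O O' R R' (itm s pr e.1, itm s pr' e.2) := by
        refine Dc_pos (N := s) hOp hOp' ?_ (hW _ k2).i0
        rw [hRe _ k1]; have := hrd e.1; positivity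
      rw [hDc e he] at h1 hd0 ⊢
      rw [hF0e e he] at h2
      have h2 : 0 < F e := (mul_pos_iff_of_pos_left hκ0).1 h2
      have r1 : ((bL s a m a' m' : ℕ) : ℝ) * (rf (e.1 / pr) M : ℕ) = (P : ℝ) * (rf (itm s pr e.1) (st s M) : ℕ) := by
        exact_mod_cast (hV _ k1).brf hs hM a' m'
      have r2 : ((bL s a' m' a m : ℕ) : ℝ) * (rf (e.2 / pr') M' : ℕ) =
          (P' : ℝ) * (rf (itm s pr' e.2) (st s M') : ℕ) := by
        exact_mod_cast (hW _ k2).brf hs hM' a m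
      have q : ∀ x : ℝ, (rf (itm s pr e.1) (st s M) : ℕ) * ((P : ℝ) * x) =
            (bL s a m a' m' : ℝ) * ((rf (e.1 / pr) M : ℕ) * x) := fun x => by linear_combination (-x) * r1
      have q' : ∀ x : ℝ, (rf (itm s pr' e.2) (st s M') : ℕ) * ((P' : ℝ) * x) =
            (bL s a' m' a m : ℝ) * ((rf (e.2 / pr') M' : ℕ) * x) := fun x => by linear_combination (-x) * r2
      have hFS : ESs s γ ρ M b pr c M' b' pr' c' a a' e ∨
          FSs s γ ρ (lev cl s) M b pr c M' b' pr' c' a a' e := by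
        rcases h3 with h3 | h3
        · left
          have h3' : ES (gL (miss O' (itm s pr e.1))) (gR (miss O (itm s pr' e.2)))
            (cof (uu O' (itm s pr e.1)) (uu O (itm s pr' e.2))) (cof (uu O (itm s pr' e.2)) (uu O' (itm s pr e.1)))
            (Rc O' R (itm s pr e.1)) (Rc O R' (itm s pr' e.2)) := h3
          rw [gV _ k1, gW _ k2, uV _ k1, uW _ k2, cV _ k1, cW _ k2] at h3'
          unfold ESs
          rw [q, q, q', q'] at h3'
          exact h3'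
        · right
          have h3' : FS (lev cl s) (gL (miss O' (itm s pr e.1))) (gR (miss O (itm s pr' e.2)))
            (cof (uu O' (itm s pr e.1)) (uu O (itm s pr' e.2))) (cof (uu O (itm s pr' e.2)) (uu O' (itm s pr e.1)))
            (Rc O' R (itm s pr e.1)) (Rc O R' (itm s pr' e.2)) := h3
          rw [gV _ k1, gW _ k2, uV _ k1, uW _ k2, cV _ k1, cW _ k2] at h3'
          unfold FSs
          rw [q, q, q', q'] at h3'
          exact h3'
      have h4 := hFG e he h1 h2 hFS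
      have hmm := one_le_mm (O := O) (O' := O') (fun p hp => (hOp p hp).1.pos) (fun p hp => (hOp' p hp).1.pos)
        (itm s pr e.1, itm s pr' e.2)
      have hrr : ((rf (itm s pr e.1) (st s M) * rf (itm s pr' e.2) (st s M') : ℕ) : ℝ) =
          E * mm O O' (itm s pr e.1, itm s pr' e.2) := by
        have g1 := ((hV _ k1).once hs hM).miss hst (hV _ k1).i0
        have g2 := ((hW _ k2).once hs hM').miss hst' (hW _ k2).i0
        rw [← g1, ← g2, hE]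
        unfold mm
        push_cast
        ring
      left
      have hmm0 : 0 < mm O O' (itm s pr e.1, itm s pr' e.2) := lt_of_lt_of_le one_pos hmm
      have e1 : ((a₀ * rf (itm s pr e.1) (st s M) * rf (itm s pr' e.2) (st s M') : ℕ) : ℝ) =
          a₀ * (E * mm O O' (itm s pr e.1, itm s pr' e.2)) := by
        rw [← hrr]; push_cast; ring
      rw [e1] at h4
      refine lt_of_lt_of_le h4 ?_
      have hE0 : 0 < E := by linarith
      have hEm : 1 ≤ E * mm O O' (itm s pr e.1, itm s pr' e.2) := by nlinarith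
      have h5 : (a₀:ℝ) * (E * mm O O' (itm s pr e.1, itm s pr' e.2)) ≤
          A₁ * (mm O O' (itm s pr e.1, itm s pr' e.2))^2 := by
        have h6 : E * mm O O' (itm s pr e.1, itm s pr' e.2) ≤
            E^2 * (mm O O' (itm s pr e.1, itm s pr' e.2))^2 := by nlinarith [mul_pos hE0 hmm0]
        rw [hA₁]
        calc _ ≤ (a₀:ℝ) * (E^2 * (mm O O' (itm s pr e.1, itm s pr' e.2))^2) :=
              mul_le_mul_of_nonneg_left h6 (by positivity)
          _ = _ := by ring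
      gcongr)
  -- the sums
  have hsumL : ∑ f ∈ (V0 ×ˢ W0).filter (fun f => Dc O O' R R' f ≤ 1), F0 f =
      κ * ∑ e ∈ (V ×ˢ W).filter (fun e => Dq ρ M b pr c M' b' pr' c' e ≤ 1), F e := by
    have := sum_br hV hW κ F (fun e => Dq ρ M b pr c M' b' pr' c' e ≤ 1) (fun f => Dc O O' R R' f ≤ 1)
      (fun e he => by rw [hDc e he])
    convert this
  rw [hsumL] at key
  have hz0 : ∑ f ∈ (V0 ×ˢ W0).filter (fun f => 0 < F0 f ∧ (Dc O O' R R' f ≤ 1/2^(lev cl s) ∧ Q0 f)), F0 f = 0 :=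
    Finset.sum_eq_zero fun f hf => absurd (Finset.mem_filter.1 hf).2.2.2 (hQ0 f)
  rw [hz0, add_zero] at key
  -- numbers
  set x := ∑ q ∈ V, rd b c ρ q * tq (q / pr) with hx
  set y := ∑ q ∈ W, rd b' c' ρ q * tq (q / pr') with hy
  have x0 : 0 ≤ x := Finset.sum_nonneg fun q _ => mul_nonneg (hrd q).le (tq_nonneg _)
  have y0 : 0 ≤ y := Finset.sum_nonneg fun q _ => mul_nonneg (hrd' q).le (tq_nonneg _)
  have xy0 : 0 ≤ x * y := mul_nonneg x0 y0
  have sV := mass_br hs hM hV P b c (fun q => (hρ q).le) hs1'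
  have sW := mass_br hs hM' hW P' b' c' (fun q => (hρ q).le) hs1
  have nV := mass_nonneg hs hM hV P b c (fun q => (hρ q).le)
  have nW := mass_nonneg hs hM' hW P' b' c' (fun q => (hρ q).le)
  set SV := ∑ w ∈ V0, mu O' R w with hSV
  set SW := ∑ w ∈ W0, mu O R' w with hSW
  have sV' : SV ≤ (ex (st s M) * P : ℝ) * (16 * x) := sV
  have sW' : SW ≤ (ex (st s M') * P' : ℝ) * (16 * y) := sW
  have nV' : 0 ≤ SV := nV
  have nW' : 0 ≤ SW := nW
  have hprod : SV * SW ≤ κ * (256 * (x * y)) := by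
    calc SV * SW ≤ ((ex (st s M) * P : ℝ) * (16 * x)) * ((ex (st s M') * P' : ℝ) * (16 * y)) :=
          mul_le_mul sV' sW' nW' (nV'.trans sV')
      _ = _ := by rw [hκ]; ring
  have gl : ∀ δ : ℝ, δ ≤ 1/100 → κ^(-(1/2-δ)) ≤ 1 := fun δ hδ => by
    rw [hκE]; exact Real.rpow_le_one_of_one_le_of_nonpos hE1 (by linarith)
  have pwr : ∀ δ : ℝ, 0 ≤ δ → δ ≤ 1/100 →
      (κ * (256 * (x * y)))^(1/2+δ) ≤ κ * (κ^(-(1/2-δ)) * (256 * (x * y)^(1/2+δ))) := fun δ h1 h2 => by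
    rw [pow_split hκ0 (by positivity), Real.mul_rpow (by norm_num) xy0]
    have h3 : (256:ℝ)^(1/2+δ) ≤ 256 := by
      calc (256:ℝ)^(1/2+δ) ≤ (256:ℝ)^(1:ℝ) := Real.rpow_le_rpow_of_exponent_le (by norm_num) (by linarith)
        _ = 256 := Real.rpow_one _
    gcongr
  have T1 : (SV * SW)^(1/2+eps1) ≤ κ * (256 * (x * y)^(1/2+eps1)) := by
    calc (SV * SW)^(1/2+eps1) ≤ (κ * (256 * (x * y)))^(1/2+eps1) :=
          Real.rpow_le_rpow (mul_nonneg nV' nW') hprod (by rw [he1]; norm_num)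
      _ ≤ κ * (κ^(-(1/2-eps1)) * (256 * (x * y)^(1/2+eps1))) := pwr eps1 (by rw [he1]; norm_num) (by rw [he1]; norm_num)
      _ ≤ κ * (1 * (256 * (x * y)^(1/2+eps1))) := by
          have := gl eps1 (by rw [he1]; norm_num)
          gcongr
      _ = _ := by ring
  have hA₁6 : A₁^(6/1000:ℝ) * κ^(-(1/2-eps2)) ≤ (a₀:ℝ)^(6/1000:ℝ) := by
    rw [hA₁, Real.mul_rpow (by positivity) (by positivity), hκE]
    have hE0 : 0 < E := by linarith
    have h0 : (E^2)^(6/1000:ℝ) * E^(-(1/2-eps2)) ≤ 1 := by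
      have : (E^2)^(6/1000:ℝ) = E^(12/1000:ℝ) := by
        rw [← Real.rpow_natCast, ← Real.rpow_mul hE0.le]; norm_num
      rw [this, ← Real.rpow_add hE0]
      exact Real.rpow_le_one_of_one_le_of_nonpos hE1 (by rw [he2]; norm_num)
    calc _ = (a₀:ℝ)^(6/1000:ℝ) * ((E^2)^(6/1000:ℝ) * E^(-(1/2-eps2))) := by ring
      _ ≤ (a₀:ℝ)^(6/1000:ℝ) * 1 := mul_le_mul_of_nonneg_left h0 (by positivity)
      _ = _ := mul_one _
  have T3 : A₁^(6/1000:ℝ) * (SV * SW)^(1/2+eps2) ≤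
      κ * (256 * ((a₀:ℝ)^(6/1000:ℝ) * (x * y)^(1/2+eps2))) := by
    have h1 : (SV * SW)^(1/2+eps2) ≤ κ * (κ^(-(1/2-eps2)) * (256 * (x * y)^(1/2+eps2))) :=
      (Real.rpow_le_rpow (mul_nonneg nV' nW') hprod (by rw [he2]; norm_num)).trans
        (pwr eps2 (by rw [he2]; norm_num) (by rw [he2]; norm_num))
    calc _ ≤ A₁^(6/1000:ℝ) *
          (κ * (κ^(-(1/2-eps2)) * (256 * (x * y)^(1/2+eps2)))) :=
          mul_le_mul_of_nonneg_left h1 (Real.rpow_nonneg (by linarith) _)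
      _ = κ * (256 * (x * y)^(1/2+eps2)) * (A₁^(6/1000:ℝ) * κ^(-(1/2-eps2))) := by ring
      _ ≤ κ * (256 * (x * y)^(1/2+eps2)) * (a₀:ℝ)^(6/1000:ℝ) :=
          mul_le_mul_of_nonneg_left hA₁6 (by positivity)
      _ = _ := by ring
  set K := C0 + 5 + cl/500 with hK
  have e7 : ℓ^(C0 + 7 + cl/500) = ℓ^K * ℓ^2 := by
    rw [hK, show C0 + 7 + cl/500 = (C0 + 5 + cl/500) + 2 by ring, Real.rpow_add hℓ0, Real.rpow_two]
  have hℓK : 0 < ℓ^K := by positivity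
  have h256 : (256:ℝ) ≤ ℓ^2 := by nlinarith
  have t1 : ℓ^K * (SV * SW)^(1/2+eps1) ≤ κ * (ℓ^(C0 + 7 + cl/500) * (x * y)^(1/2+eps1)) := by
    calc ℓ^K * (SV * SW)^(1/2+eps1) ≤ ℓ^K * (κ * (256 * (x * y)^(1/2+eps1))) :=
          mul_le_mul_of_nonneg_left T1 hℓK.le
      _ = (κ * (x * y)^(1/2+eps1)) * ℓ^K * 256 := by ring
      _ ≤ (κ * (x * y)^(1/2+eps1)) * ℓ^K * ℓ^2 :=
          mul_le_mul_of_nonneg_left h256 (by positivity)
      _ = _ := by rw [e7]; ring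
  have t3 : ℓ^K * (A₁^(6/1000:ℝ) * (SV * SW)^(1/2+eps2)) ≤
      κ * (ℓ^(C0 + 7 + cl/500) * ((a₀:ℝ)^(6/1000:ℝ) * (x * y)^(1/2+eps2))) := by
    calc ℓ^K * (A₁^(6/1000:ℝ) * (SV * SW)^(1/2+eps2)) ≤
          ℓ^K * (κ * (256 * ((a₀:ℝ)^(6/1000:ℝ) * (x * y)^(1/2+eps2)))) :=
          mul_le_mul_of_nonneg_left T3 hℓK.le
      _ = (κ * ((a₀:ℝ)^(6/1000:ℝ) * (x * y)^(1/2+eps2))) * ℓ^K * 256 := by ring
      _ ≤ (κ * ((a₀:ℝ)^(6/1000:ℝ) * (x * y)^(1/2+eps2))) * ℓ^K * ℓ^2 :=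
          mul_le_mul_of_nonneg_left h256 (by positivity)
      _ = _ := by rw [e7]; ring
  refine le_of_mul_le_mul_left ?_ hκ0
  calc _ ≤ _ := key
    _ = ℓ^K * (SV * SW)^(1/2+eps1) + ℓ^K * (A₁^(6/1000:ℝ) * (SV * SW)^(1/2+eps2)) := by rw [hK]; ring
    _ ≤ _ := add_le_add t1 t3
    _ = _ := by ring


end Crest.Agent.R4P.ShotEq32
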