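import Mathlib
import Crest.Agent.R4P.ShotEq_32
import Crest.Agent.R4P.PotSum_32

/-!
R4P (S0004), helper32, group [X]: **the class numbers of the potentials at a crossing prime, EQUAL classes**.

* `dead` : the `[E]` pairs satisfy the same inequality as the `[F]` pairs (field `es`), then there is no term
  `(xy)^(1/2)`; otherwise the matching term is there.
* `boxE` : one rectangle; `exitsE` : the missing ties; `cls_totalE`, `EQ_of` : one class, everything.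
-/

set_option autoImplicit false
set_option linter.unusedVariables false
open Finset

namespace Crest.Agent.R4P.EqNum32

open Crest.Agent.R4.HVW560 Crest.Agent.R4.Schur709 Crest.Agent.R4.StopHvw709
open Crest.Agent.R4.StopAsm709 Crest.Agent.R4.AvgItem710 Crest.Agent.R4.DeepSt579
open Crest.Agent.R4P.Rad800 Crest.Agent.R4P.StripP33 Crest.Agent.R4P.BrP33 Crest.Agent.R4P.ShotP33
open Crest.Agent.R4P.ClsSum Crest.Agent.R4P.ShotTot33 Crest.Agent.R4P.LLTot33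
open Crest.Agent.R4.NMW710 (Dq)
open Crest.Agent.R4.ClsS (eps1)
open Crest.Agent.R4.OSCore709 Crest.Agent.R4.CrossShot709 Crest.Agent.R4.Bad223 Crest.Agent.R4.ShotG223
open Crest.Agent.R4P.NumCls32 Crest.Agent.R4P.ExitSum32 Crest.Agent.R4P.PotSum32 Crest.Agent.R4P.ShotEq32
open Crest.Agent.R4P.ShotExc32

/-- **what the summand must satisfy**, one pair of classes with equal effective exponents -/
structure FE (dead : Prop) (C0 cl : ℝ) (s M b pr c M' b' pr' c' a a' a₀ : ℕ) (γ : ℝ) (ρ : ℕ → ℝ)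
    (V W : Finset ℕ) (F : ℕ × ℕ → ℝ) : Prop where
  f1 : ∀ e ∈ V ×ˢ W, Dq ρ M b pr c M' b' pr' c' e ≤ 1 →
      F e ≤ (Real.log s)^C0 * (rd b c ρ e.1 * rd b' c' ρ e.2 / Dq ρ M b pr c M' b' pr' c' e)
  f2 : ∀ e ∈ V ×ˢ W, 1 < Dq ρ M b pr c M' b' pr' c' e →
      F e ≤ (Real.log s)^C0 * (rd b c ρ e.1 * rd b' c' ρ e.2)
  rel : ∀ e ∈ V ×ˢ W, Dq ρ M b pr c M' b' pr' c' e ≤ 1/2^(lev cl s) → 0 < F e →
      RelI γ ρ M b pr c M' b' pr' c' e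
  fs : ∀ e ∈ V ×ˢ W, Dq ρ M b pr c M' b' pr' c' e ≤ 1/2^(lev cl s) → 0 < F e →
      FSs s γ ρ (lev cl s) M b pr c M' b' pr' c' a a' e →
      1 < 2 * ((a₀ * rf (itm s pr e.1) (st s M) * rf (itm s pr' e.2) (st s M') : ℕ) : ℝ)^10 *
        Dq ρ M b pr c M' b' pr' c' e
  es : dead → ∀ e ∈ V ×ˢ W, Dq ρ M b pr c M' b' pr' c' e ≤ 1/2^(lev cl s) → 0 < F e →
      ESs s γ ρ M b pr c M' b' pr' c' a a' e →
      1 < 2 * ((a₀ * rf (itm s pr e.1) (st s M) * rf (itm s pr' e.2) (st s M') : ℕ) : ℝ)^10 *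
        Dq ρ M b pr c M' b' pr' c' e

lemma FE.mono {dead : Prop} {C0 cl : ℝ} {s M b pr c M' b' pr' c' a a' a₀ : ℕ} {γ : ℝ} {ρ : ℕ → ℝ}
    {V W V₁ W₁ : Finset ℕ} {F : ℕ × ℕ → ℝ} (h : FE dead C0 cl s M b pr c M' b' pr' c' a a' a₀ γ ρ V W F)
    (h1 : V₁ ⊆ V) (h2 : W₁ ⊆ W) : FE dead C0 cl s M b pr c M' b' pr' c' a a' a₀ γ ρ V₁ W₁ F where
  f1 := fun e he => h.f1 e (Finset.product_subset_product h1 h2 he)
  f2 := fun e he => h.f2 e (Finset.product_subset_product h1 h2 he)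
  rel := fun e he => h.rel e (Finset.product_subset_product h1 h2 he)
  fs := fun e he => h.fs e (Finset.product_subset_product h1 h2 he)
  es := fun hd e he => h.es hd e (Finset.product_subset_product h1 h2 he)

open Classical in
/-- coefficient of the matching term -/
noncomputable def sg (dead : Prop) : ℝ := if dead then 0 else 1

lemma sg_nonneg (dead : Prop) : 0 ≤ sg dead := by unfold sg; split_ifs <;> norm_num

/-- the powers of one rectangle -/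
noncomputable def ZE (σ : ℝ) (a₀ : ℕ) (z : ℝ) : ℝ :=
  z^(1/2+eps1) + σ * z^(1/2:ℝ) + (a₀:ℝ)^(6/1000:ℝ) * z^(1/2+eps2) + z

lemma ZE_nonneg {σ : ℝ} (hσ : 0 ≤ σ) (a₀ : ℕ) {z : ℝ} (hz : 0 ≤ z) : 0 ≤ ZE σ a₀ z := by
  unfold ZE; positivity

lemma ZE_mono {σ : ℝ} (hσ : 0 ≤ σ) (a₀ : ℕ) {z w : ℝ} (hz : 0 ≤ z) (h : z ≤ w) : ZE σ a₀ z ≤ ZE σ a₀ w := by
  have he1 : eps1 = 1/1000 := rfl
  have he2 : eps2 = 1/4000 := rfl
  unfold ZE
  have h1 : z^(1/2+eps1) ≤ w^(1/2+eps1) := Real.rpow_le_rpow hz h (by rw [he1]; norm_num)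
  have h2 : z^(1/2:ℝ) ≤ w^(1/2:ℝ) := Real.rpow_le_rpow hz h (by norm_num)
  have h3 : z^(1/2+eps2) ≤ w^(1/2+eps2) := Real.rpow_le_rpow hz h (by rw [he2]; norm_num)
  gcongr

section BX
variable {CL : ℝ} {s M b pr c M' b' pr' c' a a' : ℕ} {ρ : ℕ → ℝ} {V W : Finset ℕ}

lemma inv_sum' {O : Finset ℕ} (h : ∑ l ∈ O, (l:ℝ)^(-(11/12):ℝ) ≤ 1) (hO : ∀ l ∈ O, l.Prime) :
    ∑ l ∈ O, 1/(l:ℝ) ≤ 1 :=
  (Finset.sum_le_sum fun p hp => Crest.Agent.R4.ShotFF223.inv_le_pow (hO p hp).one_lt.le).trans h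

lemma BX.sR (h : BX CL s M b pr c M' b' pr' c' a a' ρ V W) (hCL : 0 ≤ CL * Real.log s) :
    ∑ q ∈ V, rd b c ρ q ≤ CL * Real.log s * (16 * ∑ q ∈ V, rd b c ρ q * tq (q / pr)) := by
  have hs1 : ∑ l ∈ (st s M).primeFactors, 1 / (l : ℝ) ≤ 1 := by
    rw [pf_st h.hs h.hM]
    exact inv_sum' h.hsM fun l hl => Nat.prime_of_mem_primeFactors (Finset.mem_of_mem_erase hl)
  rw [Finset.mul_sum, Finset.mul_sum]
  refine Finset.sum_le_sum fun q hq => ?_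
  have h1 := h.lV q hq
  have h2 := (h.hV q hq).tq_ge h.hs h.hM
  have h3 := (h.hV q hq).tq_le h.hs h.hM hs1
  have h4 := (h.rd0 q).le
  have h5 : 1 ≤ CL * Real.log s * (16 * tq (q / pr)) :=
    h1.trans (mul_le_mul_of_nonneg_left (h2.trans h3) hCL)
  calc rd b c ρ q = rd b c ρ q * 1 := (mul_one _).symm
    _ ≤ rd b c ρ q * (CL * Real.log s * (16 * tq (q / pr))) := mul_le_mul_of_nonneg_left h5 h4
    _ = _ := by ring

lemma BX.sR' (h : BX CL s M b pr c M' b' pr' c' a a' ρ V W) (hCL : 0 ≤ CL * Real.log s) :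
    ∑ q ∈ W, rd b' c' ρ q ≤ CL * Real.log s * (16 * ∑ q ∈ W, rd b' c' ρ q * tq (q / pr')) := by
  have hs1 : ∑ l ∈ (st s M').primeFactors, 1 / (l : ℝ) ≤ 1 := by
    rw [pf_st h.hs h.hM']
    exact inv_sum' h.hsM' fun l hl => Nat.prime_of_mem_primeFactors (Finset.mem_of_mem_erase hl)
  rw [Finset.mul_sum, Finset.mul_sum]
  refine Finset.sum_le_sum fun q hq => ?_
  have h1 := h.lW q hq
  have h2 := (h.hW q hq).tq_ge h.hs h.hM'
  have h3 := (h.hW q hq).tq_le h.hs h.hM' hs1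
  have h4 := (h.rd0' q).le
  have h5 : 1 ≤ CL * Real.log s * (16 * tq (q / pr')) :=
    h1.trans (mul_le_mul_of_nonneg_left (h2.trans h3) hCL)
  calc rd b' c' ρ q = rd b' c' ρ q * 1 := (mul_one _).symm
    _ ≤ rd b' c' ρ q * (CL * Real.log s * (16 * tq (q / pr'))) := mul_le_mul_of_nonneg_left h5 h4
    _ = _ := by ring

end BX

/-- the bound of a rectangle -/
def BoxE (dead : Prop) (C0 cl CL : ℝ) (s₁ : ℕ) (K : ℝ) : Prop :=
  ∀ (s M b pr c M' b' pr' c' a a' a₀ : ℕ) (γ : ℝ) (ρ : ℕ → ℝ) (V W : Finset ℕ) (F : ℕ × ℕ → ℝ),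
    s₁ ≤ s → 1 ≤ a₀ → BX CL s M b pr c M' b' pr' c' a a' ρ V W →
    a + M'.factorization s = a' + M.factorization s → (M.factorization s = 0 ∨ M'.factorization s = 0) →
    FE dead C0 cl s M b pr c M' b' pr' c' a a' a₀ γ ρ V W F →
    ∑ e ∈ V ×ˢ W, F e ≤ (Real.log s)^K *
      ZE (sg dead) a₀ ((∑ q ∈ V, rd b c ρ q * tq (q / pr)) * (∑ q ∈ W, rd b' c' ρ q * tq (q / pr')))

open Classical in
theorem boxE (dead : Prop) {CL C0 : ℝ} (hCL : 1 ≤ CL) (hC0 : 0 ≤ C0) :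
    ∃ cl₀ : ℝ, 0 < cl₀ ∧ ∀ cl : ℝ, cl₀ ≤ cl →
    ∃ s₁ : ℕ, 3 ≤ s₁ ∧ BoxE dead C0 cl CL s₁ (C0 + 7 + cl/500) := by
  obtain ⟨cl₀, h0, h⟩ := shot_cls0 hCL hC0
  obtain ⟨cl₁, h0', h'⟩ := shot_clsE hCL hC0
  refine ⟨max cl₀ cl₁, lt_max_of_lt_left h0, fun cl hcl => ?_⟩
  have hcl0 : 0 < cl := lt_of_lt_of_le h0 ((le_max_left _ _).trans hcl)
  obtain ⟨s₁, h1, h2, h3⟩ := h cl ((le_max_left _ _).trans hcl)
  obtain ⟨s₂, h1', h2', h3'⟩ := h' cl ((le_max_right _ _).trans hcl)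
  obtain ⟨x1, hx1⟩ := Filter.eventually_atTop.1
    (Real.tendsto_log_atTop.eventually_ge_atTop (256 * CL^2))
  refine ⟨max (max s₁ s₂) ⌈x1⌉₊, h1.trans ((le_max_left _ _).trans (le_max_left _ _)), ?_⟩
  intro s M b pr c M' b' pr' c' a a' a₀ γ ρ V W F hs ha hB heq hmin hF
  have hs1 : s₁ ≤ s := ((le_max_left _ _).trans (le_max_left _ _)).trans hs
  have hs2 : s₂ ≤ s := ((le_max_right _ _).trans (le_max_left _ _)).trans hs
  have hlog : 256 * CL^2 ≤ Real.log s :=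
    hx1 s ((Nat.le_ceil _).trans (by exact_mod_cast (le_max_right _ _).trans hs))
  set ℓ := Real.log s with hℓ
  have hℓ256 : 256 ≤ ℓ := by nlinarith
  have hℓ0 : 0 < ℓ := by linarith
  have hx0 := hB.x0 V
  have hy0 := hB.y0 W
  have sx := BX.sR hB (by positivity)
  have sy := BX.sR' hB (by positivity)
  set x := ∑ q ∈ V, rd b c ρ q * tq (q / pr) with hx
  set y := ∑ q ∈ W, rd b' c' ρ q * tq (q / pr') with hy
  have hxy := mul_nonneg hx0 hy0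
  set D : ℕ × ℕ → ℝ := Dq ρ M b pr c M' b' pr' c' with hD
  rw [← Finset.sum_filter_add_sum_filter_not (V ×ˢ W) (fun e => D e ≤ 1)]
  -- large scales
  have big : ∑ e ∈ (V ×ˢ W).filter (fun e => ¬ D e ≤ 1), F e ≤ ℓ^(C0 + 7 + cl/500) * (x * y) := by
    have b1 : ∑ e ∈ (V ×ˢ W).filter (fun e => ¬ D e ≤ 1), F e ≤
        ∑ e ∈ V ×ˢ W, ℓ^C0 * (rd b c ρ e.1 * rd b' c' ρ e.2) := by
      refine (Finset.sum_le_sum fun e he => hF.f2 e (Finset.mem_filter.1 he).1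
        (not_le.1 (Finset.mem_filter.1 he).2)).trans ?_
      exact Finset.sum_le_sum_of_subset_of_nonneg (Finset.filter_subset _ _) fun e _ _ =>
        mul_nonneg (by positivity) (mul_nonneg (hB.rd0 _).le (hB.rd0' _).le)
    have b2 : ∑ e ∈ V ×ˢ W, ℓ^C0 * (rd b c ρ e.1 * rd b' c' ρ e.2) =
        ℓ^C0 * ((∑ q ∈ V, rd b c ρ q) * ∑ q ∈ W, rd b' c' ρ q) := by
      rw [← Finset.mul_sum, Finset.sum_mul_sum, Finset.sum_product]
    rw [b2] at b1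
    refine b1.trans ?_
    have b3 : (∑ q ∈ V, rd b c ρ q) * ∑ q ∈ W, rd b' c' ρ q ≤ (CL * ℓ * (16 * x)) * (CL * ℓ * (16 * y)) :=
      mul_le_mul sx sy (Finset.sum_nonneg fun q _ => (hB.rd0' q).le) (by positivity)
    calc ℓ^C0 * ((∑ q ∈ V, rd b c ρ q) * ∑ q ∈ W, rd b' c' ρ q)
        ≤ ℓ^C0 * ((CL * ℓ * (16 * x)) * (CL * ℓ * (16 * y))) := mul_le_mul_of_nonneg_left b3 (by positivity)
      _ = ℓ^C0 * ℓ^2 * (256 * CL^2) * (x * y) := by ring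
      _ ≤ ℓ^C0 * ℓ^2 * ℓ * (x * y) := by gcongr
      _ = ℓ^(C0 + 3) * (x * y) := by
          rw [show C0 + 3 = C0 + 2 + 1 by ring, Real.rpow_add hℓ0, Real.rpow_add hℓ0, Real.rpow_one,
            Real.rpow_two]
      _ ≤ _ := mul_le_mul_of_nonneg_right (Real.rpow_le_rpow_of_exponent_le (by linarith) (by linarith)) hxy
  have low : ∑ e ∈ (V ×ˢ W).filter (fun e => D e ≤ 1), F e ≤ ℓ^(C0 + 7 + cl/500) *
      ((x * y)^(1/2+eps1) + sg dead * (x * y)^(1/2:ℝ) + (a₀:ℝ)^(6/1000:ℝ) * (x * y)^(1/2+eps2)) := by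
    by_cases hd : dead
    · have key := h3' s M b pr c M' b' pr' c' a a' a₀ γ ρ V W F hs2 hB.hs ha hB.hρ hB.hb hB.hc hB.hb' hB.hc'
        hB.hM hB.hM' hB.gM hB.gM' hB.hsM hB.hsM' heq hmin hB.hV hB.hW hB.tV hB.tW hB.lV hB.lW hF.f1 hF.rel
        (fun e he k1 k2 k3 => k3.elim (hF.es hd e he k1 k2) (hF.fs e he k1 k2))
      refine key.trans (le_of_eq ?_)
      unfold sg
      rw [if_pos hd]; ring
    · have key := h3 s M b pr c M' b' pr' c' a a' a₀ γ ρ V W F (fun _ => False) hs1 hB.hs ha hB.hρ hB.hb hB.hc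
        hB.hb' hB.hc' hB.hM hB.hM' hB.gM hB.gM' hB.hsM hB.hsM' heq hmin hB.hV hB.hW hB.tV hB.tW hB.lV hB.lW
        hF.f1 hF.rel (fun e he k1 k2 k3 => Or.inl (hF.fs e he k1 k2 k3))
      refine key.trans ?_
      refine (add_le_add le_rfl (le_of_eq (b := 0) ?_)).trans (le_of_eq ?_)
      · refine Finset.sum_eq_zero fun e he => ?_
        simp at he
      · unfold sg
        rw [if_neg hd]; ring
  refine (add_le_add low big).trans (le_of_eq ?_)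
  unfold ZE
  ring

/-! ### exits -/

/-- the powers of an exit -/
noncomputable def YE (σ : ℝ) (l : ℕ) (z : ℝ) : ℝ :=
  (l:ℝ)^(-(2-2*(1/2+eps1))) * (1 * z^(1/2+eps1)) + σ * ((l:ℝ)^(-(2-2*(1/2:ℝ))) * (1 * z^(1/2:ℝ))) +
    (l:ℝ)^(-(2-2*(1/2+eps2))) * ((l:ℝ)^(6/1000:ℝ) * z^(1/2+eps2)) + z

lemma ZE_raise (σ : ℝ) {l : ℕ} (hl : 1 ≤ l) {z : ℝ} (hz : 0 ≤ z) :
    ((l:ℝ)^2)⁻¹ * ZE σ l ((l:ℝ) * l * z) = YE σ l z := by
  have hl0 : (0:ℝ) < l := by exact_mod_cast hl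
  unfold ZE YE
  rw [one_mul, one_mul, ← rp_scale hl hz, ← rp_scale hl hz]
  have e3 := rp_scale hl hz (σ := 1/2+eps2)
  have e4 : ((l:ℝ)^2)⁻¹ * ((l:ℝ) * l * z) = z := by field_simp
  calc ((l:ℝ)^2)⁻¹ * (((l:ℝ) * l * z)^(1/2+eps1) + σ * ((l:ℝ) * l * z)^(1/2:ℝ) +
        (l:ℝ)^(6/1000:ℝ) * ((l:ℝ) * l * z)^(1/2+eps2) + (l:ℝ) * l * z)
      = ((l:ℝ)^2)⁻¹ * ((l:ℝ) * l * z)^(1/2+eps1) + σ * (((l:ℝ)^2)⁻¹ * ((l:ℝ) * l * z)^(1/2:ℝ)) +
        (l:ℝ)^(6/1000:ℝ) * (((l:ℝ)^2)⁻¹ * ((l:ℝ) * l * z)^(1/2+eps2)) +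
        ((l:ℝ)^2)⁻¹ * ((l:ℝ) * l * z) := by ring
    _ = _ := by rw [e3, e4]; ring

section ex
variable {dead : Prop} {C0 cl CL K : ℝ} {s₁ : ℕ} {s M b pr c M' b' pr' c' a a' : ℕ} {γ : ℝ} {ρ : ℕ → ℝ}
  {V W : Finset ℕ}

/-- one rectangle at the letters of an exit -/
lemma exit_rectE (hbox : BoxE dead C0 cl CL s₁ K) (hs₁ : s₁ ≤ s)
    (hB : BX CL s M b pr c M' b' pr' c' a a' ρ V W)
    (heq : a + M'.factorization s = a' + M.factorization s)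
    (hmin : M.factorization s = 0 ∨ M'.factorization s = 0) {l : ℕ} (hl : 1 ≤ l)
    {G : ℕ × ℕ → ℝ}
    (hF : FE dead C0 cl s M (b*l) pr c M' (b'*l) pr' c' a a' l γ ρ V W (fun e => (l:ℝ)^2 * G e))
    {z : ℝ} (hz : (∑ q ∈ V, rd b c ρ q * tq (q / pr)) * (∑ q ∈ W, rd b' c' ρ q * tq (q / pr')) ≤ z) :
    ∑ e ∈ V ×ˢ W, G e ≤ (Real.log s)^K * YE (sg dead) l z := by
  have hl0 : (0:ℝ) < l := by exact_mod_cast hl
  have hx := hB.x0 V
  have hy := hB.y0 W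
  have hxy := mul_nonneg hx hy
  have hz0 := hxy.trans hz
  have hb := hbox s M (b*l) pr c M' (b'*l) pr' c' a a' l γ ρ V W _ hs₁ hl
    (hB.raise hl) heq hmin hF
  rw [mass_raise, mass_raise] at hb
  set x := ∑ q ∈ V, rd b c ρ q * tq (q / pr) with hxd
  set y := ∑ q ∈ W, rd b' c' ρ q * tq (q / pr') with hyd
  have e1 : (l:ℝ) * x * (l * y) = (l:ℝ) * l * (x * y) := by ring
  rw [e1, ← Finset.mul_sum] at hb
  have hlog : 0 ≤ Real.log s := Real.log_natCast_nonneg s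
  have hmono : (l:ℝ) * l * (x * y) ≤ (l:ℝ) * l * z := mul_le_mul_of_nonneg_left hz (by positivity)
  have h3 := ZE_mono (sg_nonneg dead) l (mul_nonneg (by positivity) hxy) hmono
  rw [← ZE_raise (sg dead) hl hz0]
  have hl2 : (0:ℝ) < (l:ℝ)^2 := by positivity
  have hb2 : (l:ℝ)^2 * ∑ e ∈ V ×ˢ W, G e ≤ (Real.log s)^K * ZE (sg dead) l ((l:ℝ) * l * z) :=
    hb.trans (mul_le_mul_of_nonneg_left h3 (by positivity))
  have e2 : ∑ e ∈ V ×ˢ W, G e = ((l:ℝ)^2)⁻¹ * ((l:ℝ)^2 * ∑ e ∈ V ×ˢ W, G e) := by field_simp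
  rw [e2]
  refine (mul_le_mul_of_nonneg_left hb2 (by positivity)).trans (le_of_eq ?_)
  ring

open Classical in
/-- mass of the items counted with their missing ties -/
lemma card_mass {U T : Finset ℕ} {w : ℕ → ℝ} (hw : ∀ q ∈ U, 0 ≤ w q) {m : ℕ → Finset ℕ} {N : ℝ}
    (hm : ∀ q ∈ U, ((m q).card : ℝ) ≤ N) :
    ∑ l ∈ T, ∑ q ∈ U.filter (fun q => l ∈ m q), w q ≤ N * ∑ q ∈ U, w q := by
  have h1 : ∑ l ∈ T, ∑ q ∈ U.filter (fun q => l ∈ m q), w q =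
      ∑ q ∈ U, ∑ l ∈ T.filter (fun l => l ∈ m q), w q := by
    simp only [Finset.sum_filter]
    rw [Finset.sum_comm]
  rw [h1, Finset.mul_sum]
  refine Finset.sum_le_sum fun q hq => ?_
  rw [Finset.sum_const, nsmul_eq_mul]
  refine mul_le_mul_of_nonneg_right ?_ (hw q hq)
  refine le_trans ?_ (hm q hq)
  exact_mod_cast Finset.card_le_card fun l hl => (Finset.mem_filter.1 hl).2

open Classical in
/-- **the exits of one pair of classes** -/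
theorem exitsE (hbox : BoxE dead C0 cl CL s₁ K) (hs₁ : s₁ ≤ s)
    (hB : BX CL s M b pr c M' b' pr' c' a a' ρ V W)
    (heq : a + M'.factorization s = a' + M.factorization s)
    (hmin : M.factorization s = 0 ∨ M'.factorization s = 0)
    {m m' : ℕ → Finset ℕ} (hm : ∀ q ∈ V, ∑ l ∈ m q, (l:ℝ)^(-(11/12):ℝ) ≤ 1)
    (hm' : ∀ q ∈ W, ∑ l ∈ m' q, (l:ℝ)^(-(11/12):ℝ) ≤ 1) {N : ℝ}
    (hN : ∀ q ∈ V, ((m q).card : ℝ) ≤ N) (hN' : ∀ q ∈ W, ((m' q).card : ℝ) ≤ N)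
    {T : Finset ℕ} (hT : ∀ l ∈ T, l.Prime ∧ l ≤ s) {FX : ℕ → ℕ × ℕ → ℝ}
    (h0 : ∀ l ∈ T, ∀ e ∈ V ×ˢ W, l ∉ m e.1 → l ∉ m' e.2 → FX l e ≤ 0)
    (hF : ∀ l ∈ T, FE dead C0 cl s M (b*l) pr c M' (b'*l) pr' c' a a' l γ ρ V W
      (fun e => (l:ℝ)^2 * FX l e)) :
    ∑ l ∈ T, ∑ e ∈ V ×ˢ W, FX l e ≤ (Real.log s)^K * (2 * ((1 + Real.log s) *
      ZE (sg dead) 1 ((∑ q ∈ V, rd b c ρ q * tq (q / pr)) * (∑ q ∈ W, rd b' c' ρ q * tq (q / pr'))) +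
      N * ((∑ q ∈ V, rd b c ρ q * tq (q / pr)) * (∑ q ∈ W, rd b' c' ρ q * tq (q / pr'))))) := by
  have he1 : eps1 = 1/1000 := rfl
  have he2 : eps2 = 1/4000 := rfl
  have hlog : 0 ≤ Real.log s := Real.log_natCast_nonneg s
  have hx0 := hB.x0 V
  have hy0 := hB.y0 W
  set x := ∑ q ∈ V, rd b c ρ q * tq (q / pr) with hxd
  set y := ∑ q ∈ W, rd b' c' ρ q * tq (q / pr') with hyd
  set x1 : ℕ → ℝ := fun l => ∑ q ∈ V.filter (fun q => l ∈ m q), rd b c ρ q * tq (q / pr) with hx1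
  set y1 : ℕ → ℝ := fun l => ∑ q ∈ W.filter (fun q => l ∈ m' q), rd b' c' ρ q * tq (q / pr') with hy1
  have x10 : ∀ l, 0 ≤ x1 l := fun l => hB.x0 _
  have y10 : ∀ l, 0 ≤ y1 l := fun l => hB.y0 _
  have hX : ∑ l ∈ T, (l:ℝ)^(-(11/12):ℝ) * x1 l ≤ x :=
    mt_mass (fun q _ => mul_nonneg (hB.rd0 q).le (tq_nonneg _)) hm
  have hY : ∑ l ∈ T, (l:ℝ)^(-(11/12):ℝ) * y1 l ≤ y :=
    mt_mass (fun q _ => mul_nonneg (hB.rd0' q).le (tq_nonneg _)) hm'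
  have hXc : ∑ l ∈ T, x1 l ≤ N * x :=
    card_mass (fun q _ => mul_nonneg (hB.rd0 q).le (tq_nonneg _)) hN
  have hYc : ∑ l ∈ T, y1 l ≤ N * y :=
    card_mass (fun q _ => mul_nonneg (hB.rd0' q).le (tq_nonneg _)) hN'
  set LK := (Real.log s)^K with hLK
  have hLK0 : 0 ≤ LK := by positivity
  have one : ∀ l ∈ T, ∑ e ∈ V ×ˢ W, FX l e ≤
      LK * (YE (sg dead) l (x1 l * y) + YE (sg dead) l (y1 l * x)) := by
    intro l hl
    obtain ⟨lp, lle⟩ := hT l hl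
    have f1 := (hF l hl).mono (Finset.filter_subset (fun q => l ∈ m q) V) (Finset.Subset.refl W)
    have f2 := (hF l hl).mono (Finset.filter_subset (fun q => ¬ l ∈ m q) V)
      (Finset.filter_subset (fun q => l ∈ m' q) W)
    have r1 := exit_rectE hbox hs₁ (hB.mono (Finset.filter_subset (fun q => l ∈ m q) V) (Finset.Subset.refl W))
      heq hmin lp.one_le f1 (z := x1 l * y) le_rfl
    have r2 := exit_rectE hbox hs₁ (hB.mono (Finset.filter_subset (fun q => ¬ l ∈ m q) V)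
      (Finset.filter_subset (fun q => l ∈ m' q) W)) heq hmin lp.one_le f2 (z := y1 l * x) (by
        rw [mul_comm (y1 l) x]
        refine mul_le_mul_of_nonneg_right ?_ (y10 l)
        exact Finset.sum_le_sum_of_subset_of_nonneg (Finset.filter_subset _ _) fun q _ _ =>
          mul_nonneg (hB.rd0 q).le (tq_nonneg _))
    have sp : ∑ e ∈ V ×ˢ W, FX l e ≤ ∑ e ∈ (V.filter (fun q => l ∈ m q)) ×ˢ W, FX l e +
        ∑ e ∈ (V.filter (fun q => ¬ l ∈ m q)) ×ˢ (W.filter (fun q => l ∈ m' q)), FX l e := by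
      rw [Finset.sum_product, Finset.sum_product, Finset.sum_product,
        ← Finset.sum_filter_add_sum_filter_not V (fun q => l ∈ m q)]
      refine add_le_add le_rfl (Finset.sum_le_sum fun q hq => ?_)
      obtain ⟨q1, q2⟩ := Finset.mem_filter.1 hq
      rw [← Finset.sum_filter_add_sum_filter_not W (fun q => l ∈ m' q)]
      have : ∑ r ∈ W.filter (fun r => ¬ l ∈ m' r), FX l (q, r) ≤ 0 :=
        Finset.sum_nonpos fun r hr => h0 l hl (q, r)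
          (Finset.mk_mem_product q1 (Finset.mem_filter.1 hr).1) q2 (Finset.mem_filter.1 hr).2
      linarith
    refine sp.trans ((add_le_add r1 r2).trans (le_of_eq ?_))
    ring
  refine (Finset.sum_le_sum one).trans ?_
  rw [← Finset.mul_sum]
  refine mul_le_mul_of_nonneg_left ?_ hLK0
  set Z := x * y with hZ
  have hZ0 : 0 ≤ Z := mul_nonneg hx0 hy0
  have hyx : y * x = Z := mul_comm y x
  have T1 : ∀ l ∈ T, (1:ℝ) ≤ (l:ℝ)^(6/1000:ℝ) := fun l hl => by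
    have : (1:ℝ) ≤ l := by exact_mod_cast (hT l hl).1.one_le
    exact Real.one_le_rpow this (by norm_num)
  have H1 := holder_one (s := s) hT (x := x1) (a := fun _ => 1) (X := x) (y := y) (σ := 1/2+eps1)
    (by rw [he1]; norm_num) (by rw [he1]; norm_num) (fun l _ => x10 l) (fun _ _ => zero_le_one) T1 hy0 hX
  have H1' := holder_one (s := s) hT (x := y1) (a := fun _ => 1) (X := y) (y := x) (σ := 1/2+eps1)
    (by rw [he1]; norm_num) (by rw [he1]; norm_num) (fun l _ => y10 l) (fun _ _ => zero_le_one) T1 hx0 hY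
  have H0 := holder_one (s := s) hT (x := x1) (a := fun _ => 1) (X := x) (y := y) (σ := 1/2)
    (by norm_num) (by norm_num) (fun l _ => x10 l) (fun _ _ => zero_le_one) T1 hy0 hX
  have H0' := holder_one (s := s) hT (x := y1) (a := fun _ => 1) (X := y) (y := x) (σ := 1/2)
    (by norm_num) (by norm_num) (fun l _ => y10 l) (fun _ _ => zero_le_one) T1 hx0 hY
  have H2 := holder_one (s := s) hT (x := x1) (a := fun l => (l:ℝ)^(6/1000:ℝ)) (X := x) (y := y) (σ := 1/2+eps2)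
    (by rw [he2]; norm_num) (by rw [he2]; norm_num) (fun l _ => x10 l) (fun l hl => by positivity)
    (fun _ _ => le_rfl) hy0 hX
  have H2' := holder_one (s := s) hT (x := y1) (a := fun l => (l:ℝ)^(6/1000:ℝ)) (X := y) (y := x) (σ := 1/2+eps2)
    (by rw [he2]; norm_num) (by rw [he2]; norm_num) (fun l _ => y10 l) (fun l hl => by positivity)
    (fun _ _ => le_rfl) hx0 hY
  rw [hyx] at H1' H0' H2'
  have hc1 : ∑ l ∈ T, x1 l * y ≤ N * Z := by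
    rw [← Finset.sum_mul]
    calc _ ≤ (N * x) * y := mul_le_mul_of_nonneg_right hXc hy0
      _ = _ := by rw [hZ]; ring
  have hc2 : ∑ l ∈ T, y1 l * x ≤ N * Z := by
    rw [← Finset.sum_mul]
    calc _ ≤ (N * y) * x := mul_le_mul_of_nonneg_right hYc hx0
      _ = _ := by rw [hZ]; ring
  have hsg := sg_nonneg dead
  set σ := sg dead with hσ
  have e : ∑ l ∈ T, (YE σ l (x1 l * y) + YE σ l (y1 l * x)) =
      (∑ l ∈ T, (l:ℝ)^(-(2-2*(1/2+eps1))) * (1 * (x1 l * y)^(1/2+eps1)) +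
        ∑ l ∈ T, (l:ℝ)^(-(2-2*(1/2+eps1))) * (1 * (y1 l * x)^(1/2+eps1))) +
      σ * (∑ l ∈ T, (l:ℝ)^(-(2-2*(1/2:ℝ))) * (1 * (x1 l * y)^(1/2:ℝ)) +
        ∑ l ∈ T, (l:ℝ)^(-(2-2*(1/2:ℝ))) * (1 * (y1 l * x)^(1/2:ℝ))) +
      (∑ l ∈ T, (l:ℝ)^(-(2-2*(1/2+eps2))) * ((l:ℝ)^(6/1000:ℝ) * (x1 l * y)^(1/2+eps2)) +
        ∑ l ∈ T, (l:ℝ)^(-(2-2*(1/2+eps2))) * ((l:ℝ)^(6/1000:ℝ) * (y1 l * x)^(1/2+eps2))) +
      (∑ l ∈ T, x1 l * y + ∑ l ∈ T, y1 l * x) := by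
    simp only [← Finset.sum_add_distrib, Finset.mul_sum]
    refine Finset.sum_congr rfl fun l _ => ?_
    unfold YE; ring
  rw [e]
  have hZE : ZE σ 1 Z = Z^(1/2+eps1) + σ * Z^(1/2:ℝ) + Z^(1/2+eps2) + Z := by
    unfold ZE; rw [Nat.cast_one, Real.one_rpow, one_mul]
  rw [hZE]
  have hl1 : (0:ℝ) ≤ 1 + Real.log s := by linarith
  have hNZ : 0 ≤ (1 + Real.log s) * Z := mul_nonneg hl1 hZ0
  calc _ ≤ ((1 + Real.log s) * Z^(1/2+eps1) + (1 + Real.log s) * Z^(1/2+eps1)) +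
        σ * ((1 + Real.log s) * Z^(1/2:ℝ) + (1 + Real.log s) * Z^(1/2:ℝ)) +
        ((1 + Real.log s) * Z^(1/2+eps2) + (1 + Real.log s) * Z^(1/2+eps2)) + (N * Z + N * Z) := by
        gcongr
    _ ≤ _ := by nlinarith

open Classical in
/-- **one class, everything** -/
theorem cls_totalE (hbox : BoxE dead C0 cl CL s₁ K) (hs₁ : s₁ ≤ s) (hℓ : 4 ≤ Real.log s)
    {a₀ : ℕ} (ha₀ : 1 ≤ a₀)
    (hB : BX CL s M b pr c M' b' pr' c' a a' ρ V W)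
    (heq : a + M'.factorization s = a' + M.factorization s)
    (hmin : M.factorization s = 0 ∨ M'.factorization s = 0)
    {m m' : ℕ → Finset ℕ} (hm : ∀ q ∈ V, ∑ l ∈ m q, (l:ℝ)^(-(11/12):ℝ) ≤ 1)
    (hm' : ∀ q ∈ W, ∑ l ∈ m' q, (l:ℝ)^(-(11/12):ℝ) ≤ 1) {Cm : ℝ} (hCm : 0 ≤ Cm)
    (hN : ∀ q ∈ V, ((m q).card : ℝ) ≤ (Real.log s)^Cm) (hN' : ∀ q ∈ W, ((m' q).card : ℝ) ≤ (Real.log s)^Cm)
    {T : Finset ℕ} (hT : ∀ l ∈ T, l.Prime ∧ l ≤ s) {FX : ℕ → ℕ × ℕ → ℝ} {FA : ℕ × ℕ → ℝ}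
    (h0 : ∀ l ∈ T, ∀ e ∈ V ×ˢ W, l ∉ m e.1 → l ∉ m' e.2 → FX l e ≤ 0)
    (hFA : FE dead C0 cl s M b pr c M' b' pr' c' a a' a₀ γ ρ V W FA)
    (hF : ∀ l ∈ T, FE dead C0 cl s M (b*l) pr c M' (b'*l) pr' c' a a' l γ ρ V W
      (fun e => (l:ℝ)^2 * FX l e))
    {z : ℝ} (hz : (∑ q ∈ V, rd b c ρ q * tq (q / pr)) * (∑ q ∈ W, rd b' c' ρ q * tq (q / pr')) ≤ z) :
    ∑ e ∈ V ×ˢ W, (FA e + ∑ l ∈ T, FX l e) ≤ (Real.log s)^(K + Cm + 2) * ZE (sg dead) a₀ z := by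
  have hx0 := hB.x0 V
  have hy0 := hB.y0 W
  have k1 := hbox s M b pr c M' b' pr' c' a a' a₀ γ ρ V W FA hs₁ ha₀ hB heq hmin hFA
  have k2 := exitsE hbox hs₁ hB heq hmin hm hm' hN hN' hT h0 hF
  set Z := (∑ q ∈ V, rd b c ρ q * tq (q / pr)) * (∑ q ∈ W, rd b' c' ρ q * tq (q / pr')) with hZ
  have hZ0 : 0 ≤ Z := mul_nonneg hx0 hy0
  set ℓ := Real.log s with hℓd
  have hℓ0 : 0 < ℓ := by linarith
  have hsg := sg_nonneg dead
  rw [Finset.sum_add_distrib, Finset.sum_comm]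
  refine (add_le_add k1 k2).trans ?_
  have m0 := ZE_mono hsg a₀ hZ0 hz
  have n0 := ZE_nonneg hsg a₀ hZ0
  have m1 : ZE (sg dead) 1 Z ≤ ZE (sg dead) a₀ Z := by
    have h1 : (1:ℝ) ≤ (a₀:ℝ)^(6/1000:ℝ) := Real.one_le_rpow (by exact_mod_cast ha₀) (by norm_num)
    have h2 : 0 ≤ Z^(1/2+eps2) := Real.rpow_nonneg hZ0 _
    unfold ZE
    rw [Nat.cast_one, Real.one_rpow, one_mul]
    nlinarith
  have m2 : Z ≤ ZE (sg dead) a₀ Z := by
    have h1 : 0 ≤ Z^(1/2+eps1) := Real.rpow_nonneg hZ0 _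
    have h2 : 0 ≤ Z^(1/2+eps2) := Real.rpow_nonneg hZ0 _
    have h3 : 0 ≤ Z^(1/2:ℝ) := Real.rpow_nonneg hZ0 _
    unfold ZE
    have : 0 ≤ (a₀:ℝ)^(6/1000:ℝ) * Z^(1/2+eps2) := by positivity
    have : 0 ≤ sg dead * Z^(1/2:ℝ) := by positivity
    linarith
  set W0 := ZE (sg dead) a₀ Z with hW0
  have hcm : 1 ≤ ℓ^Cm := Real.one_le_rpow (by linarith) hCm
  have hK0 : 0 < ℓ^K := by positivity
  have hpow : ℓ^(K + Cm + 2) = ℓ^K * (ℓ^Cm * ℓ^2) := by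
    rw [Real.rpow_add hℓ0, Real.rpow_add hℓ0, Real.rpow_two, mul_assoc]
  rw [hpow]
  calc ℓ^K * W0 + ℓ^K * (2 * ((1 + ℓ) * ZE (sg dead) 1 Z + ℓ^Cm * Z))
      ≤ ℓ^K * W0 + ℓ^K * (2 * ((1 + ℓ) * W0 + ℓ^Cm * W0)) := by gcongr
    _ = ℓ^K * ((3 + 2 * ℓ + 2 * ℓ^Cm) * W0) := by ring
    _ ≤ ℓ^K * ((ℓ^Cm * ℓ^2) * W0) := by
        have : 3 + 2 * ℓ + 2 * ℓ^Cm ≤ ℓ^Cm * ℓ^2 := by
          have h5 : 5 + 2 * ℓ ≤ ℓ^2 := by nlinarith
          nlinarith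
        gcongr
    _ ≤ ℓ^K * ((ℓ^Cm * ℓ^2) * ZE (sg dead) a₀ z) := by gcongr
    _ = _ := by ring

end ex

/-! ### all classes -/

/-- **what the summand must satisfy** at a crossing state, pairs with equal effective exponents -/
structure FEAll (dead : Prop) (C0 cl : ℝ) (s M b pr c M' b' pr' c' a₀ : ℕ) (γ : ℝ) (ρ : ℕ → ℝ)
    (V W : Finset ℕ) (F : ℕ × ℕ → ℝ) : Prop where
  f1 : ∀ e ∈ V ×ˢ W, fe s M' pr e.1 = fe s M pr' e.2 → Dq ρ M b pr c M' b' pr' c' e ≤ 1 →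
      F e ≤ (Real.log s)^C0 * (rd b c ρ e.1 * rd b' c' ρ e.2 / Dq ρ M b pr c M' b' pr' c' e)
  f2 : ∀ e ∈ V ×ˢ W, fe s M' pr e.1 = fe s M pr' e.2 → 1 < Dq ρ M b pr c M' b' pr' c' e →
      F e ≤ (Real.log s)^C0 * (rd b c ρ e.1 * rd b' c' ρ e.2)
  rel : ∀ e ∈ V ×ˢ W, fe s M' pr e.1 = fe s M pr' e.2 → Dq ρ M b pr c M' b' pr' c' e ≤ 1/2^(lev cl s) →
      0 < F e → RelI γ ρ M b pr c M' b' pr' c' e
  fs : ∀ e ∈ V ×ˢ W, fe s M' pr e.1 = fe s M pr' e.2 → Dq ρ M b pr c M' b' pr' c' e ≤ 1/2^(lev cl s) →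
      0 < F e → FSs s γ ρ (lev cl s) M b pr c M' b' pr' c' ((e.1 / pr).factorization s)
        ((e.2 / pr').factorization s) e →
      1 < 2 * ((a₀ * rf (itm s pr e.1) (st s M) * rf (itm s pr' e.2) (st s M') : ℕ) : ℝ)^10 *
        Dq ρ M b pr c M' b' pr' c' e
  es : dead → ∀ e ∈ V ×ˢ W, fe s M' pr e.1 = fe s M pr' e.2 → Dq ρ M b pr c M' b' pr' c' e ≤ 1/2^(lev cl s) →
      0 < F e → ESs s γ ρ M b pr c M' b' pr' c' ((e.1 / pr).factorization s) ((e.2 / pr').factorization s) e →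
      1 < 2 * ((a₀ * rf (itm s pr e.1) (st s M) * rf (itm s pr' e.2) (st s M') : ℕ) : ℝ)^10 *
        Dq ρ M b pr c M' b' pr' c' e

section all
variable {dead : Prop} {C0 cl CL K : ℝ} {s₁ : ℕ} {s M b pr c M' b' pr' c' : ℕ} {γ : ℝ} {ρ : ℕ → ℝ}
  {V W : Finset ℕ}

lemma FEAll.fb {a₀ : ℕ} {F : ℕ × ℕ → ℝ} (h : FEAll dead C0 cl s M b pr c M' b' pr' c' a₀ γ ρ V W F)
    {a a' : ℕ} (heq : a + M'.factorization s = a' + M.factorization s) :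
    FE dead C0 cl s M b pr c M' b' pr' c' a a' a₀ γ ρ
      (V.filter (fun q => fe s M' pr q = a + M'.factorization s))
      (W.filter (fun q => fe s M pr' q = a' + M.factorization s)) F := by
  have key : ∀ e ∈ (V.filter (fun q => fe s M' pr q = a + M'.factorization s)) ×ˢ
      (W.filter (fun q => fe s M pr' q = a' + M.factorization s)),
      e ∈ V ×ˢ W ∧ fe s M' pr e.1 = fe s M pr' e.2 ∧ (e.1 / pr).factorization s = a ∧
        (e.2 / pr').factorization s = a' := fun e he => by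
    obtain ⟨k1, k2⟩ := Finset.mem_product.1 he
    obtain ⟨k3, k4⟩ := Finset.mem_filter.1 k1
    obtain ⟨k5, k6⟩ := Finset.mem_filter.1 k2
    refine ⟨Finset.mk_mem_product k3 k5, by rw [k4, k6]; exact heq, ?_, ?_⟩
    · unfold fe at k4; omega
    · unfold fe at k6; omega
  refine ⟨fun e he => ?_, fun e he => ?_, fun e he => ?_, fun e he k1 k2 k3 => ?_, fun hd e he k1 k2 k3 => ?_⟩
  · exact h.f1 e (key e he).1 (key e he).2.1
  · exact h.f2 e (key e he).1 (key e he).2.1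
  · exact h.rel e (key e he).1 (key e he).2.1
  · obtain ⟨h1, h2, h3, h4⟩ := key e he
    exact h.fs e h1 h2 k1 k2 (by rw [h3, h4]; exact k3)
  · obtain ⟨h1, h2, h3, h4⟩ := key e he
    exact h.es hd e h1 h2 k1 k2 (by rw [h3, h4]; exact k3)

lemma ZE_scale {σ : ℝ} (hσ : 0 ≤ σ) (a₀ : ℕ) {k z : ℝ} (hk : 1 ≤ k) (hz : 0 ≤ z) :
    ZE σ a₀ (k * z) ≤ k * ZE σ a₀ z := by
  have he1 : eps1 = 1/1000 := rfl
  have he2 : eps2 = 1/4000 := rfl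
  have hk0 : 0 ≤ k := by linarith
  unfold ZE
  rw [Real.mul_rpow hk0 hz, Real.mul_rpow hk0 hz, Real.mul_rpow hk0 hz]
  have pw : ∀ t : ℝ, t ≤ 1 → k^t ≤ k := fun t ht => by
    calc k^t ≤ k^(1:ℝ) := Real.rpow_le_rpow_of_exponent_le hk ht
      _ = k := Real.rpow_one k
  have h1 := pw (1/2+eps1) (by rw [he1]; norm_num)
  have h2 := pw (1/2) (by norm_num)
  have h3 := pw (1/2+eps2) (by rw [he2]; norm_num)
  calc k^(1/2+eps1) * z^(1/2+eps1) + σ * (k^(1/2:ℝ) * z^(1/2:ℝ)) +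
        (a₀:ℝ)^(6/1000:ℝ) * (k^(1/2+eps2) * z^(1/2+eps2)) + k * z
      ≤ k * z^(1/2+eps1) + σ * (k * z^(1/2:ℝ)) + (a₀:ℝ)^(6/1000:ℝ) * (k * z^(1/2+eps2)) + k * z := by gcongr
    _ = _ := by ring

open Classical in
/-- **the class numbers, equal classes** -/
theorem EQ_of (hbox : BoxE dead C0 cl CL s₁ K) (hs₁ : s₁ ≤ s) (hℓ : 4 ≤ Real.log s)
    {a₀ : ℕ} (ha₀ : 1 ≤ a₀) (hmin : M.factorization s = 0 ∨ M'.factorization s = 0)
    (hB : AX CL s M b pr c M' b' pr' c' ρ V W)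
    {m m' : ℕ → Finset ℕ} (hm : ∀ q ∈ V, ∑ l ∈ m q, (l:ℝ)^(-(11/12):ℝ) ≤ 1)
    (hm' : ∀ q ∈ W, ∑ l ∈ m' q, (l:ℝ)^(-(11/12):ℝ) ≤ 1) {Cm : ℝ} (hCm : 0 ≤ Cm)
    (hN : ∀ q ∈ V, ((m q).card : ℝ) ≤ (Real.log s)^Cm) (hN' : ∀ q ∈ W, ((m' q).card : ℝ) ≤ (Real.log s)^Cm)
    {T : Finset ℕ} (hT : ∀ l ∈ T, l.Prime ∧ l ≤ s) {FX : ℕ → ℕ × ℕ → ℝ} {FA : ℕ × ℕ → ℝ}
    (h0 : ∀ l ∈ T, ∀ e ∈ V ×ˢ W, l ∉ m e.1 → l ∉ m' e.2 → FX l e ≤ 0)
    (hFA : FEAll dead C0 cl s M b pr c M' b' pr' c' a₀ γ ρ V W FA)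
    (hF : ∀ l ∈ T, FEAll dead C0 cl s M (b*l) pr c M' (b'*l) pr' c' l γ ρ V W (fun e => (l:ℝ)^2 * FX l e))
    {CM : ℝ} (hCM : 1 ≤ CM) (hCMℓ : CM ≤ Real.log s) {i : ℕ} {z : ℝ} (hz0 : 0 ≤ z)
    (hxy : mc s M' b pr c ρ V i * mc s M b' pr' c' ρ W i ≤ CM * z) :
    blk s M pr M' pr' V W (fun e => FA e + ∑ l ∈ T, FX l e) i i ≤
      (Real.log s)^(K + Cm + 3) * ZE (sg dead) a₀ z := by
  set m₁ := M.factorization s with hm₁
  set m₁' := M'.factorization s with hm₁'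
  have hℓ0 : 0 < Real.log s := by linarith
  have hsg := sg_nonneg dead
  have r0 : 0 ≤ (Real.log s)^(K + Cm + 3) * ZE (sg dead) a₀ z := mul_nonneg (by positivity) (ZE_nonneg hsg _ hz0)
  by_cases hi : i < m₁'
  · have : V.filter (fun q => fe s M' pr q = i) = ∅ := by
      rw [Finset.filter_eq_empty_iff]
      intro q _ h
      unfold fe at h
      omega
    unfold blk
    rw [this, Finset.empty_product, Finset.sum_empty]
    exact r0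
  by_cases hj : i < m₁
  · have : W.filter (fun q => fe s M pr' q = i) = ∅ := by
      rw [Finset.filter_eq_empty_iff]
      intro q _ h
      unfold fe at h
      omega
    unfold blk
    rw [this, Finset.product_empty, Finset.sum_empty]
    exact r0
  obtain ⟨a, ha⟩ := Nat.exists_eq_add_of_le (not_lt.1 hi)
  obtain ⟨a', ha'⟩ := Nat.exists_eq_add_of_le (not_lt.1 hj)
  have hia : a + m₁' = i := by omega
  have hja : a' + m₁ = i := by omega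
  have heq : a + m₁' = a' + m₁ := by rw [hia, hja]
  have hz : (∑ q ∈ V.filter (fun q => fe s M' pr q = a + m₁'), rd b c ρ q * tq (q / pr)) *
      (∑ q ∈ W.filter (fun q => fe s M pr' q = a' + m₁), rd b' c' ρ q * tq (q / pr')) ≤ CM * z := by
    rw [hia, hja]; exact hxy
  have key := cls_totalE hbox hs₁ hℓ ha₀ (hB.bx a a') heq hmin
    (m := m) (m' := m')
    (fun q hq => hm q (Finset.mem_filter.1 hq).1) (fun q hq => hm' q (Finset.mem_filter.1 hq).1) hCm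
    (fun q hq => hN q (Finset.mem_filter.1 hq).1) (fun q hq => hN' q (Finset.mem_filter.1 hq).1) hT
    (FX := FX) (FA := FA)
    (fun l hl e he => h0 l hl e (Finset.product_subset_product (Finset.filter_subset _ _)
      (Finset.filter_subset _ _) he)) (hFA.fb heq) (fun l hl => (hF l hl).fb heq) hz
  rw [← hm₁, ← hm₁', hia, hja] at key
  refine key.trans ?_
  have e3 : (Real.log s)^(K + Cm + 3) = (Real.log s)^(K + Cm + 2) * Real.log s := by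
    rw [show K + Cm + 3 = (K + Cm + 2) + 1 by ring, Real.rpow_add hℓ0, Real.rpow_one]
  have z3 := ZE_scale hsg a₀ hCM hz0
  have p3 := ZE_nonneg hsg a₀ hz0
  rw [e3]
  calc _ ≤ (Real.log s)^(K + Cm + 2) * (CM * ZE (sg dead) a₀ z) := by gcongr
    _ ≤ (Real.log s)^(K + Cm + 2) * (Real.log s * ZE (sg dead) a₀ z) := by gcongr
    _ = _ := by ring

/-- **`CW`** (alive, any logs) from the class bounds -/
theorem CW_of {C : ℝ} {a₀ : ℕ} (hs : 2 ≤ s) (ha₀ : a₀ ≤ s) {x y : ℕ → ℝ} {φ : ℕ → ℕ → ℝ}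
    (hx0 : ∀ i, 0 ≤ x i) (hy0 : ∀ j, 0 ≤ y j)
    (h : ∀ i, φ i i ≤ (Real.log s)^C * ZE (sg dead) a₀ (x i * y i)) :
    Crest.Agent.R4P.KindPay36.CW s C (1/2+eps1) (1/2+eps2) x y φ where
  x0 := hx0
  y0 := hy0
  le := fun i => by
    have hs1 : (1:ℝ) ≤ s := by
      have : 1 ≤ s := by omega
      exact_mod_cast this
    have hz : 0 ≤ x i * y i := mul_nonneg (hx0 i) (hy0 i)
    have hm : 0 ≤ min (x i) (y i) := le_min (hx0 i) (hy0 i)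
    have hb1 : 1 ≤ (s:ℝ)^(1/10:ℝ) := Real.one_le_rpow hs1 (by norm_num)
    have ha : (a₀:ℝ)^(6/1000:ℝ) ≤ (s:ℝ)^(1/10:ℝ) := by
      calc (a₀:ℝ)^(6/1000:ℝ) ≤ (s:ℝ)^(6/1000:ℝ) :=
            Real.rpow_le_rpow (Nat.cast_nonneg _) (by exact_mod_cast ha₀) (by norm_num)
        _ ≤ _ := Real.rpow_le_rpow_of_exponent_le hs1 (by norm_num)
    have hsg1 : sg dead ≤ 1 := by unfold sg; split_ifs <;> norm_num
    have hsg0 := sg_nonneg dead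
    have h1 := Real.rpow_nonneg hz (1/2+eps1)
    have h2 := Real.rpow_nonneg hz (1/2:ℝ)
    have h3 := Real.rpow_nonneg hz (1/2+eps2)
    refine (h i).trans (mul_le_mul_of_nonneg_left ?_ (by positivity))
    unfold ZE
    have g1 : (x i * y i)^(1/2+eps1) ≤ (s:ℝ)^(1/10:ℝ) * (x i * y i)^(1/2+eps1) := le_mul_of_one_le_left h1 hb1
    have g2 : sg dead * (x i * y i)^(1/2:ℝ) ≤ (s:ℝ)^(1/10:ℝ) * (x i * y i)^(1/2:ℝ) :=
      mul_le_mul_of_nonneg_right (hsg1.trans hb1) h2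
    have g3 : (a₀:ℝ)^(6/1000:ℝ) * (x i * y i)^(1/2+eps2) ≤ (s:ℝ)^(1/10:ℝ) * (x i * y i)^(1/2+eps2) :=
      mul_le_mul_of_nonneg_right ha h3
    nlinarith

end all

end Crest.Agent.R4P.EqNum32
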