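import Mathlib
import Crest.Agent.R4P.PotSum_32

/-!
R4 powers pass (S0004), helper33, group [X]: **the one-shot numbers without the bound `a₀ ≤ s`** (the exit of the column
at the crossing prime itself, when a side has missed it: `a₀ = s²`).
-/

set_option autoImplicit false
open Finset

namespace Crest.Agent.R4P.ShotBig33

open Crest.Agent.R4.HVW560 Crest.Agent.R4.Schur709 Crest.Agent.R4.StopHvw709
open Crest.Agent.R4.StopAsm709 Crest.Agent.R4.AvgItem710 Crest.Agent.R4.DeepSt579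
open Crest.Agent.R4P.Rad800 Crest.Agent.R4P.StripP33 Crest.Agent.R4P.BrP33 Crest.Agent.R4P.ShotP33
open Crest.Agent.R4.ClsS (eps1)
open Crest.Agent.R4.OSCore709 Crest.Agent.R4.CrossShot709 Crest.Agent.R4.Bad223 Crest.Agent.R4.ShotG223
open Crest.Agent.R4.NMW710 (Dq)

/-- the gain against all factors, `a₀` free -/
lemma gain4_le {s e a₀ : ℕ} {E : ℝ} (hs : 2 ≤ s) (he : 1 ≤ e) (hE : 1 ≤ E) :
    ((a₀:ℝ) * (E^2 * (s:ℝ)^e))^(6/1000:ℝ) * (E * (s:ℝ)^e)^(-(1/2-eps2)) ≤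
      ((a₀:ℝ)^(6/1000:ℝ) * (s:ℝ)^(6/1000:ℝ)) *
        ((s:ℝ)^(-(48/100)*((e:ℝ)-1)) * (s:ℝ)^(-(1/2-eps2))) := by
  have he2 : eps2 = 1/4000 := rfl
  have hs0 : (0:ℝ) < s := by positivity
  have hs1 : (1:ℝ) ≤ s := by exact_mod_cast (by omega : 1 ≤ s)
  have hE0 : 0 < E := by linarith
  rw [Real.mul_rpow (by positivity) (by positivity), Real.mul_rpow (by positivity) (by positivity),
    Real.mul_rpow hE0.le (by positivity)]
  have h0 : (E^2)^(6/1000:ℝ) * E^(-(1/2-eps2)) ≤ 1 := by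
    have : (E^2)^(6/1000:ℝ) = E^(12/1000:ℝ) := by
      rw [← Real.rpow_natCast, ← Real.rpow_mul hE0.le]; norm_num
    rw [this, ← Real.rpow_add hE0]
    exact Real.rpow_le_one_of_one_le_of_nonpos hE (by rw [he2]; norm_num)
  have h2 : ((s:ℝ)^e)^(-(1/2-eps2)) = (s:ℝ)^((e:ℝ) * -(1/2-eps2)) := by
    rw [← Real.rpow_natCast, ← Real.rpow_mul hs0.le]
  have h3 : ((s:ℝ)^e)^(6/1000:ℝ) = (s:ℝ)^((e:ℝ) * (6/1000)) := by
    rw [← Real.rpow_natCast, ← Real.rpow_mul hs0.le]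
  have he1' : (1:ℝ) ≤ e := by exact_mod_cast he
  calc _ = (a₀:ℝ)^(6/1000:ℝ) * (((E^2)^(6/1000:ℝ) * E^(-(1/2-eps2))) *
        (((s:ℝ)^e)^(6/1000:ℝ) * ((s:ℝ)^e)^(-(1/2-eps2)))) := by ring
    _ ≤ (a₀:ℝ)^(6/1000:ℝ) * (1 * (((s:ℝ)^e)^(6/1000:ℝ) * ((s:ℝ)^e)^(-(1/2-eps2)))) := by
        gcongr
    _ = (a₀:ℝ)^(6/1000:ℝ) * (s:ℝ)^((e:ℝ) * (6/1000) + (e:ℝ) * -(1/2-eps2)) := by
        rw [one_mul, h2, h3, ← Real.rpow_add hs0]
    _ ≤ (a₀:ℝ)^(6/1000:ℝ) * (s:ℝ)^((6/1000:ℝ) + ((-(48/100)*((e:ℝ)-1)) + -(1/2-eps2))) := by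
        refine mul_le_mul_of_nonneg_left ?_ (by positivity)
        exact Real.rpow_le_rpow_of_exponent_le hs1 (by rw [he2]; nlinarith)
    _ = _ := by rw [Real.rpow_add hs0, Real.rpow_add hs0]; ring

open Crest.Agent.R4.ClsB (Tame) in
open Classical in
/-- the conclusion of `shot_big` at the level exponent `cl` -/
def PBig (CL C0 cl : ℝ) : Prop :=
    ∃ s₁ : ℕ, 3 ≤ s₁ ∧
    (∀ s : ℕ, s₁ ≤ s → 400 ≤ lev cl s ∧ (Real.log s)^cl ≤ (2:ℝ)^(lev cl s) ∧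
      (2:ℝ)^(lev cl s) ≤ (Real.log s)^(cl+1) ∧ 2 ≤ Real.log s) ∧
    ∀ (s M b pr c M' b' pr' c' a a' a₀ : ℕ) (γ : ℝ) (ρ : ℕ → ℝ) (V W : Finset ℕ) (F : ℕ × ℕ → ℝ)
    (Q : ℕ × ℕ → Prop),
    s₁ ≤ s → s.Prime → 1 ≤ a₀ → (∀ q, 0 < ρ q) →
    0 < b → 0 < c → 0 < b' → 0 < c' → 0 < M → 0 < M' →
    (∀ l : ℕ, l.Prime → l ∣ M → l ≠ s → s ≤ l) → (∀ l : ℕ, l.Prime → l ∣ M' → l ≠ s → s ≤ l) →
    ∑ l ∈ M.primeFactors.erase s, (l:ℝ)^(-(11/12):ℝ) ≤ 1 →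
    ∑ l ∈ M'.primeFactors.erase s, (l:ℝ)^(-(11/12):ℝ) ≤ 1 →
    a + M'.factorization s ≠ a' + M.factorization s →
    (∀ q ∈ V, Sd s M pr a q) → (∀ q ∈ W, Sd s M' pr' a' q) →
    (∀ z : ℝ, (s:ℝ) ≤ z → ∀ q ∈ V, Tame z 1 (q / pr / M.gcd (q / pr))) →
    (∀ z : ℝ, (s:ℝ) ≤ z → ∀ q ∈ W, Tame z 1 (q / pr' / M'.gcd (q / pr'))) →
    (∀ q ∈ V, 1 ≤ CL * Real.log s * tq (q / pr / M.gcd (q / pr))) →
    (∀ q ∈ W, 1 ≤ CL * Real.log s * tq (q / pr' / M'.gcd (q / pr'))) →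
    (∀ e ∈ V ×ˢ W, Dq ρ M b pr c M' b' pr' c' e ≤ 1 →
      F e ≤ (Real.log s)^C0 * (rd b c ρ e.1 * rd b' c' ρ e.2 / Dq ρ M b pr c M' b' pr' c' e)) →
    (∀ e ∈ V ×ˢ W, Dq ρ M b pr c M' b' pr' c' e ≤ 1/2^(lev cl s) → 0 < F e →
      RelI γ ρ M b pr c M' b' pr' c' e) →
    (∀ e ∈ V ×ˢ W, Dq ρ M b pr c M' b' pr' c' e ≤ 1/2^(lev cl s) → 0 < F e →
      FSs s γ ρ (lev cl s) M b pr c M' b' pr' c' a a' e →
      1 < 2 * ((s ^ (dex a (M.factorization s) a' (M'.factorization s)) * a₀ * rf (itm s pr e.1) (st s M) *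
        rf (itm s pr' e.2) (st s M') : ℕ) : ℝ)^10 * Dq ρ M b pr c M' b' pr' c' e ∨ Q e) →
    ∑ e ∈ (V ×ˢ W).filter (fun e => Dq ρ M b pr c M' b' pr' c' e ≤ 1), F e ≤
      (s:ℝ)^(-(48/100)*((dex a (M.factorization s) a' (M'.factorization s) : ℝ)-1)) *
        ((Real.log s)^(C0 + 7 + cl/500) * ((s:ℝ)^(-(1/2-eps1)) *
            ((∑ q ∈ V, rd b c ρ q * tq (q / pr)) * (∑ q ∈ W, rd b' c' ρ q * tq (q / pr')))^(1/2+eps1) +
          (s:ℝ)^(-(1/2):ℝ) *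
            ((∑ q ∈ V, rd b c ρ q * tq (q / pr)) * (∑ q ∈ W, rd b' c' ρ q * tq (q / pr')))^(1/2:ℝ)) +
        (Real.log s)^(C0 + 7 + cl/500) * ((a₀:ℝ)^(6/1000:ℝ) * (s:ℝ)^(6/1000:ℝ)) *
          ((s:ℝ)^(-(1/2-eps2)) *
            ((∑ q ∈ V, rd b c ρ q * tq (q / pr)) * (∑ q ∈ W, rd b' c' ρ q * tq (q / pr')))^(1/2+eps2))) +
      ∑ e ∈ (V ×ˢ W).filter (fun e => 0 < F e ∧ (Dq ρ M b pr c M' b' pr' c' e ≤ 1/2^(lev cl s) ∧ Q e)),
        F e

open Crest.Agent.R4.ClsB (Tame) in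
set_option maxHeartbeats 2000000 in
open Classical in
/-- **the one-shot number of one class, no bound on `a₀`, no accidents** -/
theorem shot_big' {CL C0 : ℝ} (hCL : 1 ≤ CL) (hC0 : 0 ≤ C0) {cl : ℝ}
    (hcl : Crest.Agent.R4P.LowT33.clT ≤ cl) : PBig CL C0 cl := by
  have he1 : eps1 = 1/1000 := rfl
  have he2 : eps2 = 1/4000 := rfl
  obtain ⟨b₁, hb₁, hlev, hmain⟩ := Crest.Agent.R4P.LowT33.shot_T' hCL hC0 hcl
  obtain ⟨x1, hx1⟩ := Filter.eventually_atTop.1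
    (Real.tendsto_log_atTop.eventually_ge_atTop (256 * CL))
  refine ⟨max b₁ ⌈x1⌉₊, hb₁.trans (le_max_left _ _), fun s hs => hlev s ((le_max_left _ _).trans hs), ?_⟩
  intro s M b pr c M' b' pr' c' a a' a₀ γ ρ V W F Q hs₁ hs ha₀ hρ hb hc hb' hc' hM hM' hMs hMs'
    hsM hsM' hne hV hW tV tW lV lW hF hrel hFG
  have hsb : b₁ ≤ s := (le_max_left _ _).trans hs₁
  obtain ⟨hl400, hl1, hl2, hlog⟩ := hlev s hsb
  have hl256 : 256 * CL ≤ Real.log s := hx1 s ((Nat.le_ceil _).trans (by exact_mod_cast (le_max_right _ _).trans hs₁))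
  set ℓ := Real.log s with hℓ
  have hℓ0 : 0 < ℓ := by linarith
  have hℓ1 : 1 ≤ ℓ := by linarith
  have hs2 : 2 ≤ s := hs.two_le
  have hs0 : (0:ℝ) < s := by exact_mod_cast hs.pos
  set m := M.factorization s with hm
  set m' := M'.factorization s with hm'
  set P := PL s a m a' m' with hP
  set P' := PL s a' m' a m with hP'
  set ex' := dex a m a' m' with hex'
  have hPP : P * P' = s ^ ex' := PL_mul s a m a' m'
  have hex1 : 1 ≤ ex' := dex_pos hne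
  have hP0 : 0 < P := PL_pos hs.pos
  have hP0' : 0 < P' := PL_pos hs.pos
  have hP0r : (0:ℝ) < P := by exact_mod_cast hP0
  have hP0r' : (0:ℝ) < P' := by exact_mod_cast hP0'
  have hst := st_pos (s := s) hM
  have hst' := st_pos (s := s) hM'
  have xM : (1:ℝ) ≤ ex (st s M) := by exact_mod_cast ex_pos hst
  have xM' : (1:ℝ) ≤ ex (st s M') := by exact_mod_cast ex_pos hst'
  set E : ℝ := (ex (st s M) : ℝ) * ex (st s M') with hE
  have hE1 : 1 ≤ E := by rw [hE]; nlinarith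
  have hrd : ∀ q, 0 < rd b c ρ q := fun q => mul_pos (div_pos (by exact_mod_cast hb) (by exact_mod_cast hc)) (hρ q)
  have hrd' : ∀ q, 0 < rd b' c' ρ q := fun q =>
    mul_pos (div_pos (by exact_mod_cast hb') (by exact_mod_cast hc')) (hρ q)
  set O' := (st s M).primeFactors with hO'
  set O := (st s M').primeFactors with hO
  have hOp : ∀ l ∈ O, l.Prime ∧ s ≤ l := fun l hl => by
    rw [hO, pf_st hs hM', Finset.mem_erase] at hl
    have h2 := Nat.prime_of_mem_primeFactors hl.2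
    exact ⟨h2, hMs' l h2 (Nat.dvd_of_mem_primeFactors hl.2) hl.1⟩
  have hOp' : ∀ l ∈ O', l.Prime ∧ s ≤ l := fun l hl => by
    rw [hO', pf_st hs hM, Finset.mem_erase] at hl
    have h2 := Nat.prime_of_mem_primeFactors hl.2
    exact ⟨h2, hMs l h2 (Nat.dvd_of_mem_primeFactors hl.2) hl.1⟩
  have hsO : ∑ p ∈ O, (p:ℝ)^(-(11/12):ℝ) ≤ 1 := by rw [hO, pf_st hs hM']; exact hsM'
  have hsO' : ∑ p ∈ O', (p:ℝ)^(-(11/12):ℝ) ≤ 1 := by rw [hO', pf_st hs hM]; exact hsM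
  have hs1 : ∑ p ∈ O, 1/(p:ℝ) ≤ 1 :=
    (Finset.sum_le_sum fun p hp => Crest.Agent.R4.ShotFF223.inv_le_pow (hOp p hp).1.one_lt.le).trans hsO
  have hs1' : ∑ p ∈ O', 1/(p:ℝ) ≤ 1 :=
    (Finset.sum_le_sum fun p hp => Crest.Agent.R4.ShotFF223.inv_le_pow (hOp' p hp).1.one_lt.le).trans hsO'
  set V0 := V.image (itm s pr) with hV0
  set W0 := W.image (itm s pr') with hW0
  set R := Rb s M P b pr c a ρ with hR
  set R' := Rb s M' P' b' pr' c' a' ρ with hR'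
  set gL := gb s M P ((b : ℝ) / c * γ) with hgL
  set gR := gb s M' P' ((b' : ℝ) / c' * γ) with hgR
  set κ : ℝ := ((ex (st s M) : ℝ) * P) * ((ex (st s M') : ℝ) * P') with hκ
  have hκ0 : 0 < κ := by rw [hκ]; positivity
  have hκE : κ = E * (s:ℝ)^ex' := by
    have : ((P * P' : ℕ) : ℝ) = (s:ℝ)^ex' := by rw [hPP]; push_cast; ring
    rw [hκ, hE, ← this]; push_cast; ring
  set F0 : ℕ × ℕ → ℝ := fun f => κ * F (bk s pr a f.1, bk s pr' a' f.2) with hF0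
  have hDc : ∀ e ∈ V ×ˢ W, Dc O O' R R' (itm s pr e.1, itm s pr' e.2) = Dq ρ M b pr c M' b' pr' c' e := fun e he =>
    Dc_br hs hM hM' (hV _ (Finset.mem_product.1 he).1) (hW _ (Finset.mem_product.1 he).2) b c b' c' ρ
  have hF0e : ∀ e ∈ V ×ˢ W, F0 (itm s pr e.1, itm s pr' e.2) = κ * F e := fun e he => by
    rw [hF0]; simp only
    rw [(hV _ (Finset.mem_product.1 he).1).bk_eq, (hW _ (Finset.mem_product.1 he).2).bk_eq]
  have mem0 : ∀ f ∈ V0 ×ˢ W0, ∃ e ∈ V ×ˢ W, f = (itm s pr e.1, itm s pr' e.2) := fun f hf => by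
    rw [hV0, hW0, prod_img] at hf
    obtain ⟨e, he, rfl⟩ := Finset.mem_image.1 hf
    exact ⟨e, he, rfl⟩
  have hRe : ∀ q ∈ V, R (itm s pr q) = (ex (st s M) : ℝ) * (P * rd b c ρ q) := fun q hq => (hV q hq).Rb_eq P b c ρ
  have hRe' : ∀ q ∈ W, R' (itm s pr' q) = (ex (st s M') : ℝ) * (P' * rd b' c' ρ q) := fun q hq =>
    (hW q hq).Rb_eq P' b' c' ρ
  have muV : ∀ q ∈ V, mu O' R (itm s pr q) =
      (ex (st s M) : ℝ) * (P * rd b c ρ q) * tq (itm s pr q / (st s M).gcd (itm s pr q)) := fun q hq =>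
    (hV q hq).mu_eq hs hM P b c ρ
  have muW : ∀ q ∈ W, mu O R' (itm s pr' q) =
      (ex (st s M') : ℝ) * (P' * rd b' c' ρ q) * tq (itm s pr' q / (st s M').gcd (itm s pr' q)) := fun q hq =>
    (hW q hq).mu_eq hs hM' P' b' c' ρ
  have gV : ∀ q ∈ V, gL (miss O' (itm s pr q)) = (rf (itm s pr q) (st s M) : ℕ) * ((P : ℝ) * ((b : ℝ) / c * γ)) :=
    fun q hq => (hV q hq).gb_eq hs hM P _
  have gW : ∀ q ∈ W, gR (miss O (itm s pr' q)) =
      (rf (itm s pr' q) (st s M') : ℕ) * ((P' : ℝ) * ((b' : ℝ) / c' * γ)) :=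
    fun q hq => (hW q hq).gb_eq hs hM' P' _
  have uV : ∀ q ∈ V, uu O' (itm s pr q) = ui s M pr q := fun q hq => (hV q hq).uu_eq hs hM
  have uW : ∀ q ∈ W, uu O (itm s pr' q) = ui s M' pr' q := fun q hq => (hW q hq).uu_eq hs hM'
  have cV : ∀ q ∈ V, Rc O' R (itm s pr q) = (rf (itm s pr q) (st s M) : ℕ) * ((P : ℝ) * rd b c ρ q) :=
    fun q hq => (hV q hq).Rc_eq hs hM P b c ρ
  have cW : ∀ q ∈ W, Rc O R' (itm s pr' q) = (rf (itm s pr' q) (st s M') : ℕ) * ((P' : ℝ) * rd b' c' ρ q) :=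
    fun q hq => (hW q hq).Rc_eq hs hM' P' b' c' ρ
  set A₁ : ℝ := a₀ * (E^2 * (s:ℝ)^ex') with hA₁
  have ha1 : (1:ℝ) ≤ a₀ := by exact_mod_cast ha₀
  have hS1 : (1:ℝ) ≤ (s:ℝ)^ex' := one_le_pow₀ (by exact_mod_cast hs.one_le)
  have hE21 : 1 ≤ E^2 := one_le_pow₀ hE1
  have hA₁1 : 1 ≤ A₁ := by
    rw [hA₁]
    calc (1:ℝ) = 1 * (1 * 1) := by ring
      _ ≤ _ := by gcongr
  -- the plain theorem
  have key := hmain s 1 s O O' V0 W0 R R' gL gR F0 (fun f => Q (bk s pr a f.1, bk s pr' a' f.2)) 1 A₁ 0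
    hsb one_pos hA₁1 hOp hOp' hsO hsO'
    (by
      intro w hw
      obtain ⟨q, hq, rfl⟩ := Finset.mem_image.1 hw
      refine ⟨(hV q hq).i0, ?_⟩
      rw [hRe q hq]; have := hrd q; positivity)
    (by
      intro w hw
      obtain ⟨q, hq, rfl⟩ := Finset.mem_image.1 hw
      refine ⟨(hW q hq).i0, ?_⟩
      rw [hRe' q hq]; have := hrd' q; positivity)
    (by
      intro w hw
      obtain ⟨q, hq, rfl⟩ := Finset.mem_image.1 hw
      rw [hRe q hq, muV q hq]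
      have h1 := lV q hq
      have h2 := (hV q hq).tq_ge hs hM
      have h3 : 1 ≤ CL * ℓ * tq (itm s pr q / (st s M).gcd (itm s pr q)) :=
        h1.trans (mul_le_mul_of_nonneg_left h2 (by positivity))
      have h4 : 0 ≤ (ex (st s M) : ℝ) * (P * rd b c ρ q) := by have := hrd q; positivity
      calc (ex (st s M) : ℝ) * (P * rd b c ρ q) = (ex (st s M) : ℝ) * (P * rd b c ρ q) * 1 := (mul_one _).symm
        _ ≤ _ := mul_le_mul_of_nonneg_left h3 h4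
        _ = _ := by ring)
    (by
      intro w hw
      obtain ⟨q, hq, rfl⟩ := Finset.mem_image.1 hw
      rw [hRe' q hq, muW q hq]
      have h1 := lW q hq
      have h2 := (hW q hq).tq_ge hs hM'
      have h3 : 1 ≤ CL * ℓ * tq (itm s pr' q / (st s M').gcd (itm s pr' q)) :=
        h1.trans (mul_le_mul_of_nonneg_left h2 (by positivity))
      have h4 : 0 ≤ (ex (st s M') : ℝ) * (P' * rd b' c' ρ q) := by have := hrd' q; positivity
      calc (ex (st s M') : ℝ) * (P' * rd b' c' ρ q) =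
          (ex (st s M') : ℝ) * (P' * rd b' c' ρ q) * 1 := (mul_one _).symm
        _ ≤ _ := mul_le_mul_of_nonneg_left h3 h4
        _ = _ := by ring)
    (by
      intro z hz w hw
      obtain ⟨q, hq, rfl⟩ := Finset.mem_image.1 hw
      exact (hV q hq).tame hs hM (tV z hz q hq))
    (by
      intro z hz w hw
      obtain ⟨q, hq, rfl⟩ := Finset.mem_image.1 hw
      exact (hW q hq).tame hs hM' (tW z hz q hq))
    (by
      intro f hf h1
      obtain ⟨e, he, rfl⟩ := mem0 f hf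
      obtain ⟨k1, k2⟩ := Finset.mem_product.1 he
      rw [hDc e he] at h1 ⊢
      rw [hF0e e he]
      simp only
      rw [hRe _ k1, hRe' _ k2]
      calc κ * F e ≤ κ * (ℓ^C0 * (rd b c ρ e.1 * rd b' c' ρ e.2 / Dq ρ M b pr c M' b' pr' c' e)) :=
            mul_le_mul_of_nonneg_left (hF e he h1) hκ0.le
        _ = _ := by rw [hκ]; ring)
    (by
      intro f hf h1 h2
      obtain ⟨e, he, rfl⟩ := mem0 f hf
      obtain ⟨k1, k2⟩ := Finset.mem_product.1 he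
      rw [hDc e he] at h1
      rw [hF0e e he] at h2
      have h2 : 0 < F e := (mul_pos_iff_of_pos_left hκ0).1 h2
      obtain ⟨j, j', hj⟩ := hrel e he h1 h2
      refine ⟨bL s a m a' m' * j, bL s a' m' a m * j', ?_⟩
      rw [hDc e he]
      simp only
      rw [gV _ k1, gW _ k2, uV _ k1, uW _ k2]
      refine le_trans (le_of_eq ?_) hj
      have c1 := cof_st hs (hV _ k1).w0 hM (hW _ k2).w0 hM'
      have c2 := cof_st hs (hW _ k2).w0 hM' (hV _ k1).w0 hM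
      rw [(hV _ k1).fa, (hW _ k2).fa] at c1 c2
      have r1 : ((bL s a m a' m' : ℕ) : ℝ) * (rf (e.1 / pr) M : ℕ) = (P : ℝ) * (rf (itm s pr e.1) (st s M) : ℕ) := by
        exact_mod_cast (hV _ k1).brf hs hM a' m'
      have r2 : ((bL s a' m' a m : ℕ) : ℝ) * (rf (e.2 / pr') M' : ℕ) =
          (P' : ℝ) * (rf (itm s pr' e.2) (st s M') : ℕ) := by
        exact_mod_cast (hW _ k2).brf hs hM' a m
      rw [c1, c2]
      congr 1
      have q1 : (rf (itm s pr e.1) (st s M) : ℕ) * ((P : ℝ) * ((b : ℝ) / c * γ)) =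
          (bL s a m a' m' : ℝ) * ((rf (e.1 / pr) M : ℕ) * ((b : ℝ) / c * γ)) := by
        linear_combination (-((b : ℝ) / c * γ)) * r1
      have q2 : (rf (itm s pr' e.2) (st s M') : ℕ) * ((P' : ℝ) * ((b' : ℝ) / c' * γ)) =
          (bL s a' m' a m : ℝ) * ((rf (e.2 / pr') M' : ℕ) * ((b' : ℝ) / c' * γ)) := by
        linear_combination (-((b' : ℝ) / c' * γ)) * r2
      rw [q1, q2]
      have bl1 : bL s a m a' m' = s ^ (a' - M'.factorization s - (a - M.factorization s)) := rfl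
      have bl2 : bL s a' m' a m = s ^ (a - M.factorization s - (a' - M'.factorization s)) := rfl
      rw [← bl1, ← bl2]
      unfold ui itm
      push_cast
      ring)
    (by
      intro f hf h1 h2 h3
      obtain ⟨e, he, rfl⟩ := mem0 f hf
      obtain ⟨k1, k2⟩ := Finset.mem_product.1 he
      have hd0 : 0 < Dc O O' R R' (itm s pr e.1, itm s pr' e.2) := by
        refine Dc_pos (N := s) hOp hOp' ?_ (hW _ k2).i0
        rw [hRe _ k1]; have := hrd e.1; positivity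
      rw [hDc e he] at h1 hd0 ⊢
      rw [hF0e e he] at h2
      have h2 : 0 < F e := (mul_pos_iff_of_pos_left hκ0).1 h2
      have r1 : ((bL s a m a' m' : ℕ) : ℝ) * (rf (e.1 / pr) M : ℕ) = (P : ℝ) * (rf (itm s pr e.1) (st s M) : ℕ) := by
        exact_mod_cast (hV _ k1).brf hs hM a' m'
      have r2 : ((bL s a' m' a m : ℕ) : ℝ) * (rf (e.2 / pr') M' : ℕ) =
          (P' : ℝ) * (rf (itm s pr' e.2) (st s M') : ℕ) := by
        exact_mod_cast (hW _ k2).brf hs hM' a m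
      have hFS : FSs s γ ρ (lev cl s) M b pr c M' b' pr' c' a a' e := by
        have h3' : FS (lev cl s) (gL (miss O' (itm s pr e.1))) (gR (miss O (itm s pr' e.2)))
          (cof (uu O' (itm s pr e.1)) (uu O (itm s pr' e.2))) (cof (uu O (itm s pr' e.2)) (uu O' (itm s pr e.1)))
          (Rc O' R (itm s pr e.1)) (Rc O R' (itm s pr' e.2)) := h3
        rw [gV _ k1, gW _ k2, uV _ k1, uW _ k2, cV _ k1, cW _ k2] at h3'
        unfold FSs
        have q : ∀ x : ℝ, (rf (itm s pr e.1) (st s M) : ℕ) * ((P : ℝ) * x) =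
            (bL s a m a' m' : ℝ) * ((rf (e.1 / pr) M : ℕ) * x) := fun x => by linear_combination (-x) * r1
        have q' : ∀ x : ℝ, (rf (itm s pr' e.2) (st s M') : ℕ) * ((P' : ℝ) * x) =
            (bL s a' m' a m : ℝ) * ((rf (e.2 / pr') M' : ℕ) * x) := fun x => by linear_combination (-x) * r2
        rw [q, q, q', q'] at h3'
        exact h3'
      rcases hFG e he h1 h2 hFS with h4 | h4
      swap
      · right; right
        simp only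
        rw [(hV _ k1).bk_eq, (hW _ k2).bk_eq]
        exact h4
      have hmm := one_le_mm (O := O) (O' := O') (fun p hp => (hOp p hp).1.pos) (fun p hp => (hOp' p hp).1.pos)
        (itm s pr e.1, itm s pr' e.2)
      have hrr : ((rf (itm s pr e.1) (st s M) * rf (itm s pr' e.2) (st s M') : ℕ) : ℝ) =
          E * mm O O' (itm s pr e.1, itm s pr' e.2) := by
        have g1 := ((hV _ k1).once hs hM).miss hst (hV _ k1).i0
        have g2 := ((hW _ k2).once hs hM').miss hst' (hW _ k2).i0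
        rw [← g1, ← g2, hE]
        unfold mm
        push_cast
        ring
      refine Or.inl (lt_of_lt_of_le h4 ?_)
      have hmm0 : 0 < mm O O' (itm s pr e.1, itm s pr' e.2) := by linarith
      have hEm : 1 ≤ E * mm O O' (itm s pr e.1, itm s pr' e.2) := by nlinarith
      have hEE : E * mm O O' (itm s pr e.1, itm s pr' e.2) ≤ E^2 * (mm O O' (itm s pr e.1, itm s pr' e.2))^2 := by
        have : 0 < E := by linarith
        nlinarith [mul_pos this hmm0]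
      have e1 : ((s ^ ex' * a₀ * rf (itm s pr e.1) (st s M) * rf (itm s pr' e.2) (st s M') : ℕ) : ℝ) =
          (a₀:ℝ) * (s:ℝ)^ex' * (E * mm O O' (itm s pr e.1, itm s pr' e.2)) := by
        rw [← hrr]; push_cast; ring
      have e2 : ((s ^ ex' * a₀ * rf (itm s pr e.1) (st s M) * rf (itm s pr' e.2) (st s M') : ℕ) : ℝ) ≤
          A₁ * (mm O O' (itm s pr e.1, itm s pr' e.2))^2 := by
        rw [e1, hA₁]
        calc (a₀:ℝ) * (s:ℝ)^ex' * (E * mm O O' (itm s pr e.1, itm s pr' e.2))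
            ≤ (a₀:ℝ) * (s:ℝ)^ex' * (E^2 * (mm O O' (itm s pr e.1, itm s pr' e.2))^2) :=
              mul_le_mul_of_nonneg_left hEE (by positivity)
          _ = _ := by ring
      have e3 := pow_le_pow_left₀ (by positivity) e2 10
      have := hd0.le
      gcongr)
  -- the sums
  have hsumL : ∑ f ∈ (V0 ×ˢ W0).filter (fun f => Dc O O' R R' f ≤ 1), F0 f =
      κ * ∑ e ∈ (V ×ˢ W).filter (fun e => Dq ρ M b pr c M' b' pr' c' e ≤ 1), F e := by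
    have := sum_br hV hW κ F (fun e => Dq ρ M b pr c M' b' pr' c' e ≤ 1) (fun f => Dc O O' R R' f ≤ 1)
      (fun e he => by rw [hDc e he])
    convert this
  have hsumQ : ∑ f ∈ (V0 ×ˢ W0).filter (fun f => 0 < F0 f ∧ (Dc O O' R R' f ≤ 1/2^(lev cl s) ∧
        Q (bk s pr a f.1, bk s pr' a' f.2))), F0 f =
      κ * ∑ e ∈ (V ×ˢ W).filter (fun e => 0 < F e ∧ (Dq ρ M b pr c M' b' pr' c' e ≤ 1/2^(lev cl s) ∧ Q e)),
        F e := by
    have := sum_br hV hW κ F (fun e => 0 < F e ∧ (Dq ρ M b pr c M' b' pr' c' e ≤ 1/2^(lev cl s) ∧ Q e))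
      (fun f => 0 < F0 f ∧ (Dc O O' R R' f ≤ 1/2^(lev cl s) ∧ Q (bk s pr a f.1, bk s pr' a' f.2)))
      (fun e he => by
        rw [hDc e he, hF0e e he, mul_pos_iff_of_pos_left hκ0]
        simp only
        rw [(hV _ (Finset.mem_product.1 he).1).bk_eq, (hW _ (Finset.mem_product.1 he).2).bk_eq])
    convert this
  rw [hsumL, hsumQ] at key
  -- numbers
  set x := ∑ q ∈ V, rd b c ρ q * tq (q / pr) with hx
  set y := ∑ q ∈ W, rd b' c' ρ q * tq (q / pr') with hy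
  have x0 : 0 ≤ x := Finset.sum_nonneg fun q _ => mul_nonneg (hrd q).le (tq_nonneg _)
  have y0 : 0 ≤ y := Finset.sum_nonneg fun q _ => mul_nonneg (hrd' q).le (tq_nonneg _)
  have xy0 : 0 ≤ x * y := mul_nonneg x0 y0
  have sV := mass_br hs hM hV P b c (fun q => (hρ q).le) hs1'
  have sW := mass_br hs hM' hW P' b' c' (fun q => (hρ q).le) hs1
  have nV := mass_nonneg hs hM hV P b c (fun q => (hρ q).le)
  have nW := mass_nonneg hs hM' hW P' b' c' (fun q => (hρ q).le)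
  set SV := ∑ w ∈ V0, mu O' R w with hSV
  set SW := ∑ w ∈ W0, mu O R' w with hSW
  have sV' : SV ≤ (ex (st s M) * P : ℝ) * (16 * x) := sV
  have sW' : SW ≤ (ex (st s M') * P' : ℝ) * (16 * y) := sW
  have nV' : 0 ≤ SV := nV
  have nW' : 0 ≤ SW := nW
  have hprod : SV * SW ≤ κ * (256 * (x * y)) := by
    calc SV * SW ≤ ((ex (st s M) * P : ℝ) * (16 * x)) * ((ex (st s M') * P' : ℝ) * (16 * y)) :=
          mul_le_mul sV' sW' nW' (nV'.trans sV')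
      _ = _ := by rw [hκ]; ring
  have rV : ∑ w ∈ V0, R w ≤ CL * ℓ * SV := by
    rw [hSV, Finset.mul_sum]
    refine Finset.sum_le_sum fun w hw => ?_
    obtain ⟨q, hq, rfl⟩ := Finset.mem_image.1 hw
    rw [hRe q hq, muV q hq]
    have h3 : 1 ≤ CL * ℓ * tq (itm s pr q / (st s M).gcd (itm s pr q)) :=
      (lV q hq).trans (mul_le_mul_of_nonneg_left ((hV q hq).tq_ge hs hM) (by positivity))
    have h4 : 0 ≤ (ex (st s M) : ℝ) * (P * rd b c ρ q) := by have := hrd q; positivity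
    calc (ex (st s M) : ℝ) * (P * rd b c ρ q) = (ex (st s M) : ℝ) * (P * rd b c ρ q) * 1 := (mul_one _).symm
      _ ≤ _ := mul_le_mul_of_nonneg_left h3 h4
      _ = _ := by ring
  have rW : ∑ w ∈ W0, R' w ≤ CL * ℓ * SW := by
    rw [hSW, Finset.mul_sum]
    refine Finset.sum_le_sum fun w hw => ?_
    obtain ⟨q, hq, rfl⟩ := Finset.mem_image.1 hw
    rw [hRe' q hq, muW q hq]
    have h3 : 1 ≤ CL * ℓ * tq (itm s pr' q / (st s M').gcd (itm s pr' q)) :=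
      (lW q hq).trans (mul_le_mul_of_nonneg_left ((hW q hq).tq_ge hs hM') (by positivity))
    have h4 : 0 ≤ (ex (st s M') : ℝ) * (P' * rd b' c' ρ q) := by have := hrd' q; positivity
    calc (ex (st s M') : ℝ) * (P' * rd b' c' ρ q) =
        (ex (st s M') : ℝ) * (P' * rd b' c' ρ q) * 1 := (mul_one _).symm
      _ ≤ _ := mul_le_mul_of_nonneg_left h3 h4
      _ = _ := by ring
  have rV0 : 0 ≤ ∑ w ∈ V0, R w := Finset.sum_nonneg fun w hw => by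
    obtain ⟨q, hq, rfl⟩ := Finset.mem_image.1 hw
    rw [hRe q hq]; have := hrd q; positivity
  have rW0 : 0 ≤ ∑ w ∈ W0, R' w := Finset.sum_nonneg fun w hw => by
    obtain ⟨q, hq, rfl⟩ := Finset.mem_image.1 hw
    rw [hRe' q hq]; have := hrd' q; positivity
  set g := (s:ℝ)^(-(48/100)*((ex' : ℝ)-1)) with hg
  have hg0 : 0 < g := by positivity
  have gl : ∀ δ : ℝ, δ ≤ 1/100 → κ^(-(1/2-δ)) ≤ g * (s:ℝ)^(-(1/2-δ)) := fun δ hδ => by
    rw [hκE]; exact gain_le hs2 hex1 hE1 hδ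
  have pwr : ∀ δ : ℝ, 0 ≤ δ → δ ≤ 1/100 →
      (κ * (256 * (x * y)))^(1/2+δ) ≤ κ * (κ^(-(1/2-δ)) * (256 * (x * y)^(1/2+δ))) := fun δ h1 h2 => by
    rw [pow_split hκ0 (by positivity), Real.mul_rpow (by norm_num) xy0]
    have h3 : (256:ℝ)^(1/2+δ) ≤ 256 := by
      calc (256:ℝ)^(1/2+δ) ≤ (256:ℝ)^(1:ℝ) := Real.rpow_le_rpow_of_exponent_le (by norm_num) (by linarith)
        _ = 256 := Real.rpow_one _
    gcongr
  have T1 : (SV * SW)^(1/2+eps1) ≤ κ * (g * (256 * ((s:ℝ)^(-(1/2-eps1)) * (x * y)^(1/2+eps1)))) := by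
    calc (SV * SW)^(1/2+eps1) ≤ (κ * (256 * (x * y)))^(1/2+eps1) :=
          Real.rpow_le_rpow (mul_nonneg nV' nW') hprod (by rw [he1]; norm_num)
      _ ≤ κ * (κ^(-(1/2-eps1)) * (256 * (x * y)^(1/2+eps1))) := pwr eps1 (by rw [he1]; norm_num) (by rw [he1]; norm_num)
      _ ≤ κ * ((g * (s:ℝ)^(-(1/2-eps1))) * (256 * (x * y)^(1/2+eps1))) := by
          have := gl eps1 (by rw [he1]; norm_num)
          gcongr
      _ = _ := by ring
  have T2 : ((∑ w ∈ V0, R w) * (∑ w ∈ W0, R' w))^(1/2:ℝ) ≤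
      κ * (g * (CL * ℓ * (256 * ((s:ℝ)^(-(1/2):ℝ) * (x * y)^(1/2:ℝ))))) := by
    have hp : (∑ w ∈ V0, R w) * (∑ w ∈ W0, R' w) ≤ (CL * ℓ)^2 * (κ * (256 * (x * y))) := by
      calc _ ≤ (CL * ℓ * SV) * (CL * ℓ * SW) := mul_le_mul rV rW rW0 (by positivity)
        _ = (CL * ℓ)^2 * (SV * SW) := by ring
        _ ≤ _ := mul_le_mul_of_nonneg_left hprod (by positivity)
    have h0 := pwr 0 le_rfl (by norm_num)
    have h1 := gl 0 (by norm_num)
    simp only [add_zero, sub_zero] at h0 h1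
    calc _ ≤ ((CL * ℓ)^2 * (κ * (256 * (x * y))))^(1/2:ℝ) :=
          Real.rpow_le_rpow (mul_nonneg rV0 rW0) hp (by norm_num)
      _ = (CL * ℓ) * (κ * (256 * (x * y)))^(1/2:ℝ) := by
          rw [Real.mul_rpow (by positivity) (by positivity), ← Real.sqrt_eq_rpow, Real.sqrt_sq (by positivity)]
      _ ≤ (CL * ℓ) * (κ * (κ^(-(1/2):ℝ) * (256 * (x * y)^(1/2:ℝ)))) := by gcongr
      _ ≤ (CL * ℓ) * (κ * ((g * (s:ℝ)^(-(1/2):ℝ)) * (256 * (x * y)^(1/2:ℝ)))) := by gcongr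
      _ = _ := by ring
  have hacc : acc 1 s 0 = 0 := acc_zero hlog
  set a6 : ℝ := (a₀:ℝ)^(6/1000:ℝ) * (s:ℝ)^(6/1000:ℝ) with ha6
  have ha60 : 0 < a6 := by rw [ha6]; positivity
  have hA₁6 : A₁^(6/1000:ℝ) * κ^(-(1/2-eps2)) ≤ a6 * (g * (s:ℝ)^(-(1/2-eps2))) := by
    rw [hA₁, hκE]
    exact gain4_le hs2 hex1 hE1
  have T3 : (A₁^(6/1000:ℝ) + acc 1 s 0) * (SV * SW)^(1/2+eps2) ≤
      κ * (g * (256 * (a6 * ((s:ℝ)^(-(1/2-eps2)) * (x * y)^(1/2+eps2))))) := by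
    rw [hacc, add_zero]
    have hA₁0 : 0 ≤ A₁^(6/1000:ℝ) := Real.rpow_nonneg (by linarith) _
    have h1 : (SV * SW)^(1/2+eps2) ≤ κ * (κ^(-(1/2-eps2)) * (256 * (x * y)^(1/2+eps2))) :=
      (Real.rpow_le_rpow (mul_nonneg nV' nW') hprod (by rw [he2]; norm_num)).trans
        (pwr eps2 (by rw [he2]; norm_num) (by rw [he2]; norm_num))
    calc _ ≤ A₁^(6/1000:ℝ) *
          (κ * (κ^(-(1/2-eps2)) * (256 * (x * y)^(1/2+eps2)))) := mul_le_mul_of_nonneg_left h1 (by positivity)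
      _ = κ * (256 * (x * y)^(1/2+eps2)) * (A₁^(6/1000:ℝ) * κ^(-(1/2-eps2))) := by ring
      _ ≤ κ * (256 * (x * y)^(1/2+eps2)) * (a6 * (g * (s:ℝ)^(-(1/2-eps2)))) :=
          mul_le_mul_of_nonneg_left hA₁6 (by positivity)
      _ = _ := by ring
  set K := C0 + 5 + cl/500 with hK
  have e7 : ℓ^(C0 + 7 + cl/500) = ℓ^K * ℓ^2 := by
    rw [hK, show C0 + 7 + cl/500 = (C0 + 5 + cl/500) + 2 by ring, Real.rpow_add hℓ0, Real.rpow_two]
  have hℓK : 0 < ℓ^K := by positivity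
  have h256 : (256:ℝ) ≤ ℓ^2 := by nlinarith
  have h256' : CL * ℓ * 256 ≤ ℓ^2 := by nlinarith
  have t1 : ℓ^K * (SV * SW)^(1/2+eps1) ≤ κ * (g * (ℓ^(C0 + 7 + cl/500) * ((s:ℝ)^(-(1/2-eps1)) * (x * y)^(1/2+eps1)))) := by
    calc ℓ^K * (SV * SW)^(1/2+eps1) ≤ ℓ^K * (κ * (g * (256 * ((s:ℝ)^(-(1/2-eps1)) * (x * y)^(1/2+eps1))))) :=
          mul_le_mul_of_nonneg_left T1 hℓK.le
      _ = (κ * (g * ((s:ℝ)^(-(1/2-eps1)) * (x * y)^(1/2+eps1)))) * ℓ^K * 256 := by ring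
      _ ≤ (κ * (g * ((s:ℝ)^(-(1/2-eps1)) * (x * y)^(1/2+eps1)))) * ℓ^K * ℓ^2 :=
          mul_le_mul_of_nonneg_left h256 (by positivity)
      _ = _ := by rw [e7]; ring
  have t2 : ℓ^K * ((∑ w ∈ V0, R w) * (∑ w ∈ W0, R' w))^(1/2:ℝ) ≤
      κ * (g * (ℓ^(C0 + 7 + cl/500) * ((s:ℝ)^(-(1/2):ℝ) * (x * y)^(1/2:ℝ)))) := by
    calc ℓ^K * ((∑ w ∈ V0, R w) * (∑ w ∈ W0, R' w))^(1/2:ℝ) ≤
          ℓ^K * (κ * (g * (CL * ℓ * (256 * ((s:ℝ)^(-(1/2):ℝ) * (x * y)^(1/2:ℝ)))))) :=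
          mul_le_mul_of_nonneg_left T2 hℓK.le
      _ = (κ * (g * ((s:ℝ)^(-(1/2):ℝ) * (x * y)^(1/2:ℝ)))) * ℓ^K * (CL * ℓ * 256) := by ring
      _ ≤ (κ * (g * ((s:ℝ)^(-(1/2):ℝ) * (x * y)^(1/2:ℝ)))) * ℓ^K * ℓ^2 :=
          mul_le_mul_of_nonneg_left h256' (by positivity)
      _ = _ := by rw [e7]; ring
  have t3 : ℓ^K * ((A₁^(6/1000:ℝ) + acc 1 s 0) * (SV * SW)^(1/2+eps2)) ≤
      κ * (g * (ℓ^(C0 + 7 + cl/500) * (a6 *
        ((s:ℝ)^(-(1/2-eps2)) * (x * y)^(1/2+eps2))))) := by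
    calc ℓ^K * ((A₁^(6/1000:ℝ) + acc 1 s 0) * (SV * SW)^(1/2+eps2)) ≤
          ℓ^K * (κ * (g * (256 * (a6 *
        ((s:ℝ)^(-(1/2-eps2)) * (x * y)^(1/2+eps2)))))) :=
          mul_le_mul_of_nonneg_left T3 hℓK.le
      _ = (κ * (g * (a6 *
        ((s:ℝ)^(-(1/2-eps2)) * (x * y)^(1/2+eps2))))) * ℓ^K * 256 := by ring
      _ ≤ (κ * (g * (a6 *
        ((s:ℝ)^(-(1/2-eps2)) * (x * y)^(1/2+eps2))))) * ℓ^K * ℓ^2 :=
          mul_le_mul_of_nonneg_left h256 (by positivity)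
      _ = _ := by rw [e7]; ring
  refine le_of_mul_le_mul_left ?_ hκ0
  calc _ ≤ _ := key
    _ = (ℓ^K * (SV * SW)^(1/2+eps1) + ℓ^K * ((∑ w ∈ V0, R w) * (∑ w ∈ W0, R' w))^(1/2:ℝ)) +
        ℓ^K * ((A₁^(6/1000:ℝ) + acc 1 s 0) * (SV * SW)^(1/2+eps2)) +
        κ * ∑ e ∈ (V ×ˢ W).filter (fun e => 0 < F e ∧ (Dq ρ M b pr c M' b' pr' c' e ≤ 1/2^(lev cl s) ∧ Q e)),
          F e := by rw [hK]; ring
    _ ≤ _ := add_le_add (add_le_add (add_le_add t1 t2) t3) le_rfl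
    _ = _ := by ring


theorem shot_big {CL C0 : ℝ} (hCL : 1 ≤ CL) (hC0 : 0 ≤ C0) : ∃ cl₀ : ℝ, 0 < cl₀ ∧ ∀ cl : ℝ, cl₀ ≤ cl →
    PBig CL C0 cl :=
  ⟨Crest.Agent.R4P.LowT33.clT, Crest.Agent.R4P.LowT33.clT_pos, fun _ h => shot_big' hCL hC0 h⟩

/-! ### all pairs of one pair of classes -/

open Crest.Agent.R4P.ClsSum Crest.Agent.R4P.ShotTot33 Crest.Agent.R4P.LLTot33
open Crest.Agent.R4P.NumCls32 Crest.Agent.R4P.PotSum32

/-- the new condition follows from `FLow` -/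
lemma FLow.big {s ex a₀ r₀ r₀' : ℕ} {θ₁ D : ℝ} (hs : 0 < s) (hD : 0 ≤ D) (h : FLow s ex a₀ r₀ r₀' θ₁ D) :
    1 < 2 * ((s ^ ex * a₀ * r₀ * r₀' : ℕ) : ℝ)^10 * D := by
  rcases h with h | ⟨h, -⟩
  · refine lt_of_lt_of_le h ?_
    have : ((a₀ * r₀ * r₀' : ℕ) : ℝ) ≤ ((s ^ ex * a₀ * r₀ * r₀' : ℕ) : ℝ) := by
      have h1 : a₀ * r₀ * r₀' ≤ s ^ ex * a₀ * r₀ * r₀' := by
        calc a₀ * r₀ * r₀' = 1 * (a₀ * r₀ * r₀') := (one_mul _).symm
          _ ≤ s ^ ex * (a₀ * r₀ * r₀') := Nat.mul_le_mul_right _ (Nat.pow_pos hs)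
          _ = _ := by ring
      exact_mod_cast h1
    gcongr
  · exact h

lemma Dq_pos {ρ : ℕ → ℝ} (hρ : ∀ q, 0 < ρ q) {M b pr c M' b' pr' c' : ℕ} {e : ℕ × ℕ} (hb : 0 < b) (hc : 0 < c)
    (hM : 0 < M) (hM' : 0 < M') (w1 : 0 < e.1 / pr) (w2 : 0 < e.2 / pr') : 0 < Dq ρ M b pr c M' b' pr' c' e := by
  unfold Dq Da Crest.Agent.R4.AvgItem710.Dp
  refine lt_max_of_lt_left ?_
  have h1 : (0 : ℝ) < cof (e.2 / pr' / M'.gcd (e.2 / pr')) (e.1 / pr / M.gcd (e.1 / pr)) := by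
    exact_mod_cast Crest.Agent.R4.HVW560.cof_pos (div_pos' w2 hM')
  have h2 : (0:ℝ) < rf (e.1 / pr) M := by exact_mod_cast rf_pos hM
  have h3 : 0 < rd b c ρ e.1 := mul_pos (div_pos (by exact_mod_cast hb) (by exact_mod_cast hc)) (hρ _)
  exact mul_pos h1 (mul_pos h2 h3)

/-- `box_cls` without escape and without the bound of `a₀` -/
def BoxB (C0 CT cl : ℝ) (CL : ℝ) (s₁ : ℕ) (K : ℝ) : Prop :=
  ∀ (s M b pr c M' b' pr' c' a a' a₀ : ℕ) (γ θ : ℝ) (ρ : ℕ → ℝ) (V W : Finset ℕ) (F : ℕ × ℕ → ℝ),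
    s₁ ≤ s → 1 ≤ a₀ → BX CL s M b pr c M' b' pr' c' a a' ρ V W →
    a + M'.factorization s ≠ a' + M.factorization s →
    FB C0 CT cl s M b pr c M' b' pr' c' a a' a₀ γ θ ρ V W F →
    ∑ e ∈ V ×ˢ W, F e ≤ dcy s (M.factorization s) (M'.factorization s) a a' *
      ((Real.log s)^K * Z3 s ((∑ q ∈ V, rd b c ρ q * tq (q / pr)) * (∑ q ∈ W, rd b' c' ρ q * tq (q / pr'))) +
        (Real.log s)^K * ((a₀:ℝ)^(6/1000:ℝ) * (s:ℝ)^(6/1000:ℝ)) *
          Z2 s ((∑ q ∈ V, rd b c ρ q * tq (q / pr)) * (∑ q ∈ W, rd b' c' ρ q * tq (q / pr'))))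

open Classical in
/-- the conclusion of `box2` at the level exponent `cl` -/
def PBox2 (CL C0 CT cl : ℝ) : Prop :=
    ∃ s₁ : ℕ, 3 ≤ s₁ ∧
    (∀ s : ℕ, s₁ ≤ s → 400 ≤ lev cl s ∧ (Real.log s)^cl ≤ (2:ℝ)^(lev cl s) ∧
      (2:ℝ)^(lev cl s) ≤ (Real.log s)^(cl+1) ∧ 2 ≤ Real.log s) ∧
    Box C0 CT cl CL s₁ (C0 + CT + 8 + cl/500) ∧ BoxB C0 CT cl CL s₁ (C0 + CT + 10 + cl/500)

open Classical in
/-- **both numbers with the same constants** -/
theorem box2' {CL C0 CT : ℝ} (hCL : 1 ≤ CL) (hC0 : 0 ≤ C0) (hCT : 0 < CT) {cl : ℝ}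
    (hcl : Crest.Agent.R4P.LowT33.clT ≤ cl) : PBox2 CL C0 CT cl := by
  have h0 := Crest.Agent.R4P.LowT33.clT_pos
  obtain ⟨s1, h3, hlev, hb1⟩ := box_cls' hCL hC0 hCT hcl
  obtain ⟨s2, g3, -, hb2⟩ := shot_big' hCL hC0 hcl
  obtain ⟨s3, k3, -, hb3⟩ := box1' hCL hC0 hCT hcl
  refine ⟨max s1 (max s2 s3), h3.trans (le_max_left _ _), fun s hs => hlev s ((le_max_left _ _).trans hs), ?_, ?_⟩
  · intro s M b pr c M' b' pr' c' a a' a₀ γ θ ρ V W F A hs ha ha' hA hB hne hF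
    exact hb3 s M b pr c M' b' pr' c' a a' a₀ γ θ ρ V W F A
      (((le_max_right _ _).trans (le_max_right _ _)).trans hs) ha ha' hA hB hne hF
  intro s M b pr c M' b' pr' c' a a' a₀ γ θ ρ V W F hs ha hB hne hF
  obtain ⟨-, -, -, hlog⟩ := hlev s ((le_max_left _ _).trans hs)
  have hcl0 : 0 < cl := lt_of_lt_of_le h0 hcl
  have hs0 : (0:ℝ) < s := by exact_mod_cast hB.hs.pos
  set ℓ := Real.log s with hℓ
  have hℓ0 : 0 < ℓ := by linarith
  have hℓ1 : 1 ≤ ℓ := by linarith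
  set D := Dq ρ M b pr c M' b' pr' c' with hD
  have D0 : ∀ e ∈ V ×ˢ W, 0 < D e := by
    intro e he
    obtain ⟨k1, k2⟩ := Finset.mem_product.1 he
    have w1 := (hB.hV _ k1).w0
    have w2 := (hB.hW _ k2).w0
    exact Crest.Agent.R4P.ShotBig33.Dq_pos hB.hρ hB.hb hB.hc hB.hM hB.hM' w1 w2
  set Q : ℕ × ℕ → Prop := fun e => FSs s γ ρ (lev cl s) M b pr c M' b' pr' c' a a' e with hQ
  have key1 := hb1 s M b pr c M' b' pr' c' a a' 1 γ ρ V W F Q 1 0 ((le_max_left _ _).trans hs) le_rfl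
    hB.hs.one_le zero_le_one hB hne hF.f1 hF.f2 hF.rel (fun e he h4 h5 h6 => Or.inr h6)
  set F' : ℕ × ℕ → ℝ := fun e => if 0 < F e ∧ Q e then F e else 0 with hF'
  have key2 := hb2 s M b pr c M' b' pr' c' a a' a₀ γ ρ V W F' (fun _ => False)
    (((le_max_left _ _).trans (le_max_right _ _)).trans hs) hB.hs ha hB.hρ hB.hb hB.hc
    hB.hb' hB.hc' hB.hM hB.hM' hB.gM hB.gM' hB.hsM hB.hsM' hne hB.hV hB.hW hB.tV hB.tW hB.lV hB.lW
    (by
      intro e he h4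
      rw [hF']; simp only
      split_ifs with h5
      · exact hF.f1 e he h4
      · have := hB.rd0 e.1
        have := hB.rd0' e.2
        have := D0 e he
        positivity)
    (by
      intro e he h4 h5
      rw [hF'] at h5; simp only at h5
      split_ifs at h5 with h6
      · exact hF.rel e he h4 h5
      · exact absurd h5 (lt_irrefl _))
    (by
      intro e he h4 h5 h6
      rw [hF'] at h5; simp only at h5
      split_ifs at h5 with h7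
      · exact Or.inl (Crest.Agent.R4P.ShotBig33.FLow.big hB.hs.pos (D0 e he).le (hF.fg e he h4 h5 h6))
      · exact absurd h5 (lt_irrefl _))
  replace key2 := key2.trans ((add_le_add le_rfl (le_of_eq (b := 0)
    (Finset.sum_eq_zero fun e he => by simp at he))).trans (le_of_eq (add_zero _)))
  have hR : ∑ e ∈ (V ×ˢ W).filter (fun e => 0 < F e ∧ (D e ≤ 1/2^(lev cl s) ∧ Q e)), F e ≤
      ∑ e ∈ (V ×ˢ W).filter (fun e => D e ≤ 1), F' e := by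
    have e1 : ∀ e ∈ (V ×ˢ W).filter (fun e => 0 < F e ∧ (D e ≤ 1/2^(lev cl s) ∧ Q e)), F e = F' e := by
      intro e he
      obtain ⟨-, h5, -, h6⟩ := Finset.mem_filter.1 he
      rw [hF']; simp only
      rw [if_pos ⟨h5, h6⟩]
    rw [Finset.sum_congr rfl e1]
    refine Finset.sum_le_sum_of_subset_of_nonneg (fun e he => ?_) (fun e _ _ => ?_)
    · obtain ⟨h4, -, h6, -⟩ := Finset.mem_filter.1 he
      refine Finset.mem_filter.2 ⟨h4, h6.trans ?_⟩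
      rw [div_le_one (by positivity)]
      exact one_le_pow₀ (by norm_num)
    · split_ifs with h5
      · exact h5.1.le
      · exact le_rfl
  have key3 := hR.trans key2
  set x := ∑ q ∈ V, rd b c ρ q * tq (q / pr) with hx
  set y := ∑ q ∈ W, rd b' c' ρ q * tq (q / pr') with hy
  have x0 : 0 ≤ x := hB.x0 V
  have y0 : 0 ≤ y := hB.y0 W
  have z3 := Z3_nonneg s (mul_nonneg x0 y0)
  have z2 := Z2_nonneg s (mul_nonneg x0 y0)
  set g := dcy s (M.factorization s) (M'.factorization s) a a' with hg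
  have hg0 : 0 < g := by rw [hg]; unfold dcy; positivity
  have hg' : (s:ℝ)^(-(48/100)*((dex a (M.factorization s) a' (M'.factorization s) : ℝ)-1)) = g := rfl
  rw [hg'] at key3
  have hacc : acc 1 s 0 = 0 := acc_zero hlog
  have hw : ((ℓ:ℝ)^((1:ℝ)*(6/1000)) *
        (if dex a (M.factorization s) a' (M'.factorization s) = 1 then (((1:ℕ):ℝ))^(6/1000:ℝ) else 1) +
        (if dex a (M.factorization s) a' (M'.factorization s) = 1 then acc 1 s 0 else 0)) ≤ ℓ := by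
    rw [hacc, Nat.cast_one, Real.one_rpow, ite_self, ite_self, add_zero, mul_one]
    calc ℓ^((1:ℝ)*(6/1000)) ≤ ℓ^(1:ℝ) := Real.rpow_le_rpow_of_exponent_le hℓ1 (by norm_num)
      _ = ℓ := Real.rpow_one _
  set a6 : ℝ := (a₀:ℝ)^(6/1000:ℝ) * (s:ℝ)^(6/1000:ℝ) with ha6
  have ha61 : 1 ≤ a6 := by
    rw [ha6]
    have h1 : (1:ℝ) ≤ (a₀:ℝ)^(6/1000:ℝ) := Real.one_le_rpow (by exact_mod_cast ha) (by norm_num)
    have h2 : (1:ℝ) ≤ (s:ℝ)^(6/1000:ℝ) := Real.one_le_rpow (by exact_mod_cast hB.hs.one_le) (by norm_num)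
    nlinarith
  set K := ℓ^(C0 + CT + 8 + cl/500) with hK
  have hK0 : 0 < K := by positivity
  have hK1 : ℓ^(C0 + 7 + cl/500) ≤ K := Real.rpow_le_rpow_of_exponent_le hℓ1 (by linarith)
  have hK2 : ℓ^(C0 + CT + 10 + cl/500) = K * (ℓ * ℓ) := by
    rw [hK, show C0 + CT + 10 + cl/500 = (C0 + CT + 8 + cl/500) + ((2:ℕ):ℝ) by push_cast; ring, Real.rpow_add hℓ0,
      Real.rpow_natCast]; ring
  refine (key1.trans (add_le_add le_rfl key3)).trans ?_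
  have hz3 : (s:ℝ)^(-(1/2-eps1)) * (x * y)^(1/2+eps1) + (s:ℝ)^(-(1/2):ℝ) * (x * y)^(1/2:ℝ) = Z3 s (x * y) := rfl
  have hz2 : (s:ℝ)^(-(1/2-eps2)) * (x * y)^(1/2+eps2) = Z2 s (x * y) := rfl
  rw [hz3, hz2, hK2]
  calc _ ≤ g * (K * Z3 s (x * y) + K * ℓ * Z2 s (x * y)) +
        g * (K * Z3 s (x * y) + K * a6 * Z2 s (x * y)) := by gcongr
    _ = g * ((K * 2) * Z3 s (x * y) + (K * ℓ * 1 + K * 1 * a6) * Z2 s (x * y)) := by ring
    _ ≤ g * ((K * (ℓ * ℓ)) * Z3 s (x * y) + (K * ℓ * a6 + K * ℓ * a6) * Z2 s (x * y)) := by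
        have h2 : (2:ℝ) ≤ ℓ * ℓ := by nlinarith
        gcongr
    _ = g * ((K * (ℓ * ℓ)) * Z3 s (x * y) + (K * (ℓ * 2) * a6) * Z2 s (x * y)) := by ring
    _ ≤ _ := by gcongr


theorem box2 {CL C0 CT : ℝ} (hCL : 1 ≤ CL) (hC0 : 0 ≤ C0) (hCT : 0 < CT) : ∃ cl₀ : ℝ, 0 < cl₀ ∧ ∀ cl : ℝ, cl₀ ≤ cl →
    PBox2 CL C0 CT cl :=
  ⟨Crest.Agent.R4P.LowT33.clT, Crest.Agent.R4P.LowT33.clT_pos, fun _ h => box2' hCL hC0 hCT h⟩

/-! ### the exit of the column at the crossing prime itself -/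

section self
variable {C0 CT cl CL K : ℝ} {s₁ : ℕ} {s M b pr c M' b' pr' c' a a' : ℕ} {γ θ θ' : ℝ} {ρ : ℕ → ℝ}
  {V W : Finset ℕ}

lemma Y3_le (hs : 1 ≤ s) {z : ℝ} (hz : 0 ≤ z) : Y3 s s z ≤ Z3 s z := by
  have he1 : eps1 = 1/1000 := rfl
  have hs1 : (1:ℝ) ≤ s := by exact_mod_cast hs
  unfold Y3 Z3
  have h1 : (s:ℝ)^(-(2-2*(1/2+eps1))) ≤ 1 :=
    Real.rpow_le_one_of_one_le_of_nonpos hs1 (by rw [he1]; norm_num)
  have h2 : (s:ℝ)^(-(2-2*(1/2:ℝ))) ≤ 1 := Real.rpow_le_one_of_one_le_of_nonpos hs1 (by norm_num)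
  have h3 : 0 ≤ z^(1/2+eps1) := Real.rpow_nonneg hz _
  have h4 : 0 ≤ z^(1/2:ℝ) := Real.rpow_nonneg hz _
  have h5 : (s:ℝ)^(-(2-2*(1/2+eps1))) * (1 * z^(1/2+eps1)) ≤ z^(1/2+eps1) := by
    rw [one_mul]; exact mul_le_of_le_one_left h3 h1
  have h6 : (s:ℝ)^(-(2-2*(1/2:ℝ))) * (1 * z^(1/2:ℝ)) ≤ z^(1/2:ℝ) := by
    rw [one_mul]; exact mul_le_of_le_one_left h4 h2
  gcongr

lemma Y2_le (hs : 1 ≤ s) {z : ℝ} (hz : 0 ≤ z) :
    ((((s * s : ℕ) : ℝ))^(6/1000:ℝ) * (s:ℝ)^(6/1000:ℝ)) * Y2 s s z ≤ Z2 s z := by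
  have he2 : eps2 = 1/4000 := rfl
  have hs1 : (1:ℝ) ≤ s := by exact_mod_cast hs
  have hs0 : (0:ℝ) < s := by linarith
  unfold Y2 Z2
  have h3 : 0 ≤ z^(1/2+eps2) := Real.rpow_nonneg hz _
  have h1 : ((((s * s : ℕ) : ℝ))^(6/1000:ℝ) * (s:ℝ)^(6/1000:ℝ)) * (s:ℝ)^(-(2-2*(1/2+eps2))) ≤ 1 := by
    rw [Nat.cast_mul, Real.mul_rpow hs0.le hs0.le, ← Real.rpow_add hs0, ← Real.rpow_add hs0, ← Real.rpow_add hs0]
    exact Real.rpow_le_one_of_one_le_of_nonpos hs1 (by rw [he2]; norm_num)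
  calc _ = (s:ℝ)^(-(1/2-eps2)) * ((((((s * s : ℕ) : ℝ))^(6/1000:ℝ) * (s:ℝ)^(6/1000:ℝ)) *
        (s:ℝ)^(-(2-2*(1/2+eps2)))) * z^(1/2+eps2)) := by ring
    _ ≤ (s:ℝ)^(-(1/2-eps2)) * (1 * z^(1/2+eps2)) := by gcongr
    _ = _ := by rw [one_mul]

/-- **the exit of the column at the crossing prime**, one rectangle: no loss at all -/
lemma exit_self (hbox : BoxB C0 CT cl CL s₁ K) (hs₁ : s₁ ≤ s)
    (hB : BX CL s M b pr c M' b' pr' c' a a' ρ V W)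
    (hne : a + M'.factorization s ≠ a' + M.factorization s) {G : ℕ × ℕ → ℝ}
    (hF : FB C0 CT cl s M (b*s) pr c M' (b'*s) pr' c' a a' (s*s) γ θ ρ V W (fun e => (s:ℝ)^2 * G e))
    {z : ℝ} (hz : (∑ q ∈ V, rd b c ρ q * tq (q / pr)) * (∑ q ∈ W, rd b' c' ρ q * tq (q / pr')) ≤ z) :
    ∑ e ∈ V ×ˢ W, G e ≤ dcy s (M.factorization s) (M'.factorization s) a a' *
      ((Real.log s)^K * (Z3 s z + Z2 s z)) := by
  have hs := hB.hs
  have hl0 : (0:ℝ) < s := by exact_mod_cast hs.pos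
  have hx := hB.x0 V
  have hy := hB.y0 W
  have hxy := mul_nonneg hx hy
  have hz0 := hxy.trans hz
  have hb := hbox s M (b*s) pr c M' (b'*s) pr' c' a a' (s*s) γ θ ρ V W _ hs₁
    (Nat.mul_pos hs.pos hs.pos) (hB.raise hs.pos) hne hF
  rw [mass_raise, mass_raise] at hb
  set x := ∑ q ∈ V, rd b c ρ q * tq (q / pr) with hxd
  set y := ∑ q ∈ W, rd b' c' ρ q * tq (q / pr') with hyd
  have e1 : (s:ℝ) * x * (s * y) = (s:ℝ) * s * (x * y) := by ring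
  rw [e1] at hb
  have hg : 0 ≤ dcy s (M.factorization s) (M'.factorization s) a a' := by unfold dcy; positivity
  have hlog : 0 ≤ Real.log s := Real.log_natCast_nonneg s
  have hmono : (s:ℝ) * s * (x * y) ≤ (s:ℝ) * s * z := mul_le_mul_of_nonneg_left hz (by positivity)
  have h3 := Z3_mono s (by positivity) hmono
  have h2 := Z2_mono s (by positivity) hmono
  rw [← Finset.mul_sum] at hb
  have hl2 : (0:ℝ) < (s:ℝ)^2 := by positivity
  have hb2 : (s:ℝ)^2 * ∑ e ∈ V ×ˢ W, G e ≤ dcy s (M.factorization s) (M'.factorization s) a a' *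
      ((Real.log s)^K * Z3 s ((s:ℝ) * s * z) +
        (Real.log s)^K * ((((s * s : ℕ) : ℝ))^(6/1000:ℝ) * (s:ℝ)^(6/1000:ℝ)) * Z2 s ((s:ℝ) * s * z)) := by
    refine hb.trans ?_
    gcongr
  have e2 : ∑ e ∈ V ×ˢ W, G e = ((s:ℝ)^2)⁻¹ * ((s:ℝ)^2 * ∑ e ∈ V ×ˢ W, G e) := by field_simp
  rw [e2]
  have y3 := Y3_le (s := s) hs.one_le hz0
  have y2 := Y2_le (s := s) hs.one_le hz0
  calc _ ≤ ((s:ℝ)^2)⁻¹ * (dcy s (M.factorization s) (M'.factorization s) a a' *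
      ((Real.log s)^K * Z3 s ((s:ℝ) * s * z) +
        (Real.log s)^K * ((((s * s : ℕ) : ℝ))^(6/1000:ℝ) * (s:ℝ)^(6/1000:ℝ)) * Z2 s ((s:ℝ) * s * z))) :=
        mul_le_mul_of_nonneg_left hb2 (by positivity)
    _ = dcy s (M.factorization s) (M'.factorization s) a a' *
      ((Real.log s)^K * (((s:ℝ)^2)⁻¹ * Z3 s ((s:ℝ) * s * z)) +
        (Real.log s)^K * (((((s * s : ℕ) : ℝ))^(6/1000:ℝ) * (s:ℝ)^(6/1000:ℝ)) *
          (((s:ℝ)^2)⁻¹ * Z2 s ((s:ℝ) * s * z)))) := by ring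
    _ = dcy s (M.factorization s) (M'.factorization s) a a' *
      ((Real.log s)^K * Y3 s s z +
        (Real.log s)^K * (((((s * s : ℕ) : ℝ))^(6/1000:ℝ) * (s:ℝ)^(6/1000:ℝ)) * Y2 s s z)) := by
        rw [Z3_raise s hs.one_le hz0, Z2_raise s hs.one_le hz0]
    _ ≤ dcy s (M.factorization s) (M'.factorization s) a a' *
      ((Real.log s)^K * Z3 s z + (Real.log s)^K * Z2 s z) := by gcongr
    _ = _ := by ring

open Classical in
/-- **the class numbers, different classes, the exit of the column at the crossing prime** (`a₀ = s²` allowed) -/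
theorem CO_self (hbox : BoxB C0 CT cl CL s₁ K) (hs₁ : s₁ ≤ s) (hℓ : 2 ≤ Real.log s)
    (hB : AX CL s M b pr c M' b' pr' c' ρ V W) {G : ℕ × ℕ → ℝ}
    (hF : FAll C0 CT cl s M (b*s) pr c M' (b'*s) pr' c' (s*s) γ θ θ' ρ V W (fun e => (s:ℝ)^2 * G e))
    {x y : ℕ → ℝ} {CM : ℝ} (hCM : 1 ≤ CM) (hCMℓ : CM ≤ Real.log s) (hx0 : ∀ i, 0 ≤ x i) (hy0 : ∀ j, 0 ≤ y j)
    (hxy : ∀ i j, mc s M' b pr c ρ V i * mc s M b' pr' c' ρ W j ≤ CM * (x i * y j))
    {al : ℕ → ℕ → ℝ} (hal : ∀ i j, 0 ≤ al i j) :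
    Crest.Agent.R4P.KindPay36.CO s (K + 1) (1/2+eps1) (1/2+eps2) al x y (blk s M pr M' pr' V W G) where
  x0 := hx0
  y0 := hy0
  al0 := hal
  le := by
    intro i j hij
    have hs0 : (0:ℝ) < s := by exact_mod_cast hB.hs.pos
    have hs1 : (1:ℝ) ≤ s := by exact_mod_cast hB.hs.one_le
    have hℓ0 : 0 < Real.log s := by linarith
    set ℓ := Real.log s with hℓd
    set m₁ := M.factorization s with hm₁
    set m₁' := M'.factorization s with hm₁'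
    have hxy0 : 0 ≤ x i * y j := mul_nonneg (hx0 i) (hy0 j)
    have al0 := hal i j
    have r0 : 0 ≤ (if dst i j = 1 then ℓ^(K + 1) * ((s:ℝ)^(-(1-(1/2+eps2))) *
          (al i j * (x i * y j)^(1/2+eps2))) else 0) := by
      split_ifs <;> positivity
    refine le_trans ?_ (le_add_of_nonneg_right r0)
    have r1 : 0 ≤ ((s:ℝ)^(-(47/100):ℝ))^(dst i j - 1) * (ℓ^(K + 1) *
        ((s:ℝ)^(-(1-1/2):ℝ) * (x i * y j)^(1/2:ℝ) + (s:ℝ)^(-(1-(1/2+eps1))) * (x i * y j)^(1/2+eps1) +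
        (s:ℝ)^(-(1-(1/2+eps2))) * (x i * y j)^(1/2+eps2))) := by positivity
    by_cases hi : i < m₁'
    · have : V.filter (fun q => fe s M' pr q = i) = ∅ := by
        rw [Finset.filter_eq_empty_iff]
        intro q _ h
        unfold fe at h
        omega
      unfold blk
      rw [this, Finset.empty_product, Finset.sum_empty]
      exact r1
    by_cases hj : j < m₁
    · have : W.filter (fun q => fe s M pr' q = j) = ∅ := by
        rw [Finset.filter_eq_empty_iff]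
        intro q _ h
        unfold fe at h
        omega
      unfold blk
      rw [this, Finset.product_empty, Finset.sum_empty]
      exact r1
    obtain ⟨a, ha⟩ := Nat.exists_eq_add_of_le (not_lt.1 hi)
    obtain ⟨a', ha'⟩ := Nat.exists_eq_add_of_le (not_lt.1 hj)
    have hia : a + m₁' = i := by omega
    have hja : a' + m₁ = j := by omega
    have hne : a + m₁' ≠ a' + m₁ := by rw [hia, hja]; exact hij
    have hz : (∑ q ∈ V.filter (fun q => fe s M' pr q = a + m₁'), rd b c ρ q * tq (q / pr)) *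
        (∑ q ∈ W.filter (fun q => fe s M pr' q = a' + m₁), rd b' c' ρ q * tq (q / pr')) ≤ CM * (x i * y j) := by
      rw [hia, hja]; exact hxy i j
    have key := exit_self hbox hs₁ (hB.bx a a') hne (G := G) (hF.fb hne) hz
    rw [← hm₁, ← hm₁', hia, hja] at key
    have hgd : dcy s m₁ m₁' a a' ≤ ((s:ℝ)^(-(47/100):ℝ))^(dst i j - 1) := by
      unfold dcy
      have hdd : dst i j ≤ dex a m₁ a' m₁' := by
        have := dst_le_dex a m₁ a' m₁'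
        rwa [hia, hja] at this
      have hd1 : 1 ≤ dst i j := Nat.one_le_iff_ne_zero.2 fun h => hij (dst_eq_zero.1 h)
      rw [← Real.rpow_natCast, ← Real.rpow_mul hs0.le]
      refine Real.rpow_le_rpow_of_exponent_le hs1 ?_
      rw [Nat.cast_sub hd1]
      have h1 : ((dst i j : ℕ):ℝ) ≤ (dex a m₁ a' m₁' : ℕ) := by exact_mod_cast hdd
      have h2 : (1:ℝ) ≤ (dst i j : ℕ) := by exact_mod_cast hd1
      push_cast
      nlinarith
    have z3 := Z3_scale s hCM hxy0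
    have z2 := Z2_scale s hCM hxy0
    have p3 := Z3_nonneg s hxy0
    have p2 := Z2_nonneg s hxy0
    have hZ : Z3 s (x i * y j) + Z2 s (x i * y j) =
        (s:ℝ)^(-(1-1/2):ℝ) * (x i * y j)^(1/2:ℝ) + (s:ℝ)^(-(1-(1/2+eps1))) * (x i * y j)^(1/2+eps1) +
        (s:ℝ)^(-(1-(1/2+eps2))) * (x i * y j)^(1/2+eps2) := by
      unfold Z3 Z2
      have a1 : -(1-1/2:ℝ) = -(1/2) := by norm_num
      have a2 : -(1-(1/2+eps1)) = -(1/2-eps1) := by ring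
      have a3 : -(1-(1/2+eps2)) = -(1/2-eps2) := by ring
      rw [a1, a2, a3]; ring
    have hCp : 0 ≤ ℓ^K := by positivity
    have e3 : ℓ^(K + 1) = ℓ^K * ℓ := by rw [Real.rpow_add hℓ0, Real.rpow_one]
    refine key.trans ?_
    rw [← hZ, e3]
    calc dcy s m₁ m₁' a a' * (ℓ^K * (Z3 s (CM * (x i * y j)) + Z2 s (CM * (x i * y j))))
        ≤ ((s:ℝ)^(-(47/100):ℝ))^(dst i j - 1) *
          (ℓ^K * (CM * Z3 s (x i * y j) + CM * Z2 s (x i * y j))) := by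
          have q3 := Z3_nonneg s (z := CM * (x i * y j)) (by positivity)
          have q2 := Z2_nonneg s (z := CM * (x i * y j)) (by positivity)
          gcongr
      _ = ((s:ℝ)^(-(47/100):ℝ))^(dst i j - 1) * (ℓ^K * (CM * (Z3 s (x i * y j) + Z2 s (x i * y j)))) := by ring
      _ ≤ ((s:ℝ)^(-(47/100):ℝ))^(dst i j - 1) * (ℓ^K * (ℓ * (Z3 s (x i * y j) + Z2 s (x i * y j)))) := by gcongr
      _ = _ := by ring

/-- **sums of block bounds** -/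
theorem CO.add {b : ℕ} {C₁ C₂ t₁ t₂ : ℝ} {al : ℕ → ℕ → ℝ} {x y : ℕ → ℝ} {φ φ' : ℕ → ℕ → ℝ} (hb : 2 ≤ Real.log b)
    (h : Crest.Agent.R4P.KindPay36.CO b C₁ t₁ t₂ al x y φ) (h' : Crest.Agent.R4P.KindPay36.CO b C₂ t₁ t₂ al x y φ') :
    Crest.Agent.R4P.KindPay36.CO b (max C₁ C₂ + 1) t₁ t₂ al x y (fun i j => φ i j + φ' i j) where
  x0 := h.x0
  y0 := h.y0
  al0 := h.al0
  le := by
    intro i j hij
    have k1 := h.le i j hij
    have k2 := h'.le i j hij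
    have hx := h.x0 i
    have hy := h.y0 j
    have ha := h.al0 i j
    set ℓ := Real.log b with hℓ
    have hℓ0 : 0 < ℓ := by linarith
    have e1 : ℓ^C₁ ≤ ℓ^(max C₁ C₂) := Real.rpow_le_rpow_of_exponent_le (by linarith) (le_max_left _ _)
    have e2 : ℓ^C₂ ≤ ℓ^(max C₁ C₂) := Real.rpow_le_rpow_of_exponent_le (by linarith) (le_max_right _ _)
    have e3 : ℓ^(max C₁ C₂ + 1) = ℓ^(max C₁ C₂) * ℓ := by rw [Real.rpow_add hℓ0, Real.rpow_one]
    set L := ℓ^(max C₁ C₂) with hL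
    have hL0 : 0 < L := by positivity
    set P := ((b:ℝ)^(-(1-1/2):ℝ) * (x i * y j)^(1/2:ℝ) + (b:ℝ)^(-(1-t₁)) * (x i * y j)^t₁ +
        (b:ℝ)^(-(1-t₂)) * (x i * y j)^t₂) with hP
    have hP0 : 0 ≤ P := by positivity
    set D := ((b:ℝ)^(-(47/100):ℝ))^(dst i j - 1) with hD
    have hD0 : 0 ≤ D := by positivity
    set R := (b:ℝ)^(-(1-t₂)) * (al i j * (x i * y j)^t₂) with hR
    have hR0 : 0 ≤ R := by positivity
    rw [e3]
    by_cases hd : dst i j = 1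
    · rw [if_pos hd] at k1 k2 ⊢
      calc φ i j + φ' i j ≤ (D * (ℓ^C₁ * P) + ℓ^C₁ * R) + (D * (ℓ^C₂ * P) + ℓ^C₂ * R) := add_le_add k1 k2
        _ ≤ (D * (L * P) + L * R) + (D * (L * P) + L * R) := by gcongr
        _ = D * ((L * 2) * P) + (L * 2) * R := by ring
        _ ≤ _ := by gcongr
    · rw [if_neg hd] at k1 k2 ⊢
      calc φ i j + φ' i j ≤ (D * (ℓ^C₁ * P) + 0) + (D * (ℓ^C₂ * P) + 0) := add_le_add k1 k2
        _ ≤ (D * (L * P) + 0) + (D * (L * P) + 0) := by gcongr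
        _ = D * ((L * 2) * P) + 0 := by ring
        _ ≤ _ := by gcongr

end self

end Crest.Agent.R4P.ShotBig33
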