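import Crest.Agent.R4P.CzTot_36
import Crest.Agent.R4P.ShotBig_33
import Crest.Agent.R4P.EqNum_32

/-!
R4P (S0004), helper36, group [X]: **the class numbers of a crossing state from the values of the pairs**.

* `fallL` : `FAll` of the exit at `l ≤ b`;
* `ctx_COself` : different classes, the exit at the crossing prime;
* `cz_CO` : **different classes**, any summand below the value of `tot_le`;
* `FEAll_of`, `feallA`, `feallL` : the records of `EqNum_32`;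
* `ctx_EQ`, `ctx_EQself`, `cz_CW` : **equal classes** (alive form).
-/

set_option autoImplicit false
set_option linter.unusedSectionVars false
set_option linter.unusedVariables false
open Finset

namespace Crest.Agent.R4P.CzCO36

open Crest.Agent.R4.Tour104 Crest.Agent.R4.Tour758 Crest.Agent.R4.Avg758 Crest.Agent.R4.Clos758
open Crest.Agent.R4.ClosL758 Crest.Agent.R4.ClosG758 Crest.Agent.R4.ClosR758
open Crest.Agent.R4.Fam464 Crest.Agent.R4P.Cnt588 Crest.Agent.R4P.Walk560 Crest.Agent.R4.Piece464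
open Crest.Agent.R4P.Item758 Crest.Agent.R4P.AvgItem710
open Crest.Agent.R4P.Data758 Crest.Agent.R4P.WalkIT579
open Crest.Agent.R4P.Bld532 (NS All NodeOk Bk)
open Crest.Agent.R4P.Res927 Crest.Agent.R4P.GSt927
open Crest.Agent.R4P.Skel189 (Ctx top Part PartW)
open Crest.Agent.R4.Soft104
open Crest.Agent.R4P.CrsFacts26 Crest.Agent.R4P.AsmX26
open Crest.Agent.R4P.StratN36 (ex)
open Crest.Agent.R4.AvgItem710 (rf)
open Crest.Agent.R4P.LLTot33 (xR yR)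
open Crest.Agent.R4.CrossShot709 (lev)
open Crest.Agent.R4P.NumCls32 Crest.Agent.R4P.StripP33 Crest.Agent.R4P.ShotP33 Crest.Agent.R4P.BrP33
open Crest.Agent.R4P.ShotTot33 (fe mc)
open Crest.Agent.R4.DeepSt579 (tq tq_nonneg tq_mono rd)
open Crest.Agent.R4P.ClsCtx36 Crest.Agent.R4P.PotSum32 Crest.Agent.R4P.ClsSh36 Crest.Agent.R4P.TotC36
open Crest.Agent.R4P.CrossLoc25 (FL VxL)
open Crest.Agent.R4P.SameIx30 (Vm)
open Crest.Agent.R4P.NumTot33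
open Crest.Agent.R4P.StopLeaf28 (LoSt)
open Crest.Agent.R4.CrossLoc709 (SE)
open Crest.Agent.R4.NMW710 (Dq)
open Crest.Agent.R4P.LinkC33
open Crest.Agent.R4P.IvX29 (LkG)
open Crest.Agent.R4P.Link758 (MF)
open Crest.Agent.R4.ClsS (eps1)
open Crest.Agent.R4.ShotG223 (eps2 acc acc_nonneg)
open Crest.Agent.R4P.AccAl31 (alX)
open Crest.Agent.R4P.ShotBig33 (BoxB CO_self)
open Crest.Agent.R4P.EqNum32
open Crest.Agent.R4P.ShotEq32 (ESs)
open Crest.Agent.R4P.KindPay36 (CO CW)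
open Crest.Agent.R4P.KindTab36 (cm)
open Crest.Agent.R4P.CzSum36 Crest.Agent.R4P.CzTot36
open Crest.Agent.R4.HVW560 (dst)
open Crest.Agent.R4P

/-! ### monotonicity -/

section mono
variable {b : ℕ} {C C' s₁ s₂ : ℝ} {al al' : ℕ → ℕ → ℝ} {x y : ℕ → ℝ} {φ φ' : ℕ → ℕ → ℝ}

lemma CO_mono (h : CO b C s₁ s₂ al x y φ) (hφ : ∀ i j, i ≠ j → φ' i j ≤ φ i j) :
    CO b C s₁ s₂ al x y φ' where
  x0 := h.x0
  y0 := h.y0
  al0 := h.al0
  le := fun i j hij => (hφ i j hij).trans (h.le i j hij)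

lemma CW_mono (h : CW b C s₁ s₂ x y φ) (hφ : ∀ i, φ' i i ≤ φ i i) : CW b C s₁ s₂ x y φ' where
  x0 := h.x0
  y0 := h.y0
  le := fun i => (hφ i).trans (h.le i)

lemma CO_monoC (h : CO b C s₁ s₂ al x y φ) (hb : 1 ≤ Real.log b) (hC : C ≤ C') (hal : ∀ i j, al i j ≤ al' i j) :
    CO b C' s₁ s₂ al' x y φ where
  x0 := h.x0
  y0 := h.y0
  al0 := fun i j => (h.al0 i j).trans (hal i j)
  le := fun i j hij => by
    have hx := h.x0 i
    have hy := h.y0 j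
    have ha := h.al0 i j
    have ha' := hal i j
    have e : (Real.log b)^C ≤ (Real.log b)^C' := Real.rpow_le_rpow_of_exponent_le hb hC
    have e0 : 0 ≤ (Real.log b)^C := by positivity
    refine (h.le i j hij).trans (add_le_add ?_ ?_)
    · gcongr
    · split_ifs
      · gcongr
      · exact le_rfl

lemma CW_monoC (h : CW b C s₁ s₂ x y φ) (hb : 1 ≤ Real.log b) (hC : C ≤ C') : CW b C' s₁ s₂ x y φ where
  x0 := h.x0
  y0 := h.y0
  le := fun i => by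
    have hx := h.x0 i
    have hy := h.y0 i
    have hm : 0 ≤ min (x i) (y i) := le_min hx hy
    have e : (Real.log b)^C ≤ (Real.log b)^C' := Real.rpow_le_rpow_of_exponent_le hb hC
    refine (h.le i).trans ?_
    gcongr

end mono

section ctx
variable {N : Skel189.Num} {γ : ℝ} {p0 P₀ : ℕ} {X : Ctx N γ p0 P₀} {j₀ : X.c.Lam} {Q' : NS → IT → Prop}
  {b : ℕ} {z : X.Sta} {v v' : NS} {σ σ' : IT} {Qp : NS → IT → Prop} {CL : ℝ}

/-! ### exits at `l ≤ b` -/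

/-- the exit summand against the value at the letters of the exit -/
lemma fx_le_UV (hρ : ∀ q, 0 < X.c.rr q) {T : ℝ} {l : ℕ}
    (hmt : ∀ q ∈ σ.items, ∀ l ∈ σ.mt q, p0 < l) (hmt' : ∀ q ∈ σ'.items, ∀ l ∈ σ'.mt q, p0 < l)
    {PP : ℕ × ℕ → Prop} {e : ℕ × ℕ} (hq : e.1 ∈ σ.items) (hr : e.2 ∈ σ'.items) :
    fxz X Qp T z v v' σ σ' l e ≤ (v.B:ℝ) * v'.B *
        UV (LoSt T p0 X.c.rr (xR z.M v.A z.M' v'.A) (yR z.M v.A z.M' v'.A))
        (fun e => p0 < l ∧ Px X Qp z v v' l e) PP X.c.rr X.c.γ (SE z.M (v.B * l) v.A z.M' (v'.B * l) v'.A e) e := by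
  have hSE := SE_mul l z.M v.B v.A z.M' v'.B v'.A e
  have hU0 : 0 ≤ UV (LoSt T p0 X.c.rr (xR z.M v.A z.M' v'.A) (yR z.M v.A z.M' v'.A))
      (fun e => p0 < l ∧ Px X Qp z v v' l e) PP X.c.rr X.c.γ (SE z.M (v.B * l) v.A z.M' (v'.B * l) v'.A e) e :=
    UV_nonneg hρ _ _
  unfold CzTot36.fxz TotC36.fx
  refine mul_le_mul_of_nonneg_left ?_ (by positivity)
  by_cases hm : l ∈ σ.mt e.1 ∪ σ'.mt e.2
  · rw [if_pos hm]
    have hlp : p0 < l := by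
      rcases Finset.mem_union.1 hm with hm | hm
      · exact hmt _ hq _ hm
      · exact hmt' _ hr _ hm
    unfold CrossLoc25.VxL
    by_cases hP : Px X Qp z v v' l e
    · rw [if_pos hP]
      unfold TotC36.UV
      rw [if_pos ⟨hlp, hP⟩, hSE]
      exact le_add_of_nonneg_right (SameIx30.Vm_nonneg hρ _ _ _)
    · rw [if_neg hP]; exact hU0
  · rw [if_neg hm]; exact hU0

/-- the exit summand, letters of the exit -/
lemma fx_scale (hρ : ∀ q, 0 < X.c.rr q) {T K : ℝ} (hK0 : 0 ≤ K) {l : ℕ}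
    (hmt : ∀ q ∈ σ.items, ∀ l ∈ σ.mt q, p0 < l) (hmt' : ∀ q ∈ σ'.items, ∀ l ∈ σ'.mt q, p0 < l)
    {PP : ℕ × ℕ → Prop} {e : ℕ × ℕ} (hq : e.1 ∈ σ.items) (hr : e.2 ∈ σ'.items) :
    (l:ℝ)^2 * (K * fxz X Qp T z v v' σ σ' l e) ≤ K * (((v.B * l : ℕ):ℝ) * ((v'.B * l : ℕ):ℝ) *
        UV (LoSt T p0 X.c.rr (xR z.M v.A z.M' v'.A) (yR z.M v.A z.M' v'.A))
        (fun e => p0 < l ∧ Px X Qp z v v' l e) PP X.c.rr X.c.γ (SE z.M (v.B * l) v.A z.M' (v'.B * l) v'.A e) e) := by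
  have key := fx_le_UV (Qp := Qp) (T := T) (z := z) (v := v) (v' := v') (l := l) (PP := PP) hρ hmt hmt' hq hr
  have hl2 : (0:ℝ) ≤ (l:ℝ)^2 := by positivity
  calc _ ≤ (l:ℝ)^2 * (K * ((v.B:ℝ) * v'.B *
        UV (LoSt T p0 X.c.rr (xR z.M v.A z.M' v'.A) (yR z.M v.A z.M' v'.A))
        (fun e => p0 < l ∧ Px X Qp z v v' l e) PP X.c.rr X.c.γ (SE z.M (v.B * l) v.A z.M' (v'.B * l) v'.A e) e)) :=
          mul_le_mul_of_nonneg_left (mul_le_mul_of_nonneg_left key hK0) hl2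
    _ = _ := by push_cast; ring

/-- **`FAll` of the exit at `l ≤ b`** -/
theorem fallL {C CT cl T K : ℝ} (h : CZ X j₀ Q' b z v v' σ σ') (hC : CF X CL b z v v' σ σ')
    (hn : Nm X Qp cl b) (hρ : ∀ q, 0 < X.c.rr q) (hl : 8 ≤ Real.log b)
    (hT : T ≤ (Real.log b)^CT) (hK0 : 0 ≤ K) (hK : K ≤ (Real.log b)^C) {l : ℕ} (lp : l.Prime)
    (lb : l ≤ b) {a₀ : ℕ} (ha : aL l b v.B v'.B * l ≤ a₀) :
    FAll (C+1) CT cl b z.M (v.B * l) v.A 1 z.M' (v'.B * l) v'.A 1 a₀ γ ((l:ℝ) * (v.B * γ))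
      ((l:ℝ) * (v'.B * γ)) X.c.rr (SI X σ.items) (SI X σ'.items)
      (fun e => (l:ℝ)^2 * (K * fxz X Qp T z v v' σ σ' l e)) := by
  have hax := ax_raise (CF.ax hC hρ) lp.pos
  have e1 : ∀ B : ℕ, (l:ℝ) * ((B:ℝ) * γ) = ((B * l : ℕ) : ℝ) * γ := fun B => by push_cast; ring
  rw [e1, e1]
  suffices hs : FAll (C+1) CT cl b z.M (v.B * l) v.A 1 z.M' (v'.B * l) v'.A 1 a₀ X.c.γ (((v.B * l : ℕ) : ℝ) * X.c.γ)
      (((v'.B * l : ℕ) : ℝ) * X.c.γ) X.c.rr (SI X σ.items) (SI X σ'.items)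
      (fun e => (l:ℝ)^2 * (K * fxz X Qp T z v v' σ σ' l e)) by
    rw [X.hγ] at hs
    exact hs
  refine FAll_of (P := fun e => p0 < l ∧ Px X Qp z v v' l e) (PP := fun _ => True)
    (Lo := LoSt T p0 X.c.rr (xR z.M v.A z.M' v'.A) (yR z.M v.A z.M' v'.A)) hax hl hK0 hK ?_
    (fun e _ h1 => LoSt_LoD hT h1) ?_ ?_
  · intro e he
    exact fx_scale hρ hK0 (fun q hq l hl => (cs_mt h.L hq l hl).2.1) (fun q hq l hl => (cs_mt h.R hq l hl).2.1)
      (mem_SI.1 (Finset.mem_product.1 he).1).1 (mem_SI.1 (Finset.mem_product.1 he).2).1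
  · rintro e he ⟨l2, l4⟩
    have h1 := (mem_SI.1 (Finset.mem_product.1 he).1).1
    exact ctx_relX h h1 l4
  · rintro e he ⟨l2, l4⟩ hne hFS
    have h1 := (mem_SI.1 (Finset.mem_product.1 he).1).1
    have h2 := (mem_SI.1 (Finset.mem_product.1 he).2).1
    have h3 := (ctx_linkX h hn.mf lp lb hn.bt h1 h2 l4 hn.lv le_rfl (hn.thr l l2 lb) (hn.lam l) hFS).1 hne
    have h4 := FLow.mono_a h3 ha (AX.Dq0 hax he).le
    simp only [Nat.cast_one, div_one] at h4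
    exact h4

/-! ### different classes, the exit at the crossing prime -/

/-- the transport of the class masses -/
theorem ctx_COself {C0 CT cl K : ℝ} {s₁ : ℕ} (hbox : BoxB C0 CT cl CL s₁ K) (hs₁ : s₁ ≤ b)
    (hℓ : 2 ≤ Real.log b) (hρ : ∀ q, 0 < X.c.rr q) (h : CF X CL b z v v' σ σ') (hc : 0 ≤ v.c) (hc' : 0 ≤ v'.c)
    {G : ℕ × ℕ → ℝ} {θ θ' : ℝ}
    (hF : FAll C0 CT cl b z.M (v.B * b) v.A 1 z.M' (v'.B * b) v'.A 1 (b * b) γ θ θ' X.c.rr (SI X σ.items)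
      (SI X σ'.items) (fun e => (b:ℝ)^2 * G e)) {al : ℕ → ℕ → ℝ} (hal : ∀ i j, 0 ≤ al i j) :
    CO b (K + 1) (1/2+eps1) (1/2+eps2) al
      (cm (w X.ψ) v.c b (ex b v.B) σ.items) (cm (w X.ψ) v'.c b (ex b v'.B) σ'.items)
      (blkE b v.B v'.B (SI X σ.items) (SI X σ'.items) G) := by
  have cm0 : ∀ (u : NS) (τ : IT), 0 ≤ u.c → ∀ i, 0 ≤ cm (w X.ψ) u.c b (ex b u.B) τ.items i := fun u τ h i =>
    mul_nonneg h (Bld532.Ws_nonneg X.hW _)
  have key := CO_self (V := SI X σ.items) (W := SI X σ'.items) (G := G)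
    (θ := θ) (θ' := θ') hbox hs₁ hℓ (CF.ax h hρ) hF
    (x := fun a => cm (w X.ψ) v.c b (ex b v.B) σ.items
      (a + (ex b v.A + ex b v.B) - z.M'.factorization b))
    (y := fun a => cm (w X.ψ) v'.c b (ex b v'.B) σ'.items
      (a + (ex b v'.A + ex b v'.B) - z.M.factorization b))
    (CM := 1) le_rfl (by linarith) (fun i => cm0 v σ hc _) (fun i => cm0 v' σ' hc' _)
    (fun i j => by
      rw [one_mul]
      refine mul_le_mul (mc_le h.L hc i) (mc_le h.R hc' j) ?_ (cm0 v σ hc _)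
      exact (CF.ax h hρ).bx 0 0 |>.y0 _) (al := fun _ _ => 0) (fun _ _ => le_rfl)
  refine CO_shift key (cm0 v σ hc) (cm0 v' σ' hc') hal ?_
  intro i j hij
  rcases cls_shift h (V := SI X σ.items) (W := SI X σ'.items) (fun q hq => (mem_SI.1 hq).1)
    (fun q hq => (mem_SI.1 hq).1) i j with h1 | ⟨a, a', e1, e2, e3, e4, e5⟩
  · left
    unfold blkE
    rcases h1 with h1 | h1
    · rw [h1, Finset.empty_product, Finset.sum_empty]
    · rw [h1, Finset.product_empty, Finset.sum_empty]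
  · right
    refine ⟨a, a', fun he => hij (e3.1 he), e4, ?_, ?_, ?_, hal i j⟩
    · unfold blkE PotSum32.blk
      rw [filter_fe (N := z.M') (fun q hq => h.L.q0 q (mem_SI.1 hq).1) e1,
        filter_fe (N := z.M) (fun q hq => h.R.q0 q (mem_SI.1 hq).1) e2]
    · show cm _ _ _ _ _ (a + (ex b v.A + ex b v.B) - z.M'.factorization b) = _
      congr 1
      omega
    · show cm _ _ _ _ _ (a' + (ex b v'.A + ex b v'.B) - z.M.factorization b) = _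
      congr 1
      omega

lemma mem_blk {b B B' i j : ℕ} {V W : Finset ℕ} {e : ℕ × ℕ}
    (he : e ∈ (V.filter (fun q => ec b B q = i)) ×ˢ (W.filter (fun q => ec b B' q = j))) :
    e ∈ V ×ˢ W ∧ ec b B e.1 = i ∧ ec b B' e.2 = j := by
  obtain ⟨h1, h2⟩ := Finset.mem_product.1 he
  obtain ⟨h3, h4⟩ := Finset.mem_filter.1 h1
  obtain ⟨h5, h6⟩ := Finset.mem_filter.1 h2
  exact ⟨Finset.mk_mem_product h3 h5, h4, h6⟩

/-- the bound of a pair -/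
noncomputable def PB (X : Ctx N γ p0 P₀) (Qp : NS → IT → Prop) (T KA K1 : ℝ) (b : ℕ) (z : X.Sta)
    (v v' : NS) (σ σ' : IT) (e : ℕ × ℕ) : ℝ :=
  KA * ((v.B:ℝ) * v'.B * Uz X Qp T b z v v' e) +
      ∑ l ∈ (Finset.range b).filter Nat.Prime, K1 * fxz X Qp T z v v' σ σ' l e +
      K1 * fxz X Qp T z v v' σ σ' b e

lemma alX_nn {A e : ℝ} (b B : ℕ) : 0 ≤ alX A γ e b B := AccAl31.alX_nonneg A γ e b B

/-- **THE CLASS NUMBERS, different classes** -/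
theorem cz_CO {C CT cl K K' A T KA K1 : ℝ} {s₁ : ℕ} (hbox : Box (C+1) CT cl CL s₁ K)
    (hboxB : BoxB (C+1) CT cl CL s₁ K') (hs₁ : s₁ ≤ b)
    (hsl : (200 * Real.log b)^(3:ℝ) ≤ (b:ℝ)^(1:ℝ)) (hl : 8 ≤ Real.log b) (hA : 0 ≤ A)
    (h : CZ X j₀ Q' b z v v' σ σ') (hC : CF X CL b z v v' σ σ')
    (hn : Nm X Qp cl b) (hρ : ∀ q, 0 < X.c.rr q) (hc : 0 ≤ v.c) (hc' : 0 ≤ v'.c)
    (hT : T ≤ (Real.log b)^CT) (hKA0 : 0 ≤ KA) (hKA : KA ≤ (Real.log b)^C) (hK0 : 0 ≤ K1)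
    (hK : K1 ≤ (Real.log b)^C)
    (hm : ∀ q ∈ X.S', ∑ l ∈ X.c.t.mt q, (l:ℝ)^(-(11/12):ℝ) ≤ 1) {F : ℕ × ℕ → ℝ}
    (hF : ∀ e ∈ SI X σ.items ×ˢ SI X σ'.items, ec b v.B e.1 ≠ ec b v'.B e.2 →
      F e ≤ PB X Qp T KA K1 b z v v' σ σ' e) :
    CO b (max (K + A*(6/1000) + 3) (K' + 1) + 1) (1/2+eps1) (1/2+eps2)
      (fun _ _ => alX A γ (1/(1-(1/2+eps2))) b v.B + alX A γ (1/(1-(1/2+eps2))) b v'.B)
      (cm (w X.ψ) v.c b (ex b v.B) σ.items) (cm (w X.ψ) v'.c b (ex b v'.B) σ'.items)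
      (blkE b v.B v'.B (SI X σ.items) (SI X σ'.items) F) := by
  have hb0 := h.bp.pos
  have hUF : ∀ e ∈ SI X σ.items ×ˢ SI X σ'.items, KA * ((v.B:ℝ) * v'.B * Uz X Qp T b z v v' e) ≤
      KA * ((v.B:ℝ) * v'.B *
      UV (LoSt T p0 X.c.rr (xR z.M v.A z.M' v'.A) (yR z.M v.A z.M' v'.A)) (PV X Qp b z v v')
        (PV X Qp b z v v') X.c.rr X.c.γ (SEz z v v' e) e) := fun e _ => le_rfl
  have hFA := fallA (C := C) (CT := CT) h hC hn hρ hl hT hKA0 hKA hUF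
  rw [X.hγ] at hFA
  have k1 := ctx_CO (C0 := C+1) (A := A) hbox hs₁ hsl (by linarith) hA (a0_pos hb0 v.B v'.B)
    (a0_le hb0 v.B v'.B) hρ hC hc hc' (m := σ.mt) (m' := σ'.mt)
    (fun q hq => cs_mt_sum h.L (mem_SI.1 hq).1 (hm q (mem_SI.1 hq).2))
    (fun q hq => cs_mt_sum h.R (mem_SI.1 hq).1 (hm q (mem_SI.1 hq).2))
    (T := (Finset.range b).filter Nat.Prime)
    (fun l hl => ⟨(Finset.mem_filter.1 hl).2, (Finset.mem_range.1 (Finset.mem_filter.1 hl).1).le⟩)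
    (FX := fun l e => K1 * fxz X Qp T z v v' σ σ' l e)
    (FA := fun e => KA * ((v.B:ℝ) * v'.B * Uz X Qp T b z v v' e))
    (θ := v.B * γ) (θ' := v'.B * γ)
    (fun l _ e _ h1 h2 => by
      unfold CzTot36.fxz TotC36.fx
      rw [if_neg (by rw [Finset.mem_union]; tauto), mul_zero, mul_zero]) hFA
    (fun l hl' => by
      obtain ⟨l1, l2⟩ := Finset.mem_filter.1 hl'
      have l3 := Finset.mem_range.1 l1
      exact fallL h hC hn hρ hl hT hK0 hK l2 l3.le (by rw [aL_lt l3, one_mul]))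
    (al := fun _ _ => alX A γ (1/(1-(1/2+eps2))) b v.B + alX A γ (1/(1-(1/2+eps2))) b v'.B)
    (fun i j => alf_le h.bp v.B v'.B i j)
  have k2 := ctx_COself (C0 := C+1) hboxB hs₁ (by linarith) hρ hC hc hc'
    (G := fun e => K1 * fxz X Qp T z v v' σ σ' b e)
    (fallL h hC hn hρ hl hT hK0 hK h.bp le_rfl (by
      have := aL_le (B := v.B) (B' := v'.B) (l := b) hb0
      have h2 := a0_le hb0 v.B v'.B
      unfold CzSum36.a0 at h2
      exact Nat.mul_le_mul_right b (this.trans h2)))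
    (al := fun _ _ => alX A γ (1/(1-(1/2+eps2))) b v.B + alX A γ (1/(1-(1/2+eps2))) b v'.B)
    (fun _ _ => add_nonneg (alX_nn _ _) (alX_nn _ _))
  refine CO_mono (ShotBig33.CO.add (by linarith) k1 k2) fun i j hij => ?_
  unfold blkE
  rw [← Finset.sum_add_distrib]
  refine Finset.sum_le_sum fun e he => ?_
  obtain ⟨h1, h2, h3⟩ := mem_blk he
  exact hF e h1 (by rw [h2, h3]; exact hij)

/-! ### equal classes -/

/-- **`FEAll`** from the value at the letters -/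
theorem FEAll_of {Lo : ℝ × ℝ → ℕ × ℕ → Prop} {P PP : ℕ × ℕ → Prop} {ρ : ℕ → ℝ} {γ K C CT cl : ℝ}
    {s M b pr M' b' pr' a₀ : ℕ} {V W : Finset ℕ} {F : ℕ × ℕ → ℝ} {dead : Prop}
    (hX : AX CL s M b pr 1 M' b' pr' 1 ρ V W) (hl : 8 ≤ Real.log s) (hK0 : 0 ≤ K)
    (hK : K ≤ (Real.log s)^C)
    (hF : ∀ e ∈ V ×ˢ W, F e ≤ K * ((b:ℝ) * b' * UV Lo P PP ρ γ (SE M b pr M' b' pr' e) e))
    (hLo : ∀ e ∈ V ×ˢ W, Lo (SE M b pr M' b' pr' e) e → LoD ((Real.log s)^CT) (Dq ρ M b pr 1 M' b' pr' 1)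
      (xR M pr M' pr') (yR M pr M' pr') e)
    (hrel : ∀ e ∈ V ×ˢ W, P e → RelI γ ρ M b pr 1 M' b' pr' 1 e)
    (hfs : ∀ e ∈ V ×ˢ W, P e → fe s M' pr e.1 = fe s M pr' e.2 →
      FSs s γ ρ (lev cl s) M b pr 1 M' b' pr' 1 ((e.1 / pr).factorization s) ((e.2 / pr').factorization s) e →
      1 < 2 * ((a₀ * rf (itm s pr e.1) (st s M) * rf (itm s pr' e.2) (st s M') : ℕ) : ℝ)^10 *
        Dq ρ M b pr 1 M' b' pr' 1 e)
    (hes : dead → ∀ e ∈ V ×ˢ W, fe s M' pr e.1 = fe s M pr' e.2 → Dq ρ M b pr 1 M' b' pr' 1 e ≤ 1/2^(lev cl s) →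
      0 < F e → ESs s γ ρ M b pr 1 M' b' pr' 1 ((e.1 / pr).factorization s) ((e.2 / pr').factorization s) e →
      1 < 2 * ((a₀ * rf (itm s pr e.1) (st s M) * rf (itm s pr' e.2) (st s M') : ℕ) : ℝ)^10 *
        Dq ρ M b pr 1 M' b' pr' 1 e) :
    FEAll dead (C+1) cl s M b pr 1 M' b' pr' 1 a₀ γ ρ V W F := by
  obtain ⟨k1, k2, k3⟩ := sizes (CT := CT) hX hl hK0 hK hF hLo
  have hL0 : 0 ≤ (Real.log s)^(C+1) := by
    have := Real.log_natCast_nonneg s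
    positivity
  have hrd : ∀ b q : ℕ, 0 ≤ rd b 1 ρ q := fun b q => by
    unfold rd
    have := hX.hρ q
    positivity
  refine ⟨fun e he _ => k1 e he, fun e he _ h1 => ?_, fun e he _ _ h0 => hrel e he (k3 e he h0),
    fun e he heq _ h0 hFS => hfs e he (k3 e he h0) heq hFS, hes⟩
  rcases k2 e he h1 with h2 | ⟨-, h2⟩
  · refine h2.trans (mul_le_mul_of_nonneg_left ?_ hL0)
    exact div_le_self (mul_nonneg (hrd _ _) (hrd _ _)) h1.le
  · exact h2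

/-- **`FEAll` at the letters of the state** -/
theorem feallA {C CT cl T K : ℝ} {dead : Prop} (h : CZ X j₀ Q' b z v v' σ σ') (hC : CF X CL b z v v' σ σ')
    (hn : Nm X Qp cl b) (hρ : ∀ q, 0 < X.c.rr q) (hl : 8 ≤ Real.log b)
    (hmin : z.M.factorization b = 0 ∨ z.M'.factorization b = 0)
    (hT : T ≤ (Real.log b)^CT) (hK0 : 0 ≤ K) (hK : K ≤ (Real.log b)^C) {F : ℕ × ℕ → ℝ}
    (hF : ∀ e ∈ SI X σ.items ×ˢ SI X σ'.items, F e ≤ K * ((v.B:ℝ) * v'.B * Uz X Qp T b z v v' e))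
    (hes : dead → ∀ e ∈ SI X σ.items ×ˢ SI X σ'.items, fe b z.M' v.A e.1 = fe b z.M v'.A e.2 →
      Dq X.c.rr z.M v.B v.A 1 z.M' v'.B v'.A 1 e ≤ 1/2^(lev cl b) → 0 < F e →
      ESs b X.c.γ X.c.rr z.M v.B v.A 1 z.M' v'.B v'.A 1 ((e.1 / v.A).factorization b)
        ((e.2 / v'.A).factorization b) e →
      1 < 2 * ((a0 b v.B v'.B * rf (itm b v.A e.1) (st b z.M) * rf (itm b v'.A e.2) (st b z.M') : ℕ) : ℝ)^10 *
        Dq X.c.rr z.M v.B v.A 1 z.M' v'.B v'.A 1 e) :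
    FEAll dead (C+1) cl b z.M v.B v.A 1 z.M' v'.B v'.A 1 (a0 b v.B v'.B) γ X.c.rr (SI X σ.items)
      (SI X σ'.items) F := by
  suffices hs : FEAll dead (C+1) cl b z.M v.B v.A 1 z.M' v'.B v'.A 1 (a0 b v.B v'.B) X.c.γ X.c.rr (SI X σ.items)
      (SI X σ'.items) F by
    rw [X.hγ] at hs
    exact hs
  refine FEAll_of (P := PV X Qp b z v v') (PP := PV X Qp b z v v') (CF.ax hC hρ) hl hK0 hK hF
    (fun e _ h1 => LoSt_LoD hT h1) ?_ ?_ hes
  · rintro e he ⟨l, l1, l2, l3, l4⟩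
    have h1 := (mem_SI.1 (Finset.mem_product.1 he).1).1
    exact ctx_rel h h1 l4
  · rintro e he ⟨l, l1, l2, l3, l4⟩ heq hFS
    have h1 := (mem_SI.1 (Finset.mem_product.1 he).1).1
    have h2 := (mem_SI.1 (Finset.mem_product.1 he).2).1
    have h3 := (ctx_link h hn.mf l1 l3 hn.bt h1 h2 l4 hn.lv le_rfl (hn.thr l l2 l3) (hn.lam l) hFS).2
      (ShotExc32.dex_zero heq hmin)
    refine lt_of_lt_of_le h3 ?_
    have h4 : aL l b v.B v'.B ≤ a0 b v.B v'.B := aL_le h.bp.pos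
    have h5 := (AX.Dq0 (CF.ax hC hρ) he).le
    have h6 : ((aL l b v.B v'.B * rf (itm b v.A e.1) (st b z.M) * rf (itm b v'.A e.2) (st b z.M') : ℕ) : ℝ) ≤
        ((a0 b v.B v'.B * rf (itm b v.A e.1) (st b z.M) * rf (itm b v'.A e.2) (st b z.M') : ℕ) : ℝ) := by
      exact_mod_cast Nat.mul_le_mul_right _ (Nat.mul_le_mul_right _ h4)
    gcongr

/-- **`FEAll` of the exit at `l ≤ b`**, alive form -/
theorem feallL {C CT cl T K : ℝ} (h : CZ X j₀ Q' b z v v' σ σ') (hC : CF X CL b z v v' σ σ')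
    (hn : Nm X Qp cl b) (hρ : ∀ q, 0 < X.c.rr q) (hl : 8 ≤ Real.log b)
    (hmin : z.M.factorization b = 0 ∨ z.M'.factorization b = 0)
    (hT : T ≤ (Real.log b)^CT) (hK0 : 0 ≤ K) (hK : K ≤ (Real.log b)^C) {l : ℕ} (lp : l.Prime)
    (lb : l ≤ b) {a₀ : ℕ} (ha : aL l b v.B v'.B * l ≤ a₀) :
    FEAll False (C+1) cl b z.M (v.B * l) v.A 1 z.M' (v'.B * l) v'.A 1 a₀ γ X.c.rr (SI X σ.items) (SI X σ'.items)
      (fun e => (l:ℝ)^2 * (K * fxz X Qp T z v v' σ σ' l e)) := by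
  have hax := ax_raise (CF.ax hC hρ) lp.pos
  suffices hs : FEAll False (C+1) cl b z.M (v.B * l) v.A 1 z.M' (v'.B * l) v'.A 1 a₀ X.c.γ X.c.rr (SI X σ.items)
      (SI X σ'.items) (fun e => (l:ℝ)^2 * (K * fxz X Qp T z v v' σ σ' l e)) by
    rw [X.hγ] at hs
    exact hs
  refine FEAll_of (P := fun e => p0 < l ∧ Px X Qp z v v' l e) (PP := fun _ => True)
    (Lo := LoSt T p0 X.c.rr (xR z.M v.A z.M' v'.A) (yR z.M v.A z.M' v'.A)) hax hl hK0 hK ?_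
    (fun e _ h1 => LoSt_LoD hT h1) ?_ ?_ (fun hd => absurd hd id)
  · intro e he
    exact fx_scale hρ hK0 (fun q hq l hl => (cs_mt h.L hq l hl).2.1) (fun q hq l hl => (cs_mt h.R hq l hl).2.1)
      (mem_SI.1 (Finset.mem_product.1 he).1).1 (mem_SI.1 (Finset.mem_product.1 he).2).1
  · rintro e he ⟨l2, l4⟩
    have h1 := (mem_SI.1 (Finset.mem_product.1 he).1).1
    exact ctx_relX h h1 l4
  · rintro e he ⟨l2, l4⟩ heq hFS
    have h1 := (mem_SI.1 (Finset.mem_product.1 he).1).1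
    have h2 := (mem_SI.1 (Finset.mem_product.1 he).2).1
    have h3 := (ctx_linkX h hn.mf lp lb hn.bt h1 h2 l4 hn.lv le_rfl (hn.thr l l2 lb) (hn.lam l) hFS).2
      (ShotExc32.dex_zero heq hmin)
    refine lt_of_lt_of_le h3 ?_
    have h5 := (AX.Dq0 hax he).le
    have h6 : ((aL l b v.B v'.B * l * rf (itm b v.A e.1) (st b z.M) * rf (itm b v'.A e.2) (st b z.M') : ℕ) : ℝ) ≤
        ((a₀ * rf (itm b v.A e.1) (st b z.M) * rf (itm b v'.A e.2) (st b z.M') : ℕ) : ℝ) := by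
      exact_mod_cast Nat.mul_le_mul_right _ (Nat.mul_le_mul_right _ ha)
    gcongr

lemma ZE_self {σ : ℝ} (hσ : 0 ≤ σ) {s : ℕ} (hs : 1 ≤ s) {z : ℝ} (hz : 0 ≤ z) :
    ZE σ (s * s) ((s:ℝ) * s * z) ≤ (s:ℝ)^2 * ZE σ 1 z := by
  have he1 : eps1 = 1/1000 := rfl
  have he2 : eps2 = 1/4000 := rfl
  have hs1 : (1:ℝ) ≤ s := by exact_mod_cast hs
  have hs0 : (0:ℝ) < s := by linarith
  have hss : (1:ℝ) ≤ (s:ℝ) * s := by nlinarith
  have pw : ∀ t : ℝ, t ≤ 1 → ((s:ℝ) * s * z)^t ≤ (s:ℝ)^2 * z^t := fun t ht => by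
    rw [Real.mul_rpow (by positivity) hz]
    refine mul_le_mul_of_nonneg_right ?_ (Real.rpow_nonneg hz _)
    calc ((s:ℝ) * s)^t ≤ ((s:ℝ) * s)^(1:ℝ) := Real.rpow_le_rpow_of_exponent_le hss ht
      _ = (s:ℝ)^2 := by rw [Real.rpow_one]; ring
  have h3 : (((s * s : ℕ)):ℝ)^(6/1000:ℝ) * ((s:ℝ) * s * z)^(1/2+eps2) ≤ (s:ℝ)^2 * z^(1/2+eps2) := by
    rw [Real.mul_rpow (by positivity) hz, Nat.cast_mul, ← mul_assoc, ← Real.rpow_add (by positivity)]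
    refine mul_le_mul_of_nonneg_right ?_ (Real.rpow_nonneg hz _)
    calc ((s:ℝ) * s)^(6/1000 + (1/2+eps2) : ℝ) ≤ ((s:ℝ) * s)^(1:ℝ) :=
          Real.rpow_le_rpow_of_exponent_le hss (by rw [he2]; norm_num)
      _ = (s:ℝ)^2 := by rw [Real.rpow_one]; ring
  have h1 := pw (1/2+eps1) (by rw [he1]; norm_num)
  have h2 := pw (1/2) (by norm_num)
  have h4 : (s:ℝ) * s * z = (s:ℝ)^2 * z := by ring
  unfold ZE
  rw [Nat.cast_one, Real.one_rpow]
  calc _ ≤ (s:ℝ)^2 * z^(1/2+eps1) + σ * ((s:ℝ)^2 * z^(1/2:ℝ)) + (s:ℝ)^2 * z^(1/2+eps2) + (s:ℝ)^2 * z := by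
        rw [← h4]
        gcongr
    _ = _ := by ring

/-- **the class numbers, equal classes**, at a crossing state -/
theorem ctx_EQ {dead : Prop} {C0 cl K Cm : ℝ} {s₁ : ℕ} (hbox : BoxE dead C0 cl CL s₁ K) (hs₁ : s₁ ≤ b)
    (hℓ : 4 ≤ Real.log b) (hmin : z.M.factorization b = 0 ∨ z.M'.factorization b = 0)
    {a₀ : ℕ} (ha₀ : 1 ≤ a₀) (hρ : ∀ q, 0 < X.c.rr q)
    (h : CF X CL b z v v' σ σ') (hc : 0 ≤ v.c) (hc' : 0 ≤ v'.c)
    {m m' : ℕ → Finset ℕ} (hm : ∀ q ∈ SI X σ.items, ∑ l ∈ m q, (l:ℝ)^(-(11/12):ℝ) ≤ 1)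
    (hm' : ∀ q ∈ SI X σ'.items, ∑ l ∈ m' q, (l:ℝ)^(-(11/12):ℝ) ≤ 1) (hCm : 0 ≤ Cm)
    (hN : ∀ q ∈ SI X σ.items, ((m q).card : ℝ) ≤ (Real.log b)^Cm)
    (hN' : ∀ q ∈ SI X σ'.items, ((m' q).card : ℝ) ≤ (Real.log b)^Cm)
    {T : Finset ℕ} (hT : ∀ l ∈ T, l.Prime ∧ l ≤ b) {FX : ℕ → ℕ × ℕ → ℝ} {FA : ℕ × ℕ → ℝ}
    (h0 : ∀ l ∈ T, ∀ e ∈ SI X σ.items ×ˢ SI X σ'.items, l ∉ m e.1 → l ∉ m' e.2 → FX l e ≤ 0)
    (hFA : FEAll dead C0 cl b z.M v.B v.A 1 z.M' v'.B v'.A 1 a₀ γ X.c.rr (SI X σ.items) (SI X σ'.items) FA)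
    (hF : ∀ l ∈ T, FEAll dead C0 cl b z.M (v.B * l) v.A 1 z.M' (v'.B * l) v'.A 1 l γ
      X.c.rr (SI X σ.items) (SI X σ'.items) (fun e => (l:ℝ)^2 * FX l e)) (i : ℕ) :
    blkE b v.B v'.B (SI X σ.items) (SI X σ'.items) (fun e => FA e + ∑ l ∈ T, FX l e) i i ≤
      (Real.log b)^(K + Cm + 3) * ZE (sg dead) a₀ (cm (w X.ψ) v.c b (ex b v.B) σ.items i *
        cm (w X.ψ) v'.c b (ex b v'.B) σ'.items i) := by
  have cm0 : ∀ (u : NS) (τ : IT), 0 ≤ u.c → ∀ i, 0 ≤ cm (w X.ψ) u.c b (ex b u.B) τ.items i := fun u τ h i =>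
    mul_nonneg h (Bld532.Ws_nonneg X.hW _)
  have hz0 := mul_nonneg (cm0 v σ hc i) (cm0 v' σ' hc' i)
  have r0 : 0 ≤ (Real.log b)^(K + Cm + 3) * ZE (sg dead) a₀ (cm (w X.ψ) v.c b (ex b v.B) σ.items i *
        cm (w X.ψ) v'.c b (ex b v'.B) σ'.items i) :=
    mul_nonneg (by positivity) (ZE_nonneg (sg_nonneg dead) _ hz0)
  rcases cls_shift h (V := SI X σ.items) (W := SI X σ'.items) (fun q hq => (mem_SI.1 hq).1)
    (fun q hq => (mem_SI.1 hq).1) i i with h1 | ⟨a, a', e1, e2, e3, e4, e5⟩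
  · refine le_trans (le_of_eq ?_) r0
    unfold blkE
    rcases h1 with h1 | h1
    · rw [h1, Finset.empty_product, Finset.sum_empty]
    · rw [h1, Finset.product_empty, Finset.sum_empty]
  · have ea : a = a' := e3.2 rfl
    subst ea
    have key := EQ_of (V := SI X σ.items) (W := SI X σ'.items) (m := m) (m' := m') hbox hs₁ hℓ ha₀ hmin
      (CF.ax h hρ) hm hm' hCm hN hN' hT h0 hFA hF (CM := 1) le_rfl (by linarith) (i := a) hz0 (by
        rw [one_mul]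
        refine (mul_le_mul (mc_le h.L hc a) (mc_le h.R hc' a) ?_ (cm0 v σ hc _)).trans (le_of_eq ?_)
        · exact (CF.ax h hρ).bx 0 0 |>.y0 _
        · congr 1 <;> congr 1 <;> omega)
    refine le_trans (le_of_eq ?_) key
    unfold blkE PotSum32.blk
    rw [filter_fe (N := z.M') (fun q hq => h.L.q0 q (mem_SI.1 hq).1) e1,
      filter_fe (N := z.M) (fun q hq => h.R.q0 q (mem_SI.1 hq).1) e2]

/-- **equal classes, the exit at the crossing prime** -/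
theorem ctx_EQself {dead : Prop} {C0 cl K : ℝ} {s₁ : ℕ} (hbox : BoxE dead C0 cl CL s₁ K) (hs₁ : s₁ ≤ b)
    (hℓ : 4 ≤ Real.log b) (hmin : z.M.factorization b = 0 ∨ z.M'.factorization b = 0)
    (hρ : ∀ q, 0 < X.c.rr q) (h : CF X CL b z v v' σ σ') (hc : 0 ≤ v.c) (hc' : 0 ≤ v'.c) {G : ℕ × ℕ → ℝ}
    (hF : FEAll dead C0 cl b z.M (v.B * b) v.A 1 z.M' (v'.B * b) v'.A 1 (b * b) γ X.c.rr (SI X σ.items)
      (SI X σ'.items) (fun e => (b:ℝ)^2 * G e)) (i : ℕ) :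
    blkE b v.B v'.B (SI X σ.items) (SI X σ'.items) G i i ≤
      (Real.log b)^(K + 3) * ZE (sg dead) 1 (cm (w X.ψ) v.c b (ex b v.B) σ.items i *
        cm (w X.ψ) v'.c b (ex b v'.B) σ'.items i) := by
  have cm0 : ∀ (u : NS) (τ : IT), 0 ≤ u.c → ∀ i, 0 ≤ cm (w X.ψ) u.c b (ex b u.B) τ.items i := fun u τ h i =>
    mul_nonneg h (Bld532.Ws_nonneg X.hW _)
  have hz0 := mul_nonneg (cm0 v σ hc i) (cm0 v' σ' hc' i)
  have hb0 : (0:ℝ) < b := by exact_mod_cast h.bp.pos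
  have r0 : 0 ≤ (Real.log b)^(K + 3) * ZE (sg dead) 1 (cm (w X.ψ) v.c b (ex b v.B) σ.items i *
        cm (w X.ψ) v'.c b (ex b v'.B) σ'.items i) :=
    mul_nonneg (by positivity) (ZE_nonneg (sg_nonneg dead) _ hz0)
  rcases cls_shift h (V := SI X σ.items) (W := SI X σ'.items) (fun q hq => (mem_SI.1 hq).1)
    (fun q hq => (mem_SI.1 hq).1) i i with h1 | ⟨a, a', e1, e2, e3, e4, e5⟩
  · refine le_trans (le_of_eq ?_) r0
    unfold blkE
    rcases h1 with h1 | h1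
    · rw [h1, Finset.empty_product, Finset.sum_empty]
    · rw [h1, Finset.product_empty, Finset.sum_empty]
  · have ea : a = a' := e3.2 rfl
    subst ea
    set zz := cm (w X.ψ) v.c b (ex b v.B) σ.items i * cm (w X.ψ) v'.c b (ex b v'.B) σ'.items i with hzz
    have hraise : ∀ (K B A : ℕ) (V : Finset ℕ), mc b K (B * b) A 1 X.c.rr V a = (b:ℝ) * mc b K B A 1 X.c.rr V a := by
      intro K B A V
      unfold ShotTot33.mc
      exact mass_raise X.c.rr A _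
    have key := EQ_of (V := SI X σ.items) (W := SI X σ'.items) (m := fun _ => ∅) (m' := fun _ => ∅)
      (T := ∅) (FX := fun _ _ => 0) (FA := fun e => (b:ℝ)^2 * G e) (Cm := 0) hbox hs₁ hℓ
      (Nat.mul_pos h.bp.pos h.bp.pos) hmin (ax_raise (CF.ax h hρ) h.bp.pos) (fun q _ => by simp)
      (fun q _ => by simp) le_rfl (fun q _ => by simp) (fun q _ => by simp) (fun l hl => by simp at hl)
      (fun l hl => by simp at hl) hF (fun l hl => by simp at hl) (CM := 1) le_rfl (by linarith) (i := a)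
      (z := (b:ℝ) * b * zz) (by positivity) (by
        rw [one_mul, hraise, hraise]
        have h2 : mc b z.M' v.B v.A 1 X.c.rr (SI X σ.items) a * mc b z.M v'.B v'.A 1 X.c.rr (SI X σ'.items) a ≤ zz := by
          refine (mul_le_mul (mc_le h.L hc a) (mc_le h.R hc' a) ?_ (cm0 v σ hc _)).trans (le_of_eq ?_)
          · exact (CF.ax h hρ).bx 0 0 |>.y0 _
          · rw [hzz]; congr 1 <;> congr 1 <;> omega
        calc (b:ℝ) * mc b z.M' v.B v.A 1 X.c.rr (SI X σ.items) a *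
              (b * mc b z.M v'.B v'.A 1 X.c.rr (SI X σ'.items) a) =
              (b:ℝ) * b * (mc b z.M' v.B v.A 1 X.c.rr (SI X σ.items) a *
                mc b z.M v'.B v'.A 1 X.c.rr (SI X σ'.items) a) := by ring
          _ ≤ _ := mul_le_mul_of_nonneg_left h2 (by positivity))
    simp only [Finset.sum_empty, add_zero] at key
    have hZ := ZE_self (sg_nonneg dead) h.bp.one_le hz0
    have h3 : (b:ℝ)^2 * blkE b v.B v'.B (SI X σ.items) (SI X σ'.items) G i i ≤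
        (b:ℝ)^2 * ((Real.log b)^(K + 3) * ZE (sg dead) 1 zz) := by
      calc (b:ℝ)^2 * blkE b v.B v'.B (SI X σ.items) (SI X σ'.items) G i i =
            PotSum32.blk b z.M v.A z.M' v'.A (SI X σ.items) (SI X σ'.items) (fun e => (b:ℝ)^2 * G e) a a := by
            unfold blkE PotSum32.blk
            rw [filter_fe (N := z.M') (fun q hq => h.L.q0 q (mem_SI.1 hq).1) e1,
              filter_fe (N := z.M) (fun q hq => h.R.q0 q (mem_SI.1 hq).1) e2, Finset.mul_sum]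
        _ ≤ (Real.log b)^(K + 3) * ZE (sg dead) (b * b) ((b:ℝ) * b * zz) := key
        _ ≤ (Real.log b)^(K + 3) * ((b:ℝ)^2 * ZE (sg dead) 1 zz) := mul_le_mul_of_nonneg_left hZ (by positivity)
        _ = _ := by ring
    exact le_of_mul_le_mul_left h3 (by positivity)

/-- **THE CLASS NUMBERS, equal classes** (alive form) -/
theorem cz_CW {C CT cl K Cm T KA K1 : ℝ} {s₁ : ℕ} (hbox : BoxE False (C+1) cl CL s₁ K) (hs₁ : s₁ ≤ b)
    (hl : 8 ≤ Real.log b) (h : CZ X j₀ Q' b z v v' σ σ') (hC : CF X CL b z v v' σ σ')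
    (hmin : z.M.factorization b = 0 ∨ z.M'.factorization b = 0)
    (hn : Nm X Qp cl b) (hρ : ∀ q, 0 < X.c.rr q) (hc : 0 ≤ v.c) (hc' : 0 ≤ v'.c)
    (hT : T ≤ (Real.log b)^CT) (hKA0 : 0 ≤ KA) (hKA : KA ≤ (Real.log b)^C) (hK0 : 0 ≤ K1)
    (hK : K1 ≤ (Real.log b)^C) (hCm : 0 ≤ Cm)
    (hm : ∀ q ∈ X.S', ∑ l ∈ X.c.t.mt q, (l:ℝ)^(-(11/12):ℝ) ≤ 1)
    (hmn : ∀ q ∈ X.S', (((X.c.t.mt q).filter (· ≤ b)).card : ℝ) ≤ (Real.log b)^Cm) {F : ℕ × ℕ → ℝ}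
    (hF : ∀ e ∈ SI X σ.items ×ˢ SI X σ'.items, ec b v.B e.1 = ec b v'.B e.2 →
      F e ≤ PB X Qp T KA K1 b z v v' σ σ' e) :
    ∀ i, blkE b v.B v'.B (SI X σ.items) (SI X σ'.items) F i i ≤
      (Real.log b)^(K + Cm + 4) * ZE (sg False) (a0 b v.B v'.B) (cm (w X.ψ) v.c b (ex b v.B) σ.items i *
        cm (w X.ψ) v'.c b (ex b v'.B) σ'.items i) := by
  intro i
  have hb0 := h.bp.pos
  have cm0 : ∀ (u : NS) (τ : IT), 0 ≤ u.c → ∀ i, 0 ≤ cm (w X.ψ) u.c b (ex b u.B) τ.items i := fun u τ h i =>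
    mul_nonneg h (Bld532.Ws_nonneg X.hW _)
  have hz0 := mul_nonneg (cm0 v σ hc i) (cm0 v' σ' hc' i)
  have k1 := ctx_EQ (C0 := C+1) (Cm := Cm) hbox hs₁ (by linarith) hmin (a0_pos hb0 v.B v'.B) hρ hC hc hc'
    (m := σ.mt) (m' := σ'.mt)
    (fun q hq => cs_mt_sum h.L (mem_SI.1 hq).1 (hm q (mem_SI.1 hq).2))
    (fun q hq => cs_mt_sum h.R (mem_SI.1 hq).1 (hm q (mem_SI.1 hq).2)) hCm
    (fun q hq => cs_mt_card h.L (mem_SI.1 hq).1 (hmn q (mem_SI.1 hq).2))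
    (fun q hq => cs_mt_card h.R (mem_SI.1 hq).1 (hmn q (mem_SI.1 hq).2))
    (T := (Finset.range b).filter Nat.Prime)
    (fun l hl => ⟨(Finset.mem_filter.1 hl).2, (Finset.mem_range.1 (Finset.mem_filter.1 hl).1).le⟩)
    (FX := fun l e => K1 * fxz X Qp T z v v' σ σ' l e)
    (FA := fun e => KA * ((v.B:ℝ) * v'.B * Uz X Qp T b z v v' e))
    (fun l _ e _ h1 h2 => by
      unfold CzTot36.fxz TotC36.fx
      rw [if_neg (by rw [Finset.mem_union]; tauto), mul_zero, mul_zero])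
    (feallA (CT := CT) h hC hn hρ hl hmin hT hKA0 hKA (fun e _ => le_rfl) (fun hd => absurd hd id))
    (fun l hl' => by
      obtain ⟨l1, l2⟩ := Finset.mem_filter.1 hl'
      have l3 := Finset.mem_range.1 l1
      exact feallL (CT := CT) h hC hn hρ hl hmin hT hK0 hK l2 l3.le (by rw [aL_lt l3, one_mul])) i
  have k2 := ctx_EQself (C0 := C+1) hbox hs₁ (by linarith) hmin hρ hC hc hc'
    (G := fun e => K1 * fxz X Qp T z v v' σ σ' b e)
    (feallL (CT := CT) h hC hn hρ hl hmin hT hK0 hK h.bp le_rfl (by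
      have := aL_le (B := v.B) (B' := v'.B) (l := b) hb0
      have h2 := a0_le hb0 v.B v'.B
      unfold CzSum36.a0 at h2
      exact Nat.mul_le_mul_right b (this.trans h2))) i
  set zz := cm (w X.ψ) v.c b (ex b v.B) σ.items i * cm (w X.ψ) v'.c b (ex b v'.B) σ'.items i with hzz
  have hZ : ZE (sg False) 1 zz ≤ ZE (sg False) (a0 b v.B v'.B) zz := by
    unfold ZE
    rw [Nat.cast_one, Real.one_rpow]
    have h1 : (1:ℝ) ≤ ((a0 b v.B v'.B : ℕ):ℝ)^(6/1000:ℝ) :=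
      Real.one_le_rpow (by exact_mod_cast a0_pos hb0 v.B v'.B) (by norm_num)
    have h2 : 0 ≤ zz^(1/2+eps2) := Real.rpow_nonneg hz0 _
    nlinarith
  have hZ0 := ZE_nonneg (sg_nonneg False) (a0 b v.B v'.B) hz0
  have hZ1 := ZE_nonneg (sg_nonneg False) 1 hz0
  set L := Real.log b with hL
  have hL0 : 0 < L := by linarith
  have e1 : L^(K + 3) ≤ L^(K + Cm + 3) := Real.rpow_le_rpow_of_exponent_le (by linarith) (by linarith)
  have e2 : L^(K + Cm + 4) = L^(K + Cm + 3) * L := by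
    rw [show K + Cm + 4 = (K + Cm + 3) + 1 by ring, Real.rpow_add hL0, Real.rpow_one]
  have hle : blkE b v.B v'.B (SI X σ.items) (SI X σ'.items) F i i ≤
      blkE b v.B v'.B (SI X σ.items) (SI X σ'.items) (fun e => KA * ((v.B:ℝ) * v'.B * Uz X Qp T b z v v' e) +
        ∑ l ∈ (Finset.range b).filter Nat.Prime, K1 * fxz X Qp T z v v' σ σ' l e) i i +
      blkE b v.B v'.B (SI X σ.items) (SI X σ'.items) (fun e => K1 * fxz X Qp T z v v' σ σ' b e) i i := by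
    unfold blkE
    rw [← Finset.sum_add_distrib]
    refine Finset.sum_le_sum fun e he => ?_
    obtain ⟨h1, h2, h3⟩ := mem_blk he
    exact hF e h1 (by rw [h2, h3])
  refine hle.trans ((add_le_add k1 k2).trans ?_)
  rw [e2]
  calc L^(K + Cm + 3) * ZE (sg False) (a0 b v.B v'.B) zz + L^(K + 3) * ZE (sg False) 1 zz
      ≤ L^(K + Cm + 3) * ZE (sg False) (a0 b v.B v'.B) zz +
        L^(K + Cm + 3) * ZE (sg False) (a0 b v.B v'.B) zz := by gcongr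
    _ = L^(K + Cm + 3) * 2 * ZE (sg False) (a0 b v.B v'.B) zz := by ring
    _ ≤ L^(K + Cm + 3) * L * ZE (sg False) (a0 b v.B v'.B) zz := by gcongr; linarith

end ctx

end Crest.Agent.R4P.CzCO36
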