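import Crest.Agent.R4P.CzCO_36
import Crest.Agent.R4P.LocXc_25
import Crest.Agent.R4P.FinAll_26
import Crest.Agent.R4P.NI_10

/-!
R4P (S0004), helper26, group [X]: **context facts and numbers for the target of [X]**.

* `ctx_nm` : `CzSum36.Nm` of a context; `ctx_cf` : `ClsCtx36.CF` of the crossing states.
* `num_b` : thresholds at a column; `KA_le` : the counts of the missing ties.
* `kok_fin` : the numbers `KOk` for the final parameters.
-/

set_option autoImplicit false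
set_option linter.unusedSectionVars false
set_option linter.unusedVariables false
open Finset

namespace Crest.Agent.R4P.TgtX26

open Crest.Agent.R4.Tour104 Crest.Agent.R4.Tour758 Crest.Agent.R4.Avg758 Crest.Agent.R4.Clos758
open Crest.Agent.R4.ClosL758 Crest.Agent.R4.ClosG758 Crest.Agent.R4.ClosR758
open Crest.Agent.R4.Fam464 Crest.Agent.R4P.Cnt588 Crest.Agent.R4P.Walk560 Crest.Agent.R4.Piece464
open Crest.Agent.R4P.Item758 Crest.Agent.R4P.AvgItem710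
open Crest.Agent.R4P.Data758 Crest.Agent.R4P.WalkIT579
open Crest.Agent.R4P.Bld532 (NS All NodeOk Bk)
open Crest.Agent.R4P.Skel189 (Ctx top)
open Crest.Agent.R4.Soft104
open Crest.Agent.R4P.ParF5 Crest.Agent.R4P.NumX34
open Crest.Agent.R4P.CrsFacts26 Crest.Agent.R4P.AsmX26
open Crest.Agent.R4.CrossShot709 (lev)
open Crest.Agent.R4P.LocX25 (QX TX)
open Crest.Agent.R4P.Step588 (CT CT_pos)
open Crest.Agent.R4P.Link758 (MF)
open Crest.Agent.R4P.CzSum36 (Nm)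
open Crest.Agent.R4P.KindPay36 (CA KOk)
open Crest.Agent.R4.Ovl560 (CM CM_pos)
open Crest.Agent.R4.ClsS (eps1)
open Crest.Agent.R4.ShotG223 (eps2)
open Crest.Agent.R4P.FinAll26 (NumFin)
open Crest.Agent.R4P

variable {N : Skel189.Num} {th : ℕ → ℕ → ℝ} {Ct C₀ : ℝ}
  {Sx : ℕ → (ℕ → ℝ) → Finset ℕ → Finset ℕ}

/-! ### context facts -/

/-- radii are positive -/
lemma ctx_rr {γ : ℝ} {p0 P₀ : ℕ} (X : Ctx N γ p0 P₀) : ∀ q, 0 < X.c.rr q := (X.ok.rad X.Y).pos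

/-- **the numbers `Nm`** at every column of a context, every level exponent `cl ≥ Ct` -/
theorem ctx_nm (h : NumOK N th Ct C₀ Sx) {cl : ℝ} (hcl : Ct ≤ cl) (hcl0 : 0 < cl) :
    ∃ p₁ : ℕ, ∀ p0 ≥ p₁, ∀ (γ : ℝ) (P₀ : ℕ) (X : Ctx N γ p0 P₀) (b : ℕ), p0 < b → b ≤ top X.S →
      ∀ Qp : NS → IT → Prop, (∀ u τ, Qp u τ → MF X.c.t u τ) → Nm X Qp cl b := by
  obtain ⟨x0, hx0⟩ := LowT33.lev_numT cl 1 hcl0
  obtain ⟨p1, h1⟩ := h.thlo
  refine ⟨p1 + ⌈x0⌉₊ + 3, fun p0 hp0 γ P₀ X b hb hbt Qp hq => ?_⟩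
  have hb0 : x0 ≤ (b:ℝ) := (Nat.le_ceil x0).trans (by exact_mod_cast (by omega : ⌈x0⌉₊ ≤ b))
  obtain ⟨g1, -, -, -, g5, -, g7⟩ := hx0 b hb0
  have hl0 : 0 < Real.log b := by linarith
  refine ⟨hq, hbt, by omega, fun l hpl hlb => ?_, fun l => ?_⟩
  · rw [X.thr, h.thr]
    have k1 := h1 p0 (by omega) l hpl.le
    have hl1 : 0 < Real.log l := Real.log_pos (by exact_mod_cast (by omega : 1 < l))
    have k2 : Real.log l ≤ Real.log b :=
      Real.log_le_log (by exact_mod_cast (by omega : 0 < l)) (by exact_mod_cast hlb)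
    have k3 : Real.log b ^ (-Ct) ≤ Real.log l ^ (-Ct) :=
      Real.rpow_le_rpow_of_nonpos hl1 k2 (by linarith [h.Ct0])
    have k4 : Real.log b ^ (-cl) ≤ Real.log b ^ (-Ct) :=
      Real.rpow_le_rpow_of_exponent_le (by linarith) (by linarith)
    have k5 : 1 / (2:ℝ) ^ (lev cl b) ≤ Real.log b ^ (-cl) := by
      rw [Real.rpow_neg hl0.le, ← one_div]
      exact one_div_le_one_div_of_le (Real.rpow_pos_of_pos hl0 _) g5
    exact k5.trans (k4.trans (k3.trans k1))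
  · rw [X.lam, h.lam]

/-- **the facts of the crossing states** -/
theorem ctx_cf (N : Skel189.Num) : ∃ p₁ : ℕ, ∀ p0 ≥ p₁, ∀ (γ : ℝ) (P₀ : ℕ) (X : Ctx N γ p0 P₀)
    (j₀ : X.c.Lam) (Ch : ℝ) (Q' : NS → IT → Prop), (∀ u τ, Q' u τ → QX X j₀ Ch u τ) →
      ∀ (b : ℕ) (z : X.Sta) (v v' : NS) (σ σ' : IT), CZ X j₀ Q' b z v v' σ σ' →
        ClsCtx36.CF X (2 * CT) b z v v' σ σ' := by
  obtain ⟨p1, h1⟩ := NI927.ctx_Ut N
  refine ⟨p1, fun p0 hp0 γ P₀ X j₀ Ch Q' hq b z v v' σ σ' hz => ?_⟩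
  refine ClsCtx36.cz_CF (c₀ := 1 / 2) (fun u τ h => (hq u τ h).ob) ?_ (by have := CT_pos; linarith) hz
  exact fun q hq z hz' => h1 p0 hp0 γ P₀ X b hz.b0.le q hq z hz'

/-! ### numbers at a column -/

/-- **thresholds at a column** -/
theorem num_b (c : ℝ) : ∃ p₁ : ℕ, ∀ b : ℕ, p₁ ≤ b → (200 * Real.log b) ^ (3:ℝ) ≤ (b:ℝ) ^ (1:ℝ) ∧
    8 ≤ Real.log b ∧ c ≤ Real.log b ∧ TX b ≤ Real.log b ^ (5:ℝ) := by
  have tl : Filter.Tendsto (fun b : ℕ => Real.log (b:ℝ)) Filter.atTop Filter.atTop :=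
    Real.tendsto_log_atTop.comp tendsto_natCast_atTop_atTop
  obtain ⟨n1, hn1⟩ := Filter.eventually_atTop.1
    (tl.eventually_ge_atTop (max (200 ^ 3) (max c ((2 * CM) ^ 4))))
  obtain ⟨n2, hn2⟩ := log_ge_rpow 4 (c := 1) one_pos
  refine ⟨n1 + n2 + 3, fun b hb => ?_⟩
  have k1 := hn1 b (by omega)
  have k2 := hn2 b (by omega)
  have l1 : (200:ℝ) ^ 3 ≤ Real.log b := (le_max_left _ _).trans k1
  have l2 : c ≤ Real.log b := ((le_max_left _ _).trans (le_max_right _ _)).trans k1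
  have l3 : (2 * CM) ^ 4 ≤ Real.log b := ((le_max_right _ _).trans (le_max_right _ _)).trans k1
  set L := Real.log b with hL
  have hL0 : 0 < L := by linarith [show (0:ℝ) < 200 ^ 3 by norm_num]
  have hL8 : 8 ≤ L := le_trans (by norm_num) l1
  have hb0 : (0:ℝ) < b := by exact_mod_cast (by omega : 0 < b)
  have k3 : L ^ 4 ≤ b := by
    rw [Real.rpow_neg hb0.le, Real.rpow_neg hL0.le, Real.rpow_one] at k2
    have h4 : L ^ (4:ℝ) = L ^ 4 := by rw [← Real.rpow_natCast]; norm_num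
    rw [h4] at k2
    exact (inv_le_inv₀ hb0 (by positivity)).1 k2
  refine ⟨?_, hL8, l2, ?_⟩
  · rw [Real.rpow_one, show (3:ℝ) = ((3:ℕ):ℝ) by norm_num, Real.rpow_natCast]
    calc (200 * L) ^ 3 = 200 ^ 3 * L ^ 3 := by ring
      _ ≤ L * L ^ 3 := mul_le_mul_of_nonneg_right l1 (by positivity)
      _ = L ^ 4 := by ring
      _ ≤ b := k3
  · have e5 : L ^ (5:ℝ) = L ^ 5 := by rw [← Real.rpow_natCast]; norm_num
    rw [e5]
    unfold LocX25.TX
    refine max_le ?_ (max_le ?_ ?_)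
    · calc (4:ℝ) ≤ 8 ^ 5 := by norm_num
        _ ≤ L ^ 5 := pow_le_pow_left₀ (by norm_num) hL8 5
    · calc (2 * (CM * L)) ^ 4 = (2 * CM) ^ 4 * L ^ 4 := by ring
        _ ≤ L * L ^ 4 := mul_le_mul_of_nonneg_right l3 (by positivity)
        _ = L ^ 5 := by ring
    · exact pow_le_pow_right₀ (by linarith) (by norm_num)

/-- **the counts** : `KA` with `n = (log b)^E` missing ties -/
theorem KA_le {K1 K2 : ℝ} (h1 : 0 ≤ K1) (h2 : 0 ≤ K2) {E : ℝ} (hE : 1 ≤ E) {b : ℕ}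
    (hb : 5 * K1 + 4 * K2 ≤ Real.log b) (hl : 1 ≤ Real.log b) :
    K1 * (1 + 4 * Real.log b ^ E) + K2 * (1 + 2 * Real.log b ^ E + Real.log b) ≤
      Real.log b ^ (E + 1) := by
  set L := Real.log b with hL
  have hL0 : 0 < L := by linarith
  have e1 : L ≤ L ^ E := by
    calc L = L ^ (1:ℝ) := (Real.rpow_one L).symm
      _ ≤ L ^ E := Real.rpow_le_rpow_of_exponent_le hl hE
  have e2 : 1 ≤ L ^ E := hl.trans e1
  rw [Real.rpow_add hL0, Real.rpow_one]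
  have e3 : (5 * K1 + 4 * K2) * L ^ E ≤ L * L ^ E := mul_le_mul_of_nonneg_right hb (by linarith)
  nlinarith

/-! ### the final numbers -/

/-- the log exponent of the different classes -/
noncomputable def Cf (C1 : ℝ) : ℝ := 7 / 5 * C1

/-- the accident exponent -/
noncomputable def Af (N : Skel189.Num) : ℝ :=
  3 * ((N.B + 2) + (CA (Cf N.C1) N.c2 (1/2+eps2) + N.C1 + 1) + 4)

/-- **the numbers `KOk`** -/
theorem kok_fin {c₁ K₁ : ℝ} (hc : 2000 ≤ c₁) (hK : 0 ≤ K₁) (h : NumFin N th Ct c₁) :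
    KOk (Cf N.C1) N.C1 N.c2 N.B K₁ 0 (1/2+eps1) (1/2+eps2) (1/50) where
  C0 := by have := h.C1; unfold Cf; linarith
  Cl0 := by have := h.C1; linarith
  Ch0 := by rw [h.c2]; norm_num
  B0 := by have := h.C1; rw [h.c2, h.B]; unfold Cf; linarith
  K0 := hK
  s1 := by have : eps1 = 1/1000 := rfl; rw [this]; norm_num
  s1' := by have : eps1 = 1/1000 := rfl; rw [this]; norm_num
  s2 := by have : eps2 = 1/4000 := rfl; rw [this]; norm_num
  s2' := by have : eps2 = 1/4000 := rfl; rw [this]; norm_num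
  del := by have : eps1 = 1/1000 := rfl; rw [this]; norm_num
  a1 := le_rfl

/-- the exponent of the class numbers is below `Cf` -/
theorem cf_fin {c₁ cl : ℝ} (hc : 2000 ≤ c₁) (h : NumFin N th Ct c₁) (hcl : cl ≤ 121 * N.C1) :
    max (((N.C1 + N.c2 + 2) + 1 + 5 + 8 + cl / 500) + Af N * (6/1000) + 3)
      (((N.C1 + N.c2 + 2) + 1 + 5 + 10 + cl / 500) + 1) + 1 ≤ Cf N.C1 := by
  have h1 := h.C1
  have e2 : eps2 = 1/4000 := rfl
  have hCA : CA (Cf N.C1) N.c2 (1/2+eps2) = (7/5 * N.C1 + 1/2000) * (4000/1999) := by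
    unfold KindPay36.CA Cf
    rw [h.c2, e2]
    norm_num
    ring
  have hA : Af N = 3 * ((4 * N.C1 + 2) + ((7/5 * N.C1 + 1/2000) * (4000/1999) + N.C1 + 1) + 4) := by
    unfold Af
    rw [hCA, h.B]
  rw [← le_sub_iff_add_le]
  refine max_le ?_ ?_
  · rw [hA, h.c2]; unfold Cf; linarith
  · rw [h.c2]; unfold Cf; linarith

end Crest.Agent.R4P.TgtX26
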