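import Crest.Agent.R4P.LocXc_25

/-!
R4P (S0004), helper25, module D, group [X]: **energy of excluded pairs of items**.

* `iF_sw`, `iF_mono` ; `Qs_TW` : the part of the energy of a state on the pairs `TW`; `iFs`.
-/

set_option autoImplicit false
set_option linter.unusedSectionVars false
set_option linter.unusedVariables false
open Finset

namespace Crest.Agent.R4P.LocX25

open Crest.Agent.R4.HVW560 Crest.Agent.R4P.AvgItem710
open Crest.Agent.R4.Tour104 Crest.Agent.R4.Tour758 Crest.Agent.R4.Avg758 Crest.Agent.R4.Clos758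
open Crest.Agent.R4.ClosL758 Crest.Agent.R4.ClosG758 Crest.Agent.R4.ClosR758
open Crest.Agent.R4.Fam464 Crest.Agent.R4P.Cnt588 Crest.Agent.R4P.Walk560 Crest.Agent.R4P.Item758
open Crest.Agent.R4P.Bld532 (NS All NodeOk Bk dv nd mem_dv mem_nd)
open Crest.Agent.R4P.GSt927 Crest.Agent.R4P.WalkIT579 Crest.Agent.R4P.NMW710
open Crest.Agent.R4P.CrossLoc25 Crest.Agent.R4P.CrossLocC25 Crest.Agent.R4P.WalkC
open Crest.Agent.R4P.CyC25 Crest.Agent.R4P.YI25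
open Crest.Agent.R4P.Data758 Crest.Agent.R4.Piece464
open Crest.Agent.R4P.BlksP29 Crest.Agent.R4P.GlueP29 Crest.Agent.R4P.Glue29 Crest.Agent.R4P.IvX29
open Crest.Agent.R4P.ShrW34 Crest.Agent.R4P.ShrG28 Crest.Agent.R4P.CStop25
open Crest.Agent.R4P.TBLeaf28 (JC LoX)
open Crest.Agent.R4P.CopM34 (Cop)
open Crest.Agent.R4P.VNum34 (US mem_US stp2)
open Crest.Agent.R4P.Skel189 (Ctx top Kc)
open Crest.Agent.R4P.Step588 (CT CT_pos TagOk NDt ctx_NDt)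
open Crest.Agent.R4P.OSFin710 (OB)
open Crest.Agent.R4P.GFinC927 (NB)
open Crest.Agent.R4P.LLCtx30 (LfA ctx_LfA TmN ctx_TmN)
open Crest.Agent.R4P.LfDat734 (etaL)
open Crest.Agent.R4.Soft104 (w)
open Crest.Agent.R4P.StopLeaf28 (LoSt LoX_LoSt LoS_LoSt LoSt_stop LoSt_T)
open Crest.Agent.R4P.SameIx30 (VU Vm)
open Crest.Agent.R4P.Strip29 Crest.Agent.R4P.XStart25 Crest.Agent.R4P.XStop25
open Crest.Agent.R4P.CrsFacts26 Crest.Agent.R4P.AsmX26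
open Crest.Agent.R4.Ovl560 (CM)
open Crest.Agent.R4.DeepSt579 (tq)
open Crest.Agent.R4P.SwapX25
open Crest.Agent.R4P

section gen
variable {Λ κ : Type*} [Fintype Λ] [DecidableEq Λ] [Fintype κ] [DecidableEq κ] [WRel κ]
  {D : Par Λ κ} {sp : ℕ → Finset Λ} {P : Bld532.Par} {W : ℕ → ℝ} {Qp : NS → IT → Prop}
  {Al : Finset ℕ} {RP : Finset (Λ × Λ) → Prop}

/-- energy of a pair of items with the sides exchanged -/
lemma iF_sw {R : Finset (Λ × Λ)} {r : Λ → κ} (hR : R = Ro r) (φ ψ : Λ → ℝ → ℝ) (e : ℕ × ℕ) :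
    D.iF R ψ φ (e.2, e.1) = D.iF R φ ψ e := by
  unfold Par.iF
  refine Finset.sum_nbij' (fun x => (x.2, x.1)) (fun x => (x.2, x.1)) ?_ ?_ ?_ ?_ ?_
  · rintro ⟨i, j⟩ h
    obtain ⟨h1, h2⟩ := Finset.mem_filter.1 h
    rw [hR] at h1 ⊢
    simp only [Prod.mk.injEq] at h2
    exact Finset.mem_filter.2 ⟨Ro_symm h1, Prod.ext h2.2 h2.1⟩
  · rintro ⟨i, j⟩ h
    obtain ⟨h1, h2⟩ := Finset.mem_filter.1 h
    rw [hR] at h1 ⊢
    have h3 : D.it i = e.1 ∧ D.it j = e.2 := by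
      constructor
      · exact congrArg Prod.fst h2
      · exact congrArg Prod.snd h2
    refine Finset.mem_filter.2 ⟨Ro_symm h1, Prod.ext h3.2 h3.1⟩
  · intro e _; rfl
  · intro e _; rfl
  · intro e _
    congr 1
    funext y
    ring

/-- the energy of a pair of items is monotone in the relation -/
lemma iF_mono {R R' : Finset (Λ × Λ)} (h : R ⊆ R') {φ ψ : Λ → ℝ → ℝ} (h1 : ∀ j y, 0 ≤ φ j y)
    (h2 : ∀ j y, 0 ≤ ψ j y) (e : ℕ × ℕ) : D.iF R φ ψ e ≤ D.iF R' φ ψ e := by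
  unfold Par.iF
  refine Finset.sum_le_sum_of_subset_of_nonneg (Finset.filter_subset_filter _ h) fun x _ _ => ?_
  exact I_nonneg fun y => mul_nonneg (h1 _ y) (h2 _ y)

open Classical in
/-- **the excluded part of the energy** -/
theorem Qs_TW (hdead : ∀ j, D.it j ∉ Al → ∀ a, D.om j a = 0) {s : St Λ κ} {u u' : NS} {τ τ' : IT}
    (hy : YI D sp Qp RP s u u' τ τ') (TW : ℕ × ℕ → Prop) :
    Qs { s with R := s.R \ s.R.filter (fun x => ¬ TW (D.it x.1, D.it x.2)) } ≤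
      ∑ e ∈ Ep D Al s τ τ', if TW e then
        D.iF s.R (D.uA s.M u.B u.A τ s.A 1) (D.uA s.M' u'.B u'.A τ' s.A' 1) e else 0 := by
  have hst := hy.st
  have e1 := Qs_Q (s := { s with R := s.R \ s.R.filter (fun x => ¬ TW (D.it x.1, D.it x.2)) })
    ⟨hst.L, hst.R, hst.M0, hst.M0'⟩
  rw [e1, D.Q_eq]
  have hsub := PE_sub hdead hy.mL.pos hy.mR.pos hy.L.S.hb hy.R.S.hb hy.L.S.hF hy.R.S.hF hy.L.S.hW
    hy.R.S.hW (one_dvd _) (one_dvd _)
    (s.R \ s.R.filter (fun x => ¬ TW (D.it x.1, D.it x.2))) s.A s.A'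
  have n1 : ∀ j y, 0 ≤ D.uA s.M u.B u.A τ s.A 1 j y :=
    fun j y => uA_nonneg hy.mL.pos hy.L.S.hb hy.L.S.hF hy.L.S.hW (one_dvd _) j y
  have n2 : ∀ j y, 0 ≤ D.uA s.M' u'.B u'.A τ' s.A' 1 j y :=
    fun j y => uA_nonneg hy.mR.pos hy.R.S.hb hy.R.S.hF hy.R.S.hW (one_dvd _) j y
  refine le_trans (Finset.sum_le_sum fun e he => ?_)
    (Finset.sum_le_sum_of_subset_of_nonneg hsub fun e _ _ => ?_)
  · obtain ⟨j, j', h1, h2, h3, h4⟩ := Par.mem_PE.1 he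
    obtain ⟨h5, h6⟩ := Finset.mem_sdiff.1 h1
    have h7 : TW e := by
      by_contra h
      refine h6 (Finset.mem_filter.2 ⟨h5, ?_⟩)
      show ¬ TW (D.it j, D.it j')
      rw [h3, h4]
      exact h
    rw [if_pos h7]
    exact iF_mono Finset.sdiff_subset n1 n2 e
  · split_ifs
    · exact Par.iF_nonneg _ _ n1 n2 e
    · exact le_rfl

end gen

variable {N : Skel189.Num} {γ : ℝ} {p0 P₀ : ℕ} {X : Ctx N γ p0 P₀} {j₀ : X.c.Lam}
  {Q' : NS → IT → Prop} {b : ℕ} {z : X.Sta} {v v' : NS} {σ σ' : IT}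
  {RP : Finset (X.c.Lam × X.c.Lam) → Prop}
  {Qp : NS → IT → Prop} {Mz Mz' : ℕ} {x0 y0 g g' : ℕ × ℕ → ℕ} {s₀ : ℕ × ℕ → ℝ × ℝ}
  {PV : ℕ × ℕ → Prop} {Pc Px : ℕ → ℕ × ℕ → Prop} {s : X.Sta} {u u' : NS} {τ τ' : IT} {T : ℝ}
  {Ch : ℝ}

/-- energy of a pair of items at a state -/
noncomputable def iFs (X : Ctx N γ p0 P₀) (s : X.Sta) (u u' : NS) (τ τ' : IT) (e : ℕ × ℕ) : ℝ :=
  (X.c.D.par X.Y).iF s.R ((X.c.D.par X.Y).uA s.M u.B u.A τ s.A 1)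
    ((X.c.D.par X.Y).uA s.M' u'.B u'.A τ' s.A' 1) e

end Crest.Agent.R4P.LocX25
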