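import Crest.Agent.R4P.ColV_32
import Crest.Agent.R4P.LocXd_25
import Crest.Agent.R4P.ClsSh_36

/-!
R4P (S0004), helper25, module D, group [X]: **the two-sided bound of the energy of a pair of items**.

* `ctx_iFs_le` : `iFs ≤ 4 (v.c w q) / rf (r/v'.A)` and `≤ 4 (v'.c w r) / rf (q/v.A)`.
-/

set_option autoImplicit false
set_option linter.unusedSectionVars false
set_option linter.unusedVariables false
open Finset

namespace Crest.Agent.R4P.LocX25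

open Crest.Agent.R4.HVW560 Crest.Agent.R4P.AvgItem710
open Crest.Agent.R4.Tour104 Crest.Agent.R4.Tour758 Crest.Agent.R4.Avg758 Crest.Agent.R4.Clos758
open Crest.Agent.R4.ClosL758 Crest.Agent.R4.ClosG758 Crest.Agent.R4.ClosR758
open Crest.Agent.R4P.Cnt588 Crest.Agent.R4P.Walk560 Crest.Agent.R4P.Item758
open Crest.Agent.R4P.Bld532 (NS All NodeOk Bk dv nd mem_dv mem_nd)
open Crest.Agent.R4P.GSt927 Crest.Agent.R4P.WalkIT579 Crest.Agent.R4P.NMW710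
open Crest.Agent.R4P.CrossLoc25 Crest.Agent.R4P.CrossLocC25 Crest.Agent.R4P.YI25
open Crest.Agent.R4P.Data758 Crest.Agent.R4.Piece464
open Crest.Agent.R4P.Skel189 (Ctx top Kc)
open Crest.Agent.R4.Soft104 (w)
open Crest.Agent.R4P.GInst194
open Crest.Agent.R4P.ShrG28 (c_nonneg_of_nd)
open Crest.Agent.R4P.ClsSh36 (SI mem_SI)
open Crest.Agent.R4P.CrsFacts26 Crest.Agent.R4P.CStop25
open Crest.Agent.R4.CrossLoc709 (SE Dsc)
open Crest.Agent.R4P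

variable {N : Skel189.Num} {γ : ℝ} {p0 P₀ : ℕ} {X : Ctx N γ p0 P₀} {j₀ : X.c.Lam}
  {z : X.Sta} {v v' : NS} {σ σ' : IT} {Ch : ℝ}

/-- averaged radii of the right item are at most the scale -/
lemma rad_r {ρ : ℕ → ℝ} (hρ : ∀ q, 0 < ρ q) {M b pr M' b' pr' : ℕ} {e : ℕ × ℕ}
    (hU : 0 < UI M pr e.1) :
    (rf (e.2 / pr') M' : ℝ) * ((b' : ℝ) / (1 : ℕ) * ρ e.2) ≤ Dsc (ρ e.1) (ρ e.2) (SE M b pr M' b' pr' e) :=
  ColU32.rad_le hρ hU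

/-- averaged radii of the left item are at most the scale -/
lemma rad_l {ρ : ℕ → ℝ} (hρ : ∀ q, 0 < ρ q) {M b pr M' b' pr' : ℕ} {e : ℕ × ℕ}
    (hU : 0 < UI M' pr' e.2) :
    (rf (e.1 / pr) M : ℝ) * ((b : ℝ) / (1 : ℕ) * ρ e.1) ≤ Dsc (ρ e.1) (ρ e.2) (SE M b pr M' b' pr' e) := by
  have h1 : 1 ≤ cof (UI M' pr' e.2) (UI M pr e.1) := Crest.Agent.R4.HVW560.cof_pos hU
  have h2 : (1:ℝ) ≤ (cof (UI M' pr' e.2) (UI M pr e.1) : ℕ) := by exact_mod_cast h1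
  unfold Dsc
  refine le_trans ?_ (le_max_left _ _)
  rw [SE_eq]
  have h3 : (FI M pr e.1 : ℝ) = (rf (e.1 / pr) M : ℝ) := rfl
  have h4 : (0:ℝ) ≤ (rf (e.1 / pr) M : ℝ) * ((b : ℝ) * ρ e.1) :=
    mul_nonneg (Nat.cast_nonneg _) (mul_nonneg (Nat.cast_nonneg _) (hρ _).le)
  show _ ≤ ((cof (UI M' pr' e.2) (UI M pr e.1) * (FI M pr e.1 * b) : ℕ) : ℝ) * ρ e.1
  push_cast
  rw [h3]
  have e1 : (cof (UI M' pr' e.2) (UI M pr e.1) : ℝ) * ((rf (e.1 / pr) M : ℝ) * b) * ρ e.1 =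
      (cof (UI M' pr' e.2) (UI M pr e.1) : ℝ) * ((rf (e.1 / pr) M : ℝ) * (b * ρ e.1)) := by ring
  rw [e1, div_one]
  exact le_mul_of_one_le_left h4 h2

/-- positivity of the letters of an item -/
lemma UI_pos_of {M b pr : ℕ} {τ : IT} (hM : 0 < M) (hF : Fit b pr τ) {q : ℕ} (hq : q ∈ τ.items) :
    0 < UI M pr q := by
  obtain ⟨h1, h2, h3⟩ := hF.item q hq
  refine StopLeaf28.UI_pos hM ?_
  exact Nat.div_pos (Nat.le_of_dvd h1 h2) (Nat.pos_of_dvd_of_pos h2 h1)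

/-- **the two-sided bound of the energy of a pair of items** -/
theorem iFs_le {z : X.Sta} (hM : 0 < z.M) (hM' : 0 < z.M') (hx : QX X j₀ Ch v σ) (hx' : QX X j₀ Ch v' σ')
    (hc : 0 ≤ v.c) (hc' : 0 ≤ v'.c) (hb : 0 < v.B) (hb' : 0 < v'.B) (hF : Fit v.B v.A σ)
    (hF' : Fit v'.B v'.A σ') (hW : (X.c.D.par X.Y).Wts v.A σ) (hW' : (X.c.D.par X.Y).Wts v'.A σ')
    (hs : σ.items ⊆ X.S) (hs' : σ'.items ⊆ X.S) {e : ℕ × ℕ} (he : e.1 ∈ σ.items) (he' : e.2 ∈ σ'.items)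
    (hD : Dsc (X.c.rr e.1) (X.c.rr e.2) (SE z.M v.B v.A z.M' v'.B v'.A e) ≤ 1 / 2) :
    iFs X z v v' σ σ' e ≤ 4 * (v.c * w X.ψ e.1) / (rf (e.2 / v'.A) z.M' : ℝ) ∧
      iFs X z v v' σ σ' e ≤ 4 * (v'.c * w X.ψ e.2) / (rf (e.1 / v.A) z.M : ℝ) := by
  have hR := X.ok.rad X.Y
  have hrr := hR.pos
  constructor
  · refine (iF_le_left hR hM hM' hb hb' hF hF' hW hW' (one_dvd _) (one_dvd _) z.R z.A z.A' e he'
      ((rad_r hrr (UI_pos_of hM hF he)).trans hD)).trans ?_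
    rw [one_div, inv_mul_eq_div]
    refine div_le_div_of_nonneg_right ?_ (Nat.cast_nonneg _)
    exact ColU32.mU_le hx hc hb hF hW hs he z.A
  · refine (iF_le_right hR hM hM' hb hb' hF hF' hW hW' (one_dvd _) (one_dvd _) z.R z.A z.A' e he
      ((rad_l hrr (UI_pos_of hM' hF' he')).trans hD)).trans ?_
    rw [one_div, inv_mul_eq_div]
    refine div_le_div_of_nonneg_right ?_ (Nat.cast_nonneg _)
    exact ColU32.mU_le hx' hc' hb' hF' hW' hs' he' z.A'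

/-- the same, at a crossing state -/
theorem ctx_iFs_le {b : ℕ} (h : CZ X j₀ (QX X j₀ Ch) b z v v' σ σ') {e : ℕ × ℕ}
    (he : e ∈ SI X σ.items ×ˢ SI X σ'.items)
    (hD : Dsc (X.c.rr e.1) (X.c.rr e.2) (SE z.M v.B v.A z.M' v'.B v'.A e) ≤ 1 / 2) :
    iFs X z v v' σ σ' e ≤ 4 * (v.c * w X.ψ e.1) / (rf (e.2 / v'.A) z.M' : ℝ) ∧
      iFs X z v v' σ σ' e ≤ 4 * (v'.c * w X.ψ e.2) / (rf (e.1 / v.A) z.M : ℝ) := by
  obtain ⟨h1, h2⟩ := Finset.mem_product.1 he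
  have q1 := h.L.q.self
  have q2 := h.R.q.self
  exact iFs_le h.mL.pos h.mR.pos q1.ext q2.ext (c_nonneg_of_nd q1.nd.self.node) (c_nonneg_of_nd q2.nd.self.node)
    h.L.I.hb h.R.I.hb h.L.I.hF h.R.I.hF h.L.I.hW h.R.I.hW q1.sub q2.sub (mem_SI.1 h1).1 (mem_SI.1 h2).1 hD

end Crest.Agent.R4P.LocX25
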