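import Crest.Agent.R4P.CzBX_36
import Crest.Agent.R4P.TwI_25
import Crest.Agent.R4P.TgtX_26

/-!
R4P (S0004), helper36, group [X]: **`CBX` for the contexts with large `p0`**.

* `ifc` : the two-sided bound of the own term (helper25); `ev_NC` : the numeric facts of a column;
* `ctx_CBX` : **`CBX`** from `NumOK`, the (leaf, tree) bound `ExLTT`, and the facts `CF`, `Nm` of the contexts.
-/

set_option autoImplicit false
set_option linter.unusedSectionVars false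
set_option linter.unusedVariables false
open Finset

namespace Crest.Agent.R4P.CzCtx36

open Crest.Agent.R4.Tour104 Crest.Agent.R4.Tour758 Crest.Agent.R4.Avg758 Crest.Agent.R4.Clos758
open Crest.Agent.R4.ClosL758 Crest.Agent.R4.ClosG758 Crest.Agent.R4.ClosR758
open Crest.Agent.R4.Fam464 Crest.Agent.R4P.Cnt588 Crest.Agent.R4P.Walk560 Crest.Agent.R4.Piece464
open Crest.Agent.R4P.Item758 Crest.Agent.R4P.AvgItem710
open Crest.Agent.R4P.Data758 Crest.Agent.R4P.WalkIT579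
open Crest.Agent.R4P.Bld532 (NS All NodeOk Bk)
open Crest.Agent.R4P.Res927 Crest.Agent.R4P.GSt927
open Crest.Agent.R4P.Skel189 (Ctx top Part PartW)
open Crest.Agent.R4.Soft104
open Crest.Agent.R4P.CrsFacts26 Crest.Agent.R4P.AsmX26
open Crest.Agent.R4.AvgItem710 (rf)
open Crest.Agent.R4.CrossShot709 (lev)
open Crest.Agent.R4P.ClsCtx36 Crest.Agent.R4P.PotSum32 Crest.Agent.R4P.ClsSh36 Crest.Agent.R4P.TotC36
open Crest.Agent.R4.ClsS (eps1)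
open Crest.Agent.R4.ShotG223 (eps2)
open Crest.Agent.R4P.AccAl31 (alX)
open Crest.Agent.R4P.ShotBig33 (BoxB box2')
open Crest.Agent.R4P.EqNum32 (BoxE boxE)
open Crest.Agent.R4P.PayA26 (CBX)
open Crest.Agent.R4P.CzSum36 Crest.Agent.R4P.CzTot36 Crest.Agent.R4P.CzCO36 Crest.Agent.R4P.CzE36
open Crest.Agent.R4P.CzBX36
open Crest.Agent.R4P.LocX25 (iFs QX TX ExLTT ctx_XD)
open Crest.Agent.R4.Ovl560 (CM CM_pos)
open Crest.Agent.R4P.ParF5 Crest.Agent.R4P.NumX34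
open Crest.Agent.R4P

/-- **the own term of a pair** -/
theorem ifc {N : Skel189.Num} {γ : ℝ} {p0 P₀ : ℕ} (X : Ctx N γ p0 P₀) (j₀ : X.c.Lam) (Ch : ℝ) :
    IFc X j₀ (QX X j₀ Ch) := by
  intro b z v v' σ σ' h
  refine ⟨fun e => ?_, fun e he hD => ?_⟩
  · unfold LocX25.iFs
    exact Par.iF_nonneg _ _
      (fun j y => CrossLoc25.uA_nonneg h.mL.pos h.L.I.hb h.L.I.hF h.L.I.hW (one_dvd _) j y)
      (fun j y => CrossLoc25.uA_nonneg h.mR.pos h.R.I.hb h.R.I.hF h.R.I.hW (one_dvd _) j y) e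
  · obtain ⟨h1, h2⟩ := LocX25.ctx_iFs_le h he hD
    exact ⟨h1.trans (le_of_eq (mul_div_assoc _ _ _)), h2.trans (le_of_eq (mul_div_assoc _ _ _))⟩

/-- **numeric facts of a column** -/
theorem ev_NC (K Kf : ℝ) : ∃ p₁ : ℕ, ∀ (s₁ b : ℕ), s₁ ≤ b → p₁ ≤ b → NC 5 s₁ K Kf b := by
  have hcast : Filter.Tendsto (fun b : ℕ => (b:ℝ)) Filter.atTop Filter.atTop := tendsto_natCast_atTop_atTop
  have hlog : Filter.Tendsto (fun b : ℕ => Real.log b) Filter.atTop Filter.atTop :=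
    Real.tendsto_log_atTop.comp hcast
  have e1 : ∀ᶠ b : ℕ in Filter.atTop, (200 * Real.log b)^(3:ℝ) ≤ (b:ℝ)^(1:ℝ) := by
    have h := (isLittleO_log_rpow_rpow_atTop 3 (show (0:ℝ) < 1 by norm_num)).def
      (show (0:ℝ) < 1/(200:ℝ)^(3:ℝ) by positivity)
    filter_upwards [hcast.eventually h, hlog.eventually_ge_atTop 0] with b hb hl
    rw [Real.norm_of_nonneg (Real.rpow_nonneg hl _), Real.norm_of_nonneg (by positivity)] at hb
    rw [Real.mul_rpow (by norm_num) hl]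
    calc (200:ℝ)^(3:ℝ) * Real.log b^(3:ℝ) ≤ (200:ℝ)^(3:ℝ) * (1/(200:ℝ)^(3:ℝ) * (b:ℝ)^(1:ℝ)) :=
          mul_le_mul_of_nonneg_left hb (by positivity)
      _ = _ := by field_simp
  have e2 := hlog.eventually_ge_atTop (max (max 23 (5 * (K + Kf) + 4 * Kf)) (max ((2 * CM)^4) 4))
  obtain ⟨p₁, hp⟩ := Filter.eventually_atTop.1 (e1.and e2)
  refine ⟨max p₁ (2 ^ 24), fun s₁ b hs hb => ?_⟩
  obtain ⟨h1, h2⟩ := hp b ((le_max_left _ _).trans hb)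
  have k1 : 23 ≤ Real.log b := ((le_max_left _ _).trans (le_max_left _ _)).trans h2
  have k2 : 5 * (K + Kf) + 4 * Kf ≤ Real.log b := ((le_max_right _ _).trans (le_max_left _ _)).trans h2
  have k3 : (2 * CM)^4 ≤ Real.log b := ((le_max_left _ _).trans (le_max_right _ _)).trans h2
  refine ⟨hs, h1, k1, k2, (le_max_right _ _).trans hb, ?_⟩
  have k0 : 1 ≤ Real.log b := by linarith
  have h5 : (Real.log b)^(5:ℝ) = (Real.log b)^5 := by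
    rw [show (5:ℝ) = ((5:ℕ):ℝ) by norm_num, Real.rpow_natCast]
  rw [h5]
  have hp4 : 1 ≤ (Real.log b)^4 := one_le_pow₀ k0
  have hp5 : Real.log b ≤ (Real.log b)^5 := by
    calc Real.log b = 1 * Real.log b := (one_mul _).symm
      _ ≤ (Real.log b)^4 * Real.log b := mul_le_mul_of_nonneg_right hp4 (by linarith)
      _ = _ := by ring
  unfold LocX25.TX
  refine max_le (by linarith) (max_le ?_ ?_)
  · calc (2 * (CM * Real.log b))^4 = (2 * CM)^4 * (Real.log b)^4 := by ring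
      _ ≤ Real.log b * (Real.log b)^4 := mul_le_mul_of_nonneg_right k3 (by positivity)
      _ = _ := by ring
  · exact pow_le_pow_right₀ k0 (by norm_num)

lemma Box_mono {C0 CT cl CL K : ℝ} {s t : ℕ} (hst : s ≤ t) (h : Box C0 CT cl CL s K) : Box C0 CT cl CL t K :=
  fun s₂ M b pr c M' b' pr' c' a a' a₀ γ θ ρ V W F A hs => h s₂ M b pr c M' b' pr' c' a a' a₀ γ θ ρ V W F A
    (hst.trans hs)

lemma BoxB_mono {C0 CT cl CL K : ℝ} {s t : ℕ} (hst : s ≤ t) (h : BoxB C0 CT cl CL s K) : BoxB C0 CT cl CL t K :=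
  fun s₂ M b pr c M' b' pr' c' a a' a₀ γ θ ρ V W F hs => h s₂ M b pr c M' b' pr' c' a a' a₀ γ θ ρ V W F
    (hst.trans hs)

lemma BoxE_mono {dead : Prop} {C0 cl CL K : ℝ} {s t : ℕ} (hst : s ≤ t) (h : BoxE dead C0 cl CL s K) :
    BoxE dead C0 cl CL t K :=
  fun s₂ M b pr c M' b' pr' c' a a' a₀ γ ρ V W F hs => h s₂ M b pr c M' b' pr' c' a a' a₀ γ ρ V W F
    (hst.trans hs)

/-- **`CBX` OF THE CONTEXTS WITH LARGE `p0`** -/
theorem ctx_CBX {N : Skel189.Num} {th : ℕ → ℕ → ℝ} {Ct C₀ : ℝ}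
    {Sx : ℕ → (ℕ → ℝ) → Finset ℕ → Finset ℕ} (h : NumOK N th Ct C₀ Sx) {K Kf : ℝ} (hK : 0 ≤ K)
    (hKf : 0 ≤ Kf) (hX : ExLTT N K Kf) {cl : ℝ} (hcl : LowT33.clT ≤ cl) (hCt : Ct ≤ cl) :
    ∃ B₁ Ce K₁ : ℝ, 0 ≤ K₁ ∧ ∀ (A CO' : ℝ), 0 ≤ A →
    max ((N.C1 + N.c2 + 2 + 1 + 5 + 8 + cl/500) + A*(6/1000) + 3)
      ((N.C1 + N.c2 + 2 + 1 + 5 + 10 + cl/500) + 1) + 1 ≤ CO' →
    ∃ p₁ : ℕ, ∀ p0 ≥ p₁, RgTh th p0 → ∀ (γ : ℝ) (P₀ : ℕ), 2 ≤ P₀ → ∀ X : Ctx N γ p0 P₀, Fin5.CF X →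
      ∀ j₀ : X.c.Lam, ∃ Q' : NS → IT → Prop, All Q' ⟨top X.S, 1, 1, 1⟩ X.c.t ∧
      CBX X j₀ Q' B₁ CO' Ce K₁ (1/2+eps1) (1/2+eps2) (alX A γ (1/(1-(1/2+eps2)))) := by
  obtain ⟨Ch, hCh, B₁, Kt, hB₁, hKt, a1, h1⟩ := ctx_XD h hK hKf hX
  obtain ⟨a2, -, h2⟩ := TotC36.ctx_mt N
  obtain ⟨a3, h3⟩ := ev_NC K Kf
  have hn1 := N.hC1
  have hn2 := N.hc2
  have hC0 : (0:ℝ) ≤ N.C1 + N.c2 + 2 + 1 := by linarith
  have hCL := OSCtxF710.CT_ge
  have hcl0 : 0 < cl := lt_of_lt_of_le LowT33.clT_pos hcl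
  obtain ⟨s1, -, -, hbox, hboxB⟩ := box2' (CL := 2 * Step588.CT) (C0 := N.C1 + N.c2 + 2 + 1) (CT := 5) hCL hC0
    (by norm_num) hcl
  obtain ⟨c1, hc1, g1⟩ := boxE False (CL := 2 * Step588.CT) (C0 := N.C1 + N.c2 + 2 + 1) hCL hC0
  obtain ⟨c2, hc2, g2⟩ := boxE True (CL := 2 * Step588.CT) (C0 := N.C1 + N.c2 + 2 + 1) hCL hC0
  set cl' : ℝ := max Ct (max c1 c2) with hcl'
  have k1 : c1 ≤ cl' := (le_max_left _ _).trans (le_max_right _ _)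
  have k2 : c2 ≤ cl' := (le_max_right _ _).trans (le_max_right _ _)
  have hcl'0 : 0 < cl' := lt_of_lt_of_le hc1 k1
  obtain ⟨s2, -, hE1⟩ := g1 cl' k1
  obtain ⟨s3, -, hE2⟩ := g2 cl' k2
  obtain ⟨a4, h4⟩ := TgtX26.ctx_nm h hCt hcl0
  obtain ⟨a5, h5⟩ := TgtX26.ctx_nm h (le_max_left _ _ : Ct ≤ cl') hcl'0
  obtain ⟨a6, h6⟩ := TgtX26.ctx_cf N
  refine ⟨B₁, (N.C1 + N.c2 + 2 + 1 + 7 + cl'/500) + (N.C1 + N.c2 + 1) + 5, 2 * (4 + Kt), by positivity,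
    fun A CO' hA hCO => ?_⟩
  refine ⟨max (max (max a1 a2) (max a4 (max a5 a6))) (max a3 (max s1 (max s2 s3))),
    fun p0 hp0 hth γ P₀ hP X hF j₀ => ?_⟩
  have q0 : max (max a1 a2) (max a4 (max a5 a6)) ≤ p0 := (le_max_left _ _).trans hp0
  have q1 : a1 ≤ p0 := ((le_max_left _ _).trans (le_max_left _ _)).trans q0
  have q2 : a2 ≤ p0 := ((le_max_right _ _).trans (le_max_left _ _)).trans q0
  have q4 : a4 ≤ p0 := ((le_max_left _ _).trans (le_max_right _ _)).trans q0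
  have q5 : a5 ≤ p0 := (((le_max_left _ _).trans (le_max_right _ _)).trans (le_max_right _ _)).trans q0
  have q6 : a6 ≤ p0 := (((le_max_right _ _).trans (le_max_right _ _)).trans (le_max_right _ _)).trans q0
  have q3 : a3 ≤ p0 := ((le_max_left _ _).trans (le_max_right _ _)).trans hp0
  have q7 : max s1 (max s2 s3) ≤ p0 := ((le_max_right _ _).trans (le_max_right _ _)).trans hp0
  obtain ⟨hr, hx⟩ := h1 p0 q1 hth γ P₀ hP X hF
  have hmt := h2 p0 q2 γ P₀ X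
  refine ⟨QX X j₀ Ch, hr j₀, ?_⟩
  exact cbx_of (C := N.C1 + N.c2 + 2) (CT := 5) (cl := cl) (cl' := cl') (Cm := N.C1 + N.c2 + 1)
    (s₁ := max s1 (max s2 s3)) (Box_mono (le_max_left _ _) hbox) (BoxB_mono (le_max_left _ _) hboxB)
    (BoxE_mono ((le_max_left _ _).trans (le_max_right _ _)) hE1)
    (BoxE_mono ((le_max_right _ _).trans (le_max_right _ _)) hE2)
    hK hKf hKt hA (by positivity) (by linarith) (by ring) (by ring) hCO
    (fun b z v v' σ σ' hz hR hs hc => hx j₀ (QX X j₀ Ch) (fun _ _ hq => hq) b z v v' σ σ' hz hR hs hc)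
    (ifc X j₀ Ch) (fun b hb => h3 _ b (q7.trans hb.le) (q3.trans hb.le))
    (h6 p0 q6 γ P₀ X j₀ Ch (QX X j₀ Ch) (fun _ _ hq => hq))
    (fun b hb hbt => ⟨h4 p0 q4 γ P₀ X b hb hbt _ fun u τ hq => hq.mf,
      h5 p0 q5 γ P₀ X b hb hbt _ fun u τ hq => hq.mf⟩)
    (TgtX26.ctx_rr X) (fun q hq => (hmt q hq).1) (fun b hb q hq => (hmt q hq).2 b hb.le)

end Crest.Agent.R4P.CzCtx36
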