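import Crest.Agent.R4P.KindPay_36

/-!
R4P (S0004), group [X], helper26: **equal classes, a dead crossing child** (form of helper32): the twins are
exact, no square root term.

* `CE2` : block bounds for equal classes, two powers, twins `≤ K₁ x`.
* `eq_leaf2` : the sum is at most `(3 + K₁) X`.
* `eq_aliveE`, `eq_tinyE` : `KindPay36.eq_aliveW`, `eq_tinyW` with a free log exponent.
-/

set_option autoImplicit false
set_option linter.unusedVariables false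
open Finset Filter

namespace Crest.Agent.R4P.EqLeaf26
open Crest.Agent.R4P.ClsSum Crest.Agent.R4P.Pay35 Crest.Agent.R4.HVW560 Crest.Agent.R4P.KindPay36

/-- **block bounds for equal classes** (`tw` = exact twins) -/
structure CE2 (b : ℕ) (C K₁ s₁ s₂ : ℝ) (tw x y : ℕ → ℝ) (φ : ℕ → ℕ → ℝ) : Prop where
  x0 : ∀ i, 0 ≤ x i
  y0 : ∀ j, 0 ≤ y j
  le : ∀ i, φ i i ≤ (Real.log b)^C * ((x i * y i)^s₁ + (x i * y i)^s₂ + x i * y i) + tw i
  tx : ∀ i, tw i ≤ K₁ * x i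

variable {C₀ Cl Ch B K₁ δ s₁ s₂ a : ℝ}

/-- **equal classes, `X` leaves with share `≥ sg`** : all classes of `x` are exceptional for the partner
(share `≤ 4 sg`) -/
theorem eq_leaf2 (hk : KOk C₀ Cl Ch B K₁ δ s₁ s₂ a) (C : ℝ) :
    ∃ b₁ : ℕ, 16 ≤ b₁ ∧ ∀ b : ℕ, b₁ ≤ b → ∀ (n : ℕ) (tw : ℕ → ℝ) (x y : ℕ → ℝ)
      (φ : ℕ → ℕ → ℝ) (t X Y : ℝ) (E : ℕ → Prop) [DecidablePred E],
      CE2 b C K₁ s₁ s₂ tw x y φ →
      ∑ i ∈ range n, x i ≤ X → ∑ j ∈ range n, y j ≤ Y →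
      (Real.log b)^(-Cl) ≤ t → (Real.log b)^B / b * t ≤ X → Y ≤ (Real.log b)^Ch →
      (∀ i, x i = 0 ∨ E i) →
      ∑ j ∈ range n, (if E j then y j else 0) ≤ 4 * ((Real.log b)^B / b) * Y →
      eqS n φ ≤ (3 + K₁) * X := by
  have hs1 := hk.s1'
  have hs1g := hk.s1
  have hs2 := hk.s2'
  have hs2g := hk.s2
  obtain ⟨b₁, -, h1⟩ := pay_leaf_eta (s := s₁) (C := C + B) (Cl := Cl) (Ch := Ch) (B := B) (κ := s₁)
    (by linarith) (by linarith) (hk.B2 hs1g.le hs1) (by linarith) 4 (by norm_num) one_pos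
  obtain ⟨b₃, -, h3'⟩ := pay_leaf_eta (s := s₂) (C := C + B) (Cl := Cl) (Ch := Ch) (B := B) (κ := s₂)
    (by linarith) (by linarith) (hk.B2 hs2g.le hs2) (by linarith) 4 (by norm_num) one_pos
  obtain ⟨b₂, -, h2⟩ := log_small (C + B + Ch) 4 (by norm_num) (κ := 1) one_pos one_pos
  refine ⟨max 16 (max (max b₁ b₃) b₂), le_max_left _ _,
    fun b hb n tw x y φ t X Y E _ h hX hY ht hXt hYh hE hEs => ?_⟩
  have hb16 : 16 ≤ b := (le_max_left _ _).trans hb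
  have hb' := (le_max_right _ _).trans hb
  have k1 := h1 b (((le_max_left _ _).trans (le_max_left _ _)).trans hb')
  have k3 := h3' b (((le_max_right _ _).trans (le_max_left _ _)).trans hb')
  have k2 := h2 b ((le_max_right _ _).trans hb')
  have hb3 : 3 ≤ b := by omega
  have hl1 := log_ge_one hb3
  set ℓ := Real.log b with hℓ
  have hl0 : 0 < ℓ := by linarith
  have hb0 : (0:ℝ) < b := by
    have : (0:ℕ) < b := by omega
    exact_mod_cast this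
  have ht0 : 0 < t := lt_of_lt_of_le (Real.rpow_pos_of_pos hl0 _) ht
  have hX0 : 0 ≤ X := le_trans (Finset.sum_nonneg fun i _ => h.x0 i) hX
  have hY0 : 0 ≤ Y := le_trans (Finset.sum_nonneg fun i _ => h.y0 i) hY
  have hSx : 0 ≤ ∑ i ∈ range n, x i := Finset.sum_nonneg fun i _ => h.x0 i
  set yE : ℕ → ℝ := fun j => if E j then y j else 0 with hyE
  have hyE0 : ∀ j, 0 ≤ yE j := fun j => by
    simp only [hyE]; split_ifs; exacts [h.y0 j, le_rfl]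
  have hE0 : 0 ≤ ∑ j ∈ range n, yE j := Finset.sum_nonneg fun j _ => hyE0 j
  have hK0 := hk.K0
  have step : ∀ i ∈ range n, φ i i ≤ ℓ^C * (x i * yE i)^s₁ + ℓ^C * (x i * yE i)^s₂ +
      ℓ^C * (x i * yE i)^(1:ℝ) + K₁ * x i := by
    intro i _
    have h3 := h.le i
    have h4 := h.tx i
    rcases hE i with hx | he
    · have z1 : (0:ℝ)^s₁ = 0 := Real.zero_rpow (ne_of_gt (by linarith))
      have z2 : (0:ℝ)^s₂ = 0 := Real.zero_rpow (ne_of_gt (by linarith))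
      have z3 : (0:ℝ)^(1:ℝ) = 0 := Real.zero_rpow one_ne_zero
      rw [hx] at h3 h4 ⊢
      simp only [zero_mul, z1, z2, z3, mul_zero, add_zero, zero_add] at h3 h4 ⊢
      linarith
    · have e : yE i = y i := by simp only [hyE]; rw [if_pos he]
      rw [e, Real.rpow_one]
      linarith
  have m1 := main_eq (n := n) hs1g.le h.x0 hyE0
  have m3 := main_eq (n := n) hs2g.le h.x0 hyE0
  have m2 := main_eq (n := n) (s := 1) (by norm_num) h.x0 hyE0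
  have mono : ∀ s : ℝ, 0 ≤ s → ((∑ i ∈ range n, x i) * (∑ j ∈ range n, yE j))^s ≤
      (X * (4 * (ℓ^B / b) * Y))^s := fun s hs =>
    Real.rpow_le_rpow (mul_nonneg hSx hE0) (mul_le_mul hX hEs hE0 hX0) hs
  have pw : ∀ s : ℝ, 1/2 < s → s ≤ 51/100 → (∑ i ∈ range n, (x i * yE i)^s ≤
      ((∑ i ∈ range n, x i) * (∑ j ∈ range n, yE j))^s) →
      4 * (ℓ^(C+B) * ((b:ℝ)^(-s) * (X*Y)^s)) ≤ 1 * X →
      ℓ^C * ∑ i ∈ range n, (x i * yE i)^s ≤ X := by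
    intro s hs hs' hm h5
    calc _ ≤ ℓ^C * (4 * ℓ^B * ((b:ℝ)^(-s) * (X*Y)^s)) := by
          have := (hm.trans (mono s (by linarith))).trans
            (tail_le (by linarith) (by linarith) hk.Bn hb3 hX0 hY0)
          gcongr
      _ = 4 * ((ℓ^C * ℓ^B) * ((b:ℝ)^(-s) * (X*Y)^s)) := by ring
      _ = 4 * (ℓ^(C+B) * ((b:ℝ)^(-s) * (X*Y)^s)) := by rw [Real.rpow_add hl0]
      _ ≤ 1 * X := h5
      _ = X := one_mul _
  have r1 := pw s₁ hs1g hs1 m1 (k1 X Y t ht hXt hY0 hYh)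
  have r3 := pw s₂ hs2g hs2 m3 (k3 X Y t ht hXt hY0 hYh)
  have r2 : ℓ^C * ∑ i ∈ range n, (x i * yE i)^(1:ℝ) ≤ X := by
    have h5 := m2.trans (mono 1 zero_le_one)
    rw [Real.rpow_one (X * _)] at h5
    have e1 : ℓ^(C+B+Ch) = ℓ^C * ℓ^B * ℓ^Ch := by rw [Real.rpow_add hl0, Real.rpow_add hl0]
    rw [Real.rpow_neg hb0.le, Real.rpow_one, e1] at k2
    calc _ ≤ ℓ^C * (X * (4 * (ℓ^B / b) * ℓ^Ch)) := by
          have := h5.trans (by gcongr : X * (4 * (ℓ^B / b) * Y) ≤ X * (4 * (ℓ^B / b) * ℓ^Ch))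
          gcongr
      _ = (4 * (ℓ^C * ℓ^B * ℓ^Ch * (b:ℝ)⁻¹)) * X := by ring
      _ ≤ 1 * X := mul_le_mul_of_nonneg_right k2 hX0
      _ = X := one_mul _
  have r4 : K₁ * ∑ i ∈ range n, x i ≤ K₁ * X := mul_le_mul_of_nonneg_left hX hK0
  unfold eqS
  refine (Finset.sum_le_sum fun i hi => step i hi).trans ?_
  simp only [Finset.sum_add_distrib, ← Finset.mul_sum]
  linarith

/-- **equal classes, both sides alive**, any log exponent -/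
theorem eq_aliveE (hk : KOk C₀ Cl Ch B K₁ δ s₁ s₂ a) (C : ℝ) {η : ℝ} (hη : 0 < η) :
    ∃ b₁ : ℕ, 16 ≤ b₁ ∧ ∀ b : ℕ, b₁ ≤ b → ∀ (n : ℕ) (x y : ℕ → ℝ)
      (φ : ℕ → ℕ → ℝ) (X Y : ℝ) (E F : ℕ → Prop) [DecidablePred E] [DecidablePred F],
      CW b C s₁ s₂ x y φ →
      ∑ i ∈ range n, x i ≤ X → ∑ j ∈ range n, y j ≤ Y →
      (Real.log b)^(-Cl) ≤ X → (Real.log b)^(-Cl) ≤ Y →
      (∀ i, F i ∨ E i) →
      ∑ j ∈ range n, (if F j then x j else 0) ≤ 4 * ((Real.log b)^B / b) * X →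
      ∑ j ∈ range n, (if E j then y j else 0) ≤ 4 * ((Real.log b)^B / b) * Y →
      eqS n φ ≤ η * (X * Y) := by
  have hs1 := hk.s1'
  have hs1g := hk.s1
  have hs2 := hk.s2'
  have hs2g := hk.s2
  obtain ⟨b₁, -, h1⟩ := pay_alive s₁ (C + B) Cl (by linarith) (κ := s₁ - 1/10) (η := η/40)
    (by linarith) (by positivity)
  obtain ⟨b₂, -, h2⟩ := pay_alive s₂ (C + B) Cl (by linarith) (κ := s₂ - 1/10) (η := η/40)
    (by linarith) (by positivity)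
  obtain ⟨b₃, -, h3⟩ := pay_alive (1/2) (C + B) Cl (by norm_num) (κ := 1/2 - 1/10) (η := η/40) (by norm_num)
    (by positivity)
  obtain ⟨b₄, -, h4⟩ := log_small (C + B + Cl) 4 (by positivity) (κ := 1) one_pos
    (η := η/10) (by positivity)
  obtain ⟨b₅, -, h5⟩ := pay_alive 1 (C + B) Cl le_rfl (κ := 1) (η := η/40) one_pos (by positivity)
  refine ⟨max 16 (max (max b₁ b₂) (max (max b₃ b₅) b₄)), le_max_left _ _,
    fun b hb n x y φ X Y E F _ _ h hX hY hXl hYl hEF hFs hEs => ?_⟩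
  have hb16 : 16 ≤ b := (le_max_left _ _).trans hb
  have hb' := (le_max_right _ _).trans hb
  have k1 := h1 b (((le_max_left _ _).trans (le_max_left _ _)).trans hb') X Y hXl hYl
  have k2 := h2 b (((le_max_right _ _).trans (le_max_left _ _)).trans hb') X Y hXl hYl
  have k3 := h3 b (((le_max_left _ _).trans ((le_max_left _ _).trans (le_max_right _ _))).trans hb') X Y hXl hYl
  have k5 := h5 b (((le_max_right _ _).trans ((le_max_left _ _).trans (le_max_right _ _))).trans hb') X Y hXl hYl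
  have k4 := h4 b (((le_max_right _ _).trans (le_max_right _ _)).trans hb')
  have hb3 : 3 ≤ b := by omega
  have hl1 := log_ge_one hb3
  set ℓ := Real.log b with hℓ
  have hl0 : 0 < ℓ := by linarith
  have hb0 : (0:ℝ) < b := by
    have : (0:ℕ) < b := by omega
    exact_mod_cast this
  have hX0 : 0 < X := lt_of_lt_of_le (Real.rpow_pos_of_pos hl0 _) hXl
  have hY0 : 0 < Y := lt_of_lt_of_le (Real.rpow_pos_of_pos hl0 _) hYl
  have hSx : 0 ≤ ∑ i ∈ range n, x i := Finset.sum_nonneg fun i _ => h.x0 i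
  have hSy : 0 ≤ ∑ i ∈ range n, y i := Finset.sum_nonneg fun i _ => h.y0 i
  set yE : ℕ → ℝ := fun j => if E j then y j else 0 with hyE
  set xF : ℕ → ℝ := fun j => if F j then x j else 0 with hxF
  have hyE0 : ∀ j, 0 ≤ yE j := fun j => by
    simp only [hyE]; split_ifs; exacts [h.y0 j, le_rfl]
  have hxF0 : ∀ j, 0 ≤ xF j := fun j => by
    simp only [hxF]; split_ifs; exacts [h.x0 j, le_rfl]
  have hE0 : 0 ≤ ∑ j ∈ range n, yE j := Finset.sum_nonneg fun j _ => hyE0 j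
  have hF0 : 0 ≤ ∑ j ∈ range n, xF j := Finset.sum_nonneg fun j _ => hxF0 j
  set β := (b:ℝ)^(1/10:ℝ) with hβ
  have hβ0 : 0 < β := by positivity
  have step : ∀ i ∈ range n, φ i i ≤
      (ℓ^C * β * (x i * yE i)^(1/2:ℝ) + ℓ^C * β * (x i * yE i)^s₁ + ℓ^C * β * (x i * yE i)^s₂ +
        ℓ^C * (x i * yE i)^(1:ℝ) + ℓ^C * yE i) +
      (ℓ^C * β * (xF i * y i)^(1/2:ℝ) + ℓ^C * β * (xF i * y i)^s₁ + ℓ^C * β * (xF i * y i)^s₂ +
        ℓ^C * (xF i * y i)^(1:ℝ) + ℓ^C * xF i) := by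
    intro i _
    have h3 := h.le i
    have z1 := h.x0 i
    have z2 := h.y0 i
    have z3 := hyE0 i
    have z4 := hxF0 i
    have hL : 0 < ℓ^C := by positivity
    rcases hEF i with he | he
    · have e : xF i = x i := by simp only [hxF]; rw [if_pos he]
      have p1 : 0 ≤ ℓ^C * β * (x i * yE i)^(1/2:ℝ) + ℓ^C * β * (x i * yE i)^s₁ +
        ℓ^C * β * (x i * yE i)^s₂ + ℓ^C * (x i * yE i)^(1:ℝ) + ℓ^C * yE i := by positivity
      refine le_trans ?_ (le_add_of_nonneg_left p1)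
      rw [e, Real.rpow_one]
      have h6 : ℓ^C * min (x i) (y i) ≤ ℓ^C * x i := mul_le_mul_of_nonneg_left (min_le_left _ _) hL.le
      linarith
    · have e : yE i = y i := by simp only [hyE]; rw [if_pos he]
      have p1 : 0 ≤ ℓ^C * β * (xF i * y i)^(1/2:ℝ) + ℓ^C * β * (xF i * y i)^s₁ +
        ℓ^C * β * (xF i * y i)^s₂ + ℓ^C * (xF i * y i)^(1:ℝ) + ℓ^C * xF i := by positivity
      refine le_trans ?_ (le_add_of_nonneg_right p1)
      rw [e, Real.rpow_one]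
      have h6 : ℓ^C * min (x i) (y i) ≤ ℓ^C * y i := mul_le_mul_of_nonneg_left (min_le_right _ _) hL.le
      linarith
  -- powers
  have monoE : ∀ s : ℝ, 1/2 ≤ s → s ≤ 1 → ∑ i ∈ range n, (x i * yE i)^s ≤
      4 * ℓ^B * ((b:ℝ)^(-s) * (X*Y)^s) := fun s hs hs' =>
    ((main_eq (n := n) hs h.x0 hyE0).trans (Real.rpow_le_rpow (mul_nonneg hSx hE0)
      (mul_le_mul hX hEs hE0 hX0.le) (by linarith))).trans
      (tail_le (by linarith) hs' hk.Bn hb3 hX0.le hY0.le)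
  have monoF : ∀ s : ℝ, 1/2 ≤ s → s ≤ 1 → ∑ i ∈ range n, (xF i * y i)^s ≤
      4 * ℓ^B * ((b:ℝ)^(-s) * (X*Y)^s) := fun s hs hs' => by
    have h6 := (main_eq (n := n) hs hxF0 h.y0).trans (Real.rpow_le_rpow (mul_nonneg hF0 hSy)
      (mul_le_mul hFs hY hSy (by positivity)) (by linarith : (0:ℝ) ≤ s))
    have h7 := tail_le (s := s) (B := B) (by linarith) hs' hk.Bn hb3 hY0.le hX0.le
    have e : 4 * (ℓ^B / b) * X * Y = Y * (4 * (ℓ^B / b) * X) := by ring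
    rw [e] at h6
    rw [mul_comm X Y]
    exact h6.trans h7
  have A1 : ∀ (s S : ℝ), ℓ^(C+B) * ((b:ℝ)^(-(s - 1/10)) * (X*Y)^s) ≤ η/40 * (X*Y) →
      S ≤ 4 * ℓ^B * ((b:ℝ)^(-s) * (X*Y)^s) → ℓ^C * β * S ≤ η/10 * (X*Y) := by
    intro s S hk' hS
    have e1 : β * (b:ℝ)^(-s) = (b:ℝ)^(-(s-1/10)) := by
      rw [hβ, ← Real.rpow_add hb0]; congr 1; ring
    calc _ ≤ ℓ^C * β * (4 * ℓ^B * ((b:ℝ)^(-s) * (X*Y)^s)) := by gcongr
      _ = 4 * ((ℓ^C * ℓ^B) * ((β * (b:ℝ)^(-s)) * (X*Y)^s)) := by ring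
      _ = 4 * (ℓ^(C+B) * ((b:ℝ)^(-(s-1/10)) * (X*Y)^s)) := by rw [e1, Real.rpow_add hl0]
      _ ≤ 4 * (η/40 * (X*Y)) := mul_le_mul_of_nonneg_left hk' (by norm_num)
      _ = _ := by ring
  have A2 : ∀ S : ℝ, S ≤ 4 * ℓ^B * ((b:ℝ)^(-(1:ℝ)) * (X*Y)^(1:ℝ)) → ℓ^C * S ≤ η/10 * (X*Y) := by
    intro S hS
    calc _ ≤ ℓ^C * (4 * ℓ^B * ((b:ℝ)^(-(1:ℝ)) * (X*Y)^(1:ℝ))) := by gcongr
      _ = 4 * ((ℓ^C * ℓ^B) * ((b:ℝ)^(-(1:ℝ)) * (X*Y)^(1:ℝ))) := by ring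
      _ = 4 * (ℓ^(C+B) * ((b:ℝ)^(-(1:ℝ)) * (X*Y)^(1:ℝ))) := by rw [Real.rpow_add hl0]
      _ ≤ 4 * (η/40 * (X*Y)) := mul_le_mul_of_nonneg_left k5 (by norm_num)
      _ = _ := by ring
  have lo : ℓ^(-Cl) * ℓ^Cl = 1 := by rw [← Real.rpow_add hl0]; simp
  have hY' : 1 ≤ ℓ^Cl * Y := by
    calc (1:ℝ) = ℓ^(-Cl) * ℓ^Cl := lo.symm
      _ ≤ Y * ℓ^Cl := mul_le_mul_of_nonneg_right hYl (by positivity)
      _ = _ := mul_comm _ _
  have hX' : 1 ≤ ℓ^Cl * X := by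
    calc (1:ℝ) = ℓ^(-Cl) * ℓ^Cl := lo.symm
      _ ≤ X * ℓ^Cl := mul_le_mul_of_nonneg_right hXl (by positivity)
      _ = _ := mul_comm _ _
  have e3 : ℓ^(C+B+Cl) = ℓ^C * ℓ^B * ℓ^Cl := by rw [Real.rpow_add hl0, Real.rpow_add hl0]
  rw [Real.rpow_neg hb0.le, Real.rpow_one, e3] at k4
  have A4 : ℓ^C * ∑ i ∈ range n, yE i ≤ η/10 * (X*Y) := by
    calc _ ≤ ℓ^C * (4 * (ℓ^B / b) * Y) := by gcongr
      _ = (4 * (ℓ^C * ℓ^B * (b:ℝ)⁻¹)) * (1 * Y) := by ring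
      _ ≤ (4 * (ℓ^C * ℓ^B * (b:ℝ)⁻¹)) * ((ℓ^Cl * X) * Y) := by gcongr
      _ = (4 * (ℓ^C * ℓ^B * ℓ^Cl * (b:ℝ)⁻¹)) * (X * Y) := by ring
      _ ≤ η/10 * (X*Y) := mul_le_mul_of_nonneg_right k4 (mul_pos hX0 hY0).le
  have A5 : ℓ^C * ∑ i ∈ range n, xF i ≤ η/10 * (X*Y) := by
    calc _ ≤ ℓ^C * (4 * (ℓ^B / b) * X) := by gcongr
      _ = (4 * (ℓ^C * ℓ^B * (b:ℝ)⁻¹)) * (1 * X) := by ring
      _ ≤ (4 * (ℓ^C * ℓ^B * (b:ℝ)⁻¹)) * ((ℓ^Cl * Y) * X) := by gcongr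
      _ = (4 * (ℓ^C * ℓ^B * ℓ^Cl * (b:ℝ)⁻¹)) * (X * Y) := by ring
      _ ≤ η/10 * (X*Y) := mul_le_mul_of_nonneg_right k4 (mul_pos hX0 hY0).le
  have q1 := A1 s₁ _ k1 (monoE s₁ hs1g.le (by linarith))
  have q2 := A1 s₁ _ k1 (monoF s₁ hs1g.le (by linarith))
  have q3 := A1 s₂ _ k2 (monoE s₂ hs2g.le (by linarith))
  have q4 := A1 s₂ _ k2 (monoF s₂ hs2g.le (by linarith))
  have q5 := A1 (1/2) _ k3 (monoE (1/2) le_rfl (by norm_num))
  have q6 := A1 (1/2) _ k3 (monoF (1/2) le_rfl (by norm_num))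
  have q7 := A2 _ (monoE 1 (by norm_num) le_rfl)
  have q8 := A2 _ (monoF 1 (by norm_num) le_rfl)
  unfold eqS
  refine (Finset.sum_le_sum fun i hi => step i hi).trans ?_
  simp only [Finset.sum_add_distrib, ← Finset.mul_sum]
  linarith

/-- **equal classes, `X` tiny**, any log exponent -/
theorem eq_tinyE (hk : KOk C₀ Cl Ch B K₁ δ s₁ s₂ a) (C : ℝ) {η : ℝ} (hη : 0 < η) :
    ∃ b₁ : ℕ, 16 ≤ b₁ ∧ ∀ b : ℕ, b₁ ≤ b → ∀ (n : ℕ) (x y : ℕ → ℝ)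
      (φ : ℕ → ℕ → ℝ) (X Y : ℝ),
      CW b C s₁ s₂ x y φ →
      ∑ i ∈ range n, x i ≤ X → ∑ j ∈ range n, y j ≤ Y →
      X ≤ 2 * ((Real.log b)^B / b) * (Real.log b)^Ch →
      (Real.log b)^(-Cl) ≤ Y → Y ≤ (Real.log b)^Ch → eqS n φ ≤ η * Y := by
  have hs1 := hk.s1'
  have hs1g := hk.s1
  have hs2 := hk.s2'
  have hs2g := hk.s2
  obtain ⟨b₁, -, h1⟩ := pay_tiny (s := s₁) (C := C) (Cl := Cl) (κ := -(1/10)) (by linarith) (by linarith)
    hk.Ch0 hk.Bn (by linarith) 1 zero_le_one (η := η/5) (by positivity)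
  obtain ⟨b₂, -, h2⟩ := pay_tiny (s := 1) (C := C) (Cl := Cl) (κ := 0) zero_le_one le_rfl
    hk.Ch0 hk.Bn (by norm_num) 1 zero_le_one (η := η/5) (by positivity)
  obtain ⟨b₃, -, h3⟩ := pay_tiny (s := 1/2) (C := C) (Cl := Cl) (κ := -(1/10)) (by norm_num) (by norm_num)
    hk.Ch0 hk.Bn (by norm_num) 1 zero_le_one (η := η/5) (by positivity)
  obtain ⟨b₄, -, h4⟩ := pay_tiny (s := s₂) (C := C) (Cl := Cl) (κ := -(1/10)) (by linarith) (by linarith)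
    hk.Ch0 hk.Bn (by linarith) 1 zero_le_one (η := η/5) (by positivity)
  obtain ⟨b₅, -, h5⟩ := log_small (C + B + Ch + Cl) 2 (by positivity) (κ := 1) one_pos
    (η := η/5) (by positivity)
  refine ⟨max 16 (max (max b₁ b₂) (max (max b₃ b₅) b₄)), le_max_left _ _,
    fun b hb n x y φ X Y h hX hY hXt hYl hYh => ?_⟩
  have hb16 : 16 ≤ b := (le_max_left _ _).trans hb
  have hb' := (le_max_right _ _).trans hb
  have hX0 : 0 ≤ X := le_trans (Finset.sum_nonneg fun i _ => h.x0 i) hX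
  have k1 := h1 b (((le_max_left _ _).trans (le_max_left _ _)).trans hb') X Y hX0 hXt hYl hYh
  have k2 := h2 b (((le_max_right _ _).trans (le_max_left _ _)).trans hb') X Y hX0 hXt hYl hYh
  have k3 := h3 b (((le_max_left _ _).trans ((le_max_left _ _).trans (le_max_right _ _))).trans hb') X Y
    hX0 hXt hYl hYh
  have k5 := h5 b (((le_max_right _ _).trans ((le_max_left _ _).trans (le_max_right _ _))).trans hb')
  have k4 := h4 b (((le_max_right _ _).trans (le_max_right _ _)).trans hb') X Y hX0 hXt hYl hYh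
  have hb3 : 3 ≤ b := by omega
  have hl1 := log_ge_one hb3
  set ℓ := Real.log b with hℓ
  have hl0 : 0 < ℓ := by linarith
  have hb0 : (0:ℝ) < b := by
    have : (0:ℕ) < b := by omega
    exact_mod_cast this
  have hY0 : 0 ≤ Y := le_trans (Finset.sum_nonneg fun i _ => h.y0 i) hY
  have hSx : 0 ≤ ∑ i ∈ range n, x i := Finset.sum_nonneg fun i _ => h.x0 i
  have hSy : 0 ≤ ∑ i ∈ range n, y i := Finset.sum_nonneg fun i _ => h.y0 i
  have mono : ∀ s : ℝ, 1/2 ≤ s → ∑ i ∈ range n, (x i * y i)^s ≤ (X * Y)^s := fun s hs =>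
    (main_eq (n := n) hs h.x0 h.y0).trans (Real.rpow_le_rpow (mul_nonneg hSx hSy)
      (mul_le_mul hX hY hSy hX0) (by linarith))
  set β := (b:ℝ)^(1/10:ℝ) with hβ
  have hβ0 : 0 < β := by positivity
  have hL : 0 < ℓ^C := by positivity
  have step : ∀ i ∈ range n, φ i i ≤ ℓ^C * β * (x i * y i)^(1/2:ℝ) + ℓ^C * β * (x i * y i)^s₁ +
      ℓ^C * β * (x i * y i)^s₂ + ℓ^C * (x i * y i)^(1:ℝ) + ℓ^C * x i := by
    intro i _
    have h3 := h.le i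
    have h6 : ℓ^C * min (x i) (y i) ≤ ℓ^C * x i := mul_le_mul_of_nonneg_left (min_le_left _ _) hL.le
    rw [Real.rpow_one]
    linarith
  have eβ : (b:ℝ)^(-(-(1/10)):ℝ) = β := by rw [neg_neg]
  rw [eβ, one_mul] at k1 k3 k4
  rw [neg_zero, Real.rpow_zero, one_mul, one_mul] at k2
  have m1 := mono s₁ hs1g.le
  have m2 := mono 1 (by norm_num)
  have m3 := mono (1/2) le_rfl
  have m4 := mono s₂ hs2g.le
  unfold eqS
  refine (Finset.sum_le_sum fun i hi => step i hi).trans ?_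
  simp only [Finset.sum_add_distrib, ← Finset.mul_sum]
  have R : ∀ (s S : ℝ), S ≤ (X*Y)^s → ℓ^C * (β * (X*Y)^s) ≤ η/5 * Y → ℓ^C * β * S ≤ η/5 * Y := by
    intro s S hS hk'
    calc _ ≤ ℓ^C * β * (X*Y)^s := by gcongr
      _ = ℓ^C * (β * (X*Y)^s) := by ring
      _ ≤ _ := hk'
  have r1 := R s₁ _ m1 k1
  have r3 := R (1/2) _ m3 k3
  have r4 := R s₂ _ m4 k4
  have r2 : ℓ^C * ∑ i ∈ range n, (x i * y i)^(1:ℝ) ≤ η/5 * Y :=
    (mul_le_mul_of_nonneg_left m2 (by positivity)).trans k2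
  have lo : ℓ^(-Cl) * ℓ^Cl = 1 := by rw [← Real.rpow_add hl0]; simp
  have hY' : 1 ≤ ℓ^Cl * Y := by
    calc (1:ℝ) = ℓ^(-Cl) * ℓ^Cl := lo.symm
      _ ≤ Y * ℓ^Cl := mul_le_mul_of_nonneg_right hYl (by positivity)
      _ = _ := mul_comm _ _
  have e3 : ℓ^(C+B+Ch+Cl) = ℓ^C * ℓ^B * ℓ^Ch * ℓ^Cl := by
    rw [Real.rpow_add hl0, Real.rpow_add hl0, Real.rpow_add hl0]
  rw [Real.rpow_neg hb0.le, Real.rpow_one, e3] at k5
  have r5 : ℓ^C * ∑ i ∈ range n, x i ≤ η/5 * Y := by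
    calc _ ≤ ℓ^C * (2 * (ℓ^B / b) * ℓ^Ch) := by
          have := hX.trans hXt
          gcongr
      _ = (2 * (ℓ^C * ℓ^B * ℓ^Ch * (b:ℝ)⁻¹)) * 1 := by ring
      _ ≤ (2 * (ℓ^C * ℓ^B * ℓ^Ch * (b:ℝ)⁻¹)) * (ℓ^Cl * Y) := by gcongr
      _ = (2 * (ℓ^C * ℓ^B * ℓ^Ch * ℓ^Cl * (b:ℝ)⁻¹)) * Y := by ring
      _ ≤ η/5 * Y := mul_le_mul_of_nonneg_right k5 hY0
  linarith

end Crest.Agent.R4P.EqLeaf26
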