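import Crest.Agent.R4P.NumTot_33

/-!
R4P (S0004), helper32, module D, group [X]: the scale of an `[E]` pair.
-/

set_option autoImplicit false

namespace Crest.Agent.R4P.DscE32

open Crest.Agent.R4.HVW560 Crest.Agent.R4.AvgItem710
open Crest.Agent.R4.NMW710 (Dq ESI)
open Crest.Agent.R4.CrossLoc709 (SE Dsc)
open Crest.Agent.R4P

/-- the scale of an `[E]` pair is at most `2^(-400)` -/
theorem Dq_of_ESI {γ : ℝ} {ρ : ℕ → ℝ} {M b pr c M' b' pr' c' : ℕ} {e : ℕ × ℕ}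
    (h : ESI γ ρ M b pr c M' b' pr' c' e) : Dq ρ M b pr c M' b' pr' c' e ≤ 1 / 2 ^ 400 := by
  obtain ⟨t, m, m', h1, -⟩ := h
  have h2 : Dq ρ M b pr c M' b' pr' c' e ≤ 1 / t := max_le h1.hyr h1.hxr
  exact h2.trans (one_div_le_one_div_of_le (by positivity) h1.ht)

theorem Dsc_of_ESI {γ : ℝ} {ρ : ℕ → ℝ} {M b pr M' b' pr' : ℕ} {e : ℕ × ℕ}
    (h : ESI γ ρ M b pr 1 M' b' pr' 1 e) :
    Dsc (ρ e.1) (ρ e.2) (SE M b pr M' b' pr' e) ≤ 1 / 2 := by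
  rw [← NumTot33.Dq_one]
  refine (Dq_of_ESI h).trans ?_
  refine one_div_le_one_div_of_le (by norm_num) ?_
  calc (2:ℝ) = 2 ^ 1 := by norm_num
    _ ≤ 2 ^ 400 := pow_le_pow_right₀ (by norm_num) (by norm_num)

end Crest.Agent.R4P.DscE32
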