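import Crest.Agent.R4P.YIb_25

/-!
R4P (S0004), helper25, module D: **item data of the cross walk `WalkC` and the potential of the item pairs**.

* `YI` : item data of a state (both sides, averaging moduli, circumference, levels);
* `YI.next` : the continuing children with their item data (`Chd`);
* `pot_bound` : `WC loc s ≤ WC G s + Σ_e pot e` for every local cost `loc ≤ G + Σ_e lcS e`.
-/

set_option autoImplicit false
set_option linter.unusedSectionVars false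
set_option linter.unusedVariables false
set_option linter.unusedSimpArgs false
open Finset

namespace Crest.Agent.R4P.YI25

open Crest.Agent.R4.HVW560 Crest.Agent.R4P.AvgItem710
open Crest.Agent.R4.Tour104 Crest.Agent.R4.Tour758 Crest.Agent.R4.Avg758 Crest.Agent.R4.Clos758
open Crest.Agent.R4.ClosL758 Crest.Agent.R4.ClosG758 Crest.Agent.R4.ClosR758
open Crest.Agent.R4P.Cnt588 Crest.Agent.R4P.Walk560 Crest.Agent.R4P.Item758
open Crest.Agent.R4P.Bld532 (NS All NodeOk Bk dv nd mem_dv mem_nd)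
open Crest.Agent.R4P.GSt927 Crest.Agent.R4P.WalkIT579 Crest.Agent.R4P.NMW710
open Crest.Agent.R4P.CrossLoc25 Crest.Agent.R4P.CrossLocC25 Crest.Agent.R4P.WalkC

variable {Λ κ : Type*} [Fintype Λ] [DecidableEq Λ] [Fintype κ] [DecidableEq κ] [WRel κ]
  {D : Par Λ κ} {sp : ℕ → Finset Λ} {P : Bld532.Par} {W : ℕ → ℝ} {Qp : NS → IT → Prop}
  {Al : Finset ℕ} {RP : Finset (Λ × Λ) → Prop}

/-- **item data of a state of the cross walk** -/
structure YI (D : Par Λ κ) (sp : ℕ → Finset Λ) (Qp : NS → IT → Prop)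
    (RP : Finset (Λ × Λ) → Prop) (s : St Λ κ) (u u' : NS) (τ τ' : IT) : Prop where
  L : SY D sp Qp u τ s.A s.t
  R : SY D sp Qp u' τ' s.A' s.t'
  mL : MS s.p s.M s.O'
  mR : MS s.p s.M' s.O
  circ : u.A * u.B * s.M = u'.A * u'.B * s.M'
  lv : ∃ m, Lw m u τ ∧ Lw m u' τ' ∧ (∀ l : ℕ, l.Prime → l ∣ s.M → m ≤ l) ∧
    ∀ l : ℕ, l.Prime → l ∣ s.M' → m ≤ l
  rp : RP s.R

lemma YI.st {s : St Λ κ} {u u' : NS} {τ τ' : IT} (h : YI D sp Qp RP s u u' τ τ') :
    StI D sp s u.B u.A τ u'.B u'.A τ' := ⟨h.L.S, h.R.S, h.mL.pos, h.mR.pos⟩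

/-- item pairs of a state -/
noncomputable abbrev Ep (D : Par Λ κ) (Al : Finset ℕ) (s : St Λ κ) (τ τ' : IT) :
    Finset (ℕ × ℕ) := Qi D Al τ s.A ×ˢ Qi D Al τ' s.A'

/-- columns and levels of a live state -/
lemma YI.lev (hh : YH D sp P W Qp) {s : St Λ κ} {u u' : NS} {τ τ' : IT}
    (h : YI D sp Qp RP s u u' τ τ') (hl : ¬ (s.t.isLeaf ∧ s.t'.isLeaf)) :
    s.p.Prime ∧ Lw s.p u τ ∧ Lw s.p u' τ' := by
  have n1 := hh.nd _ _ h.L.q.self
  have n2 := hh.nd _ _ h.R.q.self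
  have e1 : s.t.top = WalkIT579.tp τ := by rw [h.L.S.eq]; exact WalkIT579.toDT_top D sp _ _ τ
  have e2 : s.t'.top = WalkIT579.tp τ' := by rw [h.R.S.eq]; exact WalkIT579.toDT_top D sp _ _ τ'
  have l1 : s.t.isLeaf ↔ isL τ := by rw [h.L.S.eq]; exact WalkIT579.toDT_leaf D sp _ _ τ
  have l2 : s.t'.isLeaf ↔ isL τ' := by rw [h.R.S.eq]; exact WalkIT579.toDT_leaf D sp _ _ τ'
  have t1 : isL τ → WalkIT579.tp τ = 0 := by
    intro hi
    cases τ with
    | leaf S => rfl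
    | _ => exact absurd hi id
  have t2 : isL τ' → WalkIT579.tp τ' = 0 := by
    intro hi
    cases τ' with
    | leaf S => rfl
    | _ => exact absurd hi id
  have hpe : s.p = max (WalkIT579.tp τ) (WalkIT579.tp τ') := by
    show max s.t.top s.t'.top = _
    rw [e1, e2]
  have k1 : ¬ isL τ → _ := fun hi => top_of_nodeOk n1 hi
  have k2 : ¬ isL τ' → _ := fun hi => top_of_nodeOk n2 hi
  rw [l1, l2] at hl
  obtain ⟨m, m1, m2, -, -⟩ := h.lv
  have hpp : s.p.Prime ∧ s.p ≤ m := by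
    rw [hpe]
    rcases le_total (WalkIT579.tp τ) (WalkIT579.tp τ') with hle | hle
    · rw [max_eq_right hle]
      have i2 : ¬ isL τ' := by
        intro i2
        have i1 : ¬ isL τ := fun i1 => hl ⟨i1, i2⟩
        have := (k1 i1).1.pos
        rw [t2 i2] at hle
        omega
      exact ⟨(k2 i2).1, (m2.1.resolve_left i2) _ (k2 i2).1 (k2 i2).2.1⟩
    · rw [max_eq_left hle]
      have i1 : ¬ isL τ := by
        intro i1
        have i2 : ¬ isL τ' := fun i2 => hl ⟨i1, i2⟩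
        have := (k2 i2).1.pos
        rw [t1 i1] at hle
        omega
      exact ⟨(k1 i1).1, (m1.1.resolve_left i1) _ (k1 i1).1 (k1 i1).2.1⟩
  refine ⟨hpp.1, ⟨?_, fun l hl hlp => m1.2 l hl (lt_of_lt_of_le hlp hpp.2)⟩,
    ⟨?_, fun l hl hlp => m2.2 l hl (lt_of_lt_of_le hlp hpp.2)⟩⟩
  · by_cases i1 : isL τ
    · exact Or.inl i1
    · right
      intro l hl hln
      rw [hpe]
      exact ((k1 i1).2.2 l hl hln).trans (le_max_left _ _)
  · by_cases i2 : isL τ'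
    · exact Or.inl i2
    · right
      intro l hl hln
      rw [hpe]
      exact ((k2 i2).2.2 l hl hln).trans (le_max_right _ _)

/-- a continuing child with its item data -/
structure CR (Λ κ : Type*) where
  w : ℝ
  s : St Λ κ
  v : NS
  v' : NS
  σ : IT
  σ' : IT

/-- **facts about a continuing child** -/
structure Chd (D : Par Λ κ) (Al : Finset ℕ) (sp : ℕ → Finset Λ) (Qp : NS → IT → Prop)
    (RP : Finset (Λ × Λ) → Prop) (p : ℕ) (s : St Λ κ) (u u' : NS) (τ τ' : IT) (c : CR Λ κ) :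
    Prop where
  yi : YI D sp Qp RP c.s c.v c.v' c.σ c.σ'
  subL : Qi D Al c.σ c.s.A ⊆ Qi D Al τ s.A
  subR : Qi D Al c.σ' c.s.A' ⊆ Qi D Al τ' s.A'
  lk : ∀ e ∈ Ep D Al c.s c.σ c.σ', Lk p s.M u.A u.B s.M' u'.A u'.B τ τ' c.s.M c.v.A c.v.B
    c.s.M' c.v'.A c.v'.B c.σ c.σ' e
  nm : ∃ f, Nm p (u.A, u.B, s.M) (c.v.A, c.v.B, c.s.M) f ∧
    Nm p (u'.A, u'.B, s.M') (c.v'.A, c.v'.B, c.s.M') f
  w0 : 0 ≤ c.w
  wB : c.w * ((c.v.B : ℝ) * c.v'.B) ≤ (u.B : ℝ) * u'.B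
  wc : c.w * (c.v.c * c.v'.c) = u.c * u'.c
  /-- the columns decrease -/
  ple : c.s.p ≤ p
  /-- levels -/
  lw : Lw p c.v c.σ ∧ Lw p c.v' c.σ'
  /-- the relation changes at the columns, the missing products only there -/
  rl : c.s.R = Ro (D.rho p) ∨ (c.s.R = s.R ∧ c.v.B = u.B ∧ c.v'.B = u'.B)

lemma Chd.sub {p : ℕ} {s : St Λ κ} {u u' : NS} {τ τ' : IT} {c : CR Λ κ}
    (h : Chd D Al sp Qp RP p s u u' τ τ' c) : Ep D Al c.s c.σ c.σ' ⊆ Ep D Al s τ τ' :=
  Finset.product_subset_product h.subL h.subR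

lemma Chd.of (hh : YH D sp P W Qp) {p : ℕ} (hp : p.Prime) {s : St Λ κ} {u u' : NS} {τ τ' : IT}
    (h : YI D sp Qp RP s u u' τ τ') {T T' : ℕ → Ty} {f : ℕ} {s₂ : St Λ κ} {v v' : NS}
    {σ σ' : IT} {w : ℝ} (hL : Sm D Al sp Qp p s.M u τ s.A T f s₂.M v σ s₂.A s₂.t)
    (hR : Sm D Al sp Qp p s.M' u' τ' s.A' T' f s₂.M' v' σ' s₂.A' s₂.t')
    (hT : ∀ q ∈ Qi D Al σ s₂.A, ∀ r ∈ Qi D Al σ' s₂.A', (T q).ok (T' r))
    (mL : MS p s₂.M s₂.O') (mR : MS p s₂.M' s₂.O) (rp : RP s₂.R) (w0 : 0 ≤ w)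
    (wB : w * ((v.B : ℝ) * v'.B) ≤ (u.B : ℝ) * u'.B) (wc : w * (v.c * v'.c) = u.c * u'.c)
    (rl : s₂.R = Ro (D.rho p) ∨ (s₂.R = s.R ∧ v.B = u.B ∧ v'.B = u'.B) := by
      first
      | exact Or.inl rfl
      | exact Or.inr ⟨rfl, rfl, rfl⟩
      | exact Or.inr ⟨rfl, by assumption, by assumption⟩) :
    Chd D Al sp Qp RP p s u u' τ τ' ⟨w, s₂, v, v', σ, σ'⟩ where
  yi := by
    have hpm : s₂.p ≤ p := max_le hL.tp hR.tp
    refine ⟨hL.y, hR.y, mL.down hpm, mR.down hpm, ?_, ⟨p, hL.lw, hR.lw,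
      fun l hl hd => mL.geM hl hd, fun l hl hd => mR.geM hl hd⟩, rp⟩
    have c1 := hL.nm.circ
    have c2 := hR.nm.circ
    simp only at c1 c2
    rw [c1, c2, h.circ]
  subL := hL.sub
  subR := hR.sub
  lk := by
    intro e he
    obtain ⟨a, b⟩ := Finset.mem_product.1 he
    have ia := Qi_items (hL.sub a)
    have ib := Qi_items (hR.sub b)
    refine ⟨⟨T e.1, T' e.2, hT _ a _ b, hL.kd _ a, hR.kd _ b⟩, hL.mt _ (Qi_items a),
      hR.mt _ (Qi_items b), ⟨h.L.UI0 hh h.mL.pos ia, hL.y.UI0 hh hL.M0 (Qi_items a),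
      h.R.UI0 hh h.mR.pos ib, hR.y.UI0 hh hR.M0 (Qi_items b)⟩, ?_⟩
    intro l hl
    rcases Finset.mem_union.1 hl with hl | hl
    · exact (BldF542.mt_lt _ _ h.L.ok _ _ hl).1
    · exact (BldF542.mt_lt _ _ h.R.ok _ _ hl).1
  nm := ⟨f, hL.nm, hR.nm⟩
  w0 := w0
  wB := wB
  wc := wc
  ple := max_le hL.tp hR.tp
  lw := ⟨hL.lw, hR.lw⟩
  rl := rl

section wts
variable {p : ℕ}

lemma wt_pos (hp : p.Prime) : 0 < 1 / (p:ℝ) ∧ 0 < 1 - 1 / (p:ℝ) ∧ 1 / (p:ℝ) * p = 1 ∧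
    1 / (p:ℝ) ≤ 1 := by
  have h2 : (2:ℝ) ≤ p := by exact_mod_cast hp.two_le
  have h0 : (0:ℝ) < p := by linarith
  have h1 : 1 / (p:ℝ) ≤ 1 / 2 := one_div_le_one_div_of_le (by norm_num) h2
  refine ⟨by positivity, by linarith, by field_simp, by linarith⟩

lemma wB_1 {w b b' : ℝ} (hw : 0 ≤ w) (hb : 0 ≤ b) (hb' : 0 ≤ b') :
    (1 - w) * (b * b') ≤ b * b' := by
  have := mul_nonneg hw (mul_nonneg hb hb')
  linarith [this, show (1 - w) * (b * b') = b * b' - w * (b * b') by ring]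

/-- the constant of the present child -/
lemma wc_1 (hp : p.Prime) (c : ℝ) : (1 - 1 / (p:ℝ)) * (c / (1 - 1 / (p:ℝ))) = c :=
  mul_div_cancel₀ _ (wt_pos hp).2.1.ne'

/-- the constant of the missing child -/
lemma wc_0 (hp : p.Prime) (c : ℝ) : 1 / (p:ℝ) * (c * p) = c := by
  rw [mul_left_comm, (wt_pos hp).2.2.1, mul_one]

lemma wcL {w a x : ℝ} (h : w * a = x) (b : ℝ) : w * (a * b) = x * b := by rw [← mul_assoc, h]

lemma wcR {w b y : ℝ} (h : w * b = y) (a : ℝ) : w * (a * b) = a * y := by rw [mul_left_comm, h]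

lemma wcLR {w w' a b x y : ℝ} (h : w * a = x) (h' : w' * b = y) : (w * w') * (a * b) = x * y := by
  rw [mul_mul_mul_comm, h, h']

end wts

/-! ### the `br` views -/

/-- `br` view, modulus without the prime: present child, missing child of a tie -/
lemma SY.brv (hh : YH D sp P W Qp) {u : NS} {τ : IT} {A : Finset Λ} {p M : ℕ} {w : ℝ}
    {r : Λ → κ} {t₁ t₀ : DT Λ κ} {v : Λ → ℝ → ℝ} {B G : κ → ℝ → ℝ}
    (h : SY D sp Qp u τ A (.br p w r t₁ t₀ v B G)) (hM0 : 0 < M) (hM : ¬ p ∣ M) :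
    r = D.rho p ∧ p.Prime ∧ ∃ v₁ σ₁, v₁.B = u.B ∧ (1 - w) * v₁.c = u.c ∧
      Sm D Al sp Qp p M u τ A (fun _ => .D) p M v₁ σ₁ A t₁ ∧
      (w = 0 ∨ (w = 1 / (p:ℝ) ∧ (∀ q, p ∉ σ₁.mt q) ∧ ∃ v₀ σ₀, v₀.B = u.B * p ∧ w * v₀.c = u.c ∧
        Sm D Al sp Qp p M u τ A (fun _ => .R) p M v₀ σ₀ A t₀ ∧
        Disjoint (Qi D Al σ₁ A) (Qi D Al σ₀ A) ∧ (∀ q, p ∉ σ₀.mt q))) := by
  rcases toDT_br h.S.eq.symm with ⟨S, τ₁, τ₀, rfl, rfl, rfl, rfl, rfl, -⟩ | ⟨τ₁, rfl, rfl, rfl, -, rfl, -⟩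
  · exact ⟨rfl, h.S.hF.1, ⟨p, u.c / (1 - 1 / (p : ℝ)), u.A * p, u.B⟩, τ₁, rfl, wc_1 h.S.hF.1 _,
      Sm.br₁ hh h hM0 hM, Or.inr ⟨rfl, br_not₁ h, ⟨p, u.c * p, u.A, u.B * p⟩, τ₀, rfl,
      wc_0 h.S.hF.1 _, Sm.br₀ hh h hM0, Qi_disj h.ok.2.2.1, br_not₀ h⟩⟩
  · exact ⟨rfl, h.S.hF.1, ⟨p + 1, u.c, u.A * p, u.B⟩, τ₁, rfl, by simp, Sm.pl hh h hM0 hM,
      Or.inl rfl⟩

/-- `br` view, free step -/
lemma SY.brf (hh : YH D sp P W Qp) {u : NS} {τ : IT} {A : Finset Λ} {p M M₂ : ℕ} {w : ℝ}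
    {r : Λ → κ} {t₁ t₀ : DT Λ κ} {v : Λ → ℝ → ℝ} {B G : κ → ℝ → ℝ}
    (h : SY D sp Qp u τ A (.br p w r t₁ t₀ v B G)) (hM0 : 0 < M₂) (hM : M = p * M₂) :
    r = D.rho p ∧ p.Prime ∧ ∃ v₁ σ₁, v₁.B = u.B ∧ (1 - w) * v₁.c = u.c ∧
      Sm D Al sp Qp p M u τ A (fun _ => .I) 1 M₂ v₁ σ₁ A t₁ ∧
      (w = 0 ∨ (w = 1 / (p:ℝ) ∧ ∃ v₀ σ₀, v₀.B = u.B * p ∧ w * v₀.c = u.c ∧
        Sm D Al sp Qp p M u τ A (fun _ => .I) 1 M₂ v₀ σ₀ A t₀ ∧
        Disjoint (Qi D Al σ₁ A) (Qi D Al σ₀ A))) := by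
  rcases toDT_br h.S.eq.symm with ⟨S, τ₁, τ₀, rfl, rfl, rfl, rfl, rfl, -⟩ | ⟨τ₁, rfl, rfl, rfl, -, rfl, -⟩
  · exact ⟨rfl, h.S.hF.1, ⟨p, u.c / (1 - 1 / (p : ℝ)), u.A * p, u.B⟩, τ₁, rfl, wc_1 h.S.hF.1 _,
      Sm.fbr₁ hh h hM0 hM, Or.inr ⟨rfl, ⟨p, u.c * p, u.A, u.B * p⟩, τ₀, rfl, wc_0 h.S.hF.1 _,
      Sm.fbr₀ hh h hM0 hM, Qi_disj h.ok.2.2.1⟩⟩
  · exact ⟨rfl, h.S.hF.1, ⟨p + 1, u.c, u.A * p, u.B⟩, τ₁, rfl, by simp, Sm.fpl hh h hM0 hM,
      Or.inl rfl⟩

lemma disjL {I I₁ J J₁ : Finset ℕ} (h : Disjoint I I₁) : Disjoint (I ×ˢ J) (I₁ ×ˢ J₁) := by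
  rw [Finset.disjoint_left]
  intro e he he'
  exact Finset.disjoint_left.1 h (Finset.mem_product.1 he).1 (Finset.mem_product.1 he').1

lemma disjR {I I₁ J J₁ : Finset ℕ} (h : Disjoint J J₁) : Disjoint (I ×ˢ J) (I₁ ×ˢ J₁) := by
  rw [Finset.disjoint_left]
  intro e he he'
  exact Finset.disjoint_left.1 h (Finset.mem_product.1 he).2 (Finset.mem_product.1 he').2

/-! ### the children -/

/-- columns at which the item pairs pay: (tie, tie), (tie, up / absent / leaf) -/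
def Act (stp : St Λ κ → Prop) (s : St Λ κ) : Prop :=
  Gen stp s ∧ match vw s.p s.t, vw s.p s.t' with
    | .br w _ _ _ _ _ _, .br w' _ _ _ _ _ _ => w ≠ 0 ∧ w' ≠ 0
    | .br _ _ _ _ _ _ _, .up _ _ => True
    | .up _ _, .br _ _ _ _ _ _ _ => True
    | _, _ => False

/-- the list `L` is the list of the continuing children -/
def NX (D : Par Λ κ) (Al : Finset ℕ) (sp : ℕ → Finset Λ) (Qp : NS → IT → Prop)
    (RP : Finset (Λ × Λ) → Prop) (stp : St Λ κ → Prop) (s : St Λ κ) (u u' : NS) (τ τ' : IT)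
    (L : List (CR Λ κ)) : Prop :=
  (∀ F : St Λ κ → ℝ, ((nxt0C stp s).map fun q => q.1 * F q.2).sum =
    (L.map fun c => c.w * F c.s).sum) ∧
  (∀ c ∈ L, (c.w ≠ 0 ∧ (c.w, c.s) ∈ nxt0C stp s) ∧ Chd D Al sp Qp RP s.p s u u' τ τ' c ∧
    (Act stp s → ∀ q r, s.p ∉ c.σ.mt q ∪ c.σ'.mt r)) ∧
  L.Pairwise fun a b => Disjoint (Ep D Al a.s a.σ a.σ') (Ep D Al b.s b.σ b.σ')

set_option maxHeartbeats 4000000 in
/-- **THE CONTINUING CHILDREN WITH THEIR ITEM DATA** -/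
theorem YI.next (hh : YH D sp P W Qp) (hRP : ∀ l, RP (Ro (D.rho l))) {stp : St Λ κ → Prop}
    {s : St Λ κ} {u u' : NS} {τ τ' : IT} (h : YI D sp Qp RP s u u' τ τ')
    (hl : ¬ (s.t.isLeaf ∧ s.t'.isLeaf)) (hs : ¬ stp s) :
    s.p.Prime ∧ ∃ L, NX D Al sp Qp RP stp s u u' τ τ' L := by
  obtain ⟨hpp, lwL, lwR⟩ := h.lev hh hl
  refine ⟨hpp, ?_⟩
  have topL : s.t.top ≤ s.p := le_max_left _ _
  have topR : s.t'.top ≤ s.p := le_max_right _ _
  have M0 := h.mL.pos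
  have M0' := h.mR.pos
  obtain ⟨w0, w1, wp, wl⟩ := wt_pos hpp
  have hB : (0:ℝ) ≤ (u.B:ℝ) := Nat.cast_nonneg _
  have hB' : (0:ℝ) ≤ (u'.B:ℝ) := Nat.cast_nonneg _
  have hBB : (0:ℝ) ≤ (u.B:ℝ) * u'.B := mul_nonneg hB hB'
  have stL := Sm.stay (Al := Al) (M := s.M) h.L M0 lwL topL
  have stR := Sm.stay (Al := Al) (M := s.M') h.R M0' lwR topR
  have mL : MS s.p s.M s.O' := h.mL
  have mR : MS s.p s.M' s.O := h.mR
  have dL := mL.mul le_rfl hpp
  have dR := mR.mul le_rfl hpp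
  have e0 : (0:ℝ) ≤ 1 := zero_le_one
  -- weights
  have W1 : (1 - 1 / (s.p:ℝ)) * ((u.B:ℝ) * u'.B) ≤ (u.B:ℝ) * u'.B := wB_1 w0.le hB hB'
  have W0 : 1 / (s.p:ℝ) * (((u.B * s.p : ℕ) : ℝ) * u'.B) ≤ (u.B:ℝ) * u'.B := by
    push_cast
    have : 1 / (s.p:ℝ) * ((u.B:ℝ) * s.p * u'.B) = (u.B:ℝ) * u'.B * (1 / (s.p:ℝ) * s.p) := by ring
    rw [this, wp, mul_one]
  have W0' : 1 / (s.p:ℝ) * ((u.B:ℝ) * ((u'.B * s.p : ℕ) : ℝ)) ≤ (u.B:ℝ) * u'.B := by
    push_cast
    have : 1 / (s.p:ℝ) * ((u.B:ℝ) * (u'.B * s.p)) = (u.B:ℝ) * u'.B * (1 / (s.p:ℝ) * s.p) := by ring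
    rw [this, wp, mul_one]
  by_cases hPL : s.isPL
  · -- pre-step on the left
    obtain ⟨w, r, t₁, t₀, v, B₁, G, hv, ht, hc⟩ := St.isPL_cases hPL
    have hna : ¬ Act stp s := fun ha => ha.1.2.2.1 hPL
    have sL := h.L
    rw [ht] at sL
    rcases hc with ⟨hd, e⟩ | ⟨hd, hw, e⟩
    · have e1 : nxt0C stp s = [(1 - w, s.fL r t₁), (w, s.fL r t₀)] := by
        simp [nxt0C, hl, hs, hPL, e]
      have hm := mL.free le_rfl hpp hd
      have hM : s.M = s.p * (s.M / s.p) := (Nat.mul_div_cancel' hd).symm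
      obtain ⟨rfl, -, v₁, σ₁, b1, c1, P1, hw | ⟨rfl, v₀, σ₀, b0, c0, P0, hdj⟩⟩ := sL.brf (Al := Al) hh hm.pos hM
      · refine ⟨[⟨1 - w, s.fL (D.rho s.p) t₁, v₁, u', σ₁, τ'⟩], fun F => ?_, fun c hc => ?_, ?_⟩
        · rw [e1]; simp [hw]
        · simp only [List.mem_cons, List.not_mem_nil, or_false] at hc
          subst hc
          refine ⟨⟨by rw [hw]; norm_num, by rw [e1]; simp⟩, Chd.of hh hpp h (s₂ := s.fL (D.rho s.p) t₁)
            P1 stR (fun _ _ _ _ => trivial) hm mR (hRP _) (by rw [hw]; norm_num) ?_ (wcL c1 _),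
            fun ha => absurd ha hna⟩
          rw [b1, hw]
          simp
        · simp
      · refine ⟨[⟨1 - 1 / (s.p:ℝ), s.fL (D.rho s.p) t₁, v₁, u', σ₁, τ'⟩,
          ⟨1 / (s.p:ℝ), s.fL (D.rho s.p) t₀, v₀, u', σ₀, τ'⟩], fun F => ?_, fun c hc => ?_, ?_⟩
        · rw [e1]; simp
        · simp only [List.mem_cons, List.not_mem_nil, or_false] at hc
          rcases hc with rfl | rfl
          · refine ⟨⟨w1.ne', by rw [e1]; simp⟩, Chd.of hh hpp h (s₂ := s.fL (D.rho s.p) t₁)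
              P1 stR (fun _ _ _ _ => trivial) hm mR (hRP _) w1.le ?_ (wcL c1 _),
              fun ha => absurd ha hna⟩
            rw [b1]
            exact W1
          · refine ⟨⟨w0.ne', by rw [e1]; simp⟩, Chd.of hh hpp h (s₂ := s.fL (D.rho s.p) t₀)
              P0 stR (fun _ _ _ _ => trivial) hm mR (hRP _) w0.le ?_ (wcL c0 _),
              fun ha => absurd ha hna⟩
            rw [b0]
            exact W0
        · simp only [List.pairwise_cons, List.mem_cons, List.not_mem_nil, or_false, forall_eq,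
            List.Pairwise.nil, and_true, IsEmpty.forall_iff, implies_true]
          exact disjL hdj
    · have e1 : nxt0C stp s = [(1 - w, s.pL r t₁), (w, s.pL r t₀)] := by
        simp [nxt0C, hl, hs, hPL, e]
      obtain ⟨rfl, -, v₁, σ₁, b1, c1, P1, -⟩ := sL.brv (Al := Al) hh M0 hd
      have av := Sm.avg (M := s.M') hpp rfl rfl (fun q hq => (h.R.pos hh hq).2.2) stR
      refine ⟨[⟨1 - w, s.pL (D.rho s.p) t₁, v₁, u', σ₁, τ'⟩], fun F => ?_, fun c hc => ?_, ?_⟩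
      · rw [e1]; simp [hw]
      · simp only [List.mem_cons, List.not_mem_nil, or_false] at hc
        subst hc
        refine ⟨⟨by rw [hw]; norm_num, by rw [e1]; simp⟩, Chd.of hh hpp h (s₂ := s.pL (D.rho s.p) t₁)
          P1 av (fun q _ r _ => ?_) mL dR (hRP _) (by rw [hw]; norm_num) ?_ (wcL c1 _),
          fun ha => absurd ha hna⟩
        · unfold avT; split_ifs <;> trivial
        · rw [b1, hw]
          simp
      · simp
  by_cases hPR : s.isPR
  · -- pre-step on the right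
    obtain ⟨w, r, t₁, t₀, v, B₁, G, hv, ht, hc⟩ := St.isPR_cases hPR
    have hna : ¬ Act stp s := fun ha => ha.1.2.2.2 hPR
    have sR := h.R
    rw [ht] at sR
    rcases hc with ⟨hd, e⟩ | ⟨hd, hw, e⟩
    · have e1 : nxt0C stp s = [(1 - w, s.fR r t₁), (w, s.fR r t₀)] := by
        simp [nxt0C, hl, hs, hPL, hPR, e]
      have hm := mR.free le_rfl hpp hd
      have hM : s.M' = s.p * (s.M' / s.p) := (Nat.mul_div_cancel' hd).symm
      obtain ⟨rfl, -, v₁, σ₁, b1, c1, P1, hw | ⟨rfl, v₀, σ₀, b0, c0, P0, hdj⟩⟩ := sR.brf (Al := Al) hh hm.pos hM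
      · refine ⟨[⟨1 - w, s.fR (D.rho s.p) t₁, u, v₁, τ, σ₁⟩], fun F => ?_, fun c hc => ?_, ?_⟩
        · rw [e1]; simp [hw]
        · simp only [List.mem_cons, List.not_mem_nil, or_false] at hc
          subst hc
          refine ⟨⟨by rw [hw]; norm_num, by rw [e1]; simp⟩, Chd.of hh hpp h (s₂ := s.fR (D.rho s.p) t₁)
            stL P1 (fun _ _ _ _ => trivial) mL hm (hRP _) (by rw [hw]; norm_num) ?_ (wcR c1 _),
            fun ha => absurd ha hna⟩
          rw [b1, hw]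
          simp
        · simp
      · refine ⟨[⟨1 - 1 / (s.p:ℝ), s.fR (D.rho s.p) t₁, u, v₁, τ, σ₁⟩,
          ⟨1 / (s.p:ℝ), s.fR (D.rho s.p) t₀, u, v₀, τ, σ₀⟩], fun F => ?_, fun c hc => ?_, ?_⟩
        · rw [e1]; simp
        · simp only [List.mem_cons, List.not_mem_nil, or_false] at hc
          rcases hc with rfl | rfl
          · refine ⟨⟨w1.ne', by rw [e1]; simp⟩, Chd.of hh hpp h (s₂ := s.fR (D.rho s.p) t₁)
              stL P1 (fun _ _ _ _ => trivial) mL hm (hRP _) w1.le ?_ (wcR c1 _),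
              fun ha => absurd ha hna⟩
            rw [b1]
            exact W1
          · refine ⟨⟨w0.ne', by rw [e1]; simp⟩, Chd.of hh hpp h (s₂ := s.fR (D.rho s.p) t₀)
              stL P0 (fun _ _ _ _ => trivial) mL hm (hRP _) w0.le ?_ (wcR c0 _),
              fun ha => absurd ha hna⟩
            rw [b0]
            exact W0'
        · simp only [List.pairwise_cons, List.mem_cons, List.not_mem_nil, or_false, forall_eq,
            List.Pairwise.nil, and_true, IsEmpty.forall_iff, implies_true]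
          exact disjR hdj
    · have e1 : nxt0C stp s = [(1 - w, s.pR r t₁), (w, s.pR r t₀)] := by
        simp [nxt0C, hl, hs, hPL, hPR, e]
      obtain ⟨rfl, -, v₁, σ₁, b1, c1, P1, -⟩ := sR.brv (Al := Al) hh M0' hd
      have av := Sm.avg (M := s.M) hpp rfl rfl (fun q hq => (h.L.pos hh hq).2.2) stL
      refine ⟨[⟨1 - w, s.pR (D.rho s.p) t₁, u, v₁, τ, σ₁⟩], fun F => ?_, fun c hc => ?_, ?_⟩
      · rw [e1]; simp [hw]
      · simp only [List.mem_cons, List.not_mem_nil, or_false] at hc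
        subst hc
        refine ⟨⟨by rw [hw]; norm_num, by rw [e1]; simp⟩, Chd.of hh hpp h (s₂ := s.pR (D.rho s.p) t₁)
          av P1 (fun q _ r _ => ?_) dL mR (hRP _) (by rw [hw]; norm_num) ?_ (wcR c1 _),
          fun ha => absurd ha hna⟩
        · unfold avT; split_ifs <;> trivial
        · rw [b1, hw]
          simp
      · simp
  -- add nodes
  have addL : ∀ (r : Λ → κ) (t₁ t₀ : DT Λ κ), s.t = .add s.p r t₁ t₀ → ¬ Act stp s →
      nxt0C stp s = [(1, { s with t := t₁ }), (1, { s with t := t₀ })] →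
      ∃ L, NX D Al sp Qp RP stp s u u' τ τ' L := by
    intro r t₁ t₀ ht hna e1
    have sL := h.L
    rw [ht] at sL
    obtain ⟨τ₁, τ₀, hτ, -, rfl, rfl⟩ := toDT_add sL.S.eq.symm
    obtain ⟨P1, P0, hdj⟩ := Sm.add (Al := Al) hh sL hτ M0
    refine ⟨[⟨1, { s with t := D.toDT sp u.B u.A τ₁ }, ⟨s.p + 1, u.c, u.A, u.B⟩, u', τ₁, τ'⟩,
      ⟨1, { s with t := D.toDT sp u.B u.A τ₀ }, ⟨s.p + 1, u.c, u.A, u.B⟩, u', τ₀, τ'⟩],
      fun F => ?_, fun c hc => ?_, ?_⟩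
    · rw [e1]; simp
    · simp only [List.mem_cons, List.not_mem_nil, or_false] at hc
      rcases hc with rfl | rfl
      · exact ⟨⟨one_ne_zero, by rw [e1]; simp⟩, Chd.of hh hpp h
          (s₂ := { s with t := D.toDT sp u.B u.A τ₁ }) P1 stR (fun _ _ _ _ => trivial) mL mR h.rp e0
          (one_mul _).le (one_mul _), fun ha => absurd ha hna⟩
      · exact ⟨⟨one_ne_zero, by rw [e1]; simp⟩, Chd.of hh hpp h
          (s₂ := { s with t := D.toDT sp u.B u.A τ₀ }) P0 stR (fun _ _ _ _ => trivial) mL mR h.rp e0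
          (one_mul _).le (one_mul _), fun ha => absurd ha hna⟩
    · simp only [List.pairwise_cons, List.mem_cons, List.not_mem_nil, or_false, forall_eq,
        List.Pairwise.nil, and_true, IsEmpty.forall_iff, implies_true]
      exact disjL (Qi_disj hdj)
  have addR : ∀ (r : Λ → κ) (t₁ t₀ : DT Λ κ), s.t' = .add s.p r t₁ t₀ → ¬ Act stp s →
      nxt0C stp s = [(1, { s with t' := t₁ }), (1, { s with t' := t₀ })] →
      ∃ L, NX D Al sp Qp RP stp s u u' τ τ' L := by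
    intro r t₁ t₀ ht hna e1
    have sR := h.R
    rw [ht] at sR
    obtain ⟨τ₁, τ₀, hτ, -, rfl, rfl⟩ := toDT_add sR.S.eq.symm
    obtain ⟨P1, P0, hdj⟩ := Sm.add (Al := Al) hh sR hτ M0'
    refine ⟨[⟨1, { s with t' := D.toDT sp u'.B u'.A τ₁ }, u, ⟨s.p + 1, u'.c, u'.A, u'.B⟩, τ, τ₁⟩,
      ⟨1, { s with t' := D.toDT sp u'.B u'.A τ₀ }, u, ⟨s.p + 1, u'.c, u'.A, u'.B⟩, τ, τ₀⟩],
      fun F => ?_, fun c hc => ?_, ?_⟩
    · rw [e1]; simp
    · simp only [List.mem_cons, List.not_mem_nil, or_false] at hc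
      rcases hc with rfl | rfl
      · exact ⟨⟨one_ne_zero, by rw [e1]; simp⟩, Chd.of hh hpp h
          (s₂ := { s with t' := D.toDT sp u'.B u'.A τ₁ }) stL P1 (fun _ _ _ _ => trivial) mL mR h.rp
          e0 (one_mul _).le (one_mul _), fun ha => absurd ha hna⟩
      · exact ⟨⟨one_ne_zero, by rw [e1]; simp⟩, Chd.of hh hpp h
          (s₂ := { s with t' := D.toDT sp u'.B u'.A τ₀ }) stL P0 (fun _ _ _ _ => trivial) mL mR h.rp
          e0 (one_mul _).le (one_mul _), fun ha => absurd ha hna⟩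
    · simp only [List.pairwise_cons, List.mem_cons, List.not_mem_nil, or_false, forall_eq,
        List.Pairwise.nil, and_true, IsEmpty.forall_iff, implies_true]
      exact disjR (Qi_disj hdj)
  rcases hv : vw s.p s.t with ⟨w, r, t₁, t₀, v, B₁, G⟩ | ⟨r, t₁, t₀⟩ | ⟨Sp, d⟩ <;>
  rcases hv' : vw s.p s.t' with ⟨w', r', t₁', t₀', v', B₁', G'⟩ | ⟨r', t₁', t₀'⟩ | ⟨Sp', d'⟩
  · -- br, br
    have e1 : nxt0C stp s =
        [((1 - w) * (1 - w'), { s with R := Ro r, t := t₁, t' := t₁' }),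
         ((1 - w) * w', { s with R := Ro r, t := t₁, t' := t₀' }),
         (w * (1 - w'), { s with R := Ro r, t := t₀, t' := t₁' })] := by
      simp [nxt0C, hl, hs, hPL, hPR, hv, hv']
    have hM := St.not_isPL_br hPL hv hv'
    have hM' := St.not_isPR_br hPR hv hv'
    have sL := h.L
    rw [vw_br hv] at sL
    have sR := h.R
    rw [vw_br hv'] at sR
    obtain ⟨rfl, -, v₁, σ₁, b1, c1, P1, cL⟩ := sL.brv (Al := Al) hh M0 hM
    obtain ⟨rfl, -, v₁', σ₁', b1', c1', P1', cR⟩ := sR.brv (Al := Al) hh M0' hM'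
    rcases cL with hw | ⟨rfl, n1, v₀, σ₀, b0, c0, P0, dj, n0⟩ <;>
    rcases cR with hw' | ⟨rfl, n1', v₀', σ₀', b0', c0', P0', dj', n0'⟩
    · -- pull, pull
      have hna : ¬ Act stp s := by
        intro ha
        have := ha.2
        simp only [hv, hv'] at this
        exact this.1 hw
      refine ⟨[⟨(1 - w) * (1 - w'), { s with R := Ro (D.rho s.p), t := t₁, t' := t₁' }, v₁, v₁', σ₁, σ₁'⟩],
        fun F => ?_, fun c hc => ?_, ?_⟩
      · rw [e1]; simp [hw, hw']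
      · simp only [List.mem_cons, List.not_mem_nil, or_false] at hc
        subst hc
        refine ⟨⟨by rw [hw, hw']; norm_num, by rw [e1]; simp⟩, Chd.of hh hpp h
          (s₂ := { s with R := Ro (D.rho s.p), t := t₁, t' := t₁' })
          P1 P1' (fun _ _ _ _ => trivial) mL mR (hRP _) (by rw [hw, hw']; norm_num) ?_ (wcLR c1 c1'),
          fun ha => absurd ha hna⟩
        rw [b1, b1', hw, hw']
        simp
      · simp
    · -- pull, tie
      have hna : ¬ Act stp s := by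
        intro ha
        have := ha.2
        simp only [hv, hv'] at this
        exact this.1 hw
      refine ⟨[⟨(1 - w) * (1 - 1 / (s.p:ℝ)), { s with R := Ro (D.rho s.p), t := t₁, t' := t₁' }, v₁, v₁', σ₁, σ₁'⟩,
        ⟨(1 - w) * (1 / (s.p:ℝ)), { s with R := Ro (D.rho s.p), t := t₁, t' := t₀' }, v₁, v₀', σ₁, σ₀'⟩],
        fun F => ?_, fun c hc => ?_, ?_⟩
      · rw [e1]; simp [hw]
      · simp only [List.mem_cons, List.not_mem_nil, or_false] at hc
        rcases hc with rfl | rfl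
        · refine ⟨⟨by rw [hw]; simpa using w1.ne', by rw [e1]; simp⟩, Chd.of hh hpp h
            (s₂ := { s with R := Ro (D.rho s.p), t := t₁, t' := t₁' })
            P1 P1' (fun _ _ _ _ => trivial) mL mR (hRP _) (by rw [hw]; simpa using w1.le) ?_ (wcLR c1 c1'),
            fun ha => absurd ha hna⟩
          rw [b1, b1', hw, sub_zero, one_mul]
          exact W1
        · refine ⟨⟨by rw [hw, sub_zero, one_mul]; exact w0.ne', by rw [e1]; simp⟩, Chd.of hh hpp h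
            (s₂ := { s with R := Ro (D.rho s.p), t := t₁, t' := t₀' })
            P1 P0' (fun _ _ _ _ => trivial) mL mR (hRP _) (by rw [hw, sub_zero, one_mul]; exact w0.le) ?_ (wcLR c1 c0'),
            fun ha => absurd ha hna⟩
          rw [b1, b0', hw, sub_zero, one_mul]
          exact W0'
      · simp only [List.pairwise_cons, List.mem_cons, List.not_mem_nil, or_false, forall_eq,
          List.Pairwise.nil, and_true, IsEmpty.forall_iff, implies_true]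
        exact disjR dj'
    · -- tie, pull
      have hna : ¬ Act stp s := by
        intro ha
        have := ha.2
        simp only [hv, hv'] at this
        exact this.2 hw'
      refine ⟨[⟨(1 - 1 / (s.p:ℝ)) * (1 - w'), { s with R := Ro (D.rho s.p), t := t₁, t' := t₁' }, v₁, v₁', σ₁, σ₁'⟩,
        ⟨(1 / (s.p:ℝ)) * (1 - w'), { s with R := Ro (D.rho s.p), t := t₀, t' := t₁' }, v₀, v₁', σ₀, σ₁'⟩],
        fun F => ?_, fun c hc => ?_, ?_⟩
      · rw [e1]; simp [hw']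
      · simp only [List.mem_cons, List.not_mem_nil, or_false] at hc
        rcases hc with rfl | rfl
        · refine ⟨⟨by rw [hw', sub_zero, mul_one]; exact w1.ne', by rw [e1]; simp⟩, Chd.of hh hpp h
            (s₂ := { s with R := Ro (D.rho s.p), t := t₁, t' := t₁' })
            P1 P1' (fun _ _ _ _ => trivial) mL mR (hRP _) (by rw [hw', sub_zero, mul_one]; exact w1.le) ?_ (wcLR c1 c1'),
            fun ha => absurd ha hna⟩
          rw [b1, b1', hw', sub_zero, mul_one]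
          exact W1
        · refine ⟨⟨by rw [hw', sub_zero, mul_one]; exact w0.ne', by rw [e1]; simp⟩, Chd.of hh hpp h
            (s₂ := { s with R := Ro (D.rho s.p), t := t₀, t' := t₁' })
            P0 P1' (fun _ _ _ _ => trivial) mL mR (hRP _) (by rw [hw', sub_zero, mul_one]; exact w0.le) ?_ (wcLR c0 c1'),
            fun ha => absurd ha hna⟩
          rw [b0, b1', hw', sub_zero, mul_one]
          exact W0
      · simp only [List.pairwise_cons, List.mem_cons, List.not_mem_nil, or_false, forall_eq,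
          List.Pairwise.nil, and_true, IsEmpty.forall_iff, implies_true]
        exact disjL dj
    · -- tie, tie
      refine ⟨[⟨(1 - 1 / (s.p:ℝ)) * (1 - 1 / (s.p:ℝ)), { s with R := Ro (D.rho s.p), t := t₁, t' := t₁' }, v₁, v₁', σ₁, σ₁'⟩,
        ⟨(1 - 1 / (s.p:ℝ)) * (1 / (s.p:ℝ)), { s with R := Ro (D.rho s.p), t := t₁, t' := t₀' }, v₁, v₀', σ₁, σ₀'⟩,
        ⟨(1 / (s.p:ℝ)) * (1 - 1 / (s.p:ℝ)), { s with R := Ro (D.rho s.p), t := t₀, t' := t₁' }, v₀, v₁', σ₀, σ₁'⟩],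
        fun F => ?_, fun c hc => ?_, ?_⟩
      · rw [e1]; simp
      · simp only [List.mem_cons, List.not_mem_nil, or_false] at hc
        rcases hc with rfl | rfl | rfl
        · refine ⟨⟨(mul_pos w1 w1).ne', by rw [e1]; simp⟩, Chd.of hh hpp h
            (s₂ := { s with R := Ro (D.rho s.p), t := t₁, t' := t₁' })
            P1 P1' (fun _ _ _ _ => trivial) mL mR (hRP _) (mul_pos w1 w1).le ?_ (wcLR c1 c1'), fun _ q r hq => ?_⟩
          · rw [b1, b1', mul_assoc]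
            refine (mul_le_mul_of_nonneg_left W1 w1.le).trans ?_
            exact W1
          · rcases Finset.mem_union.1 hq with hq | hq
            · exact n1 q hq
            · exact n1' r hq
        · refine ⟨⟨(mul_pos w1 w0).ne', by rw [e1]; simp⟩, Chd.of hh hpp h
            (s₂ := { s with R := Ro (D.rho s.p), t := t₁, t' := t₀' })
            P1 P0' (fun _ _ _ _ => trivial) mL mR (hRP _) (mul_pos w1 w0).le ?_ (wcLR c1 c0'), fun _ q r hq => ?_⟩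
          · rw [b1, b0', mul_assoc]
            refine (mul_le_mul_of_nonneg_left W0' w1.le).trans ?_
            exact W1
          · rcases Finset.mem_union.1 hq with hq | hq
            · exact n1 q hq
            · exact n0' r hq
        · refine ⟨⟨(mul_pos w0 w1).ne', by rw [e1]; simp⟩, Chd.of hh hpp h
            (s₂ := { s with R := Ro (D.rho s.p), t := t₀, t' := t₁' })
            P0 P1' (fun _ _ _ _ => trivial) mL mR (hRP _) (mul_pos w0 w1).le ?_ (wcLR c0 c1'), fun _ q r hq => ?_⟩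
          · rw [b0, b1', mul_comm (1 / (s.p:ℝ)), mul_assoc]
            refine (mul_le_mul_of_nonneg_left W0 w1.le).trans ?_
            exact W1
          · rcases Finset.mem_union.1 hq with hq | hq
            · exact n0 q hq
            · exact n1' r hq
      · simp only [List.pairwise_cons, List.mem_cons, List.not_mem_nil, or_false, forall_eq_or_imp,
          forall_eq, List.Pairwise.nil, and_true, IsEmpty.forall_iff, implies_true]
        exact ⟨⟨disjR dj', disjL dj⟩, disjL dj⟩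
  · -- br, add
    refine addR _ _ _ (vw_add hv') (fun ha => ?_) (by simp [nxt0C, hl, hs, hPL, hPR, hv, hv'])
    have := ha.2
    simp only [hv, hv'] at this
  · -- br, up
    have hM := (St.not_isPL_up hPL hv hv').1
    have hw0 := (St.not_isPL_up hPL hv hv').2
    have sL := h.L
    rw [vw_br hv] at sL
    obtain ⟨rfl, -, v₁, σ₁, b1, c1, P1, cL⟩ := sL.brv (Al := Al) hh M0 hM
    obtain ⟨rfl, n1, v₀, σ₀, b0, c0, P0, dj, n0⟩ := cL.resolve_left hw0
    obtain ⟨z, ρ', zA, zB, zC, U, U1, U0, nU, hU, djU⟩ :=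
      Sm.up (Al := Al) hh h.R hpp M0' lwR topR hv'
    by_cases hd : s.p ∣ s.M'
    · have e1 : nxt0C stp s =
          [(1 - 1 / (s.p:ℝ), { s with M' := s.p * s.M', O := insert s.p s.O, R := Ro (D.rho s.p), t := t₁, t' := d' })] := by
        simp [nxt0C, hl, hs, hPL, hPR, hv, hv', hd]
      have av := Sm.avg (M := s.M') hpp zA zB (fun q hq => (h.R.pos hh (U.it hq)).2.2) U
      refine ⟨[⟨1 - 1 / (s.p:ℝ), { s with M' := s.p * s.M', O := insert s.p s.O, R := Ro (D.rho s.p), t := t₁, t' := d' }, v₁, z, σ₁, ρ'⟩],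
        fun F => ?_, fun c hc => ?_, ?_⟩
      · rw [e1]; simp
      · simp only [List.mem_cons, List.not_mem_nil, or_false] at hc
        subst hc
        refine ⟨⟨w1.ne', by rw [e1]; simp⟩, Chd.of hh hpp h
          (s₂ := { s with M' := s.p * s.M', O := insert s.p s.O, R := Ro (D.rho s.p), t := t₁, t' := d' })
          P1 av (fun q _ r _ => ?_) mL dR (hRP _) w1.le ?_ (by rw [zC]; exact wcL c1 _), fun _ q r hq => ?_⟩
        · unfold avT; split_ifs <;> trivial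
        · rw [b1, zB]; exact W1
        · rcases Finset.mem_union.1 hq with hq | hq
          · exact n1 q hq
          · exact nU r hq
      · simp
    · have e1 : nxt0C stp s =
          [(1 - 1 / (s.p:ℝ), { s with M' := s.p * s.M', O := insert s.p s.O, R := Ro (D.rho s.p), t := t₁, t' := d', A' := s.A' ∩ Sp' }),
           (1 / (s.p:ℝ), { s with M' := s.p * s.M', O := insert s.p s.O, R := Ro (D.rho s.p), t := t₀, t' := d', A' := s.A' ∩ Sp' }),
           (1 - 1 / (s.p:ℝ), { s with M' := s.p * s.M', O := insert s.p s.O, R := Ro (D.rho s.p), t := t₁, t' := d', A' := s.A' \ Sp' })] := by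
        simp [nxt0C, hl, hs, hPL, hPR, hv, hv', hd]
      have av1 := Sm.avg (M := s.M') hpp zA zB (fun q hq => (h.R.pos hh (U1.it hq)).2.2) U1
      have av0 := Sm.avg (M := s.M') hpp zA zB (fun q hq => (h.R.pos hh (U0.it hq)).2.2) U0
      have hD : ∀ r ∈ Qi D Al ρ' (s.A' ∩ Sp'), avT s.p s.M' u'.A r = .D := by
        intro r hr
        unfold avT
        rw [if_pos]
        obtain ⟨k, hk⟩ := hU r hr
        rw [UI_eq, hk, (uf_dr (M := s.M') (k := k) hpp hd).1]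
        exact dvd_mul_right _ _
      refine ⟨[⟨1 - 1 / (s.p:ℝ), { s with M' := s.p * s.M', O := insert s.p s.O, R := Ro (D.rho s.p), t := t₁, t' := d', A' := s.A' ∩ Sp' }, v₁, z, σ₁, ρ'⟩,
        ⟨1 / (s.p:ℝ), { s with M' := s.p * s.M', O := insert s.p s.O, R := Ro (D.rho s.p), t := t₀, t' := d', A' := s.A' ∩ Sp' }, v₀, z, σ₀, ρ'⟩,
        ⟨1 - 1 / (s.p:ℝ), { s with M' := s.p * s.M', O := insert s.p s.O, R := Ro (D.rho s.p), t := t₁, t' := d', A' := s.A' \ Sp' }, v₁, z, σ₁, ρ'⟩],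
        fun F => ?_, fun c hc => ?_, ?_⟩
      · rw [e1]; simp
      · simp only [List.mem_cons, List.not_mem_nil, or_false] at hc
        rcases hc with rfl | rfl | rfl
        · refine ⟨⟨w1.ne', by rw [e1]; simp⟩, Chd.of hh hpp h
            (s₂ := { s with M' := s.p * s.M', O := insert s.p s.O, R := Ro (D.rho s.p), t := t₁, t' := d', A' := s.A' ∩ Sp' })
            P1 av1 (fun q _ r hr => ?_) mL dR (hRP _) w1.le ?_ (by rw [zC]; exact wcL c1 _), fun _ q r hq => ?_⟩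
          · rw [hD r hr]; trivial
          · rw [b1, zB]; exact W1
          · rcases Finset.mem_union.1 hq with hq | hq
            · exact n1 q hq
            · exact nU r hq
        · refine ⟨⟨w0.ne', by rw [e1]; simp⟩, Chd.of hh hpp h
            (s₂ := { s with M' := s.p * s.M', O := insert s.p s.O, R := Ro (D.rho s.p), t := t₀, t' := d', A' := s.A' ∩ Sp' })
            P0 av1 (fun q _ r hr => ?_) mL dR (hRP _) w0.le ?_ (by rw [zC]; exact wcL c0 _), fun _ q r hq => ?_⟩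
          · rw [hD r hr]; trivial
          · rw [b0, zB]; exact W0
          · rcases Finset.mem_union.1 hq with hq | hq
            · exact n0 q hq
            · exact nU r hq
        · refine ⟨⟨w1.ne', by rw [e1]; simp⟩, Chd.of hh hpp h
            (s₂ := { s with M' := s.p * s.M', O := insert s.p s.O, R := Ro (D.rho s.p), t := t₁, t' := d', A' := s.A' \ Sp' })
            P1 av0 (fun q _ r hr => ?_) mL dR (hRP _) w1.le ?_ (by rw [zC]; exact wcL c1 _), fun _ q r hq => ?_⟩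
          · unfold avT; split_ifs <;> trivial
          · rw [b1, zB]; exact W1
          · rcases Finset.mem_union.1 hq with hq | hq
            · exact n1 q hq
            · exact nU r hq
      · simp only [List.pairwise_cons, List.mem_cons, List.not_mem_nil, or_false, forall_eq_or_imp,
          forall_eq, List.Pairwise.nil, and_true, IsEmpty.forall_iff, implies_true]
        exact ⟨⟨disjL dj, disjR djU⟩, disjR djU⟩
  · -- add, br
    refine addL _ _ _ (vw_add hv) (fun ha => ?_) (by simp [nxt0C, hl, hs, hPL, hPR, hv, hv'])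
    have := ha.2
    simp only [hv, hv'] at this
  · -- add, add
    refine addL _ _ _ (vw_add hv) (fun ha => ?_) (by simp [nxt0C, hl, hs, hPL, hPR, hv, hv'])
    have := ha.2
    simp only [hv, hv'] at this
  · -- add, up
    refine addL _ _ _ (vw_add hv) (fun ha => ?_) (by simp [nxt0C, hl, hs, hPL, hPR, hv, hv'])
    have := ha.2
    simp only [hv, hv'] at this
  · -- up, br
    have hM' := (St.not_isPR_up hPR hv hv').1
    have hw0 := (St.not_isPR_up hPR hv hv').2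
    have sR := h.R
    rw [vw_br hv'] at sR
    obtain ⟨rfl, -, v₁, σ₁, b1, c1, P1, cR⟩ := sR.brv (Al := Al) hh M0' hM'
    obtain ⟨rfl, n1, v₀, σ₀, b0, c0, P0, dj, n0⟩ := cR.resolve_left hw0
    obtain ⟨z, ρ', zA, zB, zC, U, U1, U0, nU, hU, djU⟩ :=
      Sm.up (Al := Al) hh h.L hpp M0 lwL topL hv
    by_cases hd : s.p ∣ s.M
    · have e1 : nxt0C stp s =
          [(1 - 1 / (s.p:ℝ), { s with M := s.p * s.M, O' := insert s.p s.O', R := Ro (D.rho s.p), t := d, t' := t₁' })] := by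
        simp [nxt0C, hl, hs, hPL, hPR, hv, hv', hd]
      have av := Sm.avg (M := s.M) hpp zA zB (fun q hq => (h.L.pos hh (U.it hq)).2.2) U
      refine ⟨[⟨1 - 1 / (s.p:ℝ), { s with M := s.p * s.M, O' := insert s.p s.O', R := Ro (D.rho s.p), t := d, t' := t₁' }, z, v₁, ρ', σ₁⟩],
        fun F => ?_, fun c hc => ?_, ?_⟩
      · rw [e1]; simp
      · simp only [List.mem_cons, List.not_mem_nil, or_false] at hc
        subst hc
        refine ⟨⟨w1.ne', by rw [e1]; simp⟩, Chd.of hh hpp h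
          (s₂ := { s with M := s.p * s.M, O' := insert s.p s.O', R := Ro (D.rho s.p), t := d, t' := t₁' })
          av P1 (fun q _ r _ => ?_) dL mR (hRP _) w1.le ?_ (by rw [zC]; exact wcR c1 _), fun _ q r hq => ?_⟩
        · unfold avT; split_ifs <;> trivial
        · rw [b1, zB]; exact W1
        · rcases Finset.mem_union.1 hq with hq | hq
          · exact nU q hq
          · exact n1 r hq
      · simp
    · have e1 : nxt0C stp s =
          [(1 - 1 / (s.p:ℝ), { s with M := s.p * s.M, O' := insert s.p s.O', R := Ro (D.rho s.p), t := d, A := s.A ∩ Sp, t' := t₁' }),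
           (1 / (s.p:ℝ), { s with M := s.p * s.M, O' := insert s.p s.O', R := Ro (D.rho s.p), t := d, A := s.A ∩ Sp, t' := t₀' }),
           (1 - 1 / (s.p:ℝ), { s with M := s.p * s.M, O' := insert s.p s.O', R := Ro (D.rho s.p), t := d, A := s.A \ Sp, t' := t₁' })] := by
        simp [nxt0C, hl, hs, hPL, hPR, hv, hv', hd]
      have av1 := Sm.avg (M := s.M) hpp zA zB (fun q hq => (h.L.pos hh (U1.it hq)).2.2) U1
      have av0 := Sm.avg (M := s.M) hpp zA zB (fun q hq => (h.L.pos hh (U0.it hq)).2.2) U0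
      have hD : ∀ r ∈ Qi D Al ρ' (s.A ∩ Sp), avT s.p s.M u.A r = .D := by
        intro r hr
        unfold avT
        rw [if_pos]
        obtain ⟨k, hk⟩ := hU r hr
        rw [UI_eq, hk, (uf_dr (M := s.M) (k := k) hpp hd).1]
        exact dvd_mul_right _ _
      refine ⟨[⟨1 - 1 / (s.p:ℝ), { s with M := s.p * s.M, O' := insert s.p s.O', R := Ro (D.rho s.p), t := d, A := s.A ∩ Sp, t' := t₁' }, z, v₁, ρ', σ₁⟩,
        ⟨1 / (s.p:ℝ), { s with M := s.p * s.M, O' := insert s.p s.O', R := Ro (D.rho s.p), t := d, A := s.A ∩ Sp, t' := t₀' }, z, v₀, ρ', σ₀⟩,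
        ⟨1 - 1 / (s.p:ℝ), { s with M := s.p * s.M, O' := insert s.p s.O', R := Ro (D.rho s.p), t := d, A := s.A \ Sp, t' := t₁' }, z, v₁, ρ', σ₁⟩],
        fun F => ?_, fun c hc => ?_, ?_⟩
      · rw [e1]; simp
      · simp only [List.mem_cons, List.not_mem_nil, or_false] at hc
        rcases hc with rfl | rfl | rfl
        · refine ⟨⟨w1.ne', by rw [e1]; simp⟩, Chd.of hh hpp h
            (s₂ := { s with M := s.p * s.M, O' := insert s.p s.O', R := Ro (D.rho s.p), t := d, A := s.A ∩ Sp, t' := t₁' })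
            av1 P1 (fun q hq r _ => ?_) dL mR (hRP _) w1.le ?_ (by rw [zC]; exact wcR c1 _), fun _ q r hq => ?_⟩
          · rw [hD q hq]; trivial
          · rw [b1, zB]; exact W1
          · rcases Finset.mem_union.1 hq with hq | hq
            · exact nU q hq
            · exact n1 r hq
        · refine ⟨⟨w0.ne', by rw [e1]; simp⟩, Chd.of hh hpp h
            (s₂ := { s with M := s.p * s.M, O' := insert s.p s.O', R := Ro (D.rho s.p), t := d, A := s.A ∩ Sp, t' := t₀' })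
            av1 P0 (fun q hq r _ => ?_) dL mR (hRP _) w0.le ?_ (by rw [zC]; exact wcR c0 _), fun _ q r hq => ?_⟩
          · rw [hD q hq]; trivial
          · rw [b0, zB]; exact W0'
          · rcases Finset.mem_union.1 hq with hq | hq
            · exact nU q hq
            · exact n0 r hq
        · refine ⟨⟨w1.ne', by rw [e1]; simp⟩, Chd.of hh hpp h
            (s₂ := { s with M := s.p * s.M, O' := insert s.p s.O', R := Ro (D.rho s.p), t := d, A := s.A \ Sp, t' := t₁' })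
            av0 P1 (fun q _ r hr => ?_) dL mR (hRP _) w1.le ?_ (by rw [zC]; exact wcR c1 _), fun _ q r hq => ?_⟩
          · unfold avT; split_ifs <;> trivial
          · rw [b1, zB]; exact W1
          · rcases Finset.mem_union.1 hq with hq | hq
            · exact nU q hq
            · exact n1 r hq
      · simp only [List.pairwise_cons, List.mem_cons, List.not_mem_nil, or_false, forall_eq_or_imp,
          forall_eq, List.Pairwise.nil, and_true, IsEmpty.forall_iff, implies_true]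
        exact ⟨⟨disjR dj, disjL djU⟩, disjL djU⟩
  · -- up, add
    refine addR _ _ _ (vw_add hv') (fun ha => ?_) (by simp [nxt0C, hl, hs, hPL, hPR, hv, hv'])
    have := ha.2
    simp only [hv, hv'] at this
  · -- up, up
    have e1 : nxt0C stp s = [(1, { s with t := d, t' := d' })] := by
      simp [nxt0C, hl, hs, hPL, hPR, hv, hv']
    obtain ⟨z, ρ, zA, zB, zC, U, -, -, nU, -, -⟩ := Sm.up (Al := Al) hh h.L hpp M0 lwL topL hv
    obtain ⟨z', ρ', zA', zB', zC', U', -, -, nU', -, -⟩ := Sm.up (Al := Al) hh h.R hpp M0' lwR topR hv'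
    refine ⟨[⟨1, { s with t := d, t' := d' }, z, z', ρ, ρ'⟩], fun F => ?_, fun c hc => ?_, ?_⟩
    · rw [e1]; simp
    · simp only [List.mem_cons, List.not_mem_nil, or_false] at hc
      subst hc
      refine ⟨⟨one_ne_zero, by rw [e1]; simp⟩, Chd.of hh hpp h (s₂ := { s with t := d, t' := d' })
        U U' (fun _ _ _ _ => trivial) mL mR h.rp e0 ?_ (by rw [zC, zC', one_mul]), fun ha => ?_⟩
      · rw [zB, zB', one_mul]
      · have := ha.2
        simp only [hv, hv'] at this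
    · simp

/-! ### supersolutions of item pairs -/

/-- **pair supersolution** of the cross walk: `l` = what a pair pays at a state, `Φ` = potential of the pair.
`le` is used at stops, at the end and for pairs which do not continue. -/
structure PSup (D : Par Λ κ) (Al : Finset ℕ) (sp : ℕ → Finset Λ) (Qp : NS → IT → Prop)
    (RP : Finset (Λ × Λ) → Prop) (stp : St Λ κ → Prop) (Iv : St Λ κ → NS → NS → IT → IT → Prop)
    (l Φ : St Λ κ → NS → NS → IT → IT → ℕ × ℕ → ℝ) : Prop where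
  le : ∀ s u u' τ τ', Iv s u u' τ τ' → YI D sp Qp RP s u u' τ τ' → ∀ e ∈ Ep D Al s τ τ',
    l s u u' τ τ' e ≤ Φ s u u' τ τ' e
  step : ∀ s u u' τ τ', Iv s u u' τ τ' → YI D sp Qp RP s u u' τ τ' → s.p.Prime →
    ¬ ((s.t.isLeaf ∧ s.t'.isLeaf) ∨ stp s) → ∀ c : CR Λ κ, (c.w, c.s) ∈ nxtC stp s →
    Chd D Al sp Qp RP s.p s u u' τ τ' c →
    (Act stp s → ∀ q r, s.p ∉ c.σ.mt q ∪ c.σ'.mt r) → ∀ e ∈ Ep D Al c.s c.σ c.σ',
    c.w * Φ c.s c.v c.v' c.σ c.σ' e + l s u u' τ τ' e ≤ Φ s u u' τ τ' e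

/-- sums of pair supersolutions -/
lemma PSup.add {stp : St Λ κ → Prop} {Iv : St Λ κ → NS → NS → IT → IT → Prop}
    {l₁ Φ₁ l₂ Φ₂ : St Λ κ → NS → NS → IT → IT → ℕ × ℕ → ℝ}
    (h₁ : PSup D Al sp Qp RP stp Iv l₁ Φ₁) (h₂ : PSup D Al sp Qp RP stp Iv l₂ Φ₂) :
    PSup D Al sp Qp RP stp Iv (fun s u u' τ τ' e => l₁ s u u' τ τ' e + l₂ s u u' τ τ' e)
      (fun s u u' τ τ' e => Φ₁ s u u' τ τ' e + Φ₂ s u u' τ τ' e) where
  le := fun s u u' τ τ' hI h e he => add_le_add (h₁.le s u u' τ τ' hI h e he)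
    (h₂.le s u u' τ τ' hI h e he)
  step := fun s u u' τ τ' hI h hp hs c hc hch ha e he => by
    have k1 := h₁.step s u u' τ τ' hI h hp hs c hc hch ha e he
    have k2 := h₂.step s u u' τ τ' hI h hp hs c hc hch ha e he
    rw [mul_add]
    linarith

/-- nonnegative multiples -/
lemma PSup.smul {stp : St Λ κ → Prop} {Iv : St Λ κ → NS → NS → IT → IT → Prop}
    {l Φ : St Λ κ → NS → NS → IT → IT → ℕ × ℕ → ℝ} {K : ℝ} (hK : 0 ≤ K)
    (h : PSup D Al sp Qp RP stp Iv l Φ) :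
    PSup D Al sp Qp RP stp Iv (fun s u u' τ τ' e => K * l s u u' τ τ' e)
      (fun s u u' τ τ' e => K * Φ s u u' τ τ' e) where
  le := fun s u u' τ τ' hI hy e he => mul_le_mul_of_nonneg_left (h.le s u u' τ τ' hI hy e he) hK
  step := fun s u u' τ τ' hI hy hp hs c hc hch ha e he => by
    have k1 := mul_le_mul_of_nonneg_left (h.step s u u' τ τ' hI hy hp hs c hc hch ha e he) hK
    rw [mul_add] at k1
    linarith [k1, show c.w * (K * Φ c.s c.v c.v' c.σ c.σ' e) = K * (c.w * Φ c.s c.v c.v' c.σ c.σ' e)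
      by ring]

/-- **pairs of items against the cross walk**, induction -/
theorem pair_bound' (hh : YH D sp P W Qp) (hRP : ∀ l, RP (Ro (D.rho l))) {stp : St Λ κ → Prop}
    {Iv : St Λ κ → NS → NS → IT → IT → Prop}
    (hIv : ∀ s u u' τ τ', Iv s u u' τ τ' → YI D sp Qp RP s u u' τ τ' → ∀ c : CR Λ κ,
      (c.w, c.s) ∈ nxtC stp s → Chd D Al sp Qp RP s.p s u u' τ τ' c → Iv c.s c.v c.v' c.σ c.σ')
    {l Φ : St Λ κ → NS → NS → IT → IT → ℕ × ℕ → ℝ} (hS : PSup D Al sp Qp RP stp Iv l Φ)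
    {loc G : St Λ κ → ℝ}
    (hloc : ∀ s u u' τ τ', Iv s u u' τ τ' → YI D sp Qp RP s u u' τ τ' →
      loc s ≤ G s + ∑ e ∈ Ep D Al s τ τ', l s u u' τ τ' e) :
    ∀ (k : ℕ) (s : St Λ κ), s.rank < k → ∀ u u' τ τ', Iv s u u' τ τ' →
      YI D sp Qp RP s u u' τ τ' →
      WC stp loc s ≤ WC stp G s + ∑ e ∈ Ep D Al s τ τ', Φ s u u' τ τ' e := by
  intro k
  induction k with
  | zero => intro s hs; omega
  | succ k ih =>
    intro s hk u u' τ τ' hI h
    have hl := hloc s u u' τ τ' hI h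
    have hgen := hS.le s u u' τ τ' hI h
    rw [WC_eq0 stp loc, WC_eq0 stp G]
    by_cases hs : (s.t.isLeaf ∧ s.t'.isLeaf) ∨ stp s
    · have e1 : nxt0C stp s = [] := by
        rcases hs with hs | hs
        · simp [nxt0C, hs]
        · simp [nxt0C, hs]
      rw [e1]
      simp only [List.map_nil, List.sum_nil, add_zero]
      exact hl.trans (add_le_add le_rfl (Finset.sum_le_sum hgen))
    have hs' := hs
    rw [not_or] at hs'
    obtain ⟨hpp, L, hF, hc, hd⟩ := h.next (Al := Al) hh hRP hs'.1 hs'.2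
    rw [hF, hF]
    have hcont : ∀ c ∈ L, c.w * WC stp loc c.s ≤ c.w * WC stp G c.s +
        ∑ e ∈ Ep D Al c.s c.σ c.σ', c.w * Φ c.s c.v c.v' c.σ c.σ' e := by
      intro c hcL
      obtain ⟨⟨hw, hm⟩, hch, -⟩ := hc c hcL
      have hm' : (c.w, c.s) ∈ nxtC stp s := mem_nxtC.2 ⟨hm, hw⟩
      have hr : c.s.rank < k := by
        have := nxt0C_rank stp s _ hm
        simp only at this
        omega
      have := ih c.s hr c.v c.v' c.σ c.σ' (hIv _ _ _ _ _ hI h c hm' hch) hch.yi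
      rw [← Finset.mul_sum, ← mul_add]
      exact mul_le_mul_of_nonneg_left this hch.w0
    have hsum := List.sum_le_sum hcont
    rw [List.sum_map_add] at hsum
    have key := sum_rects (l s u u' τ τ') (Φ s u u' τ τ')
      (fun c : CR Λ κ => Ep D Al c.s c.σ c.σ')
      (fun c e => c.w * Φ c.s c.v c.v' c.σ c.σ' e) L (Ep D Al s τ τ') hd
      (fun c hcL => (hc c hcL).2.1.sub) (by
        intro c hcL e he
        obtain ⟨⟨hw, hm⟩, hch, hact⟩ := hc c hcL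
        exact hS.step s u u' τ τ' hI h hpp hs c (mem_nxtC.2 ⟨hm, hw⟩) hch hact e he)
      hgen
    linarith

/-- **PAIRS OF ITEMS AGAINST THE CROSS WALK** -/
theorem pair_bound (hh : YH D sp P W Qp) (hRP : ∀ l, RP (Ro (D.rho l))) {stp : St Λ κ → Prop}
    {Iv : St Λ κ → NS → NS → IT → IT → Prop}
    (hIv : ∀ s u u' τ τ', Iv s u u' τ τ' → YI D sp Qp RP s u u' τ τ' → ∀ c : CR Λ κ,
      (c.w, c.s) ∈ nxtC stp s → Chd D Al sp Qp RP s.p s u u' τ τ' c → Iv c.s c.v c.v' c.σ c.σ')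
    {l Φ : St Λ κ → NS → NS → IT → IT → ℕ × ℕ → ℝ} (hS : PSup D Al sp Qp RP stp Iv l Φ)
    {loc G : St Λ κ → ℝ}
    (hloc : ∀ s u u' τ τ', Iv s u u' τ τ' → YI D sp Qp RP s u u' τ τ' →
      loc s ≤ G s + ∑ e ∈ Ep D Al s τ τ', l s u u' τ τ' e)
    {s : St Λ κ} {u u' : NS} {τ τ' : IT} (hI : Iv s u u' τ τ')
    (h : YI D sp Qp RP s u u' τ τ') :
    WC stp loc s ≤ WC stp G s + ∑ e ∈ Ep D Al s τ τ', Φ s u u' τ τ' e :=
  pair_bound' hh hRP hIv hS hloc (s.rank + 1) s (Nat.lt_succ_self _) u u' τ τ' hI h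

/-- pair invariants on the side data -/
lemma Chd.jp {Jp : ℕ × ℝ → ℕ × ℝ → ℕ × ℕ → Prop}
    (hJ : ∀ (p : ℕ) (i i' : Bool) (a a' c c' : ℕ × ℝ) (e : ℕ × ℕ), p.Prime → Mv p i a c →
      Mv p i' a' c' → (i = true ∨ i' = true) → Jp a a' e → Jp c c' e)
    {p : ℕ} (hpp : p.Prime) {s : St Λ κ} {u u' : NS} {τ τ' : IT} {c : CR Λ κ}
    (hch : Chd D Al sp Qp RP p s u u' τ τ' c)
    (hj : ∀ e ∈ Ep D Al s τ τ', Jp (sd (e.1 / u.A) s.M (u.B : ℝ))
      (sd (e.2 / u'.A) s.M' (u'.B : ℝ)) e) :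
    ∀ e ∈ Ep D Al c.s c.σ c.σ', Jp (sd (e.1 / c.v.A) c.s.M (c.v.B : ℝ))
      (sd (e.2 / c.v'.A) c.s.M' (c.v'.B : ℝ)) e := by
  intro e he
  have hje := hj e (hch.sub he)
  obtain ⟨T, T', ht, k1, k2⟩ := (hch.lk e he).kd
  obtain ⟨a1, a2, a3⟩ := k1.mv
  obtain ⟨b1, b2, b3⟩ := k2.mv
  rw [sd_eq, sd_eq] at hje ⊢
  cases T <;> cases T' <;> simp only [Ty.ok] at ht
  · rw [a1 rfl, b1 rfl]; exact hje
  · exact hJ _ _ _ _ _ _ _ _ hpp (a2 rfl) (b2 rfl) (Or.inl rfl) hje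
  · exact hJ _ _ _ _ _ _ _ _ hpp (a2 rfl) (b3 rfl) (Or.inl rfl) hje
  · exact hJ _ _ _ _ _ _ _ _ hpp (a3 rfl) (b2 rfl) (Or.inr rfl) hje

/-- the scale pair does not change along the walk -/
lemma Chd.sc {p : ℕ} (hpp : p.Prime) {s : St Λ κ} {u u' : NS} {τ τ' : IT} {c : CR Λ κ}
    (hch : Chd D Al sp Qp RP p s u u' τ τ' c) {e : ℕ × ℕ} (he : e ∈ Ep D Al c.s c.σ c.σ') :
    SE c.s.M c.v.B c.v.A c.s.M' c.v'.B c.v'.A e = SE s.M u.B u.A s.M' u'.B u'.A e :=
  (hch.lk e he).sc hpp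

/-! ### the potential -/

/-- potential of a pair at a state -/
noncomputable def potS (Vs : ℝ × ℝ → ℕ × ℕ → ℝ) (Vc Vx : ℕ → ℝ × ℝ → ℕ × ℕ → ℝ) (s : St Λ κ)
    (u u' : NS) (τ τ' : IT) (e : ℕ × ℕ) : ℝ :=
  pot Vs Vc Vx s.M u.B u.A s.M' u'.B u'.A τ τ' e

open Classical in
/-- what a pair of items may pay at a state: everything at stops and at the end, `lcC` at the ties -/
noncomputable def lcS (stp : St Λ κ → Prop) (Vs : ℝ × ℝ → ℕ × ℕ → ℝ)
    (Vc Vx : ℕ → ℝ × ℝ → ℕ × ℕ → ℝ) (s : St Λ κ) (u u' : NS) (τ τ' : IT) (e : ℕ × ℕ) : ℝ :=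
  if (s.t.isLeaf ∧ s.t'.isLeaf) ∨ stp s then potS Vs Vc Vx s u u' τ τ' e
  else if Act stp s then lcC Vc Vx s.p s.M u.B u.A s.M' u'.B u'.A τ τ' e else 0

section
variable {Vs : ℝ × ℝ → ℕ × ℕ → ℝ} {Vc Vx : ℕ → ℝ × ℝ → ℕ × ℕ → ℝ}

lemma potS_nonneg (h0 : ∀ s e, 0 ≤ Vs s e) (h1 : ∀ l s e, 0 ≤ Vc l s e)
    (h2 : ∀ l s e, 0 ≤ Vx l s e) (s : St Λ κ) (u u' : NS) (τ τ' : IT)
    (e : ℕ × ℕ) : 0 ≤ potS Vs Vc Vx s u u' τ τ' e := pot_nonneg h0 h1 h2 _ _ _ _ _ _ _ _ _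

lemma lcS_le_potS (h0 : ∀ s e, 0 ≤ Vs s e) (h1 : ∀ l s e, 0 ≤ Vc l s e)
    (h2 : ∀ l s e, 0 ≤ Vx l s e) (stp : St Λ κ → Prop) (s : St Λ κ) (u u' : NS) (τ τ' : IT)
    (e : ℕ × ℕ) : lcS stp Vs Vc Vx s u u' τ τ' e ≤ potS Vs Vc Vx s u u' τ τ' e := by
  unfold lcS
  split_ifs
  · exact le_rfl
  · unfold potS
    exact lcC_le_pot h0 h1 h2 _ _ _ _ _ _ _ _ _ _
  · exact potS_nonneg h0 h1 h2 _ _ _ _ _ _

lemma lcS_nonneg (h0 : ∀ s e, 0 ≤ Vs s e) (h1 : ∀ l s e, 0 ≤ Vc l s e)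
    (h2 : ∀ l s e, 0 ≤ Vx l s e) (stp : St Λ κ → Prop) (s : St Λ κ) (u u' : NS) (τ τ' : IT)
    (e : ℕ × ℕ) : 0 ≤ lcS stp Vs Vc Vx s u u' τ τ' e := by
  unfold lcS
  split_ifs
  · exact potS_nonneg h0 h1 h2 _ _ _ _ _ _
  · exact lcC_nonneg h1 h2 _ _ _ _ _ _ _ _ _ _
  · exact le_rfl

/-- at stops and at the end -/
lemma lcS_end {stp : St Λ κ → Prop} {s : St Λ κ} (hs : (s.t.isLeaf ∧ s.t'.isLeaf) ∨ stp s)
    (u u' : NS) (τ τ' : IT) (e : ℕ × ℕ) :
    lcS stp Vs Vc Vx s u u' τ τ' e = potS Vs Vc Vx s u u' τ τ' e := by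
  unfold lcS
  rw [if_pos hs]

/-- `Vs` is paid at stops and at the end -/
lemma Vs_le_lcS (h0 : ∀ s e, 0 ≤ Vs s e) (h1 : ∀ l s e, 0 ≤ Vc l s e)
    (h2 : ∀ l s e, 0 ≤ Vx l s e) {stp : St Λ κ → Prop} {s : St Λ κ}
    (hs : (s.t.isLeaf ∧ s.t'.isLeaf) ∨ stp s) (u u' : NS) (τ τ' : IT) (e : ℕ × ℕ) :
    (u.B:ℝ) * u'.B * Vs (SE s.M u.B u.A s.M' u'.B u'.A e) e ≤ lcS stp Vs Vc Vx s u u' τ τ' e := by
  rw [lcS_end hs]
  exact Vs_le_pot h0 h1 h2 _ _ _ _ _ _ _ _ _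

/-- **the potential of the pairs is a pair supersolution** -/
theorem PSup_pot (h0 : ∀ s e, 0 ≤ Vs s e) (h1 : ∀ l s e, 0 ≤ Vc l s e)
    (h2 : ∀ l s e, 0 ≤ Vx l s e) (stp : St Λ κ → Prop)
    (Iv : St Λ κ → NS → NS → IT → IT → Prop) :
    PSup D Al sp Qp RP stp Iv (lcS stp Vs Vc Vx) (potS Vs Vc Vx) where
  le := fun s u u' τ τ' _ _ e _ => lcS_le_potS h0 h1 h2 stp s u u' τ τ' e
  step := by
    intro s u u' τ τ' hI h hpp hs c hc hch hact e he
    have hlk := hch.lk e he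
    unfold lcS
    rw [if_neg hs]
    split_ifs with ha
    · exact pot_lk_act h0 h1 h2 hpp hlk hch.w0 hch.wB (hact ha _ _)
    · rw [add_zero]
      exact pot_lk h0 h1 h2 hpp hlk hch.w0 hch.wB

/-- **POTENTIAL BOUND** at the crossing state; `Jp` = invariant of the side data of a pair -/
theorem pot_bound (hh : YH D sp P W Qp) (hRP : ∀ l, RP (Ro (D.rho l))) {stp : St Λ κ → Prop}
    {Iv : St Λ κ → NS → NS → IT → IT → Prop}
    (hIv : ∀ s u u' τ τ', Iv s u u' τ τ' → YI D sp Qp RP s u u' τ τ' → ∀ c : CR Λ κ,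
      (c.w, c.s) ∈ nxtC stp s → Chd D Al sp Qp RP s.p s u u' τ τ' c → Iv c.s c.v c.v' c.σ c.σ')
    {Jp : ℕ × ℝ → ℕ × ℝ → ℕ × ℕ → Prop}
    (hJ : ∀ (p : ℕ) (i i' : Bool) (a a' c c' : ℕ × ℝ) (e : ℕ × ℕ), p.Prime → Mv p i a c →
      Mv p i' a' c' → (i = true ∨ i' = true) → Jp a a' e → Jp c c' e)
    (h0 : ∀ s e, 0 ≤ Vs s e) (h1 : ∀ l s e, 0 ≤ Vc l s e) (h2 : ∀ l s e, 0 ≤ Vx l s e)
    {l Φ : St Λ κ → NS → NS → IT → IT → ℕ × ℕ → ℝ}
    (hS : PSup D Al sp Qp RP stp (fun s u u' τ τ' => Iv s u u' τ τ' ∧ ∀ e ∈ Ep D Al s τ τ',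
      Jp (sd (e.1 / u.A) s.M (u.B : ℝ)) (sd (e.2 / u'.A) s.M' (u'.B : ℝ)) e) l Φ)
    {loc G : St Λ κ → ℝ}
    (hloc : ∀ s u u' τ τ', Iv s u u' τ τ' → YI D sp Qp RP s u u' τ τ' →
      (∀ e ∈ Ep D Al s τ τ', Jp (sd (e.1 / u.A) s.M (u.B : ℝ)) (sd (e.2 / u'.A) s.M' (u'.B : ℝ)) e) →
      loc s ≤ G s + ∑ e ∈ Ep D Al s τ τ', (lcS stp Vs Vc Vx s u u' τ τ' e + l s u u' τ τ' e))
    {s : St Λ κ} {u u' : NS} {τ τ' : IT} (hI : Iv s u u' τ τ')
    (h : YI D sp Qp RP s u u' τ τ')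
    (hj : ∀ e ∈ Ep D Al s τ τ', Jp (sd (e.1 / u.A) s.M (u.B : ℝ))
      (sd (e.2 / u'.A) s.M' (u'.B : ℝ)) e) :
    WC stp loc s ≤ WC stp G s +
      ∑ e ∈ Ep D Al s τ τ', (potS Vs Vc Vx s u u' τ τ' e + Φ s u u' τ τ' e) := by
  refine pair_bound hh hRP (Iv := fun s u u' τ τ' => Iv s u u' τ τ' ∧ ∀ e ∈ Ep D Al s τ τ',
      Jp (sd (e.1 / u.A) s.M (u.B : ℝ)) (sd (e.2 / u'.A) s.M' (u'.B : ℝ)) e) ?_
    ((PSup_pot h0 h1 h2 stp _).add hS) ?_ ⟨hI, hj⟩ h
  · intro s u u' τ τ' hIv' hy c hc hch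
    refine ⟨hIv _ _ _ _ _ hIv'.1 hy c hc hch, hch.jp hJ ?_ hIv'.2⟩
    have hns : ¬ ((s.t.isLeaf ∧ s.t'.isLeaf) ∨ stp s) := by
      intro hs
      have e1 : nxt0C stp s = [] := by
        rcases hs with hs | hs
        · simp [nxt0C, hs]
        · simp [nxt0C, hs]
      have := (mem_nxtC.1 hc).1
      rw [e1] at this
      exact absurd this (List.not_mem_nil)
    rw [not_or] at hns
    exact (hy.lev hh hns.1).1
  · intro s u u' τ τ' hIv' hy
    exact hloc s u u' τ τ' hIv'.1 hy hIv'.2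

/-- the zero pair supersolution -/
lemma PSup.zero (stp : St Λ κ → Prop) (Iv : St Λ κ → NS → NS → IT → IT → Prop) :
    PSup D Al sp Qp RP stp Iv (fun _ _ _ _ _ _ => 0) (fun _ _ _ _ _ _ => 0) where
  le := fun _ _ _ _ _ _ _ _ _ => le_rfl
  step := fun _ _ _ _ _ _ _ _ _ _ _ _ _ _ _ => by simp

end

end Crest.Agent.R4P.YI25
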