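import Crest.Agent.R4P.CzSum_36
import Crest.Agent.R4P.SameLf_30
import Crest.Agent.R4P.ShrG_28
import Crest.Agent.R4P.YI_25

/-!
R4P (S0004), helper36, group [X]: **the value of a pair of items at a crossing state**.

* `czmt`, `czmt'` : missing ties at a crossing state.
* `TOT` : the value of a pair; `tot_le` : the summand at the letters of the state and the exits.
* `sum_tot_le` : the sum over the pairs.
-/

set_option autoImplicit false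
set_option linter.unusedSectionVars false
set_option linter.unusedVariables false
open Finset

namespace Crest.Agent.R4P.CzTot36

open Crest.Agent.R4.Tour104 Crest.Agent.R4.Tour758 Crest.Agent.R4.Avg758 Crest.Agent.R4.Clos758
open Crest.Agent.R4.ClosL758 Crest.Agent.R4.ClosG758 Crest.Agent.R4.ClosR758
open Crest.Agent.R4.Fam464 Crest.Agent.R4P.Cnt588 Crest.Agent.R4P.Walk560 Crest.Agent.R4.Piece464
open Crest.Agent.R4P.Item758 Crest.Agent.R4P.AvgItem710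
open Crest.Agent.R4P.Data758 Crest.Agent.R4P.WalkIT579
open Crest.Agent.R4P.Bld532 (NS All NodeOk Bk)
open Crest.Agent.R4P.Res927 Crest.Agent.R4P.GSt927
open Crest.Agent.R4P.Skel189 (Ctx top Part PartW)
open Crest.Agent.R4.Soft104
open Crest.Agent.R4P.CrsFacts26 Crest.Agent.R4P.AsmX26
open Crest.Agent.R4P.StratN36 (ex)
open Crest.Agent.R4.AvgItem710 (rf)
open Crest.Agent.R4P.LLTot33 (xR yR)
open Crest.Agent.R4.CrossShot709 (lev)
open Crest.Agent.R4P.NumCls32 Crest.Agent.R4P.StripP33 Crest.Agent.R4P.ShotP33 Crest.Agent.R4P.BrP33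
open Crest.Agent.R4P.ShotTot33 (fe mc)
open Crest.Agent.R4.DeepSt579 (tq tq_nonneg tq_mono rd)
open Crest.Agent.R4P.ClsCtx36 Crest.Agent.R4P.PotSum32 Crest.Agent.R4P.ClsSh36 Crest.Agent.R4P.TotC36
open Crest.Agent.R4P.CrossLoc25 (FL VxL VcL FL_nonneg VxL_nonneg VcL_nonneg)
open Crest.Agent.R4P.SameIx30 (Vm)
open Crest.Agent.R4P.SameIx30 (VU VU_nonneg)
open Crest.Agent.R4P.NumTot33
open Crest.Agent.R4P.StopLeaf28 (LoSt)
open Crest.Agent.R4.CrossLoc709 (SE)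
open Crest.Agent.R4.NMW710 (Dq)
open Crest.Agent.R4P.LinkC33
open Crest.Agent.R4P.IvX29 (LkG)
open Crest.Agent.R4P.Link758 (MF)
open Crest.Agent.R4P.YI25 (pot potS Ep)
open Crest.Agent.R4P.NMW710 (Qi mem_Qi)
open Crest.Agent.R4P.ShrW34 (PhiM cf fut mb cf_le_one)
open Crest.Agent.R4P.ParF5 (rg)
open Crest.Agent.R4P.CzSum36
open Crest.Agent.R4P

/-! ### the regime -/

lemma rg_mono : Monotone rg := fun a b h => by
  unfold ParF5.rg
  refine Nat.log_mono_right (Nat.floor_le_floor ?_)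
  rcases Nat.eq_zero_or_pos a with rfl | ha
  · simpa using Real.log_natCast_nonneg b
  · exact Real.log_le_log (by exact_mod_cast ha) (by exact_mod_cast h)

lemma rg_le (b : ℕ) : (rg b : ℝ) ≤ Real.log b := by
  have hl : 0 ≤ Real.log b := Real.log_natCast_nonneg b
  unfold ParF5.rg
  calc ((Nat.log 2 ⌊Real.log b⌋₊ : ℕ) : ℝ) ≤ (⌊Real.log b⌋₊ : ℝ) := by exact_mod_cast Nat.log_le_self 2 _
    _ ≤ Real.log b := Nat.floor_le hl

section ctx
variable {N : Skel189.Num} {γ : ℝ} {p0 P₀ : ℕ} {X : Ctx N γ p0 P₀} {j₀ : X.c.Lam} {Q' : NS → IT → Prop}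
  {b : ℕ} {z : X.Sta} {v v' : NS} {σ σ' : IT} {Qp : NS → IT → Prop} {CL : ℝ}

/-- missing ties of one side of a crossing state -/
lemma cs_mt {d : DT X.c.Lam (Lb (WL X.c.Lam) X.Y)} (h : CS X j₀ Q' b v σ d) {q : ℕ} (hq : q ∈ σ.items) :
    ∀ l ∈ σ.mt q, l.Prime ∧ p0 < l ∧ l ≤ b ∧ l ∈ X.c.t.mt q := by
  intro l hl
  obtain ⟨F, -, -, -, h4⟩ := h.q.self.mf
  have h5 : l ∈ X.c.t.mt q := by rw [h4 q hq]; exact Finset.mem_union_right _ hl
  obtain ⟨h6, h7⟩ := BldF542.mt_lt σ v.n h.ok q l hl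
  exact ⟨h6, NI927.ctx_cols X q l (Or.inl h5), h.lv l h6 h7, h5⟩

/-- the two missing-tie sums of an item at a crossing state -/
lemma cs_mt_sum {d : DT X.c.Lam (Lb (WL X.c.Lam) X.Y)} (h : CS X j₀ Q' b v σ d) {q : ℕ} (hq : q ∈ σ.items)
    (h1 : ∑ l ∈ X.c.t.mt q, (l:ℝ)^(-(11/12):ℝ) ≤ 1) : ∑ l ∈ σ.mt q, (l:ℝ)^(-(11/12):ℝ) ≤ 1 :=
  (Finset.sum_le_sum_of_subset_of_nonneg (fun l hl => (cs_mt h hq l hl).2.2.2) fun _ _ _ =>
    Real.rpow_nonneg (Nat.cast_nonneg _) _).trans h1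

lemma cs_mt_card {d : DT X.c.Lam (Lb (WL X.c.Lam) X.Y)} (h : CS X j₀ Q' b v σ d) {q : ℕ} (hq : q ∈ σ.items)
    {n : ℝ} (h1 : (((X.c.t.mt q).filter (· ≤ b)).card : ℝ) ≤ n) : ((σ.mt q).card : ℝ) ≤ n := by
  refine le_trans ?_ h1
  exact_mod_cast Finset.card_le_card fun l hl => Finset.mem_filter.2
    ⟨(cs_mt h hq l hl).2.2.2, (cs_mt h hq l hl).2.2.1⟩

/-- **the value of a pair of items** at a crossing state -/
noncomputable def TOT (X : Ctx N γ p0 P₀) (Qp : NS → IT → Prop) (T K1 K2 : ℝ) (b : ℕ) (z : X.Sta)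
    (v v' : NS) (σ σ' : IT) (e : ℕ × ℕ) : ℝ :=
  K1 * potS (VU (PV X Qp b z v v') (LoSt T p0 X.c.rr (xR z.M v.A z.M' v'.A) (yR z.M v.A z.M' v'.A))
      X.c.rr X.c.γ)
    (VcL (Pc X Qp z v v') X.c.γ X.c.rr (LoSt T p0 X.c.rr (xR z.M v.A z.M' v'.A) (yR z.M v.A z.M' v'.A)))
    (VxL (Px X Qp z v v') X.c.γ X.c.rr (LoSt T p0 X.c.rr (xR z.M v.A z.M' v'.A) (yR z.M v.A z.M' v'.A)))
    z v v' σ σ' e +
  K2 * PhiM (X.c.D.par X.Y) X.c.t.mt rg (fun _ => VU (PV X Qp b z v v')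
      (LoSt T p0 X.c.rr (xR z.M v.A z.M' v'.A) (yR z.M v.A z.M' v'.A)) X.c.rr X.c.γ) z v v' σ σ' e

/-- the value of the state at a pair -/
noncomputable def Uz (X : Ctx N γ p0 P₀) (Qp : NS → IT → Prop) (T : ℝ) (b : ℕ) (z : X.Sta)
    (v v' : NS) (e : ℕ × ℕ) : ℝ :=
  UV (LoSt T p0 X.c.rr (xR z.M v.A z.M' v'.A) (yR z.M v.A z.M' v'.A)) (PV X Qp b z v v')
    (PV X Qp b z v v') X.c.rr X.c.γ (SEz z v v' e) e

/-- the exit summand -/
noncomputable def fxz (X : Ctx N γ p0 P₀) (Qp : NS → IT → Prop) (T : ℝ) (z : X.Sta)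
    (v v' : NS) (σ σ' : IT) (l : ℕ) (e : ℕ × ℕ) : ℝ :=
  fx (VxL (Px X Qp z v v') X.c.γ X.c.rr
        (LoSt T p0 X.c.rr (xR z.M v.A z.M' v'.A) (yR z.M v.A z.M' v'.A)))
        z.M v.B v.A z.M' v'.B v'.A σ σ' l e

lemma fxz_nonneg (hρ : ∀ q, 0 < X.c.rr q) (T : ℝ) (l : ℕ) (e : ℕ × ℕ) :
    0 ≤ fxz X Qp T z v v' σ σ' l e := by
  unfold fxz TotC36.fx
  refine mul_nonneg (by positivity) ?_
  split_ifs
  · exact VxL_nonneg hρ _ _ _
  · exact le_rfl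

lemma TOT_nonneg (hρ : ∀ q, 0 < X.c.rr q) {T K1 K2 : ℝ} (hK1 : 0 ≤ K1) (hK2 : 0 ≤ K2) (e : ℕ × ℕ) :
    0 ≤ TOT X Qp T K1 K2 b z v v' σ σ' e := by
  unfold TOT
  refine add_nonneg (mul_nonneg hK1 (YI25.potS_nonneg (fun s e => VU_nonneg hρ _ _ _ _ _)
    (fun l s e => VcL_nonneg hρ _ _ _) (fun l s e => VxL_nonneg hρ _ _ _) _ _ _ _ _ _)) (mul_nonneg hK2
    (ShrW34.PhiM_nonneg (fun k s e => VU_nonneg hρ _ _ _ _ _) _ _ _ _ _ _))

open Classical in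
/-- **the value of a pair** -/
theorem tot_le (h : CZ X j₀ Q' b z v v' σ σ') (hρ : ∀ q, 0 < X.c.rr q) {T K1 K2 n : ℝ} (hK1 : 0 ≤ K1)
    (hK2 : 0 ≤ K2) (hzp : z.p ≤ b)
    {e : ℕ × ℕ} (he : e ∈ SI X σ.items ×ˢ SI X σ'.items)
    (hn : ∀ q ∈ X.S', (((X.c.t.mt q).filter (· ≤ b)).card : ℝ) ≤ n) :
    TOT X Qp T K1 K2 b z v v' σ σ' e ≤
      (K1 * (1 + 4 * n) + K2 * (1 + 2 * n + Real.log b)) * ((v.B:ℝ) * v'.B * Uz X Qp T b z v v' e) +
      ∑ l ∈ (Finset.range b).filter Nat.Prime, K1 * fxz X Qp T z v v' σ σ' l e +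
      K1 * fxz X Qp T z v v' σ σ' b e := by
  obtain ⟨h1, h2⟩ := Finset.mem_product.1 he
  obtain ⟨q1, q2⟩ := mem_SI.1 h1
  obtain ⟨r1, r2⟩ := mem_SI.1 h2
  set Lo := LoSt T p0 X.c.rr (xR z.M v.A z.M' v'.A) (yR z.M v.A z.M' v'.A) with hLo
  set U := Uz X Qp T b z v v' e with hU
  have hU0 : 0 ≤ U := UV_nonneg hρ _ _
  have hUV : VU (PV X Qp b z v v') Lo X.c.rr X.c.γ (SE z.M v.B v.A z.M' v'.B v'.A e) e = U := rfl
  -- the potential
  have k1 : potS (VU (PV X Qp b z v v') Lo X.c.rr X.c.γ) (VcL (Pc X Qp z v v') X.c.γ X.c.rr Lo)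
      (VxL (Px X Qp z v v') X.c.γ X.c.rr Lo) z v v' σ σ' e ≤
      (1 + 2 * (2 * n)) * ((v.B:ℝ) * v'.B * U) +
      ∑ l ∈ (Finset.range b).filter Nat.Prime, fxz X Qp T z v v' σ σ' l e + fxz X Qp T z v v' σ σ' b e := by
    refine pot_split (fun l s e => VxL_nonneg hρ _ _ _) hU0 (le_of_eq hUV) ?_ ?_ ?_
    · intro l hl
      have hl' : l.Prime ∧ p0 < l ∧ l ≤ b := by
        rcases Finset.mem_union.1 hl with hl | hl
        · exact ⟨(cs_mt h.L q1 l hl).1, (cs_mt h.L q1 l hl).2.1, (cs_mt h.L q1 l hl).2.2.1⟩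
        · exact ⟨(cs_mt h.R r1 l hl).1, (cs_mt h.R r1 l hl).2.1, (cs_mt h.R r1 l hl).2.2.1⟩
      unfold CrossLoc25.VcL
      by_cases hP : Pc X Qp z v v' l e
      · rw [if_pos hP]
        have hPV : PV X Qp b z v v' e := ⟨l, hl'.1, hl'.2.1, hl'.2.2, hP⟩
        rw [hU]
        unfold Uz TotC36.UV
        rw [if_pos hPV]
        exact le_add_of_nonneg_right (SameIx30.Vm_nonneg hρ _ _ _)
      · rw [if_neg hP]; exact hU0
    · intro l hl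
      rcases Finset.mem_union.1 hl with hl | hl
      · exact ⟨(cs_mt h.L q1 l hl).1, (cs_mt h.L q1 l hl).2.2.1⟩
      · exact ⟨(cs_mt h.R r1 l hl).1, (cs_mt h.R r1 l hl).2.2.1⟩
    · have c1 := cs_mt_card h.L q1 (hn _ q2)
      have c2 := cs_mt_card h.R r1 (hn _ r2)
      have c3 : ((σ.mt e.1 ∪ σ'.mt e.2).card : ℝ) ≤ (σ.mt e.1).card + (σ'.mt e.2).card := by
        exact_mod_cast Finset.card_union_le _ _
      linarith
  -- the merges
  have k2 : PhiM (X.c.D.par X.Y) X.c.t.mt rg (fun _ => VU (PV X Qp b z v v') Lo X.c.rr X.c.γ)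
      z v v' σ σ' e ≤ (1 + 2 * n + Real.log b) * ((v.B:ℝ) * v'.B * U) := by
    have hcard : ∀ q ∈ X.S', ((mb X.c.t.mt z.p q).card : ℝ) ≤ n := fun q hq => by
      refine le_trans ?_ (hn q hq)
      exact_mod_cast Finset.card_le_card fun l hl => by
        unfold ShrW34.mb at hl
        obtain ⟨l1, l2⟩ := Finset.mem_filter.1 hl
        exact Finset.mem_filter.2 ⟨l1, l2.trans hzp⟩
    have hr : (rg z.p : ℝ) ≤ Real.log b := le_trans (by exact_mod_cast rg_mono hzp) (rg_le b)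
    unfold ShrW34.PhiM
    have c1 : cf (X.c.D.par X.Y) z e * U ≤ U := mul_le_of_le_one_left hU0 (cf_le_one _ _)
    have c2 : fut X.c.t.mt rg (fun _ => U) z.p e ≤ (2 * n + Real.log b) * U := by
      unfold ShrW34.fut
      simp only [Finset.sum_const, Finset.card_range, nsmul_eq_mul]
      have d1 := mul_le_mul_of_nonneg_right (hcard _ q2) hU0
      have d2 := mul_le_mul_of_nonneg_right (hcard _ r2) hU0
      have d3 := mul_le_mul_of_nonneg_right hr hU0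
      nlinarith
    have c3 : cf (X.c.D.par X.Y) z e * VU (PV X Qp b z v v') Lo X.c.rr X.c.γ (SE z.M v.B v.A z.M' v'.B v'.A e) e +
        fut X.c.t.mt rg (fun k => VU (PV X Qp b z v v') Lo X.c.rr X.c.γ (SE z.M v.B v.A z.M' v'.B v'.A e) e) z.p e ≤
        (1 + 2 * n + Real.log b) * U := by
      rw [hUV]
      linarith
    calc _ ≤ ((v.B:ℝ) * v'.B) * ((1 + 2 * n + Real.log b) * U) :=
          mul_le_mul_of_nonneg_left c3 (by positivity)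
      _ = _ := by ring
  unfold TOT
  rw [← Finset.mul_sum]
  calc _ ≤ K1 * ((1 + 2 * (2 * n)) * ((v.B:ℝ) * v'.B * U) +
      ∑ l ∈ (Finset.range b).filter Nat.Prime, fxz X Qp T z v v' σ σ' l e + fxz X Qp T z v v' σ σ' b e) +
      K2 * ((1 + 2 * n + Real.log b) * ((v.B:ℝ) * v'.B * U)) :=
        add_le_add (mul_le_mul_of_nonneg_left k1 hK1) (mul_le_mul_of_nonneg_left k2 hK2)
    _ = _ := by ring

lemma Ep_sub : Ep (X.c.D.par X.Y) X.S' z σ σ' ⊆ SI X σ.items ×ˢ SI X σ'.items := by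
  intro e he
  obtain ⟨h1, h2⟩ := Finset.mem_product.1 he
  obtain ⟨q1, q2, -⟩ := mem_Qi.1 h1
  obtain ⟨r1, r2, -⟩ := mem_Qi.1 h2
  exact Finset.mem_product.2 ⟨mem_SI.2 ⟨q1, q2⟩, mem_SI.2 ⟨r1, r2⟩⟩

end ctx

end Crest.Agent.R4P.CzTot36
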