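import Crest.Agent.R4P.CrossLoc_25
import Crest.Agent.R4.WalkR560

/-!
R4P (S0004), helper27, module D, group [X]: **exact column identities of one side of a pair of nodes**, in the
letters of the averaged populations `D.uA` (any function family on the other side).

* `uA_free` / `Q_free'`   : a tie whose prime divides the modulus (both children, modulus `M / p`; any relation);
* `Q_col`                 : a tie whose prime does not divide the modulus (relation `Ro (D.rho p)`);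
* `uA_pl_free`, `Q_pl`    : pulls;
* `uA_add`, `uA_far`, `uA_up` : the other nodes;
* `Q_split`               : change of the relation (`R ⊆ (R \ R') ∪ R'`).
-/

set_option autoImplicit false
set_option linter.unusedSectionVars false
set_option linter.unusedVariables false
open MeasureTheory Filter

namespace Crest.Agent.R4P.LeafCol27

open Crest.Agent.R4.HVW560 Crest.Agent.R4P.AvgItem710
open Crest.Agent.R4.Tour104 Crest.Agent.R4.Tour758 Crest.Agent.R4.Avg758 Crest.Agent.R4.Clos758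
open Crest.Agent.R4.ClosL758 Crest.Agent.R4.ClosG758 Crest.Agent.R4.ClosR758
open Crest.Agent.R4.Lam368 (mult lamF DW BW fW Nested Dat FW lamF_eq_mult Ep_FW)
open Crest.Agent.R4.Fam464 Crest.Agent.R4P.Cnt588 Crest.Agent.R4P.Walk560 Crest.Agent.R4.Piece464
open Crest.Agent.R4P.Item758 Crest.Agent.R4P.CrossLoc25

variable {Λ κ : Type*} [Fintype Λ] [DecidableEq Λ] [Fintype κ] [DecidableEq κ]
  {D : Par Λ κ} {sp : ℕ → Finset Λ} {b pr p : ℕ} {t t₁ t₀ : IT} {S : Finset ℕ} {A : Finset Λ}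
  {d : DT Λ κ}

lemma pbu {c M : ℕ} (h : SideI D sp b pr t A d) (hM : 0 < M) (hc : c ∣ b) (A : Finset Λ)
    (j : Λ) : PB (D.uA M b pr t A c j) := PB_uA hM h.hb h.hF h.hW hc j

/-- the mean of the tournament on the fibres, one piece -/
lemma mean_br (h : SideI D sp b pr (.br p S t₁ t₀) A d) (j : Λ) (y : ℝ) :
    Ep p ((D.toFT b pr (.br p S t₁ t₀)).U 1 j) y =
      (1 - 1 / (p : ℝ)) * (D.toFT b (pr * p) t₁).U 1 j y +
        1 / (p : ℝ) * (D.toFT (b * p) pr t₀).U 1 j y := by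
  have hA : (D.toFT b pr (.br p S t₁ t₀)).Adm b := D.toFT_Adm _ b pr h.hb h.hF h.hW
  have hd := FT.dat h.hb hA
  have e : (D.toFT b pr (.br p S t₁ t₀)).U 1 j =
      FW p (fun j => (D.toFT b (pr * p) t₁).U 1 j) (fun j => (D.toFT (b * p) pr t₀).U p j)
        (fun j => (D.toFT (b * p) pr t₀).U 1 j) (fun _ => D.rho p) (0 + 1) {j} := by
    funext x
    unfold FW
    rw [Finset.sum_singleton, lamF_eq_mult hd]
    show mult p _ _ _ _ _ _ (((1 : ℕ) : ℝ) * x) * _ + (D.toFT (b * p) pr t₀).U (1 * p) j x = _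
    rw [Nat.cast_one, one_mul, one_mul]
  rw [e, Ep_FW hd]
  unfold fW
  rw [Finset.sum_singleton, Finset.sum_singleton]
  ring

/-- **free tie** : modulus divisible by the prime -/
lemma uA_free (h : SideI D sp b pr (.br p S t₁ t₀) A d) {M : ℕ} (hM : 0 < M) (A : Finset Λ)
    (j : Λ) (y : ℝ) :
    D.uA (p * M) b pr (.br p S t₁ t₀) A 1 j y =
      (1 - 1 / (p : ℝ)) * D.uA M b (pr * p) t₁ A 1 j y +
        1 / (p : ℝ) * D.uA M (b * p) pr t₀ A 1 j y := by
  have hp : 0 < p := h.hF.1.pos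
  unfold Par.uA avg
  by_cases hj : j ∈ A
  · have e : ∀ (f : Λ → ℝ → ℝ), rv A f j = f j := fun f => by
      funext x; unfold rv; simp [hj]
    rw [e, e, e, mul_comm p M, ← Ep_mul hM hp, ← Ep_lin]
    congr 1
    funext x
    exact mean_br h j x
  · have e : ∀ (f : Λ → ℝ → ℝ), rv A f j = fun _ => 0 := fun f => by
      funext x; unfold rv; simp [hj]
    rw [e, e, e, Ep_const (Nat.mul_pos hp hM), Ep_const hM]
    ring

/-- energies, linear combination on the right -/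
lemma Q_lin {R : Finset (Λ × Λ)} {f g g₁ g₂ : Λ → ℝ → ℝ} {a c : ℝ} (ha : 0 ≤ a) (hc : 0 ≤ c)
    (hf : ∀ j, PB (f j)) (h1 : ∀ j, PB (g₁ j)) (h2 : ∀ j, PB (g₂ j))
    (hg : ∀ j y, g j y = a * g₁ j y + c * g₂ j y) :
    Q R f g = a * Q R f g₁ + c * Q R f g₂ := by
  unfold Q
  rw [Finset.mul_sum, Finset.mul_sum, ← Finset.sum_add_distrib]
  refine Finset.sum_congr rfl fun e _ => ?_
  rw [← I_smul, ← I_smul, ← I_add (((hf e.1).mul (h1 e.2)).smul ha).integrableOn
    (((hf e.1).mul (h2 e.2)).smul hc).integrableOn]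
  congr 1
  funext x
  rw [hg]; ring

/-- **free tie**, energies -/
theorem Q_free' (h : SideI D sp b pr (.br p S t₁ t₀) A d) {M : ℕ} (hM : 0 < M) (A : Finset Λ)
    (R : Finset (Λ × Λ)) {f : Λ → ℝ → ℝ} (hf : ∀ j, PB (f j)) :
    Q R f (D.uA (p * M) b pr (.br p S t₁ t₀) A 1) =
      (1 - 1 / (p : ℝ)) * Q R f (D.uA M b (pr * p) t₁ A 1) +
        1 / (p : ℝ) * Q R f (D.uA M (b * p) pr t₀ A 1) := by
  have hp : (1 : ℝ) ≤ p := by exact_mod_cast h.hF.1.one_lt.le
  have h1 : 1 / (p : ℝ) ≤ 1 := by rw [div_le_one (by linarith)]; exact hp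
  exact Q_lin (by linarith) (by positivity) hf (fun j => pbu h.br₁ hM (one_dvd _) A j)
    (fun j => pbu h.br₀ hM (one_dvd _) A j) (fun j y => uA_free h hM A j y)

/-- **pull**, modulus divisible by the prime -/
lemma uA_pl_free (h : SideI D sp b pr (.pl p t) A d) {M : ℕ} (hM : 0 < M) (A : Finset Λ) :
    D.uA (p * M) b pr (.pl p t) A 1 = D.uA M b (pr * p) t A 1 := by
  have hp : 0 < p := h.hF.1.pos
  funext j y
  unfold Par.uA avg
  by_cases hj : j ∈ A
  · have e : ∀ (f : Λ → ℝ → ℝ), rv A f j = f j := fun f => by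
      funext x; unfold rv; simp [hj]
    rw [e, e, mul_comm p M, ← Ep_mul hM hp]
    congr 1
    funext x
    have hper : ∀ x, (D.toFT b (pr * p) t).U 1 j (x + 1) = (D.toFT b (pr * p) t).U 1 j x :=
      (FT.pb h.hb (D.toFT_Adm _ b (pr * p) h.hb h.pl.hF h.pl.hW) (one_dvd _) j).per
    have k := Ep_pull_mul hp (a := (D.toFT b (pr * p) t).U 1 j) (f := fun _ => (1 : ℝ)) hper x
    rw [Ep_const hp] at k
    simp only [mul_one] at k
    exact k
  · have e : ∀ (f : Λ → ℝ → ℝ), rv A f j = fun _ => 0 := fun f => by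
      funext x; unfold rv; simp [hj]
    rw [e, e, Ep_const (Nat.mul_pos hp hM), Ep_const hM]

/-- a pull, modulus coprime to the prime: pointwise -/
lemma uA_pl (h : SideI D sp b pr (.pl p t) A d) {M : ℕ} (hM : 0 < M) (hc : ¬ p ∣ M)
    (A : Finset Λ) (j : Λ) (y : ℝ) :
    D.uA M b pr (.pl p t) A 1 j y = D.uA M b (pr * p) t A 1 j (p * y) := by
  have hp : 0 < p := h.hF.1.pos
  have hco : Nat.Coprime p M := (Nat.Prime.coprime_iff_not_dvd h.hF.1).2 hc
  unfold Par.uA avg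
  by_cases hj : j ∈ A
  · have e : ∀ (f : Λ → ℝ → ℝ), rv A f j = f j := fun f => by
      funext x; unfold rv; simp [hj]
    rw [e, e]
    have hper : ∀ x, (D.toFT b (pr * p) t).U 1 j (x + 1) = (D.toFT b (pr * p) t).U 1 j x :=
      (FT.pb h.hb (D.toFT_Adm _ b (pr * p) h.hb h.pl.hF h.pl.hW) (one_dvd _) j).per
    exact Ep_pull_coprime hM hco hper y
  · have e : ∀ (f : Λ → ℝ → ℝ), rv A f j = fun _ => 0 := fun f => by
      funext x; unfold rv; simp [hj]
    rw [e, e, Ep_const hM, Ep_const hM]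

/-- **pull**, energies -/
theorem Q_pl (h : SideI D sp b pr (.pl p t) A d) {M : ℕ} (hM : 0 < M) (hc : ¬ p ∣ M)
    (A : Finset Λ) (R : Finset (Λ × Λ)) {f : Λ → ℝ → ℝ} (hf : ∀ j, PB (f j)) :
    Q R f (D.uA M b pr (.pl p t) A 1) = Q R (avg p f) (D.uA M b (pr * p) t A 1) := by
  have hp : 0 < p := h.hF.1.pos
  unfold Q
  refine Finset.sum_congr rfl fun e _ => ?_
  have k := push_left hp (pbu h.pl hM (one_dvd _) A e.2) (hf e.1)
  have e1 : (fun x => f e.1 x * D.uA M b pr (.pl p t) A 1 e.2 x) =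
      fun x => D.uA M b (pr * p) t A 1 e.2 (p * x) * f e.1 x := by
    funext x; rw [uA_pl h hM hc]; ring
  rw [e1, k]
  congr 1
  funext y
  unfold avg
  ring

/-- averaging an averaged population -/
lemma avg_uA {M c : ℕ} (hp : 0 < p) (hM : 0 < M) (A : Finset Λ) :
    avg p (D.uA M b pr t A c) = D.uA (p * M) b pr t A c := by
  funext j y
  unfold Par.uA avg
  exact Ep_mul hp hM y

/-- **add** -/
lemma uA_add (M : ℕ) (A : Finset Λ) (n : ℕ) (j : Λ) (y : ℝ) :
    D.uA M b pr (.add n t₁ t₀) A 1 j y = 1 * D.uA M b pr t₁ A 1 j y + 1 * D.uA M b pr t₀ A 1 j y := by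
  unfold Par.uA avg
  rw [← Ep_lin]
  congr 1
  funext x
  unfold rv
  by_cases hj : j ∈ A
  · simp only [hj, if_true]
    show _ = _
    simp only [one_mul]
    rfl
  · simp [hj]

/-- **far** -/
lemma uA_far (M : ℕ) (A : Finset Λ) (n : ℕ) :
    D.uA M b pr (.far n t₁ t₀) A 1 = D.uA M b pr (.add n t₁ t₀) A 1 := rfl

/-- **up** -/
lemma uA_up (M : ℕ) (A : Finset Λ) (n : ℕ) (S : Finset ℕ) :
    D.uA M b pr (.up n S t) A 1 = D.uA M b pr t A 1 := rfl

theorem Q_addI (h : SideI D sp b pr (.add p t₁ t₀) A d) {M : ℕ} (hM : 0 < M) (A : Finset Λ)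
    (R : Finset (Λ × Λ)) {f : Λ → ℝ → ℝ} (hf : ∀ j, PB (f j)) :
    Q R f (D.uA M b pr (.add p t₁ t₀) A 1) =
      Q R f (D.uA M b pr t₁ A 1) + Q R f (D.uA M b pr t₀ A 1) := by
  have k := Q_lin (R := R) (f := f) zero_le_one zero_le_one hf
    (fun j => pbu h.add₁ hM (one_dvd _) A j) (fun j => pbu h.add₀ hM (one_dvd _) A j)
    (fun j y => uA_add M A p j y)
  rw [k, one_mul, one_mul]

theorem Q_farI (h : SideI D sp b pr (.far p t₁ t₀) A d) {M : ℕ} (hM : 0 < M) (A : Finset Λ)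
    (R : Finset (Λ × Λ)) {f : Λ → ℝ → ℝ} (hf : ∀ j, PB (f j)) :
    Q R f (D.uA M b pr (.far p t₁ t₀) A 1) =
      Q R f (D.uA M b pr t₁ A 1) + Q R f (D.uA M b pr t₀ A 1) := by
  rw [uA_far]
  have k := Q_lin (R := R) (f := f) zero_le_one zero_le_one hf
    (fun j => pbu h.far₁ hM (one_dvd _) A j) (fun j => pbu h.far₀ hM (one_dvd _) A j)
    (fun j y => uA_add M A p j y)
  rw [k, one_mul, one_mul]

section col
variable [WRel κ]
/-- **tie**, modulus not divisible by the prime, against any averaged population of pieces -/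
theorem Q_col (h : SideI D sp b pr (.br p S t₁ t₀) A d) {M M' : ℕ} (hM : 0 < M) (hM' : 0 < M')
    (hc : ¬ p ∣ M) {F : Λ → ℝ → ℝ} (hF : ∀ j, PB (F j)) :
    Q (Ro (D.rho p)) (avg M' F) (D.uA M b pr (.br p S t₁ t₀) A 1) =
      (1 - 1 / (p : ℝ)) * Q (Ro (D.rho p)) (avg (p * M') F) (D.uA M b (pr * p) t₁ A 1) +
        1 / (p : ℝ) * Q (Ro (D.rho p)) (avg (p * M') F) (D.uA M (b * p) pr t₀ A 1) +
        os (orel κ) p (avg M (rk A (D.rho p) (GD D b pr p t₁ t₀)))
          (sm (D.rho p) (avg M' F)) := by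
  have hco : Nat.Coprime p M := (Nat.Prime.coprime_iff_not_dvd h.hF.1).2 hc
  have hO := D.toG_Ok h.hb h.hF h.hW
  have hb := hO.2.2
  have e1 := D.toG_val h.br₁.hb h.br₁.hF h.br₁.hW
  have e0 := D.toG_val h.br₀.hb h.br₀.hF h.br₀.hW
  have ev := D.toG_val h.hb h.hF h.hW
  have hs : Sat A (D.rho p) := h.sat_br
  have p1 : ∀ j, PB (rv A (D.toG b (pr * p) t₁).val j) := PB_rv (fun j => hO.1.pb j) A
  have p0 : ∀ j, PB (rv A (D.toG (b * p) pr t₀).val j) := PB_rv (fun j => hO.2.1.pb j) A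
  have key := Crest.Agent.R4.WalkR560.QR_col1 (BrOk.res hb hs) p1 p0 hF hM hM' hco
  have kv : Q (Ro (D.rho p)) (avg M' F) (D.uA M b pr (.br p S t₁ t₀) A 1) =
      Q (Ro (D.rho p)) (avg M (rv A (D.toG b pr (.br p S t₁ t₀)).val)) (avg M' F) := by
    rw [Q_Ro_swap, ev]; rfl
  have k1 : Q (Ro (D.rho p)) (avg (p * M') F) (D.uA M b (pr * p) t₁ A 1) =
      Q (Ro (D.rho p)) (avg M (rv A (D.toG b (pr * p) t₁).val)) (avg (p * M') F) := by
    rw [Q_Ro_swap, e1]; rfl
  have k0 : Q (Ro (D.rho p)) (avg (p * M') F) (D.uA M (b * p) pr t₀ A 1) =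
      Q (Ro (D.rho p)) (avg M (rv A (D.toG (b * p) pr t₀).val)) (avg (p * M') F) := by
    rw [Q_Ro_swap, e0]; rfl
  rw [kv, k1, k0]
  exact key

/-- change of the relation -/
lemma Q_split {R R' : Finset (Λ × Λ)} {f g : Λ → ℝ → ℝ} (hf : ∀ j, PB (f j)) (hg : ∀ j, PB (g j)) :
    Q R f g ≤ Q R' f g + Q (R \ R') f g := Q_le_sdiff R R' hf hg

end col
end Crest.Agent.R4P.LeafCol27
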