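import Crest.Agent.R4P.LeafLoc_28
import Crest.Agent.R4P.LocXc_25

/-!
R4P (S0004), powers, module D, group [X], helper28: **context facts of the leaf walk**.

* `mt_sub` : missing ties of a node of a context; `lam_two` : `∏_{l ∈ mt} (1 + 1/(l-1)) ≤ 2` for the alive items;
* `ctx_MgH` : the merges of the leaf walk in the letters of LocXc_25.
-/

set_option autoImplicit false
set_option linter.unusedSectionVars false
set_option linter.unusedVariables false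
open Finset hiding dens

namespace Crest.Agent.R4P.LeafK28

open Crest.Agent.R4.HVW560 Crest.Agent.R4P.AvgItem710
open Crest.Agent.R4.Tour104 Crest.Agent.R4.Tour758 Crest.Agent.R4.Avg758 Crest.Agent.R4.Clos758
open Crest.Agent.R4.ClosL758 Crest.Agent.R4.ClosG758 Crest.Agent.R4.ClosR758
open Crest.Agent.R4.Fam464 Crest.Agent.R4P.Cnt588 Crest.Agent.R4P.Walk560 Crest.Agent.R4P.Item758
open Crest.Agent.R4P.Bld532 (NS All NodeOk Bk dv nd mem_dv mem_nd)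
open Crest.Agent.R4P.GSt927 Crest.Agent.R4P.WalkIT579 Crest.Agent.R4P.NMW710
open Crest.Agent.R4P.CrossLoc25 Crest.Agent.R4P.CrossLocC25 Crest.Agent.R4P.YI25
open Crest.Agent.R4P.LeafCol27 Crest.Agent.R4P.LeafM27 Crest.Agent.R4P.LeafT27
open Crest.Agent.R4P.LeafW27 Crest.Agent.R4P.LeafMg30 Crest.Agent.R4P.WmfL25
open Crest.Agent.R4P.ShrG28 (HG HG_nonneg)
open Crest.Agent.R4P.Data758 Crest.Agent.R4.Piece464
open Crest.Agent.R4P.TBLeaf28 (JC LoX)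
open Crest.Agent.R4P.Skel189 (Ctx top Kc)
open Crest.Agent.R4P.Step588 (NDt ND1 CT CT_pos)
open Crest.Agent.R4P.LLCtx30 (LfA TmN)
open Crest.Agent.R4.Soft104 (w)
open Crest.Agent.R4P.StopLeaf28 (LoSt LoX_LoSt LoS_LoSt LoSt_stop LoSt_T)
open Crest.Agent.R4P.SameIx30 (VU Vm)
open Crest.Agent.R4.Ovl560 (CM dens dens_pos)
open Crest.Agent.R4P.LocX25
open Crest.Agent.R4P

section ctx
variable {N : Skel189.Num} {γ : ℝ} {p0 P₀ : ℕ}

/-- missing ties of a node of a context -/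
lemma mt_sub {X : Ctx N γ p0 P₀} {u : NS} {τ : IT} (h : NDt X.par (w X.ψ) X.c.t u τ) {r : ℕ}
    (hr : r ∈ τ.items) : τ.mt r ⊆ X.c.t.mt r := by
  intro l hl
  have h1 := h.self.mp r hr
  have hp := (BldF542.mt_lt _ _ h.self.ok _ _ hl).1
  have h2 : l ∣ mp τ r := by
    rw [BldF542.mp_eq_prod τ _ h.self.ok r]
    exact Finset.dvd_prod_of_mem _ hl
  have h3 : l ∣ mp X.c.t r := by
    rw [h1]
    exact Dvd.dvd.mul_left h2 _
  rw [BldF542.mp_eq_prod _ _ X.tOk r] at h3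
  obtain ⟨m, hm, hd⟩ := (hp.prime.dvd_finsetProd_iff _).1 h3
  have hmp := (BldF542.mt_lt _ _ X.tOk _ _ hm).1
  rwa [(Nat.prime_dvd_prime_iff_eq hp hmp).1 hd]

/-- **the product over the missing ties of an alive item** -/
theorem lam_two (N : Skel189.Num) : ∃ p₁ : ℕ, ∀ p0 ≥ p₁, ∀ (γ : ℝ) (P₀ : ℕ) (X : Ctx N γ p0 P₀)
    (u : NS) (τ : IT), NDt X.par (w X.ψ) X.c.t u τ → ∀ r ∈ X.S', r ∈ τ.items → lam τ r ≤ 2 := by
  have hB1 := N.hB
  have hC1 := N.hC1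
  have hc2 := N.hc2
  obtain ⟨p2, hp2⟩ := LeafA734.rt_half N.B (N.C1 + N.c2) (by linarith)
  refine ⟨p2 + 11, fun p0 hp0 γ P₀ X u τ h r hr hrt => ?_⟩
  have hs := (hp2 p0 (by omega) X.c.t r (NI927.ctx_pr X hr) (fun b hb => NI927.ctx_cols X r b hb)).2
  have hsub : τ.mt r ⊆ X.c.t.mt r ∪ X.c.t.sp r :=
    (mt_sub h hrt).trans Finset.subset_union_left
  have h1 : ∑ b ∈ τ.mt r, (1 : ℝ) / b ≤ 1 / 2 :=
    (Finset.sum_le_sum_of_subset_of_nonneg hsub fun b _ _ => by positivity).trans hs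
  have h2 : lam τ r ≤ Real.exp (∑ b ∈ τ.mt r, 11 / 10 * ((1 : ℝ) / b)) := by
    unfold lam
    rw [Real.exp_sum]
    refine Finset.prod_le_prod (fun l hl => ?_) (fun l hl => ?_)
    · have hp := (BldF542.mt_lt _ _ h.self.ok _ _ hl).1
      have : (1 : ℝ) < l := by exact_mod_cast hp.one_lt
      have h2 : (0:ℝ) ≤ 1 / ((l : ℝ) - 1) := by
        have : (0:ℝ) < l - 1 := by linarith
        positivity
      linarith
    · have hl1 : p0 < l := NI927.ctx_cols X r l (Or.inl (mt_sub h hrt hl))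
      have hl2 : (11 : ℝ) ≤ l := by exact_mod_cast (by omega : 11 ≤ l)
      have h3 : 1 / ((l : ℝ) - 1) ≤ 11 / 10 * ((1 : ℝ) / l) := by
        have a1 : (0 : ℝ) < l - 1 := by linarith
        have a2 : (0 : ℝ) < l := by linarith
        rw [mul_one_div, div_le_div_iff₀ a1 a2]
        linarith
      have h4 := Real.add_one_le_exp (11 / 10 * ((1 : ℝ) / l))
      linarith
  refine h2.trans ?_
  rw [← Finset.mul_sum]
  have h5 : 11 / 10 * ∑ b ∈ τ.mt r, (1 : ℝ) / b ≤ Real.log 2 := by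
    have := Real.log_two_gt_d9
    linarith
  calc Real.exp (11 / 10 * ∑ b ∈ τ.mt r, (1 : ℝ) / b) ≤ Real.exp (Real.log 2) :=
        Real.exp_le_exp.2 h5
    _ = 2 := Real.exp_log (by norm_num)

/-! ### merges -/

variable {X : Ctx N γ p0 P₀} {j₀ : X.c.Lam} {b : ℕ} {Ch : ℝ} {Qp : NS → IT → Prop}
  {Jp : ℕ × ℝ → ℕ × ℝ → ℕ × ℕ → Prop} {v : NS} {Sl : Finset ℕ} {q : ℕ}
  {A A' : Finset X.c.Lam} {T : ℝ} {x0 y0 : ℕ × ℕ → ℕ}

/-- the item is a multiple of the letter of the node -/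
lemma div_pos_leaf (hQ : QH X j₀ b Ch Qp) (hv : Qp v (.leaf Sl)) (hqS : q ∈ Sl) : 0 < q / v.A :=
  Nat.pos_of_ne_zero ((hQ.nd _ _ hv).div_ne hqS)

/-- the mass of a leaf item -/
lemma mL_nonneg (v : NS) (q : ℕ) : 0 ≤ mL X v q := by
  have hrr := (X.ok.rad X.Y).pos
  have hd : 0 ≤ dens (q / v.A).primeFactors :=
    (dens_pos fun l hl => Nat.prime_of_mem_primeFactors hl).le
  exact mul_nonneg (mul_nonneg (Nat.cast_nonneg _) (hrr q).le) hd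

open Classical in
/-- **THE MERGES OF THE LEAF WALK** in the letters of LocXc_25 -/
theorem ctx_MgH (hH : HC X Ch) (hQ : QH X j₀ b Ch Qp) (hb : 2 ≤ b) (hT : TX b ≤ T)
    (hJ : ∀ (p : ℕ) (i i' : Bool) (a a' c c' : ℕ × ℝ) (e : ℕ × ℕ), p.Prime → Mv p i a c →
      Mv p i' a' c' → (i = true ∨ i' = true) → Jp a a' e → Jp c c' e)
    (hv : Qp v (.leaf Sl)) (hqS : q ∈ Sl) (hqa : q ∈ X.S')
    {A₀ : Finset X.c.Lam} {d : DT X.c.Lam (Lb (WL X.c.Lam) X.Y)}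
    (hside : SideI (X.c.D.par X.Y) (fun _ => ∅) v.B v.A (.leaf Sl) A₀ d)
    (hA : ∀ j ∈ A, (X.c.D.par X.Y).it j = q) {PP : ℕ × ℕ → Prop} {Jx : LSt → Prop}
    (hco : ∀ s, LOk (X.c.D.par X.Y) X.S' (fun _ => ∅) Qp Jp v q A' s → Jx s →
      Nat.Coprime s.M s.M')
    (hJC : ∀ s, LOk (X.c.D.par X.Y) X.S' (fun _ => ∅) Qp Jp v q A' s → Jx s →
      ∀ r ∈ Qi (X.c.D.par X.Y) X.S' s.t A', JC x0 y0 s.M v.A s.M' s.u.A (q, r))
    (hPP : ∀ s, LOk (X.c.D.par X.Y) X.S' (fun _ => ∅) Qp Jp v q A' s → Jx s →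
      ∀ r ∈ Qi (X.c.D.par X.Y) X.S' s.t A',
      (q, r) ∈ (X.c.D.par X.Y).PE (Ro ((X.c.D.par X.Y).rho s.l))
        ((X.c.D.par X.Y).uA s.M v.B v.A (.leaf Sl) A 1)
        ((X.c.D.par X.Y).uA s.M' s.u.B s.u.A s.t A' 1) → PP (q, r)) :
    MgH (X.c.D.par X.Y) X.S' (fun _ => ∅) Qp Jp v Sl q A A'
      (lL (X.c.D.par X.Y) ParF5.rg (w X.ψ) v q (mL X v q) (HG KL (1 / 4))
        (fun _ => VsX X PP x0 y0 T))
      (PhL (X.c.D.par X.Y) X.c.t.mt ParF5.rg (w X.ψ) v q (mL X v q) (HG KL (1 / 4))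
        (fun _ => VsX X PP x0 y0 T)) Jx := by
  have hqx := hQ.qx _ _ hv
  have T4 := (TX4 b).trans hT
  exact ctx_mgH (x := (b : ℝ)) (x0 := x0) (y0 := y0) (T := T) hQ.yh hQ.nd
    (fun u τ hq => (hQ.qx u τ hq).ob) hQ.lv hH.p03 hH.pp0 (fun q hq => rr_le hq) hH.lam hH.eta
    hH.dep hH.ix (fun j hj a => X.om_zero hj _ a) hJ (hQ.nd _ _ hv) (hqx.lf Sl rfl)
    (by exact_mod_cast hb) (fun l hl hlt => by exact_mod_cast hQ.lb _ _ hv l hl hlt)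
    (LoS_LoSt (T := T) (p0 := p0) (ρ := X.c.rr) (x0 := x0) (y0 := y0)) T4 ((TXc b).trans hT)
    hqS hqa (div_pos_leaf hQ hv hqS) hside hA hco hJC hPP

/-! ### the value at the start of the leaf walk -/

lemma fut_add' {mtt : ℕ → Finset ℕ} {rg : ℕ → ℕ} (U U' : ℕ → ℝ) (p : ℕ) (e : ℕ × ℕ) :
    ShrW34.fut mtt rg (fun k => U k + U' k) p e =
      ShrW34.fut mtt rg U p e + ShrW34.fut mtt rg U' p e := by
  unfold ShrW34.fut
  simp only [Finset.sum_add_distrib]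
  ring

/-- **the potential of the merges at the start of the leaf walk** against the one of the cross walk -/
theorem PhL_le_PhX (hQ : QH X j₀ b Ch Qp) {KH : ℝ} (hKH : KL ≤ KH) {V : ℝ × ℝ → ℕ × ℕ → ℝ}
    (hV : ∀ s e, 0 ≤ V s e) {RP : Finset (X.c.Lam × X.c.Lam) → Prop} {s : X.Sta} {u' : NS}
    {τ' : IT} (hy : YI (X.c.D.par X.Y) (fun _ => ∅) Qp RP s v u' (.leaf Sl) τ') {l : ℕ}
    (hR : s.R = Ro ((X.c.D.par X.Y).rho l)) (hqS : q ∈ Sl) (hqa : q ∈ X.S') {r : ℕ}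
    (hlam : lam τ' r ≤ 2) :
    PhL (X.c.D.par X.Y) X.c.t.mt ParF5.rg (w X.ψ) v q (mL X v q) (HG KL (1 / 4)) (fun _ => V)
      ⟨s.M, s.M', l, u', τ'⟩ r ≤ 2 * PhX X KH V s v u' (.leaf Sl) τ' (q, r) := by
  have hW : ∀ q, 0 ≤ w X.ψ q := fun q => Crest.Agent.R4.Soft104.w_nonneg X.sys.nonneg q
  obtain ⟨hc, hc'⟩ := ShrG28.YI.c_nonneg hQ.yh hy
  have hm : mL X v q ≤ v.c * w X.ψ q := ((hQ.qx _ _ hy.L.q.self).lf Sl rfl).ms q hqS hqa
  have hp : s.p = tp τ' := by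
    have e1 : s.t.top = tp (.leaf Sl) := by rw [hy.L.S.eq]; exact WalkIT579.toDT_top _ _ _ _ _
    have e2 : s.t'.top = tp τ' := by rw [hy.R.S.eq]; exact WalkIT579.toDT_top _ _ _ _ τ'
    show max s.t.top s.t'.top = _
    rw [e1, e2]
    exact Nat.zero_max _
  have hcf : fl (X.c.D.par X.Y) (Ro ((X.c.D.par X.Y).rho l)) (tp τ') (q, r) =
      ShrW34.cf (X.c.D.par X.Y) s (q, r) := by
    unfold fl ShrW34.cf
    have e : ClnR (X.c.D.par X.Y) (Ro ((X.c.D.par X.Y).rho l)) (tp τ') (q, r) ↔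
        ShrW34.Cln (X.c.D.par X.Y) s (q, r) := by
      unfold ClnR ShrW34.Cln
      rw [hp, hR]
    by_cases h : ShrW34.Cln (X.c.D.par X.Y) s (q, r)
    · rw [if_pos h, if_pos (e.2 h)]
    · rw [if_neg h, if_neg (fun h2 => h (e.1 h2))]
  set P : ℝ := ShrG28.pm (w X.ψ) v u' (q, r) with hP
  have hP0 : 0 ≤ P := ShrG28.pm_nonneg hW hc hc' _
  set Z : ℝ := V (SE s.M v.B v.A s.M' u'.B u'.A (q, r)) (q, r) with hZ
  have hZ0 : 0 ≤ Z := hV _ _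
  have hHG : ∀ k, HG KL (1 / 4) k ≤ HG KH (1 / 4) k := fun k =>
    HG_mono KL_nonneg hKH (le_refl _) k
  have hHG0 : ∀ k, 0 ≤ HG KL (1 / 4) k := fun k => HG_nonneg KL_nonneg _ k
  have hX : ∀ k, XL (w X.ψ) v q (mL X v q) (HG KL (1 / 4)) (fun _ => V)
      ⟨s.M, s.M', l, u', τ'⟩ r k ≤ P * HG KH (1 / 4) k + (v.B : ℝ) * u'.B * Z := by
    intro k
    unfold XL
    refine add_le_add ?_ le_rfl
    have h1 : mL X v q * (u'.c * w X.ψ r) ≤ P :=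
      mul_le_mul_of_nonneg_right hm (mul_nonneg hc' (hW r))
    exact mul_le_mul h1 (hHG k) (hHG0 k) hP0
  have hX0 : ∀ k, 0 ≤ XL (w X.ψ) v q (mL X v q) (HG KL (1 / 4)) (fun _ => V)
      ⟨s.M, s.M', l, u', τ'⟩ r k := fun k =>
    XL_nonneg hW (mL_nonneg v q) hHG0 (fun _ => hV) hc' r k
  have hf : ShrW34.fut X.c.t.mt ParF5.rg (XL (w X.ψ) v q (mL X v q) (HG KL (1 / 4)) (fun _ => V)
      ⟨s.M, s.M', l, u', τ'⟩ r) (tp τ') (q, r) ≤
      P * ShrW34.fut X.c.t.mt ParF5.rg (HG KH (1 / 4)) (tp τ') (q, r) +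
      (v.B : ℝ) * u'.B * ShrW34.fut X.c.t.mt ParF5.rg (fun _ => Z) (tp τ') (q, r) := by
    refine (fut_le hX _ _).trans (le_of_eq ?_)
    rw [fut_add', fut_mul, fut_mul ((v.B : ℝ) * u'.B) (fun _ => Z)]
  have hcf0 := ShrW34.cf_nonneg (D := X.c.D.par X.Y) s (q, r)
  have hin : fl (X.c.D.par X.Y) (Ro ((X.c.D.par X.Y).rho l)) (tp τ') (q, r) *
        XL (w X.ψ) v q (mL X v q) (HG KL (1 / 4)) (fun _ => V)
          ⟨s.M, s.M', l, u', τ'⟩ r (ParF5.rg (tp τ')) +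
      ShrW34.fut X.c.t.mt ParF5.rg (XL (w X.ψ) v q (mL X v q) (HG KL (1 / 4)) (fun _ => V)
        ⟨s.M, s.M', l, u', τ'⟩ r) (tp τ') (q, r) ≤ PhX X KH V s v u' (.leaf Sl) τ' (q, r) := by
    rw [hcf]
    refine (add_le_add (mul_le_mul_of_nonneg_left (hX _) hcf0) hf).trans (le_of_eq ?_)
    unfold PhX ShrG28.PhiG ShrW34.PhiM
    rw [hp]
    ring
  have hin0 : 0 ≤ fl (X.c.D.par X.Y) (Ro ((X.c.D.par X.Y).rho l)) (tp τ') (q, r) *
        XL (w X.ψ) v q (mL X v q) (HG KL (1 / 4)) (fun _ => V)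
          ⟨s.M, s.M', l, u', τ'⟩ r (ParF5.rg (tp τ')) +
      ShrW34.fut X.c.t.mt ParF5.rg (XL (w X.ψ) v q (mL X v q) (HG KL (1 / 4)) (fun _ => V)
        ⟨s.M, s.M', l, u', τ'⟩ r) (tp τ') (q, r) :=
    add_nonneg (mul_nonneg (fl_nonneg _ _ _) (hX0 _)) (ShrW34.fut_nonneg hX0 _ _)
  unfold PhL
  simp only
  exact mul_le_mul hlam hin hin0 (by norm_num)

end ctx

end Crest.Agent.R4P.LeafK28
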