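import Crest.Agent.R4P.LeafX_27
import Crest.Agent.R4P.LeafK_28

/-!
R4P (S0004), helper27, module D, group [X]: **the (leaf, tree) states of the cross walk of a crossing state**.

* `NumL`, `exists_NumL` : numbers; `LXC.of` : the environment of the leaf walk from `HC`, `QH`;
* `item_ctx` : one leaf item of a context;
* `ctx_LTB` : **the bound `LTB` of LocXc_25**.
-/

set_option autoImplicit false
set_option linter.unusedSectionVars false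
set_option linter.unusedVariables false
open Finset hiding dens

namespace Crest.Agent.R4P.LeafS27

open Crest.Agent.R4.HVW560 Crest.Agent.R4P.AvgItem710
open Crest.Agent.R4.Tour104 Crest.Agent.R4.Tour758 Crest.Agent.R4.Avg758 Crest.Agent.R4.Clos758
open Crest.Agent.R4.ClosL758 Crest.Agent.R4.ClosG758 Crest.Agent.R4.ClosR758
open Crest.Agent.R4.Fam464 Crest.Agent.R4P.Cnt588 Crest.Agent.R4P.Walk560 Crest.Agent.R4P.Item758
open Crest.Agent.R4P.Bld532 (NS All NodeOk Bk dv nd mem_dv mem_nd)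
open Crest.Agent.R4P.GSt927 Crest.Agent.R4P.WalkIT579 Crest.Agent.R4P.NMW710
open Crest.Agent.R4P.CrossLoc25 Crest.Agent.R4P.CrossLocC25 Crest.Agent.R4P.YI25
open Crest.Agent.R4P.LeafCol27 Crest.Agent.R4P.LeafM27 Crest.Agent.R4P.LeafT27
open Crest.Agent.R4P.LeafW27 Crest.Agent.R4P.LeafX27 Crest.Agent.R4P.LeafLoc28
open Crest.Agent.R4P.LeafMg30 Crest.Agent.R4P.WmfL25 Crest.Agent.R4P.LeafIx29
open Crest.Agent.R4P.BlksP29 Crest.Agent.R4P.IvX29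
open Crest.Agent.R4P.ShrG28 (HG HG_nonneg c_nonneg_of_nd)
open Crest.Agent.R4P.Data758 Crest.Agent.R4.Piece464
open Crest.Agent.R4P.TBLeaf28 (JC LoX)
open Crest.Agent.R4P.Skel189 (Ctx top Kc)
open Crest.Agent.R4P.Step588 (NDt ND1 CT CT_pos)
open Crest.Agent.R4P.OSFin710 (OB)
open Crest.Agent.R4P.LLCtx30 (LfA TmN lf_mass)
open Crest.Agent.R4.Soft104 (w)
open Crest.Agent.R4P.StopLeaf28 (LoSt LoX_LoSt LoS_LoSt LoSt_stop LoSt_T HLN exists_HLN)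
open Crest.Agent.R4P.SameIx30 (VU Vm VU_nonneg Vm_nonneg)
open Crest.Agent.R4P.VNum34 (US mem_US stp2)
open Crest.Agent.R4P.Frame758 (wt)
open Crest.Agent.R4.Ovl560 (CM dens dens_pos)
open Crest.Agent.R4.DeepSt579 (tq)
open Crest.Agent.R4P.CStop25
open Crest.Agent.R4P.LocX25
open Crest.Agent.R4P

variable {N : Skel189.Num} {γ : ℝ} {p0 P₀ : ℕ} {X : Ctx N γ p0 P₀} {j₀ : X.c.Lam} {b : ℕ}
  {Ch T : ℝ} {Qp : NS → IT → Prop} {RP : Finset (X.c.Lam × X.c.Lam) → Prop}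

/-! ### numbers -/

/-- **the numbers of the leaf walk** -/
structure NumL (N : Skel189.Num) (Ch : ℝ) (p0 : ℕ) : Prop where
  hln : ∀ p, p0 ≤ p → HLN Ch (2 * CT) p
  prn : ∀ p : ℕ, p0 < p → PrN N.B p
  th : ∀ p : ℕ, p0 ≤ p → 0 ≤ 2 * (Real.log p ^ N.B / p) / ((p : ℝ) - 1) ∧
    2 * (2 * (Real.log p ^ N.B / p) / ((p : ℝ) - 1)) ≤
      1 / 2 * (((p : ℝ) + 1) ^ (-(1 / 2) : ℝ) - ((p : ℝ) + 2) ^ (-(1 / 2) : ℝ))
  p8 : 8 ≤ p0

theorem exists_NumL (N : Skel189.Num) (Ch : ℝ) : ∃ p₁ : ℕ, ∀ p0 ≥ p₁, NumL N Ch p0 := by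
  obtain ⟨a1, h1⟩ := exists_HLN Ch (2 * CT)
  obtain ⟨a2, h2⟩ := exists_PrN N.B
  obtain ⟨a3, h3⟩ := exists_Th N.B
  exact ⟨a1 + a2 + a3 + 8, fun p0 hp0 => ⟨fun p hp => h1 p (by omega),
    fun p hp => h2 p (by omega), fun p hp => h3 p (by omega), by omega⟩⟩

/-- **the environment** from the hypotheses of LocXc_25 -/
theorem LXC.of (hH : HC X Ch) (hQ : QH X j₀ b Ch Qp) (hN : NumL N Ch p0) (hb : 2 ≤ b)
    (hT : TX b ≤ T) : LXC X j₀ Ch T b Qp where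
  cs := hH.cs
  hln := hN.hln
  nd := hQ.ok
  qs := fun u τ hq => (hQ.qx u τ hq).st
  lf := fun u S hq => (hQ.qx u _ hq).lf S rfl
  dt := hQ.nd
  tm := fun u τ hq => (hQ.qx u τ hq).tm
  it := fun u τ hq => by
    have h := (hQ.nd u τ hq).self.sub
    rwa [X.items] at h
  T2 := by have := (TX4 b).trans hT; linarith
  Tx := (TXl b).trans hT
  x2 := by exact_mod_cast hb

/-! ### one item -/

section item
variable {v : NS} {Sl : Finset ℕ} {q : ℕ} {A₀ A' : Finset X.c.Lam} {x0 y0 : ℕ × ℕ → ℕ}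
  {s₀ : ℕ × ℕ → ℝ × ℝ} {PV : ℕ × ℕ → Prop} {Pc Px : ℕ → ℕ × ℕ → Prop}

/-- the constant of the generic part -/
noncomputable def C₀L (Ch : ℝ) : ℝ := max 1 (max (CS₀ Ch) CL₀)

lemma C₀L_one : 1 ≤ C₀L Ch := le_max_left _ _

open Classical in
/-- **ONE LEAF ITEM OF A CONTEXT** against a tree -/
theorem item_ctx (hH : HC X Ch) (hQ : QH X j₀ b Ch Qp) (hN : NumL N Ch p0) (hb : 2 ≤ b)
    (hT : TX b ≤ T) (hP : PrX X Qp b s₀ PV Pc Px) {d : DT X.c.Lam (Lb (WL X.c.Lam) X.Y)}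
    (hv : SY (X.c.D.par X.Y) (fun _ => ∅) Qp v (.leaf Sl) A₀ d)
    (hq : q ∈ Qi (X.c.D.par X.Y) X.S' (.leaf Sl) A₀) {s : LSt}
    (h : LOk (X.c.D.par X.Y) X.S' (fun _ => ∅) Qp (JpZ s₀ x0 y0) v q A' s) (hx : JX p0 v b s) :
    En (X.c.D.par X.Y) v Sl (A₀.filter fun j => (X.c.D.par X.Y).it j = q) A'
        (Ro ((X.c.D.par X.Y).rho s.l)) s ≤
      2 * (C₀L Ch + 2) * (mL X v q * nuL (w X.ψ) s) +
      ∑ r ∈ Qi (X.c.D.par X.Y) X.S' s.t A',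
        (PhiL 1 (VsX X PV x0 y0 T) (VcX X Pc x0 y0 T) (VxX X Px x0 y0 T) v Sl q s r +
        PhL (X.c.D.par X.Y) X.c.t.mt ParF5.rg (w X.ψ) v q (mL X v q) (HG KL (1 / 4))
          (fun _ => VsX X PV x0 y0 T) s r) := by
  obtain ⟨hqS, hqa, -⟩ := mem_Qi.1 hq
  have hqS' : q ∈ Sl := hqS
  have C := LXC.of hH hQ hN hb hT
  have hrr := (X.ok.rad X.Y).pos
  have hvq : Qp v (.leaf Sl) := hv.q.self
  have hA : ∀ j ∈ A₀.filter (fun j => (X.c.D.par X.Y).it j = q), (X.c.D.par X.Y).it j = q :=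
    fun j hj => (Finset.mem_filter.1 hj).2
  have hl : LD (X.c.D.par X.Y) Qp v Sl := ⟨hv.S.hb, hv.S.hF, hv.S.hW, hv.q, hv.ok⟩
  have hV0 : ∀ s e, 0 ≤ VsX X PV x0 y0 T s e := fun s e => VU_nonneg hrr _ _ _ s e
  have hVc0 : ∀ l s e, 0 ≤ VcX X Pc x0 y0 T l s e := fun _ _ _ => VcL_nonneg hrr _ _ _
  have hVx0 : ∀ l s e, 0 ≤ VxX X Px x0 y0 T l s e := fun _ _ _ => VxL_nonneg hrr _ _ _
  have T2 := C.T2
  -- the pairs which count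
  have hPV : ∀ s, LOk (X.c.D.par X.Y) X.S' (fun _ => ∅) Qp (JpZ s₀ x0 y0) v q A' s → JX p0 v b s →
      ∀ r ∈ Qi (X.c.D.par X.Y) X.S' s.t A', ∀ R ⊆ Ro ((X.c.D.par X.Y).rho s.l),
      (q, r) ∈ (X.c.D.par X.Y).PE R
        ((X.c.D.par X.Y).uA s.M v.B v.A (.leaf Sl)
          (A₀.filter fun j => (X.c.D.par X.Y).it j = q) 1)
        ((X.c.D.par X.Y).uA s.M' s.u.B s.u.A s.t A' 1) → PV (q, r) := by
    intro s hk hx r hr R hR he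
    have k := hx.lc.lkg hl hk hR he
    rw [se_of hk hr] at k
    exact hP.pv s.l (q, r) hx.lc.1 hx.l0 hx.lb k
  have hVs : ∀ s, LOk (X.c.D.par X.Y) X.S' (fun _ => ∅) Qp (JpZ s₀ x0 y0) v q A' s → JX p0 v b s →
      ∀ e ∈ (X.c.D.par X.Y).PE (Ro ((X.c.D.par X.Y).rho s.l))
      ((X.c.D.par X.Y).uA s.M v.B v.A (.leaf Sl)
        (A₀.filter fun j => (X.c.D.par X.Y).it j = q) 1)
      ((X.c.D.par X.Y).uA s.M' s.u.B s.u.A s.t A' 1),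
      e ∈ Qi (X.c.D.par X.Y) X.S' (.leaf Sl) (A₀.filter fun j => (X.c.D.par X.Y).it j = q) ×ˢ
        Qi (X.c.D.par X.Y) X.S' s.t A' →
      FL (LoSt T p0 X.c.rr x0 y0) X.c.rr (X.c.D.par X.Y).γ (SE s.M v.B v.A s.M' s.u.B s.u.A e) e ≤
        VsX X PV x0 y0 T (SE s.M v.B v.A s.M' s.u.B s.u.A e) e := by
    intro s hk hx e he he'
    obtain ⟨h1, h2⟩ := Finset.mem_product.1 he'
    have e1 : e.1 = q := Finset.mem_singleton.1 (LeafX27.Qi_one hA h1)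
    have e2 : e = (q, e.2) := Prod.ext e1 rfl
    have k : PV e := by
      rw [e2] at he ⊢
      exact hPV s hk hx e.2 h2 _ Finset.Subset.rfl he
    show _ ≤ VU PV (LoSt T p0 X.c.rr x0 y0) X.c.rr X.c.γ _ _
    unfold SameIx30.VU
    rw [if_pos k]
    exact le_add_of_nonneg_right (Vm_nonneg hrr _ _ _)
  have hsub0 : ∀ {p : ℕ} {S : Finset ℕ} {t₁ t₀ : IT} {s : LSt}, s.t = .br p S t₁ t₀ →
      Qi (X.c.D.par X.Y) X.S' t₀ A' ⊆ Qi (X.c.D.par X.Y) X.S' s.t A' := by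
    intro p S t₁ t₀ s ht r hr
    obtain ⟨a1, a2, a3⟩ := mem_Qi.1 hr
    refine mem_Qi.2 ⟨?_, a2, a3⟩
    rw [ht]
    exact Finset.mem_union_right _ a1
  have hVcm : ∀ (s : LSt) (p : ℕ) (S : Finset ℕ) (t₁ t₀ : IT), s.t = .br p S t₁ t₀ →
      LOk (X.c.D.par X.Y) X.S' (fun _ => ∅) Qp (JpZ s₀ x0 y0) v q A' s →
      ∀ r ∈ Qi (X.c.D.par X.Y) X.S' t₀ A',
      (q, r) ∈ (X.c.D.par X.Y).PE (Ro ((X.c.D.par X.Y).rho p))
        ((X.c.D.par X.Y).uA s.M v.B v.A (.leaf Sl)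
          (A₀.filter fun j => (X.c.D.par X.Y).it j = q) 1)
        ((X.c.D.par X.Y).uA s.M' (s.u.B * p) s.u.A t₀ A' p) →
      FL (LoSt T p0 X.c.rr x0 y0) X.c.rr (X.c.D.par X.Y).γ
          (SE s.M v.B v.A s.M' s.u.B s.u.A (q, r)) (q, r) ≤
        VcX X Pc x0 y0 T p (SE s.M v.B v.A s.M' s.u.B s.u.A (q, r)) (q, r) := by
    rintro ⟨M, M', l, u, t⟩ p S t₁ t₀ ht hk r hr he
    have ht' : t = .br p S t₁ t₀ := ht
    subst ht'
    have k := LCL.miss hl hk he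
    have k2 := se_of hk (hsub0 rfl hr)
    have k3 : SE M v.B v.A M' u.B u.A (q, r) = s₀ (q, r) := k2
    rw [k3] at k
    have k4 : Pc p (q, r) := hP.pc p (q, r) k
    show _ ≤ VcL Pc X.c.γ X.c.rr (LoSt T p0 X.c.rr x0 y0) p _ _
    unfold CrossLoc25.VcL
    rw [if_pos k4]
    exact le_rfl
  have hVxm : ∀ (s : LSt) (p : ℕ) (S : Finset ℕ) (t₁ t₀ : IT), s.t = .br p S t₁ t₀ →
      LOk (X.c.D.par X.Y) X.S' (fun _ => ∅) Qp (JpZ s₀ x0 y0) v q A' s → ¬ p ∣ UI s.M v.A q →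
      ∀ r ∈ Qi (X.c.D.par X.Y) X.S' t₀ A',
      (q, r) ∈ (X.c.D.par X.Y).PE (Ro ((X.c.D.par X.Y).rho p))
        ((X.c.D.par X.Y).uA (p * s.M) v.B v.A (.leaf Sl)
          (A₀.filter fun j => (X.c.D.par X.Y).it j = q) 1)
        ((X.c.D.par X.Y).uA s.M' (s.u.B * p) s.u.A t₀ A' 1) →
      FL (LoSt T p0 X.c.rr x0 y0) X.c.rr (X.c.D.par X.Y).γ
          (p * (SE s.M v.B v.A s.M' s.u.B s.u.A (q, r)).1,
            p * (SE s.M v.B v.A s.M' s.u.B s.u.A (q, r)).2) (q, r) ≤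
        VxX X Px x0 y0 T p (SE s.M v.B v.A s.M' s.u.B s.u.A (q, r)) (q, r) := by
    rintro ⟨M, M', l, u, t⟩ p S t₁ t₀ ht hk hu r hr he
    have ht' : t = .br p S t₁ t₀ := ht
    subst ht'
    have k := (LCL.exit hl hk he).2.2 hu
    have k2 := se_of hk (hsub0 rfl hr)
    have k3 : SE M v.B v.A M' u.B u.A (q, r) = s₀ (q, r) := k2
    rw [k3] at k
    have k4 : Px p (q, r) := hP.px p (q, r) k
    show _ ≤ VxL Px X.c.γ X.c.rr (LoSt T p0 X.c.rr x0 y0) p _ _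
    unfold CrossLoc25.VxL
    rw [if_pos k4]
    exact le_rfl
  have hEL := ctx_EL hN.prn (X := X) (Y := X.Y) hQ.yh (fun u τ hq => (hQ.qx u τ hq).ob)
    (fun q hq => rr_le hq) (hQ.nd _ _ hvq) (C.lf _ _ hvq)
    (LoX_LoSt (x0 := x0) (y0 := y0) (p0 := p0) (ρ := X.c.rr) T2) q
  have hqv : 0 < q / v.A := by
    obtain ⟨a1, a2, -⟩ := hl.F.item q hqS
    exact Nat.div_pos (Nat.le_of_dvd a1 a2) (Nat.pos_of_dvd_of_pos a2 a1)
  have hpar : X.par.p0 = p0 := hH.pp0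
  have hC1 : CS₀ Ch ≤ C₀L Ch := (le_max_left _ _).trans (le_max_right _ _)
  have hC2 : CL₀ ≤ C₀L Ch := (le_max_right _ _).trans (le_max_right _ _)
  have hC3 : 1 ≤ C₀L Ch := C₀L_one
  have hsg : ∀ p : ℕ, X.par.sg p = Real.log p ^ N.B / p := fun p => rfl
  have hTh : ∀ p : ℕ, p0 < p → Th v.n p * (1 + 2 * X.par.sg p / ((p : ℝ) - 1)) ≤
      Th v.n (p + 1) ∧ (p.Prime → v.n ≤ p → (∀ l : ℕ, l.Prime → l < p → l < v.n) →
        1 / 2 ≤ Th v.n (p + 1) - Th v.n p * (1 + 2 * X.par.sg p / ((p : ℝ) - 1))) := by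
    intro p hp
    rw [hsg]
    exact Th_step (hN.th p hp.le).1 (hN.th p hp.le).2
  have H := mk_LH (Vs := VsX X PV x0 y0 T) (Vc := VcX X Pc x0 y0 T) (Vx := VxX X Px x0 y0 T)
    (A := A₀.filter fun j => (X.c.D.par X.Y).it j = q) (A' := A') (s₀ := s₀) (x0 := x0)
    (y0 := y0) C hvq hv.S hA hqS' hQ.lb le_rfl hV0 hVc0 hVx0 hVs (K := 1) le_rfl
    (C₀ := C₀L Ch) hC1 hC2 (by linarith) (by rw [hpar]; exact hN.p8) (Θ := Th v.n)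
    (Th_one v.n) (Th_mono v.n)
    (fun p hp hpp => (hTh p (by rw [← hpar]; exact hpp)).1)
    (fun s p S t₁ t₀ ht hk hx hd hu =>
      hEL.hexit hA (by norm_num) hV0 hVc0 hVx0 ht hk hd hu (fun r hr => jc_of hk hr)
        (hVcm s p S t₁ t₀ ht hk) (hVxm s p S t₁ t₀ ht hk hu))
    (fun s p S t₁ t₀ ht hk hx hd hu => by
      have hN1 := hQ.ok _ _ hk.y.q.self
      rw [ht] at hN1
      have hpp0 : p0 < p := by rw [← hpar]; exact hN1.2.2.1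
      have htp : WalkIT579.tp s.t = p := by rw [ht]; rfl
      have hlv := hx.lv
      rw [htp] at hlv
      exact hEL.hdiv JpZ_mv hqv hA (by norm_num) hV0 hVc0 hVx0 ht hk hd hu
        (fun r hr => jc_of hk hr) (hVcm s p S t₁ t₀ ht hk) hC3 (hTh p hpp0).1
        (fun hn => (hTh p hpp0).2 hN1.1 hn hlv))
  have G := LeafK28.ctx_MgH (T := T) (x0 := x0) (y0 := y0) (Jp := JpZ s₀ x0 y0) (A' := A')
    (A := A₀.filter fun j => (X.c.D.par X.Y).it j = q) hH hQ hb hT JpZ_mv hvq hqS' hqa hv.S hA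
    (PP := PV) (Jx := JX p0 v b) (fun s hk hx => hx.cop) (fun s hk hx r hr => jc_of hk hr)
    (fun s hk hx r hr he => hPV s hk hx r hr _ Finset.Subset.rfl he)
  exact item_le H G (Th_two v.n) h hx

end item

/-! ### the states -/

/-- masses in the letters of the context -/
lemma tm_side (hQ : QH X j₀ b Ch Qp) {u : NS} {τ : IT} (hq : Qp u τ) {A : Finset X.c.Lam}
    {d : DT X.c.Lam (Lb (WL X.c.Lam) X.Y)}
    (k : SideI (X.c.D.par X.Y) (fun _ => ∅) u.B u.A τ A d) :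
    X.tm j₀ d.g A = u.c * ∑ j ∈ A.filter (fun j => X.c.D.it j ∈ τ.items), wt X.c.D j := by
  rw [← (hQ.qx u τ hq).tm A, k.eq, (X.c.D.par X.Y).toDT_g]
  rfl

open Classical in
/-- **(leaf, tree) states**, any populations with a full right side -/
theorem leaf_tree (hH : HC X Ch) (hQ : QH X j₀ b Ch Qp) (hN : NumL N Ch p0) (hb : 2 ≤ b)
    (hlam : ∀ u τ, Qp u τ → ∀ r ∈ X.S', r ∈ τ.items → lam τ r ≤ 2) {KH : ℝ} (hKH : KL ≤ KH)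
    {Mz Mz' : ℕ} {x0 y0 g g' : ℕ × ℕ → ℕ} {s₀ : ℕ × ℕ → ℝ × ℝ} {PV : ℕ × ℕ → Prop}
    {Pc Px : ℕ → ℕ × ℕ → Prop} (hT : TX b ≤ T) {s : X.Sta} {u u' : NS} {S : Finset ℕ} {τ' : IT}
    (hP : PrX X Qp b s₀ PV Pc Px)
    (hI : IvX (X.c.D.par X.Y) X.S' b Mz Mz' x0 y0 g g' s₀ s u u' (.leaf S) τ')
    (hC : LCp (X.c.D.par X.Y) p0 b s)
    (hy : YI (X.c.D.par X.Y) (fun _ => ∅) Qp RP s u u' (.leaf S) τ') (hl : ¬ isL τ')
    (hA' : s.A' = Finset.univ) :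
    Qs s ≤ 2 * (C₀L Ch + 2) * (X.tm j₀ s.t.g s.A * X.tm j₀ s.t'.g s.A') +
      ∑ e ∈ Ep (X.c.D.par X.Y) X.S' s (.leaf S) τ',
      (2 * potS (VsX X PV x0 y0 T) (VcX X Pc x0 y0 T) (VxX X Px x0 y0 T) s u u' (.leaf S) τ' e +
        2 * PhX X KH (VsX X PV x0 y0 T) s u u' (.leaf S) τ' e) := by
  obtain ⟨l, hR, hlp, hpl, hlb, hl0⟩ := hC
  have hrr := (X.ok.rad X.Y).pos
  have hV0 : ∀ s e, 0 ≤ VsX X PV x0 y0 T s e := fun s e => VU_nonneg hrr _ _ _ s e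
  have hVc0 : ∀ l s e, 0 ≤ VcX X Pc x0 y0 T l s e := fun _ _ _ => VcL_nonneg hrr _ _ _
  have hVx0 : ∀ l s e, 0 ≤ VxX X Px x0 y0 T l s e := fun _ _ _ => VxL_nonneg hrr _ _ _
  have hqL : Qp u (.leaf S) := hy.L.q.self
  have hqR : Qp u' τ' := hy.R.q.self
  have hc0 : 0 ≤ u.c := c_nonneg_of_nd (hQ.nd _ _ hqL).self.node
  have hc0' : 0 ≤ u'.c := c_nonneg_of_nd (hQ.nd _ _ hqR).self.node
  have hW : ∀ q, 0 ≤ w X.ψ q := fun q => Crest.Agent.R4.Soft104.w_nonneg X.sys.nonneg q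
  have hnl : ¬ (s.t.isLeaf ∧ s.t'.isLeaf) := by
    intro h
    have h2 := h.2
    rw [hy.R.S.eq] at h2
    exact hl ((WalkIT579.toDT_leaf _ _ _ _ _).1 h2)
  have hlv := (lv_start hQ.yh hy hnl).1
  have hx : JX p0 u b ⟨s.M, s.M', l, u', τ'⟩ :=
    ⟨⟨hlp, ((tp_le_p hy).2).trans hpl⟩, hl0, hlb, hI.co, hlv⟩
  have hSY : SY (X.c.D.par X.Y) (fun _ => ∅) Qp u' τ' s.A'
      ((X.c.D.par X.Y).toDT (fun _ => ∅) u'.B u'.A τ') := by
    rw [← hy.R.S.eq]; exact hy.R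
  have hok : ∀ q ∈ Qi (X.c.D.par X.Y) X.S' (.leaf S) s.A,
      LOk (X.c.D.par X.Y) X.S' (fun _ => ∅) Qp (JpZ s₀ x0 y0) u q s.A' ⟨s.M, s.M', l, u', τ'⟩ :=
    fun q hq => ⟨hSY, hy.mL.pos, hy.mR.pos, hc0', hy.circ, fun r hr =>
      jp_start (hI.jc (q, r) (Finset.mem_product.2 ⟨hq, hr⟩))
        (hI.sc (q, r) (Finset.mem_product.2 ⟨hq, hr⟩))⟩
  -- the items
  have e1 : Qs s = ∑ q ∈ Qi (X.c.D.par X.Y) X.S' (.leaf S) s.A,
      En (X.c.D.par X.Y) u S (s.A.filter fun j => (X.c.D.par X.Y).it j = q) s.A'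
        (Ro ((X.c.D.par X.Y).rho l)) ⟨s.M, s.M', l, u', τ'⟩ := by
    rw [Qs_Q hy.st, hR]
    exact Q_items (fun j hj a => X.om_zero hj _ a) hy.mL.pos hy.mR.pos hy.L.S.hb hy.R.S.hb
      hy.L.S.hF hy.R.S.hF hy.L.S.hW hy.R.S.hW _
  have key : ∀ q ∈ Qi (X.c.D.par X.Y) X.S' (.leaf S) s.A,
      En (X.c.D.par X.Y) u S (s.A.filter fun j => (X.c.D.par X.Y).it j = q) s.A'
        (Ro ((X.c.D.par X.Y).rho l)) ⟨s.M, s.M', l, u', τ'⟩ ≤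
      2 * (C₀L Ch + 2) * (mL X u q * nuL (w X.ψ) ⟨s.M, s.M', l, u', τ'⟩) +
      ∑ r ∈ Qi (X.c.D.par X.Y) X.S' τ' s.A',
        (2 * potS (VsX X PV x0 y0 T) (VcX X Pc x0 y0 T) (VxX X Px x0 y0 T) s u u' (.leaf S) τ'
            (q, r) + 2 * PhX X KH (VsX X PV x0 y0 T) s u u' (.leaf S) τ' (q, r)) := by
    intro q hq
    obtain ⟨hqS, hqa, -⟩ := mem_Qi.1 hq
    refine (item_ctx hH hQ hN hb hT hP hy.L hq (hok q hq) hx).trans
      (add_le_add le_rfl (Finset.sum_le_sum fun r hr => add_le_add ?_ ?_))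
    · have hlm := hlam _ _ hqR r (mem_Qi.1 hr).2.1 (mem_Qi.1 hr).1
      have hp := pot_nonneg hV0 hVc0 hVx0 s.M u.B u.A s.M' u'.B u'.A (.leaf S) τ' (q, r)
      show 1 * (lam τ' r * pot _ _ _ s.M u.B u.A s.M' u'.B u'.A (.leaf S) τ' (q, r)) ≤
        2 * pot _ _ _ s.M u.B u.A s.M' u'.B u'.A (.leaf S) τ' (q, r)
      rw [one_mul]
      exact mul_le_mul_of_nonneg_right hlm hp
    · have hlm := hlam _ _ hqR r (mem_Qi.1 hr).2.1 (mem_Qi.1 hr).1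
      exact LeafK28.PhL_le_PhX hQ hKH hV0 hy hR hqS hqa hlm
  rw [e1]
  refine (Finset.sum_le_sum key).trans ?_
  rw [Finset.sum_add_distrib, ← Finset.mul_sum, ← Finset.sum_mul]
  refine add_le_add ?_ (le_of_eq ?_)
  swap
  · unfold YI25.Ep
    rw [Finset.sum_product]
  refine mul_le_mul_of_nonneg_left ?_ (by
    have := C₀L_one (Ch := Ch)
    linarith)
  -- the masses
  have m1 : ∑ q ∈ Qi (X.c.D.par X.Y) X.S' (.leaf S) s.A, mL X u q ≤ X.tm j₀ s.t.g s.A := by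
    rw [tm_side hQ hqL hy.L.S]
    exact lf_mass ((hQ.qx _ _ hqL).lf S rfl) hy.L.il
  have hsub : τ'.items ⊆ X.S := by
    have h := (hQ.nd _ _ hqR).self.sub
    rwa [X.items] at h
  have m2 : nuL (w X.ψ) ⟨s.M, s.M', l, u', τ'⟩ = X.tm j₀ s.t'.g s.A' := by
    rw [tm_side hQ hqR hy.R.S, hA', CtxX26.sum_wt_item X hsub]
    rfl
  rw [← m2]
  exact mul_le_mul_of_nonneg_right m1 (mul_nonneg hc0' (Ws_nn hW _))

open Classical in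
/-- **THE BOUND OF THE (LEAF, TREE) STATES** -/
theorem ctx_LTB (hH : HC X Ch) (hQ : QH X j₀ b Ch Qp) (hN : NumL N Ch p0) (hb : 2 ≤ b)
    (hlam : ∀ u τ, Qp u τ → ∀ r ∈ X.S', r ∈ τ.items → lam τ r ≤ 2) {B K Kf KH : ℝ}
    (hB : 2 * (C₀L Ch + 2) ≤ B) (hK : 2 ≤ K) (hKf : 2 ≤ Kf) (hKH : KL ≤ KH) :
    LTB X j₀ Qp RP b B K Kf KH := by
  intro Mz Mz' x0 y0 g g' s₀ PV Pc Px T s u u' S τ' hMz hMz' hmz hT hP hI hC hy hl
  have hrr := (X.ok.rad X.Y).pos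
  have hV0 : ∀ s e, 0 ≤ VsX X PV x0 y0 T s e := fun s e => VU_nonneg hrr _ _ _ s e
  have hVc0 : ∀ l s e, 0 ≤ VcX X Pc x0 y0 T l s e := fun _ _ _ => VcL_nonneg hrr _ _ _
  have hVx0 : ∀ l s e, 0 ≤ VxX X Px x0 y0 T l s e := fun _ _ _ => VxL_nonneg hrr _ _ _
  have hKH0 : 0 ≤ KH := KL_nonneg.trans hKH
  have hp0 : ∀ e, 0 ≤ potS (VsX X PV x0 y0 T) (VcX X Pc x0 y0 T) (VxX X Px x0 y0 T)
      s u u' (.leaf S) τ' e := fun e => potS_nonneg hV0 hVc0 hVx0 s u u' _ τ' e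
  have hf0 : ∀ e, 0 ≤ PhX X KH (VsX X PV x0 y0 T) s u u' (.leaf S) τ' e :=
    fun e => PhX_nonneg hQ hKH0 hV0 hy e
  have hy0 : 0 ≤ ∑ e ∈ Ep (X.c.D.par X.Y) X.S' s (.leaf S) τ',
      (K * potS (VsX X PV x0 y0 T) (VcX X Pc x0 y0 T) (VxX X Px x0 y0 T) s u u' (.leaf S) τ' e +
        Kf * PhX X KH (VsX X PV x0 y0 T) s u u' (.leaf S) τ' e) :=
    Finset.sum_nonneg fun e _ => add_nonneg (mul_nonneg (by linarith) (hp0 e))
      (mul_nonneg (by linarith) (hf0 e))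
  have okL : s.t.g.Ok := SideI.okg hy.L.S
  have okR : s.t'.g.Ok := SideI.okg hy.R.S
  have hμ := mul_nonneg (Skel189.tM_nonneg X j₀ okL s.A) (Skel189.tM_nonneg X j₀ okR s.A')
  have hB0 : 0 ≤ B := by have := C₀L_one (Ch := Ch); linarith
  unfold Xs
  refine max_le hy0 ?_
  rcases hI.pop.2 with hA' | hA'
  · have key := leaf_tree hH hQ hN hb hlam hKH hT hP hI hC hy hl hA'
    have k1 : 2 * (C₀L Ch + 2) * (X.tm j₀ s.t.g s.A * X.tm j₀ s.t'.g s.A') ≤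
        B * (X.tm j₀ s.t.g s.A * X.tm j₀ s.t'.g s.A') := mul_le_mul_of_nonneg_right hB hμ
    have k2 : ∑ e ∈ Ep (X.c.D.par X.Y) X.S' s (.leaf S) τ',
        (2 * potS (VsX X PV x0 y0 T) (VcX X Pc x0 y0 T) (VxX X Px x0 y0 T) s u u' (.leaf S) τ' e +
        2 * PhX X KH (VsX X PV x0 y0 T) s u u' (.leaf S) τ' e) ≤
        ∑ e ∈ Ep (X.c.D.par X.Y) X.S' s (.leaf S) τ',
        (K * potS (VsX X PV x0 y0 T) (VcX X Pc x0 y0 T) (VxX X Px x0 y0 T) s u u' (.leaf S) τ' e +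
        Kf * PhX X KH (VsX X PV x0 y0 T) s u u' (.leaf S) τ' e) :=
      Finset.sum_le_sum fun e _ => add_le_add (mul_le_mul_of_nonneg_right hK (hp0 e))
        (mul_le_mul_of_nonneg_right hKf (hf0 e))
    linarith
  · have e1 : Qs s = 0 := by
      rw [Qs_Q hy.st, hA']
      unfold Q
      refine Finset.sum_eq_zero fun x _ => ?_
      have e2 : (fun y => (X.c.D.par X.Y).uA s.M u.B u.A (.leaf S) s.A 1 x.1 y *
          (X.c.D.par X.Y).uA s.M' u'.B u'.A τ' ∅ 1 x.2 y) = fun _ => 0 := by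
        funext y
        rw [LeafW27.uA_empty, mul_zero]
      rw [e2]
      unfold I
      simp
    have k1 : 0 ≤ B * (X.tm j₀ s.t.g s.A * X.tm j₀ s.t'.g s.A') := mul_nonneg hB0 hμ
    linarith

/-- **the context form** -/
theorem exists_LTB (N : Skel189.Num) (Ch : ℝ) : ∃ p₁ : ℕ, ∀ p0 ≥ p₁, ∀ (γ : ℝ) (P₀ : ℕ)
    (X : Ctx N γ p0 P₀) (j₀ : X.c.Lam) (b : ℕ) (Qp : NS → IT → Prop)
    (RP : Finset (X.c.Lam × X.c.Lam) → Prop), HC X Ch → QH X j₀ b Ch Qp → 2 ≤ b →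
    ∀ B K Kf KH : ℝ, 2 * (C₀L Ch + 2) ≤ B → 2 ≤ K → 2 ≤ Kf → KL ≤ KH →
    LTB X j₀ Qp RP b B K Kf KH := by
  obtain ⟨a1, h1⟩ := exists_NumL N Ch
  obtain ⟨a2, h2⟩ := LeafK28.lam_two N
  exact ⟨a1 + a2, fun p0 hp0 γ P₀ X j₀ b Qp RP hH hQ hb B K Kf KH hB hK hKf hKH =>
    ctx_LTB hH hQ (h1 p0 (by omega)) hb
      (fun u τ hq r hr hr2 => h2 p0 (by omega) γ P₀ X u τ (hQ.nd u τ hq) r hr hr2) hB hK hKf hKH⟩

end Crest.Agent.R4P.LeafS27
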