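import Crest.Agent.R4P.LTT_25
import Crest.Agent.R4P.LocXd_25
import Crest.Agent.R4P.LeafCol_27
import Crest.Agent.R4P.LeafS_27
import Crest.Agent.R4P.LocN_25
import Crest.Agent.R4P.CzTot_36

/-!
R4P (S0004), helper25, module D, group [X]: **crossing states with a dead side** (pulls over a leaf), excluded
pairs.

* `Q_plL` : a pull of the left side; `CTI` : (chain, tree) states; `CTI.pull`;
* `chain_T` : the bound of the (chain, tree) states from `LTT`;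
* `ctx_D`, `ctx_D'` : the crossing states with a dead left / right side.
-/

set_option autoImplicit false
set_option linter.unusedSectionVars false
set_option linter.unusedVariables false
open Finset hiding dens

namespace Crest.Agent.R4P.LocX25

open Crest.Agent.R4.HVW560 Crest.Agent.R4P.AvgItem710
open Crest.Agent.R4.Tour104 Crest.Agent.R4.Tour758 Crest.Agent.R4.Avg758 Crest.Agent.R4.Clos758
open Crest.Agent.R4.ClosL758 Crest.Agent.R4.ClosG758 Crest.Agent.R4.ClosR758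
open Crest.Agent.R4.Fam464 Crest.Agent.R4P.Cnt588 Crest.Agent.R4P.Walk560 Crest.Agent.R4P.Item758
open Crest.Agent.R4P.Bld532 (NS All NodeOk)
open Crest.Agent.R4P.GSt927 Crest.Agent.R4P.WalkIT579 Crest.Agent.R4P.NMW710
open Crest.Agent.R4P.CrossLoc25 Crest.Agent.R4P.CrossLocC25 Crest.Agent.R4P.YI25
open Crest.Agent.R4P.Data758 Crest.Agent.R4.Piece464
open Crest.Agent.R4P.IvX29 Crest.Agent.R4P.ShrW34 Crest.Agent.R4P.ShrG28
open Crest.Agent.R4P.TBLeaf28 (JC)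
open Crest.Agent.R4P.CopM34 (Cop cop_mulR cop_mulL)
open Crest.Agent.R4P.Skel189 (Ctx top Kc)
open Crest.Agent.R4.Soft104 (w)
open Crest.Agent.R4P.WmfL25 (mL)
open Crest.Agent.R4.AvgItem710 (rf)
open Crest.Agent.R4.CrossLoc709 (SE)
open Crest.Agent.R4.CrossInv709 (Mv sd sc sc_inv mv_pull)
open Crest.Agent.R4P.CofMono28 (cof_mv)
open Crest.Agent.R4P.LeafCol27
open Crest.Agent.R4P

section gen
variable {Λ κ : Type*} [Fintype Λ] [DecidableEq Λ] [Fintype κ] [DecidableEq κ] [WRel κ]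
  {D : Par Λ κ} {sp : ℕ → Finset Λ} {b pr p : ℕ} {t : IT} {A : Finset Λ} {d : DT Λ κ}

/-- **pull of the left side**, energies -/
theorem Q_plL (h : SideI D sp b pr (.pl p t) A d) {M : ℕ} (hM : 0 < M) (hc : ¬ p ∣ M)
    (A : Finset Λ) (R : Finset (Λ × Λ)) {f : Λ → ℝ → ℝ} (hf : ∀ j, PB (f j)) :
    Q R (D.uA M b pr (.pl p t) A 1) f = Q R (D.uA M b (pr * p) t A 1) (avg p f) := by
  have hp : 0 < p := h.hF.1.pos
  unfold Q
  refine Finset.sum_congr rfl fun e _ => ?_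
  have k := push_left hp (pbu h.pl hM (one_dvd _) A e.1) (hf e.2)
  have e1 : (fun x => D.uA M b pr (.pl p t) A 1 e.1 x * f e.2 x) =
      fun x => D.uA M b (pr * p) t A 1 e.1 (p * x) * f e.2 x := by
    funext x; rw [uA_pl h hM hc]
  rw [e1, k]
  rfl

/-- pulls over a leaf -/
def chn : IT → Prop
  | .leaf _ => True
  | .pl _ t => chn t
  | _ => False

lemma chn_of_dd {n : ℕ} : ∀ (t : IT) (b pr : ℕ), t.Ok n → Dd26.dd (D.toDT sp b pr t) → chn t := by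
  intro t
  induction t generalizing n with
  | leaf S => intro b pr _ _; trivial
  | br r Sp t₁ t₀ _ _ =>
    intro b pr ho h
    have h1 : (1 / (r : ℝ)) = 0 := h.1
    have h2 : (r : ℝ) ≠ 0 := Nat.cast_ne_zero.2 (ho.1.pos.ne')
    exact absurd h1 (one_div_ne_zero h2)
  | add r t₁ t₀ _ _ => intro b pr _ h; exact h
  | up r Sp t _ => intro b pr _ h; exact h
  | pl r t ih => intro b pr ho h; exact ih b (pr * r) ho.2.2 h.2
  | far r t₁ t₀ _ _ => intro b pr _ h; exact h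

/-- a common prime of the item and of the modulus -/
lemma sd_free {p M w : ℕ} (hp : 0 < p) (β : ℝ) : sd (p * w) (p * M) β = sd w M β := by
  unfold sd rf
  rw [Nat.gcd_mul_left, Nat.mul_div_mul_left _ _ hp, Nat.mul_div_mul_left _ _ hp]

lemma rf_mul_ge {p M w : ℕ} (hp : 0 < p) (hM : 0 < M) : rf w M ≤ rf w (p * M) := by
  unfold rf
  have g0 : 0 < M.gcd w := Nat.gcd_pos_of_pos_left _ hM
  have g1 : 0 < (p * M).gcd w := Nat.gcd_pos_of_pos_left _ (Nat.mul_pos hp hM)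
  have h1 : (p * M).gcd w ≤ p * M.gcd w := by
    have h2 : (p * M).gcd w ∣ p * M.gcd w := by
      rw [← Nat.gcd_mul_left]
      exact Nat.dvd_gcd (Nat.gcd_dvd_left _ _) ((Nat.gcd_dvd_right _ _).trans (Dvd.intro_left p rfl))
    exact Nat.le_of_dvd (Nat.mul_pos hp g0) h2
  rw [Nat.le_div_iff_mul_le g1]
  calc M / M.gcd w * (p * M).gcd w ≤ M / M.gcd w * (p * M.gcd w) := Nat.mul_le_mul_left _ h1
    _ = p * (M / M.gcd w * M.gcd w) := by ring
    _ = p * M := by rw [Nat.div_mul_cancel (Nat.gcd_dvd_left _ _)]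

end gen

variable {N : Skel189.Num} {γ : ℝ} {p0 P₀ : ℕ}

/-- **a (chain, tree) state** -/
structure CTI (X : Ctx N γ p0 P₀) (Qp : NS → IT → Prop) (b : ℕ) (x0 y0 : ℕ × ℕ → ℕ)
    (s₀ : ℕ × ℕ → ℝ × ℝ) (s : X.Sta) (u u' : NS) (τ τ' : IT) : Prop where
  L : SY (X.c.D.par X.Y) (fun _ => ∅) Qp u τ s.A s.t
  R : SY (X.c.D.par X.Y) (fun _ => ∅) Qp u' τ' s.A' s.t'
  M0 : 0 < s.M
  M0' : 0 < s.M'
  circ : u.A * u.B * s.M = u'.A * u'.B * s.M'
  cop : Nat.Coprime s.M s.M'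
  lc : ∃ l : ℕ, s.R = Ro ((X.c.D.par X.Y).rho l) ∧ l.Prime ∧ p0 < l ∧ l ≤ b ∧ tp τ' ≤ l
  lv : ∀ l : ℕ, l.Prime → l < tp τ' → l < u.n
  A : s.A = Finset.univ
  A' : s.A' = Finset.univ
  jc : ∀ e ∈ Ep (X.c.D.par X.Y) X.S' s τ τ', JC x0 y0 s.M u.A s.M' u'.A e
  sc : ∀ e ∈ Ep (X.c.D.par X.Y) X.S' s τ τ', SE s.M u.B u.A s.M' u'.B u'.A e = s₀ e

variable {X : Ctx N γ p0 P₀} {j₀ : X.c.Lam}
  {Q' : NS → IT → Prop} {b : ℕ} {z : X.Sta} {v v' : NS} {σ σ' : IT}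
  {Qp : NS → IT → Prop} {x0 y0 : ℕ × ℕ → ℕ} {s₀ : ℕ × ℕ → ℝ × ℝ}
  {TW PV : ℕ × ℕ → Prop} {Pc : ℕ → ℕ × ℕ → Prop} {s : X.Sta} {u u' : NS} {τ τ' : IT} {T : ℝ}
  {Ch : ℝ}

lemma CTI.lti {S : Finset ℕ} (h : CTI X Qp b x0 y0 s₀ s u u' (.leaf S) τ') :
    LTI X Qp b x0 y0 s₀ s u u' S τ' :=
  ⟨h.L, h.R, h.M0, h.M0', h.circ, h.cop, h.lc, h.lv, h.A, h.A', h.jc, h.sc⟩

/-- node of the child of a pull -/
@[reducible] def nP (p : ℕ) (u : NS) : NS := ⟨p + 1, u.c, u.A * p, u.B⟩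

/-- **one pull** -/
theorem CTI.pull (hQ : QH X j₀ b Ch Qp) {p : ℕ} {t : IT}
    (h : CTI X Qp b x0 y0 s₀ s u u' (.pl p t) τ') :
    ∃ s₂ : X.Sta, CTI X Qp b x0 y0 s₀ s₂ (nP p u) u' t τ' ∧ s₂.R = s.R ∧ s₂.t' = s.t' ∧
      s₂.A = s.A ∧ s₂.A' = s.A' ∧ (∀ w, rf w s.M' ≤ rf w s₂.M') ∧
      Ep (X.c.D.par X.Y) X.S' s₂ t τ' = Ep (X.c.D.par X.Y) X.S' s (.pl p t) τ' ∧
      ∀ R, Q R ((X.c.D.par X.Y).uA s.M u.B u.A (.pl p t) s.A 1)
          ((X.c.D.par X.Y).uA s.M' u'.B u'.A τ' s.A' 1) =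
        Q R ((X.c.D.par X.Y).uA s₂.M u.B (u.A * p) t s₂.A 1)
          ((X.c.D.par X.Y).uA s₂.M' u'.B u'.A τ' s₂.A' 1) := by
  have hqp : Qp u (.pl p t) := h.L.q.self
  have hnd := hQ.ok _ _ hqp
  have hpp : p.Prime := hnd.1
  have hlp : ∀ r : ℕ, r.Prime → r < u.n → r ≤ p := hnd.2.2.2.1
  have hdv : ∀ q ∈ t.items, p ∣ q / u.A := hnd.2.2.2.2.2.1
  have hok : t.Ok (p + 1) := h.L.ok.2.2
  have hall : All Qp (nP p u) t := h.L.q.2
  have hF := h.L.S.hF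
  have hF2 := h.L.S.pl.hF
  have hA0 : 0 < u.A ∨ t.items = ∅ := by
    rcases t.items.eq_empty_or_nonempty with h0 | ⟨q, hq⟩
    · exact Or.inr h0
    · left
      obtain ⟨a1, a2, -⟩ := hF.item q hq
      exact Nat.pos_of_dvd_of_pos a2 a1
  -- items
  have hitm : ∀ q ∈ t.items, q / u.A = p * (q / (u.A * p)) ∧ 0 < q / (u.A * p) := by
    intro q hq
    obtain ⟨a1, a2, -⟩ := hF.item q hq
    obtain ⟨b1, b2, -⟩ := hF2.item q hq
    have c1 : 0 < q / (u.A * p) :=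
      Nat.div_pos (Nat.le_of_dvd b1 b2) (Nat.pos_of_dvd_of_pos b2 b1)
    refine ⟨?_, c1⟩
    rw [← Nat.div_div_eq_div_mul, Nat.mul_div_cancel' (hdv q hq)]
  by_cases hd : p ∣ s.M
  · -- free
    obtain ⟨M₂, hM₂⟩ := hd
    have hM₂0 : 0 < M₂ := Nat.pos_of_ne_zero fun h0 => by
      have := h.M0; rw [hM₂, h0, Nat.mul_zero] at this; exact lt_irrefl _ this
    set s₂ : X.Sta := { s with M := M₂, t := (X.c.D.par X.Y).toDT (fun _ => ∅) u.B (u.A * p) t }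
      with hs₂
    have hEp : Ep (X.c.D.par X.Y) X.S' s₂ t τ' = Ep (X.c.D.par X.Y) X.S' s (.pl p t) τ' := rfl
    have hsd : ∀ q ∈ t.items, sd (q / u.A) s.M (u.B : ℝ) = sd (q / (u.A * p)) M₂ (u.B : ℝ) := by
      intro q hq
      rw [(hitm q hq).1, hM₂]
      exact sd_free hpp.pos _
    have hit : ∀ e ∈ Ep (X.c.D.par X.Y) X.S' s₂ t τ', e.1 ∈ t.items := fun e he =>
      (mem_Qi.1 (Finset.mem_product.1 he).1).1
    refine ⟨s₂, ?_, rfl, rfl, rfl, rfl, fun _ => le_rfl, hEp, fun R => ?_⟩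
    · exact
        { L := ⟨h.L.S.pl, hok, hall, h.L.il⟩
          R := h.R
          M0 := hM₂0
          M0' := h.M0'
          circ := by
            have := h.circ
            rw [hM₂] at this
            show u.A * p * u.B * M₂ = u'.A * u'.B * s.M'
            rw [← this]; ring
          cop := by
            have := h.cop
            rw [hM₂] at this
            exact Nat.Coprime.coprime_mul_left this
          lc := h.lc
          lv := fun l hl hlt => Nat.lt_succ_of_le (hlp l hl (h.lv l hl hlt))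
          A := h.A
          A' := h.A'
          jc := fun e he => by
            have k := h.jc e he
            have e1 := congrArg Prod.fst (hsd e.1 (hit e he))
            have e2 : UI s.M u.A e.1 = UI M₂ (u.A * p) e.1 := e1
            refine ⟨k.px, k.py, ?_, ?_⟩
            · have := k.x; rw [e2] at this; exact this
            · have := k.y; rw [e2] at this; exact this
          sc := fun e he => by
            have k := h.sc e he
            unfold SE at k ⊢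
            rw [hsd e.1 (hit e he)] at k
            exact k }
    · rw [hM₂, uA_pl_free h.L.S hM₂0 s.A]
  · -- the prime goes to the other side
    set s₂ : X.Sta := { s with M' := p * s.M', t := (X.c.D.par X.Y).toDT (fun _ => ∅) u.B (u.A * p) t }
      with hs₂
    have hEp : Ep (X.c.D.par X.Y) X.S' s₂ t τ' = Ep (X.c.D.par X.Y) X.S' s (.pl p t) τ' := rfl
    have hit : ∀ e ∈ Ep (X.c.D.par X.Y) X.S' s₂ t τ', e.1 ∈ t.items := fun e he =>
      (mem_Qi.1 (Finset.mem_product.1 he).1).1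
    have hit' : ∀ e ∈ Ep (X.c.D.par X.Y) X.S' s₂ t τ', 0 < e.2 / u'.A := fun e he => by
      obtain ⟨a1, a2, -⟩ := h.R.S.hF.item e.2 (mem_Qi.1 (Finset.mem_product.1 he).2).1
      exact Nat.div_pos (Nat.le_of_dvd a1 a2) (Nat.pos_of_dvd_of_pos a2 a1)
    have hmvL : ∀ e ∈ Ep (X.c.D.par X.Y) X.S' s₂ t τ',
        Mv p true (sd (e.1 / u.A) s.M (u.B : ℝ)) (sd (e.1 / (u.A * p)) s.M (u.B : ℝ)) := by
      intro e he
      rw [(hitm e.1 (hit e he)).1]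
      exact mv_pull hpp hd _
    have hmvR : ∀ e ∈ Ep (X.c.D.par X.Y) X.S' s₂ t τ', ∃ i,
        Mv p i (sd (e.2 / u'.A) s.M' (u'.B : ℝ)) (sd (e.2 / u'.A) (p * s.M') (u'.B : ℝ)) := by
      intro e he
      by_cases hu : p ∣ UI s.M' u'.A e.2
      · exact ⟨true, smv_avg_drop (b := u'.B) hpp h.M0' (hit' e he) hu⟩
      · exact ⟨false, smv_avg_raise (b := u'.B) hpp h.M0' hu⟩
    refine ⟨s₂, ?_, rfl, rfl, rfl, rfl, fun w => rf_mul_ge hpp.pos h.M0', hEp, fun R => ?_⟩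
    · exact
        { L := ⟨h.L.S.pl, hok, hall, h.L.il⟩
          R := h.R
          M0 := h.M0
          M0' := Nat.mul_pos hpp.pos h.M0'
          circ := by
            have := h.circ
            show u.A * p * u.B * s.M = u'.A * u'.B * (p * s.M')
            calc u.A * p * u.B * s.M = p * (u.A * u.B * s.M) := by ring
              _ = _ := by rw [this]; ring
          cop := cop_mulR hpp h.cop hd
          lc := h.lc
          lv := fun l hl hlt => Nat.lt_succ_of_le (hlp l hl (h.lv l hl hlt))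
          A := h.A
          A' := h.A'
          jc := fun e he => by
            have k := h.jc e he
            obtain ⟨i, hi⟩ := hmvR e he
            have c := cof_mv hpp (hmvL e he) hi
            exact ⟨k.px, k.py, c.1.trans k.x, c.2.trans k.y⟩
          sc := fun e he => by
            have k := h.sc e he
            obtain ⟨i, hi⟩ := hmvR e he
            have c := sc_inv hpp (hmvL e he) hi (Or.inl rfl)
            exact c.trans k }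
    · have hpb : ∀ j, PB ((X.c.D.par X.Y).uA s.M' u'.B u'.A τ' s.A' 1 j) :=
        fun j => pbu h.R.S h.M0' (one_dvd _) s.A' j
      rw [Q_plL h.L.S h.M0 hd s.A R hpb, avg_uA hpp.pos h.M0']

/-! ### the bound of the (chain, tree) states -/

open Classical in
/-- what a pair pays at a (chain, tree) state -/
noncomputable def payC (X : Ctx N γ p0 P₀) (K Kf Kt : ℝ) (TW : ℕ × ℕ → Prop)
    (Vs : ℝ × ℝ → ℕ × ℕ → ℝ) (Vc : ℕ → ℝ × ℝ → ℕ × ℕ → ℝ) (p : ℕ) (s : X.Sta) (u u' : NS)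
    (τ τ' : IT) (e : ℕ × ℕ) : ℝ :=
  if TW e then Kt * (u.c * w X.ψ e.1 / (rf (e.2 / u'.A) s.M' : ℝ))
  else (K + Kf) * potS Vs Vc (fun _ _ _ => 0) s u u' τ τ' e +
    Kf * (((u.B : ℝ) * u'.B) * fut X.c.t.mt ParF5.rg
      (fun _ => Vs (SE s.M u.B u.A s.M' u'.B u'.A e) e) p e)

lemma CTI.p_eq {S : Finset ℕ} (h : CTI X Qp b x0 y0 s₀ s u u' (.leaf S) τ') : s.p = tp τ' := by
  have e1 : s.t.top = tp (.leaf S) := by rw [h.L.S.eq]; exact WalkIT579.toDT_top _ _ _ _ _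
  have e2 : s.t'.top = tp τ' := by rw [h.R.S.eq]; exact WalkIT579.toDT_top _ _ _ _ τ'
  show max s.t.top s.t'.top = _
  rw [e1, e2]
  exact Nat.zero_max _

/-- **the end of the chain** -/
theorem leaf_C (hQ : QH X j₀ b Ch Qp) {B K Kf KH Kt E : ℝ} (hLT : LTT X j₀ Qp b B K Kf KH Kt)
    (hKf : 0 ≤ Kf) (hKt : 0 ≤ Kt) (hKH0 : 0 ≤ KH)
    (hE1 : ∀ s : Finset ℕ, ∑ k ∈ s, HG KH (1 / 4) k ≤ E)
    (hE2 : ∀ q ∈ X.S', ∀ M ⊆ X.c.t.mt q, ∑ l ∈ M, HG KH (1 / 4) (ParF5.rg l) ≤ E)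
    (hT : TX b ≤ T) (hP : PrT X Qp b s₀ TW PV Pc) (hl : ¬ isL τ') {S : Finset ℕ}
    (h : CTI X Qp b x0 y0 s₀ s u u' (.leaf S) τ') :
    Q (s.R \ TRs (X.c.D.par X.Y) TW) ((X.c.D.par X.Y).uA s.M u.B u.A (.leaf S) s.A 1)
        ((X.c.D.par X.Y).uA s.M' u'.B u'.A τ' s.A' 1) ≤
      (B + Kf * (4 * E)) * (X.tm j₀ s.t.g s.A * X.tm j₀ s.t'.g s.A') +
      ∑ e ∈ Ep (X.c.D.par X.Y) X.S' s (.leaf S) τ',
        payC X K Kf Kt TW (VsX X PV x0 y0 T) (VcX X Pc x0 y0 T) (tp τ') s u u' (.leaf S) τ' e := by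
  classical
  have hrr := (X.ok.rad X.Y).pos
  have hW : ∀ q, 0 ≤ w X.ψ q := fun q => Crest.Agent.R4.Soft104.w_nonneg X.sys.nonneg q
  have hV0 : ∀ s e, 0 ≤ VsX X PV x0 y0 T s e := fun s e => SameIx30.VU_nonneg hrr _ _ _ s e
  have hqL : Qp u (.leaf S) := h.L.q.self
  have hqR : Qp u' τ' := h.R.q.self
  have hc : 0 ≤ u.c := c_nonneg_of_nd (hQ.nd _ _ hqL).self.node
  have hc' : 0 ≤ u'.c := c_nonneg_of_nd (hQ.nd _ _ hqR).self.node
  have hE0 : 0 ≤ E := (Finset.sum_nonneg fun k _ => HG_nonneg hKH0 _ k).trans (hE1 ∅)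
  have hp := h.p_eq
  have key := hLT x0 y0 s₀ PV Pc TW T s u u' S τ' hT hP h.lti hl
  have hle : ∀ e ∈ Ep (X.c.D.par X.Y) X.S' s (.leaf S) τ',
      payT X K Kf KH Kt TW (VsX X PV x0 y0 T) (VcX X Pc x0 y0 T) s u u' (.leaf S) τ' e ≤
      payC X K Kf Kt TW (VsX X PV x0 y0 T) (VcX X Pc x0 y0 T) (tp τ') s u u' (.leaf S) τ' e +
        Kf * PhiG (X.c.D.par X.Y) (w X.ψ) X.c.t.mt ParF5.rg (HG KH (1 / 4)) s u u'
          (.leaf S) τ' e := by
    intro e he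
    unfold payT payC
    by_cases hw : TW e
    · rw [if_pos hw, if_pos hw]
    · rw [if_neg hw, if_neg hw]
      have v0 := hV0 (SE s.M u.B u.A s.M' u'.B u'.A e) e
      have h1 : ((u.B : ℝ) * u'.B) * VsX X PV x0 y0 T (SE s.M u.B u.A s.M' u'.B u'.A e) e ≤
          potS (VsX X PV x0 y0 T) (VcX X Pc x0 y0 T) (fun _ _ _ => 0) s u u' (.leaf S) τ' e := by
        have := Vs_le_pot (Vs := VsX X PV x0 y0 T) (Vc := VcX X Pc x0 y0 T)
          (Vx := fun _ _ _ => (0:ℝ)) hV0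
          (fun _ _ _ => VcL_nonneg hrr _ _ _) (fun _ _ _ => le_rfl)
          s.M u.B u.A s.M' u'.B u'.A (.leaf S) τ' e
        exact this
      have h2 : PhiM (X.c.D.par X.Y) X.c.t.mt ParF5.rg (fun _ => VsX X PV x0 y0 T) s u u'
          (.leaf S) τ' e ≤ potS (VsX X PV x0 y0 T) (VcX X Pc x0 y0 T) (fun _ _ _ => 0) s u u'
            (.leaf S) τ' e + ((u.B : ℝ) * u'.B) * fut X.c.t.mt ParF5.rg
            (fun _ => VsX X PV x0 y0 T (SE s.M u.B u.A s.M' u'.B u'.A e) e) (tp τ') e := by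
        unfold ShrW34.PhiM
        rw [hp, mul_add]
        refine add_le_add (le_trans ?_ h1) le_rfl
        refine mul_le_mul_of_nonneg_left ?_ (by positivity)
        exact mul_le_of_le_one_left v0 (ShrW34.cf_le_one _ _)
      have h3 := mul_le_mul_of_nonneg_left h2 hKf
      have h4 : Kf * PhX X KH (VsX X PV x0 y0 T) s u u' (.leaf S) τ' e =
          Kf * PhiG (X.c.D.par X.Y) (w X.ψ) X.c.t.mt ParF5.rg (HG KH (1 / 4)) s u u'
            (.leaf S) τ' e + Kf * PhiM (X.c.D.par X.Y) X.c.t.mt ParF5.rg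
              (fun _ => VsX X PV x0 y0 T) s u u' (.leaf S) τ' e := by
        unfold PhX
        ring
      rw [h4]
      nlinarith
  have hG : ∑ e ∈ Ep (X.c.D.par X.Y) X.S' s (.leaf S) τ',
      PhiG (X.c.D.par X.Y) (w X.ψ) X.c.t.mt ParF5.rg (HG KH (1 / 4)) s u u' (.leaf S) τ' e ≤
      4 * E * (X.tm j₀ s.t.g s.A * X.tm j₀ s.t'.g s.A') := by
    have k := sum_PhiG_le (D := X.c.D.par X.Y) (Al := X.S') (W := w X.ψ) (mtt := X.c.t.mt)
      (rg := ParF5.rg) (H := HG KH (1 / 4)) (s := s) (τ := .leaf S) (τ' := τ')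
      (HG_nonneg hKH0 _) hW hc hc' (E := 4 * E) (fun e he => by
        obtain ⟨he1, he2⟩ := Finset.mem_product.1 he
        exact ctx_E4 hE1 hE2 (mem_Qi.1 he1).2.1 (mem_Qi.1 he2).2.1)
    refine k.trans (mul_le_mul_of_nonneg_left ?_ (by linarith))
    have m : ∀ {u : NS} {τ : IT} {A : Finset X.c.Lam} {d : DT X.c.Lam (Lb (WL X.c.Lam) X.Y)},
        SY (X.c.D.par X.Y) (fun _ => ∅) Qp u τ A d → A = Finset.univ →
        u.c * ∑ q ∈ Qi (X.c.D.par X.Y) X.S' τ A, w X.ψ q ≤ X.tm j₀ d.g A := by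
      intro u τ A d hs hA
      have hcu : 0 ≤ u.c := c_nonneg_of_nd (hQ.nd _ _ hs.q.self).self.node
      have hsub : τ.items ⊆ X.S := by
        have h := (hQ.nd _ _ hs.q.self).self.sub
        rwa [X.items] at h
      rw [LeafS27.tm_side hQ hs.q.self hs.S, hA, CtxX26.sum_wt_item X hsub]
      exact mul_le_mul_of_nonneg_left (Finset.sum_le_sum_of_subset_of_nonneg
        (fun r hr => (mem_Qi.1 hr).1) fun r _ _ => hW r) hcu
    exact mul_le_mul (m h.L h.A) (m h.R h.A') (mul_nonneg hc' (Finset.sum_nonneg fun q _ => hW q))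
      ((mul_nonneg hc (Finset.sum_nonneg fun q _ => hW q)).trans (m h.L h.A))
  refine key.trans ?_
  have hs := Finset.sum_le_sum hle
  rw [Finset.sum_add_distrib, ← Finset.mul_sum] at hs
  have hG' := mul_le_mul_of_nonneg_left hG hKf
  have e1 : (B + Kf * (4 * E)) * (X.tm j₀ s.t.g s.A * X.tm j₀ s.t'.g s.A') =
      B * (X.tm j₀ s.t.g s.A * X.tm j₀ s.t'.g s.A') +
        Kf * (4 * E * (X.tm j₀ s.t.g s.A * X.tm j₀ s.t'.g s.A')) := by ring
  rw [e1]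
  linarith

/-- **THE (CHAIN, TREE) STATES** -/
theorem chain_T (hQ : QH X j₀ b Ch Qp) {B K Kf KH Kt E : ℝ} (hLT : LTT X j₀ Qp b B K Kf KH Kt)
    (hKf : 0 ≤ Kf) (hKt : 0 ≤ Kt) (hKH0 : 0 ≤ KH)
    (hE1 : ∀ s : Finset ℕ, ∑ k ∈ s, HG KH (1 / 4) k ≤ E)
    (hE2 : ∀ q ∈ X.S', ∀ M ⊆ X.c.t.mt q, ∑ l ∈ M, HG KH (1 / 4) (ParF5.rg l) ≤ E)
    (hT : TX b ≤ T) (hP : PrT X Qp b s₀ TW PV Pc) (hl : ¬ isL τ') : ∀ (τ : IT), chn τ →
    ∀ (s : X.Sta) (u : NS), CTI X Qp b x0 y0 s₀ s u u' τ τ' →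
    Q (s.R \ TRs (X.c.D.par X.Y) TW) ((X.c.D.par X.Y).uA s.M u.B u.A τ s.A 1)
        ((X.c.D.par X.Y).uA s.M' u'.B u'.A τ' s.A' 1) ≤
      (B + Kf * (4 * E)) * (X.tm j₀ s.t.g s.A * X.tm j₀ s.t'.g s.A') +
      ∑ e ∈ Ep (X.c.D.par X.Y) X.S' s τ τ',
        payC X K Kf Kt TW (VsX X PV x0 y0 T) (VcX X Pc x0 y0 T) (tp τ') s u u' τ τ' e := by
  classical
  have hW : ∀ q, 0 ≤ w X.ψ q := fun q => Crest.Agent.R4.Soft104.w_nonneg X.sys.nonneg q
  intro τ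
  induction τ with
  | leaf S => intro _ s u h; exact leaf_C hQ hLT hKf hKt hKH0 hE1 hE2 hT hP hl h
  | br r Sp t₁ t₀ _ _ => intro h; exact absurd h id
  | add r t₁ t₀ _ _ => intro h; exact absurd h id
  | up r Sp t _ => intro h; exact absurd h id
  | far r t₁ t₀ _ _ => intro h; exact absurd h id
  | pl p t ih =>
    intro hc s u h
    obtain ⟨s₂, h₂, hR, ht', hA, hA', hrf, hEp, hQQ⟩ := h.pull hQ
    have key := ih hc s₂ (nP p u) h₂
    have hcu : 0 ≤ u.c := c_nonneg_of_nd (hQ.nd _ _ h.L.q.self).self.node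
    rw [hQQ, ← hR]
    refine key.trans (add_le_add (le_of_eq ?_) ?_)
    · have e1 : X.tm j₀ s₂.t.g s₂.A = X.tm j₀ s.t.g s.A := by
        rw [LeafS27.tm_side hQ h₂.L.q.self h₂.L.S, LeafS27.tm_side hQ h.L.q.self h.L.S, hA]
        rfl
      rw [e1, ht', hA']
    · rw [hEp]
      refine Finset.sum_le_sum fun e he => ?_
      have hse : SE s₂.M u.B (u.A * p) s₂.M' u'.B u'.A e = SE s.M u.B u.A s.M' u'.B u'.A e := by
        rw [h.sc e he]
        exact h₂.sc e (by rw [hEp]; exact he)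
      unfold payC
      by_cases hw : TW e
      · rw [if_pos hw, if_pos hw]
        refine mul_le_mul_of_nonneg_left ?_ hKt
        have h1 : (rf (e.2 / u'.A) s.M' : ℝ) ≤ rf (e.2 / u'.A) s₂.M' := by
          exact_mod_cast hrf _
        have h2 : (0 : ℝ) < rf (e.2 / u'.A) s.M' := by
          have : 0 < rf (e.2 / u'.A) s.M' := by
            unfold rf
            exact Nat.div_pos (Nat.le_of_dvd h.M0' (Nat.gcd_dvd_left _ _))
              (Nat.gcd_pos_of_pos_left _ h.M0')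
          exact_mod_cast this
        exact div_le_div_of_nonneg_left (mul_nonneg hcu (hW _)) h2 h1
      · rw [if_neg hw, if_neg hw]
        refine le_of_eq ?_
        have e1 : potS (VsX X PV x0 y0 T) (VcX X Pc x0 y0 T) (fun _ _ _ => 0) s₂ (nP p u) u' t τ' e =
            potS (VsX X PV x0 y0 T) (VcX X Pc x0 y0 T) (fun _ _ _ => 0) s u u' (.pl p t) τ' e := by
          unfold potS pot cT
          simp only [ite_self, add_zero]
          rw [hse]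
          rfl
        rw [e1, hse]

/-! ### the crossing state -/

/-- **the start** -/
theorem CTI_start (h : CrsFacts26.CZ X j₀ Q' b z v v' σ σ')
    (hR : z.R = Ro ((X.c.D.par X.Y).rho b)) (hc : Cop z) :
    CTI X (QZ X j₀ Q' b) b (CStop25.xZ z.M v.A z.M' v'.A) (CStop25.yZ z.M v.A z.M' v'.A)
      (SE z.M v.B v.A z.M' v'.B v'.A) (Strip29.stS z) v v' σ σ' := by
  have hy : YI (X.c.D.par X.Y) (fun _ => ∅) (QZ X j₀ Q' b) (fun _ => True) (Strip29.stS z)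
    v v' σ σ' := CZ_YI' h trivial
  have hI := IvX_start h hR hc
  have htp : tp σ' ≤ b := ((tp_le_p hy).2).trans hI.fz.pb
  exact
    { L := hy.L
      R := hy.R
      M0 := h.mL.pos
      M0' := h.mR.pos
      circ := h.circ
      cop := hc
      lc := ⟨b, hR, h.bp, h.b0, le_rfl, htp⟩
      lv := fun l hl hlt => h.L.ll l hl (lt_of_lt_of_le hlt htp)
      A := h.A
      A' := h.A'
      jc := hI.jc
      sc := fun e _ => rfl }

open Classical in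
/-- **exclusion** : the energy of a state -/
theorem Q_excl_le {Λ κ : Type*} [Fintype Λ] [DecidableEq Λ] [Fintype κ] [DecidableEq κ] [WRel κ]
    {D : Par Λ κ} {sp : ℕ → Finset Λ} {Qp : NS → IT → Prop} {Al : Finset ℕ}
    {RP : Finset (Λ × Λ) → Prop} (hdead : ∀ j, D.it j ∉ Al → ∀ a, D.om j a = 0) {s : St Λ κ}
    {u u' : NS} {τ τ' : IT} (hy : YI D sp Qp RP s u u' τ τ') (TW : ℕ × ℕ → Prop) :
    Qs s ≤ Q (s.R \ TRs D TW) (D.uA s.M u.B u.A τ s.A 1) (D.uA s.M' u'.B u'.A τ' s.A' 1) +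
      ∑ e ∈ Ep D Al s τ τ', if TW e then
        D.iF s.R (D.uA s.M u.B u.A τ s.A 1) (D.uA s.M' u'.B u'.A τ' s.A' 1) e else 0 := by
  have hst := hy.st
  have c2 := Qs_TW hdead hy TW
  have e1 := Qs_Q (s := { s with R := s.R \ s.R.filter (fun x => ¬ TW (D.it x.1, D.it x.2)) })
    ⟨hst.L, hst.R, hst.M0, hst.M0'⟩
  have e2 : s.R \ s.R.filter (fun x => ¬ TW (D.it x.1, D.it x.2)) = s.R ∩ TRs D TW := by
    ext x
    simp only [Finset.mem_sdiff, Finset.mem_filter, Finset.mem_inter, mem_TRs]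
    tauto
  rw [e1] at c2
  rw [Qs_Q hst]
  have e3 : Q s.R (D.uA s.M u.B u.A τ s.A 1) (D.uA s.M' u'.B u'.A τ' s.A' 1) =
      Q (s.R \ TRs D TW) (D.uA s.M u.B u.A τ s.A 1) (D.uA s.M' u'.B u'.A τ' s.A' 1) +
      Q (s.R ∩ TRs D TW) (D.uA s.M u.B u.A τ s.A 1) (D.uA s.M' u'.B u'.A τ' s.A' 1) := by
    unfold Q
    have h1 := Finset.sum_inter_add_sum_sdiff s.R (TRs D TW) (fun e =>
      I (fun x => D.uA s.M u.B u.A τ s.A 1 e.1 x * D.uA s.M' u'.B u'.A τ' s.A' 1 e.2 x))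
    linarith
  rw [e3]
  refine add_le_add le_rfl ?_
  rw [← e2]
  exact c2

/-- monotone in the level -/
lemma fut_mono_p {mtt : ℕ → Finset ℕ} {U : ℕ → ℝ} (hU : ∀ k, 0 ≤ U k) {p₂ p : ℕ} (h : p₂ ≤ p)
    (e : ℕ × ℕ) : fut mtt ParF5.rg U p₂ e ≤ fut mtt ParF5.rg U p e := by
  unfold ShrW34.fut
  have hr : ParF5.rg p₂ ≤ ParF5.rg p := CzTot36.rg_mono h
  refine add_le_add (add_le_add ?_ ?_) ?_
  · exact Finset.sum_le_sum_of_subset_of_nonneg (ShrW34.mb_mono mtt h _) fun _ _ _ => hU _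
  · exact Finset.sum_le_sum_of_subset_of_nonneg (ShrW34.mb_mono mtt h _) fun _ _ _ => hU _
  · exact Finset.sum_le_sum_of_subset_of_nonneg (Finset.range_subset_range.2 hr) fun _ _ _ => hU _

/-- **the value of a pair without exits** -/
noncomputable def TOT0 (X : Ctx N γ p0 P₀) (Qp : NS → IT → Prop) (T K1 K2 : ℝ) (b : ℕ) (z : X.Sta)
    (v v' : NS) (σ σ' : IT) (e : ℕ × ℕ) : ℝ :=
  K1 * potS (SameIx30.VU (CzSum36.PV X Qp b z v v') (StopLeaf28.LoSt T p0 X.c.rr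
      (LLTot33.xR z.M v.A z.M' v'.A) (LLTot33.yR z.M v.A z.M' v'.A)) X.c.rr X.c.γ)
    (VcL (CzSum36.Pc X Qp z v v') X.c.γ X.c.rr (StopLeaf28.LoSt T p0 X.c.rr
      (LLTot33.xR z.M v.A z.M' v'.A) (LLTot33.yR z.M v.A z.M' v'.A)))
    (fun _ _ _ => 0) z v v' σ σ' e +
  K2 * PhiM (X.c.D.par X.Y) X.c.t.mt ParF5.rg (fun _ => SameIx30.VU (CzSum36.PV X Qp b z v v')
      (StopLeaf28.LoSt T p0 X.c.rr (LLTot33.xR z.M v.A z.M' v'.A) (LLTot33.yR z.M v.A z.M' v'.A))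
      X.c.rr X.c.γ) z v v' σ σ' e

open Classical in
/-- **what a pair of items pays at a crossing state with a dead left side**, excluded pairs `TW` -/
noncomputable def payZ (X : Ctx N γ p0 P₀) (Qp : NS → IT → Prop) (TW : ℕ × ℕ → Prop)
    (T K1 K2 Kt : ℝ) (b : ℕ) (z : X.Sta) (v v' : NS) (σ σ' : IT) (e : ℕ × ℕ) : ℝ :=
  if TW e then iFs X z v v' σ σ' e + Kt * (v.c * w X.ψ e.1 / (rf (e.2 / v'.A) z.M' : ℝ))
  else TOT0 X Qp T K1 K2 b z v v' σ σ' e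

open Classical in
/-- **what a pair of items pays at a crossing state with a dead right side**, excluded pairs `TW` -/
noncomputable def payZ' (X : Ctx N γ p0 P₀) (Qp : NS → IT → Prop) (TW : ℕ × ℕ → Prop)
    (T K1 K2 Kt : ℝ) (b : ℕ) (z : X.Sta) (v v' : NS) (σ σ' : IT) (e : ℕ × ℕ) : ℝ :=
  if TW e then iFs X z v v' σ σ' e + Kt * (v'.c * w X.ψ e.2 / (rf (e.1 / v.A) z.M : ℝ))
  else TOT0 X Qp T K1 K2 b z v v' σ σ' e

/-- **A CROSSING STATE WITH A DEAD LEFT SIDE**, excluded pairs `TW` -/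
theorem cross_D (hq : ∀ u τ, Q' u τ → QX X j₀ Ch u τ) {B K Kf KH Kt E T : ℝ}
    (hLT : LTT X j₀ (QZ X j₀ Q' b) b B K Kf KH Kt) (hK : 0 ≤ K)
    (hKf : 0 ≤ Kf) (hKt : 0 ≤ Kt) (hKH0 : 0 ≤ KH)
    (hE1 : ∀ s : Finset ℕ, ∑ k ∈ s, HG KH (1 / 4) k ≤ E)
    (hE2 : ∀ q ∈ X.S', ∀ M ⊆ X.c.t.mt q, ∑ l ∈ M, HG KH (1 / 4) (ParF5.rg l) ≤ E)
    (hT : TX b ≤ T) (h : CrsFacts26.CZ X j₀ Q' b z v v' σ σ')
    (hR : z.R = Ro ((X.c.D.par X.Y).rho b)) (hc : Cop z) (TW : ℕ × ℕ → Prop)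
    (hTW : ∀ e, TW e → Dsc (X.c.rr e.1) (X.c.rr e.2) (SE z.M v.B v.A z.M' v'.B v'.A e) ≤ 1 / 2)
    (hd : Dd26.dd z.t) (hnd : ¬ Dd26.dd z.t') :
    Xs (X.tm j₀) (B + Kf * (4 * E)) z ≤ ∑ e ∈ Ep (X.c.D.par X.Y) X.S' z σ σ',
      payZ X (AsmX26.QE X j₀ Q') TW T (K + Kf) Kf Kt b z v v' σ σ' e := by
  classical
  have hrr := (X.ok.rad X.Y).pos
  have hW : ∀ q, 0 ≤ w X.ψ q := fun q => Crest.Agent.R4.Soft104.w_nonneg X.sys.nonneg q
  set x0 := CStop25.xZ z.M v.A z.M' v'.A with hx0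
  set y0 := CStop25.yZ z.M v.A z.M' v'.A with hy0
  set s₀ := SE z.M v.B v.A z.M' v'.B v'.A with hs₀
  set PV := PVZ X j₀ Q' b z v v' with hPV
  set Pc := PcZ X j₀ Q' z v v' with hPc
  have hV0 : ∀ s e, 0 ≤ VsX X PV x0 y0 T s e := fun s e => SameIx30.VU_nonneg hrr _ _ _ s e
  have hVc0 : ∀ l s e, 0 ≤ VcX X Pc x0 y0 T l s e := fun _ _ _ => VcL_nonneg hrr _ _ _
  have hQ : QH X j₀ b Ch (QZ X j₀ Q' b) := QZ_QH hq
  have hP0 : PrX X (QZ X j₀ Q' b) b s₀ PV Pc (PxZ X j₀ Q' z v v') := PrX_Z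
  have hP : PrT X (QZ X j₀ Q' b) b s₀ TW PV Pc :=
    ⟨fun l e _ hl h0 hb hk => hP0.pv l e hl h0 hb hk, fun l e _ hk => hP0.pc l e hk, hTW⟩
  have hy : YI (X.c.D.par X.Y) (fun _ => ∅) (QZ X j₀ Q' b) (fun _ => True) (Strip29.stS z)
    v v' σ σ' := CZ_YI' h trivial
  have hC := CTI_start h hR hc
  have hσ : chn σ := chn_of_dd σ _ _ h.L.ok (by rw [← h.L.I.eq]; exact hd)
  have hσ' : ¬ isL σ' := by
    intro hi
    refine hnd (Dd26.dd_of_leaf ?_)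
    rw [h.R.I.eq]
    exact (WalkIT579.toDT_leaf _ _ _ _ _).2 hi
  have hEp : Ep (X.c.D.par X.Y) X.S' (Strip29.stS z) σ σ' = Ep (X.c.D.par X.Y) X.S' z σ σ' := rfl
  have key := chain_T hQ hLT hKf hKt hKH0 hE1 hE2 hT hP hσ' σ hσ _ _ hC
  have ex := Q_excl_le (Al := X.S') (fun j hj a => X.om_zero hj _ a) hy TW
  have hc0 : 0 ≤ v.c := c_nonneg_of_nd h.L.q.self.nd.self.node
  have hp : tp σ' ≤ z.p := by
    have := (tp_le_p hy).2
    rwa [Strip29.stS_p] at this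
  have hE0 : 0 ≤ E := (Finset.sum_nonneg fun k _ => HG_nonneg hKH0 _ k).trans (hE1 ∅)
  have hiF : ∀ e, 0 ≤ iFs X z v v' σ σ' e := by
    intro e
    unfold iFs
    exact Par.iF_nonneg _ _
      (fun j y => uA_nonneg h.mL.pos hy.L.S.hb hy.L.S.hF hy.L.S.hW (one_dvd _) j y)
      (fun j y => uA_nonneg h.mR.pos hy.R.S.hb hy.R.S.hF hy.R.S.hW (one_dvd _) j y) e
  have hpt : ∀ e, 0 ≤ potS (VsX X PV x0 y0 T) (VcX X Pc x0 y0 T) (fun _ _ _ => 0)
      z v v' σ σ' e := fun e => potS_nonneg hV0 hVc0 (fun _ _ _ => le_rfl) z v v' σ σ' e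
  have hPM : ∀ e, 0 ≤ PhiM (X.c.D.par X.Y) X.c.t.mt ParF5.rg (fun _ => VsX X PV x0 y0 T)
      z v v' σ σ' e := fun e => PhiM_nonneg (fun _ => hV0) z v v' σ σ' e
  have hpay : ∀ e, payC X K Kf Kt TW (VsX X PV x0 y0 T) (VcX X Pc x0 y0 T) (tp σ')
      (Strip29.stS z) v v' σ σ' e + (if TW e then iFs X z v v' σ σ' e else 0) ≤
      payZ X (AsmX26.QE X j₀ Q') TW T (K + Kf) Kf Kt b z v v' σ σ' e := by
    intro e
    unfold payC payZ
    by_cases hw : TW e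
    · rw [if_pos hw, if_pos hw, if_pos hw]
      rw [add_comm]
      exact le_rfl
    · rw [if_neg hw, if_neg hw, if_neg hw, add_zero]
      show (K + Kf) * potS (VsX X PV x0 y0 T) (VcX X Pc x0 y0 T) (fun _ _ _ => 0) z v v' σ σ' e +
        Kf * (((v.B : ℝ) * v'.B) * fut X.c.t.mt ParF5.rg
          (fun _ => VsX X PV x0 y0 T (SE z.M v.B v.A z.M' v'.B v'.A e) e) (tp σ') e) ≤
        (K + Kf) * potS (VsX X PV x0 y0 T) (VcX X Pc x0 y0 T) (fun _ _ _ => 0) z v v' σ σ' e +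
        Kf * PhiM (X.c.D.par X.Y) X.c.t.mt ParF5.rg (fun _ => VsX X PV x0 y0 T) z v v' σ σ' e
      refine add_le_add le_rfl (mul_le_mul_of_nonneg_left ?_ hKf)
      unfold ShrW34.PhiM
      refine mul_le_mul_of_nonneg_left ?_ (by positivity)
      have h1 := fut_mono_p (mtt := X.c.t.mt)
        (U := fun _ => VsX X PV x0 y0 T (SE z.M v.B v.A z.M' v'.B v'.A e) e)
        (fun _ => hV0 _ _) hp e
      have h2 : 0 ≤ ShrW34.cf (X.c.D.par X.Y) z e *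
          VsX X PV x0 y0 T (SE z.M v.B v.A z.M' v'.B v'.A e) e :=
        mul_nonneg (ShrW34.cf_nonneg _ _) (hV0 _ _)
      linarith
  have hpay0 : ∀ e, 0 ≤ payZ X (AsmX26.QE X j₀ Q') TW T (K + Kf) Kf Kt b z v v' σ σ' e := by
    intro e
    unfold payZ
    split_ifs
    · exact add_nonneg (hiF e) (mul_nonneg hKt (div_nonneg (mul_nonneg hc0 (hW _))
        (Nat.cast_nonneg _)))
    · show 0 ≤ (K + Kf) * potS (VsX X PV x0 y0 T) (VcX X Pc x0 y0 T) (fun _ _ _ => 0)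
          z v v' σ σ' e + Kf * PhiM (X.c.D.par X.Y) X.c.t.mt ParF5.rg
            (fun _ => VsX X PV x0 y0 T) z v v' σ σ' e
      exact add_nonneg (mul_nonneg (by linarith) (hpt e)) (mul_nonneg hKf (hPM e))
  rw [← Strip29.Xs_stS]
  unfold Xs
  refine max_le (Finset.sum_nonneg fun e _ => hpay0 e) ?_
  have hsum := Finset.sum_le_sum (s := Ep (X.c.D.par X.Y) X.S' z σ σ') fun e _ => hpay e
  rw [Finset.sum_add_distrib] at hsum
  have hsum2 : ∑ e ∈ Ep (X.c.D.par X.Y) X.S' (Strip29.stS z) σ σ', (if TW e then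
      (X.c.D.par X.Y).iF (Strip29.stS z).R
        ((X.c.D.par X.Y).uA (Strip29.stS z).M v.B v.A σ (Strip29.stS z).A 1)
        ((X.c.D.par X.Y).uA (Strip29.stS z).M' v'.B v'.A σ' (Strip29.stS z).A' 1) e else 0) =
      ∑ e ∈ Ep (X.c.D.par X.Y) X.S' z σ σ', if TW e then iFs X z v v' σ σ' e else 0 := rfl
  rw [hsum2] at ex
  rw [hEp] at key
  linarith

/-! ### exchange of the sides -/

open Crest.Agent.R4P.SwapX25 in
/-- the crossing state with the sides exchanged -/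
lemma CZ_sw (h : CrsFacts26.CZ X j₀ Q' b z v v' σ σ') :
    CrsFacts26.CZ X j₀ Q' b (swS z) v' v σ' σ :=
  ⟨h.bp, h.b0, h.R, h.L, h.circ.symm, h.mR, h.mL, h.A', h.A, h.sM', h.sM⟩

section sw
open Crest.Agent.R4P.SwapX25

lemma PV_sw : CzSum36.PV X Qp b (swS z) v' v = swE (CzSum36.PV X Qp b z v v') := by
  funext e
  refine propext ⟨?_, ?_⟩
  · rintro ⟨l, l1, l2, l3, l4⟩
    refine ⟨l, l1, l2, l3, ?_⟩
    have k := LkG_sw l4
    have e1 := SE_sw z.M v.B v.A z.M' v'.B v'.A (e.2, e.1)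
    have e2 : SE (swS z).M v'.B v'.A (swS z).M' v.B v.A e =
      ((SE z.M v.B v.A z.M' v'.B v'.A (e.2, e.1)).2, (SE z.M v.B v.A z.M' v'.B v'.A (e.2, e.1)).1) :=
      e1
    show LkG _ _ (SE z.M v.B v.A z.M' v'.B v'.A (e.2, e.1)) l (e.2, e.1)
    have e3 : ((CzSum36.SEz (swS z) v' v e).2, (CzSum36.SEz (swS z) v' v e).1) =
        SE z.M v.B v.A z.M' v'.B v'.A (e.2, e.1) := by
      show ((SE (swS z).M v'.B v'.A (swS z).M' v.B v.A e).2,
        (SE (swS z).M v'.B v'.A (swS z).M' v.B v.A e).1) = _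
      rw [e2]
    rw [e3] at k
    exact k
  · rintro ⟨l, l1, l2, l3, l4⟩
    refine ⟨l, l1, l2, l3, ?_⟩
    have k := LkG_sw l4
    have e1 := SE_sw z.M v.B v.A z.M' v'.B v'.A (e.2, e.1)
    have e2 : SE (swS z).M v'.B v'.A (swS z).M' v.B v.A e =
      ((SE z.M v.B v.A z.M' v'.B v'.A (e.2, e.1)).2, (SE z.M v.B v.A z.M' v'.B v'.A (e.2, e.1)).1) :=
      e1
    show LkG _ _ (SE (swS z).M v'.B v'.A (swS z).M' v.B v.A e) l e
    rw [e2]
    exact k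

lemma Pc_sw : CzSum36.Pc X Qp (swS z) v' v = fun l => swE (CzSum36.Pc X Qp z v v' l) := by
  funext l e
  have e1 := SE_sw z.M v.B v.A z.M' v'.B v'.A (e.2, e.1)
  have e2 : SE (swS z).M v'.B v'.A (swS z).M' v.B v.A e =
      ((SE z.M v.B v.A z.M' v'.B v'.A (e.2, e.1)).2, (SE z.M v.B v.A z.M' v'.B v'.A (e.2, e.1)).1) :=
      e1
  refine propext ⟨fun l4 => ?_, fun l4 => ?_⟩
  · have k := LkG_sw l4
    show LkG _ _ (SE z.M v.B v.A z.M' v'.B v'.A (e.2, e.1)) l (e.2, e.1)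
    have e3 : ((CzSum36.SEz (swS z) v' v e).2, (CzSum36.SEz (swS z) v' v e).1) =
        SE z.M v.B v.A z.M' v'.B v'.A (e.2, e.1) := by
      show ((SE (swS z).M v'.B v'.A (swS z).M' v.B v.A e).2,
        (SE (swS z).M v'.B v'.A (swS z).M' v.B v.A e).1) = _
      rw [e2]
    rw [e3] at k
    exact k
  · have k := LkG_sw l4
    show LkG _ _ (SE (swS z).M v'.B v'.A (swS z).M' v.B v.A e) l e
    rw [e2]
    exact k

/-- the value without exits, exchange of the sides -/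
lemma TOT0_sw (hR : z.R = Ro ((X.c.D.par X.Y).rho b)) {T K1 K2 : ℝ} (e : ℕ × ℕ) :
    TOT0 X Qp T K1 K2 b (swS z) v' v σ' σ (e.2, e.1) = TOT0 X Qp T K1 K2 b z v v' σ σ' e := by
  have p1 := SE_pos z.M v.B v.A z.M' v'.B v'.A e
  have p2 := SE_pos' z.M v.B v.A z.M' v'.B v'.A e
  unfold TOT0
  rw [PV_sw, Pc_sw]
  set L := StopLeaf28.LoSt T p0 X.c.rr (LLTot33.xR z.M v.A z.M' v'.A)
    (LLTot33.yR z.M v.A z.M' v'.A) with hL
  have e1 : StopLeaf28.LoSt T p0 X.c.rr (LLTot33.xR (swS z).M v'.A (swS z).M' v.A)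
      (LLTot33.yR (swS z).M v'.A (swS z).M' v.A) = swP L := by
    rw [hL, swP_LoSt]
    rfl
  rw [e1]
  have hV : SameIx30.VU (swE (CzSum36.PV X Qp b z v v')) (swP L) X.c.rr X.c.γ
      ((SE z.M v.B v.A z.M' v'.B v'.A e).2, (SE z.M v.B v.A z.M' v'.B v'.A e).1) (e.2, e.1) =
      SameIx30.VU (CzSum36.PV X Qp b z v v') L X.c.rr X.c.γ (SE z.M v.B v.A z.M' v'.B v'.A e) e :=
    VU_sw _ _ _ _ p1 p2 e
  have e2 : (fun _ _ _ => 0 : ℕ → ℝ × ℝ → ℕ × ℕ → ℝ) =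
      VxL (fun l => swE ((fun _ _ => False : ℕ → ℕ × ℕ → Prop) l)) X.c.γ X.c.rr (swP L) := by
    funext l s e
    unfold CrossLoc25.VxL
    exact (if_neg (fun h => h)).symm
  have e3 : (fun _ _ _ => 0 : ℕ → ℝ × ℝ → ℕ × ℕ → ℝ) =
      VxL (fun _ _ => False : ℕ → ℕ × ℕ → Prop) X.c.γ X.c.rr L := by
    funext l s e
    unfold CrossLoc25.VxL
    exact (if_neg (fun h => h)).symm
  congr 1
  · congr 1
    have k := potL_sw (Vs := SameIx30.VU (CzSum36.PV X Qp b z v v') L X.c.rr X.c.γ)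
      (Vs' := SameIx30.VU (swE (CzSum36.PV X Qp b z v v')) (swP L) X.c.rr X.c.γ)
      (CzSum36.Pc X Qp z v v') (fun _ _ => False) X.c.γ X.c.rr L z.M v.B v.A z.M' v'.B v'.A σ σ' e hV
    rw [← e2, ← e3] at k
    exact k
  · congr 1
    exact PhiM_sw hR e hV

/-- **A CROSSING STATE WITH A DEAD RIGHT SIDE**, excluded pairs `TW` -/
theorem cross_D' (hq : ∀ u τ, Q' u τ → QX X j₀ Ch u τ) {B K Kf KH Kt E T : ℝ}
    (hLT : LTT X j₀ (QZ X j₀ Q' b) b B K Kf KH Kt) (hK : 0 ≤ K)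
    (hKf : 0 ≤ Kf) (hKt : 0 ≤ Kt) (hKH0 : 0 ≤ KH)
    (hE1 : ∀ s : Finset ℕ, ∑ k ∈ s, HG KH (1 / 4) k ≤ E)
    (hE2 : ∀ q ∈ X.S', ∀ M ⊆ X.c.t.mt q, ∑ l ∈ M, HG KH (1 / 4) (ParF5.rg l) ≤ E)
    (hT : TX b ≤ T) (h : CrsFacts26.CZ X j₀ Q' b z v v' σ σ')
    (hR : z.R = Ro ((X.c.D.par X.Y).rho b)) (hc : Cop z) (TW : ℕ × ℕ → Prop)
    (hTW : ∀ e, TW e → Dsc (X.c.rr e.1) (X.c.rr e.2) (SE z.M v.B v.A z.M' v'.B v'.A e) ≤ 1 / 2)
    (hd : Dd26.dd z.t') (hnd : ¬ Dd26.dd z.t) :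
    Xs (X.tm j₀) (B + Kf * (4 * E)) z ≤ ∑ e ∈ Ep (X.c.D.par X.Y) X.S' z σ σ',
      payZ' X (AsmX26.QE X j₀ Q') TW T (K + Kf) Kf Kt b z v v' σ σ' e := by
  have key := cross_D hq hLT hK hKf hKt hKH0 hE1 hE2 hT (CZ_sw h) (z := swS z) hR (Cop_sw hc)
    (swE TW) (fun e he => by
      have k := hTW (e.2, e.1) he
      have e1 := SE_sw z.M v.B v.A z.M' v'.B v'.A (e.2, e.1)
      have e2 : SE (swS z).M v'.B v'.A (swS z).M' v.B v.A e =
        ((SE z.M v.B v.A z.M' v'.B v'.A (e.2, e.1)).2,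
          (SE z.M v.B v.A z.M' v'.B v'.A (e.2, e.1)).1) := e1
      rw [e2, Dsc_swap]
      exact k) hd hnd
  rw [Xs_sw hR, sum_Ep_sw] at key
  refine key.trans (le_of_eq (Finset.sum_congr rfl fun e _ => ?_))
  unfold payZ payZ'
  have hw : swE TW (e.2, e.1) = TW e := rfl
  rw [hw]
  by_cases h' : TW e
  · rw [if_pos h', if_pos h']
    have e1 : iFs X (swS z) v' v σ' σ (e.2, e.1) = iFs X z v v' σ σ' e := iF_sw hR _ _ e
    rw [e1]
    rfl
  · rw [if_neg h', if_neg h']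
    exact TOT0_sw hR e

end sw

end Crest.Agent.R4P.LocX25
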