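import Crest.Agent.R4P.LocF_25
import Crest.Agent.R4P.LocD_25
import Crest.Agent.R4P.DscE_32

/-!
R4P (S0004), helper25, module D, group [X]: **the bounds of a crossing state, all cases with the same constants**.

* `ExLTT N K Kf` : the (leaf, tree) bound with excluded pairs, `p0` large (helper27);
* `ctx_XD` : general states, states with a dead left side, states with a dead right side.
-/

set_option autoImplicit false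
set_option linter.unusedSectionVars false
set_option linter.unusedVariables false
open Finset hiding dens

namespace Crest.Agent.R4P.LocX25

open Crest.Agent.R4.HVW560
open Crest.Agent.R4.Tour104 Crest.Agent.R4.Tour758 Crest.Agent.R4.Avg758 Crest.Agent.R4.Clos758
open Crest.Agent.R4.ClosL758 Crest.Agent.R4.ClosG758 Crest.Agent.R4.ClosR758
open Crest.Agent.R4.Fam464 Crest.Agent.R4P.Cnt588 Crest.Agent.R4P.Walk560 Crest.Agent.R4P.Item758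
open Crest.Agent.R4P.Bld532 (NS All NodeOk)
open Crest.Agent.R4P.Skel189 (Ctx top Kc)
open Crest.Agent.R4P.ParF5 Crest.Agent.R4P.NumX34
open Crest.Agent.R4P.Data758 Crest.Agent.R4.Piece464
open Crest.Agent.R4P.Step588 (CT CT_pos)
open Crest.Agent.R4P.ShrG28 Crest.Agent.R4P.YI25
open Crest.Agent.R4P.CrsFacts26 Crest.Agent.R4P.AsmX26
open Crest.Agent.R4P.VNum34 (US)
open Crest.Agent.R4P.CopM34 (Cop)
open Crest.Agent.R4P.WmfL25 (KL)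
open Crest.Agent.R4.Ovl560 (CM CM_pos)
open Crest.Agent.R4P.LeafOs30 (CLL)
open Crest.Agent.R4P.GSt927 Crest.Agent.R4P.NMW710 Crest.Agent.R4P.Strip29 Crest.Agent.R4P.XStart25
open Crest.Agent.R4P.CrossLoc25 (Dsc)
open Crest.Agent.R4.CrossLoc709 (SE)
open Crest.Agent.R4P

/-- **the (leaf, tree) bound with excluded pairs**, `p0` large -/
def ExLTT (N : Skel189.Num) (K Kf : ℝ) : Prop :=
  ∀ Ch : ℝ, ∃ B₀ KH Kt : ℝ, 0 ≤ B₀ ∧ 0 ≤ KH ∧ 0 ≤ Kt ∧ ∃ p₁ : ℕ, ∀ p0 ≥ p₁, ∀ (γ : ℝ) (P₀ : ℕ)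
    (X : Ctx N γ p0 P₀) (j₀ : X.c.Lam) (b : ℕ) (Qp : NS → IT → Prop), HC X Ch →
    QH X j₀ b Ch Qp → 2 ≤ b → LTT X j₀ Qp b B₀ K Kf KH Kt

variable {N : Skel189.Num} {th : ℕ → ℕ → ℝ} {Ct C₀ : ℝ}
  {Sx : ℕ → (ℕ → ℝ) → Finset ℕ → Finset ℕ}

/-- **THE BOUNDS OF THE CROSSING STATES** -/
theorem ctx_XD (h : NumOK N th Ct C₀ Sx) {K Kf : ℝ} (hK : 0 ≤ K) (hKf : 0 ≤ Kf)
    (hX : ExLTT N K Kf) : ∃ Ch : ℝ, 0 < Ch ∧ ∃ B₁ Kt : ℝ, 0 ≤ B₁ ∧ 0 ≤ Kt ∧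
    ∃ p₁ : ℕ, ∀ p0 ≥ p₁, RgTh th p0 → ∀ (γ : ℝ) (P₀ : ℕ), 2 ≤ P₀ → ∀ X : Ctx N γ p0 P₀,
      Fin5.CF X → (∀ j₀ : X.c.Lam, All (QX X j₀ Ch) ⟨top X.S, 1, 1, 1⟩ X.c.t) ∧
      ∀ (j₀ : X.c.Lam) (Q' : NS → IT → Prop), (∀ u τ, Q' u τ → QX X j₀ Ch u τ) →
      ∀ (b : ℕ) (z : X.Sta) (v v' : NS) (σ σ' : IT), CZ X j₀ Q' b z v v' σ σ' →
      z.R = Ro ((X.c.D.par X.Y).rho b) →
      ∑ l ∈ US z.M z.M' b, 1 / (l : ℝ) ≤ (b : ℝ) ^ (-(1 / 3) : ℝ) → Cop z →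
      (Xs (X.tm j₀) B₁ z ≤ PayV29.Vz z + ∑ e ∈ Ep (X.c.D.par X.Y) X.S' z σ σ',
        CzTot36.TOT X (QE X j₀ Q') (TX b) 3 2 b z v v' σ σ' e) ∧
      (Dd26.dd z.t → ¬ Dd26.dd z.t' → ∀ TW : ℕ × ℕ → Prop,
        (∀ e, TW e → Dsc (X.c.rr e.1) (X.c.rr e.2) (SE z.M v.B v.A z.M' v'.B v'.A e) ≤ 1 / 2) →
        Xs (X.tm j₀) B₁ z ≤ ∑ e ∈ Ep (X.c.D.par X.Y) X.S' z σ σ',
          payZ X (QE X j₀ Q') TW (TX b) (K + Kf) Kf Kt b z v v' σ σ' e) ∧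
      (Dd26.dd z.t' → ¬ Dd26.dd z.t → ∀ TW : ℕ × ℕ → Prop,
        (∀ e, TW e → Dsc (X.c.rr e.1) (X.c.rr e.2) (SE z.M v.B v.A z.M' v'.B v'.A e) ≤ 1 / 2) →
        Xs (X.tm j₀) B₁ z ≤ ∑ e ∈ Ep (X.c.D.par X.Y) X.S' z σ σ',
          payZ' X (QE X j₀ Q') TW (TX b) (K + Kf) Kf Kt b z v v' σ σ' e) := by
  classical
  obtain ⟨Ch, hCh, a1, h1⟩ := ctx_HC h
  obtain ⟨E, hE0, hE1, hE2⟩ := ctx_EH N (K := KHX) (c := 1 / 4)
    (le_max_of_le_left (by positivity)) (by norm_num)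
  obtain ⟨a2, h2⟩ := ctx_RHZ N
  obtain ⟨a3, h3⟩ := LeafS27.exists_LTB N Ch
  obtain ⟨B₀, KH, Kt, hB0', hKH, hKt, a4, h4⟩ := hX Ch
  obtain ⟨E', hE0', hE1', hE2'⟩ := ctx_EH N (K := KH) (c := 1 / 4) hKH (by norm_num)
  have hB0 : 0 ≤ BL Ch := le_trans (by have := LeafS27.C₀L_one (Ch := Ch); linarith) (le_max_left _ _)
  refine ⟨Ch, hCh, max (BL Ch + 2 * (4 * E)) (B₀ + Kf * (4 * E')), Kt,
    le_max_of_le_left (by positivity), hKt, a1 + a2 + a3 + a4 + 3,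
    fun p0 hp0 hth γ P₀ hP X hX => ?_⟩
  obtain ⟨hH, hr⟩ := h1 p0 (by omega) hth γ P₀ hP X hX
  refine ⟨hr, fun j₀ Q' hq b z v v' σ σ' hz hR hm hc => ?_⟩
  have hLT : LTB X j₀ (QZ X j₀ Q' b) (fun _ => True) b (BL Ch) 2 2 KHX :=
    h3 p0 (by omega) γ P₀ X j₀ b _ _ hH (QZ_QH hq) hz.bp.two_le _ _ _ _ (le_max_left _ _)
      le_rfl le_rfl (le_max_right _ _)
  have hLTT : LTT X j₀ (QZ X j₀ Q' b) b B₀ K Kf KH Kt :=
    h4 p0 (by omega) γ P₀ X j₀ b _ hH (QZ_QH hq) hz.bp.two_le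
  have hg : ∀ {v : NS} {σ : IT} {d : DT X.c.Lam (Lb (WL X.c.Lam) X.Y)} (A : Finset X.c.Lam),
      CS X j₀ Q' b v σ d → 0 ≤ X.tm j₀ d.g A := fun A hd =>
    Skel189.tM_nonneg X j₀ (CrossLoc25.SideI.okg hd.I) A
  have anti : ∀ {B : ℝ}, B ≤ max (BL Ch + 2 * (4 * E)) (B₀ + Kf * (4 * E')) →
      Xs (X.tm j₀) (max (BL Ch + 2 * (4 * E)) (B₀ + Kf * (4 * E'))) z ≤ Xs (X.tm j₀) B z :=
    fun hB => Xs_anti hB (hg z.A hz.L) (hg z.A' hz.R)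
  refine ⟨?_, fun hd hnd TW hTW => ?_, fun hd hnd TW hTW => ?_⟩
  · have key := ctx_cross_X (T := TX b) (E := E) hH (h2 p0 (by omega) γ P₀ X j₀ Ch Q' hq b) hq
      (RP := fun _ => True) (fun _ => trivial) hLT (by norm_num) (by norm_num) (le_max_left _ _)
      ((le_max_left _ _).trans (le_max_right _ _)) ((le_max_right _ _).trans (le_max_right _ _))
      hE1 (fun q hq' M hM => hE2 X (by omega) q hq' M hM) le_rfl hz hR hm hc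
    refine (anti (le_max_left _ _)).trans (key.trans (le_of_eq ?_))
    refine congrArg _ (Finset.sum_congr rfl fun e _ => ?_)
    norm_num
    rfl
  · exact (anti (le_max_right _ _)).trans (cross_D hq hLTT hK hKf hKt hKH hE1'
      (fun q hq' M hM => hE2' X (by omega) q hq' M hM) le_rfl hz hR hc TW hTW hd hnd)
  · exact (anti (le_max_right _ _)).trans (cross_D' hq hLTT hK hKf hKt hKH hE1'
      (fun q hq' M hM => hE2' X (by omega) q hq' M hM) le_rfl hz hR hc TW hTW hd hnd)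

end Crest.Agent.R4P.LocX25
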