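import Crest.Agent.R4P.LinkE_33
import Crest.Agent.R4P.MS800
import Crest.Agent.R4.OSCol710

/-!
R4P (S0004), helper33, group [X]: **twins at a dead crossing child, unique partners**.

* `EP_of_ESI` : an `[E]` pair in letters is an `EPair` for the averaged data (one partner per group);
* `xs_le_one` : `∑_{d ∣ M, d > 1} 1/d ≤ 1` for the moduli of a crossing state;
* `part_sum`, `tw_fix` : pairs `[E]` at the letters of the state cost at most `2 ∑ mass`;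
* `tw_abs`, `tw_exit` : pairs `[E]` at the letters of an exit `l` (weights `1/l`, `l` a missing tie of the right
  item) cost at most `K₁ sqrt (x y)`.
-/

set_option autoImplicit false
set_option linter.unusedSectionVars false
set_option linter.unusedVariables false

namespace Crest.Agent.R4P.TwX33

open Crest.Agent.R4.AvgItem710 (rf rf_pos)
open Crest.Agent.R4.GInst194 (EP rg_eq xs xs_nonneg)
open Crest.Agent.R4.OSCol710 (sum_inv_div)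
open Crest.Agent.R4.NMW710 (ESI)

/-! ### unique partners in the letters of a state -/

lemma EP_of_ESI {γ : ℝ} {ρ : ℕ → ℝ} {M b pr c M' b' pr' c' : ℕ} {e : ℕ × ℕ} (h : pr ∣ e.1) (h' : pr' ∣ e.2)
    (he : ESI γ ρ M b pr c M' b' pr' c' e) : EP (fun t => t ^ (1/20:ℝ)) γ ρ M b pr c M' b' pr' c' e := by
  obtain ⟨t, m, m', h1, h2⟩ := he
  refine ⟨t, m, m', ?_, ?_⟩
  · rw [rg_eq h, rg_eq h']
    exact h1
  · rw [rg_eq h, rg_eq h']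
    exact h2

theorem ESI_uniq {γ : ℝ} {ρ : ℕ → ℝ} {M b pr c M' b' pr' c' : ℕ} (hM' : 0 < M') {q r₁ r₂ : ℕ} (h : pr ∣ q)
    (h1 : pr' ∣ r₁) (h2 : pr' ∣ r₂) (e1 : ESI γ ρ M b pr c M' b' pr' c' (q, r₁))
    (e2 : ESI γ ρ M b pr c M' b' pr' c' (q, r₂)) (hr : rf (r₁ / pr') M' = rf (r₂ / pr') M') : r₁ = r₂ :=
  EP.uniq hM' h1 h2 (EP_of_ESI (e := (q, r₁)) h h1 e1) (EP_of_ESI (e := (q, r₂)) h h2 e2) hr

theorem ESI_uniq' {γ : ℝ} {ρ : ℕ → ℝ} {M b pr c M' b' pr' c' : ℕ} (hM : 0 < M) {q₁ q₂ r : ℕ} (h : pr' ∣ r)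
    (h1 : pr ∣ q₁) (h2 : pr ∣ q₂) (e1 : ESI γ ρ M b pr c M' b' pr' c' (q₁, r))
    (e2 : ESI γ ρ M b pr c M' b' pr' c' (q₂, r)) (hr : rf (q₁ / pr) M = rf (q₂ / pr) M) : q₁ = q₂ :=
  EP.uniq' hM h1 h2 (EP_of_ESI (e := (q₁, r)) h1 h e1) (EP_of_ESI (e := (q₂, r)) h2 h e2) hr

/-! ### moduli of a crossing state -/

/-- the moduli of a crossing state at `s` -/
theorem xs_le_one {s M : ℕ} (hs : 2 ^ 24 ≤ s) (hM : 0 < M)
    (hMs : ∀ l : ℕ, l.Prime → l ∣ M → l ≠ s → s ≤ l)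
    (h : ∑ l ∈ M.primeFactors.erase s, (l:ℝ)^(-(11/12):ℝ) ≤ 1) : xs M ≤ 1 := by
  classical
  have s0 : (0:ℝ) < s := by
    have : 0 < s := lt_of_lt_of_le (by norm_num) hs
    exact_mod_cast this
  have hsr : ((2:ℝ) ^ 24) ≤ s := by exact_mod_cast hs
  have h12 : (s:ℝ)^(-(1/12):ℝ) ≤ 1/4 := by
    have h1 : ((2:ℝ) ^ 24) ^ (1/12:ℝ) ≤ (s:ℝ)^(1/12:ℝ) := Real.rpow_le_rpow (by positivity) hsr (by norm_num)
    have h2 : ((2:ℝ) ^ 24) ^ (1/12:ℝ) = 4 := by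
      rw [← Real.rpow_natCast, ← Real.rpow_mul (by norm_num)]
      norm_num
    rw [h2] at h1
    rw [Real.rpow_neg s0.le, ← one_div]
    exact one_div_le_one_div_of_le (by norm_num) h1
  have h3 : ∑ l ∈ M.primeFactors.erase s, (1:ℝ) / l ≤ 1/4 := by
    calc ∑ l ∈ M.primeFactors.erase s, (1:ℝ) / l
        ≤ ∑ l ∈ M.primeFactors.erase s, 1/4 * (l:ℝ)^(-(11/12):ℝ) := by
          refine Finset.sum_le_sum fun l hl => ?_
          obtain ⟨l1, l2⟩ := Finset.mem_erase.1 hl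
          have lp := Nat.prime_of_mem_primeFactors l2
          have hls := hMs l lp (Nat.dvd_of_mem_primeFactors l2) l1
          have l0 : (0:ℝ) < l := by exact_mod_cast lp.pos
          have e : (1:ℝ) / l = (l:ℝ)^(-(1/12):ℝ) * (l:ℝ)^(-(11/12):ℝ) := by
            rw [← Real.rpow_add l0, show (-(1/12:ℝ)) + (-(11/12)) = -1 by norm_num, Real.rpow_neg_one, one_div]
          rw [e]
          refine mul_le_mul_of_nonneg_right (le_trans ?_ h12) (by positivity)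
          exact Real.rpow_le_rpow_of_nonpos s0 (by exact_mod_cast hls) (by norm_num)
      _ = 1/4 * ∑ l ∈ M.primeFactors.erase s, (l:ℝ)^(-(11/12):ℝ) := by rw [Finset.mul_sum]
      _ ≤ 1/4 * 1 := mul_le_mul_of_nonneg_left h (by norm_num)
      _ = 1/4 := by norm_num
  have h4 : ∑ l ∈ M.primeFactors, (1:ℝ) / l ≤ 1/2 := by
    by_cases hm : s ∈ M.primeFactors
    · rw [← Finset.add_sum_erase _ _ hm]
      have : (1:ℝ) / s ≤ 1/4 := one_div_le_one_div_of_le (by norm_num) (le_trans (by norm_num) hsr)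
      linarith
    · rw [Finset.erase_eq_of_notMem hm] at h3
      linarith
  have h5 := Crest.Agent.R4P.GSt927.xs_le hM h4
  linarith

/-! ### one partner per group -/

/-- one partner per group: `∑ a q / d ≤ (∑ 1/d) ∑ a` -/
theorem part_sum {V : Finset ℕ} {P : Finset (ℕ × ℕ)} {a : ℕ → ℝ} {m' : ℕ → ℕ} {N' : ℕ} (hN' : 0 < N')
    (hP : ∀ e ∈ P, e.1 ∈ V ∧ m' e.2 ∣ N') (ha : ∀ q ∈ V, 0 ≤ a q)
    (u1 : ∀ q r₁ r₂, (q, r₁) ∈ P → (q, r₂) ∈ P → m' r₁ = m' r₂ → r₁ = r₂) :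
    ∑ e ∈ P, a e.1 / (m' e.2 : ℝ) ≤ (1 + xs N') * ∑ q ∈ V, a q := by
  classical
  have hinj : Set.InjOn (fun e : ℕ × ℕ => (e.1, m' e.2)) (P : Set (ℕ × ℕ)) := by
    intro x hx y hy hxy
    obtain ⟨x1, x2⟩ := x
    obtain ⟨y1, y2⟩ := y
    simp only [Prod.mk.injEq] at hxy
    obtain ⟨h1, h2⟩ := hxy
    subst h1
    exact Prod.ext rfl (u1 _ _ _ hx hy h2)
  calc ∑ e ∈ P, a e.1 / (m' e.2 : ℝ) = ∑ z ∈ P.image (fun e : ℕ × ℕ => (e.1, m' e.2)), a z.1 / (z.2 : ℝ) :=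
        (Finset.sum_image (f := fun z : ℕ × ℕ => a z.1 / (z.2 : ℝ)) hinj).symm
    _ ≤ ∑ z ∈ V ×ˢ N'.divisors, a z.1 / (z.2 : ℝ) := by
        refine Finset.sum_le_sum_of_subset_of_nonneg (fun z hz => ?_) fun z hz _ => ?_
        · obtain ⟨e, he, rfl⟩ := Finset.mem_image.1 hz
          obtain ⟨k1, k2⟩ := hP e he
          exact Finset.mem_product.2 ⟨k1, Nat.mem_divisors.2 ⟨k2, hN'.ne'⟩⟩
        · exact div_nonneg (ha _ (Finset.mem_product.1 hz).1) (Nat.cast_nonneg _)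
    _ = (1 + xs N') * ∑ q ∈ V, a q := by
        rw [Finset.sum_product, ← sum_inv_div hN', Finset.mul_sum]
        refine Finset.sum_congr rfl fun q _ => ?_
        rw [Finset.sum_mul]
        exact Finset.sum_congr rfl fun d _ => by ring

/-- mirror image -/
theorem part_sum' {W : Finset ℕ} {P : Finset (ℕ × ℕ)} {a' : ℕ → ℝ} {m : ℕ → ℕ} {N : ℕ} (hN : 0 < N)
    (hP : ∀ e ∈ P, e.2 ∈ W ∧ m e.1 ∣ N) (ha' : ∀ r ∈ W, 0 ≤ a' r)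
    (u2 : ∀ q₁ q₂ r, (q₁, r) ∈ P → (q₂, r) ∈ P → m q₁ = m q₂ → q₁ = q₂) :
    ∑ e ∈ P, a' e.2 / (m e.1 : ℝ) ≤ (1 + xs N) * ∑ r ∈ W, a' r := by
  classical
  have key := part_sum (V := W) (P := P.image Prod.swap) (a := a') (m' := m) hN (fun e he => ?_) ha'
    fun r q₁ q₂ k1 k2 k3 => ?_
  · rw [Finset.sum_image (Prod.swap_injective.injOn)] at key
    simpa using key
  · obtain ⟨x, hx, rfl⟩ := Finset.mem_image.1 he
    exact hP x hx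
  · obtain ⟨x, hx, hx'⟩ := Finset.mem_image.1 k1
    obtain ⟨y, hy, hy'⟩ := Finset.mem_image.1 k2
    have ex : x = (q₁, r) := by rw [← Prod.swap_swap x, hx']; rfl
    have ey : y = (q₂, r) := by rw [← Prod.swap_swap y, hy']; rfl
    subst ex ey
    exact u2 _ _ _ hx hy k3

/-- the constant of the exits -/
noncomputable def Kz : ℝ := ∑' n : ℕ, (n:ℝ)^(-(13/12):ℝ)

lemma Kz_sum : Summable fun n : ℕ => (n:ℝ)^(-(13/12):ℝ) := Real.summable_nat_rpow.2 (by norm_num)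

lemma Kz_le (T : Finset ℕ) : ∑ l ∈ T, (l:ℝ)^(-(13/12):ℝ) ≤ Kz :=
  Kz_sum.sum_le_tsum T fun n _ => by positivity

lemma Kz_ge : 1 ≤ Kz := by
  have h := Kz_le {1}
  simpa using h

/-- **exits with unique partners**, abstract form: weights `1/l`, `l` a missing tie of the right item -/
theorem tw_abs {V W : Finset ℕ} (T : Finset ℕ) (P : ℕ → Finset (ℕ × ℕ)) (f : ℕ → ℕ × ℕ → ℝ)
    (a a' : ℕ → ℝ) (m m' : ℕ → ℕ) (mt : ℕ → Finset ℕ) {N N' : ℕ} (hN : 0 < N) (hN' : 0 < N')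
    (hx : xs N ≤ 1) (hx' : xs N' ≤ 1) (hT : ∀ l ∈ T, 0 < l)
    (hP : ∀ l ∈ T, ∀ e ∈ P l, e.1 ∈ V ∧ e.2 ∈ W ∧ l ∈ mt e.2 ∧ m e.1 ∣ N ∧ m' e.2 ∣ N')
    (ha : ∀ q ∈ V, 0 ≤ a q) (ha' : ∀ r ∈ W, 0 ≤ a' r)
    (hf : ∀ l ∈ T, ∀ e ∈ P l, f l e ≤ 1 / (l:ℝ) * (a e.1 / (m' e.2 : ℝ)))
    (hf' : ∀ l ∈ T, ∀ e ∈ P l, f l e ≤ 1 / (l:ℝ) * (a' e.2 / (m e.1 : ℝ)))
    (hmt : ∀ r ∈ W, ∑ l ∈ T.filter (fun l => l ∈ mt r), (l:ℝ)^(-(11/12):ℝ) ≤ 1)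
    (u1 : ∀ l ∈ T, ∀ q r₁ r₂, (q, r₁) ∈ P l → (q, r₂) ∈ P l → m' r₁ = m' r₂ → r₁ = r₂)
    (u2 : ∀ l ∈ T, ∀ q₁ q₂ r, (q₁, r) ∈ P l → (q₂, r) ∈ P l → m q₁ = m q₂ → q₁ = q₂) :
    ∑ l ∈ T, ∑ e ∈ P l, f l e ≤ 2 * Kz * ((∑ q ∈ V, a q) * ∑ r ∈ W, a' r) ^ (1/2:ℝ) := by
  classical
  set x := ∑ q ∈ V, a q with hxd
  set y := ∑ r ∈ W, a' r with hyd
  have x0 : 0 ≤ x := Finset.sum_nonneg ha
  have y0 : 0 ≤ y := Finset.sum_nonneg ha'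
  set Y : ℕ → ℝ := fun l => ∑ r ∈ W.filter (fun r => l ∈ mt r), a' r with hY
  have Y0 : ∀ l, 0 ≤ Y l := fun l => Finset.sum_nonneg fun r hr => ha' r (Finset.mem_filter.1 hr).1
  have step : ∀ l ∈ T, ∑ e ∈ P l, f l e ≤ 2 * (Real.sqrt (x * (l:ℝ)^(-(13/12):ℝ)) * Real.sqrt ((l:ℝ)^(-(11/12):ℝ) * Y l)) := by
    intro l hl
    have l0 : (0:ℝ) < l := by exact_mod_cast hT l hl
    have n1 : ∀ e ∈ P l, 0 ≤ a e.1 / (m' e.2 : ℝ) := fun e he =>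
      div_nonneg (ha _ (hP l hl e he).1) (Nat.cast_nonneg _)
    have n2 : ∀ e ∈ P l, 0 ≤ a' e.2 / (m e.1 : ℝ) := fun e he =>
      div_nonneg (ha' _ (hP l hl e he).2.1) (Nat.cast_nonneg _)
    have s1 : ∑ e ∈ P l, a e.1 / (m' e.2 : ℝ) ≤ 2 * x := by
      refine (part_sum hN' (fun e he => ⟨(hP l hl e he).1, (hP l hl e he).2.2.2.2⟩) ha (u1 l hl)).trans ?_
      exact mul_le_mul_of_nonneg_right (by linarith) x0
    have s2 : ∑ e ∈ P l, a' e.2 / (m e.1 : ℝ) ≤ 2 * Y l := by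
      refine (part_sum' (W := W.filter (fun r => l ∈ mt r)) hN (fun e he =>
        ⟨Finset.mem_filter.2 ⟨(hP l hl e he).2.1, (hP l hl e he).2.2.1⟩, (hP l hl e he).2.2.2.1⟩)
        (fun r hr => ha' r (Finset.mem_filter.1 hr).1) (u2 l hl)).trans ?_
      exact mul_le_mul_of_nonneg_right (by linarith) (Y0 l)
    have t1 : ∀ e ∈ P l, f l e ≤ 1 / (l:ℝ) * (Real.sqrt (a e.1 / (m' e.2 : ℝ)) * Real.sqrt (a' e.2 / (m e.1 : ℝ))) := by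
      intro e he
      set A := a e.1 / (m' e.2 : ℝ) with hA
      set B := a' e.2 / (m e.1 : ℝ) with hB
      have A0 : 0 ≤ A := n1 e he
      have B0 : 0 ≤ B := n2 e he
      have q1 : min A B ≤ Real.sqrt A * Real.sqrt B := by
        rcases le_total A B with h | h
        · rw [min_eq_left h]
          calc A = Real.sqrt A * Real.sqrt A := (Real.mul_self_sqrt A0).symm
            _ ≤ Real.sqrt A * Real.sqrt B := mul_le_mul_of_nonneg_left (Real.sqrt_le_sqrt h) (Real.sqrt_nonneg _)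
        · rw [min_eq_right h]
          calc B = Real.sqrt B * Real.sqrt B := (Real.mul_self_sqrt B0).symm
            _ ≤ Real.sqrt A * Real.sqrt B := mul_le_mul_of_nonneg_right (Real.sqrt_le_sqrt h) (Real.sqrt_nonneg _)
      refine le_trans ?_ (mul_le_mul_of_nonneg_left q1 (by positivity))
      rcases le_total A B with h | h
      · rw [min_eq_left h]; exact hf l hl e he
      · rw [min_eq_right h]; exact hf' l hl e he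
    have t2 : ∑ e ∈ P l, Real.sqrt (a e.1 / (m' e.2 : ℝ)) * Real.sqrt (a' e.2 / (m e.1 : ℝ)) ≤
        Real.sqrt (2 * x) * Real.sqrt (2 * Y l) := by
      have cs : ∑ e ∈ P l, Real.sqrt (a e.1 / (m' e.2 : ℝ)) * Real.sqrt (a' e.2 / (m e.1 : ℝ)) ≤
          Real.sqrt (∑ e ∈ P l, a e.1 / (m' e.2 : ℝ)) * Real.sqrt (∑ e ∈ P l, a' e.2 / (m e.1 : ℝ)) := by
        have h := Finset.sum_mul_sq_le_sq_mul_sq (P l) (fun e => Real.sqrt (a e.1 / (m' e.2 : ℝ)))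
          (fun e => Real.sqrt (a' e.2 / (m e.1 : ℝ)))
        have e1 : ∑ e ∈ P l, Real.sqrt (a e.1 / (m' e.2 : ℝ)) ^ 2 = ∑ e ∈ P l, a e.1 / (m' e.2 : ℝ) :=
          Finset.sum_congr rfl fun e he => Real.sq_sqrt (n1 e he)
        have e2 : ∑ e ∈ P l, Real.sqrt (a' e.2 / (m e.1 : ℝ)) ^ 2 = ∑ e ∈ P l, a' e.2 / (m e.1 : ℝ) :=
          Finset.sum_congr rfl fun e he => Real.sq_sqrt (n2 e he)
        rw [e1, e2] at h
        rw [← Real.sqrt_mul (Finset.sum_nonneg n1)]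
        exact Real.le_sqrt_of_sq_le h
      exact cs.trans (mul_le_mul (Real.sqrt_le_sqrt s1) (Real.sqrt_le_sqrt s2) (Real.sqrt_nonneg _) (Real.sqrt_nonneg _))
    calc ∑ e ∈ P l, f l e ≤ ∑ e ∈ P l, 1 / (l:ℝ) * (Real.sqrt (a e.1 / (m' e.2 : ℝ)) * Real.sqrt (a' e.2 / (m e.1 : ℝ))) :=
          Finset.sum_le_sum t1
      _ = 1 / (l:ℝ) * ∑ e ∈ P l, Real.sqrt (a e.1 / (m' e.2 : ℝ)) * Real.sqrt (a' e.2 / (m e.1 : ℝ)) := by
          rw [Finset.mul_sum]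
      _ ≤ 1 / (l:ℝ) * (Real.sqrt (2 * x) * Real.sqrt (2 * Y l)) := mul_le_mul_of_nonneg_left t2 (by positivity)
      _ = 2 * (Real.sqrt (x * (l:ℝ)^(-(13/12):ℝ)) * Real.sqrt ((l:ℝ)^(-(11/12):ℝ) * Y l)) := by
          have p1 : (0:ℝ) ≤ (l:ℝ)^(-(13/12):ℝ) := by positivity
          have p2 : (0:ℝ) ≤ (l:ℝ)^(-(11/12):ℝ) := by positivity
          have e3 : Real.sqrt ((l:ℝ)^(-(13/12):ℝ)) * Real.sqrt ((l:ℝ)^(-(11/12):ℝ)) = 1 / l := by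
            rw [← Real.sqrt_mul p1, ← Real.rpow_add l0, show (-(13/12:ℝ)) + (-(11/12)) = -2 by norm_num]
            have : (l:ℝ)^(-2:ℝ) = (1 / (l:ℝ)) ^ 2 := by
              rw [Real.rpow_neg l0.le, one_div, inv_pow]
              norm_num
            rw [this, Real.sqrt_sq (by positivity)]
          rw [Real.sqrt_mul x0, Real.sqrt_mul p2, Real.sqrt_mul (by norm_num : (0:ℝ) ≤ 2) x,
            Real.sqrt_mul (by norm_num : (0:ℝ) ≤ 2) (Y l), ← e3]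
          have e4 : Real.sqrt 2 * Real.sqrt 2 = 2 := Real.mul_self_sqrt (by norm_num)
          linear_combination (Real.sqrt ((l:ℝ)^(-(13/12):ℝ)) * Real.sqrt ((l:ℝ)^(-(11/12):ℝ)) * Real.sqrt x * Real.sqrt (Y l)) * e4
  have c1 : ∑ l ∈ T, x * (l:ℝ)^(-(13/12):ℝ) ≤ Kz * x := by
    rw [← Finset.mul_sum, mul_comm Kz]
    exact mul_le_mul_of_nonneg_left (Kz_le T) x0
  have c2 : ∑ l ∈ T, (l:ℝ)^(-(11/12):ℝ) * Y l ≤ y := by
    have e5 : ∀ l ∈ T, (l:ℝ)^(-(11/12):ℝ) * Y l = ∑ r ∈ W, if l ∈ mt r then (l:ℝ)^(-(11/12):ℝ) * a' r else 0 := by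
      intro l _
      rw [hY]
      simp only
      rw [Finset.mul_sum, Finset.sum_filter]
    rw [Finset.sum_congr rfl e5, Finset.sum_comm]
    refine Finset.sum_le_sum fun r hr => ?_
    rw [← Finset.sum_filter, ← Finset.sum_mul]
    calc _ ≤ 1 * a' r := mul_le_mul_of_nonneg_right (hmt r hr) (ha' r hr)
      _ = a' r := one_mul _
  have cs2 : ∑ l ∈ T, Real.sqrt (x * (l:ℝ)^(-(13/12):ℝ)) * Real.sqrt ((l:ℝ)^(-(11/12):ℝ) * Y l) ≤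
      Real.sqrt (Kz * x * y) := by
    have n1 : ∀ l ∈ T, 0 ≤ x * (l:ℝ)^(-(13/12):ℝ) := fun l _ => by positivity
    have n2 : ∀ l ∈ T, 0 ≤ (l:ℝ)^(-(11/12):ℝ) * Y l := fun l _ => mul_nonneg (by positivity) (Y0 l)
    have h := Finset.sum_mul_sq_le_sq_mul_sq T (fun l => Real.sqrt (x * (l:ℝ)^(-(13/12):ℝ)))
      (fun l => Real.sqrt ((l:ℝ)^(-(11/12):ℝ) * Y l))
    have e1 : ∑ l ∈ T, Real.sqrt (x * (l:ℝ)^(-(13/12):ℝ)) ^ 2 = ∑ l ∈ T, x * (l:ℝ)^(-(13/12):ℝ) :=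
      Finset.sum_congr rfl fun l hl => Real.sq_sqrt (n1 l hl)
    have e2 : ∑ l ∈ T, Real.sqrt ((l:ℝ)^(-(11/12):ℝ) * Y l) ^ 2 = ∑ l ∈ T, (l:ℝ)^(-(11/12):ℝ) * Y l :=
      Finset.sum_congr rfl fun l hl => Real.sq_sqrt (n2 l hl)
    rw [e1, e2] at h
    refine Real.le_sqrt_of_sq_le (h.trans ?_)
    exact mul_le_mul c1 c2 (Finset.sum_nonneg n2) (mul_nonneg (by linarith [Kz_ge]) x0)
  calc ∑ l ∈ T, ∑ e ∈ P l, f l e
      ≤ ∑ l ∈ T, 2 * (Real.sqrt (x * (l:ℝ)^(-(13/12):ℝ)) * Real.sqrt ((l:ℝ)^(-(11/12):ℝ) * Y l)) :=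
        Finset.sum_le_sum step
    _ = 2 * ∑ l ∈ T, Real.sqrt (x * (l:ℝ)^(-(13/12):ℝ)) * Real.sqrt ((l:ℝ)^(-(11/12):ℝ) * Y l) := by
        rw [Finset.mul_sum]
    _ ≤ 2 * Real.sqrt (Kz * x * y) := mul_le_mul_of_nonneg_left cs2 (by norm_num)
    _ = 2 * (Real.sqrt Kz * (x * y) ^ (1/2:ℝ)) := by
        rw [mul_assoc Kz, Real.sqrt_mul (by linarith [Kz_ge]), Real.sqrt_eq_rpow (x * y)]
    _ ≤ 2 * (Kz * (x * y) ^ (1/2:ℝ)) := by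
        have h1 : Real.sqrt Kz ≤ Kz := by
          rw [Real.sqrt_le_left (by linarith [Kz_ge])]
          nlinarith [Kz_ge]
        have h2 : 0 ≤ (x * y) ^ (1/2:ℝ) := Real.rpow_nonneg (mul_nonneg x0 y0) _
        nlinarith [mul_le_mul_of_nonneg_right h1 h2]
    _ = _ := by ring

/-! ### in the letters of a state -/

section letters
variable {γ : ℝ} {ρ : ℕ → ℝ} {M b pr c M' b' pr' c' : ℕ} {V W : Finset ℕ} {a a' : ℕ → ℝ}

/-- **pairs `[E]` at the letters of the state** (left masses) -/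
theorem tw_left (hM : 0 < M) (hM' : 0 < M') (hx' : xs M' ≤ 1) {P : Finset (ℕ × ℕ)} {f : ℕ × ℕ → ℝ}
    (hV : ∀ q ∈ V, pr ∣ q ∧ 0 ≤ a q) (hP : ∀ e ∈ P, e.1 ∈ V ∧ pr' ∣ e.2)
    (hE : ∀ e ∈ P, ESI γ ρ M b pr c M' b' pr' c' e)
    (hf : ∀ e ∈ P, f e ≤ a e.1 / (rf (e.2 / pr') M' : ℝ)) :
    ∑ e ∈ P, f e ≤ 2 * ∑ q ∈ V, a q := by
  have h0 : 0 ≤ ∑ q ∈ V, a q := Finset.sum_nonneg fun q hq => (hV q hq).2
  refine (Finset.sum_le_sum hf).trans ((part_sum (m' := fun r => rf (r / pr') M') hM'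
    (fun e he => ⟨(hP e he).1, Crest.Agent.R4P.GSt927.rf_dvd⟩) (fun q hq => (hV q hq).2) ?_).trans
    (mul_le_mul_of_nonneg_right (by linarith) h0))
  intro q r₁ r₂ k1 k2 k3
  exact ESI_uniq hM' (hV q (hP _ k1).1).1 (hP _ k1).2 (hP _ k2).2 (hE _ k1) (hE _ k2) k3

/-- **pairs `[E]` at the letters of the state** (right masses) -/
theorem tw_right (hM : 0 < M) (hM' : 0 < M') (hx : xs M ≤ 1) {P : Finset (ℕ × ℕ)} {f : ℕ × ℕ → ℝ}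
    (hW : ∀ r ∈ W, pr' ∣ r ∧ 0 ≤ a' r) (hP : ∀ e ∈ P, e.2 ∈ W ∧ pr ∣ e.1)
    (hE : ∀ e ∈ P, ESI γ ρ M b pr c M' b' pr' c' e)
    (hf : ∀ e ∈ P, f e ≤ a' e.2 / (rf (e.1 / pr) M : ℝ)) :
    ∑ e ∈ P, f e ≤ 2 * ∑ r ∈ W, a' r := by
  have h0 : 0 ≤ ∑ r ∈ W, a' r := Finset.sum_nonneg fun q hq => (hW q hq).2
  refine (Finset.sum_le_sum hf).trans ((part_sum' (m := fun q => rf (q / pr) M) hM
    (fun e he => ⟨(hP e he).1, Crest.Agent.R4P.GSt927.rf_dvd⟩) (fun q hq => (hW q hq).2) ?_).trans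
    (mul_le_mul_of_nonneg_right (by linarith) h0))
  intro q₁ q₂ r k1 k2 k3
  exact ESI_uniq' hM (hW r (hP _ k1).1).1 (hP _ k1).2 (hP _ k2).2 (hE _ k1) (hE _ k2) k3

/-- **pairs `[E]` at the letters of the exits** `l ∈ T`, `l` a missing tie of the right item -/
theorem tw_exit (hM : 0 < M) (hM' : 0 < M') (hx : xs M ≤ 1) (hx' : xs M' ≤ 1) (T : Finset ℕ)
    (P : ℕ → Finset (ℕ × ℕ)) (f : ℕ → ℕ × ℕ → ℝ) (mt : ℕ → Finset ℕ) (hT : ∀ l ∈ T, 0 < l)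
    (hV : ∀ q ∈ V, pr ∣ q ∧ 0 ≤ a q) (hW : ∀ r ∈ W, pr' ∣ r ∧ 0 ≤ a' r)
    (hP : ∀ l ∈ T, ∀ e ∈ P l, e.1 ∈ V ∧ e.2 ∈ W ∧ l ∈ mt e.2)
    (hE : ∀ l ∈ T, ∀ e ∈ P l, ESI γ ρ M (b * l) pr c M' (b' * l) pr' c' e)
    (hf : ∀ l ∈ T, ∀ e ∈ P l, f l e ≤ 1 / (l:ℝ) * (a e.1 / (rf (e.2 / pr') M' : ℝ)))
    (hf' : ∀ l ∈ T, ∀ e ∈ P l, f l e ≤ 1 / (l:ℝ) * (a' e.2 / (rf (e.1 / pr) M : ℝ)))
    (hmt : ∀ r ∈ W, ∑ l ∈ T.filter (fun l => l ∈ mt r), (l:ℝ)^(-(11/12):ℝ) ≤ 1) :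
    ∑ l ∈ T, ∑ e ∈ P l, f l e ≤ 2 * Kz * ((∑ q ∈ V, a q) * ∑ r ∈ W, a' r) ^ (1/2:ℝ) := by
  refine tw_abs T P f a a' (fun q => rf (q / pr) M) (fun r => rf (r / pr') M') mt hM hM' hx hx' hT
    (fun l hl e he => ?_) (fun q hq => (hV q hq).2) (fun r hr => (hW r hr).2) hf hf' hmt
    (fun l hl q r₁ r₂ k1 k2 k3 => ?_) fun l hl q₁ q₂ r k1 k2 k3 => ?_
  · obtain ⟨h1, h2, h3⟩ := hP l hl e he
    exact ⟨h1, h2, h3, Crest.Agent.R4P.GSt927.rf_dvd, Crest.Agent.R4P.GSt927.rf_dvd⟩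
  · exact ESI_uniq hM' (hV q (hP l hl _ k1).1).1 (hW _ (hP l hl _ k1).2.1).1 (hW _ (hP l hl _ k2).2.1).1
      (hE l hl _ k1) (hE l hl _ k2) k3
  · exact ESI_uniq' hM (hW r (hP l hl _ k1).2.1).1 (hV _ (hP l hl _ k1).1).1 (hV _ (hP l hl _ k2).1).1
      (hE l hl _ k1) (hE l hl _ k2) k3

end letters

end Crest.Agent.R4P.TwX33
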