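import Crest.Agent.R4P.CzCO_36
import Crest.Agent.R4P.LocG_25
import Crest.Agent.R4P.TwX_33
import Crest.Agent.R4P.EqLeaf_26

/-!
R4P (S0004), helper36, group [X]: **the class numbers of a crossing state with a dead side**.

* `tot0_le` : the value of a pair without exits; `cz_p` : the column of the walk is at most `b`;
* `EE` : the related pairs of class `[E]` with the same exponent; `cz_tw`, `cz_min` : sums over them;
* `TWL`, `TWR` : the excluded pairs; `cz_DL`, `cz_DR` : `CO`, `CW`, `CE2` for the payments `payZ`, `payZ'`.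
-/

set_option autoImplicit false
set_option linter.unusedSectionVars false
set_option linter.unusedVariables false
open Finset

namespace Crest.Agent.R4P.CzE36

open Crest.Agent.R4.Tour104 Crest.Agent.R4.Tour758 Crest.Agent.R4.Avg758 Crest.Agent.R4.Clos758
open Crest.Agent.R4.ClosL758 Crest.Agent.R4.ClosG758 Crest.Agent.R4.ClosR758
open Crest.Agent.R4.Fam464 Crest.Agent.R4P.Cnt588 Crest.Agent.R4P.Walk560 Crest.Agent.R4.Piece464
open Crest.Agent.R4P.Item758 Crest.Agent.R4P.AvgItem710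
open Crest.Agent.R4P.Data758 Crest.Agent.R4P.WalkIT579
open Crest.Agent.R4P.Bld532 (NS All NodeOk Bk)
open Crest.Agent.R4P.Res927 Crest.Agent.R4P.GSt927
open Crest.Agent.R4P.Skel189 (Ctx top Part PartW)
open Crest.Agent.R4.Soft104
open Crest.Agent.R4P.CrsFacts26 Crest.Agent.R4P.AsmX26
open Crest.Agent.R4P.StratN36 (ex)
open Crest.Agent.R4.AvgItem710 (rf)
open Crest.Agent.R4P.LLTot33 (xR yR)
open Crest.Agent.R4.CrossShot709 (lev)
open Crest.Agent.R4P.NumCls32 Crest.Agent.R4P.StripP33 Crest.Agent.R4P.ShotP33 Crest.Agent.R4P.BrP33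
open Crest.Agent.R4P.ShotTot33 (fe mc)
open Crest.Agent.R4.DeepSt579 (tq tq_nonneg tq_mono rd)
open Crest.Agent.R4P.ClsCtx36 Crest.Agent.R4P.PotSum32 Crest.Agent.R4P.ClsSh36 Crest.Agent.R4P.TotC36
open Crest.Agent.R4P.CrossLoc25 (FL VxL VcL FL_nonneg VxL_nonneg VcL_nonneg)
open Crest.Agent.R4P.SameIx30 (Vm VU VU_nonneg)
open Crest.Agent.R4P.NumTot33
open Crest.Agent.R4P.StopLeaf28 (LoSt)
open Crest.Agent.R4.CrossLoc709 (SE)
open Crest.Agent.R4.NMW710 (Dq ESI)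
open Crest.Agent.R4P.LinkC33
open Crest.Agent.R4P.IvX29 (LkG)
open Crest.Agent.R4P.Link758 (MF)
open Crest.Agent.R4.ClsS (eps1)
open Crest.Agent.R4.ShotG223 (eps2 acc acc_nonneg)
open Crest.Agent.R4P.AccAl31 (alX)
open Crest.Agent.R4P.ShotBig33 (BoxB CO_self)
open Crest.Agent.R4P.EqNum32
open Crest.Agent.R4P.ShotEq32 (ESs)
open Crest.Agent.R4P.KindPay36 (CO CW)
open Crest.Agent.R4P.KindTab36 (cm)
open Crest.Agent.R4P.EqLeaf26 (CE2)
open Crest.Agent.R4P.CzSum36 Crest.Agent.R4P.CzTot36 Crest.Agent.R4P.CzCO36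
open Crest.Agent.R4P.YI25 (pot potS Ep)
open Crest.Agent.R4P.ShrW34 (PhiM cf fut mb cf_le_one)
open Crest.Agent.R4P.ParF5 (rg)
open Crest.Agent.R4P.LocX25 (TOT0 payZ payZ' iFs)
open Crest.Agent.R4.HVW560 (dst)
open Crest.Agent.R4P

section ctx
variable {N : Skel189.Num} {γ : ℝ} {p0 P₀ : ℕ} {X : Ctx N γ p0 P₀} {j₀ : X.c.Lam} {Q' : NS → IT → Prop}
  {b : ℕ} {z : X.Sta} {v v' : NS} {σ σ' : IT} {Qp : NS → IT → Prop} {CL : ℝ}

/-- the column of the walk at a crossing state -/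
lemma cz_p (h : CZ X j₀ Q' b z v v' σ σ') : z.p ≤ b :=
  max_le (XStop25.CS_top h.L) (XStop25.CS_top h.R)

/-- the constant of `tot_le` -/
noncomputable def KAx (K1 K2 n : ℝ) (b : ℕ) : ℝ := K1 * (1 + 4 * n) + K2 * (1 + 2 * n + Real.log b)

lemma KAx_nonneg {K1 K2 n : ℝ} (hK1 : 0 ≤ K1) (hK2 : 0 ≤ K2) (hn : 0 ≤ n) (b : ℕ) : 0 ≤ KAx K1 K2 n b := by
  have := Real.log_natCast_nonneg b
  unfold KAx
  positivity

/-- size of the constant -/
lemma KAx_le {K1 K2 C : ℝ} (hK1 : 0 ≤ K1) (hK2 : 0 ≤ K2) (hC : 1 ≤ C) {b : ℕ}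
    (hb : 5 * K1 + 4 * K2 ≤ Real.log b) (hb1 : 1 ≤ Real.log b) :
    KAx K1 K2 ((Real.log b)^C) b ≤ (Real.log b)^(C+1) := by
  set L := Real.log b with hL
  have hL0 : 0 < L := by linarith
  have h1 : L ≤ L^C := by
    calc L = L^(1:ℝ) := (Real.rpow_one L).symm
      _ ≤ L^C := Real.rpow_le_rpow_of_exponent_le hb1 hC
  have h2 : 1 ≤ L^C := hb1.trans h1
  have h3 : L^(C+1) = L^C * L := by rw [Real.rpow_add hL0, Real.rpow_one]
  unfold KAx
  rw [h3]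
  have h4 : K1 * (1 + 4 * L^C) ≤ 5 * K1 * L^C := by nlinarith
  have h5 : K2 * (1 + 2 * L^C + L) ≤ 4 * K2 * L^C := by nlinarith
  calc _ ≤ 5 * K1 * L^C + 4 * K2 * L^C := add_le_add h4 h5
    _ = L^C * (5 * K1 + 4 * K2) := by ring
    _ ≤ _ := mul_le_mul_of_nonneg_left hb (by positivity)

open Classical in
/-- **the value of a pair without exits** -/
theorem tot0_le (h : CZ X j₀ Q' b z v v' σ σ') (hρ : ∀ q, 0 < X.c.rr q) {T K1 K2 n : ℝ} (hK1 : 0 ≤ K1)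
    (hK2 : 0 ≤ K2) {e : ℕ × ℕ} (he : e ∈ SI X σ.items ×ˢ SI X σ'.items)
    (hn : ∀ q ∈ X.S', (((X.c.t.mt q).filter (· ≤ b)).card : ℝ) ≤ n) :
    TOT0 X Qp T K1 K2 b z v v' σ σ' e ≤ KAx K1 K2 n b * ((v.B:ℝ) * v'.B * Uz X Qp T b z v v' e) := by
  obtain ⟨h1, h2⟩ := Finset.mem_product.1 he
  obtain ⟨q1, q2⟩ := mem_SI.1 h1
  obtain ⟨r1, r2⟩ := mem_SI.1 h2
  have hzp := cz_p h
  set Lo := LoSt T p0 X.c.rr (xR z.M v.A z.M' v'.A) (yR z.M v.A z.M' v'.A) with hLo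
  set U := Uz X Qp T b z v v' e with hU
  have hU0 : 0 ≤ U := UV_nonneg hρ _ _
  have hUV : VU (PV X Qp b z v v') Lo X.c.rr X.c.γ (SE z.M v.B v.A z.M' v'.B v'.A e) e = U := rfl
  -- the potential
  have k1 : potS (VU (PV X Qp b z v v') Lo X.c.rr X.c.γ) (VcL (Pc X Qp z v v') X.c.γ X.c.rr Lo)
      (fun _ _ _ => 0) z v v' σ σ' e ≤ (1 + 2 * (2 * n)) * ((v.B:ℝ) * v'.B * U) := by
    have key := pot_split (Vs := VU (PV X Qp b z v v') Lo X.c.rr X.c.γ)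
      (Vc := VcL (Pc X Qp z v v') X.c.γ X.c.rr Lo) (Vx := fun _ _ _ => 0) (M := z.M) (b := v.B) (pr := v.A)
      (M' := z.M') (b' := v'.B) (pr' := v'.A) (s := b) (τ := σ) (τ' := σ') (e := e) (n := 2 * n)
      (fun l s e => le_rfl) hU0 (le_of_eq hUV) ?_ ?_ ?_
    · refine key.trans (le_of_eq ?_)
      unfold TotC36.fx
      simp
    · intro l hl
      have hl' : l.Prime ∧ p0 < l ∧ l ≤ b := by
        rcases Finset.mem_union.1 hl with hl | hl
        · exact ⟨(cs_mt h.L q1 l hl).1, (cs_mt h.L q1 l hl).2.1, (cs_mt h.L q1 l hl).2.2.1⟩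
        · exact ⟨(cs_mt h.R r1 l hl).1, (cs_mt h.R r1 l hl).2.1, (cs_mt h.R r1 l hl).2.2.1⟩
      unfold CrossLoc25.VcL
      by_cases hP : Pc X Qp z v v' l e
      · rw [if_pos hP]
        have hPV : PV X Qp b z v v' e := ⟨l, hl'.1, hl'.2.1, hl'.2.2, hP⟩
        rw [hU]
        unfold CzTot36.Uz TotC36.UV
        rw [if_pos hPV]
        exact le_add_of_nonneg_right (SameIx30.Vm_nonneg hρ _ _ _)
      · rw [if_neg hP]; exact hU0
    · intro l hl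
      rcases Finset.mem_union.1 hl with hl | hl
      · exact ⟨(cs_mt h.L q1 l hl).1, (cs_mt h.L q1 l hl).2.2.1⟩
      · exact ⟨(cs_mt h.R r1 l hl).1, (cs_mt h.R r1 l hl).2.2.1⟩
    · have c1 := cs_mt_card h.L q1 (hn _ q2)
      have c2 := cs_mt_card h.R r1 (hn _ r2)
      have c3 : ((σ.mt e.1 ∪ σ'.mt e.2).card : ℝ) ≤ (σ.mt e.1).card + (σ'.mt e.2).card := by
        exact_mod_cast Finset.card_union_le _ _
      linarith
  -- the merges
  have k2 : PhiM (X.c.D.par X.Y) X.c.t.mt rg (fun _ => VU (PV X Qp b z v v') Lo X.c.rr X.c.γ)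
      z v v' σ σ' e ≤ (1 + 2 * n + Real.log b) * ((v.B:ℝ) * v'.B * U) := by
    have hcard : ∀ q ∈ X.S', ((mb X.c.t.mt z.p q).card : ℝ) ≤ n := fun q hq => by
      refine le_trans ?_ (hn q hq)
      exact_mod_cast Finset.card_le_card fun l hl => by
        unfold ShrW34.mb at hl
        obtain ⟨l1, l2⟩ := Finset.mem_filter.1 hl
        exact Finset.mem_filter.2 ⟨l1, l2.trans hzp⟩
    have hr : (rg z.p : ℝ) ≤ Real.log b := le_trans (by exact_mod_cast rg_mono hzp) (rg_le b)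
    unfold ShrW34.PhiM
    have c1 : cf (X.c.D.par X.Y) z e * U ≤ U := mul_le_of_le_one_left hU0 (cf_le_one _ _)
    have c2 : fut X.c.t.mt rg (fun _ => U) z.p e ≤ (2 * n + Real.log b) * U := by
      unfold ShrW34.fut
      simp only [Finset.sum_const, Finset.card_range, nsmul_eq_mul]
      have d1 := mul_le_mul_of_nonneg_right (hcard _ q2) hU0
      have d2 := mul_le_mul_of_nonneg_right (hcard _ r2) hU0
      have d3 := mul_le_mul_of_nonneg_right hr hU0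
      nlinarith
    have c3 : cf (X.c.D.par X.Y) z e * VU (PV X Qp b z v v') Lo X.c.rr X.c.γ (SE z.M v.B v.A z.M' v'.B v'.A e) e +
        fut X.c.t.mt rg (fun k => VU (PV X Qp b z v v') Lo X.c.rr X.c.γ (SE z.M v.B v.A z.M' v'.B v'.A e) e) z.p e ≤
        (1 + 2 * n + Real.log b) * U := by
      rw [hUV]
      linarith
    calc _ ≤ ((v.B:ℝ) * v'.B) * ((1 + 2 * n + Real.log b) * U) :=
          mul_le_mul_of_nonneg_left c3 (by positivity)
      _ = _ := by ring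
  unfold LocX25.TOT0 KAx
  calc _ ≤ K1 * ((1 + 2 * (2 * n)) * ((v.B:ℝ) * v'.B * U)) +
      K2 * ((1 + 2 * n + Real.log b) * ((v.B:ℝ) * v'.B * U)) :=
        add_le_add (mul_le_mul_of_nonneg_left k1 hK1) (mul_le_mul_of_nonneg_left k2 hK2)
    _ = _ := by ring

lemma TOT0_nonneg (hρ : ∀ q, 0 < X.c.rr q) {T K1 K2 : ℝ} (hK1 : 0 ≤ K1) (hK2 : 0 ≤ K2) (e : ℕ × ℕ) :
    0 ≤ TOT0 X Qp T K1 K2 b z v v' σ σ' e := by
  unfold LocX25.TOT0
  refine add_nonneg (mul_nonneg hK1 (YI25.potS_nonneg (fun s e => VU_nonneg hρ _ _ _ _ _)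
    (fun l s e => VcL_nonneg hρ _ _ _) (fun l s e => le_rfl) _ _ _ _ _ _)) (mul_nonneg hK2
    (ShrW34.PhiM_nonneg (fun k s e => VU_nonneg hρ _ _ _ _ _) _ _ _ _ _ _))

/-! ### the pairs of class `[E]` -/

/-- the pairs of class `[E]` with the same effective exponent -/
def EE (X : Ctx N γ p0 P₀) (b : ℕ) (z : X.Sta) (v v' : NS) (e : ℕ × ℕ) : Prop :=
  ec b v.B e.1 = ec b v'.B e.2 ∧ ESI X.c.γ X.c.rr z.M v.B v.A 1 z.M' v'.B v'.A 1 e

/-- `fe` and `ec` -/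
lemma fe_iff (hC : CF X CL b z v v' σ σ') {q r : ℕ} (hq : q ∈ σ.items) (hr : r ∈ σ'.items) :
    fe b z.M' v.A q = fe b z.M v'.A r ↔ ec b v.B q = ec b v'.B r :=
  (CF.cls hC hq hr rfl rfl).2.1

open Classical in
/-- the sum over the pairs `[E]` of a block, left masses -/
theorem cz_tw (hC : CF X CL b z v v' σ σ') (hb : 2 ^ 24 ≤ b) (hc : 0 ≤ v.c) {K : ℝ} (hK : 0 ≤ K) (f : ℕ × ℕ → ℝ)
    (hf : ∀ e ∈ SI X σ.items ×ˢ SI X σ'.items, EE X b z v v' e →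
      f e ≤ K * (v.c * w X.ψ e.1 / (rf (e.2 / v'.A) z.M' : ℝ))) (i : ℕ) :
    blkE b v.B v'.B (SI X σ.items) (SI X σ'.items) (fun e => if EE X b z v v' e then f e else 0) i i ≤
      2 * K * cm (w X.ψ) v.c b (ex b v.B) σ.items i := by
  have hW := X.hW
  have hx : GInst194.xs z.M' ≤ 1 := TwX33.xs_le_one hb hC.M0' (fun l hl hd _ => hC.gM' l hl hd) (erase_le hC.sM')
  unfold blkE
  rw [← Finset.sum_filter]
  have key := TwX33.tw_left (γ := X.c.γ) (ρ := X.c.rr) (M := z.M) (b := v.B) (pr := v.A) (c := 1) (M' := z.M')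
    (b' := v'.B) (pr' := v'.A) (c' := 1) (V := (SI X σ.items).filter (fun q => ec b v.B q = i))
    (a := fun q => K * (v.c * w X.ψ q)) hC.M0 hC.M0' hx
    (P := ((((SI X σ.items).filter (fun q => ec b v.B q = i)) ×ˢ
      ((SI X σ'.items).filter (fun q => ec b v'.B q = i)))).filter (fun e => EE X b z v v' e))
    (f := f)
    (fun q hq => ⟨(hC.L.q0 q (mem_SI.1 (Finset.mem_filter.1 hq).1).1).2,
      mul_nonneg hK (mul_nonneg hc (hW q))⟩)
    (fun e he => by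
      obtain ⟨h1, -⟩ := Finset.mem_filter.1 he
      obtain ⟨h2, h3⟩ := Finset.mem_product.1 h1
      exact ⟨h2, (hC.R.q0 e.2 (mem_SI.1 (Finset.mem_filter.1 h3).1).1).2⟩)
    (fun e he => (Finset.mem_filter.1 he).2.2)
    (fun e he => by
      obtain ⟨h1, h2⟩ := Finset.mem_filter.1 he
      exact (hf e (mem_blk h1).1 h2).trans (le_of_eq (mul_div_assoc _ _ _).symm))
  refine key.trans ?_
  rw [← Finset.mul_sum, ← Finset.mul_sum]
  have h4 : v.c * ∑ q ∈ (SI X σ.items).filter (fun q => ec b v.B q = i), w X.ψ q ≤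
      cm (w X.ψ) v.c b (ex b v.B) σ.items i := by
    unfold KindTab36.cm Cnt588.Ws
    refine mul_le_mul_of_nonneg_left (Finset.sum_le_sum_of_subset_of_nonneg (fun q hq => ?_) fun q _ _ => hW q) hc
    obtain ⟨h5, h6⟩ := Finset.mem_filter.1 hq
    exact Finset.mem_filter.2 ⟨(mem_SI.1 h5).1, h6⟩
  calc _ = 2 * K * (v.c * ∑ q ∈ (SI X σ.items).filter (fun q => ec b v.B q = i), w X.ψ q) := by ring
    _ ≤ _ := mul_le_mul_of_nonneg_left h4 (by positivity)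

open Classical in
/-- the sum over the pairs `[E]` of a block, right masses -/
theorem cz_tw' (hC : CF X CL b z v v' σ σ') (hb : 2 ^ 24 ≤ b) (hc' : 0 ≤ v'.c) {K : ℝ} (hK : 0 ≤ K)
    (f : ℕ × ℕ → ℝ)
    (hf : ∀ e ∈ SI X σ.items ×ˢ SI X σ'.items, EE X b z v v' e →
      f e ≤ K * (v'.c * w X.ψ e.2 / (rf (e.1 / v.A) z.M : ℝ))) (i : ℕ) :
    blkE b v.B v'.B (SI X σ.items) (SI X σ'.items) (fun e => if EE X b z v v' e then f e else 0) i i ≤
      2 * K * cm (w X.ψ) v'.c b (ex b v'.B) σ'.items i := by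
  have hW := X.hW
  have hx : GInst194.xs z.M ≤ 1 := TwX33.xs_le_one hb hC.M0 (fun l hl hd _ => hC.gM l hl hd) (erase_le hC.sM)
  unfold blkE
  rw [← Finset.sum_filter]
  have key := TwX33.tw_right (γ := X.c.γ) (ρ := X.c.rr) (M := z.M) (b := v.B) (pr := v.A) (c := 1) (M' := z.M')
    (b' := v'.B) (pr' := v'.A) (c' := 1) (W := (SI X σ'.items).filter (fun q => ec b v'.B q = i))
    (a' := fun q => K * (v'.c * w X.ψ q)) hC.M0 hC.M0' hx
    (P := ((((SI X σ.items).filter (fun q => ec b v.B q = i)) ×ˢ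
      ((SI X σ'.items).filter (fun q => ec b v'.B q = i)))).filter (fun e => EE X b z v v' e))
    (f := f)
    (fun q hq => ⟨(hC.R.q0 q (mem_SI.1 (Finset.mem_filter.1 hq).1).1).2,
      mul_nonneg hK (mul_nonneg hc' (hW q))⟩)
    (fun e he => by
      obtain ⟨h1, -⟩ := Finset.mem_filter.1 he
      obtain ⟨h2, h3⟩ := Finset.mem_product.1 h1
      exact ⟨h3, (hC.L.q0 e.1 (mem_SI.1 (Finset.mem_filter.1 h2).1).1).2⟩)
    (fun e he => (Finset.mem_filter.1 he).2.2)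
    (fun e he => by
      obtain ⟨h1, h2⟩ := Finset.mem_filter.1 he
      exact (hf e (mem_blk h1).1 h2).trans (le_of_eq (mul_div_assoc _ _ _).symm))
  refine key.trans ?_
  rw [← Finset.mul_sum, ← Finset.mul_sum]
  have h4 : v'.c * ∑ q ∈ (SI X σ'.items).filter (fun q => ec b v'.B q = i), w X.ψ q ≤
      cm (w X.ψ) v'.c b (ex b v'.B) σ'.items i := by
    unfold KindTab36.cm Cnt588.Ws
    refine mul_le_mul_of_nonneg_left (Finset.sum_le_sum_of_subset_of_nonneg (fun q hq => ?_) fun q _ _ => hW q) hc'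
    obtain ⟨h5, h6⟩ := Finset.mem_filter.1 hq
    exact Finset.mem_filter.2 ⟨(mem_SI.1 h5).1, h6⟩
  calc _ = 2 * K * (v'.c * ∑ q ∈ (SI X σ'.items).filter (fun q => ec b v'.B q = i), w X.ψ q) := by ring
    _ ≤ _ := mul_le_mul_of_nonneg_left h4 (by positivity)

/-! ### the payments -/

open Classical in
/-- the payment of a pair: `P` the pairs `[E]`, `T0` the value, `m` the mass, `iF` the own term -/
noncomputable def pay (P : ℕ × ℕ → Prop) (iF m T0 : ℕ × ℕ → ℝ) (e : ℕ × ℕ) : ℝ :=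
  if P e ∧ m e ≤ T0 e then iF e + m e else T0 e

section pay
variable {P : ℕ × ℕ → Prop} {iF m T0 : ℕ × ℕ → ℝ} {e : ℕ × ℕ}

lemma pay_off (h : ¬ P e) : pay P iF m T0 e = T0 e := by
  unfold pay; rw [if_neg (fun h' => h h'.1)]

open Classical in
lemma pay_le1 (h0 : 0 ≤ iF e) : pay P iF m T0 e ≤ T0 e + (if P e then iF e else 0) := by
  unfold pay
  by_cases hP : P e
  · rw [if_pos hP]
    split_ifs with h
    · linarith [h.2]
    · linarith
  · rw [if_neg hP, if_neg (fun h' => hP h'.1), add_zero]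

open Classical in
lemma pay_le2 (h0 : 0 ≤ iF e) (h1 : 0 ≤ m e) :
    pay P iF m T0 e ≤ (if P e then 0 else T0 e) + (if P e then iF e + m e else 0) := by
  unfold pay
  by_cases hP : P e
  · rw [if_pos hP, if_pos hP, zero_add]
    split_ifs with h
    · exact le_rfl
    · have : ¬ m e ≤ T0 e := fun h' => h ⟨hP, h'⟩
      linarith [not_le.1 this]
  · rw [if_neg hP, if_neg hP, if_neg (fun h' => hP h'.1), add_zero]

lemma pay_nonneg (h0 : 0 ≤ iF e) (h1 : 0 ≤ m e) (h2 : 0 ≤ T0 e) : 0 ≤ pay P iF m T0 e := by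
  unfold pay
  split_ifs
  · linarith
  · exact h2

end pay

/-- `CW` with a part below the minimum -/
lemma CW_min {dead : Prop} {C : ℝ} {a₀ : ℕ} (hb : 2 ≤ b) (hl : 2 ≤ Real.log b) (ha₀ : a₀ ≤ b)
    {x y : ℕ → ℝ} {φ : ℕ → ℕ → ℝ} (hx0 : ∀ i, 0 ≤ x i) (hy0 : ∀ j, 0 ≤ y j)
    (h : ∀ i, φ i i ≤ (Real.log b)^C * ZE (sg dead) a₀ (x i * y i) + (Real.log b)^C * min (x i) (y i)) :
    CW b (C+1) (1/2+eps1) (1/2+eps2) x y φ := by
  have key := CW_of (s := b) (dead := dead) (C := C) hb ha₀ hx0 hy0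
    (φ := fun i j => φ i j - (Real.log b)^C * min (x i) (y i)) (fun i => by linarith [h i])
  refine ⟨hx0, hy0, fun i => ?_⟩
  have k1 := key.le i
  set L := Real.log b with hL
  have hL0 : 0 < L := by linarith
  have e1 : L^(C+1) = L^C * L := by rw [Real.rpow_add hL0, Real.rpow_one]
  have hx := hx0 i
  have hy := hy0 i
  have hm : 0 ≤ min (x i) (y i) := le_min hx hy
  set W := (b:ℝ)^(1/10:ℝ) * ((x i * y i)^(1/2:ℝ) + (x i * y i)^(1/2+eps1) +
    (x i * y i)^(1/2+eps2)) + x i * y i with hW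
  have hW0 : 0 ≤ W := by positivity
  have hLC : 0 < L^C := by positivity
  rw [e1]
  calc φ i i ≤ L^C * (W + min (x i) (y i)) + L^C * min (x i) (y i) := by linarith
    _ ≤ L^C * (W + min (x i) (y i)) + L^C * (W + min (x i) (y i)) := by
        have : L^C * min (x i) (y i) ≤ L^C * (W + min (x i) (y i)) :=
          mul_le_mul_of_nonneg_left (by linarith) hLC.le
        linarith
    _ = L^C * 2 * (W + min (x i) (y i)) := by ring
    _ ≤ L^C * L * (W + min (x i) (y i)) := by gcongr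

lemma blkE_le {B B' i j : ℕ} {V W : Finset ℕ} {F G : ℕ × ℕ → ℝ}
    (h : ∀ e ∈ V ×ˢ W, ec b B e.1 = i → ec b B' e.2 = j → F e ≤ G e) :
    blkE b B B' V W F i j ≤ blkE b B B' V W G i j := by
  unfold blkE
  refine Finset.sum_le_sum fun e he => ?_
  obtain ⟨h1, h2, h3⟩ := mem_blk he
  exact h e h1 h2 h3

lemma blkE_add {B B' i j : ℕ} {V W : Finset ℕ} {F G : ℕ × ℕ → ℝ} :
    blkE b B B' V W (fun e => F e + G e) i j = blkE b B B' V W F i j + blkE b B B' V W G i j := by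
  unfold blkE
  rw [Finset.sum_add_distrib]

/-- **payments with excluded pairs: different classes** -/
theorem cz_payCO {C CT cl K K' A T KA : ℝ} {s₁ : ℕ} (hbox : Box (C+1) CT cl CL s₁ K)
    (hboxB : BoxB (C+1) CT cl CL s₁ K') (hs₁ : s₁ ≤ b)
    (hsl : (200 * Real.log b)^(3:ℝ) ≤ (b:ℝ)^(1:ℝ)) (hl : 8 ≤ Real.log b) (hA : 0 ≤ A)
    (h : CZ X j₀ Q' b z v v' σ σ') (hC : CF X CL b z v v' σ σ')
    (hn : Nm X Qp cl b) (hρ : ∀ q, 0 < X.c.rr q) (hc : 0 ≤ v.c) (hc' : 0 ≤ v'.c)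
    (hT : T ≤ (Real.log b)^CT) (hKA0 : 0 ≤ KA) (hKA : KA ≤ (Real.log b)^C)
    (hm : ∀ q ∈ X.S', ∑ l ∈ X.c.t.mt q, (l:ℝ)^(-(11/12):ℝ) ≤ 1) {iF m T0 : ℕ × ℕ → ℝ}
    (hT0 : ∀ e ∈ SI X σ.items ×ˢ SI X σ'.items, T0 e ≤ KA * ((v.B:ℝ) * v'.B * Uz X Qp T b z v v' e)) :
    CO b (max (K + A*(6/1000) + 3) (K' + 1) + 1) (1/2+eps1) (1/2+eps2)
      (fun _ _ => alX A γ (1/(1-(1/2+eps2))) b v.B + alX A γ (1/(1-(1/2+eps2))) b v'.B)
      (cm (w X.ψ) v.c b (ex b v.B) σ.items) (cm (w X.ψ) v'.c b (ex b v'.B) σ'.items)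
      (blkE b v.B v'.B (SI X σ.items) (SI X σ'.items) (pay (EE X b z v v') iF m T0)) := by
  refine cz_CO (K1 := 0) hbox hboxB hs₁ hsl hl hA h hC hn hρ hc hc' hT hKA0 hKA le_rfl
    (Real.rpow_nonneg (by linarith) _) hm fun e he hne => ?_
  rw [pay_off (fun h' => hne h'.1)]
  refine (hT0 e he).trans (le_of_eq ?_)
  unfold CzCO36.PB
  simp

/-- **payments with excluded pairs: equal classes, any logs** -/
theorem cz_payCW {C CT cl K Cm T KA : ℝ} {s₁ : ℕ} (hbox : BoxE False (C+1) cl CL s₁ K) (hs₁ : s₁ ≤ b)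
    (hl : 8 ≤ Real.log b) (h : CZ X j₀ Q' b z v v' σ σ') (hC : CF X CL b z v v' σ σ')
    (hmin : z.M.factorization b = 0 ∨ z.M'.factorization b = 0)
    (hn : Nm X Qp cl b) (hρ : ∀ q, 0 < X.c.rr q) (hc : 0 ≤ v.c) (hc' : 0 ≤ v'.c)
    (hT : T ≤ (Real.log b)^CT) (hKA0 : 0 ≤ KA) (hKA : KA ≤ (Real.log b)^C) (hCm : 0 ≤ Cm) (hb : 2 ^ 24 ≤ b)
    (hK1 : 1 ≤ K + Cm + 4)
    (hm : ∀ q ∈ X.S', ∑ l ∈ X.c.t.mt q, (l:ℝ)^(-(11/12):ℝ) ≤ 1)
    (hmn : ∀ q ∈ X.S', (((X.c.t.mt q).filter (· ≤ b)).card : ℝ) ≤ (Real.log b)^Cm) {iF m T0 : ℕ × ℕ → ℝ}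
    (hT0 : ∀ e ∈ SI X σ.items ×ˢ SI X σ'.items, T0 e ≤ KA * ((v.B:ℝ) * v'.B * Uz X Qp T b z v v' e))
    (hi0 : ∀ e, 0 ≤ iF e)
    (hiL : ∀ e ∈ SI X σ.items ×ˢ SI X σ'.items, EE X b z v v' e →
      iF e ≤ 4 * (v.c * w X.ψ e.1 / (rf (e.2 / v'.A) z.M' : ℝ)))
    (hiR : ∀ e ∈ SI X σ.items ×ˢ SI X σ'.items, EE X b z v v' e →
      iF e ≤ 4 * (v'.c * w X.ψ e.2 / (rf (e.1 / v.A) z.M : ℝ))) :
    CW b (K + Cm + 4 + 1) (1/2+eps1) (1/2+eps2)
      (cm (w X.ψ) v.c b (ex b v.B) σ.items) (cm (w X.ψ) v'.c b (ex b v'.B) σ'.items)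
      (blkE b v.B v'.B (SI X σ.items) (SI X σ'.items) (pay (EE X b z v v') iF m T0)) := by
  classical
  have cm0 : ∀ (u : NS) (τ : IT), 0 ≤ u.c → ∀ i, 0 ≤ cm (w X.ψ) u.c b (ex b u.B) τ.items i := fun u τ h i =>
    mul_nonneg h (Bld532.Ws_nonneg X.hW _)
  refine CW_min (dead := False) (a₀ := a0 b v.B v'.B) h.bp.two_le (by linarith) (a0_le h.bp.pos _ _)
    (cm0 v σ hc) (cm0 v' σ' hc') fun i => ?_
  have k1 := cz_CW (K1 := 0) (F := T0) hbox hs₁ hl h hC hmin hn hρ hc hc' hT hKA0 hKA le_rfl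
    (Real.rpow_nonneg (by linarith) _) hCm hm hmn (fun e he _ => (hT0 e he).trans (le_of_eq (by
      unfold CzCO36.PB
      simp))) i
  have k2 := cz_tw hC hb hc (K := 4) (by norm_num) iF hiL i
  have k3 := cz_tw' hC hb hc' (K := 4) (by norm_num) iF hiR i
  have k4 := blkE_le (b := b) (B := v.B) (B' := v'.B) (i := i) (j := i) (V := SI X σ.items) (W := SI X σ'.items)
    (F := pay (EE X b z v v') iF m T0) (G := fun e => T0 e + (if EE X b z v v' e then iF e else 0))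
    fun e _ _ _ => pay_le1 (hi0 e)
  rw [blkE_add] at k4
  have k5 : blkE b v.B v'.B (SI X σ.items) (SI X σ'.items) (fun e => if EE X b z v v' e then iF e else 0) i i ≤
      (Real.log b)^(K + Cm + 4) * min (cm (w X.ψ) v.c b (ex b v.B) σ.items i)
        (cm (w X.ψ) v'.c b (ex b v'.B) σ'.items i) := by
    have h8 : (8:ℝ) ≤ (Real.log b)^(K + Cm + 4) := by
      calc (8:ℝ) ≤ Real.log b := hl
        _ = (Real.log b)^(1:ℝ) := (Real.rpow_one _).symm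
        _ ≤ _ := Real.rpow_le_rpow_of_exponent_le (by linarith) hK1
    have hx := cm0 v σ hc i
    have hy := cm0 v' σ' hc' i
    rcases le_total (cm (w X.ψ) v.c b (ex b v.B) σ.items i) (cm (w X.ψ) v'.c b (ex b v'.B) σ'.items i) with h6 | h6
    · rw [min_eq_left h6]
      refine k2.trans ?_
      nlinarith
    · rw [min_eq_right h6]
      refine k3.trans ?_
      nlinarith
  linarith

/-- **the pairs which are not `[E]`: no matching term** -/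
theorem cz_F1 {C CT cl K T KA : ℝ} {s₁ : ℕ} (hbox : BoxE True (C+1) cl CL s₁ K) (hs₁ : s₁ ≤ b)
    (hl : 8 ≤ Real.log b) (h : CZ X j₀ Q' b z v v' σ σ') (hC : CF X CL b z v v' σ σ')
    (hmin : z.M.factorization b = 0 ∨ z.M'.factorization b = 0)
    (hn : Nm X Qp cl b) (hρ : ∀ q, 0 < X.c.rr q) (hc : 0 ≤ v.c) (hc' : 0 ≤ v'.c)
    (hT : T ≤ (Real.log b)^CT) (hKA0 : 0 ≤ KA) (hKA : KA ≤ (Real.log b)^C) (hbB : ¬ b ∣ v.B) (hbB' : ¬ b ∣ v'.B)
    {F : ℕ × ℕ → ℝ}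
    (hF : ∀ e ∈ SI X σ.items ×ˢ SI X σ'.items, F e ≤ KA * ((v.B:ℝ) * v'.B * Uz X Qp T b z v v' e))
    (hF0 : ∀ e ∈ SI X σ.items ×ˢ SI X σ'.items, EE X b z v v' e → F e ≤ 0) (i : ℕ) :
    blkE b v.B v'.B (SI X σ.items) (SI X σ'.items) F i i ≤
      (Real.log b)^(K + 3) * ZE (sg True) 1 (cm (w X.ψ) v.c b (ex b v.B) σ.items i *
        cm (w X.ψ) v'.c b (ex b v'.B) σ'.items i) := by
  have ha1 : a0 b v.B v'.B = 1 := by
    unfold CzSum36.a0
    rw [if_neg]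
    tauto
  have hFA := feallA (dead := True) (CT := CT) h hC hn hρ hl hmin hT hKA0 hKA hF
    (fun _ e he hfe hD h0 hES => by
      exfalso
      obtain ⟨k1, k2⟩ := Finset.mem_product.1 he
      have q1 := (mem_SI.1 k1).1
      have r1 := (mem_SI.1 k2).1
      obtain ⟨q0, qA⟩ := hC.L.q0 _ q1
      obtain ⟨r0, rA⟩ := hC.R.q0 _ r1
      have w0 : 0 < e.1 / v.A := Nat.div_pos (Nat.le_of_dvd q0 qA) (Nat.pos_of_dvd_of_pos qA q0)
      have w0' : 0 < e.2 / v'.A := Nat.div_pos (Nat.le_of_dvd r0 rA) (Nat.pos_of_dvd_of_pos rA r0)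
      have hE := (LinkE33.ESs_iff h.bp hC.M0 hC.M0' w0 w0' (ShotExc32.dex_zero hfe hmin)).1 hES
      exact absurd (hF0 e he ⟨(fe_iff hC q1 r1).1 hfe, hE⟩) (not_le.2 h0))
  rw [ha1] at hFA
  have key := ctx_EQ (C0 := C+1) (Cm := 0) (m := fun _ => ∅) (m' := fun _ => ∅) (T := ∅) (FX := fun _ _ => 0)
    (FA := F) hbox hs₁ (by linarith) hmin (a₀ := 1) le_rfl hρ hC hc hc' (fun q _ => by simp)
    (fun q _ => by simp) le_rfl (fun q _ => by simp) (fun q _ => by simp) (fun l hl => by simp at hl)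
    (fun l hl => by simp at hl) hFA (fun l hl => by simp at hl) i
  simp only [Finset.sum_empty, add_zero] at key
  exact key

lemma ZE_true (z : ℝ) : ZE (sg True) 1 z = z^(1/2+eps1) + z^(1/2+eps2) + z := by
  unfold EqNum32.ZE EqNum32.sg
  simp

/-- **payments with excluded pairs: equal classes, a dead left side** -/
theorem cz_payCE {C CT cl K T KA Kt : ℝ} {s₁ : ℕ} (hbox : BoxE True (C+1) cl CL s₁ K) (hs₁ : s₁ ≤ b)
    (hl : 8 ≤ Real.log b) (h : CZ X j₀ Q' b z v v' σ σ') (hC : CF X CL b z v v' σ σ')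
    (hmin : z.M.factorization b = 0 ∨ z.M'.factorization b = 0)
    (hn : Nm X Qp cl b) (hρ : ∀ q, 0 < X.c.rr q) (hc : 0 ≤ v.c) (hc' : 0 ≤ v'.c)
    (hT : T ≤ (Real.log b)^CT) (hKA0 : 0 ≤ KA) (hKA : KA ≤ (Real.log b)^C) (hbB : ¬ b ∣ v.B) (hbB' : ¬ b ∣ v'.B)
    (hb : 2 ^ 24 ≤ b) (hKt : 0 ≤ Kt) {iF m T0 : ℕ × ℕ → ℝ}
    (hT0 : ∀ e ∈ SI X σ.items ×ˢ SI X σ'.items, T0 e ≤ KA * ((v.B:ℝ) * v'.B * Uz X Qp T b z v v' e))
    (hi0 : ∀ e, 0 ≤ iF e) (hm0 : ∀ e, 0 ≤ m e)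
    (hiL : ∀ e ∈ SI X σ.items ×ˢ SI X σ'.items, EE X b z v v' e →
      iF e ≤ 4 * (v.c * w X.ψ e.1 / (rf (e.2 / v'.A) z.M' : ℝ)))
    (hmL : ∀ e, m e ≤ Kt * (v.c * w X.ψ e.1 / (rf (e.2 / v'.A) z.M' : ℝ))) :
    ∃ tw : ℕ → ℝ, CE2 b (K + 3) (2 * (4 + Kt)) (1/2+eps1) (1/2+eps2) tw
      (cm (w X.ψ) v.c b (ex b v.B) σ.items) (cm (w X.ψ) v'.c b (ex b v'.B) σ'.items)
      (blkE b v.B v'.B (SI X σ.items) (SI X σ'.items) (pay (EE X b z v v') iF m T0)) := by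
  classical
  have cm0 : ∀ (u : NS) (τ : IT), 0 ≤ u.c → ∀ i, 0 ≤ cm (w X.ψ) u.c b (ex b u.B) τ.items i := fun u τ h i =>
    mul_nonneg h (Bld532.Ws_nonneg X.hW _)
  have hU0 : ∀ e, 0 ≤ KA * ((v.B:ℝ) * v'.B * Uz X Qp T b z v v' e) := fun e =>
    mul_nonneg hKA0 (mul_nonneg (by positivity) (UV_nonneg hρ _ _))
  refine ⟨fun i => blkE b v.B v'.B (SI X σ.items) (SI X σ'.items)
    (fun e => if EE X b z v v' e then iF e + m e else 0) i i, cm0 v σ hc, cm0 v' σ' hc', fun i => ?_, fun i => ?_⟩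
  · have k1 := cz_F1 (F := fun e => if EE X b z v v' e then 0 else T0 e) hbox hs₁ hl h hC hmin hn hρ hc hc' hT
      hKA0 hKA hbB hbB' (fun e he => by
        split_ifs
        · exact hU0 e
        · exact hT0 e he) (fun e he hE => by
        rw [if_pos hE]) i
    have k4 := blkE_le (b := b) (B := v.B) (B' := v'.B) (i := i) (j := i) (V := SI X σ.items) (W := SI X σ'.items)
      (F := pay (EE X b z v v') iF m T0) (G := fun e => (if EE X b z v v' e then 0 else T0 e) +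
        (if EE X b z v v' e then iF e + m e else 0)) fun e _ _ _ => pay_le2 (hi0 e) (hm0 e)
    rw [blkE_add] at k4
    rw [ZE_true] at k1
    linarith
  · refine cz_tw hC hb hc (K := 4 + Kt) (by linarith) (fun e => iF e + m e) (fun e he hE => ?_) i
    have h1 := hiL e he hE
    have h2 := hmL e
    calc iF e + m e ≤ _ := add_le_add h1 h2
      _ = _ := by ring

/-- **payments with excluded pairs: equal classes, a dead right side** -/
theorem cz_payCE' {C CT cl K T KA Kt : ℝ} {s₁ : ℕ} (hbox : BoxE True (C+1) cl CL s₁ K) (hs₁ : s₁ ≤ b)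
    (hl : 8 ≤ Real.log b) (h : CZ X j₀ Q' b z v v' σ σ') (hC : CF X CL b z v v' σ σ')
    (hmin : z.M.factorization b = 0 ∨ z.M'.factorization b = 0)
    (hn : Nm X Qp cl b) (hρ : ∀ q, 0 < X.c.rr q) (hc : 0 ≤ v.c) (hc' : 0 ≤ v'.c)
    (hT : T ≤ (Real.log b)^CT) (hKA0 : 0 ≤ KA) (hKA : KA ≤ (Real.log b)^C) (hbB : ¬ b ∣ v.B) (hbB' : ¬ b ∣ v'.B)
    (hb : 2 ^ 24 ≤ b) (hKt : 0 ≤ Kt) {iF m T0 : ℕ × ℕ → ℝ}
    (hT0 : ∀ e ∈ SI X σ.items ×ˢ SI X σ'.items, T0 e ≤ KA * ((v.B:ℝ) * v'.B * Uz X Qp T b z v v' e))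
    (hi0 : ∀ e, 0 ≤ iF e) (hm0 : ∀ e, 0 ≤ m e)
    (hiR : ∀ e ∈ SI X σ.items ×ˢ SI X σ'.items, EE X b z v v' e →
      iF e ≤ 4 * (v'.c * w X.ψ e.2 / (rf (e.1 / v.A) z.M : ℝ)))
    (hmR : ∀ e, m e ≤ Kt * (v'.c * w X.ψ e.2 / (rf (e.1 / v.A) z.M : ℝ))) :
    ∃ tw : ℕ → ℝ, CE2 b (K + 3) (2 * (4 + Kt)) (1/2+eps1) (1/2+eps2) tw
      (cm (w X.ψ) v'.c b (ex b v'.B) σ'.items) (cm (w X.ψ) v.c b (ex b v.B) σ.items)
      (fun i j => blkE b v.B v'.B (SI X σ.items) (SI X σ'.items) (pay (EE X b z v v') iF m T0) j i) := by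
  classical
  have cm0 : ∀ (u : NS) (τ : IT), 0 ≤ u.c → ∀ i, 0 ≤ cm (w X.ψ) u.c b (ex b u.B) τ.items i := fun u τ h i =>
    mul_nonneg h (Bld532.Ws_nonneg X.hW _)
  have hU0 : ∀ e, 0 ≤ KA * ((v.B:ℝ) * v'.B * Uz X Qp T b z v v' e) := fun e =>
    mul_nonneg hKA0 (mul_nonneg (by positivity) (UV_nonneg hρ _ _))
  refine ⟨fun i => blkE b v.B v'.B (SI X σ.items) (SI X σ'.items)
    (fun e => if EE X b z v v' e then iF e + m e else 0) i i, cm0 v' σ' hc', cm0 v σ hc, fun i => ?_, fun i => ?_⟩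
  · have k1 := cz_F1 (F := fun e => if EE X b z v v' e then 0 else T0 e) hbox hs₁ hl h hC hmin hn hρ hc hc' hT
      hKA0 hKA hbB hbB' (fun e he => by
        split_ifs
        · exact hU0 e
        · exact hT0 e he) (fun e he hE => by
        rw [if_pos hE]) i
    have k4 := blkE_le (b := b) (B := v.B) (B' := v'.B) (i := i) (j := i) (V := SI X σ.items) (W := SI X σ'.items)
      (F := pay (EE X b z v v') iF m T0) (G := fun e => (if EE X b z v v' e then 0 else T0 e) +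
        (if EE X b z v v' e then iF e + m e else 0)) fun e _ _ _ => pay_le2 (hi0 e) (hm0 e)
    rw [blkE_add] at k4
    rw [ZE_true, mul_comm (cm (w X.ψ) v.c b (ex b v.B) σ.items i)] at k1
    linarith
  · refine cz_tw' hC hb hc' (K := 4 + Kt) (by linarith) (fun e => iF e + m e) (fun e he hE => ?_) i
    have h1 := hiR e he hE
    have h2 := hmR e
    calc iF e + m e ≤ _ := add_le_add h1 h2
      _ = _ := by ring

end ctx

end Crest.Agent.R4P.CzE36
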