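import Crest.Agent.R4P.TotC_36
import Crest.Agent.R4P.AccAl_31

/-!
R4P (S0004), helper36, group [X]: **the clean part of the bound of a crossing state**.

* `PV`, `Px` : the predicates of the potentials at a crossing state (helper29's `LkG`).
* `LoSt_LoD` : the threshold predicate.
* `fallA`, `fallX` : `FAll` for the summand at the letters of the state and for the exits below `b`.
* `alf_le` : the accident factor against `alX`.
-/

set_option autoImplicit false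
set_option linter.unusedSectionVars false
set_option linter.unusedVariables false
open Finset

namespace Crest.Agent.R4P.CzSum36

open Crest.Agent.R4.Tour104 Crest.Agent.R4.Tour758 Crest.Agent.R4.Avg758 Crest.Agent.R4.Clos758
open Crest.Agent.R4.ClosL758 Crest.Agent.R4.ClosG758 Crest.Agent.R4.ClosR758
open Crest.Agent.R4.Fam464 Crest.Agent.R4P.Cnt588 Crest.Agent.R4P.Walk560 Crest.Agent.R4.Piece464
open Crest.Agent.R4P.Item758 Crest.Agent.R4P.AvgItem710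
open Crest.Agent.R4P.Data758 Crest.Agent.R4P.WalkIT579
open Crest.Agent.R4P.Bld532 (NS All NodeOk Bk)
open Crest.Agent.R4P.Res927 Crest.Agent.R4P.GSt927
open Crest.Agent.R4P.Skel189 (Ctx top Part PartW)
open Crest.Agent.R4.Soft104
open Crest.Agent.R4P.CrsFacts26 Crest.Agent.R4P.AsmX26
open Crest.Agent.R4P.StratN36 (ex)
open Crest.Agent.R4.AvgItem710 (rf)
open Crest.Agent.R4P.LLTot33 (xR yR)
open Crest.Agent.R4.CrossShot709 (lev)
open Crest.Agent.R4P.NumCls32 Crest.Agent.R4P.StripP33 Crest.Agent.R4P.ShotP33 Crest.Agent.R4P.BrP33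
open Crest.Agent.R4P.ShotTot33 (fe mc)
open Crest.Agent.R4.DeepSt579 (tq tq_nonneg tq_mono rd)
open Crest.Agent.R4P.ClsCtx36 Crest.Agent.R4P.PotSum32 Crest.Agent.R4P.ClsSh36 Crest.Agent.R4P.TotC36
open Crest.Agent.R4P.CrossLoc25 (FL VxL)
open Crest.Agent.R4P.SameIx30 (Vm)
open Crest.Agent.R4P.NumTot33
open Crest.Agent.R4P.StopLeaf28 (LoSt)
open Crest.Agent.R4.CrossLoc709 (SE)
open Crest.Agent.R4.NMW710 (Dq)
open Crest.Agent.R4P.LinkC33
open Crest.Agent.R4P.IvX29 (LkG)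
open Crest.Agent.R4P.Link758 (MF)
open Crest.Agent.R4.ClsS (eps1)
open Crest.Agent.R4.ShotG223 (eps2 acc acc_nonneg)
open Crest.Agent.R4P.ExitSum32 (Exa Exa_nonneg)
open Crest.Agent.R4P.AccAl31 (alX)
open Crest.Agent.R4P

/-! ### the threshold predicate -/

lemma LoSt_LoD {T T' : ℝ} {p0 : ℕ} {ρ : ℕ → ℝ} {M b pr M' b' pr' : ℕ} {e : ℕ × ℕ} (hT : T ≤ T')
    (h : LoSt T p0 ρ (xR M pr M' pr') (yR M pr M' pr') (SE M b pr M' b' pr' e) e) :
    LoD T' (Dq ρ M b pr 1 M' b' pr' 1) (xR M pr M' pr') (yR M pr M' pr') e := by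
  rcases LoA_of_LoSt (b := b) (b' := b') rfl rfl h with h1 | h1 | h1
  · exact Or.inl (h1.trans hT)
  · exact Or.inr (Or.inl h1)
  · exact Or.inr (Or.inr h1)

/-! ### accidents -/

lemma alf_le {A γ : ℝ} {b : ℕ} (hb : b.Prime) (B B' : ℕ) (i j : ℕ) :
    alf A b (if b ∣ B ∨ b ∣ B' then b else 1) (if i < j then (B:ℝ) * γ else (B':ℝ) * γ) ≤
      alX A γ (1/(1-(1/2+eps2))) b B + alX A γ (1/(1-(1/2+eps2))) b B' := by
  have he : eps2 = 1/4000 := rfl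
  have hσ : (1:ℝ) - (1/2+eps2) = 1999/4000 := by rw [he]; norm_num
  set E : ℝ := 1/(1-(1/2+eps2)) with hE
  have hE0 : 0 < E := by rw [hE, hσ]; norm_num
  have hE1 : 1/E = 1-(1/2+eps2) := by rw [hE, one_div_one_div]
  have hb1 : b ≠ 1 := hb.one_lt.ne'
  -- one side
  have one : ∀ B : ℕ, acc A b ((B:ℝ) * γ) + (Exa A b ((B:ℝ) * γ))^(1-(1/2+eps2)) +
      (if b ∣ B then (b:ℝ)^((6/1000):ℝ) else 0) ≤ alX A γ E b B := by
    intro B
    unfold AccAl31.alX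
    refine add_le_add (add_le_add le_rfl ?_) le_rfl
    rw [← hE1]
    refine Real.rpow_le_rpow (Exa_nonneg _ _ _) ?_ (by positivity)
    unfold ExitSum32.Exa
    rw [← hE]
    have e1 : ∀ l : ℕ, (l:ℝ) * ((B:ℝ) * γ) = ((B * l : ℕ) : ℝ) * γ := fun l => by push_cast; ring
    simp only [e1]
    refine Finset.sum_le_sum_of_subset_of_nonneg ?_ fun l _ _ =>
      mul_nonneg (Real.rpow_nonneg (Nat.cast_nonneg _) _) (Real.rpow_nonneg (acc_nonneg _ _ _) _)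
    exact Finset.filter_subset_filter _ (Finset.range_subset_range.2 (Nat.le_succ b))
  have n0 : ∀ B : ℕ, 0 ≤ acc A b ((B:ℝ) * γ) + (Exa A b ((B:ℝ) * γ))^(1-(1/2+eps2)) := fun B =>
    add_nonneg (acc_nonneg _ _ _) (Real.rpow_nonneg (Exa_nonneg _ _ _) _)
  have hp : (0:ℝ) ≤ (b:ℝ)^((6/1000):ℝ) := by positivity
  have h1 := one B
  have h2 := one B'
  have h3 := n0 B
  have h4 := n0 B'
  have hlast : (if (if b ∣ B ∨ b ∣ B' then b else 1) = 1 then (0:ℝ)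
      else ((if b ∣ B ∨ b ∣ B' then b else 1 : ℕ):ℝ)^(6/1000:ℝ)) ≤
      (if b ∣ B then (b:ℝ)^((6/1000):ℝ) else 0) + (if b ∣ B' then (b:ℝ)^((6/1000):ℝ) else 0) := by
    by_cases hd : b ∣ B ∨ b ∣ B'
    · rw [if_pos hd, if_neg hb1]
      rcases hd with hd | hd
      · rw [if_pos hd]
        split_ifs <;> linarith
      · rw [if_pos hd]
        split_ifs <;> linarith
    · rw [if_neg hd, if_pos rfl]
      split_ifs <;> linarith
  unfold PotSum32.alf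
  by_cases hij : i < j
  · rw [if_pos hij]
    linarith
  · rw [if_neg hij]
    linarith

section ctx
variable {N : Skel189.Num} {γ : ℝ} {p0 P₀ : ℕ} {X : Ctx N γ p0 P₀} {j₀ : X.c.Lam} {Q' : NS → IT → Prop}
  {b : ℕ} {z : X.Sta} {v v' : NS} {σ σ' : IT} {Qp : NS → IT → Prop} {CL : ℝ}

/-- the scale pair at the crossing state -/
noncomputable abbrev SEz (z : X.Sta) (v v' : NS) (e : ℕ × ℕ) : ℝ × ℝ := SE z.M v.B v.A z.M' v'.B v'.A e

/-- the pairs which count at a state below (any column `l ≤ b`) -/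
def PV (X : Ctx N γ p0 P₀) (Qp : NS → IT → Prop) (b : ℕ) (z : X.Sta) (v v' : NS) (e : ℕ × ℕ) : Prop :=
  ∃ l : ℕ, l.Prime ∧ p0 < l ∧ l ≤ b ∧ LkG (X.c.D.par X.Y) Qp (SEz z v v' e) l e

/-- the pairs which count at the column `l` -/
def Pc (X : Ctx N γ p0 P₀) (Qp : NS → IT → Prop) (z : X.Sta) (v v' : NS) (l : ℕ) (e : ℕ × ℕ) : Prop :=
  LkG (X.c.D.par X.Y) Qp (SEz z v v' e) l e

/-- the pairs which count at the exit of the column `l` -/
def Px (X : Ctx N γ p0 P₀) (Qp : NS → IT → Prop) (z : X.Sta) (v v' : NS) (l : ℕ) (e : ℕ × ℕ) : Prop :=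
  LkG (X.c.D.par X.Y) Qp (l * (SEz z v v' e).1, l * (SEz z v v' e).2) l e

/-- the letter of the missed column -/
def a0 (b B B' : ℕ) : ℕ := if b ∣ B ∨ b ∣ B' then b else 1

lemma a0_pos (hb : 0 < b) (B B' : ℕ) : 1 ≤ a0 b B B' := by unfold a0; split_ifs <;> omega

lemma a0_le (hb : 0 < b) (B B' : ℕ) : a0 b B B' ≤ b := by unfold a0; split_ifs <;> omega

/-- what the numbers need at the crossing state -/
structure Nm (X : Ctx N γ p0 P₀) (Qp : NS → IT → Prop) (cl : ℝ) (b : ℕ) : Prop where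
  mf : ∀ u τ, Qp u τ → MF X.c.t u τ
  bt : b ≤ top X.S
  lv : 4 ≤ lev cl b
  thr : ∀ l : ℕ, p0 < l → l ≤ b → 1 / (2:ℝ) ^ (lev cl b) ≤ X.c.wp.thr l
  lam : ∀ l, X.c.lam l = 0

/-- **`FAll` at the letters of the state** -/
theorem fallA {C CT cl T K : ℝ} (h : CZ X j₀ Q' b z v v' σ σ') (hC : CF X CL b z v v' σ σ')
    (hn : Nm X Qp cl b) (hρ : ∀ q, 0 < X.c.rr q) (hl : 8 ≤ Real.log b)
    (hT : T ≤ (Real.log b)^CT) (hK0 : 0 ≤ K) (hK : K ≤ (Real.log b)^C) {F : ℕ × ℕ → ℝ}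
    (hF : ∀ e ∈ SI X σ.items ×ˢ SI X σ'.items, F e ≤ K * ((v.B:ℝ) * v'.B *
      UV (LoSt T p0 X.c.rr (xR z.M v.A z.M' v'.A) (yR z.M v.A z.M' v'.A)) (PV X Qp b z v v')
        (PV X Qp b z v v') X.c.rr X.c.γ (SEz z v v' e) e)) :
    FAll (C+1) CT cl b z.M v.B v.A 1 z.M' v'.B v'.A 1 (a0 b v.B v'.B) X.c.γ (v.B * X.c.γ) (v'.B * X.c.γ)
      X.c.rr (SI X σ.items) (SI X σ'.items) F := by
  refine FAll_of (CF.ax hC hρ) hl hK0 hK hF (fun e _ h1 => LoSt_LoD hT h1) ?_ ?_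
  · rintro e he ⟨l, l1, l2, l3, l4⟩
    have h1 := (mem_SI.1 (Finset.mem_product.1 he).1).1
    exact ctx_rel h h1 l4
  · rintro e he ⟨l, l1, l2, l3, l4⟩ hne hFS
    have h1 := (mem_SI.1 (Finset.mem_product.1 he).1).1
    have h2 := (mem_SI.1 (Finset.mem_product.1 he).2).1
    have h3 := (ctx_link h hn.mf l1 l3 hn.bt h1 h2 l4 hn.lv le_rfl (hn.thr l l2 l3) (hn.lam l) hFS).1 hne
    have h4 := FLow.mono_a h3 (aL_le (B := v.B) (B' := v'.B) (l := l) h.bp.pos) (AX.Dq0 (CF.ax hC hρ) he).le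
    simp only [Nat.cast_one, div_one] at h4
    exact h4

/-- the letters of an exit -/
lemma ax_raise {M b pr M' b' pr' s l : ℕ} {ρ : ℕ → ℝ} {V W : Finset ℕ}
    (h : AX CL s M b pr 1 M' b' pr' 1 ρ V W) (hl : 0 < l) :
    AX CL s M (b * l) pr 1 M' (b' * l) pr' 1 ρ V W :=
  { h with hb := Nat.mul_pos h.hb hl, hb' := Nat.mul_pos h.hb' hl }

/-- **`FAll` of the exit at `l < b`** -/
theorem fallX {C CT cl T K : ℝ} (h : CZ X j₀ Q' b z v v' σ σ') (hC : CF X CL b z v v' σ σ')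
    (hn : Nm X Qp cl b) (hρ : ∀ q, 0 < X.c.rr q) (hl : 8 ≤ Real.log b)
    (hT : T ≤ (Real.log b)^CT) (hK0 : 0 ≤ K) (hK : K ≤ (Real.log b)^C) {l : ℕ} (lp : l.Prime)
    (lb : l < b) (hmt : ∀ q ∈ σ.items, ∀ l ∈ σ.mt q, p0 < l) (hmt' : ∀ q ∈ σ'.items, ∀ l ∈ σ'.mt q, p0 < l)
    {PP : ℕ × ℕ → Prop} :
    FAll (C+1) CT cl b z.M (v.B * l) v.A 1 z.M' (v'.B * l) v'.A 1 l X.c.γ ((l:ℝ) * (v.B * X.c.γ))
      ((l:ℝ) * (v'.B * X.c.γ)) X.c.rr (SI X σ.items) (SI X σ'.items)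
      (fun e => (l:ℝ)^2 * (K * fx (VxL (Px X Qp z v v') X.c.γ X.c.rr
        (LoSt T p0 X.c.rr (xR z.M v.A z.M' v'.A) (yR z.M v.A z.M' v'.A)))
        z.M v.B v.A z.M' v'.B v'.A σ σ' l e)) := by
  have hax := ax_raise (CF.ax hC hρ) lp.pos
  have e1 : ∀ B : ℕ, (l:ℝ) * ((B:ℝ) * X.c.γ) = ((B * l : ℕ) : ℝ) * X.c.γ := fun B => by push_cast; ring
  rw [e1, e1]
  refine FAll_of (P := fun e => p0 < l ∧ Px X Qp z v v' l e) (PP := PP)
    (Lo := LoSt T p0 X.c.rr (xR z.M v.A z.M' v'.A) (yR z.M v.A z.M' v'.A)) hax hl hK0 hK ?_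
    (fun e _ h1 => LoSt_LoD hT h1) ?_ ?_
  · intro e he
    have hq := (mem_SI.1 (Finset.mem_product.1 he).1).1
    have hr := (mem_SI.1 (Finset.mem_product.1 he).2).1
    have hSE := SE_mul l z.M v.B v.A z.M' v'.B v'.A e
    have hU0 : 0 ≤ UV (LoSt T p0 X.c.rr (xR z.M v.A z.M' v'.A) (yR z.M v.A z.M' v'.A))
        (fun e => p0 < l ∧ Px X Qp z v v' l e) PP X.c.rr X.c.γ (SE z.M (v.B * l) v.A z.M' (v'.B * l) v'.A e) e :=
      UV_nonneg hρ _ _
    have key : fx (VxL (Px X Qp z v v') X.c.γ X.c.rr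
        (LoSt T p0 X.c.rr (xR z.M v.A z.M' v'.A) (yR z.M v.A z.M' v'.A)))
        z.M v.B v.A z.M' v'.B v'.A σ σ' l e ≤ (v.B:ℝ) * v'.B *
        UV (LoSt T p0 X.c.rr (xR z.M v.A z.M' v'.A) (yR z.M v.A z.M' v'.A))
        (fun e => p0 < l ∧ Px X Qp z v v' l e) PP X.c.rr X.c.γ (SE z.M (v.B * l) v.A z.M' (v'.B * l) v'.A e) e := by
      unfold TotC36.fx
      refine mul_le_mul_of_nonneg_left ?_ (by positivity)
      by_cases hm : l ∈ σ.mt e.1 ∪ σ'.mt e.2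
      · rw [if_pos hm]
        have hlp : p0 < l := by
          rcases Finset.mem_union.1 hm with hm | hm
          · exact hmt _ hq _ hm
          · exact hmt' _ hr _ hm
        unfold CrossLoc25.VxL
        by_cases hP : Px X Qp z v v' l e
        · rw [if_pos hP]
          unfold TotC36.UV
          rw [if_pos ⟨hlp, hP⟩, hSE]
          exact le_add_of_nonneg_right (SameIx30.Vm_nonneg hρ _ _ _)
        · rw [if_neg hP]; exact hU0
      · rw [if_neg hm]; exact hU0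
    have hl2 : (0:ℝ) ≤ (l:ℝ)^2 := by positivity
    calc (l:ℝ)^2 * (K * fx (VxL (Px X Qp z v v') X.c.γ X.c.rr
        (LoSt T p0 X.c.rr (xR z.M v.A z.M' v'.A) (yR z.M v.A z.M' v'.A)))
        z.M v.B v.A z.M' v'.B v'.A σ σ' l e) ≤ (l:ℝ)^2 * (K * ((v.B:ℝ) * v'.B *
        UV (LoSt T p0 X.c.rr (xR z.M v.A z.M' v'.A) (yR z.M v.A z.M' v'.A))
        (fun e => p0 < l ∧ Px X Qp z v v' l e) PP X.c.rr X.c.γ (SE z.M (v.B * l) v.A z.M' (v'.B * l) v'.A e) e)) :=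
          mul_le_mul_of_nonneg_left (mul_le_mul_of_nonneg_left key hK0) hl2
      _ = _ := by push_cast; ring
  · rintro e he ⟨l2, l4⟩
    have h1 := (mem_SI.1 (Finset.mem_product.1 he).1).1
    exact ctx_relX h h1 l4
  · rintro e he ⟨l2, l4⟩ hne hFS
    have h1 := (mem_SI.1 (Finset.mem_product.1 he).1).1
    have h2 := (mem_SI.1 (Finset.mem_product.1 he).2).1
    have h3 := (ctx_linkX h hn.mf lp lb.le hn.bt h1 h2 l4 hn.lv le_rfl (hn.thr l l2 lb.le) (hn.lam l) hFS).1 hne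
    rw [aL_lt lb, one_mul] at h3
    simp only [Nat.cast_one, div_one] at h3
    exact h3

end ctx

end Crest.Agent.R4P.CzSum36
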