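import Crest.Agent.R4P.Dd_26
import Crest.Agent.R4P.CrossSum_29
import Crest.Agent.R4P.CtxX_26
import Crest.Agent.R4P.BldC153

/-!
R4 (S0004) with powers, helper26: **dead pulls occur only at the column of the SEP node above**.

* `DN`, `DN_toDT` : a dead non-leaf child of a node has the column of the node.
* `DJ` : invariant of the pair walk: a dead non-leaf side has the current column; `DJ.step`.
* `DJ.hL`, `DJ.hR` : at a one-sided add step the partner is not dead.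
* `All_PZ`, `DJ.self`.
-/

set_option autoImplicit false
set_option linter.unusedSectionVars false
set_option linter.unusedVariables false

namespace Crest.Agent.R4P.DeadX26

open Crest.Agent.R4.Tour104 Crest.Agent.R4.Tour758 Crest.Agent.R4.Avg758 Crest.Agent.R4.Clos758
open Crest.Agent.R4.ClosL758 Crest.Agent.R4.ClosG758 Crest.Agent.R4.ClosR758
open Crest.Agent.R4.Fam464 Crest.Agent.R4P.Cnt588 Crest.Agent.R4P.Walk560 Crest.Agent.R4.Piece464
open Crest.Agent.R4P.Item758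
open Crest.Agent.R4P.Bld532 (NS All NodeOk Bk)
open Crest.Agent.R4P.Res927 Crest.Agent.R4P.CrossSum29 Crest.Agent.R4P.Dd26
open Crest.Agent.R4P.PhiU820 (PlOk Nxt)
open Crest.Agent.R4P

section tree
variable {Λ κ : Type*} [Fintype Λ] [DecidableEq Λ] [Fintype κ] [DecidableEq κ] [WRel κ]

/-- dead and not a leaf -/
def dp (t : DT Λ κ) : Prop := dd t ∧ ¬ t.isLeaf

/-- a dead non-leaf child of a node has the column of the node -/
def DN : DT Λ κ → Prop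
  | .leaf _ _ => True
  | .br p w _ t₁ t₀ _ _ _ => (w ≠ 0 → ¬ dp t₁ ∧ ¬ dp t₀) ∧ (w = 0 → dp t₁ → t₁.top = p)
  | .add p _ t₁ t₀ => (dp t₁ → t₁.top = p) ∧ (dp t₀ → t₀.top = p)
  | .up _ _ t => ¬ dp t

lemma dp_add {b : ℕ} {r : Λ → κ} {t₁ t₀ : DT Λ κ} : ¬ dp (.add b r t₁ t₀) := fun h => h.1

lemma dp_up {b : ℕ} {Sp : Finset Λ} {t : DT Λ κ} : ¬ dp (.up b Sp t) := fun h => h.1

lemma dp_leaf {r : Λ → κ} {f : Λ → ℝ → ℝ} : ¬ dp (.leaf r f) := fun h => h.2 trivial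

variable (D : Item758.Par Λ κ) (sp : ℕ → Finset Λ)

/-- a dead tree of items has no tie below its pulls -/
lemma not_Nxt_of_dd {p : ℕ} : ∀ (t : IT) (b pr : ℕ), t.Ok p → dd (D.toDT sp b pr t) → 
    ∀ q, ¬ Nxt q t := by
  intro t
  induction t generalizing p with
  | leaf S => intro b pr _ _ q h; exact h
  | br r Sp t₁ t₀ _ _ =>
    intro b pr ho h q _
    have h1 : (1 / (r : ℝ)) = 0 := h.1
    have h2 : (r : ℝ) ≠ 0 := Nat.cast_ne_zero.2 (ho.1.pos.ne')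
    exact absurd h1 (one_div_ne_zero h2)
  | add r t₁ t₀ _ _ => intro b pr _ h q _; exact h
  | up r Sp t _ => intro b pr _ h q _; exact h
  | pl r t ih => intro b pr ho h q hq; exact ih b (pr * r) ho.2.2 h.2 q hq.2
  | far r t₁ t₀ _ _ => intro b pr _ h q _; exact h

/-- a dead non-leaf tree of items starts with a pull at a column of `Z` -/
lemma dp_mem {n : ℕ} {Z : Finset ℕ} (t : IT) (b pr : ℕ) (ho : t.Ok n) (hP : PlOk Z t)
    (h : dp (D.toDT sp b pr t)) : (D.toDT sp b pr t).top ∈ Z ∧ (D.toDT sp b pr t).top < n := by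
  cases t with
  | leaf S => exact absurd h dp_leaf
  | br r Sp t₁ t₀ =>
    have h1 : (1 / (r : ℝ)) = 0 := h.1.1
    have h2 : (r : ℝ) ≠ 0 := Nat.cast_ne_zero.2 (ho.1.pos.ne')
    exact absurd h1 (one_div_ne_zero h2)
  | add r t₁ t₀ => exact absurd h dp_add
  | up r Sp t => exact absurd h dp_up
  | pl r t =>
    refine ⟨?_, ho.2.1⟩
    rcases hP.1 with h1 | h1
    · exact h1
    · exact absurd h1 (not_Nxt_of_dd D sp t b (pr * r) ho.2.2 h.1.2 r)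
  | far r t₁ t₀ => exact absurd h dp_add

/-- **the nodes of a tree of items** -/
theorem DN_toDT : ∀ (t : IT) (n : ℕ) (Z : Finset ℕ) (b pr : ℕ), t.Ok n → PlOk Z t →
    (∀ z ∈ Z, n ≤ z + 1) → (D.toDT sp b pr t).All DN := by
  intro t
  induction t with
  | leaf S => intro n Z b pr _ _ _; trivial
  | br r Sp t₁ t₀ ih₁ ih₀ =>
    intro n Z b pr ho hP hZ
    obtain ⟨h1, h2, -, -, h4, h5⟩ := ho
    have hZ' : ∀ z ∈ insert r Z, r ≤ z := by
      intro z hz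
      rcases Finset.mem_insert.1 hz with rfl | hz
      · exact le_rfl
      · have := hZ z hz; omega
    refine ⟨⟨fun _ => ⟨fun h => ?_, fun h => ?_⟩, fun h => ?_⟩,
      ih₁ r _ _ _ h4 hP.1 fun z hz => (hZ' z hz).trans (Nat.le_succ z),
      ih₀ r _ _ _ h5 hP.2 fun z hz => (hZ' z hz).trans (Nat.le_succ z)⟩
    · obtain ⟨k1, k2⟩ := dp_mem D sp t₁ _ _ h4 hP.1 h
      exact absurd k2 (not_lt.2 (hZ' _ k1))
    · obtain ⟨k1, k2⟩ := dp_mem D sp t₀ _ _ h5 hP.2 h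
      exact absurd k2 (not_lt.2 (hZ' _ k1))
    · have h2 : (r : ℝ) ≠ 0 := Nat.cast_ne_zero.2 (h1.pos.ne')
      exact absurd h (one_div_ne_zero h2)
  | add r t₁ t₀ ih₁ ih₀ =>
    intro n Z b pr ho hP hZ
    obtain ⟨h1, h2, -, h4, h5⟩ := ho
    have hZ' : ∀ z ∈ insert r Z, r + 1 ≤ z + 1 := by
      intro z hz
      rcases Finset.mem_insert.1 hz with rfl | hz
      · exact le_rfl
      · have := hZ z hz; omega
    refine ⟨⟨fun h => ?_, fun h => ?_⟩, ih₁ _ _ _ _ h4 hP.1 hZ', ih₀ _ _ _ _ h5 hP.2 hZ'⟩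
    · obtain ⟨k1, k2⟩ := dp_mem D sp t₁ _ _ h4 hP.1 h
      have := hZ' _ k1; omega
    · obtain ⟨k1, k2⟩ := dp_mem D sp t₀ _ _ h5 hP.2 h
      have := hZ' _ k1; omega
  | up r Sp t ih =>
    intro n Z b pr ho hP hZ
    obtain ⟨h1, h2, -, h4⟩ := ho
    refine ⟨fun h => ?_, ih r _ _ _ h4 hP fun z hz => by have := hZ z hz; omega⟩
    obtain ⟨k1, k2⟩ := dp_mem D sp t _ _ h4 hP h
    have := hZ _ k1; omega
  | pl r t ih =>
    intro n Z b pr ho hP hZ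
    obtain ⟨h1, h2, h4⟩ := ho
    refine ⟨⟨fun h => absurd rfl h, fun _ h => ?_⟩,
      ih (r + 1) _ _ _ h4 hP.2 fun z hz => by have := hZ z hz; omega, trivial⟩
    obtain ⟨k1, k2⟩ := dp_mem D sp t _ _ h4 hP.2 h
    have := hZ _ k1; omega
  | far r t₁ t₀ ih₁ ih₀ =>
    intro n Z b pr ho hP hZ
    obtain ⟨h1, h2, -, h4, h5⟩ := ho
    have hZ' : ∀ z ∈ Z, r + 1 ≤ z + 1 := by
      intro z hz
      have := hZ z hz; omega
    refine ⟨⟨fun h => ?_, fun h => ?_⟩, ih₁ _ _ _ _ h4 hP.1 hZ', ih₀ _ _ _ _ h5 hP.2 hZ'⟩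
    · obtain ⟨k1, k2⟩ := dp_mem D sp t₁ _ _ h4 hP.1 h
      have := hZ' _ k1; omega
    · obtain ⟨k1, k2⟩ := dp_mem D sp t₀ _ _ h5 hP.2 h
      have := hZ' _ k1; omega

/-- the columns `Z` of all nodes -/
theorem All_PZ : ∀ (t : IT) (u : NS) (Z : Finset ℕ), t.Ok u.n → PlOk Z t →
    (∀ z ∈ Z, u.n ≤ z + 1) →
    All (fun u τ => ∃ Z, PlOk Z τ ∧ τ.Ok u.n ∧ ∀ z ∈ Z, u.n ≤ z + 1) u t := by
  intro t
  induction t with
  | leaf S => intro u Z ho hP hZ; exact ⟨Z, hP, ho, hZ⟩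
  | br r Sp t₁ t₀ ih₁ ih₀ =>
    intro u Z ho hP hZ
    have hZ' : ∀ z ∈ insert r Z, r ≤ z + 1 := by
      intro z hz
      rcases Finset.mem_insert.1 hz with rfl | hz
      · exact Nat.le_succ _
      · have := hZ z hz; have := ho.2.1; omega
    exact ⟨⟨Z, hP, ho, hZ⟩, ih₁ ⟨r, _, _, _⟩ _ ho.2.2.2.2.1 hP.1 hZ',
      ih₀ ⟨r, _, _, _⟩ _ ho.2.2.2.2.2 hP.2 hZ'⟩
  | add r t₁ t₀ ih₁ ih₀ =>
    intro u Z ho hP hZ
    have hZ' : ∀ z ∈ insert r Z, r + 1 ≤ z + 1 := by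
      intro z hz
      rcases Finset.mem_insert.1 hz with rfl | hz
      · exact le_rfl
      · have := hZ z hz; have := ho.2.1; omega
    exact ⟨⟨Z, hP, ho, hZ⟩, ih₁ ⟨r + 1, _, _, _⟩ _ ho.2.2.2.1 hP.1 hZ',
      ih₀ ⟨r + 1, _, _, _⟩ _ ho.2.2.2.2 hP.2 hZ'⟩
  | up r Sp t ih =>
    intro u Z ho hP hZ
    exact ⟨⟨Z, hP, ho, hZ⟩, ih ⟨r, _, _, _⟩ Z ho.2.2.2 hP fun z hz => by
      have := hZ z hz; have := ho.2.1; show r ≤ z + 1; omega⟩
  | pl r t ih =>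
    intro u Z ho hP hZ
    exact ⟨⟨Z, hP, ho, hZ⟩, ih ⟨r + 1, _, _, _⟩ Z ho.2.2 hP.2 fun z hz => by
      have := hZ z hz; have := ho.2.1; show r + 1 ≤ z + 1; omega⟩
  | far r t₁ t₀ ih₁ ih₀ =>
    intro u Z ho hP hZ
    have hZ' : ∀ z ∈ Z, r + 1 ≤ z + 1 := by
      intro z hz
      have := hZ z hz; have := ho.2.1; omega
    exact ⟨⟨Z, hP, ho, hZ⟩, ih₁ ⟨r + 1, _, _, _⟩ _ ho.2.2.2.1 hP.1 hZ',
      ih₀ ⟨r + 1, _, _, _⟩ _ ho.2.2.2.2 hP.2 hZ'⟩

end tree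

/-! ### the invariant -/

section walk
variable {Λ κ : Type*} [Fintype Λ] [DecidableEq Λ] [Fintype κ] [DecidableEq κ] [WRel κ]
  {stp : Stp Λ κ}

/-- a dead non-leaf side has the current column -/
structure DJ (s : St Λ κ) : Prop where
  L : s.t.All DN
  R : s.t'.All DN
  dL : dp s.t → s.t.top = s.p
  dR : dp s.t' → s.t'.top = s.p

lemma dp_mv {dv : DT Λ κ → Λ → Prop} {p : ℕ} {t : DT Λ κ} {A : Finset Λ} {u : Finset ℕ} {a : ℝ}
    {f : Λ → Prop} {t₁ : DT Λ κ} {A₁ : Finset Λ} {u₁ : Finset ℕ}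
    (h : Mv dv p t A u a f t₁ A₁ u₁) (ha : a ≠ 0) (hN : t.All DN) (hd : dp t → t.top = p) :
    dp t₁ → t₁.top = p := by
  have hup : ∀ {Sp : Finset Λ} {c : DT Λ κ}, vw p t = .up Sp c → ¬ dp c := by
    intro Sp c hv hc
    rcases vw_up hv with rfl | ⟨-, rfl, h1 | h1⟩
    · exact hN.1 hc
    · exact hc.2 h1
    · exact h1 (hd hc)
  cases h with
  | stay => exact hd
  | br1 h =>
    rw [vw_br h] at hN
    intro hc
    rename_i w₀ _ _ _ _ _
    by_cases hw0 : w₀ = 0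
    · exact hN.1.2 hw0 hc
    · exact absurd hc (hN.1.1 hw0).1
  | br0 h =>
    rw [vw_br h] at hN
    intro hc
    exact absurd hc (hN.1.1 ha).2
  | ad1 h => rw [vw_add h] at hN; exact hN.1.1
  | ad0 h => rw [vw_add h] at hN; exact hN.1.2
  | up h => intro hc; exact absurd hc (hup h)
  | upI h => intro hc; exact absurd hc (hup h)
  | upD h => intro hc; exact absurd hc (hup h)

/-- **the invariant is preserved** -/
theorem DJ.step {dv : DT Λ κ → Λ → Prop} {x : XSt Λ κ} (hx : XI x) (h : DJ x.s) :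
    ∀ e ∈ steps stp dv x, DJ e.y.s := by
  intro e he
  obtain ⟨hm, ha, ha'⟩ := steps_mv he
  have h1 : e.y.s.p ≤ x.s.p := (steps_top hx he).2.2.1
  have kL := dp_mv hm.L ha h.L h.dL
  have kR := dp_mv hm.R ha' h.R h.dR
  refine ⟨hm.L.all h.L, hm.R.all h.R, fun hd => ?_, fun hd => ?_⟩
  · exact le_antisymm (le_max_left _ _) (by rw [kL hd]; exact h1)
  · exact le_antisymm (le_max_right _ _) (by rw [kR hd]; exact h1)

/-- self states -/
theorem DJ.self {d : DT Λ κ} {A : Finset Λ} (h : d.All DN) : DJ (selfSt d A) := by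
  have e : (selfSt d A : St Λ κ).p = d.top := max_self _
  exact ⟨h, h, fun _ => e.symm, fun _ => e.symm⟩

/-- a dead non-leaf node of the current column is a pull -/
lemma dp_pull {p : ℕ} {t : DT Λ κ} (h : dp t) (hp : t.top = p) : ∃ r t₁ t₀ v B G,
    vw p t = .br 0 r t₁ t₀ v B G := by
  cases t with
  | leaf r f => exact absurd h dp_leaf
  | br q w r t₁ t₀ v B G =>
    have h1 : w = 0 := h.1.1
    have h2 : q = p := hp
    subst h1 h2
    exact ⟨r, t₁, t₀, v, B, G, by simp [vw]⟩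
  | add q r t₁ t₀ => exact absurd h dp_add
  | up q Sp t => exact absurd h dp_up

lemma vw_add_self {p : ℕ} {r : Λ → κ} {t₁ t₀ t : DT Λ κ} (h : t = .add p r t₁ t₀) :
    vw p t = .add r t₁ t₀ := by
  rw [h]; simp [vw]

/-- **at a one-sided add step the partner is not dead** -/
theorem DJ.hL {s : St Λ κ} (h : DJ s) {r : Λ → κ} {t₁ t₀ : DT Λ κ} (ho : OneL stp s r t₁ t₀) :
    ¬ dd s.t' := by
  intro hd
  have h1 : dp s.t' := ⟨hd, ho.prp.nl'⟩
  obtain ⟨r', t₁', t₀', v, B, G, hv⟩ := dp_pull h1 (h.dR h1)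
  exact (St.not_isPR_add ho.prp.npr (vw_add_self ho.et) hv).2 rfl

theorem DJ.hR {s : St Λ κ} (h : DJ s) {r : Λ → κ} {t₁ t₀ : DT Λ κ} (ho : OneR stp s r t₁ t₀) :
    ¬ dd s.t := by
  intro hd
  have h1 : dp s.t := ⟨hd, ho.prp.nl⟩
  obtain ⟨r', t₁', t₀', v, B, G, hv⟩ := dp_pull h1 (h.dL h1)
  exact (St.not_isPL_add ho.prp.npl hv (vw_add_self ho.et)).2 rfl

end walk

end Crest.Agent.R4P.DeadX26
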