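import Crest.Agent.R4P.InG1_28
import Crest.Agent.R4.RseN207

/-!
R4P (S0004, powers), [W-dseR], helper28: **two unlabelled items of one node** (helper23 #5425).

* `FSe_spec` : what the structured class of one target says: one label `ρ` for both items (radius `η R`), exact relation;
* `Lab_up` : a label at the radius `η r` is a label at the radius `r`;
* `dNN` : the pairs which are related but not structured have energy `≤ (log p)^(-K)` times the mass.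
-/

set_option autoImplicit false
open Finset

namespace Crest.Agent.R4P.DsD128

open Crest.Agent.R4
open Crest.Agent.R4.HVW560 Crest.Agent.R4.HVWX793
open Crest.Agent.R4.StopAsm709 Crest.Agent.R4.StopHvw709
open Crest.Agent.R4.ClsS (eps1)
open Crest.Agent.R4.LF363 (Lab)
open Crest.Agent.R4.InX944
open Crest.Agent.R4.Dich579 (FF)

/-- a label at a smaller radius -/
theorem Lab_up {θ η r : ℝ} {ρ : ℚ} (hη : 0 < η) (hη1 : η ≤ 1) (h : Lab θ (η * r) ρ)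
    (hr : r ≤ 1 / 10) (hd : (ρ.den : ℝ) ^ 5 * r ≤ 1) : Lab θ r ρ := by
  have hr0 : 0 < r := by
    have := h.pos
    by_contra hn
    have h1 : η * r ≤ 0 := mul_nonpos_of_nonneg_of_nonpos hη.le (not_lt.1 hn)
    linarith
  refine ⟨hr0, hr, hd, h.near.trans ?_⟩
  exact pow_le_pow_left₀ (mul_pos hη hr0).le (mul_le_of_le_one_left hr0.le hη1) 4

/-- two labels of one target with small denominators are equal -/
lemma eq_of_near {θ t : ℝ} {ρ σ : ℚ} (ht : (2:ℝ)^400 ≤ t) (h1 : (ρ.den:ℝ) ≤ t^(21/200:ℝ))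
    (h2 : (σ.den:ℝ) ≤ t^(21/200:ℝ)) (h3 : |θ - ρ| ≤ t^(39/200:ℝ) * (1/t))
    (h4 : |θ - σ| ≤ t^(39/200:ℝ) * (1/t)) : ρ = σ := by
  by_contra hne
  have ht0 := Dich579.t_pos ht
  have ht1 := Dich579.one_le_t ht
  have h4' := Dich579.four_le ht
  have e1 : t^(39/200:ℝ) * (1/t) = t^(-(161/200):ℝ) := by
    rw [Dich579.one_div_eq ht0, ← Real.rpow_add ht0]; norm_num
  rw [e1] at h3 h4
  have h5 : |(ρ:ℝ) - σ| ≤ 2 * t^(-(161/200):ℝ) := by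
    have : (ρ:ℝ) - σ = (θ - σ) - (θ - ρ) := by ring
    rw [this]
    exact (abs_sub _ _).trans (by linarith)
  have hk0 : (0:ℝ) < ρ.den := by exact_mod_cast ρ.den_pos
  have hl0 : (0:ℝ) < σ.den := by exact_mod_cast σ.den_pos
  have h6 : (ρ.den:ℝ) * σ.den ≤ t^(42/200:ℝ) := by
    calc (ρ.den:ℝ) * σ.den ≤ t^(21/200:ℝ) * t^(21/200:ℝ) := mul_le_mul h1 h2 hl0.le (by positivity)
      _ = t^(42/200:ℝ) := by rw [← Real.rpow_add ht0]; norm_num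
  -- the gap
  have h7 : 1 ≤ |(ρ:ℝ) - σ| * ((ρ.den:ℝ) * σ.den) := by
    have e2 : ((ρ:ℝ) - σ) * ((ρ.den:ℝ) * σ.den) = ((ρ.num * σ.den - σ.num * ρ.den : ℤ) : ℝ) := by
      have a1 : (ρ:ℝ) * ρ.den = ρ.num := by exact_mod_cast Rat.mul_den_eq_num ρ
      have a2 : (σ:ℝ) * σ.den = σ.num := by exact_mod_cast Rat.mul_den_eq_num σ
      push_cast
      rw [← a1, ← a2]; ring
    have e3 : |(ρ:ℝ) - σ| * ((ρ.den:ℝ) * σ.den) =
        |((ρ.num * σ.den - σ.num * ρ.den : ℤ) : ℝ)| := by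
      rw [← e2, abs_mul, abs_of_nonneg (mul_pos hk0 hl0).le]
    rw [e3, ← Int.cast_abs]
    have hne2 : (ρ.num * σ.den - σ.num * ρ.den : ℤ) ≠ 0 := by
      intro h0
      have b1 : ((ρ:ℝ) - σ) * ((ρ.den:ℝ) * σ.den) = 0 := by rw [e2, h0]; simp
      have b2 : (ρ:ℝ) - σ = 0 := (mul_eq_zero.1 b1).resolve_right (mul_pos hk0 hl0).ne'
      apply hne
      have : (ρ:ℝ) = σ := by linarith
      exact_mod_cast this
    exact_mod_cast Int.one_le_abs hne2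
  have h8 : |(ρ:ℝ) - σ| * ((ρ.den:ℝ) * σ.den) ≤ 2 * t^(-(161/200):ℝ) * t^(42/200:ℝ) :=
    mul_le_mul h5 h6 (mul_pos hk0 hl0).le (by positivity)
  have h9 : 2 * t^(-(161/200):ℝ) * t^(42/200:ℝ) < 1 := by
    have e2 : 2 * t^(-(161/200):ℝ) * t^(42/200:ℝ) = 2 * t^(-(119/200):ℝ) := by
      rw [mul_assoc, ← Real.rpow_add ht0]; norm_num
    rw [e2]
    calc 2 * t^(-(119/200):ℝ) ≤ t^(1/200:ℝ) * t^(-(119/200):ℝ) := by
          apply mul_le_mul_of_nonneg_right _ (by positivity)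
          linarith
      _ = t^(-(118/200):ℝ) := by rw [← Real.rpow_add ht0]; norm_num
      _ < t^(0:ℝ) := Real.rpow_lt_rpow_of_exponent_lt
          (lt_of_lt_of_le (by norm_num) (Dich579.ten_le ht)) (by norm_num)
      _ = 1 := Real.rpow_zero t
  linarith

/-- **the structured class of one target**: one label for both items, and the pair is exact for it -/
theorem FSe_spec {n : ℕ} {η θ : ℝ} {R R' : ℕ → ℝ} {e : ℕ × ℕ} (hn : 400 ≤ n)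
    (h : FSe n η θ θ R R' e) (hη : 0 < η) (hR : 0 < R e.1) (hR' : 0 < R' e.2) (h1 : 0 < e.1)
    (h2 : 0 < e.2) :
    ∃ (t : ℝ) (ρ : ℚ), (2:ℝ)^n ≤ t ∧ 1 / (2 * t) < η * DP R R' e ∧ η * DP R R' e ≤ 1 / t ∧
      Lab θ (η * R e.1) ρ ∧ Lab θ (η * R' e.2) ρ ∧ (ρ.den : ℝ) ≤ t ^ (21/200:ℝ) ∧
      |θ - ρ| ≤ t ^ (39/200:ℝ) * (η * R e.1) ∧ |θ - ρ| ≤ t ^ (39/200:ℝ) * (η * R' e.2) ∧
      |θ - ρ| * (ρ.den:ℝ)^8 ≤ 1 ∧
      ∀ m m' : ℤ, |(m + θ) * (cof e.2 e.1 : ℕ) - (m' + θ) * (cof e.1 e.2 : ℕ)| ≤ η * DP R R' e →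
        ((m:ℝ) + ρ) * (cof e.2 e.1 : ℕ) = (m' + ρ) * (cof e.1 e.2 : ℕ) := by
  obtain ⟨t, m₀, m₀', ρ, ρ', k1, k2, k3, k4, k5, k6⟩ := h
  have hD : max ((cof e.2 e.1 : ℝ) * (η * R e.1)) ((cof e.1 e.2 : ℝ) * (η * R' e.2)) =
      η * DP R R' e := by
    unfold DP
    rw [mul_max_of_nonneg _ _ hη.le]
    congr 1 <;> ring
  rw [hD] at k2 k3
  have ht4 : (2:ℝ)^400 ≤ t := (pow_le_pow_right₀ (by norm_num) hn).trans k1
  have ht0 := Dich579.t_pos ht4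
  have hx : (1:ℝ) ≤ (cof e.1 e.2 : ℕ) := by exact_mod_cast cof_pos h1
  have hy : (1:ℝ) ≤ (cof e.2 e.1 : ℕ) := by exact_mod_cast cof_pos h2
  have r1 : η * R e.1 ≤ 1 / t := by
    refine le_trans ?_ k3
    rw [← hD]
    exact le_trans (le_mul_of_one_le_left (mul_pos hη hR).le hy) (le_max_left _ _)
  have r2 : η * R' e.2 ≤ 1 / t := by
    refine le_trans ?_ k3
    rw [← hD]
    exact le_trans (le_mul_of_one_le_left (mul_pos hη hR').le hx) (le_max_right _ _)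
  have n1 : |θ - ρ| ≤ t^(39/200:ℝ) * (1/t) :=
    k5.near.trans (mul_le_mul_of_nonneg_left r1 (by positivity))
  have n2 : |θ - ρ'| ≤ t^(39/200:ℝ) * (1/t) :=
    k5.near'.trans (mul_le_mul_of_nonneg_left r2 (by positivity))
  have he : ρ = ρ' := eq_of_near ht4 k5.den k5.den' n1 n2
  subst he
  refine ⟨t, ρ, k1, k2, k3, k5.lab, k5.lab', k5.den, k5.near, k5.near', k5.pow, fun m m' hm => ?_⟩
  refine k5.exact m m' (hm.trans (k3.trans ?_))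
  have : 1 / t ≤ 2 / t := div_le_div_of_nonneg_right (by norm_num) ht0.le
  exact this

/-- **TWO UNLABELLED ITEMS OF ONE NODE** -/
theorem dNN (CL C2 A K : ℝ) (hA : 0 ≤ A) :
    ∃ p₁ : ℕ, ∀ p : ℕ, p₁ ≤ p → ∃ n : ℕ, 400 ≤ n ∧ Real.log p ^ A ≤ (2:ℝ)^n ∧
    ∀ (θ η : ℝ) (S : Finset ℕ) (E : Finset (ℕ × ℕ)) (R : ℕ → ℝ) (F : ℕ × ℕ → ℝ),
    0 < η → η ≤ Real.exp (-(Real.log p ^ (4/5:ℝ))) →
    E ⊆ S ×ˢ S → (∀ e ∈ E, e.1 ≠ e.2) →
    (∀ w ∈ S, 0 < w ∧ 0 < R w) → (∀ w ∈ S, R w ≤ CL * Real.log p * wt R w) →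
    (∀ z : ℝ, (p:ℝ)^2 ≤ z → ∀ w ∈ S, Crest.Agent.R4.ClsB.Tame z 1 w) →
    ∑ w ∈ S, wt R w ≤ Real.log p ^ C2 →
    (∀ e ∈ E, 0 ≤ F e) →
    (∀ e ∈ E, F e ≤ 2 * ((R e.1 * R e.2) / DP R R e) * (2 * η * DP R R e + 1)) →
    (∀ e ∈ E, 0 < F e → ∃ m m' : ℤ,
      |(m + θ) * (cof e.2 e.1 : ℕ) - (m' + θ) * (cof e.1 e.2 : ℕ)| ≤ η * DP R R e ∧
      ¬ FSe n η θ θ R R e) →
    ∑ e ∈ E, F e ≤ Real.log p ^ (-K) * ∑ w ∈ S, wt R w := by
  classical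
  obtain ⟨C, c0, hC1, hc0, hC⟩ := InG128.inG1
  set c1 : ℝ := min c0 (1 / (A + 1)) with hc1
  have hA1 : 0 < A + 1 := by linarith
  have hc10 : 0 < c1 := lt_min hc0 (by positivity)
  obtain ⟨T0, hT01, hT0⟩ := hC c1 hc10 (min_le_left _ _)
  obtain ⟨pa, hpa⟩ := RseN207.exists_scale (c1 := c1) (T0 := T0) hc10
  obtain ⟨pb, hpb⟩ := RseN207.log_large 2
  have hKH := KH_pos 1 0 eps1
  set a : ℝ := 1 / c1 with ha
  have ha0 : 0 < a := by positivity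
  set K1 : ℝ := 6 * CL ^ 2 * (8 * (2:ℝ) ^ (2 * a) * KH 1 0 eps1 + C) with hK1
  obtain ⟨pc, hpc⟩ := RseN207.small (2 * (6 * CL ^ 2)) (2 + C2 + K) (δ := 1) (by norm_num)
  obtain ⟨pd, hpd⟩ := RseN207.small (2 * K1) (2 + 2 * a + 2 * eps1 * C2 + K) (δ := 1) (by norm_num)
  refine ⟨pa + pb + pc + pd + 3, fun p hp => ?_⟩
  obtain ⟨n, hn, hTn, hXn, hn2⟩ := hpa p (by omega)
  have hl2 : 2 ≤ Real.log (p:ℝ) := hpb p (by omega)
  have h1 := hpc p (by omega)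
  have h2 := hpd p (by omega)
  set ℓ := Real.log (p:ℝ) with hℓ
  have hℓ0 : 0 < ℓ := by linarith
  have hℓ1 : 1 ≤ ℓ := by linarith
  have h2n : (0:ℝ) < (2:ℝ)^n := by positivity
  have h2n1 : (1:ℝ) ≤ (2:ℝ)^n := one_le_pow₀ (by norm_num)
  have hp0 : (0:ℝ) < p := by
    have : 0 < p := by omega
    exact_mod_cast this
  have hlow : ℓ ^ A ≤ (2:ℝ)^n := by
    have e1 : 2 * ℓ ≤ ((2:ℝ)^n) ^ c1 := by
      have h3 : Real.log ((p:ℝ)^2) ≤ ((2:ℝ)^n) ^ c1 := by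
        rw [Real.log_le_iff_le_exp (by positivity)]
        exact hXn
      rw [Real.log_pow] at h3
      exact_mod_cast h3
    have e2 : (2 * ℓ) ^ a ≤ (2:ℝ)^n := by
      calc (2 * ℓ) ^ a ≤ (((2:ℝ)^n) ^ c1) ^ a :=
            Real.rpow_le_rpow (by positivity) e1 ha0.le
        _ = (2:ℝ)^n := by
            rw [← Real.rpow_mul h2n.le, ha, mul_one_div, div_self hc10.ne', Real.rpow_one]
    refine le_trans ?_ e2
    calc ℓ ^ A ≤ ℓ ^ a := by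
          refine Real.rpow_le_rpow_of_exponent_le hℓ1 ?_
          rw [ha, le_div_iff₀ hc10]
          have h3 : c1 ≤ 1 / (A + 1) := min_le_right _ _
          have h4 : A * c1 ≤ A * (1 / (A + 1)) := mul_le_mul_of_nonneg_left h3 hA
          have h5 : A * (1 / (A + 1)) ≤ 1 := by
            rw [mul_one_div, div_le_one hA1]
            linarith
          linarith
      _ ≤ (2 * ℓ) ^ a := Real.rpow_le_rpow hℓ0.le (by linarith) ha0.le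
  refine ⟨n, hn, hlow, ?_⟩
  intro θ η S E R F hη hηp hES hne hS hLS hT hM2 hF0 hF hrel
  have hη1 : η ≤ 1 := hηp.trans (Real.exp_le_one_iff.2 (by
    have : 0 ≤ ℓ ^ (4/5:ℝ) := by positivity
    linarith))
  have he1 : eps1 = 1/1000 := rfl
  set M := ∑ w ∈ S, wt R w with hM
  have hM0 : 0 ≤ M := Finset.sum_nonneg fun w hw => by
    unfold wt
    exact mul_nonneg (hS w hw).2.le (by positivity)
  have key := hT0 ((p:ℝ)^2) (CL * ℓ) η θ n 1 S S E R R F hn hTn hXn one_pos hη hη1 hES hne hS hS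
    hLS hLS hT hT hF0 hF (fun e he hFe => by
      obtain ⟨m, m', h3, -⟩ := hrel e he hFe
      exact ⟨m, m', h3⟩)
  have hz : ∑ e ∈ E.filter (fun e => FSe n η θ θ R R e), F e = 0 := by
    refine Finset.sum_eq_zero fun e he => ?_
    obtain ⟨h3, h4⟩ := Finset.mem_filter.1 he
    by_contra h5
    obtain ⟨-, -, -, h6⟩ := hrel e h3 (lt_of_le_of_ne (hF0 e h3) (Ne.symm h5))
    exact h6 h4
  rw [hz, add_zero, ← hM] at key
  refine key.trans ?_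
  have hx0 : (0:ℝ) ≤ ℓ ^ (4/5:ℝ) := by positivity
  have hex : Real.exp (-(ℓ ^ (4/5:ℝ))) ≤ Real.exp (-(1/500) * ℓ ^ (4/5:ℝ)) :=
    Real.exp_le_exp.2 (by linarith)
  have hη2 : η ^ (2 * eps1) ≤ Real.exp (-(1/500) * ℓ ^ (4/5:ℝ)) := by
    calc η ^ (2 * eps1) ≤ (Real.exp (-(ℓ ^ (4/5:ℝ)))) ^ (2 * eps1) :=
          Real.rpow_le_rpow hη.le hηp (by rw [he1]; norm_num)
      _ = _ := by
          rw [← Real.exp_mul, he1]
          congr 1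
          ring
  set Z := Real.exp (-(1/500) * ℓ ^ (4/5:ℝ)) with hZ
  have hZ0 : 0 < Z := Real.exp_pos _
  have hKp : ℓ ^ (-K) * ℓ ^ K = 1 := by
    rw [← Real.rpow_add hℓ0]
    simp
  have hKn : 0 < ℓ ^ (-K) := Real.rpow_pos_of_pos hℓ0 _
  -- first term
  have t1 : 6 * η * (CL * ℓ) ^ 2 * (M * M) ≤ 1 / 2 * (ℓ ^ (-K) * M) := by
    have a1 : 6 * η * (CL * ℓ) ^ 2 * (M * M) ≤ 6 * Z * (CL * ℓ) ^ 2 * (ℓ ^ C2 * M) := by
      have b1 : η ≤ Z := hηp.trans hex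
      have b2 : M * M ≤ ℓ ^ C2 * M := mul_le_mul_of_nonneg_right hM2 hM0
      have b3 : 0 ≤ (CL * ℓ) ^ 2 := sq_nonneg _
      exact mul_le_mul (mul_le_mul_of_nonneg_right (mul_le_mul_of_nonneg_left b1 (by norm_num)) b3)
        b2 (mul_nonneg hM0 hM0) (by positivity)
    refine a1.trans ?_
    have a2 : 6 * Z * (CL * ℓ) ^ 2 * (ℓ ^ C2 * M) =
        1 / 2 * (ℓ ^ (-K) * M) * (2 * (6 * CL ^ 2) * ℓ ^ (2 + C2 + K) * Z) := by
      have e1 : ℓ ^ (2 + C2 + K) = ℓ ^ 2 * ℓ ^ C2 * ℓ ^ K := by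
        rw [Real.rpow_add hℓ0, Real.rpow_add hℓ0, Real.rpow_two]
      rw [e1]
      calc 6 * Z * (CL * ℓ) ^ 2 * (ℓ ^ C2 * M) = 6 * Z * (CL * ℓ) ^ 2 * (ℓ ^ C2 * M) * 1 := by ring
        _ = 6 * Z * (CL * ℓ) ^ 2 * (ℓ ^ C2 * M) * (ℓ ^ (-K) * ℓ ^ K) := by rw [hKp]
        _ = _ := by ring
    rw [a2]
    exact mul_le_of_le_one_right (by positivity) h1
  -- second term
  have hMM : (M * M) ^ (1/2 + eps1) = M * M ^ (2 * eps1) := by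
    rw [Real.mul_rpow hM0 hM0, ← Real.rpow_add_of_nonneg hM0 (by rw [he1]; norm_num)
      (by rw [he1]; norm_num)]
    have e1 : 1/2 + eps1 + (1/2 + eps1) = 1 + 2 * eps1 := by ring
    rw [e1, Real.rpow_add_of_nonneg hM0 (by norm_num) (by rw [he1]; norm_num), Real.rpow_one]
  have hMe : M ^ (2 * eps1) ≤ ℓ ^ (2 * eps1 * C2) := by
    calc M ^ (2 * eps1) ≤ (ℓ ^ C2) ^ (2 * eps1) :=
          Real.rpow_le_rpow hM0 hM2 (by rw [he1]; norm_num)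
      _ = _ := by rw [← Real.rpow_mul hℓ0.le]; congr 1; ring
  have hbr : (n * (2 * KH 1 0 eps1 * (2:ℝ)^(2*eps1*n)) + C * ((2:ℝ)^n)^(-(1/1000):ℝ)) ≤
      (8 * (2:ℝ) ^ (2 * a) * KH 1 0 eps1 + C) * ℓ ^ (2 * a) := by
    have b1 : (n:ℝ) ≤ (2:ℝ)^n := by
      have := (Nat.lt_two_pow_self (n := n)).le
      exact_mod_cast this
    have b2 : (2:ℝ)^(2*eps1*n) ≤ (2:ℝ)^n := by
      calc (2:ℝ)^(2*eps1*n) ≤ (2:ℝ)^(n:ℝ) := by
            refine Real.rpow_le_rpow_of_exponent_le (by norm_num) ?_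
            rw [he1]
            have : (0:ℝ) ≤ n := Nat.cast_nonneg n
            linarith
        _ = (2:ℝ)^n := Real.rpow_natCast _ _
    have b3 : ((2:ℝ)^n)^(-(1/1000):ℝ) ≤ 1 := Real.rpow_le_one_of_one_le_of_nonpos h2n1 (by norm_num)
    have b4 : (2:ℝ)^n ≤ 2 * (2:ℝ)^a * ℓ ^ a := by
      have := hn2
      rw [Real.mul_rpow (by norm_num) hℓ0.le, ← mul_assoc] at this
      exact this
    have b5 : (2:ℝ)^n * (2:ℝ)^n ≤ 4 * (2:ℝ)^(2*a) * ℓ ^ (2*a) := by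
      calc (2:ℝ)^n * (2:ℝ)^n ≤ (2 * (2:ℝ)^a * ℓ ^ a) * (2 * (2:ℝ)^a * ℓ ^ a) :=
            mul_le_mul b4 b4 h2n.le (by positivity)
        _ = 4 * ((2:ℝ)^a * (2:ℝ)^a) * (ℓ ^ a * ℓ ^ a) := by ring
        _ = _ := by
            rw [← Real.rpow_add (by norm_num), ← Real.rpow_add hℓ0, two_mul]
    have b6 : (1:ℝ) ≤ ℓ ^ (2*a) := Real.one_le_rpow hℓ1 (by positivity)
    have b7 : (n:ℝ) * (2 * KH 1 0 eps1 * (2:ℝ)^(2*eps1*n)) ≤
        8 * (2:ℝ) ^ (2 * a) * KH 1 0 eps1 * ℓ ^ (2*a) := by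
      calc (n:ℝ) * (2 * KH 1 0 eps1 * (2:ℝ)^(2*eps1*n)) ≤
            (2:ℝ)^n * (2 * KH 1 0 eps1 * (2:ℝ)^n) := by
            refine mul_le_mul b1 (mul_le_mul_of_nonneg_left b2 (by positivity)) (by positivity) h2n.le
        _ = 2 * KH 1 0 eps1 * ((2:ℝ)^n * (2:ℝ)^n) := by ring
        _ ≤ 2 * KH 1 0 eps1 * (4 * (2:ℝ)^(2*a) * ℓ ^ (2*a)) :=
            mul_le_mul_of_nonneg_left b5 (by positivity)
        _ = _ := by ring
    have b8 : C * ((2:ℝ)^n)^(-(1/1000):ℝ) ≤ C * ℓ ^ (2*a) :=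
      mul_le_mul_of_nonneg_left (b3.trans b6) (by linarith)
    calc _ ≤ 8 * (2:ℝ) ^ (2 * a) * KH 1 0 eps1 * ℓ ^ (2*a) + C * ℓ ^ (2*a) := add_le_add b7 b8
      _ = _ := by ring
  have t2 : 6 * (CL * ℓ) ^ 2 *
      (n * (2 * KH 1 0 eps1 * (2:ℝ)^(2*eps1*n)) + C * ((2:ℝ)^n)^(-(1/1000):ℝ)) *
      (η^(2*eps1) * (M * M)^(1/2+eps1)) ≤ 1 / 2 * (ℓ ^ (-K) * M) := by
    rw [hMM]
    have hC0 : 0 ≤ C := by linarith
    have a0 : 0 ≤ (8 * (2:ℝ) ^ (2 * a) * KH 1 0 eps1 + C) * ℓ ^ (2 * a) := by positivity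
    have a1 : η^(2*eps1) * (M * M ^ (2 * eps1)) ≤ Z * (M * ℓ ^ (2 * eps1 * C2)) :=
      mul_le_mul hη2 (mul_le_mul_of_nonneg_left hMe hM0)
        (mul_nonneg hM0 (Real.rpow_nonneg hM0 _)) hZ0.le
    have a2 : 6 * (CL * ℓ) ^ 2 *
        (n * (2 * KH 1 0 eps1 * (2:ℝ)^(2*eps1*n)) + C * ((2:ℝ)^n)^(-(1/1000):ℝ)) ≤
        6 * (CL * ℓ) ^ 2 * ((8 * (2:ℝ) ^ (2 * a) * KH 1 0 eps1 + C) * ℓ ^ (2 * a)) :=
      mul_le_mul_of_nonneg_left hbr (by positivity)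
    refine (mul_le_mul a2 a1 (mul_nonneg (Real.rpow_nonneg hη.le _)
      (mul_nonneg hM0 (Real.rpow_nonneg hM0 _))) (by positivity)).trans ?_
    have e0 : 6 * (CL * ℓ) ^ 2 * ((8 * (2:ℝ) ^ (2 * a) * KH 1 0 eps1 + C) * ℓ ^ (2 * a)) *
        (Z * (M * ℓ ^ (2 * eps1 * C2))) =
        1 / 2 * (ℓ ^ (-K) * M) *
          (2 * K1 * ℓ ^ (2 + 2 * a + 2 * eps1 * C2 + K) * Z) := by
      have e1 : ℓ ^ (2 + 2 * a + 2 * eps1 * C2 + K) =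
          ℓ ^ 2 * ℓ ^ (2 * a) * ℓ ^ (2 * eps1 * C2) * ℓ ^ K := by
        rw [Real.rpow_add hℓ0, Real.rpow_add hℓ0, Real.rpow_add hℓ0, Real.rpow_two]
      rw [e1]
      calc _ = 6 * (CL * ℓ) ^ 2 * ((8 * (2:ℝ) ^ (2 * a) * KH 1 0 eps1 + C) * ℓ ^ (2 * a)) *
            (Z * (M * ℓ ^ (2 * eps1 * C2))) * 1 := by ring
        _ = 6 * (CL * ℓ) ^ 2 * ((8 * (2:ℝ) ^ (2 * a) * KH 1 0 eps1 + C) * ℓ ^ (2 * a)) *
            (Z * (M * ℓ ^ (2 * eps1 * C2))) * (ℓ ^ (-K) * ℓ ^ K) := by rw [hKp]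
        _ = _ := by rw [hK1]; ring
    rw [e0]
    exact mul_le_of_le_one_right (by positivity) h2
  have : 1 / 2 * (ℓ ^ (-K) * M) + 1 / 2 * (ℓ ^ (-K) * M) = ℓ ^ (-K) * M := by ring
  linarith

end Crest.Agent.R4P.DsD128
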