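import Crest.Agent.R4P.PruneAcc2_17
import Crest.Agent.R4P.BadB_16

/-!
R4 (S0004), POWERS, [W-dseR] (helper17): the prune of the BAD missing ties / up primes for the contexts.

* `SxB γ B C1 c2 p0 ψ S` : the items `q` with no bad (`BadB16.BadB γ (Bab t q p) p`) missing tie or up prime.
* `SxB_mass` : its mass is `≥ (1 - ε)`, for `p0` large.
* `NoBadT.of` : the items of a context whose `S2` is contained in `SxB` have no bad missing ties and no
  bad up primes, for the tree of the context.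
-/

set_option autoImplicit false

namespace Crest.Agent.R4P.PruneBad17

open Crest.Agent.R4P.Cnt588 Crest.Agent.R4P.Bld532 Crest.Agent.R4.Max709 Crest.Agent.R4.Soft104
open Crest.Agent.R4P.Skel189
open Crest.Agent.R4P.PruneAcc17
open Crest.Agent.R4P.BadB16 (BadB card_bad)

/-- no bad missing tie and no bad up prime -/
def NoBad (γ : ℝ) (t : IT) (q : ℕ) : Prop :=
  ∀ p, (p ∈ t.mt q ∨ p ∈ t.uq q) → ¬ BadB γ (Bab t q p) p

open Classical in
/-- **the pruned set**: no bad missing ties and up primes, target `γ` -/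
noncomputable def SxB (γ B C1 c2 : ℝ) (p0 : ℕ) (ψ : ℕ → ℝ) (S : Finset ℕ) : Finset ℕ :=
  S.filter fun q => NoBad γ (bld (Bld532.par B C1 c2 p0) (w ψ) (top S) 1 1 S) q

/-- the missing product above `p` is `1` or has only large prime factors -/
lemma Bab_minFac {t : IT} {q p n : ℕ} (h : ∀ s ∈ t.mt q, s.Prime ∧ n ≤ s) :
    Bab t q p = 1 ∨ n ≤ (Bab t q p).minFac := by
  classical
  rcases ((t.mt q).filter (p < ·)).eq_empty_or_nonempty with h0 | h0
  · left; unfold Bab; rw [h0, Finset.prod_empty]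
  · right
    have hB1 : Bab t q p ≠ 1 := by
      obtain ⟨s, hs⟩ := h0
      intro h1
      have h2 : s ∣ Bab t q p := Finset.dvd_prod_of_mem (fun s => s) hs
      rw [h1, Nat.dvd_one] at h2
      exact (h s (Finset.mem_filter.1 hs).1).1.one_lt.ne' h2
    have h2 := Nat.minFac_prime hB1
    have h3 : (Bab t q p).minFac ∣ ∏ s ∈ (t.mt q).filter (p < ·), s := Nat.minFac_dvd _
    obtain ⟨s, hs, hd⟩ := (h2.prime.dvd_finsetProd_iff _).1 h3
    have h4 := (Nat.prime_dvd_prime_iff_eq h2 (h s (Finset.mem_filter.1 hs).1).1).1 hd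
    rw [h4]
    exact (h s (Finset.mem_filter.1 hs).1).2

/-- density of the bad primes of one stage -/
lemma bad_log (E : ℝ) : ∃ p₁ : ℕ, ∀ P ≥ p₁, ∀ (γ : ℝ) (B : ℕ), (B = 1 ∨ 400 ≤ B.minFac) →
    open Classical in
    ∑ p ∈ (blk P (2 * P)).filter (fun p : ℕ => BadB γ B p), (1 / (p : ℝ)) ≤
      Real.log P ^ (-E) := by
  classical
  have hlit := (isLittleO_log_rpow_rpow_atTop E (show (0 : ℝ) < 9 / 10 by norm_num)).bound
    (show (0 : ℝ) < 1 / 2 by norm_num)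
  obtain ⟨y, hy⟩ := Filter.eventually_atTop.1 hlit
  refine ⟨⌈|y|⌉₊ + 400, fun P hP γ B hB => ?_⟩
  have hP0 : (0 : ℝ) < P := by exact_mod_cast (by omega : 0 < P)
  have hyP : y ≤ P := by
    have h5 : |y| ≤ ⌈|y|⌉₊ := Nat.le_ceil _
    have h6 : ((⌈|y|⌉₊ : ℕ) : ℝ) ≤ P := by
      have : ⌈|y|⌉₊ ≤ P := by omega
      exact_mod_cast this
    linarith [le_abs_self y]
  have hX0 : 0 < Real.log P := Real.log_pos (by exact_mod_cast (by omega : 1 < P))
  have h8 := hy P hyP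
  rw [Real.norm_eq_abs, Real.norm_eq_abs, abs_of_nonneg (by positivity),
    abs_of_nonneg (by positivity)] at h8
  have hcard := card_bad (γ := γ) (B := B) (P := P) (by omega) hB
    (F := (blk P (2 * P)).filter fun p : ℕ => BadB γ B p) fun b hb => by
      obtain ⟨h1, h2⟩ := Finset.mem_filter.1 hb
      have h3 := mem_blk33.1 h1
      exact ⟨h3.2.2, h3.1, h3.2.1, h2⟩
  calc ∑ p ∈ (blk P (2 * P)).filter (fun p : ℕ => BadB γ B p), (1 / (p : ℝ))
      ≤ ∑ _p ∈ (blk P (2 * P)).filter (fun p : ℕ => BadB γ B p), (1 / (P : ℝ)) := by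
        refine Finset.sum_le_sum fun p hp => ?_
        have h3 := (mem_blk33.1 (Finset.mem_filter.1 hp).1).1
        exact one_div_le_one_div_of_le hP0 (by exact_mod_cast h3.le)
    _ = (((blk P (2 * P)).filter (fun p : ℕ => BadB γ B p)).card : ℝ) * (1 / (P : ℝ)) := by
        rw [Finset.sum_const, nsmul_eq_mul]
    _ ≤ 2 * (P : ℝ) ^ (1 / 10 : ℝ) * (1 / (P : ℝ)) :=
        mul_le_mul_of_nonneg_right hcard (by positivity)
    _ = 2 * (P : ℝ) ^ (-(9 / 10) : ℝ) := by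
        have e : (P : ℝ) ^ (-(9 / 10) : ℝ) = (P : ℝ) ^ (1 / 10 : ℝ) * (P : ℝ) ^ (-1 : ℝ) := by
          rw [← Real.rpow_add hP0]; norm_num
        rw [e, Real.rpow_neg_one]; ring
    _ ≤ Real.log P ^ (-E) := by
        rw [Real.rpow_neg hP0.le, Real.rpow_neg hX0.le]
        have h9 : 0 < Real.log P ^ E := Real.rpow_pos_of_pos hX0 _
        have h10 : 0 < (P : ℝ) ^ (9 / 10 : ℝ) := Real.rpow_pos_of_pos hP0 _
        rw [← one_div, ← one_div, mul_one_div, div_le_div_iff₀ h10 h9]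
        linarith

/-- **mass of the pruned set** (form of `TagN.hS2'`) -/
theorem SxB_mass (γ B C1 c2 ε : ℝ) (hε : 0 < ε) (hB : 0 ≤ B) (hC1 : 0 ≤ C1) (hc2 : 0 ≤ c2) :
    ∃ p₁ : ℕ, ∀ p0 ≥ p₁, ∃ Q₁ : ℕ, ∀ P₀ ≥ Q₁, ∀ (ψ : ℕ → ℝ) (S : Finset ℕ), SysM P₀ ψ S →
      SxB γ B C1 c2 p0 ψ S ⊆ S ∧
        (1 - ε) * Ws (w ψ) S ≤ Ws (w ψ) (SxB γ B C1 c2 p0 ψ S) := by
  classical
  obtain ⟨p1, h1⟩ := prune_ev B C1 c2 ε hε hB hC1 hc2
  obtain ⟨p2, h2⟩ := bad_log (B + C1 + c2 + 2)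
  refine ⟨p1 + p2 + 400, fun p0 hp0 => ⟨0, fun P₀ _ ψ S hS =>
    ⟨Finset.filter_subset _ _, ?_⟩⟩⟩
  have hG := (h1 p0 (by omega)).1
  have key := (h1 p0 (by omega)).2
    (fun B' p => (B' = 1 ∨ 400 ≤ B'.minFac) ∧ BadB γ B' p)
    (fun B' P hP => by
      have key0 : ∑ p ∈ (blk P (2 * P)).filter
          (fun p => (B' = 1 ∨ 400 ≤ B'.minFac) ∧ BadB γ B' p), (1 / (p : ℝ)) ≤
            Real.log P ^ (-(B + C1 + c2 + 2)) := by
        by_cases hB' : B' = 1 ∨ 400 ≤ B'.minFac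
        · refine le_trans (Finset.sum_le_sum_of_subset_of_nonneg ?_ fun _ _ _ => by positivity)
            (h2 P (by omega) γ B' hB')
          intro p hp
          obtain ⟨h3, h4⟩ := Finset.mem_filter.1 hp
          exact Finset.mem_filter.2 ⟨h3, h4.2⟩
        · refine (Finset.sum_eq_zero fun p hp => absurd (Finset.mem_filter.1 hp).2.1 hB').le.trans ?_
          exact Real.rpow_nonneg (Real.log_natCast_nonneg _) _
      convert key0)
    (w ψ) (fun q => w_nonneg hS.nonneg q) (top S) S hS.pos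
  refine key.trans ?_
  unfold Ws
  refine Finset.sum_le_sum_of_subset_of_nonneg ?_ fun q _ _ => w_nonneg hS.nonneg q
  intro q hq
  obtain ⟨hqS, hq2⟩ := Finset.mem_filter.1 hq
  refine Finset.mem_filter.2 ⟨hqS, fun p hp hbad => hq2 p hp ⟨?_, hbad⟩⟩
  refine Bab_minFac fun s hs => ?_
  have hAll := bld_All_root (Bld532.par B C1 c2 p0) (w ψ) (fun q => w_nonneg hS.nonneg q) hG
    (top S) S hS.pos
  have h4 := cols_of_All _ _ _ _ hAll q s (Or.inl hs)
  have h5 : (Bld532.par B C1 c2 p0).p0 < s := h4.2.1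
  have h6 : (Bld532.par B C1 c2 p0).p0 = p0 := rfl
  exact ⟨h4.1, by omega⟩

/-- **the items of a context have no bad missing ties and no bad up primes** -/
theorem NoBad.of {N : Skel189.Num} {γ : ℝ} {p0 P₀ : ℕ} (X : Ctx N γ p0 P₀)
    (h : N.S2 p0 X.ψ X.S ⊆ SxB γ N.B N.C1 N.c2 p0 X.ψ X.S) {q : ℕ} (hq : q ∈ X.S') :
    NoBad γ X.c.t q := by
  classical
  have h1 := h (X.prn.sub2 hq)
  have h2 := (Finset.mem_filter.1 h1).2
  rw [X.ht]
  exact h2

/-- **the missing ties** -/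
theorem NoBadT.of {N : Skel189.Num} {γ : ℝ} {p0 P₀ : ℕ} (X : Ctx N γ p0 P₀)
    (h : N.S2 p0 X.ψ X.S ⊆ SxB γ N.B N.C1 N.c2 p0 X.ψ X.S) {q : ℕ} (hq : q ∈ X.S') :
    ∀ p ∈ X.c.t.mt q, ¬ BadB γ (Bab X.c.t q p) p :=
  fun p hp => NoBad.of X h hq p (Or.inl hp)

end Crest.Agent.R4P.PruneBad17
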