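import Crest.Agent.R4P.DseSp_23
import Crest.Agent.R4P.PruneBad_17

/-!
R4P (S0004, powers), [W-dseR], D5, helper28: **alive facts of the children** (helper23 #6025 (E)).

* `kid_al`   : radii, masses, tameness of the alive items of a child at the level of the child;
* `kid_bad`  : a child of the same stage: a prime of `(m, p]` dividing the denominator of a state is bad or
  the denominator is large; `kid_badM` : the missing child;
* `kid_acc`, `kid_accM` : no accidents.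
-/

set_option autoImplicit false
set_option linter.unusedSectionVars false
set_option linter.unusedVariables false

open MeasureTheory Filter

namespace Crest.Agent.R4P.DseAl28

open Crest.Agent.R4P.Cnt588 Crest.Agent.R4P.Item758 Crest.Agent.R4P.W363
open Crest.Agent.R4P.Data758 Crest.Agent.R4P.LfDat734 Crest.Agent.R4P.OmSt532
open Crest.Agent.R4P.OmData532 Crest.Agent.R4P.WPex189
open Crest.Agent.R4P.Bld532 (NS All NodeOk Bk)
open Crest.Agent.R4P.Step588 (NDt ND1 ctx_NDt uq_lt)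
open Crest.Agent.R4P.WalkIT579 (tp isL nodeOk_hi top_of_nodeOk)
open Crest.Agent.R4P.Skel189 Crest.Agent.R4P.RseSt23 Crest.Agent.R4P.RseNd23
open Crest.Agent.R4.Soft104 (w)
open Crest.Agent.R4.LF363 (Lab)
open Crest.Agent.R4.DensAcc33 (Accd)
open Crest.Agent.R4P.StB21
open Crest.Agent.R4P.DseCh23
open Crest.Agent.R4P.DseKid23
open Crest.Agent.R4P.BadB16 (BadB BadL LabT LabF lab_usedB Bab_node)
open Crest.Agent.R4P.PruneAcc17 (NoAcc Bab)
open Crest.Agent.R4P.PruneBad17 (NoBad)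
open Crest.Agent.R4

/-! ### numbers -/

/-- `log (m + 1)` against `log m` -/
lemma log_succ {m : ℕ} (hm : 2 ≤ m) : Real.log ((m + 1 : ℕ) : ℝ) ≤ 2 * Real.log m := by
  have hm2 : (2:ℝ) ≤ m := by exact_mod_cast hm
  have h5 : ((m + 1 : ℕ) : ℝ) ≤ (m : ℝ) ^ 2 := by push_cast; nlinarith
  have h6 : (0 : ℝ) < ((m + 1 : ℕ) : ℝ) := by push_cast; linarith
  have h7 := Real.log_le_log h6 h5
  rw [Real.log_pow] at h7
  exact_mod_cast h7

/-- `4 (log (m+1))^C ≤ (log m)^(C+1)` -/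
lemma num_log (C : ℝ) (hC : 0 ≤ C) : ∃ p₁ : ℕ, ∀ m : ℕ, p₁ ≤ m → 1 ≤ Real.log m ∧
    4 * Real.log ((m + 1 : ℕ) : ℝ) ^ C ≤ Real.log m ^ (C + 1) := by
  refine ⟨⌈Real.exp (4 * 2 ^ C + 1)⌉₊ + 2, fun m hm => ?_⟩
  have h1 : Real.exp (4 * 2 ^ C + 1) ≤ m := (Nat.le_ceil _).trans (by exact_mod_cast (by omega))
  have hm0 : (0:ℝ) < m := (Real.exp_pos _).trans_le h1
  have h2 : 4 * 2 ^ C + 1 ≤ Real.log m := by rwa [Real.le_log_iff_exp_le hm0]
  have h3 : (0:ℝ) < 2 ^ C := Real.rpow_pos_of_pos (by norm_num) _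
  have hl : 1 ≤ Real.log m := by linarith
  have hl0 : 0 < Real.log m := by linarith
  refine ⟨hl, ?_⟩
  have h4 : Real.log ((m + 1 : ℕ) : ℝ) ^ C ≤ (2 * Real.log m) ^ C :=
    Real.rpow_le_rpow (Real.log_natCast_nonneg _) (log_succ (by omega)) hC
  rw [Real.mul_rpow (by norm_num) hl0.le] at h4
  have h5 : 0 < Real.log m ^ C := Real.rpow_pos_of_pos hl0 _
  rw [Real.rpow_add hl0, Real.rpow_one]
  calc 4 * Real.log ((m + 1 : ℕ) : ℝ) ^ C ≤ 4 * (2 ^ C * Real.log m ^ C) := by linarith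
    _ = (4 * 2 ^ C) * Real.log m ^ C := by ring
    _ ≤ Real.log m * Real.log m ^ C := mul_le_mul_of_nonneg_right (by linarith) h5.le
    _ = _ := mul_comm _ _

section ctx
variable {N : Skel189.Num} {γ : ℝ} {p0 P₀ : ℕ} {X : Ctx N γ p0 P₀} {v u : NS} {V τ : IT}

/-- **the alive items of a child** -/
structure AlK (X : Ctx N γ p0 P₀) (u : NS) (V τ : IT) (q : ℕ) : Prop where
  dvd : u.A ∣ q
  pos : 0 < q / u.A
  R0 : 0 < RB X u q
  lo : RB X u q ≤ 2 * Step588.CT * Real.log (lvl u τ) * wA u.A (RB X u) q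
  tame : ∀ z : ℝ, (lvl u τ : ℝ) ^ 2 ≤ z → Crest.Agent.R4.ClsB.Tame z 1 (q / u.A)
  wle : wA u.A (RB X u) q ≤ u.c * w X.ψ q
  rr : X.c.rr q = X.c.r q
  hi : RB X u q ≤ Real.log (tp V) ^ (N.B + N.c2 + 3)

/-- **alive facts of the children** -/
theorem kid_al (N : Skel189.Num) : ∃ p₁ : ℕ, ∀ p0 ≥ p₁, ∀ (γ : ℝ) (P₀ : ℕ), 2 ≤ P₀ →
    ∀ X : Ctx N γ p0 P₀, ∀ (v : NS) (V : IT) (u : NS) (τ : IT), Kid X v V u τ →
      (∀ q ∈ τ.items, q ∈ X.S' → AlK X u V τ q) ∧
      (τ.items.Nonempty → u.c * Ws (w X.ψ) τ.items ≤ Real.log (lvl u τ) ^ (N.B + N.c2 + 1)) := by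
  have hB1 := N.hB
  have hC1 := N.hC1
  have hc2 := N.hc2
  obtain ⟨p1, h1⟩ := Step588.tot_ge N.B (N.C1 + N.c2) (by linarith)
  obtain ⟨p2, h2⟩ := LeafA734.rt_half N.B (N.C1 + N.c2) (by linarith)
  obtain ⟨p3, h3⟩ := PrTame579.tame_of_Pr N.B (N.C1 + N.c2) (by linarith)
  obtain ⟨p4, h4⟩ := num_log (N.B + N.c2) (by linarith)
  obtain ⟨p5, h5⟩ := num_log (N.B + N.c2 + 2) (by linarith)
  refine ⟨p1 + p2 + p3 + p4 + p5 + 2, fun p0 hp0 γ P₀ hP X v V u τ hk => ⟨fun q hq hqs => ?_, ?_⟩⟩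
  · have h := hk.hu.nd
    have hml : p0 ≤ lvl u τ := hk.lvl_ge hq
    set m := lvl u τ with hm
    have hpr : PrunePar33.Pr X.c.t p0 (N.C1 + N.c2) N.B q := X.pr' hqs
    have hcols : ∀ b, (b ∈ X.c.t.mt q ∨ b ∈ X.c.t.sp q ∨ b ∈ X.c.t.uq q) → p0 < b :=
      fun b hb => (Bld532.cols_of_All _ _ _ _ X.nodes q b hb).2.1
    have hs := (h2 p0 (by omega) X.c.t q hpr hcols).2
    have hd := h.bk.dvd q hq
    have hpos : 0 < q / u.A := Nat.pos_of_ne_zero (h.div_ne hq)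
    have hr0 := X.rpos hqs
    have hrr : X.c.rr q = X.c.r q := if_pos hr0
    have hrψ := Step588.ctx_rr X hqs
    have hB0 : (0 : ℝ) < u.B := by exact_mod_cast h.B_pos
    have hR0 : 0 < RB X u q := mul_pos hB0 (by rw [hrr]; exact hr0)
    have hge : ∀ l : ℕ, l.Prime → m < l → u.n ≤ l := fun l hl1 hl2 => hk.prime_ge hl1 hl2
    have hm2 : (2 : ℝ) ≤ m := by exact_mod_cast (by omega : 2 ≤ m)
    have hlm0 : 0 < Real.log m := Real.log_pos (by linarith)
    refine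
      { dvd := hd
        pos := hpos
        R0 := hR0
        lo := ?_
        tame := ?_
        wle := ?_
        rr := hrr
        hi := ?_ }
    · have key := h1 p0 (by omega) X.c.t q hpr (fun l hl => (rt_prime X.c.t X.tOk q l hl).1) (m + 1)
        (by omega) (q / u.A) hpos (fun l hl1 hl2 hl3 => h.self.ge q hq l hl1
          (hge l hl1 (by omega)) hl2)
      have hlog2 : Real.log ((m + 1 : ℕ) : ℝ) ≤ 2 * Real.log m := log_succ (by omega)
      have hCT := Step588.CT_pos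
      set tt : ℝ := ((q / u.A).totient : ℝ) / ((q / u.A : ℕ) : ℝ) with htt
      have htt0 : 0 ≤ tt := by rw [htt]; positivity
      have h8 : 1 ≤ 2 * Step588.CT * Real.log m * tt := by
        refine key.trans ?_
        refine mul_le_mul_of_nonneg_right ?_ htt0
        nlinarith
      have h9 : RB X u q * 1 ≤ RB X u q * (2 * Step588.CT * Real.log m * tt) :=
        mul_le_mul_of_nonneg_left h8 hR0.le
      unfold wA
      rw [← htt]
      linarith
    · intro z hz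
      have hpz : (m : ℝ) ≤ z := by nlinarith
      have hp0z : (p0 : ℝ) ≤ z := by
        have : (p0 : ℝ) ≤ m := by exact_mod_cast hml
        linarith
      refine ⟨one_dvd _, ?_⟩
      rw [Nat.div_one]
      refine le_trans (Finset.sum_le_sum_of_subset_of_nonneg ?_ fun i _ _ => by positivity)
        (h3 p0 (by omega) X.c.t q hpr z hp0z).1
      intro l hl
      obtain ⟨hl1, hl2⟩ := Finset.mem_filter.1 hl
      have hlp := Nat.prime_of_mem_primeFactors hl1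
      have hld := Nat.dvd_of_mem_primeFactors hl1
      have hpl : m < l := by exact_mod_cast lt_of_le_of_lt hpz hl2
      exact Finset.mem_filter.2 ⟨h.self.ge q hq l hlp (hge l hlp hpl) hld, hl2⟩
    · have h5 := hk.hu.ms.ms X.tOk h.fit hq hs
      have e1 : wA u.A (RB X u) q = X.c.rr q * (u.B * R4.DeepSt579.tq (q / u.A)) := by
        unfold wA R4.DeepSt579.tq
        ring
      have e2 : u.c * w X.ψ q = X.c.rr q * (2 * (u.c * R4.DeepSt579.tq q)) := by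
        rw [hrψ]
        unfold R4.DeepSt579.tq R4.Soft104.w
        ring
      rw [e1, e2]
      exact mul_le_mul_of_nonneg_left h5 (by rw [hrr]; exact hr0.le)
    · have hpV := hk.tpV.2.1
      have h6 := hk.hu.rd.gen q hq hqs (tp V + 1) (by omega) hk.n
      have h7 := (h5 (tp V) (by omega)).2
      have e1 : N.B + N.c2 + 2 + 1 = N.B + N.c2 + 3 := by ring
      rw [e1] at h7
      have h8 : 0 ≤ Real.log ((tp V + 1 : ℕ) : ℝ) ^ (N.B + N.c2 + 2) :=
        Real.rpow_nonneg (Real.log_natCast_nonneg _) _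
      linarith
  · rintro ⟨q, hq⟩
    have hml : p0 ≤ lvl u τ := hk.lvl_ge hq
    obtain ⟨hl1, hl2⟩ := h4 (lvl u τ) (by omega)
    by_cases hl : isL τ
    · obtain ⟨S, rfl⟩ := isL_iff.1 hl
      have hml' : p0 ≤ u.n - 1 := hml
      have e1 : lvl u (.leaf S) + 1 = u.n := by
        show u.n - 1 + 1 = u.n
        omega
      rw [e1] at hl2
      exact hk.ms.trans hl2
    · have hm := (nodeOk_hi hk.hu.nd.self.node hl).1
      refine hm.trans ?_
      rw [lvl_node hl] at hl1 ⊢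
      show Real.log (tp τ) ^ N.c2 ≤ _
      exact Real.rpow_le_rpow_of_exponent_le hl1 (by linarith)

/-! ### missing ties above the level of a child -/

/-- **the missing ties above the level of a child** -/
lemma kid_mt (hk : Kid X v V u τ) {q : ℕ} (hq : q ∈ τ.items) :
    (X.c.t.mt q).filter (lvl u τ < ·) = u.B.primeFactors := by
  by_cases hl : isL τ
  · obtain ⟨S, rfl⟩ := isL_iff.1 hl
    rw [(hk.lf S rfl).mt q hq]
    refine Finset.filter_true_of_mem fun b hb => ?_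
    have h1 := Nat.prime_of_mem_primeFactors hb
    have h2 := hk.hu.nd.bk.geB b h1 (Nat.dvd_of_mem_primeFactors hb)
    have h3 := h1.two_le
    show u.n - 1 < b
    omega
  · rw [lvl_node hl]
    exact mt_node hk.hu.nd X.tOk hl hq

/-- same stage: the missing product above a prime of `(m, p]` -/
lemma kid_Bab (hk : Kid X v V u τ) (hB : u.B = v.B) {q b : ℕ} (hq : q ∈ τ.items)
    (h1 : lvl u τ < b) (h2 : b ≤ tp V) : Bab X.c.t q b = u.B := by
  have e1 := kid_mt hk hq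
  have e2 := mt_node hk.hv.nd X.tOk hk.lV (hk.sub hq)
  have e3 : (X.c.t.mt q).filter (b < ·) = u.B.primeFactors := by
    refine Finset.Subset.antisymm ?_ ?_
    · rw [← e1]
      intro l hl
      obtain ⟨a1, a2⟩ := Finset.mem_filter.1 hl
      exact Finset.mem_filter.2 ⟨a1, h1.trans a2⟩
    · rw [hB, ← e2]
      intro l hl
      obtain ⟨a1, a2⟩ := Finset.mem_filter.1 hl
      exact Finset.mem_filter.2 ⟨a1, h2.trans_lt a2⟩
  unfold PruneAcc17.Bab
  rw [e3]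
  exact Nat.prod_primeFactors_of_squarefree hk.hu.nd.bk.sfB

/-- missing child: the column is a missing tie -/
lemma kid_miss (hk : Kid X v V u τ) (hB : u.B = v.B * tp V) {q : ℕ} (hq : q ∈ τ.items) :
    tp V ∈ X.c.t.mt q := by
  have e1 := kid_mt hk hq
  have h1 : tp V ∈ u.B.primeFactors :=
    Nat.mem_primeFactors.2 ⟨hk.tpV.1, hB ▸ Dvd.intro_left _ rfl, hk.hu.nd.bk.sfB.ne_zero⟩
  rw [← e1] at h1
  exact (Finset.mem_filter.1 h1).1

/-! ### accidents -/

/-- **no accidents**, same stage -/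
theorem kid_acc {A : ℝ} (hA : ∀ q ∈ X.S', NoAcc X.c.γ A X.c.t q) (hk : Kid X v V u τ)
    (hB : u.B = v.B) {q : ℕ} (hq : q ∈ τ.items) (hqs : q ∈ X.S') {b : ℕ} (hb : b.Prime)
    (h1 : lvl u τ < b) (h2 : b ≤ tp V) (hd : b ∣ q / u.A) :
    ¬ Accd (u.B * X.c.γ) (Real.log b ^ A) b := by
  have h3 := hA q hqs b (Or.inr (hk.uq_of hq hb h1 hd))
  rwa [kid_Bab hk hB hq h1 h2] at h3

/-- **no accidents**, missing child -/
theorem kid_accM {A : ℝ} (hA : ∀ q ∈ X.S', NoAcc X.c.γ A X.c.t q) (hk : Kid X v V u τ)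
    (hB : u.B = v.B * tp V) {q : ℕ} (hq : q ∈ τ.items) (hqs : q ∈ X.S') :
    ¬ Accd (v.B * X.c.γ) (Real.log (tp V) ^ A) (tp V) := by
  have h3 := hA q hqs (tp V) (Or.inl (kid_miss hk hB hq))
  rwa [Bab_node hk.hv.nd X.tOk hk.lV (hk.sub hq)] at h3

/-! ### bad primes -/

/-- **the missing tie is not bad** -/
theorem kid_badM (hN : ∀ q ∈ X.S', NoBad X.c.γ X.c.t q) (hk : Kid X v V u τ)
    (hB : u.B = v.B * tp V) {q : ℕ} (hq : q ∈ τ.items) (hqs : q ∈ X.S') :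
    ¬ BadB X.c.γ v.B (tp V) := by
  have h3 := hN q hqs (tp V) (Or.inl (kid_miss hk hB hq))
  rwa [Bab_node hk.hv.nd X.tOk hk.lV (hk.sub hq)] at h3

/-- the labels with a denominator divisible by the missing tie are large -/
theorem kid_badM_lab (hN : ∀ q ∈ X.S', NoBad X.c.γ X.c.t q) (hk : Kid X v V u τ)
    (hB : u.B = v.B * tp V) {q : ℕ} (hq : q ∈ τ.items) (hqs : q ∈ X.S') {ρ : ℚ} {a : ℝ}
    (hL : Lab (v.B * X.c.γ) a ρ) (hd : tp V ∣ ρ.den) :
    Real.exp ((tp V : ℝ) ^ (1/20:ℝ)) < ρ.den := by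
  by_contra hc
  exact kid_badM hN hk hB hq hqs (Or.inl ⟨ρ, ⟨a, hL⟩, hd, not_lt.1 hc⟩)

/-- **same stage**: the state of an alive item at the child is a label of the stage or the fat one -/
theorem kid_lab (N : Skel189.Num) : ∃ p₁ : ℕ, ∀ p0 ≥ p₁, ∀ (γ : ℝ) (P₀ : ℕ), 2 ≤ P₀ →
    ∀ X : Ctx N γ p0 P₀, RseH X → TH X → ∀ (v : NS) (V : IT) (u : NS) (τ : IT), Kid X v V u τ →
      u.B = v.B → ∀ q ∈ τ.items, q ∈ X.S' → ∀ σ : ℚ, stK X τ q = some σ →
        (u.B : ℚ) * σ ∈ LabT (u.B * X.c.γ) ∨ (u.B : ℚ) * σ ∈ LabF X.c.γ u.B := by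
  obtain ⟨p1, h1⟩ := alive_facts N
  obtain ⟨p5, h5⟩ := num_p (N.c2 + 2)
  have hev : ∀ᶠ x : ℝ in atTop, Real.log x ^ (N.c2 + 2) ≤ 1 * x ^ (1/10:ℝ) := by
    have e2 := (isLittleO_log_rpow_rpow_atTop (N.c2 + 2) (show (0:ℝ) < 1/10 by norm_num)).bound
      (show (0:ℝ) < 1 by norm_num)
    filter_upwards [e2, eventually_ge_atTop (1:ℝ)] with x hx hx1
    have h3 : 0 ≤ Real.log x ^ (N.c2 + 2) := Real.rpow_nonneg (Real.log_nonneg hx1) _
    have h4 : 0 ≤ x ^ (1 / 10 : ℝ) := Real.rpow_nonneg (by linarith) _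
    rwa [Real.norm_of_nonneg h3, Real.norm_of_nonneg h4] at hx
  obtain ⟨x₁, hx₁⟩ := Filter.eventually_atTop.1 hev
  refine ⟨p1 + p5 + ⌈x₁⌉₊ + 2, fun p0 hp0 γ P₀ hP X hX hT v V u τ hk hB q hq hqs σ hσ => ?_⟩
  rcases le_or_gt ((u.B : ℝ) * X.c.r q) (thK X u τ) with hth | hth
  · rw [K_thin hT hk hq hth] at hσ
    exact Or.inl ⟨_, lab0_spec hk.hu.nd.B_pos hσ⟩
  · -- the label of the column
    have hσV : X.c.st (tp V) q = some σ := by
      cases hs : X.c.st (tp V) q with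
      | none =>
        rw [K_none hT hk hq hqs hB hs] at hσ
        exact absurd hσ (by simp)
      | some ρ =>
        rw [K_keep hT hk hq hqs hth hs] at hσ
        exact hσ
    have hN := hk.hv
    have h := hN.nd
    have hl := hk.lV
    obtain ⟨k1, k2, k3⟩ := hk.tpV
    set b := tp V with hb
    obtain ⟨n1, n2, n3, n4, n5⟩ := h5 b (by omega)
    have hpR : (0:ℝ) < b := by exact_mod_cast (by omega : 0 < b)
    have hthr := hX.thr b k2
    have hK : ∀ s : ℕ, tp V < s → Real.log b ^ (N.c2 + 2) ≤ s * X.c.wp.thr s := by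
      intro s hs
      have hs' : b < s := hs
      have hsR : (0:ℝ) < s := by
        have : 0 < s := by omega
        exact_mod_cast this
      have hps : (b:ℝ) ≤ s := by exact_mod_cast hs'.le
      have h6 := hX.thr s (k2.trans hs')
      have h7 : (s:ℝ) ^ (1/2:ℝ) = s * (s:ℝ) ^ (-(1/2:ℝ)) := by
        conv_rhs => rw [← Real.rpow_one (s:ℝ), ← Real.rpow_mul hsR.le, ← Real.rpow_add hsR]
        norm_num
      calc Real.log b ^ (N.c2 + 2) ≤ (b:ℝ) ^ (1/2:ℝ) := n5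
        _ ≤ (s:ℝ) ^ (1/2:ℝ) := Real.rpow_le_rpow hpR.le hps (by norm_num)
        _ = s * (s:ℝ) ^ (-(1/2:ℝ)) := h7
        _ ≤ s * X.c.wp.thr s := mul_le_mul_of_nonneg_left h6 hsR.le
    have hK' : Real.log b ^ (N.c2 + 2) ≤ (tp V : ℝ) ^ (1 / 10 : ℝ) := by
      have := hx₁ b ((Nat.le_ceil _).trans (by exact_mod_cast (by omega : ⌈x₁⌉₊ ≤ b)))
      rw [one_mul] at this
      exact this
    have hf := h1 p0 (by omega) γ P₀ hP X v V hN hl q (hk.sub hq) hqs
    have key := lab_usedB h X.tOk hl (wp := X.c.wp) (wpL := X.c.wpL) (lam := X.c.lam)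
      (lv := X.c.lv) (γ := X.c.γ) (r := X.c.r)
      (K := Real.log b ^ (N.c2 + 2)) hK hK' (by
        have : -(1/2:ℝ) = -(1 / 2 : ℝ) := rfl
        exact hthr) (hk.sub hq) hf.hi hσV
    rw [hB]
    exact key

/-- **same stage: bad primes of the child** -/
theorem kid_bad (N : Skel189.Num) : ∃ p₁ : ℕ, ∀ p0 ≥ p₁, ∀ (γ : ℝ) (P₀ : ℕ), 2 ≤ P₀ →
    ∀ X : Ctx N γ p0 P₀, RseH X → TH X → ∀ (v : NS) (V : IT) (u : NS) (τ : IT), Kid X v V u τ →
      u.B = v.B → ∀ q ∈ τ.items, q ∈ X.S' → ∀ b : ℕ, b.Prime → lvl u τ < b → b ≤ tp V →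
        ¬ (BadB X.c.γ u.B b ∧ ¬ b ∣ u.B) → ∀ σ : ℚ, stK X τ q = some σ →
          b ∣ ((u.B : ℚ) * σ).den →
            Real.exp ((b:ℝ) ^ (1/20:ℝ)) < ((((u.B : ℚ) * σ).den : ℕ) : ℝ) := by
  obtain ⟨p₁, h1⟩ := kid_lab N
  refine ⟨p₁, fun p0 hp0 γ P₀ hP X hX hT v V u τ hk hB q hq hqs b hb hlt hle hbad σ hσ hd => ?_⟩
  by_contra hc
  have hnB : ¬ b ∣ u.B := by
    intro h2
    rw [hB] at h2
    have h3 := hk.hv.nd.bk.geB b hb h2
    have h4 := hk.tpV.2.2
    omega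
  refine hbad ⟨?_, hnB⟩
  rcases h1 p0 hp0 γ P₀ hP X hX hT v V u τ hk hB q hq hqs σ hσ with h3 | h3
  · exact Or.inl ⟨_, h3, hd, not_lt.1 hc⟩
  · exact Or.inr ⟨_, h3, hd, not_lt.1 hc⟩

end ctx

end Crest.Agent.R4P.DseAl28
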