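import Crest.Agent.R4P.DseInd_21

/-!
R4 (S0004), powers pass, [W-dseR], helper21: **`dseR` of a context** from the bounds `ChOk` of the
children (charges `eD`), the bounds `CrH` of the cross terms, the path sums of their charges `ζ` and
the leaf theorem.

* `path_a` : the charges `eD` along a path, alive items only;
* `eD_le` : one charge;
* `ctx_dse` : `dseR A ≤ (a + 12 + z) · ma` at all the nodes, one population;
* `part_dseA` (all populations), `part_dseF` (`univ`).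
-/

set_option autoImplicit false
set_option linter.unusedSectionVars false
set_option linter.unusedVariables false

namespace Crest.Agent.R4P.DseInd21

open Crest.Agent.R4P.Cnt588 Crest.Agent.R4P.Item758 Crest.Agent.R4P.W363
open Crest.Agent.R4P.Data758 Crest.Agent.R4P.LfDat734
open Crest.Agent.R4P.Bld532 (NS All NodeOk Bk)
open Crest.Agent.R4P.Step588 (NDt ND1 ctx_NDt uq_lt All_All)
open Crest.Agent.R4P.WalkIT579 (tp isL nodeOk_hi top_of_nodeOk)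
open Crest.Agent.R4P.Skel189 Crest.Agent.R4P.RseSt23 Crest.Agent.R4P.DseCh23
open Crest.Agent.R4P.RseNd23
open Crest.Agent.R4P.Dse22 (chE LocOk dse_le dse_items)
open Crest.Agent.R4P.DseFin21 Crest.Agent.R4P.LeafIa21
open Crest.Agent.R4P.Frame758 (LeafAll LeafI wt tG tM tN CxOk leafIn_of tM_eq AdL_AdI)
open Crest.Agent.R4.Soft104 (w)
open Crest.Agent.R4.Item758 (IL AdI AdS AdI_all AdI_AdN AdI_univ)
open Crest.Agent.R4.ClosR758 (dseR din_leR LeafIn AdN MassOk)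
open Crest.Agent.R4P.ClosP542 (PulG)

section ctx
variable {N : Skel189.Num} {γ : ℝ} {p0 P₀ : ℕ} {X : Ctx N γ p0 P₀}

lemma cE_nonneg (K γ : ℝ) (m p B : ℕ) (S : Finset ℕ) : 0 ≤ cE K γ m p B S := by
  classical
  unfold cE
  refine Finset.sum_nonneg fun b _ => ?_
  have h1 : 0 ≤ Real.log b ^ (-K) := Real.rpow_nonneg (log_nn b) _
  have h2 : (0:ℝ) ≤ (b:ℝ) ^ (-(1/7):ℝ) := Real.rpow_nonneg (Nat.cast_nonneg b) _
  have h4 : (0:ℝ) ≤ 1 / (b:ℝ) := by positivity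
  refine add_nonneg (mul_nonneg h1 (add_nonneg ?_ h4)) ?_
  · split_ifs <;> norm_num
  · split_ifs
    · exact h2
    · exact le_rfl

lemma eD_nonneg {K κ a : ℝ} (ha : 0 ≤ a) (p : ℕ) (u : NS) (τ : IT) (j : X.c.Lam) :
    0 ≤ eD X K κ a p u τ j := by
  classical
  unfold eD
  have h1 : ∀ s : ℕ, 0 ≤ Real.log s ^ (-K) := fun s => Real.rpow_nonneg (log_nn s) _
  have h1' : ∀ s : ℕ, 0 ≤ Real.log s ^ (-κ) := fun s => Real.rpow_nonneg (log_nn s) _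
  have h2 : ∀ s : ℕ, 0 ≤ Real.log s ^ (-(2:ℝ)) := fun s => Real.rpow_nonneg (log_nn s) _
  have h3 := fun m p B S => cE_nonneg K X.c.γ m p B S
  split_ifs
  · have := h3 (max (lvl u τ) p0) p u.B (X.c.t.uq j.1.1); linarith
  all_goals first
    | exact le_rfl
    | (have k1 := h3 (tp τ) p u.B (X.c.t.uq j.1.1)
       have k2 := h1 p
       have k3 := h1 (tp τ)
       have k4 := h2 (tp τ)
       have k5 := h1' (tp τ)
       linarith)

lemma eC_nonneg {ε : ℕ → NS → IT → X.c.Lam → ℝ} (hε : ∀ p u τ j, 0 ≤ ε p u τ j) (t : IT) :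
    ∀ (u : NS) (j : X.c.Lam), 0 ≤ eC X ε (fun _ _ _ _ _ => 0) u t j := by
  induction t with
  | leaf S => intro u j; exact le_rfl
  | br p Sp t₁ t₀ ih₁ ih₀ =>
    intro u j
    simp only [eC]
    split_ifs <;> exact hε _ _ _ _
  | add b t₁ t₀ ih₁ ih₀ =>
    intro u j
    simp only [eC]
    split_ifs <;> rw [zero_add] <;> exact hε _ _ _ _
  | up b S t ih => intro u j; exact ih _ j
  | pl b t ih => intro u j; exact hε _ _ _ _
  | far b t₁ t₀ ih₁ ih₀ =>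
    intro u j
    simp only [eC]
    split_ifs <;> rw [zero_add] <;> exact hε _ _ _ _

lemma chE_nonneg {e : NS → IT → X.c.Lam → ℝ} (he : ∀ u τ j, 0 ≤ e u τ j) (t : IT) :
    ∀ (u : NS) (j : X.c.Lam), 0 ≤ chE X.c.D.it e u t j := by
  induction t with
  | leaf S => intro u j; exact le_rfl
  | br p Sp t₁ t₀ ih₁ ih₀ =>
    intro u j
    simp only [chE]
    refine add_nonneg (he _ _ _) ?_
    split_ifs
    · exact ih₀ _ j
    · exact ih₁ _ j
  | add b t₁ t₀ ih₁ ih₀ =>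
    intro u j
    simp only [chE]
    refine add_nonneg (he _ _ _) ?_
    split_ifs
    · exact ih₀ _ j
    · exact ih₁ _ j
  | up b S t ih => intro u j; exact ih _ j
  | pl b t ih =>
    intro u j
    simp only [chE]
    exact add_nonneg (he _ _ _) (ih _ j)
  | far b t₁ t₀ ih₁ ih₀ =>
    intro u j
    simp only [chE]
    refine add_nonneg (he _ _ _) ?_
    split_ifs
    · exact ih₀ _ j
    · exact ih₁ _ j

/-- **the charges of the children** by the potential, at every node -/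
theorem ele_all {K κ a K₀ : ℝ} (hK : 0 ≤ K) (hk0 : 0 ≤ κ) (hkK : κ ≤ K) (ha : 0 ≤ a) (h0 : 3 ≤ p0) (hR : RG X)
    (hPhi : ∀ q ∈ X.S', ∀ m : ℕ, Phi X K κ a q m ≤ K₀) (t : IT) :
    ∀ u : NS, All (PF X) u t → All (KidsP (ELe X (eD X K κ a) K₀)) u t := by
  have key : ∀ {p : ℕ} (_ : p.Prime) (_ : p0 < p) {u : NS} {t : IT} (_ : All (PF X) u t)
      (_ : p ≤ u.n) (_ : u.n ≤ p + 1), ELe X (eD X K κ a) K₀ p (hu u t) (hd t) := by
    intro p hpp hp u t h hn hn' j hj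
    rw [hd_items] at hj
    refine ⟨fun hq => ?_, fun hq => ?_⟩
    · have k1 := kid hK hk0 hkK ha h0 hR hpp hp h hn hn' (path_all hK hk0 hkK ha h0 hR t u h).self hj
      have k2 := chE_nonneg (X := X) (e := e1 X K κ a)
        (fun u τ j => eC_nonneg (fun p u τ j => eD_nonneg ha p u τ j) τ u j) t u j
      have k3 := hPhi j.1.1 hq p
      have k4 : 0 ≤ Real.log p ^ (-κ) := Real.rpow_nonneg (log_nn p) _
      linarith
    · exact (eD_dead hq).le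
  induction t with
  | leaf S => intro u _; exact trivial
  | br p Sp t₁ t₀ ih₁ ih₀ =>
    intro u h
    have hO := h.1.nd.self.node
    exact ⟨⟨key hO.1 hO.2.2.1 h.2.1 (le_refl p) (Nat.le_succ p),
      key hO.1 hO.2.2.1 h.2.2 (le_refl p) (Nat.le_succ p)⟩, ih₁ _ h.2.1, ih₀ _ h.2.2⟩
  | add p t₁ t₀ ih₁ ih₀ =>
    intro u h
    have hO := h.1.nd.self.node
    exact ⟨⟨key hO.1 hO.2.2.1 h.2.1 (Nat.le_succ p) (le_refl (p+1)),
      key hO.1 hO.2.2.1 h.2.2 (Nat.le_succ p) (le_refl (p+1))⟩, ih₁ _ h.2.1, ih₀ _ h.2.2⟩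
  | up p Sp t ih => intro u h; exact ⟨trivial, ih _ h.2⟩
  | pl p t ih =>
    intro u h
    have hO := h.1.nd.self.node
    exact ⟨key hO.1 hO.2.2.1 h.2 (Nat.le_succ p) (le_refl (p+1)), ih _ h.2⟩
  | far p t₁ t₀ ih₁ ih₀ =>
    intro u h
    have hO := h.1.nd.self.node
    exact ⟨⟨key hO.1 hO.2.2.1 h.2.1 (Nat.le_succ p) (le_refl (p+1)),
      key hO.1 hO.2.2.1 h.2.2 (Nat.le_succ p) (le_refl (p+1))⟩, ih₁ _ h.2.1, ih₀ _ h.2.2⟩

/-- admissible populations are admissible below -/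
theorem AdI_down {A : Finset X.c.Lam} (t : IT) : ∀ u : NS, AdI X.c.D.it (X.g u t) A →
    All (fun u τ => AdI X.c.D.it (X.g u τ) A) u t := by
  induction t with
  | leaf S => intro u h; exact h
  | br p Sp t₁ t₀ ih₁ ih₀ =>
    intro u h
    have k := AdI_AdN X.c.D.it (X.g u (.br p Sp t₁ t₀)) A h
    exact ⟨h, ih₁ ⟨p, u.c / (1 - 1 / (p : ℝ)), u.A * p, u.B⟩ k.2.1,
      ih₀ ⟨p, u.c * p, u.A, u.B * p⟩ k.2.2⟩
  | add p t₁ t₀ ih₁ ih₀ =>
    intro u h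
    have k := AdI_AdN X.c.D.it (X.g u (.add p t₁ t₀)) A h
    exact ⟨h, ih₁ ⟨p + 1, u.c, u.A, u.B⟩ k.2.1, ih₀ ⟨p + 1, u.c, u.A, u.B⟩ k.2.2⟩
  | up p Sp t ih =>
    intro u h
    exact ⟨h, ih ⟨p, u.c, u.A, u.B⟩ h⟩
  | pl p t ih =>
    intro u h
    have k := AdI_AdN X.c.D.it (X.g u (.pl p t)) A h
    exact ⟨h, ih ⟨p + 1, u.c, u.A * p, u.B⟩ k.2.1⟩
  | far p t₁ t₀ ih₁ ih₀ =>
    intro u h
    have k := AdI_AdN X.c.D.it (X.g u (.far p t₁ t₀)) A h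
    exact ⟨h, ih₁ ⟨p + 1, u.c, u.A, u.B⟩ k.2.1, ih₀ ⟨p + 1, u.c, u.A, u.B⟩ k.2.2⟩

lemma ma_le_mu {u : NS} (hc : 0 ≤ u.c) (A : Finset X.c.Lam) (τ : IT) :
    ma X A u τ ≤ u.c * ∑ j ∈ A.filter (fun j => X.c.D.it j ∈ τ.items), wt X.c.D j := by
  unfold ma
  refine mul_le_mul_of_nonneg_left (Finset.sum_le_sum fun j _ => ?_) hc
  unfold Wa
  split_ifs
  · exact le_rfl
  · exact wt_nonneg X j

end ctx

/-- **hypotheses on the cross terms**: path sums of the charges, bounds from the energies -/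
structure ZH {N : Skel189.Num} {γ : ℝ} {p0 P₀ : ℕ} (X : Ctx N γ p0 P₀)
    (ζ : ℕ → NS → IT → IT → X.c.Lam → ℝ) (z K : ℝ) (A : Finset X.c.Lam) : Prop where
  path : All (PathLe X (eC X (fun _ _ _ _ => 0) ζ) z) ⟨top X.S, 1, 1, 1⟩ X.c.t
  cr : All (CrH X X.Y A K ζ) ⟨top X.S, 1, 1, 1⟩ X.c.t

/-- **`dseR` of a context, one population** -/
theorem ctx_dse (N : Skel189.Num) {K κ : ℝ} (hK : N.B + 2 ≤ K) (hk : N.C1 + N.c2 + 2 ≤ κ)
    (hkK : κ ≤ K) : ∃ p₁ : ℕ, ∀ p0 ≥ p₁, ∀ (γ : ℝ)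
    (P₀ : ℕ) (X : Ctx N γ p0 P₀), RG X → ∀ (C₀ a z : ℝ), 0 ≤ C₀ → 0 ≤ a → 0 ≤ z →
      LeafAll (LeafIa X.c (wt X.c.D) C₀) 1 1 1 X.c.t → ∀ (j₀ : X.c.Lam),
      ∀ (ζ : ℕ → NS → IT → IT → X.c.Lam → ℝ) (A : Finset X.c.Lam),
      ZH X ζ z (C₀ + (a + 12 + z) + (a + 12)) A →
      All (KidsP (ChOk X X.Y A (wt X.c.D) (eD X K κ a))) ⟨top X.S, 1, 1, 1⟩ X.c.t →
      All (fun u τ => AdI X.c.D.it (X.g u τ) A → dseR A (X.g u τ) ≤ (a + 12 + z) * ma X A u τ)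
        ⟨top X.S, 1, 1, 1⟩ X.c.t := by
  classical
  have hB := N.hB
  have hC1 := N.hC1
  have hc2 := N.hc2
  obtain ⟨p1, h1⟩ := Phi_le N hK hk
  refine ⟨p1 + 3, fun p0 hp0 γ P₀ X hR C₀ a z hC₀ ha hz hLI j₀ ζ A hZ hCh => ?_⟩
  have hK0 : 0 ≤ K := by linarith
  have hk0 : 0 ≤ κ := by linarith
  have hPhi : ∀ q ∈ X.S', ∀ m : ℕ, Phi X K κ a q m ≤ a + 12 := h1 p0 (by omega) γ P₀ X a
  have f1 := ctx_NDt X
  have f2 := ctx_cpos X
  have f3 := in_le hC₀ hLI j₀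
  have f4 := ele_all (X := X) hK0 hk0 hkK ha (by omega) hR hPhi X.c.t _ (ctx_PF X)
  have f5 := path_all (X := X) (K := K) (κ := κ) (a := a) hK0 hk0 hkK ha (by omega) hR X.c.t _
    (ctx_PF X)
  have f6 : All (PathLe X (eC X (eD X K κ a) ζ) (a + 12 + z)) ⟨top X.S, 1, 1, 1⟩ X.c.t := by
    refine All.mono (fun u τ hh j hj => ?_) (f5.and hZ.path)
    obtain ⟨g1, g2⟩ := hh
    have e := chE_add (X := X) X.c.D.it (e := eC X (eD X K κ a) ζ)
      (e₁ := eC X (eD X K κ a) (fun _ _ _ _ _ => 0)) (e₂ := eC X (fun _ _ _ _ => 0) ζ)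
      (fun u t j => eC_add (eD X K κ a) ζ t u j) τ u j
    rw [e]
    have k2 := g2 j hj
    by_cases hq : j.1.1 ∈ X.S'
    · rw [if_pos hq] at k2 ⊢
      have k1 : chE X.c.D.it (eC X (eD X K κ a) (fun _ _ _ _ _ => 0)) u τ j ≤ a + 12 := by
        by_cases hl : isL (hd τ)
        · have := (g1 j hj).1 hl
          change chE X.c.D.it (e1 X K κ a) u τ j ≤ a + 12
          rw [this]; linarith
        · have m1 := (g1 j hj).2 hl
          have m2 := hPhi j.1.1 hq (tp (hd τ))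
          have m3 : 0 ≤ Real.log (tp (hd τ)) ^ (-κ) := Real.rpow_nonneg (log_nn _) _
          change chE X.c.D.it (e1 X K κ a) u τ j ≤ a + 12
          linarith
      linarith
    · rw [if_neg hq] at k2 ⊢
      have k1 : chE X.c.D.it (eC X (eD X K κ a) (fun _ _ _ _ _ => 0)) u τ j = 0 :=
        ch_dead (fun u t => e1_dead hq t u) τ u
      linarith
  have f7 := All_All X.c.t _ ((f1.and f2).and ((f3.and f4).and ((f6.and hZ.cr).and hCh)))
  refine All.mono (fun u τ hh hA => ?_) f7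
  have hAd := AdI_down (X := X) τ u hA
  have hIF : All (IF X X.Y A (eD X K κ a) ζ C₀ (a + 12 + z) (a + 12)) u τ := by
    refine All.mono (fun u τ hh => ?_) (hh.and hAd)
    obtain ⟨⟨⟨g1, g2⟩, ⟨g3, g4⟩, ⟨g6, g7⟩, g8⟩, g9⟩ := hh
    exact
      { nd := g1
        c0 := g2.le
        inn := g3 A g9
        ch := g8
        le := g4
        pl := g6
        cr := g7 }
  have hk := kids_all (Y := X.Y) (A := A) (ε := eD X K κ a) (ζ := ζ) hC₀
    (K := a + 12 + z) (Ke := a + 12) (by linarith) (by linarith) τ u hIF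
  exact dse_a (Y := X.Y) (All.mono (fun _ _ k => k.nd) hIF) hIF.self.c0 hk hIF.self.pl

/-- **the part `dseR`**, all populations -/
theorem part_dseA (N : Skel189.Num) {K κ : ℝ} (hK : N.B + 2 ≤ K) (hk : N.C1 + N.c2 + 2 ≤ κ)
    (hkK : κ ≤ K) : ∃ p₁ : ℕ, ∀ p0 ≥ p₁, ∀ (γ : ℝ)
    (P₀ : ℕ) (X : Ctx N γ p0 P₀), RG X → ∀ (C₀ a z : ℝ), 0 ≤ C₀ → 0 ≤ a → 0 ≤ z →
      LeafAll (LeafIa X.c (wt X.c.D) C₀) 1 1 1 X.c.t →
      ∀ (ζ : ℕ → NS → IT → IT → X.c.Lam → ℝ),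
      (∀ A, IL X.c.D.it A → ZH X ζ z (C₀ + (a + 12 + z) + (a + 12)) A) →
      (∀ A, IL X.c.D.it A →
        All (KidsP (ChOk X X.Y A (wt X.c.D) (eD X K κ a))) ⟨top X.S, 1, 1, 1⟩ X.c.t) →
      ∀ (j₀ : X.c.Lam) (Hb : NS → IT → Prop),
      Part X j₀ Hb (fun u τ A => dseR A (X.g u τ)) (a + 12 + z) := by
  obtain ⟨p1, h1⟩ := ctx_dse N hK hk hkK
  refine ⟨p1, fun p0 hp0 γ P₀ X hR C₀ a z hC₀ ha hz hLI ζ hZ hCh j₀ Hb => ?_⟩
  have key : ∀ A, IL X.c.D.it A → All (fun u τ => AdI X.c.D.it (X.g u τ) A →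
      dseR A (X.g u τ) ≤ (a + 12 + z) * ma X A u τ) ⟨top X.S, 1, 1, 1⟩ X.c.t := fun A hA =>
    h1 p0 hp0 γ P₀ X hR C₀ a z hC₀ ha hz hLI j₀ ζ A (hZ A hA) (hCh A hA)
  have key' : All (fun u τ => ∀ A, AdI X.c.D.it (X.g u τ) A →
      dseR A (X.g u τ) ≤ (a + 12 + z) * ma X A u τ) ⟨top X.S, 1, 1, 1⟩ X.c.t := by
    have gen : ∀ (t : IT) (u : NS), (∀ A, IL X.c.D.it A → All (fun u τ => AdI X.c.D.it (X.g u τ) A →
        dseR A (X.g u τ) ≤ (a + 12 + z) * ma X A u τ) u t) →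
        All (fun u τ => ∀ A, AdI X.c.D.it (X.g u τ) A →
          dseR A (X.g u τ) ≤ (a + 12 + z) * ma X A u τ) u t := by
      intro t
      induction t with
      | leaf S => intro u h A hA; exact (h A hA.2) hA
      | br p Sp t₁ t₀ ih₁ ih₀ =>
        intro u h
        exact ⟨fun A hA => (h A hA.2).1 hA, ih₁ _ fun A hA => (h A hA).2.1,
          ih₀ _ fun A hA => (h A hA).2.2⟩
      | add p t₁ t₀ ih₁ ih₀ =>
        intro u h
        exact ⟨fun A hA => (h A hA.2).1 hA, ih₁ _ fun A hA => (h A hA).2.1,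
          ih₀ _ fun A hA => (h A hA).2.2⟩
      | up p Sp t ih =>
        intro u h
        exact ⟨fun A hA => (h A hA.2).1 hA, ih _ fun A hA => (h A hA).2⟩
      | pl p t ih =>
        intro u h
        exact ⟨fun A hA => (h A hA.2).1 hA, ih _ fun A hA => (h A hA).2⟩
      | far p t₁ t₀ ih₁ ih₀ =>
        intro u h
        exact ⟨fun A hA => (h A hA.2).1 hA, ih₁ _ fun A hA => (h A hA).2.1,
          ih₀ _ fun A hA => (h A hA).2.2⟩
    exact gen _ _ key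
  refine All.mono (fun u τ hh hp hb A hA hn => ?_)
    (((key'.and (ctx_tM X j₀)).and (ctx_mumu X j₀)).and (ctx_cpos X))
  obtain ⟨⟨⟨k1, k2⟩, k3⟩, hc⟩ := hh
  have e : X.mu j₀ u τ A = u.c * ∑ j ∈ A.filter (fun j => X.c.D.it j ∈ τ.items),
      wt X.c.D j := k2 A
  refine (k1 A hA).trans (mul_le_mul_of_nonneg_left ?_ (by linarith))
  have := (k3 A).2
  have := ma_le_mu (X := X) hc.le A τ
  rw [e]
  rw [e] at *
  linarith

/-- **the part `dseR`**, population `univ` -/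
theorem part_dseF (N : Skel189.Num) {K κ : ℝ} (hK : N.B + 2 ≤ K) (hk : N.C1 + N.c2 + 2 ≤ κ)
    (hkK : κ ≤ K) : ∃ p₁ : ℕ, ∀ p0 ≥ p₁, ∀ (γ : ℝ)
    (P₀ : ℕ) (X : Ctx N γ p0 P₀), RG X → ∀ (C₀ a z : ℝ), 0 ≤ C₀ → 0 ≤ a → 0 ≤ z →
      LeafAll (LeafIa X.c (wt X.c.D) C₀) 1 1 1 X.c.t →
      ∀ (ζ : ℕ → NS → IT → IT → X.c.Lam → ℝ),
      ZH X ζ z (C₀ + (a + 12 + z) + (a + 12)) Finset.univ →
      All (KidsP (ChOk X X.Y Finset.univ (wt X.c.D) (eD X K κ a))) ⟨top X.S, 1, 1, 1⟩ X.c.t →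
      ∀ (j₀ : X.c.Lam) (Hb : NS → IT → Prop),
      SkelF29.PartF X j₀ Hb (fun u τ A => dseR A (X.g u τ)) (a + 12 + z) := by
  obtain ⟨p1, h1⟩ := ctx_dse N hK hk hkK
  refine ⟨p1, fun p0 hp0 γ P₀ X hR C₀ a z hC₀ ha hz hLI ζ hZ hCh j₀ Hb => ?_⟩
  have key := h1 p0 hp0 γ P₀ X hR C₀ a z hC₀ ha hz hLI j₀ ζ Finset.univ hZ hCh
  refine All.mono (fun u τ hh hp hb => ?_)
    (((key.and (ctx_tM X j₀)).and (ctx_mumu X j₀)).and (ctx_cpos X))
  obtain ⟨⟨⟨k1, k2⟩, k3⟩, hc⟩ := hh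
  have e : X.mu j₀ u τ Finset.univ =
      u.c * ∑ j ∈ Finset.univ.filter (fun j => X.c.D.it j ∈ τ.items), wt X.c.D j := k2 Finset.univ
  refine (k1 (AdI_univ _ _)).trans (mul_le_mul_of_nonneg_left ?_ (by linarith))
  have h3 := (k3 Finset.univ).2
  have h4 := ma_le_mu (X := X) hc.le Finset.univ τ
  rw [← e] at h4
  linarith

end Crest.Agent.R4P.DseInd21
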