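import Crest.Agent.R4P.DseN_23
import Crest.Agent.R4P.LLM_24

/-!
R4 (S0004), powers pass, helper23 ([W-dseR], D5): **the energy of one child, tree free**, part 2.

* `CD.NM` : facts of a child which is not missing, `CD.MM` : facts of the missing child of a tie `p`;
* `lmL` : two labels at a missing tie (`dLLM`);
* `nm_cover`, `mm_cover` : the classes of pairs.
-/

set_option autoImplicit false
set_option linter.unusedVariables false

open Finset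

namespace Crest.Agent.R4P.DseN23

open Crest.Agent.R4.HVW560 (cof wt)
open Crest.Agent.R4.InX944 (DP)
open Crest.Agent.R4.LF363 (Lab)
open Crest.Agent.R4.DensAcc33 (Accd)
open Crest.Agent.R4.ClsB (Tame)
open Crest.Agent.R4.LL207 (Zc)
open Crest.Agent.R4P.RseP24 (log_le_rpow rpow_le_log)
open Crest.Agent.R4

/-- **facts of a child which is not the missing child of a tie** -/
structure CD.NM (c : CD) (A : ℝ) (bad : ℕ → Prop) : Prop where
  nn : ∀ w ∈ c.S, c.s w = none → c.s' w = none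
  vl : ∀ w ∈ c.S, ∀ ρ, c.s w = some ρ → Lab c.θ (c.R w) ρ ∨ ρ ∈ c.Λf
  acc : ∀ w ∈ c.S, ∀ b : ℕ, b.Prime → c.m < b → b ≤ c.p → b ∣ w →
    ¬ Accd c.θ (Real.log b ^ A) b
  bad : ∀ b : ℕ, b.Prime → c.m < b → b ≤ c.p → ¬ bad b → ∀ w ∈ c.S, ∀ ρ, c.s' w = some ρ →
    b ∣ ρ.den → Real.exp ((b:ℝ) ^ (1/20:ℝ)) < ρ.den

/-- **facts of the missing child of a tie `p`** -/
structure CD.MM (c : CD) (C2 A : ℝ) : Prop where
  pp : c.p.Prime
  hi : ∀ w ∈ c.S, c.R w ≤ Real.log c.p ^ C2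
  nl : ∀ w ∈ c.S, c.s w = none → ∀ ρ, ¬ Lab (c.θ / c.p) (c.R w / c.p) ρ
  vl : ∀ w ∈ c.S, ∀ ρ, c.s w = some ρ → Lab (c.θ / c.p) (c.R w / c.p) (ρ / c.p)
  acc : c.S.Nonempty → ¬ Accd (c.θ / c.p) (Real.log c.p ^ A) c.p
  bad : c.S.Nonempty → ∀ (ρ : ℚ) (a : ℝ), Lab (c.θ / c.p) a ρ → c.p ∣ ρ.den →
    Real.exp ((c.p:ℝ) ^ (1/20:ℝ)) < ρ.den

open Classical in
/-- two different labels at the column -/
noncomputable def CD.LE (c : CD) : Finset (ℕ × ℕ) :=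
  c.E.filter fun e => ∃ ρ ρ', c.s e.1 = some ρ ∧ c.s e.2 = some ρ' ∧ ρ ≠ ρ'

open Classical in
/-- **two labels at a missing tie** -/
theorem lmL (CL C2 A K : ℝ) (hCL : 0 ≤ CL) (hC2 : 0 ≤ C2) : ∃ p₁ : ℕ, ∀ c : CD, c.Ok CL C2 →
    c.MM C2 A → p₁ ≤ c.m →
    ∑ e ∈ c.LE, c.F e ≤ Real.log c.p ^ (-K) * ∑ w ∈ c.S, wt c.R w := by
  obtain ⟨p1, h1⟩ := LLM24.dLLM CL C2 hCL hC2
  obtain ⟨p2, h2⟩ := rpow_le_log K (c := 1/40) (by norm_num)
  obtain ⟨p3, h3⟩ := exp45 1 0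
  refine ⟨p1 + p2 + p3, fun c h hM hm => ?_⟩
  have hl := (h3 c.m (by omega)).1
  have hmp := h.mp
  have hp0 : (c.p:ℝ) ≠ 0 := by exact_mod_cast hM.pp.ne_zero
  have hpq : (c.p:ℚ) ≠ 0 := by exact_mod_cast hM.pp.ne_zero
  rcases Finset.eq_empty_or_nonempty c.LE with h0 | ⟨e₀, he₀⟩
  · rw [h0, Finset.sum_empty]
    refine mul_nonneg (Real.rpow_nonneg ?_ _) h.M0
    have := log_mono' hl hmp
    linarith
  have hne : c.S.Nonempty := ⟨e₀.1, (h.mem (Finset.mem_filter.1 he₀).1).1⟩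
  set S' := c.S.filter (fun w => (c.s w).isSome) with hS'
  have hSS : S' ⊆ c.S := Finset.filter_subset _ _
  have key := h1 c.p (by omega) hM.pp (c.θ / c.p) S' c.LE c.R (fun w => (c.s w).getD 0 / c.p) c.F
    (fun e he => by
      obtain ⟨x1, ρ, ρ', x2, x3, x4⟩ := Finset.mem_filter.1 he
      obtain ⟨m1, m2⟩ := h.mem x1
      exact Finset.mem_product.2 ⟨Finset.mem_filter.2 ⟨m1, by rw [x2]; rfl⟩,
        Finset.mem_filter.2 ⟨m2, by rw [x3]; rfl⟩⟩)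
    (fun w hw => h.pos w (hSS hw)) (fun w hw => h.lo' hCL hl hmp w (hSS hw))
    (fun w hw => hM.hi w (hSS hw)) (h.mass' hC2 hl hmp hSS)
    (fun w hw => by
      obtain ⟨w1, w2⟩ := Finset.mem_filter.1 hw
      obtain ⟨ρ, hρ⟩ := Option.isSome_iff_exists.1 w2
      have := hM.vl w w1 ρ hρ
      simp only [hρ, Option.getD_some]
      exact this)
    (hM.bad hne)
    (fun e he => by
      obtain ⟨x1, ρ, ρ', x2, x3, x4⟩ := Finset.mem_filter.1 he
      exact h.Fs e x1 ρ x2)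
    (fun e he _ => by
      obtain ⟨x1, ρ, ρ', x2, x3, x4⟩ := Finset.mem_filter.1 he
      obtain ⟨a, a', hk⟩ := h.lk e x1
      obtain ⟨ρ'', y1, y2⟩ := hk.lks ρ x2
      rw [x3] at y1
      obtain rfl := Option.some.inj y1
      simp only [x2, x3, Option.getD_some, mul_div_cancel₀ _ hpq]
      refine ⟨fun h5 => x4 ?_, a, a', y2⟩
      exact (div_left_inj' hpq).1 h5)
  refine key.trans ?_
  have g2 := h2 c.p (by omega)
  refine mul_le_mul g2 (Finset.sum_le_sum_of_subset_of_nonneg hSS fun w hw _ => h.wt0 hw)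
    (Finset.sum_nonneg fun w hw => h.wt0 (hSS hw)) (Real.rpow_nonneg ?_ _)
  have := log_mono' hl hmp
  linarith

/-! ### unions -/

lemma sum_or {ι : Type*} [DecidableEq ι] {A B : Finset ι} {F : ι → ℝ} (h : ∀ e ∈ A ∪ B, 0 ≤ F e) :
    ∑ e ∈ A ∪ B, F e ≤ ∑ e ∈ A, F e + ∑ e ∈ B, F e := by
  rw [← Finset.sum_union_inter]
  have : 0 ≤ ∑ e ∈ A ∩ B, F e := Finset.sum_nonneg fun e he =>
    h e (Finset.mem_union_left _ (Finset.mem_inter.1 he).1)
  linarith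

lemma sum_bi {ι κ : Type*} [DecidableEq ι] [DecidableEq κ] (P : Finset κ) (A : κ → Finset ι)
    {F : ι → ℝ} (h : ∀ b ∈ P, ∀ e ∈ A b, 0 ≤ F e) :
    ∑ e ∈ P.biUnion A, F e ≤ ∑ b ∈ P, ∑ e ∈ A b, F e := by
  induction P using Finset.induction_on with
  | empty => simp
  | insert b P hb ih =>
    rw [Finset.biUnion_insert, Finset.sum_insert hb]
    refine (sum_or fun e he => ?_).trans (add_le_add le_rfl (ih fun b' hb' e he =>
      h b' (Finset.mem_insert_of_mem hb') e he))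
    rcases Finset.mem_union.1 he with he | he
    · exact h b (Finset.mem_insert_self _ _) e he
    · obtain ⟨b', hb', he⟩ := Finset.mem_biUnion.1 he
      exact h b' (Finset.mem_insert_of_mem hb') e he

/-! ### the classes -/

open Classical in
/-- tag pairs -/
noncomputable def CD.TE (c : CD) : Finset (ℕ × ℕ) :=
  c.E.filter fun e => ¬ (c.dif e).Nonempty ∧ c.Big e

open Classical in
/-- two different labels at the column, the first one is lost -/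
noncomputable def CD.W1 (c : CD) : Finset (ℕ × ℕ) :=
  c.E.filter fun e => ∃ ρ ρ', c.s e.1 = some ρ ∧ c.s e.2 = some ρ' ∧ ρ ≠ ρ' ∧
    c.R e.1 ≤ c.T ∧ ¬ Lab c.θ (c.R e.1) ρ

open Classical in
/-- two different labels at the column, the second one is lost -/
noncomputable def CD.W2 (c : CD) : Finset (ℕ × ℕ) :=
  c.E.filter fun e => ∃ ρ ρ', c.s e.1 = some ρ ∧ c.s e.2 = some ρ' ∧ ρ ≠ ρ' ∧
    c.R e.2 ≤ c.T ∧ ¬ Lab c.θ (c.R e.2) ρ'

/-- the primes of `(m, p]` -/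
def CD.PI (c : CD) : Finset ℕ := (Finset.Ioc c.m c.p).filter Nat.Prime

section cls
variable {c : CD} {CL C2 : ℝ}

/-- a lost label -/
lemma CD.Ok.lost (h : c.Ok CL C2) {w : ℕ} (hw : w ∈ c.S) {ρ : ℚ} (hs : c.s w = some ρ)
    (hs' : c.s' w ≠ some ρ) : c.R w ≤ c.T ∧ ¬ Lab c.θ (c.R w) ρ := by
  have h1 : c.R w ≤ c.T := by
    by_contra hc
    exact hs' (h.keep w hw ρ hs (not_le.1 hc))
  exact ⟨h1, fun hL => hs' (h.kthin hw h1 hL)⟩

/-- a pair with one exact label kept on both sides is not separated by a prime -/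
lemma CD.Ok.no_dif (h : c.Ok CL C2) {e : ℕ × ℕ} (he : e ∈ c.E) {a a' : ℤ} (hk : c.LkA e a a')
    {ρ : ℚ} (h1 : c.s' e.1 = some ρ) (h2 : c.s' e.2 = some ρ) (hx : Ex a a' ρ ρ e) :
    ¬ (c.dif e).Nonempty := by
  rintro ⟨b, hb⟩
  obtain ⟨⟨b1, b2⟩, b3, b4⟩ := mem_dif.1 hb
  have hpos := (h.pos _ (h.mem he).1).1
  rcases b4 with ⟨b5, b6⟩ | ⟨b5, b6⟩
  · have h3 := hk.al1 b b3 b1 b5 b6 ρ ρ h1 hx
    exact (RseAr23.Zc_of_exact b3 (dvd_cof b3 b5 b6) (cof_cop hpos) ρ ρ hx h3).2 rfl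
  · have h3 := hk.al2 b b3 b1 b5 b6 ρ ρ h2 hx
    exact (RseAr23.Zc_of_exact' b3 (dvd_cof b3 b5 b6) (cof_cop hpos) ρ ρ hx h3).2 rfl

/-- one label: tags or death -/
lemma CD.Ok.same_cls (h : c.Ok CL C2) {e : ℕ × ℕ} (he : e ∈ c.E) {ρ : ℚ} (h1 : c.s e.1 = some ρ)
    (h2 : c.s e.2 = some ρ) : (e ∈ c.TE ∧ c.cr) ∨ e ∈ c.KE := by
  classical
  obtain ⟨a, a', hk⟩ := h.lk e he
  obtain ⟨ρ', y1, y2⟩ := hk.lks ρ h1
  rw [h2] at y1
  obtain rfl := Option.some.inj y1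
  obtain ⟨m1, m2⟩ := h.mem he
  by_cases k1 : c.s' e.1 = some ρ
  · by_cases k2 : c.s' e.2 = some ρ
    · left
      have hn := h.no_dif he hk k1 k2 y2
      rcases hk.same ρ k1 k2 y2 with h3 | ⟨h3, h4⟩
      · exact absurd h3 hn
      · exact ⟨Finset.mem_filter.2 ⟨he, hn, h4⟩, h3⟩
    · right
      exact Finset.mem_filter.2 ⟨he, ρ, h1, h2, Or.inr (h.lost m2 h2 k2)⟩
  · right
    exact Finset.mem_filter.2 ⟨he, ρ, h1, h2, Or.inl (h.lost m1 h1 k1)⟩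

/-- **the classes of a child which is not missing** -/
theorem nm_cls (h : c.Ok CL C2) {A : ℝ} {bad : ℕ → Prop} (hN : c.NM A bad) {e : ℕ × ℕ}
    (he : e ∈ c.E) : (e ∈ c.TE ∧ c.cr) ∨ e ∈ c.KE ∨ e ∈ c.W1 ∨ e ∈ c.W2 ∨
      ∃ b ∈ c.PI, e ∈ c.U1 b ∨ e ∈ c.U2 b ∨ e ∈ c.V1 b ∨ e ∈ c.V2 b := by
  classical
  obtain ⟨a, a', hk⟩ := h.lk e he
  obtain ⟨m1, m2⟩ := h.mem he
  -- the largest prime which separates
  have hmax : (c.dif e).Nonempty → ∃ b ∈ c.PI, (∀ l ∈ c.dif e, l ≤ b) ∧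
      (b ∣ e.1 ∧ ¬ b ∣ e.2 ∨ b ∣ e.2 ∧ ¬ b ∣ e.1) := by
    intro hne
    obtain ⟨⟨b1, b2⟩, b3, b4⟩ := mem_dif.1 ((c.dif e).max'_mem hne)
    exact ⟨_, Finset.mem_filter.2 ⟨Finset.mem_Ioc.2 ⟨b1, b2⟩, b3⟩,
      fun l hl => Finset.le_max' _ l hl, b4⟩
  cases hs : c.s e.1 with
  | none =>
    have hs2 := (hk.lkn hs).1
    have k1 := hN.nn _ m1 hs
    have k2 := hN.nn _ m2 hs2
    have hsep := hk.kept (by rw [k1, hs]) (by rw [k2, hs2])
    by_cases hd : (c.dif e).Nonempty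
    · obtain ⟨b, hb, -, hb2⟩ := hmax hd
      refine Or.inr (Or.inr (Or.inr (Or.inr ⟨b, hb, ?_⟩)))
      rcases hb2 with ⟨b5, b6⟩ | ⟨b5, b6⟩
      · exact Or.inl (Finset.mem_filter.2 ⟨he, hs, k1, k2, b5, b6⟩)
      · exact Or.inr (Or.inl (Finset.mem_filter.2 ⟨he, hs, k1, k2, b5, b6⟩))
    · rcases hsep with h3 | ⟨h3, h4⟩
      · exact absurd h3 hd
      · exact Or.inl ⟨Finset.mem_filter.2 ⟨he, hd, h4⟩, h3⟩
  | some ρ =>
    obtain ⟨ρ', hs2, hx⟩ := hk.lks ρ hs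
    by_cases hρ : ρ = ρ'
    · rw [← hρ] at hs2
      rcases h.same_cls he hs hs2 with h3 | h3
      · exact Or.inl h3
      · exact Or.inr (Or.inl h3)
    · by_cases k1 : c.s' e.1 = some ρ
      · by_cases k2 : c.s' e.2 = some ρ'
        · have hsep := hk.kept (by rw [k1, hs]) (by rw [k2, hs2])
          by_cases hd : (c.dif e).Nonempty
          · obtain ⟨b, hb, hb1, hb2⟩ := hmax hd
            refine Or.inr (Or.inr (Or.inr (Or.inr ⟨b, hb, ?_⟩)))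
            rcases hb2 with ⟨b5, b6⟩ | ⟨b5, b6⟩
            · exact Or.inr (Or.inr (Or.inl (Finset.mem_filter.2 ⟨he, ⟨ρ, ρ', hs, hs2, hρ⟩,
                by rw [k1, hs], by rw [k2, hs2], hb1, b5, b6⟩)))
            · exact Or.inr (Or.inr (Or.inr (Finset.mem_filter.2 ⟨he, ⟨ρ, ρ', hs, hs2, hρ⟩,
                by rw [k1, hs], by rw [k2, hs2], hb1, b5, b6⟩)))
          · rcases hsep with h3 | ⟨h3, h4⟩
            · exact absurd h3 hd
            · exact Or.inl ⟨Finset.mem_filter.2 ⟨he, hd, h4⟩, h3⟩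
        · refine Or.inr (Or.inr (Or.inr (Or.inl (Finset.mem_filter.2 ⟨he, ρ, ρ', hs, hs2, hρ, ?_⟩))))
          exact h.lost m2 hs2 k2
      · refine Or.inr (Or.inr (Or.inl (Finset.mem_filter.2 ⟨he, ρ, ρ', hs, hs2, hρ, ?_⟩)))
        exact h.lost m1 hs k1

end cls

/-! ### totals -/

open Classical in
/-- the charge of a modulus from the primes of `(m, p]` -/
noncomputable def CD.pr (c : CD) (K : ℝ) (bad : ℕ → Prop) (w : ℕ) : ℝ :=
  ∑ b ∈ c.PI, (Real.log b ^ (-K) * ((if b ∣ w then 1 else 0) + 1 / (b:ℝ)) +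
    if bad b then (b:ℝ) ^ (-(1/7):ℝ) else 0)

lemma cb_eq (c : CD) (K : ℝ) (b : ℕ) : c.cb K b =
    ∑ w ∈ c.S, wt c.R w * (Real.log b ^ (-K) * ((if b ∣ w then 1 else 0) + 1 / (b:ℝ))) := by
  unfold CD.cb
  rw [Finset.sum_filter, mul_add, Finset.mul_sum, Finset.mul_sum, Finset.mul_sum,
    ← Finset.sum_add_distrib]
  refine Finset.sum_congr rfl fun w _ => ?_
  split_ifs <;> ring

open Classical in
lemma pr_sum (c : CD) (K : ℝ) (bad : ℕ → Prop) :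
    ∑ b ∈ c.PI, (c.cb K b + if bad b then (b:ℝ) ^ (-(1/7):ℝ) * ∑ w ∈ c.S, wt c.R w else 0) =
      ∑ w ∈ c.S, wt c.R w * c.pr K bad w := by
  unfold CD.pr
  simp_rw [Finset.mul_sum]
  rw [Finset.sum_comm]
  refine Finset.sum_congr rfl fun b _ => ?_
  rw [cb_eq]
  by_cases hb : bad b
  · simp only [if_pos hb]
    rw [← Finset.sum_add_distrib]
    refine Finset.sum_congr rfl fun w _ => ?_
    ring
  · simp only [if_neg hb, add_zero]

section tot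
variable {c : CD} {CL C2 : ℝ}

/-- no change of the labels: no death -/
lemma CD.Ok.KE_empty (h : c.Ok CL C2) (hs : ∀ w ∈ c.S, c.s' w = c.s w) : c.KE = ∅ := by
  classical
  rw [Finset.eq_empty_iff_forall_notMem]
  intro e he
  obtain ⟨x1, ρ, x2, x3, x4⟩ := Finset.mem_filter.1 he
  obtain ⟨m1, m2⟩ := h.mem x1
  rcases x4 with ⟨x4, x5⟩ | ⟨x4, x5⟩
  · exact x5 (h.thinL _ m1 ρ (by rw [hs _ m1]; exact x2) x4)
  · exact x5 (h.thinL _ m2 ρ (by rw [hs _ m2]; exact x3) x4)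

lemma CD.Ok.W1_empty (h : c.Ok CL C2) (hs : ∀ w ∈ c.S, c.s' w = c.s w) : c.W1 = ∅ := by
  classical
  rw [Finset.eq_empty_iff_forall_notMem]
  intro e he
  obtain ⟨x1, ρ, ρ', x2, x3, x4, x5, x6⟩ := Finset.mem_filter.1 he
  obtain ⟨m1, m2⟩ := h.mem x1
  exact x6 (h.thinL _ m1 ρ (by rw [hs _ m1]; exact x2) x5)

lemma CD.Ok.W2_empty (h : c.Ok CL C2) (hs : ∀ w ∈ c.S, c.s' w = c.s w) : c.W2 = ∅ := by
  classical
  rw [Finset.eq_empty_iff_forall_notMem]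
  intro e he
  obtain ⟨x1, ρ, ρ', x2, x3, x4, x5, x6⟩ := Finset.mem_filter.1 he
  obtain ⟨m1, m2⟩ := h.mem x1
  exact x6 (h.thinL _ m2 ρ' (by rw [hs _ m2]; exact x3) x5)

lemma CD.Ok.TE_nonneg (h : c.Ok CL C2) {E' : Finset (ℕ × ℕ)} (hE : E' ⊆ c.E) :
    ∀ e ∈ E', 0 ≤ c.F e := fun e he => h.F0 e (hE he)

lemma U1_sub (c : CD) (b : ℕ) : c.U1 b ⊆ c.E := Finset.filter_subset _ _
lemma U2_sub (c : CD) (b : ℕ) : c.U2 b ⊆ c.E := Finset.filter_subset _ _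
lemma V1_sub (c : CD) (b : ℕ) : c.V1 b ⊆ c.E := by
  classical exact Finset.filter_subset _ _
lemma V2_sub (c : CD) (b : ℕ) : c.V2 b ⊆ c.E := by
  classical exact Finset.filter_subset _ _
lemma TE_sub (c : CD) : c.TE ⊆ c.E := by
  classical exact Finset.filter_subset _ _
lemma KE_sub (c : CD) : c.KE ⊆ c.E := by
  classical exact Finset.filter_subset _ _
lemma W1_sub (c : CD) : c.W1 ⊆ c.E := by
  classical exact Finset.filter_subset _ _
lemma W2_sub (c : CD) : c.W2 ⊆ c.E := by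
  classical exact Finset.filter_subset _ _

open Classical in
/-- **the energy of a child which is not missing** (the deaths are left) -/
theorem nm_split (CL C2 A K : ℝ) (hCL : 0 ≤ CL) (hC2 : 0 ≤ C2) : ∃ p₁ : ℕ, ∀ c : CD, c.Ok CL C2 →
    ∀ bad : ℕ → Prop, c.NM A bad → p₁ ≤ c.m →
    ∑ e ∈ c.E, c.F e ≤ ∑ w ∈ c.S, wt c.R w * (4 * c.pr K bad w +
      if c.cr then Real.log c.m ^ (-K) else 0) +
      (∑ e ∈ c.KE, c.F e + (∑ e ∈ c.W1, c.F e + ∑ e ∈ c.W2, c.F e)) := by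
  obtain ⟨p1, h1⟩ := tT CL C2 K hCL
  obtain ⟨p2, h2⟩ := uuB CL C2 A K hCL hC2
  obtain ⟨p3, h3⟩ := vvB CL C2 K hCL hC2
  obtain ⟨p4, h4⟩ := exp45 1 0
  refine ⟨p1 + p2 + p3 + p4, fun c h bad hN hm => ?_⟩
  have hl := (h4 c.m (by omega)).1
  have hM0 := h.M0
  set M := ∑ w ∈ c.S, wt c.R w with hM
  set G : ℕ → Finset (ℕ × ℕ) := fun b => (c.U1 b ∪ c.U2 b) ∪ (c.V1 b ∪ c.V2 b) with hG
  have hGE : ∀ b, G b ⊆ c.E := fun b => Finset.union_subset
    (Finset.union_subset (U1_sub c b) (U2_sub c b)) (Finset.union_subset (V1_sub c b) (V2_sub c b))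
  set T' : Finset (ℕ × ℕ) := if c.cr then c.TE else ∅ with hT'
  have hTE : T' ⊆ c.E := by
    rw [hT']; split_ifs
    · exact TE_sub c
    · exact Finset.empty_subset _
  have hcov : c.E ⊆ (T' ∪ c.PI.biUnion G) ∪ (c.KE ∪ (c.W1 ∪ c.W2)) := by
    intro e he
    simp only [Finset.mem_union, Finset.mem_biUnion]
    rcases nm_cls h hN he with ⟨h5, h6⟩ | h5 | h5 | h5 | ⟨b, hb, h5⟩
    · left; left; rw [hT', if_pos h6]; exact h5
    · exact Or.inr (Or.inl h5)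
    · exact Or.inr (Or.inr (Or.inl h5))
    · exact Or.inr (Or.inr (Or.inr h5))
    · left; right
      refine ⟨b, hb, ?_⟩
      rw [hG]
      simp only [Finset.mem_union]
      rcases h5 with h5 | h5 | h5 | h5
      · exact Or.inl (Or.inl h5)
      · exact Or.inl (Or.inr h5)
      · exact Or.inr (Or.inl h5)
      · exact Or.inr (Or.inr h5)
  have hall : (T' ∪ c.PI.biUnion G) ∪ (c.KE ∪ (c.W1 ∪ c.W2)) ⊆ c.E :=
    Finset.union_subset (Finset.union_subset hTE (Finset.biUnion_subset.2 fun b _ => hGE b))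
      (Finset.union_subset (KE_sub c) (Finset.union_subset (W1_sub c) (W2_sub c)))
  have hnn : ∀ E' ⊆ c.E, ∀ e ∈ E', 0 ≤ c.F e := fun E' hE' e he => h.F0 e (hE' he)
  have s1 : ∑ e ∈ c.E, c.F e ≤ ∑ e ∈ (T' ∪ c.PI.biUnion G) ∪ (c.KE ∪ (c.W1 ∪ c.W2)), c.F e :=
    Finset.sum_le_sum_of_subset_of_nonneg hcov fun e he _ => h.F0 e (hall he)
  have s2 := sum_or (A := T' ∪ c.PI.biUnion G) (B := c.KE ∪ (c.W1 ∪ c.W2)) (F := c.F) (hnn _ hall)
  have s3 := sum_or (A := T') (B := c.PI.biUnion G) (F := c.F) (hnn _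
    (Finset.union_subset hTE (Finset.biUnion_subset.2 fun b _ => hGE b)))
  have s4 := sum_or (A := c.KE) (B := c.W1 ∪ c.W2) (F := c.F) (hnn _
    (Finset.union_subset (KE_sub c) (Finset.union_subset (W1_sub c) (W2_sub c))))
  have s5 := sum_or (A := c.W1) (B := c.W2) (F := c.F) (hnn _
    (Finset.union_subset (W1_sub c) (W2_sub c)))
  have s6 := sum_bi c.PI G (F := c.F) fun b _ e he => h.F0 e (hGE b he)
  -- tags
  have t1 : ∑ e ∈ T', c.F e ≤ (if c.cr then Real.log c.m ^ (-K) else 0) * M := by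
    rw [hT']
    split_ifs with hc
    · exact h1 c h (by omega)
    · simp
  -- primes
  have t2 : ∀ b ∈ c.PI, ∑ e ∈ G b, c.F e ≤
      4 * (c.cb K b + if bad b then (b:ℝ) ^ (-(1/7):ℝ) * M else 0) := by
    intro b hb
    obtain ⟨hb1, hb2⟩ := Finset.mem_filter.1 hb
    obtain ⟨hb3, hb4⟩ := Finset.mem_Ioc.1 hb1
    have g1 := sum_or (A := c.U1 b ∪ c.U2 b) (B := c.V1 b ∪ c.V2 b) (F := c.F) (hnn _ (hGE b))
    have g2 := sum_or (A := c.U1 b) (B := c.U2 b) (F := c.F) (hnn _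
      (Finset.union_subset (U1_sub c b) (U2_sub c b)))
    have g3 := sum_or (A := c.V1 b) (B := c.V2 b) (F := c.F) (hnn _
      (Finset.union_subset (V1_sub c b) (V2_sub c b)))
    obtain ⟨u1, u2⟩ := h2 c h (by omega) b hb2 hb3 hb4 fun w hw hbw => hN.acc w hw b hb2 hb3 hb4 hbw
    obtain ⟨v1, v2, v3⟩ := h3 c h (by omega) b hb2 hb3
    have hcb0 : 0 ≤ c.cb K b := by
      refine le_trans ?_ u1
      exact Finset.sum_nonneg fun e he => h.F0 e (U1_sub c b he)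
    have hb0 : 0 ≤ (b:ℝ) ^ (-(1/7):ℝ) * M := mul_nonneg (Real.rpow_nonneg (Nat.cast_nonneg _) _) hM0
    by_cases hbad : bad b
    · rw [if_pos hbad]
      linarith
    · rw [if_neg hbad, add_zero]
      obtain ⟨v4, v5⟩ := v1 (hN.bad b hb2 hb3 hb4 hbad)
      linarith
  have t3 : ∑ b ∈ c.PI, ∑ e ∈ G b, c.F e ≤ 4 * ∑ w ∈ c.S, wt c.R w * c.pr K bad w := by
    rw [← pr_sum, Finset.mul_sum]
    exact Finset.sum_le_sum t2
  have t4 : ∑ w ∈ c.S, wt c.R w * (4 * c.pr K bad w + if c.cr then Real.log c.m ^ (-K) else 0) =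
      4 * ∑ w ∈ c.S, wt c.R w * c.pr K bad w + (if c.cr then Real.log c.m ^ (-K) else 0) * M := by
    rw [hM, Finset.mul_sum, Finset.mul_sum, ← Finset.sum_add_distrib]
    exact Finset.sum_congr rfl fun w _ => by ring
  rw [t4]
  linarith

open Classical in
/-- unlabelled pairs of a missing child which are not tag pairs -/
noncomputable def CD.DE (c : CD) : Finset (ℕ × ℕ) :=
  c.E.filter fun e => c.s e.1 = none ∧ ¬ (e ∈ c.TE ∧ c.cr)

open Classical in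
/-- **the energy of the missing child of a tie** (deaths and unlabelled pairs are left) -/
theorem mm_split (CL C2 A K : ℝ) (hCL : 0 ≤ CL) (hC2 : 0 ≤ C2) : ∃ p₁ : ℕ, ∀ c : CD, c.Ok CL C2 →
    c.MM C2 A → p₁ ≤ c.m →
    ∑ e ∈ c.E, c.F e ≤ (Real.log c.p ^ (-K) + if c.cr then Real.log c.m ^ (-K) else 0) *
      ∑ w ∈ c.S, wt c.R w + (∑ e ∈ c.KE, c.F e + ∑ e ∈ c.DE, c.F e) := by
  obtain ⟨p1, h1⟩ := tT CL C2 K hCL
  obtain ⟨p2, h2⟩ := lmL CL C2 A K hCL hC2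
  refine ⟨p1 + p2, fun c h hM hm => ?_⟩
  have hM0 := h.M0
  set M := ∑ w ∈ c.S, wt c.R w with hMd
  set T' : Finset (ℕ × ℕ) := if c.cr then c.TE else ∅ with hT'
  have hTE : T' ⊆ c.E := by
    rw [hT']; split_ifs
    · exact TE_sub c
    · exact Finset.empty_subset _
  have hLE : c.LE ⊆ c.E := Finset.filter_subset _ _
  have hDE : c.DE ⊆ c.E := Finset.filter_subset _ _
  have hcov : c.E ⊆ (T' ∪ c.LE) ∪ (c.KE ∪ c.DE) := by
    intro e he
    simp only [Finset.mem_union]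
    obtain ⟨a, a', hk⟩ := h.lk e he
    cases hs : c.s e.1 with
    | none =>
      by_cases ht : e ∈ c.TE ∧ c.cr
      · left; left; rw [hT', if_pos ht.2]; exact ht.1
      · exact Or.inr (Or.inr (Finset.mem_filter.2 ⟨he, hs, ht⟩))
    | some ρ =>
      obtain ⟨ρ', hs2, hx⟩ := hk.lks ρ hs
      by_cases hρ : ρ = ρ'
      · rw [← hρ] at hs2
        rcases h.same_cls he hs hs2 with ⟨h3, h4⟩ | h3
        · left; left; rw [hT', if_pos h4]; exact h3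
        · exact Or.inr (Or.inl h3)
      · exact Or.inl (Or.inr (Finset.mem_filter.2 ⟨he, ρ, ρ', hs, hs2, hρ⟩))
  have hall : (T' ∪ c.LE) ∪ (c.KE ∪ c.DE) ⊆ c.E :=
    Finset.union_subset (Finset.union_subset hTE hLE) (Finset.union_subset (KE_sub c) hDE)
  have hnn : ∀ E' ⊆ c.E, ∀ e ∈ E', 0 ≤ c.F e := fun E' hE' e he => h.F0 e (hE' he)
  have s1 : ∑ e ∈ c.E, c.F e ≤ ∑ e ∈ (T' ∪ c.LE) ∪ (c.KE ∪ c.DE), c.F e :=
    Finset.sum_le_sum_of_subset_of_nonneg hcov fun e he _ => h.F0 e (hall he)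
  have s2 := sum_or (A := T' ∪ c.LE) (B := c.KE ∪ c.DE) (F := c.F) (hnn _ hall)
  have s3 := sum_or (A := T') (B := c.LE) (F := c.F) (hnn _ (Finset.union_subset hTE hLE))
  have s4 := sum_or (A := c.KE) (B := c.DE) (F := c.F) (hnn _
    (Finset.union_subset (KE_sub c) hDE))
  have t1 : ∑ e ∈ T', c.F e ≤ (if c.cr then Real.log c.m ^ (-K) else 0) * M := by
    rw [hT']
    split_ifs with hc
    · exact h1 c h (by omega)
    · simp
  have t2 := h2 c h hM (by omega)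
  rw [add_mul]
  linarith

end tot

end Crest.Agent.R4P.DseN23
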