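import Crest.Agent.R4P.DseSp_23
import Crest.Agent.R4P.DseN2_23
import Crest.Agent.R4P.CrossLoc_25

/-!
R4 (S0004), powers pass, helper23 ([W-dseR], D5): **the data of a child on its circle**.

* `PE_kid` : a pair of items of a child with a nonzero pair of pieces;
* `F_none_kid`, `F_some_kid` : energies;
* `cdK` : the data `CD` of a child; `cdK_sum` : its energy is `ChE`.
-/

set_option autoImplicit false
set_option linter.unusedSectionVars false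
set_option linter.unusedVariables false

open MeasureTheory Filter

namespace Crest.Agent.R4P.DseKid23

open Crest.Agent.R4P.Cnt588 Crest.Agent.R4P.Item758 Crest.Agent.R4P.W363
open Crest.Agent.R4P.Data758 Crest.Agent.R4P.LfDat734 Crest.Agent.R4P.OmSt532
open Crest.Agent.R4P.OmData532 Crest.Agent.R4P.WPex189
open Crest.Agent.R4P.Bld532 (NS All NodeOk Bk)
open Crest.Agent.R4P.Step588 (NDt ND1 ctx_NDt uq_lt)
open Crest.Agent.R4P.WalkIT579 (tp isL nodeOk_hi top_of_nodeOk)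
open Crest.Agent.R4P.Skel189 Crest.Agent.R4P.RseSt23 Crest.Agent.R4P.RseNd23
open Crest.Agent.R4P.PairR23 (iF_rel_le)
open Crest.Agent.R4.ClosL758 Crest.Agent.R4.ClosR758 Crest.Agent.R4.Tour104 Crest.Agent.R4.Fam464
open Crest.Agent.R4.Tour758 Crest.Agent.R4.Avg758 Crest.Agent.R4.ClosG758
open Crest.Agent.R4P.Frame758
open Crest.Agent.R4.Soft104 (w)
open Crest.Agent.R4.LF363 (Lab)
open Crest.Agent.R4.HVW560 (cof wt)
open Crest.Agent.R4.InX944 (DP)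
open Crest.Agent.R4.AvgItem710 (Dp mul_cof mul_cof' cof_pos cof_coprime exists_of_I_ne)
open Crest.Agent.R4P.StB21
open Crest.Agent.R4P.DseCh23
open Crest.Agent.R4P.DseN23
open Crest.Agent.R4

section ctx
variable {N : Skel189.Num} {γ : ℝ} {p0 P₀ : ℕ} {X : Ctx N γ p0 P₀} {v u : NS} {V τ : IT}

/-- the pairs of a child are in one world of the column -/
lemma RC_world {Y : Finset (ℕ × ℕ × Finset ℕ)} {p : ℕ} {x : X.c.Lam × X.c.Lam}
    (hx : x ∈ RC X Y p u τ) : X.c.world p x.1.1 = X.c.world p x.2.1 := by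
  unfold RC at hx
  rw [Finset.mem_sdiff] at hx
  have h1 := hx.1
  unfold Dr at h1
  rw [Finset.mem_filter] at h1
  exact ((X.c.D.rho_eq Y p x.1 x.2).trans (Cf.D_rho X.c p x.1 x.2)).1 h1.2

/-- a pair of pieces of a child with a common point -/
structure PtK (X : Ctx N γ p0 P₀) (Y : Finset (ℕ × ℕ × Finset ℕ)) (A : Finset X.c.Lam) (V : IT)
    (u : NS) (τ : IT) (e : ℕ × ℕ) (j j' : X.c.Lam) (y z z' : ℝ) (a a' : ℤ) : Prop where
  mA : j ∈ A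
  mA' : j' ∈ A
  e1 : j.1.1 = e.1
  e2 : j'.1.1 = e.2
  i1 : e.1 ∈ τ.items
  i2 : e.2 ∈ τ.items
  s1 : e.1 ∈ X.S'
  s2 : e.2 ∈ X.S'
  rc : (j, j') ∈ RC X Y (tp V) u τ
  o1 : X.c.om e.1 (X.c.bp j.1.1 j.1.2) ((mp τ e.1 : ℕ) * a) ≠ 0
  o2 : X.c.om e.2 (X.c.bp j'.1.1 j'.1.2) ((mp τ e.2 : ℕ) * a') ≠ 0
  l1 : (u.B : ℝ) / (1 : ℕ) * X.c.bp j.1.1 j.1.2 ≤
    ((e.1 / u.A : ℕ) : ℝ) * y - (u.B : ℝ) / (1 : ℕ) * X.c.γ - a
  l2 : ((e.1 / u.A : ℕ) : ℝ) * y - (u.B : ℝ) / (1 : ℕ) * X.c.γ - a <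
    (u.B : ℝ) / (1 : ℕ) * X.c.bp j.1.1 (j.1.2 + 1)
  l3 : (u.B : ℝ) / (1 : ℕ) * X.c.bp j'.1.1 j'.1.2 ≤
    ((e.2 / u.A : ℕ) : ℝ) * y - (u.B : ℝ) / (1 : ℕ) * X.c.γ - a'
  l4 : ((e.2 / u.A : ℕ) : ℝ) * y - (u.B : ℝ) / (1 : ℕ) * X.c.γ - a' <
    (u.B : ℝ) / (1 : ℕ) * X.c.bp j'.1.1 (j'.1.2 + 1)
  hz : (u.B : ℝ) * z = ((e.1 / u.A : ℕ) : ℝ) * y - u.B * X.c.γ - a
  hz' : (u.B : ℝ) * z' = ((e.2 / u.A : ℕ) : ℝ) * y - u.B * X.c.γ - a'
  zr : |z| ≤ X.c.r e.1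
  zr' : |z'| ≤ X.c.r e.2
  za : X.c.D.al j ≤ z
  zb : z < X.c.D.be j
  za' : X.c.D.al j' ≤ z'
  zb' : z' < X.c.D.be j'

/-- **a pair of items of a child with a nonzero pair of pieces** -/
theorem PE_kid (h : NDt X.par (w X.ψ) X.c.t u τ) {Y : Finset (ℕ × ℕ × Finset ℕ)}
    {A : Finset X.c.Lam} {e : ℕ × ℕ}
    (he : e ∈ (X.c.D.par Y).PE (RC X Y (tp V) u τ) (Uv X Y u τ A) (Uv X Y u τ A)) :
    ∃ (j j' : X.c.Lam) (y z z' : ℝ) (a a' : ℤ), PtK X Y A V u τ e j j' y z z' a a' := by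
  obtain ⟨j, j', hR, hI, e1, e2⟩ := Par.mem_PE.1 he
  obtain ⟨y, y1, y2⟩ := exists_of_I_ne hI
  have hA : j ∈ A := by
    by_contra hc
    exact y1 (congrFun (rv_of_not_mem (f := fun j => ((X.c.D.par Y).toFT u.B u.A τ).U 1 j) hc) y)
  have hA' : j' ∈ A := by
    by_contra hc
    exact y2 (congrFun (rv_of_not_mem (f := fun j => ((X.c.D.par Y).toFT u.B u.A τ).U 1 j) hc) y)
  have y1' : ((X.c.D.par Y).toFT u.B u.A τ).U 1 j y ≠ 0 := by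
    have e := congrFun (rv_of_mem (f := fun j => ((X.c.D.par Y).toFT u.B u.A τ).U 1 j) hA) y
    intro h0
    exact y1 (e.trans h0)
  have y2' : ((X.c.D.par Y).toFT u.B u.A τ).U 1 j' y ≠ 0 := by
    have e := congrFun (rv_of_mem (f := fun j => ((X.c.D.par Y).toFT u.B u.A τ).U 1 j) hA') y
    intro h0
    exact y2 (e.trans h0)
  obtain ⟨m1, a, o1, l1, l2⟩ := Par.supp _ h.B_pos h.fit (node_wts h Y) (one_dvd _) y1'
  obtain ⟨m2, a', o2, l3, l4⟩ := Par.supp _ h.B_pos h.fit (node_wts h Y) (one_dvd _) y2'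
  rw [one_mul] at o1 o2
  have e1' : j.1.1 = e.1 := e1
  have e2' : j'.1.1 = e.2 := e2
  have m1' : j.1.1 ∈ τ.items := m1
  have m2' : j'.1.1 ∈ τ.items := m2
  have o1' : X.c.om j.1.1 (X.c.bp j.1.1 j.1.2) ((mp τ j.1.1 : ℕ) * a) ≠ 0 := o1
  have o2' : X.c.om j'.1.1 (X.c.bp j'.1.1 j'.1.2) ((mp τ j'.1.1 : ℕ) * a') ≠ 0 := o2
  have l1' : (u.B : ℝ) / (1 : ℕ) * X.c.bp j.1.1 j.1.2 ≤
    ((j.1.1 / u.A : ℕ) : ℝ) * y - (u.B : ℝ) / (1 : ℕ) * X.c.γ - a := l1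
  have l2' : ((j.1.1 / u.A : ℕ) : ℝ) * y - (u.B : ℝ) / (1 : ℕ) * X.c.γ - a <
    (u.B : ℝ) / (1 : ℕ) * X.c.bp j.1.1 (j.1.2 + 1) := l2
  have l3' : (u.B : ℝ) / (1 : ℕ) * X.c.bp j'.1.1 j'.1.2 ≤
    ((j'.1.1 / u.A : ℕ) : ℝ) * y - (u.B : ℝ) / (1 : ℕ) * X.c.γ - a' := l3
  have l4' : ((j'.1.1 / u.A : ℕ) : ℝ) * y - (u.B : ℝ) / (1 : ℕ) * X.c.γ - a' <
    (u.B : ℝ) / (1 : ℕ) * X.c.bp j'.1.1 (j'.1.2 + 1) := l4
  obtain ⟨z, q1, q2, q3, q4⟩ := pt_kid h.B_pos l1' l2'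
  obtain ⟨z', q5, q6, q7, q8⟩ := pt_kid h.B_pos l3' l4'
  have hs1 : j.1.1 ∈ X.S' := by
    by_contra hc
    exact o1' (X.om_zero hc _ _)
  have hs2 : j'.1.1 ∈ X.S' := by
    by_contra hc
    exact o2' (X.om_zero hc _ _)
  refine ⟨j, j', y, z, z', a, a', ?_⟩
  rw [e1'] at m1' hs1 q1 q2
  rw [e2'] at m2' hs2 q5 q6
  exact
    { mA := hA
      mA' := hA'
      e1 := e1'
      e2 := e2'
      i1 := m1'
      i2 := m2'
      s1 := hs1
      s2 := hs2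
      rc := hR
      o1 := by rw [e1'] at o1' ⊢; exact o1'
      o2 := by rw [e2'] at o2' ⊢; exact o2'
      l1 := by rw [e1'] at l1' ⊢; exact l1'
      l2 := by rw [e1'] at l2' ⊢; exact l2'
      l3 := by rw [e2'] at l3' ⊢; exact l3'
      l4 := by rw [e2'] at l4' ⊢; exact l4'
      hz := q1
      hz' := q5
      zr := q2
      zr' := q6
      za := q3
      zb := q4
      za' := q7
      zb' := q8 }

/-- **energy of an unlabelled pair** -/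
theorem F_none_kid (h : NDt X.par (w X.ψ) X.c.t u τ) {Y : Finset (ℕ × ℕ × Finset ℕ)} {p : ℕ}
    (hp : p ≤ top X.S) (hlam : X.c.lam p = 0) {A : Finset X.c.Lam} {e : ℕ × ℕ}
    (h1 : e.1 ∈ τ.items) (h2 : e.2 ∈ τ.items) {η : ℝ} (hη : etaL X.c.wp p ≤ η)
    (hs : X.c.st p e.1 = none)
    (hs' : X.c.st p e.2 = none) :
    (X.c.D.par Y).iF (RC X Y p u τ) (Uv X Y u τ A) (Uv X Y u τ A) e ≤
      2 * ((RB X u e.1 * RB X u e.2) / DA u.A (RB X u) e) * (2 * (η * DA u.A (RB X u) e) + 1) := by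
  have hrr : ∀ q, 0 < X.c.rr q := (X.ok.rad Y).pos
  have hB' : (0 : ℝ) < u.B := by exact_mod_cast h.B_pos
  have hDA : 0 ≤ DA u.A (RB X u) e := by
    unfold DA Crest.Agent.R4.AvgItem710.Dp
    refine le_max_of_le_left ?_
    have := (hrr e.1).le
    positivity
  have hη0 : 0 ≤ η := (etaL_pos _ _).le.trans hη
  have key := iF_rel_le (D := X.c.D.par Y) (ρ := X.c.rr) (b := u.B) (pr := u.A) (c := 1)
    (b' := u.B) (pr' := u.A) (c' := 1) (A := A) (A' := A) (X.ok.rad Y) h.B_pos h.B_pos h.fit h.fit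
    (node_wts h Y) (node_wts h Y) (one_dvd _) (one_dvd _) (RC X Y p u τ) e h1 h2
    (C := u.B * X.c.γ) (C' := u.B * X.c.γ) (δ := η * DA u.A (RB X u) e) (mul_nonneg hη0 hDA)
    (fun x hx _ _ i1 i2 y a a' l1 l2 l3 l4 => by
      have hw : (X.c.world p x.1.1).1 = (X.c.world p x.2.1).1 := congrArg Prod.fst (RC_world hx)
      have i1' : x.1.1.1 = e.1 := i1
      have i2' : x.2.1.1 = e.2 := i2
      rw [← i1'] at l1 l2 h1 hs
      rw [← i2'] at l3 l4 h2 hs'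
      have k := rel_none h hp hlam hw h1 h2 hs hs' l1 l2 l3 l4
      rw [i1', i2'] at k
      exact k.trans (mul_le_mul_of_nonneg_right hη hDA))
  rw [Nat.cast_one, div_one] at key
  exact key

/-- **energy of a labelled pair** -/
theorem F_some_kid (h : NDt X.par (w X.ψ) X.c.t u τ) {Y : Finset (ℕ × ℕ × Finset ℕ)} {p : ℕ}
    (hp : p ≤ top X.S) (hlam : X.c.lam p = 0) {A : Finset X.c.Lam} {e : ℕ × ℕ}
    (h1 : e.1 ∈ τ.items) (h2 : e.2 ∈ τ.items) {σ σ' : ℚ}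
    (hs : X.c.st p e.1 = some σ)
    (hs' : X.c.st p e.2 = some σ') :
    (X.c.D.par Y).iF (RC X Y p u τ) (Uv X Y u τ A) (Uv X Y u τ A) e ≤
      2 * ((RB X u e.1 * RB X u e.2) / DA u.A (RB X u) e) := by
  have key := iF_rel_le (D := X.c.D.par Y) (ρ := X.c.rr) (b := u.B) (pr := u.A) (c := 1)
    (b' := u.B) (pr' := u.A) (c' := 1) (A := A) (A' := A) (X.ok.rad Y) h.B_pos h.B_pos h.fit h.fit
    (node_wts h Y) (node_wts h Y) (one_dvd _) (one_dvd _) (RC X Y p u τ) e h1 h2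
    (C := ((u.B * σ : ℚ) : ℝ)) (C' := ((u.B * σ' : ℚ) : ℝ)) (δ := 0) le_rfl
    (fun x hx _ _ i1 i2 y a a' l1 l2 l3 l4 => by
      have hw : (X.c.world p x.1.1).1 = (X.c.world p x.2.1).1 := congrArg Prod.fst (RC_world hx)
      have i1' : x.1.1.1 = e.1 := i1
      have i2' : x.2.1.1 = e.2 := i2
      rw [← i1'] at l1 l2 h1 hs
      rw [← i2'] at l3 l4 h2 hs'
      have k := (rel_some h hp hlam hw h1 h2 hs hs' l1 l2 l3 l4).2
      rw [i1', i2'] at k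
      rw [k, sub_self, abs_zero])
  rw [Nat.cast_one, div_one, mul_zero, zero_add, mul_one] at key
  exact key

/-! ### the data -/

open Classical in
/-- **the data of a child on its circle** -/
noncomputable def cdK (X : Ctx N γ p0 P₀) (Y : Finset (ℕ × ℕ × Finset ℕ)) (A : Finset X.c.Lam)
    (V : IT) (u : NS) (τ : IT) (Λ : Finset ℚ) : CD where
  m := lvl u τ
  p := tp V
  θ := u.B * X.c.γ
  η := Real.exp (-(Real.log (tp V) ^ (4/5:ℝ)))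
  T := thK X u τ
  S := (al X τ A).image (· / u.A)
  E := ((X.c.D.par Y).PE (RC X Y (tp V) u τ) (Uv X Y u τ A) (Uv X Y u τ A)).image
    (fun e => (e.1 / u.A, e.2 / u.A))
  R := fun v => RB X u (u.A * v)
  F := fun e => (X.c.D.par Y).iF (RC X Y (tp V) u τ) (Uv X Y u τ A) (Uv X Y u τ A)
    (u.A * e.1, u.A * e.2)
  s := fun v => (X.c.st (tp V) (u.A * v)).map fun σ => (u.B : ℚ) * σ
  s' := fun v => (stK X τ (u.A * v)).map fun σ => (u.B : ℚ) * σ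
  Λf := Λ
  cr := crK u V τ

lemma al_dvd (h : NDt X.par (w X.ψ) X.c.t u τ) {A : Finset X.c.Lam} :
    ∀ q ∈ al X τ A, u.A ∣ q := fun q hq => by
  classical
  unfold al at hq
  exact h.bk.dvd q (Finset.mem_filter.1 hq).1

lemma al_mem {A : Finset X.c.Lam} {q : ℕ} (hq : q ∈ al X τ A) : q ∈ τ.items ∧ q ∈ X.S' := by
  classical
  unfold al at hq
  exact ⟨(Finset.mem_filter.1 hq).1, (Finset.mem_filter.1 hq).2.1⟩

lemma PE_sub (h : NDt X.par (w X.ψ) X.c.t u τ) {Y : Finset (ℕ × ℕ × Finset ℕ)}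
    {A : Finset X.c.Lam} :
    (X.c.D.par Y).PE (RC X Y (tp V) u τ) (Uv X Y u τ A) (Uv X Y u τ A) ⊆ al X τ A ×ˢ al X τ A := by
  classical
  intro e he
  obtain ⟨j, j', y, z, z', a, a', k⟩ := PE_kid h he
  unfold al
  exact Finset.mem_product.2 ⟨Finset.mem_filter.2 ⟨k.i1, k.s1, j, k.mA, k.e1⟩,
    Finset.mem_filter.2 ⟨k.i2, k.s2, j', k.mA', k.e2⟩⟩

/-- **the energy of the child** -/
theorem cdK_sum (h : NDt X.par (w X.ψ) X.c.t u τ) {Y : Finset (ℕ × ℕ × Finset ℕ)}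
    {A : Finset X.c.Lam} {Λ : Finset ℚ} :
    ChE X Y A (tp V) u τ = ∑ e ∈ (cdK X Y A V u τ Λ).E, (cdK X Y A V u τ Λ).F e := by
  classical
  unfold ChE
  rw [(X.c.D.par Y).Q_eq]
  show _ = ∑ e ∈ ((X.c.D.par Y).PE (RC X Y (tp V) u τ) (Uv X Y u τ A) (Uv X Y u τ A)).image
    (fun e => (e.1 / u.A, e.2 / u.A)), (cdK X Y A V u τ Λ).F e
  rw [sum_tr2 (al_dvd h) (PE_sub h)]
  refine Finset.sum_congr rfl fun e he => ?_
  obtain ⟨a1, a2⟩ := Finset.mem_product.1 (PE_sub h he)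
  show _ = (X.c.D.par Y).iF (RC X Y (tp V) u τ) (Uv X Y u τ A) (Uv X Y u τ A)
    (u.A * (e.1 / u.A), u.A * (e.2 / u.A))
  rw [Nat.mul_div_cancel' (al_dvd h _ a1), Nat.mul_div_cancel' (al_dvd h _ a2)]

/-- a sum over the moduli -/
lemma cdK_S (h : NDt X.par (w X.ψ) X.c.t u τ) {Y : Finset (ℕ × ℕ × Finset ℕ)}
    {A : Finset X.c.Lam} {Λ : Finset ℚ} (g : ℕ → ℝ) :
    ∑ v ∈ (cdK X Y A V u τ Λ).S, wt (cdK X Y A V u τ Λ).R v * g v =
      ∑ q ∈ al X τ A, wA u.A (RB X u) q * g (q / u.A) := by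
  classical
  show ∑ v ∈ (al X τ A).image (· / u.A), _ = _
  rw [sum_tr1 (al_dvd h)]
  refine Finset.sum_congr rfl fun q hq => ?_
  congr 1
  exact wt_tr u.A (RB X u) (al_dvd h q hq)

end ctx

end Crest.Agent.R4P.DseKid23
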