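import Crest.Agent.R4P.DseD_28

/-!
R4 (S0004), powers pass, helper23 ([W-dseR], D5): **the total energy of a child**, tree free.

* `WL CL C2 Cθ κ` : the statement on the lost labels of pairs with two labels;
* `nm_tot`, `nm_same` : a child which is not missing; `mm_tot` : the missing child of a tie.
-/

set_option autoImplicit false
set_option linter.unusedVariables false

open Finset

namespace Crest.Agent.R4P.DseN23

open Crest.Agent.R4.HVW560 (cof wt)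
open Crest.Agent.R4.LF363 (Lab)
open Crest.Agent.R4

/-- pairs with two labels at the column, one of them lost -/
def WL (CL C2 Cθ κ : ℝ) : Prop := ∃ p₁ : ℕ, ∀ c : CD, c.Ok CL C2 →
  (∀ w ∈ c.S, ∀ ρ, c.s w = some ρ → Lab c.θ (c.R w) ρ ∨ ρ ∈ c.Λf) → p₁ ≤ c.m →
  c.T ≤ Real.log c.m ^ (-Cθ) →
  ∑ e ∈ c.W1, c.F e ≤ Real.log c.m ^ (-κ) * ∑ w ∈ c.S, wt c.R w ∧
  ∑ e ∈ c.W2, c.F e ≤ Real.log c.m ^ (-κ) * ∑ w ∈ c.S, wt c.R w

/-- pairs with one label, dead on one side -/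
def KL (CL C2 Cθ κ : ℝ) : Prop := ∃ p₁ : ℕ, ∀ c : CD, c.Ok CL C2 → p₁ ≤ c.m →
  c.T ≤ Real.log c.m ^ (-Cθ) →
  ∑ e ∈ c.KE, c.F e ≤ Real.log c.m ^ (-κ) * ∑ w ∈ c.S, wt c.R w

lemma sum_mul_add {S : Finset ℕ} (f g : ℕ → ℝ) (x : ℝ) :
    ∑ w ∈ S, f w * (g w + x) = ∑ w ∈ S, f w * g w + x * ∑ w ∈ S, f w := by
  rw [Finset.mul_sum, ← Finset.sum_add_distrib]
  exact Finset.sum_congr rfl fun w _ => by ring

open Classical in
/-- **a child which is not missing** -/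
theorem nm_tot {CL C2 Cθ κ : ℝ} (A K : ℝ) (hCL : 0 ≤ CL) (hC2 : 0 ≤ C2) (hK : KL CL C2 Cθ κ)
    (hW : WL CL C2 Cθ κ) : ∃ p₁ : ℕ, ∀ c : CD, c.Ok CL C2 → ∀ bad : ℕ → Prop, c.NM A bad →
    p₁ ≤ c.m → c.T ≤ Real.log c.m ^ (-Cθ) →
    ∑ e ∈ c.E, c.F e ≤ ∑ w ∈ c.S, wt c.R w * (4 * c.pr K bad w +
      (if c.cr then Real.log c.m ^ (-K) else 0) + 3 * Real.log c.m ^ (-κ)) := by
  obtain ⟨p1, h1⟩ := nm_split CL C2 A K hCL hC2
  obtain ⟨p2, h2⟩ := hK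
  obtain ⟨p3, h3⟩ := hW
  refine ⟨p1 + p2 + p3, fun c h bad hN hm hT => ?_⟩
  have g1 := h1 c h bad hN (by omega)
  have g2 := h2 c h (by omega) hT
  obtain ⟨g3, g4⟩ := h3 c h hN.vl (by omega) hT
  rw [sum_mul_add (fun w => wt c.R w) (fun w => 4 * c.pr K bad w +
    (if c.cr then Real.log c.m ^ (-K) else 0))]
  linarith

open Classical in
/-- **a child which is not missing, the labels do not change** -/
theorem nm_same {CL C2 : ℝ} (A K : ℝ) (hCL : 0 ≤ CL) (hC2 : 0 ≤ C2) :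
    ∃ p₁ : ℕ, ∀ c : CD, c.Ok CL C2 → ∀ bad : ℕ → Prop, c.NM A bad →
    p₁ ≤ c.m → (∀ w ∈ c.S, c.s' w = c.s w) →
    ∑ e ∈ c.E, c.F e ≤ ∑ w ∈ c.S, wt c.R w * (4 * c.pr K bad w +
      (if c.cr then Real.log c.m ^ (-K) else 0)) := by
  obtain ⟨p1, h1⟩ := nm_split CL C2 A K hCL hC2
  refine ⟨p1, fun c h bad hN hm hs => ?_⟩
  have g1 := h1 c h bad hN (by omega)
  rw [h.KE_empty hs, h.W1_empty hs, h.W2_empty hs] at g1
  simp only [Finset.sum_empty, add_zero] at g1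
  exact g1

open Classical in
/-- **the missing child of a tie** -/
theorem mm_tot {CL C2 Cθ κ : ℝ} (A K : ℝ) (hCL : 0 ≤ CL) (hC2 : 0 ≤ C2) (hA : 0 ≤ A)
    (hK : KL CL C2 Cθ κ) : ∃ p₁ : ℕ, ∀ c : CD, c.Ok CL C2 → c.MM C2 A →
    ((c.p:ℝ) ^ (-(1/10):ℝ) ≤ c.η) → p₁ ≤ c.m → c.T ≤ Real.log c.m ^ (-Cθ) →
    ∑ e ∈ c.E, c.F e ≤ ∑ w ∈ c.S, wt c.R w * (2 * Real.log c.p ^ (-K) +
      (if c.cr then Real.log c.m ^ (-K) else 0) + Real.log c.m ^ (-κ)) := by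
  obtain ⟨p1, h1⟩ := mm_split CL C2 A K hCL hC2
  obtain ⟨p2, h2⟩ := hK
  obtain ⟨p3, h3⟩ := DseD28.dE CL C2 A K hCL hC2 hA
  refine ⟨p1 + p2 + p3, fun c h hM hη hm hT => ?_⟩
  have g1 := h1 c h hM (by omega)
  have g2 := h2 c h (by omega) hT
  have g3 := h3 c h hM hη (by omega)
  rw [← Finset.sum_mul]
  rw [add_mul] at g1
  linarith

end Crest.Agent.R4P.DseN23
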