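import Crest.Agent.R4P.DseOk_23
import Crest.Agent.R4P.DseT_23
import Crest.Agent.R4P.AddPay_7

/-!
R4 (S0004), powers pass, helper23 ([W-dseR], D5): **the energy of every child** (`ChOk`).

* `eQ` : the charge of an item; `pr_cE` : the charges of the primes;
* `KQ X v V u τ A'` : facts of a child; `chok` : `ChOk` for the children with `KQ`.
-/

set_option autoImplicit false
set_option linter.unusedSectionVars false
set_option linter.unusedVariables false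

open MeasureTheory Filter

namespace Crest.Agent.R4P.DseKid23

open Crest.Agent.R4P.Cnt588 Crest.Agent.R4P.Item758 Crest.Agent.R4P.W363
open Crest.Agent.R4P.Data758 Crest.Agent.R4P.LfDat734 Crest.Agent.R4P.OmSt532
open Crest.Agent.R4P.OmData532 Crest.Agent.R4P.WPex189
open Crest.Agent.R4P.Bld532 (NS All NodeOk Bk)
open Crest.Agent.R4P.Step588 (NDt ND1 ctx_NDt uq_lt)
open Crest.Agent.R4P.WalkIT579 (tp isL nodeOk_hi top_of_nodeOk)
open Crest.Agent.R4P.Skel189 Crest.Agent.R4P.RseSt23 Crest.Agent.R4P.RseNd23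
open Crest.Agent.R4.ClosL758 Crest.Agent.R4.ClosR758 Crest.Agent.R4.Tour104 Crest.Agent.R4.Fam464
open Crest.Agent.R4.Tour758 Crest.Agent.R4.Avg758 Crest.Agent.R4.ClosG758
open Crest.Agent.R4.Item758 (IL)
open Crest.Agent.R4.Soft104 (w)
open Crest.Agent.R4.LF363 (Lab)
open Crest.Agent.R4.HVW560 (cof)
open Crest.Agent.R4.ClsB (Tame)
open Crest.Agent.R4.DensAcc33 (Accd)
open Crest.Agent.R4P.BadB16 (BadB)
open Crest.Agent.R4P.StB21
open Crest.Agent.R4P.DseCh23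
open Crest.Agent.R4P.DseN23
open Crest.Agent.R4

section ctx
variable {N : Skel189.Num} {γ : ℝ} {p0 P₀ : ℕ} {X : Ctx N γ p0 P₀} {v u : NS} {V τ : IT}
  {Y : Finset (ℕ × ℕ × Finset ℕ)} {A : Finset X.c.Lam} {Λ : Finset ℚ}

open Classical in
/-- the charge of an item -/
noncomputable def eQ (X : Ctx N γ p0 P₀) (K κ a : ℝ) (p : ℕ) (u : NS) (τ : IT) (q : ℕ) : ℝ :=
  if q ∈ X.S' then
    if isL τ then 4 * cE K X.c.γ (max (lvl u τ) p0) p u.B (X.c.t.uq q) + a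
    else if tp τ < p then
      4 * cE K X.c.γ (tp τ) p u.B (X.c.t.uq q) +
        (if p ∣ u.B then Real.log p ^ (-K) + Real.log (tp τ) ^ (-κ) else 0) +
        (if X.c.wp.thr p ≠ X.c.wp.thr (tp τ) then Real.log (tp τ) ^ (-(2:ℝ)) else 0) +
        (if Nat.log 2 (tp τ) < Nat.log 2 p then Real.log (tp τ) ^ (-K) else 0)
    else 0
  else 0

lemma eD_eq (K κ a : ℝ) (p : ℕ) (j : X.c.Lam) :
    eD X K κ a p u τ j = eQ X K κ a p u τ j.1.1 := rfl

lemma log_nn (n : ℕ) : 0 ≤ Real.log (n:ℝ) := Real.log_natCast_nonneg n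

lemma cE_nonneg (K γ : ℝ) (m p B : ℕ) (Q : Finset ℕ) : 0 ≤ cE K γ m p B Q := by
  classical
  unfold cE
  refine Finset.sum_nonneg fun b _ => ?_
  have h1 : 0 ≤ Real.log b ^ (-K) := Real.rpow_nonneg (log_nn b) _
  have h2 : (0:ℝ) ≤ (if b ∈ Q then 1 else 0) + 1 / (b:ℝ) := by
    have : (0:ℝ) ≤ if b ∈ Q then 1 else 0 := by split_ifs <;> norm_num
    positivity
  have h3 : (0:ℝ) ≤ if BadB γ B b ∧ ¬ b ∣ B then (b:ℝ) ^ (-(1/7):ℝ) else 0 := by
    split_ifs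
    · exact Real.rpow_nonneg (Nat.cast_nonneg _) _
    · exact le_rfl
  exact add_nonneg (mul_nonneg h1 h2) h3

lemma eQ_nonneg {K κ a : ℝ} (ha : 0 ≤ a) (p q : ℕ) : 0 ≤ eQ X K κ a p u τ q := by
  classical
  unfold eQ
  have h1 : ∀ m, 0 ≤ cE K X.c.γ m p u.B (X.c.t.uq q) := fun m => cE_nonneg _ _ _ _ _ _
  have h2 : ∀ (n : ℕ) (x : ℝ), 0 ≤ Real.log n ^ x := fun n x => Real.rpow_nonneg (log_nn n) _
  split_ifs <;> first | exact le_rfl | skip
  all_goals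
    have := h1 (tp τ)
    have := h1 (max (lvl u τ) p0)
    have := h2 p (-K)
    have := h2 (tp τ) (-κ)
    have := h2 (tp τ) (-(2:ℝ))
    have := h2 (tp τ) (-K)
    linarith

/-- the charges of the primes of `(m, p]` -/
lemma pr_cE (h : Kid X v V u τ) {K : ℝ} {q : ℕ} (hq : q ∈ τ.items) :
    (cdK X Y A V u τ Λ).pr K (fun b => BadB X.c.γ u.B b ∧ ¬ b ∣ u.B) (q / u.A) =
      cE K X.c.γ (lvl u τ) (tp V) u.B (X.c.t.uq q) := by
  classical
  unfold CD.pr cE CD.PI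
  refine Finset.sum_congr rfl fun b hb => ?_
  obtain ⟨hb1, hb2⟩ := Finset.mem_filter.1 hb
  obtain ⟨hb3, hb4⟩ := Finset.mem_Ioc.1 hb1
  have hlt : lvl u τ < b := hb3
  have e1 : b ∣ q / u.A ↔ b ∈ X.c.t.uq q :=
    ⟨fun hd => h.uq_of hq hb2 hlt hd, fun hd => h.hu.nd.rt_dvd hq hd⟩
  have e2 : (if b ∣ q / u.A then (1:ℝ) else 0) = if b ∈ X.c.t.uq q then 1 else 0 := by
    by_cases hc : b ∈ X.c.t.uq q
    · rw [if_pos hc, if_pos (e1.2 hc)]
    · rw [if_neg hc, if_neg fun hd => hc (e1.1 hd)]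
  rw [e2]
  by_cases hc : BadB X.c.γ u.B b ∧ ¬ b ∣ u.B
  · simp only [if_pos hc]
  · simp only [if_neg hc]

/-- **facts of a child** -/
structure KQ (X : Ctx N γ p0 P₀) (v : NS) (V : IT) (u : NS) (τ : IT) (A' : ℝ) : Prop where
  aq : ∀ q ∈ τ.items, q ∈ X.S' → AQ X V u τ (2 * Step588.CT) q
  wle : ∀ q ∈ τ.items, q ∈ X.S' → wA u.A (RB X u) q ≤ u.c * w X.ψ q
  hi : ∀ q ∈ τ.items, q ∈ X.S' → RB X u q ≤ Real.log (tp V) ^ (N.B + N.c2 + 3)
  ms : τ.items.Nonempty →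
    u.c * Ws (w X.ψ) τ.items ≤ Real.log (lvl u τ) ^ (N.B + N.c2 + 3)
  acc : u.B = v.B → ∀ q ∈ τ.items, q ∈ X.S' → ∀ b : ℕ, b.Prime → lvl u τ < b → b ≤ tp V →
    b ∣ q / u.A → ¬ Accd (u.B * X.c.γ) (Real.log b ^ A') b
  bad : u.B = v.B → ∀ q ∈ τ.items, q ∈ X.S' → ∀ b : ℕ, b.Prime → lvl u τ < b → b ≤ tp V →
    ¬ (BadB X.c.γ u.B b ∧ ¬ b ∣ u.B) → ∀ σ : ℚ, stK X τ q = some σ →
    b ∣ ((u.B:ℚ) * σ).den → Real.exp ((b:ℝ) ^ (1/20:ℝ)) < ((u.B:ℚ) * σ).den
  accM : u.B = v.B * tp V → ∀ q ∈ τ.items, q ∈ X.S' →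
    ¬ Accd (v.B * X.c.γ) (Real.log (tp V) ^ A') (tp V)
  badM : u.B = v.B * tp V → ∀ q ∈ τ.items, q ∈ X.S' → ∀ (ρ : ℚ) (a : ℝ),
    Lab (v.B * X.c.γ) a ρ → tp V ∣ ρ.den → Real.exp ((tp V : ℝ) ^ (1/20:ℝ)) < ρ.den

/-- from the circle to the pieces -/
lemma to_ch (h : Kid X v V u τ) (hA : IL X.c.D.it A) {K κ a : ℝ} (ha : 0 ≤ a) {A' : ℝ}
    (hQ : KQ X v V u τ A') (g : ℕ → ℝ)
    (hg : ∀ q ∈ al X τ A, 0 ≤ g (q / u.A) ∧ g (q / u.A) ≤ eQ X K κ a (tp V) u τ q)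
    (hs : ∑ e ∈ (cdK X Y A V u τ Λ).E, (cdK X Y A V u τ Λ).F e ≤
      ∑ x ∈ (cdK X Y A V u τ Λ).S, HVW560.wt (cdK X Y A V u τ Λ).R x * g x) :
    ChOk X Y A (Frame758.wt X.c.D) (eD X K κ a) (tp V) u τ := by
  classical
  unfold ChOk
  rw [cdK_sum h.hu.nd (Λ := Λ)]
  refine hs.trans ?_
  rw [cdK_S h.hu.nd]
  have h1 : ∑ q ∈ al X τ A, wA u.A (RB X u) q * g (q / u.A) ≤
      u.c * ∑ q ∈ al X τ A, w X.ψ q * eQ X K κ a (tp V) u τ q := by
    rw [Finset.mul_sum]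
    refine Finset.sum_le_sum fun q hq => ?_
    obtain ⟨g1, g2⟩ := hg q hq
    have h2 := hQ.wle q (al_mem hq).1 (al_mem hq).2
    have h3 : 0 ≤ u.c * w X.ψ q := mul_nonneg h.hu.c0.le (X.hW q)
    calc wA u.A (RB X u) q * g (q / u.A) ≤ (u.c * w X.ψ q) * g (q / u.A) :=
          mul_le_mul_of_nonneg_right h2 g1
      _ ≤ (u.c * w X.ψ q) * eQ X K κ a (tp V) u τ q := mul_le_mul_of_nonneg_left g2 h3
      _ = u.c * (w X.ψ q * eQ X K κ a (tp V) u τ q) := by ring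
  refine h1.trans ?_
  exact AddPay7.mass_alF h.hu.c0.le hA (f := eQ X K κ a (tp V) u τ)
    (fun q => eQ_nonneg ha (tp V) q)

/-- no energy -/
lemma ch_zero (h : Kid X v V u τ) {K κ a : ℝ} (ha : 0 ≤ a) (h0 : ChE X Y A (tp V) u τ ≤ 0) :
    ChOk X Y A (Frame758.wt X.c.D) (eD X K κ a) (tp V) u τ := by
  classical
  unfold ChOk
  refine h0.trans (mul_nonneg h.hu.c0.le (Finset.sum_nonneg fun j _ => mul_nonneg ?_ ?_))
  · exact Skel189.wt_nonneg X j
  · exact eQ_nonneg ha (tp V) _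

/-- numbers of the thresholds -/
structure TN (X : Ctx N γ p0 P₀) (Cu C6 : ℝ) : Prop where
  hi : ∀ p : ℕ, p0 < p → X.c.wp.thr p ≤ Real.log p ^ (-Cu)
  hiL : ∀ m : ℕ, p0 ≤ m → X.c.wpL.thr m ≤ Real.log m ^ (-C6)

end ctx

/-! ### numbers -/

lemma num_log : ∃ p₁ : ℕ, ∀ p : ℕ, p₁ ≤ p → 4 ≤ Real.log p := by
  refine ⟨⌈Real.exp 4⌉₊, fun p hp => ?_⟩
  have h1 : Real.exp 4 ≤ p := (Nat.le_ceil _).trans (by exact_mod_cast hp)
  rwa [Real.le_log_iff_exp_le ((Real.exp_pos _).trans_le h1)]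

lemma num_eta : ∃ p₁ : ℕ, ∀ p : ℕ, p₁ ≤ p →
    (p:ℝ) ^ (-(1/10):ℝ) ≤ Real.exp (-(Real.log p ^ (4/5:ℝ))) := by
  refine ⟨⌈Real.exp (10 ^ 5)⌉₊, fun p hp => ?_⟩
  have h1 : Real.exp (10 ^ 5) ≤ p := (Nat.le_ceil _).trans (by exact_mod_cast hp)
  have hp0 : (0:ℝ) < p := (Real.exp_pos _).trans_le h1
  have hL : (10:ℝ) ^ 5 ≤ Real.log p := by rwa [Real.le_log_iff_exp_le hp0]
  have hL0 : 0 < Real.log p := lt_of_lt_of_le (by norm_num) hL
  rw [Real.rpow_def_of_pos hp0]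
  refine Real.exp_le_exp.2 ?_
  have e : Real.log p ^ (4/5:ℝ) = Real.log p * Real.log p ^ (-(1/5):ℝ) := by
    conv_rhs => rw [← Real.rpow_one (Real.log (p:ℝ)), ← Real.rpow_mul hL0.le,
      ← Real.rpow_add hL0]
    norm_num
  have h2 : Real.log p ^ (-(1/5):ℝ) ≤ ((10:ℝ) ^ 5) ^ (-(1/5):ℝ) :=
    Real.rpow_le_rpow_of_nonpos (by norm_num) hL (by norm_num)
  have h3 : ((10:ℝ) ^ 5) ^ (-(1/5):ℝ) = 1 / 10 := by
    rw [← Real.rpow_natCast, ← Real.rpow_mul (by norm_num)]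
    norm_num
  rw [h3] at h2
  rw [e]
  nlinarith

open Classical in
set_option maxHeartbeats 2000000 in
/-- **the energy of every child** -/
theorem chok (N : Skel189.Num) {Cu C6 K κ A' : ℝ} (hA' : 0 ≤ A') (hκ : 0 ≤ κ) (hK0 : 0 ≤ K)
    (hu3 : KL (2 * Step588.CT) (N.B + N.c2 + 3) Cu 3) (hw3 : WL (2 * Step588.CT) (N.B + N.c2 + 3) Cu 3)
    (huκ : KL (2 * Step588.CT) (N.B + N.c2 + 3) Cu κ)
    (h61 : KL (2 * Step588.CT) (N.B + N.c2 + 3) C6 1)
    (hw61 : WL (2 * Step588.CT) (N.B + N.c2 + 3) C6 1) :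
    ∃ p₁ : ℕ, ∀ p0 ≥ p₁, ∀ (γ : ℝ) (P₀ : ℕ) (X : Ctx N γ p0 P₀), DH X → TN X Cu C6 →
    ∀ (Y : Finset (ℕ × ℕ × Finset ℕ)) (A : Finset X.c.Lam), IL X.c.D.it A →
    ∀ (v : NS) (V : IT) (u : NS) (τ : IT), Kid X v V u τ → KQ X v V u τ A' →
      ChOk X Y A (Frame758.wt X.c.D) (eD X K κ 1) (tp V) u τ := by
  have hB1 := N.hB
  have hC1 := N.hC1
  have hc2 := N.hc2
  have hCT := Step588.CT_pos
  have hCL : (0:ℝ) ≤ 2 * Step588.CT := by positivity
  have hC2 : 0 ≤ N.B + N.c2 + 3 := by linarith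
  obtain ⟨p1, h1⟩ := nm_tot A' K hCL hC2 hu3 hw3
  obtain ⟨p2, h2⟩ := nm_same (CL := 2 * Step588.CT) (C2 := N.B + N.c2 + 3) A' K hCL hC2
  obtain ⟨p3, h3⟩ := mm_tot A' (K + 1) hCL hC2 hA' huκ
  obtain ⟨p4, h4⟩ := nm_tot A' K hCL hC2 h61 hw61
  obtain ⟨p5, h5⟩ := mm_tot A' (K + 1) hCL hC2 hA' h61
  obtain ⟨p6, h6⟩ := lamS N
  obtain ⟨p7, h7⟩ := lamM N
  obtain ⟨p8, h8⟩ := num_eta
  obtain ⟨p9, h9⟩ := num_log
  refine ⟨p1 + p2 + p3 + p4 + p5 + p6 + p7 + p8 + p9 + 1,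
    fun p0 hp0 γ P₀ X hD hT Y A hA v V u τ h hQ => ?_⟩
  obtain ⟨k1, k2, k3⟩ := h.tpV
  rcases Finset.eq_empty_or_nonempty (al X τ A) with h0 | ⟨q₀, hq₀⟩
  · refine ch_zero h zero_le_one (le_of_eq ?_)
    rw [cdK_sum h.hu.nd (Λ := ∅)]
    have hPE : (X.c.D.par Y).PE (RC X Y (tp V) u τ) (Uv X Y u τ A) (Uv X Y u τ A) = ∅ := by
      rw [Finset.eq_empty_iff_forall_notMem]
      intro e he
      have := (Finset.mem_product.1 (PE_sub h.hu.nd he)).1
      rw [h0] at this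
      simp at this
    have hE : (cdK X Y A V u τ ∅).E = ∅ := by
      show Finset.image _ _ = ∅
      rw [hPE, Finset.image_empty]
    rw [hE, Finset.sum_empty]
  have hq₀i := (al_mem hq₀).1
  have hm : p0 ≤ lvl u τ := h.lvl_ge hq₀i
  have hmp : lvl u τ ≤ tp V := h.lvl_le
  have hlm : 4 ≤ Real.log (lvl u τ) := h9 _ (by omega)
  have hlp : 4 ≤ Real.log (tp V) := h9 _ (by omega)
  have hM : ∑ q ∈ al X τ A, wA u.A (RB X u) q ≤
      Real.log (lvl u τ) ^ (N.B + N.c2 + 3) := by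
    refine le_trans ?_ (hQ.ms ⟨q₀, hq₀i⟩)
    unfold Ws
    rw [Finset.mul_sum]
    calc ∑ q ∈ al X τ A, wA u.A (RB X u) q ≤ ∑ q ∈ al X τ A, u.c * w X.ψ q :=
          Finset.sum_le_sum fun q hq => hQ.wle q (al_mem hq).1 (al_mem hq).2
      _ ≤ ∑ q ∈ τ.items, u.c * w X.ψ q :=
          Finset.sum_le_sum_of_subset_of_nonneg (fun q hq => (al_mem hq).1)
            fun q _ _ => mul_nonneg h.hu.c0.le (X.hW q)
  have hnd := h.hu.nd
  -- labels which do not change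
  have hSm : ∀ (Λ : Finset ℚ) (x : ℕ), x ∈ (cdK X Y A V u τ Λ).S →
      ∃ q ∈ al X τ A, x = q / u.A ∧ u.A * x = q := by
    intro Λ x hx
    obtain ⟨q, hq1, rfl⟩ := Finset.mem_image.1 hx
    exact ⟨q, hq1, rfl, Nat.mul_div_cancel' (al_dvd hnd q hq1)⟩
  -- numbers
  have r1 : ∀ x : ℝ, 4 ≤ x → 3 * x ^ (-(3:ℝ)) ≤ x ^ (-(2:ℝ)) := fun x hx => by
    have hx0 : 0 < x := by linarith
    have e : x ^ (-(2:ℝ)) = x ^ (-(3:ℝ)) * x := by
      conv_rhs => rw [← Real.rpow_one x, ← Real.rpow_mul hx0.le, ← Real.rpow_add hx0]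
      norm_num
    rw [e, mul_comm]
    exact mul_le_mul_of_nonneg_left (by linarith) (Real.rpow_nonneg hx0.le _)
  have r2 : ∀ x : ℝ, 4 ≤ x → 2 * x ^ (-(K + 1)) ≤ x ^ (-K) := fun x hx => by
    have hx0 : 0 < x := by linarith
    have e : x ^ (-K) = x ^ (-(K + 1)) * x := by
      conv_rhs => rw [← Real.rpow_one x, ← Real.rpow_mul hx0.le, ← Real.rpow_add hx0]
      congr 1; ring
    rw [e, mul_comm]
    exact mul_le_mul_of_nonneg_left (by linarith) (Real.rpow_nonneg hx0.le _)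
  have r3 : ∀ x : ℝ, 4 ≤ x → x ^ (-(1:ℝ)) ≤ 1 / 4 := fun x hx => by
    rw [Real.rpow_neg_one, ← one_div]
    exact one_div_le_one_div_of_le (by norm_num) hx
  have r4 : ∀ x : ℝ, 4 ≤ x → 0 ≤ x ^ (-(K + 1)) := fun x hx => Real.rpow_nonneg (by linarith) _
  have hη : (((cdK X Y A V u τ ∅).p : ℕ) : ℝ) ^ (-(1/10):ℝ) ≤ (cdK X Y A V u τ ∅).η :=
    h8 (tp V) (by omega)
  have hcEn : 0 ≤ cE K X.c.γ (lvl u τ) (tp V) u.B ∅ := cE_nonneg _ _ _ _ _ _
  rcases h.B with hB | hB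
  · -- same stage
    obtain ⟨Λ, hΛ1, hΛ2⟩ := h6 p0 (by omega) γ P₀ X hD v u V τ h hB
    have hOk : (cdK X Y A V u τ Λ).Ok (2 * Step588.CT) (N.B + N.c2 + 3) :=
      okK hD h hm (fun q hq => hQ.aq q (al_mem hq).1 (al_mem hq).2) hM hΛ1
        (fun q hq σ hσ _ => hΛ2 q (al_mem hq).1 (al_mem hq).2 σ hσ)
    have hNM : (cdK X Y A V u τ Λ).NM A' (fun b => BadB X.c.γ u.B b ∧ ¬ b ∣ u.B) :=
      nmK hD h hB (fun q hq σ hσ => hΛ2 q (al_mem hq).1 (al_mem hq).2 σ hσ)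
        (fun q hq => hQ.acc hB q (al_mem hq).1 (al_mem hq).2)
        (fun q hq => hQ.bad hB q (al_mem hq).1 (al_mem hq).2)
    by_cases hl : isL τ
    · -- leaf
      have hTL : (cdK X Y A V u τ Λ).T ≤ Real.log (lvl u τ) ^ (-C6) := by
        show thK X u τ ≤ _
        obtain ⟨S, rfl⟩ := isL_iff.1 hl
        rw [thK_leaf]
        exact hT.hiL _ hm
      have key := h4 _ hOk _ hNM (show p4 ≤ lvl u τ by omega) hTL
      refine to_ch h hA zero_le_one hQ _ (fun q hq => ?_) key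
      have e1 : (cdK X Y A V u τ Λ).pr K (fun b => BadB X.c.γ u.B b ∧ ¬ b ∣ u.B) (q / u.A) =
        cE K X.c.γ (lvl u τ) (tp V) u.B (X.c.t.uq q) := pr_cE h (al_mem hq).1
      have e2 : ¬ (cdK X Y A V u τ Λ).cr := fun hc => hc.1 hl
      have e3 := cE_nonneg K X.c.γ (lvl u τ) (tp V) u.B (X.c.t.uq q)
      have e4 := r3 _ hlm
      have e5 : 0 ≤ Real.log (lvl u τ) ^ (-(1:ℝ)) := Real.rpow_nonneg (by linarith) _
      have e6 : eQ X K κ 1 (tp V) u τ q =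
          4 * cE K X.c.γ (lvl u τ) (tp V) u.B (X.c.t.uq q) + 1 := by
        unfold eQ
        rw [if_pos (al_mem hq).2, if_pos hl, max_eq_left hm]
      rw [e1, if_neg e2, e6]
      show 0 ≤ 4 * _ + 0 + 3 * Real.log (lvl u τ) ^ (-(1:ℝ)) ∧
        4 * _ + 0 + 3 * Real.log (lvl u τ) ^ (-(1:ℝ)) ≤ _
      constructor <;> linarith
    · -- a node
      obtain ⟨n1, n2, n3, n4⟩ := h.node hl
      have hlv : lvl u τ = tp τ := lvl_node hl
      by_cases hlt : tp τ < tp V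
      · have hcr : (cdK X Y A V u τ Λ).cr ↔ Nat.log 2 (tp τ) < Nat.log 2 (tp V) :=
          ⟨fun hc => hc.2, fun hc => ⟨hl, hc⟩⟩
        have e6 : ∀ q ∈ al X τ A, eQ X K κ 1 (tp V) u τ q =
            4 * cE K X.c.γ (tp τ) (tp V) u.B (X.c.t.uq q) +
            (if tp V ∣ u.B then Real.log (tp V) ^ (-K) + Real.log (tp τ) ^ (-κ) else 0) +
            (if X.c.wp.thr (tp V) ≠ X.c.wp.thr (tp τ) then Real.log (tp τ) ^ (-(2:ℝ)) else 0) +
            (if Nat.log 2 (tp τ) < Nat.log 2 (tp V) then Real.log (tp τ) ^ (-K) else 0) := by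
          intro q hq
          unfold eQ
          rw [if_pos (al_mem hq).2, if_neg hl, if_pos hlt]
        have i2 : 0 ≤ (if tp V ∣ u.B then Real.log (tp V) ^ (-K) + Real.log (tp τ) ^ (-κ) else 0) := by
          split_ifs
          · exact add_nonneg (Real.rpow_nonneg (log_nn _) _) (Real.rpow_nonneg (log_nn _) _)
          · exact le_rfl
        have i3 : 0 ≤ (if Nat.log 2 (tp τ) < Nat.log 2 (tp V) then Real.log (tp τ) ^ (-K) else 0) := by
          split_ifs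
          · exact Real.rpow_nonneg (log_nn _) _
          · exact le_rfl
        by_cases hthr : X.c.wp.thr (tp V) = X.c.wp.thr (tp τ)
        · have key := h2 _ hOk _ hNM (show p2 ≤ lvl u τ by omega) (fun x hx => by
            obtain ⟨q, hq1, rfl, hq3⟩ := hSm Λ x hx
            show (stK X τ (u.A * (q / u.A))).map _ = (X.c.st (tp V) (u.A * (q / u.A))).map _
            rw [hq3, stK_node hl, node_range hD.th h.hv.nd h.hu.nd h.lV hl (h.sub (al_mem hq1).1)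
              (al_mem hq1).1 hB n4 hthr.symm])
          refine to_ch h hA zero_le_one hQ _ (fun q hq => ?_) key
          have e1 : (cdK X Y A V u τ Λ).pr K (fun b => BadB X.c.γ u.B b ∧ ¬ b ∣ u.B) (q / u.A) =
            cE K X.c.γ (tp τ) (tp V) u.B (X.c.t.uq q) := by
            rw [← hlv]; exact pr_cE h (al_mem hq).1
          have e3 := cE_nonneg K X.c.γ (tp τ) (tp V) u.B (X.c.t.uq q)
          have e7 : (if (cdK X Y A V u τ Λ).cr then
              Real.log ((cdK X Y A V u τ Λ).m : ℝ) ^ (-K) else 0) =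
              (if Nat.log 2 (tp τ) < Nat.log 2 (tp V) then Real.log (tp τ) ^ (-K) else 0) := by
            show (if (cdK X Y A V u τ Λ).cr then Real.log ((lvl u τ : ℕ) : ℝ) ^ (-K) else 0) = _
            rw [hlv]
            by_cases hc : Nat.log 2 (tp τ) < Nat.log 2 (tp V)
            · rw [if_pos hc, if_pos (hcr.2 hc)]
            · rw [if_neg hc, if_neg fun h' => hc (hcr.1 h')]
          rw [e1, e7, e6 q hq]
          have i4 : 0 ≤ (if X.c.wp.thr (tp V) ≠ X.c.wp.thr (tp τ) then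
              Real.log (tp τ) ^ (-(2:ℝ)) else 0) := by
            split_ifs
            · exact Real.rpow_nonneg (log_nn _) _
            · exact le_rfl
          constructor <;> linarith
        · have hTL : (cdK X Y A V u τ Λ).T ≤ Real.log (lvl u τ) ^ (-Cu) := by
            show thK X u τ ≤ _
            rw [thK_node hl, hlv]
            exact hT.hi _ n2
          have key := h1 _ hOk _ hNM (show p1 ≤ lvl u τ by omega) hTL
          refine to_ch h hA zero_le_one hQ _ (fun q hq => ?_) key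
          have e1 : (cdK X Y A V u τ Λ).pr K (fun b => BadB X.c.γ u.B b ∧ ¬ b ∣ u.B) (q / u.A) =
            cE K X.c.γ (tp τ) (tp V) u.B (X.c.t.uq q) := by
            rw [← hlv]; exact pr_cE h (al_mem hq).1
          have e3 := cE_nonneg K X.c.γ (tp τ) (tp V) u.B (X.c.t.uq q)
          have e7 : (if (cdK X Y A V u τ Λ).cr then
              Real.log ((cdK X Y A V u τ Λ).m : ℝ) ^ (-K) else 0) =
              (if Nat.log 2 (tp τ) < Nat.log 2 (tp V) then Real.log (tp τ) ^ (-K) else 0) := by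
            show (if (cdK X Y A V u τ Λ).cr then Real.log ((lvl u τ : ℕ) : ℝ) ^ (-K) else 0) = _
            rw [hlv]
            by_cases hc : Nat.log 2 (tp τ) < Nat.log 2 (tp V)
            · rw [if_pos hc, if_pos (hcr.2 hc)]
            · rw [if_neg hc, if_neg fun h' => hc (hcr.1 h')]
          have e8 : Real.log ((cdK X Y A V u τ Λ).m : ℝ) = Real.log (tp τ) := by
            show Real.log ((lvl u τ : ℕ) : ℝ) = _
            rw [hlv]
          rw [e1, e7, e6 q hq, e8, if_pos hthr]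
          rw [hlv] at hlm
          have i4 := r1 _ hlm
          have i5 : 0 ≤ Real.log (tp τ) ^ (-(3:ℝ)) := Real.rpow_nonneg (log_nn _) _
          constructor <;> linarith
      · have he : tp τ = tp V := le_antisymm n4 (not_lt.1 hlt)
        refine ch_zero h zero_le_one (le_of_eq ?_)
        rw [← he]
        exact ChE_same hl h.nu
  · -- missing child
    obtain ⟨Λ, hΛ1, hΛ2⟩ := h7 p0 (by omega) γ P₀ X hD v u V τ h hB hm
    have hOk : (cdK X Y A V u τ Λ).Ok (2 * Step588.CT) (N.B + N.c2 + 3) :=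
      okK hD h hm (fun q hq => hQ.aq q (al_mem hq).1 (al_mem hq).2) hM hΛ1
        (fun q hq σ hσ hf => Or.inr (hΛ2 q (al_mem hq).1 (al_mem hq).2 σ hσ hf))
    have hMM : (cdK X Y A V u τ Λ).MM (N.B + N.c2 + 3) A' :=
      mmK hD h hB (fun q hq => hQ.hi q (al_mem hq).1 (al_mem hq).2)
        (fun hn => hQ.accM hB q₀ hq₀i (al_mem hq₀).2)
        (fun hn => hQ.badM hB q₀ hq₀i (al_mem hq₀).2)
    by_cases hl : isL τ
    · have hTL : (cdK X Y A V u τ Λ).T ≤ Real.log (lvl u τ) ^ (-C6) := by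
        show thK X u τ ≤ _
        obtain ⟨S, rfl⟩ := isL_iff.1 hl
        rw [thK_leaf]
        exact hT.hiL _ hm
      have key := h5 _ hOk hMM hη (show p5 ≤ lvl u τ by omega) hTL
      refine to_ch h hA zero_le_one hQ _ (fun q hq => ?_) key
      have e2 : ¬ (cdK X Y A V u τ Λ).cr := fun hc => hc.1 hl
      have e3 := cE_nonneg K X.c.γ (lvl u τ) (tp V) u.B (X.c.t.uq q)
      have e4 := r3 _ hlm
      have e5 : 0 ≤ Real.log (lvl u τ) ^ (-(1:ℝ)) := Real.rpow_nonneg (by linarith) _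
      have e6 : eQ X K κ 1 (tp V) u τ q =
          4 * cE K X.c.γ (lvl u τ) (tp V) u.B (X.c.t.uq q) + 1 := by
        unfold eQ
        rw [if_pos (al_mem hq).2, if_pos hl, max_eq_left hm]
      have e7 : Real.log (tp V) ^ (-(K + 1)) ≤ Real.log (tp V) ^ (-(1:ℝ)) :=
        Real.rpow_le_rpow_of_exponent_le (by linarith) (by linarith)
      have e8 := r3 _ hlp
      have e9 := r4 _ hlp
      rw [if_neg e2, e6]
      show 0 ≤ 2 * Real.log (tp V) ^ (-(K + 1)) + 0 + Real.log (lvl u τ) ^ (-(1:ℝ)) ∧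
        2 * Real.log (tp V) ^ (-(K + 1)) + 0 + Real.log (lvl u τ) ^ (-(1:ℝ)) ≤ _
      constructor <;> linarith
    · obtain ⟨n1, n2, n3, n4⟩ := h.node hl
      have hlv : lvl u τ = tp τ := lvl_node hl
      by_cases hlt : tp τ < tp V
      · have hcr : (cdK X Y A V u τ Λ).cr ↔ Nat.log 2 (tp τ) < Nat.log 2 (tp V) :=
          ⟨fun hc => hc.2, fun hc => ⟨hl, hc⟩⟩
        have e6 : ∀ q ∈ al X τ A, eQ X K κ 1 (tp V) u τ q =
            4 * cE K X.c.γ (tp τ) (tp V) u.B (X.c.t.uq q) +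
            (if tp V ∣ u.B then Real.log (tp V) ^ (-K) + Real.log (tp τ) ^ (-κ) else 0) +
            (if X.c.wp.thr (tp V) ≠ X.c.wp.thr (tp τ) then Real.log (tp τ) ^ (-(2:ℝ)) else 0) +
            (if Nat.log 2 (tp τ) < Nat.log 2 (tp V) then Real.log (tp τ) ^ (-K) else 0) := by
          intro q hq
          unfold eQ
          rw [if_pos (al_mem hq).2, if_neg hl, if_pos hlt]
        have hTL : (cdK X Y A V u τ Λ).T ≤ Real.log (lvl u τ) ^ (-Cu) := by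
          show thK X u τ ≤ _
          rw [thK_node hl, hlv]
          exact hT.hi _ n2
        have key := h3 _ hOk hMM hη (show p3 ≤ lvl u τ by omega) hTL
        refine to_ch h hA zero_le_one hQ _ (fun q hq => ?_) key
        have e3 := cE_nonneg K X.c.γ (tp τ) (tp V) u.B (X.c.t.uq q)
        have e8 : Real.log ((cdK X Y A V u τ Λ).m : ℝ) = Real.log (tp τ) := by
          show Real.log ((lvl u τ : ℕ) : ℝ) = _
          rw [hlv]
        have e9 : Real.log ((cdK X Y A V u τ Λ).p : ℝ) = Real.log (tp V) := rfl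
        rw [hlv] at hlm
        have e7 : (if (cdK X Y A V u τ Λ).cr then Real.log (tp τ) ^ (-(K + 1)) else 0) ≤
            (if Nat.log 2 (tp τ) < Nat.log 2 (tp V) then Real.log (tp τ) ^ (-K) else 0) := by
          by_cases hc : Nat.log 2 (tp τ) < Nat.log 2 (tp V)
          · rw [if_pos hc, if_pos (hcr.2 hc)]
            exact Real.rpow_le_rpow_of_exponent_le (by linarith) (by linarith)
          · rw [if_neg hc, if_neg fun h' => hc (hcr.1 h')]
        have e7' : 0 ≤ (if (cdK X Y A V u τ Λ).cr then Real.log (tp τ) ^ (-(K + 1)) else 0) := by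
          split_ifs
          · exact r4 _ hlm
          · exact le_rfl
        have hdv : tp V ∣ u.B := ⟨v.B, by rw [hB, mul_comm]⟩
        have i4 : 0 ≤ (if X.c.wp.thr (tp V) ≠ X.c.wp.thr (tp τ) then
            Real.log (tp τ) ^ (-(2:ℝ)) else 0) := by
          split_ifs
          · exact Real.rpow_nonneg (log_nn _) _
          · exact le_rfl
        rw [e8, e9, e6 q hq, if_pos hdv]
        have i5 := r2 _ hlp
        have i6 := r4 _ hlp
        have i7 : 0 ≤ Real.log (tp τ) ^ (-κ) := Real.rpow_nonneg (log_nn _) _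
        constructor <;> linarith
      · have he : tp τ = tp V := le_antisymm n4 (not_lt.1 hlt)
        refine ch_zero h zero_le_one (le_of_eq ?_)
        rw [← he]
        exact ChE_same hl h.nu

end Crest.Agent.R4P.DseKid23
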