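import Crest.Agent.R4P.DseN2_23
import Crest.Agent.R4P.DsD1_28

/-!
R4P (S0004, powers), [W-dseR], D5, helper28: **unlabelled pairs of the missing child of a tie** (helper23 #5851 (B)).

* `dE` : the unlabelled pairs of the missing child of a tie `p` which are not tag pairs have energy at most
  `(log p)^(-K)` times the mass.
-/

set_option autoImplicit false
open Finset

namespace Crest.Agent.R4P.DseD28

open Crest.Agent.R4
open Crest.Agent.R4.HVW560 (cof wt)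
open Crest.Agent.R4.InX944 (DP)
open Crest.Agent.R4.LF363 (Lab)
open Crest.Agent.R4.DensAcc33 (Accd)
open Crest.Agent.R4P.DseN23

lemma R_le_DP {R : ℕ → ℝ} {e : ℕ × ℕ} (h1 : 0 < e.1) (h2 : 0 < e.2) (hR : 0 < R e.1)
    (hR' : 0 < R e.2) : R e.1 ≤ DP R R e ∧ R e.2 ≤ DP R R e := by
  have hx : (1:ℝ) ≤ (cof e.1 e.2 : ℕ) := by exact_mod_cast cof_pos h1
  have hy : (1:ℝ) ≤ (cof e.2 e.1 : ℕ) := by exact_mod_cast cof_pos h2
  unfold Crest.Agent.R4.InX944.DP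
  exact ⟨le_trans (le_mul_of_one_le_left hR.le hy) (le_max_left _ _),
    le_trans (le_mul_of_one_le_left hR'.le hx) (le_max_right _ _)⟩

/-- the denominator of `ρ / p` when `p` divides the numerator -/
lemma den_div {p : ℕ} (hp : 0 < p) {ρ : ℚ} (h : (p:ℤ) ∣ ρ.num) : (ρ / p).den ≤ ρ.den := by
  obtain ⟨k, hk⟩ := h
  have hp0 : (p:ℚ) ≠ 0 := by exact_mod_cast hp.ne'
  have h1 : ρ / p = (k : ℚ) / (ρ.den : ℤ) := by
    have h2 : ρ = (ρ.num : ℚ) / ρ.den := (Rat.num_div_den ρ).symm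
    conv_lhs => rw [h2, hk]
    push_cast
    field_simp
  have h3 := Rat.den_dvd k (ρ.den : ℤ)
  rw [Rat.divInt_eq_div, ← h1] at h3
  exact Nat.le_of_dvd ρ.den_pos (by exact_mod_cast h3)

/-- powers of `t` -/
lemma tpow {t x : ℝ} (ht : 1 ≤ t) (hx : x ≤ 0) : t ^ x ≤ 1 :=
  Real.rpow_le_one_of_one_le_of_nonpos ht hx

set_option maxHeartbeats 1000000 in
open Classical in
/-- **UNLABELLED PAIRS OF THE MISSING CHILD OF A TIE** -/
theorem dE (CL C2 A K : ℝ) (hCL : 0 ≤ CL) (hC2 : 0 ≤ C2) (hA : 0 ≤ A) : ∃ p₁ : ℕ, ∀ c : CD,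
    c.Ok CL C2 → c.MM C2 A → ((c.p:ℝ) ^ (-(1/10):ℝ) ≤ c.η) → p₁ ≤ c.m →
    ∑ e ∈ c.DE, c.F e ≤ Real.log c.p ^ (-K) * ∑ w ∈ c.S, wt c.R w := by
  obtain ⟨p1, h1⟩ := DsD128.dNN CL C2 A K hA
  obtain ⟨p2, h2⟩ := exp45 1 0
  refine ⟨p1 + p2 + 20, fun c h hM hη hm => ?_⟩
  have hl := (h2 c.m (by omega)).1
  have hmp := h.mp
  obtain ⟨n, hn, hlow, key⟩ := h1 c.p (by omega)
  have hDE : c.DE ⊆ c.E := Finset.filter_subset _ _
  have hp20 : (20:ℝ) ≤ c.p := by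
    have : 20 ≤ c.p := by omega
    exact_mod_cast this
  have hp0 : (0:ℝ) < c.p := by linarith
  have hp1 : (1:ℝ) ≤ c.p := by linarith
  have hm0 : (0:ℝ) < c.m := by
    have : 0 < c.m := by omega
    exact_mod_cast this
  have hη0 := h.eta0
  refine key c.θ c.η c.S c.DE c.R c.F h.eta0 h.eta (hDE.trans h.sub)
    (fun e he => h.ne e (hDE he)) h.pos (h.lo' hCL hl hmp) (h.tame' hmp)
    (h.mass' hC2 hl hmp (Finset.Subset.refl _)) (fun e he => h.F0 e (hDE he)) ?_ ?_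
  · intro e he
    obtain ⟨he1, he2, -⟩ := Finset.mem_filter.1 he
    have := h.Fn e he1 he2
    rwa [← mul_assoc] at this
  intro e he _
  obtain ⟨he1, hs1, hnt⟩ := Finset.mem_filter.1 he
  obtain ⟨a, a', hk⟩ := h.lk e he1
  obtain ⟨hs2, hdv⟩ := hk.lkn hs1
  refine ⟨a, a', hdv, fun hFS => ?_⟩
  obtain ⟨m1, m2⟩ := h.mem he1
  obtain ⟨q1, r1⟩ := h.pos _ m1
  obtain ⟨q2, r2⟩ := h.pos _ m2
  obtain ⟨t, ρ, t1, t2, t3, l1, l2, d1, n1, n2, -, hex⟩ :=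
    DsD128.FSe_spec hn hFS h.eta0 r1 r2 q1 q2
  have hx : Ex a a' ρ ρ e := hex a a' hdv
  have hne : c.S.Nonempty := ⟨_, m1⟩
  have ht400 : (2:ℝ)^400 ≤ t := (pow_le_pow_right₀ (by norm_num) hn).trans t1
  have ht0 : 0 < t := Dich579.t_pos ht400
  have ht1 : 1 ≤ t := Dich579.one_le_t ht400
  -- the radii
  obtain ⟨D1, D2⟩ := R_le_DP q1 q2 r1 r2
  have e1 : c.η * c.R e.1 ≤ t⁻¹ := by
    refine le_trans (mul_le_mul_of_nonneg_left D1 hη0.le) ?_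
    rwa [← one_div]
  have e2 : c.η * c.R e.2 ≤ t⁻¹ := by
    refine le_trans (mul_le_mul_of_nonneg_left D2 hη0.le) ?_
    rwa [← one_div]
  have hpq : (c.p:ℝ) ^ (1/10:ℝ) * (c.p:ℝ) ^ (-(1/10):ℝ) = 1 := by
    rw [← Real.rpow_add hp0]; norm_num
  have hpp : 0 < (c.p:ℝ) ^ (1/10:ℝ) := Real.rpow_pos_of_pos hp0 _
  have hR : ∀ r : ℝ, 0 < r → c.η * r ≤ t⁻¹ → r ≤ (c.p:ℝ) ^ (1/10:ℝ) * t⁻¹ := by
    intro r hr hrt
    calc r = (c.p:ℝ) ^ (1/10:ℝ) * ((c.p:ℝ) ^ (-(1/10):ℝ) * r) := by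
          rw [← mul_assoc, hpq, one_mul]
      _ ≤ (c.p:ℝ) ^ (1/10:ℝ) * (c.η * r) :=
          mul_le_mul_of_nonneg_left (mul_le_mul_of_nonneg_right hη hr.le) hpp.le
      _ ≤ _ := mul_le_mul_of_nonneg_left hrt hpp.le
  have hR1 := hR _ r1 e1
  have hR2 := hR _ r2 e2
  have hd0 : (0:ℝ) ≤ ρ.den := Nat.cast_nonneg _
  have d5 : (ρ.den:ℝ) ^ 5 ≤ t ^ (105/200:ℝ) := by
    calc (ρ.den:ℝ) ^ 5 ≤ (t ^ (21/200:ℝ)) ^ 5 := pow_le_pow_left₀ hd0 d1 5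
      _ = t ^ (105/200:ℝ) := by
          rw [← Real.rpow_natCast, ← Real.rpow_mul ht0.le]; norm_num
  have d5t : (ρ.den:ℝ) ^ 5 * t⁻¹ ≤ t ^ (-(95/200):ℝ) := by
    calc (ρ.den:ℝ) ^ 5 * t⁻¹ ≤ t ^ (105/200:ℝ) * t⁻¹ :=
          mul_le_mul_of_nonneg_right d5 (by positivity)
      _ = _ := by
          rw [← Real.rpow_neg_one, ← Real.rpow_add ht0]; norm_num
  -- `den^5 R`
  have d5R : ∀ r : ℝ, 0 < r → r ≤ (c.p:ℝ) ^ (1/10:ℝ) * t⁻¹ →
      (ρ.den:ℝ) ^ 5 * r ≤ (c.p:ℝ) ^ (1/10:ℝ) * t ^ (-(95/200):ℝ) := by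
    intro r hr hrt
    calc (ρ.den:ℝ) ^ 5 * r ≤ (ρ.den:ℝ) ^ 5 * ((c.p:ℝ) ^ (1/10:ℝ) * t⁻¹) :=
          mul_le_mul_of_nonneg_left hrt (by positivity)
      _ = (c.p:ℝ) ^ (1/10:ℝ) * ((ρ.den:ℝ) ^ 5 * t⁻¹) := by ring
      _ ≤ _ := mul_le_mul_of_nonneg_left d5t hpp.le
  rcases lt_or_ge ((c.p:ℝ) ^ (9/5:ℝ)) t with ht | ht
  · -- thin radii: the label `ρ` is found
    have hp95 : 0 < (c.p:ℝ) ^ (9/5:ℝ) := Real.rpow_pos_of_pos hp0 _
    have hη1 : c.η ≤ 1 := h.eta.trans (Real.exp_le_one_iff.2 (by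
      have h6 : (0:ℝ) ≤ Real.log (c.p:ℝ) := Real.log_nonneg hp1
      have : 0 ≤ Real.log (c.p:ℝ) ^ (4/5:ℝ) := Real.rpow_nonneg h6 _
      linarith))
    have hti : t⁻¹ ≤ (c.p:ℝ) ^ (-(9/5):ℝ) := by
      rw [Real.rpow_neg hp0.le]
      exact inv_anti₀ hp95 ht.le
    have hsm : (c.p:ℝ) ^ (1/10:ℝ) * t⁻¹ ≤ (c.p:ℝ) ^ (-(17/10):ℝ) := by
      calc (c.p:ℝ) ^ (1/10:ℝ) * t⁻¹ ≤ (c.p:ℝ) ^ (1/10:ℝ) * (c.p:ℝ) ^ (-(9/5):ℝ) :=
            mul_le_mul_of_nonneg_left hti hpp.le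
        _ = _ := by rw [← Real.rpow_add hp0]; norm_num
    have hsm1 : (c.p:ℝ) ^ (-(17/10):ℝ) ≤ 1 / 10 := by
      calc (c.p:ℝ) ^ (-(17/10):ℝ) ≤ (c.p:ℝ) ^ (-1:ℝ) :=
            Real.rpow_le_rpow_of_exponent_le hp1 (by norm_num)
        _ = 1 / c.p := by rw [Real.rpow_neg_one, one_div]
        _ ≤ 1 / 10 := one_div_le_one_div_of_le (by norm_num) (by linarith)
    have hsmT : (c.p:ℝ) ^ (-(17/10):ℝ) ≤ c.T := by
      refine le_trans ?_ h.T0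
      refine (Real.rpow_le_rpow_of_exponent_le hp1 (show -(17/10:ℝ) ≤ -(1/2) by norm_num)).trans ?_
      exact Real.rpow_le_rpow_of_nonpos hm0 (by exact_mod_cast hmp) (by norm_num)
    have hden : (c.p:ℝ) ^ (1/10:ℝ) * t ^ (-(95/200):ℝ) ≤ 1 := by
      have h6 : t ^ (-(95/200):ℝ) ≤ ((c.p:ℝ) ^ (9/5:ℝ)) ^ (-(95/200):ℝ) :=
        Real.rpow_le_rpow_of_nonpos hp95 ht.le (by norm_num)
      rw [← Real.rpow_mul hp0.le] at h6
      calc (c.p:ℝ) ^ (1/10:ℝ) * t ^ (-(95/200):ℝ) ≤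
            (c.p:ℝ) ^ (1/10:ℝ) * (c.p:ℝ) ^ (9/5 * (-(95/200)):ℝ) :=
            mul_le_mul_of_nonneg_left h6 hpp.le
        _ = (c.p:ℝ) ^ (1/10 + 9/5 * (-(95/200)):ℝ) := by rw [← Real.rpow_add hp0]
        _ ≤ 1 := Real.rpow_le_one_of_one_le_of_nonpos hp1 (by norm_num)
    have L1 : Lab c.θ (c.R e.1) ρ := DsD128.Lab_up hη0 hη1 l1 ((hR1.trans hsm).trans hsm1)
      ((d5R _ r1 hR1).trans hden)
    have L2 : Lab c.θ (c.R e.2) ρ := DsD128.Lab_up hη0 hη1 l2 ((hR2.trans hsm).trans hsm1)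
      ((d5R _ r2 hR2).trans hden)
    have k1 := h.kthin m1 ((hR1.trans hsm).trans hsmT) L1
    have k2 := h.kthin m2 ((hR2.trans hsm).trans hsmT) L2
    have hnd := h.no_dif he1 hk k1 k2 hx
    rcases hk.same ρ k1 k2 hx with h3 | ⟨h3, h4⟩
    · exact hnd h3
    · exact hnt ⟨Finset.mem_filter.2 ⟨he1, hnd, h4⟩, h3⟩
  · -- `p` does not divide the numerator
    have hpn : ¬ (c.p : ℤ) ∣ ρ.num := by
      intro hdvd
      have hdd := den_div hM.pp.pos hdvd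
      have hp110 : (c.p:ℝ) ^ (1/10:ℝ) ≤ c.p := by
        conv_rhs => rw [← Real.rpow_one (c.p:ℝ)]
        exact Real.rpow_le_rpow_of_exponent_le hp1 (by norm_num)
      have ht10 : t⁻¹ ≤ 1 / 10 := by
        rw [one_div]
        exact inv_anti₀ (by norm_num) (Dich579.ten_le ht400)
      refine hM.nl _ m1 hs1 (ρ / c.p) ⟨by positivity, ?_, ?_, ?_⟩
      · rw [div_le_iff₀ hp0]
        calc c.R e.1 ≤ (c.p:ℝ) ^ (1/10:ℝ) * t⁻¹ := hR1
          _ ≤ c.p * (1 / 10) := mul_le_mul hp110 ht10 (by positivity) hp0.le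
          _ = _ := by ring
      · have h6 : ((ρ / (c.p:ℚ)).den : ℝ) ^ 5 ≤ (ρ.den : ℝ) ^ 5 :=
          pow_le_pow_left₀ (Nat.cast_nonneg _) (by exact_mod_cast hdd) 5
        have h7 := d5R _ r1 hR1
        have h8 : t ^ (-(95/200):ℝ) ≤ 1 := tpow ht1 (by norm_num)
        have h9 : (c.p:ℝ) ^ (1/10:ℝ) * t ^ (-(95/200):ℝ) ≤ c.p :=
          (mul_le_of_le_one_right hpp.le h8).trans hp110
        calc ((ρ / (c.p:ℚ)).den : ℝ) ^ 5 * (c.R e.1 / c.p) ≤ (ρ.den : ℝ) ^ 5 * (c.R e.1 / c.p) :=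
              mul_le_mul_of_nonneg_right h6 (by positivity)
          _ = ((ρ.den : ℝ) ^ 5 * c.R e.1) / c.p := by ring
          _ ≤ c.p / c.p := div_le_div_of_nonneg_right (h7.trans h9) hp0.le
          _ = 1 := div_self hp0.ne'
      · have h6 : |c.θ - ρ| ^ 5 ≤ c.R e.1 ^ 4 := by
          calc |c.θ - ρ| ^ 5 ≤ (t ^ (39/200:ℝ) * (c.η * c.R e.1)) ^ 5 :=
                pow_le_pow_left₀ (abs_nonneg _) n1 5
            _ = (t ^ (39/200:ℝ)) ^ 5 * (c.η * c.R e.1) * (c.η * c.R e.1) ^ 4 := by ring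
            _ ≤ t * t⁻¹ * c.R e.1 ^ 4 := by
                have g1 : (t ^ (39/200:ℝ)) ^ 5 ≤ t := by
                  rw [← Real.rpow_natCast, ← Real.rpow_mul ht0.le]
                  conv_rhs => rw [← Real.rpow_one t]
                  exact Real.rpow_le_rpow_of_exponent_le ht1 (by norm_num)
                have hη1 : c.η ≤ 1 := h.eta.trans (Real.exp_le_one_iff.2 (by
                  have h6 : (0:ℝ) ≤ Real.log (c.p:ℝ) := Real.log_nonneg hp1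
                  have : 0 ≤ Real.log (c.p:ℝ) ^ (4/5:ℝ) := Real.rpow_nonneg h6 _
                  linarith))
                have g2 : (c.η * c.R e.1) ^ 4 ≤ c.R e.1 ^ 4 :=
                  pow_le_pow_left₀ (by positivity) (mul_le_of_le_one_left r1.le hη1) 4
                exact mul_le_mul (mul_le_mul g1 e1 (by positivity) ht0.le) g2 (by positivity)
                  (by positivity)
            _ = c.R e.1 ^ 4 := by rw [mul_inv_cancel₀ ht0.ne', one_mul]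
        have h7 : c.θ / c.p - ((ρ / (c.p:ℚ) : ℚ) : ℝ) = (c.θ - ρ) / c.p := by
          push_cast
          ring
        rw [h7, abs_div, abs_of_pos hp0, div_pow, div_pow]
        have h8 : (c.p:ℝ) ^ 4 ≤ (c.p:ℝ) ^ 5 := pow_le_pow_right₀ hp1 (by norm_num)
        exact div_le_div₀ (by positivity) h6 (by positivity) h8
    refine hM.acc hne ⟨t, hlow.trans t1, ht, ρ.den, ρ.den_pos, d1, ρ.num, hpn, ?_⟩
    have hden0 : (0:ℝ) < ρ.den := by exact_mod_cast ρ.den_pos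
    have e3 : (ρ.den : ℝ) * c.p * (c.θ / c.p) - ρ.num = ρ.den * (c.θ - ρ) := by
      have a1 : (ρ:ℝ) * ρ.den = ρ.num := by exact_mod_cast Rat.mul_den_eq_num ρ
      rw [← a1]
      field_simp
    rw [e3, abs_mul, abs_of_pos hden0]
    calc (ρ.den:ℝ) * |c.θ - ρ| ≤ t ^ (21/200:ℝ) * (t ^ (39/200:ℝ) * (c.η * c.R e.1)) :=
          mul_le_mul d1 n1 (abs_nonneg _) (by positivity)
      _ ≤ t ^ (21/200:ℝ) * (t ^ (39/200:ℝ) * t⁻¹) := by gcongr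
      _ = t ^ (-(7/10):ℝ) := by
          rw [← Real.rpow_neg_one, ← Real.rpow_add ht0, ← Real.rpow_add ht0]; norm_num

end Crest.Agent.R4P.DseD28
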