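import Crest.Agent.R4P.DseCh_23
import Crest.Agent.R4P.BadB_16

/-!
R4 (S0004), powers pass, helper23 ([W-dseR], D5): **the charges of the children** (definitions).

* `lvl u τ` : level of a child (its column; `u.n - 1` for a leaf);
* `cE` : charge of the primes of the interval between the child and the parent;
* `eD X K κ a p u τ j` : the charge of the child `(u, τ)` of a node with column `p`.
-/

set_option autoImplicit false

namespace Crest.Agent.R4P.DseCh23

open Crest.Agent.R4P.Cnt588 Crest.Agent.R4P.Item758 Crest.Agent.R4P.W363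
open Crest.Agent.R4P.Data758
open Crest.Agent.R4P.Bld532 (NS All NodeOk Bk)
open Crest.Agent.R4P.WalkIT579 (tp isL)
open Crest.Agent.R4P.Skel189
open Crest.Agent.R4P.BadB16 (BadB)

/-- level of a child: its column, the level below a leaf -/
def lvl (u : NS) : IT → ℕ
  | .leaf _ => u.n - 1
  | τ => tp τ

open Classical in
/-- charge of the primes `b ∈ (m, p]`: `(log b)^(-K)` if `b` is a retained prime of the item,
`(log b)^(-K) / b` for all of them, `b^(-1/7)` for the bad ones -/
noncomputable def cE (K γ : ℝ) (m p B : ℕ) (Q : Finset ℕ) : ℝ :=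
  ∑ b ∈ (Finset.Ioc m p).filter Nat.Prime,
    (Real.log b ^ (-K) * ((if b ∈ Q then 1 else 0) + 1 / (b:ℝ)) +
      if BadB γ B b ∧ ¬ b ∣ B then (b:ℝ) ^ (-(1/7):ℝ) else 0)

section ctx
variable {N : Skel189.Num} {γ : ℝ} {p0 P₀ : ℕ}

open Classical in
/-- **the charge of the child** `(u, τ)` of a node with column `p` (`a` : once for the leaf, `κ` : the
deaths below a missing tie) -/
noncomputable def eD (X : Ctx N γ p0 P₀) (K κ a : ℝ) (p : ℕ) (u : NS) (τ : IT) (j : X.c.Lam) : ℝ :=
  if j.1.1 ∈ X.S' then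
    if isL τ then 4 * cE K X.c.γ (max (lvl u τ) p0) p u.B (X.c.t.uq j.1.1) + a
    else if tp τ < p then
      4 * cE K X.c.γ (tp τ) p u.B (X.c.t.uq j.1.1) +
        (if p ∣ u.B then Real.log p ^ (-K) + Real.log (tp τ) ^ (-κ) else 0) +
        (if X.c.wp.thr p ≠ X.c.wp.thr (tp τ) then Real.log (tp τ) ^ (-(2:ℝ)) else 0) +
        (if Nat.log 2 (tp τ) < Nat.log 2 p then Real.log (tp τ) ^ (-K) else 0)
    else 0
  else 0

end ctx

end Crest.Agent.R4P.DseCh23
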