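import Crest.Agent.R4P.DseAll_21

/-!
R4 (S0004), powers pass, [W-dseR], helper21: **the induction of `dseR` over all the admissible
populations of all the nodes** (needed by the far nodes).

* `EKid X K p u t` : energies of all the admissible populations of a child in the classes of the column
  `p` of its parent, at most `K` times the alive mass;
* `KidsR` : a property of the (raw) children of a node;
* `CrA` : the cross terms from the energies of all the nodes below;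
* `kids_allA`, `ctx_dseA`, `part_dseA'`, `part_dseF'`.
-/

set_option autoImplicit false
set_option linter.unusedSectionVars false
set_option linter.unusedVariables false

namespace Crest.Agent.R4P.DseInd21

open Crest.Agent.R4P.Cnt588 Crest.Agent.R4P.Item758 Crest.Agent.R4P.W363
open Crest.Agent.R4P.Data758 Crest.Agent.R4P.LfDat734
open Crest.Agent.R4P.Bld532 (NS All NodeOk Bk)
open Crest.Agent.R4P.Step588 (NDt ND1 ctx_NDt uq_lt All_All)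
open Crest.Agent.R4P.WalkIT579 (tp isL nodeOk_hi top_of_nodeOk)
open Crest.Agent.R4P.Skel189 Crest.Agent.R4P.RseSt23 Crest.Agent.R4P.DseCh23
open Crest.Agent.R4P.RseNd23
open Crest.Agent.R4P.Dse22 (chE LocOk dse_le dse_items)
open Crest.Agent.R4P.DseFin21 Crest.Agent.R4P.LeafIa21
open Crest.Agent.R4P.Frame758 (LeafAll LeafI wt tG tM tN CxOk leafIn_of tM_eq AdL_AdI)
open Crest.Agent.R4.Soft104 (w)
open Crest.Agent.R4.Item758 (IL AdI AdS AdI_all AdI_AdN AdI_univ)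
open Crest.Agent.R4.ClosR758 (dseR din_leR LeafIn AdN MassOk)
open Crest.Agent.R4P.ClosP542 (PulG)
open Crest.Agent.R4.ClosG758 Crest.Agent.R4.ClosL758 Crest.Agent.R4.Avg758 Crest.Agent.R4.Fam464
open Crest.Agent.R4.ClosR758 Crest.Agent.R4.Tour758 Crest.Agent.R4.Tour104 Crest.Agent.R4.Clos758

section ctx
variable {N : Skel189.Num} {γ : ℝ} {p0 P₀ : ℕ} {X : Ctx N γ p0 P₀}

/-- a property of the (raw) children of a node: column of the parent, state and tree of the child -/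
def KidsR (P : ℕ → NS → IT → Prop) : NS → IT → Prop
  | _, .leaf _ => True
  | u, .br p _ t₁ t₀ =>
      P p ⟨p, u.c / (1 - 1 / (p : ℝ)), u.A * p, u.B⟩ t₁ ∧ P p ⟨p, u.c * p, u.A, u.B * p⟩ t₀
  | u, .add b t₁ t₀ => P b ⟨b + 1, u.c, u.A, u.B⟩ t₁ ∧ P b ⟨b + 1, u.c, u.A, u.B⟩ t₀
  | _, .up _ _ _ => True
  | u, .pl b t => P b ⟨b + 1, u.c, u.A * b, u.B⟩ t
  | u, .far b t₁ t₀ => P b ⟨b + 1, u.c, u.A, u.B⟩ t₁ ∧ P b ⟨b + 1, u.c, u.A, u.B⟩ t₀

/-- **the energies of all the admissible populations of a child** in the classes of the column `p` -/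
def EKid (X : Ctx N γ p0 P₀) (K : ℝ) (p : ℕ) (u : NS) (t : IT) : Prop :=
  ∀ A : Finset X.c.Lam, AdI X.c.D.it (X.g u t) A → ED X X.Y A p u t ≤ K * ma X A u t

/-- **the cross terms from the energies of all the nodes below**, all the admissible populations -/
def CrA (X : Ctx N γ p0 P₀) (K : ℝ) (ζ : ℕ → NS → IT → IT → X.c.Lam → ℝ) : NS → IT → Prop
  | u, .add b t₁ t₀ => ∀ A : Finset X.c.Lam, AdI X.c.D.it (X.g u (.add b t₁ t₀)) A →
      All (KidsR (EKid X K)) u (.add b t₁ t₀) → CrOk X X.Y A (wt X.c.D) ζ b u t₁ t₀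
  | u, .far b t₁ t₀ => ∀ A : Finset X.c.Lam, AdI X.c.D.it (X.g u (.far b t₁ t₀)) A →
      All (KidsR (EKid X K)) u (.far b t₁ t₀) → CrOk X X.Y A (wt X.c.D) ζ b u t₁ t₀
  | _, _ => True

/-- energy of a child in the classes of its parent, by the alive mass -/
lemma ED_leA {Y : Finset (ℕ × ℕ × Finset ℕ)} {A : Finset X.c.Lam}
    {ε : ℕ → NS → IT → X.c.Lam → ℝ} {ζ : ℕ → NS → IT → IT → X.c.Lam → ℝ} {C₀ K Ke : ℝ}
    {b : ℕ} {u : NS} {t : IT} (hn : All (NDt X.par (w X.ψ) X.c.t) u t) (hc : 0 ≤ u.c)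
    (hi : Q (Dr ((X.c.D.par Y).toG u.B u.A t).part) (rv A ((X.c.D.par Y).toG u.B u.A t).val)
      (rv A ((X.c.D.par Y).toG u.B u.A t).val) ≤ C₀ * ma X A u t +
        dseR A ((X.c.D.par Y).toG u.B u.A t))
    (hk : All (KidsOk X Y A (wt X.c.D) ε ζ) u t) (hp : PathLe X (eC X ε ζ) K u t)
    (hch : ChOk X Y A (wt X.c.D) ε b (hu u t) (hd t))
    (he : ELe X ε Ke b (hu u t) (hd t)) :
    ED X Y A b u t ≤ (C₀ + K + Ke) * ma X A u t := by
  classical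
  have h1 := dse_a hn hc hk hp
  have hval : ((X.c.D.par Y).toG u.B u.A t).val =
      fun j => ((X.c.D.par Y).toFT u.B u.A t).U 1 j :=
    Par.toG_val _ hn.self.B_pos hn.self.fit (node_wts hn.self Y)
  have hok : ((X.c.D.par Y).toG u.B u.A t).Ok :=
    (X.c.D.par Y).toG_Ok hn.self.B_pos hn.self.fit (node_wts hn.self Y)
  have q1 := PB_rv (fun j => hok.pb j) A
  have e2 : ic ((X.c.D.par Y).rho b) ((X.c.D.par Y).toG u.B u.A t).part
      (rv A ((X.c.D.par Y).toG u.B u.A t).val) = ChE X Y A b u t := ChE_eq hn.self A b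
  have h2 : Q (Dr ((X.c.D.par Y).rho b)) (rv A ((X.c.D.par Y).toG u.B u.A t).val)
      (rv A ((X.c.D.par Y).toG u.B u.A t).val) ≤
      Q (Dr ((X.c.D.par Y).toG u.B u.A t).part) (rv A ((X.c.D.par Y).toG u.B u.A t).val)
        (rv A ((X.c.D.par Y).toG u.B u.A t).val) + ChE X Y A b u t := by
    rw [← e2]
    exact Q_le_sdiff _ _ q1 q1
  have h3 : ChE X Y A b u t ≤ Ke * ma X A u t := by
    rw [← ChE_hd]
    unfold ChOk at hch
    rw [hu_c, hd_items] at hch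
    refine hch.trans ?_
    rw [ma_mul]
    refine mul_le_mul_of_nonneg_left ?_ hc
    refine Finset.sum_le_sum fun j hj => ?_
    obtain ⟨a, b'⟩ := Finset.mem_filter.1 hj
    obtain ⟨e3, e4⟩ := he j (by rw [hd_items]; exact b')
    have hw0 := wt_nonneg X j
    unfold Wa
    by_cases h : j.1.1 ∈ X.S'
    · simp only [h, if_true]
      rw [mul_comm Ke]
      exact mul_le_mul_of_nonneg_left (e3 h) hw0
    · simp only [h, if_false, mul_zero]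
      exact mul_nonpos_of_nonneg_of_nonpos hw0 (e4 h)
  have h4 : ED X Y A b u t = Q (Dr ((X.c.D.par Y).rho b))
      (rv A ((X.c.D.par Y).toG u.B u.A t).val) (rv A ((X.c.D.par Y).toG u.B u.A t).val) := by
    unfold ED Uv
    rw [hval]
  rw [h4]
  calc _ ≤ Q (Dr ((X.c.D.par Y).toG u.B u.A t).part) (rv A ((X.c.D.par Y).toG u.B u.A t).val)
        (rv A ((X.c.D.par Y).toG u.B u.A t).val) + ChE X Y A b u t := h2
    _ ≤ (C₀ * ma X A u t + K * ma X A u t) + Ke * ma X A u t := by linarith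
    _ = _ := by ring

/-- **facts of a node used in the induction**, all the admissible populations -/
structure IFA (X : Ctx N γ p0 P₀) (ε : ℕ → NS → IT → X.c.Lam → ℝ)
    (ζ : ℕ → NS → IT → IT → X.c.Lam → ℝ) (C₀ K Ke : ℝ) (u : NS) (τ : IT) : Prop where
  nd : NDt X.par (w X.ψ) X.c.t u τ
  c0 : 0 ≤ u.c
  inn : ∀ A : Finset X.c.Lam, AdI X.c.D.it (X.g u τ) A →
    Q (Dr (X.g u τ).part) (rv A (X.g u τ).val) (rv A (X.g u τ).val) ≤
      C₀ * ma X A u τ + dseR A (X.g u τ)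
  ch : ∀ A : Finset X.c.Lam, IL X.c.D.it A → KidsP (ChOk X X.Y A (wt X.c.D) ε) u τ
  le : KidsP (ELe X ε Ke) u τ
  pl : PathLe X (eC X ε ζ) K u τ
  cr : CrA X (C₀ + K + Ke) ζ u τ

/-- **the induction** -/
theorem kids_allA {ε : ℕ → NS → IT → X.c.Lam → ℝ} {ζ : ℕ → NS → IT → IT → X.c.Lam → ℝ}
    {C₀ K Ke : ℝ} : ∀ (t : IT) (u : NS), All (IFA X ε ζ C₀ K Ke) u t →
      All (KidsR (EKid X (C₀ + K + Ke))) u t ∧
      ∀ A : Finset X.c.Lam, AdI X.c.D.it (X.g u t) A →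
        All (KidsOk X X.Y A (wt X.c.D) ε ζ) u t := by
  have hnd : ∀ {u : NS} {t : IT}, All (IFA X ε ζ C₀ K Ke) u t →
      All (NDt X.par (w X.ψ) X.c.t) u t := fun h => All.mono (fun _ _ k => k.nd) h
  have ek : ∀ {b : ℕ} {u : NS} {t : IT}, All (IFA X ε ζ C₀ K Ke) u t →
      (∀ A : Finset X.c.Lam, AdI X.c.D.it (X.g u t) A →
        All (KidsOk X X.Y A (wt X.c.D) ε ζ) u t) →
      (∀ A : Finset X.c.Lam, IL X.c.D.it A →
        ChOk X X.Y A (wt X.c.D) ε b (hu u t) (hd t)) →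
      ELe X ε Ke b (hu u t) (hd t) → EKid X (C₀ + K + Ke) b u t := by
    intro b u t h hk hch hle A hA
    exact ED_leA (Y := X.Y) (A := A) (ε := ε) (ζ := ζ) (hnd h) h.self.c0 (h.self.inn A hA)
      (hk A hA) h.self.pl (hch A hA.2) hle
  intro t
  induction t with
  | leaf S => intro u h; exact ⟨trivial, fun A _ => trivial⟩
  | br p Sp t₁ t₀ ih₁ ih₀ =>
    intro u h
    obtain ⟨i1, j1⟩ := ih₁ _ h.2.1
    obtain ⟨i0, j0⟩ := ih₀ _ h.2.2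
    refine ⟨⟨⟨ek h.2.1 j1 (fun A hA => (h.1.ch A hA).1) h.1.le.1,
      ek h.2.2 j0 (fun A hA => (h.1.ch A hA).2) h.1.le.2⟩, i1, i0⟩, fun A hA => ?_⟩
    have k := AdI_AdN X.c.D.it (X.g u (.br p Sp t₁ t₀)) A hA
    exact ⟨h.1.ch A hA.2, j1 A k.2.1, j0 A k.2.2⟩
  | add p t₁ t₀ ih₁ ih₀ =>
    intro u h
    obtain ⟨i1, j1⟩ := ih₁ _ h.2.1
    obtain ⟨i0, j0⟩ := ih₀ _ h.2.2
    have hall : All (KidsR (EKid X (C₀ + K + Ke))) u (.add p t₁ t₀) :=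
      ⟨⟨ek h.2.1 j1 (fun A hA => (h.1.ch A hA).1) h.1.le.1,
        ek h.2.2 j0 (fun A hA => (h.1.ch A hA).2) h.1.le.2⟩, i1, i0⟩
    refine ⟨hall, fun A hA => ?_⟩
    have k := AdI_AdN X.c.D.it (X.g u (.add p t₁ t₀)) A hA
    exact ⟨⟨(h.1.ch A hA.2).1, (h.1.ch A hA.2).2, h.1.cr A hA hall⟩, j1 A k.2.1, j0 A k.2.2⟩
  | up p Sp t ih =>
    intro u h
    obtain ⟨i1, j1⟩ := ih _ h.2
    exact ⟨⟨trivial, i1⟩, fun A hA => ⟨trivial, j1 A hA⟩⟩
  | pl p t ih =>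
    intro u h
    obtain ⟨i1, j1⟩ := ih _ h.2
    refine ⟨⟨ek h.2 j1 (fun A hA => h.1.ch A hA) h.1.le, i1⟩, fun A hA => ?_⟩
    have k := AdI_AdN X.c.D.it (X.g u (.pl p t)) A hA
    exact ⟨h.1.ch A hA.2, j1 A k.2.1⟩
  | far p t₁ t₀ ih₁ ih₀ =>
    intro u h
    obtain ⟨i1, j1⟩ := ih₁ _ h.2.1
    obtain ⟨i0, j0⟩ := ih₀ _ h.2.2
    have hall : All (KidsR (EKid X (C₀ + K + Ke))) u (.far p t₁ t₀) :=
      ⟨⟨ek h.2.1 j1 (fun A hA => (h.1.ch A hA).1) h.1.le.1,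
        ek h.2.2 j0 (fun A hA => (h.1.ch A hA).2) h.1.le.2⟩, i1, i0⟩
    refine ⟨hall, fun A hA => ?_⟩
    have k := AdI_AdN X.c.D.it (X.g u (.far p t₁ t₀)) A hA
    exact ⟨⟨(h.1.ch A hA.2).1, (h.1.ch A hA.2).2, h.1.cr A hA hall⟩, j1 A k.2.1, j0 A k.2.2⟩

end ctx

/-- **`dseR` of a context, all the admissible populations of all the nodes** -/
theorem ctx_dseA (N : Skel189.Num) {K κ : ℝ} (hK : N.B + 2 ≤ K) (hk : N.C1 + N.c2 + 2 ≤ κ)
    (hkK : κ ≤ K) : ∃ p₁ : ℕ, ∀ p0 ≥ p₁, ∀ (γ : ℝ)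
    (P₀ : ℕ) (X : Ctx N γ p0 P₀), RG X → ∀ (C₀ a z : ℝ), 0 ≤ a → 0 ≤ z → 0 ≤ C₀ →
      LeafAll (LeafIa X.c (wt X.c.D) C₀) 1 1 1 X.c.t → ∀ (j₀ : X.c.Lam)
      (ζ : ℕ → NS → IT → IT → X.c.Lam → ℝ),
      All (PathLe X (eC X (fun _ _ _ _ => 0) ζ) z) ⟨top X.S, 1, 1, 1⟩ X.c.t →
      All (CrA X (C₀ + (a + 12 + z) + (a + 12)) ζ) ⟨top X.S, 1, 1, 1⟩ X.c.t →
      (∀ A : Finset X.c.Lam, IL X.c.D.it A →
        All (KidsP (ChOk X X.Y A (wt X.c.D) (eD X K κ a))) ⟨top X.S, 1, 1, 1⟩ X.c.t) →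
      All (fun u τ => (∀ A : Finset X.c.Lam, AdI X.c.D.it (X.g u τ) A →
          dseR A (X.g u τ) ≤ (a + 12 + z) * ma X A u τ) ∧
        KidsR (EKid X (C₀ + (a + 12 + z) + (a + 12))) u τ) ⟨top X.S, 1, 1, 1⟩ X.c.t := by
  classical
  have hB := N.hB
  have hC1 := N.hC1
  have hc2 := N.hc2
  obtain ⟨p1, h1⟩ := Phi_le N hK hk
  refine ⟨p1 + 3, fun p0 hp0 γ P₀ X hR C₀ a z ha hz hC₀ hLI j₀ ζ hzp hzc hCh => ?_⟩
  have hK0 : 0 ≤ K := by linarith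
  have hk0 : 0 ≤ κ := by linarith
  have hPhi : ∀ q ∈ X.S', ∀ m : ℕ, Phi X K κ a q m ≤ a + 12 := h1 p0 (by omega) γ P₀ X a
  have f1 := ctx_NDt X
  have f2 := ctx_cpos X
  have f3 := in_le hC₀ hLI j₀
  have f4 := ele_all (X := X) hK0 hk0 hkK ha (by omega) hR hPhi X.c.t _ (ctx_PF X)
  have f5 := path_all (X := X) (K := K) (κ := κ) (a := a) hK0 hk0 hkK ha (by omega) hR X.c.t _
    (ctx_PF X)
  have f6 : All (PathLe X (eC X (eD X K κ a) ζ) (a + 12 + z)) ⟨top X.S, 1, 1, 1⟩ X.c.t := by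
    refine All.mono (fun u τ hh j hj => ?_) (f5.and hzp)
    obtain ⟨g1, g2⟩ := hh
    have e := chE_add (X := X) X.c.D.it (e := eC X (eD X K κ a) ζ)
      (e₁ := eC X (eD X K κ a) (fun _ _ _ _ _ => 0)) (e₂ := eC X (fun _ _ _ _ => 0) ζ)
      (fun u t j => eC_add (eD X K κ a) ζ t u j) τ u j
    rw [e]
    have k2 := g2 j hj
    by_cases hq : j.1.1 ∈ X.S'
    · rw [if_pos hq] at k2 ⊢
      have k1 : chE X.c.D.it (eC X (eD X K κ a) (fun _ _ _ _ _ => 0)) u τ j ≤ a + 12 := by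
        by_cases hl : isL (hd τ)
        · have := (g1 j hj).1 hl
          change chE X.c.D.it (e1 X K κ a) u τ j ≤ a + 12
          rw [this]; linarith
        · have m1 := (g1 j hj).2 hl
          have m2 := hPhi j.1.1 hq (tp (hd τ))
          have m3 : 0 ≤ Real.log (tp (hd τ)) ^ (-κ) := Real.rpow_nonneg (log_nn _) _
          change chE X.c.D.it (e1 X K κ a) u τ j ≤ a + 12
          linarith
      linarith
    · rw [if_neg hq] at k2 ⊢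
      have k1 : chE X.c.D.it (eC X (eD X K κ a) (fun _ _ _ _ _ => 0)) u τ j = 0 :=
        ch_dead (fun u t => e1_dead hq t u) τ u
      linarith
  have gen : ∀ (t : IT) (u : NS), (∀ A, IL X.c.D.it A →
      All (KidsP (ChOk X X.Y A (wt X.c.D) (eD X K κ a))) u t) →
      All (fun u τ => ∀ A, IL X.c.D.it A →
        KidsP (ChOk X X.Y A (wt X.c.D) (eD X K κ a)) u τ) u t := by
    intro t
    induction t with
    | leaf S => intro u h; exact fun A hA => h A hA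
    | br p Sp t₁ t₀ ih₁ ih₀ =>
      intro u h
      exact ⟨fun A hA => (h A hA).1, ih₁ _ fun A hA => (h A hA).2.1,
        ih₀ _ fun A hA => (h A hA).2.2⟩
    | add p t₁ t₀ ih₁ ih₀ =>
      intro u h
      exact ⟨fun A hA => (h A hA).1, ih₁ _ fun A hA => (h A hA).2.1,
        ih₀ _ fun A hA => (h A hA).2.2⟩
    | up p Sp t ih =>
      intro u h
      exact ⟨fun A hA => (h A hA).1, ih _ fun A hA => (h A hA).2⟩
    | pl p t ih =>
      intro u h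
      exact ⟨fun A hA => (h A hA).1, ih _ fun A hA => (h A hA).2⟩
    | far p t₁ t₀ ih₁ ih₀ =>
      intro u h
      exact ⟨fun A hA => (h A hA).1, ih₁ _ fun A hA => (h A hA).2.1,
        ih₀ _ fun A hA => (h A hA).2.2⟩
  have f8 := gen _ _ hCh
  have f9 : All (IFA X (eD X K κ a) ζ C₀ (a + 12 + z) (a + 12)) ⟨top X.S, 1, 1, 1⟩ X.c.t := by
    refine All.mono (fun u τ hh => ?_) (((f1.and f2).and ((f3.and f4).and (f6.and hzc))).and f8)
    obtain ⟨⟨⟨g1, g2⟩, ⟨g3, g4⟩, ⟨g6, g7⟩⟩, g8⟩ := hh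
    exact
      { nd := g1
        c0 := g2.le
        inn := g3
        ch := g8
        le := g4
        pl := g6
        cr := g7 }
  refine All.mono (fun u τ hh => ?_) (All_All X.c.t _ f9)
  obtain ⟨i1, i2⟩ := kids_allA τ u hh
  refine ⟨fun A hA => ?_, i1.self⟩
  exact dse_a (Y := X.Y) (All.mono (fun _ _ k => k.nd) hh) hh.self.c0 (i2 A hA) hh.self.pl

/-- **the part `dseR`**, all the populations -/
theorem part_dseA' (N : Skel189.Num) {K κ : ℝ} (hK : N.B + 2 ≤ K) (hk : N.C1 + N.c2 + 2 ≤ κ)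
    (hkK : κ ≤ K) : ∃ p₁ : ℕ, ∀ p0 ≥ p₁, ∀ (γ : ℝ)
    (P₀ : ℕ) (X : Ctx N γ p0 P₀), RG X → ∀ (C₀ a z : ℝ), 0 ≤ a → 0 ≤ z → 0 ≤ C₀ →
      LeafAll (LeafIa X.c (wt X.c.D) C₀) 1 1 1 X.c.t →
      ∀ (ζ : ℕ → NS → IT → IT → X.c.Lam → ℝ),
      All (PathLe X (eC X (fun _ _ _ _ => 0) ζ) z) ⟨top X.S, 1, 1, 1⟩ X.c.t →
      All (CrA X (C₀ + (a + 12 + z) + (a + 12)) ζ) ⟨top X.S, 1, 1, 1⟩ X.c.t →
      (∀ A : Finset X.c.Lam, IL X.c.D.it A →
        All (KidsP (ChOk X X.Y A (wt X.c.D) (eD X K κ a))) ⟨top X.S, 1, 1, 1⟩ X.c.t) →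
      ∀ (j₀ : X.c.Lam) (Hb : NS → IT → Prop),
      Part X j₀ Hb (fun u τ A => dseR A (X.g u τ)) (a + 12 + z) := by
  obtain ⟨p1, h1⟩ := ctx_dseA N hK hk hkK
  refine ⟨p1, fun p0 hp0 γ P₀ X hR C₀ a z ha hz hC₀ hLI ζ hzp hzc hCh j₀ Hb => ?_⟩
  have key := h1 p0 hp0 γ P₀ X hR C₀ a z ha hz hC₀ hLI j₀ ζ hzp hzc hCh
  refine All.mono (fun u τ hh hp hb A hA hn => ?_)
    (((key.and (ctx_tM X j₀)).and (ctx_mumu X j₀)).and (ctx_cpos X))
  obtain ⟨⟨⟨k1, k2⟩, k3⟩, hc⟩ := hh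
  have e : X.mu j₀ u τ A = u.c * ∑ j ∈ A.filter (fun j => X.c.D.it j ∈ τ.items),
      wt X.c.D j := k2 A
  refine (k1.1 A hA).trans (mul_le_mul_of_nonneg_left ?_ (by linarith))
  have := (k3 A).2
  have := ma_le_mu (X := X) hc.le A τ
  rw [e]
  rw [e] at *
  linarith

/-- **the part `dseR`**, population `univ` -/
theorem part_dseF' (N : Skel189.Num) {K κ : ℝ} (hK : N.B + 2 ≤ K) (hk : N.C1 + N.c2 + 2 ≤ κ)
    (hkK : κ ≤ K) : ∃ p₁ : ℕ, ∀ p0 ≥ p₁, ∀ (γ : ℝ)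
    (P₀ : ℕ) (X : Ctx N γ p0 P₀), RG X → ∀ (C₀ a z : ℝ), 0 ≤ a → 0 ≤ z → 0 ≤ C₀ →
      LeafAll (LeafIa X.c (wt X.c.D) C₀) 1 1 1 X.c.t →
      ∀ (ζ : ℕ → NS → IT → IT → X.c.Lam → ℝ),
      All (PathLe X (eC X (fun _ _ _ _ => 0) ζ) z) ⟨top X.S, 1, 1, 1⟩ X.c.t →
      All (CrA X (C₀ + (a + 12 + z) + (a + 12)) ζ) ⟨top X.S, 1, 1, 1⟩ X.c.t →
      (∀ A : Finset X.c.Lam, IL X.c.D.it A →
        All (KidsP (ChOk X X.Y A (wt X.c.D) (eD X K κ a))) ⟨top X.S, 1, 1, 1⟩ X.c.t) →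
      ∀ (j₀ : X.c.Lam) (Hb : NS → IT → Prop),
      SkelF29.PartF X j₀ Hb (fun u τ A => dseR A (X.g u τ)) (a + 12 + z) := by
  obtain ⟨p1, h1⟩ := ctx_dseA N hK hk hkK
  refine ⟨p1, fun p0 hp0 γ P₀ X hR C₀ a z ha hz hC₀ hLI ζ hzp hzc hCh j₀ Hb => ?_⟩
  have key := h1 p0 hp0 γ P₀ X hR C₀ a z ha hz hC₀ hLI j₀ ζ hzp hzc hCh
  refine All.mono (fun u τ hh hp hb => ?_)
    (((key.and (ctx_tM X j₀)).and (ctx_mumu X j₀)).and (ctx_cpos X))
  obtain ⟨⟨⟨k1, k2⟩, k3⟩, hc⟩ := hh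
  have e : X.mu j₀ u τ Finset.univ =
      u.c * ∑ j ∈ Finset.univ.filter (fun j => X.c.D.it j ∈ τ.items), wt X.c.D j := k2 Finset.univ
  refine (k1.1 _ (AdI_univ _ _)).trans (mul_le_mul_of_nonneg_left ?_ (by linarith))
  have h3 := (k3 Finset.univ).2
  have h4 := ma_le_mu (X := X) hc.le Finset.univ τ
  rw [← e] at h4
  linarith

end Crest.Agent.R4P.DseInd21
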