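import Crest.Agent.R4P.LeafIC368

/-!
R4 (S0004), powers pass, [W-dseR], helper21: **in-class energy of the leaves, bounded by the mass of the
ALIVE items** (variant of `leafI_leaf`, `leafI_all`, `leafI_ctx` of helper368 / helper820 / helper438; same
proofs, the last estimate keeps the alive items only).
-/

set_option autoImplicit false
set_option linter.unusedSectionVars false
set_option linter.unusedVariables false
open Finset MeasureTheory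

namespace Crest.Agent.R4P.LeafIa21

section leaf
open Crest.Agent.R4P.LeafJ368
open Crest.Agent.R4
open Crest.Agent.R4.LF363 (uw Lab)
open Crest.Agent.R4.ClsB (Tame)
open Crest.Agent.R4P.Bld532 (NS NodeOk Bk)
open Crest.Agent.R4P.Data758 Crest.Agent.R4P.LfDat734 Crest.Agent.R4P.WPex189
open Crest.Agent.R4P.Frame758 (lf LeafI)
open Crest.Agent.R4.Item758 (IL)
open Crest.Agent.R4P.Item758 (pp Fit)
open Crest.Agent.R4.Tour104 (I)
open Crest.Agent.R4.LeafU368 (sum_split)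
open Crest.Agent.R4P.Cnt588
open Crest.Agent.R4P.PhiU820 (PlOk)
open Crest.Agent.R4P.LeafB820 (toR4)

/-- **in-class energy of a leaf, alive mass** -/
def LeafIa (c : Cf) (W : c.Lam → ℝ) (C₀ : ℝ) (cc : ℝ) (b pr : ℕ) (S : Finset ℕ) : Prop :=
  ∀ A : Finset c.Lam, IL c.D.it A →
    ∑ j ∈ A.filter (fun j => c.D.it j ∈ S),
      ∑ j' ∈ A.filter (fun j' => c.D.it j' ∈ S ∧ c.D.rhoL j = c.D.rhoL j'),
        I (fun x => lf c.D b pr j x * lf c.D b pr j' x) ≤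
      C₀ * (cc * ∑ j ∈ (A.filter (fun j => c.D.it j ∈ S)).filter (fun j => c.D.it j ∈ c.S'), W j)


/-- leaf, alive mass -/
theorem leafIa_leaf : ∃ c0 C : ℝ, 0 < c0 ∧ 1 ≤ C ∧ ∀ c1 : ℝ, 0 < c1 → c1 ≤ c0 →
    ∃ T0 : ℝ, 2^50 ≤ T0 ∧
    ∀ (c : Cf) (n : ℕ) (P : Bld532.Par) (W : ℕ → ℝ) (u : NS) (Sl : Finset ℕ) (G K : ℕ)
      (wp : W363.WP) (wt : c.Lam → ℝ) (T X : ℝ),
    c.Ok n → LeafF P W c.t n u Sl G → Fit 1 1 c.t → PlOk ∅ c.t → c.lv = lv c.t n →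
    (∀ j, wt j = (c.D.be j - c.D.al j) * ((Nat.totient (c.D.it j) : ℝ) / c.D.it j)) →
    (∀ q z a, c.om q z a ≤ omL wp c.wpL c.γ c.r c.t c.lv c.S' q a) → Fine c.wpL c.γ c.r c.t c.S n K → u.B ≤ K →
    (∀ q ∈ Sl, q ∈ c.S' → ∑ b ∈ rt c.t q, (1 : ℝ) / b ≤ 1 / 2) →
    (∀ q ∈ Sl, q ∈ c.S' → ∑ b ∈ c.t.mt q ∪ c.t.sp q, (1 : ℝ) / b ≤ 1 / 2) →
    (∀ q ∈ Sl, q ∈ c.S' → ∀ z : ℝ, X ≤ z → Tame z 1 (q / (u.A * G))) →
    T0 ≤ T → X ≤ Real.exp (T^c1) →
    etaL c.wpL (u.n - 1) * (4 * u.c *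
      ∑ j ∈ Finset.univ.filter (fun j => c.D.it j ∈ Sl), wt j) * T ≤ 1 →
    (∀ q ∈ Sl, q ∈ c.S' → (u.B : ℝ) * c.r q ≤ c.wpL.thr (u.n - 1) ∨
      ∀ s L', W363.lst u.B.primeFactors (u.n - 1) = s :: L' →
        (L'.prod : ℝ) * c.r q ≤ c.wpL.thr s) →
    LeafIa c wt C u.c u.B u.A Sl := by
  classical
  obtain ⟨c0, CU, hc0, hCU, HU⟩ := LeafB820.leafI_UX'
  obtain ⟨CL, hCL, HL⟩ := Crest.Agent.R4.LeafL363.ExB_sta
  refine ⟨c0, 16 * (CU + CL), hc0, by linarith, fun c1 h1 h2 => ?_⟩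
  obtain ⟨T0, hT0, HU⟩ := HU c1 h1 h2
  refine ⟨T0, hT0, ?_⟩
  intro c n P W u Sl G K wp wt T X hc hF hFit hPl hlv hWd hom hfine hBK hrt hms htame hT hX hηM hfat A hA
  have bk := hF.bk
  have hB0 : 0 < u.B := Nat.pos_of_ne_zero bk.sfB.ne_zero
  have hA0 : 0 < u.A := bk.Apos
  have hG0 : 0 < G := hF.G0
  set L := W363.lst u.B.primeFactors (u.n - 1) with hL
  have hLp : L.prod = u.B := hF.lst_prod
  have hL0 : ∀ s ∈ L, 0 < s := fun s hs => (LeafF.lst_mem (u := u) hs).1.pos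
  have hη0 := etaL_pos c.wpL (u.n - 1)
  have hlvq : ∀ q ∈ Sl, c.lv q = u.n - 1 := fun q hq => by rw [hlv]; exact hF.lvl q hq
  have hlvn : ∀ q ∈ Sl, u.n - 1 ≤ n := fun q hq => by
    rw [← hF.lvl q hq]; exact lv_le hc.tOk q
  have hmp : ∀ q ∈ Sl, (Item758.mp c.t q : ℝ) = u.B := fun q hq => by rw [hF.B q hq]
  have hmpQ : ∀ q ∈ Sl, (Item758.mp c.t q : ℚ) = u.B := fun q hq => by rw [hF.B q hq]
  have hW0 : ∀ j, 0 ≤ wt j := by
    intro j
    rw [hWd]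
    have : c.D.al j ≤ c.D.be j := hc.bpm _ (Cf.mem_S j) (Cf.r_pos j) (Nat.le_succ _)
    exact mul_nonneg (by linarith) (by positivity)
  have hcf : 0 ≤ u.c := le_trans zero_le_one bk.one_le_c
  set F : c.Lam → c.Lam → ℝ := fun j j' => I (fun x => lf c.D u.B u.A j x * lf c.D u.B u.A j' x)
    with hFd
  set J := A.filter (fun j => c.D.it j ∈ Sl) with hJ
  -- step 1, 2
  have s1 : ∑ j ∈ J, ∑ j' ∈ A.filter (fun j' => c.D.it j' ∈ Sl ∧ c.D.rhoL j = c.D.rhoL j'), F j j' =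
      ∑ j ∈ J, ∑ j' ∈ J.filter (fun j' => c.D.rhoL j = c.D.rhoL j'), F j j' := by
    refine Finset.sum_congr rfl fun j _ => ?_
    rw [hJ, Finset.filter_filter]
  have hz : I (fun _ : ℝ => (0 : ℝ)) = 0 := by unfold Tour104.I; simp
  have s2 := sum_restrict J (fun j => c.D.it j ∈ c.S') c.D.rhoL F
    (fun j j' hj => by
      show I (fun x => lf c.D u.B u.A j x * lf c.D u.B u.A j' x) = 0
      rw [← hz]; congr 1; funext x
      rw [lf_zero hc hom hj, zero_mul])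
    (fun j j' hj => by
      show I (fun x => lf c.D u.B u.A j x * lf c.D u.B u.A j' x) = 0
      rw [← hz]; congr 1; funext x
      rw [lf_zero hc hom hj, mul_zero])
  set J' := J.filter (fun j => c.D.it j ∈ c.S') with hJ'
  have s3 := sum_split J' (fun j => (stL c.wpL c.γ c.r c.t c.lv (c.D.it j)).isSome = true)
    c.D.rhoL F (fun j _ j' _ e => by rw [isSome_of_class e])
  set J₁ := J'.filter (fun j => (stL c.wpL c.γ c.r c.t c.lv (c.D.it j)).isSome = true) with hJ₁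
  set J₂ := J'.filter (fun j => ¬ (stL c.wpL c.γ c.r c.t c.lv (c.D.it j)).isSome = true) with hJ₂
  have hmem : ∀ j ∈ J', j ∈ A ∧ c.D.it j ∈ Sl ∧ c.D.it j ∈ c.S' := fun j hj => by
    obtain ⟨a, b⟩ := Finset.mem_filter.1 hj
    obtain ⟨a1, a2⟩ := Finset.mem_filter.1 a
    exact ⟨a1, a2, b⟩
  have hmem' : ∀ j, j ∈ A → c.D.it j ∈ Sl → c.D.it j ∈ c.S' → j ∈ J' := fun j a b d =>
    Finset.mem_filter.2 ⟨Finset.mem_filter.2 ⟨a, b⟩, d⟩
  have hcl : ∀ j ∈ J', ∀ j', c.D.it j' = c.D.it j → j' ∈ J' := fun j hj j' e => by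
    obtain ⟨a1, a2, a3⟩ := hmem j hj
    refine hmem' j' ((hA j j' e.symm).1 a1) (by rw [e]; exact a2) (by rw [e]; exact a3)
  -- facts about items of `J'`
  have hfull : ∀ j ∈ J', c.r (c.D.it j) ≤
      ∑ j' ∈ Finset.univ.filter (fun j' => c.D.it j' = c.D.it j), (c.D.be j' - c.D.al j') := by
    intro j hj
    have h3 := hc.len (Cf.mem_S j) (Cf.r_pos j)
    have h4 : ∑ j' ∈ Finset.univ.filter (fun j' => c.D.it j' = c.D.it j),
        (c.D.be j' - c.D.al j') = 2 * c.r j.1.1 := h3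
    rw [h4]
    have := Cf.r_pos j
    show c.r j.1.1 ≤ _
    linarith
  have hit : ∀ j ∈ J', 0 < G ∧ 0 < c.D.it j / (u.A * G) ∧
      c.D.it j = u.A * (G * (c.D.it j / (u.A * G))) := by
    intro j hj
    obtain ⟨a1, a2, a3⟩ := hmem j hj
    have hq0 : 0 < c.D.it j := hc.pos _ (Cf.mem_S j)
    have hd : u.A * G ∣ c.D.it j := Nat.mul_dvd_of_dvd_div (bk.dvd _ a2) (hF.Gd _ a2)
    have e1 : u.A * G * (c.D.it j / (u.A * G)) = c.D.it j := Nat.mul_div_cancel' hd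
    refine ⟨hG0, Nat.div_pos (Nat.le_of_dvd hq0 hd) (Nat.mul_pos hA0 hG0), ?_⟩
    rw [← mul_assoc]; exact e1.symm
  have hmass : ∀ j ∈ J', (u.B : ℝ) * ((Nat.totient (c.D.it j / (u.A * G)) : ℝ) /
      ((c.D.it j / (u.A * G) : ℕ) : ℝ)) ≤
      2 * (2 * u.c * ((Nat.totient (c.D.it j) : ℝ) / c.D.it j)) := by
    intro j hj
    obtain ⟨a1, a2, a3⟩ := hmem j hj
    obtain ⟨-, b1, b2⟩ := hit j hj
    set w := c.D.it j / (u.A * G) with hw
    have e2 : c.D.it j / u.A = G * w := by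
      rw [hw, ← Nat.div_div_eq_div_mul]
      exact (Nat.mul_div_cancel' (hF.Gd _ a2)).symm
    have cop : Nat.Coprime G w := by
      rw [hw, ← Nat.div_div_eq_div_mul]; exact hF.Gc _ a2
    have h1 := PhiU820.leaf_mass c.t hc.tOk hFit hPl (hF.it _ a2) (hms _ a2 a3) (hF.lstA _ a2)
    rw [e2, Nat.totient_mul cop] at h1
    push_cast at h1
    have h2 := hF.G_le a2 (hrt _ a2 a3)
    have hGR : (0 : ℝ) < G := by exact_mod_cast hG0
    have hwR : (0 : ℝ) < w := by exact_mod_cast b1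
    have e3 : ((G.totient : ℝ) * (w.totient : ℝ)) / ((G : ℝ) * (w : ℝ)) =
        ((G.totient : ℝ) / G) * ((w.totient : ℝ) / w) := by
      field_simp
    rw [e3] at h1
    have h3 : (0 : ℝ) ≤ (u.B : ℝ) * ((w.totient : ℝ) / w) := by positivity
    have h4 : (u.B : ℝ) * ((w.totient : ℝ) / w) * (1 / 2) ≤
        (u.B : ℝ) * (((G.totient : ℝ) / G) * ((w.totient : ℝ) / w)) := by
      calc (u.B : ℝ) * ((w.totient : ℝ) / w) * (1 / 2)
          ≤ (u.B : ℝ) * ((w.totient : ℝ) / w) * ((G.totient : ℝ) / G) :=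
            mul_le_mul_of_nonneg_left h2 h3
        _ = _ := by ring
    linarith
  have hwin : ∀ j ∈ J', -c.r (c.D.it j) ≤ c.D.al j ∧ c.D.be j ≤ c.r (c.D.it j) := fun j _ =>
    ⟨hc.bp_ge j _, hc.bp_le j (Cf.k_lt j)⟩
  have hdis : ∀ j ∈ J', ∀ j' ∈ J', c.D.it j = c.D.it j' → ∀ s : ℝ, c.D.al j ≤ s →
      s < c.D.be j → c.D.al j' ≤ s → s < c.D.be j' → j = j' := by
    intro j _ j' _ e s g1 g2 g3 g4
    by_contra hne
    rcases hc.disj' j j' hne e with h | h <;> linarith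
  have hWt : ∀ j ∈ J', Piece464.Wt (c.D.it j / u.A) (c.D.om j) := fun j hj => by
    have h3 := hc.wt _ (Cf.mem_S j) (c.bp j.1.1 j.1.2)
    have h4 : pp c.t j.1.1 = u.A := hF.A _ (hmem j hj).2.1
    rw [h4] at h3
    exact h3
  have homj : ∀ j ∈ J', ∀ a, c.D.om j a ≤ 2 *
      Ovl560.nw (c.D.it j / (u.A * G)).primeFactors (uw (u.B * c.D.γ)
        (phL c.wpL c.γ c.r c.t c.lv (c.D.it j)) (labL c.wpL c.γ c.r c.t c.lv (c.D.it j))) a := by
    intro j hj a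
    obtain ⟨a1, a2, a3⟩ := hmem j hj
    have h3 := hF.omL_le wp c.wpL c.γ c.r c.lv c.S' a2 (hrt _ a2 a3) a
    rw [Nat.div_div_eq_div_mul] at h3
    exact (hom _ _ a).trans h3
  have hJ₁' : ∀ j ∈ J₁, j ∈ J' ∧ ∃ σ, stL c.wpL c.γ c.r c.t c.lv (c.D.it j) = some σ :=
    fun j hj => by
      obtain ⟨a, b⟩ := Finset.mem_filter.1 hj
      exact ⟨a, Option.isSome_iff_exists.1 b⟩
  have hJ₂' : ∀ j ∈ J₂, j ∈ J' ∧ stL c.wpL c.γ c.r c.t c.lv (c.D.it j) = none := fun j hj => by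
      obtain ⟨a, b⟩ := Finset.mem_filter.1 hj
      refine ⟨a, ?_⟩
      cases h : stL c.wpL c.γ c.r c.t c.lv (c.D.it j) with
      | none => rfl
      | some σ => rw [h] at b; simp at b
  have hc₁ : ∀ j ∈ J₁, ∀ j', c.D.it j' = c.D.it j → j' ∈ J₁ := fun j hj j' e => by
    obtain ⟨a, b⟩ := Finset.mem_filter.1 hj
    exact Finset.mem_filter.2 ⟨hcl j a j' e, by rw [e]; exact b⟩
  have hc₂ : ∀ j ∈ J₂, ∀ j', c.D.it j' = c.D.it j → j' ∈ J₂ := fun j hj j' e => by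
    obtain ⟨a, b⟩ := Finset.mem_filter.1 hj
    exact Finset.mem_filter.2 ⟨hcl j a j' e, by rw [e]; exact b⟩
  -- unlabelled part
  have hmono : ∀ J₀ : Finset c.Lam, J₀ ⊆ J → ∑ j ∈ J₀, wt j ≤
      ∑ j ∈ Finset.univ.filter (fun j => c.D.it j ∈ Sl), wt j := by
    intro J₀ h
    refine Finset.sum_le_sum_of_subset_of_nonneg ?_ fun j _ _ => hW0 j
    intro j hj
    exact Finset.mem_filter.2 ⟨Finset.mem_univ _, (Finset.mem_filter.1 (h hj)).2⟩
  have i₁ : J₁ ⊆ J := (Finset.filter_subset _ _).trans (Finset.filter_subset _ _)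
  have i₂ : J₂ ⊆ J := (Finset.filter_subset _ _).trans (Finset.filter_subset _ _)
  have hT00 : 0 ≤ T := le_trans (by positivity) (hT0.trans hT)
  have kU' : ∑ j ∈ J₂, ∑ j' ∈ J₂.filter (fun j' => c.D.rhoL j = c.D.rhoL j'), F j j' ≤
      (2 : ℝ) ^ 2 * (2 * CU * (2 * u.c * ∑ j ∈ J₂, wt j)) := by
    rcases J₂.eq_empty_or_nonempty with h0 | ⟨j₀, hj₀⟩
    · rw [h0]; simp
    refine HU c.Lam (WL c.Lam) (WL c.Lam) c.D c.D.rhoL wt 2 T
      (etaL c.wpL (u.n - 1)) X (2 * u.c) u.B u.A G 1 c.r (labL c.wpL c.γ c.r c.t c.lv)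
      (fun q => q / (u.A * G)) J₂ (by norm_num) hT hX hη0 (by positivity) hB0 hA0 hG0 one_pos
      (fun j _ => hWd j)
      (fun j _ => hc.bpm _ (Cf.mem_S j) (Cf.r_pos j) (Nat.le_succ _)) hc₂
      (fun j hj => hfull j (hJ₂' j hj).1) ?_
      (fun j hj => ⟨(hit j (hJ₂' j hj).1).2.1, (hit j (hJ₂' j hj).1).2.2⟩)
      (fun j hj => hmass j (hJ₂' j hj).1)
      (fun z hz j hj => htame _ (hmem j (hJ₂' j hj).1).2.1 (hmem j (hJ₂' j hj).1).2.2 z hz)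
      (fun j _ => Cf.r_pos j)
      (fun j hj ρ => by
        have m1 := (hmem j (hJ₂' j hj).1).2.1
        rw [labL_none (hJ₂' j hj).2, lcl_iff, hmp _ m1, hlvq _ m1]
        exact Iff.rfl)
      (fun j hj => hwin j (hJ₂' j hj).1)
      (fun j hj j' hj' => hdis j (hJ₂' j hj).1 j' (hJ₂' j' hj').1)
      (fun j hj => hWt j (hJ₂' j hj).1)
      (fun j hj a => by
        have m1 := (hmem j (hJ₂' j hj).1).2.1
        have h3 := homj j (hJ₂' j hj).1 a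
        rw [phL_none (hJ₂' j hj).2, hmp _ m1, hlvq _ m1] at h3
        exact h3)
      (fun j hj j' hj' e z z' g1 g2 g3 g4 => by
        have m1 := (hmem j (hJ₂' j hj).1).2.1
        have m2 := (hmem j' (hJ₂' j' hj').1).2.1
        exact close_U hc hfine (hlvn _ m1) (hlvq _ m1) (hlvq _ m2) (hJ₂' j hj).2 (hJ₂' j' hj').2 e
          g1 g2 g3 g4)
    refine le_trans ?_ hηM
    refine mul_le_mul_of_nonneg_right ?_ hT00
    refine mul_le_mul_of_nonneg_left ?_ hη0.le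
    have h5 := mul_le_mul_of_nonneg_left (hmono J₂ i₂) (show (0 : ℝ) ≤ 4 * u.c by positivity)
    calc 2 * (2 * u.c) * ∑ j ∈ J₂, wt j = 4 * u.c * ∑ j ∈ J₂, wt j := by ring
      _ ≤ _ := h5
  have kL := LeafB820.leafI_LX' (C := CL) (K := 2) hCL.le (by norm_num) c.D c.D.rhoL
    wt (c := 2 * u.c) u.B u.A c.r (fun q => (u.B : ℝ) * c.r q) (labL c.wpL c.γ c.r c.t c.lv)
    (fun _ => G) (fun q => q / (u.A * G)) J₁ (by positivity) hB0 hA0 (fun j _ => hWd j) hc₁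
    (fun j hj => hfull j (hJ₁' j hj).1) (fun j hj => hit j (hJ₁' j hj).1)
    (fun j hj => hmass j (hJ₁' j hj).1)
    (fun j _ => Cf.r_pos j)
    (fun j hj => by
      obtain ⟨σ, hσ⟩ := (hJ₁' j hj).2
      rw [labL_some hσ]; simp)
    (fun j hj => hwin j (hJ₁' j hj).1)
    (fun j hj j' hj' => hdis j (hJ₁' j hj).1 j' (hJ₁' j' hj').1)
    (fun j hj => hWt j (hJ₁' j hj).1)
    (fun j hj a => by
      obtain ⟨σ, hσ⟩ := (hJ₁' j hj).2
      have h3 := homj j (hJ₁' j hj).1 a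
      rw [phL_some hσ, hmp _ (hmem j (hJ₁' j hj).1).2.1] at h3
      exact h3)
    (fun j _ j' _ _ => rfl)
    (fun j hj j' hj' e m k x w1 w2 σ τ hσ hτ => by
      obtain ⟨σ', hσ'⟩ := (hJ₁' j hj).2
      obtain ⟨τ', hτ'⟩ := (hJ₁' j' hj').2
      have m1 := (hmem j (hJ₁' j hj).1).2.1
      have m2 := (hmem j' (hJ₁' j' hj').1).2.1
      rw [labL_some hσ', Option.some.injEq, hmpQ _ m1] at hσ
      rw [labL_some hτ', Option.some.injEq, hmpQ _ m2] at hτ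
      rw [← hσ, ← hτ]
      exact exact_L hc hfine (hlvn _ m1) (hlvq _ m1) (hlvq _ m2) hA0 hB0 hBK (bk.dvd _ m1)
        (bk.dvd _ m2) hσ' hτ' e w1 w2)
    (fun u0 hu0 => by
      have h3 := HL c.Lam (WL c.Lam) (toR4 c.D) u.A c.r (labL c.wpL c.γ c.r c.t c.lv) (fun _ => G)
        (fun q => q / (u.A * G)) J₁ c.wpL.thr L (u.n - 1) hL0
        (fun j hj => ⟨(hit j (hJ₁' j hj).1).1, (hit j (hJ₁' j hj).1).2.1,
          (hit j (hJ₁' j hj).1).2.2⟩)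
        (fun j _ => Cf.r_pos j)
        (fun j hj => by
          obtain ⟨m0, m1, m2⟩ := hmem j (hJ₁' j hj).1
          rw [hLp]
          exact hfat _ m1 m2)
        (fun j hj => by
          obtain ⟨σ, hσ⟩ := (hJ₁' j hj).2
          have m1 := (hmem j (hJ₁' j hj).1).2.1
          show labL c.wpL c.γ c.r c.t c.lv (c.D.it j) =
            Option.map (fun σ => (L.prod : ℚ) * σ)
              (W363.sta c.wpL.thr c.γ (c.r (c.D.it j)) L (u.n - 1))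
          rw [labL_some hσ, hmpQ _ m1, hLp]
          have h3 := hF.stL_eq c.wpL c.γ c.r m1
          rw [← hlv, hσ] at h3
          rw [← h3]; rfl) u0 hu0
      rw [hLp] at h3
      exact h3)
  · show ∑ j ∈ J, ∑ j' ∈ A.filter (fun j' => c.D.it j' ∈ Sl ∧ c.D.rhoL j = c.D.rhoL j'), F j j' ≤
      16 * (CU + CL) * (u.c * ∑ j ∈ J', wt j)
    rw [s1, s2, s3]
    have m₁ : u.c * ∑ j ∈ J₁, wt j ≤ u.c * ∑ j ∈ J', wt j :=
      mul_le_mul_of_nonneg_left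
        (Finset.sum_le_sum_of_subset_of_nonneg (Finset.filter_subset _ _) fun j _ _ => hW0 j) hcf
    have m₂ : u.c * ∑ j ∈ J₂, wt j ≤ u.c * ∑ j ∈ J', wt j :=
      mul_le_mul_of_nonneg_left
        (Finset.sum_le_sum_of_subset_of_nonneg (Finset.filter_subset _ _) fun j _ _ => hW0 j) hcf
    have t1 : (2 : ℝ) ^ 2 * (2 * CL * (2 * u.c * ∑ j ∈ J₁, wt j)) ≤
        16 * CL * (u.c * ∑ j ∈ J', wt j) := by
      calc (2 : ℝ) ^ 2 * (2 * CL * (2 * u.c * ∑ j ∈ J₁, wt j)) =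
          16 * CL * (u.c * ∑ j ∈ J₁, wt j) := by ring
        _ ≤ _ := mul_le_mul_of_nonneg_left m₁ (by positivity)
    have t2 : (2 : ℝ) ^ 2 * (2 * CU * (2 * u.c * ∑ j ∈ J₂, wt j)) ≤
        16 * CU * (u.c * ∑ j ∈ J', wt j) := by
      calc (2 : ℝ) ^ 2 * (2 * CU * (2 * u.c * ∑ j ∈ J₂, wt j)) =
          16 * CU * (u.c * ∑ j ∈ J₂, wt j) := by ring
        _ ≤ _ := mul_le_mul_of_nonneg_left m₂ (by positivity)
    calc _ ≤ (2 : ℝ) ^ 2 * (2 * CL * (2 * u.c * ∑ j ∈ J₁, wt j)) +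
          (2 : ℝ) ^ 2 * (2 * CU * (2 * u.c * ∑ j ∈ J₂, wt j)) :=
          add_le_add kL kU'
      _ ≤ 16 * CL * (u.c * ∑ j ∈ J', wt j) +
          16 * CU * (u.c * ∑ j ∈ J', wt j) := add_le_add t1 t2
      _ = 16 * (CU + CL) * (u.c * ∑ j ∈ J', wt j) := by ring

end leaf

section all
open Crest.Agent.R4P.LeafK368
open Crest.Agent.R4P
open Crest.Agent.R4P
open Crest.Agent.R4P.Cnt588 Crest.Agent.R4P.PrunePar33
open Crest.Agent.R4.ClsB (Tame)
open Crest.Agent.R4P.Bld532 (NS NodeOk Bk bld par)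
open Crest.Agent.R4P.Data758 Crest.Agent.R4P.LfDat734
open Crest.Agent.R4P.LeafN734 (wtF)
open Crest.Agent.R4P.LeafA734 Crest.Agent.R4P.WPex189
open Crest.Agent.R4P.Frame758 (lf LeafI LeafAll)
open Crest.Agent.R4P.Item758 (pp mp)
open Crest.Agent.R4.Item758 (IL)
open Crest.Agent.R4.Soft104 (w)
open Crest.Agent.R4.LeafA734 (level_le log_add_le rpow_neg_log_ge)
open Crest.Agent.R4P.LeafJ368

/-- all the leaves, alive mass -/
theorem leafIa_all : ∃ c0 C : ℝ, 0 < c0 ∧ 1 ≤ C ∧ ∀ (B C1 c2 C6 C7 : ℝ), 0 < c2 → 0 ≤ C6 →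
    1 / c0 ≤ C1 → C1 + c2 + 4 ≤ B → B + c2 + C1 + 1 ≤ C7 → ∃ p₁ : ℕ, ∀ p0 ≥ p₁,
    ∀ (c : Cf) (n : ℕ) (ψ : ℕ → ℝ) (wp : W363.WP) (K : ℕ), CfL B C1 c2 p0 c n ψ wp →
      (∀ m : ℕ, Real.log ((m + p0 : ℕ) : ℝ) ^ (-C6) ≤ c.wpL.thr m) →
      (∀ m : ℕ, etaL c.wpL m ≤ Real.log ((m + p0 : ℕ) : ℝ) ^ (-C7)) →
      Fine c.wpL c.γ c.r c.t c.S n K → (∀ q ∈ c.S, mp c.t q ≤ K) →
      LeafAll (LeafIa c (wtF c.D) C) 1 1 1 c.t := by
  obtain ⟨c0, C, hc0, hC, H⟩ := leafIa_leaf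
  refine ⟨min c0 1, C, lt_min hc0 one_pos, hC, fun B C1 c2 C6 C7 hc2 hC6 hC1 hB hC7 => ?_⟩
  have hm : 0 < min c0 1 := lt_min hc0 one_pos
  have hC1p : 0 < C1 := lt_of_lt_of_le (by positivity) hC1
  have hC11 : 1 ≤ C1 := by
    refine le_trans ?_ hC1
    rw [le_div_iff₀ hm]
    linarith [min_le_right c0 1]
  have hc1 : 0 < 1 / C1 := by positivity
  have hc1' : 1 / C1 ≤ c0 := by
    refine le_trans ?_ (min_le_left c0 1)
    rw [div_le_iff₀ hC1p]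
    rw [div_le_iff₀ hm] at hC1
    linarith
  obtain ⟨T0, hT0, H⟩ := H (1 / C1) hc1 hc1'
  obtain ⟨pa, hpa⟩ := rt_half B (C1 + c2) (by linarith)
  obtain ⟨pb, hpb⟩ := uq_tame B (C1 + c2) (by linarith)
  obtain ⟨pg, hpg⟩ := Bld532.par_Good B C1 c2 (by linarith) hC1p.le hc2.le
  have hCM := Crest.Agent.R4.Ovl560.CM_pos
  obtain ⟨b₀, -, hb₀⟩ := Crest.Agent.R4.OmSt532.exists_sqrt (B + c2 + 1 + C6)
    (K := 8 * Crest.Agent.R4.Ovl560.CM * 2 ^ C6) (by positivity)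
  set M1 : ℝ := T0 + 16 * 2 ^ (B + c2) + 1 with hM1
  have hT0p : 0 < T0 := lt_of_lt_of_le (by norm_num) hT0
  have hBc : 0 ≤ B + c2 := by linarith
  have h2B : (1 : ℝ) ≤ 2 ^ (B + c2) := Real.one_le_rpow (by norm_num) hBc
  refine ⟨pa + pb + pg + b₀ + ⌈Real.exp M1⌉₊ + 3, fun p0 hp0 => ?_⟩
  have hp3 : 3 ≤ p0 := by omega
  have hlog : ∀ k : ℕ, p0 ≤ k → M1 ≤ Real.log k := by
    intro k hk
    have h4 : Real.exp M1 ≤ k := by
      have h5 : Real.exp M1 ≤ ⌈Real.exp M1⌉₊ := Nat.le_ceil _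
      have h6 : ((⌈Real.exp M1⌉₊ : ℕ) : ℝ) ≤ k := by
        have : ⌈Real.exp M1⌉₊ ≤ k := by omega
        exact_mod_cast this
      linarith
    have hp : (0 : ℝ) < k := lt_of_lt_of_le (Real.exp_pos _) h4
    rwa [Real.le_log_iff_exp_le hp]
  have hlogT : ∀ k : ℕ, p0 ≤ k → T0 ≤ Real.log k := fun k hk => by
    have := hlog k hk
    linarith
  have hlog2 : ∀ k : ℕ, p0 ≤ k → 16 * 2 ^ (B + c2) ≤ Real.log k := fun k hk => by
    have := hlog k hk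
    linarith
  have hlog1 : ∀ k : ℕ, p0 ≤ k → 1 ≤ Real.log k := fun k hk => by
    have := hlog2 k hk
    linarith
  intro c n ψ wp K h hlo hhi hfine hK
  have hG := hpg p0 (by omega)
  have hw0 : ∀ q, 0 ≤ w ψ q := h.w0
  have hroot : (1 : ℝ) * Ws (w ψ) c.t.items ≤ 4 * Real.log n ^ (B + c2) := by
    have h1 : (1 : ℝ) ≤ Real.log n ^ (B + c2) :=
      Real.one_le_rpow (Bld532.one_le_log_nat h.n3) (by linarith)
    have := h.mass
    rw [h.ok.items]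
    linarith
  have hmass := Bld532.par_mass B C1 c2 p0 (by linarith) (by linarith) (by omega) (w ψ) hw0 c.t
    ⟨n, 1, 1, 1⟩ (h.all hG) (by norm_num) hroot
  rw [h.t] at hmass ⊢
  refine bld_leafF' (par B C1 c2 p0) (w ψ) hw0 hG n c.S h.ok.pos h.pn hmass
    fun u Sl G hF0 hmu => ?_
  have hF : LeafF (par B C1 c2 p0) (w ψ) c.t n u Sl G := by rw [h.t]; exact hF0
  have hcpos : 0 < u.c := hmu.1
  have hmu2 : u.c * Ws (w ψ) Sl ≤ 4 * Real.log u.n ^ (B + c2) := hmu.2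
  have bk := hF.bk
  set ν : ℝ := u.c * Ws (w ψ) Sl with hν
  have hν0 : 0 ≤ ν := mul_nonneg hcpos.le (Finset.sum_nonneg fun q _ => hw0 q)
  have hrt2 : ∀ q ∈ Sl, q ∈ c.S' → ∑ b ∈ rt c.t q, (1 : ℝ) / b ≤ 1 / 2 ∧
      ∑ b ∈ c.t.mt q ∪ c.t.sp q, (1 : ℝ) / b ≤ 1 / 2 := fun q _ hq' =>
    hpa p0 (by omega) c.t q (h.pr q hq') (h.col hG q)
  have hrt : ∀ q ∈ Sl, q ∈ c.S' → ∑ b ∈ rt c.t q, (1 : ℝ) / b ≤ 1 / 2 := fun q hq hq' =>
    (hrt2 q hq hq').1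
  have hPl : PhiU820.PlOk ∅ c.t := by rw [h.t]; exact PhiU820.bld_PlOk _ _ _ _ _ _ _
  have hFit : Item758.Fit 1 1 c.t := Bld532.Fit_of_NodeOk (h.all hG)
  have hνe : 4 * u.c *
      ∑ j ∈ Finset.univ.filter (fun j => c.D.it j ∈ Sl), wtF c.D j = 4 * ν := by
    have := h.nu hF
    rw [hν, ← this]; ring
  have htame : ∀ X : ℝ, (p0 : ℝ) ≤ X → (∀ l : ℕ, l.Prime → l < u.n → (l : ℝ) ≤ X) →
      ∀ q ∈ Sl, q ∈ c.S' → ∀ z : ℝ, X ≤ z → Tame z 1 (q / (u.A * G)) := by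
    intro X hX1 hX2 q hq hq' z hz
    exact leaf_tame hF hq (fun l h1 h2 => (hX2 l h1 h2).trans hz)
      (hpb p0 (by omega) c.t q (h.pr q hq') z (hX1.trans hz))
  -- if the leaf is empty there is nothing to prove
  rcases Sl.eq_empty_or_nonempty with h0 | ⟨q₀, hq₀⟩
  · intro A hA
    have e0 : A.filter (fun j => c.D.it j ∈ Sl) = ∅ := by
      rw [h0]
      apply Finset.filter_eq_empty_iff.2
      intro j _ hj
      exact absurd hj (Finset.notMem_empty _)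
    rw [h0] at e0 ⊢
    rw [e0]; simp
  have hBK : u.B ≤ K := by
    have h1 := hK q₀ (h.sub hF hq₀)
    rwa [hF.B q₀ hq₀] at h1
  have hfat := leaf_fat hC6 hBc hp3 hlog1 (fun s hs => hb₀ s (by omega)) h hG hF hmu2 hlo hrt2
  -- the numbers: a column `k ≥ p0` with `u.n ≤ 2 k`, `k ≤ u.n - 1 + p0`
  have key : ∀ k : ℕ, p0 ≤ k → u.n ≤ 2 * k → k ≤ u.n - 1 + p0 →
      (∀ l : ℕ, l.Prime → l < u.n → l ≤ k) →
      LeafIa c (wtF c.D) C u.c u.B u.A Sl := by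
    intro k hk hun hkn hall
    have hlk := hlog1 k hk
    have hlk0 : 0 < Real.log (k : ℝ) := by linarith
    have hkR : (0 : ℝ) < k := by exact_mod_cast (by omega : 0 < k)
    set T : ℝ := Real.log k ^ C1 with hT
    have hTp : 0 < T := by positivity
    have hT1 : Real.log (k : ℝ) ≤ T := by
      have := Real.rpow_le_rpow_of_exponent_le hlk hC11
      rwa [Real.rpow_one] at this
    have hTT : T0 ≤ T := (hlogT k hk).trans hT1
    have hX : (k : ℝ) ≤ Real.exp (T ^ (1 / C1)) := by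
      rw [hT, ← Real.rpow_mul hlk0.le, mul_one_div_cancel hC1p.ne', Real.rpow_one,
        Real.exp_log hkR]
    have hXp : ∀ l : ℕ, l.Prime → l < u.n → (l : ℝ) ≤ k := fun l h1 h2 => by
      exact_mod_cast hall l h1 h2
    refine H c n (par B C1 c2 p0) (w ψ) u Sl G K wp (wtF c.D) T k h.ok hF hFit hPl h.lv
      (fun j => rfl) h.om hfine hBK hrt (fun q hq hq' => (hrt2 q hq hq').2)
      (htame k (by exact_mod_cast hk) hXp) hTT hX ?_ hfat
    rw [hνe]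
    have hη : etaL c.wpL (u.n - 1) ≤ Real.log k ^ (-C7) := by
      refine (hhi _).trans ?_
      refine Real.rpow_le_rpow_of_nonpos hlk0 ?_ (by linarith)
      exact Real.log_le_log hkR (by exact_mod_cast hkn)
    have hν2 : ν ≤ 4 * (2 * Real.log k) ^ (B + c2) := by
      refine hmu2.trans ?_
      have h3 : Real.log u.n ≤ 2 * Real.log k := by
        rcases Nat.eq_zero_or_pos u.n with h0 | h0
        · rw [h0, Nat.cast_zero, Real.log_zero]; linarith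
        · have e : 2 * Real.log (k : ℝ) = Real.log ((k : ℝ) ^ 2) := by
            rw [Real.log_pow]; norm_num
          rw [e]
          refine Real.log_le_log (by exact_mod_cast h0) ?_
          have : u.n ≤ k ^ 2 := by nlinarith
          exact_mod_cast this
      have h4 : 0 ≤ Real.log (u.n : ℝ) := Real.log_natCast_nonneg _
      have := Real.rpow_le_rpow h4 h3 (z := B + c2) hBc
      linarith
    have hη0 : 0 ≤ etaL c.wpL (u.n - 1) := (etaL_pos c.wpL _).le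
    have hk7 : 0 < Real.log (k : ℝ) ^ (-C7) := by positivity
    calc etaL c.wpL (u.n - 1) * (4 * ν) * T
        ≤ Real.log k ^ (-C7) * (4 * (4 * (2 * Real.log k) ^ (B + c2))) * T := by
          refine mul_le_mul_of_nonneg_right ?_ hTp.le
          refine mul_le_mul hη (by linarith) (by linarith) hk7.le
      _ = 16 * 2 ^ (B + c2) * (Real.log k ^ (-C7) * Real.log k ^ (B + c2) * Real.log k ^ C1) := by
          rw [Real.mul_rpow (by norm_num) hlk0.le, hT]; ring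
      _ = 16 * 2 ^ (B + c2) * Real.log k ^ (-C7 + (B + c2) + C1) := by
          rw [← Real.rpow_add hlk0, ← Real.rpow_add hlk0]
      _ ≤ 16 * 2 ^ (B + c2) * Real.log k ^ (-1 : ℝ) := by
          refine mul_le_mul_of_nonneg_left ?_ (by positivity)
          exact Real.rpow_le_rpow_of_exponent_le hlk (by linarith)
      _ = 16 * 2 ^ (B + c2) / Real.log k := by
          rw [Real.rpow_neg_one, div_eq_mul_inv]
      _ ≤ 1 := by
          rw [div_le_one hlk0]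
          have := hlog2 k hk
          linarith
  rcases hF.node.2 with hbot | ⟨k, hk, hkn, hkp, hall, -⟩
  · have hbot' : ∀ r : ℕ, r.Prime → r < u.n → r ≤ p0 := hbot
    exact key p0 le_rfl (level_le (by omega) hbot') (by omega) hbot'
  · have hkp' : p0 < k := hkp
    exact key k hkp'.le (level_le (by omega) hall) (by omega) hall

end all

section ctx
open Crest.Agent.R4P
open Crest.Agent.R4P
open Crest.Agent.R4P.Data758 Crest.Agent.R4P.LfDat734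
open Crest.Agent.R4P.LeafC734 Crest.Agent.R4P.LeafK368
open Crest.Agent.R4P.Skel189 (Ctx top)
open Crest.Agent.R4P.Frame758 (LeafI LeafAll wt)

/-- **all the leaves of a context, alive mass** -/
theorem leafIa_ctx : ∃ c0 C₀ : ℝ, 0 < c0 ∧ 1 ≤ C₀ ∧ ∀ (N : Skel189.Num) (C3 C6 C7 : ℝ) (a p₂ : ℕ),
    0 < N.c2 → 0 ≤ C6 → 1 / c0 ≤ N.C1 → N.B + N.c2 + N.C1 + 1 ≤ C7 →
    LNum C3 C6 C7 a p₂ N.thrL N.depL →
    ∃ p₁ : ℕ, ∀ p0 ≥ p₁, ∀ (γ : ℝ) (P₀ : ℕ), 2 ≤ P₀ → ∀ X : Ctx N γ p0 P₀,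
      LeafAll (LeafIa X.c (Frame758.wt X.c.D) C₀) 1 1 1 X.c.t := by
  obtain ⟨c0, C, hc0, hC, H⟩ := leafIa_all
  refine ⟨c0, C, hc0, hC, fun N C3 C6 C7 a p₂ hc2 hC6 hC1 hC7 hL => ?_⟩
  obtain ⟨p₁, H⟩ := H N.B N.C1 N.c2 C6 C7 hc2 hC6 hC1 (by
    have := N.hB; have := N.hC1; linarith [N.hc2]) hC7
  refine ⟨p₁ + p₂, fun p0 hp0 γ P₀ hP X => ?_⟩
  refine H p0 (by omega) X.c (top X.S) X.ψ X.c.wp (Skel189.Kc X.S) (cfL X hP) (fun m => ?_)
    (fun m => hL.etaL_le (by omega) X.depL m) ?_ (fun q _ => X.mp_le)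
  · rw [X.thrL]; exact hL.lo p0 (by omega) m
  · rw [X.hS]
    have h := X.fineL
    rw [X.hS] at h
    exact h

end ctx

end Crest.Agent.R4P.LeafIa21
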