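import Crest.Agent.R4P.DseFin_21
import Crest.Agent.R4P.LeafIa_21

/-!
R4 (S0004), powers pass, [W-dseR], helper21: **the strong induction of `dseR`**: the cross terms of the
add and far nodes need the in-class energies of the two children; these are at most `K` times the alive
masses by the leaf theorem (`LeafIa`) and `dseR` of the children.

* `Wa`, `ma` : alive weights, alive masses;
* `in_le` : in-class energy of a node `≤ C₀ · ma + dseR`;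
* `dse_a` : `dseR ≤ Kp · ma`;
* `kids_all` : `KidsOk` at all the nodes.
-/

set_option autoImplicit false
set_option linter.unusedSectionVars false
set_option linter.unusedVariables false

namespace Crest.Agent.R4P.DseInd21

open Crest.Agent.R4P.Cnt588 Crest.Agent.R4P.Item758 Crest.Agent.R4P.W363
open Crest.Agent.R4P.Data758 Crest.Agent.R4P.LfDat734
open Crest.Agent.R4P.Bld532 (NS All NodeOk Bk)
open Crest.Agent.R4P.Step588 (NDt ND1 ctx_NDt uq_lt All_All)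
open Crest.Agent.R4P.WalkIT579 (tp isL nodeOk_hi top_of_nodeOk)
open Crest.Agent.R4P.Skel189 Crest.Agent.R4P.RseSt23 Crest.Agent.R4P.DseCh23
open Crest.Agent.R4P.RseNd23
open Crest.Agent.R4P.Dse22 (chE LocOk dse_le dse_items)
open Crest.Agent.R4P.DseFin21 Crest.Agent.R4P.LeafIa21
open Crest.Agent.R4P.Frame758 (LeafAll LeafI wt tG tM tN CxOk leafIn_of tM_eq AdL_AdI)
open Crest.Agent.R4.Soft104 (w)
open Crest.Agent.R4.Item758 (IL AdI AdS AdI_all AdI_AdN)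
open Crest.Agent.R4.ClosR758 (dseR din_leR LeafIn AdN MassOk)
open Crest.Agent.R4.ClosG758 Crest.Agent.R4.ClosL758 Crest.Agent.R4.Avg758 Crest.Agent.R4.Fam464
open Crest.Agent.R4.ClosR758 Crest.Agent.R4.Tour758 Crest.Agent.R4.Tour104 Crest.Agent.R4.Clos758

/-! ### leaves at all the nodes -/

lemma LeafAll_mono {F F' : ℝ → ℕ → ℕ → Finset ℕ → Prop} (h : ∀ c b pr S, F c b pr S → F' c b pr S) :
    ∀ (t : IT) (c : ℝ) (b pr : ℕ), LeafAll F c b pr t → LeafAll F' c b pr t := by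
  intro t
  induction t with
  | leaf S => intro c b pr h1; exact h _ _ _ _ h1
  | br p Sp t₁ t₀ ih₁ ih₀ => intro c b pr h1; exact ⟨ih₁ _ _ _ h1.1, ih₀ _ _ _ h1.2⟩
  | add p t₁ t₀ ih₁ ih₀ => intro c b pr h1; exact ⟨ih₁ _ _ _ h1.1, ih₀ _ _ _ h1.2⟩
  | up p Sp t ih => intro c b pr h1; exact ih _ _ _ h1
  | pl p t ih => intro c b pr h1; exact ih _ _ _ h1
  | far p t₁ t₀ ih₁ ih₀ => intro c b pr h1; exact ⟨ih₁ _ _ _ h1.1, ih₀ _ _ _ h1.2⟩

lemma All_LeafAll {F : ℝ → ℕ → ℕ → Finset ℕ → Prop} : ∀ (t : IT) (u : NS),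
    LeafAll F u.c u.B u.A t → All (fun u τ => LeafAll F u.c u.B u.A τ) u t := by
  intro t
  induction t with
  | leaf S => intro u h; exact h
  | br p Sp t₁ t₀ ih₁ ih₀ => intro u h; exact ⟨h, ih₁ _ h.1, ih₀ _ h.2⟩
  | add p t₁ t₀ ih₁ ih₀ => intro u h; exact ⟨h, ih₁ _ h.1, ih₀ _ h.2⟩
  | up p Sp t ih => intro u h; exact ⟨h, ih ⟨p, u.c, u.A, u.B⟩ h⟩
  | pl p t ih => intro u h; exact ⟨h, ih ⟨p + 1, u.c, u.A * p, u.B⟩ h⟩
  | far p t₁ t₀ ih₁ ih₀ => intro u h; exact ⟨h, ih₁ _ h.1, ih₀ _ h.2⟩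

section ctx
variable {N : Skel189.Num} {γ : ℝ} {p0 P₀ : ℕ} {X : Ctx N γ p0 P₀}

/-! ### alive masses -/

open Classical in
/-- alive weights -/
noncomputable def Wa (X : Ctx N γ p0 P₀) (j : X.c.Lam) : ℝ := if j.1.1 ∈ X.S' then wt X.c.D j else 0

/-- alive mass of a population at a node -/
noncomputable def ma (X : Ctx N γ p0 P₀) (A : Finset X.c.Lam) (u : NS) (τ : IT) : ℝ :=
  u.c * ∑ j ∈ A.filter (fun j => X.c.D.it j ∈ τ.items), Wa X j

lemma Wa_nonneg (j : X.c.Lam) : 0 ≤ Wa X j := by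
  unfold Wa
  split_ifs
  · exact wt_nonneg X j
  · exact le_rfl

lemma ma_nonneg {u : NS} (hc : 0 ≤ u.c) (A : Finset X.c.Lam) (τ : IT) : 0 ≤ ma X A u τ :=
  mul_nonneg hc (Finset.sum_nonneg fun j _ => Wa_nonneg j)

lemma ma_mul (K : ℝ) (A : Finset X.c.Lam) (u : NS) (τ : IT) :
    K * ma X A u τ = u.c * ∑ j ∈ A.filter (fun j => X.c.D.it j ∈ τ.items), K * Wa X j := by
  unfold ma
  rw [mul_left_comm, Finset.mul_sum]

/-- **the alive mass is at most the mass of the alive items** -/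
lemma ma_le {u : NS} (hc : 0 ≤ u.c) (A : Finset X.c.Lam) (τ : IT) :
    ma X A u τ ≤ u.c * ∑ q ∈ al X τ A, w X.ψ q := by
  classical
  unfold ma
  refine mul_le_mul_of_nonneg_left ?_ hc
  have h1 : ∀ q ∈ al X τ A, w X.ψ q =
      ∑ j ∈ Finset.univ.filter (fun j : X.c.Lam => j.1.1 = q), wt X.c.D j := by
    intro q hq
    unfold al at hq
    obtain ⟨a1, a2, a3⟩ := Finset.mem_filter.1 hq
    have hqS : q ∈ X.c.S := by rw [X.hS]; exact X.prn.sub a2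
    have hlen := X.ok.len hqS (X.rpos a2)
    have e1 : ∑ j ∈ Finset.univ.filter (fun j : X.c.Lam => j.1.1 = q), wt X.c.D j =
        (∑ j ∈ Finset.univ.filter (fun j : X.c.Lam => j.1.1 = q), (X.c.D.be j - X.c.D.al j)) *
          ((q.totient : ℝ) / (q : ℝ)) := by
      rw [Finset.sum_mul]
      refine Finset.sum_congr rfl fun j hj => ?_
      have e := (Finset.mem_filter.1 hj).2
      unfold Frame758.wt
      have e' : X.c.D.it j = q := e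
      rw [e']
    rw [e1, hlen, X.hr]
    unfold R4.Soft104.w
    ring
  have h2 : ∑ j ∈ A.filter (fun j => X.c.D.it j ∈ τ.items), Wa X j =
      ∑ j ∈ (A.filter (fun j => X.c.D.it j ∈ τ.items)).filter (fun j => j.1.1 ∈ X.S'),
        wt X.c.D j := by
    rw [Finset.sum_filter (p := fun j : X.c.Lam => j.1.1 ∈ X.S')]
    refine Finset.sum_congr rfl fun j _ => ?_
    unfold Wa
    by_cases h : j.1.1 ∈ X.S' <;> simp only [h, if_true, if_false]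
  rw [h2, Finset.sum_congr rfl h1, ← Finset.sum_biUnion]
  · refine Finset.sum_le_sum_of_subset_of_nonneg (fun j hj => ?_) fun j _ _ => wt_nonneg X j
    obtain ⟨a1, a2⟩ := Finset.mem_filter.1 hj
    obtain ⟨a3, a4⟩ := Finset.mem_filter.1 a1
    refine Finset.mem_biUnion.2 ⟨j.1.1, ?_, Finset.mem_filter.2 ⟨Finset.mem_univ _, rfl⟩⟩
    unfold al
    exact Finset.mem_filter.2 ⟨a4, a2, j, a3, rfl⟩
  · intro q _ q' _ hne
    rw [Function.onFun, Finset.disjoint_filter]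
    intro j _ e1 e2
    exact hne (e1.symm.trans e2)

/-! ### in-class energies -/

lemma LeafI_of_a {C₀ : ℝ} {cc : ℝ} {b pr : ℕ} {S : Finset ℕ}
    (h : LeafIa X.c (wt X.c.D) C₀ cc b pr S) : LeafI X.c.D (Wa X) C₀ cc b pr S := by
  classical
  intro A hA _
  refine (h A hA).trans (le_of_eq ?_)
  congr 2
  rw [Finset.sum_filter (p := fun j : X.c.Lam => X.c.D.it j ∈ X.c.S')]
  refine Finset.sum_congr rfl fun j _ => ?_
  unfold Wa
  have e : (X.c.D.it j ∈ X.c.S') = (j.1.1 ∈ X.S') := by rw [X.hS']; rfl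
  simp only [e]

/-- **the in-class energy of a node** -/
theorem in_le {C₀ : ℝ} (hC₀ : 0 ≤ C₀) (hLI : LeafAll (LeafIa X.c (wt X.c.D) C₀) 1 1 1 X.c.t)
    (j₀ : X.c.Lam) :
    All (fun u τ => ∀ A, AdI X.c.D.it (X.g u τ) A →
      Q (Dr (X.g u τ).part) (rv A (X.g u τ).val) (rv A (X.g u τ).val) ≤
        C₀ * ma X A u τ + dseR A (X.g u τ)) ⟨top X.S, 1, 1, 1⟩ X.c.t := by
  have h1 : LeafAll (LeafI X.c.D (Wa X) C₀) 1 1 1 X.c.t :=
    LeafAll_mono (fun _ _ _ _ h => LeafI_of_a h) _ _ _ _ hLI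
  have h2 := All_LeafAll X.c.t ⟨top X.S, 1, 1, 1⟩ h1
  refine All.mono (fun u τ hh A hA => ?_)
    (((ctx_NDt X).and h2).and ((ctx_fit X).and
      ((All_leafs X.c.t ⟨top X.S, 1, 1, 1⟩).and (ctx_CxOk X))))
  obtain ⟨⟨hn, hl⟩, hF, hlf, hcx⟩ := hh
  have hok : (X.g u τ).Ok := (X.c.D.par X.Y).toG_Ok hn.B_pos hF (node_wts hn X.Y)
  have hnn := X.c.D.dec_nonneg (fun j => Wa_nonneg (X := X) j) (fun S => cx_nonneg X S) X.Y
  have hM := MassOk_muR (Ad := AdI X.c.D.it) hnn (X.c.D.dec_union (Wa X) X.cx X.Y) j₀ hok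
  have hli := leafIn_of (X := X.Y) X.c.D (AdL_AdI X.c.D.it) (fun j => Wa_nonneg (X := X) j)
    (fun S => cx_nonneg X S) j₀ hC₀ τ u.c u.B u.A hF hlf hcx hl
  have key := din_leR hC₀ (X.g u τ) hok (AdI_all _ _) hA hM
    (LeafIn.all hli (AdN.all (AdI_all _ _) hA))
  have e := tM_eq (X := X.Y) X.c.D (Wa X) j₀ hF hlf hcx A
  have e' : muR (X.c.D.dec (Wa X) X.cx X.Y) j₀ (X.g u τ) A = ma X A u τ := e
  rw [e'] at key
  exact key

/-! ### bounds of the children -/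

open Classical in
/-- the charges `e` are at most `K` along the path of every alive item, `0` for the dead ones -/
def PathLe (X : Ctx N γ p0 P₀) (e : NS → IT → X.c.Lam → ℝ) (K : ℝ) (u : NS) (τ : IT) : Prop :=
  ∀ j : X.c.Lam, j.1.1 ∈ τ.items → chE X.c.D.it e u τ j ≤ if j.1.1 ∈ X.S' then K else 0

/-- **`dseR` by the alive mass** -/
lemma dse_a {Y : Finset (ℕ × ℕ × Finset ℕ)} {A : Finset X.c.Lam}
    {ε : ℕ → NS → IT → X.c.Lam → ℝ} {ζ : ℕ → NS → IT → IT → X.c.Lam → ℝ} {K : ℝ} {u : NS} {τ : IT}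
    (hn : All (NDt X.par (w X.ψ) X.c.t) u τ) (hc : 0 ≤ u.c)
    (hk : All (KidsOk X Y A (wt X.c.D) ε ζ) u τ) (hp : PathLe X (eC X ε ζ) K u τ) :
    dseR A ((X.c.D.par Y).toG u.B u.A τ) ≤ K * ma X A u τ := by
  classical
  have hl := LocD_of (Y := Y) (A := A) (W := wt X.c.D) (ε := ε) (ζ := ζ) τ u hn hk
  refine (dse_items (X.c.D.par Y) τ u hn.self.fit hl).trans ?_
  rw [ma_mul]
  refine mul_le_mul_of_nonneg_left ?_ hc
  refine Finset.sum_le_sum fun j hj => ?_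
  obtain ⟨a, b⟩ := Finset.mem_filter.1 hj
  have h1 := hp j b
  have h2 := wt_nonneg X j
  have h3 : wt X.c.D j * chE X.c.D.it (eC X ε ζ) u τ j ≤
      wt X.c.D j * (if j.1.1 ∈ X.S' then K else 0) := mul_le_mul_of_nonneg_left h1 h2
  refine h3.trans (le_of_eq ?_)
  unfold Wa
  by_cases h : j.1.1 ∈ X.S' <;> simp only [h, if_true, if_false] <;> ring

/-- a property of the children (heads) of a node: column of the parent, child -/
def KidsP (P : ℕ → NS → IT → Prop) : NS → IT → Prop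
  | _, .leaf _ => True
  | u, .br p _ t₁ t₀ =>
      P p (hu ⟨p, u.c / (1 - 1 / (p : ℝ)), u.A * p, u.B⟩ t₁) (hd t₁) ∧
      P p (hu ⟨p, u.c * p, u.A, u.B * p⟩ t₀) (hd t₀)
  | u, .add b t₁ t₀ =>
      P b (hu ⟨b + 1, u.c, u.A, u.B⟩ t₁) (hd t₁) ∧ P b (hu ⟨b + 1, u.c, u.A, u.B⟩ t₀) (hd t₀)
  | _, .up _ _ _ => True
  | u, .pl b t => P b (hu ⟨b + 1, u.c, u.A * b, u.B⟩ t) (hd t)
  | u, .far b t₁ t₀ =>
      P b (hu ⟨b + 1, u.c, u.A, u.B⟩ t₁) (hd t₁) ∧ P b (hu ⟨b + 1, u.c, u.A, u.B⟩ t₀) (hd t₀)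

lemma KidsP.mono {P P' : ℕ → NS → IT → Prop} (h : ∀ p u τ, P p u τ → P' p u τ) {u : NS} {τ : IT}
    (hk : KidsP P u τ) : KidsP P' u τ := by
  cases τ with
  | leaf S => trivial
  | br p Sp t₁ t₀ => exact ⟨h _ _ _ hk.1, h _ _ _ hk.2⟩
  | add p t₁ t₀ => exact ⟨h _ _ _ hk.1, h _ _ _ hk.2⟩
  | up p Sp t => trivial
  | pl p t => exact h _ _ _ hk
  | far p t₁ t₀ => exact ⟨h _ _ _ hk.1, h _ _ _ hk.2⟩

/-- the charge of a child is at most `Ke` for alive items, `0` for the dead ones -/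
def ELe (X : Ctx N γ p0 P₀) (ε : ℕ → NS → IT → X.c.Lam → ℝ) (Ke : ℝ) (p : ℕ) (u : NS) (τ : IT) :
    Prop :=
  ∀ j : X.c.Lam, j.1.1 ∈ τ.items → (j.1.1 ∈ X.S' → ε p u τ j ≤ Ke) ∧ (j.1.1 ∉ X.S' → ε p u τ j ≤ 0)

/-- energy of a child in the classes of the column `b` of its parent -/
noncomputable def ED (X : Ctx N γ p0 P₀) (Y : Finset (ℕ × ℕ × Finset ℕ)) (A : Finset X.c.Lam)
    (b : ℕ) (u : NS) (t : IT) : ℝ :=
  Q (Dr ((X.c.D.par Y).rho b)) (Uv X Y u t A) (Uv X Y u t A)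

/-- **the cross terms from the energies of the children** (`K` times the alive masses) -/
def CrH (X : Ctx N γ p0 P₀) (Y : Finset (ℕ × ℕ × Finset ℕ)) (A : Finset X.c.Lam) (K : ℝ)
    (ζ : ℕ → NS → IT → IT → X.c.Lam → ℝ) : NS → IT → Prop
  | u, .add b t₁ t₀ => ED X Y A b u t₁ ≤ K * (u.c * ∑ q ∈ al X t₁ A, w X.ψ q) →
      ED X Y A b u t₀ ≤ K * (u.c * ∑ q ∈ al X t₀ A, w X.ψ q) → CrOk X Y A (wt X.c.D) ζ b u t₁ t₀
  | u, .far b t₁ t₀ => ED X Y A b u t₁ ≤ K * (u.c * ∑ q ∈ al X t₁ A, w X.ψ q) →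
      ED X Y A b u t₀ ≤ K * (u.c * ∑ q ∈ al X t₀ A, w X.ψ q) → CrOk X Y A (wt X.c.D) ζ b u t₁ t₀
  | _, _ => True

open Classical in
/-- **energy of a child in the classes of its parent** -/
lemma ED_le {Y : Finset (ℕ × ℕ × Finset ℕ)} {A : Finset X.c.Lam}
    {ε : ℕ → NS → IT → X.c.Lam → ℝ} {ζ : ℕ → NS → IT → IT → X.c.Lam → ℝ} {C₀ K Ke : ℝ} (hK : 0 ≤ K)
    (hC₀ : 0 ≤ C₀) (hKe : 0 ≤ Ke)
    {b : ℕ} {u : NS} {t : IT} (hn : All (NDt X.par (w X.ψ) X.c.t) u t) (hc : 0 ≤ u.c)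
    (hi : Q (Dr ((X.c.D.par Y).toG u.B u.A t).part) (rv A ((X.c.D.par Y).toG u.B u.A t).val)
      (rv A ((X.c.D.par Y).toG u.B u.A t).val) ≤ C₀ * ma X A u t +
        dseR A ((X.c.D.par Y).toG u.B u.A t))
    (hk : All (KidsOk X Y A (wt X.c.D) ε ζ) u t) (hp : PathLe X (eC X ε ζ) K u t)
    (hch : ChOk X Y A (wt X.c.D) ε b (hu u t) (hd t))
    (he : ELe X ε Ke b (hu u t) (hd t)) :
    ED X Y A b u t ≤ (C₀ + K + Ke) * (u.c * ∑ q ∈ al X t A, w X.ψ q) := by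
  have h1 := dse_a hn hc hk hp
  have hval : ((X.c.D.par Y).toG u.B u.A t).val =
      fun j => ((X.c.D.par Y).toFT u.B u.A t).U 1 j :=
    Par.toG_val _ hn.self.B_pos hn.self.fit (node_wts hn.self Y)
  have hok : ((X.c.D.par Y).toG u.B u.A t).Ok :=
    (X.c.D.par Y).toG_Ok hn.self.B_pos hn.self.fit (node_wts hn.self Y)
  have q1 := PB_rv (fun j => hok.pb j) A
  have e2 : ic ((X.c.D.par Y).rho b) ((X.c.D.par Y).toG u.B u.A t).part
      (rv A ((X.c.D.par Y).toG u.B u.A t).val) = ChE X Y A b u t := ChE_eq hn.self A b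
  have h2 : Q (Dr ((X.c.D.par Y).rho b)) (rv A ((X.c.D.par Y).toG u.B u.A t).val)
      (rv A ((X.c.D.par Y).toG u.B u.A t).val) ≤
      Q (Dr ((X.c.D.par Y).toG u.B u.A t).part) (rv A ((X.c.D.par Y).toG u.B u.A t).val)
        (rv A ((X.c.D.par Y).toG u.B u.A t).val) + ChE X Y A b u t := by
    rw [← e2]
    exact Q_le_sdiff _ _ q1 q1
  have h3 : ChE X Y A b u t ≤ Ke * ma X A u t := by
    rw [← ChE_hd]
    unfold ChOk at hch
    rw [hu_c, hd_items] at hch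
    refine hch.trans ?_
    rw [ma_mul]
    refine mul_le_mul_of_nonneg_left ?_ hc
    refine Finset.sum_le_sum fun j hj => ?_
    obtain ⟨a, b'⟩ := Finset.mem_filter.1 hj
    obtain ⟨e3, e4⟩ := he j (by rw [hd_items]; exact b')
    have hw0 := wt_nonneg X j
    unfold Wa
    by_cases h : j.1.1 ∈ X.S'
    · simp only [h, if_true]
      rw [mul_comm Ke]
      exact mul_le_mul_of_nonneg_left (e3 h) hw0
    · simp only [h, if_false, mul_zero]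
      exact mul_nonpos_of_nonneg_of_nonpos hw0 (e4 h)
  have h4 : ED X Y A b u t = Q (Dr ((X.c.D.par Y).rho b))
      (rv A ((X.c.D.par Y).toG u.B u.A t).val) (rv A ((X.c.D.par Y).toG u.B u.A t).val) := by
    unfold ED Uv
    rw [hval]
  have h5 := ma_le hc A t
  have h6 := ma_nonneg (X := X) hc A t
  rw [h4]
  calc _ ≤ (C₀ + K + Ke) * ma X A u t := by linarith
    _ ≤ _ := mul_le_mul_of_nonneg_left h5 (by linarith)

/-- **facts of a node used in the induction** -/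
structure IF (X : Ctx N γ p0 P₀) (Y : Finset (ℕ × ℕ × Finset ℕ)) (A : Finset X.c.Lam)
    (ε : ℕ → NS → IT → X.c.Lam → ℝ) (ζ : ℕ → NS → IT → IT → X.c.Lam → ℝ) (C₀ K Ke : ℝ)
    (u : NS) (τ : IT) : Prop where
  nd : NDt X.par (w X.ψ) X.c.t u τ
  c0 : 0 ≤ u.c
  inn : Q (Dr ((X.c.D.par Y).toG u.B u.A τ).part) (rv A ((X.c.D.par Y).toG u.B u.A τ).val)
      (rv A ((X.c.D.par Y).toG u.B u.A τ).val) ≤ C₀ * ma X A u τ +
        dseR A ((X.c.D.par Y).toG u.B u.A τ)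
  ch : KidsP (ChOk X Y A (wt X.c.D) ε) u τ
  le : KidsP (ELe X ε Ke) u τ
  pl : PathLe X (eC X ε ζ) K u τ
  cr : CrH X Y A (C₀ + K + Ke) ζ u τ

/-- **`KidsOk` at all the nodes** -/
theorem kids_all {Y : Finset (ℕ × ℕ × Finset ℕ)} {A : Finset X.c.Lam}
    {ε : ℕ → NS → IT → X.c.Lam → ℝ} {ζ : ℕ → NS → IT → IT → X.c.Lam → ℝ} {C₀ K Ke : ℝ}
    (hC₀ : 0 ≤ C₀) (hK : 0 ≤ K) (hKe : 0 ≤ Ke) : ∀ (t : IT) (u : NS),
    All (IF X Y A ε ζ C₀ K Ke) u t → All (KidsOk X Y A (wt X.c.D) ε ζ) u t := by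
  have hnd : ∀ {u : NS} {t : IT}, All (IF X Y A ε ζ C₀ K Ke) u t →
      All (NDt X.par (w X.ψ) X.c.t) u t := fun h => All.mono (fun _ _ k => k.nd) h
  intro t
  induction t with
  | leaf S => intro u h; exact trivial
  | br p Sp t₁ t₀ ih₁ ih₀ =>
    intro u h
    exact ⟨h.1.ch, ih₁ _ h.2.1, ih₀ _ h.2.2⟩
  | add p t₁ t₀ ih₁ ih₀ =>
    intro u h
    have j1 := ih₁ _ h.2.1
    have j0 := ih₀ _ h.2.2
    have e1 := ED_le (Y := Y) (A := A) (ε := ε) (ζ := ζ) (b := p) hK hC₀ hKe (hnd h.2.1)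
      h.2.1.self.c0 h.2.1.self.inn j1 h.2.1.self.pl h.1.ch.1 h.1.le.1
    have e0 := ED_le (Y := Y) (A := A) (ε := ε) (ζ := ζ) (b := p) hK hC₀ hKe (hnd h.2.2)
      h.2.2.self.c0 h.2.2.self.inn j0 h.2.2.self.pl h.1.ch.2 h.1.le.2
    exact ⟨⟨h.1.ch.1, h.1.ch.2, h.1.cr e1 e0⟩, j1, j0⟩
  | up p Sp t ih =>
    intro u h
    exact ⟨trivial, ih _ h.2⟩
  | pl p t ih =>
    intro u h
    exact ⟨h.1.ch, ih _ h.2⟩
  | far p t₁ t₀ ih₁ ih₀ =>
    intro u h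
    have j1 := ih₁ _ h.2.1
    have j0 := ih₀ _ h.2.2
    have e1 := ED_le (Y := Y) (A := A) (ε := ε) (ζ := ζ) (b := p) hK hC₀ hKe (hnd h.2.1)
      h.2.1.self.c0 h.2.1.self.inn j1 h.2.1.self.pl h.1.ch.1 h.1.le.1
    have e0 := ED_le (Y := Y) (A := A) (ε := ε) (ζ := ζ) (b := p) hK hC₀ hKe (hnd h.2.2)
      h.2.2.self.c0 h.2.2.self.inn j0 h.2.2.self.pl h.1.ch.2 h.1.le.2
    exact ⟨⟨h.1.ch.1, h.1.ch.2, h.1.cr e1 e0⟩, j1, j0⟩

end ctx

end Crest.Agent.R4P.DseInd21
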