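import Crest.Agent.R4P.DseChk_23
import Crest.Agent.R4P.DseAl_28
import Crest.Agent.R4P.DseInd_21

/-!
R4 (S0004), powers pass, helper23 ([W-dseR], D5): **the bounds `ChOk` at all the children of a context**.

* `kid_KQ` : the facts `KQ` at every child; `KidsP_all` : a property of all the `Kid`s;
* `part_ch` : `All (KidsP (ChOk X X.Y A (wt X.c.D) (eD X K κ 1)))` for all item populations.
-/

set_option autoImplicit false
set_option linter.unusedSectionVars false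
set_option linter.unusedVariables false

open MeasureTheory Filter

namespace Crest.Agent.R4P.DseKid23

open Crest.Agent.R4P.Cnt588 Crest.Agent.R4P.Item758 Crest.Agent.R4P.W363
open Crest.Agent.R4P.Data758 Crest.Agent.R4P.LfDat734 Crest.Agent.R4P.OmSt532
open Crest.Agent.R4P.OmData532 Crest.Agent.R4P.WPex189
open Crest.Agent.R4P.Bld532 (NS All NodeOk Bk)
open Crest.Agent.R4P.Step588 (NDt ND1 ctx_NDt uq_lt)
open Crest.Agent.R4P.WalkIT579 (tp isL nodeOk_hi top_of_nodeOk)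
open Crest.Agent.R4P.Skel189 Crest.Agent.R4P.RseSt23 Crest.Agent.R4P.RseNd23
open Crest.Agent.R4.Item758 (IL)
open Crest.Agent.R4.Soft104 (w)
open Crest.Agent.R4.LF363 (Lab)
open Crest.Agent.R4.DensAcc33 (Accd)
open Crest.Agent.R4P.BadB16 (BadB)
open Crest.Agent.R4P.PruneAcc17 (NoAcc)
open Crest.Agent.R4P.PruneBad17 (NoBad)
open Crest.Agent.R4P.DseAl28
open Crest.Agent.R4P.DseInd21 (KidsP)
open Crest.Agent.R4P.StB21
open Crest.Agent.R4P.DseCh23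
open Crest.Agent.R4P.DseN23
open Crest.Agent.R4

/-- **the facts of the children** -/
theorem kid_KQ (N : Skel189.Num) (A' : ℝ) : ∃ p₁ : ℕ, ∀ p0 ≥ p₁, ∀ (γ : ℝ) (P₀ : ℕ), 2 ≤ P₀ →
    ∀ X : Ctx N γ p0 P₀, DH X → (∀ q ∈ X.S', NoAcc X.c.γ A' X.c.t q) →
    (∀ q ∈ X.S', NoBad X.c.γ X.c.t q) →
    ∀ (v : NS) (V : IT) (u : NS) (τ : IT), Kid X v V u τ → KQ X v V u τ A' := by
  obtain ⟨p1, h1⟩ := kid_al N
  obtain ⟨p2, h2⟩ := kid_bad N
  obtain ⟨p3, h3⟩ := exp45 2 (N.B + N.c2 + 3)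
  obtain ⟨p4, h4⟩ := num_log
  refine ⟨p1 + p2 + p3 + p4, fun p0 hp0 γ P₀ hP X hD hA hN v V u τ hk => ?_⟩
  obtain ⟨k1, k2, k3⟩ := hk.tpV
  obtain ⟨a1, a2⟩ := h1 p0 (by omega) γ P₀ hP X v V u τ hk
  refine
    { aq := fun q hq hqs => ?_
      wle := fun q hq hqs => (a1 q hq hqs).wle
      hi := fun q hq hqs => (a1 q hq hqs).hi
      ms := fun hne => ?_
      acc := fun hB q hq hqs b hb hb1 hb2 hd => kid_acc hA hk hB hq hqs hb hb1 hb2 hd
      bad := fun hB q hq hqs b hb hb1 hb2 hbad σ hσ hd =>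
        h2 p0 (by omega) γ P₀ hP X hD.rse hD.th v V u τ hk hB q hq hqs b hb hb1 hb2 hbad σ hσ hd
      accM := fun hB q hq hqs => kid_accM hA hk hB hq hqs
      badM := fun hB q hq hqs ρ a hL hd => kid_badM_lab hN hk hB hq hqs hL hd }
  · have h := a1 q hq hqs
    refine ⟨h.R0, h.lo, h.tame, ?_⟩
    obtain ⟨e1, e2⟩ := h3 (tp V) (by omega)
    have hex : 0 < Real.exp (-(Real.log (tp V) ^ (4/5:ℝ))) := Real.exp_pos _
    have hl : 0 < Real.log (tp V) ^ (N.B + N.c2 + 3) := Real.rpow_pos_of_pos (by linarith) _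
    have e3 : Real.exp (-(Real.log (tp V) ^ (4/5:ℝ))) * RB X u q ≤
        Real.exp (-(Real.log (tp V) ^ (4/5:ℝ))) * Real.log (tp V) ^ (N.B + N.c2 + 3) :=
      mul_le_mul_of_nonneg_left h.hi hex.le
    nlinarith
  · obtain ⟨q, hq⟩ := id hne
    have hl := h4 (lvl u τ) (by have := hk.lvl_ge hq; omega)
    refine (a2 hne).trans (Real.rpow_le_rpow_of_exponent_le (by linarith) (by linarith))

/-- a property of all the children -/
theorem KidsP_all {N : Skel189.Num} {γ : ℝ} {p0 P₀ : ℕ} {X : Ctx N γ p0 P₀}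
    {P : ℕ → NS → IT → Prop} (hch : ∀ v V u τ, Kid X v V u τ → P (tp V) u τ)
    (t : IT) : ∀ u : NS, All (KB X) u t → All (KidsP P) u t := by
  induction t with
  | leaf S => intro u _; exact trivial
  | br p Sp t₁ t₀ ih₁ ih₀ =>
    intro u h
    refine ⟨⟨?_, ?_⟩, ih₁ _ h.2.1, ih₀ _ h.2.2⟩
    · exact hch u (.br p Sp t₁ t₀) _ _ (kid_of h.1 (fun hh => hh) h.2.1
        (Finset.subset_union_left) (Or.inl rfl) (Nat.le_succ p))
    · exact hch u (.br p Sp t₁ t₀) _ _ (kid_of h.1 (fun hh => hh) h.2.2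
        (Finset.subset_union_right) (Or.inr rfl) (Nat.le_succ p))
  | add b t₁ t₀ ih₁ ih₀ =>
    intro u h
    refine ⟨⟨?_, ?_⟩, ih₁ _ h.2.1, ih₀ _ h.2.2⟩
    · exact hch u (.add b t₁ t₀) _ _ (kid_of h.1 (fun hh => hh) h.2.1
        (Finset.subset_union_left) (Or.inl rfl) le_rfl)
    · exact hch u (.add b t₁ t₀) _ _ (kid_of h.1 (fun hh => hh) h.2.2
        (Finset.subset_union_right) (Or.inl rfl) le_rfl)
  | up b Sp t ih => intro u h; exact ⟨trivial, ih _ h.2⟩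
  | pl b t ih =>
    intro u h
    refine ⟨?_, ih _ h.2⟩
    exact hch u (.pl b t) _ _ (kid_of h.1 (fun hh => hh) h.2 (Finset.Subset.refl _)
      (Or.inl rfl) le_rfl)
  | far b t₁ t₀ ih₁ ih₀ =>
    intro u h
    refine ⟨⟨?_, ?_⟩, ih₁ _ h.2.1, ih₀ _ h.2.2⟩
    · exact hch u (.far b t₁ t₀) _ _ (kid_of h.1 (fun hh => hh) h.2.1
        (Finset.subset_union_left) (Or.inl rfl) le_rfl)
    · exact hch u (.far b t₁ t₀) _ _ (kid_of h.1 (fun hh => hh) h.2.2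
        (Finset.subset_union_right) (Or.inl rfl) le_rfl)

/-- **the bounds `ChOk` at all the children of a context** -/
theorem part_ch (N : Skel189.Num) {Cu C6 K κ A' : ℝ} (hA' : 0 ≤ A') (hκ : 0 ≤ κ) (hK0 : 0 ≤ K)
    (hu3 : KL (2 * Step588.CT) (N.B + N.c2 + 3) Cu 3) (hw3 : WL (2 * Step588.CT) (N.B + N.c2 + 3) Cu 3)
    (huκ : KL (2 * Step588.CT) (N.B + N.c2 + 3) Cu κ)
    (h61 : KL (2 * Step588.CT) (N.B + N.c2 + 3) C6 1)
    (hw61 : WL (2 * Step588.CT) (N.B + N.c2 + 3) C6 1) :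
    ∃ p₁ : ℕ, ∀ p0 ≥ p₁, ∀ (γ : ℝ) (P₀ : ℕ), 2 ≤ P₀ → ∀ X : Ctx N γ p0 P₀, DH X → TN X Cu C6 →
    (∀ q ∈ X.S', NoAcc X.c.γ A' X.c.t q) → (∀ q ∈ X.S', NoBad X.c.γ X.c.t q) →
    ∀ A : Finset X.c.Lam, IL X.c.D.it A →
      All (KidsP (ChOk X X.Y A (Frame758.wt X.c.D) (eD X K κ 1))) ⟨top X.S, 1, 1, 1⟩ X.c.t := by
  obtain ⟨p1, h1⟩ := chok N (Cu := Cu) (C6 := C6) (K := K) (κ := κ) (A' := A') hA' hκ hK0
    hu3 hw3 huκ h61 hw61
  obtain ⟨p2, h2⟩ := kid_KQ N A'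
  obtain ⟨p3, h3⟩ := ctx_KB N
  refine ⟨p1 + p2 + p3, fun p0 hp0 γ P₀ hP X hD hT hA hN A hIL => ?_⟩
  refine KidsP_all (fun v V u τ hk => ?_) X.c.t _ (h3 p0 (by omega) γ P₀ hP X)
  exact h1 p0 (by omega) γ P₀ X hD hT X.Y A hIL v V u τ hk
    (h2 p0 (by omega) γ P₀ hP X hD hA hN v V u τ hk)

end Crest.Agent.R4P.DseKid23
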