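import Crest.Agent.R4P.DseKid_23

/-!
R4 (S0004), powers pass, helper23 ([W-dseR], D5): **states and indices of the items of a child**.

* `stK X τ q` : state of an item at the child (its leaf state at a leaf), `thK` : thinness there,
  `wpK` : parameters of the cells there;
* `K_thin`, `K_keep`, `K_none`, `K_fatN`, `K_missT`, `K_miss` : the transitions;
* `pt_kid` : a point of a piece; `ixK_kept`, `ixK_same` : equal indices at the child.
-/

set_option autoImplicit false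
set_option linter.unusedSectionVars false
set_option linter.unusedVariables false

open MeasureTheory Filter

namespace Crest.Agent.R4P.DseKid23

open Crest.Agent.R4P.Cnt588 Crest.Agent.R4P.Item758 Crest.Agent.R4P.W363
open Crest.Agent.R4P.Data758 Crest.Agent.R4P.LfDat734 Crest.Agent.R4P.OmSt532
open Crest.Agent.R4P.OmData532 Crest.Agent.R4P.WPex189
open Crest.Agent.R4P.Bld532 (NS All NodeOk Bk)
open Crest.Agent.R4P.Step588 (NDt ND1 ctx_NDt uq_lt)
open Crest.Agent.R4P.WalkIT579 (tp isL nodeOk_hi top_of_nodeOk)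
open Crest.Agent.R4P.Skel189 Crest.Agent.R4P.RseSt23 Crest.Agent.R4P.RseNd23
open Crest.Agent.R4P.AvgItem710
open Crest.Agent.R4.ClosL758 Crest.Agent.R4.ClosR758 Crest.Agent.R4.Tour104 Crest.Agent.R4.Fam464
open Crest.Agent.R4.Tour758 Crest.Agent.R4.Avg758 Crest.Agent.R4.ClosG758
open Crest.Agent.R4P.Frame758
open Crest.Agent.R4.Soft104 (w)
open Crest.Agent.R4.LF363 (Lab)
open Crest.Agent.R4.HVW560 (cof)
open Crest.Agent.R4.AvgItem710 (mul_cof mul_cof' cof_pos cof_coprime)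
open Crest.Agent.R4P.StB21
open Crest.Agent.R4P.DseCh23
open Crest.Agent.R4

/-! ### definitions -/

section ctx
variable {N : Skel189.Num} {γ : ℝ} {p0 P₀ : ℕ} {X : Ctx N γ p0 P₀} {v u : NS} {V τ : IT}

open Classical in
/-- state of an item at the child -/
noncomputable def stK (X : Ctx N γ p0 P₀) (τ : IT) (q : ℕ) : Option ℚ :=
  if isL τ then lfst X.c q else X.c.st (tp τ) q

open Classical in
/-- parameters of the cells at the child -/
noncomputable def wpK (X : Ctx N γ p0 P₀) (τ : IT) : WP := if isL τ then X.c.wpL else X.c.wp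

/-- thinness at the child -/
noncomputable def thK (X : Ctx N γ p0 P₀) (u : NS) (τ : IT) : ℝ := (wpK X τ).thr (lvl u τ)

lemma stK_leaf {S : Finset ℕ} {q : ℕ} : stK X (.leaf S) q = lfst X.c q := if_pos trivial

lemma stK_node (hl : ¬ isL τ) {q : ℕ} : stK X τ q = X.c.st (tp τ) q := if_neg hl

lemma wpK_leaf {S : Finset ℕ} : wpK X (.leaf S) = X.c.wpL := if_pos trivial

lemma wpK_node (hl : ¬ isL τ) : wpK X τ = X.c.wp := if_neg hl

lemma lvl_node (hl : ¬ isL τ) : lvl u τ = tp τ := by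
  cases τ with
  | leaf S => exact absurd trivial hl
  | _ => rfl

lemma thK_leaf {S : Finset ℕ} : thK X u (.leaf S) = X.c.wpL.thr (u.n - 1) := by
  unfold thK
  rw [wpK_leaf]
  rfl

lemma thK_node (hl : ¬ isL τ) : thK X u τ = X.c.wp.thr (tp τ) := by
  unfold thK
  rw [wpK_node hl, lvl_node hl]

lemma isL_iff : isL τ ↔ ∃ S, τ = .leaf S := by
  cases τ with
  | leaf S => exact ⟨fun _ => ⟨S, rfl⟩, fun _ => trivial⟩
  | _ => exact ⟨fun h => absurd h id, fun ⟨S, h⟩ => by simp at h⟩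

/-! ### levels -/

lemma Kid.tpV (h : Kid X v V u τ) : (tp V).Prime ∧ p0 < tp V ∧ tp V < v.n := by
  obtain ⟨k1, k2, k3⟩ := top_of_nodeOk h.hv.nd.self.node h.lV
  exact ⟨k1, (nodeOk_hi h.hv.nd.self.node h.lV).2.1, k2⟩

lemma Kid.tpVt (h : Kid X v V u τ) : tp V ≤ top X.S := h.tpV.2.2.le.trans h.hv.lvl

/-- the level of a child which is not a leaf -/
lemma Kid.node (h : Kid X v V u τ) (hl : ¬ isL τ) :
    (tp τ).Prime ∧ p0 < tp τ ∧ tp τ < u.n ∧ tp τ ≤ tp V := by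
  obtain ⟨k1, k2, k3⟩ := top_of_nodeOk h.hu.nd.self.node hl
  refine ⟨k1, (nodeOk_hi h.hu.nd.self.node hl).2.1, k2, ?_⟩
  have := h.n
  omega

/-- level of the items of a leaf -/
lemma Kid.lvq {S : Finset ℕ} (h : Kid X v V u (.leaf S)) {q : ℕ} (hq : q ∈ S) :
    X.c.lv q = u.n - 1 := by
  rw [X.lv]; exact (h.lf S rfl).lvl q hq

lemma Kid.lvl_le (h : Kid X v V u τ) : lvl u τ ≤ tp V := by
  by_cases hl : isL τ
  · obtain ⟨S, rfl⟩ := isL_iff.1 hl
    have := h.n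
    show u.n - 1 ≤ tp V
    omega
  · rw [lvl_node hl]
    exact (h.node hl).2.2.2

lemma Kid.lvl_ge (h : Kid X v V u τ) {q : ℕ} (hq : q ∈ τ.items) : p0 ≤ lvl u τ := by
  by_cases hl : isL τ
  · obtain ⟨S, rfl⟩ := isL_iff.1 hl
    show p0 ≤ u.n - 1
    rw [← h.lvq hq]
    exact (h.lvV h.lV q (h.sub hq)).1
  · rw [lvl_node hl]
    exact (h.node hl).2.1.le

/-- a prime above the level of the child is at least `u.n` -/
lemma Kid.prime_ge (h : Kid X v V u τ) {b : ℕ} (hb : b.Prime) (hlt : lvl u τ < b) : u.n ≤ b := by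
  by_cases hl : isL τ
  · obtain ⟨S, rfl⟩ := isL_iff.1 hl
    have : u.n - 1 < b := hlt
    omega
  · rw [lvl_node hl] at hlt
    rcases Crest.Agent.R4P.WalkIT579.prime_ge h.hu.nd.self.node hl hb hlt.le with h1 | h1
    · omega
    · exact h1

lemma Kid.B_pos (h : Kid X v V u τ) : (0:ℝ) < u.B := by exact_mod_cast h.hu.nd.B_pos

/-! ### transitions of the states -/

/-- **thin at the child**: the state is the label of the present stage -/
theorem K_thin (hT : TH X) (h : Kid X v V u τ) {q : ℕ} (hq : q ∈ τ.items)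
    (hthin : (u.B : ℝ) * X.c.r q ≤ thK X u τ) : stK X τ q = lab0 X.c.γ (X.c.r q) u.B := by
  by_cases hl : isL τ
  · obtain ⟨S, rfl⟩ := isL_iff.1 hl
    rw [stK_leaf]
    rw [thK_leaf, ← h.lvq hq] at hthin
    exact leaf_th (h.lf S rfl) hq hthin
  · rw [stK_node hl]
    rw [thK_node hl] at hthin
    exact node_thin hT h.hu.nd hl hq hthin

/-- **fat at the child**: a label of the column is kept -/
theorem K_keep (hT : TH X) (h : Kid X v V u τ) {q : ℕ} (hq : q ∈ τ.items) (hqs : q ∈ X.S')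
    (hfat : thK X u τ < (u.B : ℝ) * X.c.r q) {σ : ℚ} (hσ : X.c.st (tp V) q = some σ) :
    stK X τ q = some σ := by
  have hqV := h.sub hq
  by_cases hl : isL τ
  · obtain ⟨S, rfl⟩ := isL_iff.1 hl
    rw [stK_leaf]
    rw [thK_leaf, ← h.lvq hq] at hfat
    obtain ⟨a1, a2⟩ := h.lvV h.lV q hqV
    rcases h.B with hB | hB
    · rw [leaf_same_fat hT h.hv.nd h.hv.rd h.lV (h.lf S rfl) hqV hq hqs hB a1 a2 hfat, hσ]
    · rw [leaf_miss_fat hT h.hv.nd h.lV (h.lf S rfl) h.hu.nd h.hu.rd hqV hq hqs hB hfat, hσ]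
  · rw [stK_node hl]
    rw [thK_node hl] at hfat
    rcases h.B with hB | hB
    · rw [node_same_fat hT h.hv.nd h.hu.nd h.lV hl hqV hq hB (h.node hl).2.2.2 hfat, hσ]
    · exact node_miss_some hT h.hv.nd h.hu.nd h.hu.rd h.lV hl hqV hq hqs hB hfat hσ

/-- **same stage: no birth** -/
theorem K_none (hT : TH X) (h : Kid X v V u τ) {q : ℕ} (hq : q ∈ τ.items) (hqs : q ∈ X.S')
    (hB : u.B = v.B) (hn : X.c.st (tp V) q = none) : stK X τ q = none := by
  have hqV := h.sub hq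
  by_cases hl : isL τ
  · obtain ⟨S, rfl⟩ := isL_iff.1 hl
    rw [stK_leaf]
    obtain ⟨a1, a2⟩ := h.lvV h.lV q hqV
    exact leaf_none hT h.hv.nd h.hv.rd h.lV (h.lf S rfl) hqV hq hqs hB a1 a2 hn
  · rw [stK_node hl]
    obtain ⟨a1, a2⟩ := h.lvu hl q hq
    exact node_same_none hT h.hv.nd h.hu.nd h.lV hl hqV hq hB (h.node hl).2.2.2 a1 a2 hn

/-- **missing tie: a new label of a fat item is a label of the present stage** -/
theorem K_fatN (hT : TH X) (h : Kid X v V u τ) {q : ℕ} (hq : q ∈ τ.items) (hqs : q ∈ X.S')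
    (hB : u.B = v.B * tp V) (hfat : thK X u τ < (u.B : ℝ) * X.c.r q)
    (hn : X.c.st (tp V) q = none) {σ : ℚ} (hσ : stK X τ q = some σ) :
    lab0 X.c.γ (X.c.r q) u.B = some σ := by
  have hqV := h.sub hq
  by_cases hl : isL τ
  · obtain ⟨S, rfl⟩ := isL_iff.1 hl
    rw [stK_leaf] at hσ
    rw [thK_leaf, ← h.lvq hq] at hfat
    rw [leaf_miss_fat hT h.hv.nd h.lV (h.lf S rfl) h.hu.nd h.hu.rd hqV hq hqs hB hfat, hn] at hσ
    exact absurd hσ (by simp)
  · rw [stK_node hl] at hσ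
    rw [thK_node hl] at hfat
    obtain ⟨a1, a2⟩ := node_miss_none hT h.hv.nd h.hu.nd h.hu.rd h.lV hl hqV hq hqs hB hfat hn
    by_cases hb : bt X.c (tp τ) q
    · rw [← a1 hb]; exact hσ
    · rw [a2 hb] at hσ
      exact absurd hσ (by simp)

/-- **missing tie**: thin at the column, the state is the label of the stage -/
theorem K_miss (hT : TH X) (h : Kid X v V u τ) {q : ℕ} (hq : q ∈ τ.items) (hqs : q ∈ X.S')
    (hB : u.B = v.B * tp V) : (v.B : ℝ) * X.c.r q ≤ X.c.wp.thr (tp V) ∧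
      X.c.st (tp V) q = lab0 X.c.γ (X.c.r q) v.B :=
  ⟨miss_thin hT h.hv.nd h.lV h.hu.nd h.hu.rd hq hqs hB,
    miss_st hT h.hv.nd h.lV h.hu.nd h.hu.rd (h.sub hq) hq hqs hB⟩

/-! ### points -/

/-- **a point of a piece in a window of a node** -/
lemma pt_kid (hB : 0 < u.B) {j : X.c.Lam} {W : ℕ} {y : ℝ} {a : ℤ}
    (l1 : (u.B : ℝ) / (1 : ℕ) * X.c.bp j.1.1 j.1.2 ≤ (W : ℝ) * y - (u.B : ℝ) / (1 : ℕ) * X.c.γ - a)
    (l2 : (W : ℝ) * y - (u.B : ℝ) / (1 : ℕ) * X.c.γ - a <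
      (u.B : ℝ) / (1 : ℕ) * X.c.bp j.1.1 (j.1.2 + 1)) :
    ∃ z : ℝ, (u.B : ℝ) * z = W * y - u.B * X.c.γ - a ∧ |z| ≤ X.c.r j.1.1 ∧
      X.c.D.al j ≤ z ∧ z < X.c.D.be j := by
  have hB' : (0 : ℝ) < u.B := by exact_mod_cast hB
  rw [Nat.cast_one, div_one] at l1 l2
  have h0 : (u.B : ℝ) * ((W * y - u.B * X.c.γ - a) / u.B) = W * y - u.B * X.c.γ - a := by
    field_simp
  have h1 : X.c.bp j.1.1 j.1.2 ≤ (W * y - u.B * X.c.γ - a) / u.B := by
    rw [le_div_iff₀ hB']; linarith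
  have h2 : (W * y - u.B * X.c.γ - a) / u.B < X.c.bp j.1.1 (j.1.2 + 1) := by
    rw [div_lt_iff₀ hB']; linarith
  refine ⟨(W * y - u.B * X.c.γ - a) / u.B, h0, ?_, h1, h2⟩
  have h3 := X.ok.bp_ge j j.1.2
  have h4 := X.ok.bp_le j (Cf.k_lt j)
  rw [abs_le]
  exact ⟨by linarith, by linarith⟩

/-! ### indices -/

/-- index of a point at the child -/
noncomputable def ixK (X : Ctx N γ p0 P₀) (u : NS) (τ : IT) (q : ℕ) (z : ℝ) : Bool × ℕ :=
  (wpK X τ).ix X.c.γ (lvl u τ) q (stK X τ q) z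

/-- **equal states at the column and at the child: equal indices at the column give equal indices at
the child** -/
theorem ixK_kept (hdep : (wpK X τ).dep (lvl u τ) ≤ X.c.wp.dep (tp V)) {q q' : ℕ} {z z' : ℝ}
    (h : X.c.wp.ix X.c.γ (tp V) q (X.c.st (tp V) q) z =
      X.c.wp.ix X.c.γ (tp V) q' (X.c.st (tp V) q') z')
    (h1 : stK X τ q = X.c.st (tp V) q) (h2 : stK X τ q' = X.c.st (tp V) q') :
    ixK X u τ q z = ixK X u τ q' z' := by
  obtain ⟨s1, s2, s3, s4⟩ := X.same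
  have e1 : (wpK X τ).ρ₀ = X.c.wp.ρ₀ ∧ (wpK X τ).n₀ = X.c.wp.n₀ ∧ (wpK X τ).δ₀ = X.c.wp.δ₀ ∧
      (wpK X τ).n₁ = X.c.wp.n₁ := by
    unfold wpK
    split_ifs
    · exact ⟨s1.symm, s2.symm, s3.symm, s4.symm⟩
    · exact ⟨rfl, rfl, rfl, rfl⟩
  obtain ⟨e1, e2, e3, e4⟩ := e1
  unfold ixK
  rw [h1, h2]
  have hs := WP.isSome_eq _ h
  unfold WP.ix at h ⊢
  refine Prod.ext hs ?_
  have hc : cell (X.c.wp.E (tp V) (X.c.st (tp V) q)) (off X.c.γ (ctr X.c.γ (X.c.st (tp V) q)) q z) =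
      cell (X.c.wp.E (tp V) (X.c.st (tp V) q')) (off X.c.γ (ctr X.c.γ (X.c.st (tp V) q')) q' z') :=
    congrArg Prod.snd h
  show cell ((wpK X τ).E (lvl u τ) (X.c.st (tp V) q)) _ =
    cell ((wpK X τ).E (lvl u τ) (X.c.st (tp V) q')) _
  cases ha : X.c.st (tp V) q with
  | none =>
    cases hb : X.c.st (tp V) q' with
    | none =>
      rw [ha, hb] at hc
      show cell (brk (wpK X τ).ρ₀ (wpK X τ).n₀ ((wpK X τ).dep (lvl u τ))) _ =
        cell (brk (wpK X τ).ρ₀ (wpK X τ).n₀ ((wpK X τ).dep (lvl u τ))) _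
      rw [e1, e2]
      exact cell_mono_set (brk_mono _ _ hdep) hc
    | some σ' =>
      rw [ha, hb] at hs
      simp at hs
  | some σ =>
    cases hb : X.c.st (tp V) q' with
    | none =>
      rw [ha, hb] at hs
      simp at hs
    | some σ' =>
      rw [ha, hb] at hc
      show cell (grd (wpK X τ).δ₀ (wpK X τ).n₁) _ = cell (grd (wpK X τ).δ₀ (wpK X τ).n₁) _
      rw [e3, e4]
      exact hc

/-- **exact centres at the child: equal indices** -/
theorem ixK_same {A B W W' : ℕ} (hA : 0 < A) (hB : 0 < B) (hW : 0 < W) (hW' : 0 < W') {q q' : ℕ}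
    (hq : q = A * W) (hq' : q' = A * W') {y z z' : ℝ} {a a' : ℤ}
    (hz : (B:ℝ) * z = W * y - B * X.c.γ - a) (hz' : (B:ℝ) * z' = W' * y - B * X.c.γ - a')
    {σ σ' : ℚ} (h1 : stK X τ q = some σ) (h2 : stK X τ q' = some σ')
    (hex : ((a:ℝ) + B * σ) / W = (a' + B * σ') / W') : ixK X u τ q z = ixK X u τ q' z' := by
  unfold ixK
  rw [h1, h2]
  exact WP.same_of_exact (wpK X τ) hA hA hB hW hW' hq hq' rfl hz hz' hex

end ctx

end Crest.Agent.R4P.DseKid23
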