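import Crest.Agent.R4P.DseCd_23

/-!
R4 (S0004), powers pass, helper23 ([W-dseR], D5): **the pairs of a child** (`CD.LkA`).

* `lkA_kid` : a pair of pieces of a child with a common point;
* `ne_kid` : the items are different;
* `sm_kid` : the primes of the cofactors.
-/

set_option autoImplicit false
set_option linter.unusedSectionVars false
set_option linter.unusedVariables false

open MeasureTheory Filter

namespace Crest.Agent.R4P.DseKid23

open Crest.Agent.R4P.Cnt588 Crest.Agent.R4P.Item758 Crest.Agent.R4P.W363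
open Crest.Agent.R4P.Data758 Crest.Agent.R4P.LfDat734 Crest.Agent.R4P.OmSt532
open Crest.Agent.R4P.OmData532 Crest.Agent.R4P.WPex189
open Crest.Agent.R4P.Bld532 (NS All NodeOk Bk)
open Crest.Agent.R4P.Step588 (NDt ND1 ctx_NDt uq_lt)
open Crest.Agent.R4P.WalkIT579 (tp isL nodeOk_hi top_of_nodeOk)
open Crest.Agent.R4P.Skel189 Crest.Agent.R4P.RseSt23 Crest.Agent.R4P.RseNd23
open Crest.Agent.R4.ClosL758 Crest.Agent.R4.ClosR758 Crest.Agent.R4.Tour104 Crest.Agent.R4.Fam464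
open Crest.Agent.R4.Tour758 Crest.Agent.R4.Avg758 Crest.Agent.R4.ClosG758
open Crest.Agent.R4P.Frame758
open Crest.Agent.R4.Soft104 (w)
open Crest.Agent.R4.LF363 (Lab)
open Crest.Agent.R4.HVW560 (cof wt)
open Crest.Agent.R4.InX944 (DP)
open Crest.Agent.R4.AvgItem710 (Dp mul_cof mul_cof' cof_coprime exists_of_I_ne)
open Crest.Agent.R4P.StB21
open Crest.Agent.R4P.DseCh23
open Crest.Agent.R4P.DseN23
open Crest.Agent.R4

section ctx
variable {N : Skel189.Num} {γ : ℝ} {p0 P₀ : ℕ} {X : Ctx N γ p0 P₀} {v u : NS} {V τ : IT}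
  {Y : Finset (ℕ × ℕ × Finset ℕ)} {A : Finset X.c.Lam} {Λ : Finset ℚ}

section pt
variable {e : ℕ × ℕ} {j j' : X.c.Lam} {y z z' : ℝ} {a a' : ℤ}

lemma PtK.rr1 (k : PtK X Y A V u τ e j j' y z z' a a') : X.c.rr e.1 = X.c.r e.1 := by
  rw [← k.e1]; exact Cf.rr_eq j

lemma PtK.rr2 (k : PtK X Y A V u τ e j j' y z z' a a') : X.c.rr e.2 = X.c.r e.2 := by
  rw [← k.e2]; exact Cf.rr_eq j'

/-- index equality at the column, at the points -/
lemma PtK.ixp (h : Kid X v V u τ) (k : PtK X Y A V u τ e j j' y z z' a a') :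
    X.c.wp.ix X.c.γ (tp V) e.1 (X.c.st (tp V) e.1) z =
      X.c.wp.ix X.c.γ (tp V) e.2 (X.c.st (tp V) e.2) z' := by
  have h1 := X.ok.ix_point h.tpVt j k.za k.zb
  have h2 := X.ok.ix_point h.tpVt j' k.za' k.zb'
  rw [k.e1] at h1
  rw [k.e2] at h2
  have h3 : (X.c.world (tp V) j.1).1 = (X.c.world (tp V) j'.1).1 :=
    congrArg Prod.fst (RC_world k.rc)
  unfold Cf.world at h3
  simp only at h3
  rw [k.e1, k.e2] at h3
  rw [h1, h2, h3]

/-- the exact relation on the moduli -/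
lemma ex_mul {A' q r : ℕ} {ρ ρ' : ℚ} (hq : 0 < q) (h : Ex a a' ρ ρ' (q, r)) :
    ((a:ℝ) + ρ) * (r:ℕ) = (a' + ρ') * (q:ℕ) := by
  unfold Ex at h
  simp only at h
  have ew : (q:ℝ) = (q.gcd r : ℕ) * (cof q r : ℕ) := by exact_mod_cast (mul_cof).symm
  have ew' : (r:ℝ) = (q.gcd r : ℕ) * (cof r q : ℕ) := by exact_mod_cast (mul_cof').symm
  rw [ew, ew']
  linear_combination ((q.gcd r : ℕ) : ℝ) * h

/-- separation of a pair with equal indices at the child -/
lemma PtK.sep (hD : DH X) (h : Kid X v V u τ) (k : PtK X Y A V u τ e j j' y z z' a a')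
    (hix : ixK X u τ e.1 z = ixK X u τ e.2 z') :
    (cdK X Y A V u τ Λ).Sep (e.1 / u.A, e.2 / u.A) := by
  have h1 := kid_sep hD h (x := (j, j')) k.rc (by show j.1.1 ∈ _; rw [k.e1]; exact k.i1)
    (by show j'.1.1 ∈ _; rw [k.e2]; exact k.i2) (by show j.1.1 ∈ _; rw [k.e1]; exact k.s1)
    (by show j'.1.1 ∈ _; rw [k.e2]; exact k.s2) k.za k.zb k.za' k.zb'
    (by show ixK X u τ j.1.1 z = ixK X u τ j'.1.1 z'; rw [k.e1, k.e2]; exact hix)
  simp only at h1
  rw [k.e1, k.e2] at h1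
  rcases h1 with ⟨b, hb, h2, h3, h4⟩ | ⟨h2, h3⟩
  · left
    exact ⟨b, mem_dif.2 ⟨⟨h2, h3⟩, hb, h4⟩⟩
  · right
    exact ⟨h2, h3⟩

lemma etaL_le (hD : DH X) (h : Kid X v V u τ) :
    etaL X.c.wp (tp V) ≤ Real.exp (-(Real.log (tp V) ^ (4/5:ℝ))) := by
  have hdep := hD.rse.dep (tp V) h.tpV.2.1 h.tpVt
  unfold etaL
  rw [Real.exp_neg, ← one_div, div_le_div_iff₀ (by positivity) (Real.exp_pos _)]
  linarith

lemma map_none {B : ℕ} {o : Option ℚ} : (o.map fun σ => (B : ℚ) * σ) = none ↔ o = none := by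
  cases o <;> simp

lemma map_some {B : ℕ} {o : Option ℚ} {ρ : ℚ} (h : (o.map fun σ => (B : ℚ) * σ) = some ρ) :
    ∃ σ, o = some σ ∧ ρ = (B : ℚ) * σ := by
  cases o with
  | none => simp at h
  | some σ => exact ⟨σ, rfl, (Option.some.inj h).symm⟩

lemma map_inj {B : ℕ} (hB : 0 < B) {o o' : Option ℚ}
    (h : (o.map fun σ => (B : ℚ) * σ) = o'.map fun σ => (B : ℚ) * σ) : o = o' := by
  have hB' : (B : ℚ) ≠ 0 := by exact_mod_cast hB.ne'
  refine Option.map_injective (fun x y hxy => ?_) h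
  exact mul_left_cancel₀ hB' hxy

/-- **a pair of pieces of a child with a common point** -/
theorem lkA_kid (hD : DH X) (h : Kid X v V u τ) (k : PtK X Y A V u τ e j j' y z z' a a') :
    (cdK X Y A V u τ Λ).LkA (e.1 / u.A, e.2 / u.A) a a' := by
  have hnd := h.hu.nd
  have hB0 : (0:ℝ) < u.B := h.B_pos
  have hBn : 0 < u.B := hnd.B_pos
  have hA0 : 0 < u.A := hnd.A_pos
  have d1 : u.A ∣ e.1 := hnd.bk.dvd _ k.i1
  have d2 : u.A ∣ e.2 := hnd.bk.dvd _ k.i2
  have m1 : u.A * (e.1 / u.A) = e.1 := Nat.mul_div_cancel' d1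
  have m2 : u.A * (e.2 / u.A) = e.2 := Nat.mul_div_cancel' d2
  have w1 : 0 < e.1 / u.A := Nat.pos_of_ne_zero (hnd.div_ne k.i1)
  have w2 : 0 < e.2 / u.A := Nat.pos_of_ne_zero (hnd.div_ne k.i2)
  have hlam : X.c.lam (tp V) = 0 := hD.th.lam _
  have hix := k.ixp h
  have hw : (X.c.world (tp V) j.1).1 = (X.c.world (tp V) j'.1).1 :=
    congrArg Prod.fst (RC_world k.rc)
  have hsome : (X.c.st (tp V) e.1).isSome = (X.c.st (tp V) e.2).isSome := WP.isSome_eq _ hix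
  have i1' : j.1.1 ∈ τ.items := by rw [k.e1]; exact k.i1
  have i2' : j'.1.1 ∈ τ.items := by rw [k.e2]; exact k.i2
  have l1' : (u.B : ℝ) / (1 : ℕ) * X.c.bp j.1.1 j.1.2 ≤
      ((j.1.1 / u.A : ℕ) : ℝ) * y - (u.B : ℝ) / (1 : ℕ) * X.c.γ - a := by rw [k.e1]; have := k.l1; rw [k.e1] at this; exact this
  have l2' : ((j.1.1 / u.A : ℕ) : ℝ) * y - (u.B : ℝ) / (1 : ℕ) * X.c.γ - a <
      (u.B : ℝ) / (1 : ℕ) * X.c.bp j.1.1 (j.1.2 + 1) := by rw [k.e1]; have := k.l2; rw [k.e1] at this; exact this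
  have l3' : (u.B : ℝ) / (1 : ℕ) * X.c.bp j'.1.1 j'.1.2 ≤
      ((j'.1.1 / u.A : ℕ) : ℝ) * y - (u.B : ℝ) / (1 : ℕ) * X.c.γ - a' := by rw [k.e2]; have := k.l3; rw [k.e2] at this; exact this
  have l4' : ((j'.1.1 / u.A : ℕ) : ℝ) * y - (u.B : ℝ) / (1 : ℕ) * X.c.γ - a' <
      (u.B : ℝ) / (1 : ℕ) * X.c.bp j'.1.1 (j'.1.2 + 1) := by rw [k.e2]; have := k.l4; rw [k.e2] at this; exact this
  have es : ∀ q, (cdK X Y A V u τ Λ).s q =
      (X.c.st (tp V) (u.A * q)).map fun σ => (u.B : ℚ) * σ := fun q => rfl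
  have es' : ∀ q, (cdK X Y A V u τ Λ).s' q =
      (stK X τ (u.A * q)).map fun σ => (u.B : ℚ) * σ := fun q => rfl
  have eR : ∀ q, (cdK X Y A V u τ Λ).R q = RB X u (u.A * q) := fun q => rfl
  refine
    { pt := ?_
      lkn := ?_
      lks := ?_
      kept := ?_
      same := ?_
      al1 := ?_
      al2 := ?_ }
  · -- windows
    unfold dv Crest.Agent.R4.InX944.DP
    simp only
    rw [eR, eR, m1, m2]
    show |((a:ℝ) + u.B * X.c.γ) * _ - (a' + u.B * X.c.γ) * _| ≤ _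
    set c1 : ℝ := ((cof (e.2 / u.A) (e.1 / u.A) : ℕ) : ℝ) with hc1
    set c2 : ℝ := ((cof (e.1 / u.A) (e.2 / u.A) : ℕ) : ℝ) with hc2
    have c10 : 0 ≤ c1 := by positivity
    have c20 : 0 ≤ c2 := by positivity
    have ew : ((e.1 / u.A : ℕ) : ℝ) = ((e.1 / u.A).gcd (e.2 / u.A) : ℕ) * c2 := by
      rw [hc2]; exact_mod_cast (mul_cof).symm
    have ew' : ((e.2 / u.A : ℕ) : ℝ) = ((e.1 / u.A).gcd (e.2 / u.A) : ℕ) * c1 := by
      rw [hc1]; exact_mod_cast (mul_cof').symm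
    have g1 : ((a:ℝ) + u.B * X.c.γ) * c1 - (a' + u.B * X.c.γ) * c2 =
        u.B * z' * c2 - u.B * z * c1 := by
      rw [k.hz, k.hz', ew, ew']; ring
    rw [g1]
    have g2 : |u.B * z' * c2 - u.B * z * c1| ≤ u.B * X.c.r e.2 * c2 + u.B * X.c.r e.1 * c1 := by
      refine (abs_sub _ _).trans (add_le_add ?_ ?_)
      · rw [abs_mul, abs_mul, abs_of_nonneg c20, abs_of_pos hB0]
        exact mul_le_mul_of_nonneg_right (mul_le_mul_of_nonneg_left k.zr' hB0.le) c20
      · rw [abs_mul, abs_mul, abs_of_nonneg c10, abs_of_pos hB0]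
        exact mul_le_mul_of_nonneg_right (mul_le_mul_of_nonneg_left k.zr hB0.le) c10
    refine g2.trans ?_
    have g3 : RB X u e.1 = u.B * X.c.r e.1 := by show (u.B:ℝ) * X.c.rr e.1 = _; rw [k.rr1]
    have g4 : RB X u e.2 = u.B * X.c.r e.2 := by show (u.B:ℝ) * X.c.rr e.2 = _; rw [k.rr2]
    rw [g3, g4]
    have g5 := le_max_left (c1 * (u.B * X.c.r e.1)) (c2 * (u.B * X.c.r e.2))
    have g6 := le_max_right (c1 * (u.B * X.c.r e.1)) (c2 * (u.B * X.c.r e.2))
    linarith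
  · -- unlabelled
    intro hs
    have hs1 : X.c.st (tp V) e.1 = none := by
      rw [es, m1] at hs; exact map_none.1 hs
    have hs2 : X.c.st (tp V) e.2 = none := by
      rw [hs1] at hsome
      cases h5 : X.c.st (tp V) e.2 with
      | none => rfl
      | some σ => rw [h5] at hsome; simp at hsome
    refine ⟨by show (cdK X Y A V u τ Λ).s (e.2 / u.A) = none; rw [es, m2, hs2]; rfl, ?_⟩
    have key := rel_none hnd h.tpVt hlam hw i1' i2' (by rw [k.e1]; exact hs1)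
      (by rw [k.e2]; exact hs2) l1' l2' l3' l4'
    rw [k.e1, k.e2] at key
    have e3 : DP (cdK X Y A V u τ Λ).R (cdK X Y A V u τ Λ).R (e.1 / u.A, e.2 / u.A) =
        DA u.A (RB X u) (e.1, e.2) := DP_eq u.A (RB X u) d1 d2
    rw [e3]
    refine key.trans (mul_le_mul_of_nonneg_right (etaL_le hD h) ?_)
    unfold DA Crest.Agent.R4.AvgItem710.Dp
    refine le_max_of_le_left ?_
    have := ((X.ok.rad Y).pos e.1).le
    positivity
  · -- labelled
    intro ρ hs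
    rw [es] at hs
    simp only at hs
    rw [m1] at hs
    obtain ⟨σ, hσ, rfl⟩ := map_some hs
    rw [hσ] at hsome
    obtain ⟨σ', hσ'⟩ := Option.isSome_iff_exists.1 (hsome.symm.trans rfl : (X.c.st (tp V) e.2).isSome = true)
    refine ⟨(u.B : ℚ) * σ', by show (cdK X Y A V u τ Λ).s (e.2 / u.A) = _; rw [es, m2, hσ']; rfl, ?_⟩
    have key := (rel_some hnd h.tpVt hlam hw i1' i2' (by rw [k.e1]; exact hσ)
      (by rw [k.e2]; exact hσ') l1' l2' l3' l4').2
    rw [k.e1, k.e2] at key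
    exact key
  · -- kept
    intro h1 h2
    rw [es', es] at h1 h2
    simp only at h1 h2
    rw [m1] at h1
    rw [m2] at h2
    have g1 := map_inj hBn h1
    have g2 := map_inj hBn h2
    have hdep : (wpK X τ).dep (lvl u τ) ≤ X.c.wp.dep (tp V) := by
      have h0 := h.lvl_ge k.i1
      by_cases hl : isL τ
      · obtain ⟨S, rfl⟩ := isL_iff.1 hl
        rw [wpK_leaf]
        exact hD.depL _ _ h0 h.lvl_le
      · rw [wpK_node hl, lvl_node hl]
        exact hD.dep _ _ (h.node hl).2.1 (h.node hl).2.2.2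
    exact k.sep hD h (ixK_kept hdep hix g1 g2)
  · -- one exact label
    intro ρ h1 h2 hx
    rw [es'] at h1 h2
    simp only at h1 h2
    rw [m1] at h1
    rw [m2] at h2
    obtain ⟨σ, hσ, r1⟩ := map_some h1
    obtain ⟨σ', hσ', r2⟩ := map_some h2
    refine k.sep hD h (ixK_same (W := e.1 / u.A) (W' := e.2 / u.A) hA0 hBn w1 w2 m1.symm m2.symm
      k.hz k.hz' hσ hσ' ?_)
    have g1 := ex_mul (A' := 1) w1 hx
    have w1' : ((e.1 / u.A : ℕ) : ℝ) ≠ 0 := by exact_mod_cast w1.ne'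
    have w2' : ((e.2 / u.A : ℕ) : ℝ) ≠ 0 := by exact_mod_cast w2.ne'
    have e5 : (ρ:ℝ) = u.B * σ := by rw [r1]; push_cast; ring
    have e6 : (ρ:ℝ) = u.B * σ' := by rw [r2]; push_cast; ring
    rw [← e5, ← e6, div_eq_div_iff w1' w2']
    exact g1
  · -- alive, first item
    intro b hb hlt h1 h2 ρ ρ' h3 hx
    simp only at h1 h2
    rw [es'] at h3
    simp only at h3
    rw [m1] at h3
    obtain ⟨σ, hσ, r1⟩ := map_some h3
    have g1 := ex_mul (A' := 1) w1 hx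
    refine kid_alive h k.i1 hσ hb hlt h1 k.o1 h2 (a' := a') ?_
    rw [← r1]
    exact g1
  · intro b hb hlt h1 h2 ρ ρ' h3 hx
    simp only at h1 h2
    rw [es'] at h3
    simp only at h3
    rw [m2] at h3
    obtain ⟨σ, hσ, r1⟩ := map_some h3
    have g1 := ex_mul (A' := 1) w1 hx
    refine kid_alive h k.i2 hσ hb hlt h1 k.o2 h2 (a' := a) ?_
    rw [← r1]
    exact g1.symm

/-- **the items of a pair are different** -/
theorem ne_kid (hD : DH X) (h : Kid X v V u τ) (k : PtK X Y A V u τ e j j' y z z' a a')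
    (hη : Real.exp (-(Real.log (tp V) ^ (4/5:ℝ))) * RB X u e.1 < 1) : e.1 ≠ e.2 := by
  intro heq
  have L : (cdK X Y A V u τ ∅).LkA (e.1 / u.A, e.2 / u.A) a a' := lkA_kid hD h k
  have hnd := h.hu.nd
  have d1 : u.A ∣ e.1 := hnd.bk.dvd _ k.i1
  have m1 : u.A * (e.1 / u.A) = e.1 := Nat.mul_div_cancel' d1
  have w1 : 0 < e.1 / u.A := Nat.pos_of_ne_zero (hnd.div_ne k.i1)
  have hc : cof (e.1 / u.A) (e.1 / u.A) = 1 := by
    unfold Crest.Agent.R4.HVW560.cof
    rw [Nat.gcd_self, Nat.div_self w1]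
  rw [← heq] at L
  have haa : a = a' := by
    cases hs : X.c.st (tp V) e.1 with
    | none =>
      have h1 := (L.lkn (by
        show (X.c.st (tp V) (u.A * (e.1 / u.A))).map _ = none
        rw [m1, hs]; rfl)).2
      unfold dv Crest.Agent.R4.InX944.DP at h1
      simp only at h1
      rw [hc] at h1
      have e3 : (cdK X Y A V u τ ∅).R (e.1 / u.A) = RB X u e.1 := by
        show RB X u (u.A * (e.1 / u.A)) = _
        rw [m1]
      rw [e3] at h1
      simp only [Nat.cast_one, mul_one, one_mul, max_self, add_sub_add_right_eq_sub] at h1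
      have h2 : |((a - a' : ℤ) : ℝ)| < 1 := by
        push_cast
        exact lt_of_le_of_lt h1 hη
      rw [← Int.cast_abs] at h2
      have h3 : |a - a'| < 1 := by exact_mod_cast h2
      have h4 : a - a' = 0 := Int.abs_lt_one_iff.1 h3
      omega
    | some σ =>
      obtain ⟨ρ', h1, h2⟩ := L.lks ((u.B:ℚ) * σ) (by
        show (X.c.st (tp V) (u.A * (e.1 / u.A))).map _ = _
        rw [m1, hs]; rfl)
      have h3 : (X.c.st (tp V) (u.A * (e.1 / u.A))).map (fun σ => (u.B:ℚ) * σ) = some ρ' := h1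
      rw [m1, hs] at h3
      have h4 : (u.B:ℚ) * σ = ρ' := Option.some.inj h3
      unfold Ex at h2
      simp only at h2
      rw [hc, h4, Nat.cast_one, mul_one, mul_one] at h2
      have h5 : (a:ℝ) = a' := by linarith
      exact_mod_cast h5
  have hB0 : (0:ℝ) < u.B := h.B_pos
  have hzz : z = z' := by
    have h1 := k.hz
    have h2 := k.hz'
    rw [← heq, ← haa, ← h1] at h2
    exact (mul_left_cancel₀ hB0.ne' h2).symm
  have hjj : j = j' := by
    by_contra hne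
    have hit : X.c.D.it j = X.c.D.it j' := by
      show j.1.1 = j'.1.1
      rw [k.e1, k.e2, heq]
    rcases X.ok.disj' j j' hne hit with h1 | h1
    · have := k.zb; have := k.za'; rw [hzz] at *; linarith
    · have := k.za; have := k.zb'; rw [hzz] at *; linarith
  have hrc := k.rc
  rw [← hjj] at hrc
  unfold RC at hrc
  rw [Finset.mem_sdiff] at hrc
  apply hrc.2
  unfold Dr
  rw [Finset.mem_filter]
  exact ⟨Finset.mem_univ _, rfl⟩

/-- **the primes of the cofactors** -/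
theorem sm_kid (h : Kid X v V u τ) (k : PtK X Y A V u τ e j j' y z z' a a') {l : ℕ}
    (hl : l.Prime) (hd : l ∣ cof (e.1 / u.A) (e.2 / u.A) ∨ l ∣ cof (e.2 / u.A) (e.1 / u.A)) :
    l ≤ lvl u τ ∨ l ∈ (cdK X Y A V u τ Λ).dif (e.1 / u.A, e.2 / u.A) := by
  by_cases hlt : l ≤ lvl u τ
  · exact Or.inl hlt
  rw [not_le] at hlt
  right
  have hnd := h.hu.nd
  have hrp : W363.ret X.c.t (tp V) e.1 = W363.ret X.c.t (tp V) e.2 := by
    have hw := RC_world k.rc
    have h3 := congrArg (fun t => t.2.1) hw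
    unfold Cf.world at h3
    simp only at h3
    rw [k.e1, k.e2] at h3
    exact h3
  have key : ∀ q r : ℕ, q ∈ τ.items → r ∈ τ.items →
      W363.ret X.c.t (tp V) q = W363.ret X.c.t (tp V) r →
      l ∣ cof (q / u.A) (r / u.A) → l ≤ tp V ∧ l ∣ q / u.A ∧ ¬ l ∣ r / u.A := by
    intro q r hq hr he hd
    have h1 : cof (q / u.A) (r / u.A) * Nat.gcd (q / u.A) (r / u.A) = q / u.A :=
      Nat.div_mul_cancel (Nat.gcd_dvd_left _ _)
    have h2 : l ∣ q / u.A := by rw [← h1]; exact hd.mul_right _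
    have h3 : ¬ l ∣ r / u.A := by
      intro h3
      have h4 : l ∣ Nat.gcd (q / u.A) (r / u.A) := Nat.dvd_gcd h2 h3
      refine hnd.self.rad q hq l hl (h.prime_ge hl hlt) ?_
      rw [← h1, pow_two]
      exact Nat.mul_dvd_mul hd h4
    refine ⟨?_, h2, h3⟩
    by_contra hc
    have h5 := h.uq_of hq hl hlt h2
    have h6 := (dvd_ret X.tOk hl (p := tp V) (q := q)).2 ⟨h5, not_le.1 hc⟩
    rw [he] at h6
    exact h3 (hnd.rt_dvd hr ((dvd_ret X.tOk hl).1 h6).1)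
  rcases hd with hd | hd
  · obtain ⟨g1, g2, g3⟩ := key _ _ k.i1 k.i2 hrp hd
    exact mem_dif.2 ⟨⟨hlt, g1⟩, hl, Or.inl ⟨g2, g3⟩⟩
  · obtain ⟨g1, g2, g3⟩ := key _ _ k.i2 k.i1 hrp.symm hd
    exact mem_dif.2 ⟨⟨hlt, g1⟩, hl, Or.inr ⟨g2, g3⟩⟩

end pt

end ctx

end Crest.Agent.R4P.DseKid23
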