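import Crest.Agent.R4P.GainKL_24
import Crest.Agent.R4.ClsAll_944
import Crest.Agent.R4.LF7eta765

/-!
R4 (S0004), helper24: **D2, second form** of `[W-dseR]`: exact equal-label pairs `x ≠ y` of one node
whose label is dead on one side and has a `k`-gain or `λ`-gain `Q`; exponent `48/1000`, a free cut `Y`
for the product term, and no remainder.
-/

set_option autoImplicit false
open Finset

namespace Crest.Agent.R4P.GainKL24

open Crest.Agent.R4 Crest.Agent.R4.HVW560 Crest.Agent.R4.HVWX793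
open Crest.Agent.R4.StopAsm709 Crest.Agent.R4.StopHvw709
open Crest.Agent.R4.Schur709
open Crest.Agent.R4.ClsS (eps1 Af)
open Crest.Agent.R4.LF363 (Lab)
open Crest.Agent.R4.LF11 (DD ew DD_pos ew_nonneg)
open Crest.Agent.R4.InX944
open Crest.Agent.R4.LF765 (Struct)
open Crest.Agent.R4.ClsAll (Gen)

/-! ### the classes -/

section Cls
variable {Q t : ℝ}

lemma N2_le (hQ : (2:ℝ)^400 ≤ Q) (ht0 : 0 < t) (h82 : t ≤ Q^(41/5:ℝ)) :
    t^(1/10:ℝ) ≤ Q^(41/50:ℝ) ∧ t^(1/50:ℝ) ≤ Q^(41/250:ℝ) := by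
  have hQ0 : 0 < Q := lt_of_lt_of_le (by positivity) hQ
  constructor
  · calc t^(1/10:ℝ) ≤ (Q^(41/5:ℝ))^(1/10:ℝ) := Real.rpow_le_rpow ht0.le h82 (by norm_num)
      _ = Q^(41/50:ℝ) := by rw [← Real.rpow_mul hQ0.le]; norm_num
  · calc t^(1/50:ℝ) ≤ (Q^(41/5:ℝ))^(1/50:ℝ) := Real.rpow_le_rpow ht0.le h82 (by norm_num)
      _ = Q^(41/250:ℝ) := by rw [← Real.rpow_mul hQ0.le]; norm_num

lemma rel_ex {ρ : ℚ} {x y : ℕ} {m m' : ℤ} (hex : ((m:ℝ) + ρ) * y = (m' + ρ) * x) (ε : ℝ) :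
    |((m * y - m' * x : ℤ):ℝ) - ((ρ:ℝ) + ε) * ((x:ℝ) - y)| = |ε| * |(y:ℝ) - x| := by
  have e : (((m * y - m' * x : ℤ):ℝ) - ((ρ:ℝ) + ε) * ((x:ℝ) - y)) =
      ((m + ρ) * y - (m' + ρ) * x) + ε * ((y:ℝ) - x) := by
    push_cast; ring
  rw [e, hex, sub_self, zero_add, abs_mul]

/-- `k`-case -/
theorem gen2_k {ρ : ℚ} {x y : ℕ} {r r' : ℝ} {m m' : ℤ} (hQ : (2:ℝ)^400 ≤ Q) (hden : Q ≤ ρ.den)
    (h8 : Q^8 ≤ t) (h82 : t ≤ Q^(41/5:ℝ)) (hx : 0 < x) (hy : 0 < y) (hne : x ≠ y)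
    (hex : ((m:ℝ) + ρ) * y = (m' + ρ) * x) : Gen ρ t x y r r' := by
  have hQ0 : 0 < Q := lt_of_lt_of_le (by positivity) hQ
  have hQ1 : 1 ≤ Q := le_trans (one_le_pow₀ (by norm_num)) hQ
  have ht0 : 0 < t := lt_of_lt_of_le (by positivity) h8
  have hd0 : (0:ℝ) < ρ.den := by exact_mod_cast ρ.pos
  obtain ⟨hN, -⟩ := N2_le hQ ht0 h82
  have hNQ : t^(1/10:ℝ) < Q := by
    refine lt_of_le_of_lt hN ?_
    have := absorb hQ (c := 1) (a := 41/50) (b := 1) (by norm_num) (by norm_num)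
    rwa [one_mul, Real.rpow_one] at this
  have hN4 : 4 * t^(1/10:ℝ) < t := by
    calc 4 * t^(1/10:ℝ) ≤ 4 * Q^(41/50:ℝ) := by linarith
      _ < Q^(8:ℝ) := absorb hQ (by norm_num) (by norm_num)
      _ = Q^8 := by rw [← Real.rpow_natCast]; norm_num
      _ ≤ t := h8
  refine ⟨hx, hy, hne, ⟨m * y - m' * x, ?_⟩, Or.inr ?_⟩
  · have e := rel_ex hex 0
    rw [add_zero, abs_zero, zero_mul] at e
    rw [e]; positivity
  · intro Y hY0 _ hzY
    have hz : (ρ.den:ℝ) ≤ ((max x y : ℕ):ℝ) := by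
      rw [Nat.cast_max]
      rcases exact_big hne hex with h | h
      · exact h.trans (le_max_left _ _)
      · exact h.trans (le_max_right _ _)
    apply uns_k ht0 hY0 (lt_of_lt_of_le hNQ hden)
    calc 2 * t^(1/10:ℝ) * ρ.den ≤ 2 * t^(1/10:ℝ) * (2 * Y) :=
          mul_le_mul_of_nonneg_left (hz.trans hzY) (by positivity)
      _ = (4 * t^(1/10:ℝ)) * Y := by ring
      _ < t * Y := mul_lt_mul_of_pos_right hN4 hY0

/-- `λ`-case -/
theorem gen2_l {θ : ℝ} {ρ : ℚ} {x y : ℕ} {a b η : ℝ} {m m' : ℤ} (hQ : (2:ℝ)^400 ≤ Q)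
    (hden : (ρ.den:ℝ) < Q) (h8 : Q^8 ≤ t) (h82 : t ≤ Q^(41/5:ℝ)) (hη : 0 < η)
    (hx : 0 < x) (hy : 0 < y) (hne : x ≠ y)
    (hex : ((m:ℝ) + ρ) * y = (m' + ρ) * x)
    (hov : |θ - ρ| * |(y:ℝ) - x| ≤ 2 * max ((y:ℝ) * a) ((x:ℝ) * b))
    (hD : η * max ((y:ℝ) * a) ((x:ℝ) * b) ≤ 1/t)
    (hc : Q * a ≤ |θ - ρ| ∨ Q * b ≤ |θ - ρ|) :
    Gen (ρ + η * (θ - ρ)) t x y (η * a) (η * b) := by
  have hQ0 : 0 < Q := lt_of_lt_of_le (by positivity) hQ
  have hQ1 : 1 ≤ Q := le_trans (one_le_pow₀ (by norm_num)) hQ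
  have ht0 : 0 < t := lt_of_lt_of_le (by positivity) h8
  have hd0 : (0:ℝ) < ρ.den := by exact_mod_cast ρ.pos
  have hx0 : (0:ℝ) < x := by exact_mod_cast hx
  have hy0 : (0:ℝ) < y := by exact_mod_cast hy
  have hov2 : η * |θ - ρ| * |(y:ℝ) - x| ≤ 2 / t := by
    calc η * |θ - ρ| * |(y:ℝ) - x| = η * (|θ - ρ| * |(y:ℝ) - x|) := by ring
      _ ≤ η * (2 * max ((y:ℝ) * a) ((x:ℝ) * b)) := mul_le_mul_of_nonneg_left hov hη.le
      _ = 2 * (η * max ((y:ℝ) * a) ((x:ℝ) * b)) := by ring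
      _ ≤ 2 * (1/t) := mul_le_mul_of_nonneg_left hD (by norm_num)
      _ = 2/t := by ring
  have h1 : (1:ℝ) ≤ |(y:ℝ) - x| := by
    have h2 : ((y:ℤ) - x) ≠ 0 := by intro h0; apply hne; omega
    have := Int.one_le_abs h2
    exact_mod_cast this
  have hδ : η * |θ - ρ| ≤ 2 / t :=
    (le_mul_of_one_le_right (by positivity) h1).trans hov2
  refine ⟨hx, hy, hne, ⟨m * y - m' * x, ?_⟩, ?_⟩
  · rw [rel_ex hex, abs_mul, abs_of_pos hη]
    exact hov2
  by_cases hb : (x:ℝ) * (η * b) ≤ t^(-(51/50):ℝ) ∨ (y:ℝ) * (η * a) ≤ t^(-(51/50):ℝ)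
  · exact Or.inl hb
  right
  push Not at hb
  obtain ⟨hb1, hb2⟩ := hb
  intro Y hY0 _ hzY
  set z : ℝ := ((max x y : ℕ):ℝ) with hz
  have hxz : (x:ℝ) ≤ z := by rw [hz, Nat.cast_max]; exact le_max_left _ _
  have hyz : (y:ℝ) ≤ z := by rw [hz, Nat.cast_max]; exact le_max_right _ _
  have hz0 : 0 < z := lt_of_lt_of_le hx0 hxz
  have hz1 : 1 ≤ z := le_trans (by exact_mod_cast hx) hxz
  obtain ⟨hN, hN'⟩ := N2_le hQ ht0 h82
  have hNp : 0 < t^(1/10:ℝ) := by positivity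
  have e51 : t^(-(51/50):ℝ) = t⁻¹ * (t^(1/50:ℝ))⁻¹ := by
    rw [← Real.rpow_neg_one, ← Real.rpow_neg ht0.le, ← Real.rpow_add ht0]; norm_num
  have hu0 : 0 < t^(1/50:ℝ) := by positivity
  -- lower bound for η δ
  have hlow : Q * (t⁻¹ * (t^(1/50:ℝ))⁻¹) / z < η * |θ - ρ| := by
    rw [div_lt_iff₀ hz0, ← e51]
    have main : ∀ (w c : ℝ), 0 ≤ w → w ≤ z → Q * c ≤ |θ - ρ| → t^(-(51/50):ℝ) < w * (η * c) →
        Q * t^(-(51/50):ℝ) < η * |θ - ρ| * z := by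
      intro w c hw hwz hc' hbal
      calc Q * t^(-(51/50):ℝ) < Q * (w * (η * c)) := mul_lt_mul_of_pos_left hbal hQ0
        _ = (w * η) * (Q * c) := by ring
        _ ≤ (w * η) * |θ - ρ| := mul_le_mul_of_nonneg_left hc' (by positivity)
        _ = (η * |θ - ρ|) * w := by ring
        _ ≤ (η * |θ - ρ|) * z := mul_le_mul_of_nonneg_left hwz (by positivity)
    rcases hc with hc | hc
    · exact main y a hy0.le hyz hc hb2
    · exact main x b hx0.le hxz hc hb1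
  have hε : |η * (θ - ρ)| = η * |θ - ρ| := by rw [abs_mul, abs_of_pos hη]
  have hNY : 2 * t^(1/10:ℝ) / (t * Y) ≤ 4 * t^(1/10:ℝ) / (t * z) := by
    rw [div_le_div_iff₀ (by positivity) (by positivity)]
    calc 2 * t^(1/10:ℝ) * (t * z) ≤ 2 * t^(1/10:ℝ) * (t * (2 * Y)) := by gcongr
      _ = 4 * t^(1/10:ℝ) * (t * Y) := by ring
  apply uns_l
  · rw [hε]
    have h1 : 4 * t^(1/10:ℝ) / (t * z) ≤ 4 * t^(1/10:ℝ) / t := by
      apply div_le_div_of_nonneg_left (by positivity) ht0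
      exact le_mul_of_one_le_right ht0.le hz1
    have h2 : t^(1/10:ℝ) * (η * |θ - ρ|) ≤ t^(1/10:ℝ) * (2 / t) :=
      mul_le_mul_of_nonneg_left hδ hNp.le
    have h3 : 1 / Q < 1 / (ρ.den:ℝ) := one_div_lt_one_div_of_lt hd0 hden
    have h5 : 6 * t^(1/10:ℝ) / t < 1 / Q := by
      rw [div_lt_div_iff₀ ht0 hQ0, one_mul]
      calc 6 * t^(1/10:ℝ) * Q ≤ 6 * Q^(41/50:ℝ) * Q^(1:ℝ) := by
            rw [Real.rpow_one]
            exact mul_le_mul_of_nonneg_right (by linarith) hQ0.le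
        _ = 6 * Q^(41/50+1:ℝ) := by rw [mul_assoc, ← Real.rpow_add hQ0]
        _ < Q^(8:ℝ) := absorb hQ (by norm_num) (by norm_num)
        _ = Q^8 := by rw [← Real.rpow_natCast]; norm_num
        _ ≤ t := h8
    calc t^(1/10:ℝ) * (η * |θ - ρ|) + 2 * t^(1/10:ℝ) / (t * Y)
        ≤ t^(1/10:ℝ) * (2 / t) + 4 * t^(1/10:ℝ) / t := add_le_add h2 (hNY.trans h1)
      _ = 6 * t^(1/10:ℝ) / t := by ring
      _ < 1 / (ρ.den:ℝ) := h5.trans h3
  · rw [hε]
    refine lt_of_le_of_lt hNY (lt_of_le_of_lt ?_ hlow)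
    rw [div_le_div_iff₀ (by positivity) hz0]
    have h5 : 4 * t^(1/10:ℝ) * t^(1/50:ℝ) ≤ Q := by
      calc 4 * t^(1/10:ℝ) * t^(1/50:ℝ) ≤ 4 * Q^(41/50:ℝ) * Q^(41/250:ℝ) :=
            mul_le_mul (mul_le_mul_of_nonneg_left hN (by norm_num)) hN' hu0.le (by positivity)
        _ = 4 * Q^(41/50+41/250:ℝ) := by rw [mul_assoc, ← Real.rpow_add hQ0]
        _ ≤ Q^(1:ℝ) := (absorb hQ (by norm_num) (by norm_num)).le
        _ = Q := Real.rpow_one Q
    have h6 : 4 * t^(1/10:ℝ) ≤ Q * (t^(1/50:ℝ))⁻¹ := by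
      rw [← div_eq_mul_inv, le_div_iff₀ hu0]; exact h5
    calc 4 * t^(1/10:ℝ) * z ≤ Q * (t^(1/50:ℝ))⁻¹ * z := mul_le_mul_of_nonneg_right h6 hz0.le
      _ = Q * (t⁻¹ * (t^(1/50:ℝ))⁻¹) * (t * z) := by field_simp

/-- deep case: not generic ⇒ the label is valid at both radii -/
theorem gen2_d {θ : ℝ} {ρ : ℚ} {x y : ℕ} {r r' : ℝ} {m m' : ℤ} (ht : (2:ℝ)^400 ≤ t)
    (hx : 0 < x) (hy : 0 < y) (hne : x ≠ y) (hr : 0 < r) (hr' : 0 < r')
    (hex : ((m:ℝ) + ρ) * y = (m' + ρ) * x)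
    (hov : |θ - ρ| * |(y:ℝ) - x| ≤ 2 * max ((y:ℝ) * r) ((x:ℝ) * r'))
    (hD : max ((y:ℝ) * r) ((x:ℝ) * r') ≤ 1/t)
    (hdead : ¬ (Lab θ r ρ ∧ Lab θ r' ρ)) : Gen θ t x y r r' := by
  have ht0 : 0 < t := lt_of_lt_of_le (by positivity) ht
  have ht1 : 1 ≤ t := le_trans (one_le_pow₀ (by norm_num)) ht
  have hx0 : (0:ℝ) < x := by exact_mod_cast hx
  have hy0 : (0:ℝ) < y := by exact_mod_cast hy
  have hx1 : (1:ℝ) ≤ x := by exact_mod_cast hx
  have hy1 : (1:ℝ) ≤ y := by exact_mod_cast hy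
  have hov2 : |θ - ρ| * |(y:ℝ) - x| ≤ 2 / t := by
    calc |θ - ρ| * |(y:ℝ) - x| ≤ 2 * max ((y:ℝ) * r) ((x:ℝ) * r') := hov
      _ ≤ 2 * (1/t) := mul_le_mul_of_nonneg_left hD (by norm_num)
      _ = 2 / t := by ring
  have hrel := rel_ex hex (θ - ρ)
  have eθ : (ρ:ℝ) + (θ - ρ) = θ := by ring
  rw [eθ] at hrel
  refine ⟨hx, hy, hne, ⟨m * y - m' * x, hrel.le.trans hov2⟩, ?_⟩
  by_contra hcon
  push Not at hcon
  obtain ⟨⟨hb1, hb2⟩, Y, hY0, -, hzY, k, hk1, hk2, h, hkh⟩ := hcon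
  apply hdead
  have hxz : (x:ℝ) ≤ 2 * Y := le_trans (by rw [Nat.cast_max]; exact le_max_left _ _) hzY
  have hyz : (y:ℝ) ≤ 2 * Y := le_trans (by rw [Nat.cast_max]; exact le_max_right _ _) hzY
  set s : ℝ := t^(1/50:ℝ) with hs
  have hs0 : 0 < s := by positivity
  have hts : t = s^50 := by
    rw [hs, ← Real.rpow_natCast, ← Real.rpow_mul ht0.le]; norm_num
  have h5 : t^(1/10:ℝ) = s^5 := by
    rw [hs, ← Real.rpow_natCast, ← Real.rpow_mul ht0.le]; norm_num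
  have hs8 : (2:ℝ)^8 ≤ s := by
    have h1 : ((2:ℝ)^400)^(1/50:ℝ) ≤ s := Real.rpow_le_rpow (by positivity) ht (by norm_num)
    have h2 : ((2:ℝ)^400)^(1/50:ℝ) = 2^8 := by
      rw [← Real.rpow_natCast (2:ℝ) 400, ← Real.rpow_natCast (2:ℝ) 8, ← Real.rpow_mul (by norm_num)]
      norm_num
    rwa [h2] at h1
  have hs2 : (2:ℝ) ≤ s := le_trans (by norm_num) hs8
  have hs1 : (1:ℝ) ≤ s := by linarith
  rw [h5] at hk2 hkh
  have hk0 : (0:ℝ) < k := by exact_mod_cast hk1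
  have hk1' : (1:ℝ) ≤ k := by exact_mod_cast hk1
  -- the pair is exact for h / k as well
  have hyx : |(x:ℝ) - y| ≤ 2 * Y := by
    rw [abs_le]; constructor <;> linarith
  have hn : (h * ((x:ℤ) - y) - k * (m * y - m' * x) : ℤ) = 0 := by
    have e : (((h * ((x:ℤ) - y) - k * (m * y - m' * x) : ℤ)):ℝ) =
        -((θ * k - h) * ((x:ℝ) - y)) -
          k * (((m * y - m' * x : ℤ):ℝ) - θ * ((x:ℝ) - y)) := by
      push_cast; ring
    have b1 : |(θ * k - h) * ((x:ℝ) - y)| ≤ 4 * s^5 / t := by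
      rw [abs_mul]
      calc |θ * k - h| * |(x:ℝ) - y| ≤ 2 * s^5 / (t * Y) * (2 * Y) :=
            mul_le_mul hkh hyx (abs_nonneg _) (by positivity)
        _ = 4 * s^5 / t := by field_simp; ring
    have b2 : |(k:ℝ) * (((m * y - m' * x : ℤ):ℝ) - θ * ((x:ℝ) - y))| ≤ 2 * s^5 / t := by
      rw [abs_mul, abs_of_pos hk0]
      calc (k:ℝ) * |((m * y - m' * x : ℤ):ℝ) - θ * ((x:ℝ) - y)| ≤ s^5 * (2 / t) :=
            mul_le_mul hk2 (hrel.le.trans hov2) (abs_nonneg _) (by positivity)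
        _ = 2 * s^5 / t := by ring
    have b3 : |(((h * ((x:ℤ) - y) - k * (m * y - m' * x) : ℤ)):ℝ)| < 1 := by
      rw [e]
      refine lt_of_le_of_lt (abs_sub _ _) ?_
      rw [abs_neg]
      have b4 : 6 * s^5 / t < 1 := by
        rw [div_lt_one ht0, hts]
        calc 6 * s^5 < s * s^5 := mul_lt_mul_of_pos_right (by linarith) (by positivity)
          _ = s^6 := by ring
          _ ≤ s^50 := pow_le_pow_right₀ hs1 (by norm_num)
      calc _ ≤ 4 * s^5 / t + 2 * s^5 / t := add_le_add b1 b2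
        _ = 6 * s^5 / t := by ring
        _ < 1 := b4
    by_contra h0
    have h1 := Int.one_le_abs h0
    have h2 : (1:ℝ) ≤ |(((h * ((x:ℤ) - y) - k * (m * y - m' * x) : ℤ)):ℝ)| := by
      exact_mod_cast h1
    linarith
  have hρ : (ρ:ℝ) * k = h := by
    have hR : (h:ℝ) * ((x:ℝ) - y) - k * (m * y - m' * x) = 0 := by exact_mod_cast hn
    have h6 : (x:ℝ) - y ≠ 0 := by
      intro h0
      apply hne
      have : (x:ℝ) = y := by linarith
      exact_mod_cast this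
    have h7 : ((ρ:ℝ) * k - h) * ((x:ℝ) - y) = 0 := by
      linear_combination (-1:ℝ) * hR - k * hex
    have h8 := (mul_eq_zero.1 h7).resolve_right h6
    linarith
  have hden : (ρ.den:ℝ) ≤ s^5 := by
    have := Nat.le_of_dvd hk1 (rat_int hρ)
    exact le_trans (by exact_mod_cast this) hk2
  have hdiff : |θ - ρ| ≤ 2 * s^5 / (t * Y) := by
    have e : (θ - ρ) * k = θ * k - h := by rw [← hρ]; ring
    calc |θ - ρ| ≤ |θ - ρ| * k := le_mul_of_one_le_right (abs_nonneg _) hk1'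
      _ = |(θ - ρ) * k| := by rw [abs_mul, abs_of_pos hk0]
      _ ≤ 2 * s^5 / (t * Y) := by rw [e]; exact hkh
  have e51 : t^(-(51/50):ℝ) = 1 / (s * t) := by
    rw [Real.rpow_neg ht0.le, one_div]
    congr 1
    rw [hs]
    conv_rhs => rw [← Real.rpow_one t, ← Real.rpow_mul ht0.le, one_mul, ← Real.rpow_add ht0]
    norm_num
  have main : ∀ (c w : ℝ), 0 < c → 1 ≤ w → w ≤ 2 * Y → w * c ≤ 1/t → 1 / (s * t) < w * c →
      Lab θ c ρ := by
    intro c w hc hw hwY hwc hbal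
    have h1 : 2 * s^5 / (t * Y) ≤ 8 * s^6 * c := by
      rw [div_le_iff₀ (by positivity)]
      rw [div_lt_iff₀ (by positivity)] at hbal
      have h2 : 1 ≤ 2 * Y * c * (s * t) := by
        refine hbal.le.trans ?_
        exact mul_le_mul_of_nonneg_right (mul_le_mul_of_nonneg_right hwY hc.le) (by positivity)
      calc 2 * s^5 = (2 * s^5) * 1 := by ring
        _ ≤ (2 * s^5) * (2 * Y * c * (s * t)) := mul_le_mul_of_nonneg_left h2 (by positivity)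
        _ = 4 * (s^6 * c * (t * Y)) := by ring
        _ ≤ 8 * (s^6 * c * (t * Y)) := by
            have : 0 ≤ s^6 * c * (t * Y) := by positivity
            linarith
        _ = 8 * s^6 * c * (t * Y) := by ring
    have h3 : c * s^50 ≤ 1 := by
      rw [← hts]
      have : c ≤ 1/t := (le_mul_of_one_le_left hc.le hw).trans hwc
      rwa [le_div_iff₀ ht0] at this
    have := LF765.lab_eta (η := 1) hs2 one_pos le_rfl (by
      rw [one_pow, mul_one]; exact pow_le_pow_left₀ (by norm_num) hs2 20) hc h3 hden (hdiff.trans h1)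
    rwa [one_mul] at this
  rw [e51] at hb1 hb2
  exact ⟨main r y hr hy1 hyz ((le_max_left _ _).trans hD) hb2,
    main r' x hr' hx1 hxz ((le_max_right _ _).trans hD) hb1⟩

end Cls

/-! ### the deep theorem, one target, at a scaled radius -/

set_option maxHeartbeats 1600000 in
theorem scaled2 : ∃ C c0 : ℝ, 1 ≤ C ∧ 0 < c0 ∧ ∀ c1 : ℝ, 0 < c1 → c1 ≤ c0 → ∃ T0 : ℝ, 1 ≤ T0 ∧
    ∀ (θ T X K L η : ℝ) (V W : Finset ℕ) (E : Finset (ℕ × ℕ)) (R R' : ℕ → ℝ) (F : ℕ × ℕ → ℝ)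
      (G : ℕ),
    T0 ≤ T → X ≤ Real.exp (T^c1) → 0 ≤ K → 0 < G → 0 < η → η ≤ 1 →
    (∀ w ∈ V, 0 < w ∧ 0 < R w) → (∀ w ∈ W, 0 < w ∧ 0 < R' w) →
    (∀ w ∈ V, R w ≤ L * wt R w) → (∀ w ∈ W, R' w ≤ L * wt R' w) →
    (∀ z : ℝ, X ≤ z → ∀ w ∈ V, Crest.Agent.R4.ClsB.Tame z G w) →
    (∀ z : ℝ, X ≤ z → ∀ w ∈ W, Crest.Agent.R4.ClsB.Tame z G w) →
    E ⊆ V ×ˢ W → (∀ e ∈ E, η * DP R R' e ≤ 1/T) →
    (∀ e ∈ E, F e ≤ K * ((R e.1 * R' e.2) / DP R R' e)) →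
    (∀ e ∈ E, ∀ t : ℝ, T ≤ t → 1/(2*t) < η * DP R R' e → η * DP R R' e ≤ 1/t → 0 < F e →
      Gen θ t (cof e.1 e.2) (cof e.2 e.1) (η * R e.1) (η * R' e.2)) →
    ∑ e ∈ E, F e ≤ C * K * L^2 * T^(-(6/1000):ℝ) *
      ((∑ q ∈ V, wt R q) * (∑ r ∈ W, wt R' r))^(1/2+eps1) := by
  classical
  obtain ⟨C, c0, hC1, hc0, hC⟩ := ClsAll.scale_energy
  set κ : ℝ := (2:ℝ)^(-(6/1000):ℝ) with hκ
  have hκ0 : 0 < κ := by positivity
  have hκ1 : κ < 1 := Real.rpow_lt_one_of_one_lt_of_neg (by norm_num) (by norm_num)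
  set Cg : ℝ := 1/(1-κ) with hCg
  have hd : 0 < 1 - κ := by linarith
  have hCg0 : 0 < Cg := by positivity
  have hCg1 : 1 ≤ Cg := by rw [hCg, le_div_iff₀ hd]; linarith
  refine ⟨2 * C * Cg, c0, by nlinarith, hc0, ?_⟩
  intro c1 hc1 hc10
  obtain ⟨T0, hT0⟩ := hC c1 hc1 hc10
  refine ⟨max T0 1, le_max_right _ _, ?_⟩
  intro θ T X K L η V W E R R' F G hT hX hK hG hη hη1 hV hW hLV hLW hVt hWt hE hD hF hgen
  have he1 : eps1 = 1/1000 := rfl
  have hT01 : T0 ≤ T := (le_max_left _ _).trans hT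
  have hT1' : 1 ≤ T := (le_max_right _ _).trans hT
  have hTp : 0 < T := by linarith
  set ψ : ℕ → ℝ := fun w => η * R w with hψ
  set ψ' : ℕ → ℝ := fun w => η * R' w with hψ'
  have hDe : ∀ e, DD ψ ψ' e = η * DP R R' e := by
    intro e
    unfold DD DP
    rw [mul_max_of_nonneg _ _ hη.le, hψ, hψ']
    congr 1 <;> ring
  have hmem : ∀ e ∈ E, e.1 ∈ V ∧ e.2 ∈ W := fun e he => Finset.mem_product.1 (hE he)
  have hDPpos : ∀ e ∈ E, 0 < DP R R' e := fun e he =>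
    DP_pos (hW _ (hmem e he).2).1 (hV _ (hmem e he).1).2
  have hmu : ∀ q ∈ V, 0 ≤ wt R q := fun q hq => by
    unfold wt; exact mul_nonneg (hV q hq).2.le (by positivity)
  have hmu' : ∀ q ∈ W, 0 ≤ wt R' q := fun q hq => by
    unfold wt; exact mul_nonneg (hW q hq).2.le (by positivity)
  have hwe : ∀ q, wt ψ q = η * wt R q := fun q => by unfold wt; rw [hψ]; ring
  have hwe' : ∀ q, wt ψ' q = η * wt R' q := fun q => by unfold wt; rw [hψ']; ring
  have hsum : ∑ q ∈ V, wt ψ q = η * ∑ q ∈ V, wt R q := by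
    rw [Finset.mul_sum]; exact Finset.sum_congr rfl fun q _ => hwe q
  have hsum' : ∑ q ∈ W, wt ψ' q = η * ∑ q ∈ W, wt R' q := by
    rw [Finset.mul_sum]; exact Finset.sum_congr rfl fun q _ => hwe' q
  have hM0 := Finset.sum_nonneg hmu
  have hM0' := Finset.sum_nonneg hmu'
  set M := (∑ v ∈ V, wt R v) * (∑ w ∈ W, wt R' w) with hM
  have hMM0 : 0 ≤ M := mul_nonneg hM0 hM0'
  have hMs : 0 ≤ M^(1/2+eps1) := Real.rpow_nonneg hMM0 _
  have hMψ : ((∑ v ∈ V, wt ψ v) * (∑ w ∈ W, wt ψ' w))^(1/2+eps1) ≤ η * M^(1/2+eps1) := by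
    rw [hsum, hsum']
    have e1 : (η * ∑ q ∈ V, wt R q) * (η * ∑ r ∈ W, wt R' r) = η^2 * M := by rw [hM]; ring
    rw [e1, Real.mul_rpow (by positivity) hMM0]
    have e2 : (η^2)^(1/2+eps1) = η * η^(2*eps1) := by
      rw [← Real.rpow_natCast, ← Real.rpow_mul hη.le]
      conv_rhs => rw [← Real.rpow_one η, ← Real.rpow_mul hη.le, ← Real.rpow_add hη]
      congr 1
      rw [he1]; norm_num
    rw [e2]
    apply mul_le_mul_of_nonneg_right _ hMs
    have h3 : η^(2*eps1) ≤ 1 := Real.rpow_le_one hη.le hη1 (by rw [he1]; norm_num)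
    calc η * η^(2*eps1) ≤ η * 1 := mul_le_mul_of_nonneg_left h3 hη.le
      _ = η := mul_one η
  have hRR : ∀ e ∈ E, R e.1 * R' e.2 ≤ L^2 * (wt R e.1 * wt R' e.2) := by
    intro e he
    have h1 := hLV _ (hmem e he).1
    have h2 := hLW _ (hmem e he).2
    have h5 : 0 ≤ L * wt R e.1 := (hV _ (hmem e he).1).2.le.trans h1
    calc R e.1 * R' e.2 ≤ (L * wt R e.1) * (L * wt R' e.2) :=
          mul_le_mul h1 h2 (hW _ (hmem e he).2).2.le h5
      _ = _ := by ring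
  set E' := E.filter (fun e => 0 < F e) with hE'
  have hstep0 : ∑ e ∈ E, F e ≤ ∑ e ∈ E', F e := by
    rw [hE', ← Finset.sum_filter_add_sum_filter_not E (fun e => 0 < F e)]
    have : ∑ e ∈ E.filter (fun e => ¬ 0 < F e), F e ≤ 0 :=
      Finset.sum_nonpos fun e he => not_lt.1 (Finset.mem_filter.1 he).2
    linarith
  refine hstep0.trans ?_
  set Di : ℕ × ℕ → ℝ := fun e => DD ψ ψ' e with hDi
  have hE'E : ∀ e ∈ E', e ∈ E := fun e he => (Finset.mem_filter.1 he).1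
  have hDpos : ∀ e ∈ E', 0 < Di e := by
    intro e he
    rw [hDi]
    simp only
    rw [hDe]
    exact mul_pos hη (hDPpos e (hE'E e he))
  set ix : ℕ × ℕ → ℕ := fun e => Nat.log 2 ⌊1/(T * Di e)⌋₊ with hix
  have hixp : ∀ e ∈ E', 1 / (2 * (2^(ix e) * T)) < Di e ∧ Di e ≤ 1 / (2^(ix e) * T) := by
    intro e he
    have h0 := hDpos e he
    have h1 : 1 ≤ 1/(T * Di e) := by
      rw [le_div_iff₀ (by positivity), one_mul]
      have := hD e (hE'E e he)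
      rw [← hDe, le_div_iff₀ hTp] at this
      simp only [hDi]; linarith
    have hfl : 1 ≤ ⌊1/(T * Di e)⌋₊ := Nat.le_floor (by simpa using h1)
    have h2 : 2^(ix e) ≤ ⌊1/(T * Di e)⌋₊ := Nat.pow_log_le_self 2 (by omega)
    have h3 : ⌊1/(T * Di e)⌋₊ < 2^(ix e + 1) := Nat.lt_pow_succ_log_self (by norm_num) _
    have h2' : (2:ℝ)^(ix e) ≤ 1/(T * Di e) := by
      calc (2:ℝ)^(ix e) ≤ (⌊1/(T * Di e)⌋₊ : ℝ) := by exact_mod_cast h2
        _ ≤ _ := Nat.floor_le (by positivity)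
    have h3' : 1/(T * Di e) < (2:ℝ)^(ix e + 1) := by
      have := Nat.lt_of_floor_lt h3
      push_cast at this; exact this
    have hp : (0:ℝ) < 2^(ix e) := by positivity
    rw [le_div_iff₀ (by positivity)] at h2'
    rw [div_lt_iff₀ (by positivity), pow_succ] at h3'
    constructor
    · rw [div_lt_iff₀ (by positivity)]; nlinarith
    · rw [le_div_iff₀ (by positivity)]; nlinarith
  set J : ℕ := E'.sup ix + 1 with hJ
  have hmaps : ∀ e ∈ E', ix e ∈ range J := by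
    intro e he
    rw [Finset.mem_range]
    have : ix e ≤ E'.sup ix := Finset.le_sup (f := ix) he
    omega
  have hscale : ∀ j ∈ range J, ∑ e ∈ E'.filter (fun e => ix e = j), F e
      ≤ 2 * C * K * L^2 * T^(-(6/1000):ℝ) * M^(1/2+eps1) * κ^j := by
    intro j _
    set t : ℝ := 2^j * T with ht
    have h2j : (1:ℝ) ≤ 2^j := one_le_pow₀ (by norm_num)
    have htT : T ≤ t := by rw [ht]; nlinarith
    have ht0 : 0 < t := by linarith
    have hXt : X ≤ Real.exp (t^c1) :=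
      hX.trans (Real.exp_le_exp.2 (Real.rpow_le_rpow hTp.le htT hc1.le))
    set E2 := E'.filter (fun e => ix e = j) with hE2
    have hFE : ∀ e ∈ E2, e ∈ E' := fun e he => (Finset.mem_filter.1 he).1
    have hFD : ∀ e ∈ E2, 1/(2*t) < DD ψ ψ' e ∧ DD ψ ψ' e ≤ 1/t := by
      intro e he
      have h := hixp e (hFE e he)
      rw [(Finset.mem_filter.1 he).2] at h
      exact h
    have h5 := hT0 θ t V W E2 ψ ψ' G (hT01.trans htT)
      { hδ := by positivity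
        hV := fun v hv => (hV v hv).1
        hW := fun v hv => (hW v hv).1
        hψ := fun v hv => (mul_pos hη (hV v hv).2).le
        hθ := fun v hv => (mul_pos hη (hW v hv).2).le
        hE := fun e he => hE (hE'E e (hFE e he))
        h1 := fun e he => (le_max_right _ _).trans (hFD e he).2
        h2 := fun e he => (le_max_left _ _).trans (hFD e he).2 } hG
      (hVt _ hXt) (hWt _ hXt)
      (fun e he => hgen e (hE'E e (hFE e he)) t htT (by rw [← hDe]; exact (hFD e he).1)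
        (by rw [← hDe]; exact (hFD e he).2) (Finset.mem_filter.1 (hFE e he)).2)
    have h6 : ∑ e ∈ E2, F e ≤ K * L^2 * (2*t) / η *
        ∑ e ∈ E2, wt ψ e.1 * wt ψ' e.2 * (Af (cof e.1 e.2) * Af (cof e.2 e.1)) := by
      rw [Finset.mul_sum]
      apply Finset.sum_le_sum
      intro e he
      have heE := hE'E e (hFE e he)
      have hDp := hDPpos e heE
      have f1 := Crest.Agent.R4.ClsS.one_le_Af (cof e.1 e.2)
      have f2 := Crest.Agent.R4.ClsS.one_le_Af (cof e.2 e.1)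
      have f4 : 0 ≤ wt R e.1 * wt R' e.2 :=
        mul_nonneg (hmu _ (hmem e heE).1) (hmu' _ (hmem e heE).2)
      have f5 : wt R e.1 * wt R' e.2 ≤
          wt R e.1 * wt R' e.2 * (Af (cof e.1 e.2) * Af (cof e.2 e.1)) :=
        le_mul_of_one_le_right f4 (by nlinarith)
      have f6 : 0 ≤ wt R e.1 * wt R' e.2 * (Af (cof e.1 e.2) * Af (cof e.2 e.1)) := f4.trans f5
      have h7 : 1 / DP R R' e ≤ 2 * t * η := by
        rw [div_le_iff₀ hDp]
        have := (hFD e he).1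
        rw [hDe, div_lt_iff₀ (by positivity)] at this
        nlinarith
      calc F e ≤ K * ((R e.1 * R' e.2) / DP R R' e) := hF e heE
        _ = K * (R e.1 * R' e.2) * (1 / DP R R' e) := by ring
        _ ≤ K * (L^2 * (wt R e.1 * wt R' e.2 * (Af (cof e.1 e.2) * Af (cof e.2 e.1)))) *
              (2 * t * η) := by
            apply mul_le_mul _ h7 (by positivity) (by positivity)
            apply mul_le_mul_of_nonneg_left _ hK
            exact (hRR e heE).trans (mul_le_mul_of_nonneg_left f5 (by positivity))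
        _ = K * L^2 * (2*t) / η *
              (wt ψ e.1 * wt ψ' e.2 * (Af (cof e.1 e.2) * Af (cof e.2 e.1))) := by
            rw [hwe, hwe']
            field_simp
    have h8 := h5.trans (mul_le_mul_of_nonneg_left hMψ (by positivity))
    have e1 : t^(-(6/1000):ℝ) = T^(-(6/1000):ℝ) * κ^j := by
      rw [ht, Real.mul_rpow (by positivity) hTp.le, hκ, ← Real.rpow_natCast, ← Real.rpow_natCast,
        ← Real.rpow_mul (by norm_num), ← Real.rpow_mul (by norm_num), mul_comm (j:ℝ)]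
      ring
    have e2 : t * t^(-(1006/1000):ℝ) = t^(-(6/1000):ℝ) := by
      nth_rw 1 [← Real.rpow_one t]
      rw [← Real.rpow_add ht0]; norm_num
    calc ∑ e ∈ E2, F e ≤ K * L^2 * (2*t) / η *
          (C * t^(-(1006/1000):ℝ) * (η * M^(1/2+eps1))) :=
          h6.trans (mul_le_mul_of_nonneg_left h8 (by positivity))
      _ = 2 * C * K * L^2 * (t * t^(-(1006/1000):ℝ)) * M^(1/2+eps1) := by field_simp
      _ = _ := by rw [e2, e1]; ring
  rw [← Finset.sum_fiberwise_of_maps_to hmaps]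
  refine (Finset.sum_le_sum hscale).trans ?_
  rw [← Finset.mul_sum]
  have hgeo : ∑ j ∈ range J, κ^j ≤ Cg := by
    rw [geom_sum_eq (by linarith), hCg]
    have h1 : 0 ≤ κ^J := by positivity
    rw [show (κ^J - 1)/(κ - 1) = (1 - κ^J)/(1-κ) by
      rw [← neg_div_neg_eq]; congr 1 <;> ring]
    apply div_le_div_of_nonneg_right _ (by linarith)
    linarith
  calc 2 * C * K * L^2 * T^(-(6/1000):ℝ) * M^(1/2+eps1) * ∑ j ∈ range J, κ^j
      ≤ 2 * C * K * L^2 * T^(-(6/1000):ℝ) * M^(1/2+eps1) * Cg :=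
        mul_le_mul_of_nonneg_left hgeo (by positivity)
    _ = _ := by ring

/-! ### one label -/

set_option maxHeartbeats 1600000 in
/-- **D2, one label**, dead on one side -/
theorem gain1' : ∃ C c0 : ℝ, 1 ≤ C ∧ 0 < c0 ∧ ∀ c1 : ℝ, 0 < c1 → c1 ≤ c0 → ∃ T0 : ℝ, 1 ≤ T0 ∧
    ∀ (X L K θ Q Y : ℝ) (ρ : ℚ) (G : ℕ) (V W : Finset ℕ) (E : Finset (ℕ × ℕ)) (R R' : ℕ → ℝ)
      (F : ℕ × ℕ → ℝ),
    (2:ℝ)^400 ≤ Q → T0 ≤ Q → X ≤ Real.exp (Q^c1) → 1 ≤ Y → 0 < G → 0 ≤ K → E ⊆ V ×ˢ W →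
    (∀ w ∈ V, 0 < w ∧ 0 < R w) → (∀ w ∈ W, 0 < w ∧ 0 < R' w) →
    (∀ w ∈ V, R w ≤ L * wt R w) → (∀ w ∈ W, R' w ≤ L * wt R' w) →
    (∀ z : ℝ, X ≤ z → ∀ w ∈ V, Crest.Agent.R4.ClsB.Tame z G w) →
    (∀ z : ℝ, X ≤ z → ∀ w ∈ W, Crest.Agent.R4.ClsB.Tame z G w) →
    (∀ e ∈ E, F e ≤ K * ((R e.1 * R' e.2) / DP R R' e)) →
    (∀ e ∈ E, 0 < F e → e.1 ≠ e.2 ∧
      (∃ m m' : ℤ, ((m:ℝ) + ρ) * (cof e.2 e.1 : ℕ) = (m' + ρ) * (cof e.1 e.2 : ℕ)) ∧
      |θ - ρ| * |((cof e.2 e.1 : ℕ):ℝ) - (cof e.1 e.2 : ℕ)| ≤ 2 * DP R R' e ∧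
      (¬ Lab θ (R e.1) ρ ∨ ¬ Lab θ (R' e.2) ρ) ∧
      (Q ≤ ρ.den ∨ Q * R e.1 ≤ |θ - ρ| ∨ Q * R' e.2 ≤ |θ - ρ|)) →
    ∑ e ∈ E, F e ≤ K * L^2 *
        (Y⁻¹ * ((∑ q ∈ V, wt R q) * ∑ r ∈ W, wt R' r) +
          C * (1 + Real.log Y / Real.log Q) * Q^(-(48/1000):ℝ) *
            ((∑ q ∈ V, wt R q) * ∑ r ∈ W, wt R' r)^(1/2+eps1)) := by
  classical
  obtain ⟨C, c0, hC1, hc0, hC⟩ := scaled2
  refine ⟨42 * C, c0, by linarith, hc0, ?_⟩
  intro c1 hc1 hc10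
  obtain ⟨T0, hT01, hT0⟩ := hC c1 hc1 hc10
  refine ⟨T0, hT01, ?_⟩
  intro X L K θ Q Y ρ G V W E R R' F hQ hTQ hX hY hG hK hES hV hW hLV hLW hVt hWt hF hP
  have hQ0 : 0 < Q := lt_of_lt_of_le (by positivity) hQ
  have hQ1 : 1 ≤ Q := le_trans (one_le_pow₀ (by norm_num)) hQ
  have hQ2 : 1 < Q := lt_of_lt_of_le (one_lt_pow₀ (by norm_num) (by norm_num)) hQ
  have hlQ : 0 < Real.log Q := Real.log_pos hQ2
  have hlY : 0 ≤ Real.log Y := Real.log_nonneg hY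
  have hY0 : 0 < Y := by linarith
  have hQ8 : Q ≤ Q^8 := le_self_pow₀ hQ1 (by norm_num)
  have hT8 : T0 ≤ Q^8 := hTQ.trans hQ8
  have hX8 : X ≤ Real.exp ((Q^8)^c1) :=
    hX.trans (Real.exp_le_exp.2 (Real.rpow_le_rpow hQ0.le hQ8 hc1.le))
  have hmem : ∀ e ∈ E, e.1 ∈ V ∧ e.2 ∈ W := fun e he => Finset.mem_product.1 (hES he)
  have hDpos : ∀ e ∈ E, 0 < DP R R' e := fun e he => DP_pos (hW _ (hmem e he).2).1 (hV _ (hmem e he).1).2
  have hmu : ∀ q ∈ V, 0 ≤ wt R q := fun q hq => by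
    unfold wt; exact mul_nonneg (hV q hq).2.le (by positivity)
  have hmu' : ∀ q ∈ W, 0 ≤ wt R' q := fun q hq => by
    unfold wt; exact mul_nonneg (hW q hq).2.le (by positivity)
  have hM0 := Finset.sum_nonneg hmu
  have hM0' := Finset.sum_nonneg hmu'
  set MM : ℝ := (∑ q ∈ V, wt R q) * ∑ r ∈ W, wt R' r with hMM
  have hMM0 : 0 ≤ MM := mul_nonneg hM0 hM0'
  have hPP : 0 ≤ MM^(1/2+eps1) := Real.rpow_nonneg hMM0 _
  have hRR : ∀ e ∈ E, R e.1 * R' e.2 ≤ L^2 * (wt R e.1 * wt R' e.2) := by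
    intro e he
    have h1 := hLV _ (hmem e he).1
    have h2 := hLW _ (hmem e he).2
    have h5 : 0 ≤ L * wt R e.1 := (hV _ (hmem e he).1).2.le.trans h1
    calc R e.1 * R' e.2 ≤ (L * wt R e.1) * (L * wt R' e.2) :=
          mul_le_mul h1 h2 (hW _ (hmem e he).2).2.le h5
      _ = _ := by ring
  have hcof : ∀ e ∈ E, 0 < cof e.1 e.2 ∧ 0 < cof e.2 e.1 := fun e he =>
    ⟨cof_pos (hV _ (hmem e he).1).1, cof_pos (hW _ (hmem e he).2).1⟩
  have g8 : (Q^8)^(-(6/1000):ℝ) = Q^(-(48/1000):ℝ) := by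
    rw [← Real.rpow_natCast, ← Real.rpow_mul hQ0.le]; norm_num
  have e8 : Q^(-8:ℝ) = 1/Q^8 := by
    rw [Real.rpow_neg hQ0.le, one_div]
    congr 1
    rw [← Real.rpow_natCast]; norm_num
  -- the general mid-range bound
  have mid : ∀ (η : ℝ) (E' : Finset (ℕ × ℕ)), 0 < η → η ≤ 1 → E' ⊆ E →
      (∀ e ∈ E', η * DP R R' e ≤ 1/Q^8) → (∀ e ∈ E', Q^(-(41/5):ℝ) ≤ η * DP R R' e) →
      ∑ e ∈ E', F e ≤ C * K * L^2 * Q^(-(48/1000):ℝ) * MM^(1/2+eps1) := by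
    intro η E' hη hη1 hE'E h1 h2
    rw [← g8]
    have hup : ∀ e ∈ E', ∀ t : ℝ, 0 < t → η * DP R R' e ≤ 1/t → t ≤ Q^(41/5:ℝ) := by
      intro e he t ht h3
      have h4 := (h2 e he).trans h3
      rw [Real.rpow_neg hQ0.le, ← one_div] at h4
      exact (one_div_le_one_div (by positivity) ht).1 h4
    by_cases hden : Q ≤ ρ.den
    · refine hT0 (ρ:ℝ) (Q^8) X K L η V W E' R R' F G hT8 hX8 hK hG hη hη1 hV hW hLV hLW hVt hWt
        (hE'E.trans hES) h1 (fun e he => hF e (hE'E he)) ?_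
      intro e he t ht h3 h4 hFe
      have ht0 : 0 < t := lt_of_lt_of_le (by positivity) ht
      obtain ⟨hne, ⟨m, m', hex⟩, hov, -⟩ := hP e (hE'E he) hFe
      have hcf := hcof e (hE'E he)
      exact gen2_k hQ hden ht (hup e he t ht0 h4) hcf.1 hcf.2 (cof_ne hne) hex
    · rw [not_le] at hden
      refine hT0 (ρ + η * (θ - ρ)) (Q^8) X K L η V W E' R R' F G hT8 hX8 hK hG hη hη1
        hV hW hLV hLW hVt hWt (hE'E.trans hES) h1 (fun e he => hF e (hE'E he)) ?_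
      intro e he t ht h3 h4 hFe
      have ht0 : 0 < t := lt_of_lt_of_le (by positivity) ht
      obtain ⟨hne, ⟨m, m', hex⟩, hov, -, hc⟩ := hP e (hE'E he) hFe
      have hc2 : Q * R e.1 ≤ |θ - ρ| ∨ Q * R' e.2 ≤ |θ - ρ| := by
        rcases hc with h | h
        · exact absurd h (not_le.2 hden)
        · exact h
      have hcf := hcof e (hE'E he)
      exact gen2_l hQ hden ht (hup e he t ht0 h4) hη hcf.1 hcf.2
        (cof_ne hne) hex hov h4 hc2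
  -- splitting
  set EB := E.filter (fun e => Y < DP R R' e) with hEB
  set E1 := E.filter (fun e => ¬ Y < DP R R' e) with hE1
  set EM := E1.filter (fun e => Q^(-8:ℝ) < DP R R' e) with hEM
  set ED := E1.filter (fun e => ¬ Q^(-8:ℝ) < DP R R' e) with hED
  have hsplit : ∑ e ∈ E, F e = ∑ e ∈ EB, F e + (∑ e ∈ EM, F e + ∑ e ∈ ED, F e) := by
    rw [hEM, hED, Finset.sum_filter_add_sum_filter_not, hEB, hE1, Finset.sum_filter_add_sum_filter_not]
  have m1 : ∀ e ∈ E1, e ∈ E := fun e he => (Finset.mem_filter.1 he).1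
  -- (B)
  have bB : ∑ e ∈ EB, F e ≤ K * L^2 * (Y⁻¹ * MM) := by
    have hterm : ∀ e ∈ EB, F e ≤ K * L^2 * Y⁻¹ * (wt R e.1 * wt R' e.2) := by
      intro e he
      have heE := (Finset.mem_filter.1 he).1
      have hD := (Finset.mem_filter.1 he).2
      have hww : 0 ≤ wt R e.1 * wt R' e.2 :=
        mul_nonneg (hmu _ (hmem e heE).1) (hmu' _ (hmem e heE).2)
      calc F e ≤ K * ((R e.1 * R' e.2) / DP R R' e) := hF e heE
        _ ≤ K * ((L^2 * (wt R e.1 * wt R' e.2)) / Y) := by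
            apply mul_le_mul_of_nonneg_left _ hK
            exact div_le_div₀ (by positivity) (hRR e heE) hY0 hD.le
        _ = K * L^2 * Y⁻¹ * (wt R e.1 * wt R' e.2) := by
            field_simp
    calc ∑ e ∈ EB, F e ≤ ∑ e ∈ EB, K * L^2 * Y⁻¹ * (wt R e.1 * wt R' e.2) :=
          Finset.sum_le_sum hterm
      _ ≤ ∑ e ∈ V ×ˢ W, K * L^2 * Y⁻¹ * (wt R e.1 * wt R' e.2) := by
          apply Finset.sum_le_sum_of_subset_of_nonneg
          · exact fun e he => hES (Finset.mem_filter.1 he).1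
          · intro e he _
            have := Finset.mem_product.1 he
            have h1 := hmu _ this.1
            have h2 := hmu' _ this.2
            positivity
      _ = K * L^2 * (Y⁻¹ * MM) := by
          rw [← Finset.mul_sum, hMM, Finset.sum_mul_sum, Finset.sum_product]
          ring
  -- (M) windows
  set B1 : ℝ := C * K * L^2 * Q^(-(48/1000):ℝ) * MM^(1/2+eps1) with hB1
  have hC0 : 0 ≤ C := by linarith
  have hB10 : 0 ≤ B1 := by positivity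
  set z : ℝ := 5 * (Real.log Y / Real.log Q + 8) with hz
  have hz0 : 0 ≤ z := by positivity
  set ix : ℕ × ℕ → ℕ := fun e => ⌊5 * Real.log (Y / DP R R' e) / Real.log Q⌋₊ with hix
  have hixp : ∀ e ∈ EM, (ix e : ℝ) < z ∧ Y * Q^(-((ix e : ℝ) + 1)/5) < DP R R' e ∧
      DP R R' e ≤ Y * Q^(-(ix e : ℝ)/5) := by
    intro e he
    obtain ⟨he1, he2⟩ := Finset.mem_filter.1 he
    have hDY : DP R R' e ≤ Y := not_lt.1 (Finset.mem_filter.1 he1).2
    have hD0 := hDpos e (m1 e he1)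
    have hr1 : 1 ≤ Y / DP R R' e := by rw [le_div_iff₀ hD0]; linarith
    have hl0 : 0 ≤ Real.log (Y / DP R R' e) := Real.log_nonneg hr1
    have hv0 : 0 ≤ 5 * Real.log (Y / DP R R' e) / Real.log Q := by positivity
    have h1 : (ix e : ℝ) ≤ 5 * Real.log (Y / DP R R' e) / Real.log Q := Nat.floor_le hv0
    have h2 : 5 * Real.log (Y / DP R R' e) / Real.log Q < (ix e : ℝ) + 1 := Nat.lt_floor_add_one _
    refine ⟨?_, ?_, ?_⟩
    · refine lt_of_le_of_lt h1 ?_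
      have h3 : Real.log (Y / DP R R' e) < Real.log Y + 8 * Real.log Q := by
        rw [Real.log_div hY0.ne' hD0.ne']
        have h4 := Real.log_lt_log (by positivity) he2
        rw [Real.log_rpow hQ0] at h4
        linarith
      rw [hz, div_lt_iff₀ hlQ]
      have h5 : 5 * (Real.log Y / Real.log Q + 8) * Real.log Q =
          5 * (Real.log Y + 8 * Real.log Q) := by field_simp
      rw [h5]; linarith
    · rw [div_lt_iff₀ hlQ] at h2
      have h3 : Real.log (Y * Q^(-((ix e : ℝ) + 1)/5)) < Real.log (DP R R' e) := by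
        rw [Real.log_mul hY0.ne' (by positivity), Real.log_rpow hQ0]
        rw [Real.log_div hY0.ne' hD0.ne'] at h2
        linarith
      exact (Real.log_lt_log_iff (by positivity) hD0).1 h3
    · rw [le_div_iff₀ hlQ] at h1
      have h3 : Real.log (DP R R' e) ≤ Real.log (Y * Q^(-(ix e : ℝ)/5)) := by
        rw [Real.log_mul hY0.ne' (by positivity), Real.log_rpow hQ0]
        rw [Real.log_div hY0.ne' hD0.ne'] at h1
        linarith
      exact (Real.log_le_log_iff hD0 (by positivity)).1 h3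
  set J : ℕ := ⌈z⌉₊ with hJ
  have hmaps : ∀ e ∈ EM, ix e ∈ range J := by
    intro e he
    rw [Finset.mem_range, hJ, Nat.lt_ceil]
    exact (hixp e he).1
  have hwin : ∀ i ∈ range J, ∑ e ∈ EM.filter (fun e => ix e = i), F e ≤ B1 := by
    intro i hi
    have hiz : (i:ℝ) < z := by
      rw [Finset.mem_range, hJ, Nat.lt_ceil] at hi; exact hi
    set η : ℝ := Q^(-8:ℝ) / (Y * Q^(-(i:ℝ)/5)) with hηd
    have hηpos : 0 < η := by positivity
    have hη1 : η ≤ 1 := by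
      rw [hηd, div_le_one (by positivity)]
      have h1 : Real.log (Q^(-8:ℝ)) ≤ Real.log (Y * Q^(-(i:ℝ)/5)) := by
        rw [Real.log_mul hY0.ne' (by positivity), Real.log_rpow hQ0, Real.log_rpow hQ0]
        have h5 : (i:ℝ) * Real.log Q ≤ 5 * (Real.log Y + 8 * Real.log Q) := by
          calc (i:ℝ) * Real.log Q ≤ z * Real.log Q := mul_le_mul_of_nonneg_right hiz.le hlQ.le
            _ = 5 * (Real.log Y + 8 * Real.log Q) := by rw [hz]; field_simp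
        linarith
      exact (Real.log_le_log_iff (by positivity) (by positivity)).1 h1
    refine mid η (EM.filter (fun e => ix e = i)) hηpos hη1
      (fun e he => m1 e (Finset.mem_filter.1 (Finset.mem_filter.1 he).1).1) ?_ ?_
    · intro e he
      obtain ⟨he1, he2⟩ := Finset.mem_filter.1 he
      have h := (hixp e he1).2.2
      rw [he2] at h
      calc η * DP R R' e ≤ η * (Y * Q^(-(i:ℝ)/5)) := mul_le_mul_of_nonneg_left h hηpos.le
        _ = Q^(-8:ℝ) := by rw [hηd]; field_simp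
        _ = 1/Q^8 := e8
    · intro e he
      obtain ⟨he1, he2⟩ := Finset.mem_filter.1 he
      have h := (hixp e he1).2.1
      rw [he2] at h
      calc Q^(-(41/5):ℝ) = η * (Y * Q^(-((i:ℝ) + 1)/5)) := by
            rw [hηd]
            have e1 : Q^(-((i:ℝ) + 1)/5) = Q^(-(i:ℝ)/5) * Q^(-(1/5):ℝ) := by
              rw [← Real.rpow_add hQ0]; congr 1; ring
            have e2 : Q^(-(41/5):ℝ) = Q^(-8:ℝ) * Q^(-(1/5):ℝ) := by
              rw [← Real.rpow_add hQ0]; norm_num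
            rw [e1, e2]; field_simp
        _ ≤ η * DP R R' e := mul_le_mul_of_nonneg_left h.le hηpos.le
  have bM : ∑ e ∈ EM, F e ≤ (z + 1) * B1 := by
    rw [← Finset.sum_fiberwise_of_maps_to hmaps]
    refine (Finset.sum_le_sum hwin).trans ?_
    rw [Finset.sum_const, Finset.card_range, nsmul_eq_mul]
    apply mul_le_mul_of_nonneg_right _ hB10
    exact (Nat.ceil_lt_add_one hz0).le
  -- (D)
  have bD : ∑ e ∈ ED, F e ≤ B1 := by
    rw [hB1, ← g8]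
    have ht400 : ∀ t : ℝ, Q^8 ≤ t → (2:ℝ)^400 ≤ t := fun t ht => hQ.trans (hQ8.trans ht)
    refine hT0 θ (Q^8) X K L 1 V W ED R R' F G hT8 hX8 hK hG one_pos le_rfl hV hW hLV hLW hVt hWt
      (fun e he => hES (m1 e (Finset.mem_filter.1 he).1)) ?_
      (fun e he => hF e (m1 e (Finset.mem_filter.1 he).1)) ?_
    · intro e he
      rw [one_mul, ← e8]
      exact not_lt.1 (Finset.mem_filter.1 he).2
    · intro e he t ht h3 h4 hFe
      rw [one_mul] at h3 h4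
      have heE := m1 e (Finset.mem_filter.1 he).1
      obtain ⟨hne, ⟨m, m', hex⟩, hov, hdead, -⟩ := hP e heE hFe
      have hcf := hcof e heE
      rw [one_mul, one_mul]
      refine gen2_d (ht400 t ht) hcf.1 hcf.2 (cof_ne hne) (hV _ (hmem e heE).1).2
        (hW _ (hmem e heE).2).2 hex hov h4 ?_
      rintro ⟨g1, g2⟩
      rcases hdead with h | h
      · exact h g1
      · exact h g2
  rw [hsplit]
  have hz2 : z + 1 + 1 ≤ 42 * (1 + Real.log Y / Real.log Q) := by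
    have : 0 ≤ Real.log Y / Real.log Q := by positivity
    rw [hz]; linarith
  calc _ ≤ K * L^2 * (Y⁻¹ * MM) + ((z + 1) * B1 + B1) := by linarith
    _ = K * L^2 * (Y⁻¹ * MM) + (z + 1 + 1) * B1 := by ring
    _ ≤ K * L^2 * (Y⁻¹ * MM) + (42 * (1 + Real.log Y / Real.log Q)) * B1 :=
        add_le_add le_rfl (mul_le_mul_of_nonneg_right hz2 hB10)
    _ = _ := by rw [hB1]; ring

/-! ### all labels -/

/-- **D2, second form**: exact pairs with equal labels, one target `θ`, the label dead on one of the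
two sides, and with denominator `≥ Q` or at distance `≥ Q R` of the target for one of the two radii;
`Y ≥ 1` is free. -/
theorem gainKL2 : ∃ C c0 : ℝ, 1 ≤ C ∧ 0 < c0 ∧ ∀ c1 : ℝ, 0 < c1 → c1 ≤ c0 → ∃ T0 : ℝ, 1 ≤ T0 ∧
    ∀ (X L K θ Q Y : ℝ) (τ τ' : ℕ → ℚ) (G : ℕ) (V W : Finset ℕ) (E : Finset (ℕ × ℕ)) (R R' : ℕ → ℝ)
      (F : ℕ × ℕ → ℝ),
    (2:ℝ)^400 ≤ Q → T0 ≤ Q → X ≤ Real.exp (Q^c1) → 1 ≤ Y → 0 < G → 0 ≤ K → E ⊆ V ×ˢ W →
    (∀ w ∈ V, 0 < w ∧ 0 < R w) → (∀ w ∈ W, 0 < w ∧ 0 < R' w) →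
    (∀ w ∈ V, R w ≤ L * wt R w) → (∀ w ∈ W, R' w ≤ L * wt R' w) →
    (∀ z : ℝ, X ≤ z → ∀ w ∈ V, Crest.Agent.R4.ClsB.Tame z G w) →
    (∀ z : ℝ, X ≤ z → ∀ w ∈ W, Crest.Agent.R4.ClsB.Tame z G w) →
    (∀ e ∈ E, F e ≤ K * ((R e.1 * R' e.2) / DP R R' e)) →
    (∀ e ∈ E, 0 < F e → e.1 ≠ e.2 ∧ τ e.1 = τ' e.2 ∧
      (∃ m m' : ℤ, ((m:ℝ) + τ e.1) * (cof e.2 e.1 : ℕ) = (m' + τ e.1) * (cof e.1 e.2 : ℕ)) ∧
      |θ - τ e.1| * |((cof e.2 e.1 : ℕ):ℝ) - (cof e.1 e.2 : ℕ)| ≤ 2 * DP R R' e ∧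
      (¬ Lab θ (R e.1) (τ e.1) ∨ ¬ Lab θ (R' e.2) (τ e.1)) ∧
      (Q ≤ (τ e.1).den ∨ Q * R e.1 ≤ |θ - τ e.1| ∨ Q * R' e.2 ≤ |θ - τ e.1|)) →
    ∑ e ∈ E, F e ≤ K * L^2 *
        (Y⁻¹ * ((∑ q ∈ V, wt R q) * ∑ r ∈ W, wt R' r) +
          C * (1 + Real.log Y / Real.log Q) * Q^(-(48/1000):ℝ) *
            ((∑ q ∈ V, wt R q) * ∑ r ∈ W, wt R' r)^(1/2+eps1)) := by
  classical
  obtain ⟨C, c0, hC1, hc0, hC⟩ := gain1'
  refine ⟨C, c0, hC1, hc0, ?_⟩
  intro c1 hc1 hc10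
  obtain ⟨T0, hT01, hT0⟩ := hC c1 hc1 hc10
  refine ⟨T0, hT01, ?_⟩
  intro X L K θ Q Y τ τ' G V W E R R' F hQ hTQ hX hY hG hK hES hV hW hLV hLW hVt hWt hF hP
  have he1 : eps1 = 1/1000 := rfl
  have hQ0 : 0 < Q := lt_of_lt_of_le (by positivity) hQ
  have hQ2 : 1 < Q := lt_of_lt_of_le (one_lt_pow₀ (by norm_num) (by norm_num)) hQ
  have hlQ : 0 < Real.log Q := Real.log_pos hQ2
  have hlY : 0 ≤ Real.log Y := Real.log_nonneg hY
  have hY0 : 0 < Y := by linarith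
  have hmu : ∀ q ∈ V, 0 ≤ wt R q := fun q hq => by
    unfold wt; exact mul_nonneg (hV q hq).2.le (by positivity)
  have hmu' : ∀ q ∈ W, 0 ≤ wt R' q := fun q hq => by
    unfold wt; exact mul_nonneg (hW q hq).2.le (by positivity)
  set Ep := E.filter (fun e => 0 < F e) with hEp
  set I : Finset ℚ := V.image τ ∪ W.image τ' with hI
  have hsum0 : ∑ e ∈ E, F e ≤ ∑ e ∈ Ep, F e := by
    rw [hEp, ← Finset.sum_filter_add_sum_filter_not E (fun e => 0 < F e)]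
    have : ∑ e ∈ E.filter (fun e => ¬ 0 < F e), F e ≤ 0 :=
      Finset.sum_nonpos fun e he => not_lt.1 (Finset.mem_filter.1 he).2
    linarith
  have hmapE : ∀ e ∈ Ep, τ e.1 ∈ I := fun e he =>
    Finset.mem_union_left _ (Finset.mem_image_of_mem τ
      (Finset.mem_product.1 (hES (Finset.mem_filter.1 he).1)).1)
  have hsplit : ∑ e ∈ Ep, F e = ∑ ρ ∈ I, ∑ e ∈ Ep.filter (fun e => τ e.1 = ρ), F e :=
    (Finset.sum_fiberwise_of_maps_to hmapE F).symm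
  have hsV : ∑ ρ ∈ I, ∑ q ∈ V.filter (fun q => τ q = ρ), wt R q = ∑ q ∈ V, wt R q :=
    Finset.sum_fiberwise_of_maps_to (fun q hq => Finset.mem_union_left _ (Finset.mem_image_of_mem τ hq)) _
  have hsW : ∑ ρ ∈ I, ∑ q ∈ W.filter (fun q => τ' q = ρ), wt R' q = ∑ q ∈ W, wt R' q :=
    Finset.sum_fiberwise_of_maps_to (fun q hq => Finset.mem_union_right _ (Finset.mem_image_of_mem τ' hq)) _
  set a : ℚ → ℝ := fun ρ => ∑ q ∈ V.filter (fun q => τ q = ρ), wt R q with ha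
  set b : ℚ → ℝ := fun ρ => ∑ q ∈ W.filter (fun q => τ' q = ρ), wt R' q with hb
  have ha0 : ∀ ρ ∈ I, 0 ≤ a ρ := fun ρ _ => Finset.sum_nonneg fun q hq => hmu q (Finset.mem_filter.1 hq).1
  have hb0 : ∀ ρ ∈ I, 0 ≤ b ρ := fun ρ _ => Finset.sum_nonneg fun q hq => hmu' q (Finset.mem_filter.1 hq).1
  have hone : ∀ ρ ∈ I, ∑ e ∈ Ep.filter (fun e => τ e.1 = ρ), F e ≤
      K * L^2 * (Y⁻¹ * (a ρ * b ρ) +
          C * (1 + Real.log Y / Real.log Q) * Q^(-(48/1000):ℝ) * (a ρ * b ρ)^(1/2+eps1)) := by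
    intro ρ _
    refine hT0 X L K θ Q Y ρ G (V.filter (fun q => τ q = ρ)) (W.filter (fun q => τ' q = ρ))
      (Ep.filter (fun e => τ e.1 = ρ)) R R' F hQ hTQ hX hY hG hK ?_
      (fun w hw => hV w (Finset.mem_filter.1 hw).1) (fun w hw => hW w (Finset.mem_filter.1 hw).1)
      (fun w hw => hLV w (Finset.mem_filter.1 hw).1) (fun w hw => hLW w (Finset.mem_filter.1 hw).1)
      (fun z hz w hw => hVt z hz w (Finset.mem_filter.1 hw).1)
      (fun z hz w hw => hWt z hz w (Finset.mem_filter.1 hw).1)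
      (fun e he => hF e (Finset.mem_filter.1 (Finset.mem_filter.1 he).1).1) ?_
    · intro e he
      obtain ⟨he1', he2⟩ := Finset.mem_filter.1 he
      obtain ⟨he3, he4⟩ := Finset.mem_filter.1 he1'
      have h1 := Finset.mem_product.1 (hES he3)
      have h2 := (hP e he3 he4).2.1
      exact Finset.mem_product.2 ⟨Finset.mem_filter.2 ⟨h1.1, he2⟩,
        Finset.mem_filter.2 ⟨h1.2, by rw [← h2]; exact he2⟩⟩
    · intro e he hFe
      obtain ⟨he1', he2⟩ := Finset.mem_filter.1 he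
      obtain ⟨he3, he4⟩ := Finset.mem_filter.1 he1'
      obtain ⟨h1, _, h3, h4, h5, h6⟩ := hP e he3 he4
      rw [he2] at h3 h4 h5 h6
      exact ⟨h1, h3, h4, h5, h6⟩
  have hprod : ∑ ρ ∈ I, a ρ * b ρ ≤ (∑ q ∈ V, wt R q) * ∑ r ∈ W, wt R' r := by
    have := diag_rpow I a b (s := 1) (by norm_num) ha0 hb0
    simp only [Real.rpow_one] at this
    rw [← hsV, ← hsW]; exact this
  have hpw : ∑ ρ ∈ I, (a ρ * b ρ)^(1/2+eps1) ≤
      ((∑ q ∈ V, wt R q) * ∑ r ∈ W, wt R' r)^(1/2+eps1) := by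
    have := diag_rpow I a b (s := 1/2+eps1) (by rw [he1]; norm_num) ha0 hb0
    rw [← hsV, ← hsW]; exact this
  refine hsum0.trans ?_
  rw [hsplit]
  have hC0 : 0 ≤ C := by linarith
  have hK2 : 0 ≤ C * (1 + Real.log Y / Real.log Q) * Q^(-(48/1000):ℝ) := by positivity
  calc ∑ ρ ∈ I, ∑ e ∈ Ep.filter (fun e => τ e.1 = ρ), F e
      ≤ ∑ ρ ∈ I, (K * L^2 * (Y⁻¹ * (a ρ * b ρ) +
          C * (1 + Real.log Y / Real.log Q) * Q^(-(48/1000):ℝ) * (a ρ * b ρ)^(1/2+eps1))) :=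
        Finset.sum_le_sum hone
    _ = K * L^2 * (Y⁻¹ * (∑ ρ ∈ I, a ρ * b ρ) +
          C * (1 + Real.log Y / Real.log Q) * Q^(-(48/1000):ℝ) *
            ∑ ρ ∈ I, (a ρ * b ρ)^(1/2+eps1)) := by
        rw [← Finset.mul_sum, Finset.sum_add_distrib, Finset.mul_sum, Finset.mul_sum]
    _ ≤ _ := by
        apply mul_le_mul_of_nonneg_left _ (by positivity)
        apply add_le_add
        · exact mul_le_mul_of_nonneg_left hprod (by positivity)
        · exact mul_le_mul_of_nonneg_left hpw hK2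

end Crest.Agent.R4P.GainKL24
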