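import Crest.Agent.R4P.RseT_738

/-!
R4 (S0004), powers pass, [W-dseR] (N5), helper30: **tag pairs, a summable gain**.

`RseT738.rseT` with `k := p^(-K)`, `K` any real: item pairs with `p`-smooth cofactors one of which is
at least `2^p` have total energy at most `p^(-K)` times the mass.
-/

set_option autoImplicit false
open Finset Filter Topology

namespace Crest.Agent.R4P.RseN530

open Crest.Agent.R4.HVW560 Crest.Agent.R4.InX944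

/-- numbers -/
theorem numT (CL K : ℝ) : ∃ p₁ : ℕ, ∀ p : ℕ, p₁ ≤ p →
    2 * ((2:ℝ)^p)^(-(1/4):ℝ) * Real.exp (28 * (p:ℝ)^(3/4:ℝ)) * (CL * Real.log p) ≤
      (p:ℝ) ^ (-K) := by
  have hl2 : (0:ℝ) < Real.log 2 := Real.log_pos (by norm_num)
  set b : ℝ := Real.log 2 / 8 with hb
  have hb0 : 0 < b := by positivity
  -- x ^ (1 + K) * exp (-b x) → 0
  have h1 : Tendsto (fun x : ℝ => x ^ (1 + K) * Real.exp (-b * x)) atTop (𝓝 0) :=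
    tendsto_rpow_mul_exp_neg_mul_atTop_nhds_zero (1 + K) b hb0
  have h2 : Tendsto (fun x : ℝ => 2 * |CL| * (x ^ (1 + K) * Real.exp (-b * x))) atTop (𝓝 0) := by
    simpa using h1.const_mul (2*|CL|)
  have h3 : ∀ᶠ x : ℝ in atTop, 2 * |CL| * (x ^ (1 + K) * Real.exp (-b * x)) < 1 :=
    h2.eventually_lt_const one_pos
  have h4 : ∀ᶠ x : ℝ in atTop, 28 / b ≤ x ^ (1/4:ℝ) :=
    (tendsto_rpow_atTop (by norm_num : (0:ℝ) < 1/4)).eventually_ge_atTop _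
  have h5 := ((h3.and (h4.and (eventually_ge_atTop (1:ℝ)))))
  have h6 : ∀ᶠ n : ℕ in atTop, 2 * |CL| * ((n:ℝ) ^ (1 + K) * Real.exp (-b * (n:ℝ))) < 1 ∧
      28 / b ≤ (n:ℝ) ^ (1/4:ℝ) ∧ 1 ≤ (n:ℝ) := tendsto_natCast_atTop_atTop.eventually h5
  obtain ⟨p₁, hp₁⟩ := eventually_atTop.1 h6
  refine ⟨p₁, fun p hp => ?_⟩
  obtain ⟨ha, hbb, hc⟩ := hp₁ p hp
  have hp0 : (0:ℝ) < p := by linarith
  have e1 : ((2:ℝ)^p)^(-(1/4):ℝ) = Real.exp (-(2 * b) * p) := by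
    rw [← Real.rpow_natCast, ← Real.rpow_mul (by norm_num), Real.rpow_def_of_pos (by norm_num)]
    congr 1; rw [hb]; ring
  have e2 : 28 * (p:ℝ)^(3/4:ℝ) ≤ b * p := by
    have : (p:ℝ) = (p:ℝ)^(3/4:ℝ) * (p:ℝ)^(1/4:ℝ) := by
      rw [← Real.rpow_add hp0]; norm_num
    have h7 : 28 ≤ b * (p:ℝ)^(1/4:ℝ) := by
      rw [div_le_iff₀ hb0] at hbb; linarith
    calc 28 * (p:ℝ)^(3/4:ℝ) ≤ (b * (p:ℝ)^(1/4:ℝ)) * (p:ℝ)^(3/4:ℝ) :=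
          mul_le_mul_of_nonneg_right h7 (by positivity)
      _ = b * ((p:ℝ)^(3/4:ℝ) * (p:ℝ)^(1/4:ℝ)) := by ring
      _ = b * p := by rw [← this]
  have e3 : ((2:ℝ)^p)^(-(1/4):ℝ) * Real.exp (28 * (p:ℝ)^(3/4:ℝ)) ≤ Real.exp (-b * p) := by
    rw [e1, ← Real.exp_add]
    apply Real.exp_le_exp.2
    nlinarith
  have e4 : Real.log p ≤ p := (Real.log_le_sub_one_of_pos hp0).trans (by linarith)
  have e5 : 0 ≤ Real.log p := Real.log_nonneg hc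
  have e6 : CL * Real.log p ≤ |CL| * p :=
    (mul_le_mul_of_nonneg_right (le_abs_self CL) e5).trans
      (mul_le_mul_of_nonneg_left e4 (abs_nonneg _))
  have e7 : (p:ℝ) ^ (1 + K) = (p:ℝ) * (p:ℝ) ^ K := by rw [Real.rpow_add hp0, Real.rpow_one]
  have e8 : (p:ℝ) ^ K * (p:ℝ) ^ (-K) = 1 := by
    rw [← Real.rpow_add hp0, add_neg_cancel, Real.rpow_zero]
  have e9 : (0:ℝ) ≤ (p:ℝ) ^ (-K) := Real.rpow_nonneg hp0.le _
  calc 2 * ((2:ℝ)^p)^(-(1/4):ℝ) * Real.exp (28 * (p:ℝ)^(3/4:ℝ)) * (CL * Real.log p)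
      = 2 * (((2:ℝ)^p)^(-(1/4):ℝ) * Real.exp (28 * (p:ℝ)^(3/4:ℝ))) * (CL * Real.log p) := by ring
    _ ≤ 2 * (((2:ℝ)^p)^(-(1/4):ℝ) * Real.exp (28 * (p:ℝ)^(3/4:ℝ))) * (|CL| * p) :=
        mul_le_mul_of_nonneg_left e6 (by positivity)
    _ ≤ 2 * Real.exp (-b * p) * (|CL| * p) := by gcongr
    _ = 2 * |CL| * ((p:ℝ) * Real.exp (-b * (p:ℝ))) * ((p:ℝ) ^ K * (p:ℝ) ^ (-K)) := by
        rw [e8]; ring
    _ = (2 * |CL| * ((p:ℝ) ^ (1 + K) * Real.exp (-b * (p:ℝ)))) * (p:ℝ) ^ (-K) := by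
        rw [e7]; ring
    _ ≤ 1 * (p:ℝ) ^ (-K) := mul_le_mul_of_nonneg_right ha.le e9
    _ = (p:ℝ) ^ (-K) := one_mul _

/-- **tag pairs**: exact item pairs, `p`-smooth cofactors, one cofactor at least `2^p`; the gain is
`p^(-K)` -/
theorem rseT (CL K : ℝ) : ∃ p₁ : ℕ, ∀ p : ℕ, p₁ ≤ p →
    ∀ (S : Finset ℕ) (E : Finset (ℕ × ℕ)) (R : ℕ → ℝ) (F : ℕ × ℕ → ℝ), E ⊆ S ×ˢ S →
    (∀ w ∈ S, 0 < w ∧ 0 < R w) → (∀ w ∈ S, R w ≤ CL * Real.log p * wt R w) →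
    (∀ e ∈ E, ∀ l : ℕ, l.Prime → (l ∣ cof e.1 e.2 ∨ l ∣ cof e.2 e.1) → l ≤ p) →
    (∀ e ∈ E, 2^p ≤ cof e.1 e.2 ∨ 2^p ≤ cof e.2 e.1) →
    (∀ e ∈ E, F e ≤ 2 * ((R e.1 * R e.2) / DP R R e)) →
    ∑ e ∈ E, F e ≤ (p:ℝ) ^ (-K) * ∑ w ∈ S, wt R w := by
  obtain ⟨p₁, hp₁⟩ := numT CL K
  refine ⟨p₁, fun p hp S E R F hE hS hL hsm hbig hF => ?_⟩
  have hnum := hp₁ p hp
  have h1 := TagE24.tag_gen p (Y := (2:ℝ)^p) (η := 0) (by positivity) le_rfl (F := F) hE hS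
    (fun e he => ⟨fun l hl h => hsm e he l hl (Or.inl h), fun l hl h => hsm e he l hl (Or.inr h)⟩)
    (fun e he => by
      rcases hbig e he with h | h
      · left; exact_mod_cast h
      · right; exact_mod_cast h)
    (fun e he => by simpa using hF e he)
  have hwt0 : 0 ≤ ∑ w ∈ S, wt R w := Finset.sum_nonneg fun w hw => by
    have := (hS w hw).2.le
    unfold wt
    positivity
  have h2 : ∑ w ∈ S, R w ≤ CL * Real.log p * ∑ w ∈ S, wt R w := by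
    rw [Finset.mul_sum]
    exact Finset.sum_le_sum hL
  have h3 : 0 ≤ 2 * (((2:ℝ)^p)^(-(1/4):ℝ) * Real.exp (28 * (p:ℝ)^(3/4:ℝ))) := by positivity
  calc ∑ e ∈ E, F e ≤ 2 * (((2:ℝ)^p)^(-(1/4):ℝ) * Real.exp (28 * (p:ℝ)^(3/4:ℝ))) * ∑ w ∈ S, R w := by
        simpa using h1
    _ ≤ 2 * (((2:ℝ)^p)^(-(1/4):ℝ) * Real.exp (28 * (p:ℝ)^(3/4:ℝ))) *
        (CL * Real.log p * ∑ w ∈ S, wt R w) := mul_le_mul_of_nonneg_left h2 h3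
    _ = (2 * ((2:ℝ)^p)^(-(1/4):ℝ) * Real.exp (28 * (p:ℝ)^(3/4:ℝ)) * (CL * Real.log p)) *
        ∑ w ∈ S, wt R w := by ring
    _ ≤ (p:ℝ) ^ (-K) * ∑ w ∈ S, wt R w := mul_le_mul_of_nonneg_right hnum hwt0

end Crest.Agent.R4P.RseN530
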