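import Crest.Agent.R4P.AddLV_7
import Crest.Agent.R4P.GainKL2_24
import Crest.Agent.R4P.RseN5_30
import Crest.Agent.R4P.RseP_24
import Crest.Agent.R4P.RseAr_23

/-!
R4 (S0004), powers pass, helper23 ([W-dseR], D5): **the energy of one child, tree free**.

* `CD` : data of a child on its circle; `CD.Ok` : its facts; `CD.NM` : facts of a child which is not the
  missing child of a tie.
* `tT` : tag pairs; `uuB` : unlabelled pairs, separated at the prime `b`; `kL` : one label, dead on one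
  side; `vvB` : two labels, separated at the prime `b`.
-/

set_option autoImplicit false
set_option linter.unusedVariables false

open Finset

namespace Crest.Agent.R4P.DseN23

open Crest.Agent.R4.HVW560 (cof wt)
open Crest.Agent.R4.InX944 (DP)
open Crest.Agent.R4.LF363 (Lab)
open Crest.Agent.R4.DensAcc33 (Accd)
open Crest.Agent.R4.ClsB (Tame)
open Crest.Agent.R4.ClsS (eps1)
open Crest.Agent.R4.LL207 (Zc)
open Crest.Agent.R4P.RseP24 (dUU dUU' log_le_rpow rpow_le_log)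
open Crest.Agent.R4

/-- data of one child, on its circle: `m` level of the child, `p` column of the parent, `θ` target, `η`
width of the cells at the column, `T` thinness of the child, `S` alive items, `E` pairs, `R` radii, `F`
energies, `s`, `s'` labels at the column and at the child, `Λf` fat label, `cr` crossing of a scale -/
structure CD where
  m : ℕ
  p : ℕ
  θ : ℝ
  η : ℝ
  T : ℝ
  S : Finset ℕ
  E : Finset (ℕ × ℕ)
  R : ℕ → ℝ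
  F : ℕ × ℕ → ℝ
  s : ℕ → Option ℚ
  s' : ℕ → Option ℚ
  Λf : Finset ℚ
  cr : Prop

/-- the primes in `(m, p]` which divide exactly one of the two moduli -/
def CD.dif (c : CD) (e : ℕ × ℕ) : Finset ℕ :=
  (Finset.Ioc c.m c.p).filter fun l => l.Prime ∧ (l ∣ e.1 ∧ ¬ l ∣ e.2 ∨ l ∣ e.2 ∧ ¬ l ∣ e.1)

/-- a large cofactor -/
def CD.Big (c : CD) (e : ℕ × ℕ) : Prop := 2 ^ c.m ≤ cof e.1 e.2 ∨ 2 ^ c.m ≤ cof e.2 e.1

/-- separated by a retained prime or by the tags -/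
def CD.Sep (c : CD) (e : ℕ × ℕ) : Prop := (c.dif e).Nonempty ∨ (c.cr ∧ c.Big e)

/-- the exact relation -/
def Ex (a a' : ℤ) (ρ ρ' : ℚ) (e : ℕ × ℕ) : Prop :=
  ((a:ℝ) + ρ) * (cof e.2 e.1 : ℕ) = (a' + ρ') * (cof e.1 e.2 : ℕ)

/-- the deviation of two centres -/
noncomputable def dv (θ : ℝ) (a a' : ℤ) (e : ℕ × ℕ) : ℝ :=
  |((a:ℝ) + θ) * (cof e.2 e.1 : ℕ) - (a' + θ) * (cof e.1 e.2 : ℕ)|

/-- a pair of pieces with a common point, in one class at the column, not in one class of the child -/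
structure CD.LkA (c : CD) (e : ℕ × ℕ) (a a' : ℤ) : Prop where
  pt : dv c.θ a a' e ≤ 2 * DP c.R c.R e
  lkn : c.s e.1 = none → c.s e.2 = none ∧ dv c.θ a a' e ≤ c.η * DP c.R c.R e
  lks : ∀ ρ, c.s e.1 = some ρ → ∃ ρ', c.s e.2 = some ρ' ∧ Ex a a' ρ ρ' e
  kept : c.s' e.1 = c.s e.1 → c.s' e.2 = c.s e.2 → c.Sep e
  same : ∀ ρ, c.s' e.1 = some ρ → c.s' e.2 = some ρ → Ex a a' ρ ρ e → c.Sep e
  al1 : ∀ b : ℕ, b.Prime → c.m < b → b ∣ e.1 → ¬ b ∣ e.2 → ∀ ρ ρ', c.s' e.1 = some ρ →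
    Ex a a' ρ ρ' e → b ∣ ρ'.den
  al2 : ∀ b : ℕ, b.Prime → c.m < b → b ∣ e.2 → ¬ b ∣ e.1 → ∀ ρ ρ', c.s' e.2 = some ρ' →
    Ex a a' ρ ρ' e → b ∣ ρ.den

/-- **facts of a child** -/
structure CD.Ok (c : CD) (CL C2 : ℝ) : Prop where
  mp : c.m ≤ c.p
  sub : c.E ⊆ c.S ×ˢ c.S
  ne : ∀ e ∈ c.E, e.1 ≠ e.2
  pos : ∀ w ∈ c.S, 0 < w ∧ 0 < c.R w
  lo : ∀ w ∈ c.S, c.R w ≤ CL * Real.log c.m * wt c.R w
  tame : ∀ z : ℝ, (c.m:ℝ)^2 ≤ z → ∀ w ∈ c.S, Tame z 1 w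
  mass : ∑ w ∈ c.S, wt c.R w ≤ Real.log c.m ^ C2
  eta0 : 0 < c.η
  eta : c.η ≤ Real.exp (-(Real.log c.p ^ (4/5:ℝ)))
  T0 : (c.m:ℝ) ^ (-(1/2:ℝ)) ≤ c.T
  T1 : c.T ≤ 1 / 10
  sm : ∀ e ∈ c.E, ∀ l : ℕ, l.Prime → (l ∣ cof e.1 e.2 ∨ l ∣ cof e.2 e.1) → l ≤ c.m ∨ l ∈ c.dif e
  F0 : ∀ e ∈ c.E, 0 ≤ c.F e
  Fn : ∀ e ∈ c.E, c.s e.1 = none →
    c.F e ≤ 2 * ((c.R e.1 * c.R e.2) / DP c.R c.R e) * (2 * (c.η * DP c.R c.R e) + 1)
  Fs : ∀ e ∈ c.E, ∀ ρ, c.s e.1 = some ρ → c.F e ≤ 2 * ((c.R e.1 * c.R e.2) / DP c.R c.R e)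
  lk : ∀ e ∈ c.E, ∃ a a' : ℤ, c.LkA e a a'
  card : c.Λf.card ≤ 1
  thinL : ∀ w ∈ c.S, ∀ ρ, c.s' w = some ρ → c.R w ≤ c.T → Lab c.θ (c.R w) ρ
  thinN : ∀ w ∈ c.S, c.s' w = none → c.R w ≤ c.T → ∀ ρ, ¬ Lab c.θ (c.R w) ρ
  fatL : ∀ w ∈ c.S, ∀ ρ, c.s' w = some ρ → c.T < c.R w → Lab c.θ (c.R w) ρ ∨ ρ ∈ c.Λf
  keep : ∀ w ∈ c.S, ∀ ρ, c.s w = some ρ → c.T < c.R w → c.s' w = some ρ

/-! ### elementary -/

lemma wt_nonneg {R : ℕ → ℝ} {w : ℕ} (h : 0 ≤ R w) : 0 ≤ wt R w := by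
  unfold Crest.Agent.R4.HVW560.wt
  positivity

lemma DP_comm (R : ℕ → ℝ) (x y : ℕ) : DP R R (y, x) = DP R R (x, y) := by
  unfold Crest.Agent.R4.InX944.DP
  exact max_comm _ _

lemma cof_pos {x y : ℕ} (hx : 0 < x) : 0 < cof x y :=
  Nat.div_pos (Nat.le_of_dvd hx (Nat.gcd_dvd_left _ _)) (Nat.gcd_pos_of_pos_left _ hx)

lemma DP_pos {R : ℕ → ℝ} {e : ℕ × ℕ} (h2 : 0 < e.2) (hR : 0 < R e.1) : 0 < DP R R e := by
  unfold Crest.Agent.R4.InX944.DP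
  refine lt_max_of_lt_left (mul_pos ?_ hR)
  exact_mod_cast cof_pos h2

lemma cof_cop {x y : ℕ} (hx : 0 < x) : Nat.Coprime (cof x y) (cof y x) := by
  unfold Crest.Agent.R4.HVW560.cof
  rw [Nat.gcd_comm y x]
  exact Nat.coprime_div_gcd_div_gcd (Nat.gcd_pos_of_pos_left _ hx)

lemma CD.Sep.swap {c : CD} {x y : ℕ} (h : c.Sep (x, y)) : c.Sep (y, x) := by
  rcases h with ⟨l, hl⟩ | ⟨h1, h2⟩
  · left
    refine ⟨l, ?_⟩
    unfold CD.dif at hl ⊢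
    obtain ⟨h1, h2, h3⟩ := Finset.mem_filter.1 hl
    exact Finset.mem_filter.2 ⟨h1, h2, h3.symm⟩
  · exact Or.inr ⟨h1, h2.symm⟩

lemma mem_dif {c : CD} {e : ℕ × ℕ} {l : ℕ} :
    l ∈ c.dif e ↔ (c.m < l ∧ l ≤ c.p) ∧ l.Prime ∧ (l ∣ e.1 ∧ ¬ l ∣ e.2 ∨ l ∣ e.2 ∧ ¬ l ∣ e.1) := by
  unfold CD.dif
  rw [Finset.mem_filter, Finset.mem_Ioc]

section ok
variable {c : CD} {CL C2 : ℝ}

lemma CD.Ok.mem (h : c.Ok CL C2) {e : ℕ × ℕ} (he : e ∈ c.E) : e.1 ∈ c.S ∧ e.2 ∈ c.S :=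
  Finset.mem_product.1 (h.sub he)

lemma CD.Ok.DP_pos (h : c.Ok CL C2) {e : ℕ × ℕ} (he : e ∈ c.E) : 0 < DP c.R c.R e :=
  DseN23.DP_pos (h.pos _ (h.mem he).2).1 (h.pos _ (h.mem he).1).2

lemma CD.Ok.wt0 (h : c.Ok CL C2) {w : ℕ} (hw : w ∈ c.S) : 0 ≤ wt c.R w :=
  wt_nonneg (h.pos w hw).2.le

lemma CD.Ok.M0 (h : c.Ok CL C2) : 0 ≤ ∑ w ∈ c.S, wt c.R w := Finset.sum_nonneg fun w hw => h.wt0 hw

/-- the energy of any pair -/
lemma CD.Ok.F_le (h : c.Ok CL C2) {e : ℕ × ℕ} (he : e ∈ c.E) :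
    c.F e ≤ 2 * ((c.R e.1 * c.R e.2) / DP c.R c.R e) + 4 * c.η * (c.R e.1 * c.R e.2) := by
  obtain ⟨m1, m2⟩ := h.mem he
  have hD := h.DP_pos he
  have hR1 := (h.pos _ m1).2
  have hR2 := (h.pos _ m2).2
  have hη := h.eta0
  cases hs : c.s e.1 with
  | none =>
    refine (h.Fn e he hs).trans (le_of_eq ?_)
    field_simp
    ring
  | some ρ =>
    refine (h.Fs e he ρ hs).trans ?_
    have : 0 ≤ 4 * c.η * (c.R e.1 * c.R e.2) := by positivity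
    linarith

/-- a label at a thin radius is kept -/
lemma CD.Ok.kthin (h : c.Ok CL C2) {w : ℕ} (hw : w ∈ c.S) {ρ : ℚ} (hT : c.R w ≤ c.T)
    (hL : Lab c.θ (c.R w) ρ) : c.s' w = some ρ := by
  cases hs : c.s' w with
  | none => exact absurd hL (h.thinN w hw hs hT ρ)
  | some σ =>
    have hL' := h.thinL w hw σ hs hT
    by_contra hne
    have hne' : ρ ≠ σ := fun e => hne (by rw [e])
    have key := (LL207.two_labels hL hL' hne').1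
    have hR := (h.pos w hw).2
    rw [max_self] at key
    have d1 := hL.den
    have d2 := hL'.den
    have e3 : ((ρ.den : ℝ) * σ.den) ^ 5 * (c.R w) ^ 2 ≤ 1 := by
      have := mul_le_mul d1 d2 (by positivity) zero_le_one
      calc ((ρ.den : ℝ) * σ.den) ^ 5 * (c.R w) ^ 2 =
            ((ρ.den : ℝ) ^ 5 * c.R w) * ((σ.den : ℝ) ^ 5 * c.R w) := by ring
        _ ≤ 1 := by linarith
    have hR1 : c.R w ≤ 1 / 10 := hL.le
    have e4 : 32 * (c.R w) ^ 4 * ((ρ.den : ℝ) * σ.den) ^ 5 =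
        32 * (c.R w) ^ 2 * (((ρ.den : ℝ) * σ.den) ^ 5 * (c.R w) ^ 2) := by ring
    rw [e4] at key
    have e5 : (c.R w) ^ 2 ≤ (1/10) ^ 2 := pow_le_pow_left₀ hR.le hR1 2
    have e6 : 0 ≤ ((ρ.den : ℝ) * σ.den) ^ 5 * (c.R w) ^ 2 := by positivity
    nlinarith

end ok

/-! ### numbers -/

lemma exp45 (C K : ℝ) : ∃ p₁ : ℕ, ∀ p : ℕ, p₁ ≤ p → 1 ≤ Real.log p ∧
    C * Real.log p ^ K * Real.exp (-(Real.log p ^ (4/5:ℝ))) ≤ 1 := by
  have h1 : ∀ᶠ y : ℝ in Filter.atTop, y ^ (5/4*K) ≤ (1/(|C|+1)) * Real.exp (1*y) :=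
    ((isLittleO_rpow_exp_pos_mul_atTop (5/4*K) one_pos).bound
      (show (0:ℝ) < 1/(|C|+1) by positivity)).mono fun y hy => by
        have h2 := le_trans (le_abs_self _) hy
        rwa [Real.norm_of_nonneg (Real.exp_pos _).le] at h2
  have h2 : Filter.Tendsto (fun p : ℕ => Real.log p ^ (4/5:ℝ)) Filter.atTop Filter.atTop :=
    (tendsto_rpow_atTop (by norm_num)).comp
      (Real.tendsto_log_atTop.comp tendsto_natCast_atTop_atTop)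
  have h3 : ∀ᶠ p : ℕ in Filter.atTop, (1:ℝ) ≤ Real.log p :=
    (Real.tendsto_log_atTop.comp tendsto_natCast_atTop_atTop).eventually
      (Filter.eventually_ge_atTop 1)
  obtain ⟨p₁, hp₁⟩ := Filter.eventually_atTop.1 ((h2.eventually h1).and h3)
  refine ⟨p₁, fun p hp => ?_⟩
  obtain ⟨h4, h5⟩ := hp₁ p hp
  refine ⟨h5, ?_⟩
  have h6 : (Real.log p ^ (4/5:ℝ)) ^ (5/4*K) = Real.log p ^ K := by
    rw [← Real.rpow_mul (by linarith)]
    congr 1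
    ring
  rw [h6, one_mul] at h4
  have h7 : 0 ≤ Real.log p ^ K := Real.rpow_nonneg (by linarith) _
  have h8 : C * Real.log p ^ K ≤ Real.exp (Real.log p ^ (4/5:ℝ)) := by
    have h9 : 0 < |C| + 1 := by positivity
    rw [one_div, inv_mul_eq_div, le_div_iff₀ h9] at h4
    have h10 := le_abs_self C
    nlinarith
  rw [Real.exp_neg]
  have h11 := Real.exp_pos (Real.log p ^ (4/5:ℝ))
  rw [← div_eq_mul_inv, div_le_one h11]
  exact h8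

/-- `exp (-(log p)^(4/5))` is decreasing -/
lemma exp45_anti {m p : ℕ} (hm : 1 ≤ Real.log m) (h : m ≤ p) :
    Real.exp (-(Real.log p ^ (4/5:ℝ))) ≤ Real.exp (-(Real.log m ^ (4/5:ℝ))) := by
  refine Real.exp_le_exp.2 (neg_le_neg ?_)
  refine Real.rpow_le_rpow (by linarith) ?_ (by norm_num)
  have hm0 : (0:ℝ) < m := by
    rcases Nat.eq_zero_or_pos m with h0 | h0
    · rw [h0] at hm
      norm_num at hm
    · exact_mod_cast h0
  exact Real.log_le_log hm0 (by exact_mod_cast h)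

/-! ### tag pairs -/

open Classical in
/-- **tag pairs**: no prime of `(m, p]` separates, a cofactor is at least `2^m` -/
theorem tT (CL C2 K : ℝ) (hCL : 0 ≤ CL) : ∃ p₁ : ℕ, ∀ c : CD, c.Ok CL C2 → p₁ ≤ c.m →
    ∑ e ∈ c.E.filter (fun e => ¬ (c.dif e).Nonempty ∧ c.Big e), c.F e ≤
      Real.log c.m ^ (-K) * ∑ w ∈ c.S, wt c.R w := by
  obtain ⟨p1, h1⟩ := RseN530.rseT CL 1
  obtain ⟨p2, h2⟩ := rpow_le_log (K + 1) (c := 1) one_pos
  obtain ⟨p3, h3⟩ := exp45 (8 * CL ^ 2) (2 + C2 + K)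
  obtain ⟨p4, h4⟩ := exp45 2 0
  refine ⟨p1 + p2 + p3 + p4 + ⌈Real.exp 2⌉₊, fun c h hm => ?_⟩
  set E' := c.E.filter (fun e => ¬ (c.dif e).Nonempty ∧ c.Big e) with hE'
  set M := ∑ w ∈ c.S, wt c.R w with hM
  have hM0 : 0 ≤ M := h.M0
  have hsub : E' ⊆ c.E := Finset.filter_subset _ _
  obtain ⟨l1, l2⟩ := h3 c.m (by omega)
  have hl2 : 2 ≤ Real.log c.m := by
    have h5 : Real.exp 2 ≤ c.m := (Nat.le_ceil _).trans (by exact_mod_cast (by omega))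
    rwa [Real.le_log_iff_exp_le ((Real.exp_pos _).trans_le h5)]
  have hl0 : 0 < Real.log c.m := by linarith
  have k1 := h1 c.m (by omega) c.S E' c.R (fun e => 2 * ((c.R e.1 * c.R e.2) / DP c.R c.R e))
    (hsub.trans h.sub) h.pos h.lo
    (fun e he l hl hd => by
      obtain ⟨he1, he2, -⟩ := Finset.mem_filter.1 he
      rcases h.sm e he1 l hl hd with h5 | h5
      · exact h5
      · exact absurd ⟨l, h5⟩ he2)
    (fun e he => (Finset.mem_filter.1 he).2.2) (fun e he => le_rfl)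
  have k2 := h2 c.m (by omega)
  have hRS : ∑ w ∈ c.S, c.R w ≤ CL * Real.log c.m * M := by
    rw [hM, Finset.mul_sum]
    exact Finset.sum_le_sum h.lo
  have hR0 : 0 ≤ ∑ w ∈ c.S, c.R w := Finset.sum_nonneg fun w hw => (h.pos w hw).2.le
  have k3 : ∑ e ∈ E', 4 * c.η * (c.R e.1 * c.R e.2) ≤
      4 * c.η * ((∑ w ∈ c.S, c.R w) * ∑ w ∈ c.S, c.R w) := by
    rw [← Finset.mul_sum]
    refine mul_le_mul_of_nonneg_left ?_ (by have := h.eta0; positivity)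
    rw [Finset.sum_mul_sum, ← Finset.sum_product']
    exact Finset.sum_le_sum_of_subset_of_nonneg (hsub.trans h.sub) fun e he _ => by
      obtain ⟨m1, m2⟩ := Finset.mem_product.1 he
      exact mul_nonneg (h.pos _ m1).2.le (h.pos _ m2).2.le
  have k4 : (∑ w ∈ c.S, c.R w) * ∑ w ∈ c.S, c.R w ≤
      (CL * Real.log c.m) ^ 2 * Real.log c.m ^ C2 * M := by
    have h5 : 0 ≤ CL * Real.log c.m * M := by positivity
    calc _ ≤ (CL * Real.log c.m * M) * (CL * Real.log c.m * M) := mul_le_mul hRS hRS hR0 h5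
      _ = (CL * Real.log c.m) ^ 2 * M * M := by ring
      _ ≤ (CL * Real.log c.m) ^ 2 * Real.log c.m ^ C2 * M :=
          mul_le_mul_of_nonneg_right (mul_le_mul_of_nonneg_left h.mass (by positivity)) hM0
  have hη : c.η ≤ Real.exp (-(Real.log c.m ^ (4/5:ℝ))) := h.eta.trans (exp45_anti l1 h.mp)
  have k5 : 4 * c.η * ((CL * Real.log c.m) ^ 2 * Real.log c.m ^ C2 * M) ≤
      (1/2) * Real.log c.m ^ (-K) * M := by
    set ex := Real.exp (-(Real.log c.m ^ (4/5:ℝ))) with hex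
    have hex0 : 0 < ex := Real.exp_pos _
    have e1 : Real.log (c.m:ℝ) ^ (2 + C2 + K) * Real.log (c.m:ℝ) ^ (-K) =
        Real.log c.m ^ 2 * Real.log c.m ^ C2 := by
      rw [← Real.rpow_add hl0, ← Real.rpow_natCast, ← Real.rpow_add hl0]
      congr 1
      push_cast
      ring
    have hLK : 0 < Real.log (c.m:ℝ) ^ (-K) := Real.rpow_pos_of_pos hl0 _
    calc 4 * c.η * ((CL * Real.log c.m) ^ 2 * Real.log c.m ^ C2 * M)
        ≤ 4 * ex * ((CL * Real.log c.m) ^ 2 * Real.log c.m ^ C2 * M) := by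
          refine mul_le_mul_of_nonneg_right ?_ (by positivity)
          linarith
      _ = (1/2) * (8 * CL ^ 2 * (Real.log c.m ^ 2 * Real.log c.m ^ C2) * ex) * M := by ring
      _ = (1/2) * ((8 * CL ^ 2 * Real.log c.m ^ (2 + C2 + K) * ex) * Real.log c.m ^ (-K)) * M := by
          rw [← e1]; ring
      _ ≤ (1/2) * (1 * Real.log c.m ^ (-K)) * M := by
          refine mul_le_mul_of_nonneg_right (mul_le_mul_of_nonneg_left
            (mul_le_mul_of_nonneg_right l2 hLK.le) (by norm_num)) hM0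
      _ = _ := by ring
  have k6 : (c.m:ℝ) ^ (-(1:ℝ)) ≤ (1/2) * Real.log c.m ^ (-K) := by
    refine k2.trans ?_
    have e1 : Real.log (c.m:ℝ) ^ (-(K+1)) = Real.log c.m ^ (-K) * (Real.log (c.m:ℝ))⁻¹ := by
      rw [← Real.rpow_neg_one, ← Real.rpow_add hl0]
      congr 1
      ring
    rw [e1, mul_comm (1/2 : ℝ)]
    refine mul_le_mul_of_nonneg_left ?_ (Real.rpow_nonneg hl0.le _)
    rw [inv_le_comm₀ hl0 (by norm_num)]
    norm_num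
    exact hl2
  calc ∑ e ∈ E', c.F e ≤ ∑ e ∈ E', (2 * ((c.R e.1 * c.R e.2) / DP c.R c.R e) +
        4 * c.η * (c.R e.1 * c.R e.2)) := Finset.sum_le_sum fun e he => h.F_le (hsub he)
    _ = ∑ e ∈ E', 2 * ((c.R e.1 * c.R e.2) / DP c.R c.R e) +
        ∑ e ∈ E', 4 * c.η * (c.R e.1 * c.R e.2) := Finset.sum_add_distrib
    _ ≤ (c.m:ℝ) ^ (-(1:ℝ)) * M + (1/2) * Real.log c.m ^ (-K) * M := by
        refine add_le_add k1 (k3.trans (le_trans ?_ k5))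
        exact mul_le_mul_of_nonneg_left k4 (by have := h.eta0; positivity)
    _ ≤ (1/2) * Real.log c.m ^ (-K) * M + (1/2) * Real.log c.m ^ (-K) * M :=
        add_le_add (mul_le_mul_of_nonneg_right k6 hM0) le_rfl
    _ = _ := by ring

/-! ### unlabelled pairs, separated at a prime -/

lemma exp_inv {b : ℕ} (h1 : 1 ≤ Real.log b) : 1 ≤ Real.exp (-(Real.log b ^ (4/5:ℝ))) * b := by
  have hb0 : (0:ℝ) < b := by
    rcases Nat.eq_zero_or_pos b with h0 | h0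
    · rw [h0] at h1
      norm_num at h1
    · exact_mod_cast h0
  have h2 : Real.log b ^ (4/5:ℝ) ≤ Real.log b := by
    conv_rhs => rw [← Real.rpow_one (Real.log (b:ℝ))]
    exact Real.rpow_le_rpow_of_exponent_le h1 (by norm_num)
  have h3 : Real.exp (Real.log b ^ (4/5:ℝ)) ≤ b := by
    rw [← Real.le_log_iff_exp_le hb0]
    exact h2
  rw [Real.exp_neg, inv_mul_eq_div, le_div_iff₀ (Real.exp_pos _), one_mul]
  exact h3

/-- `exp ((log b)^(4/5)) ≤ b^(1/2)` -/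
lemma exp_half : ∃ p₁ : ℕ, ∀ b : ℕ, p₁ ≤ b →
    (b:ℝ) ^ (-(1/2:ℝ)) ≤ Real.exp (-(Real.log b ^ (4/5:ℝ))) := by
  refine ⟨⌈Real.exp 64⌉₊, fun b hb => ?_⟩
  have h5 : Real.exp 64 ≤ b := (Nat.le_ceil _).trans (by exact_mod_cast hb)
  have hb0 : (0:ℝ) < b := (Real.exp_pos _).trans_le h5
  have hl : 64 ≤ Real.log b := by rwa [Real.le_log_iff_exp_le hb0]
  have hL0 : 0 < Real.log b := by linarith
  rw [Real.rpow_def_of_pos hb0]
  refine Real.exp_le_exp.2 ?_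
  have h1 : Real.log b ^ (4/5:ℝ) = Real.log b * Real.log b ^ (-(1/5):ℝ) := by
    conv_rhs => rw [← Real.rpow_one (Real.log (b:ℝ)), ← Real.rpow_mul hL0.le,
      ← Real.rpow_add hL0]
    norm_num
  have h2 : Real.log b ^ (-(1/5):ℝ) ≤ (64:ℝ) ^ (-(1/5):ℝ) :=
    Real.rpow_le_rpow_of_nonpos (by norm_num) hl (by norm_num)
  have h3 : (64:ℝ) ^ (-(1/5):ℝ) ≤ (32:ℝ) ^ (-(1/5):ℝ) :=
    Real.rpow_le_rpow_of_nonpos (by norm_num) (by norm_num) (by norm_num)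
  have h4 : (32:ℝ) ^ (-(1/5):ℝ) = 1/2 := by
    rw [show (32:ℝ) = 2 ^ (5:ℝ) by norm_num, ← Real.rpow_mul (by norm_num)]
    norm_num
  have h6 : Real.log b ^ (-(1/5):ℝ) ≤ 1/2 := by linarith
  rw [h1]
  nlinarith

/-- logs of the primes above the level -/
lemma log_mono' {m b : ℕ} (hm : 1 ≤ Real.log m) (h : m ≤ b) : Real.log m ≤ Real.log b := by
  have hm0 : (0:ℝ) < m := by
    rcases Nat.eq_zero_or_pos m with h0 | h0
    · rw [h0] at hm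
      norm_num at hm
    · exact_mod_cast h0
  exact Real.log_le_log hm0 (by exact_mod_cast h)

section ok
variable {c : CD} {CL C2 : ℝ}

lemma CD.Ok.lo' (h : c.Ok CL C2) (hCL : 0 ≤ CL) (hl : 1 ≤ Real.log c.m) {b : ℕ} (hb : c.m ≤ b) :
    ∀ w ∈ c.S, c.R w ≤ CL * Real.log b * wt c.R w := fun w hw =>
  (h.lo w hw).trans (mul_le_mul_of_nonneg_right
    (mul_le_mul_of_nonneg_left (log_mono' hl hb) hCL) (h.wt0 hw))

lemma CD.Ok.tame' (h : c.Ok CL C2) {b : ℕ} (hb : c.m ≤ b) :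
    ∀ z : ℝ, (b:ℝ)^2 ≤ z → ∀ w ∈ c.S, Tame z 1 w := fun z hz w hw =>
  h.tame z (le_trans (by
    have : (c.m:ℝ) ≤ b := by exact_mod_cast hb
    exact pow_le_pow_left₀ (Nat.cast_nonneg _) this 2) hz) w hw

lemma CD.Ok.mass' (h : c.Ok CL C2) (hC2 : 0 ≤ C2) (hl : 1 ≤ Real.log c.m) {b : ℕ} (hb : c.m ≤ b)
    {S' : Finset ℕ} (hS : S' ⊆ c.S) : ∑ w ∈ S', wt c.R w ≤ Real.log b ^ C2 := by
  refine (Finset.sum_le_sum_of_subset_of_nonneg hS fun w hw _ => h.wt0 hw).trans (h.mass.trans ?_)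
  exact Real.rpow_le_rpow (by linarith) (log_mono' hl hb) hC2

end ok

open Classical in
/-- unlabelled pairs, `b` divides the first modulus only -/
noncomputable def CD.U1 (c : CD) (b : ℕ) : Finset (ℕ × ℕ) :=
  c.E.filter fun e => c.s e.1 = none ∧ c.s' e.1 = none ∧ c.s' e.2 = none ∧ b ∣ e.1 ∧ ¬ b ∣ e.2

open Classical in
/-- unlabelled pairs, `b` divides the second modulus only -/
noncomputable def CD.U2 (c : CD) (b : ℕ) : Finset (ℕ × ℕ) :=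
  c.E.filter fun e => c.s e.1 = none ∧ c.s' e.1 = none ∧ c.s' e.2 = none ∧ b ∣ e.2 ∧ ¬ b ∣ e.1

/-- the charge of the prime `b` -/
noncomputable def CD.cb (c : CD) (K : ℝ) (b : ℕ) : ℝ :=
  Real.log b ^ (-K) * (∑ w ∈ c.S.filter (fun w => b ∣ w), wt c.R w +
    (1 / (b:ℝ)) * ∑ w ∈ c.S, wt c.R w)

set_option maxHeartbeats 1000000 in
open Classical in
/-- **unlabelled pairs, separated at the prime `b`** -/
theorem uuB (CL C2 A K : ℝ) (hCL : 0 ≤ CL) (hC2 : 0 ≤ C2) : ∃ p₁ : ℕ, ∀ c : CD, c.Ok CL C2 →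
    p₁ ≤ c.m → ∀ b : ℕ, b.Prime → c.m < b → b ≤ c.p →
    (∀ w ∈ c.S, b ∣ w → ¬ Accd c.θ (Real.log b ^ A) b) →
    ∑ e ∈ c.U1 b, c.F e ≤ c.cb K b ∧ ∑ e ∈ c.U2 b, c.F e ≤ c.cb K b := by
  obtain ⟨p1, h1⟩ := dUU CL C2 A K hCL hC2
  obtain ⟨p2, h2⟩ := dUU' CL C2 A K hCL hC2
  obtain ⟨p3, h3⟩ := exp45 1 0
  obtain ⟨p4, h4⟩ := exp_half
  refine ⟨p1 + p2 + p3 + p4 + 1, fun c h hm b hb hmb hbp hacc => ?_⟩
  have hl := (h3 c.m (by omega)).1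
  have hlb : 1 ≤ Real.log b := (h3 b (by omega)).1
  have hb0 : (0:ℝ) < b := by exact_mod_cast hb.pos
  have hm0 : (0:ℝ) < c.m := by
    have : 0 < c.m := by omega
    exact_mod_cast this
  set ηb : ℝ := Real.exp (-(Real.log b ^ (4/5:ℝ))) with hηb
  have hηb0 : 0 < ηb := Real.exp_pos _
  have hη : c.η ≤ ηb := h.eta.trans (exp45_anti hlb hbp)
  have hηb1 : 1 ≤ ηb * b := exp_inv hlb
  have hhalf : (b:ℝ) ^ (-(1/2:ℝ)) ≤ ηb := h4 b (by omega)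
  have hb2 : (b:ℝ) ^ (-(1/2:ℝ)) ≤ c.T := by
    refine le_trans ?_ h.T0
    exact Real.rpow_le_rpow_of_nonpos hm0 (by exact_mod_cast hmb.le) (by norm_num)
  have hthin : ∀ w ∈ c.S, c.R w * (ηb * b) ≤ 1 → c.R w ≤ c.T := by
    intro w hw hR
    refine le_trans ?_ hb2
    have e1 : (b:ℝ) ^ (-(1/2:ℝ)) * (b:ℝ) ^ (1/2:ℝ) = 1 := by
      rw [← Real.rpow_add hb0]; norm_num
    have e2 : (b:ℝ) ^ (1/2:ℝ) ≤ ηb * b := by
      have e3 : (b:ℝ) ^ (1/2:ℝ) = (b:ℝ) ^ (-(1/2:ℝ)) * b := by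
        conv_rhs => rw [← Real.rpow_one (b:ℝ), ← Real.rpow_mul hb0.le, ← Real.rpow_add hb0]
        norm_num
      rw [e3]
      exact mul_le_mul_of_nonneg_right hhalf hb0.le
    have hR0 := (h.pos w hw).2.le
    have hs0 : 0 ≤ (b:ℝ) ^ (-(1/2:ℝ)) := Real.rpow_nonneg hb0.le _
    calc c.R w = c.R w * ((b:ℝ) ^ (-(1/2:ℝ)) * (b:ℝ) ^ (1/2:ℝ)) := by rw [e1, mul_one]
      _ = (c.R w * (b:ℝ) ^ (1/2:ℝ)) * (b:ℝ) ^ (-(1/2:ℝ)) := by ring
      _ ≤ 1 * (b:ℝ) ^ (-(1/2:ℝ)) := by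
          refine mul_le_mul_of_nonneg_right ?_ hs0
          exact (mul_le_mul_of_nonneg_left e2 hR0).trans hR
      _ = _ := one_mul _
  have hcb : ∀ V ⊆ c.S.filter (fun w => b ∣ w), ∀ W ⊆ c.S, Real.log b ^ (-K) *
      (∑ w ∈ V, wt c.R w + (1 / (b:ℝ)) * ∑ w ∈ W, wt c.R w) ≤ c.cb K b := by
    intro V hV W hW
    unfold CD.cb
    refine mul_le_mul_of_nonneg_left (add_le_add ?_ (mul_le_mul_of_nonneg_left ?_ (by positivity)))
      (Real.rpow_nonneg (by linarith) _)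
    · exact Finset.sum_le_sum_of_subset_of_nonneg hV fun w hw _ => h.wt0 (Finset.mem_filter.1 hw).1
    · exact Finset.sum_le_sum_of_subset_of_nonneg hW fun w hw _ => h.wt0 hw
  have hcb0 : 0 ≤ c.cb K b := by
    refine le_trans ?_ (hcb ∅ (Finset.empty_subset _) ∅ (Finset.empty_subset _))
    simp
  set V := c.S.filter (fun w => b ∣ w) with hV
  set W := c.S.filter (fun w => ¬ b ∣ w ∧ c.s' w = none) with hW
  have hVS : V ⊆ c.S := Finset.filter_subset _ _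
  have hWS : W ⊆ c.S := Finset.filter_subset _ _
  have hFb : ∀ e ∈ c.E, c.s e.1 = none →
      c.F e ≤ 2 * ((c.R e.1 * c.R e.2) / DP c.R c.R e) * (2 * ηb * DP c.R c.R e + 1) := by
    intro e he hs
    obtain ⟨m1, m2⟩ := h.mem he
    have hD := h.DP_pos he
    have hR1 := (h.pos _ m1).2
    have hR2 := (h.pos _ m2).2
    refine (h.Fn e he hs).trans ?_
    refine mul_le_mul_of_nonneg_left ?_ (by positivity)
    have := mul_le_mul_of_nonneg_right hη hD.le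
    linarith
  have hrel : ∀ e ∈ c.E, c.s e.1 = none → ∃ m m' : ℤ,
      |((m:ℝ) + c.θ) * (cof e.2 e.1 : ℕ) - (m' + c.θ) * (cof e.1 e.2 : ℕ)| ≤
        ηb * DP c.R c.R e := by
    intro e he hs
    obtain ⟨a, a', hk⟩ := h.lk e he
    exact ⟨a, a', (hk.lkn hs).2.trans (mul_le_mul_of_nonneg_right hη (h.DP_pos he).le)⟩
  have hlab : ∀ w ∈ W, c.R w * (ηb * b) ≤ 1 → ∀ ρ, ¬ Lab c.θ (c.R w) ρ := by
    intro w hw hR ρ
    obtain ⟨w1, w2, w3⟩ := Finset.mem_filter.1 hw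
    exact h.thinN w w1 w3 (hthin w w1 hR) ρ
  constructor
  · rcases Finset.eq_empty_or_nonempty (c.U1 b) with h0 | ⟨e₀, he₀⟩
    · rw [h0, Finset.sum_empty]; exact hcb0
    have hna : ¬ Accd c.θ (Real.log b ^ A) b := by
      obtain ⟨x1, -, -, -, x2, -⟩ := Finset.mem_filter.1 he₀
      exact hacc _ (h.mem x1).1 x2
    refine (h1 b (by omega) hb ηb c.θ V W (c.U1 b) c.R c.R c.F hηb0 le_rfl hηb1 ?_
      (fun w hw => h.pos w (hVS hw)) (fun w hw => h.pos w (hWS hw))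
      (fun w hw => h.lo' hCL hl hmb.le w (hVS hw)) (fun w hw => h.lo' hCL hl hmb.le w (hWS hw))
      (fun w hw => (Finset.mem_filter.1 hw).2) (fun w hw => (Finset.mem_filter.1 hw).2.1)
      (fun z hz w hw => h.tame' hmb.le z hz w (hVS hw))
      (fun z hz w hw => h.tame' hmb.le z hz w (hWS hw))
      (h.mass' hC2 hl hmb.le hVS) (h.mass' hC2 hl hmb.le hWS) ?_ ?_ hlab hna).trans
      (hcb V (Finset.Subset.refl _) W hWS)
    · intro e he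
      obtain ⟨x1, x2, x3, x4, x5, x6⟩ := Finset.mem_filter.1 he
      obtain ⟨m1, m2⟩ := h.mem x1
      exact Finset.mem_product.2 ⟨Finset.mem_filter.2 ⟨m1, x5⟩, Finset.mem_filter.2 ⟨m2, x6, x4⟩⟩
    · intro e he
      obtain ⟨x1, x2, -⟩ := Finset.mem_filter.1 he
      exact hFb e x1 x2
    · intro e he _
      obtain ⟨x1, x2, -⟩ := Finset.mem_filter.1 he
      exact hrel e x1 x2
  · rcases Finset.eq_empty_or_nonempty (c.U2 b) with h0 | ⟨e₀, he₀⟩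
    · rw [h0, Finset.sum_empty]; exact hcb0
    have hna : ¬ Accd c.θ (Real.log b ^ A) b := by
      obtain ⟨x1, -, -, -, x2, -⟩ := Finset.mem_filter.1 he₀
      exact hacc _ (h.mem x1).2 x2
    refine (h2 b (by omega) hb ηb c.θ V W (c.U2 b) c.R c.R c.F hηb0 le_rfl hηb1 ?_
      (fun w hw => h.pos w (hVS hw)) (fun w hw => h.pos w (hWS hw))
      (fun w hw => h.lo' hCL hl hmb.le w (hVS hw)) (fun w hw => h.lo' hCL hl hmb.le w (hWS hw))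
      (fun w hw => (Finset.mem_filter.1 hw).2) (fun w hw => (Finset.mem_filter.1 hw).2.1)
      (fun z hz w hw => h.tame' hmb.le z hz w (hVS hw))
      (fun z hz w hw => h.tame' hmb.le z hz w (hWS hw))
      (h.mass' hC2 hl hmb.le hVS) (h.mass' hC2 hl hmb.le hWS) ?_ ?_ hlab hna).trans
      (hcb V (Finset.Subset.refl _) W hWS)
    · intro e he
      obtain ⟨x1, x2, x3, x4, x5, x6⟩ := Finset.mem_filter.1 he
      obtain ⟨m1, m2⟩ := h.mem x1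
      exact Finset.mem_product.2 ⟨Finset.mem_filter.2 ⟨m1, x6, x3⟩, Finset.mem_filter.2 ⟨m2, x5⟩⟩
    · intro e he
      obtain ⟨x1, x2, -⟩ := Finset.mem_filter.1 he
      exact hFb e x1 x2
    · intro e he _
      obtain ⟨x1, x2, -⟩ := Finset.mem_filter.1 he
      exact hrel e x1 x2

/-! ### one label, dead on one side -/

/-- a rational which is not a label at a thin radius has a gain -/
lemma notLab_gain {θ R T Q : ℝ} {ρ : ℚ} (hR : 0 < R) (hRT : R ≤ T) (hT : T ≤ 1/10) (hQ : 0 < Q)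
    (hQT : Q ^ 5 * T = 1) (h : ¬ Lab θ R ρ) : Q ≤ ρ.den ∨ Q * R ≤ |θ - ρ| := by
  by_contra hc
  push Not at hc
  obtain ⟨h1, h2⟩ := hc
  apply h
  have hd : (0:ℝ) ≤ ρ.den := Nat.cast_nonneg _
  refine ⟨hR, hRT.trans hT, ?_, ?_⟩
  · have e1 : (ρ.den : ℝ) ^ 5 ≤ Q ^ 5 := pow_le_pow_left₀ hd h1.le 5
    calc (ρ.den : ℝ) ^ 5 * R ≤ Q ^ 5 * T := mul_le_mul e1 hRT hR.le (by positivity)
      _ = 1 := hQT
  · have e1 : |θ - ρ| ^ 5 ≤ (Q * R) ^ 5 := pow_le_pow_left₀ (abs_nonneg _) h2.le 5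
    calc |θ - ρ| ^ 5 ≤ (Q * R) ^ 5 := e1
      _ = (Q ^ 5 * R) * R ^ 4 := by ring
      _ ≤ (Q ^ 5 * T) * R ^ 4 :=
          mul_le_mul_of_nonneg_right (mul_le_mul_of_nonneg_left hRT (by positivity)) (by positivity)
      _ = R ^ 4 := by rw [hQT, one_mul]

lemma two400 : (10:ℝ) ≤ (2:ℝ)^400 :=
  le_trans (by norm_num : (10:ℝ) ≤ 2^4) (pow_le_pow_right₀ (by norm_num) (by norm_num))

/-- numbers of the deaths: `Q = T^(-1/5)` -/
lemma numQ (c0 T0 : ℝ) (hc0 : 0 < c0) {Cθ : ℝ} (hCθ : 5 / c0 < Cθ) :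
    ∃ p₁ : ℕ, ∀ m : ℕ, p₁ ≤ m → 1 < Real.log m ∧ ∀ T : ℝ, 0 < T → T ≤ Real.log m ^ (-Cθ) →
      T ≤ 1/10 ∧ (2:ℝ)^400 ≤ T ^ (-(1/5):ℝ) ∧ T0 ≤ T ^ (-(1/5):ℝ) ∧
      Real.log m ^ (Cθ/5) ≤ T ^ (-(1/5):ℝ) ∧ (T ^ (-(1/5):ℝ)) ^ 5 * T = 1 ∧
      (m:ℝ)^2 ≤ Real.exp ((T ^ (-(1/5):ℝ)) ^ c0) := by
  have hC0 : 0 < Cθ := lt_trans (by positivity) hCθ
  have ht : Filter.Tendsto (fun m : ℕ => Real.log m) Filter.atTop Filter.atTop :=
    Real.tendsto_log_atTop.comp tendsto_natCast_atTop_atTop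
  have h1 : ∀ᶠ m : ℕ in Filter.atTop, max ((2:ℝ)^400) T0 ≤ Real.log m ^ (Cθ/5) :=
    ((tendsto_rpow_atTop (show 0 < Cθ/5 by positivity)).comp ht).eventually
      (Filter.eventually_ge_atTop _)
  have hd : 0 < c0 * (Cθ/5) - 1 := by
    rw [div_lt_iff₀ hc0] at hCθ
    linarith
  have h2 : ∀ᶠ m : ℕ in Filter.atTop, (2:ℝ) ≤ Real.log m ^ (c0 * (Cθ/5) - 1) :=
    ((tendsto_rpow_atTop hd).comp ht).eventually (Filter.eventually_ge_atTop _)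
  have h3 : ∀ᶠ m : ℕ in Filter.atTop, (1:ℝ) < Real.log m :=
    ht.eventually (Filter.eventually_gt_atTop 1)
  obtain ⟨p₁, hp⟩ := Filter.eventually_atTop.1 ((h1.and h2).and h3)
  refine ⟨p₁ + 1, fun m hm => ?_⟩
  obtain ⟨⟨g1, g2⟩, g3⟩ := hp m (by omega)
  refine ⟨g3, fun T hT hTl => ?_⟩
  have hl0 : 0 < Real.log (m:ℝ) := by linarith
  have hm0 : (0:ℝ) < m := by
    have : 0 < m := by omega
    exact_mod_cast this
  have e1 : Real.log m ^ (Cθ/5) ≤ T ^ (-(1/5):ℝ) := by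
    have e2 : (Real.log m ^ (-Cθ)) ^ (-(1/5):ℝ) ≤ T ^ (-(1/5):ℝ) :=
      Real.rpow_le_rpow_of_nonpos hT hTl (by norm_num)
    rw [← Real.rpow_mul hl0.le] at e2
    refine le_trans (le_of_eq ?_) e2
    congr 1
    ring
  have e5 : (T ^ (-(1/5):ℝ)) ^ 5 * T = 1 := by
    rw [← Real.rpow_natCast, ← Real.rpow_mul hT.le]
    norm_num
    rw [Real.rpow_neg_one, inv_mul_cancel₀ hT.ne']
  have hQ0 : 0 < T ^ (-(1/5):ℝ) := Real.rpow_pos_of_pos hT _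
  have hQ : (2:ℝ)^400 ≤ T ^ (-(1/5):ℝ) := (le_max_left _ _).trans (g1.trans e1)
  refine ⟨?_, hQ, (le_max_right _ _).trans (g1.trans e1), e1, e5, ?_⟩
  · have h6 : (10:ℝ) ≤ (T ^ (-(1/5):ℝ)) ^ 5 := by
      have h7 : (10:ℝ) ≤ T ^ (-(1/5):ℝ) := two400.trans hQ
      have h8 : (10:ℝ) ^ 5 ≤ (T ^ (-(1/5):ℝ)) ^ 5 := pow_le_pow_left₀ (by norm_num) h7 5
      exact le_trans (by norm_num) h8
    have h9 : 10 * T ≤ 1 := by
      rw [← e5]; exact mul_le_mul_of_nonneg_right h6 hT.le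
    linarith
  · have e6 : 2 * Real.log m ≤ (T ^ (-(1/5):ℝ)) ^ c0 := by
      have e7 : (Real.log m ^ (Cθ/5)) ^ c0 ≤ (T ^ (-(1/5):ℝ)) ^ c0 :=
        Real.rpow_le_rpow (Real.rpow_nonneg hl0.le _) e1 hc0.le
      refine le_trans ?_ e7
      rw [← Real.rpow_mul hl0.le]
      have e8 : Real.log (m:ℝ) ^ (Cθ/5*c0) =
          Real.log m ^ (c0 * (Cθ/5) - 1) * Real.log m := by
        conv_rhs => rw [← Real.rpow_one (Real.log (m:ℝ)), ← Real.rpow_mul hl0.le,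
          ← Real.rpow_add hl0]
        congr 1
        ring
      rw [e8]
      exact mul_le_mul_of_nonneg_right g2 hl0.le
    have e9 : (m:ℝ)^2 = Real.exp (2 * Real.log m) := by
      rw [mul_comm, Real.exp_mul, Real.exp_log hm0, Real.rpow_two]
    rw [e9]
    exact Real.exp_le_exp.2 e6

/-- the final numbers of a death: `L = CL log m`, `M ≤ (log m)^C2`, `Y = (log m)^(C2+κ+3)` -/
lemma numD (CL C2 Cθ κ C e0 : ℝ) (hCL : 0 ≤ CL) (hC2 : 0 ≤ C2) (hC : 0 ≤ C) (hκ : 0 ≤ κ)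
    (hCθ : 0 < Cθ) (he0 : 0 < e0) (hk : κ + 2 + C2/500 < e0 / 5 * Cθ) :
    ∃ p₁ : ℕ, ∀ m : ℕ, p₁ ≤ m → ∀ Q M : ℝ, 1 < Real.log m → 2 ≤ Q → Real.log m ^ (Cθ/5) ≤ Q →
      0 ≤ M → M ≤ Real.log m ^ C2 →
      2 * (CL * Real.log m)^2 * (((Real.log m ^ (C2 + κ + 3)))⁻¹ * (M * M) +
        C * (1 + Real.log (Real.log m ^ (C2 + κ + 3)) / Real.log Q) * Q^(-e0) *
          (M * M)^(1/2+eps1)) ≤ Real.log m ^ (-κ) * M := by
  have ht : Filter.Tendsto (fun m : ℕ => Real.log m) Filter.atTop Filter.atTop :=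
    Real.tendsto_log_atTop.comp tendsto_natCast_atTop_atTop
  set D : ℝ := C * (1 + 5 * (C2 + κ + 3) / Cθ) with hD
  have hD0 : 0 ≤ D := by positivity
  set δ : ℝ := e0 / 5 * Cθ - (κ + 2 + C2/500) with hδ
  have hδ0 : 0 < δ := by linarith
  have h1 : ∀ᶠ m : ℕ in Filter.atTop, 4 * CL^2 ≤ Real.log m :=
    ht.eventually (Filter.eventually_ge_atTop _)
  have h2 : ∀ᶠ m : ℕ in Filter.atTop, 4 * CL^2 * D ≤ Real.log m ^ δ :=
    ((tendsto_rpow_atTop hδ0).comp ht).eventually (Filter.eventually_ge_atTop _)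
  obtain ⟨p₁, hp⟩ := Filter.eventually_atTop.1 (h1.and h2)
  refine ⟨p₁, fun m hm Q M hl hQ2 hQ hM0 hM => ?_⟩
  obtain ⟨g1, g2⟩ := hp m hm
  set l := Real.log (m:ℝ) with hld
  have hl0 : 0 < l := by linarith
  have hQ0 : 0 < Q := by linarith
  have hlogQ : 0 < Real.log Q := Real.log_pos (by linarith)
  have hY : Real.log (l ^ (C2 + κ + 3)) / Real.log Q ≤ 5 * (C2 + κ + 3) / Cθ := by
    rw [Real.log_rpow hl0, div_le_div_iff₀ hlogQ hCθ]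
    have h3 : Cθ/5 * Real.log l ≤ Real.log Q := by
      rw [← Real.log_rpow hl0]
      exact Real.log_le_log (Real.rpow_pos_of_pos hl0 _) hQ
    have h4 : 0 ≤ C2 + κ + 3 := by positivity
    have := mul_le_mul_of_nonneg_left h3 (mul_nonneg (show (0:ℝ) ≤ 5 by norm_num) h4)
    linarith
  have hMe : (M * M)^(1/2+eps1) ≤ M * l ^ (C2/500) := by
    have he1 : eps1 = 1/1000 := rfl
    rcases hM0.eq_or_lt with h0 | h0
    · rw [← h0, mul_zero, zero_mul, Real.zero_rpow (by rw [he1]; norm_num)]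
    · have e1 : (M * M)^(1/2+eps1) = M * M ^ (1/500:ℝ) := by
        rw [← pow_two, ← Real.rpow_natCast, ← Real.rpow_mul h0.le, he1]
        conv_rhs => rw [← Real.rpow_one M, ← Real.rpow_mul h0.le, ← Real.rpow_add h0]
        congr 1
        norm_num
      rw [e1]
      refine mul_le_mul_of_nonneg_left ?_ hM0
      calc M ^ (1/500:ℝ) ≤ (l ^ C2) ^ (1/500:ℝ) := Real.rpow_le_rpow hM0 hM (by norm_num)
        _ = l ^ (C2/500) := by rw [← Real.rpow_mul hl0.le]; congr 1; ring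
  have hQe : Q ^ (-e0) ≤ l ^ (-(e0/5*Cθ)) := by
    have e1 : (l ^ (Cθ/5)) ^ (-e0) = l ^ (-(e0/5*Cθ)) := by
      rw [← Real.rpow_mul hl0.le]; congr 1; ring
    rw [← e1]
    exact Real.rpow_le_rpow_of_nonpos (Real.rpow_pos_of_pos hl0 _) hQ (by linarith)
  have hlκ : 0 < l ^ (-κ) := Real.rpow_pos_of_pos hl0 _
  -- first term
  have t1 : 2 * (CL * l)^2 * ((l ^ (C2 + κ + 3))⁻¹ * (M * M)) ≤ 1/2 * (l ^ (-κ) * M) := by
    have e1 : (l ^ (C2 + κ + 3))⁻¹ * l ^ C2 * l ^ 2 = l ^ (-κ) * l⁻¹ := by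
      rw [← Real.rpow_neg hl0.le, ← Real.rpow_natCast, ← Real.rpow_neg_one,
        ← Real.rpow_add hl0, ← Real.rpow_add hl0, ← Real.rpow_add hl0]
      congr 1
      push_cast
      ring
    have e2 : 0 ≤ (l ^ (C2 + κ + 3))⁻¹ := by positivity
    calc 2 * (CL * l)^2 * ((l ^ (C2 + κ + 3))⁻¹ * (M * M))
        ≤ 2 * (CL * l)^2 * ((l ^ (C2 + κ + 3))⁻¹ * (l ^ C2 * M)) := by
          refine mul_le_mul_of_nonneg_left (mul_le_mul_of_nonneg_left ?_ e2) (by positivity)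
          exact mul_le_mul_of_nonneg_right hM hM0
      _ = 2 * CL^2 * ((l ^ (C2 + κ + 3))⁻¹ * l ^ C2 * l ^ 2) * M := by ring
      _ = (2 * CL^2 * l⁻¹) * (l ^ (-κ) * M) := by rw [e1]; ring
      _ ≤ 1/2 * (l ^ (-κ) * M) := by
          refine mul_le_mul_of_nonneg_right ?_ (by positivity)
          rw [← div_eq_mul_inv, div_le_iff₀ hl0]
          linarith
  have t2 : 2 * (CL * l)^2 * (C * (1 + Real.log (l ^ (C2 + κ + 3)) / Real.log Q) * Q^(-e0) *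
      (M * M)^(1/2+eps1)) ≤ 1/2 * (l ^ (-κ) * M) := by
    have e1 : C * (1 + Real.log (l ^ (C2 + κ + 3)) / Real.log Q) ≤ D := by
      rw [hD]
      exact mul_le_mul_of_nonneg_left (by linarith) hC
    have e3 : 0 ≤ (M * M)^(1/2+eps1) := by positivity
    have e4 : l ^ (-(e0/5*Cθ)) * l ^ (C2/500) * l ^ 2 = l ^ (-κ) * l ^ (-δ) := by
      rw [← Real.rpow_natCast, ← Real.rpow_add hl0, ← Real.rpow_add hl0, ← Real.rpow_add hl0]
      congr 1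
      rw [hδ]
      push_cast
      ring
    have e5 : C * (1 + Real.log (l ^ (C2 + κ + 3)) / Real.log Q) * Q^(-e0) ≤
        D * l ^ (-(e0/5*Cθ)) := mul_le_mul e1 hQe (by positivity) hD0
    calc 2 * (CL * l)^2 * (C * (1 + Real.log (l ^ (C2 + κ + 3)) / Real.log Q) * Q^(-e0) *
          (M * M)^(1/2+eps1))
        ≤ 2 * (CL * l)^2 * (D * l ^ (-(e0/5*Cθ)) * (M * l ^ (C2/500))) := by
          refine mul_le_mul_of_nonneg_left ?_ (by positivity)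
          exact mul_le_mul e5 hMe e3 (by positivity)
      _ = 2 * CL^2 * D * (l ^ (-(e0/5*Cθ)) * l ^ (C2/500) * l ^ 2) * M := by ring
      _ = (2 * CL^2 * D * l ^ (-δ)) * (l ^ (-κ) * M) := by rw [e4]; ring
      _ ≤ 1/2 * (l ^ (-κ) * M) := by
          refine mul_le_mul_of_nonneg_right ?_ (by positivity)
          rw [Real.rpow_neg hl0.le, ← div_eq_mul_inv, div_le_iff₀ (Real.rpow_pos_of_pos hl0 _)]
          linarith
  rw [mul_add]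
  linarith

open Classical in
/-- pairs with one label, dead on one side -/
noncomputable def CD.KE (c : CD) : Finset (ℕ × ℕ) :=
  c.E.filter fun e => ∃ ρ, c.s e.1 = some ρ ∧ c.s e.2 = some ρ ∧
    (c.R e.1 ≤ c.T ∧ ¬ Lab c.θ (c.R e.1) ρ ∨ c.R e.2 ≤ c.T ∧ ¬ Lab c.θ (c.R e.2) ρ)

set_option maxHeartbeats 1000000 in
open Classical in
/-- **one label, dead on one side** -/
theorem kL : ∃ K₀ : ℝ, ∀ CL C2 Cθ κ : ℝ, 0 ≤ CL → 0 ≤ C2 → 0 ≤ κ → K₀ < Cθ →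
    κ + 2 + C2/500 < 48/5000 * Cθ → ∃ p₁ : ℕ, ∀ c : CD, c.Ok CL C2 → p₁ ≤ c.m →
      c.T ≤ Real.log c.m ^ (-Cθ) →
      ∑ e ∈ c.KE, c.F e ≤ Real.log c.m ^ (-κ) * ∑ w ∈ c.S, wt c.R w := by
  obtain ⟨C, c0, hC1, hc0, H⟩ := GainKL24.gainKL2
  obtain ⟨T0, hT0, H⟩ := H c0 hc0 le_rfl
  refine ⟨5 / c0, fun CL C2 Cθ κ hCL hC2 hκ hCθ hk => ?_⟩
  have hCθ0 : 0 < Cθ := lt_trans (by positivity) hCθ
  obtain ⟨p1, h1⟩ := numQ c0 T0 hc0 hCθ
  obtain ⟨p2, h2⟩ := numD CL C2 Cθ κ C (48/1000) hCL hC2 (by linarith) hκ hCθ0 (by norm_num)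
    (by linarith)
  refine ⟨p1 + p2 + 1, fun c h hm hT => ?_⟩
  have hm0 : (0:ℝ) < c.m := by
    have : 0 < c.m := by omega
    exact_mod_cast this
  have hTpos : 0 < c.T := (Real.rpow_pos_of_pos hm0 _).trans_le h.T0
  obtain ⟨hl, g1⟩ := h1 c.m (by omega)
  obtain ⟨g2, g3, g4, g5, g6, g7⟩ := g1 c.T hTpos hT
  set Q := c.T ^ (-(1/5):ℝ) with hQ
  have hQ0 : 0 < Q := Real.rpow_pos_of_pos hTpos _
  have hQ2 : 2 ≤ Q := (show (2:ℝ) ≤ 10 by norm_num).trans (two400.trans g3)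
  set l := Real.log (c.m:ℝ) with hld
  have hsub : c.KE ⊆ c.E := Finset.filter_subset _ _
  have hY1 : 1 ≤ l ^ (C2 + κ + 3) := Real.one_le_rpow hl.le (by positivity)
  refine (H ((c.m:ℝ)^2) (CL * l) 2 c.θ Q (l ^ (C2 + κ + 3)) (fun w => (c.s w).getD 0)
    (fun w => (c.s w).getD 0) 1 c.S c.S c.KE c.R c.R c.F g3 g4 g7 hY1 one_pos (by norm_num)
    (hsub.trans h.sub) h.pos h.pos h.lo h.lo h.tame h.tame ?_ ?_).trans ?_
  · intro e he
    obtain ⟨x1, ρ, x2, x3, x4⟩ := Finset.mem_filter.1 he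
    exact h.Fs e x1 ρ x2
  · intro e he _
    obtain ⟨x1, ρ, x2, x3, x4⟩ := Finset.mem_filter.1 he
    obtain ⟨m1, m2⟩ := h.mem x1
    obtain ⟨a, a', hk'⟩ := h.lk e x1
    obtain ⟨ρ', y1, y2⟩ := hk'.lks ρ x2
    have hρ : ρ' = ρ := by
      rw [x3] at y1
      exact (Option.some.inj y1).symm
    rw [hρ] at y2
    simp only [x2, x3, Option.getD_some]
    unfold Ex at y2
    refine ⟨h.ne e x1, trivial, ⟨a, a', y2⟩, ?_, ?_, ?_⟩
    · have h5 := hk'.pt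
      unfold dv at h5
      refine le_trans (le_of_eq ?_) h5
      rw [← abs_mul]
      congr 1
      linear_combination -y2
    · rcases x4 with x4 | x4
      · exact Or.inl x4.2
      · exact Or.inr x4.2
    · rcases x4 with x4 | x4
      · rcases notLab_gain (h.pos _ m1).2 x4.1 g2 hQ0 g6 x4.2 with h5 | h5
        · exact Or.inl h5
        · exact Or.inr (Or.inl h5)
      · rcases notLab_gain (h.pos _ m2).2 x4.1 g2 hQ0 g6 x4.2 with h5 | h5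
        · exact Or.inl h5
        · exact Or.inr (Or.inr h5)
  · exact h2 c.m (by omega) Q _ hl hQ2 g5 h.M0 h.mass

/-! ### two labels, separated at a prime -/

open Classical in
/-- two different kept labels, `b` divides the first modulus only, no larger prime separates -/
noncomputable def CD.V1 (c : CD) (b : ℕ) : Finset (ℕ × ℕ) :=
  c.E.filter fun e => (∃ ρ ρ', c.s e.1 = some ρ ∧ c.s e.2 = some ρ' ∧ ρ ≠ ρ') ∧
    c.s' e.1 = c.s e.1 ∧ c.s' e.2 = c.s e.2 ∧ (∀ l ∈ c.dif e, l ≤ b) ∧ b ∣ e.1 ∧ ¬ b ∣ e.2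

open Classical in
/-- two different kept labels, `b` divides the second modulus only, no larger prime separates -/
noncomputable def CD.V2 (c : CD) (b : ℕ) : Finset (ℕ × ℕ) :=
  c.E.filter fun e => (∃ ρ ρ', c.s e.1 = some ρ ∧ c.s e.2 = some ρ' ∧ ρ ≠ ρ') ∧
    c.s' e.1 = c.s e.1 ∧ c.s' e.2 = c.s e.2 ∧ (∀ l ∈ c.dif e, l ≤ b) ∧ b ∣ e.2 ∧ ¬ b ∣ e.1

lemma dvd_cof {x y b : ℕ} (hb : b.Prime) (hx : b ∣ x) (hy : ¬ b ∣ y) : b ∣ cof x y := by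
  have h1 : cof x y * Nat.gcd x y = x := Nat.div_mul_cancel (Nat.gcd_dvd_left x y)
  rw [← h1] at hx
  rcases hb.dvd_mul.1 hx with h2 | h2
  · exact h2
  · exact absurd (h2.trans (Nat.gcd_dvd_right x y)) hy

lemma Ex.swap {a a' : ℤ} {ρ ρ' : ℚ} {x y : ℕ} (h : Ex a a' ρ ρ' (x, y)) : Ex a' a ρ' ρ (y, x) := by
  unfold Ex at h ⊢
  exact h.symm

lemma dv_swap {θ : ℝ} {a a' : ℤ} {x y : ℕ} : dv θ a' a (y, x) = dv θ a a' (x, y) := by
  unfold dv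
  simp only
  rw [abs_sub_comm]

/-- `(e^(-b^(1/50)))` and `log b / b` are small -/
lemma numV (CL K : ℝ) : ∃ p₁ : ℕ, ∀ b : ℕ, p₁ ≤ b → 1 ≤ Real.log b ∧
    Real.exp (-((b:ℝ) ^ (1/50:ℝ))) ≤ Real.log b ^ (-K) * (1 / (b:ℝ)) ∧
    4 * (CL * Real.log b) / b ≤ 1/2 * Real.log b ^ (-K) ∧
    Real.exp (-((b:ℝ) ^ (1/50:ℝ))) ≤ 1/2 * Real.log b ^ (-K) := by
  obtain ⟨p1, h1⟩ := log_le_rpow 2 1 (δ := 1/50) (by norm_num)
  obtain ⟨p2, h2⟩ := rpow_le_log K (c := 1) one_pos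
  obtain ⟨p3, h3⟩ := log_le_rpow (8 * CL) 1 (δ := 1/2) (by norm_num)
  obtain ⟨p4, h4⟩ := rpow_le_log K (c := 1/2) (by norm_num)
  obtain ⟨p5, h5⟩ := exp45 1 0
  refine ⟨p1 + p2 + p3 + p4 + p5 + 2, fun b hb => ?_⟩
  have g1 := h1 b (by omega)
  have g2 := h2 b (by omega)
  have g3 := h3 b (by omega)
  have g4 := h4 b (by omega)
  have g5 := (h5 b (by omega)).1
  have hb0 : (0:ℝ) < b := by
    have : 0 < b := by omega
    exact_mod_cast this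
  have hb2 : (2:ℝ) ≤ b := by
    have : 2 ≤ b := by omega
    exact_mod_cast this
  have hl0 : 0 < Real.log (b:ℝ) := by linarith
  rw [Real.rpow_one] at g1 g3
  have e1 : Real.exp (-((b:ℝ) ^ (1/50:ℝ))) ≤ (1 / (b:ℝ)) * (1 / (b:ℝ)) := by
    have e2 : (1 / (b:ℝ)) * (1 / (b:ℝ)) = Real.exp (-(2 * Real.log b)) := by
      rw [Real.exp_neg, two_mul, Real.exp_add, Real.exp_log hb0]
      field_simp
    rw [e2]
    exact Real.exp_le_exp.2 (by linarith)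
  have e3 : 1 / (b:ℝ) ≤ Real.log b ^ (-K) := by
    rw [one_div, ← Real.rpow_neg_one]
    exact g2
  have e4 : (0:ℝ) < 1 / b := by positivity
  have e5 : 1 / (b:ℝ) ≤ 1/2 := by
    rw [div_le_div_iff₀ hb0 (by norm_num)]; linarith
  have hK0 : 0 < Real.log (b:ℝ) ^ (-K) := Real.rpow_pos_of_pos hl0 _
  refine ⟨g5, e1.trans (mul_le_mul_of_nonneg_right e3 e4.le), ?_, ?_⟩
  · have e6 : (b:ℝ) ^ (1/2:ℝ) * (b:ℝ) ^ (-(1/2):ℝ) = 1 := by
      rw [← Real.rpow_add hb0]; norm_num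
    have e7 : (b:ℝ) ^ (-(1/2):ℝ) * (b:ℝ) ^ (-(1/2):ℝ) = 1 / b := by
      rw [← Real.rpow_add hb0]; norm_num
      rw [Real.rpow_neg_one]
    have e8 : 0 < (b:ℝ) ^ (-(1/2):ℝ) := Real.rpow_pos_of_pos hb0 _
    have g4' : (b:ℝ) ^ (-(1/2):ℝ) ≤ Real.log b ^ (-K) := g4
    calc 4 * (CL * Real.log b) / b = 1/2 * (8 * CL * Real.log b) * (1 / b) := by ring
      _ ≤ 1/2 * (b:ℝ) ^ (1/2:ℝ) * (1 / b) := by
          refine mul_le_mul_of_nonneg_right ?_ e4.le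
          linarith
      _ = 1/2 * ((b:ℝ) ^ (1/2:ℝ) * (b:ℝ) ^ (-(1/2):ℝ)) * (b:ℝ) ^ (-(1/2):ℝ) := by
          rw [← e7]; ring
      _ = 1/2 * (b:ℝ) ^ (-(1/2):ℝ) := by rw [e6]; ring
      _ ≤ 1/2 * Real.log b ^ (-K) := by linarith
  · refine e1.trans ?_
    calc (1 / (b:ℝ)) * (1 / (b:ℝ)) ≤ 1/2 * (1 / (b:ℝ)) := mul_le_mul_of_nonneg_right e5 e4.le
      _ ≤ 1/2 * Real.log b ^ (-K) := by linarith

/-! ### exchange of the two sides -/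

/-- the pairs exchanged -/
def CD.sw (c : CD) : CD := { c with E := c.E.image Prod.swap, F := fun e => c.F e.swap }

lemma mem_sw {c : CD} {x y : ℕ} : (x, y) ∈ c.sw.E ↔ (y, x) ∈ c.E := by
  unfold CD.sw
  simp only [Finset.mem_image]
  constructor
  · rintro ⟨⟨a, b⟩, h1, h2⟩
    have e1 : b = x := congrArg Prod.fst h2
    have e2 : a = y := congrArg Prod.snd h2
    rw [← e1, ← e2]; exact h1
  · intro h
    exact ⟨(y, x), h, rfl⟩

lemma dif_swap {c : CD} {x y : ℕ} : c.dif (y, x) = c.dif (x, y) := by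
  ext l
  rw [mem_dif, mem_dif]
  constructor
  · rintro ⟨h1, h2, h3⟩
    exact ⟨h1, h2, h3.symm⟩
  · rintro ⟨h1, h2, h3⟩
    exact ⟨h1, h2, h3.symm⟩

lemma CD.LkA.swap {c : CD} {x y : ℕ} {a a' : ℤ} (h : c.LkA (x, y) a a') :
    c.sw.LkA (y, x) a' a where
  pt := by
    rw [dv_swap]
    show _ ≤ 2 * DP c.R c.R (y, x)
    rw [DP_comm]; exact h.pt
  lkn := fun hs => by
    have hs' : c.s y = none := hs
    have h1 : c.s x = none := by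
      cases hx : c.s x with
      | none => rfl
      | some ρ =>
        obtain ⟨ρ', h2, -⟩ := h.lks ρ hx
        rw [show c.s (x, y).2 = c.s y from rfl, hs'] at h2
        exact absurd h2 (by simp)
    refine ⟨h1, ?_⟩
    rw [dv_swap]
    show _ ≤ c.η * DP c.R c.R (y, x)
    rw [DP_comm]; exact (h.lkn h1).2
  lks := fun ρ hs => by
    have hs' : c.s y = some ρ := hs
    cases hx : c.s x with
    | none =>
      have h2 := (h.lkn hx).1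
      rw [show c.s (x, y).2 = c.s y from rfl, hs'] at h2
      exact absurd h2 (by simp)
    | some σ =>
      obtain ⟨ρ', h2, h3⟩ := h.lks σ hx
      have h4 : c.s y = some ρ' := h2
      rw [hs'] at h4
      obtain rfl := Option.some.inj h4
      exact ⟨σ, hx, h3.swap⟩
  kept := fun h1 h2 => (h.kept h2 h1).swap
  same := fun ρ h1 h2 h3 => (h.same ρ h2 h1 h3.swap).swap
  al1 := fun b hb hm h1 h2 ρ ρ' h3 h4 => h.al2 b hb hm h1 h2 ρ' ρ h3 h4.swap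
  al2 := fun b hb hm h1 h2 ρ ρ' h3 h4 => h.al1 b hb hm h1 h2 ρ' ρ h3 h4.swap

lemma CD.Ok.sw {c : CD} {CL C2 : ℝ} (h : c.Ok CL C2) : c.sw.Ok CL C2 where
  mp := h.mp
  sub := fun ⟨x, y⟩ he => by
    have h1 := h.mem (mem_sw.1 he)
    exact Finset.mem_product.2 ⟨h1.2, h1.1⟩
  ne := fun ⟨x, y⟩ he => (h.ne _ (mem_sw.1 he)).symm
  pos := h.pos
  lo := h.lo
  tame := h.tame
  mass := h.mass
  eta0 := h.eta0
  eta := h.eta
  T0 := h.T0
  T1 := h.T1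
  sm := fun ⟨x, y⟩ he l hl hd => by
    have h1 := h.sm _ (mem_sw.1 he) l hl hd.symm
    rwa [dif_swap] at h1
  F0 := fun ⟨x, y⟩ he => h.F0 _ (mem_sw.1 he)
  Fn := fun ⟨x, y⟩ he hs => by
    have he' := mem_sw.1 he
    obtain ⟨a, a', hk⟩ := h.lk _ he'
    have h1 := h.Fn _ he' (hk.swap.lkn hs).1
    show c.F (y, x) ≤ 2 * ((c.R x * c.R y) / DP c.R c.R (x, y)) *
      (2 * (c.η * DP c.R c.R (x, y)) + 1)
    rw [← DP_comm, mul_comm (c.R x)]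
    exact h1
  Fs := fun ⟨x, y⟩ he ρ hs => by
    have he' := mem_sw.1 he
    obtain ⟨a, a', hk⟩ := h.lk _ he'
    obtain ⟨ρ', h2, -⟩ := hk.swap.lks ρ hs
    have h1 := h.Fs _ he' ρ' h2
    show c.F (y, x) ≤ 2 * ((c.R x * c.R y) / DP c.R c.R (x, y))
    rw [← DP_comm, mul_comm (c.R x)]
    exact h1
  lk := fun ⟨x, y⟩ he => by
    obtain ⟨a, a', hk⟩ := h.lk _ (mem_sw.1 he)
    exact ⟨a', a, hk.swap⟩
  card := h.card
  thinL := h.thinL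
  thinN := h.thinN
  fatL := h.fatL
  keep := h.keep

lemma sum_sw {c : CD} {E₁ E₂ : Finset (ℕ × ℕ)} (h : ∀ x y, (x, y) ∈ E₂ ↔ (y, x) ∈ E₁) :
    ∑ e ∈ E₂, c.F e = ∑ e ∈ E₁, c.sw.F e := by
  refine Finset.sum_nbij' Prod.swap Prod.swap ?_ ?_ ?_ ?_ ?_
  · rintro ⟨x, y⟩ he
    exact (h x y).1 he
  · rintro ⟨x, y⟩ he
    exact (h y x).2 he
  · rintro ⟨x, y⟩ _; rfl
  · rintro ⟨x, y⟩ _; rfl
  · rintro ⟨x, y⟩ _; rfl

lemma mem_V2 {c : CD} {b x y : ℕ} (hN : ∀ e ∈ c.E, ∃ a a' : ℤ, c.LkA e a a') :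
    (x, y) ∈ c.V2 b ↔ (y, x) ∈ c.sw.V1 b := by
  classical
  unfold CD.V2 CD.V1
  rw [Finset.mem_filter, Finset.mem_filter, mem_sw]
  constructor
  · rintro ⟨h1, ⟨ρ, ρ', h2, h3, h4⟩, h5, h6, h7, h8, h9⟩
    refine ⟨h1, ⟨ρ', ρ, h3, h2, h4.symm⟩, h6, h5, ?_, h8, h9⟩
    intro l hl
    refine h7 l ?_
    rw [dif_swap] at hl
    exact hl
  · rintro ⟨h1, ⟨ρ, ρ', h2, h3, h4⟩, h5, h6, h7, h8, h9⟩
    refine ⟨h1, ⟨ρ', ρ, h3, h2, h4.symm⟩, h6, h5, ?_, h8, h9⟩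
    intro l hl
    refine h7 l ?_
    rw [dif_swap]
    exact hl

section v
variable {c : CD} {CL C2 : ℝ}

lemma CD.Ok.lab' (h : c.Ok CL C2) (hm : 1 ≤ c.m) {b : ℕ} (hb : c.m ≤ b) {w : ℕ} (hw : w ∈ c.S)
    {ρ : ℚ} (hs : c.s' w = some ρ) : Lab c.θ (c.R w) ρ ∨ (ρ ∈ c.Λf ∧ (b:ℝ)⁻¹ ≤ c.R w) := by
  rcases le_or_gt (c.R w) c.T with h1 | h1
  · exact Or.inl (h.thinL w hw ρ hs h1)
  · rcases h.fatL w hw ρ hs h1 with h2 | h2
    · exact Or.inl h2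
    · refine Or.inr ⟨h2, ?_⟩
      have hm0 : (0:ℝ) < c.m := by exact_mod_cast hm
      have hmb : (c.m:ℝ) ≤ b := by exact_mod_cast hb
      have hm1 : (1:ℝ) ≤ b := by exact_mod_cast hm.trans hb
      refine le_trans ?_ (h.T0.trans h1.le)
      rw [← Real.rpow_neg_one]
      refine (Real.rpow_le_rpow_of_exponent_le hm1 (show (-1:ℝ) ≤ -(1/2) by norm_num)).trans ?_
      exact Real.rpow_le_rpow_of_nonpos hm0 hmb (by norm_num)

set_option maxHeartbeats 1000000 in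
open Classical in
/-- **two kept labels, separated at the prime `b`** (first side) -/
theorem vvB1 (CL C2 K : ℝ) (hCL : 0 ≤ CL) (hC2 : 0 ≤ C2) : ∃ p₁ : ℕ, ∀ c : CD, c.Ok CL C2 →
    p₁ ≤ c.m → ∀ b : ℕ, b.Prime → c.m < b →
    ((∀ w ∈ c.S, ∀ ρ, c.s' w = some ρ → b ∣ ρ.den →
      Real.exp ((b:ℝ) ^ (1/20:ℝ)) < ρ.den) → ∑ e ∈ c.V1 b, c.F e ≤ c.cb K b) ∧
    ∑ e ∈ c.V1 b, c.F e ≤ (b:ℝ) ^ (-(1/7):ℝ) * ∑ w ∈ c.S, wt c.R w := by
  obtain ⟨p1, h1⟩ := AddLL7.ll_crossV CL C2 hCL hC2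
  obtain ⟨p2, h2⟩ := AddLL7.ll_bad CL C2 hCL hC2
  obtain ⟨p3, h3⟩ := numV CL K
  refine ⟨p1 + p2 + p3 + 1, fun c h hm b hb hmb => ?_⟩
  have hl := (h3 c.m (by omega)).1
  obtain ⟨hlb, n1, n2, n3⟩ := h3 b (by omega)
  have hb0 : (0:ℝ) < b := by exact_mod_cast hb.pos
  have hl0 : 0 < Real.log (b:ℝ) := by linarith
  set S₁ := c.S.filter (fun w => b ∣ w ∧ (c.s' w).isSome) with hS₁
  set S₀ := c.S.filter (fun w => ¬ b ∣ w ∧ (c.s' w).isSome) with hS₀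
  have hS1 : S₁ ⊆ c.S := Finset.filter_subset _ _
  have hSS : S₁ ∪ S₀ ⊆ c.S := Finset.union_subset hS1 (Finset.filter_subset _ _)
  set lab : ℕ → ℚ := fun w => (c.s' w).getD 0 with hlab
  have hsome : ∀ w ∈ S₁ ∪ S₀, ∃ ρ, c.s' w = some ρ := by
    intro w hw
    rcases Finset.mem_union.1 hw with hw | hw
    · exact Option.isSome_iff_exists.1 (Finset.mem_filter.1 hw).2.2
    · exact Option.isSome_iff_exists.1 (Finset.mem_filter.1 hw).2.2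
  have hL : ∀ w ∈ S₁ ∪ S₀, Lab c.θ (c.R w) (lab w) ∨ (lab w ∈ c.Λf ∧ (b:ℝ)⁻¹ ≤ c.R w) := by
    intro w hw
    obtain ⟨ρ, hρ⟩ := hsome w hw
    rw [hlab]
    simp only [hρ, Option.getD_some]
    exact h.lab' (by omega) hmb.le (hSS hw) hρ
  -- facts of a pair
  have hV : ∀ e ∈ c.V1 b, e ∈ c.E ∧ e.1 ∈ S₁ ∧ e.2 ∈ S₀ ∧ ∃ ρ ρ' : ℚ, c.s' e.1 = some ρ ∧
      c.s' e.2 = some ρ' ∧ ρ ≠ ρ' ∧ c.s e.1 = some ρ ∧ b ∣ ρ'.den ∧ b ∣ cof e.1 e.2 ∧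
      ∃ a a' : ℤ, Ex a a' ρ ρ' e := by
    intro e he
    obtain ⟨x1, ⟨ρ, ρ', x2, x3, x4⟩, x5, x6, x7, x8, x9⟩ := Finset.mem_filter.1 he
    obtain ⟨m1, m2⟩ := h.mem x1
    rw [x2] at x5
    rw [x3] at x6
    obtain ⟨a, a', hk⟩ := h.lk e x1
    obtain ⟨ρ'', y1, y2⟩ := hk.lks ρ x2
    rw [x3] at y1
    obtain rfl := Option.some.inj y1
    refine ⟨x1, Finset.mem_filter.2 ⟨m1, x8, by rw [x5]; rfl⟩,
      Finset.mem_filter.2 ⟨m2, x9, by rw [x6]; rfl⟩, ρ, ρ', x5, x6, x4, x2,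
      hk.al1 b hb hmb x8 x9 ρ ρ' x5 y2, dvd_cof hb x8 x9, a, a', y2⟩
  have hbc : ∀ e ∈ c.V1 b, b ≤ cof e.1 e.2 := by
    intro e he
    obtain ⟨x1, x2, x3, ρ, ρ', x4, x5, x6, x7, x8, x9, x10⟩ := hV e he
    exact Nat.le_of_dvd (cof_pos (h.pos _ (h.mem x1).1).1) x9
  have hF : ∀ e ∈ c.V1 b, c.F e ≤ 2 * ((c.R e.1 * c.R e.2) / DP c.R c.R e) := by
    intro e he
    obtain ⟨x1, x2, x3, ρ, ρ', x4, x5, x6, x7, x8, x9, x10⟩ := hV e he
    exact h.Fs e x1 ρ x7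
  have hM0 := h.M0
  have hsub : ∑ w ∈ S₁ ∪ S₀, wt c.R w ≤ ∑ w ∈ c.S, wt c.R w :=
    Finset.sum_le_sum_of_subset_of_nonneg hSS fun w hw _ => h.wt0 hw
  constructor
  · intro hbad
    have key := h1 b (by omega) c.θ S₁ S₀ (c.V1 b) c.R lab c.Λf c.F h.card
      (fun e he => Finset.mem_product.2 ⟨(hV e he).2.1, (hV e he).2.2.1⟩)
      (fun w hw => h.pos w (hSS hw)) (fun w hw => h.lo' hCL hl hmb.le w (hSS hw))
      (h.mass' hC2 hl hmb.le hSS) hL hF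
      (fun e he l hlp hd => by
        obtain ⟨x1, -, -, -, x5, -⟩ := Finset.mem_filter.1 he
        rcases h.sm e x1 l hlp hd with h5 | h5
        · omega
        · exact x5 l h5)
      (fun e he _ => by
        obtain ⟨x1, x2, x3, ρ, ρ', x4, x5, x6, x7, x8, x9, a, a', x10⟩ := hV e he
        simp only [hlab, x4, x5, Option.getD_some]
        exact ⟨x6, hbc e he, Or.inr (hbad _ (h.mem x1).2 ρ' x5 x8), a, a', x10⟩)
    refine key.trans ?_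
    have hV0 : ∑ w ∈ S₁, wt c.R w ≤ ∑ w ∈ c.S.filter (fun w => b ∣ w), wt c.R w :=
      Finset.sum_le_sum_of_subset_of_nonneg (fun w hw => by
        obtain ⟨a1, a2, a3⟩ := Finset.mem_filter.1 hw
        exact Finset.mem_filter.2 ⟨a1, a2⟩) fun w hw _ => h.wt0 (Finset.mem_filter.1 hw).1
    have hV1 : 0 ≤ ∑ w ∈ S₁, wt c.R w := Finset.sum_nonneg fun w hw => h.wt0 (hS1 hw)
    have hK0 : 0 < Real.log (b:ℝ) ^ (-K) := Real.rpow_pos_of_pos hl0 _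
    unfold CD.cb
    rw [mul_add, add_comm]
    refine add_le_add ?_ ?_
    · calc 4 * (CL * Real.log b) / b * ∑ w ∈ S₁, wt c.R w
          ≤ (1/2 * Real.log b ^ (-K)) * ∑ w ∈ S₁, wt c.R w := mul_le_mul_of_nonneg_right n2 hV1
        _ ≤ Real.log b ^ (-K) * ∑ w ∈ S₁, wt c.R w :=
            mul_le_mul_of_nonneg_right (by linarith) hV1
        _ ≤ _ := mul_le_mul_of_nonneg_left hV0 hK0.le
    · calc Real.exp (-((b:ℝ) ^ (1/50:ℝ))) * ∑ w ∈ S₁ ∪ S₀, wt c.R w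
          ≤ (Real.log b ^ (-K) * (1 / (b:ℝ))) * ∑ w ∈ S₁ ∪ S₀, wt c.R w :=
            mul_le_mul_of_nonneg_right n1 (Finset.sum_nonneg fun w hw => h.wt0 (hSS hw))
        _ ≤ (Real.log b ^ (-K) * (1 / (b:ℝ))) * ∑ w ∈ c.S, wt c.R w :=
            mul_le_mul_of_nonneg_left hsub (by positivity)
        _ = _ := by ring
  · refine (h2 b (by omega) c.θ (S₁ ∪ S₀) (c.V1 b) c.R lab c.Λf c.F h.card
      (fun e he => Finset.mem_product.2 ⟨Finset.mem_union_left _ (hV e he).2.1,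
        Finset.mem_union_right _ (hV e he).2.2.1⟩)
      (fun w hw => h.pos w (hSS hw)) (fun w hw => h.lo' hCL hl hmb.le w (hSS hw))
      (h.mass' hC2 hl hmb.le hSS) hL hF
      (fun e he _ => by
        obtain ⟨x1, x2, x3, ρ, ρ', x4, x5, x6, x7, x8, x9, a, a', x10⟩ := hV e he
        simp only [hlab, x4, x5, Option.getD_some]
        have h5 := RseAr23.Zc_of_exact hb x9
          (cof_cop (h.pos _ (h.mem x1).1).1) ρ ρ' x10 x8
        exact ⟨x6, by exact_mod_cast h5.1, a, a', x10⟩)).trans ?_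
    exact mul_le_mul_of_nonneg_left hsub (Real.rpow_nonneg hb0.le _)

end v

/-- **two kept labels, separated at the prime `b`** -/
theorem vvB (CL C2 K : ℝ) (hCL : 0 ≤ CL) (hC2 : 0 ≤ C2) : ∃ p₁ : ℕ, ∀ c : CD, c.Ok CL C2 →
    p₁ ≤ c.m → ∀ b : ℕ, b.Prime → c.m < b →
    ((∀ w ∈ c.S, ∀ ρ, c.s' w = some ρ → b ∣ ρ.den →
      Real.exp ((b:ℝ) ^ (1/20:ℝ)) < ρ.den) →
        ∑ e ∈ c.V1 b, c.F e ≤ c.cb K b ∧ ∑ e ∈ c.V2 b, c.F e ≤ c.cb K b) ∧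
    ∑ e ∈ c.V1 b, c.F e ≤ (b:ℝ) ^ (-(1/7):ℝ) * ∑ w ∈ c.S, wt c.R w ∧
    ∑ e ∈ c.V2 b, c.F e ≤ (b:ℝ) ^ (-(1/7):ℝ) * ∑ w ∈ c.S, wt c.R w := by
  obtain ⟨p1, h1⟩ := vvB1 CL C2 K hCL hC2
  refine ⟨p1, fun c h hm b hb hmb => ?_⟩
  have e2 := sum_sw (c := c) (E₁ := c.sw.V1 b) (E₂ := c.V2 b) fun x y => mem_V2 h.lk
  obtain ⟨a1, a2⟩ := h1 c h hm b hb hmb
  obtain ⟨b1, b2⟩ := h1 c.sw h.sw hm b hb hmb
  rw [e2]
  exact ⟨fun hbad => ⟨a1 hbad, b1 hbad⟩, a2, b2⟩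

end Crest.Agent.R4P.DseN23
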