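import Crest.Agent.R4P.DseLk_23

/-!
R4 (S0004), powers pass, helper23 ([W-dseR], D5): **`CD.Ok`, `CD.NM`, `CD.MM` for the children**.

* `okK` : `CD.Ok`; `nmK` : `CD.NM` (same stage); `mmK` : `CD.MM` (missing child);
* `lamS`, `lamM` : the common fat label.
-/

set_option autoImplicit false
set_option linter.unusedSectionVars false
set_option linter.unusedVariables false

open MeasureTheory Filter

namespace Crest.Agent.R4P.DseKid23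

open Crest.Agent.R4P.Cnt588 Crest.Agent.R4P.Item758 Crest.Agent.R4P.W363
open Crest.Agent.R4P.Data758 Crest.Agent.R4P.LfDat734 Crest.Agent.R4P.OmSt532
open Crest.Agent.R4P.OmData532 Crest.Agent.R4P.WPex189
open Crest.Agent.R4P.Bld532 (NS All NodeOk Bk)
open Crest.Agent.R4P.Step588 (NDt ND1 ctx_NDt uq_lt)
open Crest.Agent.R4P.WalkIT579 (tp isL nodeOk_hi top_of_nodeOk)
open Crest.Agent.R4P.Skel189 Crest.Agent.R4P.RseSt23 Crest.Agent.R4P.RseNd23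
open Crest.Agent.R4.ClosL758 Crest.Agent.R4.ClosR758 Crest.Agent.R4.Tour104 Crest.Agent.R4.Fam464
open Crest.Agent.R4.Tour758 Crest.Agent.R4.Avg758 Crest.Agent.R4.ClosG758
open Crest.Agent.R4P.Frame758
open Crest.Agent.R4.Soft104 (w)
open Crest.Agent.R4.LF363 (Lab)
open Crest.Agent.R4.HVW560 (cof wt)
open Crest.Agent.R4.InX944 (DP)
open Crest.Agent.R4.ClsB (Tame)
open Crest.Agent.R4.DensAcc33 (Accd)
open Crest.Agent.R4P.BadB16 (BadB)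
open Crest.Agent.R4.AvgItem710 (Dp mul_cof mul_cof' cof_coprime exists_of_I_ne)
open Crest.Agent.R4P.StB21
open Crest.Agent.R4P.DseCh23
open Crest.Agent.R4P.DseN23
open Crest.Agent.R4

section ctx
variable {N : Skel189.Num} {γ : ℝ} {p0 P₀ : ℕ} {X : Ctx N γ p0 P₀} {v u : NS} {V τ : IT}
  {Y : Finset (ℕ × ℕ × Finset ℕ)} {A : Finset X.c.Lam} {Λ : Finset ℚ}

/-- facts of one alive item of a child -/
structure AQ (X : Ctx N γ p0 P₀) (V : IT) (u : NS) (τ : IT) (CL : ℝ) (q : ℕ) : Prop where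
  R0 : 0 < RB X u q
  lo : RB X u q ≤ CL * Real.log (lvl u τ) * wA u.A (RB X u) q
  tame : ∀ z : ℝ, (lvl u τ : ℝ) ^ 2 ≤ z → Tame z 1 (q / u.A)
  hi : Real.exp (-(Real.log (tp V) ^ (4/5:ℝ))) * RB X u q < 1

lemma rr_al {q : ℕ} (hq : q ∈ al X τ A) : X.c.rr q = X.c.r q := if_pos (X.rpos (al_mem hq).2)

lemma RB_al {q : ℕ} (hq : q ∈ al X τ A) : RB X u q = u.B * X.c.r q := by
  show (u.B:ℝ) * X.c.rr q = _
  rw [rr_al hq]

/-- **`CD.Ok` of a child** -/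
theorem okK (hD : DH X) (h : Kid X v V u τ) (hm : p0 ≤ lvl u τ) {CL C2 : ℝ}
    (hq : ∀ q ∈ al X τ A, AQ X V u τ CL q)
    (hM : ∑ q ∈ al X τ A, wA u.A (RB X u) q ≤ Real.log (lvl u τ) ^ C2) (hΛ : Λ.card ≤ 1)
    (hΛ2 : ∀ q ∈ al X τ A, ∀ σ : ℚ, X.c.st (tp V) q = some σ →
      thK X u τ < (u.B:ℝ) * X.c.r q →
        Lab (u.B * X.c.γ) (u.B * X.c.r q) (u.B * σ) ∨ (u.B : ℚ) * σ ∈ Λ) :
    (cdK X Y A V u τ Λ).Ok CL C2 := by
  classical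
  have hnd := h.hu.nd
  have hB0 : (0:ℝ) < u.B := h.B_pos
  have hBn : 0 < u.B := hnd.B_pos
  have hlam : X.c.lam (tp V) = 0 := hD.th.lam _
  have hS : ∀ x ∈ (cdK X Y A V u τ Λ).S, ∃ q ∈ al X τ A, x = q / u.A ∧ u.A * x = q := by
    intro x hx
    obtain ⟨q, hq1, rfl⟩ := Finset.mem_image.1 hx
    exact ⟨q, hq1, rfl, Nat.mul_div_cancel' (al_dvd hnd q hq1)⟩
  have hE : ∀ x ∈ (cdK X Y A V u τ Λ).E, ∃ (e : ℕ × ℕ) (j j' : X.c.Lam) (y z z' : ℝ) (a a' : ℤ),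
      PtK X Y A V u τ e j j' y z z' a a' ∧ x = (e.1 / u.A, e.2 / u.A) ∧
      e.1 ∈ al X τ A ∧ e.2 ∈ al X τ A := by
    intro x hx
    obtain ⟨e, he, rfl⟩ := Finset.mem_image.1 hx
    obtain ⟨j, j', y, z, z', a, a', k⟩ := PE_kid hnd he
    obtain ⟨a1, a2⟩ := Finset.mem_product.1 (PE_sub hnd he)
    exact ⟨e, j, j', y, z, z', a, a', k, rfl, a1, a2⟩
  have es : ∀ q, (cdK X Y A V u τ Λ).s q =
      (X.c.st (tp V) (u.A * q)).map fun σ => (u.B : ℚ) * σ := fun q => rfl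
  have es' : ∀ q, (cdK X Y A V u τ Λ).s' q =
      (stK X τ (u.A * q)).map fun σ => (u.B : ℚ) * σ := fun q => rfl
  have eR : ∀ q, (cdK X Y A V u τ Λ).R q = RB X u (u.A * q) := fun q => rfl
  have eF : ∀ e : ℕ × ℕ, e.1 ∈ al X τ A → e.2 ∈ al X τ A →
      (cdK X Y A V u τ Λ).F (e.1 / u.A, e.2 / u.A) =
      (X.c.D.par Y).iF (RC X Y (tp V) u τ) (Uv X Y u τ A) (Uv X Y u τ A) e := by
    intro e h1 h2
    show (X.c.D.par Y).iF (RC X Y (tp V) u τ) (Uv X Y u τ A) (Uv X Y u τ A)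
      (u.A * (e.1 / u.A), u.A * (e.2 / u.A)) = _
    rw [Nat.mul_div_cancel' (al_dvd hnd _ h1), Nat.mul_div_cancel' (al_dvd hnd _ h2)]
  have eDP : ∀ e : ℕ × ℕ, e.1 ∈ al X τ A → e.2 ∈ al X τ A →
      DP (cdK X Y A V u τ Λ).R (cdK X Y A V u τ Λ).R (e.1 / u.A, e.2 / u.A) =
        DA u.A (RB X u) e := fun e h1 h2 => DP_eq u.A (RB X u) (al_dvd hnd _ h1) (al_dvd hnd _ h2)
  have eRq : ∀ q ∈ al X τ A, (cdK X Y A V u τ Λ).R (q / u.A) = RB X u q := fun q hq => by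
    rw [eR, Nat.mul_div_cancel' (al_dvd hnd _ hq)]
  refine
    { mp := h.lvl_le
      sub := sub_tr (PE_sub hnd)
      ne := ?_
      pos := ?_
      lo := ?_
      tame := ?_
      mass := ?_
      eta0 := Real.exp_pos _
      eta := le_rfl
      T0 := ?_
      T1 := ?_
      sm := ?_
      F0 := ?_
      Fn := ?_
      Fs := ?_
      lk := ?_
      card := hΛ
      thinL := ?_
      thinN := ?_
      fatL := ?_
      keep := ?_ }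
  · -- ne
    intro x hx
    obtain ⟨e, j, j', y, z, z', a, a', k, rfl, h1, h2⟩ := hE x hx
    intro heq
    have heq' : e.1 / u.A = e.2 / u.A := heq
    refine ne_kid hD h k (hq _ h1).hi ?_
    rw [← Nat.mul_div_cancel' (al_dvd hnd _ h1), heq', Nat.mul_div_cancel' (al_dvd hnd _ h2)]
  · -- pos
    intro x hx
    obtain ⟨q, hq1, rfl, hq3⟩ := hS x hx
    refine ⟨Nat.pos_of_ne_zero (hnd.div_ne (al_mem hq1).1), ?_⟩
    rw [eRq q hq1]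
    exact (hq q hq1).R0
  · -- lo
    intro x hx
    obtain ⟨q, hq1, rfl, hq3⟩ := hS x hx
    rw [eRq q hq1]
    refine (hq q hq1).lo.trans (le_of_eq ?_)
    congr 1
    exact (wt_tr u.A (RB X u) (al_dvd hnd q hq1)).symm
  · -- tame
    intro z hz x hx
    obtain ⟨q, hq1, rfl, hq3⟩ := hS x hx
    exact (hq q hq1).tame z hz
  · -- mass
    have := cdK_S (V := V) hnd (Y := Y) (A := A) (Λ := Λ) (fun _ => 1)
    simp only [mul_one] at this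
    rw [this]
    exact hM
  · -- T0
    show ((lvl u τ : ℕ) : ℝ) ^ (-(1/2:ℝ)) ≤ thK X u τ
    by_cases hl : isL τ
    · obtain ⟨S, rfl⟩ := isL_iff.1 hl
      rw [thK_leaf]
      exact hD.thrL0 _ hm
    · rw [thK_node hl, lvl_node hl]
      exact hD.rse.thr _ (h.node hl).2.1
  · -- T1
    show thK X u τ ≤ 1 / 10
    by_cases hl : isL τ
    · obtain ⟨S, rfl⟩ := isL_iff.1 hl
      rw [thK_leaf]
      exact hD.thrL1 _ hm
    · rw [thK_node hl]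
      exact hD.thr1 _ (h.node hl).2.1
  · -- sm
    intro x hx l hl hd
    obtain ⟨e, j, j', y, z, z', a, a', k, rfl, h1, h2⟩ := hE x hx
    exact sm_kid h k hl hd
  · -- F0
    intro x hx
    obtain ⟨e, j, j', y, z, z', a, a', k, rfl, h1, h2⟩ := hE x hx
    rw [eF e h1 h2]
    have hU : ∀ (i : X.c.Lam) (t : ℝ), 0 ≤ Uv X Y u τ A i t := by
      intro i t
      have hpb := PB_rv (fun i => FT.pb hBn
        ((X.c.D.par Y).toFT_Adm τ u.B u.A hBn hnd.fit (node_wts hnd Y)) (one_dvd u.B) i) A i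
      exact hpb.nonneg t
    exact (X.c.D.par Y).iF_nonneg _ hU hU e
  · -- Fn
    intro x hx hs
    obtain ⟨e, j, j', y, z, z', a, a', k, rfl, h1, h2⟩ := hE x hx
    have L : (cdK X Y A V u τ Λ).LkA (e.1 / u.A, e.2 / u.A) a a' := lkA_kid hD h k
    have hs2 := (L.lkn hs).1
    have hs' : X.c.st (tp V) e.1 = none := by
      rw [es] at hs
      simp only at hs
      rw [Nat.mul_div_cancel' (al_dvd hnd _ h1)] at hs
      exact map_none.1 hs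
    have hs2' : X.c.st (tp V) e.2 = none := by
      rw [es] at hs2
      simp only at hs2
      rw [Nat.mul_div_cancel' (al_dvd hnd _ h2)] at hs2
      exact map_none.1 hs2
    rw [eF e h1 h2, eDP e h1 h2]
    simp only
    rw [eRq _ h1, eRq _ h2]
    exact F_none_kid hnd h.tpVt hlam k.i1 k.i2 (etaL_le hD h) hs' hs2'
  · -- Fs
    intro x hx ρ hs
    obtain ⟨e, j, j', y, z, z', a, a', k, rfl, h1, h2⟩ := hE x hx
    have L : (cdK X Y A V u τ Λ).LkA (e.1 / u.A, e.2 / u.A) a a' := lkA_kid hD h k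
    obtain ⟨ρ', hs2, -⟩ := L.lks ρ hs
    rw [es] at hs hs2
    simp only at hs hs2
    rw [Nat.mul_div_cancel' (al_dvd hnd _ h1)] at hs
    rw [Nat.mul_div_cancel' (al_dvd hnd _ h2)] at hs2
    obtain ⟨σ, hσ, -⟩ := map_some hs
    obtain ⟨σ', hσ', -⟩ := map_some hs2
    rw [eF e h1 h2, eDP e h1 h2]
    simp only
    rw [eRq _ h1, eRq _ h2]
    exact F_some_kid hnd h.tpVt hlam k.i1 k.i2 hσ hσ'
  · -- lk
    intro x hx
    obtain ⟨e, j, j', y, z, z', a, a', k, rfl, h1, h2⟩ := hE x hx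
    exact ⟨a, a', lkA_kid hD h k⟩
  · -- thinL
    intro x hx ρ hs hT
    obtain ⟨q, hq1, rfl, hq3⟩ := hS x hx
    rw [es', hq3] at hs
    rw [eRq q hq1, RB_al hq1] at hT ⊢
    obtain ⟨σ, hσ, rfl⟩ := map_some hs
    rw [K_thin hD.th h (al_mem hq1).1 hT] at hσ
    exact lab0_spec hBn hσ
  · -- thinN
    intro x hx hs hT ρ
    obtain ⟨q, hq1, rfl, hq3⟩ := hS x hx
    rw [es', hq3] at hs
    rw [eRq q hq1, RB_al hq1] at hT ⊢
    have hs2 := map_none.1 hs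
    rw [K_thin hD.th h (al_mem hq1).1 hT] at hs2
    exact lab0_none hs2 ρ
  · -- fatL
    intro x hx ρ hs hT
    obtain ⟨q, hq1, rfl, hq3⟩ := hS x hx
    rw [es', hq3] at hs
    rw [eRq q hq1, RB_al hq1] at hT ⊢
    obtain ⟨σ, hσ, rfl⟩ := map_some hs
    have hqi := al_mem hq1
    cases hv : X.c.st (tp V) q with
    | none =>
      left
      rcases h.B with hB | hB
      · rw [K_none hD.th h hqi.1 hqi.2 hB hv] at hσ
        exact absurd hσ (by simp)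
      · exact lab0_spec hBn (K_fatN hD.th h hqi.1 hqi.2 hB hT hv hσ)
    | some σ' =>
      have h5 := K_keep hD.th h hqi.1 hqi.2 hT hv
      rw [hσ] at h5
      rw [Option.some.inj h5]
      exact hΛ2 q hq1 σ' hv hT
  · -- keep
    intro x hx ρ hs hT
    obtain ⟨q, hq1, rfl, hq3⟩ := hS x hx
    rw [es, hq3] at hs
    rw [es', hq3]
    rw [eRq q hq1, RB_al hq1] at hT
    obtain ⟨σ, hσ, rfl⟩ := map_some hs
    rw [K_keep hD.th h (al_mem hq1).1 (al_mem hq1).2 hT hσ]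
    rfl

/-- **`CD.NM`**: a child of the same stage -/
theorem nmK (hD : DH X) (h : Kid X v V u τ) (hB : u.B = v.B) {A' : ℝ}
    (hvl : ∀ q ∈ al X τ A, ∀ σ : ℚ, X.c.st (tp V) q = some σ →
        Lab (u.B * X.c.γ) (u.B * X.c.r q) (u.B * σ) ∨ (u.B : ℚ) * σ ∈ Λ)
    (hacc : ∀ q ∈ al X τ A, ∀ b : ℕ, b.Prime → lvl u τ < b → b ≤ tp V → b ∣ q / u.A →
      ¬ Accd (u.B * X.c.γ) (Real.log b ^ A') b)
    (hbad : ∀ q ∈ al X τ A, ∀ b : ℕ, b.Prime → lvl u τ < b → b ≤ tp V →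
      ¬ (BadB X.c.γ u.B b ∧ ¬ b ∣ u.B) → ∀ σ : ℚ, stK X τ q = some σ →
      b ∣ ((u.B:ℚ) * σ).den → Real.exp ((b:ℝ) ^ (1/20:ℝ)) < ((u.B:ℚ) * σ).den) :
    (cdK X Y A V u τ Λ).NM A' (fun b => BadB X.c.γ u.B b ∧ ¬ b ∣ u.B) := by
  classical
  have hnd := h.hu.nd
  have hS : ∀ x ∈ (cdK X Y A V u τ Λ).S, ∃ q ∈ al X τ A, x = q / u.A ∧ u.A * x = q := by
    intro x hx
    obtain ⟨q, hq1, rfl⟩ := Finset.mem_image.1 hx
    exact ⟨q, hq1, rfl, Nat.mul_div_cancel' (al_dvd hnd q hq1)⟩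
  have es : ∀ q, (cdK X Y A V u τ Λ).s q =
      (X.c.st (tp V) (u.A * q)).map fun σ => (u.B : ℚ) * σ := fun q => rfl
  have es' : ∀ q, (cdK X Y A V u τ Λ).s' q =
      (stK X τ (u.A * q)).map fun σ => (u.B : ℚ) * σ := fun q => rfl
  have eR : ∀ q, (cdK X Y A V u τ Λ).R q = RB X u (u.A * q) := fun q => rfl
  refine
    { nn := ?_
      vl := ?_
      acc := ?_
      bad := ?_ }
  · intro x hx hs
    obtain ⟨q, hq1, rfl, hq3⟩ := hS x hx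
    rw [es, hq3] at hs
    rw [es', hq3, K_none hD.th h (al_mem hq1).1 (al_mem hq1).2 hB (map_none.1 hs)]
    rfl
  · intro x hx ρ hs
    obtain ⟨q, hq1, rfl, hq3⟩ := hS x hx
    rw [es, hq3] at hs
    rw [eR, hq3, RB_al hq1]
    obtain ⟨σ, hσ, rfl⟩ := map_some hs
    exact hvl q hq1 σ hσ
  · intro x hx b hb h1 h2 h3
    obtain ⟨q, hq1, rfl, hq3⟩ := hS x hx
    exact hacc q hq1 b hb h1 h2 h3
  · intro b hb h1 h2 h3 x hx ρ hs h4
    obtain ⟨q, hq1, rfl, hq3⟩ := hS x hx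
    rw [es', hq3] at hs
    obtain ⟨σ, hσ, rfl⟩ := map_some hs
    exact hbad q hq1 b hb h1 h2 h3 σ hσ h4

/-- **`CD.MM`**: the missing child of a tie -/
theorem mmK (hD : DH X) (h : Kid X v V u τ) (hB : u.B = v.B * tp V) {C2 A' : ℝ}
    (hhi : ∀ q ∈ al X τ A, RB X u q ≤ Real.log (tp V) ^ C2)
    (hacc : (al X τ A).Nonempty → ¬ Accd (v.B * X.c.γ) (Real.log (tp V) ^ A') (tp V))
    (hbad : (al X τ A).Nonempty → ∀ (ρ : ℚ) (a : ℝ), Lab (v.B * X.c.γ) a ρ → tp V ∣ ρ.den →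
      Real.exp ((tp V : ℝ) ^ (1/20:ℝ)) < ρ.den) :
    (cdK X Y A V u τ Λ).MM C2 A' := by
  classical
  have hnd := h.hu.nd
  have hp := h.tpV.1
  have hp0 : (tp V : ℝ) ≠ 0 := by exact_mod_cast hp.ne_zero
  have hpq : (tp V : ℚ) ≠ 0 := by exact_mod_cast hp.ne_zero
  have hvB : 0 < v.B := h.hv.nd.B_pos
  have hS : ∀ x ∈ (cdK X Y A V u τ Λ).S, ∃ q ∈ al X τ A, x = q / u.A ∧ u.A * x = q := by
    intro x hx
    obtain ⟨q, hq1, rfl⟩ := Finset.mem_image.1 hx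
    exact ⟨q, hq1, rfl, Nat.mul_div_cancel' (al_dvd hnd q hq1)⟩
  have hne : (cdK X Y A V u τ Λ).S.Nonempty → (al X τ A).Nonempty := by
    rintro ⟨x, hx⟩
    obtain ⟨q, hq1, -⟩ := hS x hx
    exact ⟨q, hq1⟩
  have es : ∀ q, (cdK X Y A V u τ Λ).s q =
      (X.c.st (tp V) (u.A * q)).map fun σ => (u.B : ℚ) * σ := fun q => rfl
  have eR : ∀ q, (cdK X Y A V u τ Λ).R q = RB X u (u.A * q) := fun q => rfl
  have eθ : (cdK X Y A V u τ Λ).θ / (cdK X Y A V u τ Λ).p = v.B * X.c.γ := by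
    show (u.B * X.c.γ) / (tp V : ℝ) = _
    rw [hB]
    push_cast
    field_simp
  have eRp : ∀ q ∈ al X τ A, RB X u q / (tp V : ℝ) = v.B * X.c.r q := by
    intro q hq
    rw [RB_al hq, hB]
    push_cast
    field_simp
  refine
    { pp := hp
      hi := ?_
      nl := ?_
      vl := ?_
      acc := ?_
      bad := ?_ }
  · intro x hx
    obtain ⟨q, hq1, rfl, hq3⟩ := hS x hx
    rw [eR, hq3]
    exact hhi q hq1
  · intro x hx hs ρ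
    obtain ⟨q, hq1, rfl, hq3⟩ := hS x hx
    rw [es, hq3] at hs
    have h1 := map_none.1 hs
    rw [(K_miss hD.th h (al_mem hq1).1 (al_mem hq1).2 hB).2] at h1
    rw [eθ, eR, hq3]
    show ¬ Lab _ (RB X u q / (tp V : ℝ)) ρ
    rw [eRp q hq1]
    exact lab0_none h1 ρ
  · intro x hx ρ hs
    obtain ⟨q, hq1, rfl, hq3⟩ := hS x hx
    rw [es, hq3] at hs
    obtain ⟨σ, hσ, rfl⟩ := map_some hs
    rw [(K_miss hD.th h (al_mem hq1).1 (al_mem hq1).2 hB).2] at hσ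
    rw [eθ, eR, hq3]
    show Lab _ (RB X u q / (tp V : ℝ)) ((u.B:ℚ) * σ / (tp V : ℚ))
    rw [eRp q hq1]
    have e1 : (u.B:ℚ) * σ / (tp V : ℚ) = (v.B : ℚ) * σ := by
      rw [hB]
      push_cast
      field_simp
    rw [e1]
    exact lab0_spec hvB hσ
  · intro hn
    rw [eθ]
    exact hacc (hne hn)
  · intro hn ρ a hL hd
    rw [eθ] at hL
    exact hbad (hne hn) ρ a hL hd

/-! ### the common fat label -/

/-- **same stage** -/
theorem lamS (N : Skel189.Num) : ∃ p₁ : ℕ, ∀ p0 ≥ p₁, ∀ (γ : ℝ) (P₀ : ℕ) (X : Ctx N γ p0 P₀),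
    DH X → ∀ (v u : NS) (V τ : IT), Kid X v V u τ → u.B = v.B →
    ∃ Λ : Finset ℚ, Λ.card ≤ 1 ∧ ∀ q ∈ τ.items, q ∈ X.S' → ∀ σ : ℚ,
      X.c.st (tp V) q = some σ →
        Lab (u.B * X.c.γ) (u.B * X.c.r q) (u.B * σ) ∨ (u.B : ℚ) * σ ∈ Λ := by
  obtain ⟨p5, h5⟩ := num_p (N.c2 + 2)
  refine ⟨p5, fun p0 hp0 γ P₀ X hD v u V τ h hB => ?_⟩
  obtain ⟨k1, k2, k3⟩ := h.tpV
  set p := tp V with hp
  obtain ⟨n1, n2, n3, n4, n5⟩ := h5 p (by omega)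
  have hpR : (0:ℝ) < p := by exact_mod_cast (by omega : 0 < p)
  have hthr := hD.rse.thr p k2
  have hK : ∀ s : ℕ, tp V < s → Real.log p ^ (N.c2 + 2) ≤ s * X.c.wp.thr s := by
    intro s hs
    have hsR : (0:ℝ) < s := by
      have : 0 < s := by omega
      exact_mod_cast this
    have hps : (p:ℝ) ≤ s := by exact_mod_cast hs.le
    have h6 := hD.rse.thr s (k2.trans hs)
    have h7 : (s:ℝ) ^ (1/2:ℝ) = s * (s:ℝ) ^ (-(1/2:ℝ)) := by
      conv_rhs => rw [← Real.rpow_one (s:ℝ), ← Real.rpow_mul hsR.le, ← Real.rpow_add hsR]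
      norm_num
    calc Real.log p ^ (N.c2 + 2) ≤ (p:ℝ) ^ (1/2:ℝ) := n5
      _ ≤ (s:ℝ) ^ (1/2:ℝ) := Real.rpow_le_rpow hpR.le hps (by norm_num)
      _ = s * (s:ℝ) ^ (-(1/2:ℝ)) := h7
      _ ≤ s * X.c.wp.thr s := mul_le_mul_of_nonneg_left h6 hsR.le
  have hthr0 : 0 < X.c.wp.thr (tp V) := (Real.rpow_pos_of_pos hpR _).trans_le hthr
  have hK4 : 32 * (Real.log p ^ (N.c2 + 2)) ^ 4 < (tp V : ℝ) ^ 2 * X.c.wp.thr (tp V) ^ 2 := by
    refine n4.trans_le ?_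
    have h7 : ((p:ℝ) ^ (-(1/2:ℝ))) ^ 2 ≤ X.c.wp.thr (tp V) ^ 2 :=
      pow_le_pow_left₀ (Real.rpow_nonneg hpR.le _) hthr 2
    have h8 : ((p:ℝ) ^ (-(1/2:ℝ))) ^ 2 = (p:ℝ)⁻¹ := by
      rw [← Real.rpow_natCast, ← Real.rpow_mul hpR.le, ← Real.rpow_neg_one]
      norm_num
    rw [h8] at h7
    calc (p:ℝ) = (p:ℝ) ^ 2 * (p:ℝ)⁻¹ := by field_simp
      _ ≤ (p:ℝ) ^ 2 * X.c.wp.thr (tp V) ^ 2 := mul_le_mul_of_nonneg_left h7 (sq_nonneg _)
  obtain ⟨Λf, hΛ, hlab⟩ := lab_nodeB h.hv.nd X.tOk h.lV (wp := X.c.wp) (wpL := X.c.wpL)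
    (lam := X.c.lam) (lv := X.c.lv) (γ := X.c.γ) (r := X.c.r) hK hthr0 hK4
  refine ⟨Λf, hΛ, fun q hq hqs σ hσ => ?_⟩
  have hcol := h.hv.rd.col h.lV q (h.sub hq) hqs
  have hrr : X.c.rr q = X.c.r q := if_pos (X.rpos hqs)
  rw [hrr] at hcol
  rw [hB]
  rcases hlab q (h.sub hq) hcol σ hσ with h6 | h6
  · exact Or.inl h6
  · exact Or.inr h6.1

/-- **missing child** -/
theorem lamM (N : Skel189.Num) : ∃ p₁ : ℕ, ∀ p0 ≥ p₁, ∀ (γ : ℝ) (P₀ : ℕ) (X : Ctx N γ p0 P₀),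
    DH X → ∀ (v u : NS) (V τ : IT), Kid X v V u τ → u.B = v.B * tp V → p0 ≤ lvl u τ →
    ∃ Λ : Finset ℚ, Λ.card ≤ 1 ∧ ∀ q ∈ τ.items, q ∈ X.S' → ∀ σ : ℚ,
      X.c.st (tp V) q = some σ → thK X u τ < (u.B:ℝ) * X.c.r q → (u.B : ℚ) * σ ∈ Λ := by
  classical
  obtain ⟨p5, h5⟩ := num_p (N.B + N.c2 + 2)
  refine ⟨p5 + 2, fun p0 hp0 γ P₀ X hD v u V τ h hB hm => ?_⟩
  obtain ⟨k1, k2, k3⟩ := h.tpV
  set p := tp V with hp
  obtain ⟨n1, n2, n3, n4, n5⟩ := h5 p (by omega)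
  have hpR : (0:ℝ) < p := by exact_mod_cast (by omega : 0 < p)
  have hun : u.n ≤ p := h.hu.nd.bk.geB p k1 ⟨v.B, by rw [hB, mul_comm]⟩
  have hlvl := h.lvl_le
  have hT : (p:ℝ) ^ (-(1/2:ℝ)) ≤ thK X u τ := by
    have hm0 : (0:ℝ) < ((lvl u τ : ℕ) : ℝ) := by exact_mod_cast (by omega : 0 < lvl u τ)
    have h1 : (p:ℝ) ^ (-(1/2:ℝ)) ≤ ((lvl u τ : ℕ) : ℝ) ^ (-(1/2:ℝ)) := by
      refine Real.rpow_le_rpow_of_nonpos hm0 ?_ (by norm_num)
      exact_mod_cast hlvl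
    refine h1.trans ?_
    by_cases hl : isL τ
    · obtain ⟨S, rfl⟩ := isL_iff.1 hl
      rw [thK_leaf]
      exact hD.thrL0 _ hm
    · rw [thK_node hl, lvl_node hl]
      exact hD.rse.thr _ (h.node hl).2.1
  have hB' : (u.B:ℝ) = v.B * p := by rw [hB]; push_cast; ring
  have key : ∀ q ∈ τ.items, q ∈ X.S' → ∀ σ : ℚ, X.c.st p q = some σ →
      thK X u τ < (u.B:ℝ) * X.c.r q →
      Lab (v.B * X.c.γ) (v.B * X.c.r q) (v.B * σ) ∧ thK X u τ / p ≤ v.B * X.c.r q ∧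
        v.B * X.c.r q ≤ Real.log p ^ (N.B + N.c2 + 2) / p := by
    intro q hq hqs σ hσ hfat
    rw [(K_miss hD.th h hq hqs hB).2] at hσ
    refine ⟨lab0_spec h.hv.nd.B_pos hσ, ?_, ?_⟩
    · rw [div_le_iff₀ hpR]
      rw [hB'] at hfat
      nlinarith
    · rw [le_div_iff₀ hpR]
      have h6 := h.hu.rd.gen q hq hqs p k2 hun
      have hrr : X.c.rr q = X.c.r q := if_pos (X.rpos hqs)
      rw [hrr, hB'] at h6
      nlinarith
  by_cases hex : ∃ q ∈ τ.items, q ∈ X.S' ∧ ∃ σ : ℚ, X.c.st p q = some σ ∧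
      thK X u τ < (u.B:ℝ) * X.c.r q
  · obtain ⟨q₀, hq₀, hqs₀, σ₀, hσ₀, hf₀⟩ := hex
    refine ⟨{(u.B : ℚ) * σ₀}, by simp, fun q hq hqs σ hσ hf => ?_⟩
    obtain ⟨a1, a2, a3⟩ := key q hq hqs σ hσ hf
    obtain ⟨b1, b2, b3⟩ := key q₀ hq₀ hqs₀ σ₀ hσ₀ hf₀
    have hT0 : 0 < thK X u τ / p := div_pos ((Real.rpow_pos_of_pos hpR _).trans_le hT) hpR
    have he := lab_unique_of a1 b1 hT0 a2 b2 a3 b3 (by
      rw [div_pow, div_pow, mul_div_assoc', div_lt_div_iff₀ (by positivity) (by positivity)]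
      have h7 : ((p:ℝ) ^ (-(1/2:ℝ))) ^ 2 ≤ thK X u τ ^ 2 :=
        pow_le_pow_left₀ (Real.rpow_nonneg hpR.le _) hT 2
      have h8 : ((p:ℝ) ^ (-(1/2:ℝ))) ^ 2 = (p:ℝ)⁻¹ := by
        rw [← Real.rpow_natCast, ← Real.rpow_mul hpR.le, ← Real.rpow_neg_one]
        norm_num
      rw [h8] at h7
      calc 32 * (Real.log p ^ (N.B + N.c2 + 2)) ^ 4 * (p:ℝ) ^ 2 < p * (p:ℝ) ^ 2 :=
            mul_lt_mul_of_pos_right n4 (by positivity)
        _ = (p:ℝ)⁻¹ * (p:ℝ) ^ 4 := by field_simp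
        _ ≤ thK X u τ ^ 2 * (p:ℝ) ^ 4 := mul_le_mul_of_nonneg_right h7 (by positivity))
    have hvq : (v.B : ℚ) ≠ 0 := by exact_mod_cast h.hv.nd.B_pos.ne'
    rw [Finset.mem_singleton, mul_left_cancel₀ hvq he]
  · refine ⟨∅, by simp, fun q hq hqs σ hσ hf => ?_⟩
    exact absurd ⟨q, hq, hqs, σ, hσ, hf⟩ hex

end ctx

end Crest.Agent.R4P.DseKid23
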