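import Crest.Agent.R4P.DseKs_23

/-!
R4 (S0004), powers pass, helper23 ([W-dseR], D5): **how the pairs of a child are separated**.

* `DH X` : hypotheses on the worlds;
* `kid_sep` : a pair of pieces of one class at the column, not in one class of the child, with equal
  indices at the child: a prime of `(m, p]` divides exactly one modulus, or the tags changed and a
  cofactor is at least `2 ^ m`;
* `kid_alive` : a retained prime of one item of an exact alive pair divides the denominator of the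
  other label.
-/

set_option autoImplicit false
set_option linter.unusedSectionVars false
set_option linter.unusedVariables false

open MeasureTheory Filter

namespace Crest.Agent.R4P.DseKid23

open Crest.Agent.R4P.Cnt588 Crest.Agent.R4P.Item758 Crest.Agent.R4P.W363
open Crest.Agent.R4P.Data758 Crest.Agent.R4P.LfDat734 Crest.Agent.R4P.OmSt532
open Crest.Agent.R4P.OmData532 Crest.Agent.R4P.WPex189
open Crest.Agent.R4P.Bld532 (NS All NodeOk Bk)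
open Crest.Agent.R4P.Step588 (NDt ND1 ctx_NDt uq_lt)
open Crest.Agent.R4P.WalkIT579 (tp isL nodeOk_hi top_of_nodeOk)
open Crest.Agent.R4P.Skel189 Crest.Agent.R4P.RseSt23 Crest.Agent.R4P.RseNd23
open Crest.Agent.R4.ClosL758 Crest.Agent.R4.ClosR758 Crest.Agent.R4.Tour104 Crest.Agent.R4.Fam464
open Crest.Agent.R4.Tour758 Crest.Agent.R4.Avg758 Crest.Agent.R4.ClosG758
open Crest.Agent.R4P.Frame758
open Crest.Agent.R4.Soft104 (w)
open Crest.Agent.R4.LF363 (Lab)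
open Crest.Agent.R4.HVW560 (cof)
open Crest.Agent.R4.AvgItem710 (mul_cof mul_cof' cof_pos cof_coprime)
open Crest.Agent.R4P.StB21
open Crest.Agent.R4P.DseCh23
open Crest.Agent.R4

/-- **hypotheses on the worlds** for `dseR` -/
structure DH {N : Skel189.Num} {γ : ℝ} {p0 P₀ : ℕ} (X : Ctx N γ p0 P₀) : Prop where
  th : TH X
  rse : RseH X
  dep : ∀ m p : ℕ, p0 < m → m ≤ p → X.c.wp.dep m ≤ X.c.wp.dep p
  depL : ∀ m p : ℕ, p0 ≤ m → m ≤ p → X.c.wpL.dep m ≤ X.c.wp.dep p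
  tg : ∀ m p : ℕ, p0 < m → m ≤ p → Nat.log 2 m = Nat.log 2 p → ∀ q r : ℕ,
    X.c.tg p q = X.c.tg p r → X.c.tg m q = X.c.tg m r
  tgL : ∀ q, X.c.tgL q = 0
  thr1 : ∀ p, p0 < p → X.c.wp.thr p ≤ 1 / 10
  thrL0 : ∀ m : ℕ, p0 ≤ m → (m:ℝ) ^ (-(1/2:ℝ)) ≤ X.c.wpL.thr m
  thrL1 : ∀ m : ℕ, p0 ≤ m → X.c.wpL.thr m ≤ 1 / 10

section ctx
variable {N : Skel189.Num} {γ : ℝ} {p0 P₀ : ℕ} {X : Ctx N γ p0 P₀} {v u : NS} {V τ : IT}

/-- the tags may change between the column and the child -/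
def crK (u : NS) (V τ : IT) : Prop := ¬ isL τ ∧ Nat.log 2 (tp τ) < Nat.log 2 (tp V)

/-- different retained parts at a lower level, equal ones at the column -/
lemma ret_sep {t : IT} {n : ℕ} (hO : t.Ok n) {m p q r : ℕ} (hne : ret t m q ≠ ret t m r)
    (he : ret t p q = ret t p r) : ∃ b : ℕ, b.Prime ∧ m < b ∧ b ≤ p ∧
      (b ∈ t.uq q ∧ b ∉ t.uq r ∨ b ∈ t.uq r ∧ b ∉ t.uq q) := by
  have hset : (t.uq q).filter (m < ·) ≠ (t.uq r).filter (m < ·) := by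
    intro e
    apply hne
    unfold ret
    rw [e]
  have hex : ∃ b, (b ∈ t.uq q ∧ m < b ∧ b ∉ t.uq r) ∨ (b ∈ t.uq r ∧ m < b ∧ b ∉ t.uq q) := by
    by_contra hc
    push Not at hc
    apply hset
    ext b
    rw [Finset.mem_filter, Finset.mem_filter]
    constructor
    · rintro ⟨h1, h2⟩
      exact ⟨(hc b).1 h1 h2, h2⟩
    · rintro ⟨h1, h2⟩
      exact ⟨(hc b).2 h1 h2, h2⟩
  obtain ⟨b, hb⟩ := hex
  rcases hb with ⟨h1, h2, h3⟩ | ⟨h1, h2, h3⟩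
  · have hp := (uq_lt hO h1).1
    refine ⟨b, hp, h2, ?_, Or.inl ⟨h1, h3⟩⟩
    by_contra hc
    have h4 := (dvd_ret hO hp (p := p) (q := q)).2 ⟨h1, not_le.1 hc⟩
    rw [he] at h4
    exact h3 ((dvd_ret hO hp).1 h4).1
  · have hp := (uq_lt hO h1).1
    refine ⟨b, hp, h2, ?_, Or.inr ⟨h1, h3⟩⟩
    by_contra hc
    have h4 := (dvd_ret hO hp (p := p) (q := r)).2 ⟨h1, not_le.1 hc⟩
    rw [← he] at h4
    exact h3 ((dvd_ret hO hp).1 h4).1

/-- a retained prime above the level of the child -/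
lemma Kid.uq_sep (h : Kid X v V u τ) {q r b : ℕ} (hq : q ∈ τ.items) (hr : r ∈ τ.items)
    (hb : b.Prime) (hlt : lvl u τ < b) (h1 : b ∈ X.c.t.uq q) (h2 : b ∉ X.c.t.uq r) :
    b ∣ q / u.A ∧ ¬ b ∣ r / u.A :=
  ⟨h.hu.nd.rt_dvd hq h1, fun h4 => h2 ((h.hu.nd.uq_ge X.tOk hr (h.prime_ge hb hlt)).2 ⟨hb, h4⟩)⟩

/-- a prime of a modulus above the level of the child is retained -/
lemma Kid.uq_of (h : Kid X v V u τ) {q b : ℕ} (hq : q ∈ τ.items)
    (hb : b.Prime) (hlt : lvl u τ < b) (hd : b ∣ q / u.A) : b ∈ X.c.t.uq q :=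
  (h.hu.nd.uq_ge X.tOk hq (h.prime_ge hb hlt)).2 ⟨hb, hd⟩

/-- **separation at a child** -/
theorem kid_sep (hD : DH X) (h : Kid X v V u τ) {Y : Finset (ℕ × ℕ × Finset ℕ)}
    {x : X.c.Lam × X.c.Lam} (hx : x ∈ RC X Y (tp V) u τ) (i1 : x.1.1.1 ∈ τ.items)
    (i2 : x.2.1.1 ∈ τ.items) (s1 : x.1.1.1 ∈ X.S') (s2 : x.2.1.1 ∈ X.S') {z z' : ℝ}
    (z1 : X.c.D.al x.1 ≤ z) (z2 : z < X.c.D.be x.1) (z3 : X.c.D.al x.2 ≤ z')
    (z4 : z' < X.c.D.be x.2) (hix : ixK X u τ x.1.1.1 z = ixK X u τ x.2.1.1 z') :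
    (∃ b : ℕ, b.Prime ∧ lvl u τ < b ∧ b ≤ tp V ∧
      (b ∣ x.1.1.1 / u.A ∧ ¬ b ∣ x.2.1.1 / u.A ∨ b ∣ x.2.1.1 / u.A ∧ ¬ b ∣ x.1.1.1 / u.A)) ∨
    (crK u V τ ∧ (2 ^ lvl u τ ≤ cof (x.1.1.1 / u.A) (x.2.1.1 / u.A) ∨
      2 ^ lvl u τ ≤ cof (x.2.1.1 / u.A) (x.1.1.1 / u.A))) := by
  by_cases hl : isL τ
  · obtain ⟨S, rfl⟩ := isL_iff.1 hl
    left
    rw [mem_RC_leaf] at hx
    obtain ⟨hw, hne⟩ := hx
    have e1 : X.c.lv x.1.1.1 = u.n - 1 := h.lvq i1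
    have e2 : X.c.lv x.2.1.1 = u.n - 1 := h.lvq i2
    have hle : u.n - 1 ≤ top X.S := h.lvl_le.trans h.tpVt
    rw [Ne, X.ok.rhoL_iff x.1 x.2 (by rw [e1]; exact hle) (by rw [e2]; exact hle) z1 z2 z3 z4] at hne
    have hret : ret X.c.t 0 x.1.1.1 ≠ ret X.c.t 0 x.2.1.1 := by
      intro hr
      apply hne
      refine ⟨?_, hr, by rw [hD.tgL, hD.tgL]⟩
      have hh := hix
      unfold ixK at hh
      rw [wpK_leaf, stK_leaf, stK_leaf] at hh
      rw [e1, e2]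
      rw [show lfst X.c x.1.1.1 = X.c.wpL.st X.c.γ X.c.r X.c.t (u.n - 1) x.1.1.1 by
        unfold lfst; rw [e1], show lfst X.c x.2.1.1 = X.c.wpL.st X.c.γ X.c.r X.c.t (u.n - 1) x.2.1.1 by
        unfold lfst; rw [e2]] at hh
      exact hh
    have hrp : ret X.c.t (tp V) x.1.1.1 = ret X.c.t (tp V) x.2.1.1 :=
      congrArg (fun t => t.2.1) hw
    obtain ⟨b, hb, hb0, hbp, hh⟩ := ret_sep X.tOk hret hrp
    have hlt : ∀ q, q ∈ S → b ∈ X.c.t.uq q → u.n - 1 < b := fun q hq hbq => by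
      have h5 := (h.lf S rfl).rtn q hq b hbq
      omega
    rcases hh with ⟨h1, h2⟩ | ⟨h1, h2⟩
    · have h3 := hlt _ i1 h1
      exact ⟨b, hb, h3, hbp, Or.inl (h.uq_sep i1 i2 hb h3 h1 h2)⟩
    · have h3 := hlt _ i2 h1
      exact ⟨b, hb, h3, hbp, Or.inr (h.uq_sep i2 i1 hb h3 h1 h2)⟩
  · rw [mem_RC_node hl h.nu] at hx
    obtain ⟨hw, hne⟩ := hx
    obtain ⟨n1, n2, n3, n4⟩ := h.node hl
    have hle : tp τ ≤ top X.S := n4.trans h.tpVt
    have hlv : lvl u τ = tp τ := lvl_node hl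
    have hixw : (X.c.world (tp τ) x.1.1).1 = (X.c.world (tp τ) x.2.1).1 := by
      have hh := hix
      unfold ixK at hh
      rw [wpK_node hl, stK_node hl, stK_node hl, hlv] at hh
      rw [X.ok.ix_point hle x.1 z1 z2, X.ok.ix_point hle x.2 z3 z4] at hh
      exact hh
    have hrt : ret X.c.t (tp τ) x.1.1.1 ≠ ret X.c.t (tp τ) x.2.1.1 ∨
        X.c.tg (tp τ) x.1.1.1 ≠ X.c.tg (tp τ) x.2.1.1 := by
      by_contra hc
      push Not at hc
      exact hne (Prod.ext hixw (Prod.ext hc.1 hc.2))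
    have hrp : ret X.c.t (tp V) x.1.1.1 = ret X.c.t (tp V) x.2.1.1 :=
      congrArg (fun t => t.2.1) hw
    have htp : X.c.tg (tp V) x.1.1.1 = X.c.tg (tp V) x.2.1.1 :=
      congrArg (fun t => t.2.2) hw
    rcases hrt with hret | htag
    · left
      obtain ⟨b, hb, hb0, hbp, hh⟩ := ret_sep X.tOk hret hrp
      rw [hlv]
      rcases hh with ⟨h1, h2⟩ | ⟨h1, h2⟩
      · exact ⟨b, hb, hb0, hbp, Or.inl (h.uq_sep i1 i2 hb (by rw [hlv]; exact hb0) h1 h2)⟩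
      · exact ⟨b, hb, hb0, hbp, Or.inr (h.uq_sep i2 i1 hb (by rw [hlv]; exact hb0) h1 h2)⟩
    · right
      refine ⟨⟨hl, ?_⟩, ?_⟩
      · by_contra hc
        refine htag (hD.tg (tp τ) (tp V) n2 n4 (le_antisymm (Nat.log_mono_right n4) (not_lt.1 hc))
          _ _ htp)
      · rw [hlv, cof_div h.hu.nd.A_pos (h.hu.nd.bk.dvd _ i1) (h.hu.nd.bk.dvd _ i2),
          cof_div h.hu.nd.A_pos (h.hu.nd.bk.dvd _ i2) (h.hu.nd.bk.dvd _ i1)]
        exact hD.rse.sep (tp τ) n2 hle _ s1 _ s2 htag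

/-- **alive pieces**: a retained prime of one item of an exact alive pair, not dividing the other
modulus, divides the denominator of the other label -/
theorem kid_alive (h : Kid X v V u τ) {q : ℕ} (hq : q ∈ τ.items) {σ : ℚ}
    (hσ : stK X τ q = some σ) {b : ℕ} (hb : b.Prime) (hlt : lvl u τ < b) (hbw : b ∣ q / u.A)
    {z : ℝ} {a : ℤ} (ha : X.c.om q z ((mp τ q : ℕ) * a) ≠ 0) {W' : ℕ} (hbW : ¬ b ∣ W') {σ' : ℚ}
    {a' : ℤ} (hex : ((a:ℝ) + ((u.B * σ : ℚ) : ℝ)) * W' = ((a':ℝ) + σ') * (q / u.A : ℕ)) :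
    b ∣ σ'.den := by
  have hbu := h.uq_of hq hb hlt hbw
  by_cases hl : isL τ
  · obtain ⟨S, rfl⟩ := isL_iff.1 hl
    rw [stK_leaf] at hσ
    by_contra hden
    apply ha
    have hnd := h.hu.nd
    have hq' : q ∈ X.c.t.items := hnd.self.sub hq
    have hle := X.om_le q z (((mp (.leaf S) q : ℕ) : ℤ) * a)
    have h0 : omL X.c.wp X.c.wpL X.c.γ X.c.r X.c.t X.c.lv X.c.S' q
        (((mp (.leaf S) q : ℕ) : ℤ) * a) = 0 := by
      unfold omL omT
      have hd := hnd.rd q hq' b hbu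
      have hpp : 0 < q / Item758.pp X.c.t q := by
        have h1 := hnd.dvd q hq'
        have h2 := hnd.pos q hq'
        exact Nat.div_pos (Nat.le_of_dvd h2 h1) (Nat.pos_of_dvd_of_pos h1 h2)
      refine omw_zero (l := b) (Nat.mem_primeFactors.2 ⟨hb, hd, hpp.ne'⟩) hbu
        (ρ := (mp X.c.t q : ℚ) * σ) (lab_mem_TE hbu ?_) ?_
      · unfold labL
        have : stL X.c.wpL X.c.γ X.c.r X.c.t X.c.lv q = some σ := hσ
        rw [this]
      · have e1 := hnd.self.mp q hq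
        exact dead_core hb hbw hbW hden (τ := (u.B : ℚ) * σ) (τ' := σ')
          (m := ((mp (.leaf S) q : ℕ) : ℤ)) (by rw [e1]; push_cast; ring) hex
    have hnn : 0 ≤ X.c.om q z (((mp (.leaf S) q : ℕ) : ℤ) * a) := by
      have hS : q ∈ X.c.S := by rw [← X.ok.items]; exact hq'
      exact (X.ok.wt q hS z).nonneg _
    rw [h0] at hle
    exact le_antisymm hle hnn
  · rw [stK_node hl] at hσ
    exact alive_den h.hu.nd hq le_rfl hl hσ hbu (by rw [lvl_node hl] at hlt; exact hlt.le) hbw ha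
      hbW hex

end ctx

end Crest.Agent.R4P.DseKid23
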