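import Crest.Agent.R4P.TagFac_2

/-!
R4P (S0004, powers), [W-dseR], helper28: **tags along a path**: they only change at dyadic scales.
-/

set_option autoImplicit false

namespace Crest.Agent.R4P.Skel189

open Crest.Agent.R4P.Cnt588 Crest.Agent.R4P.Data758

/-- **tags only change at dyadic scales** -/
theorem TagN.tg_dyadic {N : Num} (h : TagN N) {γ : ℝ} {p0 P₀ : ℕ} (X : Ctx N γ p0 P₀) {m p : ℕ}
    (hl : Nat.log 2 m = Nat.log 2 p) (q : ℕ) : X.c.tg m q = X.c.tg p q := by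
  rw [h.tg_eq, h.tg_eq]
  unfold PowTag83.tagN
  rw [PowTag83.tag_congr hl]

/-- equal tags at `p` stay equal below `p` in the same dyadic range -/
theorem TagN.tg_eq_of {N : Num} (h : TagN N) {γ : ℝ} {p0 P₀ : ℕ} (X : Ctx N γ p0 P₀) {m p q r : ℕ}
    (hl : Nat.log 2 m = Nat.log 2 p) (he : X.c.tg p q = X.c.tg p r) : X.c.tg m q = X.c.tg m r := by
  rw [h.tg_dyadic X hl, h.tg_dyadic X hl]
  exact he

/-- tags get finer: equal tags below give equal tags above -/
theorem TagN.tg_up {N : Num} (h : TagN N) {γ : ℝ} {p0 P₀ : ℕ} (X : Ctx N γ p0 P₀) {m p q r : ℕ}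
    (hmp : m ≤ p) (he : X.c.tg m q = X.c.tg m r) : X.c.tg p q = X.c.tg p r := by
  rw [h.tg_eq, h.tg_eq] at he ⊢
  exact PowTag83.tagN_inj.2 fun l hl hln =>
    PowTag83.tag_mono hmp (PowTag83.tagN_inj.1 he l hl hln)

end Crest.Agent.R4P.Skel189
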