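import Crest.Agent.R4.World2_363

/-!
R4 (S0004), T6, helper4: **labelled content with a future label loss** (message #29179 (A)).

* `lost_dvd`: a label `ρ = m τ` of the stage `m b` which is not (as `τ`) a label of the stage `b` has
  `m ∣ τ.den` (so it is born at the missing tie `m`, and the denominator at `b` is `m k`).
* `lost_big`: ... and then the label is borderline: `1 < (m k)^5 r` (`r` = radius of the upper stage).
* `den_cen`, `dvd_cen`: a prime dividing the denominator of the label in root coordinates divides the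
  denominator of every centre `c = (a + σ) / w` of the class.
* `top_mem`: a prime `m' ∣ c.den` which does not divide `w` and is larger than the denominator
  of the present label `b σ` divides the missing product `b`.
* `dying_top`: **all members of one real class whose label is lost above at a (slow) birth contain the
  same missing tie: the largest tie prime dividing the denominator of the centre.**
-/

set_option autoImplicit false

namespace Crest.Agent.R4P.Dying4
open Crest.Agent.R4.LF363 Crest.Agent.R4.W363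

/-- the denominator divides every natural number which clears the fraction -/
lemma den_dvd_of_mul {c : ℚ} {n : ℕ} {z : ℤ} (hn : n ≠ 0) (h : c * n = z) : c.den ∣ n := by
  have hn' : (n : ℚ) ≠ 0 := by exact_mod_cast hn
  have e : c = (z : ℚ) / ((n : ℤ) : ℚ) := by
    rw [eq_div_iff (by exact_mod_cast hn)]
    exact_mod_cast h
  have := Rat.den_dvd z (n : ℤ)
  rw [Rat.divInt_eq_div] at this
  rw [← e] at this
  exact_mod_cast this

/-- clearing the denominator -/
lemma mul_den (c : ℚ) : c * (c.den : ℚ) = (c.num : ℤ) := Rat.mul_den_eq_num c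

/-- the denominator of an integer multiple divides the denominator -/
lemma den_nat_mul (b : ℕ) (σ : ℚ) : ((b : ℚ) * σ).den ∣ σ.den := by
  refine den_dvd_of_mul (z := b * σ.num) σ.den_pos.ne' ?_
  rw [mul_assoc, mul_den]
  push_cast
  ring

/-- the denominator of `τ` divides `m * den (m τ)` -/
lemma den_dvd_mul (m : ℕ) (hm : m ≠ 0) (τ : ℚ) : τ.den ∣ m * ((m : ℚ) * τ).den := by
  refine den_dvd_of_mul (z := ((m : ℚ) * τ).num)
    (Nat.mul_ne_zero hm (Rat.den_pos _).ne') ?_
  have := mul_den ((m : ℚ) * τ)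
  push_cast
  rw [← this]
  ring

/-- **a label which is lost at the next upper stage is born at `m`** -/
theorem lost_dvd {m : ℕ} (hm : m.Prime) {θ r : ℝ} {τ : ℚ}
    (h : Lab (m * θ) (m * r) (m * τ)) (hn : ¬ Lab θ r τ) : m ∣ τ.den := by
  by_contra hd
  apply hn
  have hm0 : (0 : ℝ) < m := by exact_mod_cast hm.pos
  have hm1 : (1 : ℝ) ≤ m := by exact_mod_cast hm.one_lt.le
  have hr : 0 < r := by
    have := h.pos
    by_contra h0
    push Not at h0
    nlinarith
  have hco : Nat.Coprime τ.den m := (Nat.Coprime.symm ((Nat.Prime.coprime_iff_not_dvd hm).2 hd))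
  have h1 : τ.den ∣ ((m : ℚ) * τ).den :=
    hco.dvd_of_dvd_mul_left (den_dvd_mul m hm.ne_zero τ)
  have h2 : (τ.den : ℝ) ≤ (((m : ℚ) * τ).den : ℝ) := by
    exact_mod_cast Nat.le_of_dvd (Rat.den_pos _) h1
  have hk0 : (0 : ℝ) ≤ τ.den := by positivity
  refine ⟨hr, ?_, ?_, ?_⟩
  · have := h.le
    nlinarith
  · have h3 := h.den
    have h4 : (τ.den : ℝ) ^ 5 ≤ (((m : ℚ) * τ).den : ℝ) ^ 5 := pow_le_pow_left₀ hk0 h2 5
    have h5 : r ≤ m * r := by nlinarith
    calc (τ.den : ℝ) ^ 5 * r ≤ (((m : ℚ) * τ).den : ℝ) ^ 5 * (m * r) :=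
          mul_le_mul h4 h5 hr.le (by positivity)
      _ ≤ 1 := h3
  · have h3 := h.near
    have e : |(m : ℝ) * θ - (((m : ℚ) * τ : ℚ) : ℝ)| = m * |θ - τ| := by
      push_cast
      rw [← mul_sub, abs_mul, abs_of_pos hm0]
    rw [e, mul_pow, mul_pow] at h3
    have h4 : (m : ℝ) ^ 4 * |θ - τ| ^ 5 ≤ (m : ℝ) ^ 5 * |θ - τ| ^ 5 := by
      apply mul_le_mul_of_nonneg_right _ (by positivity)
      exact pow_le_pow_right₀ hm1 (by norm_num)
    have h5 : (m : ℝ) ^ 4 * |θ - τ| ^ 5 ≤ (m : ℝ) ^ 4 * r ^ 4 := h4.trans h3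
    exact le_of_mul_le_mul_left h5 (by positivity)

/-- ... and it is borderline -/
theorem lost_big {m : ℕ} (hm : m.Prime) {θ r : ℝ} {τ : ℚ}
    (h : Lab (m * θ) (m * r) (m * τ)) (hn : ¬ Lab θ r τ) :
    1 < (m * (((m : ℚ) * τ).den : ℝ)) ^ 5 * r := by
  by_contra hc
  push Not at hc
  apply hn
  have hm0 : (0 : ℝ) < m := by exact_mod_cast hm.pos
  have hm1 : (1 : ℝ) ≤ m := by exact_mod_cast hm.one_lt.le
  have hr : 0 < r := by
    have := h.pos
    by_contra h0
    push Not at h0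
    nlinarith
  have h2 : (τ.den : ℝ) ≤ m * (((m : ℚ) * τ).den : ℝ) := by
    exact_mod_cast Nat.le_of_dvd (Nat.mul_pos hm.pos (Rat.den_pos _)) (den_dvd_mul m hm.ne_zero τ)
  refine ⟨hr, ?_, ?_, ?_⟩
  · have := h.le
    nlinarith
  · have h4 : (τ.den : ℝ) ^ 5 ≤ (m * (((m : ℚ) * τ).den : ℝ)) ^ 5 :=
      pow_le_pow_left₀ (by positivity) h2 5
    exact (mul_le_mul_of_nonneg_right h4 hr.le).trans hc
  · have h3 := h.near
    have e : |(m : ℝ) * θ - (((m : ℚ) * τ : ℚ) : ℝ)| = m * |θ - τ| := by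
      push_cast
      rw [← mul_sub, abs_mul, abs_of_pos hm0]
    rw [e, mul_pow, mul_pow] at h3
    have h4 : (m : ℝ) ^ 4 * |θ - τ| ^ 5 ≤ (m : ℝ) ^ 5 * |θ - τ| ^ 5 := by
      apply mul_le_mul_of_nonneg_right _ (by positivity)
      exact pow_le_pow_right₀ hm1 (by norm_num)
    have h5 : (m : ℝ) ^ 4 * |θ - τ| ^ 5 ≤ (m : ℝ) ^ 4 * r ^ 4 := h4.trans h3
    exact le_of_mul_le_mul_left h5 (by positivity)

/-- the denominator of the label in root coordinates divides the denominator of the centre -/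
lemma den_cen {c σ : ℚ} {a : ℤ} {w : ℕ} (hw : w ≠ 0) (hc : c = (a + σ) / w) : σ.den ∣ c.den := by
  refine den_dvd_of_mul (z := w * c.num - a * c.den) c.den_pos.ne' ?_
  have hw' : (w : ℚ) ≠ 0 := by exact_mod_cast hw
  have e : σ = w * c - a := by
    rw [hc]; field_simp; ring
  rw [e, sub_mul, mul_assoc, mul_den]
  push_cast
  ring

/-- the denominator of the centre divides `b w den (b σ)` -/
lemma cen_den {c σ : ℚ} {a : ℤ} {w b : ℕ} (hw : w ≠ 0) (hb : b ≠ 0) (hc : c = (a + σ) / w) :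
    c.den ∣ b * w * ((b : ℚ) * σ).den := by
  refine den_dvd_of_mul (z := a * b * ((b : ℚ) * σ).den + ((b : ℚ) * σ).num)
    (Nat.mul_ne_zero (Nat.mul_ne_zero hb hw) (Rat.den_pos _).ne') ?_
  have hw' : (w : ℚ) ≠ 0 := by exact_mod_cast hw
  have h1 := mul_den ((b : ℚ) * σ)
  push_cast
  rw [← h1, hc]
  field_simp

/-- **a large prime of the centre is a missing tie** -/
theorem top_mem {c σ : ℚ} {a : ℤ} {w b p : ℕ} (hw : w ≠ 0) (hb : b ≠ 0) (hc : c = (a + σ) / w)
    (hp : p.Prime) (hpc : p ∣ c.den) (hpw : ¬ p ∣ w) (hk : ((b : ℚ) * σ).den < p) : p ∣ b := by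
  have h1 := hpc.trans (cen_den hw hb hc)
  rcases hp.dvd_mul.1 h1 with h2 | h2
  · rcases hp.dvd_mul.1 h2 with h3 | h3
    · exact h3
    · exact absurd h3 hpw
  · exact absurd (Nat.le_of_dvd (Rat.den_pos _) h2) (not_le.2 hk)

/-- **all members of one real class whose label is lost above contain the top prime of the class**:
`b` = missing product (of the present stage), `b'` = the missing product strictly above the missing tie
`m` (`m b' ∣ b`), the label `σ` is a label at `m b'` and not at `b'`; the denominator at the stage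
`m b'` is `< m` (slow birth). Every prime `p ≥ m` of the denominator of the centre, `p ∤ w`, divides
`b`. And `m` itself divides the denominator of the centre. -/
theorem dying_top {c σ : ℚ} {a : ℤ} {w b b' m : ℕ} {γ ψ : ℝ} (hw : w ≠ 0) (hb : b ≠ 0)
    (hc : c = (a + σ) / w) (hm : m.Prime) (hbm : m * b' ∣ b)
    (h : Lab ((m * b' : ℕ) * γ) ((m * b' : ℕ) * ψ) (((m * b' : ℕ) : ℚ) * σ))
    (hn : ¬ Lab (b' * γ) (b' * ψ) ((b' : ℚ) * σ)) (hk : (((m * b' : ℕ) : ℚ) * σ).den < m) :
    m ∣ c.den ∧ ∀ p : ℕ, p.Prime → m ≤ p → p ∣ c.den → ¬ p ∣ w → p ∣ b := by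
  have e1 : ((m * b' : ℕ) : ℝ) * γ = m * (b' * γ) := by push_cast; ring
  have e2 : ((m * b' : ℕ) : ℝ) * ψ = m * (b' * ψ) := by push_cast; ring
  have e3 : (((m * b' : ℕ) : ℚ) * σ) = m * ((b' : ℚ) * σ) := by push_cast; ring
  have h' : Lab (m * (b' * γ)) (m * (b' * ψ)) (m * ((b' : ℚ) * σ)) := by
    rw [← e1, ← e2, ← e3]; exact h
  refine ⟨((lost_dvd hm h' hn).trans (den_nat_mul b' σ)).trans (den_cen hw hc), ?_⟩
  intro p hp hmp hpc hpw
  refine top_mem hw hb hc hp hpc hpw (lt_of_le_of_lt ?_ (hk.trans_le hmp))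
  obtain ⟨d, rfl⟩ := hbm
  have e4 : (((m * b' * d : ℕ) : ℚ) * σ) = (d : ℚ) * (((m * b' : ℕ) : ℚ) * σ) := by
    push_cast; ring
  rw [e4]
  exact Nat.le_of_dvd (Rat.den_pos _) (den_nat_mul d _)

end Crest.Agent.R4P.Dying4
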