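import Crest.Agent.R4P.RseRI_17

/-!
R4 (S0004), powers, helper17, [W-eSHR] / M6: **the energy of the pairs with one index at the column of
the parent, different retained parts or tags there, at ANY child** (leaf or not, no condition on the
indices of the child).

* `rs_kid` : at most `κ` times the mass, for any `κ > 0`.
-/

set_option autoImplicit false
set_option linter.unusedSectionVars false
set_option linter.unusedVariables false

open MeasureTheory Filter

namespace Crest.Agent.R4P.RseRI17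

open Crest.Agent.R4P.Cnt588 Crest.Agent.R4P.Item758 Crest.Agent.R4P.W363
open Crest.Agent.R4P.Data758 Crest.Agent.R4P.LfDat734 Crest.Agent.R4P.OmSt532
open Crest.Agent.R4P.OmData532 Crest.Agent.R4P.WPex189
open Crest.Agent.R4P.Bld532 (NS All NodeOk Bk)
open Crest.Agent.R4P.Step588 (NDt ND1 ctx_NDt uq_lt)
open Crest.Agent.R4P.WalkIT579 (tp isL nodeOk_hi top_of_nodeOk)
open Crest.Agent.R4P.Skel189 Crest.Agent.R4P.RseSt23 Crest.Agent.R4P.RseNd23
open Crest.Agent.R4P.AvgItem710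
open Crest.Agent.R4P.PairR23 (iF_rel_le)
open Crest.Agent.R4.ClosL758 Crest.Agent.R4.ClosR758 Crest.Agent.R4.Tour104 Crest.Agent.R4.Fam464
open Crest.Agent.R4.Tour758 Crest.Agent.R4.Avg758 Crest.Agent.R4.ClosG758
open Crest.Agent.R4P.Frame758
open Crest.Agent.R4.Soft104 (w)
open Crest.Agent.R4.LF363 (Lab)
open Crest.Agent.R4.HVW560 (cof wt)
open Crest.Agent.R4.InX944 (DP)
open Crest.Agent.R4.ClsB (Tame)
open Crest.Agent.R4.DensAcc33 (Accd)
open Crest.Agent.R4.AvgItem710 (Dp mul_cof mul_cof' cof_coprime exists_of_I_ne)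
open Crest.Agent.R4P.StB21
open Crest.Agent.R4P.DseCh23
open Crest.Agent.R4P.DseN23
open Crest.Agent.R4P.DseKid23
open Crest.Agent.R4

section main
variable {N : Skel189.Num} {γ : ℝ} {p0 P₀ : ℕ}

set_option maxHeartbeats 4000000 in
/-- **the pairs with one index at the column of the parent, different retained parts or tags there, at
any child** (a leaf or not) -/
theorem rs_kid (N : Skel189.Num) {κ A' : ℝ} (hκ : 0 < κ) (hA' : 0 ≤ A') : ∃ p₁ : ℕ, ∀ p0 ≥ p₁,
    ∀ (γ : ℝ) (P₀ : ℕ) (X : Ctx N γ p0 P₀), DH X →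
    ∀ (Y : Finset (ℕ × ℕ × Finset ℕ)) (v : NS) (V : IT) (u : NS) (τ : IT),
    Kid X v V u τ → KQ X v V u τ A' → ∀ A : Finset X.c.Lam,
      Q (RS X Y (tp V)) (Uv X Y u τ A) (Uv X Y u τ A) ≤
        κ * (u.c * ∑ q ∈ al X τ A, w X.ψ q) := by
  classical
  have hB1 := N.hB
  have hC1 := N.hC1
  have hc2 := N.hc2
  have hCT := Step588.CT_pos
  have hC2 : 0 ≤ N.B + N.c2 + 3 := by linarith
  obtain ⟨p2, h2⟩ := rseU' (2 * Step588.CT) (N.B + N.c2 + 3) (by positivity) hC2 (κ := κ / 3)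
    (by positivity)
  obtain ⟨p3, h3⟩ := rseL' (2 * Step588.CT) (N.B + N.c2 + 3) (by positivity) hC2 (κ := κ / 3)
    (by positivity)
  obtain ⟨p4, h4⟩ := rseT' (2 * Step588.CT) (by positivity) (k := κ / 3) (by positivity)
  obtain ⟨p5, h5⟩ := num_p (N.c2 + 2)
  obtain ⟨p6, h6⟩ := missU' (2 * Step588.CT) (N.B + N.c2 + 3) A' 1 hA'
  obtain ⟨p7, h7⟩ := dLLM' (2 * Step588.CT) (N.B + N.c2 + 3) (by positivity) hC2
  obtain ⟨p8, h8⟩ := num_small (κ := κ / 12) (by positivity)
  obtain ⟨p9, h9⟩ := num_eta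
  obtain ⟨p10, h10⟩ := num_log
  obtain ⟨p11, h11⟩ := rseT' (2 * Step588.CT) (by positivity) (k := κ / 12) (by positivity)
  obtain ⟨p12, h12⟩ := exp45 (48 / κ * (2 * Step588.CT) ^ 2) (2 + (N.B + N.c2 + 3))
  refine ⟨p2 + p3 + p4 + p5 + p6 + p7 + p8 + p9 + p10 + p11 + p12 + 2,
    fun p0 hp0 γ P₀ X hD Y v V u τ hk hQ A => ?_⟩
  have h := hk.hu.nd
  obtain ⟨k1, k2, k3⟩ := hk.tpV
  have hpt : tp V ≤ top X.S := hk.tpVt
  have g4 : lvl u τ ≤ tp V := hk.lvl_le
  set p := tp V with hp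
  set m := lvl u τ with hm
  obtain ⟨n1, n2, n3, n4, n5⟩ := h5 p (by omega)
  have hlp : 4 ≤ Real.log p := h10 _ (by omega)
  have hpR : (0:ℝ) < p := by exact_mod_cast (by omega : 0 < p)
  have hpR1 : (1:ℝ) ≤ p := by exact_mod_cast (by omega : 1 ≤ p)
  have hmpR : (m:ℝ) ≤ p := by exact_mod_cast g4
  have hlam := hD.rse.lam p k2 hpt
  have hdep := hD.rse.dep p k2 hpt
  have hthr := hD.rse.thr p k2
  set T : Finset ℕ := al X τ A with hT
  have hTm : ∀ q ∈ T, q ∈ τ.items ∧ q ∈ X.S' := fun q hq => al_mem hq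
  set D := X.c.D.par Y with hDd
  set F : ℕ × ℕ → ℝ := fun e => D.iF (RS X Y p) (Uv X Y u τ A) (Uv X Y u τ A) e with hF
  set E : Finset (ℕ × ℕ) := D.PE (RS X Y p) (Uv X Y u τ A) (Uv X Y u τ A) with hE
  have hET0 : E ⊆ T ×ˢ T := PE_T_sub h
  have hET : ∀ e ∈ E, e.1 ∈ T ∧ e.2 ∈ T := fun e he => Finset.mem_product.1 (hET0 he)
  rw [D.Q_eq]
  show ∑ e ∈ E, F e ≤ _
  rcases Finset.eq_empty_or_nonempty T with h0 | ⟨q₀, hq₀⟩
  · have hE0 : E = ∅ := by
      rw [Finset.eq_empty_iff_forall_notMem]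
      intro e he
      have := (hET e he).1
      rw [h0] at this
      simp at this
    rw [hE0, h0]
    simp
  have hm0 : p0 ≤ m := hk.lvl_ge (hTm q₀ hq₀).1
  have hlm : 4 ≤ Real.log m := h10 _ (by omega)
  have hmR : (0:ℝ) < m := by exact_mod_cast (by omega : 0 < m)
  have hlmp : Real.log m ≤ Real.log p := Real.log_le_log hmR hmpR
  have hA0 : 0 < u.A := h.A_pos
  have hdvd : ∀ q ∈ T, u.A ∣ q := al_dvd h
  have hpos : ∀ q ∈ T, 0 < q / u.A ∧ 0 < RB X u q := fun q hq =>
    ⟨Nat.pos_of_ne_zero (h.div_ne (hTm q hq).1), (hQ.aq q (hTm q hq).1 (hTm q hq).2).R0⟩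
  have hwA0 : ∀ q ∈ T, 0 ≤ wA u.A (RB X u) q := fun q hq => by
    unfold wA
    have := (hpos q hq).2.le
    positivity
  have hlo : ∀ q ∈ T, RB X u q ≤ 2 * Step588.CT * Real.log p * wA u.A (RB X u) q := by
    intro q hq
    have h1 := (hQ.aq q (hTm q hq).1 (hTm q hq).2).lo
    refine h1.trans (mul_le_mul_of_nonneg_right ?_ (hwA0 q hq))
    exact mul_le_mul_of_nonneg_left hlmp (by positivity)
  have htame : ∀ z : ℝ, (p:ℝ) ^ 2 ≤ z → ∀ q ∈ T, Tame z 1 (q / u.A) := by
    intro z hz q hq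
    refine (hQ.aq q (hTm q hq).1 (hTm q hq).2).tame z ?_
    exact (pow_le_pow_left₀ hmR.le hmpR 2).trans hz
  -- masses
  have hM : ∑ q ∈ T, wA u.A (RB X u) q ≤ u.c * ∑ q ∈ T, w X.ψ q := by
    rw [Finset.mul_sum]
    exact Finset.sum_le_sum fun q hq => hQ.wle q (hTm q hq).1 (hTm q hq).2
  have hM2 : ∑ q ∈ T, wA u.A (RB X u) q ≤ Real.log p ^ (N.B + N.c2 + 3) := by
    have h1 := hQ.ms ⟨q₀, (hTm q₀ hq₀).1⟩
    refine hM.trans (le_trans ?_ (h1.trans (Real.rpow_le_rpow (by linarith) hlmp hC2)))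
    refine mul_le_mul_of_nonneg_left ?_ hk.hu.c0.le
    unfold Ws
    exact Finset.sum_le_sum_of_subset_of_nonneg (fun q hq => (hTm q hq).1) fun q _ _ => X.hW q
  have hsub : ∀ T' ⊆ T, ∑ q ∈ T', wA u.A (RB X u) q ≤ ∑ q ∈ T, wA u.A (RB X u) q := fun T' hT' =>
    Finset.sum_le_sum_of_subset_of_nonneg hT' fun q hq _ => hwA0 q hq
  -- the pairs
  have hTix : ∀ x ∈ RS X Y p, (X.c.world p x.1.1).1 = (X.c.world p x.2.1).1 := fun x hx =>
    (mem_RS.1 hx).1
  have hPt : ∀ e ∈ E, ∃ (j j' : X.c.Lam) (y z z' : ℝ) (a a' : ℤ),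
      PtI X A u τ (RS X Y p) e j j' y z z' a a' := fun e he => PE_T h he
  have hdis : ∀ e ∈ E, W363.ret X.c.t p e.1 ≠ W363.ret X.c.t p e.2 ∨
      X.c.tg p e.1 ≠ X.c.tg p e.2 := by
    intro e he
    obtain ⟨j, j', y, z, z', a, a', k⟩ := hPt e he
    have h1 := (mem_RS.1 k.rc).2
    rw [← k.e1, ← k.e2]
    exact h1
  have hne : ∀ e ∈ E, e.1 ≠ e.2 := by
    intro e he heq
    rcases hdis e he with h1 | h1
    · exact h1 (by rw [heq])
    · exact h1 (by rw [heq])
  set st : ℕ → Option ℚ := fun q => X.c.st p q with hst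
  have hsome : ∀ e ∈ E, (st e.1).isSome = (st e.2).isSome := by
    intro e he
    obtain ⟨j, j', y, z, z', a, a', k⟩ := hPt e he
    have h1 := isSome_pair (X := X) hlam (hTix _ k.rc)
    have e1 : j.1.1 = e.1 := k.e1
    have e2 : j'.1.1 = e.2 := k.e2
    simp only at h1
    rw [e1, e2] at h1
    exact h1
  -- the three parts
  set TU := T.filter fun q => (st q).isSome = false with hTU
  set TL := T.filter fun q => (st q).isSome = true with hTL
  set EU := E.filter fun e => (st e.1).isSome = false with hEU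
  set EL := (E.filter fun e => ¬ (st e.1).isSome = false).filter
    (fun e => W363.ret X.c.t p e.1 ≠ W363.ret X.c.t p e.2) with hEL
  set ET := (E.filter fun e => ¬ (st e.1).isSome = false).filter
    (fun e => ¬ W363.ret X.c.t p e.1 ≠ W363.ret X.c.t p e.2) with hETd
  have hsplit : ∑ e ∈ E, F e = ∑ e ∈ EU, F e + (∑ e ∈ EL, F e + ∑ e ∈ ET, F e) := by
    rw [Finset.sum_filter_add_sum_filter_not, Finset.sum_filter_add_sum_filter_not]
  have hF0 : ∀ e, 0 ≤ F e := by
    intro e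
    have hU : ∀ (i : X.c.Lam) (t : ℝ), 0 ≤ Uv X Y u τ A i t := by
      intro i t
      have hpb := PB_rv (fun i => FT.pb h.B_pos
        ((X.c.D.par Y).toFT_Adm τ u.B u.A h.B_pos h.fit (node_wts h Y)) (one_dvd u.B) i) A i
      exact hpb.nonneg t
    exact (X.c.D.par Y).iF_nonneg _ hU hU e
  -- a cofactor of the pairs with different retained parts
  have hcofr : ∀ q ∈ T, ∀ r ∈ T, W363.ret X.c.t p q ≠ W363.ret X.c.t p r →
      p ≤ cof (q / u.A) (r / u.A) ∨ p ≤ cof (r / u.A) (q / u.A) := by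
    intro q hq r hr hne
    obtain ⟨b, hb, hpb, hh⟩ := sepK hk (hTm q hq).1 (hTm r hr).1 hne
    rcases hh with ⟨-, b1, b2⟩ | ⟨-, b1, b2⟩
    · left
      have h6 := Nat.le_of_dvd (Nat.div_pos (Nat.le_of_dvd (hpos q hq).1 (Nat.gcd_dvd_left _ _))
        (Nat.gcd_pos_of_pos_left _ (hpos q hq).1)) (RseNd23.dvd_cof hb b1 b2)
      exact hpb.le.trans h6
    · right
      have h6 := Nat.le_of_dvd (Nat.div_pos (Nat.le_of_dvd (hpos r hr).1 (Nat.gcd_dvd_left _ _))
        (Nat.gcd_pos_of_pos_left _ (hpos r hr).1)) (RseNd23.dvd_cof hb b1 b2)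
      exact hpb.le.trans h6
  have hcoft : ∀ q ∈ T, ∀ r ∈ T, X.c.tg p q ≠ X.c.tg p r →
      2 ^ p ≤ cof (q / u.A) (r / u.A) ∨ 2 ^ p ≤ cof (r / u.A) (q / u.A) := by
    intro q hq r hr hne
    rw [cof_div hA0 (hdvd q hq) (hdvd r hr), cof_div hA0 (hdvd r hr) (hdvd q hq)]
    exact hD.rse.sep p k2 hpt q (hTm q hq).2 r (hTm r hr).2 hne
  have hp2p : p ≤ 2 ^ p := Nat.lt_two_pow_self.le
  have hnone : ∀ q, (st q).isSome = false → st q = none := fun q hq => by
    rw [← Option.not_isSome_iff_eq_none, hq]; simp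
  have hsomeL : ∀ q, ¬ (st q).isSome = false → ∃ σ, st q = some σ := fun q hq => by
    rw [Bool.not_eq_false] at hq
    exact Option.isSome_iff_exists.1 hq
  set η : ℝ := Real.exp (-(Real.log p ^ (4/5:ℝ))) with hη
  have hη0 : 0 < η := Real.exp_pos _
  have hηe : etaL X.c.wp p ≤ η := etaL_le hD hk
  have hEUT : EU ⊆ TU ×ˢ TU := by
    intro e he
    obtain ⟨he1, he2⟩ := Finset.mem_filter.1 he
    obtain ⟨t1, t2⟩ := hET e he1
    have hs := hsome e he1
    exact Finset.mem_product.2 ⟨Finset.mem_filter.2 ⟨t1, he2⟩,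
      Finset.mem_filter.2 ⟨t2, hs ▸ he2⟩⟩
  have hFn : ∀ e ∈ EU, F e ≤ 2 * ((RB X u e.1 * RB X u e.2) / DA u.A (RB X u) e) *
      (2 * (η * DA u.A (RB X u) e) + 1) := by
    intro e he
    obtain ⟨he1, he2⟩ := Finset.mem_filter.1 he
    obtain ⟨t1, t2⟩ := hET e he1
    exact F_none_T h hTix hpt hlam (hTm _ t1).1 (hTm _ t2).1 hηe (hnone _ he2)
      (hnone _ (hsome e he1 ▸ he2))
  have hFs : ∀ e ∈ E, ¬ (st e.1).isSome = false →
      F e ≤ 2 * ((RB X u e.1 * RB X u e.2) / DA u.A (RB X u) e) := by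
    intro e he he4
    obtain ⟨t1, t2⟩ := hET e he
    obtain ⟨σ, hσ⟩ := hsomeL _ he4
    obtain ⟨σ', hσ'⟩ := hsomeL e.2 (hsome e he ▸ he4)
    exact F_some_T h hTix hpt hlam (hTm _ t1).1 (hTm _ t2).1 hσ hσ'
  -- relation of the unlabelled pairs
  have hrelN : ∀ e ∈ EU, ∀ (j j' : X.c.Lam) (y z z' : ℝ) (a a' : ℤ),
      PtI X A u τ (RS X Y p) e j j' y z z' a a' →
      |((a:ℝ) + u.B * X.c.γ) * (cof (e.2 / u.A) (e.1 / u.A) : ℕ) -
        (a' + u.B * X.c.γ) * (cof (e.1 / u.A) (e.2 / u.A) : ℕ)| ≤ η * DA u.A (RB X u) e := by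
    intro e he j j' y z z' a a' k
    obtain ⟨he1, he2⟩ := Finset.mem_filter.1 he
    have hs2 := hsome e he1
    have e1 : j.1.1 = e.1 := k.e1
    have e2 : j'.1.1 = e.2 := k.e2
    have key := rel_none h hpt hlam (hTix _ k.rc) (by rw [e1]; exact k.i1)
      (by rw [e2]; exact k.i2) (by rw [e1]; exact hnone _ he2)
      (by rw [e2]; exact hnone _ (hs2 ▸ he2)) k.l1 k.l2 k.l3 k.l4
    rw [e1, e2] at key
    refine key.trans (mul_le_mul_of_nonneg_right hηe ?_)
    unfold DA Crest.Agent.R4.AvgItem710.Dp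
    refine le_max_of_le_left ?_
    have := ((X.ok.rad Y).pos e.1).le
    positivity
  have hκ3 : 0 < κ / 3 := by positivity
  -- exact relation of the labelled pairs with different retained parts
  have hrelL : ∀ e ∈ EL, ∃ (σ σ' : ℚ) (a a' : ℤ), st e.1 = some σ ∧ st e.2 = some σ' ∧
      ((a:ℝ) + ((u.B * σ : ℚ) : ℝ)) * (cof (e.2 / u.A) (e.1 / u.A) : ℕ) =
        (a' + ((u.B * σ' : ℚ) : ℝ)) * (cof (e.1 / u.A) (e.2 / u.A) : ℕ) ∧
      p ≤ LL207.Zc ((u.B : ℚ) * σ) ((u.B : ℚ) * σ') ∧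
      ((u.B : ℚ) * σ) ≠ ((u.B : ℚ) * σ') := by
    intro e he
    obtain ⟨he1, he2⟩ := Finset.mem_filter.1 he
    obtain ⟨he3, he4⟩ := Finset.mem_filter.1 he1
    have hs2 := hsome e he3
    obtain ⟨σ, hσ⟩ := hsomeL _ he4
    obtain ⟨σ', hσ'⟩ := hsomeL e.2 (hs2 ▸ he4)
    obtain ⟨t1, t2⟩ := hET e he3
    obtain ⟨j, j', y, z, z', a, a', k⟩ := hPt e he3
    have e1 : j.1.1 = e.1 := k.e1
    have e2 : j'.1.1 = e.2 := k.e2
    obtain ⟨x1, x2⟩ := rel_some h hpt hlam (hTix _ k.rc) (by rw [e1]; exact k.i1)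
      (by rw [e2]; exact k.i2) (by rw [e1]; exact hσ) (by rw [e2]; exact hσ') k.l1 k.l2 k.l3 k.l4
    rw [e1, e2] at x1 x2
    have hcop : Nat.Coprime (cof (e.1 / u.A) (e.2 / u.A)) (cof (e.2 / u.A) (e.1 / u.A)) :=
      cof_coprime (hpos _ t1).1
    refine ⟨σ, σ', a, a', hσ, hσ', x2, ?_⟩
    obtain ⟨b, hb, hpb, hh⟩ := sepK hk k.i1 k.i2 he2
    rcases hh with ⟨b0, b1, b2⟩ | ⟨b0, b1, b2⟩
    · have hden : b ∣ ((u.B : ℚ) * σ').den :=
        alive_denT h k.i1 hσ b0 hpb.le b1 k.o1 b2 x1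
      have := RseAr23.Zc_of_exact hb (RseNd23.dvd_cof hb b1 b2) hcop ((u.B : ℚ) * σ)
        ((u.B : ℚ) * σ') x2 hden
      exact ⟨hpb.le.trans this.1, this.2⟩
    · have hden : b ∣ ((u.B : ℚ) * σ).den :=
        alive_denT h k.i2 hσ' b0 hpb.le b1 k.o2 b2 x1.symm
      have := RseAr23.Zc_of_exact' hb (RseNd23.dvd_cof hb b1 b2) hcop ((u.B : ℚ) * σ)
        ((u.B : ℚ) * σ') x2 hden
      exact ⟨hpb.le.trans this.1, this.2⟩
  have hELT : EL ⊆ TL ×ˢ TL := by
    intro e he
    obtain ⟨he1, he2⟩ := Finset.mem_filter.1 he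
    obtain ⟨he3, he4⟩ := Finset.mem_filter.1 he1
    obtain ⟨t1, t2⟩ := hET e he3
    have hs := hsome e he3
    rw [Bool.not_eq_false] at he4
    exact Finset.mem_product.2 ⟨Finset.mem_filter.2 ⟨t1, he4⟩,
      Finset.mem_filter.2 ⟨t2, hs ▸ he4⟩⟩
  have hFL : ∀ e ∈ EL, F e ≤ 2 * ((RB X u e.1 * RB X u e.2) / DA u.A (RB X u) e) := by
    intro e he
    obtain ⟨he1, he2⟩ := Finset.mem_filter.1 he
    obtain ⟨he3, he4⟩ := Finset.mem_filter.1 he1
    exact hFs e he3 he4
  -- unlabelled pairs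
  have hEUle : ∑ e ∈ EU, F e ≤ κ / 3 * ∑ q ∈ T, wA u.A (RB X u) q := by
    rcases hk.B with hB | hB
    · have hsqp : (p:ℝ) ^ (1/2:ℝ) * (p:ℝ) ^ (1/2:ℝ) = p := by
        rw [← Real.rpow_add hpR]; norm_num
      have hsq0 : 0 < (p:ℝ) ^ (1/2:ℝ) := Real.rpow_pos_of_pos hpR _
      have hsq1 : 1 ≤ (p:ℝ) ^ (1/2:ℝ) := Real.one_le_rpow hpR1 (by norm_num)
      have hinv : (p:ℝ) ^ (-(1/2:ℝ)) * (p:ℝ) ^ (1/2:ℝ) = 1 := by
        rw [← Real.rpow_add hpR]; norm_num
      have hηp' : (p:ℝ) ^ (1/2:ℝ) ≤ η * p := by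
        have e1 : η * Real.exp (Real.log p ^ (4/5:ℝ)) = 1 := by
          rw [hη, ← Real.exp_add]; simp
        calc (p:ℝ) ^ (1/2:ℝ) = (η * Real.exp (Real.log p ^ (4/5:ℝ))) * (p:ℝ) ^ (1/2:ℝ) := by
              rw [e1, one_mul]
          _ = η * (Real.exp (Real.log p ^ (4/5:ℝ)) * (p:ℝ) ^ (1/2:ℝ)) := by ring
          _ ≤ η * ((p:ℝ) ^ (1/2:ℝ) * (p:ℝ) ^ (1/2:ℝ)) :=
              mul_le_mul_of_nonneg_left (mul_le_mul_of_nonneg_right n3 hsq0.le) hη0.le
          _ = η * p := by rw [hsqp]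
      refine le_trans ?_ (mul_le_mul_of_nonneg_left (hsub TU (Finset.filter_subset _ _)) hκ3.le)
      refine h2 p (by omega) u.A η (u.B * X.c.γ) TU EU (RB X u) F
        (fun q hq => hdvd q (Finset.mem_filter.1 hq).1) hη0 le_rfl (hsq1.trans hηp') hEUT
        (fun q hq => hpos q (Finset.mem_filter.1 hq).1)
        (fun q hq => hlo q (Finset.mem_filter.1 hq).1)
        (fun z hz q hq => htame z hz q (Finset.mem_filter.1 hq).1)
        ((hsub TU (Finset.filter_subset _ _)).trans hM2) ?_ hFn ?_ ?_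
      · intro e he
        obtain ⟨he1, he2⟩ := Finset.mem_filter.1 he
        obtain ⟨t1, t2⟩ := hET e he1
        rcases hdis e he1 with hd' | hd'
        · exact hcofr _ t1 _ t2 hd'
        · rcases hcoft _ t1 _ t2 hd' with h6 | h6
          · exact Or.inl (hp2p.trans h6)
          · exact Or.inr (hp2p.trans h6)
      · intro e he _
        obtain ⟨j, j', y, z, z', a, a', k⟩ := hPt e (Finset.mem_filter.1 he).1
        exact ⟨a, a', hrelN e he j j' y z z' a a' k⟩
      · intro q hq hthin ρ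
        obtain ⟨hq1, hq2⟩ := Finset.mem_filter.1 hq
        have hR : RB X u q = v.B * X.c.r q := by rw [RB_al hq1, hB]
        have hθ : (u.B : ℝ) * X.c.γ = v.B * X.c.γ := by rw [hB]
        rw [hR, hθ]
        refine st_noneB hk.hv.nd X.tOk hk.lV (hk.sub (hTm q hq1).1) hlam (hnone _ hq2) ?_ ρ
        rw [← hR]
        refine le_trans ?_ hthr
        have hR0 := (hpos q hq1).2
        have h7 : RB X u q * (p:ℝ) ^ (1/2:ℝ) ≤ 1 :=
          (mul_le_mul_of_nonneg_left hηp' hR0.le).trans hthin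
        calc RB X u q = RB X u q * ((p:ℝ) ^ (-(1/2:ℝ)) * (p:ℝ) ^ (1/2:ℝ)) := by
              rw [hinv, mul_one]
          _ = (RB X u q * (p:ℝ) ^ (1/2:ℝ)) * (p:ℝ) ^ (-(1/2:ℝ)) := by ring
          _ ≤ 1 * (p:ℝ) ^ (-(1/2:ℝ)) :=
              mul_le_mul_of_nonneg_right h7 (Real.rpow_nonneg hpR.le _)
          _ = _ := one_mul _
    · -- the missing child
      have hp0' : (p : ℝ) ≠ 0 := hpR.ne'
      have hBR : (u.B : ℝ) = v.B * p := by rw [hB]; push_cast; rfl
      have eθ : (u.B : ℝ) * X.c.γ / (p : ℝ) = v.B * X.c.γ := by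
        rw [hBR]; field_simp
      have eRp : ∀ q ∈ T, RB X u q / (p : ℝ) = v.B * X.c.r q := by
        intro q hq
        rw [RB_al hq, hBR]; field_simp
      set ER := EU.filter (fun e => W363.ret X.c.t p e.1 ≠ W363.ret X.c.t p e.2) with hERd
      set EG := EU.filter (fun e => ¬ W363.ret X.c.t p e.1 ≠ W363.ret X.c.t p e.2) with hEGd
      have hsp : ∑ e ∈ EU, F e = ∑ e ∈ ER, F e + ∑ e ∈ EG, F e := by
        rw [Finset.sum_filter_add_sum_filter_not]
      have hMU0 : 0 ≤ ∑ q ∈ TU, wA u.A (RB X u) q :=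
        Finset.sum_nonneg fun q hq => hwA0 q (Finset.mem_filter.1 hq).1
      -- different retained parts
      have hER : ∑ e ∈ ER, F e ≤ κ / 12 * ∑ q ∈ TU, wA u.A (RB X u) q := by
        refine (h6 p m (by omega) g4 k1 u.A (u.B * X.c.γ) η (thK X u τ) TU ER (RB X u) F
          (fun q => (stK X τ q).map fun σ => (u.B : ℚ) * σ)
          (fun q hq => hdvd q (Finset.mem_filter.1 hq).1) hη0 le_rfl (h9 p (by omega)) ?_
          ((Finset.filter_subset _ _).trans hEUT)
          (fun e he => hne e (Finset.mem_filter.1 (Finset.mem_filter.1 he).1).1)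
          (fun q hq => hpos q (Finset.mem_filter.1 hq).1)
          (fun q hq => hlo q (Finset.mem_filter.1 hq).1)
          (fun z hz q hq => htame z hz q (Finset.mem_filter.1 hq).1)
          ((hsub TU (Finset.filter_subset _ _)).trans hM2) (fun e _ => hF0 e)
          (fun e he => hFn e (Finset.mem_filter.1 he).1) ?_ ?_ ?_ ?_).trans
          (mul_le_mul_of_nonneg_right (h8 p (by omega)).1 hMU0)
        · by_cases hl : isL τ
          · obtain ⟨S, rfl⟩ := isL_iff.1 hl
            rw [thK_leaf]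
            exact hD.thrL0 _ hm0
          · rw [thK_node hl, hm, lvl_node hl]
            exact hD.rse.thr _ (hk.node hl).2.1
        · intro e he
          obtain ⟨heU, hret⟩ := Finset.mem_filter.1 he
          have he1 := (Finset.mem_filter.1 heU).1
          obtain ⟨j, j', y, z, z', a, a', k⟩ := hPt e he1
          refine ⟨a, a', hrelN e heU j j' y z z' a a' k, fun ρ h11' h12' hex => ?_⟩
          obtain ⟨t1, t2⟩ := hET e he1
          obtain ⟨σ, hσ, r1⟩ := map_some h11'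
          obtain ⟨σ', hσ', r2⟩ := map_some h12'
          have w1 := (hpos _ t1).1
          have w2 := (hpos _ t2).1
          have g11 : ((a:ℝ) + ρ) * ((e.2 / u.A : ℕ):ℝ) = (a' + ρ) * ((e.1 / u.A : ℕ):ℝ) :=
            ex_mul (A' := 1) w1 hex
          have hcop : Nat.Coprime (cof (e.1 / u.A) (e.2 / u.A)) (cof (e.2 / u.A) (e.1 / u.A)) :=
            cof_coprime w1
          obtain ⟨b, hb, hpb, hh⟩ := sepK hk k.i1 k.i2 hret
          have hmb : lvl u τ < b := lt_of_le_of_lt g4 hpb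
          rcases hh with ⟨b0, b1, b2⟩ | ⟨b0, b1, b2⟩
          · have hden : b ∣ ρ.den := kid_alive hk k.i1 hσ hb hmb b1 k.o1 b2 (a' := a')
              (by rw [← r1]; exact g11)
            exact (RseAr23.Zc_of_exact hb (RseNd23.dvd_cof hb b1 b2) hcop ρ ρ hex hden).2 rfl
          · have hden : b ∣ ρ.den := kid_alive hk k.i2 hσ' hb hmb b1 k.o2 b2 (a' := a)
              (by rw [← r2]; exact g11.symm)
            exact (RseAr23.Zc_of_exact' hb (RseNd23.dvd_cof hb b1 b2) hcop ρ ρ hex hden).2 rfl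
        · intro q hq ρ hR hL
          obtain ⟨hq1, hq2⟩ := Finset.mem_filter.1 hq
          rw [RB_al hq1] at hR hL
          have h11 := K_thin hD.th hk (hTm q hq1).1 hR
          rw [h11]
          cases h12 : lab0 X.c.γ (X.c.r q) u.B with
          | none => exact absurd hL (lab0_none h12 ρ)
          | some σ =>
            have h13 := lab0_spec h.B_pos h12
            show some ((u.B : ℚ) * σ) = some ρ
            rw [Lab_uniq hL h13]
        · intro q hq ρ
          obtain ⟨hq1, hq2⟩ := Finset.mem_filter.1 hq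
          have h11 := hnone _ hq2
          have h12 := (K_miss hD.th hk (hTm q hq1).1 (hTm q hq1).2 hB).2
          rw [eθ, eRp q hq1]
          exact lab0_none (h12.symm.trans h11) ρ
        · intro hn
          rw [eθ]
          obtain ⟨q, hq⟩ := hn
          obtain ⟨hq1, hq2⟩ := Finset.mem_filter.1 hq
          exact hQ.accM hB q (hTm q hq1).1 (hTm q hq1).2
      -- tags
      have hEG : ∑ e ∈ EG, F e ≤ κ / 6 * ∑ q ∈ T, wA u.A (RB X u) q := by
        have hEGT : EG ⊆ T ×ˢ T := fun e he => hET0 (Finset.mem_filter.1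
          (Finset.mem_filter.1 he).1).1
        have hDA0 : ∀ e ∈ EG, 0 < DA u.A (RB X u) e := by
          intro e he
          obtain ⟨t1, t2⟩ := Finset.mem_product.1 (hEGT he)
          have h13 := hpos _ t1
          have h14 := hpos _ t2
          unfold DA Crest.Agent.R4.AvgItem710.Dp
          refine lt_max_of_lt_left (mul_pos ?_ h13.2)
          exact_mod_cast DseN23.cof_pos h14.1
        have q1 : ∑ e ∈ EG, 2 * ((RB X u e.1 * RB X u e.2) / DA u.A (RB X u) e) ≤
            κ / 12 * ∑ q ∈ T, wA u.A (RB X u) q := by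
          refine h11 p (by omega) u.A T EG (RB X u) _ hdvd hEGT hpos hlo ?_ ?_ fun e he => le_rfl
          · intro e he l hlp hld
            obtain ⟨heU, he2⟩ := Finset.mem_filter.1 he
            obtain ⟨t1, t2⟩ := Finset.mem_product.1 (hEGT he)
            rw [not_not] at he2
            rcases hld with hld | hld
            · exact smoothK hk (hTm _ t1).1 (hTm _ t2).1 he2 hlp hld
            · exact smoothK hk (hTm _ t2).1 (hTm _ t1).1 he2.symm hlp hld
          · intro e he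
            obtain ⟨heU, he2⟩ := Finset.mem_filter.1 he
            obtain ⟨t1, t2⟩ := Finset.mem_product.1 (hEGT he)
            rw [not_not] at he2
            exact hcoft _ t1 _ t2 ((hdis e (Finset.mem_filter.1 heU).1).resolve_left
              (not_not.2 he2))
        have q2 : ∑ e ∈ EG, 4 * η * (RB X u e.1 * RB X u e.2) ≤
            κ / 12 * ∑ q ∈ T, wA u.A (RB X u) q := by
          have hR0 : ∀ q ∈ T, 0 ≤ RB X u q := fun q hq => (hpos q hq).2.le
          have s1 : ∑ e ∈ EG, (RB X u e.1 * RB X u e.2) ≤ (∑ q ∈ T, RB X u q) ^ 2 := by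
            rw [pow_two, Finset.sum_mul_sum, ← Finset.sum_product']
            refine Finset.sum_le_sum_of_subset_of_nonneg hEGT fun e he _ => ?_
            obtain ⟨t1, t2⟩ := Finset.mem_product.1 he
            exact mul_nonneg (hR0 _ t1) (hR0 _ t2)
          set M := ∑ q ∈ T, wA u.A (RB X u) q with hMd
          have hM0 : 0 ≤ M := Finset.sum_nonneg hwA0
          have s2 : ∑ q ∈ T, RB X u q ≤ 2 * Step588.CT * Real.log p * M := by
            rw [hMd, Finset.mul_sum]
            exact Finset.sum_le_sum hlo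
          have s20 : 0 ≤ ∑ q ∈ T, RB X u q := Finset.sum_nonneg hR0
          have s3 : (∑ q ∈ T, RB X u q) ^ 2 ≤ (2 * Step588.CT * Real.log p * M) ^ 2 :=
            pow_le_pow_left₀ s20 s2 2
          obtain ⟨-, s4⟩ := h12 p (by omega)
          rw [← hη] at s4
          have hlp0 : 0 < Real.log p := by linarith
          have s5 : Real.log p ^ (2 + (N.B + N.c2 + 3)) =
              Real.log p ^ 2 * Real.log p ^ (N.B + N.c2 + 3) := by
            rw [Real.rpow_add hlp0]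
            norm_num
          rw [s5] at s4
          rw [← Finset.mul_sum]
          have hlC : 0 ≤ Real.log p ^ (N.B + N.c2 + 3) := Real.rpow_nonneg hlp0.le _
          calc 4 * η * ∑ e ∈ EG, (RB X u e.1 * RB X u e.2)
              ≤ 4 * η * (2 * Step588.CT * Real.log p * M) ^ 2 :=
                mul_le_mul_of_nonneg_left (s1.trans s3) (by positivity)
            _ = 4 * η * ((2 * Step588.CT) ^ 2 * Real.log p ^ 2 * M) * M := by ring
            _ ≤ 4 * η * ((2 * Step588.CT) ^ 2 * Real.log p ^ 2 *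
                Real.log p ^ (N.B + N.c2 + 3)) * M := by
                refine mul_le_mul_of_nonneg_right (mul_le_mul_of_nonneg_left
                  (mul_le_mul_of_nonneg_left hM2 (by positivity)) (by positivity)) hM0
            _ = κ / 12 * (48 / κ * (2 * Step588.CT) ^ 2 *
                (Real.log p ^ 2 * Real.log p ^ (N.B + N.c2 + 3)) * η) * M := by
                field_simp
                ring
            _ ≤ κ / 12 * 1 * M := by
                refine mul_le_mul_of_nonneg_right (mul_le_mul_of_nonneg_left s4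
                  (by positivity)) hM0
            _ = κ / 12 * M := by ring
        calc ∑ e ∈ EG, F e ≤ ∑ e ∈ EG, (2 * ((RB X u e.1 * RB X u e.2) / DA u.A (RB X u) e) +
              4 * η * (RB X u e.1 * RB X u e.2)) := by
              refine Finset.sum_le_sum fun e he => ?_
              refine (hFn e (Finset.mem_filter.1 he).1).trans (le_of_eq ?_)
              have := (hDA0 e he).ne'
              field_simp
              ring
          _ ≤ _ := by
              rw [Finset.sum_add_distrib]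
              linarith
      rw [hsp]
      have s6 := mul_le_mul_of_nonneg_left (hsub TU (Finset.filter_subset _ _))
        (by positivity : 0 ≤ κ / 12)
      have s7 : 0 ≤ κ / 12 * ∑ q ∈ T, wA u.A (RB X u) q :=
        mul_nonneg (by positivity) (Finset.sum_nonneg hwA0)
      linarith
  -- labels
  have hELle : ∑ e ∈ EL, F e ≤ κ / 3 * ∑ q ∈ TL, wA u.A (RB X u) q := by
    rcases hk.B with hB | hB
    · have hK : ∀ s : ℕ, tp V < s → Real.log p ^ (N.c2 + 2) ≤ s * X.c.wp.thr s := by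
        intro s hs
        have hsR : (0:ℝ) < s := by
          have : 0 < s := by omega
          exact_mod_cast this
        have hps : (p:ℝ) ≤ s := by exact_mod_cast hs.le
        have h6 := hD.rse.thr s (k2.trans hs)
        have h7 : (s:ℝ) ^ (1/2:ℝ) = s * (s:ℝ) ^ (-(1/2:ℝ)) := by
          conv_rhs => rw [← Real.rpow_one (s:ℝ), ← Real.rpow_mul hsR.le, ← Real.rpow_add hsR]
          norm_num
        calc Real.log p ^ (N.c2 + 2) ≤ (p:ℝ) ^ (1/2:ℝ) := n5
          _ ≤ (s:ℝ) ^ (1/2:ℝ) := Real.rpow_le_rpow hpR.le hps (by norm_num)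
          _ = s * (s:ℝ) ^ (-(1/2:ℝ)) := h7
          _ ≤ s * X.c.wp.thr s := mul_le_mul_of_nonneg_left h6 hsR.le
      have hthr0 : 0 < X.c.wp.thr (tp V) := (Real.rpow_pos_of_pos hpR _).trans_le hthr
      have hK4 : 32 * (Real.log p ^ (N.c2 + 2)) ^ 4 < (tp V : ℝ) ^ 2 * X.c.wp.thr (tp V) ^ 2 := by
        refine n4.trans_le ?_
        have h7 : ((p:ℝ) ^ (-(1/2:ℝ))) ^ 2 ≤ X.c.wp.thr (tp V) ^ 2 :=
          pow_le_pow_left₀ (Real.rpow_nonneg hpR.le _) hthr 2
        have h8 : ((p:ℝ) ^ (-(1/2:ℝ))) ^ 2 = (p:ℝ)⁻¹ := by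
          rw [← Real.rpow_natCast, ← Real.rpow_mul hpR.le, ← Real.rpow_neg_one]
          norm_num
        rw [h8] at h7
        calc (p:ℝ) = (p:ℝ) ^ 2 * (p:ℝ)⁻¹ := by field_simp
          _ ≤ (p:ℝ) ^ 2 * X.c.wp.thr (tp V) ^ 2 := mul_le_mul_of_nonneg_left h7 (sq_nonneg _)
      obtain ⟨Λf, hΛ, hlab⟩ := lab_nodeB hk.hv.nd X.tOk hk.lV (wp := X.c.wp) (wpL := X.c.wpL)
        (lam := X.c.lam) (lv := X.c.lv) (γ := X.c.γ) (r := X.c.r) hK hthr0 hK4
      refine h3 p (by omega) u.A (u.B * X.c.γ) TL EL (RB X u)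
        (fun q => (u.B : ℚ) * (st q).getD 0) Λf F
        (fun q hq => hdvd q (Finset.mem_filter.1 hq).1) ?_ hELT
        (fun q hq => hpos q (Finset.mem_filter.1 hq).1)
        (fun q hq => hlo q (Finset.mem_filter.1 hq).1)
        ((hsub TL (Finset.filter_subset _ _)).trans hM2) ?_ hFL ?_
      · have : ((Λf.card : ℕ) : ℝ) ≤ 1 := by exact_mod_cast hΛ
        linarith
      · intro q hq
        obtain ⟨hq1, hq2⟩ := Finset.mem_filter.1 hq
        obtain ⟨σ, hσ⟩ := Option.isSome_iff_exists.1 hq2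
        have hcol := hk.hv.rd.col hk.lV q (hk.sub (hTm q hq1).1) (hTm q hq1).2
        rw [rr_al hq1] at hcol
        rw [hσ, Option.getD_some, RB_al hq1, hB]
        rcases hlab q (hk.sub (hTm q hq1).1) hcol σ hσ with h6 | h6
        · exact Or.inl h6
        · refine Or.inr ⟨h6.1, le_trans ?_ h6.2.le⟩
          refine le_trans ?_ hthr
          rw [← Real.rpow_neg_one]
          exact Real.rpow_le_rpow_of_exponent_le hpR1 (by norm_num)
      · intro e he _
        obtain ⟨σ, σ', a, a', s1, s2, x2, x3, x4⟩ := hrelL e he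
        rw [s1, s2, Option.getD_some, Option.getD_some]
        exact ⟨x4, by exact_mod_cast x3, a, a', x2⟩
    · have hpq : (p : ℚ) ≠ 0 := by exact_mod_cast hpR.ne'
      have hp0' : (p : ℝ) ≠ 0 := hpR.ne'
      have hBR : (u.B : ℝ) = v.B * p := by rw [hB]; push_cast; rfl
      have hBQ : (u.B : ℚ) = v.B * p := by rw [hB]; push_cast; rfl
      have eRp : ∀ q ∈ T, RB X u q / (p : ℝ) = v.B * X.c.r q := by
        intro q hq
        rw [RB_al hq, hBR]; field_simp
      have eB : ∀ σ : ℚ, (p : ℚ) * ((v.B : ℚ) * σ) = (u.B : ℚ) * σ := by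
        intro σ; rw [hBQ]; ring
      refine (h7 p (by omega) k1 u.A (v.B * X.c.γ) TL EL (RB X u)
        (fun q => (v.B : ℚ) * (st q).getD 0) F
        (fun q hq => hdvd q (Finset.mem_filter.1 hq).1) hELT
        (fun q hq => hpos q (Finset.mem_filter.1 hq).1)
        (fun q hq => hlo q (Finset.mem_filter.1 hq).1)
        (fun q hq => hQ.hi q (hTm q (Finset.mem_filter.1 hq).1).1
          (hTm q (Finset.mem_filter.1 hq).1).2)
        ((hsub TL (Finset.filter_subset _ _)).trans hM2) ?_ ?_ hFL ?_).trans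
        (mul_le_mul_of_nonneg_right ((h8 p (by omega)).2.trans (by linarith))
          (Finset.sum_nonneg fun q hq => hwA0 q (Finset.mem_filter.1 hq).1))
      · intro q hq
        obtain ⟨hq1, hq2⟩ := Finset.mem_filter.1 hq
        obtain ⟨σ, hσ⟩ := Option.isSome_iff_exists.1 hq2
        have h12 := (K_miss hD.th hk (hTm q hq1).1 (hTm q hq1).2 hB).2
        rw [hσ, Option.getD_some, eRp q hq1]
        exact lab0_spec hk.hv.nd.B_pos (h12.symm.trans hσ)
      · exact hQ.badM hB q₀ (hTm q₀ hq₀).1 (hTm q₀ hq₀).2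
      · intro e he _
        obtain ⟨σ, σ', a, a', s1, s2, x2, x3, x4⟩ := hrelL e he
        rw [s1, s2, Option.getD_some, Option.getD_some, eB, eB]
        refine ⟨fun h11 => x4 ?_, a, a', x2⟩
        rw [← eB, ← eB, h11]
  -- tags
  have hETle : ∑ e ∈ ET, F e ≤ κ / 3 * ∑ q ∈ T, wA u.A (RB X u) q := by
    refine h4 p (by omega) u.A T ET (RB X u) F hdvd ?_ hpos hlo ?_ ?_ ?_
    · intro e he
      obtain ⟨he1, he2⟩ := Finset.mem_filter.1 he
      obtain ⟨he3, he4⟩ := Finset.mem_filter.1 he1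
      exact Finset.mem_product.2 (hET e he3)
    · intro e he l hlp hld
      obtain ⟨he1, he2⟩ := Finset.mem_filter.1 he
      obtain ⟨he3, he4⟩ := Finset.mem_filter.1 he1
      obtain ⟨t1, t2⟩ := hET e he3
      rw [not_not] at he2
      rcases hld with hld | hld
      · exact smoothK hk (hTm _ t1).1 (hTm _ t2).1 he2 hlp hld
      · exact smoothK hk (hTm _ t2).1 (hTm _ t1).1 he2.symm hlp hld
    · intro e he
      obtain ⟨he1, he2⟩ := Finset.mem_filter.1 he
      obtain ⟨he3, he4⟩ := Finset.mem_filter.1 he1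
      obtain ⟨t1, t2⟩ := hET e he3
      rw [not_not] at he2
      exact hcoft _ t1 _ t2 ((hdis e he3).resolve_left (not_not.2 he2))
    · intro e he
      obtain ⟨he1, he2⟩ := Finset.mem_filter.1 he
      obtain ⟨he3, he4⟩ := Finset.mem_filter.1 he1
      exact hFs e he3 he4
  rw [hsplit]
  have s2 := mul_le_mul_of_nonneg_left (hsub TL (Finset.filter_subset _ _)) hκ3.le
  have s3 := mul_le_mul_of_nonneg_left hM hκ.le
  linarith

end main

end Crest.Agent.R4P.RseRI17
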