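import Crest.Agent.R4P.TgtDF_7
import Crest.Agent.R4P.RseRS_17

/-!
R4 (S0004), powers pass, helper17, [EK]: **the energy of the pairs with one index at the column of a
node**, at the node itself and at its (raw) children, at most `K` times the mass.

* `Q_ix` : the pairs of one index = the pairs of one world and the pairs of `RS`;
* `NE`, `GE` : the facts of the nodes and of the context;
* `ek_kid`, `ek_node` : the bounds; `ek_all` : at all the nodes.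
-/

set_option autoImplicit false
set_option linter.unusedSectionVars false
set_option linter.unusedVariables false

open MeasureTheory Filter

namespace Crest.Agent.R4P.EK17

open Crest.Agent.R4P.Cnt588 Crest.Agent.R4P.Item758 Crest.Agent.R4P.W363
open Crest.Agent.R4P.Data758 Crest.Agent.R4P.LfDat734
open Crest.Agent.R4P.Bld532 (NS All NodeOk Bk plk Ws_nonneg Ws_mono)
open Crest.Agent.R4P.Step588 (NDt ND1 ctx_NDt uq_lt All_All)
open Crest.Agent.R4P.WalkIT579 (tp isL nodeOk_hi top_of_nodeOk)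
open Crest.Agent.R4P.Skel189 Crest.Agent.R4P.RseSt23 Crest.Agent.R4P.DseCh23
open Crest.Agent.R4P.RseNd23 Crest.Agent.R4P.DseKid23
open Crest.Agent.R4P.Dse22 (chE LocOk dse_le dse_items)
open Crest.Agent.R4P.DseFin21 Crest.Agent.R4P.LeafIa21 Crest.Agent.R4P.DseInd21
open Crest.Agent.R4P.Frame758 (LeafAll LeafI wt tG tM tN CxOk leafIn_of tM_eq AdL_AdI)
open Crest.Agent.R4.Soft104 (w)
open Crest.Agent.R4.Item758 (IL AdI AdS AdI_all AdI_AdN AdI_univ IL_univ)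
open Crest.Agent.R4.ClosR758 (dseR din_leR LeafIn AdN MassOk rv Ro Ro_subset mem_Ro PB_rv)
open Crest.Agent.R4.ClosL758 (Rr Dr)
open Crest.Agent.R4.ClosG758 (Q_le_sdiff ic)
open Crest.Agent.R4.Tour104 (Q)

section ctx
variable {N : Skel189.Num} {γ : ℝ} {p0 P₀ : ℕ} {X : Ctx N γ p0 P₀}

/-- energy of the pairs with one index at the level `b` -/
noncomputable def EX (X : Ctx N γ p0 P₀) (b : ℕ) (u : NS) (τ : IT) : ℝ :=
  Q ((Finset.univ : Finset (X.c.Lam × X.c.Lam)) \ Ro ((X.c.D.par X.Y).rho b))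
    (rv Finset.univ (X.g u τ).val) (rv Finset.univ (X.g u τ).val)

/-- **the pairs of one index** -/
lemma Q_ix (X : Ctx N γ p0 P₀) (b : ℕ) (f : X.c.Lam → ℝ → ℝ) :
    Q ((Finset.univ : Finset (X.c.Lam × X.c.Lam)) \ Ro ((X.c.D.par X.Y).rho b)) f f =
      Q (Dr ((X.c.D.par X.Y).rho b)) f f + Q (RS X X.Y b) f f := by
  classical
  have hs := Ro_subset ((X.c.D.par X.Y).rho b)
  have e : (Finset.univ : Finset (X.c.Lam × X.c.Lam)) \ Ro ((X.c.D.par X.Y).rho b) =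
      Dr ((X.c.D.par X.Y).rho b) ∪ RS X X.Y b := by
    ext x
    have h1 : x ∈ Rr ((X.c.D.par X.Y).rho b) ↔
        (X.c.D.par X.Y).rho b x.1 ≠ (X.c.D.par X.Y).rho b x.2 := by
      unfold Rr; simp
    have h2 : x ∈ Dr ((X.c.D.par X.Y).rho b) ↔
        (X.c.D.par X.Y).rho b x.1 = (X.c.D.par X.Y).rho b x.2 := by
      unfold Dr; simp
    have h3 : x ∈ Ro ((X.c.D.par X.Y).rho b) → x ∈ Rr ((X.c.D.par X.Y).rho b) := fun h => hs h
    rw [Finset.mem_sdiff, Finset.mem_union]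
    unfold RS
    rw [Finset.mem_sdiff, h1, h2]
    rw [h1] at h3
    constructor
    · rintro ⟨-, h4⟩
      by_cases h5 : (X.c.D.par X.Y).rho b x.1 = (X.c.D.par X.Y).rho b x.2
      · exact Or.inl h5
      · exact Or.inr ⟨h5, h4⟩
    · rintro (h4 | h4)
      · exact ⟨Finset.mem_univ _, fun h5 => h3 h5 h4⟩
      · exact ⟨Finset.mem_univ _, h4.2⟩
  have hd : Disjoint (Dr ((X.c.D.par X.Y).rho b)) (RS X X.Y b) := by
    rw [Finset.disjoint_left]
    intro x hx hx'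
    unfold RS at hx'
    have h1 := (Finset.mem_sdiff.1 hx').1
    unfold Rr at h1
    unfold Dr at hx
    exact (Finset.mem_filter.1 h1).2 (Finset.mem_filter.1 hx).2
  rw [e]
  unfold Q
  exact Finset.sum_union hd

/-- facts of the nodes -/
structure NE (X : Ctx N γ p0 P₀) (Ki : ℝ) (u : NS) (τ : IT) : Prop where
  kb : KB X u τ
  pf : PF X u τ
  inn : Q (Dr (X.g u τ).part) (rv Finset.univ (X.g u τ).val) (rv Finset.univ (X.g u τ).val) ≤
    Ki * ma X Finset.univ u τ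

/-- facts of the context -/
structure GE (X : Ctx N γ p0 P₀) (K κ Ke : ℝ) : Prop where
  ch : ∀ v V u τ, Kid X v V u τ →
    ChOk X X.Y Finset.univ (wt X.c.D) (eD X K κ 1) (tp V) u τ
  el : ∀ (p : ℕ), p.Prime → p0 < p → ∀ (u : NS) (t : IT), All (PF X) u t → p ≤ u.n →
    u.n ≤ p + 1 → ELe X (eD X K κ 1) Ke p (hu u t) (hd t)
  rs : ∀ v V u τ, Kid X v V u τ →
    Q (RS X X.Y (tp V)) (Uv X X.Y u τ Finset.univ) (Uv X X.Y u τ Finset.univ) ≤
      1 * (u.c * ∑ q ∈ al X τ Finset.univ, w X.ψ q)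
  rn : ∀ u τ, NF X u τ → ¬ isL τ →
    Q (RS X X.Y (tp τ)) (Uv X X.Y u τ Finset.univ) (Uv X X.Y u τ Finset.univ) ≤
      1 * (u.c * ∑ q ∈ al X τ Finset.univ, w X.ψ q)

/-- mass of the alive items and mass of the node -/
lemma al_le {u : NS} (hc : 0 ≤ u.c) (τ : IT) (A : Finset X.c.Lam) :
    u.c * ∑ q ∈ al X τ A, w X.ψ q ≤ u.c * Ws (w X.ψ) τ.items := by
  classical
  refine mul_le_mul_of_nonneg_left ?_ hc
  unfold Ws
  refine Finset.sum_le_sum_of_subset_of_nonneg ?_ fun q _ _ => X.hW q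
  unfold al
  exact Finset.filter_subset _ _

/-- **the same world part at a (raw) child** -/
lemma same_kid {Ki K κ Ke : ℝ} (hG : GE X K κ Ke) {v : NS} {V : IT} {u : NS} {t : IT}
    (hv : NE X Ki v V) (hl : ¬ isL V) (h : All (NE X Ki) u t)
    (hsub : t.items ⊆ V.items) (hB : u.B = v.B ∨ u.B = v.B * tp V) (hn : tp V ≤ u.n)
    (hn' : u.n ≤ tp V + 1) :
    Q (Dr ((X.c.D.par X.Y).rho (tp V))) (rv Finset.univ (X.g u t).val)
      (rv Finset.univ (X.g u t).val) ≤ (Ki + Ke) * ma X Finset.univ u t := by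
  classical
  have hk : Kid X v V (hu u t) (hd t) :=
    kid_of hv.kb hl (All.mono (fun _ _ k => k.kb) h) hsub hB hn'
  obtain ⟨k1, k2, -⟩ := hk.tpV
  have hc : 0 ≤ u.c := h.self.kb.nf.c0.le
  have hnd : NDt X.par (w X.ψ) X.c.t u t := h.self.pf.nd
  have hok : ((X.c.D.par X.Y).toG u.B u.A t).Ok :=
    (X.c.D.par X.Y).toG_Ok hnd.B_pos hnd.fit (node_wts hnd X.Y)
  have q1 := PB_rv (fun j => hok.pb j) (Finset.univ : Finset X.c.Lam)
  have e2 : ic ((X.c.D.par X.Y).rho (tp V)) ((X.c.D.par X.Y).toG u.B u.A t).part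
      (rv Finset.univ ((X.c.D.par X.Y).toG u.B u.A t).val) = ChE X X.Y Finset.univ (tp V) u t :=
    ChE_eq hnd Finset.univ (tp V)
  have h2 : Q (Dr ((X.c.D.par X.Y).rho (tp V))) (rv Finset.univ ((X.c.D.par X.Y).toG u.B u.A t).val)
      (rv Finset.univ ((X.c.D.par X.Y).toG u.B u.A t).val) ≤
      Q (Dr ((X.c.D.par X.Y).toG u.B u.A t).part)
        (rv Finset.univ ((X.c.D.par X.Y).toG u.B u.A t).val)
        (rv Finset.univ ((X.c.D.par X.Y).toG u.B u.A t).val) +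
      ChE X X.Y Finset.univ (tp V) u t := by
    rw [← e2]
    exact Q_le_sdiff _ _ q1 q1
  have hch := hG.ch v V _ _ hk
  have he := hG.el (tp V) k1 k2 u t (All.mono (fun _ _ k => k.pf) h) hn hn'
  have h3 : ChE X X.Y Finset.univ (tp V) u t ≤ Ke * ma X Finset.univ u t := by
    rw [← ChE_hd]
    unfold ChOk at hch
    rw [hu_c, hd_items] at hch
    refine hch.trans ?_
    rw [ma_mul]
    refine mul_le_mul_of_nonneg_left ?_ hc
    refine Finset.sum_le_sum fun j hj => ?_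
    obtain ⟨a, b'⟩ := Finset.mem_filter.1 hj
    obtain ⟨e3, e4⟩ := he j (by rw [hd_items]; exact b')
    have hw0 := wt_nonneg X j
    unfold Wa
    by_cases h : j.1.1 ∈ X.S'
    · simp only [h, if_true]
      rw [mul_comm Ke]
      exact mul_le_mul_of_nonneg_left (e3 h) hw0
    · simp only [h, if_false, mul_zero]
      exact mul_nonpos_of_nonneg_of_nonpos hw0 (e4 h)
  have h4 := h.self.inn
  have h5 : Q (Dr ((X.c.D.par X.Y).toG u.B u.A t).part)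
        (rv Finset.univ ((X.c.D.par X.Y).toG u.B u.A t).val)
        (rv Finset.univ ((X.c.D.par X.Y).toG u.B u.A t).val) ≤ Ki * ma X Finset.univ u t := h4
  calc _ ≤ Q (Dr ((X.c.D.par X.Y).toG u.B u.A t).part)
        (rv Finset.univ ((X.c.D.par X.Y).toG u.B u.A t).val)
        (rv Finset.univ ((X.c.D.par X.Y).toG u.B u.A t).val) +
      ChE X X.Y Finset.univ (tp V) u t := h2
    _ ≤ Ki * ma X Finset.univ u t + Ke * ma X Finset.univ u t := by linarith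
    _ = _ := by ring

/-- the values of a node -/
lemma val_Uv {u : NS} {t : IT} (hn : NDt X.par (w X.ψ) X.c.t u t) (A : Finset X.c.Lam) :
    rv A (X.g u t).val = Uv X X.Y (hu u t) (hd t) A := by
  have hval : ((X.c.D.par X.Y).toG u.B u.A t).val =
      fun j => ((X.c.D.par X.Y).toFT u.B u.A t).U 1 j :=
    Par.toG_val _ hn.B_pos hn.fit (node_wts hn X.Y)
  unfold Uv
  rw [hu_B, hu_A, toFT_hd, ← hval]
  rfl

/-- **[EK] at a (raw) child** -/
theorem ek_kid {Ki K κ Ke : ℝ} (hKi : 0 ≤ Ki) (hKe : 0 ≤ Ke) (hG : GE X K κ Ke) {v : NS} {V : IT}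
    {u : NS} {t : IT} (hv : NE X Ki v V) (hl : ¬ isL V) (h : All (NE X Ki) u t)
    (hsub : t.items ⊆ V.items) (hB : u.B = v.B ∨ u.B = v.B * tp V) (hn : tp V ≤ u.n)
    (hn' : u.n ≤ tp V + 1) :
    EX X (tp V) u t ≤ (Ki + Ke + 1) * (u.c * Ws (w X.ψ) t.items) := by
  classical
  have h1 := same_kid hG hv hl h hsub hB hn hn'
  have hk : Kid X v V (hu u t) (hd t) :=
    kid_of hv.kb hl (All.mono (fun _ _ k => k.kb) h) hsub hB hn'
  have hc : 0 ≤ u.c := h.self.kb.nf.c0.le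
  have h2 := hG.rs v V _ _ hk
  rw [← val_Uv h.self.pf.nd] at h2
  have h3 := al_le (X := X) (u := hu u t) (by rw [hu_c]; exact hc) (hd t) Finset.univ
  rw [hu_c, hd_items] at h3
  rw [hu_c] at h2
  have h4 := (ma_le (X := X) hc Finset.univ t).trans (al_le (X := X) hc t Finset.univ)
  unfold EX
  rw [Q_ix]
  have h5 : (Ki + Ke) * ma X Finset.univ u t ≤ (Ki + Ke) * (u.c * Ws (w X.ψ) t.items) :=
    mul_le_mul_of_nonneg_left h4 (by linarith)
  linarith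

/-- **[EK] at the node itself** -/
theorem ek_node {Ki K κ Ke : ℝ} (hKi : 0 ≤ Ki) (hKe : 0 ≤ Ke) (hG : GE X K κ Ke) {u : NS} {τ : IT}
    (h : All (NE X Ki) u τ) (hl : ¬ isL τ) :
    EX X (tp τ) u τ ≤ (Ki + Ke + 1) * (u.c * Ws (w X.ψ) τ.items) := by
  classical
  have hc : 0 ≤ u.c := h.self.kb.nf.c0.le
  by_cases hu' : notUp τ
  · have h1 := h.self.inn
    have hp : (X.g u τ).part = (X.c.D.par X.Y).rho (tp τ) := part_node X X.Y hl hu' u.B u.A
    rw [hp] at h1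
    have h2 := hG.rn u τ h.self.kb.nf hl
    have e : rv Finset.univ (X.g u τ).val = Uv X X.Y u τ Finset.univ := by
      have hn := h.self.pf.nd
      have hval : ((X.c.D.par X.Y).toG u.B u.A τ).val =
          fun j => ((X.c.D.par X.Y).toFT u.B u.A τ).U 1 j :=
        Par.toG_val _ hn.B_pos hn.fit (node_wts hn X.Y)
      unfold Uv
      rw [← hval]
      rfl
    rw [← e] at h2
    have h3 := al_le (X := X) hc τ Finset.univ
    have h4 := (ma_le (X := X) hc Finset.univ τ).trans h3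
    unfold EX
    rw [Q_ix]
    have h5 : Ki * ma X Finset.univ u τ ≤ Ki * (u.c * Ws (w X.ψ) τ.items) :=
      mul_le_mul_of_nonneg_left h4 hKi
    have h6 : 0 ≤ Ke * (u.c * Ws (w X.ψ) τ.items) :=
      mul_nonneg hKe (mul_nonneg hc (Ws_nonneg X.hW _))
    linarith
  · cases τ with
    | up p Sp t =>
      have hO := h.self.pf.nd.self.node
      have key := ek_kid hKi hKe hG (u := ⟨p, u.c, u.A, u.B⟩) (t := t) h.self hl h.2
        (Finset.Subset.refl _) (Or.inl rfl) (le_refl p) (Nat.le_succ p)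
      exact key
    | leaf S => exact absurd trivial hl
    | br p Sp t₁ t₀ => exact absurd trivial hu'
    | add p t₁ t₀ => exact absurd trivial hu'
    | pl p t => exact absurd trivial hu'
    | far p t₁ t₀ => exact absurd trivial hu'

/-- **[EK] of a node**: own column, the column `u.n` -/
def EN (X : Ctx N γ p0 P₀) (K : ℝ) (u : NS) (τ : IT) : Prop :=
  (¬ isL τ → EX X (tp τ) u τ ≤ K * (u.c * Ws (w X.ψ) τ.items)) ∧
  (u.n.Prime → p0 < u.n → u.n < top X.S → EX X u.n u τ ≤ K * (u.c * Ws (w X.ψ) τ.items))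

/-- **[EK] at all the nodes** -/
theorem ek_all {Ki K κ Ke : ℝ} (hp0 : 2 ≤ p0) (hKi : 0 ≤ Ki) (hKe : 0 ≤ Ke) (hG : GE X K κ Ke)
    (t : IT) : ∀ u : NS, All (NE X Ki) u t →
    (u.n.Prime → p0 < u.n → u.n < top X.S →
      EX X u.n u t ≤ (Ki + Ke + 1) * (u.c * Ws (w X.ψ) t.items)) →
    All (EN X (Ki + Ke + 1)) u t := by
  have odd : ∀ b : ℕ, b.Prime → p0 < b → ¬ (b + 1).Prime := by
    intro b hb hp hb1
    have h1 : b ≠ 2 := by omega
    have h2 : b + 1 ≠ 2 := by omega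
    have h3 := hb.odd_of_ne_two h1
    have h4 := hb1.odd_of_ne_two h2
    rcases h3 with ⟨a, ha⟩
    rcases h4 with ⟨c, hc⟩
    omega
  induction t with
  | leaf S => intro u h h2; exact ⟨fun hl => absurd trivial hl, h2⟩
  | br p Sp t₁ t₀ ih₁ ih₀ =>
    intro u h h2
    have hl : ¬ isL (.br p Sp t₁ t₀) := fun hh => hh
    have e1 : EX X p ⟨p, u.c / (1 - 1 / (p : ℝ)), u.A * p, u.B⟩ t₁ ≤
        (Ki + Ke + 1) * (u.c / (1 - 1 / (p : ℝ)) * Ws (w X.ψ) t₁.items) :=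
      ek_kid (u := ⟨p, u.c / (1 - 1 / (p : ℝ)), u.A * p, u.B⟩) (t := t₁)
        (V := .br p Sp t₁ t₀) hKi hKe hG h.1 hl h.2.1 Finset.subset_union_left
        (Or.inl rfl) (le_refl p) (Nat.le_succ p)
    have e0 : EX X p ⟨p, u.c * p, u.A, u.B * p⟩ t₀ ≤
        (Ki + Ke + 1) * (u.c * p * Ws (w X.ψ) t₀.items) :=
      ek_kid (u := ⟨p, u.c * p, u.A, u.B * p⟩) (t := t₀)
        (V := .br p Sp t₁ t₀) hKi hKe hG h.1 hl h.2.2 Finset.subset_union_right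
        (Or.inr rfl) (le_refl p) (Nat.le_succ p)
    exact ⟨⟨ek_node hKi hKe hG h, h2⟩, ih₁ _ h.2.1 fun _ _ _ => e1, ih₀ _ h.2.2 fun _ _ _ => e0⟩
  | add b t₁ t₀ ih₁ ih₀ =>
    intro u h h2
    obtain ⟨k1, k2, -⟩ := top_of_nodeOk h.self.pf.nd.self.node (fun hh => hh)
    have k3 := (nodeOk_hi h.self.pf.nd.self.node (fun hh => hh)).2.1
    exact ⟨⟨ek_node hKi hKe hG h, h2⟩, ih₁ _ h.2.1 fun hh => absurd hh (odd b k1 k3),
      ih₀ _ h.2.2 fun hh => absurd hh (odd b k1 k3)⟩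
  | up b Sp t ih =>
    intro u h h2
    have hl : ¬ isL (.up b Sp t) := fun hh => hh
    have e1 : EX X b ⟨b, u.c, u.A, u.B⟩ t ≤ (Ki + Ke + 1) * (u.c * Ws (w X.ψ) t.items) :=
      ek_kid (u := ⟨b, u.c, u.A, u.B⟩) (t := t) (V := .up b Sp t) hKi hKe hG h.1 hl
        h.2 (Finset.Subset.refl _) (Or.inl rfl) (le_refl b) (Nat.le_succ b)
    exact ⟨⟨ek_node hKi hKe hG h, h2⟩, ih _ h.2 fun _ _ _ => e1⟩
  | pl b t ih =>
    intro u h h2
    obtain ⟨k1, k2, -⟩ := top_of_nodeOk h.self.pf.nd.self.node (fun hh => hh)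
    have k3 := (nodeOk_hi h.self.pf.nd.self.node (fun hh => hh)).2.1
    exact ⟨⟨ek_node hKi hKe hG h, h2⟩, ih _ h.2 fun hh => absurd hh (odd b k1 k3)⟩
  | far b t₁ t₀ ih₁ ih₀ =>
    intro u h h2
    obtain ⟨k1, k2, -⟩ := top_of_nodeOk h.self.pf.nd.self.node (fun hh => hh)
    have k3 := (nodeOk_hi h.self.pf.nd.self.node (fun hh => hh)).2.1
    exact ⟨⟨ek_node hKi hKe hG h, h2⟩, ih₁ _ h.2.1 fun hh => absurd hh (odd b k1 k3),
      ih₀ _ h.2.2 fun hh => absurd hh (odd b k1 k3)⟩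

/-- the charges of a (raw) child -/
theorem el_of {K κ a K₀ : ℝ} (hK : 0 ≤ K) (hk0 : 0 ≤ κ) (hkK : κ ≤ K) (ha : 0 ≤ a) (h0 : 3 ≤ p0)
    (hR : RG X) (hPhi : ∀ q ∈ X.S', ∀ m : ℕ, Phi X K κ a q m ≤ K₀) (p : ℕ) (hpp : p.Prime)
    (hp : p0 < p) (u : NS) (t : IT) (h : All (PF X) u t) (hn : p ≤ u.n) (hn' : u.n ≤ p + 1) :
    ELe X (eD X K κ a) K₀ p (hu u t) (hd t) := by
  intro j hj
  rw [hd_items] at hj
  refine ⟨fun hq => ?_, fun hq => ?_⟩
  · have k1 := kid hK hk0 hkK ha h0 hR hpp hp h hn hn' (path_all hK hk0 hkK ha h0 hR t u h).self hj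
    have k2 := chE_nonneg (X := X) (e := e1 X K κ a)
      (fun u τ j => eC_nonneg (fun p u τ j => eD_nonneg ha p u τ j) τ u j) t u j
    have k3 := hPhi j.1.1 hq p
    have k4 : 0 ≤ Real.log p ^ (-κ) := Real.rpow_nonneg (DseFin21.log_nn p) _
    linarith
  · exact (eD_dead hq).le

end ctx

/-! ### the contexts -/

open Crest.Agent.R4P.PruneAcc17 (NoAcc NoAcc.of SxA)
open Crest.Agent.R4P.PruneBad17 (NoBad NoBad.of SxB)
open Crest.Agent.R4P.DseKid23 (DH kid_KQ KQ)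
open Crest.Agent.R4P.DseTk23 (ctx_DH)
open Crest.Agent.R4P.RseRI17 (rs_kid)
open Crest.Agent.R4P.AddPay7 (zA zA_nonneg eZ cr_add path_add)
open Crest.Agent.R4P.ParF5 Crest.Agent.R4P.NumX34 Crest.Agent.R4P.ParT21
open Crest.Agent.R4P.FinAll26 (TgtD NumFin Ev_P2)
open Crest.Agent.R4P.Fin5 (CF)
open Crest.Agent.R4P.NumG23
open Crest.Agent.R4P.FinD21 (TChK TFar kidsP_of_kid ctx_ZA zT)

/-- **[EK] of the contexts** from the children (`TChK`) and the far nodes (`TFar`) -/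
theorem ek_of : ∃ c : ℝ, ∀ (N : Skel189.Num) (Ct C₀ : ℝ)
    (Sx : ℕ → (ℕ → ℝ) → Finset ℕ → Finset ℕ), NumOK N (thF Ct) Ct C₀ Sx →
    NumFin N (thF Ct) Ct c → NumG N → ∀ (γ K κ A' : ℝ), N.B + 2 ≤ K → N.C1 + N.c2 + 2 ≤ κ → κ ≤ K →
      0 ≤ A' → (∀ p0 ψ S, Sx p0 ψ S ⊆ SxA γ A' N.B N.C1 N.c2 p0 ψ S) →
      (∀ p0 ψ S, Sx p0 ψ S ⊆ SxB γ N.B N.C1 N.c2 p0 ψ S) →
      TChK N γ K κ → TFar N γ →
      ∃ Ke : ℝ, 0 ≤ Ke ∧ Ev N γ fun p0 P₀ X => CF X → All (EN X Ke) ⟨top X.S, 1, 1, 1⟩ X.c.t := by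
  obtain ⟨c0, CI, hc0, hCI, HI⟩ := leafIa_ctx
  obtain ⟨κ₀, hκ₀, HA⟩ := cr_add
  have hi0 : 0 < 1 / c0 := by positivity
  refine ⟨1 / c0 + 10 * κ₀ + 100,
    fun N Ct C₀ Sx h hN hG γ K κ A' hK hk hkK hA' hSA hSB hCh hFar => ?_⟩
  obtain ⟨z, hz, hFar⟩ := hFar
  have c1 := hN.C1
  have c2 := hN.c2
  have cB := hN.B
  have cA := hN.A
  have ca' := hN.a'
  have ca := hN.a
  have cCt := hN.Ct
  have hB := N.hB
  have hC1 := N.hC1
  have hc2 := N.hc2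
  have hCt : 0 ≤ Ct := h.Ct0
  obtain ⟨p₂, hL⟩ := h.lnum
  set Kc : ℝ := CI + (1 + 12 + (z + 1)) + (1 + 12) with hKc
  have hKc0 : 0 ≤ Kc := by linarith
  -- the leaves
  obtain ⟨q1, H1⟩ := HI N _ _ _ _ p₂ h.c20 (by linarith) (by linarith) le_rfl hL
  -- the add nodes
  have e1 : Crest.Agent.R4.ClsS.eps1 = 1 / 1000 := rfl
  obtain ⟨q2, H2⟩ := HA N Ct (N.a' + 1) Kc hCt hKc0 (by linarith) le_rfl (by linarith)
    (by rw [ca', ca, cCt, e1]; linarith) (by rw [ca', ca, cCt, c2]; linarith)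
  obtain ⟨q3, H3⟩ := path_add N
  obtain ⟨q4, H4⟩ := ctx_dseA N hK hk hkK
  obtain ⟨q5, H5⟩ := ctx_KB N
  obtain ⟨q6, H6⟩ := ctx_NF N
  -- smallness of the path sums of the add nodes
  obtain ⟨q7, H7⟩ : ∃ q7 : ℕ, ∀ p0 ≥ q7,
      2 * Real.log p0 ^ (-N.A) + 4 * (p0:ℝ) ^ (-(1/100):ℝ) ≤ 1 := by
    have t1 : Filter.Tendsto (fun p0 : ℕ => 2 * Real.log p0 ^ (-N.A)) Filter.atTop (nhds (2 * 0)) :=
      (((tendsto_rpow_neg_atTop (by linarith : 0 < N.A)).comp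
        (Real.tendsto_log_atTop.comp tendsto_natCast_atTop_atTop))).const_mul 2
    have t2 : Filter.Tendsto (fun p0 : ℕ => 4 * (p0:ℝ) ^ (-(1/100):ℝ)) Filter.atTop (nhds (4 * 0)) :=
      ((tendsto_rpow_neg_atTop (by norm_num : (0:ℝ) < 1/100)).comp
        tendsto_natCast_atTop_atTop).const_mul 4
    have t3 := t1.add t2
    rw [mul_zero, mul_zero, add_zero] at t3
    obtain ⟨q, hq⟩ := Filter.eventually_atTop.1 (t3.eventually (gt_mem_nhds one_pos))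
    exact ⟨q, fun p0 hp => (hq p0 hp).le⟩
  obtain ⟨q8, H8⟩ := h.thlo
  obtain ⟨q9, H9⟩ := hCh
  obtain ⟨q10, H10⟩ := hFar Kc hKc0
  obtain ⟨q11, H11⟩ := Phi_le N hK hk
  obtain ⟨q12, H12⟩ := rs_kid N (κ := 1) (A' := A') one_pos hA'
  obtain ⟨q13, H13⟩ := rse_node N (κ := 1) one_pos
  obtain ⟨q14, H14⟩ := ctx_DH h hG (by linarith) (by linarith) (by linarith)
  obtain ⟨q15, H15⟩ := kid_KQ N A'
  set Ki : ℝ := CI + (1 + 12 + (z + 1)) with hKi
  have hKi0 : 0 ≤ Ki := by linarith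
  refine ⟨Ki + (1 + 12) + 1, by linarith,
    q1 + q2 + q3 + q4 + q5 + q6 + q7 + q8 + q9 + q10 + q11 + q12 + q13 + q14 + q15 + 3,
    fun p0 hp0 => ?_⟩
  obtain ⟨Q9, H9⟩ := H9 p0 (by omega)
  obtain ⟨Q10, H10⟩ := H10 p0 (by omega)
  refine ⟨Q9 + Q10 + 2, fun P₀ hP X hC => ?_⟩
  have hP2 : 2 ≤ P₀ := by omega
  have hCh := H9 P₀ (by omega) X hC
  obtain ⟨ζF, hF⟩ := H10 P₀ (by omega) X hC
  have hRG := ctx_RG h X
  have hthr : ∀ p, p0 < p → Real.log p ^ (-Ct) ≤ X.c.wp.thr p := by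
    intro p hp
    rw [NumX34.thr_eq h X]
    exact H8 p0 (by omega) p hp.le
  have hadd : All (fun u τ => ∀ b t₁ t₀, τ = .add b t₁ t₀ → ∀ A : Finset X.c.Lam,
      IL X.c.D.it A →
      ED X X.Y A b u t₁ ≤ Kc * (u.c * ∑ q ∈ al X t₁ A, w X.ψ q) →
      ED X X.Y A b u t₀ ≤ Kc * (u.c * ∑ q ∈ al X t₀ A, w X.ψ q) →
      CrOk X X.Y A (wt X.c.D) (fun b u t₁ t₀ j => zA X b u t₁ t₀ j.1.1) b u t₁ t₀)
      ⟨top X.S, 1, 1, 1⟩ X.c.t := by
    refine All.mono (fun u τ hn b t₁ t₀ e A hA h1 h0 => ?_) (H6 p0 (by omega) γ P₀ hP2 X)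
    subst e
    exact H2 p0 (by omega) γ P₀ hP2 X hC.rse hC.d1 hthr X.Y u b t₁ t₀ hn A hA h1 h0
  obtain ⟨hZ1, hZ2⟩ := ctx_ZA hz zero_le_one hKc0 hF
    (fun j hj => (H3 p0 (by omega) γ P₀ hP2 X hC.rse j hj).trans (H7 p0 (by omega))) hadd
  have hKB := H5 p0 (by omega) γ P₀ hP2 X
  have hD := H14 p0 (by omega) γ P₀ X
  -- no index: trivial
  rcases isEmpty_or_nonempty X.c.Lam with hE | ⟨⟨j₀⟩⟩
  · refine All.mono (fun u τ hh => ?_) hKB
    have hc : 0 ≤ u.c := hh.nf.c0.le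
    have hm : 0 ≤ (Ki + (1 + 12) + 1) * (u.c * Ws (w X.ψ) τ.items) :=
      mul_nonneg (by linarith) (mul_nonneg hc (Ws_nonneg X.hW _))
    have h0 : ∀ b, EX X b u τ = 0 := by
      intro b
      unfold EX Q
      exact Finset.sum_eq_zero fun e _ => hE.elim e.1
    exact ⟨fun _ => by rw [h0]; exact hm, fun _ _ _ => by rw [h0]; exact hm⟩
  have key := H4 p0 (by omega) γ P₀ X hRG CI 1 (z + 1) zero_le_one (by linarith) (by linarith)
    (H1 p0 (by omega) γ P₀ hP2 X) j₀ (zT X ζF) hZ1 hZ2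
    (fun A hA => kidsP_of_kid (hCh A hA) X.c.t _ hKB)
  have hin := in_le (X := X) (by linarith : 0 ≤ CI) (H1 p0 (by omega) γ P₀ hP2 X) j₀
  have hNE : All (NE X Ki) ⟨top X.S, 1, 1, 1⟩ X.c.t := by
    refine All.mono (fun u τ hh => ?_) ((hKB.and (ctx_PF X)).and (key.and hin))
    obtain ⟨⟨g1, g2⟩, ⟨g3, g4⟩, g5⟩ := hh
    refine ⟨g1, g2, ?_⟩
    have m1 := g3 Finset.univ (AdI_univ _ _)
    have m2 := g5 Finset.univ (AdI_univ _ _)
    rw [hKi, add_mul]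
    linarith
  have hGE : GE X K κ (1 + 12) := by
    refine
      { ch := fun v V u τ hk => hCh Finset.univ (IL_univ _) v V u τ hk
        el := fun p hpp hp u t h1 h2 h3 => el_of (by linarith) (by linarith) hkK zero_le_one
          (by omega) hRG (H11 p0 (by omega) γ P₀ X 1) p hpp hp u t h1 h2 h3
        rs := fun v V u τ hk => ?_
        rn := fun u τ hn hl => H13 p0 (by omega) γ P₀ hP2 X hD.rse X.Y u τ hn hl Finset.univ }
    have hS : N.S2 p0 X.ψ X.S ⊆ Sx p0 X.ψ X.S := by rw [h.S2]; exact Finset.inter_subset_right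
    have hγ : X.c.γ = γ := X.hγ
    refine H12 p0 (by omega) γ P₀ X hD X.Y v V u τ hk
      (H15 p0 (by omega) γ P₀ hP2 X hD ?_ ?_ v V u τ hk) Finset.univ
    · intro q hq
      rw [hγ]
      exact NoAcc.of X (hS.trans (hSA _ _ _)) hq
    · intro q hq
      rw [hγ]
      exact NoBad.of X (hS.trans (hSB _ _ _)) hq
  exact ek_all (by omega) hKi0 (by norm_num) hGE X.c.t _ hNE
    fun _ _ hh => absurd hh (lt_irrefl _)

/-- **[EK] for the final numbers** -/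
theorem ek_fin : ∃ c : ℝ, ∀ (N : Skel189.Num) (Ct C₀ γ : ℝ),
    NumOK N (thF Ct) Ct C₀ (SxF γ N.C1) → NumFin N (thF Ct) Ct c → NumG N →
      ∃ Ke : ℝ, 0 ≤ Ke ∧ Ev N γ fun p0 P₀ X => CF X →
        All (EN X Ke) ⟨top X.S, 1, 1, 1⟩ X.c.t := by
  obtain ⟨c1, h1⟩ := DseTk23.tchk_of DseW7.wL
  obtain ⟨c2, h2⟩ := ek_of
  refine ⟨max (max c1 c2) 10, fun N Ct C₀ γ h hN hG => ?_⟩
  have n1 : NumFin N (thF Ct) Ct c1 :=
    EndD23.NumFin.weaken hN ((le_max_left _ _).trans (le_max_left _ _))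
  have n2 : NumFin N (thF Ct) Ct c2 :=
    EndD23.NumFin.weaken hN ((le_max_right _ _).trans (le_max_left _ _))
  have e1 : 10 ≤ N.C1 := (le_max_right _ _).trans hN.C1
  have eB := hN.B
  have ec := hN.c2
  have hA' : 0 ≤ aAcc N.C1 := by unfold aAcc; linarith
  have s1 : ∀ p0 ψ S, SxF γ N.C1 p0 ψ S ⊆ SxA γ (aAcc N.C1) N.B N.C1 N.c2 p0 ψ S := by
    intro p0 ψ S
    rw [eB, ec]
    exact Finset.inter_subset_left
  have s2 : ∀ p0 ψ S, SxF γ N.C1 p0 ψ S ⊆ SxB γ N.B N.C1 N.c2 p0 ψ S := by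
    intro p0 ψ S
    rw [eB, ec]
    exact Finset.inter_subset_right
  have k1 : TChK N γ (N.B + 2) (N.C1 + 3) := h1 N Ct C₀ _ h n1 hG γ (aAcc N.C1) hA' s1 s2
  exact h2 N Ct C₀ _ h n2 hG γ (N.B + 2) (N.C1 + 3) (aAcc N.C1) le_rfl (by rw [ec]; linarith)
    (by rw [eB]; linarith) hA' s1 s2 k1 (FarPay7.tfar h γ)

end Crest.Agent.R4P.EK17
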