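import Crest.Agent.R4P.TgSelf_10

/-!
R4 (S0004), [W-eSHR], helper10: **`TgtSelf` of `FinT_26`** (the births at the self states).

* `clI`, `lfI` : first column of an item tree which is not an up column; `MtN` : the missing ties of the
  items of a node below its level are the missing ties inside the node;
* `hn_all` : the hypotheses `HN` at all the nodes of a context; `ctx_self_le`;
* `kp`, `ftp` : the costs `(2^rg p)^(-K)` and the future costs, `fut_ok`, `ftp_le`;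
* `tgtSelf_fin` : **`TgtSelf`** for the final numbers.
-/

set_option autoImplicit false
set_option linter.unusedSectionVars false
set_option linter.unusedVariables false
open MeasureTheory Filter

namespace Crest.Agent.R4P.TgSelf10

open Crest.Agent.R4P.Cnt588 Crest.Agent.R4P.Item758 Crest.Agent.R4P.W363
open Crest.Agent.R4P.Data758 Crest.Agent.R4P.LfDat734
open Crest.Agent.R4P.Bld532 (NS All NodeOk Bk)
open Crest.Agent.R4P.Step588 (NDt ND1 ctx_NDt uq_lt)
open Crest.Agent.R4P.WalkIT579 (tp isL nodeOk_hi top_of_nodeOk)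
open Crest.Agent.R4P.Skel189 Crest.Agent.R4P.RseSt23 Crest.Agent.R4P.RseNd23
open Crest.Agent.R4.Soft104 (w)
open Crest.Agent.R4.Item758 (IL AdI AdS AdI_all AdI_AdN)
open Crest.Agent.R4.ClosR758 Crest.Agent.R4.ClosG758 Crest.Agent.R4.ClosL758
open Crest.Agent.R4.Avg758 Crest.Agent.R4.Fam464
open Crest.Agent.R4.Tour758 Crest.Agent.R4.Tour104 Crest.Agent.R4.Clos758
open Crest.Agent.R4P.VLoss4 Crest.Agent.R4P.VLossC4 Crest.Agent.R4P.RseG10
open Crest.Agent.R4P.Fin5 (CF)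
open Crest.Agent.R4P.FinT26 Crest.Agent.R4P.FinX26 Crest.Agent.R4P.TW17
open Crest.Agent.R4P.ShrW34 (IX)
open Crest.Agent.R4P.ParF5 (rg_le lt_rg)
open Crest.Agent.R4P.Walk560 (DT St Stp Side)
open Crest.Agent.R4P.OSWS245 (stpN_root)

/-! ### item trees -/

/-- first column which is not an up column -/
def clI : IT → ℕ
  | .leaf _ => 0
  | .br p _ _ _ => p
  | .add b _ _ => b
  | .up _ _ t => clI t
  | .pl p _ => p
  | .far p _ _ => p

/-- the core is a leaf -/
def lfI : IT → Prop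
  | .leaf _ => True
  | .up _ _ t => lfI t
  | _ => False

section dt
variable {Λ κ : Type*} [Fintype Λ] [DecidableEq Λ] [Fintype κ] [DecidableEq κ]

lemma cl_toDT (D : Par Λ κ) (sp : ℕ → Finset Λ) (t : IT) : ∀ b pr : ℕ,
    cl (D.toDT sp b pr t) = clI t := by
  induction t with
  | leaf S => intro b pr; rfl
  | br p Sp t₁ t₀ ih₁ ih₀ => intro b pr; rfl
  | add p t₁ t₀ ih₁ ih₀ => intro b pr; rfl
  | up b' Sp t ih => intro b pr; exact ih b pr
  | pl p t ih => intro b pr; rfl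
  | far p t₁ t₀ ih₁ ih₀ => intro b pr; rfl

lemma lf_toDT (D : Par Λ κ) (sp : ℕ → Finset Λ) (t : IT) : ∀ b pr : ℕ,
    lf (D.toDT sp b pr t) ↔ lfI t := by
  induction t with
  | leaf S => intro b pr; exact Iff.rfl
  | br p Sp t₁ t₀ ih₁ ih₀ => intro b pr; exact Iff.rfl
  | add p t₁ t₀ ih₁ ih₀ => intro b pr; exact Iff.rfl
  | up b' Sp t ih => intro b pr; exact ih b pr
  | pl p t ih => intro b pr; exact Iff.rfl
  | far p t₁ t₀ ih₁ ih₀ => intro b pr; exact Iff.rfl

end dt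

lemma mt_lt : ∀ (t : IT) (n : ℕ), t.Ok n → ∀ q l : ℕ, l ∈ t.mt q → l < n := by
  intro t
  induction t with
  | leaf S => intro n h q l hl; simp [IT.mt] at hl
  | br p Sp t₁ t₀ ih₁ ih₀ =>
    intro n h q l hl
    simp only [IT.mt] at hl
    split_ifs at hl with hq
    · rcases Finset.mem_insert.1 hl with rfl | hl
      · exact h.2.1
      · exact (ih₀ p h.2.2.2.2.2 q l hl).trans h.2.1
    · exact (ih₁ p h.2.2.2.2.1 q l hl).trans h.2.1
  | add b t₁ t₀ ih₁ ih₀ =>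
    intro n h q l hl
    have hb := h.2.1
    simp only [IT.mt] at hl
    split_ifs at hl with hq
    · have := ih₀ (b + 1) h.2.2.2.2 q l hl; omega
    · have := ih₁ (b + 1) h.2.2.2.1 q l hl; omega
  | up b Sp t ih =>
    intro n h q l hl
    exact (ih b h.2.2.2 q l hl).trans h.2.1
  | pl b t ih =>
    intro n h q l hl
    have hb := h.2.1
    have := ih (b + 1) h.2.2 q l hl; omega
  | far b t₁ t₀ ih₁ ih₀ =>
    intro n h q l hl
    have hb := h.2.1
    simp only [IT.mt] at hl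
    split_ifs at hl with hq
    · have := ih₀ (b + 1) h.2.2.2.2 q l hl; omega
    · have := ih₁ (b + 1) h.2.2.2.1 q l hl; omega

/-- the missing ties inside a node are not above its first column -/
lemma mt_le_cl : ∀ (t : IT) (n : ℕ), t.Ok n → ∀ q l : ℕ, l ∈ t.mt q → l ≤ clI t := by
  intro t
  induction t with
  | leaf S => intro n h q l hl; simp [IT.mt] at hl
  | br p Sp t₁ t₀ ih₁ ih₀ =>
    intro n h q l hl
    exact Nat.lt_succ_iff.1 (mt_lt (.br p Sp t₁ t₀) (p + 1) ⟨h.1, Nat.lt_succ_self p, h.2.2⟩ q l hl)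
  | add b t₁ t₀ ih₁ ih₀ =>
    intro n h q l hl
    exact Nat.lt_succ_iff.1 (mt_lt (.add b t₁ t₀) (b + 1) ⟨h.1, Nat.lt_succ_self b, h.2.2⟩ q l hl)
  | up b Sp t ih =>
    intro n h q l hl
    exact ih b h.2.2.2 q l hl
  | pl b t ih =>
    intro n h q l hl
    exact Nat.lt_succ_iff.1 (mt_lt (.pl b t) (b + 1) ⟨h.1, Nat.lt_succ_self b, h.2.2⟩ q l hl)
  | far b t₁ t₀ ih₁ ih₀ =>
    intro n h q l hl
    exact Nat.lt_succ_iff.1 (mt_lt (.far b t₁ t₀) (b + 1) ⟨h.1, Nat.lt_succ_self b, h.2.2⟩ q l hl)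

/-- the missing ties of the items of a node below its level -/
def MtN (T : IT) (u : NS) (τ : IT) : Prop :=
  τ.Ok u.n ∧ ∀ q ∈ τ.items, ∀ l < u.n, l ∈ T.mt q → l ∈ τ.mt q

theorem MtN_all (T : IT) : ∀ (t : IT) (u : NS), MtN T u t → All (MtN T) u t := by
  intro t
  induction t with
  | leaf S => intro u h; exact h
  | br p Sp t₁ t₀ ih₁ ih₀ =>
    intro u h
    have hO := h.1
    have hp := hO.2.1
    have hdis := hO.2.2.1
    refine ⟨h, ih₁ _ ⟨hO.2.2.2.2.1, fun q hq l hl hm => ?_⟩,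
      ih₀ _ ⟨hO.2.2.2.2.2, fun q hq l hl hm => ?_⟩⟩
    · have hl' : l < p := hl
      have := h.2 q (Finset.mem_union_left _ hq) l (by omega) hm
      simp only [IT.mt] at this
      rwa [if_neg (Finset.disjoint_left.1 hdis hq)] at this
    · have hl' : l < p := hl
      have := h.2 q (Finset.mem_union_right _ hq) l (by omega) hm
      simp only [IT.mt] at this
      rw [if_pos hq] at this
      rcases Finset.mem_insert.1 this with rfl | h3
      · omega
      · exact h3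
  | add b t₁ t₀ ih₁ ih₀ =>
    intro u h
    have hO := h.1
    have hp := hO.2.1
    have hdis := hO.2.2.1
    refine ⟨h, ih₁ _ ⟨hO.2.2.2.1, fun q hq l hl hm => ?_⟩,
      ih₀ _ ⟨hO.2.2.2.2, fun q hq l hl hm => ?_⟩⟩
    · have hl' : l < b + 1 := hl
      have := h.2 q (Finset.mem_union_left _ hq) l (by omega) hm
      simp only [IT.mt] at this
      rwa [if_neg (Finset.disjoint_left.1 hdis hq)] at this
    · have hl' : l < b + 1 := hl
      have := h.2 q (Finset.mem_union_right _ hq) l (by omega) hm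
      simp only [IT.mt] at this
      rwa [if_pos hq] at this
  | up b Sp t ih =>
    intro u h
    have hO := h.1
    have hp := hO.2.1
    refine ⟨h, ih _ ⟨hO.2.2.2, fun q hq l hl hm => ?_⟩⟩
    have hl' : l < b := hl
    exact h.2 q hq l (by omega) hm
  | pl b t ih =>
    intro u h
    have hO := h.1
    have hp := hO.2.1
    refine ⟨h, ih _ ⟨hO.2.2, fun q hq l hl hm => ?_⟩⟩
    have hl' : l < b + 1 := hl
    exact h.2 q hq l (by omega) hm
  | far b t₁ t₀ ih₁ ih₀ =>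
    intro u h
    have hO := h.1
    have hp := hO.2.1
    have hdis := hO.2.2.1
    refine ⟨h, ih₁ _ ⟨hO.2.2.2.1, fun q hq l hl hm => ?_⟩,
      ih₀ _ ⟨hO.2.2.2.2, fun q hq l hl hm => ?_⟩⟩
    · have hl' : l < b + 1 := hl
      have := h.2 q (Finset.mem_union_left _ hq) l (by omega) hm
      simp only [IT.mt] at this
      rwa [if_neg (Finset.disjoint_left.1 hdis hq)] at this
    · have hl' : l < b + 1 := hl
      have := h.2 q (Finset.mem_union_right _ hq) l (by omega) hm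
      simp only [IT.mt] at this
      rwa [if_pos hq] at this

/-! ### the numbers -/

/-- cost of a column -/
noncomputable def kp (K : ℝ) (p : ℕ) : ℝ := ((2 : ℝ) ^ ParF5.rg p) ^ (-K)

/-- future costs -/
noncomputable def ftp (K : ℝ) (p0 p : ℕ) : ℝ :=
  ∑ k ∈ (Finset.range (ParF5.rg p)).filter (fun k => ParF5.rg p0 ≤ k), ((2 : ℝ) ^ k) ^ (-K) +
    ∑ l ∈ (Finset.range (p + 1)).filter (fun l => l.Prime ∧ p0 < l), 1 / (l : ℝ) * kp K l

lemma kp_nonneg (K : ℝ) (p : ℕ) : 0 ≤ kp K p := Real.rpow_nonneg (by positivity) _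

lemma fut_ok (K : ℝ) (p0 : ℕ) : Fut p0 (kp K) (ftp K p0) ParF5.rg where
  k0 := kp_nonneg K
  f0 := fun p => add_nonneg (Finset.sum_nonneg fun k _ => Real.rpow_nonneg (by positivity) _)
    (Finset.sum_nonneg fun l _ => mul_nonneg (by positivity) (kp_nonneg K l))
  mono := by
    intro p' p h
    unfold ftp
    refine add_le_add ?_ ?_
    · refine Finset.sum_le_sum_of_subset_of_nonneg (fun k hk => ?_) fun k _ _ =>
        Real.rpow_nonneg (by positivity) _
      obtain ⟨a1, a2⟩ := Finset.mem_filter.1 hk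
      exact Finset.mem_filter.2 ⟨Finset.mem_range.2 ((Finset.mem_range.1 a1).trans_le
        (NumX34.rg_monotone h)), a2⟩
    · refine Finset.sum_le_sum_of_subset_of_nonneg (fun k hk => ?_) fun k _ _ =>
        mul_nonneg (by positivity) (kp_nonneg K k)
      obtain ⟨a1, a2⟩ := Finset.mem_filter.1 hk
      have := Finset.mem_range.1 a1
      exact Finset.mem_filter.2 ⟨Finset.mem_range.2 (by omega), a2⟩
  rgm := fun h => NumX34.rg_monotone h
  jump := by
    intro p' p h0 h hlt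
    have e2 : ∑ l ∈ (Finset.range (p' + 1)).filter (fun l => l.Prime ∧ p0 < l),
        1 / (l : ℝ) * kp K l ≤ ∑ l ∈ (Finset.range (p + 1)).filter (fun l => l.Prime ∧ p0 < l),
        1 / (l : ℝ) * kp K l := by
      refine Finset.sum_le_sum_of_subset_of_nonneg (fun k hk => ?_) fun k _ _ =>
        mul_nonneg (by positivity) (kp_nonneg K k)
      obtain ⟨a1, a2⟩ := Finset.mem_filter.1 hk
      have := Finset.mem_range.1 a1
      exact Finset.mem_filter.2 ⟨Finset.mem_range.2 (by omega), a2⟩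
    have e1 : kp K p' + ∑ k ∈ (Finset.range (ParF5.rg p')).filter (fun k => ParF5.rg p0 ≤ k),
        ((2 : ℝ) ^ k) ^ (-K) ≤
        ∑ k ∈ (Finset.range (ParF5.rg p)).filter (fun k => ParF5.rg p0 ≤ k),
        ((2 : ℝ) ^ k) ^ (-K) := by
      have hn : ParF5.rg p' ∉ (Finset.range (ParF5.rg p')).filter (fun k => ParF5.rg p0 ≤ k) := by
        simp
      have hs : insert (ParF5.rg p') ((Finset.range (ParF5.rg p')).filter
          (fun k => ParF5.rg p0 ≤ k)) ⊆
          (Finset.range (ParF5.rg p)).filter (fun k => ParF5.rg p0 ≤ k) := by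
        intro k hk
        rcases Finset.mem_insert.1 hk with rfl | hk
        · exact Finset.mem_filter.2 ⟨Finset.mem_range.2 hlt, NumX34.rg_monotone h0.le⟩
        · obtain ⟨a1, a2⟩ := Finset.mem_filter.1 hk
          exact Finset.mem_filter.2 ⟨Finset.mem_range.2 ((Finset.mem_range.1 a1).trans hlt), a2⟩
      have := Finset.sum_le_sum_of_subset_of_nonneg (f := fun k => ((2 : ℝ) ^ k) ^ (-K)) hs
        fun k _ _ => Real.rpow_nonneg (by positivity) _
      rw [Finset.sum_insert hn] at this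
      exact this
    unfold ftp
    linarith
  tie := by
    intro p' p hp h0 h heq
    have e1 : ∑ k ∈ (Finset.range (ParF5.rg p')).filter (fun k => ParF5.rg p0 ≤ k),
        ((2 : ℝ) ^ k) ^ (-K) ≤
        ∑ k ∈ (Finset.range (ParF5.rg p)).filter (fun k => ParF5.rg p0 ≤ k),
        ((2 : ℝ) ^ k) ^ (-K) := by rw [heq]
    have e2 : 1 / (p : ℝ) * kp K p' +
        ∑ l ∈ (Finset.range (p' + 1)).filter (fun l => l.Prime ∧ p0 < l), 1 / (l : ℝ) * kp K l ≤
        ∑ l ∈ (Finset.range (p + 1)).filter (fun l => l.Prime ∧ p0 < l), 1 / (l : ℝ) * kp K l := by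
      have hn : p ∉ (Finset.range (p' + 1)).filter (fun l => l.Prime ∧ p0 < l) := by
        intro hh
        have := Finset.mem_range.1 (Finset.mem_filter.1 hh).1
        omega
      have hs : insert p ((Finset.range (p' + 1)).filter (fun l => l.Prime ∧ p0 < l)) ⊆
          (Finset.range (p + 1)).filter (fun l => l.Prime ∧ p0 < l) := by
        intro k hk
        rcases Finset.mem_insert.1 hk with rfl | hk
        · exact Finset.mem_filter.2 ⟨Finset.mem_range.2 (by omega), hp, by omega⟩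
        · obtain ⟨a1, a2⟩ := Finset.mem_filter.1 hk
          have := Finset.mem_range.1 a1
          exact Finset.mem_filter.2 ⟨Finset.mem_range.2 (by omega), a2⟩
      have := Finset.sum_le_sum_of_subset_of_nonneg (f := fun l : ℕ => 1 / (l : ℝ) * kp K l) hs
        fun k _ _ => mul_nonneg (by positivity) (kp_nonneg K k)
      rw [Finset.sum_insert hn] at this
      have e : kp K p' = kp K p := by unfold kp; rw [heq]
      rw [e]
      exact this
    unfold ftp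
    linarith

/-- **the future costs are bounded** -/
theorem ftp_le (N : Skel189.Num) {K : ℝ} (hK : N.B + 2 ≤ K) (hK0 : 0 ≤ K) : ∃ p₁ : ℕ, ∀ p0 ≥ p₁,
    ∀ (γ : ℝ) (P₀ : ℕ) (X : Ctx N γ p0 P₀), ∀ p : ℕ, ftp K p0 p ≤ 1 := by
  have h2K : (0:ℝ) < 2 ^ K := Real.rpow_pos_of_pos (by norm_num) _
  obtain ⟨p1, h1⟩ := RseN630.ctx_path N K hK (ε := 1 / 2 / (2 ^ K)) (by positivity)
  obtain ⟨p2, h2⟩ := RseN630.ctx_path N K hK (ε := 1 / 2) (by norm_num)
  refine ⟨p1 + p2 + 3, fun p0 hp0 γ P₀ X p => ?_⟩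
  obtain ⟨-, -, a1, -⟩ := h1 p0 (by omega) γ P₀ X
  obtain ⟨-, -, -, a2⟩ := h2 p0 (by omega) γ P₀ X
  unfold ftp
  have s1 : ∑ k ∈ (Finset.range (ParF5.rg p)).filter (fun k => ParF5.rg p0 ≤ k),
      ((2 : ℝ) ^ k) ^ (-K) ≤ 1 / 2 := by
    refine a2 _ fun k hk => ?_
    have h3 := (Finset.mem_filter.1 hk).2
    refine (lt_rg (p := p0)).le.trans ?_
    exact pow_le_pow_right₀ (by norm_num) (by omega)
  have s2 : ∑ l ∈ (Finset.range (p + 1)).filter (fun l => l.Prime ∧ p0 < l),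
      1 / (l : ℝ) * kp K l ≤ 1 / 2 := by
    have h3 := a1 ((Finset.range (p + 1)).filter (fun l => l.Prime ∧ p0 < l))
      fun b hb => (Finset.mem_filter.1 hb).2
    have h4 : ∑ l ∈ (Finset.range (p + 1)).filter (fun l => l.Prime ∧ p0 < l),
        1 / (l : ℝ) * kp K l ≤ ∑ l ∈ (Finset.range (p + 1)).filter (fun l => l.Prime ∧ p0 < l),
        2 ^ K * (Real.log l ^ (-K) / l + 1 / (l : ℝ) ^ 2) := by
      refine Finset.sum_le_sum fun l hl => ?_
      obtain ⟨-, -, hl0⟩ := Finset.mem_filter.1 hl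
      have hl3 : 3 ≤ l := by omega
      have hlR : (0:ℝ) < l := by exact_mod_cast (by omega : 0 < l)
      have hlog : 0 < Real.log l := Real.log_pos (by exact_mod_cast (by omega : 1 < l))
      have h5 : Real.log l / 2 ≤ (2 : ℝ) ^ ParF5.rg l := by
        have := lt_rg (p := l)
        rw [pow_succ] at this
        linarith
      have h6 : kp K l ≤ (Real.log l / 2) ^ (-K) :=
        Real.rpow_le_rpow_of_nonpos (by positivity) h5 (by linarith)
      have h7 : (Real.log (l:ℝ) / 2) ^ (-K) = 2 ^ K * Real.log l ^ (-K) := by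
        rw [Real.div_rpow hlog.le (by norm_num), Real.rpow_neg (by norm_num : (0:ℝ) ≤ 2),
          div_inv_eq_mul, mul_comm]
      rw [h7] at h6
      have h8 : 1 / (l : ℝ) * kp K l ≤ 1 / (l : ℝ) * (2 ^ K * Real.log l ^ (-K)) :=
        mul_le_mul_of_nonneg_left h6 (by positivity)
      have h9 : 0 ≤ 2 ^ K * (1 / (l : ℝ) ^ 2) := by positivity
      calc 1 / (l : ℝ) * kp K l ≤ 1 / (l : ℝ) * (2 ^ K * Real.log l ^ (-K)) := h8
        _ ≤ 1 / (l : ℝ) * (2 ^ K * Real.log l ^ (-K)) + 2 ^ K * (1 / (l : ℝ) ^ 2) := by linarith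
        _ = _ := by ring
    rw [← Finset.mul_sum] at h4
    refine h4.trans ?_
    calc 2 ^ K * ∑ l ∈ (Finset.range (p + 1)).filter (fun l => l.Prime ∧ p0 < l),
          (Real.log l ^ (-K) / l + 1 / (l : ℝ) ^ 2) ≤ 2 ^ K * (1 / 2 / (2 ^ K)) :=
          mul_le_mul_of_nonneg_left h3 h2K.le
      _ = 1 / 2 := by field_simp
  linarith

/-! ### the context -/

variable {N : Skel189.Num} {γ : ℝ} {p0 P₀ : ℕ}

/-- facts of a node -/
structure NX (X : Ctx N γ p0 P₀) (j₀ : X.c.Lam) (K : ℝ) (u : NS) (τ : IT) : Prop where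
  nd : NDt X.par (w X.ψ) X.c.t u τ
  mtn : MtN X.c.t u τ
  rse : ¬ isL τ → notUp τ → rseR Finset.univ (X.g u τ) ≤
    kp K (tp τ) * X.tm j₀ (X.g u τ) Finset.univ
  all : All (fun u τ => ¬ isL τ → p0 < tp τ) u τ

lemma clI_gt {p0 : ℕ} : ∀ (τ : IT) (u : NS), All (fun u τ => ¬ isL τ → p0 < tp τ) u τ →
    ¬ lfI τ → p0 < clI τ := by
  intro τ
  induction τ with
  | leaf S => intro u h hl; exact absurd trivial hl
  | br p Sp t₁ t₀ ih₁ ih₀ => intro u h hl; exact h.1 (fun h => h)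
  | add b t₁ t₀ ih₁ ih₀ => intro u h hl; exact h.1 (fun h => h)
  | up b Sp t ih => intro u h hl; exact ih _ h.2 hl
  | pl b t ih => intro u h hl; exact h.1 (fun h => h)
  | far b t₁ t₀ ih₁ ih₀ => intro u h hl; exact h.1 (fun h => h)

/-- **no event in a range**: a child `c` of the column `p` all of whose items have no missing tie
between `clI c` and `p` -/
lemma noEv_of {X : Ctx N γ p0 P₀} {Y : Finset (ℕ × ℕ × Finset ℕ)}
    (hx : IX (X.c.D.par Y) X.c.t.mt ParF5.rg) {c : IT} {m b pr p : ℕ} (hok : c.Ok m)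
    (hle : clI c ≤ p) (hrg : ParF5.rg (clI c) = ParF5.rg p)
    (hmt : ∀ q ∈ c.items, ∀ l ≤ p, l ∈ X.c.t.mt q → l ∈ c.mt q) (sp : ℕ → Finset X.c.Lam)
    (hok2 : ((X.c.D.par Y).toG b pr c).val =
      fun j => ((X.c.D.par Y).toFT b pr c).U 1 j) :
    NoEv (X.c.D.par Y).rho p ((X.c.D.par Y).toDT sp b pr c) := by
  intro j j' hj hj' hR
  rw [cl_toDT]
  rw [Par.toDT_g, hok2] at hj hj'
  have key : ∀ i : X.c.Lam, (fun x => ((X.c.D.par Y).toFT b pr c).U 1 i x) ≠ (fun _ => 0) →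
      (X.c.D.par Y).it i ∈ c.items := by
    intro i hi
    by_contra hc
    exact hi (funext fun x => (X.c.D.par Y).U_zero c b pr 1 i hc x)
  have h2 : ∀ i : X.c.Lam, (X.c.D.par Y).it i ∈ c.items →
      ∀ l ∈ X.c.t.mt ((X.c.D.par Y).it i), clI c < l → p < l := by
    intro i hi l hl hlt
    by_contra hlp
    have h3 := hmt _ hi l (not_lt.1 hlp) hl
    have h4 := mt_le_cl c m hok _ l h3
    omega
  exact hx.same hle hrg (h2 j (key j hj)) (h2 j' (key j' hj')) hR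

lemma clI_lt : ∀ (t : IT) (n : ℕ), t.Ok n → ¬ lfI t → clI t < n := by
  intro t
  induction t with
  | leaf S => intro n h hl; exact absurd trivial hl
  | br p Sp t₁ t₀ ih₁ ih₀ => intro n h hl; exact h.2.1
  | add b t₁ t₀ ih₁ ih₀ => intro n h hl; exact h.2.1
  | up b Sp t ih => intro n h hl; exact (ih b h.2.2.2 hl).trans h.2.1
  | pl b t ih => intro n h hl; exact h.2.1
  | far b t₁ t₀ ih₁ ih₀ => intro n h hl; exact h.2.1

section hn
variable {X : Ctx N γ p0 P₀} {j₀ : X.c.Lam} {K : ℝ}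

/-- the conditions at a child -/
lemma chd (hx : IX (X.c.D.par X.Y) X.c.t.mt ParF5.rg) {p : ℕ} {u' : NS} {c : IT}
    (hc : NX X j₀ K u' c) (hle : u'.n ≤ p + 1)
    (hmt : ∀ q ∈ c.items, ∀ l ≤ p, l ∈ X.c.t.mt q → l ∈ c.mt q) :
    ¬ lf ((X.c.D.par X.Y).toDT X.c.sp u'.B u'.A c) →
      p0 < cl ((X.c.D.par X.Y).toDT X.c.sp u'.B u'.A c) ∧
      (ParF5.rg (cl ((X.c.D.par X.Y).toDT X.c.sp u'.B u'.A c)) = ParF5.rg p →
        NoEv (X.c.D.par X.Y).rho p ((X.c.D.par X.Y).toDT X.c.sp u'.B u'.A c)) := by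
  intro hl
  rw [lf_toDT] at hl
  rw [cl_toDT]
  have hlt := clI_lt c u'.n hc.nd.self.ok hl
  exact ⟨clI_gt c u' hc.all hl, fun hrg => noEv_of hx hc.nd.self.ok (by omega) hrg hmt _
    (Par.toG_val _ hc.nd.B_pos hc.nd.fit (node_wts hc.nd X.Y))⟩

/-- the condition at a missing child -/
lemma chd0 {u' : NS} {c : IT} (hc : NX X j₀ K u' c) :
    ¬ lf ((X.c.D.par X.Y).toDT X.c.sp u'.B u'.A c) →
      p0 < cl ((X.c.D.par X.Y).toDT X.c.sp u'.B u'.A c) := by
  intro hl
  rw [lf_toDT] at hl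
  rw [cl_toDT]
  exact clI_gt c u' hc.all hl

theorem hn_of (hx : IX (X.c.D.par X.Y) X.c.t.mt ParF5.rg) {u : NS} {τ : IT}
    (h : All (NX X j₀ K) u τ) :
    HN (X.c.D.par X.Y).rho (X.tm j₀) p0 (kp K) ParF5.rg
      ((X.c.D.par X.Y).toDT X.c.sp u.B u.A τ) := by
  have hn := h.self
  have hO := hn.nd.self.ok
  have hm := hn.mtn.2
  cases τ with
  | leaf S => trivial
  | br p Sp t₁ t₀ =>
    have hr := hn.rse (fun h => h) trivial
    have hp := hO.2.1
    have hdis := hO.2.2.1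
    refine ⟨le_rfl, ?_, ?_, chd0 h.2.2.self⟩
    · have e : Q (Rr ((X.c.D.par X.Y).rho p) \ Ro ((X.c.D.par X.Y).rho p))
          (rv Finset.univ (X.g u (.br p Sp t₁ t₀)).val) (rv Finset.univ (X.g u (.br p Sp t₁ t₀)).val) ≤
          kp K p * X.tm j₀ (X.g u (.br p Sp t₁ t₀)) Finset.univ := hr
      rw [rv_univ] at e
      have g := (X.c.D.par X.Y).toDT_g X.c.sp (.br p Sp t₁ t₀) u.B u.A
      show Q _ _ _ ≤ kp K p * X.tm j₀
        ((X.c.D.par X.Y).toDT X.c.sp u.B u.A (.br p Sp t₁ t₀)).g Finset.univ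
      rw [g]
      exact e
    · refine chd hx h.2.1.self (le_of_lt (Nat.lt_succ_self _)) (fun q hq l hl hlm => ?_)
      have := hm q (Finset.mem_union_left _ hq) l (by omega) hlm
      simp only [IT.mt] at this
      rwa [if_neg (Finset.disjoint_left.1 hdis hq)] at this
  | add b t₁ t₀ =>
    have hr := hn.rse (fun h => h) trivial
    have hp := hO.2.1
    have hdis := hO.2.2.1
    refine ⟨rfl, ?_, ?_, ?_⟩
    · have e : Q (Rr ((X.c.D.par X.Y).rho b) \ Ro ((X.c.D.par X.Y).rho b))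
          (rv Finset.univ (X.g u (.add b t₁ t₀)).val) (rv Finset.univ (X.g u (.add b t₁ t₀)).val) ≤
          kp K b * X.tm j₀ (X.g u (.add b t₁ t₀)) Finset.univ := hr
      rw [rv_univ] at e
      have g := (X.c.D.par X.Y).toDT_g X.c.sp (.add b t₁ t₀) u.B u.A
      show Q _ ((X.c.D.par X.Y).toDT X.c.sp u.B u.A (.add b t₁ t₀)).g.val
        ((X.c.D.par X.Y).toDT X.c.sp u.B u.A (.add b t₁ t₀)).g.val ≤ kp K b * X.tm j₀
        ((X.c.D.par X.Y).toDT X.c.sp u.B u.A (.add b t₁ t₀)).g Finset.univ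
      rw [g]
      exact e
    · refine chd (u' := ⟨b + 1, u.c, u.A, u.B⟩) hx h.2.1.self le_rfl (fun q hq l hl hlm => ?_)
      have := hm q (Finset.mem_union_left _ hq) l (by omega) hlm
      simp only [IT.mt] at this
      rwa [if_neg (Finset.disjoint_left.1 hdis hq)] at this
    · refine chd (u' := ⟨b + 1, u.c, u.A, u.B⟩) hx h.2.2.self le_rfl (fun q hq l hl hlm => ?_)
      have := hm q (Finset.mem_union_right _ hq) l (by omega) hlm
      simp only [IT.mt] at this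
      rwa [if_pos hq] at this
  | up b Sp t => trivial
  | pl b t =>
    have hr := hn.rse (fun h => h) trivial
    have hp := hO.2.1
    refine ⟨by positivity, ?_, ?_, fun hl => absurd trivial hl⟩
    · have e : Q (Rr ((X.c.D.par X.Y).rho b) \ Ro ((X.c.D.par X.Y).rho b))
          (rv Finset.univ (X.g u (.pl b t)).val) (rv Finset.univ (X.g u (.pl b t)).val) ≤
          kp K b * X.tm j₀ (X.g u (.pl b t)) Finset.univ := hr
      rw [rv_univ] at e
      have g := (X.c.D.par X.Y).toDT_g X.c.sp (.pl b t) u.B u.A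
      show Q _ _ _ ≤ kp K b * X.tm j₀
        ((X.c.D.par X.Y).toDT X.c.sp u.B u.A (.pl b t)).g Finset.univ
      rw [g]
      exact e
    · refine chd hx h.2.self le_rfl (fun q hq l hl hlm => ?_)
      have := hm q hq l (by omega) hlm
      simpa only [IT.mt] using this
  | far b t₁ t₀ =>
    have hr := hn.rse (fun h => h) trivial
    have hp := hO.2.1
    have hdis := hO.2.2.1
    refine ⟨rfl, ?_, ?_, ?_⟩
    · have e : Q (Rr ((X.c.D.par X.Y).rho b) \ Ro ((X.c.D.par X.Y).rho b))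
          (rv Finset.univ (X.g u (.far b t₁ t₀)).val) (rv Finset.univ (X.g u (.far b t₁ t₀)).val) ≤
          kp K b * X.tm j₀ (X.g u (.far b t₁ t₀)) Finset.univ := hr
      rw [rv_univ] at e
      have g := (X.c.D.par X.Y).toDT_g X.c.sp (.far b t₁ t₀) u.B u.A
      show Q _ ((X.c.D.par X.Y).toDT X.c.sp u.B u.A (.far b t₁ t₀)).g.val
        ((X.c.D.par X.Y).toDT X.c.sp u.B u.A (.far b t₁ t₀)).g.val ≤ kp K b * X.tm j₀
        ((X.c.D.par X.Y).toDT X.c.sp u.B u.A (.far b t₁ t₀)).g Finset.univ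
      rw [g]
      exact e
    · refine chd (u' := ⟨b + 1, u.c, u.A, u.B⟩) hx h.2.1.self le_rfl (fun q hq l hl hlm => ?_)
      have := hm q (Finset.mem_union_left _ hq) l (by omega) hlm
      simp only [IT.mt] at this
      rwa [if_neg (Finset.disjoint_left.1 hdis hq)] at this
    · refine chd (u' := ⟨b + 1, u.c, u.A, u.B⟩) hx h.2.2.self le_rfl (fun q hq l hl hlm => ?_)
      have := hm q (Finset.mem_union_right _ hq) l (by omega) hlm
      simp only [IT.mt] at this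
      rwa [if_pos hq] at this

/-- the hypotheses hold at all the nodes of a decorated tree -/
theorem hn_all (hx : IX (X.c.D.par X.Y) X.c.t.mt ParF5.rg) {u : NS} {τ : IT}
    (h : All (NX X j₀ K) u τ) :
    ((X.c.D.par X.Y).toDT X.c.sp u.B u.A τ).All
      (HN (X.c.D.par X.Y).rho (X.tm j₀) p0 (kp K) ParF5.rg) :=
  Par.toDT_All (X.c.D.par X.Y) X.c.sp (Qp := fun u τ => All (NX X j₀ K) u τ)
    (fun s t h => hn_of hx h) (fun r => trivial) τ u (Step588.All_All _ _ h)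

/-- pending pairs at the start of the walk -/
lemma pn_self (hx : IX (X.c.D.par X.Y) X.c.t.mt ParF5.rg) {n : ℕ} {d : DT X.c.Lam (Lb (WL X.c.Lam) X.Y)}
    {Ad : TrG X.c.Lam (Lb (WL X.c.Lam) X.Y) → Finset X.c.Lam → Prop}
    {ν : TrG X.c.Lam (Lb (WL X.c.Lam) X.Y) → ℝ}
    (hs : Side (X.c.D.par X.Y).rho Ad (X.tm j₀) ν n d Finset.univ)
    (h : d.All (HN (X.c.D.par X.Y).rho (X.tm j₀) p0 (kp K) ParF5.rg)) :
    pn (X.c.D.par X.Y).rho (Ro d.g.part) d = 0 := by
  unfold pn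
  split_ifs with hl
  · rfl
  · rw [part_core hs.wf h hl, Finset.sdiff_self]
    exact Finset.sum_empty

end hn

open Crest.Agent.R4P.ParF5 Crest.Agent.R4P.NumX34 Crest.Agent.R4P.ParT21
open Crest.Agent.R4P.FinAll26 (TgtX TgtB TgtD NumFin)
open Crest.Agent.R4P.NumG23
open Crest.Agent.R4P.ClosP542 (PulG)
open Crest.Agent.R4P.SkelF29 (PartF)

/-- the facts of all the nodes of a context -/
theorem ctx_NX (X : Ctx N γ p0 P₀) (j₀ : X.c.Lam) {K : ℝ} (hK : 0 ≤ K) (h3 : 3 ≤ p0)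
    (hr : All (fun u τ => ¬ isL τ → notUp τ → rseR Finset.univ (X.g u τ) ≤
        (1 * Real.log (tp τ) ^ (-K)) *
          (u.c * ∑ j ∈ (Finset.univ : Finset X.c.Lam).filter (fun j => X.c.D.it j ∈ τ.items),
            Frame758.wt X.c.D j)) ⟨top X.S, 1, 1, 1⟩ X.c.t) :
    All (NX X j₀ K) ⟨top X.S, 1, 1, 1⟩ X.c.t := by
  have a0 := ctx_NDt X
  have a1 : All (MtN X.c.t) ⟨top X.S, 1, 1, 1⟩ X.c.t :=
    MtN_all X.c.t X.c.t _ ⟨a0.self.self.ok, fun q hq l hl h => h⟩
  have a2 : All (fun u τ => ¬ isL τ → p0 < tp τ) ⟨top X.S, 1, 1, 1⟩ X.c.t :=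
    All.mono (fun u τ h hl => (nodeOk_hi h.self.node hl).2.1) a0
  have a3 := Step588.All_All _ _ a2
  refine All.mono (fun u τ hh => ?_) (((a0.and a1).and a3).and ((hr.and (ctx_tM X j₀)).and (ctx_cpos X)))
  obtain ⟨⟨⟨b0, b1⟩, b3⟩, ⟨b4, b5⟩, b6⟩ := hh
  refine ⟨b0, b1, fun hl hu => ?_, b3⟩
  have e : X.tm j₀ (X.g u τ) Finset.univ = u.c * ∑ j ∈ Finset.univ.filter
      (fun j => X.c.D.it j ∈ τ.items), Frame758.wt X.c.D j := b5 _
  rw [e]
  refine (b4 hl hu).trans (mul_le_mul_of_nonneg_right ?_ ?_)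
  · rw [one_mul]
    have hp := b3.self hl
    have hlog : (0:ℝ) < 2 ^ ParF5.rg (tp τ) := by positivity
    exact Real.rpow_le_rpow_of_nonpos hlog (ParF5.rg_le (by omega)) (by linarith)
  · exact mul_nonneg b6.le (Finset.sum_nonneg fun j _ => Skel189.wt_nonneg X j)

/-- **the extra errors of the self states of a context** -/
theorem ctx_self_le {X : Ctx N γ p0 P₀} {j₀ : X.c.Lam} {K : ℝ}
    (hx : IX (X.c.D.par X.Y) X.c.t.mt ParF5.rg) (hf : ∀ p : ℕ, ftp K p0 p ≤ 1)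
    (h : All (NX X j₀ K) ⟨top X.S, 1, 1, 1⟩ X.c.t) :
    All (fun u τ => WF (SXN X j₀) (xS (X.c.D.par X.Y).rho (SXN X j₀))
      (Fl.self, X.self u τ Finset.univ) ≤ BT Finset.univ (X.g u τ) + X.mu j₀ u τ Finset.univ)
      ⟨top X.S, 1, 1, 1⟩ X.c.t := by
  have h' := Step588.All_All _ _ h
  refine All.mono (fun u τ hh => ?_) ((h'.and (Mrg35.ctx_side X j₀)).and (ctx_mumu X j₀))
  obtain ⟨⟨h1, h2, h3⟩, h4⟩ := hh
  have k1 := hn_all hx h1
  have key := WF_self_le (stp := SXN X j₀) (fut_ok K p0)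
    (fun s hO hO' hs => stpN_root s hO hO' ((SXN_st X j₀ s).1 hs))
    (fun R d => ⟨Crest.Agent.R4P.StratX36.not_add_up,
      fun h => Crest.Agent.R4P.StratX36.not_add_up ⟨h.2, h.1⟩, rfl⟩)
    ((X.c.D.par X.Y).toDT X.c.sp u.B u.A τ) u.n
    (Ro ((X.c.D.par X.Y).toDT X.c.sp u.B u.A τ).g.part) h3 k1
  have e0 : pn (X.c.D.par X.Y).rho (Ro ((X.c.D.par X.Y).toDT X.c.sp u.B u.A τ).g.part)
      ((X.c.D.par X.Y).toDT X.c.sp u.B u.A τ) = 0 := pn_self hx h3 k1
  have g := (X.c.D.par X.Y).toDT_g X.c.sp τ u.B u.A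
  refine key.trans ?_
  unfold Tp
  rw [e0, zero_add]
  have e1 : ((X.c.D.par X.Y).toDT X.c.sp u.B u.A τ).g = X.g u τ := g
  rw [e1]
  have m0 : 0 ≤ X.tm j₀ (X.g u τ) Finset.univ := (h4 Finset.univ).1
  have m1 := mul_le_mul_of_nonneg_left (hf (cl ((X.c.D.par X.Y).toDT X.c.sp u.B u.A τ))) m0
  rw [mul_one] at m1
  have e2 : X.mu j₀ u τ Finset.univ = X.tm j₀ (X.g u τ) Finset.univ := rfl
  rw [e2]
  linarith

/-- **`TgtSelf`** for the final numbers -/
theorem tgtSelf_fin : ∃ c : ℝ, ∀ (N : Skel189.Num) (Ct C₀ γ : ℝ),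
    NumOK N (thF Ct) Ct C₀ (SxF γ N.C1) → NumFin N (thF Ct) Ct c → NumG N → TgtSelf N γ := by
  obtain ⟨c, HL⟩ := tgtL_fin
  refine ⟨max c 1, fun N Ct C₀ γ h hN hG => ?_⟩
  have hN' : NumFin N (thF Ct) Ct c := Crest.Agent.R4P.EndD23.NumFin.weaken hN (le_max_left _ _)
  have c1 : 1 ≤ N.C1 := (le_max_right _ _).trans hN.C1
  have cB := hN.B
  obtain ⟨a, ha, hL⟩ := HL N Ct C₀ γ h hN' hG
  obtain ⟨p0L, hL⟩ := hL
  have hK0 : 0 ≤ N.B + 2 := by linarith
  obtain ⟨p1, h1⟩ := ftp_le N (K := N.B + 2) le_rfl hK0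
  obtain ⟨p2, h2⟩ := ctx_rseK N (N.B + 2) (κ := 1) one_pos
  refine ⟨a + 1, by linarith, p0L + p1 + p2 + 3, fun p0 hp0 => ?_⟩
  obtain ⟨Q2, H2⟩ := hL p0 (by omega)
  refine ⟨Q2 + 2, fun P₀ hP X hC j₀ Hb => ?_⟩
  have k1 := H2 P₀ (by omega) X hC j₀ Hb
  have hx : IX (X.c.D.par X.Y) X.c.t.mt ParF5.rg := NumX34.ix h (hN.rg p0) X X.Y
  have k2 := ctx_self_le (j₀ := j₀) hx (h1 p0 (by omega) γ P₀ X)
    (ctx_NX X j₀ hK0 (by omega) (h2 p0 (by omega) γ P₀ (by omega) X hC.rse))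
  unfold PartT
  unfold PartF at k1 ⊢
  refine All.mono (fun u τ hh hp hb => ?_)
    (((k1.and k2).and ((ctx_mumu X j₀).and (ctx_cpos X))).and
      ((ctx_NDt X).and (Mrg35.ctx_side X j₀)))
  obtain ⟨⟨⟨g1, g2⟩, g4, hc⟩, hn, hs⟩ := hh
  have m3 := g1 hp hb
  have m7 : 0 ≤ X.mu j₀ u τ Finset.univ * X.mu j₀ u τ Finset.univ := mul_self_nonneg _
  have hok : (X.g u τ).Ok := (X.c.D.par X.Y).toG_Ok hn.B_pos hn.fit (node_wts hn X.Y)
  have n1 : 0 ≤ VL Finset.univ (X.g u τ) := VL_nonneg hok _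
  have n2 : 0 ≤ LF Finset.univ (X.g u τ) :=
    LF_nonneg (Ad := AdI (X.c.D.par X.Y).it) hok
      (par_LqOk (X.c.D.par X.Y) hn.B_pos hn.fit (node_wts hn X.Y)) (AdI_all _ _)
      (Crest.Agent.R4.Item758.AdI_univ _ _)
  have n3 : 0 ≤ Q (Dr (X.g u τ).part) (rv Finset.univ (X.g u τ).val)
    (rv Finset.univ (X.g u τ).val) := by
    rw [rv_univ]
    exact Q_nonneg (fun j => hok.pb j) (fun j => hok.pb j)
  unfold EL at m3
  refine g2.trans ?_
  nlinarith

end Crest.Agent.R4P.TgSelf10
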