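import Crest.Agent.R4P.ExL_26
import Crest.Agent.R4P.TgSelfC_10
import Crest.Agent.R4P.TgtDF_7

/-!
R4 (S0004), POWERS, helper26, [M8]: **S0004 from the three targets** `TgtTop`, `TgtCrs`, `TgtEK`
(the targets `TgtSelf`, `TgtD`, `TgtX`, `TgtL` are proved).
-/

set_option autoImplicit false
set_option linter.unusedSectionVars false
set_option linter.unusedVariables false

open MeasureTheory Filter

namespace Crest.Agent.R4P.End126

open Crest.Agent.R4P.FinE26 Crest.Agent.R4P.FinT26 Crest.Agent.R4P.FinAll26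
open Crest.Agent.R4P.ExK26 Crest.Agent.R4P

/-- **S0004 from the three targets** -/
theorem S0004_3 (hTo : ForN ParT21.thF NumG23.SxF TgtTop)
    (hCr : ForN ParT21.thF NumG23.SxF TgtCrs) (hEK : ForN ParT21.thF NumG23.SxF TgtEK)
    (γ : ℝ) (ψ : ℕ → ℝ)
    (hψ : ∀ q, 0 ≤ ψ q) (hdiv : ¬ Summable fun q : ℕ => (Nat.totient q : ℝ) / q * ψ q) :
    ∀ᵐ x : ℝ, ∃ᶠ q : ℕ in atTop, |(q : ℝ) * x - γ - round ((q : ℝ) * x - γ)| < ψ q :=
  S0004_EF TgSelf10.tgtSelf_fin hTo hCr (ExL26.tgtL_fin hEK) TgtDF7.tgtD_fin γ ψ hψ hdiv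

end Crest.Agent.R4P.End126
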