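import Crest.Agent.R4P.FinE_26

/-!
R4 (S0004), POWERS, helper26, [M8]: **the target [EK]** used by the terminal exits: the energy of the
pairs with one index at the level `b` of a node, `b` = own column of the node, or the column of the
tie / up node above it (`b = u.n`).
-/

set_option autoImplicit false
set_option linter.unusedSectionVars false
set_option linter.unusedVariables false

open MeasureTheory Filter

namespace Crest.Agent.R4P.ExK26

open Crest.Agent.R4.Tour104 Crest.Agent.R4.Tour758 Crest.Agent.R4.Avg758 Crest.Agent.R4.Clos758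
open Crest.Agent.R4.ClosL758 Crest.Agent.R4.ClosG758 Crest.Agent.R4.ClosR758
open Crest.Agent.R4.Fam464 Crest.Agent.R4P.Cnt588 Crest.Agent.R4P.Walk560 Crest.Agent.R4P.Item758
open Crest.Agent.R4.Soft104 Crest.Agent.R4P.Data758
open Crest.Agent.R4P.Bld532 (NS All NodeOk)
open Crest.Agent.R4P.WalkIT579 (tp isL)
open Crest.Agent.R4P.Skel189 Crest.Agent.R4P.ParF5 Crest.Agent.R4P.Fin5
open Crest.Agent.R4P.FinAll26 Crest.Agent.R4P.NumX34 Crest.Agent.R4P.FinX26
open Crest.Agent.R4P

variable {N : Skel189.Num} {γ : ℝ} {p0 P₀ : ℕ}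

/-- energy of the pairs with one index at the level `b` -/
noncomputable def EKe (X : Ctx N γ p0 P₀) (b : ℕ) (u : NS) (τ : IT) : ℝ :=
  Q ((Finset.univ : Finset (X.c.Lam × X.c.Lam)) \ Ro ((X.c.D.par X.Y).rho b))
    (rv Finset.univ (X.g u τ).val) (rv Finset.univ (X.g u τ).val)

/-- **[EK] at a node**: own column; the column `u.n` of the tie / up node above it -/
def EKn (X : Ctx N γ p0 P₀) (K : ℝ) (u : NS) (τ : IT) : Prop :=
  ¬ isL τ → EKe X (tp τ) u τ ≤ K * (u.c * Ws (w X.ψ) τ.items +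
      u.c * Ws (w X.ψ) τ.items * (u.c * Ws (w X.ψ) τ.items)) ∧
    (u.n.Prime → p0 < u.n → u.n < top X.S → EKe X u.n u τ ≤ K * (u.c * Ws (w X.ψ) τ.items +
      u.c * Ws (w X.ψ) τ.items * (u.c * Ws (w X.ψ) τ.items)))

/-- **the target [EK]** -/
def TgtEK (N : Skel189.Num) (γ : ℝ) : Prop :=
  ∃ K : ℝ, 0 ≤ K ∧ Ev N γ fun p0 P₀ X => CF X → All (EKn X K) ⟨top X.S, 1, 1, 1⟩ X.c.t

end Crest.Agent.R4P.ExK26
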