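import Crest.Agent.R4P.WalkIT579

/-!
R4 (S0004), powers, helper36: **node facts of the builder for the strategy at add nodes** (item sets,
absolute exponents `ex b q = q.factorization b`).

* `CutN` (SEP nodes), `FarN` (far nodes), `DomN` (dominated sets: ties, up nodes and their children);
* codes: `cd s b m` = smallest cut (`inl J`) or dominant exponent (`inr K`) of a mass function `m`.
-/

set_option autoImplicit false
set_option linter.unusedSectionVars false
set_option linter.unusedVariables false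

namespace Crest.Agent.R4P.StratN36

open Crest.Agent.R4P.Cnt588
open Crest.Agent.R4P.Bld532 (NS All NodeOk Bk dv nd mem_dv mem_nd Ws_mono Ws_nonneg farS nearS
  mem_farS mem_nearS plk)
open Crest.Agent.R4P

/-- the exponent of `b` in `q` -/
def ex (b q : ℕ) : ℕ := q.factorization b

lemma dvd_iff {A p k q : ℕ} (hp : p.Prime) (hq : 0 < q) (hA : A ∣ q) :
    p ^ k ∣ q / A ↔ ex p A + k ≤ ex p q := by
  have hA0 : 0 < A := Nat.pos_of_dvd_of_pos hA hq
  have h1 : q / A ≠ 0 := (Nat.div_pos (Nat.le_of_dvd hq hA) hA0).ne'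
  have h2 : A.factorization p ≤ q.factorization p :=
    (Nat.factorization_le_iff_dvd hA0.ne' hq.ne').2 hA p
  rw [hp.pow_dvd_iff_le_factorization h1, Nat.factorization_div hA]
  unfold ex
  simp only [Finsupp.coe_tsub, Pi.sub_apply]
  omega

lemma ex_le {A p q : ℕ} (hq : 0 < q) (hA : A ∣ q) : ex p A ≤ ex p q :=
  (Nat.factorization_le_iff_dvd (Nat.pos_of_dvd_of_pos hA hq).ne' hq.ne').2 hA p

section
variable {P : Bld532.Par} {W : ℕ → ℝ}

/-- SEP node at `b` with (absolute) threshold `J` -/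
structure CutN (P : Bld532.Par) (W : ℕ → ℝ) (b J : ℕ) (S S₁ S₀ : Finset ℕ) : Prop where
  pos : 1 ≤ J
  t1 : S₁ = S.filter (fun q => J ≤ ex b q)
  t0 : S₀ = S.filter (fun q => ex b q < J)
  s1 : P.sg b * Ws W S < Ws W S₁
  s0 : P.sg b * Ws W S < Ws W S₀
  low : ∀ J', J' < J → Ws W (S.filter (fun q => ex b q < J')) ≤ P.sg b * Ws W S

/-- far node at `b` with dominant exponent `K` -/
structure FarN (P : Bld532.Par) (W : ℕ → ℝ) (b K : ℕ) (S S₁ S₀ : Finset ℕ) : Prop where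
  t1 : S₁ = S.filter (fun q => ex b q + 2 ≤ K ∨ K + 2 ≤ ex b q)
  t0 : S₀ = S.filter (fun q => K ≤ ex b q + 1 ∧ ex b q ≤ K + 1)
  lo : Ws W (S.filter (fun q => ex b q < K)) ≤ P.sg b * Ws W S
  hi : Ws W (S.filter (fun q => K < ex b q)) ≤ P.sg b * Ws W S

/-- dominated set: exponents `K - 1, K, K + 1` (items of positive weight), the share of the exponents
`≠ K` is at most `4 sg` -/
structure DomN (P : Bld532.Par) (W : ℕ → ℝ) (b K : ℕ) (S : Finset ℕ) : Prop where
  near : ∀ q ∈ S, 0 < W q → K ≤ ex b q + 1 ∧ ex b q ≤ K + 1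
  tail : Ws W (S.filter (fun q => ex b q ≠ K)) ≤ 4 * P.sg b * Ws W S

/-- dominated set with **effective exponents** `ex b q + k` (`k` = exponent of `b` in the product of the
missing primes of the node) -/
structure DomE (P : Bld532.Par) (W : ℕ → ℝ) (b k K : ℕ) (S : Finset ℕ) : Prop where
  near : ∀ q ∈ S, 0 < W q → K ≤ ex b q + k + 1 ∧ ex b q + k ≤ K + 1
  tail : Ws W (S.filter (fun q => ex b q + k ≠ K)) ≤ 4 * P.sg b * Ws W S

lemma DomN.eff {b K : ℕ} {S : Finset ℕ} (h : DomN P W b K S) (k : ℕ) :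
    DomE P W b k (K + k) S where
  near q hq h0 := by
    have := h.near q hq h0
    omega
  tail := by
    have e : S.filter (fun q => ex b q + k ≠ K + k) = S.filter (fun q => ex b q ≠ K) := by
      refine Finset.filter_congr fun q _ => ?_
      rw [ne_eq, Nat.add_right_cancel_iff]
    rw [e]
    exact h.tail

variable {u : NS}

lemma cutN_of (hW : ∀ q, 0 ≤ W q) {b : ℕ} {t₁ t₀ : IT} (h : NodeOk P W u (.add b t₁ t₀)) :
    ∃ J, CutN P W b J (t₁.items ∪ t₀.items) t₁.items t₀.items := by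
  obtain ⟨hb, hbn, hp0, hmax, hBk, ⟨j, t', hj, e, h1, h0, hlow⟩, hlo, hhi, hs0, hs1⟩ := h
  set S := t₁.items ∪ t₀.items with hS
  have hpos : ∀ q ∈ S, 0 < q := hBk.pos
  have hdv : ∀ q ∈ S, u.A ∣ q := hBk.dvd
  refine ⟨ex b u.A + j, by omega, ?_, ?_, hs1, hs0, ?_⟩
  · rw [h1]; ext q
    rw [mem_dv, Finset.mem_filter]
    constructor
    · rintro ⟨hq, h⟩; exact ⟨hq, (dvd_iff hb (hpos q hq) (hdv q hq)).1 h⟩
    · rintro ⟨hq, h⟩; exact ⟨hq, (dvd_iff hb (hpos q hq) (hdv q hq)).2 h⟩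
  · rw [h0]; ext q
    rw [mem_nd, Finset.mem_filter]
    constructor
    · rintro ⟨hq, h⟩; exact ⟨hq, not_le.1 fun h' => h ((dvd_iff hb (hpos q hq) (hdv q hq)).2 h')⟩
    · rintro ⟨hq, h⟩; exact ⟨hq, fun h' => absurd ((dvd_iff hb (hpos q hq) (hdv q hq)).1 h')
        (not_le.2 h)⟩
  · intro J' hJ'
    refine le_trans (Ws_mono hW ?_) hlow
    intro q hq
    obtain ⟨hq, h⟩ := Finset.mem_filter.1 hq
    rw [mem_nd]
    refine ⟨hq, fun h' => ?_⟩
    have := (dvd_iff hb (hpos q hq) (hdv q hq)).1 h'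
    omega

lemma farN_of (hW : ∀ q, 0 ≤ W q) {b : ℕ} {t₁ t₀ : IT} (h : NodeOk P W u (.far b t₁ t₀)) :
    ∃ K, FarN P W b K (t₁.items ∪ t₀.items) t₁.items t₀.items ∧ ∃ F, t₁ = .leaf F := by
  obtain ⟨hb, hbn, hp0, hmax, hBk, ⟨k, e1, h0, hlo', hhi'⟩, hlo, hhi, hs1⟩ := h
  set S := t₁.items ∪ t₀.items with hS
  have hpos : ∀ q ∈ S, 0 < q := hBk.pos
  have hdv : ∀ q ∈ S, u.A ∣ q := hBk.dvd
  have hex : ∀ q ∈ S, ex b u.A ≤ ex b q := fun q hq => ex_le (hpos q hq) (hdv q hq)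
  refine ⟨ex b u.A + k, ⟨?_, ?_, ?_, ?_⟩, _, e1⟩
  · have e2 : t₁.items = farS b u.A k S := by
      conv_lhs => rw [e1]
      rfl
    rw [e2]; ext q
    rw [mem_farS, Finset.mem_filter]
    refine and_congr_right fun hq => ?_
    rw [dvd_iff hb (hpos q hq) (hdv q hq), dvd_iff hb (hpos q hq) (hdv q hq)]
    have := hex q hq
    omega
  · rw [h0]; ext q
    rw [mem_nearS, Finset.mem_filter]
    refine and_congr_right fun hq => ?_
    rw [dvd_iff hb (hpos q hq) (hdv q hq), dvd_iff hb (hpos q hq) (hdv q hq)]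
    have := hex q hq
    omega
  · refine le_trans (Ws_mono hW ?_) hlo'
    intro q hq
    obtain ⟨hq, h⟩ := Finset.mem_filter.1 hq
    rw [mem_nd]
    refine ⟨hq, fun h' => ?_⟩
    have := (dvd_iff hb (hpos q hq) (hdv q hq)).1 h'
    omega
  · refine le_trans (Ws_mono hW ?_) hhi'
    intro q hq
    obtain ⟨hq, h⟩ := Finset.mem_filter.1 hq
    rw [mem_dv]
    exact ⟨hq, (dvd_iff hb (hpos q hq) (hdv q hq)).2 (by omega)⟩

/-- tie: the node and both children are dominated -/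
lemma domN_br (hW : ∀ q, 0 ≤ W q) (hsg : ∀ k, 0 ≤ P.sg k) {b : ℕ} {Sp : Finset ℕ} {t₁ t₀ : IT}
    (h : NodeOk P W u (.br b Sp t₁ t₀)) :
    ∃ K, DomN P W b (K + 1) (t₁.items ∪ t₀.items) ∧ DomN P W b (K + 1) t₁.items ∧
      DomN P W b K t₀.items := by
  obtain ⟨hb, hbn, hp0, hmax, hBk, h1, h0, hSp, h3, hlo, hhi, hs0, hsp⟩ := h
  set S := t₁.items ∪ t₀.items with hS
  have hpos : ∀ q ∈ S, 0 < q := hBk.pos
  have hdv : ∀ q ∈ S, u.A ∣ q := hBk.dvd
  have hex : ∀ q ∈ S, ex b u.A ≤ ex b q := fun q hq => ex_le (hpos q hq) (hdv q hq)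
  have h2 : ∀ q ∈ S, ex b q ≤ ex b u.A + 2 := by
    intro q hq
    have := h3 q hq
    rw [dvd_iff hb (hpos q hq) (hdv q hq)] at this
    omega
  have m1 : ∀ q, q ∈ t₁.items ↔ q ∈ S ∧ ex b u.A + 1 ≤ ex b q := by
    intro q
    rw [h1, mem_dv]
    refine and_congr_right fun hq => ?_
    have := dvd_iff (k := 1) hb (hpos q hq) (hdv q hq)
    rwa [pow_one] at this
  have m0 : ∀ q, q ∈ t₀.items ↔ q ∈ S ∧ ex b q = ex b u.A := by
    intro q
    rw [h0, mem_nd]
    refine and_congr_right fun hq => ?_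
    have := dvd_iff (k := 1) hb (hpos q hq) (hdv q hq)
    rw [pow_one] at this
    rw [this]
    have := hex q hq
    omega
  have mS : ∀ q, q ∈ Sp ↔ q ∈ S ∧ ex b u.A + 2 ≤ ex b q := by
    intro q
    rw [hSp, mem_dv]
    exact and_congr_right fun hq => dvd_iff (k := 2) hb (hpos q hq) (hdv q hq)
  have sub1 : t₁.items ⊆ S := Finset.subset_union_left
  have W1 := Ws_mono hW sub1
  have s0 := hsg b
  have nS := Ws_nonneg hW S
  have n1 := Ws_nonneg hW t₁.items
  have n0 := Ws_nonneg hW t₀.items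
  have hmul : 2 * P.sg b * Ws W t₁.items ≤ 2 * P.sg b * Ws W S :=
    mul_le_mul_of_nonneg_left W1 (by linarith)
  refine ⟨ex b u.A, ⟨fun q hq _ => ?_, ?_⟩, ⟨fun q hq _ => ?_, ?_⟩, ⟨fun q hq _ => ?_, ?_⟩⟩
  · have := hex q hq; have := h2 q hq; omega
  · have e : S.filter (fun q => ex b q ≠ ex b u.A + 1) ⊆ t₀.items ∪ Sp := by
      intro q hq
      obtain ⟨hq, hne⟩ := Finset.mem_filter.1 hq
      have := hex q hq
      rw [Finset.mem_union, m0, mS]
      by_cases h : ex b q = ex b u.A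
      · exact Or.inl ⟨hq, h⟩
      · exact Or.inr ⟨hq, by omega⟩
    have hu : Ws W (t₀.items ∪ Sp) ≤ Ws W t₀.items + Ws W Sp := by
      unfold Ws
      rw [← Finset.sum_union_inter]
      have : 0 ≤ ∑ q ∈ t₀.items ∩ Sp, W q := Finset.sum_nonneg fun q _ => hW q
      linarith
    calc _ ≤ Ws W (t₀.items ∪ Sp) := Ws_mono hW e
      _ ≤ Ws W t₀.items + Ws W Sp := hu
      _ ≤ 2 * P.sg b * Ws W S + 2 * P.sg b * Ws W t₁.items := add_le_add hs0 hsp
      _ ≤ 4 * P.sg b * Ws W S := by linarith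
  · have h' := (m1 q).1 hq; have := h2 q h'.1; omega
  · have e : t₁.items.filter (fun q => ex b q ≠ ex b u.A + 1) ⊆ Sp := by
      intro q hq
      obtain ⟨hq, hne⟩ := Finset.mem_filter.1 hq
      have h' := (m1 q).1 hq
      rw [mS]
      exact ⟨h'.1, by omega⟩
    have : 0 ≤ P.sg b * Ws W t₁.items := mul_nonneg s0 n1
    calc _ ≤ Ws W Sp := Ws_mono hW e
      _ ≤ 2 * P.sg b * Ws W t₁.items := hsp
      _ ≤ 4 * P.sg b * Ws W t₁.items := by linarith
  · have h' := (m0 q).1 hq; omega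
  · have e : t₀.items.filter (fun q => ex b q ≠ ex b u.A) = ∅ := by
      rw [Finset.filter_eq_empty_iff]
      intro q hq hne
      exact hne ((m0 q).1 hq).2
    rw [e]
    simp only [Ws, Finset.sum_empty]
    have := mul_nonneg s0 n0
    have e2 : (4 : ℝ) * P.sg b * ∑ q ∈ t₀.items, W q = 4 * (P.sg b * Ws W t₀.items) := by
      unfold Ws; ring
    rw [e2]; linarith

/-- up nodes -/
lemma domN_up (hW : ∀ q, 0 ≤ W q) (hsg : ∀ k, 0 ≤ P.sg k) {b : ℕ} {Sp : Finset ℕ} {t : IT}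
    (h : NodeOk P W u (.up b Sp t)) : ∃ K, DomN P W b K t.items := by
  obtain ⟨hb, hbn, hp0, hmax, hBk, hSp, h2, hlo, hhi, hsp⟩ := h
  have hpos : ∀ q ∈ t.items, 0 < q := hBk.pos
  have hdv : ∀ q ∈ t.items, u.A ∣ q := hBk.dvd
  refine ⟨ex b u.A, fun q hq _ => ?_, ?_⟩
  · have h' := h2 q hq
    rw [dvd_iff hb (hpos q hq) (hdv q hq)] at h'
    have := ex_le (p := b) (hpos q hq) (hdv q hq)
    omega
  · have e : t.items.filter (fun q => ex b q ≠ ex b u.A) ⊆ Sp := by
      intro q hq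
      obtain ⟨hq, hne⟩ := Finset.mem_filter.1 hq
      rw [hSp, mem_dv]
      refine ⟨hq, ?_⟩
      have h3 := dvd_iff (k := 1) hb (hpos q hq) (hdv q hq)
      rw [pow_one] at h3
      rw [h3]
      have := ex_le (p := b) (hpos q hq) (hdv q hq)
      omega
    have : 0 ≤ P.sg b * Ws W t.items := mul_nonneg (hsg b) (Ws_nonneg hW _)
    calc _ ≤ Ws W Sp := Ws_mono hW e
      _ ≤ 2 * P.sg b * Ws W t.items := hsp
      _ ≤ 4 * P.sg b * Ws W t.items := by linarith

end

/-! ### codes -/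

/-- `J` cuts the mass function `m` at `b` in two parts of share above `s` -/
def CutM (s : ℝ) (b : ℕ) (m : (ℕ → Prop) → ℝ) (J : ℕ) : Prop :=
  s * m (fun _ => True) < m (fun q => ex b q < J) ∧ s * m (fun _ => True) < m (fun q => J ≤ ex b q)

open Classical in
/-- dominant exponent -/
noncomputable def dK (s : ℝ) (b : ℕ) (m : (ℕ → Prop) → ℝ) : ℕ :=
  if h : ∃ K, m (fun q => ex b q ≠ K) ≤ 4 * s * m (fun _ => True) then Nat.find h else 0

open Classical in
/-- the code: smallest cut or dominant exponent -/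
noncomputable def cd (s : ℝ) (b : ℕ) (m : (ℕ → Prop) → ℝ) : ℕ ⊕ ℕ :=
  if h : ∃ J, CutM s b m J then .inl (Nat.find h) else .inr (dK s b m)

/-- `m` is the mass function of the items `S` with the factor `c` -/
def MsOf (W : ℕ → ℝ) (c : ℝ) (S : Finset ℕ) (m : (ℕ → Prop) → ℝ) : Prop :=
  ∀ (Q : ℕ → Prop) [DecidablePred Q], m Q = c * Ws W (S.filter Q)

section
variable {P : Bld532.Par} {W : ℕ → ℝ} {c : ℝ} {S S₁ S₀ : Finset ℕ} {m : (ℕ → Prop) → ℝ} {b : ℕ}

lemma MsOf.top (h : MsOf W c S m) : m (fun _ => True) = c * Ws W S := by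
  rw [h (fun _ => True)]; simp

lemma dK_spec {s : ℝ} (h : MsOf W c S m) (hc : 0 < c) {K : ℕ}
    (hK : Ws W (S.filter (fun q => ex b q ≠ K)) ≤ 4 * s * Ws W S) :
    Ws W (S.filter (fun q => ex b q ≠ dK s b m)) ≤ 4 * s * Ws W S := by
  classical
  have h1 : ∃ K, m (fun q => ex b q ≠ K) ≤ 4 * s * m (fun _ => True) := by
    refine ⟨K, ?_⟩
    rw [h.top, h (fun q => ex b q ≠ K)]
    have := mul_le_mul_of_nonneg_left hK hc.le
    linarith
  have h2 : dK s b m = Nat.find h1 := dif_pos h1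
  have h3 := Nat.find_spec h1
  rw [← h2, h.top, h (fun q => ex b q ≠ dK s b m)] at h3
  have : c * Ws W (S.filter (fun q => ex b q ≠ dK s b m)) ≤ c * (4 * s * Ws W S) := by linarith
  exact le_of_mul_le_mul_left this hc

/-- the dominant exponent is unique -/
lemma dom_unique (hW : ∀ q, 0 ≤ W q) {s : ℝ} (hs : 8 * s < 1) (hS : 0 < Ws W S) {K K' : ℕ}
    (hK : Ws W (S.filter (fun q => ex b q ≠ K)) ≤ 4 * s * Ws W S)
    (hK' : Ws W (S.filter (fun q => ex b q ≠ K')) ≤ 4 * s * Ws W S) : K = K' := by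
  by_contra hne
  have hu : Ws W S ≤ Ws W (S.filter (fun q => ex b q ≠ K)) +
      Ws W (S.filter (fun q => ex b q ≠ K')) := by
    have e : S ⊆ S.filter (fun q => ex b q ≠ K) ∪ S.filter (fun q => ex b q ≠ K') := by
      intro q hq
      rw [Finset.mem_union, Finset.mem_filter, Finset.mem_filter]
      by_cases h : ex b q = K
      · exact Or.inr ⟨hq, by rw [h]; exact hne⟩
      · exact Or.inl ⟨hq, h⟩
    refine (Ws_mono hW e).trans ?_
    unfold Ws
    rw [← Finset.sum_union_inter]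
    have : 0 ≤ ∑ q ∈ S.filter (fun q => ex b q ≠ K) ∩ S.filter (fun q => ex b q ≠ K'), W q :=
      Finset.sum_nonneg fun q _ => hW q
    linarith
  have : Ws W S ≤ 8 * s * Ws W S := by linarith
  have h2 : 8 * s * Ws W S < 1 * Ws W S := mul_lt_mul_of_pos_right hs hS
  linarith

lemma dK_eq (hW : ∀ q, 0 ≤ W q) {s : ℝ} (hs : 8 * s < 1) (h : MsOf W c S m) (hc : 0 < c)
    (hS : 0 < Ws W S) {K : ℕ}
    (hK : Ws W (S.filter (fun q => ex b q ≠ K)) ≤ 4 * s * Ws W S) : dK s b m = K :=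
  dom_unique hW hs hS (dK_spec h hc hK) hK

/-- the code of a cut node -/
lemma cd_cut (hW : ∀ q, 0 ≤ W q) (h : MsOf W c S m) (hc : 0 < c) {J : ℕ}
    (hN : CutN P W b J S S₁ S₀) : cd (P.sg b) b m = .inl J := by
  classical
  have h1 : CutM (P.sg b) b m J := by
    constructor
    · rw [h.top, h (fun q => ex b q < J), ← hN.t0]
      have := mul_lt_mul_of_pos_left hN.s0 hc
      linarith
    · rw [h.top, h (fun q => J ≤ ex b q), ← hN.t1]
      have := mul_lt_mul_of_pos_left hN.s1 hc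
      linarith
  have hex : ∃ J, CutM (P.sg b) b m J := ⟨J, h1⟩
  unfold cd
  rw [dif_pos hex]
  congr 1
  refine le_antisymm (Nat.find_min' hex h1) ?_
  by_contra hlt
  rw [not_le] at hlt
  have h2 := (Nat.find_spec hex).1
  rw [h.top, h (fun q => ex b q < Nat.find hex)] at h2
  have h3 := mul_le_mul_of_nonneg_left (hN.low _ hlt) hc.le
  linarith

lemma FarN.tail (hW : ∀ q, 0 ≤ W q) {K : ℕ} (hN : FarN P W b K S S₁ S₀) :
    Ws W (S.filter (fun q => ex b q ≠ K)) ≤ 2 * P.sg b * Ws W S := by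
  have e : S.filter (fun q => ex b q ≠ K) ⊆
      S.filter (fun q => ex b q < K) ∪ S.filter (fun q => K < ex b q) := by
    intro q hq
    obtain ⟨hq, hne⟩ := Finset.mem_filter.1 hq
    rw [Finset.mem_union, Finset.mem_filter, Finset.mem_filter]
    rcases lt_or_gt_of_ne hne with h | h
    · exact Or.inl ⟨hq, h⟩
    · exact Or.inr ⟨hq, h⟩
  refine (Ws_mono hW e).trans ?_
  have : Ws W (S.filter (fun q => ex b q < K) ∪ S.filter (fun q => K < ex b q)) ≤
      Ws W (S.filter (fun q => ex b q < K)) + Ws W (S.filter (fun q => K < ex b q)) := by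
    unfold Ws
    rw [← Finset.sum_union_inter]
    have : 0 ≤ ∑ q ∈ S.filter (fun q => ex b q < K) ∩ S.filter (fun q => K < ex b q), W q :=
      Finset.sum_nonneg fun q _ => hW q
    linarith
  linarith [hN.lo, hN.hi]

/-- the code of a far node -/
lemma cd_far (hW : ∀ q, 0 ≤ W q) (hsg : 0 ≤ P.sg b) (hs : 8 * P.sg b < 1) (h : MsOf W c S m)
    (hc : 0 < c) (hS : 0 < Ws W S) {K : ℕ} (hN : FarN P W b K S S₁ S₀) :
    cd (P.sg b) b m = .inr K ∧ dK (P.sg b) b m = K := by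
  classical
  have hno : ¬ ∃ J, CutM (P.sg b) b m J := by
    rintro ⟨J, h0, h1⟩
    rw [h.top, h (fun q => ex b q < J)] at h0
    rw [h.top, h (fun q => J ≤ ex b q)] at h1
    rcases le_or_gt J K with hJ | hJ
    · have e : S.filter (fun q => ex b q < J) ⊆ S.filter (fun q => ex b q < K) := by
        intro q hq
        obtain ⟨hq, h⟩ := Finset.mem_filter.1 hq
        exact Finset.mem_filter.2 ⟨hq, lt_of_lt_of_le h hJ⟩
      have := mul_le_mul_of_nonneg_left ((Ws_mono hW e).trans hN.lo) hc.le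
      linarith
    · have e : S.filter (fun q => J ≤ ex b q) ⊆ S.filter (fun q => K < ex b q) := by
        intro q hq
        obtain ⟨hq, h⟩ := Finset.mem_filter.1 hq
        exact Finset.mem_filter.2 ⟨hq, lt_of_lt_of_le hJ h⟩
      have := mul_le_mul_of_nonneg_left ((Ws_mono hW e).trans hN.hi) hc.le
      linarith
  have e := dK_eq hW hs h hc hS (K := K) (b := b) ((hN.tail hW).trans (by
    have := mul_nonneg hsg hS.le
    linarith))
  refine ⟨?_, e⟩
  unfold cd
  rw [dif_neg hno, e]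

end

end Crest.Agent.R4P.StratN36
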