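import Crest.Agent.R4P.PayK_26
import Crest.Agent.R4P.StratN_36

/-!
R4 (S0004), POWERS, helper26, [M8], terminal exits, part 2: **shares of the classes**.

* `PBn` : the items divisible by the column above the node; `All_PBn`.
* `KD` : all but a small part of the items of a node are in one class; `KD_closed`, `KD_br`, `KD_up`.
* `KT.alive2` : two alive sides with different main classes.
-/

set_option autoImplicit false
set_option linter.unusedSectionVars false
set_option linter.unusedVariables false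

namespace Crest.Agent.R4P.ExS26

open Finset
open Crest.Agent.R4P.Cnt588
open Crest.Agent.R4P.Bld532 (NS All NodeOk Bk Ws_nonneg Ws_mono dv nd mem_dv mem_nd)
open Crest.Agent.R4P.StratN36 (ex dvd_iff)
open Crest.Agent.R4P.PayK26 Crest.Agent.R4P.HullCtx26
open Crest.Agent.R4P.KindPay36
open Crest.Agent.R4P

section share
variable {P : Bld532.Par} {W : ℕ → ℝ}

/-- the items divisible by the column above the node -/
def PBn (P : Bld532.Par) (W : ℕ → ℝ) (T : ℕ) (u : NS) (τ : IT) : Prop :=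
  u.n.Prime → u.n < T → Ws W (dv u.A u.n τ.items) ≤ 2 * P.sg u.n * Ws W τ.items

lemma not_prime_succ {b : ℕ} (hb : b.Prime) (h2 : 2 < b) : ¬ (b + 1).Prime := by
  intro h
  have h3 := hb.eq_two_or_odd'
  rcases h3 with h3 | h3
  · omega
  · rcases h.eq_two_or_odd' with h4 | h4
    · omega
    · obtain ⟨k, hk⟩ := h3
      obtain ⟨l, hl⟩ := h4
      omega

/-- **the items divisible by the column above a node have a small share** -/
theorem All_PBn (hW : ∀ q, 0 ≤ W q) (hsg : ∀ k, 0 ≤ P.sg k) (hp0 : 2 ≤ P.p0) {T : ℕ} :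
    ∀ (t : IT) (s : NS), All (NodeOk P W) s t → PBn P W T s t → All (PBn P W T) s t := by
  intro t
  induction t with
  | leaf S => intro s _ h; exact h
  | br p Sp t₁ t₀ ih₁ ih₀ =>
    rintro s ⟨h1, h2, h3⟩ h
    obtain ⟨a1, a2, a3, a4, a5, a6, a7, a8, a9, b1, b2, b3, b4⟩ := h1
    refine ⟨h, ih₁ _ h2 fun _ _ => ?_, ih₀ _ h3 fun _ _ => ?_⟩
    · refine le_trans (Ws_mono hW ?_) b4
      intro q hq
      obtain ⟨k1, k2⟩ := mem_dv.1 hq
      have k1' := k1
      rw [a6] at k1'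
      obtain ⟨k3, k4⟩ := mem_dv.1 k1'
      rw [a8]
      refine mem_dv.2 ⟨k3, ?_⟩
      have k5 : p ∣ q / s.A / p := by
        have : q / (s.A * p) = q / s.A / p := (Nat.div_div_eq_div_mul _ _ _).symm
        rw [← this]; exact k2
      obtain ⟨m, hm⟩ := k5
      refine ⟨m, ?_⟩
      rw [← Nat.mul_div_cancel' k4, hm]
      ring
    · have e : dv s.A p t₀.items = ∅ := by
        rw [Finset.eq_empty_iff_forall_notMem]
        intro q hq
        obtain ⟨k1, k2⟩ := mem_dv.1 hq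
        rw [a7] at k1
        exact (mem_nd.1 k1).2 k2
      show Ws W (dv s.A p t₀.items) ≤ 2 * P.sg p * Ws W t₀.items
      rw [e]
      have h0 : Ws W (∅ : Finset ℕ) = 0 := by unfold Ws; simp
      rw [h0]
      have := hsg p
      have := Ws_nonneg hW t₀.items
      positivity
  | add b t₁ t₀ ih₁ ih₀ =>
    rintro s ⟨h1, h2, h3⟩ h
    have a1 : b.Prime := h1.1
    have a3 : P.p0 < b := h1.2.2.1
    have hn : ¬ (b + 1).Prime := not_prime_succ a1 (by omega)
    exact ⟨h, ih₁ _ h2 fun hp _ => absurd hp hn, ih₀ _ h3 fun hp _ => absurd hp hn⟩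
  | up b Sp t ih =>
    rintro s ⟨h1, h2⟩ h
    obtain ⟨a1, a2, a3, a4, a5, a6, a7, a8, a9, b1⟩ := h1
    refine ⟨h, ih _ h2 fun _ _ => ?_⟩
    rw [a6] at b1
    exact b1
  | pl b t ih =>
    rintro s ⟨h1, h2⟩ h
    have a1 : b.Prime := h1.1
    have a3 : P.p0 < b := h1.2.2.1
    have hn : ¬ (b + 1).Prime := not_prime_succ a1 (by omega)
    exact ⟨h, ih _ h2 fun hp _ => absurd hp hn⟩
  | far b t₁ t₀ ih₁ ih₀ =>
    rintro s ⟨h1, h2, h3⟩ h
    have a1 : b.Prime := h1.1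
    have a3 : P.p0 < b := h1.2.2.1
    have hn : ¬ (b + 1).Prime := not_prime_succ a1 (by omega)
    exact ⟨h, ih₁ _ h2 fun hp _ => absurd hp hn, ih₀ _ h3 fun hp _ => absurd hp hn⟩

/-- all but a small part of the items are in the class `k` at the level `b` -/
def KD (P : Bld532.Par) (W : ℕ → ℝ) (b : ℕ) (v : NS) (σ : IT) (k : ℕ) : Prop :=
  Ws W (σ.items.filter fun q => ex b q + ex b v.B ≠ k) ≤ 4 * P.sg b * Ws W σ.items

/-- the items which are not divisible by `b` above `A` -/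
lemma KD_dv (hW : ∀ q, 0 ≤ W q) (hsg : ∀ k, 0 ≤ P.sg k) {b : ℕ} {v : NS} {σ : IT} (hb : b.Prime)
    (hk : Bk σ.items v) (h : Ws W (dv v.A b σ.items) ≤ 2 * P.sg b * Ws W σ.items) :
    KD P W b v σ (ex b v.A + ex b v.B) := by
  have h1 : Ws W (σ.items.filter fun q => ex b q + ex b v.B ≠ ex b v.A + ex b v.B) ≤
      Ws W (dv v.A b σ.items) := by
    refine Ws_mono hW fun q hq => ?_
    obtain ⟨k1, k2⟩ := Finset.mem_filter.1 hq
    refine mem_dv.2 ⟨k1, ?_⟩
    have k3 := dvd_iff (k := 1) hb (hk.pos q k1) (hk.dvd q k1)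
    have k4 := dvd_iff (k := 0) hb (hk.pos q k1) (hk.dvd q k1)
    rw [pow_one] at k3
    rw [pow_zero] at k4
    rw [k3]
    have := k4.1 (one_dvd _)
    omega
  have h2 : 0 ≤ P.sg b * Ws W σ.items := mul_nonneg (hsg b) (Ws_nonneg hW _)
  unfold KD
  linarith

/-- an `up` node -/
lemma KD_up (hW : ∀ q, 0 ≤ W q) (hsg : ∀ k, 0 ≤ P.sg k) {b : ℕ} {v : NS} {Sp : Finset ℕ} {t : IT}
    (h : NodeOk P W v (.up b Sp t)) : KD P W b v (.up b Sp t) (ex b v.A + ex b v.B) := by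
  obtain ⟨a1, a2, a3, a4, a5, a6, a7, a8, a9, b1⟩ := h
  rw [a6] at b1
  exact KD_dv (σ := .up b Sp t) hW hsg a1 a5 b1

/-- a tie -/
lemma KD_br (hW : ∀ q, 0 ≤ W q) (hsg : ∀ k, 0 ≤ P.sg k) {b : ℕ} {v : NS} {Sp : Finset ℕ}
    {t₁ t₀ : IT} (h : NodeOk P W v (.br b Sp t₁ t₀)) :
    KD P W b v (.br b Sp t₁ t₀) (ex b v.A + 1 + ex b v.B) := by
  obtain ⟨a1, a2, a3, a4, a5, a6, a7, a8, a9, b1, b2, b3, b4⟩ := h
  have e : (IT.br b Sp t₁ t₀).items = t₁.items ∪ t₀.items := rfl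
  unfold KD
  rw [e]
  set S := t₁.items ∪ t₀.items with hS
  have h1 : Ws W (S.filter fun q => ex b q + ex b v.B ≠ ex b v.A + 1 + ex b v.B) ≤
      Ws W t₀.items + Ws W Sp := by
    have h2 : S.filter (fun q => ex b q + ex b v.B ≠ ex b v.A + 1 + ex b v.B) ⊆ t₀.items ∪ Sp := by
      intro q hq
      obtain ⟨k1, k2⟩ := Finset.mem_filter.1 hq
      have k3 := dvd_iff (k := 1) a1 (a5.pos q k1) (a5.dvd q k1)
      have k5 := dvd_iff (k := 2) a1 (a5.pos q k1) (a5.dvd q k1)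
      rw [pow_one] at k3
      by_cases h3 : b ∣ q / v.A
      · refine Finset.mem_union_right _ ?_
        rw [a8]
        refine mem_dv.2 ⟨k1, ?_⟩
        rw [k5]
        have := k3.1 h3
        omega
      · refine Finset.mem_union_left _ ?_
        rw [a7]
        exact mem_nd.2 ⟨k1, h3⟩
    refine (Ws_mono hW h2).trans ?_
    unfold Ws
    have h3 := Finset.sum_union_inter (s₁ := t₀.items) (s₂ := Sp) (f := W)
    have h4 : 0 ≤ ∑ q ∈ t₀.items ∩ Sp, W q := Finset.sum_nonneg fun q _ => hW q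
    linarith
  have h2 : Ws W t₁.items ≤ Ws W S := Ws_mono hW Finset.subset_union_left
  have h3 : 2 * P.sg b * Ws W t₁.items ≤ 2 * P.sg b * Ws W S :=
    mul_le_mul_of_nonneg_left h2 (by have := hsg b; positivity)
  linarith

end share

section kt
variable {C Ce Cl Ch Bs K₁ s₁ s₂ a η : ℝ} {b : ℕ} {P : Bld532.Par} {W : ℕ → ℝ}
  {c c' : ℝ} {B B' : ℕ} {X Y : Finset ℕ} {F : ℝ} {al : ℕ → ℝ} {D D' : Prop}

/-- **two alive sides with different main classes** -/
theorem KT_alive2 (hK : KT C Ce Cl Ch Bs K₁ s₁ s₂ a η b) (hW : ∀ q, 0 ≤ W q) (hc : 0 ≤ c)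
    (hc' : 0 ≤ c') (hsg : P.sg b = (Real.log b)^Bs / b) (hal : ∀ B, al B ≤ (b:ℝ)^a) {k k' : ℕ}
    (hne : k ≠ k')
    (hX : Ws W (X.filter fun q => ex b q + ex b B ≠ k) ≤ 4 * P.sg b * Ws W X)
    (hY : Ws W (Y.filter fun q => ex b q + ex b B' ≠ k') ≤ 4 * P.sg b * Ws W Y)
    (hx : (Real.log b)^(-Cl) ≤ c * Ws W X) (hy : (Real.log b)^(-Cl) ≤ c' * Ws W Y)
    (hF : CBd b C Ce K₁ s₁ s₂ al W D D' c B X c' B' Y F) :
    F ≤ 2 * η * ((c * Ws W X) * (c' * Ws W Y)) := by
  obtain ⟨n, φ, h1, h2, -, -, h4⟩ := hF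
  have k1 := hK.off_alive n _ _ _ φ (c * Ws W X) (c' * Ws W Y) h1 (fun i j => hal _)
    (sum_xm hW hc n) (sum_xm hW hc' n) hx hy
  have k2 := hK.eq_alive n _ _ φ (c * Ws W X) (c' * Ws W Y) (fun j => j ≠ k') (fun j => j ≠ k) h2
    (sum_xm hW hc n) (sum_xm hW hc' n) hx hy (fun i => by
      by_cases h : i = k
      · right; rw [h]; exact hne
      · exact Or.inl h)
    ((sum_xm_le (b := b) (B := B) (S := X) hW hc (fun j => j ≠ k) n).trans (by
      rw [← hsg]
      have := mul_le_mul_of_nonneg_left hX hc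
      calc _ ≤ _ := this
        _ = _ := by ring))
    ((sum_xm_le (b := b) (B := B') (S := Y) hW hc' (fun j => j ≠ k') n).trans (by
      rw [← hsg]
      have := mul_le_mul_of_nonneg_left hY hc'
      calc _ ≤ _ := this
        _ = _ := by ring))
  linarith

end kt

end Crest.Agent.R4P.ExS26
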