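import Crest.Agent.R4P.RseC_23

/-!
R4 (S0004), powers pass, helper23: **the energy `rseR` at one node of a context** (`rse_node`).

* `NF X u τ` : facts of one node, `ctx_NF` : all the nodes of a context;
* `alive_facts` : radii, masses, tameness of the alive items of a node;
* `rse_node` : the energy of the pairs with one index, different retained parts or tags.
-/

set_option autoImplicit false
set_option linter.unusedSectionVars false
set_option linter.unusedVariables false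

open MeasureTheory Filter

namespace Crest.Agent.R4P.RseNd23

open Crest.Agent.R4P.Cnt588 Crest.Agent.R4P.Item758 Crest.Agent.R4P.W363
open Crest.Agent.R4P.Data758 Crest.Agent.R4P.OmSt532 Crest.Agent.R4P.OmData532
open Crest.Agent.R4P.LfDat734 Crest.Agent.R4P.WPex189
open Crest.Agent.R4P.Bld532 (NS All NodeOk Bk)
open Crest.Agent.R4P.Step588 (NDt ND1 ctx_NDt uq_lt)
open Crest.Agent.R4P.WalkIT579 (tp isL nodeOk_hi top_of_nodeOk)
open Crest.Agent.R4P.Skel189 Crest.Agent.R4P.RseSt23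
open Crest.Agent.R4.LF363 (Lab)
open Crest.Agent.R4.HVW560 (cof)
open Crest.Agent.R4.AvgItem710 (Dp mul_cof mul_cof' cof_pos cof_coprime exists_of_I_ne)
open Crest.Agent.R4P.AvgItem710
open Crest.Agent.R4.ClosL758 Crest.Agent.R4.ClosR758 Crest.Agent.R4.Tour104 Crest.Agent.R4.Fam464
open Crest.Agent.R4.Tour758 Crest.Agent.R4.Avg758
open Crest.Agent.R4P.Frame758
open Crest.Agent.R4.Soft104 (w)
open Crest.Agent.R4

/-! ### facts of the nodes -/

theorem All_lv {n : ℕ} : ∀ (t : IT) (u : NS), t.Ok u.n → u.n ≤ n →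
    All (fun u τ => u.n ≤ n) u t := by
  intro t
  induction t with
  | leaf S => intro u hO h; exact h
  | br p Sp t₁ t₀ ih₁ ih₀ =>
    intro u hO h
    have hp := hO.2.1
    exact ⟨h, ih₁ ⟨p, _, _, _⟩ hO.2.2.2.2.1 (by show p ≤ n; omega),
      ih₀ ⟨p, _, _, _⟩ hO.2.2.2.2.2 (by show p ≤ n; omega)⟩
  | add p t₁ t₀ ih₁ ih₀ =>
    intro u hO h
    have hp := hO.2.1
    exact ⟨h, ih₁ ⟨p + 1, _, _, _⟩ hO.2.2.2.1 (by show p + 1 ≤ n; omega),
      ih₀ ⟨p + 1, _, _, _⟩ hO.2.2.2.2 (by show p + 1 ≤ n; omega)⟩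
  | up p Sp t ih =>
    intro u hO h
    have hp := hO.2.1
    exact ⟨h, ih ⟨p, _, _, _⟩ hO.2.2.2 (by show p ≤ n; omega)⟩
  | pl p t ih =>
    intro u hO h
    have hp := hO.2.1
    exact ⟨h, ih ⟨p + 1, _, _, _⟩ hO.2.2 (by show p + 1 ≤ n; omega)⟩
  | far p t₁ t₀ ih₁ ih₀ =>
    intro u hO h
    have hp := hO.2.1
    exact ⟨h, ih₁ ⟨p + 1, _, _, _⟩ hO.2.2.2.1 (by show p + 1 ≤ n; omega),
      ih₀ ⟨p + 1, _, _, _⟩ hO.2.2.2.2 (by show p + 1 ≤ n; omega)⟩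

section ctx
variable {N : Skel189.Num} {γ : ℝ} {p0 P₀ : ℕ}

/-- **facts of one node of a context** -/
structure NF (X : Ctx N γ p0 P₀) (u : NS) (τ : IT) : Prop where
  nd : NDt X.par (w X.ψ) X.c.t u τ
  ms : NMass800.MsN X.c.t u τ
  rd : Step588.RdOk X u τ
  lvl : u.n ≤ top X.S
  c0 : 0 < u.c

/-- **all the nodes of a context** -/
theorem ctx_NF (N : Skel189.Num) : ∃ p₁ : ℕ, ∀ p0 ≥ p₁, ∀ (γ : ℝ) (P₀ : ℕ), 2 ≤ P₀ →
    ∀ X : Ctx N γ p0 P₀, All (NF X) ⟨top X.S, 1, 1, 1⟩ X.c.t := by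
  obtain ⟨p₁, h1⟩ := Step588.ctx_rd N
  refine ⟨p₁, fun p0 hp0 γ P₀ hP X => ?_⟩
  have hall := (((ctx_NDt X).and (Step588.ctx_MsN X)).and (h1 p0 hp0 γ P₀ hP X)).and
    ((All_lv X.c.t ⟨top X.S, 1, 1, 1⟩ X.tOk le_rfl).and (ctx_cpos X))
  exact All.mono (fun u τ hh => ⟨hh.1.1.1, hh.1.1.2, hh.1.2, hh.2.1, hh.2.2⟩) hall

/-- **the alive items of a node** -/
structure AlF (X : Ctx N γ p0 P₀) (u : NS) (τ : IT) (q : ℕ) : Prop where
  dvd : u.A ∣ q
  pos : 0 < q / u.A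
  R0 : 0 < RB X u q
  lo : RB X u q ≤ 2 * Step588.CT * Real.log (tp τ) * wA u.A (RB X u) q
  tame : ∀ z : ℝ, (tp τ : ℝ) ^ 2 ≤ z → Crest.Agent.R4.ClsB.Tame z 1 (q / u.A)
  wle : wA u.A (RB X u) q ≤ u.c * w X.ψ q
  hi : (u.B : ℝ) * X.c.r q ≤ Real.log (tp τ) ^ (N.c2 + 2)
  rr : X.c.rr q = X.c.r q

theorem alive_facts (N : Skel189.Num) : ∃ p₁ : ℕ, ∀ p0 ≥ p₁, ∀ (γ : ℝ) (P₀ : ℕ), 2 ≤ P₀ →
    ∀ X : Ctx N γ p0 P₀, ∀ (u : NS) (τ : IT), NF X u τ → ¬ isL τ → ∀ q ∈ τ.items, q ∈ X.S' →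
      AlF X u τ q := by
  have hB1 := N.hB
  have hC1 := N.hC1
  have hc2 := N.hc2
  obtain ⟨p1, h1⟩ := Step588.tot_ge N.B (N.C1 + N.c2) (by linarith)
  obtain ⟨p2, h2⟩ := LeafA734.rt_half N.B (N.C1 + N.c2) (by linarith)
  obtain ⟨p3, h3⟩ := PrTame579.tame_of_Pr N.B (N.C1 + N.c2) (by linarith)
  refine ⟨p1 + p2 + p3 + 2, fun p0 hp0 γ P₀ hP X u τ hN hl q hq hqs => ?_⟩
  have h := hN.nd
  obtain ⟨k1, k2, k3, k4⟩ := nodeOk_hi h.self.node hl
  have k2' : p0 < tp τ := k2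
  set p := tp τ with hp
  have hpr : PrunePar33.Pr X.c.t p0 (N.C1 + N.c2) N.B q := X.pr' hqs
  have hcols : ∀ b, (b ∈ X.c.t.mt q ∨ b ∈ X.c.t.sp q ∨ b ∈ X.c.t.uq q) → p0 < b :=
    fun b hb => (Bld532.cols_of_All _ _ _ _ X.nodes q b hb).2.1
  have hs := (h2 p0 (by omega) X.c.t q hpr hcols).2
  have hd := h.bk.dvd q hq
  have hpos : 0 < q / u.A := Nat.pos_of_ne_zero (h.div_ne hq)
  have hr0 := X.rpos hqs
  have hrr : X.c.rr q = X.c.r q := if_pos hr0
  have hrψ := Step588.ctx_rr X hqs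
  have hB0 : (0 : ℝ) < u.B := by exact_mod_cast h.B_pos
  have hR0 : 0 < RB X u q := mul_pos hB0 (by rw [hrr]; exact hr0)
  have hge : ∀ l : ℕ, l.Prime → p < l → u.n ≤ l := fun l hl1 hl2 => by
    by_contra hlt
    have := k4 l hl1 (not_le.1 hlt)
    omega
  have hp2 : (2 : ℝ) ≤ p := by exact_mod_cast (by omega : 2 ≤ p)
  have hlp0 : 0 < Real.log p := Real.log_pos (by linarith)
  refine
    { dvd := hd
      pos := hpos
      R0 := hR0
      lo := ?_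
      tame := ?_
      wle := ?_
      hi := ?_
      rr := hrr }
  · have key := h1 p0 (by omega) X.c.t q hpr (fun l hl => (rt_prime X.c.t X.tOk q l hl).1) (p + 1)
      (by omega) (q / u.A) hpos (fun l hl1 hl2 hl3 => h.self.ge q hq l hl1
        (hge l hl1 (by omega)) hl2)
    have hlog2 : Real.log ((p + 1 : ℕ) : ℝ) ≤ 2 * Real.log p := by
      have h5 : ((p + 1 : ℕ) : ℝ) ≤ (p : ℝ) ^ 2 := by push_cast; nlinarith
      have h6 : (0 : ℝ) < ((p + 1 : ℕ) : ℝ) := by push_cast; linarith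
      have h7 := Real.log_le_log h6 h5
      rw [Real.log_pow] at h7
      exact_mod_cast h7
    have hCT := Step588.CT_pos
    set tt : ℝ := ((q / u.A).totient : ℝ) / ((q / u.A : ℕ) : ℝ) with htt
    have htt0 : 0 ≤ tt := by rw [htt]; positivity
    have h8 : 1 ≤ 2 * Step588.CT * Real.log p * tt := by
      refine key.trans ?_
      refine mul_le_mul_of_nonneg_right ?_ htt0
      nlinarith
    have h9 : RB X u q * 1 ≤ RB X u q * (2 * Step588.CT * Real.log p * tt) :=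
      mul_le_mul_of_nonneg_left h8 hR0.le
    unfold wA
    rw [← htt]
    linarith
  · intro z hz
    have hpz : (p : ℝ) ≤ z := by nlinarith
    have hp0z : (p0 : ℝ) ≤ z := by
      have : (p0 : ℝ) ≤ p := by exact_mod_cast k2'.le
      linarith
    refine ⟨one_dvd _, ?_⟩
    rw [Nat.div_one]
    refine le_trans (Finset.sum_le_sum_of_subset_of_nonneg ?_ fun i _ _ => by positivity)
      (h3 p0 (by omega) X.c.t q hpr z hp0z).1
    intro l hl
    obtain ⟨hl1, hl2⟩ := Finset.mem_filter.1 hl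
    have hlp := Nat.prime_of_mem_primeFactors hl1
    have hld := Nat.dvd_of_mem_primeFactors hl1
    have hpl : p < l := by exact_mod_cast lt_of_le_of_lt hpz hl2
    exact Finset.mem_filter.2 ⟨h.self.ge q hq l hlp (hge l hlp hpl) hld, hl2⟩
  · have h5 := hN.ms.ms X.tOk h.fit hq hs
    have e1 : wA u.A (RB X u) q = X.c.rr q * (u.B * R4.DeepSt579.tq (q / u.A)) := by
      unfold wA R4.DeepSt579.tq
      ring
    have e2 : u.c * w X.ψ q = X.c.rr q * (2 * (u.c * R4.DeepSt579.tq q)) := by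
      rw [hrψ]
      unfold R4.DeepSt579.tq R4.Soft104.w
      ring
    rw [e1, e2]
    exact mul_le_mul_of_nonneg_left h5 (by rw [hrr]; exact hr0.le)
  · have := hN.rd.col hl q hq hqs
    rwa [hrr] at this

/-! ### numbers -/

lemma num_p (c : ℝ) : ∃ p₁ : ℕ, ∀ p : ℕ, p₁ ≤ p → 2 ≤ p ∧ 1 ≤ Real.log p ∧
    Real.exp (Real.log p ^ (4/5:ℝ)) ≤ (p:ℝ) ^ (1/2:ℝ) ∧ 32 * (Real.log p ^ c) ^ 4 < p ∧
    Real.log p ^ c ≤ (p:ℝ) ^ (1/2:ℝ) := by
  have e1 := ((isLittleO_log_rpow_rpow_atTop (4 * c) (show (0:ℝ) < 1 by norm_num)).bound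
    (show (0:ℝ) < 1/64 by norm_num))
  have e2 := ((isLittleO_log_rpow_rpow_atTop c (show (0:ℝ) < 1/2 by norm_num)).bound
    (show (0:ℝ) < 1 by norm_num))
  obtain ⟨x₀, hx⟩ := eventually_atTop.1 (e1.and e2)
  refine ⟨⌈x₀⌉₊ + ⌈Real.exp 64⌉₊ + 2, fun p hp => ?_⟩
  have hpx : x₀ ≤ p := (Nat.le_ceil x₀).trans (by exact_mod_cast (by omega : ⌈x₀⌉₊ ≤ p))
  have hpe : Real.exp 64 ≤ p :=
    (Nat.le_ceil _).trans (by exact_mod_cast (by omega : ⌈Real.exp 64⌉₊ ≤ p))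
  have hp0 : (0:ℝ) < p := (Real.exp_pos _).trans_le hpe
  have hL : (64:ℝ) ≤ Real.log p := by rwa [Real.le_log_iff_exp_le hp0]
  have hL0 : 0 < Real.log p := by linarith
  obtain ⟨g1, g2⟩ := hx p hpx
  rw [Real.norm_of_nonneg (Real.rpow_nonneg hL0.le _),
    Real.norm_of_nonneg (Real.rpow_nonneg hp0.le _)] at g1 g2
  refine ⟨by omega, by linarith, ?_, ?_, by linarith⟩
  · rw [Real.rpow_def_of_pos hp0]
    refine Real.exp_le_exp.2 ?_
    have h1 : Real.log p ^ (4/5:ℝ) = Real.log p * Real.log p ^ (-(1/5):ℝ) := by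
      conv_rhs => rw [← Real.rpow_one (Real.log (p:ℝ)), ← Real.rpow_mul hL0.le,
        ← Real.rpow_add hL0]
      norm_num
    rw [h1]
    refine mul_le_mul_of_nonneg_left ?_ hL0.le
    have h2 : Real.log p ^ (-(1/5):ℝ) ≤ (64:ℝ) ^ (-(1/5):ℝ) :=
      Real.rpow_le_rpow_of_nonpos (by norm_num) hL (by norm_num)
    refine h2.trans ?_
    have h3 : (64:ℝ) ^ (-(1/5):ℝ) ≤ (32:ℝ) ^ (-(1/5):ℝ) :=
      Real.rpow_le_rpow_of_nonpos (by norm_num) (by norm_num) (by norm_num)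
    refine h3.trans (le_of_eq ?_)
    rw [show (32:ℝ) = 2 ^ (5:ℝ) by norm_num, ← Real.rpow_mul (by norm_num)]
    norm_num
  · have h4 : (Real.log p ^ c) ^ 4 = Real.log p ^ (4 * c) := by
      rw [← Real.rpow_natCast, ← Real.rpow_mul hL0.le]
      congr 1
      push_cast; ring
    rw [Real.rpow_one] at g1
    rw [h4]
    linarith

/-! ### the node -/

open Classical in
/-- the alive items of a population at a node -/
noncomputable def al (X : Ctx N γ p0 P₀) (τ : IT) (A : Finset X.c.Lam) : Finset ℕ :=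
  τ.items.filter fun q => q ∈ X.S' ∧ ∃ j ∈ A, j.1.1 = q

set_option maxHeartbeats 1000000 in
/-- **the energy of the pairs of one index, different retained parts or tags, at one node** -/
theorem rse_node (N : Skel189.Num) {κ : ℝ} (hκ : 0 < κ) : ∃ p₁ : ℕ, ∀ p0 ≥ p₁,
    ∀ (γ : ℝ) (P₀ : ℕ), 2 ≤ P₀ → ∀ X : Ctx N γ p0 P₀, RseH X →
    ∀ (Y : Finset (ℕ × ℕ × Finset ℕ)) (u : NS) (τ : IT), NF X u τ → ¬ isL τ →
    ∀ A : Finset X.c.Lam,
      Q (RS X Y (tp τ)) (Uv X Y u τ A) (Uv X Y u τ A) ≤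
        κ * (u.c * ∑ q ∈ al X τ A, w X.ψ q) := by
  classical
  have hc2 := N.hc2
  have hCT := Step588.CT_pos
  obtain ⟨p1, h1⟩ := alive_facts N
  obtain ⟨p2, h2⟩ := rseU' (2 * Step588.CT) N.c2 (by positivity) hc2 (κ := κ / 3) (by positivity)
  obtain ⟨p3, h3⟩ := rseL' (2 * Step588.CT) N.c2 (by positivity) hc2 (κ := κ / 3) (by positivity)
  obtain ⟨p4, h4⟩ := rseT' (2 * Step588.CT) (by positivity) (k := κ / 3) (by positivity)
  obtain ⟨p5, h5⟩ := num_p (N.c2 + 2)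
  refine ⟨p1 + p2 + p3 + p4 + p5, fun p0 hp0 γ P₀ hP X hX Y u τ hN hl A => ?_⟩
  have h := hN.nd
  obtain ⟨k1, k2, k3, k4⟩ := nodeOk_hi h.self.node hl
  have k2' : p0 < tp τ := k2
  set p := tp τ with hp
  have hpt : p ≤ top X.S := k3.le.trans hN.lvl
  obtain ⟨n1, n2, n3, n4, n5⟩ := h5 p (by omega)
  have hpR : (0:ℝ) < p := by exact_mod_cast (by omega : 0 < p)
  have hpR1 : (1:ℝ) ≤ p := by exact_mod_cast (by omega : 1 ≤ p)
  have hlam := hX.lam p k2' hpt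
  have hdep := hX.dep p k2' hpt
  have hthr := hX.thr p k2'
  set T : Finset ℕ := al X τ A with hT
  have hTm : ∀ q ∈ T, q ∈ τ.items ∧ q ∈ X.S' := fun q hq => by
    rw [hT] at hq
    unfold al at hq
    obtain ⟨a1, a2⟩ := Finset.mem_filter.1 hq
    exact ⟨a1, a2.1⟩
  have hTF : ∀ q ∈ T, AlF X u τ q := fun q hq =>
    h1 p0 (by omega) γ P₀ hP X u τ hN hl q (hTm q hq).1 (hTm q hq).2
  set D := X.c.D.par Y with hD
  set F : ℕ × ℕ → ℝ := fun e => D.iF (RS X Y p) (Uv X Y u τ A) (Uv X Y u τ A) e with hF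
  set E : Finset (ℕ × ℕ) := D.PE (RS X Y p) (Uv X Y u τ A) (Uv X Y u τ A) with hE
  set st : ℕ → Option ℚ := fun q => X.c.st p q with hst
  have hET : ∀ e ∈ E, e.1 ∈ T ∧ e.2 ∈ T := by
    intro e he
    obtain ⟨j, j', hj, hj', rfl, i1, i2, -, -, y, a, a', o1, o2, -⟩ := PE_link h he
    have hs1 : j.1.1 ∈ X.S' := by
      by_contra hc
      exact o1 (X.om_zero hc _ _)
    have hs2 : j'.1.1 ∈ X.S' := by
      by_contra hc
      exact o2 (X.om_zero hc _ _)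
    rw [hT]
    unfold al
    exact ⟨Finset.mem_filter.2 ⟨i1, hs1, j, hj, rfl⟩, Finset.mem_filter.2 ⟨i2, hs2, j', hj', rfl⟩⟩
  have hsome : ∀ e ∈ E, (st e.1).isSome = (st e.2).isSome := by
    intro e he
    obtain ⟨j, j', hj, hj', rfl, i1, i2, hix, -⟩ := PE_link h he
    exact isSome_pair hlam hix
  have hwA0 : ∀ q ∈ T, 0 ≤ wA u.A (RB X u) q := fun q hq => by
    unfold wA
    have := (hTF q hq).R0.le
    positivity
  -- masses
  have hM : ∑ q ∈ T, wA u.A (RB X u) q ≤ u.c * ∑ q ∈ T, w X.ψ q := by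
    rw [Finset.mul_sum]
    exact Finset.sum_le_sum fun q hq => (hTF q hq).wle
  have hM2 : ∑ q ∈ T, wA u.A (RB X u) q ≤ Real.log p ^ N.c2 := by
    refine hM.trans (le_trans ?_ k1)
    refine mul_le_mul_of_nonneg_left ?_ hN.c0.le
    unfold Ws
    refine Finset.sum_le_sum_of_subset_of_nonneg (fun q hq => (hTm q hq).1) fun q _ _ => X.hW q
  have hsub : ∀ T' ⊆ T, ∑ q ∈ T', wA u.A (RB X u) q ≤ ∑ q ∈ T, wA u.A (RB X u) q := fun T' hT' =>
    Finset.sum_le_sum_of_subset_of_nonneg hT' fun q hq _ => hwA0 q hq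
  -- the three parts
  set TU := T.filter fun q => (st q).isSome = false with hTU
  set TL := T.filter fun q => (st q).isSome = true with hTL
  set EU := E.filter fun e => (st e.1).isSome = false with hEU
  set EL := (E.filter fun e => ¬ (st e.1).isSome = false).filter
    (fun e => ret X.c.t p e.1 ≠ ret X.c.t p e.2) with hEL
  set ET := (E.filter fun e => ¬ (st e.1).isSome = false).filter
    (fun e => ¬ ret X.c.t p e.1 ≠ ret X.c.t p e.2) with hETd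
  have hsplit : ∑ e ∈ E, F e = ∑ e ∈ EU, F e + (∑ e ∈ EL, F e + ∑ e ∈ ET, F e) := by
    rw [Finset.sum_filter_add_sum_filter_not, Finset.sum_filter_add_sum_filter_not]
  have hA0 : 0 < u.A := h.A_pos
  -- a cofactor of the pairs with different retained parts
  have hcofr : ∀ q ∈ T, ∀ r ∈ T, ret X.c.t p q ≠ ret X.c.t p r →
      p ≤ cof (q / u.A) (r / u.A) ∨ p ≤ cof (r / u.A) (q / u.A) := by
    intro q hq r hr hne
    obtain ⟨b, hb, hpb, hh⟩ := sep_ret h X.tOk hl (hTm q hq).1 (hTm r hr).1 hne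
    rcases hh with ⟨-, b1, b2⟩ | ⟨-, b1, b2⟩
    · left
      have h6 := Nat.le_of_dvd (Nat.div_pos (Nat.le_of_dvd (hTF q hq).pos (Nat.gcd_dvd_left _ _))
        (Nat.gcd_pos_of_pos_left _ (hTF q hq).pos)) (dvd_cof hb b1 b2)
      exact hpb.le.trans h6
    · right
      have h6 := Nat.le_of_dvd (Nat.div_pos (Nat.le_of_dvd (hTF r hr).pos (Nat.gcd_dvd_left _ _))
        (Nat.gcd_pos_of_pos_left _ (hTF r hr).pos)) (dvd_cof hb b1 b2)
      exact hpb.le.trans h6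
  have hcoft : ∀ q ∈ T, ∀ r ∈ T, X.c.tg p q ≠ X.c.tg p r →
      2 ^ p ≤ cof (q / u.A) (r / u.A) ∨ 2 ^ p ≤ cof (r / u.A) (q / u.A) := by
    intro q hq r hr hne
    rw [cof_div hA0 (hTF q hq).dvd (hTF r hr).dvd, cof_div hA0 (hTF r hr).dvd (hTF q hq).dvd]
    exact hX.sep p k2' hpt q (hTm q hq).2 r (hTm r hr).2 hne
  have hp2p : p ≤ 2 ^ p := Nat.lt_two_pow_self.le
  -- unlabelled
  have hEUle : ∑ e ∈ EU, F e ≤ κ / 3 * ∑ q ∈ TU, wA u.A (RB X u) q := by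
    set η : ℝ := Real.exp (-(Real.log p ^ (4/5:ℝ))) with hη
    have hη0 : 0 < η := Real.exp_pos _
    have hηe : etaL X.c.wp p ≤ η := by
      unfold etaL
      rw [hη, Real.exp_neg, ← one_div, div_le_div_iff₀ (by positivity) (Real.exp_pos _)]
      linarith
    have hsqp : (p:ℝ) ^ (1/2:ℝ) * (p:ℝ) ^ (1/2:ℝ) = p := by
      rw [← Real.rpow_add hpR]; norm_num
    have hsq0 : 0 < (p:ℝ) ^ (1/2:ℝ) := Real.rpow_pos_of_pos hpR _
    have hsq1 : 1 ≤ (p:ℝ) ^ (1/2:ℝ) := Real.one_le_rpow hpR1 (by norm_num)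
    have hinv : (p:ℝ) ^ (-(1/2:ℝ)) * (p:ℝ) ^ (1/2:ℝ) = 1 := by
      rw [← Real.rpow_add hpR]; norm_num
    have hηp' : (p:ℝ) ^ (1/2:ℝ) ≤ η * p := by
      have e1 : η * Real.exp (Real.log p ^ (4/5:ℝ)) = 1 := by
        rw [hη, ← Real.exp_add]; simp
      calc (p:ℝ) ^ (1/2:ℝ) = (η * Real.exp (Real.log p ^ (4/5:ℝ))) * (p:ℝ) ^ (1/2:ℝ) := by
            rw [e1, one_mul]
        _ = η * (Real.exp (Real.log p ^ (4/5:ℝ)) * (p:ℝ) ^ (1/2:ℝ)) := by ring
        _ ≤ η * ((p:ℝ) ^ (1/2:ℝ) * (p:ℝ) ^ (1/2:ℝ)) :=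
            mul_le_mul_of_nonneg_left (mul_le_mul_of_nonneg_right n3 hsq0.le) hη0.le
        _ = η * p := by rw [hsqp]
    have hEUT : EU ⊆ TU ×ˢ TU := by
      intro e he
      obtain ⟨he1, he2⟩ := Finset.mem_filter.1 he
      obtain ⟨t1, t2⟩ := hET e he1
      have hs := hsome e he1
      exact Finset.mem_product.2 ⟨Finset.mem_filter.2 ⟨t1, he2⟩,
        Finset.mem_filter.2 ⟨t2, hs ▸ he2⟩⟩
    have hnone : ∀ q, (st q).isSome = false → st q = none := fun q hq => by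
      rw [← Option.not_isSome_iff_eq_none, hq]; simp
    refine h2 p (by omega) u.A η (u.B * X.c.γ) TU EU (RB X u) F
      (fun q hq => (hTF q (Finset.mem_filter.1 hq).1).dvd) hη0 le_rfl (hsq1.trans hηp') hEUT
      (fun q hq => ⟨(hTF q (Finset.mem_filter.1 hq).1).pos, (hTF q (Finset.mem_filter.1 hq).1).R0⟩)
      (fun q hq => (hTF q (Finset.mem_filter.1 hq).1).lo)
      (fun z hz q hq => (hTF q (Finset.mem_filter.1 hq).1).tame z hz)
      ((hsub TU (Finset.filter_subset _ _)).trans hM2) ?_ ?_ ?_ ?_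
    · intro e he
      obtain ⟨he1, he2⟩ := Finset.mem_filter.1 he
      obtain ⟨t1, t2⟩ := hET e he1
      obtain ⟨j, j', hj, hj', hee, i1, i2, hix, hdis, -⟩ := PE_link h he1
      have hd' : ret X.c.t p e.1 ≠ ret X.c.t p e.2 ∨ X.c.tg p e.1 ≠ X.c.tg p e.2 := by
        rw [hee]; exact hdis
      rcases hd' with hd' | hd'
      · exact hcofr _ t1 _ t2 hd'
      · rcases hcoft _ t1 _ t2 hd' with h6 | h6
        · exact Or.inl (hp2p.trans h6)
        · exact Or.inr (hp2p.trans h6)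
    · intro e he
      obtain ⟨he1, he2⟩ := Finset.mem_filter.1 he
      obtain ⟨t1, t2⟩ := hET e he1
      exact F_none h hpt hlam (hTm _ t1).1 (hTm _ t2).1 hηe (hnone _ he2)
        (hnone _ (hsome e he1 ▸ he2))
    · intro e he _
      obtain ⟨he1, he2⟩ := Finset.mem_filter.1 he
      have hs2 := hsome e he1
      obtain ⟨j, j', hj, hj', hee, i1, i2, hix, hdis, y, a, a', o1, o2, l1, l2, l3, l4⟩ :=
        PE_link h he1
      subst hee
      have k := rel_none h hpt hlam hix i1 i2 (hnone _ he2) (hnone _ (hs2 ▸ he2)) l1 l2 l3 l4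
      refine ⟨a, a', k.trans (mul_le_mul_of_nonneg_right hηe ?_)⟩
      unfold DA Crest.Agent.R4.AvgItem710.Dp
      refine le_max_of_le_left ?_
      have := (X.ok.rad Y).pos j.1.1
      positivity
    · intro q hq hthin ρ
      obtain ⟨hq1, hq2⟩ := Finset.mem_filter.1 hq
      have hf := hTF q hq1
      have hR : RB X u q = u.B * X.c.r q := by
        show (u.B:ℝ) * X.c.rr q = _
        rw [hf.rr]
      rw [hR]
      refine st_noneB h X.tOk hl (hTm q hq1).1 hlam (hnone _ hq2) ?_ ρ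
      rw [← hR]
      refine le_trans ?_ hthr
      have h7 : RB X u q * (p:ℝ) ^ (1/2:ℝ) ≤ 1 :=
        (mul_le_mul_of_nonneg_left hηp' hf.R0.le).trans hthin
      calc RB X u q = RB X u q * ((p:ℝ) ^ (-(1/2:ℝ)) * (p:ℝ) ^ (1/2:ℝ)) := by rw [hinv, mul_one]
        _ = (RB X u q * (p:ℝ) ^ (1/2:ℝ)) * (p:ℝ) ^ (-(1/2:ℝ)) := by ring
        _ ≤ 1 * (p:ℝ) ^ (-(1/2:ℝ)) :=
            mul_le_mul_of_nonneg_right h7 (Real.rpow_nonneg hpR.le _)
        _ = _ := one_mul _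
  -- labels
  have hsomeL : ∀ q, ¬ (st q).isSome = false → ∃ σ, st q = some σ := fun q hq => by
    rw [Bool.not_eq_false] at hq
    exact Option.isSome_iff_exists.1 hq
  have hELle : ∑ e ∈ EL, F e ≤ κ / 3 * ∑ q ∈ TL, wA u.A (RB X u) q := by
    have hK : ∀ s : ℕ, tp τ < s → Real.log p ^ (N.c2 + 2) ≤ s * X.c.wp.thr s := by
      intro s hs
      have hsR : (0:ℝ) < s := by
        have : 0 < s := by omega
        exact_mod_cast this
      have hps : (p:ℝ) ≤ s := by exact_mod_cast hs.le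
      have h6 := hX.thr s (k2'.trans hs)
      have h7 : (s:ℝ) ^ (1/2:ℝ) = s * (s:ℝ) ^ (-(1/2:ℝ)) := by
        conv_rhs => rw [← Real.rpow_one (s:ℝ), ← Real.rpow_mul hsR.le, ← Real.rpow_add hsR]
        norm_num
      calc Real.log p ^ (N.c2 + 2) ≤ (p:ℝ) ^ (1/2:ℝ) := n5
        _ ≤ (s:ℝ) ^ (1/2:ℝ) := Real.rpow_le_rpow hpR.le hps (by norm_num)
        _ = s * (s:ℝ) ^ (-(1/2:ℝ)) := h7
        _ ≤ s * X.c.wp.thr s := mul_le_mul_of_nonneg_left h6 hsR.le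
    have hthr0 : 0 < X.c.wp.thr (tp τ) := (Real.rpow_pos_of_pos hpR _).trans_le hthr
    have hK4 : 32 * (Real.log p ^ (N.c2 + 2)) ^ 4 < (tp τ : ℝ) ^ 2 * X.c.wp.thr (tp τ) ^ 2 := by
      refine n4.trans_le ?_
      have h7 : ((p:ℝ) ^ (-(1/2:ℝ))) ^ 2 ≤ X.c.wp.thr (tp τ) ^ 2 :=
        pow_le_pow_left₀ (Real.rpow_nonneg hpR.le _) hthr 2
      have h8 : ((p:ℝ) ^ (-(1/2:ℝ))) ^ 2 = (p:ℝ)⁻¹ := by
        rw [← Real.rpow_natCast, ← Real.rpow_mul hpR.le, ← Real.rpow_neg_one]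
        norm_num
      rw [h8] at h7
      calc (p:ℝ) = (p:ℝ) ^ 2 * (p:ℝ)⁻¹ := by field_simp
        _ ≤ (p:ℝ) ^ 2 * X.c.wp.thr (tp τ) ^ 2 := mul_le_mul_of_nonneg_left h7 (sq_nonneg _)
    obtain ⟨Λf, hΛ, hlab⟩ := lab_nodeB h X.tOk hl (wp := X.c.wp) (wpL := X.c.wpL) (lam := X.c.lam)
      (lv := X.c.lv) (γ := X.c.γ) (r := X.c.r) hK hthr0 hK4
    have hELT : EL ⊆ TL ×ˢ TL := by
      intro e he
      obtain ⟨he1, he2⟩ := Finset.mem_filter.1 he
      obtain ⟨he3, he4⟩ := Finset.mem_filter.1 he1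
      obtain ⟨t1, t2⟩ := hET e he3
      have hs := hsome e he3
      rw [Bool.not_eq_false] at he4
      exact Finset.mem_product.2 ⟨Finset.mem_filter.2 ⟨t1, he4⟩,
        Finset.mem_filter.2 ⟨t2, hs ▸ he4⟩⟩
    refine h3 p (by omega) u.A (u.B * X.c.γ) TL EL (RB X u)
      (fun q => (u.B : ℚ) * (st q).getD 0) Λf F
      (fun q hq => (hTF q (Finset.mem_filter.1 hq).1).dvd) ?_ hELT
      (fun q hq => ⟨(hTF q (Finset.mem_filter.1 hq).1).pos, (hTF q (Finset.mem_filter.1 hq).1).R0⟩)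
      (fun q hq => (hTF q (Finset.mem_filter.1 hq).1).lo)
      ((hsub TL (Finset.filter_subset _ _)).trans hM2) ?_ ?_ ?_
    · have : ((Λf.card : ℕ) : ℝ) ≤ 1 := by exact_mod_cast hΛ
      linarith
    · intro q hq
      obtain ⟨hq1, hq2⟩ := Finset.mem_filter.1 hq
      have hf := hTF q hq1
      obtain ⟨σ, hσ⟩ := Option.isSome_iff_exists.1 hq2
      have hR : RB X u q = u.B * X.c.r q := by
        show (u.B:ℝ) * X.c.rr q = _
        rw [hf.rr]
      rw [hσ, Option.getD_some, hR]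
      rcases hlab q (hTm q hq1).1 hf.hi σ hσ with h6 | h6
      · exact Or.inl h6
      · refine Or.inr ⟨h6.1, le_trans ?_ h6.2.le⟩
        refine le_trans ?_ hthr
        rw [← Real.rpow_neg_one]
        exact Real.rpow_le_rpow_of_exponent_le hpR1 (by norm_num)
    · intro e he
      obtain ⟨he1, he2⟩ := Finset.mem_filter.1 he
      obtain ⟨he3, he4⟩ := Finset.mem_filter.1 he1
      obtain ⟨t1, t2⟩ := hET e he3
      obtain ⟨σ, hσ⟩ := hsomeL _ he4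
      obtain ⟨σ', hσ'⟩ := hsomeL e.2 (hsome e he3 ▸ he4)
      exact F_some h hpt hlam (hTm _ t1).1 (hTm _ t2).1 hσ hσ'
    · intro e he _
      obtain ⟨he1, he2⟩ := Finset.mem_filter.1 he
      obtain ⟨he3, he4⟩ := Finset.mem_filter.1 he1
      have hs2 := hsome e he3
      obtain ⟨σ, hσ⟩ := hsomeL _ he4
      obtain ⟨σ', hσ'⟩ := hsomeL e.2 (hs2 ▸ he4)
      rw [hσ, hσ', Option.getD_some, Option.getD_some]
      obtain ⟨j, j', hj, hj', hee, i1, i2, hix, hdis, y, a, a', o1, o2, l1, l2, l3, l4⟩ :=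
        PE_link h he3
      subst hee
      obtain ⟨x1, x2⟩ := rel_some h hpt hlam hix i1 i2 hσ hσ' l1 l2 l3 l4
      have hpos1 : 0 < j.1.1 / u.A := Nat.pos_of_ne_zero (h.div_ne i1)
      have hcop : Nat.Coprime (cof (j.1.1 / u.A) (j'.1.1 / u.A)) (cof (j'.1.1 / u.A) (j.1.1 / u.A)) :=
        cof_coprime hpos1
      have key : p ≤ LL207.Zc ((u.B : ℚ) * σ) ((u.B : ℚ) * σ') ∧
          ((u.B : ℚ) * σ) ≠ ((u.B : ℚ) * σ') := by
        obtain ⟨b, hb, hpb, hh⟩ := sep_ret h X.tOk hl i1 i2 he2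
        rcases hh with ⟨b0, b1, b2⟩ | ⟨b0, b1, b2⟩
        · have hden : b ∣ ((u.B : ℚ) * σ').den :=
            alive_den h i1 le_rfl hl hσ b0 hpb.le b1 o1 b2 x1
          have := RseAr23.Zc_of_exact hb (dvd_cof hb b1 b2) hcop ((u.B : ℚ) * σ)
            ((u.B : ℚ) * σ') x2 hden
          exact ⟨hpb.le.trans this.1, this.2⟩
        · have hden : b ∣ ((u.B : ℚ) * σ).den :=
            alive_den h i2 le_rfl hl hσ' b0 hpb.le b1 o2 b2 x1.symm
          have := RseAr23.Zc_of_exact' hb (dvd_cof hb b1 b2) hcop ((u.B : ℚ) * σ)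
            ((u.B : ℚ) * σ') x2 hden
          exact ⟨hpb.le.trans this.1, this.2⟩
      exact ⟨key.2, by exact_mod_cast key.1, a, a', x2⟩
  -- tags
  have hETle : ∑ e ∈ ET, F e ≤ κ / 3 * ∑ q ∈ T, wA u.A (RB X u) q := by
    refine h4 p (by omega) u.A T ET (RB X u) F (fun q hq => (hTF q hq).dvd) ?_
      (fun q hq => ⟨(hTF q hq).pos, (hTF q hq).R0⟩) (fun q hq => (hTF q hq).lo) ?_ ?_ ?_
    · intro e he
      obtain ⟨he1, he2⟩ := Finset.mem_filter.1 he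
      obtain ⟨he3, he4⟩ := Finset.mem_filter.1 he1
      exact Finset.mem_product.2 (hET e he3)
    · intro e he l hlp hld
      obtain ⟨he1, he2⟩ := Finset.mem_filter.1 he
      obtain ⟨he3, he4⟩ := Finset.mem_filter.1 he1
      obtain ⟨t1, t2⟩ := hET e he3
      rw [not_not] at he2
      rcases hld with hld | hld
      · exact smooth_ret h X.tOk hl (hTm _ t1).1 (hTm _ t2).1 he2 hlp hld
      · exact smooth_ret h X.tOk hl (hTm _ t2).1 (hTm _ t1).1 he2.symm hlp hld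
    · intro e he
      obtain ⟨he1, he2⟩ := Finset.mem_filter.1 he
      obtain ⟨he3, he4⟩ := Finset.mem_filter.1 he1
      obtain ⟨t1, t2⟩ := hET e he3
      rw [not_not] at he2
      obtain ⟨j, j', hj, hj', hee, i1, i2, hix, hdis, -⟩ := PE_link h he3
      have hd' : ret X.c.t p e.1 ≠ ret X.c.t p e.2 ∨ X.c.tg p e.1 ≠ X.c.tg p e.2 := by
        rw [hee]; exact hdis
      exact hcoft _ t1 _ t2 (hd'.resolve_left (not_not.2 he2))
    · intro e he
      obtain ⟨he1, he2⟩ := Finset.mem_filter.1 he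
      obtain ⟨he3, he4⟩ := Finset.mem_filter.1 he1
      obtain ⟨t1, t2⟩ := hET e he3
      obtain ⟨σ, hσ⟩ := hsomeL _ he4
      obtain ⟨σ', hσ'⟩ := hsomeL e.2 (hsome e he3 ▸ he4)
      exact F_some h hpt hlam (hTm _ t1).1 (hTm _ t2).1 hσ hσ'
  rw [D.Q_eq]
  show ∑ e ∈ E, F e ≤ _
  rw [hsplit]
  have hκ3 : 0 ≤ κ / 3 := by positivity
  have s1 := mul_le_mul_of_nonneg_left (hsub TU (Finset.filter_subset _ _)) hκ3
  have s2 := mul_le_mul_of_nonneg_left (hsub TL (Finset.filter_subset _ _)) hκ3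
  have s3 := mul_le_mul_of_nonneg_left hM hκ.le
  linarith

end ctx

end Crest.Agent.R4P.RseNd23
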