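import Crest.Agent.R4P.PayA_26
import Crest.Agent.R4P.AccRoot_31
import Crest.Agent.R4P.AccAl_31
import Crest.Agent.R4P.VCtx_29
import Crest.Agent.R4P.CtxNF_36
import Crest.Agent.R4P.RseC2_23

/-!
R4 (S0004) with powers, module D (crossing pairs), helper26: **the part `eXR` of a context from the bound of
the crossing states** (`CBX`).

* `PrN`, `JC` : the averaging moduli of the states are coprime; `JC.step`, `JC.self`.
* `alX_pow` : the letter sums are at most `b ^ (1 / 50)`.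
* `CZ.mono`, `CBX.anti` : further facts of the nodes.
* `part_eXR` : `PartWF` of `eXR`.
* `SXN_blind`, `SXN_nosplit`, `SXN_st`, `SXN_jt` : the strategy.
-/

set_option autoImplicit false
set_option linter.unusedSectionVars false
set_option linter.unusedVariables false

namespace Crest.Agent.R4P.FinX26

open Crest.Agent.R4.Tour104 Crest.Agent.R4.Tour758 Crest.Agent.R4.Avg758 Crest.Agent.R4.Clos758
open Crest.Agent.R4.ClosL758 Crest.Agent.R4.ClosG758 Crest.Agent.R4.ClosR758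
open Crest.Agent.R4.Fam464 Crest.Agent.R4P.Cnt588 Crest.Agent.R4P.Walk560 Crest.Agent.R4.Piece464
open Crest.Agent.R4P.Item758 Crest.Agent.R4P.AvgItem710
open Crest.Agent.R4P.Data758 Crest.Agent.R4P.WalkIT579
open Crest.Agent.R4P.Bld532 (NS All NodeOk Bk Ws_nonneg Ws_mono)
open Crest.Agent.R4P.Res927 Crest.Agent.R4P.GSt927 Crest.Agent.R4P.OSWS245
open Crest.Agent.R4P.Skel189 (Ctx top Part PartW)
open Crest.Agent.R4P.Frame758 (tM tN tG tD wt)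
open Crest.Agent.R4P.ClosP542 (PulG)
open Crest.Agent.R4.Item758 (AdI AdI_univ)
open Crest.Agent.R4P.VWalk36 (crs V toZ)
open Crest.Agent.R4P.Strip29 (Blind NoSplit)
open Crest.Agent.R4.Soft104
open Crest.Agent.R4P.CtxX26 Crest.Agent.R4P.DeadX26 Crest.Agent.R4P.CrossSum29
open Crest.Agent.R4P.StratX36 Crest.Agent.R4P.SkelF29 Crest.Agent.R4P.Dd26
open Crest.Agent.R4P.AsmX26 Crest.Agent.R4P.CrsFacts26 Crest.Agent.R4P.HullCtx26
open Crest.Agent.R4P.PayV29 Crest.Agent.R4P.PayR26 Crest.Agent.R4P.PayK26 Crest.Agent.R4P.PayA26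
open Crest.Agent.R4P.VNum34 Crest.Agent.R4P.VItem34 Crest.Agent.R4P.VCtx29
open Crest.Agent.R4P.KindPay36 (CA KOk)
open Crest.Agent.R4P.CopM34
open Crest.Agent.R4P.AccN31 Crest.Agent.R4P.AccAl31 Crest.Agent.R4P.AccRoot31
open Crest.Agent.R4.ShotG223 (acc Kmx BadK acc_nonneg)
open Crest.Agent.R4P

/-! ### the moduli are coprime -/

section cop
variable {Λ κ : Type*} [Fintype Λ] [DecidableEq Λ] [Fintype κ] [DecidableEq κ] [WRel κ]

/-- the columns are prime -/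
def PrN : DT Λ κ → Prop
  | .leaf _ _ => True
  | .br p _ _ _ _ _ _ _ => p.Prime
  | .add p _ _ _ => p.Prime
  | .up p _ _ => p.Prime

omit [Fintype Λ] [DecidableEq Λ] [Fintype κ] [DecidableEq κ] [WRel κ] in
lemma PrN.top {t : DT Λ κ} (h : PrN t) (hl : ¬ t.isLeaf) : t.top.Prime := by
  cases t with
  | leaf r f => exact absurd trivial hl
  | br q w r t₁ t₀ v B G => exact h
  | add q r t₁ t₀ => exact h
  | up q Sp t => exact h

/-- the trees of items have prime columns -/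
theorem PrN_toDT (D : Item758.Par Λ κ) (sp : ℕ → Finset Λ) : ∀ (t : IT) (n b pr : ℕ), t.Ok n →
    (D.toDT sp b pr t).All PrN := by
  intro t
  induction t with
  | leaf S => intro n b pr _; exact trivial
  | br r Sp t₁ t₀ ih₁ ih₀ =>
    intro n b pr ho
    exact ⟨ho.1, ih₁ _ _ _ ho.2.2.2.2.1, ih₀ _ _ _ ho.2.2.2.2.2⟩
  | add r t₁ t₀ ih₁ ih₀ =>
    intro n b pr ho
    exact ⟨ho.1, ih₁ _ _ _ ho.2.2.2.1, ih₀ _ _ _ ho.2.2.2.2⟩
  | up r Sp t ih =>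
    intro n b pr ho
    exact ⟨ho.1, ih _ _ _ ho.2.2.2⟩
  | pl r t ih =>
    intro n b pr ho
    exact ⟨ho.1, ih _ _ _ ho.2.2, trivial⟩
  | far r t₁ t₀ ih₁ ih₀ =>
    intro n b pr ho
    exact ⟨ho.1, ih₁ _ _ _ ho.2.2.2.1, ih₀ _ _ _ ho.2.2.2.2⟩

/-- prime columns and coprime averaging moduli -/
structure JC (s : St Λ κ) : Prop where
  cop : Cop s
  L : s.t.All PrN
  R : s.t'.All PrN

theorem JC.step {stp : Stp Λ κ} {dv : DT Λ κ → Λ → Prop} {x : XSt Λ κ} (h : JC x.s) :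
    ∀ e ∈ steps stp dv x, JC e.y.s := by
  intro e he
  obtain ⟨hm, -, -⟩ := steps_mv he
  have hq := (mem_nxt.1 (steps_nxt he)).1
  obtain ⟨hl, hl'⟩ := not_or.1 (nxt0_live hq)
  have hp : x.s.p.Prime := by
    rcases max_choice x.s.t.top x.s.t'.top with e1 | e1
    · have : x.s.p = x.s.t.top := e1
      rw [this]
      exact h.L.self.top hl
    · have : x.s.p = x.s.t'.top := e1
      rw [this]
      exact h.R.self.top hl'
  exact ⟨cop_nxt0 hp h.cop _ hq, hm.L.all h.L, hm.R.all h.R⟩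

lemma JC.self {d : DT Λ κ} {A : Finset Λ} (h : d.All PrN) : JC (selfSt d A) :=
  ⟨Cop.self d A, h, h⟩

end cop

/-! ### numbers -/

set_option maxHeartbeats 1000000 in
/-- the letter sums are small powers -/
theorem alX_pow {e : ℝ} (h1 : 1 ≤ e) : ∃ P₁ : ℕ, ∀ p0 ≥ P₁, ∀ (A γ : ℝ) (b B B' : ℕ), p0 < b →
    alX A γ e b B + alX A γ e b B' ≤ (b:ℝ) ^ (1/50 : ℝ) := by
  have hz := z1_nonneg
  have ev : ∀ᶠ x : ℝ in Filter.atTop, 1 ≤ Real.log x ∧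
      400 * (3 + z1) * Real.log x ≤ x ^ (1/100 : ℝ) ∧ 1 ≤ x := by
    have h := (isLittleO_log_rpow_rpow_atTop 1 (show (0:ℝ) < 1/100 by norm_num)).def
      (show (0:ℝ) < 1 / (400 * (3 + z1)) by positivity)
    have h2 := Real.tendsto_log_atTop.eventually_ge_atTop 1
    filter_upwards [h, h2, Filter.eventually_ge_atTop (1:ℝ)] with x hx hx2 hx1
    refine ⟨hx2, ?_, hx1⟩
    rw [Real.rpow_one, Real.norm_of_nonneg (Real.log_nonneg hx1),
      Real.norm_of_nonneg (by positivity)] at hx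
    calc 400 * (3 + z1) * Real.log x ≤
        400 * (3 + z1) * (1 / (400 * (3 + z1)) * x ^ (1/100 : ℝ)) :=
          mul_le_mul_of_nonneg_left hx (by positivity)
      _ = _ := by field_simp
  obtain ⟨x₀, hx₀⟩ := Filter.eventually_atTop.1 ev
  refine ⟨⌈x₀⌉₊ + 2, fun p0 hp0 A γ b B B' hb => ?_⟩
  have hbx : x₀ ≤ (b:ℝ) := (Nat.le_ceil _).trans (by exact_mod_cast (by omega : ⌈x₀⌉₊ ≤ b))
  obtain ⟨g1, g2, g3⟩ := hx₀ b hbx
  have hb2 : 2 ≤ b := by omega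
  have hb0 : (0:ℝ) < b := by linarith
  set M := 100 * Real.log b * (2 * (b:ℝ) ^ (1/100 : ℝ)) with hM
  have hM0 : 0 < M := by positivity
  have he : 0 < e := by linarith
  have hr : 1 ≤ (b:ℝ) ^ (1/100 : ℝ) := Real.one_le_rpow g3 (by norm_num)
  have key : ∀ B : ℕ, alX A γ e b B ≤ (3 + z1) * M := by
    intro B
    have k1 : acc A b ((B:ℝ) * γ) ≤ M := acc_max A hb2 _
    have k2 : (∑ l ∈ (Finset.range (b + 1)).filter Nat.Prime,
        (l:ℝ) ^ (-(21/20) : ℝ) * acc A b (((B * l : ℕ) : ℝ) * γ) ^ e) ^ (1/e) ≤ (1 + z1) * M := by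
      have k3 : ∑ l ∈ (Finset.range (b + 1)).filter Nat.Prime,
          (l:ℝ) ^ (-(21/20) : ℝ) * acc A b (((B * l : ℕ) : ℝ) * γ) ^ e ≤ z1 * M ^ e := by
        calc _ ≤ ∑ l ∈ (Finset.range (b + 1)).filter Nat.Prime, (l:ℝ) ^ (-(21/20) : ℝ) * M ^ e :=
              Finset.sum_le_sum fun l _ => mul_le_mul_of_nonneg_left
                (Real.rpow_le_rpow (acc_nonneg _ _ _) (acc_max A hb2 _) he.le) (by positivity)
          _ = (∑ l ∈ (Finset.range (b + 1)).filter Nat.Prime, (l:ℝ) ^ (-(21/20) : ℝ)) * M ^ e := by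
              rw [Finset.sum_mul]
          _ ≤ z1 * M ^ e := mul_le_mul_of_nonneg_right (z1_le _) (by positivity)
      have k4 : z1 * M ^ e ≤ ((1 + z1) * M) ^ e := by
        rw [Real.mul_rpow (by positivity) hM0.le]
        refine mul_le_mul_of_nonneg_right ?_ (by positivity)
        calc z1 ≤ (1 + z1) ^ (1:ℝ) := by rw [Real.rpow_one]; linarith
          _ ≤ (1 + z1) ^ e := Real.rpow_le_rpow_of_exponent_le (by linarith) h1
      calc _ ≤ (((1 + z1) * M) ^ e) ^ (1/e) :=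
            Real.rpow_le_rpow (exs_nonneg _ _ _ _ _) (k3.trans k4) (by positivity)
        _ = (1 + z1) * M := by
            rw [← Real.rpow_mul (by positivity), mul_one_div_cancel he.ne', Real.rpow_one]
    have k5 : (if b ∣ B then (b:ℝ) ^ ((6/1000) : ℝ) else 0) ≤ M := by
      have k6 : (b:ℝ) ^ ((6/1000) : ℝ) ≤ (b:ℝ) ^ (1/100 : ℝ) :=
        Real.rpow_le_rpow_of_exponent_le g3 (by norm_num)
      have k7 : (b:ℝ) ^ (1/100 : ℝ) ≤ M := by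
        rw [hM]
        nlinarith
      split_ifs
      · linarith
      · exact hM0.le
    unfold alX
    linarith
  have e1 : (b:ℝ) ^ (1/50 : ℝ) = (b:ℝ) ^ (1/100 : ℝ) * (b:ℝ) ^ (1/100 : ℝ) := by
    rw [← Real.rpow_add hb0]; norm_num
  have k1 := key B
  have k2 := key B'
  calc alX A γ e b B + alX A γ e b B' ≤ 2 * ((3 + z1) * M) := by linarith
    _ = (400 * (3 + z1) * Real.log b) * (b:ℝ) ^ (1/100 : ℝ) := by rw [hM]; ring
    _ ≤ (b:ℝ) ^ (1/100 : ℝ) * (b:ℝ) ^ (1/100 : ℝ) := mul_le_mul_of_nonneg_right g2 (by linarith)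
    _ = _ := e1.symm

/-- sum of the gaps -/
noncomputable def CgX : ℝ := ∑' b : ℕ, ggX b

lemma ggX_summable : Summable ggX :=
  (Real.summable_nat_rpow.2 (by norm_num : (-(3/2) : ℝ) < -1)).mul_left 7

lemma SG_le (n : ℕ) : SG ggX n ≤ CgX := ggX_summable.sum_le_tsum _ fun b _ => ggX_nonneg b

lemma CgX_nonneg : 0 ≤ CgX := tsum_nonneg ggX_nonneg

lemma CA_nonneg {C Ch s₂ : ℝ} (hC : 0 ≤ C) (hCh : 0 ≤ Ch) (h2 : 1/2 < s₂) (h2' : s₂ ≤ 51/100) :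
    0 ≤ CA C Ch s₂ := by
  unfold CA
  have : 0 ≤ Ch * (2 * s₂ - 1) := mul_nonneg hCh (by linarith)
  exact div_nonneg (by linarith) (by linarith)

/-! ### the context -/

section ctx
variable {N : Skel189.Num} {γ : ℝ} {p0 P₀ : ℕ} {X : Ctx N γ p0 P₀} {j₀ : X.c.Lam}
  {Q' Q'' : NS → IT → Prop}

lemma QE.mono (hq : ∀ u τ, Q' u τ → Q'' u τ) {u : NS} {τ : IT} (h : QE X j₀ Q' u τ) :
    QE X j₀ Q'' u τ :=
  ⟨h.nd, h.nq, h.nf, h.mf, h.lv, h.n0, h.ok, h.pz, h.far, h.mass, h.sub, hq _ _ h.ext⟩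

lemma CS.mono (hq : ∀ u τ, Q' u τ → Q'' u τ) {b : ℕ} {u : NS} {τ : IT}
    {d : DT X.c.Lam (Lb (WL X.c.Lam) X.Y)} (h : CS X j₀ Q' b u τ d) : CS X j₀ Q'' b u τ d :=
  ⟨h.I, h.ok, All.mono (fun _ _ h => QE.mono hq h) h.q, h.lv, h.ll⟩

lemma CZ.mono (hq : ∀ u τ, Q' u τ → Q'' u τ) {b : ℕ} {z : X.Sta} {v v' : NS} {σ σ' : IT}
    (h : CZ X j₀ Q' b z v v' σ σ') : CZ X j₀ Q'' b z v v' σ σ' :=
  ⟨h.bp, h.b0, CS.mono hq h.L, CS.mono hq h.R, h.circ, h.mL, h.mR, h.A, h.A', h.sM, h.sM'⟩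

/-- the bound of the crossing states may use fewer facts -/
lemma CBX.anti (hq : ∀ u τ, Q' u τ → Q'' u τ) {B₁ C Ce K₁ s₁ s₂ : ℝ} {al : ℕ → ℕ → ℝ}
    (h : CBX X j₀ Q'' B₁ C Ce K₁ s₁ s₂ al) : CBX X j₀ Q' B₁ C Ce K₁ s₁ s₂ al :=
  fun b z v v' σ σ' hz hbt hc hR hs => h b z v v' σ σ' (CZ.mono hq hz) hbt hc hR hs

/-- the strategy of `[X]` -/
noncomputable abbrev SXN (X : Ctx N γ p0 P₀) (j₀ : X.c.Lam) : X.STP := SX X j₀ stpN

lemma stpN_stS {Λ κ : Type*} [Fintype Λ] [DecidableEq Λ] [DecidableEq κ] [WRel κ] (s : St Λ κ) :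
    stpN (Strip29.stS s) ↔ stpN s := by
  unfold stpN stpM
  rw [Strip29.stS_p]
  exact Iff.rfl

lemma SXN_blind (X : Ctx N γ p0 P₀) (j₀ : X.c.Lam) : Blind (SXN X j₀) :=
  StX_blind stpN_stS fun t => CtxNF36.rdB_strip j₀ t

lemma SXN_nosplit (X : Ctx N γ p0 P₀) (j₀ : X.c.Lam) : NoSplit (SXN X j₀) := StX_nosplit

lemma SXN_st (X : Ctx N γ p0 P₀) (j₀ : X.c.Lam) (s : X.Sta) : (SXN X j₀) s ↔ stpN s := Iff.rfl

lemma SXN_jt (X : Ctx N γ p0 P₀) (j₀ : X.c.Lam) (d : DT X.c.Lam (Lb (WL X.c.Lam) X.Y))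
    (A : Finset X.c.Lam) : (SXN X j₀).jt (selfSt d A) := StX_jt d A

end ctx

/-- the constant of the part `eXR` -/
noncomputable def a6X (B K₁ : ℝ) : ℝ :=
  2 * (120 + K₁) + 2 * (2 * K₁) + 2 * CgX + (48 + (2 * cR B + 8))

lemma a6X_nonneg {B K₁ : ℝ} (hK : 0 ≤ K₁) : 0 ≤ a6X B K₁ := by
  unfold a6X
  have := CgX_nonneg
  have := cR_nonneg B
  linarith

/-- **THE PART `eXR` OF A CONTEXT** from the bound of the crossing states -/
theorem part_eXR (N : Skel189.Num) {C Ce K₁ dl s₁ s₂ A : ℝ}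
    (hk : KOk C N.C1 N.c2 N.B K₁ dl s₁ s₂ (1/50))
    (hA : 3 * ((N.B + 2) + (CA C N.c2 s₂ + N.C1 + 1) + 4) ≤ A) :
    ∃ p₁ : ℕ, ∀ p0 ≥ p₁, ∀ (γ : ℝ) (P₀ : ℕ), 2 ≤ P₀ → ∀ (X : Ctx N γ p0 P₀) (j₀ : X.c.Lam)
      (Q' : NS → IT → Prop), All Q' ⟨top X.S, 1, 1, 1⟩ X.c.t → ∀ B₁ B : ℝ, B₁ + 1 ≤ B →
      CBX X j₀ Q' B₁ C Ce K₁ s₁ s₂ (alX A γ (1 / (1 - s₂))) → ∀ Hb : NS → IT → Prop,
      PartWF X j₀ Hb (SXN X j₀) (eXR (SXN X j₀) (X.c.D.par X.Y).rho (X.tm j₀) B) (a6X N.B K₁) := by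
  have hs2 := hk.s2
  have hs2' := hk.s2'
  have he1 : 1 ≤ 1 / (1 - s₂) := by
    rw [le_div_iff₀ (by linarith)]; linarith
  have he3 : 1 / (1 - s₂) ≤ 3 := by
    rw [div_le_iff₀ (by linarith)]; linarith
  have hCA := CA_nonneg hk.C0 hk.Ch0 hs2 hs2'
  have hB0 : 0 ≤ N.B := by
    have := hk.B0
    have := hk.C0
    have := hk.Cl0
    have := hk.Ch0
    linarith
  have hC1 := hk.Cl0
  have hCC : 0 ≤ CA C N.c2 s₂ + N.C1 + 1 := by linarith
  obtain ⟨p1, h1⟩ := CtxNF36.par_PG N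
  obtain ⟨p2, h2⟩ := ctx_V N
  obtain ⟨p3, -, h3⟩ := kt_ex hk Ce (η := 1/4) (by norm_num)
  obtain ⟨p4, h4⟩ := alX_pow he1
  obtain ⟨p5, h5⟩ := dlt_le (CA C N.c2 s₂ + N.C1 + 1) hCC
  obtain ⟨p6, -, h6⟩ := acx_root N hB0 hCC (le_refl (N.B + 2)) hA
  obtain ⟨p7, h7⟩ := alX_le (C' := CA C N.c2 s₂ + N.C1) he1 he3 (show (0:ℝ) ≤ 16 by norm_num)
  refine ⟨p1 + p2 + p3 + p4 + p5 + p6 + p7 + 1000, fun p0 hp0 γ P₀ hP X j₀ Q' hQ B₁ B hB hF Hb => ?_⟩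
  have hψ : ∀ q, 0 ≤ w X.ψ q := fun q => by
    have := X.sys.nonneg q
    unfold w
    positivity
  have hG : PG X.par (w X.ψ) := h1 p0 (by omega) (w X.ψ) hψ
  -- the node facts
  set Q₂ : NS → IT → Prop := fun u τ => Q' u τ ∧ (0 < u.n →
      V stp2 aX meI ⟨1, 1, (X.c.D.par X.Y).toDT X.c.sp u.B u.A τ,
          (X.c.D.par X.Y).toDT X.c.sp u.B u.A τ⟩ Finset.univ Finset.univ ≤
        48 * (X.tn j₀ (X.g u τ) * X.tn j₀ (X.g u τ))) ∧ u.n ≤ top X.S with hQ₂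
  have hQ2 : All Q₂ ⟨top X.S, 1, 1, 1⟩ X.c.t :=
    All.mono (fun u τ h => ⟨h.1.1, h.1.2, h.2⟩) ((hQ.and (h2 p0 (by omega) γ P₀ hP X j₀)).and
      (RseNd23.All_lv X.c.t ⟨top X.S, 1, 1, 1⟩ X.tOk le_rfl))
  have hF1 : CBX X j₀ Q₂ (B - 1) C Ce K₁ s₁ s₂ (alX A γ (1 / (1 - s₂))) :=
    (CBX.anti (fun u τ h => h.1) hF).mono hψ (by linarith)
  have hPX : PX X j₀ Q₂ (B - 1) C Ce K₁ s₁ s₂ (1/50) (1/4) (alX A γ (1 / (1 - s₂)))
      (dlt p0 A (CA C N.c2 s₂ + N.C1 + 1) γ) (ew p0) :=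
    { G := hG
      hp := by omega
      kt := fun b hb => h3 b (by omega)
      al1 := fun b hb B B' => h4 p0 (by omega) A γ b B B' hb
      al0 := fun b B => alX_nonneg _ _ _ _ _
      δ0 := fun b B => dlt_nonneg _ _ _ _ _ _
      δe := fun b B => h5 p0 (by omega) A γ b B
      δal := fun b hb hpb B => by
        have := h7 p0 (by omega) A γ b B hb hpb
        refine le_trans (le_of_eq ?_) this
        rw [Real.rpow_neg_one]
        ring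
      K0 := hk.K0
      s1 := by have := hk.s1; linarith
      s2 := by linarith
      s2' := hs2'
      η0 := by norm_num
      η1 := by norm_num
      cb := hF1
      lv := fun u τ h => h.2.2 }
  have hst : ∀ s : X.Sta, ¬ stpN s → ¬ stpN s := fun _ h => h
  have hJJ : ∀ x : XSt X.c.Lam (Lb (WL X.c.Lam) X.Y), XI x → JC x.s →
      ∀ e ∈ steps (SXN X j₀) (IMI194.dvM GInst194.mI) x, JC e.y.s := fun x _ h => h.step
  have hJ0 : ∀ u τ, All (QE X j₀ Q₂) u τ → JC (XSt.st u.n (X.self u τ Finset.univ)).s :=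
    fun u τ h => JC.self (PrN_toDT _ _ _ _ _ _ h.self.ok)
  have key := ctx_eX_R (X := X) (j₀ := j₀) hG (by omega) (stp := SXN X j₀) hst StX_nosplit
    (J := JS1 X fun x => JC x.s) (Q' := Q₂) (jn_JS1 hst hJJ) hQ2 (fun u τ h => h.2.1) hJ0
    (B := B - 1 + 1) (K := 120 + K₁) (K₂ := 2 * K₁) (Cg := CgX) (CA := 2 * cR N.B + 8)
    (by have := hk.K0; linarith) (by have := hk.K0; linarith) (gg := ggX) ggX_nonneg SG_le
    (Acc := AcX X j₀ Q₂ (fun x => JC x.s) (dlt p0 A (CA C N.c2 s₂ + N.C1 + 1) γ) (ew p0))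
    (fun u τ hq hpu => by
      have k1 := h6 p0 (by omega) γ P₀ X j₀ Q₂ (fun x => JC x.s) hG (SXN X j₀) hst StX_nosplit
        hJJ u τ hq (hJ0 u τ hq)
      refine k1.trans ?_
      have k2 : 0 ≤ X.mu j₀ u τ Finset.univ := by
        have k3 : X.mu j₀ u τ Finset.univ = u.c * Ws (w X.ψ) τ.items := hq.self.mass
        rw [k3]
        exact mul_nonneg hq.self.nf.c0.le (Ws_nonneg hψ _)
      have k4 := cR_nonneg N.B
      exact mul_le_mul_of_nonneg_left (by linarith) (by linarith))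
    (fun u₀ x v v' σ σ' hx => payR_of hPX hst hJJ (fun x h => h.cop) hx) Hb
  rw [sub_add_cancel] at key
  exact key

end Crest.Agent.R4P.FinX26
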