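import Crest.Agent.R4P.ExQ_26
import Crest.Agent.R4P.ExS_26
import Crest.Agent.R4P.LvN_26
import Crest.Agent.R4P.ExK_26
import Crest.Agent.R4P.FinX_26

/-!
R4 (S0004), POWERS, helper26, [M8], terminal exits, part 3: **the local inequality at an exit**
(context level): `xL ≤ Vz`.

* `exit_core` : from the data of the two sides.
* `side_br`, `side_up`, `side_closed` : the data of one side.
* `exit_one`, `exit_child` : the exits of the flagged walk.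
-/

set_option autoImplicit false
set_option linter.unusedSectionVars false
set_option linter.unusedVariables false

namespace Crest.Agent.R4P.ExC26

open Crest.Agent.R4.Tour104 Crest.Agent.R4.Tour758 Crest.Agent.R4.Avg758 Crest.Agent.R4.Clos758
open Crest.Agent.R4.ClosL758 Crest.Agent.R4.ClosG758 Crest.Agent.R4.ClosR758
open Crest.Agent.R4.Fam464 Crest.Agent.R4P.Cnt588 Crest.Agent.R4P.Walk560 Crest.Agent.R4.Piece464
open Crest.Agent.R4P.Item758 Crest.Agent.R4P.AvgItem710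
open Crest.Agent.R4P.Data758 Crest.Agent.R4P.WalkIT579
open Crest.Agent.R4P.Bld532 (NS All NodeOk Bk Ws_nonneg Ws_mono dv)
open Crest.Agent.R4P.Res927 Crest.Agent.R4P.GSt927 Crest.Agent.R4P.OSWS245
open Crest.Agent.R4P.Skel189 (Ctx top Part PartW)
open Crest.Agent.R4P.Frame758 (tM tN tG tD wt)
open Crest.Agent.R4.Item758 (AdI AdI_univ)
open Crest.Agent.R4P.VWalk36 (crs V toZ)
open Crest.Agent.R4P.Strip29 (Blind NoSplit)
open Crest.Agent.R4.Soft104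
open Crest.Agent.R4P.CtxX26 Crest.Agent.R4P.DeadX26 Crest.Agent.R4P.CrossSum29
open Crest.Agent.R4P.StratX36 Crest.Agent.R4P.SkelF29 Crest.Agent.R4P.Dd26
open Crest.Agent.R4P.AsmX26 Crest.Agent.R4P.CrsFacts26 Crest.Agent.R4P.HullCtx26
open Crest.Agent.R4P.PayV29 Crest.Agent.R4P.PayR26 Crest.Agent.R4P.PayK26 Crest.Agent.R4P.PayA26
open Crest.Agent.R4P.VNum34 Crest.Agent.R4P.VItem34 Crest.Agent.R4P.VCtx29
open Crest.Agent.R4P.StratN36 (ex)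
open Crest.Agent.R4P.KindPay36 (CA)
open Crest.Agent.R4P.ExS26 Crest.Agent.R4P.ExQ26 Crest.Agent.R4P.ExK26 Crest.Agent.R4P.TE26
open Crest.Agent.R4P.TW17 Crest.Agent.R4P.LvN26
open Crest.Agent.R4P.CopM34 (Cop)
open Crest.Agent.R4P

section ctx
variable {N : Skel189.Num} {γ : ℝ} {p0 P₀ : ℕ} {X : Ctx N γ p0 P₀} {j₀ : X.c.Lam}
  {Q' : NS → IT → Prop}

lemma mem_same {b : ℕ} (e : X.c.Lam × X.c.Lam) :
    e ∈ (Finset.univ : Finset (X.c.Lam × X.c.Lam)) \ Ro ((X.c.D.par X.Y).rho b) ↔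
      ((X.c.D.par X.Y).rho b e.1).1.ix = ((X.c.D.par X.Y).rho b e.2).1.ix := by
  rw [Finset.mem_sdiff, mem_Ro]
  constructor
  · rintro ⟨-, h⟩
    by_contra hne
    exact h hne
  · intro h
    exact ⟨Finset.mem_univ _, fun hr => hr h⟩

/-- **the pairs with one index at two sides** -/
lemma Qs_same {wr : ℕ → X.c.Lam → Lb (WL X.c.Lam) X.Y}
    {Ad : TrG X.c.Lam (Lb (WL X.c.Lam) X.Y) → Finset X.c.Lam → Prop}
    {μ : TrG X.c.Lam (Lb (WL X.c.Lam) X.Y) → Finset X.c.Lam → ℝ}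
    {ν : TrG X.c.Lam (Lb (WL X.c.Lam) X.Y) → ℝ} {n : ℕ} {z : X.Sta}
    (hI : Walk560.Inv wr Ad μ ν n z) (hA : z.A = Finset.univ) (hA' : z.A' = Finset.univ) {b : ℕ}
    {v v' : NS} {σ σ' : IT} (eL : z.t.g = X.g v σ) (eR : z.t'.g = X.g v' σ') {a a' : ℝ}
    (ha : EKe X b v σ ≤ a) (ha' : EKe X b v' σ' ≤ a') :
    Qs { z with R := Finset.univ \ Ro ((X.c.D.par X.Y).rho b) } ≤ Real.sqrt (a * a') := by
  have pL : ∀ j, PB (rv Finset.univ z.t.g.val j) := PB_rv (fun j => hI.L.ok.pb j) _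
  have pR : ∀ j, PB (rv Finset.univ z.t'.g.val j) := PB_rv (fun j => hI.R.ok.pb j) _
  rw [eL] at pL
  rw [eR] at pR
  have key := Q_Dr_le hI.aL.M0 hI.aR.M0 (fun j => ((X.c.D.par X.Y).rho b j).1.ix) pL pR
    (R := (Finset.univ : Finset (X.c.Lam × X.c.Lam)) \ Ro ((X.c.D.par X.Y).rho b))
    (fun e => mem_same e) ha ha'
  unfold Qs
  show Q _ (avg z.M (rv z.A z.t.g.val)) (avg z.M' (rv z.A' z.t'.g.val)) ≤ _
  rw [hA, hA', eL, eR]
  exact key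

/-- **the local inequality at an exit** from the data of the two sides -/
theorem exit_core {B₁ C Ce K₁ s₁ s₂ a η : ℝ} {al δ : ℕ → ℕ → ℝ} {e₀ : ℕ → ℝ}
    (hP : PX X j₀ Q' B₁ C Ce K₁ s₁ s₂ a η al δ e₀) (hB1 : 0 ≤ B₁) {K : ℝ} (hK : 0 ≤ K) {B : ℝ}
    (hB : B₁ + 1 + K ≤ B) {b : ℕ} {z : X.Sta} {v v' : NS} {σ σ' : IT}
    (hz : CZ X j₀ Q' b z v v' σ σ') (hbt : b ≤ top X.S) (hcop : Cop z)
    (hs : ∑ l ∈ US z.M z.M' b, 1 / (l : ℝ) ≤ (b : ℝ) ^ (-(1 / 3) : ℝ)) {k k' : ℕ}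
    (nL : ¬ dd z.t) (nR : ¬ dd z.t') (kL : KD X.par (w X.ψ) b v σ k)
    (kR : KD X.par (w X.ψ) b v' σ' k') (hne : k ≠ k')
    (eL : EKe X b v σ ≤ K * (v.c * Ws (w X.ψ) σ.items +
      v.c * Ws (w X.ψ) σ.items * (v.c * Ws (w X.ψ) σ.items)))
    (eR : EKe X b v' σ' ≤ K * (v'.c * Ws (w X.ψ) σ'.items +
      v'.c * Ws (w X.ψ) σ'.items * (v'.c * Ws (w X.ψ) σ'.items))) :
    xL (X.tm j₀) (X.tn j₀) B z ≤ Vz z := by
  have hp3 : 3 ≤ p0 := by have := hP.hp; omega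
  have hW := hP.G.w0
  have hc := hz.L.q.self.nf.c0
  have hc' := hz.R.q.self.nf.c0
  have hKT := hP.kt b hz.b0
  have hsg : X.par.sg b = Real.log b ^ N.B / b := rfl
  have hal : ∀ B : ℕ, (fun _ : ℕ => al b v.B + al b v'.B) B ≤ (b:ℝ)^a :=
    fun _ => hP.al1 b hz.b0 _ _
  have hF := hP.cb b _ _ _ _ _ (CZ.setR hz (Ro ((X.c.D.par X.Y).rho b))) hbt hcop rfl hs
  have hF' : CBd b C Ce K₁ s₁ s₂ (fun _ => al b v.B + al b v'.B) (w X.ψ) (dd z.t ∧ ¬ dd z.t')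
      (dd z.t' ∧ ¬ dd z.t) v.c v.B σ.items v'.c v'.B σ'.items (XsR X j₀ B₁ b z - Vz z) := hF
  have mL := hz.L.mass
  have mR := hz.R.mass
  have loL := hz.L.lo hp3 nL
  have loR := hz.R.lo hp3 nR
  rw [mL] at loL
  rw [mR] at loR
  have key := KT_alive2 hKT hW hc.le hc'.le hsg hal hne kL kR loL loR hF'
  have mX0 : 0 ≤ v.c * Ws (w X.ψ) σ.items := mul_nonneg hc.le (Ws_nonneg hW _)
  have mY0 : 0 ≤ v'.c * Ws (w X.ψ) σ'.items := mul_nonneg hc'.le (Ws_nonneg hW _)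
  have xy0 := mul_nonneg mX0 mY0
  have k1 : XsR X j₀ (B₁ + 1) b z ≤ Vz z := by
    refine XsR_le' hz.A hz.A' (CZ.vz hz) ?_
    rw [mL, mR]
    have h1 := mul_le_mul_of_nonneg_right hP.η1 xy0
    linarith
  -- the invariant of the state
  have hA : Item758.IL (X.c.D.par X.Y).it z.A := by rw [hz.A]; exact Item758.IL_univ _
  have hA' : Item758.IL (X.c.D.par X.Y).it z.A' := by rw [hz.A']; exact Item758.IL_univ _
  have hI := inv_of_StI (X.ok.spok.spOk X.Y) (fun b => X.c.IL_sp b)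
    (X.c.D.dec_nonneg (fun j => Skel189.wt_nonneg X j) (fun S => Skel189.cx_nonneg X S) _)
    (X.c.D.dec_union (wt X.c.D) X.cx X.Y) j₀ hz.st hA hA' (n := b)
    (max_le (XStop25.CS_top hz.L) (XStop25.CS_top hz.R)) hz.mL hz.mR
  have gL : z.t.g = X.g v σ := by rw [hz.L.I.eq, (X.c.D.par X.Y).toDT_g]; rfl
  have gR : z.t'.g = X.g v' σ' := by rw [hz.R.I.eq, (X.c.D.par X.Y).toDT_g]; rfl
  have k2 := Qs_same hI hz.A hz.A' gL gR eL eR
  have k3 := xL_le (B := B) (B₁ := B₁ + 1) (B₂ := K) hI (Ro ((X.c.D.par X.Y).rho b)) (by linarith) hB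
  have k4 : Qs { z with R := Finset.univ \ Ro ((X.c.D.par X.Y).rho b) } -
      K * Lh (X.tm j₀ z.t.g z.A) (X.tn j₀ z.t.g) (X.tm j₀ z.t'.g z.A') (X.tn j₀ z.t'.g) ≤ 0 := by
    have e1 : X.tm j₀ z.t.g z.A = v.c * Ws (w X.ψ) σ.items := by rw [hz.A]; exact mL
    have e2 : X.tm j₀ z.t'.g z.A' = v'.c * Ws (w X.ψ) σ'.items := by rw [hz.A']; exact mR
    rw [e1, e2, mL, mR]
    set m := v.c * Ws (w X.ψ) σ.items with hm
    set m' := v'.c * Ws (w X.ψ) σ'.items with hm'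
    have h1 : gh m m * gh m' m' ≤ Lh m m m' m' := gh_mul_le mX0 mX0 mY0 mY0
    have h2 : Real.sqrt (K * (m + m * m) * (K * (m' + m' * m'))) = K * (gh m m * gh m' m') := by
      unfold gh
      rw [← Real.sqrt_mul (mul_nonneg mX0 (by linarith))]
      have e3 : K * (m + m * m) * (K * (m' + m' * m')) =
          K ^ 2 * (m * (1 + m) * (m' * (1 + m'))) := by ring
      rw [e3, Real.sqrt_mul (sq_nonneg K), Real.sqrt_sq hK]
    rw [h2] at k2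
    have h3 := mul_le_mul_of_nonneg_left h1 hK
    linarith
  exact k3.trans ((add_le_add k1 (max_le le_rfl k4)).trans (add_zero _).le)

/-! ### one side -/

/-- the data of one side of an exit -/
structure SE (X : Ctx N γ p0 P₀) (K : ℝ) (b : ℕ) (v : NS) (σ : IT)
    (d : DT X.c.Lam (Lb (WL X.c.Lam) X.Y)) (k : ℕ) : Prop where
  nd : ¬ dd d
  kd : KD X.par (w X.ψ) b v σ k
  ek : EKe X b v σ ≤ K * (v.c * Ws (w X.ψ) σ.items +
    v.c * Ws (w X.ψ) σ.items * (v.c * Ws (w X.ψ) σ.items))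

variable {K : ℝ} {b : ℕ} {v v' : NS} {σ σ' : IT} {d d' : DT X.c.Lam (Lb (WL X.c.Lam) X.Y)}

/-- a tie at the column -/
lemma side_br (hG : PG X.par (w X.ψ)) (hEK : ∀ u τ, Q' u τ → EKn X K u τ)
    (h : CS X j₀ Q' b v σ d) {w₀ : ℝ} {r : X.c.Lam → Lb (WL X.c.Lam) X.Y}
    {t₁ t₀ : DT X.c.Lam (Lb (WL X.c.Lam) X.Y)} {f : X.c.Lam → ℝ → ℝ}
    {B G : Lb (WL X.c.Lam) X.Y → ℝ → ℝ} (hv : vw b d = .br w₀ r t₁ t₀ f B G) (hw : w₀ ≠ 0) :
    SE X K b v σ d (ex b v.A + 1 + ex b v.B) := by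
  have e := vw_br hv
  have ek := hEK _ _ h.q.self.ext
  have hok := h.q.self.nf.ok
  have hI := h.I.eq
  rw [e] at hI
  rcases toDT_br hI.symm with ⟨Sp, τ₁, τ₀, rfl, -⟩ | ⟨τ₁, rfl, -, -, -, hw0, -⟩
  · refine ⟨?_, KD_br hG.w0 hG.sg0 hok, (ek id).1⟩
    rw [e]
    exact fun hd => hw (dd_br hd).1
  · exact absurd hw0 hw

/-- a side closed at the column -/
lemma side_closed (hG : PG X.par (w X.ψ)) (hEK : ∀ u τ, Q' u τ → EKn X K u τ)
    (hPB : ∀ u τ, Q' u τ → PBn X.par (w X.ψ) (top X.S) u τ) (hb : b.Prime) (hb0 : p0 < b)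
    (hbt : b < top X.S) (h : CS X j₀ Q' b v σ d) (hn : v.n = b) (hl : ¬ d.isLeaf)
    (hd : dp d → d.top = b) (ht : d.top ≠ b) : SE X K b v σ d (ex b v.A + ex b v.B) := by
  have hext := h.q.self.ext
  have hnl : ¬ isL σ := fun hi => hl (by rw [h.I.eq]; exact (toDT_leaf _ _ _ _ _).2 hi)
  have e1 := hPB _ _ hext (by rw [hn]; exact hb) (by rw [hn]; exact hbt)
  have e2 := (hEK _ _ hext hnl).2 (by rw [hn]; exact hb) (by rw [hn]; exact hb0)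
    (by rw [hn]; exact hbt)
  rw [hn] at e1 e2
  exact ⟨fun hdd => ht (hd ⟨hdd, hl⟩), KD_dv hG.w0 hG.sg0 hb h.q.self.nd.bk e1, e2⟩

/-- the level of a side whose column is below `b` -/
lemma side_level (hb : b.Prime) (h : CS X j₀ Q' b v σ d) (hl : ¬ d.isLeaf) (ht : d.top < b)
    (hn : b ≤ v.n) : v.n = b := by
  have hnl : ¬ isL σ := fun hi => hl (by rw [h.I.eq]; exact (toDT_leaf _ _ _ _ _).2 hi)
  obtain ⟨k1, k2, k3⟩ := top_of_nodeOk h.q.self.nf.ok hnl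
  have e : d.top = tp σ := by rw [h.I.eq, WalkIT579.toDT_top]
  by_contra hne
  have := k3 b hb (by omega)
  omega

/-- an `up` node at the column, or no node -/
lemma side_up (hG : PG X.par (w X.ψ)) (hEK : ∀ u τ, Q' u τ → EKn X K u τ)
    (hPB : ∀ u τ, Q' u τ → PBn X.par (w X.ψ) (top X.S) u τ) (hb : b.Prime) (hb0 : p0 < b)
    (hbt : b < top X.S) (h : CS X j₀ Q' b v σ d) (hl : ¬ d.isLeaf)
    (hd : dp d → d.top = b) (hn : b ≤ v.n) {Sp : Finset X.c.Lam}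
    {e : DT X.c.Lam (Lb (WL X.c.Lam) X.Y)} (hv : vw b d = .up Sp e) :
    SE X K b v σ d (ex b v.A + ex b v.B) := by
  rcases vw_up hv with h1 | ⟨-, -, h1⟩
  · have ek := hEK _ _ h.q.self.ext
    have hok := h.q.self.nf.ok
    have hI := h.I.eq
    rw [h1] at hI
    obtain ⟨S, τ₁, rfl, -, -⟩ := toDT_up hI.symm
    refine ⟨?_, KD_up hG.w0 hG.sg0 hok, (ek id).1⟩
    rw [h1]
    exact not_dd_up
  · have ht : d.top ≠ b := by
      rcases h1 with h1 | h1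
      · exact absurd h1 hl
      · exact h1
    have ht' : d.top < b := lt_of_le_of_ne (XStop25.CS_top h) ht
    exact side_closed hG hEK hPB hb hb0 hbt h (side_level hb h hl ht' hn) hl hd ht

/-! ### the exits of the flagged walk -/

/-- exponents along the identity of the two sides -/
lemma ex_circ {b A B M A' B' M' : ℕ} (hA : 0 < A) (hB : 0 < B) (hM : 0 < M) (hA' : 0 < A')
    (hB' : 0 < B') (hM' : 0 < M') (h : A * B * M = A' * B' * M') :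
    ex b A + ex b B + ex b M = ex b A' + ex b B' + ex b M' := by
  have h1 : (A * B * M).factorization b = (A' * B' * M').factorization b := by rw [h]
  rw [Nat.factorization_mul (Nat.mul_pos hA hB).ne' hM.ne', Nat.factorization_mul hA.ne' hB.ne',
    Nat.factorization_mul (Nat.mul_pos hA' hB').ne' hM'.ne',
    Nat.factorization_mul hA'.ne' hB'.ne'] at h1
  exact h1

/-- no settled primes -/
lemma US_empty {M M' b : ℕ} {O O' : Finset ℕ} (mL : MS b M O') (mR : MS b M' O)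
    (hO : O ∪ O' ⊆ {b}) : US M M' b = ∅ := by
  unfold US
  rw [Nat.primeFactors_mul mL.pos.ne' mR.pos.ne', mL.eq, mR.eq, Finset.filter_eq_empty_iff]
  intro l hl hlt
  rw [Finset.union_comm] at hl
  have := Finset.mem_singleton.1 (hO hl)
  omega

/-- the column of a state is below the top -/
lemma xp_lt {x : XSt X.c.Lam (Lb (WL X.c.Lam) X.Y)} (h : XP X j₀ Q' x v v' σ σ')
    (hlv : ∀ u τ, Q' u τ → u.n ≤ top X.S) (hp : 1000 ≤ p0) : x.s.p < top X.S := by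
  have h2 : (2:ℕ) < x.s.p := by have := h.b0; omega
  have k1 := h.L.ll 2 Nat.prime_two h2
  have k2 := h.R.ll 2 Nat.prime_two h2
  have c1 : x.s.t.top < v.n := by
    rw [h.L.I.eq]; exact ((X.c.D.par X.Y).toDT_Col X.c.sp σ v.n v.B v.A h.L.ok).top_lt (by omega)
  have c2 : x.s.t'.top < v'.n := by
    rw [h.R.I.eq]; exact ((X.c.D.par X.Y).toDT_Col X.c.sp σ' v'.n v'.B v'.A h.R.ok).top_lt (by omega)
  have l1 := hlv _ _ h.L.q.self.ext
  have l2 := hlv _ _ h.R.q.self.ext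
  show max x.s.t.top x.s.t'.top < _
  exact max_lt (by omega) (by omega)

/-- further invariant: coprime moduli, levels of the two sides -/
def JN (X : Ctx N γ p0 P₀) (y : XSt X.c.Lam (Lb (WL X.c.Lam) X.Y)) (v v' : NS) (_ _ : IT) : Prop :=
  FinX26.JC y.s ∧ y.s.p ≤ v.n ∧ y.s.p ≤ v'.n

theorem jn_JN {stp : X.STP} : Jn (X.c.D.par X.Y) X.c.sp (QE X j₀ Q') stp (JN X) := by
  intro B₀ B₀' x v v' σ σ' h1 h2 h3 h4 e he
  obtain ⟨w, w', ρ, ρ', k1, k2, k3⟩ := HJN_next (P := X.par) (W := Crest.Agent.R4.Soft104.w X.ψ)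
    (X.ok.spok.spOk X.Y) (fun b => X.c.IL_sp b) (fun u τ hq => (QE.nf hq).ok) h1 h2 h3 h4.2.1
    h4.2.2 e he
  have h5 := (steps_top h1 he).2.2.1
  exact ⟨w, w', ρ, ρ', k1, k2, h4.1.step e he, h5.trans k3.nL, h5.trans k3.nR⟩

section exits
variable {B₁ C Ce K₁ s₁ s₂ a η : ℝ} {al δ : ℕ → ℕ → ℝ} {e₀ : ℕ → ℝ}
  (hP : PX X j₀ Q' B₁ C Ce K₁ s₁ s₂ a η al δ e₀) (hB1 : 0 ≤ B₁) (hK : 0 ≤ K) {B : ℝ}
  (hB : B₁ + 1 + K ≤ B) (hEK : ∀ u τ, Q' u τ → EKn X K u τ)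
  (hPB : ∀ u τ, Q' u τ → PBn X.par (w X.ψ) (top X.S) u τ)
  {u₀ : NS} {x : XSt X.c.Lam (Lb (WL X.c.Lam) X.Y)}
include hP hB1 hK hB hEK hPB

/-- **the exit at a one-sided tie** -/
theorem exit_one (h : WIX X j₀ Q' (JN X) u₀ x v v' σ σ') (hl : ¬ x.s.t.isLeaf)
    (hl' : ¬ x.s.t'.isLeaf) (h1 : one x.s) (hO : x.s.O ∪ x.s.O' ⊆ {x.s.p}) :
    xL (X.tm j₀) (X.tn j₀) B x.s ≤ Vz x.s := by
  have hx : XP X j₀ Q' x v v' σ σ' := wix_xp hP.hp h hl hl'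
  have hbt : x.s.p < top X.S := xp_lt hx hP.lv hP.hp
  have hcop : Cop x.s := h.j.2.2.1.cop
  have hz : CZ X j₀ Q' x.s.p x.s v v' σ σ' :=
    ⟨hx.bp, hx.b0, hx.L, hx.R, hx.circ, hx.mL, hx.mR, hx.A, hx.A', hx.sM, hx.sM'⟩
  have hs : ∑ l ∈ US x.s.M x.s.M' x.s.p, 1 / (l : ℝ) ≤ (x.s.p : ℝ) ^ (-(1 / 3) : ℝ) := by
    rw [US_empty hx.mL hx.mR hO, Finset.sum_empty]
    positivity
  have hcirc := ex_circ (b := x.s.p) h.hi.qL.self.nd.bk.Apos h.hi.L.hb hx.mL.pos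
    h.hi.qR.self.nd.bk.Apos h.hi.R.hb hx.mR.pos hx.circ
  have ex0 : ∀ M : ℕ, ¬ x.s.p ∣ M → ex x.s.p M = 0 := fun M hM =>
    Nat.factorization_eq_zero_of_not_dvd hM
  obtain ⟨hPL, hPR, h1⟩ := h1
  rcases hv : vw x.s.p x.s.t with ⟨w₀, r, t₁, t₀, f, B₁, G⟩ | ⟨r, t₁, t₀⟩ | ⟨Sp, e⟩ <;>
  rcases hv' : vw x.s.p x.s.t' with ⟨w₀', r', t₁', t₀', f', B₁', G'⟩ | ⟨r', t₁', t₀'⟩ | ⟨Sp', e'⟩ <;>
  simp only [hv, hv'] at h1
  · obtain ⟨hM, hw⟩ := St.not_isPL_up hPL hv hv'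
    have sL := side_br hP.G hEK hx.L hv hw
    have sR := side_up hP.G hEK hPB hx.bp hx.b0 hbt hx.R hl' h.j.1.dR h.j.2.2.2.2 hv'
    refine exit_core hP hB1 hK hB hz hbt.le hcop hs sL.nd sR.nd sL.kd sR.kd ?_ sL.ek sR.ek
    have := ex0 _ hM
    omega
  · obtain ⟨hM, hw⟩ := St.not_isPR_up hPR hv hv'
    have sL := side_up hP.G hEK hPB hx.bp hx.b0 hbt hx.L hl h.j.1.dL h.j.2.2.2.1 hv
    have sR := side_br hP.G hEK hx.R hv' hw
    refine exit_core hP hB1 hK hB hz hbt.le hcop hs sL.nd sR.nd sL.kd sR.kd ?_ sL.ek sR.ek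
    have := ex0 _ hM
    omega

/-- **the exit of a child** -/
theorem exit_child {stp : X.STP} (hn : NoSplit stp) (h : WIX X j₀ Q' (JN X) u₀ x v v' σ σ')
    (hO : x.s.O ∪ x.s.O' ⊆ {x.s.p}) {e : XStep X.c.Lam (Lb (WL X.c.Lam) X.Y)}
    (he : e ∈ steps stp (IMI194.dvM GInst194.mI) x) (hns : ¬ stay e.y.s) :
    xL (X.tm j₀) (X.tn j₀) B e.y.s ≤ Vz e.y.s := by
  have hq := (mem_nxt.1 (steps_nxt he)).1
  obtain ⟨hl, hl'⟩ := not_or.1 (CopM34.nxt0_live hq)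
  have hx : XP X j₀ Q' x v v' σ σ' := wix_xp hP.hp h hl hl'
  have hbt : x.s.p < top X.S := xp_lt hx hP.lv hP.hp
  obtain ⟨w, w', ρ, ρ', kI, kS, kN⟩ := HJN_next (P := X.par) (W := Crest.Agent.R4.Soft104.w X.ψ)
    (X.ok.spok.spOk X.Y) (fun b => X.c.IL_sp b) (fun u τ hq => (QE.nf hq).ok) h.xi h.hi h.js
    h.j.2.2.2.1 h.j.2.2.2.2 e he
  obtain ⟨hpA, hpA'⟩ := nxt0_pop hn _ hq
  have eA : e.y.s.A = Finset.univ := hpA.trans h.A
  have eA' : e.y.s.A' = Finset.univ := hpA'.trans h.A'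
  obtain ⟨hm, ha, ha'⟩ := steps_mv he
  have hcop : Cop e.y.s := (h.j.2.2.1.step e he).cop
  have hsub : e.y.s.O ∪ e.y.s.O' ⊆ {x.s.p} := by
    refine (steps_O h.xi e he).sub.trans ?_
    intro l hl
    rcases Finset.mem_insert.1 hl with rfl | hl
    · exact Finset.mem_singleton_self _
    · exact hO hl
  have hple : e.y.s.p ≤ x.s.p := (steps_top h.xi he).2.2.1
  have hns' : ¬ (e.y.s.t.isLeaf ∨ e.y.s.t'.isLeaf ∨ e.y.s.O ∪ e.y.s.O' ⊆ {e.y.s.p}) := hns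
  obtain ⟨l1, hns'⟩ := not_or.1 hns'
  obtain ⟨l2, l3⟩ := not_or.1 hns'
  have hp : e.y.s.p ≠ x.s.p := fun hh => l3 (by rw [hh]; exact hsub)
  have hlt : e.y.s.p < x.s.p := lt_of_le_of_ne hple hp
  have hmem : x.s.p ∈ e.y.s.O ∪ e.y.s.O' := by
    obtain ⟨l, hl, -⟩ := Finset.not_subset.1 l3
    have h2 := Finset.mem_singleton.1 (hsub hl)
    rw [h2] at hl
    exact hl
  have hLs := kI.L
  have hRs := kI.R
  rw [eA] at hLs
  rw [eA'] at hRs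
  have cL : CS X j₀ Q' x.s.p w ρ e.y.s.t := ⟨hLs, kI.okL, kI.qL, kN.L.1, kN.L.2⟩
  have cR : CS X j₀ Q' x.s.p w' ρ' e.y.s.t' := ⟨hRs, kI.okR, kI.qR, kN.R.1, kN.R.2⟩
  have mL : MS x.s.p e.y.s.M e.y.s.O' := ⟨kI.mL.pos, kI.mL.eq, fun l hl =>
    (Finset.mem_singleton.1 (hsub (Finset.mem_union_right _ hl))).ge⟩
  have mR : MS x.s.p e.y.s.M' e.y.s.O := ⟨kI.mR.pos, kI.mR.eq, fun l hl =>
    (Finset.mem_singleton.1 (hsub (Finset.mem_union_left _ hl))).ge⟩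
  have hs1 : ∀ O : Finset ℕ, O ⊆ {x.s.p} → ∑ l ∈ O, (l : ℝ) ^ (-(11 / 12) : ℝ) ≤ 1 := by
    intro O hO
    have h2 : (1:ℝ) ≤ x.s.p := by exact_mod_cast hx.bp.one_lt.le
    calc ∑ l ∈ O, (l : ℝ) ^ (-(11 / 12) : ℝ) ≤ ∑ l ∈ {x.s.p}, (l : ℝ) ^ (-(11 / 12) : ℝ) :=
          Finset.sum_le_sum_of_subset_of_nonneg hO fun q _ _ =>
            Real.rpow_nonneg (Nat.cast_nonneg _) _
      _ = (x.s.p : ℝ) ^ (-(11 / 12) : ℝ) := Finset.sum_singleton _ _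
      _ ≤ 1 := Real.rpow_le_one_of_one_le_of_nonpos h2 (by norm_num)
  have hz : CZ X j₀ Q' x.s.p e.y.s w w' ρ ρ' :=
    { bp := hx.bp
      b0 := hx.b0
      L := cL
      R := cR
      circ := kS.circ
      mL := mL
      mR := mR
      A := eA
      A' := eA'
      sM := by rw [mL.eq]; exact hs1 _ (Finset.subset_union_right.trans hsub)
      sM' := by rw [mR.eq]; exact hs1 _ (Finset.subset_union_left.trans hsub) }
  have hs : ∑ l ∈ US e.y.s.M e.y.s.M' x.s.p, 1 / (l : ℝ) ≤ (x.s.p : ℝ) ^ (-(1 / 3) : ℝ) := by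
    rw [US_empty mL mR hsub, Finset.sum_empty]
    positivity
  have tL : e.y.s.t.top < x.s.p := (le_max_left _ _).trans_lt hlt
  have tR : e.y.s.t'.top < x.s.p := (le_max_right _ _).trans_lt hlt
  have dL := dp_mv hm.L ha h.j.1.L h.j.1.dL
  have dR := dp_mv hm.R ha' h.j.1.R h.j.1.dR
  have sL := side_closed hP.G hEK hPB hx.bp hx.b0 hbt cL (side_level hx.bp cL l1 tL kN.nL) l1 dL tL.ne
  have sR := side_closed hP.G hEK hPB hx.bp hx.b0 hbt cR (side_level hx.bp cR l2 tR kN.nR) l2 dR tR.ne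
  refine exit_core hP hB1 hK hB hz hbt.le hcop hs sL.nd sR.nd sL.kd sR.kd ?_ sL.ek sR.ek
  have hcirc := ex_circ (b := x.s.p) kI.qL.self.nd.bk.Apos kI.L.hb mL.pos
    kI.qR.self.nd.bk.Apos kI.R.hb mR.pos kS.circ
  have ex0 : ∀ M : ℕ, ¬ x.s.p ∣ M → ex x.s.p M = 0 := fun M hM =>
    Nat.factorization_eq_zero_of_not_dvd hM
  have ex1 : ∀ M : ℕ, 0 < M → x.s.p ∣ M → 0 < ex x.s.p M := fun M hM0 hM =>
    hx.bp.factorization_pos_of_dvd hM0.ne' hM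
  have hc : Nat.Coprime e.y.s.M e.y.s.M' := hcop
  rcases Finset.mem_union.1 hmem with hm1 | hm1
  · have h2 : x.s.p ∣ e.y.s.M' := (mR.mem hx.bp).1 hm1
    have h3 : ¬ x.s.p ∣ e.y.s.M := fun h3 => by
      have := Nat.dvd_gcd h3 h2
      rw [hc] at this
      exact hx.bp.one_lt.ne' (Nat.dvd_one.1 this)
    have k1 := ex0 _ h3
    have k2 := ex1 _ mR.pos h2
    omega
  · have h2 : x.s.p ∣ e.y.s.M := (mL.mem hx.bp).1 hm1
    have h3 : ¬ x.s.p ∣ e.y.s.M' := fun h3 => by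
      have := Nat.dvd_gcd h2 h3
      rw [hc] at this
      exact hx.bp.one_lt.ne' (Nat.dvd_one.1 this)
    have k1 := ex0 _ h3
    have k2 := ex1 _ mL.pos h2
    omega

end exits

end ctx

end Crest.Agent.R4P.ExC26
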