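import Crest.Agent.R4P.LeafY_27
import Crest.Agent.R4P.CzCtx_36

/-! R4P (S0004), helper36, group [X]: `ExLTT` from helper27's `exists_LTT`. -/

set_option autoImplicit false

namespace Crest.Agent.R4P.CzCtx36

open Crest.Agent.R4P.LocX25 (ExLTT)
open Crest.Agent.R4P

/-- **the (leaf, tree) bound with excluded pairs** -/
theorem exLTT (N : Skel189.Num) : ExLTT N 6 6 := by
  intro Ch
  have h1 := LeafS27.C₀L_one (Ch := Ch)
  refine ⟨2 * (LeafS27.C₀L Ch + 2), WmfL25.KL, 12, by linarith, WmfL25.KL_nonneg, by norm_num, ?_⟩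
  obtain ⟨p₁, h⟩ := LeafY27.exists_LTT N Ch
  exact ⟨p₁, fun p0 hp0 γ P₀ X j₀ b Qp hH hQ hb =>
    h p0 hp0 γ P₀ X j₀ b Qp hH hQ hb _ _ _ _ _ le_rfl le_rfl le_rfl le_rfl le_rfl⟩

end Crest.Agent.R4P.CzCtx36
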