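import Crest.Agent.R4P.Link758
import Crest.Agent.R4P.WPex189

/-!
R4P (S0004), helper35, group [X]: **LiftAvg in state form** (unique lifts with averages, two nodes).

Labelled pairs of pieces with the same world index, left side poor in the prime `s`
(`v_s (w) + k ≤ v_s (M)` for all its items): the cross energy of the state is at most
`s^(-k/2) √(E_in (left) E_in (right))`, `E_in` = in-class energies of the two nodes (`lift_state`).
-/

set_option autoImplicit false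
set_option linter.unusedSectionVars false
set_option linter.unusedVariables false
open MeasureTheory Filter

namespace Crest.Agent.R4P.LiftX35

open Crest.Agent.R4.Tour104 Crest.Agent.R4.Tour758 Crest.Agent.R4.Avg758 Crest.Agent.R4.Clos758
open Crest.Agent.R4.ClosL758 Crest.Agent.R4.ClosG758 Crest.Agent.R4.ClosR758
open Crest.Agent.R4.Fam464 Crest.Agent.R4P.Cnt588 Crest.Agent.R4P.Walk560 Crest.Agent.R4P.Item758
open Crest.Agent.R4.Piece464 Crest.Agent.R4P.W363 Crest.Agent.R4P.AvgItem710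
open Crest.Agent.R4P.Data758

/-! ### tree free: averages of functions with thin fibres -/

/-- **one point**: the support of `f` on the fibre lies in one residue class modulo `P` -/
lemma Ep_sq_le {P M : ℕ} (hM : 0 < M) (hPM : P ∣ M) {f : ℝ → ℝ} (hf : ∀ x, 0 ≤ f x) (y : ℝ)
    (h : ∀ i < M, ∀ i' < M, f ((y + i) / M) ≠ 0 → f ((y + i') / M) ≠ 0 → i ≡ i' [MOD P]) :
    Ep M f y ^ 2 ≤ 1 / (P : ℝ) * Ep M (fun x => f x ^ 2) y := by
  classical
  have hP : 0 < P := Nat.pos_of_dvd_of_pos hPM hM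
  have hPr : (0 : ℝ) < P := by exact_mod_cast hP
  have hMr : (0 : ℝ) < M := by exact_mod_cast hM
  have h0 : 0 ≤ Ep M (fun x => f x ^ 2) y := Ep_nonneg (fun x => sq_nonneg _) y
  set T : Finset ℕ := (Finset.range M).filter fun i => f ((y + (i : ℕ)) / M) ≠ 0 with hT
  rcases T.eq_empty_or_nonempty with he | ⟨i₀, hi₀⟩
  · have h1 : Ep M f y = 0 := by
      unfold Ep
      rw [Finset.sum_eq_zero, zero_div]
      intro i hi
      by_contra hne
      have : i ∈ T := Finset.mem_filter.2 ⟨hi, hne⟩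
      rw [he] at this
      exact absurd this (Finset.notMem_empty _)
    rw [h1]
    have h2 := mul_nonneg (show (0 : ℝ) ≤ 1 / (P : ℝ) by positivity) h0
    simpa using h2
  · obtain ⟨h1, h2⟩ := Finset.mem_filter.1 hi₀
    have hcard : (T.card : ℝ) ≤ M / P := by
      have h3 : T ⊆ (Finset.range M).filter fun i => i ≡ i₀ [MOD P] := by
        intro i hi
        obtain ⟨h4, h5⟩ := Finset.mem_filter.1 hi
        exact Finset.mem_filter.2 ⟨h4, h i (Finset.mem_range.1 h4) i₀ (Finset.mem_range.1 h1) h5 h2⟩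
      have h4 : T.card ≤ Nat.count (fun i => i ≡ i₀ [MOD P]) M := by
        rw [Nat.count_eq_card_filter_range]
        exact Finset.card_le_card h3
      have h5 : M % P = 0 := Nat.mod_eq_zero_of_dvd hPM
      rw [Nat.count_modEq_card _ hP] at h4
      rw [h5, if_neg (Nat.not_lt_zero _), add_zero] at h4
      calc (T.card : ℝ) ≤ ((M / P : ℕ) : ℝ) := by exact_mod_cast h4
        _ = M / P := Nat.cast_div hPM hPr.ne'
    have hs : ∑ i ∈ Finset.range M, f ((y + (i : ℕ)) / M) = ∑ i ∈ T, f ((y + (i : ℕ)) / M) := by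
      rw [hT, Finset.sum_filter_ne_zero]
    have hs2 : ∑ i ∈ T, f ((y + (i : ℕ)) / M) ^ 2 ≤
        ∑ i ∈ Finset.range M, f ((y + (i : ℕ)) / M) ^ 2 :=
      Finset.sum_le_sum_of_subset_of_nonneg (Finset.filter_subset _ _) fun _ _ _ => sq_nonneg _
    have h6 : (∑ i ∈ T, f ((y + (i : ℕ)) / M)) ^ 2 ≤
        (T.card : ℝ) * ∑ i ∈ T, f ((y + (i : ℕ)) / M) ^ 2 := sq_sum_le_card_mul_sum_sq
    have h7 : (∑ i ∈ Finset.range M, f ((y + (i : ℕ)) / M)) ^ 2 ≤
        M / P * ∑ i ∈ Finset.range M, f ((y + (i : ℕ)) / M) ^ 2 := by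
      rw [hs]
      exact h6.trans (mul_le_mul hcard hs2 (Finset.sum_nonneg fun _ _ => sq_nonneg _)
        (by positivity))
    unfold Ep
    rw [div_pow]
    calc (∑ i ∈ Finset.range M, f ((y + (i : ℕ)) / M)) ^ 2 / (M : ℝ) ^ 2
        ≤ (M / P * ∑ i ∈ Finset.range M, f ((y + (i : ℕ)) / M) ^ 2) / (M : ℝ) ^ 2 :=
          div_le_div_of_nonneg_right h7 (by positivity)
      _ = _ := by field_simp

/-- contraction -/
lemma Ep_sq_le_one {M : ℕ} (hM : 0 < M) {f : ℝ → ℝ} (hf : ∀ x, 0 ≤ f x) (y : ℝ) :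
    Ep M f y ^ 2 ≤ Ep M (fun x => f x ^ 2) y := by
  have h := Ep_sq_le hM (one_dvd M) hf y fun i _ i' _ _ _ => Nat.modEq_one
  simpa using h

lemma PB_sq {f : ℝ → ℝ} (hf : PB f) : PB fun x => f x ^ 2 := by
  have := hf.mul hf
  simpa [sq] using this

/-- **integrated** -/
lemma I_Ep_sq_le {P M : ℕ} (hM : 0 < M) (hPM : P ∣ M) {f : ℝ → ℝ} (hf : PB f)
    (h : ∀ y : ℝ, ∀ i < M, ∀ i' < M, f ((y + i) / M) ≠ 0 → f ((y + i') / M) ≠ 0 →
      i ≡ i' [MOD P]) :
    I (fun y => Ep M f y ^ 2) ≤ 1 / (P : ℝ) * I (fun x => f x ^ 2) := by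
  have p1 := PB_sq (hf.Ep hM)
  have p2 := (PB_sq hf).Ep hM
  calc I (fun y => Ep M f y ^ 2) ≤ I (fun y => 1 / (P : ℝ) * Ep M (fun x => f x ^ 2) y) :=
        I_mono p1.integrableOn (p2.smul (by positivity)).integrableOn
          fun y => Ep_sq_le hM hPM hf.nonneg y (h y)
    _ = 1 / (P : ℝ) * I (fun x => f x ^ 2) := by
        rw [I_smul, I_Ep hM (PB_sq hf).integrableOn]

section classes
variable {Λ κ : Type*} [Fintype Λ] [DecidableEq Λ] [Fintype κ] [DecidableEq κ]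

/-- the pairs of one class -/
lemma Q_le_Dr (r : Λ → κ) {f g : Λ → ℝ → ℝ} (hf : ∀ j, PB (f j)) (hg : ∀ j, PB (g j))
    {R : Finset (Λ × Λ)} (hR : ∀ e ∈ R, r e.1 = r e.2) : Q R f g ≤ Q (Dr r) f g :=
  Finset.sum_le_sum_of_subset_of_nonneg
    (fun e he => Finset.mem_filter.2 ⟨Finset.mem_univ _, hR e he⟩)
    fun e _ _ => I_nonneg ((hf e.1).mul (hg e.2)).nonneg

/-- **Cauchy-Schwarz over the classes, thin fibres on the left** -/
theorem Q_lift {P M M' : ℕ} (hM : 0 < M) (hM' : 0 < M') (hPM : P ∣ M) (r : Λ → κ)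
    {f g : Λ → ℝ → ℝ} (hf : ∀ j, PB (f j)) (hg : ∀ j, PB (g j)) {R : Finset (Λ × Λ)}
    (hR : ∀ e ∈ R, r e.1 = r e.2)
    (h : ∀ j j', r j = r j' → ∀ y : ℝ, ∀ i < M, ∀ i' < M, f j ((y + i) / M) ≠ 0 →
      f j' ((y + i') / M) ≠ 0 → i ≡ i' [MOD P]) :
    Q R (avg M f) (avg M' g) ≤ Real.sqrt (1 / (P : ℝ) * Q (Dr r) f f * Q (Dr r) g g) := by
  have pF : ∀ a, PB (sm r f a) := fun a => PB_sm hf r a
  have pG : ∀ a, PB (sm r g a) := fun a => PB_sm hg r a
  have pf : ∀ j, PB (avg M f j) := fun j => (hf j).Ep hM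
  have pg : ∀ j, PB (avg M' g j) := fun j => (hg j).Ep hM'
  have e1 : Q (Dr r) (avg M f) (avg M' g) =
      ∑ a, I (fun y => Ep M (sm r f a) y * Ep M' (sm r g a) y) := by
    rw [Q_Dr_sm r pf pg]
    refine Finset.sum_congr rfl fun a _ => ?_
    rw [← avg_sm, ← avg_sm]
    rfl
  have s1 : ∀ a, 0 ≤ I (fun y => Ep M (sm r f a) y ^ 2) := fun a => I_nonneg fun _ => sq_nonneg _
  have s2 : ∀ a, 0 ≤ I (fun y => Ep M' (sm r g a) y ^ 2) := fun a => I_nonneg fun _ => sq_nonneg _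
  have e2 : ∑ a, I (fun y => Ep M (sm r f a) y * Ep M' (sm r g a) y) ≤
      ∑ a, Real.sqrt (I (fun y => Ep M (sm r f a) y ^ 2)) *
        Real.sqrt (I (fun y => Ep M' (sm r g a) y ^ 2)) :=
    Finset.sum_le_sum fun a _ => I_mul_le_sqrt ((pF a).Ep hM) ((pG a).Ep hM')
  have e3 : ∑ a, Real.sqrt (I (fun y => Ep M (sm r f a) y ^ 2)) *
        Real.sqrt (I (fun y => Ep M' (sm r g a) y ^ 2)) ≤
      Real.sqrt (∑ a, I (fun y => Ep M (sm r f a) y ^ 2)) *
        Real.sqrt (∑ a, I (fun y => Ep M' (sm r g a) y ^ 2)) := by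
    have := Real.sum_sqrt_mul_sqrt_le Finset.univ s1 s2
    exact this
  have b1 : ∑ a, I (fun y => Ep M (sm r f a) y ^ 2) ≤ 1 / (P : ℝ) * Q (Dr r) f f := by
    rw [Q_Dr_sm r hf hf, Finset.mul_sum]
    refine Finset.sum_le_sum fun a _ => ?_
    have h1 := I_Ep_sq_le hM hPM (pF a) (by
      intro y i hi i' hi' k k'
      obtain ⟨j, hj, k1⟩ := Finset.exists_ne_zero_of_sum_ne_zero k
      obtain ⟨j', hj', k2⟩ := Finset.exists_ne_zero_of_sum_ne_zero k'
      have a1 := (Finset.mem_filter.1 hj).2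
      have a2 := (Finset.mem_filter.1 hj').2
      exact h j j' (a1.trans a2.symm) y i hi i' hi' k1 k2)
    refine h1.trans (le_of_eq ?_)
    congr 2
    funext x; rw [sq]
  have b2 : ∑ a, I (fun y => Ep M' (sm r g a) y ^ 2) ≤ Q (Dr r) g g := by
    rw [Q_Dr_sm r hg hg]
    refine Finset.sum_le_sum fun a _ => ?_
    have h1 := I_Ep_sq_le hM' (one_dvd M') (pG a) (fun _ _ _ _ _ _ _ => Nat.modEq_one)
    rw [Nat.cast_one, div_one, one_mul] at h1
    refine h1.trans (le_of_eq ?_)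
    congr 1
    funext x; rw [sq]
  have q2 : 0 ≤ Q (Dr r) g g := Q_nonneg hg hg
  calc Q R (avg M f) (avg M' g) ≤ Q (Dr r) (avg M f) (avg M' g) := Q_le_Dr r pf pg hR
    _ ≤ Real.sqrt (∑ a, I (fun y => Ep M (sm r f a) y ^ 2)) *
        Real.sqrt (∑ a, I (fun y => Ep M' (sm r g a) y ^ 2)) := by rw [e1]; exact e2.trans e3
    _ ≤ Real.sqrt (1 / (P : ℝ) * Q (Dr r) f f) * Real.sqrt (Q (Dr r) g g) :=
        mul_le_mul (Real.sqrt_le_sqrt b1) (Real.sqrt_le_sqrt b2) (Real.sqrt_nonneg _)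
          (Real.sqrt_nonneg _)
    _ = _ := by rw [← Real.sqrt_mul' _ q2]

end classes

/-! ### centres on the averaged circle -/

/-- centre of the point of the fibre `i` with numerator `a`, seen on the averaged circle -/
def cen (M w B : ℕ) (σ : ℚ) (i a : ℤ) : ℚ := M * ((a + B * σ) / w) - i

/-- the offset on the averaged circle -/
lemma cen_off {γ z y : ℝ} {M w B pr q : ℕ} (hM : 0 < M) (hw : 0 < w) (hpr : 0 < pr)
    (hq : q = pr * w) {σ : ℚ} {i a : ℤ} (hz : (B : ℝ) * z = w * ((y + i) / M) - B * γ - a) :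
    ((pr * M * B : ℕ) : ℝ) * off γ σ q z = y - cen M w B σ i a := by
  have hM' : (M : ℝ) ≠ 0 := by exact_mod_cast hM.ne'
  have hw' : (w : ℝ) ≠ 0 := by exact_mod_cast hw.ne'
  have hp' : (pr : ℝ) ≠ 0 := by exact_mod_cast hpr.ne'
  have e1 : ((pr * M * B : ℕ) : ℝ) * off γ σ q z = M * (B * z + (B * γ - B * σ)) / w := by
    unfold off
    rw [hq]
    push_cast
    field_simp
  rw [e1, hz]
  unfold cen
  push_cast
  field_simp
  ring

lemma cen_int {M w B : ℕ} (hw : 0 < w) (σ : ℚ) (i a : ℤ) :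
    ∃ n : ℤ, cen M w B σ i a * ((σ.den * w : ℕ) : ℚ) = n := by
  refine ⟨M * (a * σ.den + B * σ.num) - i * (σ.den * w), ?_⟩
  have hw' : (w : ℚ) ≠ 0 := by exact_mod_cast hw.ne'
  have h1 : σ * σ.den = σ.num := Rat.mul_den_eq_num σ
  unfold cen
  push_cast
  rw [← h1]
  field_simp

section lab
variable {Λ κ κ' : Type*} [Fintype Λ] [DecidableEq Λ] [Fintype κ] [DecidableEq κ]

/-- **labels of the pieces of `L`** : pieces of one class have the same exact centres (on all the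
circles `A B M` with `M B ≤ K`) -/
structure LbX (D : Par Λ κ) (L : Finset Λ) (r : Λ → κ') (lab : Λ → ℚ) (K : ℕ) : Prop where
  ex : ∀ j ∈ L, ∀ j' ∈ L, r j = r j' → ∀ z z' : ℝ, D.al j ≤ z → z < D.be j →
    D.al j' ≤ z' → z' < D.be j' →
    ((K * (((lab j).den * D.it j) * ((lab j').den * D.it j')) : ℕ) : ℝ) *
      |off D.γ (lab j) (D.it j) z - off D.γ (lab j') (D.it j') z'| < 1

/-- **equal classes at a common point of the averaged circle: equal centres** -/
theorem LbX.cen_eq {D : Par Λ κ} {L : Finset Λ} {r : Λ → κ'} {lab : Λ → ℚ} {K : ℕ}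
    (h : LbX D L r lab K) {j j' : Λ} (hj : j ∈ L) (hj' : j' ∈ L) (e : r j = r j')
    {M M' w w' B B' pr pr' : ℕ} (hM : 0 < M) (hM' : 0 < M') (hw : 0 < w) (hw' : 0 < w')
    (hpr : 0 < pr) (hpr' : 0 < pr') (hq : D.it j = pr * w) (hq' : D.it j' = pr' * w')
    (hcirc : pr * M * B = pr' * M' * B') (hK : M * B ≤ K) {y z z' : ℝ} {i a i' a' : ℤ}
    (h1 : D.al j ≤ z) (h2 : z < D.be j) (h1' : D.al j' ≤ z') (h2' : z' < D.be j')
    (hz : (B : ℝ) * z = w * ((y + i) / M) - B * D.γ - a)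
    (hz' : (B' : ℝ) * z' = w' * ((y + i') / M') - B' * D.γ - a') :
    cen M w B (lab j) i a = cen M' w' B' (lab j') i' a' := by
  by_contra hne
  set σ := lab j with hσ
  set τ := lab j' with hτ
  have o1 := cen_off (σ := σ) hM hw hpr hq hz
  have o2 := cen_off (σ := τ) hM' hw' hpr' hq' hz'
  rw [← hcirc] at o2
  set N : ℝ := ((pr * M * B : ℕ) : ℝ) with hN
  have hN0 : 0 ≤ N := Nat.cast_nonneg _
  set c : ℚ := cen M w B σ i a with hc
  set c' : ℚ := cen M' w' B' τ i' a' with hc'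
  set u : ℝ := off D.γ σ (D.it j) z with hu
  set v : ℝ := off D.γ τ (D.it j') z' with hv
  have k1 : N * |u - v| = |((c - c' : ℚ) : ℝ)| := by
    have h3 : N * |u - v| = |N * (u - v)| := by rw [abs_mul, abs_of_nonneg hN0]
    rw [h3, mul_sub, o1, o2, abs_sub_comm]
    congr 1
    push_cast
    ring
  obtain ⟨n, hn⟩ := cen_int (M := M) (B := B) hw σ i a
  obtain ⟨n', hn'⟩ := cen_int (M := M') (B := B') hw' τ i' a'
  set d : ℕ := σ.den * w with hd
  set d' : ℕ := τ.den * w' with hd'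
  have hd0 : 0 < d := Nat.mul_pos σ.den_pos hw
  have hd0' : 0 < d' := Nat.mul_pos τ.den_pos hw'
  have k2 : (c - c') * ((d * d' : ℕ) : ℚ) = ((n * d' - n' * d : ℤ) : ℚ) := by
    push_cast
    rw [← hn, ← hn']
    ring
  have k3 : (n * d' - n' * d : ℤ) ≠ 0 := by
    intro h0
    rw [h0, Int.cast_zero] at k2
    rcases mul_eq_zero.1 k2 with h3 | h3
    · exact hne (sub_eq_zero.1 h3)
    · have : (d * d' : ℕ) ≠ 0 := (Nat.mul_pos hd0 hd0').ne'
      exact this (by exact_mod_cast h3)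
  have k4 : (1 : ℝ) ≤ |((c - c' : ℚ) : ℝ)| * ((d * d' : ℕ) : ℝ) := by
    have h3 : ((c - c' : ℚ) : ℝ) * ((d * d' : ℕ) : ℝ) = ((n * d' - n' * d : ℤ) : ℝ) := by
      exact_mod_cast congrArg (fun x : ℚ => (x : ℝ)) k2
    rw [← abs_of_nonneg (Nat.cast_nonneg (α := ℝ) (d * d')), ← abs_mul, h3]
    exact_mod_cast Int.one_le_abs k3
  have k5 := h.ex j hj j' hj' e z z' h1 h2 h1' h2'
  rw [← hσ, ← hτ, ← hu, ← hv] at k5
  have k6 : (pr * M * B) * (d * d') ≤ K * ((σ.den * D.it j) * (τ.den * D.it j')) := by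
    calc (pr * M * B) * (d * d') = (M * B) * ((σ.den * (pr * w)) * (τ.den * w')) := by
          rw [hd, hd']; ring
      _ ≤ K * ((σ.den * (pr * w)) * (τ.den * (pr' * w'))) := by
          refine Nat.mul_le_mul hK (Nat.mul_le_mul_left _ (Nat.mul_le_mul_left _ ?_))
          exact Nat.le_mul_of_pos_left _ hpr'
      _ = _ := by rw [hq, hq']
  have k7 : N * |u - v| * ((d * d' : ℕ) : ℝ) ≤
      ((K * ((σ.den * D.it j) * (τ.den * D.it j')) : ℕ) : ℝ) * |u - v| := by
    have h3 : N * ((d * d' : ℕ) : ℝ) ≤ ((K * ((σ.den * D.it j) * (τ.den * D.it j')) : ℕ) : ℝ) := by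
      rw [hN, ← Nat.cast_mul]
      exact_mod_cast k6
    calc N * |u - v| * ((d * d' : ℕ) : ℝ) = (N * ((d * d' : ℕ) : ℝ)) * |u - v| := by ring
      _ ≤ _ := mul_le_mul_of_nonneg_right h3 (abs_nonneg _)
  rw [k1] at k7
  linarith

end lab

/-! ### valuations of the centres -/

section val
variable {s : ℕ} [hs : Fact s.Prime]

lemma s_pos : (0 : ℚ) < s := by exact_mod_cast hs.out.pos

lemma s_one : (1 : ℚ) < s := by exact_mod_cast hs.out.one_lt

lemma nat_norm {n : ℕ} (hn : 0 < n) : padicNorm s n = (s : ℚ) ^ (-(n.factorization s : ℤ)) := by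
  have h : (n : ℚ) ≠ 0 := by exact_mod_cast hn.ne'
  rw [padicNorm.eq_zpow_of_nonzero h, padicValRat.of_nat, Nat.factorization_def n hs.out]

lemma nat_norm_pos {n : ℕ} (hn : 0 < n) : 0 < padicNorm s n := by
  rw [nat_norm hn]; exact zpow_pos s_pos _

/-- norm of a rational -/
lemma rat_norm_le (x : ℚ) : padicNorm s x ≤ (s : ℚ) ^ (x.den.factorization s : ℤ) := by
  have h1 : x = (x.num : ℚ) / (x.den : ℚ) := (Rat.num_div_den x).symm
  have h2 : padicNorm s x = padicNorm s (x.num : ℚ) / padicNorm s (x.den : ℚ) := by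
    conv_lhs => rw [h1]
    exact padicNorm.div _ _
  rw [h2, nat_norm x.den_pos, div_eq_mul_inv, ← zpow_neg, neg_neg]
  have h3 := padicNorm.of_int (p := s) x.num
  calc padicNorm s (x.num : ℚ) * (s : ℚ) ^ (x.den.factorization s : ℤ)
      ≤ 1 * (s : ℚ) ^ (x.den.factorization s : ℤ) :=
        mul_le_mul_of_nonneg_right h3 (zpow_pos s_pos _).le
    _ = _ := one_mul _

/-- norm of a rational, the prime divides the denominator -/
lemma rat_norm_eq {x : ℚ} (h : s ∣ x.den) :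
    padicNorm s x = (s : ℚ) ^ (x.den.factorization s : ℤ) := by
  have h1 : x = (x.num : ℚ) / (x.den : ℚ) := (Rat.num_div_den x).symm
  have h2 : padicNorm s x = padicNorm s (x.num : ℚ) / padicNorm s (x.den : ℚ) := by
    conv_lhs => rw [h1]
    exact padicNorm.div _ _
  have h3 : padicNorm s (x.num : ℚ) = 1 := by
    rw [padicNorm.int_eq_one_iff]
    intro h4
    have h5 : s ∣ x.num.natAbs := Int.natCast_dvd.1 h4
    have h6 : s ∣ Nat.gcd x.num.natAbs x.den := Nat.dvd_gcd h5 h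
    rw [x.reduced] at h6
    exact hs.out.one_lt.ne' (Nat.dvd_one.1 h6)
  rw [h2, h3, nat_norm x.den_pos, one_div, ← zpow_neg, neg_neg]

lemma one_le_zpow_nat (n : ℕ) : (1 : ℚ) ≤ (s : ℚ) ^ (n : ℤ) := one_le_zpow₀ s_one.le (by positivity)

/-- norm of `a + x` -/
lemma add_norm_le (a : ℤ) (x : ℚ) :
    padicNorm s (a + x) ≤ (s : ℚ) ^ (x.den.factorization s : ℤ) :=
  padicNorm.nonarchimedean.trans
    (max_le ((padicNorm.of_int a).trans (one_le_zpow_nat _)) (rat_norm_le x))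

lemma add_norm_eq (a : ℤ) {x : ℚ} (h : s ∣ x.den) :
    padicNorm s (a + x) = padicNorm s x := by
  have h1 : 1 < padicNorm s x := by
    rw [rat_norm_eq h]
    refine one_lt_zpow₀ s_one ?_
    have := hs.out.factorization_pos_of_dvd x.den_nz h
    exact_mod_cast this
  have h2 := padicNorm.of_int (p := s) a
  rw [padicNorm.add_eq_max_of_ne (by intro h3; rw [h3] at h2; exact absurd h1 (not_lt.2 h2))]
  exact max_eq_right (h2.trans h1.le)

/-- **good pieces**: the centre (before subtracting `i`) is divisible by `s^k` -/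
lemma cen_norm_le {M w B k : ℕ} {σ : ℚ} (hM : 0 < M) (hw : 0 < w)
    (hg : w.factorization s + ((B : ℚ) * σ).den.factorization s + k ≤ M.factorization s)
    (i a : ℤ) : padicNorm s (cen M w B σ i a + i) ≤ (s : ℚ) ^ (-(k : ℤ)) := by
  have e : cen M w B σ i a + i = (M : ℚ) * ((a + B * σ) / w) := by unfold cen; ring
  rw [e, padicNorm.mul, padicNorm.div, nat_norm hM, nat_norm hw]
  have h1 := add_norm_le (s := s) a ((B : ℚ) * σ)
  have hs0 : (s : ℚ) ≠ 0 := s_pos.ne'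
  calc (s : ℚ) ^ (-(M.factorization s : ℤ)) *
        (padicNorm s (a + B * σ) / (s : ℚ) ^ (-(w.factorization s : ℤ)))
      ≤ (s : ℚ) ^ (-(M.factorization s : ℤ)) *
        ((s : ℚ) ^ (((B : ℚ) * σ).den.factorization s : ℤ) / (s : ℚ) ^ (-(w.factorization s : ℤ))) :=
        mul_le_mul_of_nonneg_left (div_le_div_of_nonneg_right h1 (zpow_pos s_pos _).le)
          (zpow_pos s_pos _).le
    _ = (s : ℚ) ^ (-(M.factorization s : ℤ) + ((((B : ℚ) * σ).den.factorization s : ℤ) +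
          (w.factorization s : ℤ))) := by
        rw [div_eq_mul_inv, ← zpow_neg, neg_neg, ← zpow_add₀ hs0, ← zpow_add₀ hs0]
    _ ≤ _ := by
        refine zpow_le_zpow_right₀ s_one.le ?_
        have : ((w.factorization s + ((B : ℚ) * σ).den.factorization s + k : ℕ) : ℤ) ≤
          (M.factorization s : ℕ) := by exact_mod_cast hg
        push_cast at this
        linarith

/-- **one residue class**: two good pieces with the same centre -/
theorem residue {M w w' B k : ℕ} {σ τ : ℚ} (hM : 0 < M) (hw : 0 < w) (hw' : 0 < w')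
    (hg : w.factorization s + ((B : ℚ) * σ).den.factorization s + k ≤ M.factorization s)
    (hg' : w'.factorization s + ((B : ℚ) * τ).den.factorization s + k ≤ M.factorization s)
    {m m' : ℕ} {b b' : ℤ}
    (h : cen M w B σ m b = cen M w' B τ m' b') : m ≡ m' [MOD s ^ k] := by
  have h1 := cen_norm_le hM hw hg (m : ℤ) b
  have h2 := cen_norm_le hM hw' hg' (m' : ℤ) b'
  have h3 : (((m : ℤ) - (m' : ℤ) : ℤ) : ℚ) =
      (cen M w B σ m b + (m : ℤ)) - (cen M w' B τ m' b' + (m' : ℤ)) := by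
    rw [h]; push_cast; ring
  have h4 : padicNorm s (((m : ℤ) - (m' : ℤ) : ℤ) : ℚ) ≤ (s : ℚ) ^ (-(k : ℤ)) := by
    rw [h3]
    exact padicNorm.sub.trans (max_le h1 h2)
  have h5 := (padicNorm.dvd_iff_norm_le (n := k)).2 h4
  refine ((Nat.modEq_iff_dvd).2 ?_)
  have h6 := (dvd_neg).2 h5
  rw [neg_sub] at h6
  exact h6

/-- norm of the centre, bad label -/
lemma cen_norm_eq {M w B : ℕ} {σ : ℚ} (hM : 0 < M) (hw : 0 < w) (hd : s ∣ ((B : ℚ) * σ).den)
    (i a : ℤ) : padicNorm s (cen M w B σ i a + i) =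
      (s : ℚ) ^ ((w.factorization s : ℤ) + ((B : ℚ) * σ).den.factorization s -
        M.factorization s) := by
  have e : cen M w B σ i a + i = (M : ℚ) * ((a + B * σ) / w) := by unfold cen; ring
  have hs0 : (s : ℚ) ≠ 0 := s_pos.ne'
  rw [e, padicNorm.mul, padicNorm.div, nat_norm hM, nat_norm hw, add_norm_eq a hd, rat_norm_eq hd,
    div_eq_mul_inv, ← zpow_neg, neg_neg, ← zpow_add₀ hs0, ← zpow_add₀ hs0]
  congr 1
  ring

/-- the denominator on the circle of a node, bad label -/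
lemma den_bad {B : ℕ} {σ : ℚ} (hB : 0 < B) (hd : s ∣ ((B : ℚ) * σ).den) :
    s ∣ σ.den ∧ (((B : ℚ) * σ).den.factorization s : ℤ) =
      (σ.den.factorization s : ℤ) - B.factorization s := by
  have h1 : ((B : ℚ) * σ).den ∣ σ.den := by
    have h := Rat.mul_den_dvd (B : ℚ) σ
    rwa [Rat.den_natCast, one_mul] at h
  have h2 : s ∣ σ.den := hd.trans h1
  refine ⟨h2, ?_⟩
  have hs0 : (s : ℚ) ≠ 0 := s_pos.ne'
  have h3 : padicNorm s ((B : ℚ) * σ) = (s : ℚ) ^ ((σ.den.factorization s : ℤ) -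
      B.factorization s) := by
    rw [padicNorm.mul, nat_norm hB, rat_norm_eq h2, ← zpow_add₀ hs0]
    congr 1; ring
  rw [rat_norm_eq hd] at h3
  exact zpow_right_injective₀ s_pos s_one.ne' h3

/-- label whose denominator is cancelled by `B` -/
lemma den_good {B : ℕ} {σ : ℚ} (hB : 0 < B) (hd : ¬ s ∣ ((B : ℚ) * σ).den) :
    σ.den.factorization s ≤ B.factorization s := by
  by_cases h2 : s ∣ σ.den
  · have hs0 : (s : ℚ) ≠ 0 := s_pos.ne'
    have h3 : padicNorm s ((B : ℚ) * σ) = (s : ℚ) ^ ((σ.den.factorization s : ℤ) -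
        B.factorization s) := by
      rw [padicNorm.mul, nat_norm hB, rat_norm_eq h2, ← zpow_add₀ hs0]
      congr 1; ring
    have h4 := rat_norm_le (s := s) ((B : ℚ) * σ)
    rw [Nat.factorization_eq_zero_of_not_dvd hd, h3, Nat.cast_zero] at h4
    have h5 := (zpow_le_zpow_iff_right₀ s_one).1 h4
    omega
  · rw [Nat.factorization_eq_zero_of_not_dvd h2]; exact Nat.zero_le _

/-- **the exact partner makes the piece good** (`n = v_s (den)` equal for both labels, bad primes) -/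
theorem good_of_cen {M w B M' w' B' pr pr' k : ℕ} {σ τ : ℚ} (hM : 0 < M) (hw : 0 < w) (hB : 0 < B)
    (hM' : 0 < M') (hw' : 0 < w') (hB' : 0 < B') (hpr : 0 < pr) (hpr' : 0 < pr') (hk : 0 < k)
    (hcirc : pr * M * B = pr' * M' * B')
    (hg : w.factorization s + k ≤ M.factorization s)
    (hn : s ∣ σ.den → σ.den.factorization s = τ.den.factorization s ∧
      (pr * w).factorization s + k ≤ (pr' * w').factorization s)
    (hc : s ∣ B' → ¬ s ∣ w') {i a i' a' : ℤ}
    (h : cen M w B σ i a = cen M' w' B' τ i' a') :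
    w.factorization s + ((B : ℚ) * σ).den.factorization s + k ≤ M.factorization s := by
  by_cases hd : s ∣ ((B : ℚ) * σ).den
  swap
  · rw [Nat.factorization_eq_zero_of_not_dvd hd]; omega
  by_contra hng
  push Not at hng
  obtain ⟨h1, h2⟩ := den_bad hB hd
  obtain ⟨h3, h4⟩ := hn h1
  have hs0 : (s : ℚ) ≠ 0 := s_pos.ne'
  -- valuations of the circumference and of the items
  have v1 : (pr * M * B).factorization s =
      pr.factorization s + M.factorization s + B.factorization s := by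
    rw [Nat.factorization_mul (Nat.mul_pos hpr hM).ne' hB.ne', Nat.factorization_mul hpr.ne' hM.ne']
    rfl
  have v2 : (pr' * M' * B').factorization s =
      pr'.factorization s + M'.factorization s + B'.factorization s := by
    rw [Nat.factorization_mul (Nat.mul_pos hpr' hM').ne' hB'.ne',
      Nat.factorization_mul hpr'.ne' hM'.ne']
    rfl
  rw [← hcirc, v1] at v2
  have v3 : (pr * w).factorization s = pr.factorization s + w.factorization s := by
    rw [Nat.factorization_mul hpr.ne' hw.ne']; rfl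
  have v4 : (pr' * w').factorization s = pr'.factorization s + w'.factorization s := by
    rw [Nat.factorization_mul hpr'.ne' hw'.ne']; rfl
  rw [v3, v4] at h4
  have n1 := cen_norm_eq hM hw hd i a
  have b1 := padicNorm.of_int (p := s) i
  have b2 := padicNorm.of_int (p := s) i'
  have n0 : 0 < σ.den.factorization s := hs.out.factorization_pos_of_dvd σ.den_nz h1
  by_cases hd' : s ∣ ((B' : ℚ) * τ).den
  · -- both centres have exact valuations
    obtain ⟨h5, h6⟩ := den_bad hB' hd'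
    have n2 := cen_norm_eq hM' hw' hd' i' a'
    set l : ℤ := (w.factorization s : ℤ) + ((B : ℚ) * σ).den.factorization s -
        M.factorization s with hl
    set l' : ℤ := (w'.factorization s : ℤ) + ((B' : ℚ) * τ).den.factorization s -
        M'.factorization s with hl'
    have e1 : l + k ≤ l' := by
      rw [hl, hl', h2, h6]; omega
    have e2 : -(k : ℤ) < l := by rw [hl]; omega
    have g1 : 1 < padicNorm s (cen M' w' B' τ i' a' + i') := by
      rw [n2]; exact one_lt_zpow₀ s_one (by omega)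
    -- the norm of the common centre
    have g2 : padicNorm s (cen M' w' B' τ i' a') = padicNorm s (cen M' w' B' τ i' a' + i') := by
      have g3 : cen M' w' B' τ i' a' = (cen M' w' B' τ i' a' + i') + (-(i' : ℚ)) := by ring
      conv_lhs => rw [g3]
      have g4 : padicNorm s (-(i' : ℚ)) ≤ 1 := by rw [padicNorm.neg]; exact b2
      rw [padicNorm.add_eq_max_of_ne (by
        intro g5; rw [g5] at g1; exact absurd g1 (not_lt.2 g4))]
      exact max_eq_left (g4.trans g1.le)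
    have g6 : padicNorm s (cen M w B σ i a + i) = padicNorm s (cen M' w' B' τ i' a') := by
      rw [h]
      have g7 : padicNorm s (i : ℚ) < padicNorm s (cen M' w' B' τ i' a') := by
        rw [g2]; exact b1.trans_lt g1
      rw [padicNorm.add_eq_max_of_ne g7.ne']
      exact max_eq_left g7.le
    rw [n1, g2, n2] at g6
    have g8 := zpow_right_injective₀ s_pos s_one.ne' g6
    have k0 : (0 : ℤ) < k := by exact_mod_cast hk
    omega
  · -- the right side missed `s`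
    have h5 := den_good hB' hd'
    rw [← h3] at h5
    have h6 : s ∣ B' := by
      by_contra h7
      rw [Nat.factorization_eq_zero_of_not_dvd h7] at h5
      omega
    have h7 : w'.factorization s = 0 := Nat.factorization_eq_zero_of_not_dvd (hc h6)
    omega

end val

/-! ### the state -/

section state
variable {Λ κ κ' : Type*} [Fintype Λ] [DecidableEq Λ] [Fintype κ] [DecidableEq κ] [Fintype κ']
  [DecidableEq κ'] {D : Par Λ κ} {L : Finset Λ} {r : Λ → κ'} {lab : Λ → ℚ} {K : ℕ}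
  {M M' b pr c b' pr' c' k s : ℕ} {t t' : IT} {A A' : Finset Λ}

/-- values of a node -/
noncomputable abbrev UV (D : Par Λ κ) (b pr : ℕ) (t : IT) (A : Finset Λ) (c : ℕ) : Λ → ℝ → ℝ :=
  rv A fun j => (D.toFT b pr t).U c j

lemma PB_UV (hb : 0 < b) (hF : Fit b pr t) (hW : D.Wts pr t) (hc : c ∣ b) (j : Λ) :
    PB (UV D b pr t A c j) :=
  PB_rv (fun j => FT.pb hb (D.toFT_Adm t b pr hb hF hW) hc j) A j

/-- **in-class energy of a node** for the classes `r` (all pairs of the same class) -/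
noncomputable def Ein (D : Par Λ κ) (b pr : ℕ) (t : IT) (A : Finset Λ) (c : ℕ) (r : Λ → κ') : ℝ :=
  Q (Dr r) (UV D b pr t A c) (UV D b pr t A c)

lemma Ein_nonneg (hb : 0 < b) (hF : Fit b pr t) (hW : D.Wts pr t) (hc : c ∣ b) :
    0 ≤ Ein D b pr t A c r := Q_nonneg (PB_UV hb hF hW hc) (PB_UV hb hF hW hc)

lemma Ein_mono (hb : 0 < b) (hF : Fit b pr t) (hW : D.Wts pr t) (hc : c ∣ b) {G : Finset Λ}
    (hG : G ⊆ A) : Ein D b pr t G c r ≤ Ein D b pr t A c r := by
  have key : ∀ j x, UV D b pr t G c j x ≤ UV D b pr t A c j x := by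
    intro j x
    by_cases hj : j ∈ G
    · unfold UV; rw [rv_of_mem hj, rv_of_mem (hG hj)]
    · have : UV D b pr t G c j x = 0 := by unfold UV; rw [rv_of_not_mem hj]
      rw [this]
      exact (PB_UV hb hF hW hc j).nonneg x
  refine Finset.sum_le_sum fun e _ => I_mono
    ((PB_UV hb hF hW hc e.1).mul (PB_UV hb hF hW hc e.2)).integrableOn
    ((PB_UV hb hF hW hc e.1).mul (PB_UV hb hF hW hc e.2)).integrableOn fun x => ?_
  exact mul_le_mul (key _ x) (key _ x) ((PB_UV hb hF hW hc _).nonneg x)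
    ((PB_UV hb hF hW hc _).nonneg x)

/-- a nonzero value gives a point of the piece -/
lemma pt_of_U (hb : 0 < b) (hF : Fit b pr t) (hW : D.Wts pr t) (hc : c ∣ b) {j : Λ} {x : ℝ}
    (h : (D.toFT b pr t).U c j x ≠ 0) :
    D.it j ∈ t.items ∧ ∃ (a : ℤ) (z : ℝ), D.al j ≤ z ∧ z < D.be j ∧
      ((b / c : ℕ) : ℝ) * z = ((D.it j / pr : ℕ) : ℝ) * x - ((b / c : ℕ) : ℝ) * D.γ - a := by
  obtain ⟨h1, a, -, h2, h3⟩ := D.supp hb hF hW hc h
  have c0 : 0 < c := Nat.pos_of_dvd_of_pos hc hb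
  have hB0 : 0 < b / c := Nat.div_pos (Nat.le_of_dvd hb hc) c0
  have hB : ((b / c : ℕ) : ℝ) = (b : ℝ) / c := Link758.cast_div' hc hb
  have hs : (0 : ℝ) < ((b / c : ℕ) : ℝ) := by exact_mod_cast hB0
  rw [← hB] at h2 h3
  refine ⟨h1, a, (((D.it j / pr : ℕ) : ℝ) * x - ((b / c : ℕ) : ℝ) * D.γ - a) / ((b / c : ℕ) : ℝ),
    ?_, ?_, ?_⟩
  · rw [le_div_iff₀ hs]; linarith
  · rw [div_lt_iff₀ hs]; linarith
  · field_simp

/-- a nonzero averaged value gives a point of the piece -/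
lemma pt_of_uA' (hM : 0 < M) (hb : 0 < b) (hF : Fit b pr t) (hW : D.Wts pr t) (hc : c ∣ b) {j : Λ}
    {y : ℝ} (h : D.uA M b pr t A c j y ≠ 0) :
    j ∈ A ∧ D.it j ∈ t.items ∧ ∃ (i : ℕ) (a : ℤ) (z : ℝ), D.al j ≤ z ∧ z < D.be j ∧
      ((b / c : ℕ) : ℝ) * z = ((D.it j / pr : ℕ) : ℝ) * ((y + (i : ℤ)) / M) -
        ((b / c : ℕ) : ℝ) * D.γ - a := by
  have hj : j ∈ A ∧ D.it j ∈ t.items := by
    by_contra h'; exact h (uA_zero hM h' y)
  have h1 : ∃ i ∈ Finset.range M, (D.toFT b pr t).U c j ((y + (i : ℕ)) / M) ≠ 0 := by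
    by_contra hne
    push Not at hne
    apply h
    unfold Par.uA avg
    rw [rv_of_mem hj.1]
    unfold Ep
    rw [Finset.sum_eq_zero hne, zero_div]
  obtain ⟨i, -, h2⟩ := h1
  obtain ⟨-, a, z, h3, h4, h5⟩ := pt_of_U hb hF hW hc h2
  exact ⟨hj.1, hj.2, i, a, z, h3, h4, by rw [h5]; push_cast; ring⟩

/-- data of an item at a node -/
lemma item_node (hF : Fit b pr t) {q : ℕ} (hq : q ∈ t.items) :
    0 < pr ∧ 0 < q / pr ∧ q = pr * (q / pr) ∧ Nat.Coprime (q / pr) b := by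
  obtain ⟨h1, h2, h3⟩ := hF.item _ hq
  have p0 : 0 < pr := Nat.pos_of_dvd_of_pos h2 h1
  exact ⟨p0, Nat.div_pos (Nat.le_of_dvd h1 h2) p0, (Nat.mul_div_cancel' h2).symm, h3⟩

/-- the functions `f` are supported on the pieces: circle `pr B`, item rest `w = q / pr` -/
def Pts (D : Par Λ κ) (pr B : ℕ) (f : Λ → ℝ → ℝ) : Prop :=
  ∀ j x, f j x ≠ 0 → 0 < D.it j / pr ∧ D.it j = pr * (D.it j / pr) ∧
    Nat.Coprime (D.it j / pr) B ∧
    ∃ (a : ℤ) (z : ℝ), D.al j ≤ z ∧ z < D.be j ∧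
      (B : ℝ) * z = ((D.it j / pr : ℕ) : ℝ) * x - (B : ℝ) * D.γ - a

/-- **LIFTS, general functions.** Circle of the left functions `pr B`, averaged over `M`; right
functions `pr' B'`, averaged over `M'`. `R` = pairs of labelled pieces of the same class; left side
poor in `s` : `v_s (w) + k ≤ v_s (M)`; if `s` divides the denominator of the left label, then the
denominators of the two labels have the same exponent of `s` and `v_s (q) + k ≤ v_s (q')`. -/
theorem lift_gen (hL : LbX D L r lab K) (hs : s.Prime) {B B' : ℕ} (hM : 0 < M) (hM' : 0 < M')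
    (hpr : 0 < pr) (hpr' : 0 < pr') (hB : 0 < B) (hB' : 0 < B') {f g : Λ → ℝ → ℝ}
    (pf : ∀ j, PB (f j)) (pg : ∀ j, PB (g j)) (hf : Pts D pr B f) (hg : Pts D pr' B' g)
    (hcirc : pr * M * B = pr' * M' * B')
    (hK : M * B ≤ K) (hk : 0 < k) {R : Finset (Λ × Λ)}
    (hR : ∀ e ∈ R, e.1 ∈ L ∧ e.2 ∈ L ∧ r e.1 = r e.2)
    (hv : ∀ e ∈ R, (∃ x, f e.1 x ≠ 0) → (∃ x, g e.2 x ≠ 0) →
      (D.it e.1 / pr).factorization s + k ≤ M.factorization s ∧
      (s ∣ (lab e.1).den → (lab e.1).den.factorization s = (lab e.2).den.factorization s ∧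
        (D.it e.1).factorization s + k ≤ (D.it e.2).factorization s)) :
    Q R (avg M f) (avg M' g) ≤
      Real.sqrt (1 / (s : ℝ) ^ k * Q (Dr r) f f * Q (Dr r) g g) := by
  classical
  have : Fact s.Prime := ⟨hs⟩
  set G : Finset Λ := L.filter fun j => 
    (D.it j / pr).factorization s + ((B : ℚ) * lab j).den.factorization s + k ≤
      M.factorization s with hG
  have pG : ∀ j, PB (rv G f j) := PB_rv pf G
  have avg_ne : ∀ {N : ℕ} (F : Λ → ℝ → ℝ) (j : Λ) (y : ℝ), avg N F j y ≠ 0 →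
      ∃ i : ℕ, i < N ∧ F j ((y + i) / N) ≠ 0 := by
    intro N F j y h
    by_contra hne
    push Not at hne
    apply h
    unfold avg Ep
    rw [Finset.sum_eq_zero fun i hi => hne i (Finset.mem_range.1 hi), zero_div]
  -- the pairs with a bad left piece do not count
  have h0 : ∀ e ∈ R, e.1 ∉ G → I (fun y => avg M f e.1 y * avg M' g e.2 y) = 0 := by
    intro e he heG
    have hz : (fun y => avg M f e.1 y * avg M' g e.2 y) = fun _ => 0 := by
      funext y
      by_contra hne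
      obtain ⟨i, -, n1⟩ := avg_ne f e.1 y (left_ne_zero_of_mul hne)
      obtain ⟨i', -, n2⟩ := avg_ne g e.2 y (right_ne_zero_of_mul hne)
      obtain ⟨w0, hq, hco, a, z, z1, z2, z3⟩ := hf _ _ n1
      obtain ⟨w0', hq', hco', a', z', z1', z2', z3'⟩ := hg _ _ n2
      obtain ⟨l1, l2, l3⟩ := hR e he
      obtain ⟨v1, v2⟩ := hv e he ⟨_, n1⟩ ⟨_, n2⟩
      have hce := hL.cen_eq l1 l2 l3 hM hM' w0 w0' hpr hpr' hq hq' hcirc hK z1 z2 z1' z2' (y := y)
        (i := (i : ℤ)) (i' := (i' : ℤ)) (by rw [z3]; push_cast; ring) (by rw [z3']; push_cast; ring)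
      have hgd := good_of_cen (s := s) hM w0 hB hM' w0' hB' hpr hpr' hk hcirc v1
        (fun hd => by rw [← hq, ← hq']; exact v2 hd)
        (fun hd hw' => by
          have h2 : s ∣ Nat.gcd (D.it e.2 / pr') B' := Nat.dvd_gcd hw' hd
          rw [hco'] at h2
          exact hs.one_lt.ne' (Nat.dvd_one.1 h2)) hce
      exact heG (Finset.mem_filter.2 ⟨l1, hgd⟩)
    rw [hz]; simp [I]
  have h1 : Q R (avg M f) (avg M' g) = Q (R.filter fun e => e.1 ∈ G) (avg M (rv G f)) (avg M' g) := by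
    unfold Q
    rw [Finset.sum_filter]
    refine Finset.sum_congr rfl fun e he => ?_
    split_ifs with hg
    · have e1 : avg M f e.1 = avg M (rv G f) e.1 := by
        unfold avg
        rw [rv_of_mem hg]
      rw [e1]
    · exact h0 e he hg
  rw [h1]
  have hP : s ^ k ∣ M ∨ Q (R.filter fun e => e.1 ∈ G) (avg M (rv G f)) (avg M' g) = 0 := by
    rcases G.eq_empty_or_nonempty with he | ⟨j, hj⟩
    · right
      have : (R.filter fun e => e.1 ∈ G) = ∅ := by
        rw [he]; exact Finset.filter_false_of_mem fun e _ => Finset.notMem_empty _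
      rw [this]; simp [Q]
    · left
      have := (Finset.mem_filter.1 hj).2
      exact (hs.pow_dvd_iff_le_factorization hM.ne').2 (by omega)
  have hE : 0 ≤ Q (Dr r) g g := Q_nonneg pg pg
  rcases hP with hP | hP
  swap
  · rw [hP]; exact Real.sqrt_nonneg _
  refine (Q_lift hM hM' hP r pG pg (fun e he => (hR e (Finset.mem_filter.1 he).1).2.2) ?_).trans ?_
  · intro j j' hjj y i hi i' hi' n n'
    have hj : j ∈ G := by
      by_contra hj; exact n (by rw [rv_of_not_mem hj])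
    have hj' : j' ∈ G := by
      by_contra hj'; exact n' (by rw [rv_of_not_mem hj'])
    rw [rv_of_mem hj] at n
    rw [rv_of_mem hj'] at n'
    obtain ⟨w0, hq, -, a, z, z1, z2, z3⟩ := hf _ _ n
    obtain ⟨w0', hq', -, a', z', z1', z2', z3'⟩ := hf _ _ n'
    obtain ⟨g1, g3⟩ := Finset.mem_filter.1 hj
    obtain ⟨g1', g3'⟩ := Finset.mem_filter.1 hj'
    have hce := hL.cen_eq g1 g1' hjj hM hM w0 w0' hpr hpr
      hq hq' rfl hK z1 z2 z1' z2' (y := y) (i := (i : ℤ)) (i' := (i' : ℤ))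
      (by rw [z3]; push_cast; ring) (by rw [z3']; push_cast; ring)
    exact residue hM w0 w0' g3 g3' hce
  · refine Real.sqrt_le_sqrt ?_
    have h2 : Q (Dr r) (rv G f) (rv G f) ≤ Q (Dr r) f f := by
      have key : ∀ j x, rv G f j x ≤ f j x := by
        intro j x
        by_cases hj : j ∈ G
        · rw [rv_of_mem hj]
        · rw [rv_of_not_mem hj]; exact (pf j).nonneg x
      exact Finset.sum_le_sum fun e _ => I_mono ((pG e.1).mul (pG e.2)).integrableOn
        ((pf e.1).mul (pf e.2)).integrableOn fun x =>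
          mul_le_mul (key _ x) (key _ x) ((pG _).nonneg x) ((pf _).nonneg x)
    rw [Nat.cast_pow]
    exact mul_le_mul_of_nonneg_right (mul_le_mul_of_nonneg_left h2 (by positivity)) hE

/-- the functions of a node -/
lemma Pts_UV (hb : 0 < b) (hF : Fit b pr t) (hW : D.Wts pr t) (hc : c ∣ b) :
    Pts D pr (b / c) (UV D b pr t A c) := by
  intro j x h
  have hj : j ∈ A := by
    by_contra hj; exact h (by unfold UV; rw [rv_of_not_mem hj])
  unfold UV at h
  rw [rv_of_mem hj] at h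
  obtain ⟨h1, a, z, h2, h3, h4⟩ := pt_of_U hb hF hW hc h
  obtain ⟨p0, w0, hq, hco⟩ := item_node hF h1
  exact ⟨w0, hq, hco.coprime_dvd_right (Nat.div_dvd_of_dvd hc), a, z, h2, h3, h4⟩

lemma UV_ne {j : Λ} {x : ℝ} (h : UV D b pr t A c j x ≠ 0) : j ∈ A ∧ D.it j ∈ t.items := by
  have hj : j ∈ A := by
    by_contra hj; exact h (by unfold UV; rw [rv_of_not_mem hj])
  refine ⟨hj, ?_⟩
  by_contra hi
  apply h
  unfold UV
  rw [rv_of_mem hj]
  exact D.U_zero t b pr c j hi x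

/-- **LIFTS IN STATE FORM.** `R` = pairs of labelled pieces of the same class; left side poor in `s`:
`v_s (w) + k ≤ v_s (M)`; if `s` divides the denominator of the left label, then the denominators of
the two labels have the same exponent of `s` and `v_s (q) + k ≤ v_s (q')`. -/
theorem lift_state (hL : LbX D L r lab K) (hs : s.Prime) (hM : 0 < M) (hM' : 0 < M') (hb : 0 < b)
    (hb' : 0 < b') (hpr : 0 < pr) (hpr' : 0 < pr') (hF : Fit b pr t) (hF' : Fit b' pr' t')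
    (hW : D.Wts pr t) (hW' : D.Wts pr' t')
    (hc : c ∣ b) (hc' : c' ∣ b') (hcirc : pr * M * (b / c) = pr' * M' * (b' / c'))
    (hK : M * (b / c) ≤ K) (hk : 0 < k) {R : Finset (Λ × Λ)}
    (hR : ∀ e ∈ R, e.1 ∈ L ∧ e.2 ∈ L ∧ r e.1 = r e.2)
    (hv : ∀ e ∈ R, e.1 ∈ A → e.2 ∈ A' → D.it e.1 ∈ t.items → D.it e.2 ∈ t'.items →
      (D.it e.1 / pr).factorization s + k ≤ M.factorization s ∧
      (s ∣ (lab e.1).den → (lab e.1).den.factorization s = (lab e.2).den.factorization s ∧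
        (D.it e.1).factorization s + k ≤ (D.it e.2).factorization s)) :
    Q R (D.uA M b pr t A c) (D.uA M' b' pr' t' A' c') ≤
      Real.sqrt (1 / (s : ℝ) ^ k * Ein D b pr t A c r * Ein D b' pr' t' A' c' r) := by
  have c0 : 0 < c := Nat.pos_of_dvd_of_pos hc hb
  have c0' : 0 < c' := Nat.pos_of_dvd_of_pos hc' hb'
  exact lift_gen hL hs hM hM' hpr hpr' (Nat.div_pos (Nat.le_of_dvd hb hc) c0)
    (Nat.div_pos (Nat.le_of_dvd hb' hc') c0') (PB_UV hb hF hW hc) (PB_UV hb' hF' hW' hc')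
    (Pts_UV hb hF hW hc) (Pts_UV hb' hF' hW' hc') hcirc hK hk hR
    (fun e he ⟨x, hx⟩ ⟨x', hx'⟩ => by
      obtain ⟨h1, h2⟩ := UV_ne hx
      obtain ⟨h1', h2'⟩ := UV_ne hx'
      exact hv e he h1 h1' h2 h2')

end state

/-! ### concrete data -/

section cf
variable {c : Cf} {n : ℕ}

/-- index class of a piece at the column `l` -/
noncomputable def ixc (c : Cf) (l : ℕ) (j : c.Lam) : c.Lam := (c.D.rho l j).ix

/-- same index = not related -/
lemma ixc_iff (c : Cf) (l : ℕ) (e : c.Lam × c.Lam) :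
    ixc c l e.1 = ixc c l e.2 ↔ e ∉ Ro (c.D.rho l) := by
  rw [Cf.mem_Ro, not_not]
  exact rep_eq_iff (fun j : c.Lam => (c.world l j.1).1) e.1 e.2

lemma mem_Dr_ixc (c : Cf) (l : ℕ) (e : c.Lam × c.Lam) :
    e ∈ Dr (ixc c l) ↔ e ∉ Ro (c.D.rho l) := by
  rw [← ixc_iff]
  simp [Dr]

open Classical in
/-- labelled pieces at the column `l` -/
noncomputable def Lbd (c : Cf) (l : ℕ) : Finset c.Lam :=
  Finset.univ.filter fun j => (c.st l j.1.1).isSome

/-- label of a piece at the column `l` -/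
noncomputable def lbv (c : Cf) (l : ℕ) (j : c.Lam) : ℚ := (c.st l j.1.1).getD 0

lemma mem_Lbd {l : ℕ} {j : c.Lam} : j ∈ Lbd c l ↔ c.st l j.1.1 = some (lbv c l j) := by
  unfold Lbd lbv
  simp only [Finset.mem_filter, Finset.mem_univ, true_and]
  cases h : c.st l j.1.1 <;> simp

/-- pieces of the same index are labelled together -/
lemma Lbd_of_same {l : ℕ} {j j' : c.Lam} (h : ixc c l j = ixc c l j') (hj : j ∈ Lbd c l) :
    j' ∈ Lbd c l := by
  have h1 : (c.world l j.1).1 = (c.world l j'.1).1 :=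
    (rep_eq_iff (fun j : c.Lam => (c.world l j.1).1) j j').1 h
  have h2 : (c.st l j.1.1).isSome = (c.st l j'.1.1).isSome := congrArg Prod.fst h1
  unfold Lbd at hj ⊢
  simp only [Finset.mem_filter, Finset.mem_univ, true_and] at hj ⊢
  rw [← h2]; exact hj

/-- **the labels of the columns** -/
theorem lbX (h : c.Ok n) {K : ℕ} (hf : WPex189.Fine c.wp c.γ c.r c.t c.S n K) {l : ℕ} (hl : l ≤ n)
    (X : Finset (ℕ × ℕ × Finset ℕ)) : LbX (c.D.par X) (Lbd c l) (ixc c l) (lbv c l) K := by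
  refine ⟨fun j hj j' hj' e z z' h1 h2 h1' h2' => ?_⟩
  have k0 : (c.world l j.1).1 = (c.world l j'.1).1 :=
    (rep_eq_iff (fun j : c.Lam => (c.world l j.1).1) j j').1 e
  have s1 := mem_Lbd.1 hj
  have s2 := mem_Lbd.1 hj'
  have k1 : c.wp.ix c.γ l j.1.1 (c.st l j.1.1) z = c.wp.ix c.γ l j'.1.1 (c.st l j'.1.1) z' := by
    rw [h.ix_point hl j h1 h2, h.ix_point hl j' h1' h2']
    exact k0
  rw [s1, s2] at k1
  have hc1 : W363.cell (grd c.wp.δ₀ c.wp.n₁) (off c.γ (lbv c l j) j.1.1 z) =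
      W363.cell (grd c.wp.δ₀ c.wp.n₁) (off c.γ (lbv c l j') j'.1.1 z') := congrArg Prod.snd k1
  have p1 := stB_lbAt s1
  have p2 := stB_lbAt s2
  have hj0 := h.pos _ (Cf.mem_S j)
  have hj0' := h.pos _ (Cf.mem_S j')
  have hz : |z| ≤ c.r j.1.1 := abs_le.2 ⟨(h.bp_ge j j.1.2).trans h1,
    h2.le.trans (h.bp_le j (Cf.k_lt j))⟩
  have hz' : |z'| ≤ c.r j'.1.1 := abs_le.2 ⟨(h.bp_ge j' j'.1.2).trans h1',
    h2'.le.trans (h.bp_le j' (Cf.k_lt j'))⟩
  have o1 := hf.offB l hl _ (Cf.mem_S j) hj0 _ p1 z hz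
  have o2 := hf.offB l hl _ (Cf.mem_S j') hj0' _ p2 z' hz'
  have g1 := grd_close hf.δ0 o1 o2 hc1
  have g2 := hf.gridB l hl l hl _ (Cf.mem_S j) _ (Cf.mem_S j') _ _ p1 p2
  show ((K * (((lbv c l j).den * j.1.1) * ((lbv c l j').den * j'.1.1)) : ℕ) : ℝ) *
      |off c.γ (lbv c l j) j.1.1 z - off c.γ (lbv c l j') j'.1.1 z'| < 1
  push_cast
  set Y : ℝ := (K : ℝ) * ((((lbv c l j).den : ℝ) * j.1.1) * (((lbv c l j').den : ℝ) * j'.1.1))
    with hY
  have Y0 : 0 ≤ Y := by rw [hY]; positivity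
  rcases Y0.eq_or_lt with hY0 | hY0
  · rw [← hY0, zero_mul]; exact one_pos
  · calc Y * |off c.γ (lbv c l j) j.1.1 z - off c.γ (lbv c l j') j'.1.1 z'| < Y * c.wp.δ₀ :=
        mul_lt_mul_of_pos_left g1 hY0
      _ = c.wp.δ₀ * Y := mul_comm _ _
      _ ≤ 1 := g2

end cf

/-! ### mirrored form, concrete data -/

section mirror
variable {Λ κ κ' : Type*} [Fintype Λ] [DecidableEq Λ] [Fintype κ] [DecidableEq κ] [Fintype κ']
  [DecidableEq κ'] {D : Par Λ κ} {L : Finset Λ} {r : Λ → κ'} {lab : Λ → ℚ} {K : ℕ}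
  {M M' b pr c b' pr' c' k s : ℕ} {t t' : IT} {A A' : Finset Λ}

/-- swapped set of pairs -/
def sw (R : Finset (Λ × Λ)) : Finset (Λ × Λ) := R.map ⟨Prod.swap, Prod.swap_injective⟩

lemma mem_sw {R : Finset (Λ × Λ)} {e : Λ × Λ} : e ∈ sw R ↔ (e.2, e.1) ∈ R := by
  unfold sw
  rw [Finset.mem_map]
  constructor
  · rintro ⟨a, ha, rfl⟩; exact ha
  · intro h; exact ⟨(e.2, e.1), h, rfl⟩

lemma Q_sw (R : Finset (Λ × Λ)) (f g : Λ → ℝ → ℝ) : Q (sw R) g f = Q R f g := by
  unfold Q sw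
  rw [Finset.sum_map]
  refine Finset.sum_congr rfl fun e _ => ?_
  show I (fun x => g e.2 x * f e.1 x) = I (fun x => f e.1 x * g e.2 x)
  congr 1; funext x; ring

/-- **LIFTS IN STATE FORM, right side poor** -/
theorem lift_state' (hL : LbX D L r lab K) (hs : s.Prime) (hM : 0 < M) (hM' : 0 < M') (hb : 0 < b)
    (hb' : 0 < b') (hpr : 0 < pr) (hpr' : 0 < pr') (hF : Fit b pr t) (hF' : Fit b' pr' t')
    (hW : D.Wts pr t) (hW' : D.Wts pr' t')
    (hc : c ∣ b) (hc' : c' ∣ b') (hcirc : pr * M * (b / c) = pr' * M' * (b' / c'))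
    (hK : M' * (b' / c') ≤ K) (hk : 0 < k) {R : Finset (Λ × Λ)}
    (hR : ∀ e ∈ R, e.1 ∈ L ∧ e.2 ∈ L ∧ r e.1 = r e.2)
    (hv : ∀ e ∈ R, e.1 ∈ A → e.2 ∈ A' → D.it e.1 ∈ t.items → D.it e.2 ∈ t'.items →
      (D.it e.2 / pr').factorization s + k ≤ M'.factorization s ∧
      (s ∣ (lab e.2).den → (lab e.2).den.factorization s = (lab e.1).den.factorization s ∧
        (D.it e.2).factorization s + k ≤ (D.it e.1).factorization s)) :
    Q R (D.uA M b pr t A c) (D.uA M' b' pr' t' A' c') ≤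
      Real.sqrt (1 / (s : ℝ) ^ k * Ein D b pr t A c r * Ein D b' pr' t' A' c' r) := by
  rw [← Q_sw]
  refine (lift_state (k := k) (s := s) hL hs hM' hM hb' hb hpr' hpr hF' hF hW' hW hc' hc hcirc.symm
    hK hk (R := sw R)
    (fun e he => by
      obtain ⟨h1, h2, h3⟩ := hR _ (mem_sw.1 he)
      exact ⟨h2, h1, h3.symm⟩)
    (fun e he h1 h2 h3 h4 => hv _ (mem_sw.1 he) h2 h1 h4 h3)).trans (le_of_eq ?_)
  congr 1
  ring

end mirror

section cf2
variable {c : Cf} {n : ℕ} {M M' b pr c₁ b' pr' c₁' k s : ℕ} {t t' : IT} {A A' : Finset c.Lam}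

/-- the pairs which may be charged to the lifts of the prime `s` at the column `l` : same index,
labelled; if `s` divides the denominator of a label, then both denominators have the same exponent
of `s` -/
def LR (c : Cf) (l s : ℕ) (e : c.Lam × c.Lam) : Prop :=
  e ∉ Ro (c.D.rho l) ∧ e.1 ∈ Lbd c l ∧
    (lbv c l e.1).den.factorization s = (lbv c l e.2).den.factorization s

/-- **LIFTS FOR THE CONCRETE DATA**, left side poor in `s` -/
theorem lift_cf (h : c.Ok n) {K : ℕ} (hf : WPex189.Fine c.wp c.γ c.r c.t c.S n K) {l : ℕ}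
    (hl : l ≤ n) (X : Finset (ℕ × ℕ × Finset ℕ)) (hs : s.Prime) (hM : 0 < M) (hM' : 0 < M')
    (hb : 0 < b) (hb' : 0 < b') (hpr : 0 < pr) (hpr' : 0 < pr') (hF : Fit b pr t)
    (hF' : Fit b' pr' t') (hW : (c.D.par X).Wts pr t) (hW' : (c.D.par X).Wts pr' t')
    (hc : c₁ ∣ b) (hc' : c₁' ∣ b') (hcirc : pr * M * (b / c₁) = pr' * M' * (b' / c₁'))
    (hK : M * (b / c₁) ≤ K) (hk : 0 < k) {R : Finset (c.Lam × c.Lam)} (hR : ∀ e ∈ R, LR c l s e)
    (hv : ∀ e ∈ R, e.1 ∈ A → e.2 ∈ A' → e.1.1.1 ∈ t.items → e.2.1.1 ∈ t'.items →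
      (e.1.1.1 / pr).factorization s + k ≤ M.factorization s ∧
      (s ∣ (lbv c l e.1).den →
        (e.1.1.1).factorization s + k ≤ (e.2.1.1).factorization s)) :
    Q R ((c.D.par X).uA M b pr t A c₁) ((c.D.par X).uA M' b' pr' t' A' c₁') ≤
      Real.sqrt (1 / (s : ℝ) ^ k * Ein (c.D.par X) b pr t A c₁ (ixc c l) *
        Ein (c.D.par X) b' pr' t' A' c₁' (ixc c l)) := by
  refine lift_state (lbX h hf hl X) hs hM hM' hb hb' hpr hpr' hF hF' hW hW' hc hc' hcirc hK hk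
    (fun e he => ?_) (fun e he h1 h2 h3 h4 => ?_)
  · obtain ⟨h1, h2, h3⟩ := hR e he
    have h4 := (ixc_iff c l e).2 h1
    exact ⟨h2, Lbd_of_same h4 h2, h4⟩
  · obtain ⟨h5, h6⟩ := hv e he h1 h2 h3 h4
    exact ⟨h5, fun hd => ⟨(hR e he).2.2, h6 hd⟩⟩

/-- **LIFTS FOR THE CONCRETE DATA**, right side poor in `s` -/
theorem lift_cf' (h : c.Ok n) {K : ℕ} (hf : WPex189.Fine c.wp c.γ c.r c.t c.S n K) {l : ℕ}
    (hl : l ≤ n) (X : Finset (ℕ × ℕ × Finset ℕ)) (hs : s.Prime) (hM : 0 < M) (hM' : 0 < M')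
    (hb : 0 < b) (hb' : 0 < b') (hpr : 0 < pr) (hpr' : 0 < pr') (hF : Fit b pr t)
    (hF' : Fit b' pr' t') (hW : (c.D.par X).Wts pr t) (hW' : (c.D.par X).Wts pr' t')
    (hc : c₁ ∣ b) (hc' : c₁' ∣ b') (hcirc : pr * M * (b / c₁) = pr' * M' * (b' / c₁'))
    (hK : M' * (b' / c₁') ≤ K) (hk : 0 < k) {R : Finset (c.Lam × c.Lam)} (hR : ∀ e ∈ R, LR c l s e)
    (hv : ∀ e ∈ R, e.1 ∈ A → e.2 ∈ A' → e.1.1.1 ∈ t.items → e.2.1.1 ∈ t'.items →
      (e.2.1.1 / pr').factorization s + k ≤ M'.factorization s ∧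
      (s ∣ (lbv c l e.2).den →
        (e.2.1.1).factorization s + k ≤ (e.1.1.1).factorization s)) :
    Q R ((c.D.par X).uA M b pr t A c₁) ((c.D.par X).uA M' b' pr' t' A' c₁') ≤
      Real.sqrt (1 / (s : ℝ) ^ k * Ein (c.D.par X) b pr t A c₁ (ixc c l) *
        Ein (c.D.par X) b' pr' t' A' c₁' (ixc c l)) := by
  refine lift_state' (lbX h hf hl X) hs hM hM' hb hb' hpr hpr' hF hF' hW hW' hc hc' hcirc hK hk
    (fun e he => ?_) (fun e he h1 h2 h3 h4 => ?_)
  · obtain ⟨h1, h2, h3⟩ := hR e he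
    have h4 := (ixc_iff c l e).2 h1
    exact ⟨h2, Lbd_of_same h4 h2, h4⟩
  · obtain ⟨h5, h6⟩ := hv e he h1 h2 h3 h4
    exact ⟨h5, fun hd => ⟨(hR e he).2.2.symm, h6 hd⟩⟩

end cf2

end Crest.Agent.R4P.LiftX35
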