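import Crest.Agent.R4P.ExW_17
import Crest.Agent.R4P.LiftX_35
import Crest.Agent.R4P.TE_26

/-!
R4 (S0004), POWERS, helper26, [M8], terminal exits, part 1 (walk level).

* `WF_exitF` : as `ExW17.WF_exit`, the invariant may depend on the flag.
* `Q_Dr_le` : the energy of the pairs of one class at two sides is at most the geometric mean of the
  energies of the two sides.
-/

set_option autoImplicit false
set_option linter.unusedSectionVars false
set_option linter.unusedVariables false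
set_option linter.unusedSimpArgs false
open MeasureTheory Filter Set

namespace Crest.Agent.R4P.ExQ26

open Crest.Agent.R4.Tour104 Crest.Agent.R4.Tour758 Crest.Agent.R4.Avg758 Crest.Agent.R4.Clos758
open Crest.Agent.R4.ClosL758 Crest.Agent.R4.ClosG758 Crest.Agent.R4.ClosR758
open Crest.Agent.R4P.ClosR442 Crest.Agent.R4P.Walk560 Crest.Agent.R4P.TWc17
open Crest.Agent.R4P.TW17 Crest.Agent.R4P.ExW17

section walk
variable {Λ κ : Type*} [Fintype Λ] [DecidableEq Λ] [DecidableEq κ] [WRel κ] [Fintype κ]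
  {wr : ℕ → Λ → κ} {Ad : TrG Λ κ → Finset Λ → Prop}
  {μ : TrG Λ κ → Finset Λ → ℝ} {ν : TrG Λ κ → ℝ} {n : ℕ} {stp : Stp Λ κ}

open Classical in
/-- **walk sums of errors at the exits**, the invariant depends on the flag -/
theorem WF_exitF {Iv : Fl → St Λ κ → Prop} (h1 : ∀ f s, Iv f s → InvE wr Ad μ ν s)
    (hn : ∀ f s, Iv f s → ∀ q ∈ nxF stp (f, s), Iv q.2.1 q.2.2)
    {loc : Fl × St Λ κ → ℝ} {Ψ : St Λ κ → ℝ}
    (hs : ∀ f s, Iv f s → ((nxt stp s).map fun q => q.1 * Ψ q.2).sum ≤ Ψ s)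
    (lS : ∀ s, Iv Fl.self s → loc (Fl.self, s) ≤ 0) (lO : ∀ s, Iv Fl.old s → loc (Fl.old, s) ≤ 0)
    (lX : ∀ s, Iv Fl.top s → exH stp s → loc (Fl.top, s) ≤ Ψ s)
    (l2 : ∀ s, Iv Fl.top s → ¬ exH stp s → two s → loc (Fl.top, s) ≤ 0)
    (lC : ∀ s, Iv Fl.top s → ¬ exH stp s → ¬ two s → loc (Fl.top, s) ≤
      ((nxt stp s).map fun q => q.1 * (if stay q.2 then 0 else Ψ q.2)).sum)
    {z : Fl × St Λ κ} (hz : Iv z.1 z.2) : WF stp loc z ≤ phE Ψ z := by
  have hI : ∀ z : Fl × St Λ κ, Iv z.1 z.2 → ∀ q ∈ nxF stp z, Iv q.2.1 q.2.2 ∧ 0 ≤ q.1 := by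
    intro z hz q hq
    have hq' := mem_nxF_nxt hq
    exact ⟨hn z.1 z.2 hz _ hq, ((h1 z.1 z.2 hz).next (stp := stp) _ hq').2⟩
  refine W_le_super (Inv := fun z : Fl × St Λ κ => Iv z.1 z.2) (fun s => nxF_rank stp s) hI
    (fun z hz => ?_) z hz
  rw [nxF_sum]
  obtain ⟨f, s⟩ := z
  have hz' : Iv f s := hz
  have hss : ((nxt0 stp s).map fun q => q.1 * Ψ q.2).sum ≤ Ψ s := by
    rw [← nxt_sum]; exact hs f s hz'
  have hold : ∀ l : List (ℝ × St Λ κ),
      ((l.map fun q => (q.1, (Fl.old, q.2))).map fun q => q.1 * phE Ψ q.2).sum = 0 := by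
    intro l
    rw [List.map_map]
    refine List.sum_eq_zero fun x hx => ?_
    obtain ⟨q, -, rfl⟩ := List.mem_map.1 hx
    simp [phE]
  cases f with
  | old =>
    have e : nxF0 stp (Fl.old, s) = (nxt0 stp s).map fun q => (q.1, (Fl.old, q.2)) := rfl
    rw [e, hold, phE_old, add_zero]
    exact lO s hz'
  | self =>
    rw [sum_noold Ψ self_noold, nxF0_snd, phE_self]
    have := lS s hz'
    linarith
  | top =>
    rw [phE_top]
    by_cases hx : exH stp s
    · have e : nxF0 stp (Fl.top, s) = (nxt0 stp s).map fun q => (q.1, (Fl.old, q.2)) := by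
        simp [nxF0, hx]
      rw [e, hold, add_zero]
      exact lX s hz' hx
    by_cases h2 : two s
    · have e : nxF0 stp (Fl.top, s) = (nxt0 stp s).map fun q => (q.1, (Fl.top, q.2)) := by
        simp [nxF0, hx, h2]
      have e2 : ((nxF0 stp (Fl.top, s)).map fun q => q.1 * phE Ψ q.2).sum =
          ((nxt0 stp s).map fun q => q.1 * Ψ q.2).sum := by
        rw [sum_noold Ψ, nxF0_snd]
        intro q hq
        rw [e] at hq
        obtain ⟨x, -, rfl⟩ := List.mem_map.1 hq
        simp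
      rw [e2]
      have := l2 s hz' hx h2
      linarith
    · have e : nxF0 stp (Fl.top, s) = (nxt0 stp s).map fun q => (q.1, (flS q.2, q.2)) := by
        simp [nxF0, hx, h2]
      have e2 : ((nxF0 stp (Fl.top, s)).map fun q => q.1 * phE Ψ q.2).sum =
          ((nxt0 stp s).map fun q => q.1 * (if stay q.2 then Ψ q.2 else 0)).sum := by
        rw [e, List.map_map]
        congr 1
        refine List.map_congr_left fun q _ => ?_
        simp only [Function.comp, flS]
        by_cases hst : stay q.2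
        · rw [if_pos hst, if_pos hst, phE_top]
        · rw [if_neg hst, if_neg hst, phE_old]
      have k := lC s hz' hx h2
      rw [nxt_sum stp s (fun q => if stay q then 0 else Ψ q)] at k
      rw [e2]
      have e3 : ((nxt0 stp s).map fun q => q.1 * (if stay q.2 then 0 else Ψ q.2)).sum +
          ((nxt0 stp s).map fun q => q.1 * (if stay q.2 then Ψ q.2 else 0)).sum =
          ((nxt0 stp s).map fun q => q.1 * Ψ q.2).sum := split_sum Ψ _
      linarith

end walk

/-! ### the pairs of one class -/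

section cls
variable {Λ κ : Type*} [Fintype Λ] [DecidableEq Λ] [Fintype κ] [DecidableEq κ]

/-- **the energy of the pairs of one class at two sides** -/
theorem Q_Dr_le {M M' : ℕ} (hM : 0 < M) (hM' : 0 < M') (r : Λ → κ) {f g : Λ → ℝ → ℝ}
    (hf : ∀ j, PB (f j)) (hg : ∀ j, PB (g j)) {R : Finset (Λ × Λ)}
    (hR : ∀ e, e ∈ R ↔ r e.1 = r e.2) {a b : ℝ} (ha : Q R f f ≤ a) (hb : Q R g g ≤ b) :
    Q R (avg M f) (avg M' g) ≤ Real.sqrt (a * b) := by
  have e : R = Dr r := by
    ext e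
    rw [hR]
    simp [Dr]
  have h1 := Crest.Agent.R4P.LiftX35.Q_lift (P := 1) hM hM' (one_dvd _) r hf hg (R := R)
    (fun e he => (hR e).1 he) (fun j j' _ y i _ i' _ _ _ => Nat.modEq_one)
  rw [← e] at h1
  rw [Nat.cast_one, div_one, one_mul] at h1
  refine h1.trans ?_
  have n1 : 0 ≤ Q R f f := Q_nonneg hf hf
  have n2 : 0 ≤ Q R g g := Q_nonneg hg hg
  exact Real.sqrt_le_sqrt (mul_le_mul ha hb n2 (n1.trans ha))

end cls

end Crest.Agent.R4P.ExQ26
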