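import Crest.Agent.R4P.TWcert_17

/-!
R4 (S0004), powers, helper17, [W-eSHR] / M6, **TgtExit**, part 1 (walk level).

* `WF_exit` : a local error of the flagged walk which lives at the exits of the top states (the state
  itself, or the children which do not stay top) and is at most a supermartingale `Ψ` there has walk
  sum `≤ Ψ` : exits are an antichain, no gain is needed.
* `LhS` : the supermartingale `Lh (μ t A) (ν t) (μ t' A') (ν t')`; `LhS_super`, `LhS_self`.
* `Qs_same` : the energy of the pairs with one index at two sides.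
-/

set_option autoImplicit false
set_option linter.unusedSectionVars false
set_option linter.unusedVariables false
set_option linter.unusedSimpArgs false
open MeasureTheory Filter Set

namespace Crest.Agent.R4P.ExW17

open Crest.Agent.R4.Tour104 Crest.Agent.R4.Tour758 Crest.Agent.R4.Avg758 Crest.Agent.R4.Clos758
open Crest.Agent.R4.ClosL758 Crest.Agent.R4.ClosG758 Crest.Agent.R4.ClosR758
open Crest.Agent.R4P.ClosR442 Crest.Agent.R4P.Walk560 Crest.Agent.R4P.TWc17
open Crest.Agent.R4P.TW17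

variable {Λ κ : Type*} [Fintype Λ] [DecidableEq Λ] [DecidableEq κ] [WRel κ] [Fintype κ]
  {wr : ℕ → Λ → κ} {Ad : TrG Λ κ → Finset Λ → Prop}
  {μ : TrG Λ κ → Finset Λ → ℝ} {ν : TrG Λ κ → ℝ} {n : ℕ} {stp : Stp Λ κ}

/-! ### the exits of the top states -/

open Classical in
/-- the supersolution -/
noncomputable def phE (Ψ : St Λ κ → ℝ) (z : Fl × St Λ κ) : ℝ := if z.1 = Fl.old then 0 else Ψ z.2

lemma phE_old (Ψ : St Λ κ → ℝ) (s : St Λ κ) : phE Ψ (Fl.old, s) = 0 := by simp [phE]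
lemma phE_top (Ψ : St Λ κ → ℝ) (s : St Λ κ) : phE Ψ (Fl.top, s) = Ψ s := by simp [phE]
lemma phE_self (Ψ : St Λ κ → ℝ) (s : St Λ κ) : phE Ψ (Fl.self, s) = Ψ s := by simp [phE]

/-- without old children the weighted sum of `phE` is the one of `Ψ` -/
lemma sum_noold (Ψ : St Λ κ → ℝ) {l : List (ℝ × (Fl × St Λ κ))}
    (h : ∀ q ∈ l, q.2.1 ≠ Fl.old) :
    (l.map fun q => q.1 * phE Ψ q.2).sum =
      ((l.map fun q => (q.1, q.2.2)).map fun q => q.1 * Ψ q.2).sum := by
  rw [List.map_map]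
  congr 1
  refine List.map_congr_left fun q hq => ?_
  simp only [Function.comp]
  unfold phE
  rw [if_neg (h q hq)]

lemma self_noold {s : St Λ κ} : ∀ q ∈ nxF0 stp (Fl.self, s), q.2.1 ≠ Fl.old := by
  intro q hq
  simp only [nxF0] at hq
  split at hq
  · simp only [List.mem_cons, List.not_mem_nil, or_false] at hq
    rcases hq with rfl | rfl | rfl | rfl <;> simp
  · obtain ⟨x, -, rfl⟩ := List.mem_map.1 hq
    simp

open Classical in
lemma split_sum (Ψ : St Λ κ → ℝ) (l : List (ℝ × St Λ κ)) :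
    (l.map fun q => q.1 * (if stay q.2 then 0 else Ψ q.2)).sum +
      (l.map fun q => q.1 * (if stay q.2 then Ψ q.2 else 0)).sum =
      (l.map fun q => q.1 * Ψ q.2).sum := by
  induction l with
  | nil => simp
  | cons a l ih =>
    simp only [List.map_cons, List.sum_cons]
    rw [← ih]
    split_ifs <;> ring

open Classical in
/-- **walk sums of errors at the exits** -/
theorem WF_exit {Iv : St Λ κ → Prop} (h1 : ∀ s, Iv s → InvE wr Ad μ ν s)
    (hn : ∀ s, Iv s → ∀ q ∈ nxt stp s, Iv q.2)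
    {loc : Fl × St Λ κ → ℝ} {Ψ : St Λ κ → ℝ} (h0 : ∀ s, Iv s → 0 ≤ Ψ s)
    (hs : ∀ s, Iv s → ((nxt stp s).map fun q => q.1 * Ψ q.2).sum ≤ Ψ s)
    (lS : ∀ s, Iv s → loc (Fl.self, s) ≤ 0) (lO : ∀ s, Iv s → loc (Fl.old, s) ≤ 0)
    (lX : ∀ s, Iv s → exH stp s → loc (Fl.top, s) ≤ Ψ s)
    (l2 : ∀ s, Iv s → ¬ exH stp s → two s → loc (Fl.top, s) ≤ 0)
    (lC : ∀ s, Iv s → ¬ exH stp s → ¬ two s → loc (Fl.top, s) ≤
      ((nxt stp s).map fun q => q.1 * (if stay q.2 then 0 else Ψ q.2)).sum)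
    {z : Fl × St Λ κ} (hz : Iv z.2) : WF stp loc z ≤ phE Ψ z := by
  have hI : ∀ z : Fl × St Λ κ, Iv z.2 → ∀ q ∈ nxF stp z, Iv q.2.2 ∧ 0 ≤ q.1 := by
    intro z hz q hq
    have hq' := mem_nxF_nxt hq
    exact ⟨hn z.2 hz _ hq', ((h1 z.2 hz).next (stp := stp) _ hq').2⟩
  refine W_le_super (Inv := fun z : Fl × St Λ κ => Iv z.2) (fun s => nxF_rank stp s) hI
    (fun z hz => ?_) z hz
  rw [nxF_sum]
  obtain ⟨f, s⟩ := z
  have hz' : Iv s := hz
  have hss : ((nxt0 stp s).map fun q => q.1 * Ψ q.2).sum ≤ Ψ s := by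
    rw [← nxt_sum]; exact hs s hz'
  have hold : ∀ l : List (ℝ × St Λ κ),
      ((l.map fun q => (q.1, (Fl.old, q.2))).map fun q => q.1 * phE Ψ q.2).sum = 0 := by
    intro l
    rw [List.map_map]
    refine List.sum_eq_zero fun x hx => ?_
    obtain ⟨q, -, rfl⟩ := List.mem_map.1 hx
    simp [phE]
  cases f with
  | old =>
    have e : nxF0 stp (Fl.old, s) = (nxt0 stp s).map fun q => (q.1, (Fl.old, q.2)) := rfl
    rw [e, hold, phE_old, add_zero]
    exact lO s hz'
  | self =>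
    rw [sum_noold Ψ self_noold, nxF0_snd, phE_self]
    have := lS s hz'
    linarith
  | top =>
    rw [phE_top]
    by_cases hx : exH stp s
    · have e : nxF0 stp (Fl.top, s) = (nxt0 stp s).map fun q => (q.1, (Fl.old, q.2)) := by
        simp [nxF0, hx]
      rw [e, hold, add_zero]
      exact lX s hz' hx
    by_cases h2 : two s
    · have e : nxF0 stp (Fl.top, s) = (nxt0 stp s).map fun q => (q.1, (Fl.top, q.2)) := by
        simp [nxF0, hx, h2]
      have e2 : ((nxF0 stp (Fl.top, s)).map fun q => q.1 * phE Ψ q.2).sum =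
          ((nxt0 stp s).map fun q => q.1 * Ψ q.2).sum := by
        rw [sum_noold Ψ, nxF0_snd]
        intro q hq
        rw [e] at hq
        obtain ⟨x, -, rfl⟩ := List.mem_map.1 hq
        simp
      rw [e2]
      have := l2 s hz' hx h2
      linarith
    · have e : nxF0 stp (Fl.top, s) = (nxt0 stp s).map fun q => (q.1, (flS q.2, q.2)) := by
        simp [nxF0, hx, h2]
      have e2 : ((nxF0 stp (Fl.top, s)).map fun q => q.1 * phE Ψ q.2).sum =
          ((nxt0 stp s).map fun q => q.1 * (if stay q.2 then Ψ q.2 else 0)).sum := by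
        rw [e, List.map_map]
        congr 1
        refine List.map_congr_left fun q _ => ?_
        simp only [Function.comp, flS]
        by_cases hst : stay q.2
        · rw [if_pos hst, if_pos hst, phE_top]
        · rw [if_neg hst, if_neg hst, phE_old]
      have k := lC s hz' hx h2
      rw [nxt_sum stp s (fun q => if stay q then 0 else Ψ q)] at k
      rw [e2]
      have e3 : ((nxt0 stp s).map fun q => q.1 * (if stay q.2 then 0 else Ψ q.2)).sum +
          ((nxt0 stp s).map fun q => q.1 * (if stay q.2 then Ψ q.2 else 0)).sum =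
          ((nxt0 stp s).map fun q => q.1 * Ψ q.2).sum := split_sum Ψ _
      linarith

/-! ### the supermartingale -/

/-- `Lh` of the two sides -/
noncomputable def LhS (μ : TrG Λ κ → Finset Λ → ℝ) (ν : TrG Λ κ → ℝ) (s : St Λ κ) : ℝ :=
  Lh (μ s.t.g s.A) (ν s.t.g) (μ s.t'.g s.A') (ν s.t'.g)

lemma LhS_nn {s : St Λ κ} (h : Inv wr Ad μ ν n s) : 0 ≤ LhS μ ν s :=
  Lh_nonneg (NF_mu.nn h.L) (HF_nu.nn h.L) (NF_mu.nn h.R) (HF_nu.nn h.R)

/-- **`Lh` is a supermartingale of the walk** -/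
theorem LhS_super {s : St Λ κ} (h : Inv wr Ad μ ν n s) :
    ((nxt stp s).map fun q => q.1 * LhS μ ν q.2).sum ≤ LhS μ ν s := by
  have a1 := sup_rpow (stp := stp) (NF_mu (wr := wr) (Ad := Ad) (μ := μ) (ν := ν))
    (NF_mu (wr := wr) (Ad := Ad) (μ := μ) (ν := ν)) (α := 1) (β := 1) zero_le_one le_rfl
    zero_le_one le_rfl (by norm_num) s h
  have a2 := sup_rpow (stp := stp) (NF_mu (wr := wr) (Ad := Ad) (μ := μ) (ν := ν))
    (NF_mu (wr := wr) (Ad := Ad) (μ := μ) (ν := ν)) (α := 1) (β := 0) zero_le_one le_rfl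
    le_rfl zero_le_one (by norm_num) s h
  have a3 := sup_rpow (stp := stp) (NF_mu (wr := wr) (Ad := Ad) (μ := μ) (ν := ν))
    (NF_mu (wr := wr) (Ad := Ad) (μ := μ) (ν := ν)) (α := 0) (β := 1) le_rfl zero_le_one
    zero_le_one le_rfl (by norm_num) s h
  have a4 := sup_mul_HF (stp := stp) (NF_mu (wr := wr) (Ad := Ad) (μ := μ) (ν := ν))
    (HF_nu (wr := wr) (Ad := Ad) (μ := μ) (ν := ν)) s h
  have a5 := sup_HF_mul (stp := stp) (NF_mu (wr := wr) (Ad := Ad) (μ := μ) (ν := ν))
    (HF_nu (wr := wr) (Ad := Ad) (μ := μ) (ν := ν)) s h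
  simp only [Real.rpow_one, Real.rpow_zero, mul_one, one_mul] at a1 a2 a3
  have e : ∀ l : List (ℝ × St Λ κ), (l.map fun q => q.1 * LhS μ ν q.2).sum =
      (l.map fun q => q.1 * (μ q.2.t.g q.2.A * μ q.2.t'.g q.2.A')).sum +
      ((l.map fun q => q.1 * (μ q.2.t.g q.2.A * ν q.2.t'.g)).sum +
        (l.map fun q => q.1 * (ν q.2.t.g * μ q.2.t'.g q.2.A')).sum) / 2 +
      ((l.map fun q => q.1 * μ q.2.t.g q.2.A).sum +
        (l.map fun q => q.1 * μ q.2.t'.g q.2.A').sum) / 2 := by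
    intro l
    induction l with
    | nil => simp
    | cons a l ih =>
      simp only [List.map_cons, List.sum_cons]
      rw [ih]
      unfold LhS Lh
      ring
  rw [e]
  unfold LhS Lh
  linarith

/-- at a self state -/
lemma LhS_self (d : DT Λ κ) (A : Finset Λ) :
    LhS μ ν (selfSt d A) = μ d.g A ^ 2 + μ d.g A * ν d.g + μ d.g A := by
  unfold LhS Lh selfSt
  ring

end Crest.Agent.R4P.ExW17
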