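import Crest.Agent.R4P.WalkC_35

/-!
R4P (S0004), helper32, module D, group [X]: **the exceptional pairs of a crossing are not walked**.

At a crossing state `z` the populations are split: `S` on the left, `S'` on the right are the exceptional
items.  Only the pairs of `(A \ S) × (A' \ S')` go through the cross walk:

`Xs z ≤ Qs (A ∩ S × A' \ S') + Qs (A × A' ∩ S') + (WC (eAllC) (A \ S × A' \ S'))⁺`.
-/

set_option autoImplicit false
set_option linter.unusedSectionVars false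
set_option linter.unusedVariables false
open MeasureTheory Filter Set

namespace Crest.Agent.R4P.ExcSplit32

open Crest.Agent.R4.Tour104 Crest.Agent.R4.Tour758 Crest.Agent.R4.Avg758 Crest.Agent.R4.Clos758
open Crest.Agent.R4.ClosL758 Crest.Agent.R4.ClosG758 Crest.Agent.R4.ClosR758
open Crest.Agent.R4P.ClosR442 Crest.Agent.R4P.Walk560 Crest.Agent.R4P.WalkC

variable {Λ κ : Type*} [Fintype Λ] [DecidableEq Λ] [DecidableEq κ] [WRel κ] [Fintype κ]
  {wr : ℕ → Λ → κ} {Ad : TrG Λ κ → Finset Λ → Prop}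
  {μ : TrG Λ κ → Finset Λ → ℝ} {ν : TrG Λ κ → ℝ} {n : ℕ}

/-- split of the right population -/
theorem Qs_splitR {s : St Λ κ} (okL : s.t.g.Ok) (okR : s.t'.g.Ok) (hM : 0 < s.M) (hM' : 0 < s.M')
    (S' : Finset Λ) :
    Qs s = Qs { s with A' := s.A' ∩ S' } + Qs { s with A' := s.A' \ S' } := by
  have pL : ∀ j, PB (rv s.A s.t.g.val j) := PB_rv (fun j => okL.pb j) s.A
  have p1 : ∀ j, PB (rv (s.A' ∩ S') s.t'.g.val j) := PB_rv (fun j => okR.pb j) _
  have p0 : ∀ j, PB (rv (s.A' \ S') s.t'.g.val j) := PB_rv (fun j => okR.pb j) _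
  have spl := Q_add_right (R := s.R) (PB_avg hM pL) (PB_avg hM' p1) (PB_avg hM' p0)
  rw [← rv_split_fun (A := s.A') (f := s.t'.g.val) (fun j x => rv_split s.A' S' s.t'.g.val j x) s.M'] at spl
  exact spl

/-- split of the left population -/
theorem Qs_splitL {s : St Λ κ} (okL : s.t.g.Ok) (okR : s.t'.g.Ok) (hM : 0 < s.M) (hM' : 0 < s.M')
    (S : Finset Λ) :
    Qs s = Qs { s with A := s.A ∩ S } + Qs { s with A := s.A \ S } := by
  have pR : ∀ j, PB (rv s.A' s.t'.g.val j) := PB_rv (fun j => okR.pb j) s.A'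
  have p1 : ∀ j, PB (rv (s.A ∩ S) s.t.g.val j) := PB_rv (fun j => okL.pb j) _
  have p0 : ∀ j, PB (rv (s.A \ S) s.t.g.val j) := PB_rv (fun j => okL.pb j) _
  have spl := Q_add_left (R := s.R) (PB_avg hM p1) (PB_avg hM p0) (PB_avg hM' pR)
  rw [← rv_split_fun (A := s.A) (f := s.t.g.val) (fun j x => rv_split s.A S s.t.g.val j x) s.M] at spl
  exact spl

lemma Qs_nonneg {s : St Λ κ} (okL : s.t.g.Ok) (okR : s.t'.g.Ok) (hM : 0 < s.M) (hM' : 0 < s.M') :
    0 ≤ Qs s := by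
  unfold Qs Q
  exact Finset.sum_nonneg fun e _ => I_nonneg fun y =>
    mul_nonneg ((PB_avg hM (PB_rv (fun j => okL.pb j) s.A) _).nonneg y)
      ((PB_avg hM' (PB_rv (fun j => okR.pb j) s.A') _).nonneg y)

/-- **THE SPLIT**: the exceptional pairs are bounded at the crossing state itself -/
theorem Xs_split {stp : St Λ κ → Prop} {B : ℝ} (hB : 0 ≤ B) {s : St Λ κ} {S S' : Finset Λ}
    (h : ∃ n, Inv wr Ad μ ν n { s with A := s.A \ S, A' := s.A' \ S' })
    (hL : μ s.t.g (s.A \ S) ≤ μ s.t.g s.A) (hR : μ s.t'.g (s.A' \ S') ≤ μ s.t'.g s.A')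
    (h0 : 0 ≤ μ s.t.g s.A) :
    Xs μ B s ≤ Qs { s with A' := s.A' ∩ S' } + Qs { s with A := s.A ∩ S, A' := s.A' \ S' } +
      max 0 (WC stp (eAllC stp μ B) { s with A := s.A \ S, A' := s.A' \ S' }) := by
  have hw := walkC_bound (stp := stp) hB h
  obtain ⟨n, h⟩ := h
  have okL : s.t.g.Ok := h.L.ok
  have okR : s.t'.g.Ok := h.R.ok
  have hM : 0 < s.M := h.aL.M0
  have hM' : 0 < s.M' := h.aR.M0
  have n' : 0 ≤ μ s.t'.g (s.A' \ S') := Side.nn h.R
  have e1 := Qs_splitR okL okR hM hM' S'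
  have e2 := Qs_splitL (s := { s with A' := s.A' \ S' }) okL okR hM hM' S
  simp only at e2 hw
  have q1 : 0 ≤ Qs { s with A' := s.A' ∩ S' } := Qs_nonneg okL okR hM hM'
  have q2 : 0 ≤ Qs { s with A := s.A ∩ S, A' := s.A' \ S' } := Qs_nonneg okL okR hM hM'
  have hmm : μ s.t.g (s.A \ S) * μ s.t'.g (s.A' \ S') ≤ μ s.t.g s.A * μ s.t'.g s.A' :=
    mul_le_mul hL hR n' h0
  have hBm := mul_le_mul_of_nonneg_left hmm hB
  have h0' := le_max_left 0 (WC stp (eAllC stp μ B) { s with A := s.A \ S, A' := s.A' \ S' })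
  have h1' := le_max_right 0 (WC stp (eAllC stp μ B) { s with A := s.A \ S, A' := s.A' \ S' })
  unfold Xs
  refine max_le (by linarith) ?_
  rw [e1, e2]
  linarith

/-- split of the right population only -/
theorem Xs_splitR {stp : St Λ κ → Prop} {B : ℝ} (hB : 0 ≤ B) {s : St Λ κ} {S' : Finset Λ}
    (h : ∃ n, Inv wr Ad μ ν n { s with A' := s.A' \ S' })
    (hR : μ s.t'.g (s.A' \ S') ≤ μ s.t'.g s.A') :
    Xs μ B s ≤ Qs { s with A' := s.A' ∩ S' } +
      max 0 (WC stp (eAllC stp μ B) { s with A' := s.A' \ S' }) := by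
  have hw := walkC_bound (stp := stp) hB h
  obtain ⟨n, h⟩ := h
  have okL : s.t.g.Ok := h.L.ok
  have okR : s.t'.g.Ok := h.R.ok
  have hM : 0 < s.M := h.aL.M0
  have hM' : 0 < s.M' := h.aR.M0
  have n0 : 0 ≤ μ s.t.g s.A := Side.nn h.L
  have e1 := Qs_splitR okL okR hM hM' S'
  simp only at hw
  have q1 : 0 ≤ Qs { s with A' := s.A' ∩ S' } := Qs_nonneg okL okR hM hM'
  have hBm := mul_le_mul_of_nonneg_left (mul_le_mul_of_nonneg_left hR n0) hB
  have h0' := le_max_left 0 (WC stp (eAllC stp μ B) { s with A' := s.A' \ S' })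
  have h1' := le_max_right 0 (WC stp (eAllC stp μ B) { s with A' := s.A' \ S' })
  unfold Xs
  refine max_le (by linarith) ?_
  rw [e1]
  linarith

/-- split of the left population only -/
theorem Xs_splitL {stp : St Λ κ → Prop} {B : ℝ} (hB : 0 ≤ B) {s : St Λ κ} {S : Finset Λ}
    (h : ∃ n, Inv wr Ad μ ν n { s with A := s.A \ S })
    (hL : μ s.t.g (s.A \ S) ≤ μ s.t.g s.A) :
    Xs μ B s ≤ Qs { s with A := s.A ∩ S } +
      max 0 (WC stp (eAllC stp μ B) { s with A := s.A \ S }) := by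
  have hw := walkC_bound (stp := stp) hB h
  obtain ⟨n, h⟩ := h
  have okL : s.t.g.Ok := h.L.ok
  have okR : s.t'.g.Ok := h.R.ok
  have hM : 0 < s.M := h.aL.M0
  have hM' : 0 < s.M' := h.aR.M0
  have n0 : 0 ≤ μ s.t'.g s.A' := Side.nn h.R
  have e1 := Qs_splitL okL okR hM hM' S
  simp only at hw
  have q1 : 0 ≤ Qs { s with A := s.A ∩ S } := Qs_nonneg okL okR hM hM'
  have hBm := mul_le_mul_of_nonneg_left (mul_le_mul_of_nonneg_right hL n0) hB
  have h0' := le_max_left 0 (WC stp (eAllC stp μ B) { s with A := s.A \ S })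
  have h1' := le_max_right 0 (WC stp (eAllC stp μ B) { s with A := s.A \ S })
  unfold Xs
  refine max_le (by linarith) ?_
  rw [e1]
  linarith

end Crest.Agent.R4P.ExcSplit32
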