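import Mathlib
import Crest.Agent.R4.ShotG223

/-!
R4P (S0004), helper35, group [X]: PLAIN (no crossing prime) versions of ShotG223.ff_y_all and ShotG223.acc_all
(the prime `b₀` enters `acc_allP` only through the accident factor `acc`).
-/

set_option autoImplicit false
open Finset

namespace Crest.Agent.R4P.FFAccP
open Crest.Agent.R4.HVW560 Crest.Agent.R4.HVWX793
open Crest.Agent.R4.Schur709 Crest.Agent.R4.StopHvw709 Crest.Agent.R4.StopAsm709
open Crest.Agent.R4.ClsS (eps1)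
open Crest.Agent.R4.OSCore709 Crest.Agent.R4.CrossShot709 Crest.Agent.R4.Bad223
open Crest.Agent.R4.ShotG223 (eps2 pow_near2 Kmx BadK acc acc_nonneg)

/-- the exact-false pairs of a group, condition `1 < 2 (A mm^j)^10 D` -/
theorem ff_gP {N : ℕ} {O O' V W : Finset ℕ} {E : Finset (ℕ × ℕ)}
    {R R' : ℕ → ℝ} (hO : ∀ p ∈ O, p.Prime ∧ N ≤ p) (hO' : ∀ p ∈ O', p.Prime ∧ N ≤ p)
    (hV : ∀ w ∈ V, 0 < w ∧ 0 < R w) (hW : ∀ w ∈ W, 0 < w ∧ 0 < R' w)
    (hE : E ⊆ V ×ˢ W)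
    {S S' : Finset ℕ} (hS : S ⊆ O) (hS' : S' ⊆ O')
    (hES : ∀ e ∈ E, miss O e.2 = S ∧ miss O' e.1 = S') (j : ℕ)
    {K A : ℝ} (hK : 0 ≤ K) (hA : 1 ≤ A) {F : ℕ × ℕ → ℝ} (h1 : ∀ e ∈ E, Dc O O' R R' e ≤ 1)
    (hm : ∀ e ∈ E, 1 < 2 * (A * (mm O O' e)^j)^10 * Dc O O' R R' e)
    (hF : ∀ e ∈ E, F e ≤ K * ((mu O' R e.1 * mu O R' e.2) / Dc O O' R R' e)) :
    ∑ e ∈ E, F e ≤ K * (120000 * KH 1 0 eps2 * A^(6/1000:ℝ)) *
      ((∏ p ∈ S, (p:ℝ))^(6*j/1000:ℝ) * (∏ p ∈ S', (p:ℝ))^(6*j/1000:ℝ)) *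
      ZG (1/2-eps2) (1/2+eps2) O O' V W S S' (mu O' R) (mu O R') := by
  have he1 : eps2 = 1/4000 := rfl
  have hA0 : 0 ≤ A := by linarith
  have hp1 : 0 ≤ ∏ p ∈ S, (p:ℝ) := Finset.prod_nonneg fun p _ => by positivity
  have hp2 : 0 ≤ ∏ p ∈ S', (p:ℝ) := Finset.prod_nonneg fun p _ => by positivity
  rcases E.eq_empty_or_nonempty with h0 | ⟨e0, he0⟩
  · rw [h0, Finset.sum_empty]
    have := ZG_nonneg (α := 1/2-eps2) (β := 1/2+eps2) (O := O) (O' := O') (S := S) (S' := S') (V := V) (W := W)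
      (μ := mu O' R) (μ' := mu O R') (fun q hq => mu_nonneg (hV q hq).2.le) (fun q hq => mu_nonneg (hW q hq).2.le)
    have := (KH_pos 1 0 eps2).le
    positivity
  set m : ℝ := A * (mm O O' e0)^j with hmd
  have hmm1 : 1 ≤ mm O O' e0 := one_le_mm (fun p hp => (hO p hp).1.pos) (fun p hp => (hO' p hp).1.pos) e0
  have hmj : 1 ≤ (mm O O' e0)^j := one_le_pow₀ hmm1
  have hm1 : 1 ≤ m := by rw [hmd]; nlinarith
  have hmE : ∀ e ∈ E, mm O O' e = mm O O' e0 := by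
    intro e he
    unfold mm
    rw [(hES e he).1, (hES e he).2, (hES e0 he0).1, (hES e0 he0).2]
  have hme : m = A * ((∏ p ∈ S, (p:ℝ)) * (∏ p ∈ S', (p:ℝ)))^j := by
    rw [hmd]; unfold mm
    rw [(hES e0 he0).1, (hES e0 he0).2]
  obtain ⟨n, hn1, hn2⟩ := pow_near2 hm1
  have key := mid_dyadic_g (ε := eps2) (by rw [he1]; norm_num) (by rw [he1]; norm_num) hO hO' hV hW hS hS'
    hK (F := F) n E hE hES h1 (by
      intro e he
      have h3 := hm e he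
      rw [hmE e he] at h3
      rw [div_pow, one_pow, div_lt_iff₀ (by positivity)]
      have hD : 0 < Dc O O' R R' e := by
        by_contra hneg
        have : 2 * (A * (mm O O' e0)^j)^10 * Dc O O' R R' e ≤ 0 :=
          mul_nonpos_of_nonneg_of_nonpos (by positivity) (not_lt.1 hneg)
        linarith
      rw [← hmd] at h3
      nlinarith) hF
  refine key.trans ?_
  have hZ := ZG_nonneg (α := 1/2-eps2) (β := 1/2+eps2) (O := O) (O' := O') (S := S) (S' := S') (V := V) (W := W)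
      (μ := mu O' R) (μ' := mu O R') (fun q hq => mu_nonneg (hV q hq).2.le) (fun q hq => mu_nonneg (hW q hq).2.le)
  apply mul_le_mul_of_nonneg_right _ hZ
  have hKH := (KH_pos 1 0 eps2).le
  have e3 : A^(6/1000:ℝ) * ((∏ p ∈ S, (p:ℝ))^(6*j/1000:ℝ) * (∏ p ∈ S', (p:ℝ))^(6*j/1000:ℝ)) =
      m^(6/1000:ℝ) := by
    rw [← Real.mul_rpow hp1 hp2, hme, Real.mul_rpow hA0 (by positivity)]
    congr 1
    rw [← Real.rpow_natCast, ← Real.rpow_mul (mul_nonneg hp1 hp2)]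
    congr 1
    ring
  calc (n:ℝ) * (2 * K * KH 1 0 eps2 * (2:ℝ)^(2*eps2*n))
      = (2 * K * KH 1 0 eps2) * ((n:ℝ) * (2:ℝ)^(2*eps2*n)) := by ring
    _ ≤ (2 * K * KH 1 0 eps2) * (60000 * m^(6/1000:ℝ)) :=
        mul_le_mul_of_nonneg_left hn2 (by positivity)
    _ = K * (120000 * KH 1 0 eps2) *
          (A^(6/1000:ℝ) * ((∏ p ∈ S, (p:ℝ))^(6*j/1000:ℝ) * (∏ p ∈ S', (p:ℝ))^(6*j/1000:ℝ))) := by
        rw [e3]; ring
    _ = _ := by ring

/-- all exact-false pairs with `1 < 2 (A mm^j)^10 D`, `j ≤ 2` -/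
theorem ff_allP {N : ℕ} {O O' V W : Finset ℕ} {E : Finset (ℕ × ℕ)}
    {R R' : ℕ → ℝ} (hO : ∀ p ∈ O, p.Prime ∧ N ≤ p) (hO' : ∀ p ∈ O', p.Prime ∧ N ≤ p)
    (hV : ∀ w ∈ V, 0 < w ∧ 0 < R w) (hW : ∀ w ∈ W, 0 < w ∧ 0 < R' w)
    (hE : E ⊆ V ×ˢ W) {j : ℕ} (hj : j ≤ 2)
    {K A : ℝ} (hK : 0 ≤ K) (hA : 1 ≤ A) {F : ℕ × ℕ → ℝ} (h1 : ∀ e ∈ E, Dc O O' R R' e ≤ 1)
    (hm : ∀ e ∈ E, 1 < 2 * (A * (mm O O' e)^j)^10 * Dc O O' R R' e)
    (hF : ∀ e ∈ E, F e ≤ K * ((mu O' R e.1 * mu O R' e.2) / Dc O O' R R' e))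
    (hs : ∑ p ∈ O, (p:ℝ)^(-(11/12):ℝ) ≤ 1) (hs' : ∑ p ∈ O', (p:ℝ)^(-(11/12):ℝ) ≤ 1) :
    ∑ e ∈ E, F e ≤ K * (120000 * KH 1 0 eps2 * A^(6/1000:ℝ)) *
      Real.exp 1 * ((∑ q ∈ V, mu O' R q) * (∑ r ∈ W, mu O R' r))^(1/2+eps2) := by
  have he1 : eps2 = 1/4000 := rfl
  have hα : (0:ℝ) < 1/2-eps2 := by rw [he1]; norm_num
  have hβ : (0:ℝ) < 1/2+eps2 := by rw [he1]; norm_num
  have hKH := (KH_pos 1 0 eps2).le
  have hjR : (j:ℝ) ≤ 2 := by exact_mod_cast hj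
  have sE : ∀ {E : Finset (ℕ × ℕ)} {S S' : Finset ℕ} (e : ℕ × ℕ), e ∈ Eg O O' E S S' → e ∈ E :=
    fun e he => (Finset.mem_filter.1 he).1
  have hmu : ∀ q ∈ V, 0 ≤ mu O' R q := fun q hq => mu_nonneg (hV q hq).2.le
  have hmu' : ∀ q ∈ W, 0 ≤ mu O R' q := fun q hq => mu_nonneg (hW q hq).2.le
  have main := group_sum_t (E := E) (F := F)
    (G := K * (120000 * KH 1 0 eps2 * A^(6/1000:ℝ))) (τ := 6*j/1000)
    hα hβ (by ring) (by rw [he1]; linarith) (fun p hp => (hO p hp).1.pos) (fun p hp => (hO' p hp).1.pos)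
    hE hmu hmu' (by positivity) (by
      intro S hS S' hS'
      exact ff_gP hO hO' hV hW (fun e he => hE (sE e he)) hS hS' sub_ES j
        hK hA (fun e he => h1 e (sE e he)) (fun e he => hm e (sE e he)) (fun e he => hF e (sE e he)))
  refine main.trans ?_
  apply mul_le_mul
  · apply mul_le_mul_of_nonneg_left _ (by positivity)
    apply Real.exp_le_exp.2
    rw [he1]; linarith
  · apply Real.rpow_le_rpow _ _ hβ.le
    · exact mul_nonneg (Finset.sum_nonneg fun q hq => mul_nonneg (om_nonneg _ _) (hmu q hq))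
        (Finset.sum_nonneg fun q hq => mul_nonneg (om_nonneg _ _) (hmu' q hq))
    · apply mul_le_mul
      · exact Finset.sum_le_sum fun q hq => mul_le_of_le_one_left (hmu q hq)
          (om_le_one (fun p hp => (hO' p hp).1.pos) q)
      · exact Finset.sum_le_sum fun q hq => mul_le_of_le_one_left (hmu' q hq)
          (om_le_one (fun p hp => (hO p hp).1.pos) q)
      · exact Finset.sum_nonneg fun q hq => mul_nonneg (om_nonneg _ _) (hmu' q hq)
      · exact Finset.sum_nonneg hmu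
  · apply Real.rpow_nonneg
    exact mul_nonneg (Finset.sum_nonneg fun q hq => mul_nonneg (om_nonneg _ _) (hmu q hq))
        (Finset.sum_nonneg fun q hq => mul_nonneg (om_nonneg _ _) (hmu' q hq))
  · positivity

open Classical in
/-- **accidental pairs**: one HVW bound per accidental scale -/
theorem acc_allP {N : ℕ} {O O' V W : Finset ℕ} {E : Finset (ℕ × ℕ)}
    {R R' : ℕ → ℝ} (hO : ∀ p ∈ O, p.Prime ∧ N ≤ p) (hO' : ∀ p ∈ O', p.Prime ∧ N ≤ p)
    (hV : ∀ w ∈ V, 0 < w ∧ 0 < R w) (hW : ∀ w ∈ W, 0 < w ∧ 0 < R' w)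
    (hE : E ⊆ V ×ˢ W)
    {b₀ : ℕ} {K A θ : ℝ} (hK : 0 ≤ K) {F : ℕ × ℕ → ℝ} (hF0 : ∀ e ∈ E, 0 ≤ F e)
    (hm : ∀ e ∈ E, ∃ k ∈ Finset.range (Kmx b₀), BadK A b₀ θ k ∧
      1/2^(k+2) < Dc O O' R R' e ∧ Dc O O' R R' e ≤ 1/2^k)
    (hF : ∀ e ∈ E, F e ≤ K * ((mu O' R e.1 * mu O R' e.2) / Dc O O' R R' e))
    (hs : ∑ p ∈ O, 1/(p:ℝ) ≤ 1) (hs' : ∑ p ∈ O', 1/(p:ℝ) ≤ 1) :
    ∑ e ∈ E, F e ≤ K * (4 * KH 1 0 eps2) * Real.exp 3 * acc A b₀ θ *
      ((∑ q ∈ V, mu O' R q) * (∑ r ∈ W, mu O R' r))^(1/2+eps2) := by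
  have he1 : eps2 = 1/4000 := rfl
  have hKH := (KH_pos 1 0 eps2).le
  have hmu : ∀ q ∈ V, 0 ≤ mu O' R q := fun q hq => mu_nonneg (hV q hq).2.le
  have hmu' : ∀ q ∈ W, 0 ≤ mu O R' q := fun q hq => mu_nonneg (hW q hq).2.le
  set Z := ((∑ q ∈ V, mu O' R q) * (∑ r ∈ W, mu O R' r))^(1/2+eps2) with hZ
  have hZ0 : 0 ≤ Z := Real.rpow_nonneg (mul_nonneg (Finset.sum_nonneg hmu) (Finset.sum_nonneg hmu')) _
  set Ek : ℕ → Finset (ℕ × ℕ) := fun k => E.filter (fun e => BadK A b₀ θ k ∧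
      1/2^(k+2) < Dc O O' R R' e ∧ Dc O O' R R' e ≤ 1/2^k) with hEk
  have h1 : ∑ e ∈ E, F e ≤ ∑ k ∈ Finset.range (Kmx b₀), ∑ e ∈ Ek k, F e := by
    have h2 : ∑ k ∈ Finset.range (Kmx b₀), ∑ e ∈ Ek k, F e =
        ∑ e ∈ E, ∑ k ∈ Finset.range (Kmx b₀), if (BadK A b₀ θ k ∧
          1/2^(k+2) < Dc O O' R R' e ∧ Dc O O' R R' e ≤ 1/2^k) then F e else 0 := by
      rw [Finset.sum_comm]
      apply Finset.sum_congr rfl
      intro k _
      rw [hEk, Finset.sum_filter]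
    rw [h2]
    apply Finset.sum_le_sum
    intro e he
    obtain ⟨k, hk, h3⟩ := hm e he
    have h4 := Finset.single_le_sum (f := fun k => if (BadK A b₀ θ k ∧
          1/2^(k+2) < Dc O O' R R' e ∧ Dc O O' R R' e ≤ 1/2^k) then F e else 0)
      (s := Finset.range (Kmx b₀)) (fun i _ => by
        show 0 ≤ if _ then F e else 0
        split_ifs
        · exact hF0 e he
        · exact le_rfl) hk
    refine le_trans (le_of_eq ?_) h4
    show F e = if _ then F e else 0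
    rw [if_pos h3]
  refine h1.trans ?_
  have h5 : ∀ k ∈ Finset.range (Kmx b₀), ∑ e ∈ Ek k, F e ≤
      K * (4 * KH 1 0 eps2) * Real.exp 3 *
        (if BadK A b₀ θ k then (2:ℝ)^(2*eps2*k) else 0) * Z := by
    intro k _
    by_cases hk : BadK A b₀ θ k
    · rw [if_pos hk]
      have hmem : ∀ e ∈ Ek k, e ∈ E ∧ 1/2^(k+2) < Dc O O' R R' e ∧ Dc O O' R R' e ≤ 1/2^k := by
        intro e he
        obtain ⟨a1, _, a2, a3⟩ := Finset.mem_filter.1 he
        exact ⟨a1, a2, a3⟩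
      have T0 : (0:ℝ) < 1/2^k := by positivity
      have key := mid (ε := eps2) (by rw [he1]; norm_num) (by rw [he1]; norm_num) (E := Ek k) (F := F)
        hO hO' (fun w hw => (hV w hw).1) (fun w hw => (hW w hw).1) (fun w hw => (hV w hw).2.le)
        (fun w hw => (hW w hw).2.le) (fun e he => hE (hmem e he).1) (c := 0) (c' := 0)
        (fun r _ => Finset.sum_nonneg fun p _ => by positivity)
        (fun r _ => Finset.sum_nonneg fun p _ => by positivity) (T := 1/2^k) (K := K * 2^(k+2)) T0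
        (by positivity)
        (fun e he => (le_max_right _ _).trans (hmem e he).2.2)
        (fun e he => (le_max_left _ _).trans (hmem e he).2.2)
        (by
          intro e he
          obtain ⟨a1, a2, a3⟩ := hmem e he
          have hD0 : 0 < Dc O O' R R' e := lt_trans (by positivity) a2
          have hmm0 : 0 ≤ mu O' R e.1 * mu O R' e.2 := by
            have := Finset.mem_product.1 (hE a1)
            exact mul_nonneg (hmu _ this.1) (hmu' _ this.2)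
          refine (hF e a1).trans ?_
          have h6 : (mu O' R e.1 * mu O R' e.2) / Dc O O' R R' e ≤
              2^(k+2) * (mu O' R e.1 * mu O R' e.2) := by
            rw [div_le_iff₀ hD0]
            have h7 : 1 ≤ 2^(k+2) * Dc O O' R R' e := by
              rw [div_lt_iff₀ (by positivity)] at a2
              linarith
            nlinarith
          calc K * ((mu O' R e.1 * mu O R' e.2) / Dc O O' R R' e)
              ≤ K * (2^(k+2) * (mu O' R e.1 * mu O R' e.2)) := mul_le_mul_of_nonneg_left h6 hK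
            _ = _ := by ring)
      refine key.trans ?_
      rw [← hZ]
      have hpw : (2:ℝ)^(k+2) * ((1/2^k : ℝ))^(1-2*eps2) = 4 * (2:ℝ)^(2*eps2*k) := by
        have h8 : (1/2^k : ℝ) = (2:ℝ)^(-(k:ℝ)) := by
          rw [Real.rpow_neg (by norm_num), Real.rpow_natCast, one_div]
        rw [h8, ← Real.rpow_mul (by norm_num), pow_add, ← Real.rpow_natCast, mul_right_comm,
          ← Real.rpow_add (by norm_num)]
        rw [mul_comm]
        congr 1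
        · norm_num
        · congr 1; ring
      have hex : Real.exp ((1/2-eps2) * (-(N*0) + 3 * (∑ p ∈ O, 1/(p:ℝ)) +
          (-(N*0) + 3 * ∑ p ∈ O', 1/(p:ℝ)))) ≤ Real.exp 3 := by
        apply Real.exp_le_exp.2
        rw [he1]
        linarith
      calc K * 2^(k+2) * (KH 1 0 eps2 * ((1/2^k : ℝ))^(1-2*eps2)) *
            Real.exp ((1/2-eps2) * (-(N*0) + 3 * (∑ p ∈ O, 1/(p:ℝ)) +
              (-(N*0) + 3 * ∑ p ∈ O', 1/(p:ℝ)))) * Z
          = K * KH 1 0 eps2 * (2^(k+2) * ((1/2^k : ℝ))^(1-2*eps2)) *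
            Real.exp ((1/2-eps2) * (-(N*0) + 3 * (∑ p ∈ O, 1/(p:ℝ)) +
              (-(N*0) + 3 * ∑ p ∈ O', 1/(p:ℝ)))) * Z := by ring
        _ = K * KH 1 0 eps2 * (4 * (2:ℝ)^(2*eps2*k)) *
            Real.exp ((1/2-eps2) * (-(N*0) + 3 * (∑ p ∈ O, 1/(p:ℝ)) +
              (-(N*0) + 3 * ∑ p ∈ O', 1/(p:ℝ)))) * Z := by rw [hpw]
        _ ≤ K * KH 1 0 eps2 * (4 * (2:ℝ)^(2*eps2*k)) * Real.exp 3 * Z := by
            apply mul_le_mul_of_nonneg_right _ hZ0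
            exact mul_le_mul_of_nonneg_left hex (by positivity)
        _ = _ := by ring
    · have h9 : Ek k = ∅ := by
        rw [Finset.eq_empty_iff_forall_notMem]
        intro e he
        exact hk (Finset.mem_filter.1 he).2.1
      rw [h9, Finset.sum_empty, if_neg hk]
      simp
  calc ∑ k ∈ Finset.range (Kmx b₀), ∑ e ∈ Ek k, F e
      ≤ ∑ k ∈ Finset.range (Kmx b₀), K * (4 * KH 1 0 eps2) * Real.exp 3 *
        (if BadK A b₀ θ k then (2:ℝ)^(2*eps2*k) else 0) * Z := Finset.sum_le_sum h5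
    _ = _ := by
        rw [← Finset.sum_mul, ← Finset.mul_sum]
        rfl


end Crest.Agent.R4P.FFAccP
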