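import Crest.Agent.R4P.FarPay_7

/-!
R4 (S0004), POWERS, module dseR (D3), helper7: **`cr_far`**: the cross term of a far node is paid by the
charges `zF`.
-/

set_option autoImplicit false
set_option linter.unusedSectionVars false
set_option linter.unusedVariables false

open MeasureTheory Filter

namespace Crest.Agent.R4P.FarPay7

open Crest.Agent.R4P.Cnt588 Crest.Agent.R4P.Item758 Crest.Agent.R4P.W363
open Crest.Agent.R4P.Data758 Crest.Agent.R4P.OmSt532 Crest.Agent.R4P.OmData532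
open Crest.Agent.R4P.LfDat734 Crest.Agent.R4P.WPex189
open Crest.Agent.R4P.Bld532
open Crest.Agent.R4P.Step588 (NDt ND1 ctx_NDt uq_lt)
open Crest.Agent.R4P.WalkIT579 (tp isL nodeOk_hi top_of_nodeOk)
open Crest.Agent.R4P.Skel189 Crest.Agent.R4P.RseSt23 Crest.Agent.R4P.RseNd23
open Crest.Agent.R4.Soft104 (w)
open Crest.Agent.R4P.AvgItem710
open Crest.Agent.R4.ClosL758 Crest.Agent.R4.ClosR758 Crest.Agent.R4.Tour104 Crest.Agent.R4.Fam464
open Crest.Agent.R4.Tour758 Crest.Agent.R4.Avg758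
open Crest.Agent.R4P.AddNode7 Crest.Agent.R4P.FarLift7 Crest.Agent.R4P.DseCh23
open Crest.Agent.R4P.DseInd21 (ED)
open Crest.Agent.R4P.FarNear7 Crest.Agent.R4P.FarNode7
open Crest.Agent.R4.Item758 (IL)
open Crest.Agent.R4

section ctx
variable {N : Skel189.Num} {γ : ℝ} {p0 P₀ : ℕ}

/-- `4 σ(b) < 1` -/
lemma sg_small (N : Skel189.Num) : ∃ p₁ : ℕ, ∀ b : ℕ, p₁ ≤ b → 4 * (Real.log b ^ N.B / b) < 1 := by
  have h := AddLL7.ev_lit (a := 1) (c := 1/8) one_pos (by norm_num) N.B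
  obtain ⟨x, hx⟩ := Filter.eventually_atTop.1 h
  refine ⟨⌈x⌉₊ + 2, fun b hb => ?_⟩
  have hb0 : (0:ℝ) < b := by exact_mod_cast (by omega : 0 < b)
  have h1 := hx b ((Nat.le_ceil _).trans (by exact_mod_cast (by omega : ⌈x⌉₊ ≤ b)))
  rw [Real.rpow_one] at h1
  have h2 : Real.log b ^ N.B / b ≤ 1/8 := by rw [div_le_iff₀ hb0]; linarith
  linarith

open Classical in
set_option maxHeartbeats 2000000 in
/-- **the cross term of a far node is paid by `zF`** -/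
theorem cr_far : ∃ κ₀ : ℝ, 0 ≤ κ₀ ∧ ∀ (N : Skel189.Num) (Ct K κ : ℝ), 0 ≤ Ct → 0 ≤ K → 0 ≤ κ →
    ∃ p₁ : ℕ, ∀ p0 ≥ p₁, ∀ (γ : ℝ) (P₀ : ℕ), 2 ≤ P₀ →
    ∀ X : Ctx N γ p0 P₀, RseH X → X.c.d1 * Kc X.S ≤ 1 →
    (∀ p, p0 < p → Real.log p ^ (-Ct) ≤ X.c.wp.thr p) →
    ∀ (Y : Finset (ℕ × ℕ × Finset ℕ)) (u : NS) (b : ℕ) (t₁ t₀ : IT), NF X u (.far b t₁ t₀) →
    CrossSum29.NearI t₀ →
    ∀ A : Finset X.c.Lam, IL X.c.D.it A →
      ED X Y A b u t₁ ≤ K * (u.c * ∑ q ∈ al X t₁ A, w X.ψ q) →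
      ED X Y A b u t₀ ≤ K * (u.c * ∑ q ∈ al X t₀ A, w X.ψ q) →
      NE X Y A K ⟨b + 1, u.c, u.A, u.B⟩ t₀ →
      CrOk X Y A (Frame758.wt X.c.D) (fun b u t₁ t₀ j => zF X κ b t₀ j.1.1) b u t₁ t₀ := by
  obtain ⟨κ₁, hκ₁, H0⟩ := pair0
  obtain ⟨κ₂, hκ₂, H1⟩ := pair1
  refine ⟨κ₁, hκ₁, fun N Ct K κ hCt hK hκ => ?_⟩
  have hc2N := N.hc2
  obtain ⟨p1, h0⟩ := H0 N Ct (κ + N.c2 + 1) (2 * K) κ hCt (by linarith) (by linarith) le_rfl
  obtain ⟨p2, h1⟩ := H1 N Ct (κ + N.c2 + 1) K κ hCt (by linarith) hK le_rfl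
  obtain ⟨p3, h3⟩ := sg_small N
  refine ⟨p1 + p2 + p3 + 3, fun p0 hp0 γ P₀ hP X hX hd1 hthr Y u b t₁ t₀ hN hNI A hA hE1 hE0 hNE => ?_⟩
  have h := hN.nd
  have hl : ¬ isL (IT.far b t₁ t₀) := fun h => h
  obtain ⟨m1, m2, m3, m4⟩ := nodeOk_hi h.self.node hl
  have m2' : p0 < b := m2
  have hc0 := hN.c0
  obtain ⟨hbp, hbn, -, -, hbk, ⟨Ke, e1, e0, hd, hd2⟩, hlo, hhi, -⟩ := h.self.node
  have hbR : (0:ℝ) < b := by exact_mod_cast (by omega : 0 < b)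
  have hb1 : (1:ℝ) ≤ b := by exact_mod_cast (by omega : 1 ≤ b)
  have hb3 : (3:ℝ) ≤ b := by exact_mod_cast (by omega : 3 ≤ b)
  have hl1 : 1 ≤ Real.log (b:ℝ) := Bld532.one_le_log_nat (by omega)
  have hl0 : 0 < Real.log (b:ℝ) := by linarith
  have hA0 : 0 < u.A := hbk.Apos
  -- children
  have n1 := NDt_far₁ h
  have n0 := NDt_far₀ h
  obtain ⟨i, t, et, hB, ht⟩ := near_plk hbp t₀ ⟨b + 1, u.c, u.A, u.B⟩ hNI rfl n0
  have hsg : X.par.sg b = Real.log b ^ N.B / b := rfl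
  have hsg0 : 0 ≤ X.par.sg b := by rw [hsg]; positivity
  have hsg1 : 4 * X.par.sg b < 1 := by rw [hsg]; exact h3 b (by omega)
  have hlo0 : 0 < X.par.lo b := by
    show 0 < Real.log b ^ (-N.C1)
    exact Real.rpow_pos_of_pos hl0 _
  have hKT : KT i Ke t := KT_near h hc0 hsg0 hsg1 hlo0 hB et ht e0 hd hd2
  have hfar : ∀ q ∈ t₁.items, b ^ (Ke + 2) ∣ q / u.A ∨ ¬ b ^ (Ke - 1) ∣ q / u.A := by
    intro q hq
    rw [e1] at hq
    exact (mem_farS.1 hq).2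
  have hnear : ∀ q ∈ t₀.items, ¬ b ^ (Ke + 2) ∣ q / u.A ∧ b ^ (Ke - 1) ∣ q / u.A := by
    intro q hq
    rw [e0] at hq
    exact (mem_nearS.1 hq).2
  have hdj : Disjoint t₁.items t₀.items := h.fit.1
  -- masses
  set MF := mA X u t₁ A with hMF
  set MN := mA X u t₀ A with hMN
  set MS := Msp X u b t₀ A with hMS
  have hMF0 : 0 ≤ MF := mA_nonneg hc0.le _ _
  have hMN0 : 0 ≤ MN := mA_nonneg hc0.le _ _
  have hMS0 : 0 ≤ MS := mul_nonneg hc0.le (Finset.sum_nonneg fun q _ => X.hW q)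
  have hall : ∀ S : Finset ℕ, S ⊆ t₁.items ∪ t₀.items → u.c * ∑ q ∈ S, w X.ψ q ≤ Real.log b ^ N.c2 := by
    intro S hS
    have h5 : u.c * Ws (w X.ψ) (t₁.items ∪ t₀.items) ≤ Real.log b ^ N.c2 := hhi
    refine le_trans (mul_le_mul_of_nonneg_left ?_ hc0.le) h5
    exact Finset.sum_le_sum_of_subset_of_nonneg hS fun q _ _ => X.hW q
  have hali : ∀ (t : IT) (A : Finset X.c.Lam), al X t A ⊆ t.items := fun t A => by
    unfold al; exact Finset.filter_subset _ _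
  have gF : MF ≤ Real.log b ^ N.c2 := hall _ ((hali _ _).trans Finset.subset_union_left)
  have gN : MN ≤ Real.log b ^ N.c2 := hall _ ((hali _ _).trans Finset.subset_union_right)
  have hSpsN : Sps X b t₀ A ⊆ al X t₀ A := by unfold Sps; exact Finset.filter_subset _ _
  have gS : MS ≤ Real.log b ^ N.c2 :=
    hall _ ((hSpsN.trans (hali _ _)).trans Finset.subset_union_right)
  -- energies
  have E1 : eA X Y b u t₁ A ≤ K * MF := hE1
  have E0 : eA X Y b u t₀ A ≤ K * MN := hE0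
  have mono1 : ∀ {A₁ : Finset X.c.Lam}, A₁ ⊆ A → eA X Y b u t₁ A₁ ≤ eA X Y b u t₁ A := fun {A₁} hs =>
    eA_mono (u := ⟨b + 1, u.c, u.A, u.B⟩) n1 Y b fun j hj _ => hs hj
  have mono0 : ∀ {A₁ : Finset X.c.Lam}, A₁ ⊆ A → eA X Y b u t₀ A₁ ≤ eA X Y b u t₀ A := fun {A₁} hs =>
    eA_mono (u := ⟨b + 1, u.c, u.A, u.B⟩) n0 Y b fun j hj _ => hs hj
  have nn1 : ∀ A₁ : Finset X.c.Lam, 0 ≤ eA X Y b u t₁ A₁ := fun A₁ =>
    eA_nonneg (u := ⟨b + 1, u.c, u.A, u.B⟩) n1 Y b A₁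
  have nn0 : ∀ A₁ : Finset X.c.Lam, 0 ≤ eA X Y b u t₀ A₁ := fun A₁ =>
    eA_nonneg (u := ⟨b + 1, u.c, u.A, u.B⟩) n0 Y b A₁
  have mm : ∀ {t : IT} {A₁ : Finset X.c.Lam}, A₁ ⊆ A → mA X u t A₁ ≤ mA X u t A := by
    intro t A₁ hs
    refine mA_le hc0.le fun q hq => ?_
    obtain ⟨a1, a2, j, hj, rfl⟩ := mem_al.1 hq
    exact mem_al.2 ⟨a1, a2, j, hs hj, rfl⟩
  have hsp := near_sp (X := X) (u := u) hbp hc0 hA0 hB ht hKT (by rw [← et]; exact n0)
    (fun q hq => (hnear q (by rw [et]; exact hq)).1) Y A hK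
    (by rw [← et]; exact E0) (by
      have h5 : NE X Y A K ⟨b + 1, u.c, u.A, u.B⟩ (plk b i t) := by rw [← et]; exact hNE
      exact NE_plk i ⟨b + 1, u.c, u.A, u.B⟩ rfl h5)
  rw [← et] at hsp
  obtain ⟨s1, s2, s3, s4⟩ := hsp
  -- functions of the near child
  have avN : ∀ k : ℕ, k ≤ Ke → ∀ j : X.c.Lam, j.1.1 ∈ t₀.items → b ^ k ∣ j.1.1 / u.A →
      AV (b ^ k) (Uw X Y u t₀ j) := by
    intro k hk j hj hdv
    rw [et]
    refine AV_near hbp hB hA0 ht ?_ Y ?_ hdv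
    · cases hB with
      | leaf S => trivial
      | br Sp s₁ s₀ =>
        have : Ke = i + 1 := hKT
        show k ≤ i + 1
        omega
      | up Sp s =>
        have : Ke = i := hKT
        show k ≤ i
        omega
    · rw [et, plk_items] at hj; exact hj
  have avF : ∀ k : ℕ, ∀ j : X.c.Lam, j.1.1 ∈ t₁.items → b ^ k ∣ j.1.1 / u.A →
      AV (b ^ k) (Uw X Y u t₁ j) := by
    intro k j hj hdv
    rw [e1] at hj n1 ⊢
    exact AV_leaf (u := ⟨b + 1, u.c, u.A, u.B⟩) n1 hbp (Nat.lt_succ_self b) Y hj hdv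
  -- the populations
  set Lo := A.filter fun j => ¬ b ^ (Ke - 1) ∣ j.1.1 / u.A with hLo
  set Hi := A.filter fun j => ¬ ¬ b ^ (Ke - 1) ∣ j.1.1 / u.A with hHi
  set Hf := A.filter fun j => b ^ (Ke + 2) ∣ j.1.1 / u.A with hHf
  set Am := A.filter fun j => ¬ b ^ Ke ∣ j.1.1 / u.A with hAm
  set Ag := A.filter fun j => ¬ ¬ b ^ Ke ∣ j.1.1 / u.A with hAg
  set Ap := A.filter fun j => b ^ (Ke + 1) ∣ j.1.1 / u.A with hAp
  set Ae := A.filter fun j => ¬ b ^ (Ke + 1) ∣ j.1.1 / u.A with hAe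
  have sLo : Lo ⊆ A := Finset.filter_subset _ _
  have sHf : Hf ⊆ A := Finset.filter_subset _ _
  have sAm : Am ⊆ A := Finset.filter_subset _ _
  have sAg : Ag ⊆ A := Finset.filter_subset _ _
  have sAp : Ap ⊆ A := Finset.filter_subset _ _
  have sAe : Ae ⊆ A := Finset.filter_subset _ _
  set D := Dr ((X.c.D.par Y).rho b) with hD
  set U1 := Uw X Y u t₁ with hU1
  set U0 := Uw X Y u t₀ with hU0
  -- far functions: `Hi` and `Hf` agree
  have hHH : rv Hi U1 = rv Hf U1 := by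
    funext j x
    rw [rv_apply, rv_apply]
    by_cases hj : j.1.1 ∈ t₁.items
    · have e5 : j ∈ Hi ↔ j ∈ Hf := by
        rw [hHi, hHf, Finset.mem_filter, Finset.mem_filter]
        refine and_congr_right fun _ => ?_
        rw [not_not]
        constructor
        · intro h6
          rcases hfar _ hj with h7 | h7
          · exact h7
          · exact absurd h6 h7
        · intro h6
          exact (pow_dvd_pow b (by omega)).trans h6
      simp only [e5]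
    · have e5 : U1 j x = 0 := Uw_zero Y hj x
      rw [e5]; simp
  -- splitting
  have hsplit : Q D (rv A U1) (rv A U0) =
      (Q D (rv Am U0) (rv Lo U1) + Q D (rv Ag U0) (rv Lo U1)) +
      (Q D (rv Hf U1) (rv Ap U0) + Q D (rv Hf U1) (rv Ae U0)) := by
    rw [Q_split_l D U1 (rv A U0) A (fun j => ¬ b ^ (Ke - 1) ∣ j.1.1 / u.A)]
    refine congrArg₂ (· + ·) ?_ ?_
    · rw [Q_split_r D (rv (A.filter fun j => ¬ b ^ (Ke - 1) ∣ j.1.1 / u.A) U1) U0 A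
        (fun j => ¬ b ^ Ke ∣ j.1.1 / u.A)]
      exact congrArg₂ (· + ·) (Q_Dr_symm _ _ _) (Q_Dr_symm _ _ _)
    · have e5 : rv (A.filter fun j => ¬ ¬ b ^ (Ke - 1) ∣ j.1.1 / u.A) U1 = rv Hf U1 := hHH
      rw [e5]
      exact Q_split_r D (rv Hf U1) U0 A (fun j => b ^ (Ke + 1) ∣ j.1.1 / u.A)
  -- settings
  have hF1 : Fit u.B u.A t₁ := h.fit.2.1
  have hF0 : Fit u.B u.A t₀ := h.fit.2.2
  have hW1 : (X.c.D.par Y).Wts u.A t₁ := (node_wts h Y).far₁ hdj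
  have hW0 : (X.c.D.par Y).Wts u.A t₀ := (node_wts h Y).far₀
  have su1 : t₁.items ⊆ (IT.far b t₁ t₀).items := Finset.subset_union_left
  have su0 : t₀.items ⊆ (IT.far b t₁ t₀).items := Finset.subset_union_right
  have h2K : ∀ {x y : ℝ}, 0 ≤ y → x ≤ K * y → x ≤ 2 * K * y := fun {x y} hy hx => by
    have := mul_nonneg hK hy
    linarith
  have LoE : Ke ≤ 1 → ∀ j ∈ Lo, ∀ x, U1 j x = 0 := by
    intro hKe j hj x
    exfalso
    have h5 := (Finset.mem_filter.1 hj).2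
    have e5 : Ke - 1 = 0 := by omega
    rw [e5, pow_zero] at h5
    exact h5 (one_dvd _)
  set c := Real.log (b:ℝ) ^ (-κ) / 16 with hc
  have hcp : 0 ≤ c := by rw [hc]; positivity
  -- (1)
  have P1 : Q D (rv Am U0) (rv Lo U1) ≤ c * (MS + MF) := by
    rcases Nat.lt_or_ge 1 Ke with hKe | hKe
    swap
    · rw [Q_empty_r D (rv Am U0) U1 (LoE hKe)]
      positivity
    have P : PR X Y u (.far b t₁ t₀) b (Ke - 1) 0 t₀ t₁ Am Lo :=
      { nf := hN, nl := hl, col := rfl, s1 := su0, s0 := su1, f1 := hF0, f0 := hF1, w1 := hW0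
        w0 := hW1, bp := hbp, im := by omega
        hi := fun j _ hj => (hnear _ hj).2
        lo := fun j hj _ => (Finset.mem_filter.1 hj).2
        av := fun j _ hj => avN (Ke - 1) (by omega) j hj (hnear _ hj).2 }
    exact h0 p0 (by omega) γ P₀ hP X hX hd1 hthr Y u _ b (Ke - 1) t₀ t₁ Am Lo P MS MF gS gF
      s3 (mm sLo) s1 (h2K hMF0 ((mono1 sLo).trans E1)) (nn1 _)
  -- (2)
  have P2 : Q D (rv Ag U0) (rv Lo U1) ≤ c * (MF + MN / b) := by
    rcases Nat.lt_or_ge 1 Ke with hKe | hKe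
    swap
    · rw [Q_empty_r D (rv Ag U0) U1 (LoE hKe)]
      positivity
    have hAgd : ∀ j ∈ Ag, b ^ (Ke - 1 + 1) ∣ j.1.1 / u.A := fun j hj => by
      have h5 := not_not.1 (Finset.mem_filter.1 hj).2
      have e5 : Ke - 1 + 1 = Ke := by omega
      rw [e5]; exact h5
    have P : PR X Y u (.far b t₁ t₀) b (Ke - 1) 1 t₀ t₁ Ag Lo :=
      { nf := hN, nl := hl, col := rfl, s1 := su0, s0 := su1, f1 := hF0, f0 := hF1, w1 := hW0
        w0 := hW1, bp := hbp, im := by omega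
        hi := fun j hj _ => hAgd j hj
        lo := fun j hj _ => (Finset.mem_filter.1 hj).2
        av := fun j hj hj' => avN (Ke - 1 + 1) (by omega) j hj' (hAgd j hj) }
    exact h1 p0 (by omega) γ P₀ hP X hX hd1 hthr Y u _ b (Ke - 1) t₀ t₁ Ag Lo P MF MN MN MF
      (Or.inr ⟨rfl, rfl⟩) hMF0 hMN0 gF gN (mm sAg) (mm sLo) ((mono0 sAg).trans E0)
      ((mono1 sLo).trans E1) (nn1 _)
  -- (3)
  have P3 : Q D (rv Hf U1) (rv Ae U0) ≤ c * (MF + MN / b) := by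
    have P : PR X Y u (.far b t₁ t₀) b (Ke + 1) 1 t₁ t₀ Hf Ae :=
      { nf := hN, nl := hl, col := rfl, s1 := su1, s0 := su0, f1 := hF1, f0 := hF0, w1 := hW1
        w0 := hW0, bp := hbp, im := by omega
        hi := fun j hj _ => (Finset.mem_filter.1 hj).2
        lo := fun j hj _ => (Finset.mem_filter.1 hj).2
        av := fun j hj hj' => avF (Ke + 1 + 1) j hj' (Finset.mem_filter.1 hj).2 }
    exact h1 p0 (by omega) γ P₀ hP X hX hd1 hthr Y u _ b (Ke + 1) t₁ t₀ Hf Ae P MF MN MF MN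
      (Or.inl ⟨rfl, rfl⟩) hMF0 hMN0 gF gN (mm sHf) (mm sAe) ((mono1 sHf).trans E1)
      ((mono0 sAe).trans E0) (nn0 _)
  -- (4)
  have P4 : Q D (rv Hf U1) (rv Ap U0) ≤ c * (MF + MS) := by
    have P : PR X Y u (.far b t₁ t₀) b (Ke + 2) 0 t₁ t₀ Hf Ap :=
      { nf := hN, nl := hl, col := rfl, s1 := su1, s0 := su0, f1 := hF1, f0 := hF0, w1 := hW1
        w0 := hW0, bp := hbp, im := by omega
        hi := fun j hj _ => (Finset.mem_filter.1 hj).2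
        lo := fun j _ hj => (hnear _ hj).1
        av := fun j hj hj' => avF (Ke + 2 + 0) j hj' (Finset.mem_filter.1 hj).2 }
    exact h0 p0 (by omega) γ P₀ hP X hX hd1 hthr Y u _ b (Ke + 2) t₁ t₀ Hf Ap P MF MS gF gS
      (mm sHf) s4 (h2K hMF0 ((mono1 sHf).trans E1)) s2 (nn0 _)
  -- the charges
  have halu : al X (.far b t₁ t₀) A = al X t₁ A ∪ al X t₀ A := by
    unfold al; exact Finset.filter_union _ _ _
  have hdal : Disjoint (al X t₁ A) (al X t₀ A) :=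
    Finset.disjoint_of_subset_left (hali t₁ A) (Finset.disjoint_of_subset_right (hali t₀ A) hdj)
  set ℓ := Real.log (b:ℝ) ^ (-κ) with hℓ
  have hℓ0 : 0 ≤ ℓ := by rw [hℓ]; positivity
  have hc16 : c = ℓ / 16 := rfl
  have hch : ℓ * MF + 1/2 * (ℓ * MS) + 1/2 * (ℓ / b * MN) ≤
      u.c * ∑ q ∈ al X (.far b t₁ t₀) A, w X.ψ q * zF X κ b t₀ q := by
    have f1 : ∀ q ∈ al X t₁ A, w X.ψ q * zF X κ b t₀ q = w X.ψ q * ℓ := by
      intro q hq
      have g1 : q ∉ t₀.items := Finset.disjoint_left.1 hdj (hali t₁ A hq)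
      unfold zF
      rw [if_pos (mem_al.1 hq).2.1, if_neg (fun hh => g1 hh.1)]
    have f0 : ∀ q ∈ al X t₀ A, 1/2 * (ℓ * (if q ∈ Sps X b t₀ A then w X.ψ q else 0)) +
        1/2 * (ℓ / b * w X.ψ q) ≤ w X.ψ q * zF X κ b t₀ q := by
      intro q hq
      have hw := X.hW q
      have hlb : ℓ / b ≤ ℓ := div_le_self hℓ0 hb1
      have hlb0 : 0 ≤ ℓ / b := by positivity
      by_cases hs : spc X b t₀ q
      · rw [if_pos (mem_Sps.2 ⟨hq, hs⟩)]
        have : zF X κ b t₀ q = ℓ := by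
          unfold zF
          rw [if_pos (mem_al.1 hq).2.1, if_neg (fun hh => hh.2 hs)]
        rw [this]
        nlinarith
      · rw [if_neg (fun hh => hs (mem_Sps.1 hh).2)]
        have : zF X κ b t₀ q = ℓ / b := by
          unfold zF
          rw [if_pos (mem_al.1 hq).2.1, if_pos ⟨hali t₀ A hq, hs⟩]
        rw [this]
        nlinarith
    rw [halu, Finset.sum_union hdal, Finset.sum_congr rfl f1, ← Finset.sum_mul]
    have f2 := Finset.sum_le_sum f0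
    rw [Finset.sum_add_distrib, ← Finset.mul_sum, ← Finset.mul_sum, ← Finset.mul_sum,
      ← Finset.mul_sum, ← Finset.sum_filter] at f2
    have f3 : (al X t₀ A).filter (fun q => q ∈ Sps X b t₀ A) = Sps X b t₀ A := by
      ext q
      rw [Finset.mem_filter]
      exact ⟨fun hh => hh.2, fun hh => ⟨hSpsN hh, hh⟩⟩
    rw [f3] at f2
    have f4 := mul_le_mul_of_nonneg_left f2 hc0.le
    have f5 : ℓ * MF + 1/2 * (ℓ * MS) + 1/2 * (ℓ / b * MN) =
        u.c * ((∑ q ∈ al X t₁ A, w X.ψ q) * ℓ) +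
        u.c * (1/2 * (ℓ * ∑ q ∈ Sps X b t₀ A, w X.ψ q) +
          1/2 * (ℓ / b * ∑ q ∈ al X t₀ A, w X.ψ q)) := by
      rw [hMF, hMS, hMN]
      unfold mA Msp
      ring
    rw [f5, mul_add]
    linarith
  have hcr : CrE X Y A b u t₁ t₀ = 2 * Q D (rv A U1) (rv A U0) := rfl
  unfold CrOk
  have key := AddPay7.mass_alF (X := X) (u := u) (τ := .far b t₁ t₀) hc0.le hA (f := zF X κ b t₀)
    (fun q => zF_nonneg X κ b t₀ q)
  refine le_trans ?_ key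
  refine le_trans ?_ hch
  rw [hcr, hsplit]
  have hMNb : 0 ≤ MN / b := by positivity
  have e7 : ℓ / b * MN = ℓ * (MN / b) := by ring
  rw [e7]
  rw [hc16] at P1 P2 P3 P4
  have q1 := mul_nonneg hℓ0 hMF0
  have q2 := mul_nonneg hℓ0 hMS0
  have q3 := mul_nonneg hℓ0 hMNb
  nlinarith

end ctx

end Crest.Agent.R4P.FarPay7
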