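import Crest.Agent.R4P.FarLift_7

/-!
R4 (S0004), POWERS, module dseR (D3), helper7: **leaf functions and present functions are at most twice
their averages** over the shifts by `1/b^k`.
-/

set_option autoImplicit false
set_option linter.unusedSectionVars false
set_option linter.unusedVariables false
open MeasureTheory Filter

namespace Crest.Agent.R4P.FarLift7

open Crest.Agent.R4.Tour104 Crest.Agent.R4.Avg758 Crest.Agent.R4.Piece464 Crest.Agent.R4.Ovl560
open Crest.Agent.R4.LF363 Crest.Agent.R4.Om532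
open Crest.Agent.R4

/-! ### pieces -/

/-- shifted pieces -/
lemma pc_shift {θ α β : ℝ} {w n : ℕ} {κ : ℤ → ℝ} (hn : 0 < n) (hd : n ∣ w) (z : ℝ) (s : ℕ) :
    pc θ α β w κ (z + (s : ℝ) / n) =
      ∑ a ∈ Finset.Ioc ⌊(w : ℝ) * z - θ - β⌋ ⌊(w : ℝ) * z - θ - α⌋, κ (a + (w / n : ℕ) * (s : ℤ)) := by
  have hn0 : (n:ℝ) ≠ 0 := by exact_mod_cast hn.ne'
  have e1 : (w : ℝ) * (z + (s : ℝ) / n) = w * z + ((((w / n : ℕ) * (s : ℤ) : ℤ)) : ℝ) := by
    obtain ⟨m, rfl⟩ := hd
    rw [Nat.mul_div_cancel_left m hn]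
    push_cast
    field_simp
  unfold pc
  symm
  refine Finset.sum_bij (fun a _ => a + (w / n : ℕ) * (s : ℤ)) ?_ ?_ ?_ ?_
  · intro a ha
    rw [mem_pw] at ha ⊢
    rw [e1, Int.cast_add]
    constructor <;> linarith [ha.1, ha.2]
  · intro a _ b _ hab
    simpa using hab
  · intro c hc
    refine ⟨c - (w / n : ℕ) * (s : ℤ), ?_, by ring⟩
    rw [mem_pw] at hc ⊢
    rw [e1] at hc
    rw [Int.cast_sub]
    constructor <;> linarith [hc.1, hc.2]
  · intro a _
    rfl

/-- **pieces with averaged weights** -/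
lemma AV_pc {θ α β : ℝ} {w n : ℕ} {κ : ℤ → ℝ} (hn : 0 < n) (hd : n ∣ w)
    (h : ∀ a : ℤ, (n:ℝ) * κ a ≤ 2 * ∑ s ∈ Finset.range n, κ (a + (w / n : ℕ) * (s : ℤ))) :
    AV n (pc θ α β w κ) := by
  intro z
  have hn0 : (0:ℝ) < n := by exact_mod_cast hn
  have e : Ep n (pc θ α β w κ) (n * z) =
      (∑ a ∈ Finset.Ioc ⌊(w : ℝ) * z - θ - β⌋ ⌊(w : ℝ) * z - θ - α⌋,
        ∑ s ∈ Finset.range n, κ (a + (w / n : ℕ) * (s : ℤ))) / n := by
    unfold Ep
    rw [Finset.sum_comm]
    congr 1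
    refine Finset.sum_congr rfl fun s _ => ?_
    have e2 : ((n:ℝ) * z + s) / n = z + (s:ℝ) / n := by field_simp
    rw [e2, pc_shift hn hd]
  rw [e]
  have h2 : (n:ℝ) * pc θ α β w κ z ≤
      2 * ∑ a ∈ Finset.Ioc ⌊(w : ℝ) * z - θ - β⌋ ⌊(w : ℝ) * z - θ - α⌋,
        ∑ s ∈ Finset.range n, κ (a + (w / n : ℕ) * (s : ℤ)) := by
    unfold pc
    rw [Finset.mul_sum, Finset.mul_sum]
    exact Finset.sum_le_sum fun a _ => h a
  rw [← mul_div_assoc, le_div_iff₀ hn0]
  linarith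

/-! ### the leaf rule -/

lemma per_mul {f : ℤ → ℝ} {l : ℕ} (h0 : ∀ a, 0 ≤ f a) (h : ∀ a, f (a + l) = f a) {m : ℤ}
    (hm : (l : ℤ) ∣ m) (a : ℤ) : f (a + m) = f a := by
  obtain ⟨t, rfl⟩ := hm
  exact Wt.add_mul ⟨h0, h⟩ a t

/-- sum of the leaf rule over a progression modulo `b` -/
lemma uw_sum {θ φ : ℝ} {lab : Option ℚ} {b : ℕ} (hb : b.Prime) (a m : ℤ) (hm : ¬ (b : ℤ) ∣ m) :
    (b : ℝ) - 1 ≤ ∑ r ∈ Finset.range b, uw θ φ lab b (a + m * r) := by
  classical
  have hb0 : (b:ℝ) ≠ 0 := by exact_mod_cast hb.ne_zero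
  have hconst : (b:ℝ) - 1 ≤ ∑ r ∈ Finset.range b, (1 - 1 / (b:ℝ)) := by
    rw [Finset.sum_const, Finset.card_range, nsmul_eq_mul]
    refine le_of_eq ?_
    field_simp
  cases lab with
  | none => simpa only [uw_none] using hconst
  | some ρ =>
    by_cases h : Act θ φ ρ b
    · have e : ∀ r : ℕ, uw θ φ (some ρ) b (a + m * r) =
          1 - if (b : ℤ) ∣ ρ.den * (a + m * r) + ρ.num then 1 else 0 := by
        intro r
        rw [uw_act h]
        split_ifs <;> ring
      rw [Finset.sum_congr rfl fun r _ => e r, Finset.sum_sub_distrib, Finset.sum_const,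
        Finset.card_range, nsmul_eq_mul, mul_one, Finset.sum_boole]
      have hc : ((Finset.range b).filter
          fun r : ℕ => (b : ℤ) ∣ ρ.den * (a + m * r) + ρ.num).card ≤ 1 := by
        rw [Finset.card_le_one]
        intro r hr r' hr'
        obtain ⟨h1, h2⟩ := Finset.mem_filter.1 hr
        obtain ⟨h3, h4⟩ := Finset.mem_filter.1 hr'
        have h5 : (b : ℤ) ∣ ρ.den * (m * ((r : ℤ) - r')) := by
          have := dvd_sub h2 h4
          have e : (ρ.den : ℤ) * (a + m * r) + ρ.num - (ρ.den * (a + m * r') + ρ.num) =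
              ρ.den * (m * ((r : ℤ) - r')) := by ring
          rwa [e] at this
        have hp : Prime (b : ℤ) := Nat.prime_iff_prime_int.1 hb
        rcases hp.dvd_or_dvd h5 with h6 | h6
        · exact absurd (by exact_mod_cast h6) h.2
        rcases hp.dvd_or_dvd h6 with h7 | h7
        · exact absurd h7 hm
        · have h8 : |(r : ℤ) - r'| < b := by
            have a1 := Finset.mem_range.1 h1
            have a2 := Finset.mem_range.1 h3
            rw [abs_lt]; constructor <;> omega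
          have h9 := Int.eq_zero_of_abs_lt_dvd h7 h8
          omega
      have : (((Finset.range b).filter
          fun r : ℕ => (b : ℤ) ∣ ρ.den * (a + m * r) + ρ.num).card : ℝ) ≤ 1 := by exact_mod_cast hc
      linarith
    · have e : ∀ r : ℕ, uw θ φ (some ρ) b (a + m * r) = 1 - 1 / (b:ℝ) := fun r => uw_not_act h _
      rw [Finset.sum_congr rfl fun r _ => e r]
      exact hconst

/-- **the leaf rule is at most twice its averages** -/
lemma uw_avg {θ φ : ℝ} {lab : Option ℚ} {b k : ℕ} (hb : b.Prime) (hk : 0 < k) (a m : ℤ) :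
    ((b ^ k : ℕ) : ℝ) * uw θ φ lab b a ≤
      2 * ∑ s ∈ Finset.range (b ^ k), uw θ φ lab b (a + m * (s : ℤ)) := by
  have hper := uw_per θ φ lab b
  have hnn := fun a => uw_nonneg θ φ lab hb a
  have h2 : (2:ℝ) ≤ b := by exact_mod_cast hb.two_le
  by_cases hm : (b : ℤ) ∣ m
  · have e : ∀ s ∈ Finset.range (b ^ k), uw θ φ lab b (a + m * (s : ℤ)) = uw θ φ lab b a :=
      fun s _ => per_mul hnn hper (hm.mul_right _) a
    rw [Finset.sum_congr rfl e, Finset.sum_const, Finset.card_range, nsmul_eq_mul]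
    have : 0 ≤ ((b ^ k : ℕ) : ℝ) * uw θ φ lab b a := mul_nonneg (Nat.cast_nonneg _) (hnn a)
    linarith
  · obtain ⟨i, rfl⟩ : ∃ i, k = i + 1 := ⟨k - 1, by omega⟩
    have e1 : b ^ (i + 1) = b ^ i * b := pow_succ _ _
    rw [e1, Lift223.sum_split (P := b ^ i) (P' := b) hb.pos]
    have e2 : ∀ r ∈ Finset.range b, ∑ s ∈ Finset.range (b ^ i),
        uw θ φ lab b (a + m * ((r + b * s : ℕ) : ℤ)) = (b ^ i : ℕ) * uw θ φ lab b (a + m * r) := by
      intro r _
      have e3 : ∀ s ∈ Finset.range (b ^ i), uw θ φ lab b (a + m * ((r + b * s : ℕ) : ℤ)) =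
          uw θ φ lab b (a + m * r) := by
        intro s _
        have e4 : a + m * ((r + b * s : ℕ) : ℤ) = (a + m * r) + (b : ℤ) * (m * s) := by
          push_cast; ring
        rw [e4]
        exact per_mul hnn hper (dvd_mul_right _ _) _
      rw [Finset.sum_congr rfl e3, Finset.sum_const, Finset.card_range, nsmul_eq_mul]
    rw [Finset.sum_congr rfl e2, ← Finset.mul_sum]
    have h3 := uw_sum (θ := θ) (φ := φ) (lab := lab) hb a m hm
    have h4 := uw_le_one θ φ lab b a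
    have h5 : (0:ℝ) ≤ ((b ^ i : ℕ) : ℝ) := Nat.cast_nonneg _
    have h6 : ((b ^ i * b : ℕ) : ℝ) * uw θ φ lab b a ≤ ((b ^ i : ℕ) : ℝ) * b * 1 := by
      rw [Nat.cast_mul]
      exact mul_le_mul_of_nonneg_left h4 (by positivity)
    have h7 : ((b ^ i : ℕ) : ℝ) * ((b:ℝ) - 1) ≤
        ((b ^ i : ℕ) : ℝ) * ∑ r ∈ Finset.range b, uw θ φ lab b (a + m * r) :=
      mul_le_mul_of_nonneg_left h3 h5
    nlinarith

/-- **the weights of the items are at most twice their averages** -/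
lemma omw_avg {good : Prop} {ret : Finset ℕ} {T : ℕ → Finset ℚ} {θ φ : ℝ} {lab : Option ℚ}
    {w b k : ℕ} (hb : b.Prime) (hk : 0 < k) (hw : 0 < w) (hd : b ^ k ∣ w) (hbr : b ∉ ret) (a : ℤ) :
    ((b ^ k : ℕ) : ℝ) * omw good ret T (uw θ φ lab) w a ≤
      2 * ∑ s ∈ Finset.range (b ^ k),
        omw good ret T (uw θ φ lab) w (a + (w / b ^ k : ℕ) * (s : ℤ)) := by
  classical
  by_cases hg : good
  swap
  · have e : ∀ a, omw good ret T (uw θ φ lab) w a = 0 := fun a => by unfold omw; rw [if_neg hg]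
    simp [e]
  have hbw : b ∈ w.primeFactors :=
    Nat.mem_primeFactors.2 ⟨hb, (dvd_pow_self b hk.ne').trans hd, hw.ne'⟩
  have hLW : LW w.primeFactors (locw ret T (uw θ φ lab)) := LW_locw (LW_uw _ _ _ _)
  have hbk : 0 < b ^ k := pow_pos hb.pos k
  have e : ∀ a, omw good ret T (uw θ φ lab) w a =
      uw θ φ lab b a * ∏ l ∈ w.primeFactors.erase b, locw ret T (uw θ φ lab) l a := by
    intro a
    unfold omw
    rw [if_pos hg]
    unfold nw
    rw [← Finset.mul_prod_erase _ _ hbw]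
    congr 1
    unfold locw
    rw [if_neg hbr]
  have e2 : ∀ s ∈ Finset.range (b ^ k),
      omw good ret T (uw θ φ lab) w (a + (w / b ^ k : ℕ) * (s : ℤ)) =
      uw θ φ lab b (a + (w / b ^ k : ℕ) * (s : ℤ)) *
        ∏ l ∈ w.primeFactors.erase b, locw ret T (uw θ φ lab) l a := by
    intro s _
    rw [e]
    congr 1
    refine Finset.prod_congr rfl fun l hl => ?_
    obtain ⟨h1, h2⟩ := Finset.mem_erase.1 hl
    have hlp := Nat.prime_of_mem_primeFactors h2
    have hlw := Nat.dvd_of_mem_primeFactors h2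
    have h3 : l ∣ w / b ^ k := by
      obtain ⟨m, hm⟩ := hd
      rw [hm, Nat.mul_div_cancel_left m hbk]
      rw [hm] at hlw
      refine (Nat.Coprime.dvd_of_dvd_mul_left ?_ hlw)
      exact Nat.Coprime.pow_right k ((Nat.coprime_primes hlp hb).2 h1)
    have h4 := hLW l h2
    exact per_mul h4.1 h4.2 (Dvd.dvd.mul_right (by exact_mod_cast h3) _) a
  rw [Finset.sum_congr rfl e2, ← Finset.sum_mul, e]
  have hP : 0 ≤ ∏ l ∈ w.primeFactors.erase b, locw ret T (uw θ φ lab) l a :=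
    Finset.prod_nonneg fun l hl => (hLW l (Finset.mem_of_mem_erase hl)).1 a
  have h5 := uw_avg (θ := θ) (φ := φ) (lab := lab) hb hk a ((w / b ^ k : ℕ) : ℤ)
  calc ((b ^ k : ℕ) : ℝ) * (uw θ φ lab b a *
        ∏ l ∈ w.primeFactors.erase b, locw ret T (uw θ φ lab) l a)
      = (((b ^ k : ℕ) : ℝ) * uw θ φ lab b a) *
        ∏ l ∈ w.primeFactors.erase b, locw ret T (uw θ φ lab) l a := by ring
    _ ≤ (2 * ∑ s ∈ Finset.range (b ^ k), uw θ φ lab b (a + ((w / b ^ k : ℕ) : ℤ) * (s : ℤ))) *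
        ∏ l ∈ w.primeFactors.erase b, locw ret T (uw θ φ lab) l a :=
        mul_le_mul_of_nonneg_right h5 hP
    _ = _ := by ring

end Crest.Agent.R4P.FarLift7
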