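import Crest.Agent.R4P.FarNear_7
import Crest.Agent.R4P.DseCh_23

/-!
R4 (S0004), POWERS, module dseR (D3), helper7: **the near child of a far node**, part 2.

* `AV_near` : the functions of the near child;
* `K_br`, `K_up` : the typical exponent;
* `Q_mono`, `Q_pull`, `Q_raise`; `E_miss`, `E_ret_br`, `E_ret_up` : energies of the atypical items by
  the energies of the children of the base.
-/

set_option autoImplicit false
set_option linter.unusedSectionVars false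
set_option linter.unusedVariables false

open MeasureTheory Filter

namespace Crest.Agent.R4P.FarNear7

open Crest.Agent.R4P.Cnt588 Crest.Agent.R4P.Item758 Crest.Agent.R4P.W363
open Crest.Agent.R4P.Data758 Crest.Agent.R4P.OmSt532 Crest.Agent.R4P.OmData532
open Crest.Agent.R4P.LfDat734 Crest.Agent.R4P.WPex189
open Crest.Agent.R4P.Bld532
open Crest.Agent.R4P.Step588 (NDt ND1 ctx_NDt uq_lt)
open Crest.Agent.R4P.WalkIT579 (tp isL nodeOk_hi top_of_nodeOk)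
open Crest.Agent.R4P.Skel189 Crest.Agent.R4P.RseSt23 Crest.Agent.R4P.RseNd23
open Crest.Agent.R4.Soft104 (w)
open Crest.Agent.R4.Tour104 Crest.Agent.R4.Fam464 Crest.Agent.R4.Tour758
open Crest.Agent.R4.ClosL758 Crest.Agent.R4.ClosR758 Crest.Agent.R4.Avg758
open Crest.Agent.R4.Lam368 (mult Dat mult_le_one mult_nonneg Ep_mult)
open Crest.Agent.R4P.AddNode7 (Uw rv_ne)
open Crest.Agent.R4P.FarLift7
open Crest.Agent.R4

/-! ### energies -/

section gen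
variable {Λ : Type*} [Fintype Λ] [DecidableEq Λ]

lemma Q_mono {R : Finset (Λ × Λ)} {f f' g g' : Λ → ℝ → ℝ} (pf : ∀ j, PB (f j)) (pg : ∀ j, PB (g j))
    (pf' : ∀ j, PB (f' j)) (pg' : ∀ j, PB (g' j)) (h : ∀ j x, f j x ≤ f' j x)
    (h' : ∀ j x, g j x ≤ g' j x) : Q R f g ≤ Q R f' g' := by
  unfold Q
  refine Finset.sum_le_sum fun e _ => ?_
  refine Tour104.I_mono ((pf _).mul (pg _)).integrableOn ((pf' _).mul (pg' _)).integrableOn
    fun x => ?_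
  exact mul_le_mul (h _ x) (h' _ x) ((pg _).nonneg x) ((pf' _).nonneg x)

lemma Q_pull {R : Finset (Λ × Λ)} {f g : Λ → ℝ → ℝ} (pf : ∀ j, PB (f j)) (pg : ∀ j, PB (g j))
    {n : ℕ} (hn : 0 < n) : Q R (fun j x => f j (n * x)) (fun j x => g j (n * x)) = Q R f g := by
  unfold Q
  refine Finset.sum_congr rfl fun e _ => ?_
  exact Lift223.I_pull' hn ((pf e.1).mul (pg e.2))

/-- raised functions have a smaller energy -/
lemma Q_raise {R : Finset (Λ × Λ)} {G g : Λ → ℝ → ℝ} (pG : ∀ j, PB (G j)) (pg : ∀ j, PB (g j))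
    {p : ℕ} (hp : 0 < p) (hl : ∀ j, Lift p (G j) (g j)) : Q R g g ≤ Q R G G / p := by
  have hp0 : (0:ℝ) < p := by exact_mod_cast hp
  unfold Q
  rw [Finset.sum_div]
  refine Finset.sum_le_sum fun e _ => ?_
  rw [le_div_iff₀ hp0]
  have e1 : I (fun x => g e.1 x * g e.2 x) = I (Ep p fun x => g e.1 x * g e.2 x) :=
    (Tour104.I_Ep hp ((pg e.1).mul (pg e.2)).integrableOn).symm
  have e2 : I (Ep p fun x => g e.1 x * g e.2 x) * p = I (fun y => p * Ep p (fun x => g e.1 x * g e.2 x) y) := by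
    unfold I
    rw [integral_const_mul]
    ring
  rw [e1, e2]
  have pe : PB (Ep p fun x => g e.1 x * g e.2 x) := ((pg e.1).mul (pg e.2)).Ep hp
  refine Tour104.I_mono (pe.integrableOn.const_mul _) ((pG e.1).mul (pG e.2)).integrableOn fun y => ?_
  have h1 := hl e.1 y
  have h2 := hl e.2 y
  rw [← h1, ← h2, Finset.sum_mul_sum]
  have e3 : (p:ℝ) * Ep p (fun x => g e.1 x * g e.2 x) y =
      ∑ i ∈ Finset.range p, g e.1 ((y + i) / p) * g e.2 ((y + i) / p) := by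
    unfold Ep
    field_simp
  rw [e3]
  refine Finset.sum_le_sum fun i hi => ?_
  exact Finset.single_le_sum (f := fun j : ℕ => g e.1 ((y + i) / p) * g e.2 ((y + j) / p))
    (fun j _ => mul_nonneg ((pg _).nonneg _) ((pg _).nonneg _)) hi

end gen

section ctx
variable {N : Skel189.Num} {γ : ℝ} {p0 P₀ : ℕ} {X : Ctx N γ p0 P₀} {u : NS} {b : ℕ} {t₁ t₀ : IT}

lemma NDt_br₁ {p : ℕ} {Sp : Finset ℕ} (h : NDt X.par (w X.ψ) X.c.t u (.br p Sp t₁ t₀)) :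
    NDt X.par (w X.ψ) X.c.t ⟨p, u.c / (1 - 1 / (p : ℝ)), u.A * p, u.B⟩ t₁ where
  all := h.all.2.1
  dvd := h.dvd
  pos := h.pos
  rd := h.rd
  rd1 := h.rd1

lemma NDt_br₀ {p : ℕ} {Sp : Finset ℕ} (h : NDt X.par (w X.ψ) X.c.t u (.br p Sp t₁ t₀)) :
    NDt X.par (w X.ψ) X.c.t ⟨p, u.c * p, u.A, u.B * p⟩ t₀ where
  all := h.all.2.2
  dvd := h.dvd
  pos := h.pos
  rd := h.rd
  rd1 := h.rd1

lemma NDt_far₁ {p : ℕ} (h : NDt X.par (w X.ψ) X.c.t u (.far p t₁ t₀)) :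
    NDt X.par (w X.ψ) X.c.t ⟨p + 1, u.c, u.A, u.B⟩ t₁ where
  all := h.all.2.1
  dvd := h.dvd
  pos := h.pos
  rd := h.rd
  rd1 := h.rd1

lemma NDt_far₀ {p : ℕ} (h : NDt X.par (w X.ψ) X.c.t u (.far p t₁ t₀)) :
    NDt X.par (w X.ψ) X.c.t ⟨p + 1, u.c, u.A, u.B⟩ t₀ where
  all := h.all.2.2
  dvd := h.dvd
  pos := h.pos
  rd := h.rd
  rd1 := h.rd1

lemma NDt_up {p : ℕ} {Sp : Finset ℕ} {t : IT} (h : NDt X.par (w X.ψ) X.c.t u (.up p Sp t)) :
    NDt X.par (w X.ψ) X.c.t ⟨p, u.c, u.A, u.B⟩ t where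
  all := h.all.2
  dvd := h.dvd
  pos := h.pos
  rd := h.rd
  rd1 := h.rd1

/-- the functions of a node are nonnegative, bounded, periodic -/
lemma PB_Uw {t : IT} (h : NDt X.par (w X.ψ) X.c.t u t) (Y : Finset (ℕ × ℕ × Finset ℕ))
    (j : X.c.Lam) : PB (Uw X Y u t j) :=
  FT.pb h.B_pos ((X.c.D.par Y).toFT_Adm _ _ _ h.B_pos h.fit (node_wts h Y)) (one_dvd _) j

lemma Uw_zero {t : IT} (Y : Finset (ℕ × ℕ × Finset ℕ)) {j : X.c.Lam} (hj : j.1.1 ∉ t.items) (x : ℝ) :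
    Uw X Y u t j x = 0 := (X.c.D.par Y).U_zero t u.B u.A 1 j hj x

/-- **the functions of a branching**, present items -/
lemma Uw_br₁ {p : ℕ} {Sp : Finset ℕ} (h : NDt X.par (w X.ψ) X.c.t u (.br p Sp t₁ t₀))
    (Y : Finset (ℕ × ℕ × Finset ℕ)) {j : X.c.Lam} (hj : j.1.1 ∉ t₀.items) (x : ℝ) :
    Uw X Y u (.br p Sp t₁ t₀) j x =
      mult p (fun j => ((X.c.D.par Y).toFT u.B (u.A * p) t₁).U 1 j)
        (fun j => ((X.c.D.par Y).toFT (u.B * p) u.A t₀).U p j)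
        (fun j => ((X.c.D.par Y).toFT (u.B * p) u.A t₀).U 1 j) (fun _ => (X.c.D.par Y).rho p) 1 j x *
      ((X.c.D.par Y).toFT u.B (u.A * p) t₁).U 1 j (p * x) := by
  show mult p _ _ _ _ (0 + 1) j ((1:ℕ) * x) * ((X.c.D.par Y).toFT u.B (u.A * p) t₁).U 1 j (p * x) +
    ((X.c.D.par Y).toFT (u.B * p) u.A t₀).U (1 * p) j x = _
  rw [(X.c.D.par Y).U_zero t₀ (u.B * p) u.A (1 * p) j hj x, add_zero, Nat.cast_one, one_mul, zero_add]

/-- **the functions of a branching**, missing items -/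
lemma Uw_br₀ {p : ℕ} {Sp : Finset ℕ} (Y : Finset (ℕ × ℕ × Finset ℕ)) {j : X.c.Lam}
    (hj : j.1.1 ∉ t₁.items) (x : ℝ) :
    Uw X Y u (.br p Sp t₁ t₀) j x = ((X.c.D.par Y).toFT (u.B * p) u.A t₀).U p j x := by
  show mult p _ _ _ _ (0 + 1) j ((1:ℕ) * x) * ((X.c.D.par Y).toFT u.B (u.A * p) t₁).U 1 j (p * x) +
    ((X.c.D.par Y).toFT (u.B * p) u.A t₀).U (1 * p) j x = _
  rw [(X.c.D.par Y).U_zero t₁ u.B (u.A * p) 1 j hj (p * x), mul_zero, zero_add, one_mul]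

lemma dat_br {p : ℕ} {Sp : Finset ℕ} (h : NDt X.par (w X.ψ) X.c.t u (.br p Sp t₁ t₀))
    (Y : Finset (ℕ × ℕ × Finset ℕ)) :
    Dat p (fun j => ((X.c.D.par Y).toFT u.B (u.A * p) t₁).U 1 j)
        (fun j => ((X.c.D.par Y).toFT (u.B * p) u.A t₀).U p j)
        (fun j => ((X.c.D.par Y).toFT (u.B * p) u.A t₀).U 1 j) :=
  FT.dat h.B_pos ((X.c.D.par Y).toFT_Adm _ _ _ h.B_pos h.fit (node_wts h Y))

/-- present functions of a branching are at most twice their averages -/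
lemma AV_br {p : ℕ} {Sp : Finset ℕ} (h : NDt X.par (w X.ψ) X.c.t u (.br p Sp t₁ t₀)) (hp : 2 ≤ p)
    (Y : Finset (ℕ × ℕ × Finset ℕ)) {j : X.c.Lam} (hj : j.1.1 ∉ t₀.items) :
    AV p (Uw X Y u (.br p Sp t₁ t₀) j) := by
  have e : Uw X Y u (.br p Sp t₁ t₀) j = _ := funext fun x => Uw_br₁ h Y hj x
  rw [e]
  exact AV_mult hp (dat_br h Y) j

/-- functions of a pulled tree, fewer shifts -/
lemma AV_plk_le {i k : ℕ} (hk : k ≤ i) {t : IT} (hb : 0 < b) {j : X.c.Lam}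
    (Y : Finset (ℕ × ℕ × Finset ℕ))
    (h : NDt X.par (w X.ψ) X.c.t ⟨b + 1, u.c, u.A * b ^ i, u.B⟩ t) :
    AV (b ^ k) (Uw X Y u (plk b i t) j) := by
  have pg : PB (Uw X Y ⟨b + 1, u.c, u.A * b ^ i, u.B⟩ t j) := PB_Uw h Y j
  have e : Uw X Y u (plk b i t) j =
      fun x => (fun y => Uw X Y ⟨b + 1, u.c, u.A * b ^ i, u.B⟩ t j (((b ^ (i - k) : ℕ) : ℝ) * y))
        (((b ^ k : ℕ) : ℝ) * x) := by
    funext x
    have h1 := U_plk (X.c.D.par Y) (b := u.B) (c := 1) (p := b) (t := t) i u.A j x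
    have h2 : ((b ^ i : ℕ) : ℝ) * x = ((b ^ (i - k) : ℕ) : ℝ) * (((b ^ k : ℕ) : ℝ) * x) := by
      rw [← mul_assoc, ← Nat.cast_mul, ← pow_add, Nat.sub_add_cancel hk]
    rw [h2] at h1
    exact h1
  rw [e]
  have := AV_pull (g := fun y => Uw X Y ⟨b + 1, u.c, u.A * b ^ i, u.B⟩ t j
    (((b ^ (i - k) : ℕ) : ℝ) * y)) (pg.pull _) one_pos (pow_pos hb k)
    (AV_one fun x => (pg.pull _).nonneg x)
  rwa [one_mul] at this

/-- exponents covered by the base of the near child -/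
def KL (i k : ℕ) : IT → Prop
  | .leaf _ => True
  | .br _ _ _ _ => k ≤ i + 1
  | _ => k ≤ i

/-- **the functions of the near child** -/
theorem AV_near (hb : b.Prime) {i k : ℕ} {t : IT} (hB : NB b t) (hA0 : 0 < u.A)
    (h : NDt X.par (w X.ψ) X.c.t ⟨b + 1, u.c, u.A * b ^ i, u.B⟩ t) (hk : KL i k t)
    (Y : Finset (ℕ × ℕ × Finset ℕ)) {j : X.c.Lam} (hj : j.1.1 ∈ t.items)
    (hd : b ^ k ∣ j.1.1 / u.A) : AV (b ^ k) (Uw X Y u (plk b i t) j) := by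
  rcases Nat.lt_or_ge i k with hik | hik
  swap
  · exact AV_plk_le hik hb.pos Y h
  obtain ⟨m, rfl⟩ : ∃ m, k = m + i := ⟨k - i, by omega⟩
  have hdvd : u.A ∣ j.1.1 := (Dvd.intro _ rfl).trans (h.bk.dvd _ hj)
  obtain ⟨d1, d2⟩ := dvd_of_plk (S := ∅) h hj hdvd hA0
  have hd' : b ^ m ∣ j.1.1 / (u.A * b ^ i) := by
    rw [d2]
    obtain ⟨c, hc⟩ := hd
    rw [hc, pow_add, mul_assoc, mul_comm (b ^ i), ← mul_assoc,
      Nat.mul_div_cancel _ (pow_pos hb.pos i)]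
    exact dvd_mul_right _ _
  refine AV_plk hb.pos Y h ?_
  cases hB with
  | leaf S => exact AV_leaf h hb (Nat.lt_succ_self b) Y hj hd'
  | br Sp t₁ t₀ =>
    have hm : m = 1 := by
      have : m + i ≤ i + 1 := hk
      omega
    subst hm
    rw [pow_one] at hd' ⊢
    obtain ⟨-, -, -, -, -, -, e0, -⟩ := h.self.node
    refine AV_br h hb.two_le Y fun hc => ?_
    rw [e0] at hc
    exact (Bld532.mem_nd.1 hc).2 hd'
  | up Sp t =>
    have : m + i ≤ i := hk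
    omega

/-! ### energies of the missing and of the retained items -/

lemma rv_apply (A : Finset X.c.Lam) (f : X.c.Lam → ℝ → ℝ) (j : X.c.Lam) (x : ℝ) :
    rv A f j x = if j ∈ A then f j x else 0 := by
  unfold rv
  split_ifs <;> rfl

/-- **energy of the missing items** -/
theorem E_miss (hb : b.Prime) {i : ℕ} {Sp : Finset ℕ}
    (h : NDt X.par (w X.ψ) X.c.t ⟨b + 1, u.c, u.A * b ^ i, u.B⟩ (.br b Sp t₁ t₀))
    (Y : Finset (ℕ × ℕ × Finset ℕ)) (A A' : Finset X.c.Lam) (hAA : A' ⊆ A)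
    (hA' : ∀ j ∈ A', j.1.1 ∉ t₁.items) (R : Finset (X.c.Lam × X.c.Lam)) :
    Q R (rv A' (Uw X Y u (plk b i (.br b Sp t₁ t₀)))) (rv A' (Uw X Y u (plk b i (.br b Sp t₁ t₀)))) ≤
      Q R (rv A (Uw X Y ⟨b, u.c * b, u.A * b ^ i, u.B * b⟩ t₀))
        (rv A (Uw X Y ⟨b, u.c * b, u.A * b ^ i, u.B * b⟩ t₀)) / b := by
  have h0 := NDt_br₀ h
  have pG : ∀ j, PB (rv A (Uw X Y ⟨b, u.c * b, u.A * b ^ i, u.B * b⟩ t₀) j) := fun j =>
    PB_rv (fun j => PB_Uw h0 Y j) A j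
  have pg0 : ∀ j, PB (((X.c.D.par Y).toFT (u.B * b) (u.A * b ^ i) t₀).U b j) := fun j =>
    (dat_br h Y).hg j
  have pg : ∀ j, PB (rv A (fun j => ((X.c.D.par Y).toFT (u.B * b) (u.A * b ^ i) t₀).U b j) j) :=
    fun j => PB_rv pg0 A j
  refine le_trans ?_ (Q_raise (p := b) pG pg hb.pos fun j => ?_)
  · rw [← Q_pull pg pg (pow_pos hb.pos i)]
    have pU : ∀ j, PB (fun x => Uw X Y ⟨b + 1, u.c, u.A * b ^ i, u.B⟩ (.br b Sp t₁ t₀) j
        (((b ^ i : ℕ) : ℝ) * x)) := fun j => (PB_Uw h Y j).pull _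
    have e : ∀ j x, Uw X Y u (plk b i (.br b Sp t₁ t₀)) j x =
        Uw X Y ⟨b + 1, u.c, u.A * b ^ i, u.B⟩ (.br b Sp t₁ t₀) j (((b ^ i : ℕ) : ℝ) * x) :=
      fun j x => U_plk (X.c.D.par Y) i u.A j x
    have pU' : ∀ j, PB (rv A' (Uw X Y u (plk b i (.br b Sp t₁ t₀))) j) := fun j => by
      refine PB_rv (fun j => ?_) A' j
      have : Uw X Y u (plk b i (.br b Sp t₁ t₀)) j = _ := funext fun x => e j x
      rw [this]; exact pU j
    have hle : ∀ j x, rv A' (Uw X Y u (plk b i (.br b Sp t₁ t₀))) j x ≤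
        rv A (fun j => ((X.c.D.par Y).toFT (u.B * b) (u.A * b ^ i) t₀).U b j) j
          (((b ^ i : ℕ) : ℝ) * x) := by
      intro j x
      rw [rv_apply, rv_apply]
      by_cases hj : j ∈ A'
      · rw [if_pos hj, if_pos (hAA hj), e, Uw_br₀ (u := ⟨b + 1, u.c, u.A * b ^ i, u.B⟩) Y (hA' j hj)]
      · rw [if_neg hj]
        split_ifs
        · exact (pg0 j).nonneg _
        · exact le_rfl
    exact Q_mono pU' pU' (fun j => (pg j).pull _) (fun j => (pg j).pull _) hle hle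
  · have hl := (dat_br h Y).hl j
    intro y
    by_cases hj : j ∈ A
    · have := hl y
      rw [rv_of_mem hj, rv_of_mem hj]
      exact this
    · rw [rv_of_not_mem hj, rv_of_not_mem hj]
      simp

/-- **energy of the retained items of a branching** -/
theorem E_ret_br (hb : b.Prime) {i : ℕ} {Sp : Finset ℕ}
    (h : NDt X.par (w X.ψ) X.c.t ⟨b + 1, u.c, u.A * b ^ i, u.B⟩ (.br b Sp t₁ t₀))
    (Y : Finset (ℕ × ℕ × Finset ℕ)) (A A' : Finset X.c.Lam) (hAA : A' ⊆ A)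
    (hA' : ∀ j ∈ A', j.1.1 ∉ t₀.items) (R : Finset (X.c.Lam × X.c.Lam)) :
    Q R (rv A' (Uw X Y u (plk b i (.br b Sp t₁ t₀)))) (rv A' (Uw X Y u (plk b i (.br b Sp t₁ t₀)))) ≤
      Q R (rv A (Uw X Y ⟨b, u.c / (1 - 1 / (b : ℝ)), u.A * b ^ i * b, u.B⟩ t₁))
        (rv A (Uw X Y ⟨b, u.c / (1 - 1 / (b : ℝ)), u.A * b ^ i * b, u.B⟩ t₁)) := by
  have h1 := NDt_br₁ h
  have pG0 : ∀ j, PB (Uw X Y ⟨b, u.c / (1 - 1 / (b : ℝ)), u.A * b ^ i * b, u.B⟩ t₁ j) := fun j =>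
    PB_Uw h1 Y j
  have pG : ∀ j, PB (rv A (Uw X Y ⟨b, u.c / (1 - 1 / (b : ℝ)), u.A * b ^ i * b, u.B⟩ t₁) j) :=
    fun j => PB_rv pG0 A j
  rw [← Q_pull pG pG (pow_pos hb.pos (i + 1))]
  have pU : ∀ j, PB (fun x => Uw X Y ⟨b + 1, u.c, u.A * b ^ i, u.B⟩ (.br b Sp t₁ t₀) j
      (((b ^ i : ℕ) : ℝ) * x)) := fun j => (PB_Uw h Y j).pull _
  have e : ∀ j x, Uw X Y u (plk b i (.br b Sp t₁ t₀)) j x =
      Uw X Y ⟨b + 1, u.c, u.A * b ^ i, u.B⟩ (.br b Sp t₁ t₀) j (((b ^ i : ℕ) : ℝ) * x) :=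
    fun j x => U_plk (X.c.D.par Y) i u.A j x
  have pU' : ∀ j, PB (rv A' (Uw X Y u (plk b i (.br b Sp t₁ t₀))) j) := fun j => by
    refine PB_rv (fun j => ?_) A' j
    have : Uw X Y u (plk b i (.br b Sp t₁ t₀)) j = _ := funext fun x => e j x
    rw [this]; exact pU j
  have hle : ∀ j x, rv A' (Uw X Y u (plk b i (.br b Sp t₁ t₀))) j x ≤
      rv A (Uw X Y ⟨b, u.c / (1 - 1 / (b : ℝ)), u.A * b ^ i * b, u.B⟩ t₁) j
        (((b ^ (i + 1) : ℕ) : ℝ) * x) := by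
    intro j x
    rw [rv_apply, rv_apply]
    by_cases hj : j ∈ A'
    · rw [if_pos hj, if_pos (hAA hj), e, Uw_br₁ h Y (hA' j hj)]
      have e2 : (b:ℝ) * (((b ^ i : ℕ) : ℝ) * x) = ((b ^ (i + 1) : ℕ) : ℝ) * x := by push_cast; ring
      rw [e2]
      have m1 := mult_le_one (c := fun _ => (X.c.D.par Y).rho b) (n := 1) (dat_br h Y) j
        (((b ^ i : ℕ) : ℝ) * x)
      have m2 := (pG0 j).nonneg (((b ^ (i + 1) : ℕ) : ℝ) * x)
      have := mul_le_mul_of_nonneg_right m1 m2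
      rw [one_mul] at this
      exact this
    · rw [if_neg hj]
      split_ifs
      · exact (pG0 j).nonneg _
      · exact le_rfl
  exact Q_mono pU' pU' (fun j => (pG j).pull _) (fun j => (pG j).pull _) hle hle

/-- **energy of the retained items of an up column** -/
theorem E_ret_up (hb : b.Prime) {i : ℕ} {Sp : Finset ℕ} {t : IT}
    (h : NDt X.par (w X.ψ) X.c.t ⟨b + 1, u.c, u.A * b ^ i, u.B⟩ (.up b Sp t))
    (Y : Finset (ℕ × ℕ × Finset ℕ)) (A A' : Finset X.c.Lam) (hAA : A' ⊆ A)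
    (R : Finset (X.c.Lam × X.c.Lam)) :
    Q R (rv A' (Uw X Y u (plk b i (.up b Sp t)))) (rv A' (Uw X Y u (plk b i (.up b Sp t)))) ≤
      Q R (rv A (Uw X Y ⟨b, u.c, u.A * b ^ i, u.B⟩ t))
        (rv A (Uw X Y ⟨b, u.c, u.A * b ^ i, u.B⟩ t)) := by
  have h1 := NDt_up h
  have pG0 : ∀ j, PB (Uw X Y ⟨b, u.c, u.A * b ^ i, u.B⟩ t j) := fun j => PB_Uw h1 Y j
  have pG : ∀ j, PB (rv A (Uw X Y ⟨b, u.c, u.A * b ^ i, u.B⟩ t) j) := fun j => PB_rv pG0 A j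
  rw [← Q_pull pG pG (pow_pos hb.pos i)]
  have e : ∀ j x, Uw X Y u (plk b i (.up b Sp t)) j x =
      Uw X Y ⟨b, u.c, u.A * b ^ i, u.B⟩ t j (((b ^ i : ℕ) : ℝ) * x) :=
    fun j x => U_plk (X.c.D.par Y) i u.A j x
  have pU' : ∀ j, PB (rv A' (Uw X Y u (plk b i (.up b Sp t))) j) := fun j => by
    refine PB_rv (fun j => ?_) A' j
    have : Uw X Y u (plk b i (.up b Sp t)) j = _ := funext fun x => e j x
    rw [this]; exact (pG0 j).pull _
  have hle : ∀ j x, rv A' (Uw X Y u (plk b i (.up b Sp t))) j x ≤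
      rv A (Uw X Y ⟨b, u.c, u.A * b ^ i, u.B⟩ t) j (((b ^ i : ℕ) : ℝ) * x) := by
    intro j x
    rw [rv_apply, rv_apply]
    by_cases hj : j ∈ A'
    · rw [if_pos hj, if_pos (hAA hj), e]
    · rw [if_neg hj]
      split_ifs
      · exact (pG0 j).nonneg _
      · exact le_rfl
  exact Q_mono pU' pU' (fun j => (pG j).pull _) (fun j => (pG j).pull _) hle hle

end ctx

end Crest.Agent.R4P.FarNear7
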