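import Crest.Agent.R4P.FarNear2_7

/-!
R4 (S0004), POWERS, module dseR (D3), helper7: **the near child of a far node**, part 3: the typical
exponent `K` is `i + 1` above a branching and `i` above an up column.
-/

set_option autoImplicit false
set_option linter.unusedSectionVars false
set_option linter.unusedVariables false

namespace Crest.Agent.R4P.FarNear7

open Crest.Agent.R4P.Cnt588 Crest.Agent.R4P.Item758
open Crest.Agent.R4P.Data758
open Crest.Agent.R4P.LfDat734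
open Crest.Agent.R4P.Bld532
open Crest.Agent.R4P.Step588 (NDt ND1 ctx_NDt uq_lt)
open Crest.Agent.R4P.Skel189 Crest.Agent.R4P.RseSt23 Crest.Agent.R4P.RseNd23
open Crest.Agent.R4.Soft104 (w)
open Crest.Agent.R4

/-- the typical exponent -/
def KT (i K : ℕ) : IT → Prop
  | .leaf _ => True
  | .br _ _ _ _ => K = i + 1
  | .up _ _ _ => K = i
  | _ => False

open Classical in
/-- items of the typical exponent -/
noncomputable def typ (b A K : ℕ) (S : Finset ℕ) : Finset ℕ :=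
  S.filter fun q => b ^ K ∣ q / A ∧ ¬ b ^ (K + 1) ∣ q / A

lemma mem_typ {b A K q : ℕ} {S : Finset ℕ} :
    q ∈ typ b A K S ↔ q ∈ S ∧ b ^ K ∣ q / A ∧ ¬ b ^ (K + 1) ∣ q / A := by
  unfold typ; rw [Finset.mem_filter]

lemma Ws_sub {W : ℕ → ℝ} (hW : ∀ q, 0 ≤ W q) {S T : Finset ℕ} (h : S ⊆ T) : Ws W S ≤ Ws W T :=
  Finset.sum_le_sum_of_subset_of_nonneg h fun q _ _ => hW q

lemma Ws_union_le {W : ℕ → ℝ} (hW : ∀ q, 0 ≤ W q) (S T : Finset ℕ) :
    Ws W (S ∪ T) ≤ Ws W S + Ws W T := by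
  classical
  have h1 := Finset.sum_union_inter (s₁ := S) (s₂ := T) (f := W)
  have h2 : 0 ≤ ∑ q ∈ S ∩ T, W q := Finset.sum_nonneg fun q _ => hW q
  unfold Ws
  linarith

/-- the mass of the typical items -/
lemma Ws_typ {W : ℕ → ℝ} (hW : ∀ q, 0 ≤ W q) {b A K : ℕ} {S : Finset ℕ} {s : ℝ}
    (h1 : Ws W (nd A (b ^ K) S) ≤ s * Ws W S) (h2 : Ws W (dv A (b ^ (K + 1)) S) ≤ s * Ws W S) :
    (1 - 2 * s) * Ws W S ≤ Ws W (typ b A K S) := by
  classical
  have hsub : S ⊆ typ b A K S ∪ (nd A (b ^ K) S ∪ dv A (b ^ (K + 1)) S) := fun q hq => by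
    rw [Finset.mem_union, Finset.mem_union, mem_typ, mem_nd, mem_dv]
    tauto
  have h3 : Ws W S ≤ Ws W (typ b A K S) + (Ws W (nd A (b ^ K) S) + Ws W (dv A (b ^ (K + 1)) S)) := by
    exact (Ws_sub hW hsub).trans ((Ws_union_le hW _ _).trans
      (add_le_add le_rfl (Ws_union_le hW _ _)))
  linarith

/-- the typical items are not few -/
lemma typ_big {W : ℕ → ℝ} (hW : ∀ q, 0 ≤ W q) {b A K : ℕ} {S T : Finset ℕ} {s : ℝ} (hs : 4 * s < 1)
    (hS : 0 < Ws W S)
    (h1 : Ws W (nd A (b ^ K) S) ≤ s * Ws W S) (h2 : Ws W (dv A (b ^ (K + 1)) S) ≤ s * Ws W S)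
    (hT : typ b A K S ⊆ T) (hWT : Ws W T ≤ 2 * s * Ws W S) : False := by
  have h3 := Ws_typ hW h1 h2
  have h4 := Ws_sub hW hT
  nlinarith

section ctx
variable {N : Skel189.Num} {γ : ℝ} {p0 P₀ : ℕ} {X : Ctx N γ p0 P₀} {u : NS} {b : ℕ} {t₁ t₀ : IT}

/-- **the typical exponent of the near child** -/
theorem KT_near (h : NDt X.par (w X.ψ) X.c.t u (.far b t₁ t₀)) (hc : 0 < u.c) {i K : ℕ} {t : IT}
    (hs0 : 0 ≤ X.par.sg b) (hs : 4 * X.par.sg b < 1) (hlo : 0 < X.par.lo b)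
    (hB : NB b t) (e : t₀ = plk b i t)
    (ht : NDt X.par (w X.ψ) X.c.t ⟨b + 1, u.c, u.A * b ^ i, u.B⟩ t)
    (e0 : t₀.items = nearS b u.A K (t₁.items ∪ t₀.items))
    (h1 : Ws (w X.ψ) (nd u.A (b ^ K) (t₁.items ∪ t₀.items)) ≤
      X.par.sg b * Ws (w X.ψ) (t₁.items ∪ t₀.items))
    (h2 : Ws (w X.ψ) (dv u.A (b ^ (K + 1)) (t₁.items ∪ t₀.items)) ≤
      X.par.sg b * Ws (w X.ψ) (t₁.items ∪ t₀.items)) : KT i K t := by
  obtain ⟨hb, -, -, -, hbk, -, hlo', -⟩ := h.self.node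
  have hb1 : 1 < b := hb.one_lt
  have hbi : 0 < b ^ i := pow_pos hb.pos i
  set I := t₁.items ∪ t₀.items with hI
  have hWI : 0 < Ws (w X.ψ) I := by
    by_contra hcon
    push Not at hcon
    have : u.c * Ws (w X.ψ) I ≤ 0 := mul_nonpos_of_nonneg_of_nonpos hc.le hcon
    linarith
  have hit : t₀.items = t.items := by rw [e]; exact plk_items i
  have hsubI : t.items ⊆ I := by rw [← hit]; exact Finset.subset_union_right
  have htyp : typ b u.A K I ⊆ t.items := fun q hq => by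
    obtain ⟨a1, a2, a3⟩ := mem_typ.1 hq
    rw [← hit, e0, mem_nearS]
    refine ⟨a1, fun hc => a3 ((pow_dvd_pow b (by omega)).trans hc), (pow_dvd_pow b (by omega)).trans a2⟩
  have hA0 : 0 < u.A := hbk.Apos
  have hdiv : ∀ q ∈ t.items, b ^ i ∣ q / u.A ∧ q / (u.A * b ^ i) = q / u.A / b ^ i := fun q hq =>
    dvd_of_plk (S := ∅) ht hq (hbk.dvd q (hsubI hq)) hA0
  -- divisibility above the pulls
  have hup : ∀ q ∈ t.items, ∀ m : ℕ, (b ^ m ∣ q / (u.A * b ^ i) ↔ b ^ (i + m) ∣ q / u.A) := by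
    intro q hq m
    obtain ⟨d1, d2⟩ := hdiv q hq
    rw [d2]
    obtain ⟨c, hc⟩ := d1
    rw [hc, Nat.mul_div_cancel_left _ hbi, pow_add, Nat.mul_dvd_mul_iff_left hbi]
  cases hB with
  | leaf S => trivial
  | br Sp s₁ s₀ =>
    show K = i + 1
    obtain ⟨-, -, -, -, -, f1, f0, fS, -, -, -, fm, fs⟩ := ht.self.node
    have f1' : s₁.items = dv (u.A * b ^ i) b (s₁.items ∪ s₀.items) := f1
    have f0' : s₀.items = nd (u.A * b ^ i) b (s₁.items ∪ s₀.items) := f0
    have fS' : Sp = dv (u.A * b ^ i) (b ^ 2) (s₁.items ∪ s₀.items) := fS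
    have hle : Ws (w X.ψ) (s₁.items ∪ s₀.items) ≤ Ws (w X.ψ) I := Ws_sub X.hW hsubI
    have hle1 : Ws (w X.ψ) s₁.items ≤ Ws (w X.ψ) I :=
      (Ws_sub X.hW Finset.subset_union_left).trans hle
    by_contra hK
    rcases Nat.lt_or_ge K (i + 1) with hlt | hge
    · refine typ_big X.hW hs hWI h1 h2 (T := s₀.items) (fun q hq => ?_) ?_
      · have hq' := htyp hq
        obtain ⟨a1, a2, a3⟩ := mem_typ.1 hq
        rw [f0', mem_nd]
        refine ⟨hq', fun hc => a3 ?_⟩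
        have h6 := (hup q hq' 1).1 (by rwa [pow_one])
        exact (pow_dvd_pow b (by omega)).trans h6
      · exact fm.trans (mul_le_mul_of_nonneg_left hle (by linarith))
    · refine typ_big X.hW hs hWI h1 h2 (T := Sp) (fun q hq => ?_) ?_
      · have hq' := htyp hq
        obtain ⟨a1, a2, a3⟩ := mem_typ.1 hq
        rw [fS', mem_dv]
        refine ⟨hq', (hup q hq' 2).2 ((pow_dvd_pow b (by omega)).trans a2)⟩
      · exact fs.trans (mul_le_mul_of_nonneg_left hle1 (by linarith))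
  | up Sp s =>
    show K = i
    obtain ⟨-, -, -, -, -, fS, -, -, -, fs⟩ := ht.self.node
    have fS' : Sp = dv (u.A * b ^ i) b s.items := fS
    have hle : Ws (w X.ψ) s.items ≤ Ws (w X.ψ) I := Ws_sub X.hW hsubI
    by_contra hK
    rcases Nat.lt_or_ge K i with hlt | hge
    · refine typ_big X.hW hs hWI h1 h2 (T := ∅) (fun q hq => ?_) ?_
      · have hq' := htyp hq
        obtain ⟨a1, a2, a3⟩ := mem_typ.1 hq
        exact absurd ((pow_dvd_pow b (by omega)).trans (hdiv q hq').1) a3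
      · have : Ws (w X.ψ) ∅ = 0 := by unfold Ws; exact Finset.sum_empty
        rw [this]
        positivity
    · refine typ_big X.hW hs hWI h1 h2 (T := Sp) (fun q hq => ?_) ?_
      · have hq' := htyp hq
        obtain ⟨a1, a2, a3⟩ := mem_typ.1 hq
        rw [fS', mem_dv]
        have h6 := (hup q hq' 1).2 ((pow_dvd_pow b (by omega)).trans a2)
        rw [pow_one] at h6
        exact ⟨hq', h6⟩
      · exact fs.trans (mul_le_mul_of_nonneg_left hle (by linarith))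

end ctx

end Crest.Agent.R4P.FarNear7
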