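import Crest.Agent.R4P.FarLeaf_7
import Crest.Agent.R4P.AddPath_7
import Crest.Agent.R4P.FarGap_29

/-!
R4 (S0004), POWERS, module dseR (D3), helper7: **the functions of the near child of a far node** are at
most twice their averages; the shape of the near child.

* `AV_leaf`, `AV_mult`, `AV_plk`;
* `U_plk`, `NDt_plk`, `near_plk` : the near child is `plk b i X`, `X` = leaf, `br b`, `up b`;
* `K_br`, `K_up` : the typical exponent.
-/

set_option autoImplicit false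
set_option linter.unusedSectionVars false
set_option linter.unusedVariables false

open MeasureTheory Filter

namespace Crest.Agent.R4P.FarNear7

open Crest.Agent.R4P.Cnt588 Crest.Agent.R4P.Item758 Crest.Agent.R4P.W363
open Crest.Agent.R4P.Data758 Crest.Agent.R4P.OmSt532 Crest.Agent.R4P.OmData532
open Crest.Agent.R4P.LfDat734 Crest.Agent.R4P.WPex189
open Crest.Agent.R4P.Bld532
open Crest.Agent.R4P.Step588 (NDt ND1 ctx_NDt uq_lt)
open Crest.Agent.R4P.WalkIT579 (tp isL nodeOk_hi top_of_nodeOk)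
open Crest.Agent.R4P.Skel189 Crest.Agent.R4P.RseSt23 Crest.Agent.R4P.RseNd23
open Crest.Agent.R4.Soft104 (w)
open Crest.Agent.R4.Tour104 Crest.Agent.R4.Fam464 Crest.Agent.R4.Tour758
open Crest.Agent.R4.Piece464 Crest.Agent.R4.LF363 Crest.Agent.R4.Om532
open Crest.Agent.R4.Lam368 (mult Dat mult_le_one mult_nonneg Ep_mult)
open Crest.Agent.R4P.AddNode7 (Uw)
open Crest.Agent.R4P.FarLift7
open Crest.Agent.R4

/-! ### pulled trees -/

section gen
variable {Λ κ : Type*} [Fintype Λ] [DecidableEq κ]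

lemma U_plk (D : Item758.Par Λ κ) {b c p : ℕ} {t : IT} : ∀ (i A : ℕ) (j : Λ) (x : ℝ),
    (D.toFT b A (plk p i t)).U c j x = (D.toFT b (A * p ^ i) t).U c j (((p ^ i : ℕ) : ℝ) * x) := by
  intro i
  induction i with
  | zero => intro A j x; simp [plk]
  | succ i ih =>
    intro A j x
    show (D.toFT b (A * p) (plk p i t)).U c j (p * x) = _
    rw [ih (A * p) j]
    have e1 : A * p * p ^ i = A * p ^ (i + 1) := by ring
    have e2 : (((p ^ i : ℕ) : ℝ)) * (p * x) = ((p ^ (i + 1) : ℕ) : ℝ) * x := by push_cast; ring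
    rw [e1, e2]

lemma Fit_plk {b p : ℕ} {t : IT} : ∀ (i A : ℕ), Fit b A (plk p i t) → Fit b (A * p ^ i) t := by
  intro i
  induction i with
  | zero => intro A h; simpa [plk] using h
  | succ i ih =>
    intro A h
    have := ih (A * p) h.2.2
    have e1 : A * p * p ^ i = A * p ^ (i + 1) := by ring
    rwa [e1] at this

lemma Wts_plk {D : Item758.Par Λ κ} {p : ℕ} {t : IT} :
    ∀ (i A : ℕ), D.Wts A (plk p i t) → D.Wts (A * p ^ i) t := by
  intro i
  induction i with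
  | zero => intro A h; simpa [plk] using h
  | succ i ih =>
    intro A h
    have := ih (A * p) h.pl
    have e1 : A * p * p ^ i = A * p ^ (i + 1) := by ring
    rwa [e1] at this

lemma plk_items {p : ℕ} {t : IT} : ∀ i : ℕ, (plk p i t).items = t.items
  | 0 => rfl
  | i + 1 => plk_items i

/-- **present functions are at most twice their averages** -/
lemma AV_mult {p n : ℕ} (hp : 2 ≤ p) {f g G : Λ → ℝ → ℝ} {c : ℕ → Λ → κ} (hd : Dat p f g G) (j : Λ) :
    AV p (fun x => mult p f g G c n j x * f j (p * x)) := by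
  intro z
  have hp0 : (0:ℝ) < p := by exact_mod_cast (by omega : 0 < p)
  have hp2 : (2:ℝ) ≤ p := by exact_mod_cast hp
  have e : Ep p (fun x => mult p f g G c n j x * f j (p * x)) (p * z) =
      (1 - 1 / (p:ℝ)) * f j (p * z) := by
    rw [← Ep_mult (c := c) (n := n) hd j (p * z)]
    unfold Ep
    rw [div_mul_eq_mul_div, Finset.sum_mul]
    congr 1
    refine Finset.sum_congr rfl fun s _ => ?_
    show mult p f g G c n j (((p:ℝ) * z + s) / p) * f j (p * (((p:ℝ) * z + s) / p)) = _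
    rw [pull_fibre hd.hp (hd.hf j).per (p * z) s]
  rw [e]
  have h1 := mult_le_one (c := c) (n := n) hd j z
  have h0 := (hd.hf j).nonneg (p * z)
  have h2 : 1 / (p:ℝ) ≤ 1 / 2 := one_div_le_one_div_of_le (by norm_num) hp2
  have h3 : mult p f g G c n j z * f j (p * z) ≤ 1 * f j (p * z) := mul_le_mul_of_nonneg_right h1 h0
  have h4 : (1:ℝ) / 2 * f j (p * z) ≤ (1 - 1 / (p:ℝ)) * f j (p * z) :=
    mul_le_mul_of_nonneg_right (by linarith) h0
  linarith

end gen

section ctx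
variable {N : Skel189.Num} {γ : ℝ} {p0 P₀ : ℕ} {X : Ctx N γ p0 P₀} {u : NS} {b : ℕ} {t₁ t₀ : IT}

/-- **leaf functions** -/
theorem AV_leaf {S : Finset ℕ} (h : NDt X.par (w X.ψ) X.c.t u (.leaf S)) (hbp : b.Prime)
    (hbn : b < u.n) (Y : Finset (ℕ × ℕ × Finset ℕ)) {j : X.c.Lam} (hj : j.1.1 ∈ S) {k : ℕ}
    (hd : b ^ k ∣ j.1.1 / u.A) : AV (b ^ k) (Uw X Y u (.leaf S) j) := by
  classical
  have hF : Fit u.B u.A (.leaf S) := h.fit
  have hW : (X.c.D.par Y).Wts u.A (.leaf S) := node_wts h Y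
  rcases Nat.eq_zero_or_pos k with rfl | hk
  · rw [pow_zero]
    exact AV_one fun x => (FT.pb h.B_pos ((X.c.D.par Y).toFT_Adm _ _ _ h.B_pos hF hW)
      (one_dvd _) j).nonneg x
  have hw0 : 0 < j.1.1 / u.A := by
    obtain ⟨a1, a2, a3⟩ := hF _ hj
    exact Nat.div_pos (Nat.le_of_dvd a1 a2) (Nat.pos_of_dvd_of_pos a2 a1)
  have e : Uw X Y u (.leaf S) j = pc (((u.B : ℝ) / (1:ℕ)) * X.c.γ)
      (((u.B : ℝ) / (1:ℕ)) * X.c.bp j.1.1 j.1.2)
      (((u.B : ℝ) / (1:ℕ)) * X.c.bp j.1.1 (j.1.2 + 1)) (j.1.1 / u.A)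
      (fun a => X.c.om j.1.1 (X.c.bp j.1.1 j.1.2) ((1:ℕ) * a)) := by
    funext x
    show (X.c.D.par Y).L u.B u.A S 1 j x = _
    unfold Par.L
    have : (X.c.D.par Y).it j ∈ S := hj
    rw [if_pos this]
    rfl
  have hbq : b ∉ X.c.t.uq j.1.1 := by
    intro hc
    have h1 := (h.self.lo j.1.1 hj b hbn).1 hc
    simp [IT.uq] at h1
  have hpp : pp X.c.t j.1.1 = u.A := by
    have h1 := h.self.pp j.1.1 hj
    have e : pp (.leaf S) j.1.1 = 1 := rfl
    rw [h1, e, mul_one]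
  rw [e]
  refine AV_pc (pow_pos hbp.pos k) hd fun a => ?_
  have e2 : ∀ a : ℤ, X.c.om j.1.1 (X.c.bp j.1.1 j.1.2) (((1:ℕ) : ℤ) * a) =
      X.c.om j.1.1 (X.c.bp j.1.1 j.1.2) a := fun a => by rw [Nat.cast_one, one_mul]
  simp only [e2]
  rw [X.om]
  unfold Chi464.omXL Chi464.omX omT
  beta_reduce
  rw [hpp]
  exact omw_avg hbp hk hw0 hd hbq a

/-- facts of a node pass to the pulled tree -/
lemma NDt_pl {p : ℕ} {t : IT} (h : NDt X.par (w X.ψ) X.c.t u (.pl p t)) :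
    NDt X.par (w X.ψ) X.c.t ⟨p + 1, u.c, u.A * p, u.B⟩ t where
  all := h.all.2
  dvd := h.dvd
  pos := h.pos
  rd := h.rd
  rd1 := h.rd1

/-- the column of a node, if `b` is the last prime below the level -/
lemma col_eq {p b n : ℕ} (hb : b.Prime) (hbn : b < n) (hmax : ∀ r : ℕ, r.Prime → r < n → r ≤ b)
    (hp : p.Prime) (hpn : p < n) (hpm : ∀ r : ℕ, r.Prime → r < n → r ≤ p) : p = b :=
  le_antisymm (hmax p hp hpn) (hpm b hb hbn)

lemma max_succ (b : ℕ) : ∀ r : ℕ, r.Prime → r < b + 1 → r ≤ b := fun r _ h => by omega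

/-- the base of the near child -/
inductive NB (b : ℕ) : IT → Prop
  | leaf (S : Finset ℕ) : NB b (.leaf S)
  | br (Sp : Finset ℕ) (t₁ t₀ : IT) : NB b (.br b Sp t₁ t₀)
  | up (Sp : Finset ℕ) (t : IT) : NB b (.up b Sp t)

/-- **the shape of the near child** -/
theorem near_plk (hb : b.Prime) : ∀ (t : IT) (u : NS), CrossSum29.NearI t → u.n = b + 1 →
    NDt X.par (w X.ψ) X.c.t u t → ∃ (i : ℕ) (t' : IT), t = plk b i t' ∧ NB b t' ∧
      NDt X.par (w X.ψ) X.c.t ⟨b + 1, u.c, u.A * b ^ i, u.B⟩ t' := by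
  intro t
  induction t with
  | leaf S =>
    intro u _ hn h
    refine ⟨0, .leaf S, rfl, .leaf S, ?_⟩
    rw [pow_zero, mul_one, ← hn]
    exact h
  | br p Sp t₁ t₀ ih₁ ih₀ =>
    intro u _ hn h
    have hO := h.self.node
    have e : p = b := col_eq (n := u.n) hb (by omega) (by rw [hn]; exact max_succ b) hO.1 hO.2.1
      hO.2.2.2.1
    subst e
    refine ⟨0, .br p Sp t₁ t₀, rfl, .br Sp t₁ t₀, ?_⟩
    rw [pow_zero, mul_one, ← hn]
    exact h
  | add p t₁ t₀ ih₁ ih₀ => intro u hI; exact absurd hI (fun h => h)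
  | up p Sp t ih =>
    intro u _ hn h
    have hO := h.self.node
    have e : p = b := col_eq (n := u.n) hb (by omega) (by rw [hn]; exact max_succ b) hO.1 hO.2.1
      hO.2.2.2.1
    subst e
    refine ⟨0, .up p Sp t, rfl, .up Sp t, ?_⟩
    rw [pow_zero, mul_one, ← hn]
    exact h
  | pl p t ih =>
    intro u hI hn h
    have hO := h.self.node
    have e : p = b := col_eq (n := u.n) hb (by omega) (by rw [hn]; exact max_succ b) hO.1 hO.2.1
      hO.2.2.2.1
    subst e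
    obtain ⟨i, t', e1, e2, e3⟩ := ih ⟨p + 1, u.c, u.A * p, u.B⟩ hI rfl (NDt_pl h)
    refine ⟨i + 1, t', ?_, e2, ?_⟩
    · show IT.pl p t = IT.pl p (plk p i t')
      rw [← e1]
    · have e : u.A * p ^ (i + 1) = u.A * p * p ^ i := by ring
      rw [e]
      exact e3
  | far p t₁ t₀ ih₁ ih₀ => intro u hI; exact absurd hI (fun h => h)

/-- the items below `i` pulls are divisible by `b^i` -/
lemma dvd_of_plk {i : ℕ} {t : IT} {S : Finset ℕ} {s : NS}
    (h : NDt X.par (w X.ψ) X.c.t ⟨b + 1, s.c, s.A * b ^ i, s.B⟩ t) {q : ℕ} (hq : q ∈ t.items)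
    (hA : s.A ∣ q) (hA0 : 0 < s.A) : b ^ i ∣ q / s.A ∧ q / (s.A * b ^ i) = q / s.A / b ^ i := by
  have h1 := h.bk.dvd q hq
  have h2 : s.A * b ^ i ∣ q := h1
  obtain ⟨m, rfl⟩ := h2
  refine ⟨?_, (Nat.div_div_eq_div_mul _ _ _).symm⟩
  rw [mul_assoc, Nat.mul_div_cancel_left _ hA0]
  exact dvd_mul_right _ _

/-- **functions of a pulled tree** -/
lemma AV_plk {i k : ℕ} {t : IT} (hb : 0 < b) {j : X.c.Lam} (Y : Finset (ℕ × ℕ × Finset ℕ))
    (h : NDt X.par (w X.ψ) X.c.t ⟨b + 1, u.c, u.A * b ^ i, u.B⟩ t)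
    (hav : AV (b ^ k) (Uw X Y ⟨b + 1, u.c, u.A * b ^ i, u.B⟩ t j)) :
    AV (b ^ (k + i)) (Uw X Y u (plk b i t) j) := by
  have pg : PB (Uw X Y ⟨b + 1, u.c, u.A * b ^ i, u.B⟩ t j) :=
    FT.pb h.B_pos ((X.c.D.par Y).toFT_Adm _ _ _ h.B_pos h.fit (node_wts h Y)) (one_dvd _) j
  have e : Uw X Y u (plk b i t) j =
      fun x => Uw X Y ⟨b + 1, u.c, u.A * b ^ i, u.B⟩ t j (((b ^ i : ℕ) : ℝ) * x) := by
    funext x
    exact U_plk (X.c.D.par Y) i u.A j x
  rw [e, pow_add]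
  exact AV_pull pg (pow_pos hb k) (pow_pos hb i) hav

end ctx

end Crest.Agent.R4P.FarNear7
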