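import Crest.Agent.R4P.AddUU2_7

/-!
R4 (S0004), POWERS, module dseR (D3), helper7: **unlabelled pairs across a far node**: the version of
`AddUU7.uu_cross` for items whose exponents differ by at least `m + 1`.
-/

set_option autoImplicit false
set_option linter.unusedVariables false
open Finset

namespace Crest.Agent.R4P.AddUU7

open Crest.Agent.R4.HVW560 Crest.Agent.R4.HVWX793
open Crest.Agent.R4.ClsS (eps1)
open Crest.Agent.R4.LF363 (Lab)
open Crest.Agent.R4.InX944 (DP DP_pos)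
open Crest.Agent.R4.ClsB (Tame)
open Crest.Agent.R4

/-- geometric sum of the powers `b ^ (i + m - j)`, `j < i` -/
lemma geo_zm {b : ℕ} {s : ℝ} (hb : 2 ≤ b) (hs : (b:ℝ) ^ (-s) ≤ 1/2) (i m : ℕ) :
    ∑ j ∈ Finset.range i, (((b ^ (i + m - j) : ℕ) : ℝ)) ^ (-s) ≤ 2 * ((b:ℝ) ^ (-s)) ^ (m + 1) := by
  have hb0 : (0:ℝ) < b := by exact_mod_cast (by omega : 0 < b)
  have hx : 0 < (b:ℝ) ^ (-s) := Real.rpow_pos_of_pos hb0 _
  have e : ∀ m : ℕ, (((b ^ m : ℕ) : ℝ)) ^ (-s) = ((b:ℝ) ^ (-s)) ^ m := fun m => by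
    push_cast
    rw [← Real.rpow_natCast, ← Real.rpow_mul hb0.le, ← Real.rpow_natCast, ← Real.rpow_mul hb0.le]
    congr 1; ring
  have h1 : ∑ j ∈ Finset.range i, (((b ^ (i + m - j) : ℕ) : ℝ)) ^ (-s) =
      ((b:ℝ) ^ (-s)) ^ m * ∑ j ∈ Finset.range i, (((b ^ (i - j) : ℕ) : ℝ)) ^ (-s) := by
    rw [Finset.mul_sum]
    refine Finset.sum_congr rfl fun j hj => ?_
    have hj' := Finset.mem_range.1 hj
    rw [e, e, ← pow_add]
    congr 1; omega
  rw [h1, pow_succ]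
  have h2 := mul_le_mul_of_nonneg_left (geo_z hb hs i) (pow_pos hx m).le
  linarith

set_option maxHeartbeats 800000 in
/-- **all the classes of pairs across an add node**, `D ≤ 2^N` -/
theorem core_allM : ∃ C c0 : ℝ, 1 ≤ C ∧ 0 < c0 ∧ ∀ c1 : ℝ, 0 < c1 → c1 ≤ c0 → ∃ T0 : ℝ, 1 ≤ T0 ∧
    ∀ (X K L θ : ℝ) (n N b i m : ℕ) (V W : Finset ℕ) (E : Finset (ℕ × ℕ)) (R : ℕ → ℝ)
      (F : ℕ × ℕ → ℝ),
    400 ≤ n → b.Prime → 16 ≤ b → T0 ≤ (2:ℝ)^n → X ≤ Real.exp (((2:ℝ)^n)^c1) → 0 ≤ K → 0 ≤ L →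
    (∀ w ∈ V ∪ W, 0 < w ∧ 0 < R w) → (∀ w ∈ V ∪ W, R w ≤ L * wt R w) →
    (∀ Z : ℝ, X ≤ Z → ∀ w ∈ V ∪ W, Tame Z 1 w) →
    (∀ v ∈ V, b ^ (i + m) ∣ v) → (∀ w ∈ W, ¬ b ^ i ∣ w) →
    E ⊆ V ×ˢ W → (∀ e ∈ E, DP R R e ≤ 2^N) →
    (∀ e ∈ E, F e ≤ K * ((R e.1 * R e.2) / DP R R e)) →
    (∀ e ∈ E, 0 < F e → ∃ m m' : ℤ,
      |(m + θ) * (cof e.2 e.1 : ℕ) - (m' + θ) * (cof e.1 e.2 : ℕ)| ≤ 2 * DP R R e) →
    (∀ q ∈ V, R q ≤ 1/2^n → ∀ ρ, ¬ Lab θ (R q) ρ) →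
    ∑ e ∈ E, F e ≤ 2 * (K * L^2 * (((n:ℝ) + N) * (C * (2:ℝ)^(2*eps1*n)) + C)) *
      (((b:ℝ)^(-(1/2-eps1)))^(m+1) * ((∑ q ∈ V, wt R q) * (∑ r ∈ W, wt R r))^(1/2+eps1)) +
      2 * K * (L / (b:ℝ)^(m+1)) * ∑ q ∈ V, wt R q := by
  classical
  obtain ⟨C, c0, hC1, hc0, hC⟩ := core_z
  have he1 : eps1 = 1/1000 := rfl
  refine ⟨C, c0, hC1, hc0, fun c1 hc1 hc10 => ?_⟩
  obtain ⟨T0, hT01, hT0⟩ := hC c1 hc1 hc10
  refine ⟨T0, hT01, ?_⟩
  intro X K L θ n N b i m V W E R F hn hb hb16 hTn hX hK hL hVW hLVW ht hVb hWb hE hDN hF hrel hU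
  have hb0 : (0:ℝ) < b := by exact_mod_cast hb.pos
  have hb1 : (1:ℝ) ≤ b := by exact_mod_cast hb.one_le
  have hb16' : (16:ℝ) ≤ b := by exact_mod_cast hb16
  have hmu : ∀ q ∈ V ∪ W, 0 ≤ wt R q := fun q hq => by
    unfold wt; exact mul_nonneg (hVW q hq).2.le (by positivity)
  set MV := ∑ q ∈ V, wt R q with hMV
  set MW := ∑ q ∈ W, wt R q with hMW
  have hMV0 : 0 ≤ MV := Finset.sum_nonneg fun q hq => hmu q (Finset.mem_union_left _ hq)
  have hMW0 : 0 ≤ MW := Finset.sum_nonneg fun q hq => hmu q (Finset.mem_union_right _ hq)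
  set Wj : ℕ → Finset ℕ := fun j => W.filter fun w => w.factorization b = j with hWj
  set Ej : ℕ → Finset (ℕ × ℕ) := fun j => E.filter fun e => e.2.factorization b = j with hEj
  have hWpos : ∀ w ∈ W, 0 < w := fun w hw => (hVW w (Finset.mem_union_right _ hw)).1
  set k := i + m with hk
  have hlt : ∀ w ∈ W, w.factorization b < i := by
    intro w hw
    by_contra hc
    push Not at hc
    exact hWb w hw ((hb.pow_dvd_iff_le_factorization (hWpos w hw).ne').2 hc)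
  have hsplit : ∑ e ∈ E, F e = ∑ j ∈ Finset.range i, ∑ e ∈ Ej j, F e := by
    rw [hEj]
    refine (Finset.sum_fiberwise_of_maps_to (fun e he => ?_) F).symm
    exact Finset.mem_range.2 (hlt _ (Finset.mem_product.1 (hE he)).2)
  have hone : ∀ j ∈ Finset.range i, ∑ e ∈ Ej j, F e ≤
      K * L^2 * (((n:ℝ) + N) * (C * (2:ℝ)^(2*eps1*n)) + C) *
        ((((b ^ (k - j) : ℕ) : ℝ))^(-(1/2-eps1)) * (MV * MW)^(1/2+eps1)) +
      K * L * MV * (((b ^ (k - j) : ℕ) : ℝ))^(-(1:ℝ)) := by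
    intro j hj
    have hji := Finset.mem_range.1 hj
    have hjk : j < k := by omega
    have hsubW : Wj j ⊆ W := Finset.filter_subset _ _
    have hWd : ∀ w ∈ Wj j, b ^ j ∣ w ∧ ¬ b ^ (j + 1) ∣ w := by
      intro w hw
      obtain ⟨h1, h2⟩ := Finset.mem_filter.1 hw
      have hw0 := (hWpos w h1).ne'
      constructor
      · exact (hb.pow_dvd_iff_le_factorization hw0).2 h2.ge
      · intro h3
        have := (hb.pow_dvd_iff_le_factorization hw0).1 h3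
        omega
    have hEsub : Ej j ⊆ V ×ˢ Wj j := by
      intro e he
      obtain ⟨h1, h2⟩ := Finset.mem_filter.1 he
      have h := Finset.mem_product.1 (hE h1)
      exact Finset.mem_product.2 ⟨h.1, Finset.mem_filter.2 ⟨h.2, h2⟩⟩
    have hEE : ∀ e ∈ Ej j, e ∈ E := fun e he => (Finset.mem_filter.1 he).1
    have hkj : 0 < k - j := by omega
    have key := hT0 X K L θ n N (b ^ k) (b ^ (k - j)) V (Wj j) (Ej j) R F hn
      (Nat.pow_pos hb.pos) hTn hX (Nat.pow_pos hb.pos) hK hL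
      (fun w hw => hVW w (Finset.mem_union_left _ hw))
      (fun w hw => hVW w (Finset.mem_union_right _ (hsubW hw)))
      (fun w hw => hLVW w (Finset.mem_union_left _ hw))
      (fun w hw => hLVW w (Finset.mem_union_right _ (hsubW hw)))
      (fun Z hZ w hw => tame_div (ht Z hZ w (Finset.mem_union_left _ hw)) (hVb w hw)
        (hVW w (Finset.mem_union_left _ hw)).1)
      (fun Z hZ w hw => tame_z hb hjk (hWd w hw).1 (hWpos w (hsubW hw))
        (ht Z hZ w (Finset.mem_union_right _ (hsubW hw))))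
      (fun w hw => tot_two hb hkj (hWpos w (hsubW hw)))
      hEsub
      ⟨fun e he => by
        have h := Finset.mem_product.1 (hEsub he)
        exact (tr_pow hb hjk (hVb _ h.1) (hWd _ h.2).1 (hWd _ h.2).2
          (hVW _ (Finset.mem_union_left _ h.1)).1).1,
       fun e he => by
        have h := Finset.mem_product.1 (hEsub he)
        exact (tr_pow hb hjk (hVb _ h.1) (hWd _ h.2).1 (hWd _ h.2).2
          (hVW _ (Finset.mem_union_left _ h.1)).1).2⟩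
      (fun e he => hDN e (hEE e he)) (fun e he => hF e (hEE e he))
      (fun e he => hrel e (hEE e he)) hU
    refine key.trans (add_le_add ?_ ?_)
    · have hc : 0 ≤ K * L^2 * (((n:ℝ) + N) * (C * (2:ℝ)^(2*eps1*n)) + C) := by positivity
      refine mul_le_mul_of_nonneg_left (mul_le_mul_of_nonneg_left ?_ (by positivity)) hc
      refine Real.rpow_le_rpow (mul_nonneg hMV0 (Finset.sum_nonneg fun q hq =>
        hmu q (Finset.mem_union_right _ (hsubW hq)))) ?_ (by rw [he1]; norm_num)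
      refine mul_le_mul_of_nonneg_left ?_ hMV0
      exact Finset.sum_le_sum_of_subset_of_nonneg hsubW fun q hq _ =>
        hmu q (Finset.mem_union_right _ hq)
    · rw [Real.rpow_neg_one]
      refine le_of_eq ?_
      rw [div_eq_mul_inv]
      ring
  rw [hsplit]
  refine (Finset.sum_le_sum hone).trans ?_
  rw [Finset.sum_add_distrib, ← Finset.mul_sum, ← Finset.mul_sum, ← Finset.sum_mul]
  have hg1 := geo_zm (b := b) (s := 1/2-eps1) hb.two_le (by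
    have h1 : (b:ℝ)^(-(1/2-eps1)) ≤ (16:ℝ)^(-(1/2-eps1)) :=
      Real.rpow_le_rpow_of_nonpos (by norm_num) hb16' (by rw [he1]; norm_num)
    refine h1.trans ?_
    have h2 : (16:ℝ)^(-(1/2-eps1)) ≤ (16:ℝ)^(-(1/4):ℝ) :=
      Real.rpow_le_rpow_of_exponent_le (by norm_num) (by rw [he1]; norm_num)
    refine h2.trans (le_of_eq ?_)
    rw [show (16:ℝ) = 2 ^ (4:ℝ) by norm_num, ← Real.rpow_mul (by norm_num)]
    norm_num) i m
  have hg2 := geo_zm (b := b) (s := 1) hb.two_le (by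
    rw [Real.rpow_neg_one]
    rw [inv_le_comm₀ hb0 (by norm_num)]
    norm_num
    linarith) i m
  have hc : 0 ≤ K * L^2 * (((n:ℝ) + N) * (C * (2:ℝ)^(2*eps1*n)) + C) := by positivity
  have hY : 0 ≤ (MV * MW)^(1/2+eps1) := by positivity
  have hKL : 0 ≤ K * L * MV := by positivity
  refine add_le_add ?_ ?_
  · calc K * L^2 * (((n:ℝ) + N) * (C * (2:ℝ)^(2*eps1*n)) + C) *
          ((∑ j ∈ Finset.range i, (((b ^ (k - j) : ℕ) : ℝ))^(-(1/2-eps1))) * (MV * MW)^(1/2+eps1))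
        ≤ K * L^2 * (((n:ℝ) + N) * (C * (2:ℝ)^(2*eps1*n)) + C) *
          ((2 * ((b:ℝ)^(-(1/2-eps1)))^(m+1)) * (MV * MW)^(1/2+eps1)) :=
          mul_le_mul_of_nonneg_left (mul_le_mul_of_nonneg_right hg1 hY) hc
      _ = _ := by ring
  · calc K * L * MV * ∑ j ∈ Finset.range i, (((b ^ (k - j) : ℕ) : ℝ))^(-(1:ℝ))
        ≤ K * L * MV * (2 * ((b:ℝ)^(-(1:ℝ)))^(m+1)) := mul_le_mul_of_nonneg_left hg2 hKL
      _ = _ := by rw [Real.rpow_neg_one, inv_pow, div_eq_mul_inv]; ring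


set_option maxHeartbeats 800000 in
/-- **unlabelled pairs across an add node**: `V` = items divisible by `b^k`, `W` = items not divisible
by `b^k`; the items of `V` of radius `≤ (log b)^(-Ct)` have no label. -/
theorem uu_crossM : ∃ κ₀ : ℝ, 0 ≤ κ₀ ∧ ∀ (Cl Ct A : ℝ), 0 ≤ Cl → 0 ≤ Ct → 0 ≤ A →
    ∃ b₁ : ℕ, ∀ b : ℕ, b₁ ≤ b → b.Prime →
    ∀ (η θ : ℝ) (i m : ℕ) (V W : Finset ℕ) (E : Finset (ℕ × ℕ)) (R : ℕ → ℝ) (F : ℕ × ℕ → ℝ),
    0 < η → η ≤ Real.exp (-(Real.log b ^ (4/5:ℝ))) →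
    (∀ w ∈ V ∪ W, 0 < w ∧ 0 < R w) → (∀ w ∈ V ∪ W, R w ≤ Cl * Real.log b * wt R w) →
    (∀ Z : ℝ, (b:ℝ)^2 ≤ Z → ∀ w ∈ V ∪ W, Tame Z 1 w) →
    (∀ v ∈ V, b ^ (i + m) ∣ v) → (∀ w ∈ W, ¬ b ^ i ∣ w) → E ⊆ V ×ˢ W →
    (∀ e ∈ E, F e ≤ 2 * ((R e.1 * R e.2) / DP R R e) * (2 * (η * DP R R e) + 1)) →
    (∀ e ∈ E, 0 < F e → ∃ m m' : ℤ,
      |(m + θ) * (cof e.2 e.1 : ℕ) - (m' + θ) * (cof e.1 e.2 : ℕ)| ≤ η * DP R R e) →
    (∀ q ∈ V, R q ≤ Real.log b ^ (-Ct) → ∀ ρ, ¬ Lab θ (R q) ρ) →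
    ∑ e ∈ E, F e ≤ Real.log b ^ (-A) * ((∑ q ∈ V, wt R q) * ∑ r ∈ W, wt R r) +
      Real.log b ^ (κ₀ + (Ct + A) / 500) * (((b:ℝ)^(-(1/2-eps1)))^(m+1) *
        ((∑ q ∈ V, wt R q) * (∑ r ∈ W, wt R r))^(1/2+eps1)) +
      Real.log b ^ (κ₀ + (Ct + A) / 500) / (b:ℝ)^(m+1) * ∑ q ∈ V, wt R q := by
  classical
  obtain ⟨C, c0, hC1, hc0, hC⟩ := core_allM
  obtain ⟨T0, hT01, hT0⟩ := hC c0 hc0 le_rfl
  have he1 : eps1 = 1/1000 := rfl
  refine ⟨4 + (3 + 2 / c0) / 500, by positivity, ?_⟩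
  intro Cl Ct A hCl hCt hA
  set A1 := Ct + A + 3 + 2 / c0 with hA1
  have hA1p : 0 < A1 := by positivity
  have hev := (ev_exp A1).and ((Filter.eventually_ge_atTop (2:ℝ)).and
    ((Filter.eventually_ge_atTop (12 * Cl^2 * (5 * C) + 12 * Cl + 6 * Cl^2 + 1)).and
    (((tendsto_rpow_atTop hA1p).eventually_ge_atTop (max T0 ((2:ℝ)^401))).and
    (AddLL7.ev_lit (a := 1) (c := Real.log 2 / (2 * A1)) one_pos
      (div_pos (Real.log_pos (by norm_num)) (by positivity)) 1))))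
  obtain ⟨x₀, hx₀⟩ := Filter.eventually_atTop.1 hev
  refine ⟨⌈Real.exp x₀⌉₊ + 16, fun b hb hbp => ?_⟩
  intro η θ i m V W E R F hη hη1 hVW hLVW ht hVb hWb hE hF hrel hU
  have hb16 : 16 ≤ b := by omega
  have hb0 : (0:ℝ) < b := by exact_mod_cast (by omega : 0 < b)
  have hbx : Real.exp x₀ ≤ b := (Nat.le_ceil _).trans (by exact_mod_cast (by omega : ⌈Real.exp x₀⌉₊ ≤ b))
  set ℓ := Real.log (b:ℝ) with hℓ
  have hxl : x₀ ≤ ℓ := by rw [hℓ]; exact (Real.le_log_iff_exp_le hb0).2 hbx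
  obtain ⟨m1, m2, m3, m4, m5⟩ := hx₀ ℓ hxl
  rw [Real.rpow_one, Real.rpow_one] at m5
  have hℓ0 : 0 < ℓ := by linarith
  have hℓ1 : 1 ≤ ℓ := by linarith
  have hC0 : 0 ≤ C := by linarith
  have q1 : 0 ≤ 12 * Cl^2 * (5 * C) := by positivity
  have q2 : 0 ≤ 12 * Cl := by positivity
  have q3 : 0 ≤ 6 * Cl^2 := by positivity
  obtain ⟨n, n1, n2, n3⟩ := scale hℓ1 hA1p.le
  have h2n : (0:ℝ) < (2:ℝ)^n := by positivity
  have hP0 : 0 < ℓ ^ A1 := Real.rpow_pos_of_pos hℓ0 _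
  have hP1 : 1 ≤ ℓ ^ A1 := Real.one_le_rpow hℓ1 hA1p.le
  have hn400 : 400 ≤ n := by
    by_contra hc
    push Not at hc
    have h1 : (2:ℝ)^n ≤ 2^400 := pow_le_pow_right₀ (by norm_num) hc.le
    have h2 : (2:ℝ)^401 ≤ 2^n := ((le_max_right _ _).trans m4).trans n1
    have h3 : (2:ℝ)^400 < 2^401 := pow_lt_pow_right₀ (by norm_num) (by norm_num)
    exact absurd (h2.trans h1) (not_le.2 h3)
  have hTn : T0 ≤ (2:ℝ)^n := ((le_max_left _ _).trans m4).trans n1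
  have hX : (b:ℝ)^2 ≤ Real.exp (((2:ℝ)^n)^c0) := by
    have h1 : (b:ℝ)^2 = Real.exp (2 * ℓ) := by
      rw [mul_comm, Real.exp_mul, hℓ, Real.exp_log hb0]
      norm_num
    rw [h1]
    refine Real.exp_le_exp.2 ?_
    have h2 : ℓ ^ (2:ℝ) ≤ ((2:ℝ)^n)^c0 := by
      calc ℓ ^ (2:ℝ) ≤ ℓ ^ (A1 * c0) := by
            refine Real.rpow_le_rpow_of_exponent_le hℓ1 ?_
            have : 2 / c0 * c0 = 2 := by field_simp
            have h3 : 2 / c0 * c0 ≤ A1 * c0 := mul_le_mul_of_nonneg_right (by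
              rw [hA1]; linarith) hc0.le
            linarith
        _ = (ℓ ^ A1) ^ c0 := by rw [← Real.rpow_mul hℓ0.le]
        _ ≤ _ := Real.rpow_le_rpow hP0.le n1 hc0.le
    have h4 : ℓ ^ (2:ℝ) = ℓ * ℓ := by
      rw [show (2:ℝ) = ((2:ℕ):ℝ) by norm_num, Real.rpow_natCast]; ring
    calc 2 * ℓ ≤ ℓ * ℓ := mul_le_mul_of_nonneg_right m2 hℓ0.le
      _ = ℓ ^ (2:ℝ) := h4.symm
      _ ≤ _ := h2
  have hinv : 1 / (2:ℝ)^n ≤ ℓ ^ (-A1) := by
    rw [Real.rpow_neg hℓ0.le, ← one_div]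
    exact one_div_le_one_div_of_le hP0 n1
  have hηn : η * (2:ℝ)^n ≤ 1 := by
    calc η * (2:ℝ)^n ≤ Real.exp (-(ℓ ^ (4/5:ℝ))) * Real.exp (ℓ ^ (4/5:ℝ)) :=
          mul_le_mul hη1 (n2.trans m1) h2n.le (Real.exp_pos _).le
      _ = 1 := by rw [← Real.exp_add]; simp
  have hη2 : η ≤ 1 / (2:ℝ)^n := by rw [le_div_iff₀ h2n]; exact hηn
  have hη11 : η ≤ 1 := by
    refine hη1.trans ?_
    rw [Real.exp_le_one_iff]
    have := Real.rpow_nonneg hℓ0.le (4/5:ℝ)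
    linarith
  have hmu : ∀ q ∈ V ∪ W, 0 ≤ wt R q := fun q hq => by
    unfold wt; exact mul_nonneg (hVW q hq).2.le (by positivity)
  set MV := ∑ q ∈ V, wt R q with hMV
  set MW := ∑ q ∈ W, wt R q with hMW
  have hMV0 : 0 ≤ MV := Finset.sum_nonneg fun q hq => hmu q (Finset.mem_union_left _ hq)
  have hMW0 : 0 ≤ MW := Finset.sum_nonneg fun q hq => hmu q (Finset.mem_union_right _ hq)
  have hDpos : ∀ e ∈ E, 0 < DP R R e := by
    intro e he
    have h := Finset.mem_product.1 (hE he)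
    exact DP_pos (hVW _ (Finset.mem_union_right _ h.2)).1 (hVW _ (Finset.mem_union_left _ h.1)).2
  set L := Cl * ℓ with hL
  have hL0 : 0 ≤ L := by positivity
  -- the split
  set E1 := E.filter fun e => DP R R e ≤ (2:ℝ)^n with hE1
  set E2 := E.filter fun e => ¬ DP R R e ≤ (2:ℝ)^n with hE2
  have hsplit : ∑ e ∈ E, F e = ∑ e ∈ E1, F e + ∑ e ∈ E2, F e :=
    (Finset.sum_filter_add_sum_filter_not _ _ _).symm
  have hE1E : E1 ⊆ E := Finset.filter_subset _ _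
  have key := hT0 ((b:ℝ)^2) 6 L θ n n b i m V W E1 R F hn400 hbp hb16 hTn hX (by norm_num) hL0 hVW
    hLVW ht hVb hWb (hE1E.trans hE) (fun e he => (Finset.mem_filter.1 he).2)
    (fun e he => by
      have heE := hE1E he
      have hD := hDpos e heE
      have hDn := (Finset.mem_filter.1 he).2
      have h := Finset.mem_product.1 (hE heE)
      have hR := (hVW _ (Finset.mem_union_left _ h.1)).2
      have hR' := (hVW _ (Finset.mem_union_right _ h.2)).2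
      have h1 : η * DP R R e ≤ 1 := (mul_le_mul_of_nonneg_left hDn hη.le).trans hηn
      have h2 : 0 ≤ (R e.1 * R e.2) / DP R R e := by positivity
      calc F e ≤ 2 * ((R e.1 * R e.2) / DP R R e) * (2 * (η * DP R R e) + 1) := hF e heE
        _ ≤ 2 * ((R e.1 * R e.2) / DP R R e) * 3 :=
            mul_le_mul_of_nonneg_left (by linarith) (by positivity)
        _ = _ := by ring)
    (fun e he hFe => by
      have heE := hE1E he
      obtain ⟨m, m', hm⟩ := hrel e heE hFe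
      refine ⟨m, m', hm.trans ?_⟩
      have hD := hDpos e heE
      exact mul_le_mul_of_nonneg_right (by linarith) hD.le)
    (fun q hq hRq ρ => hU q hq (hRq.trans (hinv.trans (Real.rpow_le_rpow_of_exponent_le hℓ1 (by
      rw [hA1]
      have : 0 ≤ 2 / c0 := by positivity
      linarith)))) ρ)
  -- far pairs
  have hfar : ∑ e ∈ E2, F e ≤ ℓ ^ (-A) * (MV * MW) := by
    have h1 : ∀ e ∈ E2, F e ≤ 6 * (1 / (2:ℝ)^n) * L^2 * (wt R e.1 * wt R e.2) := by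
      intro e he
      obtain ⟨heE, hDn⟩ := Finset.mem_filter.1 he
      push Not at hDn
      have hD := hDpos e heE
      have h := Finset.mem_product.1 (hE heE)
      have hR := (hVW _ (Finset.mem_union_left _ h.1)).2
      have hR' := (hVW _ (Finset.mem_union_right _ h.2)).2
      have l1 := hLVW _ (Finset.mem_union_left _ h.1)
      have l2 := hLVW _ (Finset.mem_union_right _ h.2)
      have h5 : 0 ≤ L * wt R e.1 := hR.le.trans l1
      have h6 : 1 / DP R R e ≤ 1 / (2:ℝ)^n := one_div_le_one_div_of_le h2n hDn.le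
      have h7 : R e.1 * R e.2 ≤ L^2 * (wt R e.1 * wt R e.2) := by
        calc R e.1 * R e.2 ≤ (L * wt R e.1) * (L * wt R e.2) := mul_le_mul l1 l2 hR'.le h5
          _ = _ := by ring
      have h8 : 0 ≤ R e.1 * R e.2 := by positivity
      calc F e ≤ 2 * ((R e.1 * R e.2) / DP R R e) * (2 * (η * DP R R e) + 1) := hF e heE
        _ = (R e.1 * R e.2) * (4 * η + 2 * (1 / DP R R e)) := by field_simp; ring
        _ ≤ (R e.1 * R e.2) * (4 * (1 / (2:ℝ)^n) + 2 * (1 / (2:ℝ)^n)) :=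
            mul_le_mul_of_nonneg_left (by linarith) h8
        _ = (R e.1 * R e.2) * (6 * (1 / (2:ℝ)^n)) := by ring
        _ ≤ (L^2 * (wt R e.1 * wt R e.2)) * (6 * (1 / (2:ℝ)^n)) :=
            mul_le_mul_of_nonneg_right h7 (by positivity)
        _ = _ := by ring
    have h2 : ∑ e ∈ E2, F e ≤ 6 * (1 / (2:ℝ)^n) * L^2 * (MV * MW) := by
      calc ∑ e ∈ E2, F e ≤ ∑ e ∈ E2, 6 * (1 / (2:ℝ)^n) * L^2 * (wt R e.1 * wt R e.2) :=
            Finset.sum_le_sum h1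
        _ ≤ ∑ e ∈ V ×ˢ W, 6 * (1 / (2:ℝ)^n) * L^2 * (wt R e.1 * wt R e.2) := by
            refine Finset.sum_le_sum_of_subset_of_nonneg
              ((Finset.filter_subset _ _).trans hE) fun e he _ => ?_
            have h := Finset.mem_product.1 he
            have a1 := hmu _ (Finset.mem_union_left W h.1)
            have a2 := hmu _ (Finset.mem_union_right V h.2)
            positivity
        _ = _ := by rw [← Finset.mul_sum, Finset.sum_product, Finset.sum_mul_sum]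
    refine h2.trans (mul_le_mul_of_nonneg_right ?_ (mul_nonneg hMV0 hMW0))
    -- `6 L² / 2^n ≤ ℓ^(-A)`
    have h3 : ℓ ^ (-A1) ≤ ℓ ^ (-A) * ℓ ^ (-(3:ℝ)) := by
      rw [← Real.rpow_add hℓ0]
      refine Real.rpow_le_rpow_of_exponent_le hℓ1 ?_
      rw [hA1]
      have : 0 ≤ 2 / c0 := by positivity
      linarith
    have h4 : ℓ ^ (-(3:ℝ)) = (ℓ^3)⁻¹ := by
      rw [Real.rpow_neg hℓ0.le]; congr 1; exact_mod_cast Real.rpow_natCast ℓ 3
    have h5 : 0 ≤ ℓ ^ (-A) := Real.rpow_nonneg hℓ0.le _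
    have h6 : 6 * Cl^2 ≤ ℓ := by linarith
    calc 6 * (1 / (2:ℝ)^n) * L^2 ≤ 6 * (ℓ ^ (-A) * (ℓ^3)⁻¹) * L^2 := by
          apply mul_le_mul_of_nonneg_right _ (sq_nonneg _)
          rw [← h4]
          linarith [hinv.trans h3]
      _ = ℓ ^ (-A) * ((6 * Cl^2) / ℓ) := by
          rw [hL]; field_simp
      _ ≤ ℓ ^ (-A) * 1 := by
          apply mul_le_mul_of_nonneg_left _ h5
          rw [div_le_one hℓ0]; exact h6
      _ = _ := mul_one _
  -- near pairs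
  have hYY : 0 ≤ ((b:ℝ)^(-(1/2-eps1)))^(m+1) * (MV * MW)^(1/2+eps1) := by positivity
  set Ce := 4 + (3 + 2 / c0) / 500 + (Ct + A) / 500 with hCe
  have hCe' : Ce = 2 * eps1 * A1 + 4 := by rw [hCe, hA1, he1]; ring
  have hP2 : 1 ≤ ℓ ^ (2 * eps1 * A1) := Real.one_le_rpow hℓ1 (by rw [he1]; positivity)
  have hC3 : ℓ ^ Ce = ℓ ^ (2 * eps1 * A1) * ℓ^4 := by
    rw [hCe', Real.rpow_add hℓ0]
    congr 1
    exact_mod_cast Real.rpow_natCast ℓ 4
  have hnℓ : (n:ℝ) ≤ ℓ := by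
    have hl2 : 0 < Real.log 2 := Real.log_pos (by norm_num)
    have h1 : A1 * Real.log ℓ / Real.log 2 ≤ ℓ / 2 := by
      rw [div_le_iff₀ hl2]
      calc A1 * Real.log ℓ ≤ A1 * (Real.log 2 / (2 * A1) * ℓ) :=
            mul_le_mul_of_nonneg_left m5 hA1p.le
        _ = _ := by field_simp
    linarith
  have hc1 : 2 * (6 * L^2 * (((n:ℝ) + n) * (C * (2:ℝ)^(2*eps1*n)) + C)) ≤ ℓ ^ Ce := by
    have h3 : (2:ℝ)^(2*eps1*n) ≤ 2 * ℓ ^ (2 * eps1 * A1) := by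
      have h1 : (2:ℝ)^(2*eps1*n) = ((2:ℝ)^n)^(2*eps1) := by
        rw [← Real.rpow_natCast, ← Real.rpow_mul (by norm_num)]
        congr 1; ring
      rw [h1]
      calc ((2:ℝ)^n)^(2*eps1) ≤ (2 * ℓ ^ A1)^(2*eps1) :=
            Real.rpow_le_rpow h2n.le n2 (by rw [he1]; norm_num)
        _ = 2^(2*eps1) * ℓ ^ (2 * eps1 * A1) := by
            rw [Real.mul_rpow (by norm_num) hP0.le, ← Real.rpow_mul hℓ0.le]
            congr 2; ring
        _ ≤ 2 * ℓ ^ (2 * eps1 * A1) := by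
            refine mul_le_mul_of_nonneg_right ?_ (by positivity)
            calc (2:ℝ)^(2*eps1) ≤ 2^(1:ℝ) :=
                  Real.rpow_le_rpow_of_exponent_le (by norm_num) (by rw [he1]; norm_num)
              _ = 2 := Real.rpow_one 2
    have h5 : ((n:ℝ) + n) * (C * (2:ℝ)^(2*eps1*n)) + C ≤ 5 * C * (ℓ * ℓ ^ (2 * eps1 * A1)) := by
      have h6 : (n:ℝ) * (2:ℝ)^(2*eps1*n) ≤ ℓ * (2 * ℓ ^ (2 * eps1 * A1)) :=
        mul_le_mul hnℓ h3 (by positivity) hℓ0.le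
      have h7 : 1 ≤ ℓ * ℓ ^ (2 * eps1 * A1) := by
        calc (1:ℝ) = 1 * 1 := by ring
          _ ≤ _ := mul_le_mul hℓ1 hP2 zero_le_one hℓ0.le
      have h8 := mul_le_mul_of_nonneg_left h6 hC0
      have h9 := mul_le_mul_of_nonneg_left h7 hC0
      calc ((n:ℝ) + n) * (C * (2:ℝ)^(2*eps1*n)) + C
          = 2 * (C * ((n:ℝ) * (2:ℝ)^(2*eps1*n))) + C * 1 := by ring
        _ ≤ 2 * (C * (ℓ * (2 * ℓ ^ (2 * eps1 * A1)))) + C * (ℓ * ℓ ^ (2 * eps1 * A1)) := by linarith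
        _ = _ := by ring
    have h8 : 12 * Cl^2 * (5 * C) ≤ ℓ := by linarith
    rw [hC3]
    calc 2 * (6 * L^2 * (((n:ℝ) + n) * (C * (2:ℝ)^(2*eps1*n)) + C))
        ≤ 2 * (6 * L^2 * (5 * C * (ℓ * ℓ ^ (2 * eps1 * A1)))) := by
          apply mul_le_mul_of_nonneg_left _ (by norm_num)
          exact mul_le_mul_of_nonneg_left h5 (by positivity)
      _ = (12 * Cl^2 * (5 * C)) * (ℓ^3 * ℓ ^ (2 * eps1 * A1)) := by rw [hL]; ring
      _ ≤ ℓ * (ℓ^3 * ℓ ^ (2 * eps1 * A1)) := mul_le_mul_of_nonneg_right h8 (by positivity)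
      _ = _ := by ring
  have hc2 : 2 * 6 * (L / (b:ℝ)^(m+1)) ≤ ℓ ^ Ce / (b:ℝ)^(m+1) := by
    have h8 : 12 * Cl ≤ ℓ := by linarith
    rw [hC3, mul_div_assoc']
    refine div_le_div_of_nonneg_right ?_ (by positivity)
    have h9 : ℓ^2 ≤ ℓ^4 := pow_le_pow_right₀ hℓ1 (by norm_num)
    calc 2 * 6 * L = (12 * Cl) * ℓ := by rw [hL]; ring
      _ ≤ ℓ * ℓ := mul_le_mul_of_nonneg_right h8 hℓ0.le
      _ = 1 * ℓ^2 := by ring
      _ ≤ ℓ ^ (2 * eps1 * A1) * ℓ^4 := mul_le_mul hP2 h9 (by positivity) (by positivity)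
  rw [hsplit]
  have k1 := mul_le_mul_of_nonneg_right hc1 hYY
  have k2 := mul_le_mul_of_nonneg_right hc2 hMV0
  linarith

end Crest.Agent.R4P.AddUU7
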