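import Crest.Agent.R4P.FarNear3_7
import Crest.Agent.R4P.FarUU_7
import Crest.Agent.R4P.AddNode2_7
import Crest.Agent.R4P.AddUN_7

/-!
R4 (S0004), POWERS, module dseR (D3), helper7: **pairs of items of one world with different exponents**,
general form: subtrees `th` (exponents `≥ i + m`), `tl` (exponents `< i`) of a node, functions of `th` at
most twice their averages over the shifts by `b^(-i-m)`.

* `PR` : the setting; `lift_pair`; `lab_pair`; `unl_pair`.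
-/

set_option autoImplicit false
set_option linter.unusedSectionVars false
set_option linter.unusedVariables false

open MeasureTheory Filter

namespace Crest.Agent.R4P.FarNode7

open Crest.Agent.R4P.Cnt588 Crest.Agent.R4P.Item758 Crest.Agent.R4P.W363
open Crest.Agent.R4P.Data758 Crest.Agent.R4P.OmSt532 Crest.Agent.R4P.OmData532
open Crest.Agent.R4P.LfDat734 Crest.Agent.R4P.WPex189
open Crest.Agent.R4P.Bld532 (NS All NodeOk Bk plk dv nd)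
open Crest.Agent.R4P.Step588 (NDt ND1 ctx_NDt uq_lt)
open Crest.Agent.R4P.WalkIT579 (tp isL nodeOk_hi top_of_nodeOk)
open Crest.Agent.R4P.Skel189 Crest.Agent.R4P.RseSt23 Crest.Agent.R4P.RseNd23
open Crest.Agent.R4.Soft104 (w)
open Crest.Agent.R4.LF363 (Lab)
open Crest.Agent.R4.HVW560 (cof wt)
open Crest.Agent.R4.AvgItem710 (Dp mul_cof mul_cof' cof_pos cof_coprime exists_of_I_ne)
open Crest.Agent.R4P.AvgItem710
open Crest.Agent.R4.ClosL758 Crest.Agent.R4.ClosR758 Crest.Agent.R4.Tour104 Crest.Agent.R4.Fam464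
open Crest.Agent.R4.Tour758 Crest.Agent.R4.Avg758
open Crest.Agent.R4P.PairR23 (iF_rel_le)
open Crest.Agent.R4.Lift223 (qe cen cen_add cen_den floor_eq_of_window)
open Crest.Agent.R4P.AddNode7 Crest.Agent.R4P.FarLift7
open Crest.Agent.R4.ClsS (eps1)
open Crest.Agent.R4

section tr

/-- **unlabelled pairs**, item coordinates -/
theorem uu_crossM' : ∃ κ₀ : ℝ, 0 ≤ κ₀ ∧ ∀ (Cl Ct A : ℝ), 0 ≤ Cl → 0 ≤ Ct → 0 ≤ A →
    ∃ b₁ : ℕ, ∀ b : ℕ, b₁ ≤ b → b.Prime →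
    ∀ (a : ℕ) (η θ : ℝ) (i m : ℕ) (V W : Finset ℕ) (E : Finset (ℕ × ℕ)) (R : ℕ → ℝ)
      (F : ℕ × ℕ → ℝ),
    (∀ q ∈ V ∪ W, a ∣ q) →
    0 < η → η ≤ Real.exp (-(Real.log b ^ (4/5:ℝ))) →
    (∀ q ∈ V ∪ W, 0 < q / a ∧ 0 < R q) → (∀ q ∈ V ∪ W, R q ≤ Cl * Real.log b * wA a R q) →
    (∀ Z : ℝ, (b:ℝ)^2 ≤ Z → ∀ q ∈ V ∪ W, Crest.Agent.R4.ClsB.Tame Z 1 (q / a)) →
    (∀ q ∈ V, b ^ (i + m) ∣ q / a) → (∀ q ∈ W, ¬ b ^ i ∣ q / a) → E ⊆ V ×ˢ W →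
    (∀ e ∈ E, F e ≤ 2 * ((R e.1 * R e.2) / DA a R e) * (2 * (η * DA a R e) + 1)) →
    (∀ e ∈ E, 0 < F e → ∃ m m' : ℤ,
      |(m + θ) * (cof (e.2 / a) (e.1 / a) : ℕ) - (m' + θ) * (cof (e.1 / a) (e.2 / a) : ℕ)| ≤
        η * DA a R e) →
    (∀ q ∈ V, R q ≤ Real.log b ^ (-Ct) → ∀ ρ, ¬ Lab θ (R q) ρ) →
    ∑ e ∈ E, F e ≤ Real.log b ^ (-A) * ((∑ q ∈ V, wA a R q) * ∑ r ∈ W, wA a R r) +
      Real.log b ^ (κ₀ + (Ct + A) / 500) * (((b:ℝ)^(-(1/2-eps1)))^(m+1) *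
        ((∑ q ∈ V, wA a R q) * (∑ r ∈ W, wA a R r))^(1/2+eps1)) +
      Real.log b ^ (κ₀ + (Ct + A) / 500) / (b:ℝ)^(m+1) * ∑ q ∈ V, wA a R q := by
  obtain ⟨κ₀, hκ₀, HH⟩ := AddUU7.uu_crossM
  refine ⟨κ₀, hκ₀, fun Cl Ct A hCl hCt hA => ?_⟩
  obtain ⟨b₁, H⟩ := HH Cl Ct A hCl hCt hA
  refine ⟨b₁, ?_⟩
  intro b hb hbp a η θ i m V W E R F ha hη hη1 hT hL htm hVb hWb hE hF hrel hlab
  have hAV : ∀ q ∈ V, a ∣ q := fun q hq => ha q (Finset.mem_union_left _ hq)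
  have hAW : ∀ q ∈ W, a ∣ q := fun q hq => ha q (Finset.mem_union_right _ hq)
  have hEE : E ⊆ (V ∪ W) ×ˢ (V ∪ W) := fun e he => by
    obtain ⟨m1, m2⟩ := Finset.mem_product.1 (hE he)
    exact Finset.mem_product.2 ⟨Finset.mem_union_left _ m1, Finset.mem_union_right _ m2⟩
  have key := H b hb hbp η θ i m (V.image (· / a)) (W.image (· / a))
    (E.image fun e => (e.1 / a, e.2 / a))
    (fun v => R (a * v)) (fun e => F (a * e.1, a * e.2)) hη hη1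
    (fun v hv => by
      rw [← image_union] at hv
      obtain ⟨q, hq, rfl⟩ := Finset.mem_image.1 hv
      have h1 := hT q hq
      exact ⟨h1.1, by rw [Nat.mul_div_cancel' (ha q hq)]; exact h1.2⟩)
    (fun v hv => by
      rw [← image_union] at hv
      obtain ⟨q, hq, rfl⟩ := Finset.mem_image.1 hv
      have h1 := hL q hq
      rw [wt_tr a R (ha q hq)]
      exact (R_tr a R (ha q hq)).le.trans h1)
    (fun Z hZ v hv => by
      rw [← image_union] at hv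
      obtain ⟨q, hq, rfl⟩ := Finset.mem_image.1 hv
      exact htm Z hZ q hq)
    (fun v hv => by
      obtain ⟨q, hq, rfl⟩ := Finset.mem_image.1 hv
      exact hVb q hq)
    (fun v hv => by
      obtain ⟨q, hq, rfl⟩ := Finset.mem_image.1 hv
      exact hWb q hq)
    (sub_tr2 hE)
    (fun x hx => by
      obtain ⟨e, he, rfl⟩ := Finset.mem_image.1 hx
      obtain ⟨a1, a2⟩ := Finset.mem_product.1 (hEE he)
      have d1 := ha _ a1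
      have d2 := ha _ a2
      have h1 := hF e he
      rw [DP_eq a R d1 d2]
      simp only [Nat.mul_div_cancel' d1, Nat.mul_div_cancel' d2]
      exact h1)
    (fun x hx h0 => by
      obtain ⟨e, he, rfl⟩ := Finset.mem_image.1 hx
      obtain ⟨a1, a2⟩ := Finset.mem_product.1 (hEE he)
      have d1 := ha _ a1
      have d2 := ha _ a2
      rw [DP_eq a R d1 d2]
      simp only [Nat.mul_div_cancel' d1, Nat.mul_div_cancel' d2] at h0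
      exact hrel e he h0)
    (fun v hv => by
      obtain ⟨q, hq, rfl⟩ := Finset.mem_image.1 hv
      simp only [Nat.mul_div_cancel' (hAV q hq)]
      exact hlab q hq)
  rw [sum_tr2 ha hEE, sum_wA hAV, sum_wA hAW] at key
  have e1 : ∑ e ∈ E, F e = ∑ e ∈ E, F (a * (e.1 / a), a * (e.2 / a)) := by
    refine Finset.sum_congr rfl fun e he => ?_
    obtain ⟨a1, a2⟩ := Finset.mem_product.1 (hEE he)
    rw [Nat.mul_div_cancel' (ha _ a1), Nat.mul_div_cancel' (ha _ a2)]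
  rw [e1]
  exact key

end tr

section ctx
variable {N : Skel189.Num} {γ : ℝ} {p0 P₀ : ℕ} {X : Ctx N γ p0 P₀} {u : NS} {b : ℕ} {t₁ t₀ : IT}

/-- **the setting**: subtrees `th`, `tl` of the node `(u, τ)` with column `b` -/
structure PR (X : Ctx N γ p0 P₀) (Y : Finset (ℕ × ℕ × Finset ℕ)) (u : NS) (τ : IT) (b i m : ℕ)
    (th tl : IT) (A₁ A₀ : Finset X.c.Lam) : Prop where
  nf : NF X u τ
  nl : ¬ isL τ
  col : tp τ = b
  s1 : th.items ⊆ τ.items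
  s0 : tl.items ⊆ τ.items
  f1 : Fit u.B u.A th
  f0 : Fit u.B u.A tl
  w1 : (X.c.D.par Y).Wts u.A th
  w0 : (X.c.D.par Y).Wts u.A tl
  bp : b.Prime
  im : 0 < i
  hi : ∀ j ∈ A₁, j.1.1 ∈ th.items → b ^ (i + m) ∣ j.1.1 / u.A
  lo : ∀ j ∈ A₀, j.1.1 ∈ tl.items → ¬ b ^ i ∣ j.1.1 / u.A
  av : ∀ j ∈ A₁, j.1.1 ∈ th.items → AV (b ^ (i + m)) (Uw X Y u th j)

variable {Y : Finset (ℕ × ℕ × Finset ℕ)} {τ th tl : IT} {i m : ℕ} {A₁ A₀ : Finset X.c.Lam}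

/-- **coincidence of two labelled pieces of one world** -/
lemma exW (h : NDt X.par (w X.ψ) X.c.t u τ) (hbt : b ≤ top X.S) (hlam : X.c.lam b = 0)
    {j j' : X.c.Lam} (hx : (j, j') ∈ DL X Y b) (hj : j.1.1 ∈ τ.items) (hj' : j'.1.1 ∈ τ.items)
    {z : ℝ} {a a' : ℤ}
    (l1 : (u.B : ℝ) / (1 : ℕ) * X.c.bp j.1.1 j.1.2 ≤
      ((j.1.1 / u.A : ℕ) : ℝ) * z - (u.B : ℝ) / (1 : ℕ) * X.c.γ - a)
    (l2 : ((j.1.1 / u.A : ℕ) : ℝ) * z - (u.B : ℝ) / (1 : ℕ) * X.c.γ - a <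
      (u.B : ℝ) / (1 : ℕ) * X.c.bp j.1.1 (j.1.2 + 1))
    (l3 : (u.B : ℝ) / (1 : ℕ) * X.c.bp j'.1.1 j'.1.2 ≤
      ((j'.1.1 / u.A : ℕ) : ℝ) * z - (u.B : ℝ) / (1 : ℕ) * X.c.γ - a')
    (l4 : ((j'.1.1 / u.A : ℕ) : ℝ) * z - (u.B : ℝ) / (1 : ℕ) * X.c.γ - a' <
      (u.B : ℝ) / (1 : ℕ) * X.c.bp j'.1.1 (j'.1.2 + 1)) :
    ((a:ℝ) + ((labB X u b j.1.1 : ℚ) : ℝ)) * ((j'.1.1 / u.A : ℕ) : ℝ) =
        (a' + ((labB X u b j'.1.1 : ℚ) : ℝ)) * ((j.1.1 / u.A : ℕ) : ℝ) ∧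
      ((a:ℝ) + ((labB X u b j.1.1 : ℚ) : ℝ)) * (cof (j'.1.1 / u.A) (j.1.1 / u.A) : ℕ) =
        (a' + ((labB X u b j'.1.1 : ℚ) : ℝ)) * (cof (j.1.1 / u.A) (j'.1.1 / u.A) : ℕ) := by
  obtain ⟨hx1, hx2⟩ := Finset.mem_filter.1 hx
  obtain ⟨hix, -, -⟩ := mem_Dr.1 hx1
  have hs2 := isSome_pair hlam hix
  obtain ⟨σ, hσ⟩ := Option.isSome_iff_exists.1 hx2
  rw [hx2] at hs2
  obtain ⟨σ', hσ'⟩ := Option.isSome_iff_exists.1 hs2.symm
  have e1 := rel_some h hbt hlam hix hj hj' hσ hσ' l1 l2 l3 l4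
  have f1 : labB X u b j.1.1 = (u.B : ℚ) * σ := labB_some hσ
  have f2 : labB X u b j'.1.1 = (u.B : ℚ) * σ' := labB_some hσ'
  rw [f1, f2]
  exact e1

/-- **the lift part of the labelled pairs** -/
theorem lift_pair (P : PR X Y u τ b i m th tl A₁ A₀) (hbt : b ≤ top X.S) (hlam : X.c.lam b = 0)
    (hd1 : X.c.d1 * Kc X.S ≤ 1) :
    Q ((DL X Y b).filter fun x => ¬ b ∣ (labB X u b x.2.1.1).den)
      (rv A₁ (Uw X Y u th)) (rv A₀ (Uw X Y u tl)) ≤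
      2 * Real.sqrt (Q (Dr ((X.c.D.par Y).rho b)) (rv A₁ (Uw X Y u th)) (rv A₁ (Uw X Y u th)) *
        Q (Dr ((X.c.D.par Y).rho b)) (rv A₀ (Uw X Y u tl)) (rv A₀ (Uw X Y u tl)) /
          (b:ℝ) ^ (m + 1)) := by
  classical
  have h := P.nf.nd
  have hb := P.bp
  have pu : ∀ j, PB (Uw X Y u th j) := fun j =>
    FT.pb h.B_pos ((X.c.D.par Y).toFT_Adm _ _ _ h.B_pos P.f1 P.w1) (one_dvd _) j
  have pf : ∀ j, PB (rv A₁ (Uw X Y u th) j) := fun j => PB_rv pu A₁ j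
  have pg : ∀ j, PB (rv A₀ (Uw X Y u tl) j) := fun j =>
    PB_rv (fun j => FT.pb h.B_pos ((X.c.D.par Y).toFT_Adm _ _ _ h.B_pos P.f0 P.w0)
      (one_dvd _) j) A₀ j
  have hpos : ∀ q ∈ τ.items, 0 < q / u.A := fun q hq => Nat.pos_of_ne_zero (h.div_ne hq)
  have hbk : 0 < b ^ (i + m) := pow_pos hb.pos _
  have hbkR : ((b ^ (i + m) : ℕ) : ℝ) ≠ 0 := by exact_mod_cast hbk.ne'
  have A1 : ∀ j, AV (b ^ (i + m)) (rv A₁ (Uw X Y u th) j) := by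
    intro j
    by_cases hj : j ∈ A₁
    · rw [rv_of_mem hj]
      by_cases hj' : j.1.1 ∈ th.items
      · exact P.av j hj hj'
      · have e : Uw X Y u th j = fun _ => 0 := funext fun x => FarNear7.Uw_zero Y hj' x
        rw [e]
        exact AV_zero _
    · rw [rv_of_not_mem hj]
      exact AV_zero _
  have A2 : ∀ j : X.c.Lam, (∃ z, rv A₁ (Uw X Y u th) j z ≠ 0) → ∀ z : ℝ,
      Cn X u b j (z + 1 / (b ^ (i + m) : ℕ)) = Cn X u b j z + 1 / (b ^ (i + m) : ℕ) := by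
    intro j ⟨z, hz⟩ y
    have hjA : j ∈ A₁ := by
      by_contra hc
      exact hz (congrFun (rv_of_not_mem (f := Uw X Y u th) hc) z)
    obtain ⟨m1, -⟩ := Par.supp _ h.B_pos P.f1 P.w1 (one_dvd _) (rv_ne hz)
    have m1' : j.1.1 ∈ th.items := m1
    exact cen_add (hpos _ (P.s1 m1')) (P.hi j hjA m1') _ _ y
  have A3 : ∀ e ∈ (DL X Y b).filter fun x => ¬ b ∣ (labB X u b x.2.1.1).den, ∀ z : ℝ,
      (∃ s : ℕ, rv A₁ (Uw X Y u th) e.1 (z + (s : ℝ) / (b ^ (i + m) : ℕ)) ≠ 0) →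
      rv A₀ (Uw X Y u tl) e.2 z ≠ 0 →
      Cn X u b e.1 z = Cn X u b e.2 z ∧ (X.c.D.par Y).rho b e.1 = (X.c.D.par Y).rho b e.2 ∧
        ¬ b ^ i ∣ (Cn X u b e.1 z).den := by
    intro e he z ⟨s, hz⟩ hz'
    obtain ⟨g1, g2⟩ := Finset.mem_filter.1 he
    have g1' : (e.1, e.2) ∈ DL X Y b := g1
    have hjA : e.1 ∈ A₁ := by
      by_contra hc
      exact hz (congrFun (rv_of_not_mem (f := Uw X Y u th) hc) _)
    have hjA' : e.2 ∈ A₀ := by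
      by_contra hc
      exact hz' (congrFun (rv_of_not_mem (f := Uw X Y u tl) hc) _)
    obtain ⟨m1, a, -, l1, l2⟩ := Par.supp _ h.B_pos P.f1 P.w1 (one_dvd _) (rv_ne hz)
    obtain ⟨m0, a', -, l3, l4⟩ := Par.supp _ h.B_pos P.f0 P.w0 (one_dvd _) (rv_ne hz')
    have m1' : e.1.1.1 ∈ th.items := m1
    have m0' : e.2.1.1 ∈ tl.items := m0
    have w1 := hpos _ (P.s1 m1')
    have w0 := hpos _ (P.s0 m0')
    obtain ⟨c, hc⟩ := P.hi _ hjA m1'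
    have hcR : ((e.1.1.1 / u.A : ℕ) : ℝ) * ((s : ℝ) / (b ^ (i + m) : ℕ)) =
        (((c * s : ℕ) : ℤ) : ℝ) := by
      have hb0 : (b:ℝ) ^ (i + m) ≠ 0 := by
        have : (b:ℝ) ≠ 0 := by exact_mod_cast hb.ne_zero
        positivity
      rw [hc]
      push_cast
      field_simp
    have l1' : (u.B : ℝ) / (1 : ℕ) * X.c.bp e.1.1.1 e.1.1.2 ≤
        ((e.1.1.1 / u.A : ℕ) : ℝ) * z - (u.B : ℝ) / (1 : ℕ) * X.c.γ -
          ((a - ((c * s : ℕ) : ℤ) : ℤ) : ℝ) := by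
      rw [Int.cast_sub, ← hcR]
      have l1'' : (u.B : ℝ) / (1 : ℕ) * X.c.bp e.1.1.1 e.1.1.2 ≤
        ((e.1.1.1 / u.A : ℕ) : ℝ) * (z + (s : ℝ) / (b ^ (i + m) : ℕ)) -
          (u.B : ℝ) / (1 : ℕ) * X.c.γ - a := l1
      rw [mul_add] at l1''
      linarith
    have l2' : ((e.1.1.1 / u.A : ℕ) : ℝ) * z - (u.B : ℝ) / (1 : ℕ) * X.c.γ -
          ((a - ((c * s : ℕ) : ℤ) : ℤ) : ℝ) <
        (u.B : ℝ) / (1 : ℕ) * X.c.bp e.1.1.1 (e.1.1.2 + 1) := by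
      rw [Int.cast_sub, ← hcR]
      have l2'' : ((e.1.1.1 / u.A : ℕ) : ℝ) * (z + (s : ℝ) / (b ^ (i + m) : ℕ)) -
          (u.B : ℝ) / (1 : ℕ) * X.c.γ - a <
        (u.B : ℝ) / (1 : ℕ) * X.c.bp e.1.1.1 (e.1.1.2 + 1) := l2
      rw [mul_add] at l2''
      linarith
    have x1 := (exW h hbt hlam g1' (P.s1 m1') (P.s0 m0') l1' l2' l3 l4).1
    have c1 := Cn_eq (b := b) hd1 h (P.s1 m1') l1' l2'
    have c0 := Cn_eq (b := b) hd1 h (P.s0 m0') l3 l4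
    have hC12 : Cn X u b e.1 z = Cn X u b e.2 z := by
      rw [c1, c0]
      have w1q : ((e.1.1.1 / u.A : ℕ) : ℚ) ≠ 0 := by exact_mod_cast w1.ne'
      have w0q : ((e.2.1.1 / u.A : ℕ) : ℚ) ≠ 0 := by exact_mod_cast w0.ne'
      rw [div_eq_div_iff w1q w0q]
      exact_mod_cast x1
    refine ⟨hC12, ?_, ?_⟩
    · exact (Finset.mem_filter.1 (Finset.mem_filter.1 g1).1).2
    · rw [hC12, c0]
      exact cen_not_dvd hb w0 (P.lo _ hjA' m0') g2 a'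
  have key := lift_avg (k := i + m) (m := i) hb P.im (Nat.le_add_right i m) pf pg A1 A2 A3
  have e : i + m + 1 - i = m + 1 := by omega
  rw [e] at key
  exact key

/-- energy of a labelled pair of items -/
theorem F_pair (P : PR X Y u τ b i m th tl A₁ A₀) (hbt : b ≤ top X.S) (hlam : X.c.lam b = 0)
    {R : Finset (X.c.Lam × X.c.Lam)} (hP : R ⊆ DL X Y b) {e : ℕ × ℕ}
    (h1 : e.1 ∈ th.items) (h0 : e.2 ∈ tl.items) :
    (X.c.D.par Y).iF R (rv A₁ (Uw X Y u th)) (rv A₀ (Uw X Y u tl)) e ≤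
      2 * ((RB X u e.1 * RB X u e.2) / DA u.A (RB X u) e) := by
  have h := P.nf.nd
  have key := iF_rel_le (D := X.c.D.par Y) (ρ := X.c.rr) (b := u.B) (pr := u.A) (c := 1)
    (b' := u.B) (pr' := u.A) (c' := 1) (A := A₁) (A' := A₀) (X.ok.rad Y) h.B_pos h.B_pos P.f1 P.f0
    P.w1 P.w0 (one_dvd _) (one_dvd _) R e h1 h0
    (C := ((labB X u b e.1 : ℚ) : ℝ)) (C' := ((labB X u b e.2 : ℚ) : ℝ)) (δ := 0) le_rfl
    (fun x hx _ _ i1 i2 y a a' l1 l2 l3 l4 => by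
      have i1' : x.1.1.1 = e.1 := i1
      have i2' : x.2.1.1 = e.2 := i2
      rw [← i1'] at l1 l2 h1
      rw [← i2'] at l3 l4 h0
      have hx' : (x.1, x.2) ∈ DL X Y b := hP hx
      have k := (exW h hbt hlam hx' (P.s1 h1) (P.s0 h0) l1 l2 l3 l4).2
      rw [i1', i2'] at k
      rw [k, sub_self, abs_zero])
  rw [Nat.cast_one, div_one, mul_zero, zero_add, mul_one] at key
  exact key

/-- **a pair of items of labelled pieces of one world** -/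
theorem PE_pair (P : PR X Y u τ b i m th tl A₁ A₀) (hbt : b ≤ top X.S) (hlam : X.c.lam b = 0)
    {R : Finset (X.c.Lam × X.c.Lam)} (hP : R ⊆ DL X Y b) {e : ℕ × ℕ}
    (he : e ∈ (X.c.D.par Y).PE R (rv A₁ (Uw X Y u th)) (rv A₀ (Uw X Y u tl))) :
    ∃ j j' : X.c.Lam, (j, j') ∈ R ∧ j ∈ A₁ ∧ j' ∈ A₀ ∧ e = (j.1.1, j'.1.1) ∧
      j.1.1 ∈ th.items ∧ j'.1.1 ∈ tl.items ∧ j.1.1 ∈ X.S' ∧ j'.1.1 ∈ X.S' ∧
      (∃ σ, stq X b j.1.1 = some σ) ∧ (∃ σ, stq X b j'.1.1 = some σ) ∧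
      ∃ a a' : ℤ, ((a:ℝ) + ((labB X u b j.1.1 : ℚ) : ℝ)) * (cof (j'.1.1 / u.A) (j.1.1 / u.A) : ℕ) =
        (a' + ((labB X u b j'.1.1 : ℚ) : ℝ)) * (cof (j.1.1 / u.A) (j'.1.1 / u.A) : ℕ) := by
  have h := P.nf.nd
  obtain ⟨j, j', hR, hI, e1, e2⟩ := Par.mem_PE.1 he
  obtain ⟨y, y1, y2⟩ := exists_of_I_ne hI
  have hA : j ∈ A₁ := by
    by_contra hc
    exact y1 (congrFun (rv_of_not_mem (f := Uw X Y u th) hc) y)
  have hA' : j' ∈ A₀ := by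
    by_contra hc
    exact y2 (congrFun (rv_of_not_mem (f := Uw X Y u tl) hc) y)
  have z1 := rv_ne y1
  have z2 := rv_ne y2
  obtain ⟨m1, a, o1, l1, l2⟩ := Par.supp _ h.B_pos P.f1 P.w1 (one_dvd _) z1
  obtain ⟨m0, a', o0, l3, l4⟩ := Par.supp _ h.B_pos P.f0 P.w0 (one_dvd _) z2
  have hs1 : j.1.1 ∈ X.S' := by
    by_contra hc
    exact o1 (X.om_zero hc _ _)
  have hs0 : j'.1.1 ∈ X.S' := by
    by_contra hc
    exact o0 (X.om_zero hc _ _)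
  obtain ⟨hx1, hx2⟩ := Finset.mem_filter.1 (hP hR)
  obtain ⟨hix, hret, -⟩ := mem_Dr.1 hx1
  have hs2 := isSome_pair hlam hix
  have hσ := Option.isSome_iff_exists.1 hx2
  rw [hx2] at hs2
  have hσ' := Option.isSome_iff_exists.1 hs2.symm
  have x2 := (exW h hbt hlam (hP hR) (P.s1 m1) (P.s0 m0) l1 l2 l3 l4).2
  exact ⟨j, j', hR, hA, hA', Prod.ext e1.symm e2.symm, m1, m0, hs1, hs0, hσ, hσ', a, a', x2⟩

/-- energy of an unlabelled pair of items -/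
theorem F_pairU (P : PR X Y u τ b i m th tl A₁ A₀) (hbt : b ≤ top X.S) (hlam : X.c.lam b = 0)
    {e : ℕ × ℕ} (h1 : e.1 ∈ th.items) (h0 : e.2 ∈ tl.items) {η : ℝ} (hη : etaL X.c.wp b ≤ η) :
    (X.c.D.par Y).iF (DU X Y b) (rv A₁ (Uw X Y u th)) (rv A₀ (Uw X Y u tl)) e ≤
      2 * ((RB X u e.1 * RB X u e.2) / DA u.A (RB X u) e) * (2 * (η * DA u.A (RB X u) e) + 1) := by
  have h := P.nf.nd
  have hrr : ∀ q, 0 < X.c.rr q := (X.ok.rad Y).pos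
  have hDA : 0 ≤ DA u.A (RB X u) e := by
    unfold DA Crest.Agent.R4.AvgItem710.Dp
    refine le_max_of_le_left ?_
    have := (hrr e.1).le
    positivity
  have hη0 : 0 ≤ η := (etaL_pos _ _).le.trans hη
  have key := iF_rel_le (D := X.c.D.par Y) (ρ := X.c.rr) (b := u.B) (pr := u.A) (c := 1)
    (b' := u.B) (pr' := u.A) (c' := 1) (A := A₁) (A' := A₀) (X.ok.rad Y) h.B_pos h.B_pos P.f1 P.f0
    P.w1 P.w0 (one_dvd _) (one_dvd _) (DU X Y b) e h1 h0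
    (C := u.B * X.c.γ) (C' := u.B * X.c.γ) (δ := η * DA u.A (RB X u) e) (mul_nonneg hη0 hDA)
    (fun x hx _ _ i1 i2 y a a' l1 l2 l3 l4 => by
      obtain ⟨hix, hs, hs'⟩ := DU_none hlam hx
      have i1' : x.1.1.1 = e.1 := i1
      have i2' : x.2.1.1 = e.2 := i2
      rw [← i1'] at l1 l2 h1
      rw [← i2'] at l3 l4 h0
      have k := rel_none h hbt hlam hix (P.s1 h1) (P.s0 h0) hs hs' l1 l2 l3 l4
      rw [i1', i2'] at k
      exact k.trans (mul_le_mul_of_nonneg_right hη hDA))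
  rw [Nat.cast_one, div_one] at key
  exact key

/-- **a pair of items of unlabelled pieces of one world** -/
theorem PE_pairU (P : PR X Y u τ b i m th tl A₁ A₀) (hbt : b ≤ top X.S) (hlam : X.c.lam b = 0)
    {e : ℕ × ℕ} {η : ℝ} (hη : etaL X.c.wp b ≤ η)
    (he : e ∈ (X.c.D.par Y).PE (DU X Y b) (rv A₁ (Uw X Y u th)) (rv A₀ (Uw X Y u tl))) :
    ∃ j j' : X.c.Lam, j ∈ A₁ ∧ j' ∈ A₀ ∧ e = (j.1.1, j'.1.1) ∧
      j.1.1 ∈ th.items ∧ j'.1.1 ∈ tl.items ∧ j.1.1 ∈ X.S' ∧ j'.1.1 ∈ X.S' ∧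
      stq X b j.1.1 = none ∧ stq X b j'.1.1 = none ∧
      ∃ a a' : ℤ, |(a + (u.B : ℝ) * X.c.γ) * (cof (j'.1.1 / u.A) (j.1.1 / u.A) : ℕ) -
        (a' + (u.B : ℝ) * X.c.γ) * (cof (j.1.1 / u.A) (j'.1.1 / u.A) : ℕ)| ≤
          η * DA u.A (RB X u) (j.1.1, j'.1.1) := by
  have h := P.nf.nd
  obtain ⟨j, j', hR, hI, e1, e2⟩ := Par.mem_PE.1 he
  obtain ⟨y, y1, y2⟩ := exists_of_I_ne hI
  have hA : j ∈ A₁ := by
    by_contra hc
    exact y1 (congrFun (rv_of_not_mem (f := Uw X Y u th) hc) y)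
  have hA' : j' ∈ A₀ := by
    by_contra hc
    exact y2 (congrFun (rv_of_not_mem (f := Uw X Y u tl) hc) y)
  have z1 := rv_ne y1
  have z2 := rv_ne y2
  obtain ⟨m1, a, o1, l1, l2⟩ := Par.supp _ h.B_pos P.f1 P.w1 (one_dvd _) z1
  obtain ⟨m0, a', o0, l3, l4⟩ := Par.supp _ h.B_pos P.f0 P.w0 (one_dvd _) z2
  have hs1 : j.1.1 ∈ X.S' := by
    by_contra hc
    exact o1 (X.om_zero hc _ _)
  have hs0 : j'.1.1 ∈ X.S' := by
    by_contra hc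
    exact o0 (X.om_zero hc _ _)
  obtain ⟨hix, hs, hs'⟩ := DU_none hlam hR
  have k := rel_none h hbt hlam hix (P.s1 m1) (P.s0 m0) hs hs' l1 l2 l3 l4
  refine ⟨j, j', hA, hA', Prod.ext e1.symm e2.symm, m1, m0, hs1, hs0, hs, hs', a, a', ?_⟩
  refine k.trans (mul_le_mul_of_nonneg_right hη ?_)
  unfold DA Crest.Agent.R4.AvgItem710.Dp
  refine le_max_of_le_left ?_
  have := (X.ok.rad Y).pos j.1.1
  positivity

end ctx

end Crest.Agent.R4P.FarNode7
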