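import Crest.Agent.R4P.FarNode_7

/-!
R4 (S0004), POWERS, module dseR (D3), helper7: **bounds of the pairs of one world** in the setting `PR`.

* `lab_pair` : labelled pairs; `unl_pair` : unlabelled pairs; `pair_all` : all the pairs.
-/

set_option autoImplicit false
set_option linter.unusedSectionVars false
set_option linter.unusedVariables false

open MeasureTheory Filter

namespace Crest.Agent.R4P.FarNode7

open Crest.Agent.R4P.Cnt588 Crest.Agent.R4P.Item758 Crest.Agent.R4P.W363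
open Crest.Agent.R4P.Data758 Crest.Agent.R4P.OmSt532 Crest.Agent.R4P.OmData532
open Crest.Agent.R4P.LfDat734 Crest.Agent.R4P.WPex189
open Crest.Agent.R4P.Bld532 (NS All NodeOk Bk plk dv nd)
open Crest.Agent.R4P.Step588 (NDt ND1 ctx_NDt uq_lt)
open Crest.Agent.R4P.WalkIT579 (tp isL nodeOk_hi top_of_nodeOk)
open Crest.Agent.R4P.Skel189 Crest.Agent.R4P.RseSt23 Crest.Agent.R4P.RseNd23
open Crest.Agent.R4.Soft104 (w)
open Crest.Agent.R4.LF363 (Lab)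
open Crest.Agent.R4.HVW560 (cof wt)
open Crest.Agent.R4.AvgItem710 (Dp mul_cof mul_cof' cof_pos cof_coprime exists_of_I_ne)
open Crest.Agent.R4P.AvgItem710
open Crest.Agent.R4.ClosL758 Crest.Agent.R4.ClosR758 Crest.Agent.R4.Tour104 Crest.Agent.R4.Fam464
open Crest.Agent.R4.Tour758 Crest.Agent.R4.Avg758
open Crest.Agent.R4P.AddNode7 Crest.Agent.R4P.FarLift7
open Crest.Agent.R4.ClsS (eps1)
open Crest.Agent.R4

section ctx
variable {N : Skel189.Num} {γ : ℝ} {p0 P₀ : ℕ}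

/-- mass of the alive items of a population in a subtree -/
noncomputable def mA (X : Ctx N γ p0 P₀) (u : NS) (t : IT) (A : Finset X.c.Lam) : ℝ :=
  u.c * ∑ q ∈ al X t A, w X.ψ q

lemma mA_nonneg {X : Ctx N γ p0 P₀} {u : NS} (hc : 0 ≤ u.c) (t : IT) (A : Finset X.c.Lam) :
    0 ≤ mA X u t A := mul_nonneg hc (Finset.sum_nonneg fun q _ => X.hW q)

/-- energy of a population in a subtree, classes of the column `b` -/
noncomputable def eA (X : Ctx N γ p0 P₀) (Y : Finset (ℕ × ℕ × Finset ℕ)) (b : ℕ) (u : NS) (t : IT)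
    (A : Finset X.c.Lam) : ℝ :=
  Q (Dr ((X.c.D.par Y).rho b)) (rv A (Uw X Y u t)) (rv A (Uw X Y u t))

open Classical in
set_option maxHeartbeats 1000000 in
/-- **the labelled pairs** -/
theorem lab_pair (N : Skel189.Num) : ∃ p₁ : ℕ, ∀ p0 ≥ p₁, ∀ (γ : ℝ) (P₀ : ℕ), 2 ≤ P₀ →
    ∀ X : Ctx N γ p0 P₀, RseH X → X.c.d1 * Kc X.S ≤ 1 → ∀ (Y : Finset (ℕ × ℕ × Finset ℕ))
      (u : NS) (τ : IT) (b i m : ℕ) (th tl : IT) (A₁ A₀ : Finset X.c.Lam),
      PR X Y u τ b i m th tl A₁ A₀ →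
      Q (DL X Y b) (rv A₁ (Uw X Y u th)) (rv A₀ (Uw X Y u tl)) ≤
        2 * Real.sqrt (eA X Y b u th A₁ * eA X Y b u tl A₀ / (b:ℝ) ^ (m + 1)) +
        (if m = 0 then (b:ℝ) ^ (-(1/7):ℝ) * (mA X u th A₁ + mA X u tl A₀)
        else (b:ℝ) ^ (-(13/25):ℝ) * (mA X u th A₁ * mA X u tl A₀)^(1/2+LL207.e1)) := by
  have hc2 := N.hc2
  have hCT := Step588.CT_pos
  obtain ⟨p1, h1⟩ := alive_facts N
  obtain ⟨p2, h2⟩ := ll_two' (2 * Step588.CT) (by positivity)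
  obtain ⟨p3, h3⟩ := ll_bad' (2 * Step588.CT) N.c2 (by positivity) hc2
  obtain ⟨p5, h5⟩ := num_p (N.c2 + 2)
  refine ⟨p1 + p2 + p3 + p5 + 2, fun p0 hp0 γ P₀ hP X hX hd1 Y u τ b i m th tl A₁ A₀ P => ?_⟩
  obtain rfl := P.col
  have hN := P.nf
  have h := hN.nd
  have hl := P.nl
  have hbp := P.bp
  obtain ⟨k1, k2, k3, k4⟩ := nodeOk_hi h.self.node hl
  have k2' : p0 < tp τ := k2
  have hbt : tp τ ≤ top X.S := (le_of_lt k3).trans hN.lvl
  obtain ⟨n1, n2, n3, n4, n5⟩ := h5 (tp τ) (by omega)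
  have hpR : (0:ℝ) < tp τ := by exact_mod_cast (by omega : 0 < tp τ)
  have hpR1 : (1:ℝ) ≤ tp τ := by exact_mod_cast (by omega : 1 ≤ tp τ)
  have hlam := hX.lam (tp τ) k2' hbt
  have hthr := hX.thr (tp τ) k2'
  set T1 : Finset ℕ := al X th A₁ with hT1
  set T0 : Finset ℕ := al X tl A₀ with hT0
  have hm1 : ∀ q ∈ T1, (tp τ) ^ (i + m) ∣ q / u.A := fun q hq => by
    rw [hT1] at hq; unfold al at hq
    obtain ⟨a1, a2, j, hj, rfl⟩ := Finset.mem_filter.1 hq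
    exact P.hi j hj a1
  have hm0 : ∀ q ∈ T0, ¬ (tp τ) ^ i ∣ q / u.A := fun q hq => by
    rw [hT0] at hq; unfold al at hq
    obtain ⟨a1, a2, j, hj, rfl⟩ := Finset.mem_filter.1 hq
    exact P.lo j hj a1
  set T : Finset ℕ := T1 ∪ T0 with hT
  have hTm : ∀ q ∈ T, q ∈ τ.items ∧ q ∈ X.S' := fun q hq => by
    rw [hT, Finset.mem_union, hT1, hT0] at hq
    unfold al at hq
    rcases hq with hq | hq
    · obtain ⟨a1, a2⟩ := Finset.mem_filter.1 hq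
      exact ⟨P.s1 a1, a2.1⟩
    · obtain ⟨a1, a2⟩ := Finset.mem_filter.1 hq
      exact ⟨P.s0 a1, a2.1⟩
  have hTF : ∀ q ∈ T, AlF X u τ q := fun q hq =>
    h1 p0 (by omega) γ P₀ hP X u _ hN hl q (hTm q hq).1 (hTm q hq).2
  have hT1T : T1 ⊆ T := by rw [hT]; exact Finset.subset_union_left
  have hT0T : T0 ⊆ T := by rw [hT]; exact Finset.subset_union_right
  -- masses
  have hwA0 : ∀ q ∈ T, 0 ≤ wA u.A (RB X u) q := fun q hq => by
    unfold wA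
    have := (hTF q hq).R0.le
    positivity
  have hmass : ∀ T' ⊆ T, ∑ q ∈ T', wA u.A (RB X u) q ≤ u.c * ∑ q ∈ T', w X.ψ q := by
    intro T' hT'
    rw [Finset.mul_sum]
    exact Finset.sum_le_sum fun q hq => (hTF q (hT' hq)).wle
  have hM2 : ∑ q ∈ T, wA u.A (RB X u) q ≤ Real.log (tp τ) ^ N.c2 := by
    refine (hmass T subset_rfl).trans (le_trans ?_ k1)
    refine mul_le_mul_of_nonneg_left ?_ hN.c0.le
    unfold Ws
    refine Finset.sum_le_sum_of_subset_of_nonneg (fun q hq => (hTm q hq).1) fun q _ _ => X.hW q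
  -- labelled items
  set TL : Finset ℕ := T.filter fun q => (stq X (tp τ) q).isSome = true with hTL
  set S1 : Finset ℕ := T1.filter fun q => (stq X (tp τ) q).isSome = true with hS1
  set S0 : Finset ℕ := T0.filter fun q => (stq X (tp τ) q).isSome = true with hS0
  have hS10 : S1 ∪ S0 = TL := by
    rw [hS1, hS0, hTL, hT, Finset.filter_union]
  have hTLT : TL ⊆ T := Finset.filter_subset _ _
  have hS1T : S1 ⊆ T1 := Finset.filter_subset _ _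
  have hS0T : S0 ⊆ T0 := Finset.filter_subset _ _
  -- the pairs
  set R : Finset (X.c.Lam × X.c.Lam) :=
    (DL X Y (tp τ)).filter fun x => ¬ ¬ tp τ ∣ (labB X u (tp τ) x.2.1.1).den with hR'
  have hPD : R ⊆ DL X Y (tp τ) := Finset.filter_subset _ _
  have hsplit : Q (DL X Y (tp τ)) (rv A₁ (Uw X Y u th)) (rv A₀ (Uw X Y u tl)) =
      Q ((DL X Y (tp τ)).filter fun x => ¬ tp τ ∣ (labB X u (tp τ) x.2.1.1).den)
        (rv A₁ (Uw X Y u th)) (rv A₀ (Uw X Y u tl)) +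
        Q R (rv A₁ (Uw X Y u th)) (rv A₀ (Uw X Y u tl)) := by
    unfold Q
    rw [hR']
    exact (Finset.sum_filter_add_sum_filter_not _ _ _).symm
  have hlift := lift_pair P hbt hlam hd1
  set D := X.c.D.par Y with hD
  set F : ℕ × ℕ → ℝ := fun e => D.iF R (rv A₁ (Uw X Y u th)) (rv A₀ (Uw X Y u tl)) e with hF
  set E : Finset (ℕ × ℕ) := D.PE R (rv A₁ (Uw X Y u th)) (rv A₀ (Uw X Y u tl)) with hE
  have hQE : Q R (rv A₁ (Uw X Y u th)) (rv A₀ (Uw X Y u tl)) = ∑ e ∈ E, F e := D.Q_eq _ _ _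
  -- facts of the pairs
  have hfact : ∀ e ∈ E, e.1 ∈ S1 ∧ e.2 ∈ S0 ∧ e.1 ∈ th.items ∧ e.2 ∈ tl.items ∧
      tp τ ∣ (labB X u (tp τ) e.2).den ∧ ∃ a a' : ℤ,
        ((a:ℝ) + ((labB X u (tp τ) e.1 : ℚ) : ℝ)) * (cof (e.2 / u.A) (e.1 / u.A) : ℕ) =
        (a' + ((labB X u (tp τ) e.2 : ℚ) : ℝ)) * (cof (e.1 / u.A) (e.2 / u.A) : ℕ) := by
    intro e he
    obtain ⟨j, j', hR, hj, hj', rfl, i1, i0, s1, s0, ⟨σ, hσ⟩, ⟨σ', hσ'⟩, a, a', hex⟩ :=
      PE_pair P hbt hlam hPD he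
    have hden := not_not.1 (Finset.mem_filter.1 hR).2
    refine ⟨?_, ?_, i1, i0, hden, a, a', hex⟩
    · refine Finset.mem_filter.2 ⟨?_, ?_⟩
      · rw [hT1]; unfold al
        exact Finset.mem_filter.2 ⟨i1, s1, j, hj, rfl⟩
      · show (stq X (tp τ) j.1.1).isSome = true
        rw [hσ]; rfl
    · refine Finset.mem_filter.2 ⟨?_, ?_⟩
      · rw [hT0]; unfold al
        exact Finset.mem_filter.2 ⟨i0, s0, j', hj', rfl⟩
      · show (stq X (tp τ) j'.1.1).isSome = true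
        rw [hσ']; rfl
  have hZ : ∀ e ∈ E, labB X u (tp τ) e.1 ≠ labB X u (tp τ) e.2 ∧
      tp τ ≤ LL207.Zc (labB X u (tp τ) e.1) (labB X u (tp τ) e.2) := by
    intro e he
    obtain ⟨f1, f0, -, -, hden, a, a', hex⟩ := hfact e he
    have g1 := hS1T f1
    have g0 := hS0T f0
    have q1 := hTF _ (hT1T g1)
    have hcop : Nat.Coprime (cof (e.1 / u.A) (e.2 / u.A)) (cof (e.2 / u.A) (e.1 / u.A)) :=
      cof_coprime q1.pos
    have hbd := b_dvd_cof hbp ((pow_dvd_pow _ (Nat.le_add_right i m)).trans (hm1 _ g1)) (hm0 _ g0)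
    have hz := RseAr23.Zc_of_exact hbp hbd hcop (labB X u (tp τ) e.1) (labB X u (tp τ) e.2) hex hden
    exact ⟨hz.2, hz.1⟩
  have hFle : ∀ e ∈ E, F e ≤ 2 * ((RB X u e.1 * RB X u e.2) / DA u.A (RB X u) e) := by
    intro e he
    obtain ⟨f1, f0, g1, g0, -⟩ := hfact e he
    exact F_pair P hbt hlam hPD g1 g0
  -- labels
  have hK : ∀ s : ℕ, tp τ < s → Real.log (tp τ) ^ (N.c2 + 2) ≤ s * X.c.wp.thr s := by
    intro s hs
    have hsR : (0:ℝ) < s := by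
      have : 0 < s := by omega
      exact_mod_cast this
    have hps : ((tp τ : ℕ) : ℝ) ≤ s := by exact_mod_cast hs.le
    have h6 := hX.thr s (k2'.trans hs)
    have h7 : (s:ℝ) ^ (1/2:ℝ) = s * (s:ℝ) ^ (-(1/2:ℝ)) := by
      conv_rhs => rw [← Real.rpow_one (s:ℝ), ← Real.rpow_mul hsR.le, ← Real.rpow_add hsR]
      norm_num
    calc Real.log (tp τ) ^ (N.c2 + 2) ≤ ((tp τ : ℕ) : ℝ) ^ (1/2:ℝ) := n5
      _ ≤ (s:ℝ) ^ (1/2:ℝ) := Real.rpow_le_rpow hpR.le hps (by norm_num)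
      _ = s * (s:ℝ) ^ (-(1/2:ℝ)) := h7
      _ ≤ s * X.c.wp.thr s := mul_le_mul_of_nonneg_left h6 hsR.le
  have hthr0 : 0 < X.c.wp.thr (tp τ) := (Real.rpow_pos_of_pos hpR _).trans_le hthr
  have hK4 : 32 * (Real.log (tp τ) ^ (N.c2 + 2)) ^ 4 <
      (tp τ : ℝ) ^ 2 * X.c.wp.thr (tp τ) ^ 2 := by
    refine n4.trans_le ?_
    have h7 : (((tp τ : ℕ):ℝ) ^ (-(1/2:ℝ))) ^ 2 ≤ X.c.wp.thr (tp τ) ^ 2 :=
      pow_le_pow_left₀ (Real.rpow_nonneg hpR.le _) hthr 2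
    have h8 : (((tp τ : ℕ):ℝ) ^ (-(1/2:ℝ))) ^ 2 = ((tp τ : ℕ):ℝ)⁻¹ := by
      rw [← Real.rpow_natCast, ← Real.rpow_mul hpR.le, ← Real.rpow_neg_one]
      norm_num
    rw [h8] at h7
    calc ((tp τ : ℕ):ℝ) = ((tp τ : ℕ):ℝ) ^ 2 * ((tp τ : ℕ):ℝ)⁻¹ := by field_simp
      _ ≤ ((tp τ : ℕ):ℝ) ^ 2 * X.c.wp.thr (tp τ) ^ 2 := mul_le_mul_of_nonneg_left h7 (sq_nonneg _)
  obtain ⟨Λf, hΛ, hlab⟩ := lab_nodeB h X.tOk hl (wp := X.c.wp) (wpL := X.c.wpL) (lam := X.c.lam)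
    (lv := X.c.lv) (γ := X.c.γ) (r := X.c.r) hK hthr0 hK4
  have hLAB : ∀ q ∈ TL, Lab (u.B * X.c.γ) (RB X u q) (labB X u (tp τ) q) ∨
      (labB X u (tp τ) q ∈ Λf ∧ ((tp τ : ℕ):ℝ)⁻¹ ≤ RB X u q) := by
    intro q hq
    obtain ⟨hq1, hq2⟩ := Finset.mem_filter.1 hq
    have hf := hTF q hq1
    obtain ⟨σ, hσ⟩ := Option.isSome_iff_exists.1 hq2
    have hσ' : stq X (tp τ) q = some σ := hσ
    have hR : RB X u q = u.B * X.c.r q := by
      show (u.B:ℝ) * X.c.rr q = _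
      rw [hf.rr]
    rw [labB_some hσ', hR]
    rcases hlab q (hTm q hq1).1 hf.hi σ hσ' with h6 | h6
    · exact Or.inl h6
    · refine Or.inr ⟨h6.1, le_trans ?_ h6.2.le⟩
      refine le_trans ?_ hthr
      rw [← Real.rpow_neg_one]
      exact Real.rpow_le_rpow_of_exponent_le hpR1 (by norm_num)
  have hsubM : ∑ q ∈ TL, wA u.A (RB X u) q ≤ ∑ q ∈ T, wA u.A (RB X u) q :=
    Finset.sum_le_sum_of_subset_of_nonneg hTLT fun q hq _ => hwA0 q hq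
  have hES : E ⊆ S1 ×ˢ S0 := fun e he =>
    Finset.mem_product.2 ⟨(hfact e he).1, (hfact e he).2.1⟩
  have hEE : E ⊆ TL ×ˢ TL := fun e he => by
    rw [← hS10]
    exact Finset.mem_product.2 ⟨Finset.mem_union_left _ (hfact e he).1,
      Finset.mem_union_right _ (hfact e he).2.1⟩
  have i1 : ∑ q ∈ S1, wA u.A (RB X u) q ≤ mA X u th A₁ :=
    (Finset.sum_le_sum_of_subset_of_nonneg hS1T fun q hq _ => hwA0 q (hT1T hq)).trans
      (hmass T1 hT1T)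
  have i0 : ∑ q ∈ S0, wA u.A (RB X u) q ≤ mA X u tl A₀ :=
    (Finset.sum_le_sum_of_subset_of_nonneg hS0T fun q hq _ => hwA0 q (hT0T hq)).trans
      (hmass T0 hT0T)
  have j1 : 0 ≤ ∑ q ∈ S1, wA u.A (RB X u) q :=
    Finset.sum_nonneg fun q hq => hwA0 q (hT1T (hS1T hq))
  have j0 : 0 ≤ ∑ q ∈ S0, wA u.A (RB X u) q :=
    Finset.sum_nonneg fun q hq => hwA0 q (hT0T (hS0T hq))
  rw [hsplit, hQE]
  refine add_le_add hlift ?_
  by_cases hm : m = 0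
  · rw [if_pos hm]
    have kJ := h3 (tp τ) (by omega) u.A (u.B * X.c.γ) TL E (RB X u) (labB X u (tp τ)) Λf F
      (fun q hq => (hTF q (hTLT hq)).dvd) hΛ hEE
      (fun q hq => ⟨(hTF q (hTLT hq)).pos, (hTF q (hTLT hq)).R0⟩)
      (fun q hq => (hTF q (hTLT hq)).lo)
      (hsubM.trans hM2) hLAB hFle
      (fun e he _ => by
        obtain ⟨z1, z2⟩ := hZ e he
        obtain ⟨-, -, -, -, -, hex⟩ := hfact e he
        exact ⟨z1, by exact_mod_cast z2, hex⟩)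
    refine kJ.trans (mul_le_mul_of_nonneg_left ?_ (Real.rpow_nonneg hpR.le _))
    rw [← hS10]
    have hu : ∑ q ∈ S1 ∪ S0, wA u.A (RB X u) q ≤
        ∑ q ∈ S1, wA u.A (RB X u) q + ∑ q ∈ S0, wA u.A (RB X u) q := by
      have h8 := Finset.sum_union_inter (s₁ := S1) (s₂ := S0) (f := fun q => wA u.A (RB X u) q)
      have h9 : 0 ≤ ∑ q ∈ S1 ∩ S0, wA u.A (RB X u) q :=
        Finset.sum_nonneg fun q hq => hwA0 q (hT1T (hS1T (Finset.mem_inter.1 hq).1))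
      linarith
    exact hu.trans (add_le_add i1 i0)
  · rw [if_neg hm]
    have kN := h2 (tp τ) (by omega) u.A (u.B * X.c.γ) S1 S0 E (RB X u) (labB X u (tp τ)) Λf F
      (fun q hq => (hTF q (hTLT (hS10 ▸ hq))).dvd) hΛ hES
      (fun q hq => ⟨(hTF q (hTLT (hS10 ▸ hq))).pos, (hTF q (hTLT (hS10 ▸ hq))).R0⟩)
      (fun q hq => (hTF q (hTLT (hS10 ▸ hq))).lo)
      (fun q hq => hLAB q (hS10 ▸ hq)) hFle
      (fun e he _ => by
        obtain ⟨z1, z2⟩ := hZ e he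
        obtain ⟨f1, f0, -, -, -, hex⟩ := hfact e he
        refine ⟨z1, by exact_mod_cast z2, ?_, hex⟩
        have g1 := hm1 _ (hS1T f1)
        have g0 := hm0 _ (hS0T f0)
        have q1 := hTF _ (hT1T (hS1T f1))
        have q0 := hTF _ (hT0T (hS0T f0))
        have him := P.im
        refine pow_dvd_cof (i := i - 1) (s := 2) hbp q1.pos q0.pos
          ((pow_dvd_pow _ (by omega)).trans g1) ?_
        have e1 : i - 1 + 1 = i := by omega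
        rw [e1]
        exact g0)
    refine kN.trans (mul_le_mul_of_nonneg_left ?_ (Real.rpow_nonneg hpR.le _))
    exact Real.rpow_le_rpow (mul_nonneg j1 j0) (mul_le_mul i1 i0 j0 (j1.trans i1))
      (by unfold LL207.e1; norm_num)

open Classical in
set_option maxHeartbeats 1000000 in
/-- **the unlabelled pairs** -/
theorem unl_pair : ∃ κ₀ : ℝ, 0 ≤ κ₀ ∧ ∀ (N : Skel189.Num) (Ct A₀ : ℝ), 0 ≤ Ct → 0 ≤ A₀ →
    ∃ p₁ : ℕ, ∀ p0 ≥ p₁, ∀ (γ : ℝ) (P₀ : ℕ), 2 ≤ P₀ →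
    ∀ X : Ctx N γ p0 P₀, RseH X → (∀ p, p0 < p → Real.log p ^ (-Ct) ≤ X.c.wp.thr p) →
    ∀ (Y : Finset (ℕ × ℕ × Finset ℕ)) (u : NS) (τ : IT) (b i m : ℕ) (th tl : IT)
      (Ah Al : Finset X.c.Lam), PR X Y u τ b i m th tl Ah Al →
      Q (DU X Y b) (rv Ah (Uw X Y u th)) (rv Al (Uw X Y u tl)) ≤
        Real.log b ^ (-A₀) * (mA X u th Ah * mA X u tl Al) +
        Real.log b ^ (κ₀ + (Ct + A₀) / 500) * (((b:ℝ)^(-(1/2-eps1)))^(m+1) *
          (mA X u th Ah * mA X u tl Al)^(1/2+eps1)) +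
        Real.log b ^ (κ₀ + (Ct + A₀) / 500) / (b:ℝ)^(m+1) * mA X u th Ah := by
  have hCT := Step588.CT_pos
  have he1 : eps1 = 1/1000 := rfl
  obtain ⟨κ₀, hκ₀, HH⟩ := uu_crossM'
  refine ⟨κ₀, hκ₀, fun N Ct A₀ hCt hA₀ => ?_⟩
  obtain ⟨p1, h1⟩ := alive_facts N
  obtain ⟨p2, h2⟩ := HH (2 * Step588.CT) Ct A₀ (by positivity) hCt hA₀
  set C3 := κ₀ + (Ct + A₀) / 500 with hC3
  refine ⟨p1 + p2 + 2, fun p0 hp0 γ P₀ hP X hX hthrC Y u τ b i m th tl Ah Al P => ?_⟩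
  obtain rfl := P.col
  have hN := P.nf
  have h := hN.nd
  have hl := P.nl
  have hbp := P.bp
  obtain ⟨k1, k2, k3, k4⟩ := nodeOk_hi h.self.node hl
  have k2' : p0 < tp τ := k2
  have hbt : tp τ ≤ top X.S := (le_of_lt k3).trans hN.lvl
  have hpR : (0:ℝ) < tp τ := by exact_mod_cast (by omega : 0 < tp τ)
  have hpR2 : (2:ℝ) ≤ tp τ := by exact_mod_cast (by omega : 2 ≤ tp τ)
  have hlog : 0 ≤ Real.log ((tp τ : ℕ) : ℝ) := Real.log_nonneg (by linarith)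
  have hlam := hX.lam (tp τ) k2' hbt
  have hdep := hX.dep (tp τ) k2' hbt
  have hthr := hthrC (tp τ) k2'
  set η : ℝ := Real.exp (-(Real.log (tp τ) ^ (4/5:ℝ))) with hη
  have hη0 : 0 < η := Real.exp_pos _
  have hηe : etaL X.c.wp (tp τ) ≤ η := by
    unfold etaL
    rw [hη, Real.exp_neg, ← one_div, div_le_div_iff₀ (by positivity) (Real.exp_pos _)]
    linarith
  set T1 : Finset ℕ := al X th Ah with hT1
  set T0 : Finset ℕ := al X tl Al with hT0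
  have hm1 : ∀ q ∈ T1, (tp τ) ^ (i + m) ∣ q / u.A := fun q hq => by
    rw [hT1] at hq; unfold al at hq
    obtain ⟨a1, a2, j, hj, rfl⟩ := Finset.mem_filter.1 hq
    exact P.hi j hj a1
  have hm0 : ∀ q ∈ T0, ¬ (tp τ) ^ i ∣ q / u.A := fun q hq => by
    rw [hT0] at hq; unfold al at hq
    obtain ⟨a1, a2, j, hj, rfl⟩ := Finset.mem_filter.1 hq
    exact P.lo j hj a1
  set T : Finset ℕ := T1 ∪ T0 with hT
  have hTm : ∀ q ∈ T, q ∈ τ.items ∧ q ∈ X.S' := fun q hq => by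
    rw [hT, Finset.mem_union, hT1, hT0] at hq
    unfold al at hq
    rcases hq with hq | hq
    · obtain ⟨a1, a2⟩ := Finset.mem_filter.1 hq
      exact ⟨P.s1 a1, a2.1⟩
    · obtain ⟨a1, a2⟩ := Finset.mem_filter.1 hq
      exact ⟨P.s0 a1, a2.1⟩
  have hTF : ∀ q ∈ T, AlF X u τ q := fun q hq =>
    h1 p0 (by omega) γ P₀ hP X u _ hN hl q (hTm q hq).1 (hTm q hq).2
  have hT1T : T1 ⊆ T := by rw [hT]; exact Finset.subset_union_left
  have hT0T : T0 ⊆ T := by rw [hT]; exact Finset.subset_union_right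
  have hwA0 : ∀ q ∈ T, 0 ≤ wA u.A (RB X u) q := fun q hq => by
    unfold wA
    have := (hTF q hq).R0.le
    positivity
  have hmass : ∀ T' ⊆ T, ∑ q ∈ T', wA u.A (RB X u) q ≤ u.c * ∑ q ∈ T', w X.ψ q := by
    intro T' hT'
    rw [Finset.mul_sum]
    exact Finset.sum_le_sum fun q hq => (hTF q (hT' hq)).wle
  -- unlabelled items
  set S1 : Finset ℕ := T1.filter fun q => stq X (tp τ) q = none with hS1
  set S0 : Finset ℕ := T0.filter fun q => stq X (tp τ) q = none with hS0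
  have hS1T : S1 ⊆ T1 := Finset.filter_subset _ _
  have hS0T : S0 ⊆ T0 := Finset.filter_subset _ _
  have hSS : ∀ q ∈ S1 ∪ S0, q ∈ T := fun q hq => by
    rcases Finset.mem_union.1 hq with h6 | h6
    · exact hT1T (hS1T h6)
    · exact hT0T (hS0T h6)
  set D := X.c.D.par Y with hD
  set F : ℕ × ℕ → ℝ :=
    fun e => D.iF (DU X Y (tp τ)) (rv Ah (Uw X Y u th)) (rv Al (Uw X Y u tl)) e with hF
  set E : Finset (ℕ × ℕ) :=
    D.PE (DU X Y (tp τ)) (rv Ah (Uw X Y u th)) (rv Al (Uw X Y u tl)) with hE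
  have hQE : Q (DU X Y (tp τ)) (rv Ah (Uw X Y u th)) (rv Al (Uw X Y u tl)) = ∑ e ∈ E, F e :=
    D.Q_eq _ _ _
  have hfact : ∀ e ∈ E, e.1 ∈ S1 ∧ e.2 ∈ S0 ∧ e.1 ∈ th.items ∧ e.2 ∈ tl.items ∧ ∃ a a' : ℤ,
      |(a + (u.B : ℝ) * X.c.γ) * (cof (e.2 / u.A) (e.1 / u.A) : ℕ) -
        (a' + (u.B : ℝ) * X.c.γ) * (cof (e.1 / u.A) (e.2 / u.A) : ℕ)| ≤
          η * DA u.A (RB X u) e := by
    intro e he
    obtain ⟨j, j', hj, hj', rfl, i1, i0, s1, s0, hσ, hσ', a, a', hex⟩ :=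
      PE_pairU P hbt hlam hηe he
    refine ⟨?_, ?_, i1, i0, a, a', hex⟩
    · refine Finset.mem_filter.2 ⟨?_, hσ⟩
      rw [hT1]; unfold al
      exact Finset.mem_filter.2 ⟨i1, s1, j, hj, rfl⟩
    · refine Finset.mem_filter.2 ⟨?_, hσ'⟩
      rw [hT0]; unfold al
      exact Finset.mem_filter.2 ⟨i0, s0, j', hj', rfl⟩
  have key := h2 (tp τ) (by omega) hbp u.A η (u.B * X.c.γ) i m S1 S0 E (RB X u) F
    (fun q hq => (hTF q (hSS q hq)).dvd) hη0 le_rfl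
    (fun q hq => ⟨(hTF q (hSS q hq)).pos, (hTF q (hSS q hq)).R0⟩)
    (fun q hq => (hTF q (hSS q hq)).lo)
    (fun Z hZ q hq => (hTF q (hSS q hq)).tame Z hZ)
    (fun q hq => hm1 q (hS1T hq)) (fun q hq => hm0 q (hS0T hq))
    (fun e he => Finset.mem_product.2 ⟨(hfact e he).1, (hfact e he).2.1⟩)
    (fun e he => F_pairU P hbt hlam (hfact e he).2.2.1 (hfact e he).2.2.2.1 hηe)
    (fun e he _ => (hfact e he).2.2.2.2)
    (fun q hq hthin ρ => by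
      obtain ⟨hq1, hq2⟩ := Finset.mem_filter.1 hq
      have hqT := hT1T hq1
      have hf := hTF q hqT
      have hR : RB X u q = u.B * X.c.r q := by
        show (u.B:ℝ) * X.c.rr q = _
        rw [hf.rr]
      rw [hR]
      refine st_noneB h X.tOk hl (hTm q hqT).1 hlam hq2 ?_ ρ
      rw [← hR]
      exact hthin.trans hthr)
  rw [hQE]
  refine key.trans ?_
  have i1 : ∑ q ∈ S1, wA u.A (RB X u) q ≤ mA X u th Ah :=
    (Finset.sum_le_sum_of_subset_of_nonneg hS1T fun q hq _ => hwA0 q (hT1T hq)).trans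
      (hmass T1 hT1T)
  have i0 : ∑ q ∈ S0, wA u.A (RB X u) q ≤ mA X u tl Al :=
    (Finset.sum_le_sum_of_subset_of_nonneg hS0T fun q hq _ => hwA0 q (hT0T hq)).trans
      (hmass T0 hT0T)
  have n1 : 0 ≤ ∑ q ∈ S1, wA u.A (RB X u) q :=
    Finset.sum_nonneg fun q hq => hwA0 q (hT1T (hS1T hq))
  have n0 : 0 ≤ ∑ q ∈ S0, wA u.A (RB X u) q :=
    Finset.sum_nonneg fun q hq => hwA0 q (hT0T (hS0T hq))
  have i2 : (∑ q ∈ S1, wA u.A (RB X u) q) * ∑ q ∈ S0, wA u.A (RB X u) q ≤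
      mA X u th Ah * mA X u tl Al := mul_le_mul i1 i0 n0 (n1.trans i1)
  have i3 := Real.rpow_le_rpow (mul_nonneg n1 n0) i2 (by rw [he1]; norm_num : (0:ℝ) ≤ 1/2+eps1)
  have hb3 : 0 ≤ (((tp τ : ℕ):ℝ)^(-(1/2-eps1))) ^ (m+1) := by positivity
  have hlC : 0 ≤ Real.log ((tp τ : ℕ):ℝ) ^ C3 := Real.rpow_nonneg hlog _
  refine add_le_add (add_le_add ?_ ?_) ?_
  · exact mul_le_mul_of_nonneg_left i2 (Real.rpow_nonneg hlog _)
  · exact mul_le_mul_of_nonneg_left (mul_le_mul_of_nonneg_left i3 hb3) hlC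
  · exact mul_le_mul_of_nonneg_left i1 (div_nonneg hlC (by positivity))

end ctx

end Crest.Agent.R4P.FarNode7
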