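import Crest.Agent.R4P.AddLL_7

/-!
R4 (S0004), POWERS, module dseR (D3), helper7: the numbers of the payment of a far node.
-/

set_option autoImplicit false

open Filter

namespace Crest.Agent.R4P.FarPayN7

open Crest.Agent.R4.ClsS (eps1)

/-- powers of `b` beat powers of `log b` -/
lemma ev_b {δ c : ℝ} (hδ : 0 < δ) (hc : 0 < c) (C κ : ℝ) :
    ∀ᶠ b : ℝ in atTop, Real.log b ^ C * b ^ (-δ) ≤ c * Real.log b ^ (-κ) := by
  filter_upwards [AddLL7.ev_lit hδ hc (C + κ), eventually_gt_atTop (Real.exp 1)] with b h1 h2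
  have hb0 : 0 < b := (Real.exp_pos 1).trans h2
  have hl : 1 < Real.log b := by
    rw [Real.lt_log_iff_exp_lt hb0]; exact h2
  have hl0 : 0 < Real.log b := by linarith
  have e1 : b ^ δ * b ^ (-δ) = 1 := by rw [← Real.rpow_add hb0]; simp
  have e2 : Real.log b ^ C = Real.log b ^ (C + κ) * Real.log b ^ (-κ) := by
    rw [← Real.rpow_add hl0]; congr 1; ring
  have p1 : 0 ≤ b ^ (-δ) := Real.rpow_nonneg hb0.le _
  have p2 : 0 ≤ Real.log b ^ (-κ) := Real.rpow_nonneg hl0.le _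
  rw [e2]
  calc Real.log b ^ (C + κ) * Real.log b ^ (-κ) * b ^ (-δ)
      ≤ (c * b ^ δ) * Real.log b ^ (-κ) * b ^ (-δ) :=
        mul_le_mul_of_nonneg_right (mul_le_mul_of_nonneg_right h1 p2) p1
    _ = c * Real.log b ^ (-κ) * (b ^ δ * b ^ (-δ)) := by ring
    _ = c * Real.log b ^ (-κ) := by rw [e1, mul_one]

/-- `√(xy) ≤ (x + y)/2` -/
lemma sqrt_le_add {x y : ℝ} (hx : 0 ≤ x) (hy : 0 ≤ y) : Real.sqrt (x * y) ≤ (x + y) / 2 := by
  rw [Real.sqrt_le_iff]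
  exact ⟨by positivity, by nlinarith [sq_nonneg (x - y)]⟩

/-- powers slightly above `1/2` -/
lemma pow_le {P L c2 : ℝ} (hP : 0 ≤ P) (hL : 0 < L) (h : P ≤ L ^ (2 * c2)) :
    P ^ (1/2 + eps1) ≤ L ^ (2 * c2 * eps1) * Real.sqrt P := by
  have he : eps1 = 1/1000 := rfl
  rw [Real.rpow_add_of_nonneg hP (by norm_num) (by rw [he]; norm_num), Real.sqrt_eq_rpow, mul_comm]
  refine mul_le_mul_of_nonneg_right ?_ (Real.rpow_nonneg hP _)
  rw [Real.rpow_mul hL.le]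
  exact Real.rpow_le_rpow hP h (by rw [he]; norm_num)

lemma mul_pow2 {x y L c2 : ℝ} (hx : 0 ≤ x) (hy : 0 ≤ y) (hL : 0 < L) (h1 : x ≤ L ^ c2)
    (h2 : y ≤ L ^ c2) : x * y ≤ L ^ (2 * c2) := by
  have : L ^ (2 * c2) = L ^ c2 * L ^ c2 := by rw [← Real.rpow_add hL]; congr 1; ring
  rw [this]
  exact mul_le_mul h1 h2 hy (hx.trans h1)

/-- **difference of exponents at least one**: both masses are charged -/
theorem pay0 (K κ A₀ C3 c2 : ℝ) (hK : 0 ≤ K) (hA : κ + c2 + 1 ≤ A₀) :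
    ∃ x₀ : ℝ, ∀ b ≥ x₀, 1 < Real.log b ∧ ∀ y₁ y₀ : ℝ, 0 ≤ y₁ → 0 ≤ y₀ → y₁ ≤ Real.log b ^ c2 →
      y₀ ≤ Real.log b ^ c2 →
      2 * Real.sqrt ((K * y₁) * (K * y₀) / b) + b ^ (-(1/7):ℝ) * (y₁ + y₀) +
      (Real.log b ^ (-A₀) * (y₁ * y₀) +
        Real.log b ^ C3 * (b ^ (-(1/2-eps1)) * (y₁ * y₀) ^ (1/2+eps1)) +
        Real.log b ^ C3 / b * y₁) ≤ Real.log b ^ (-κ) / 16 * (y₁ + y₀) := by
  have he : eps1 = 1/1000 := rfl
  have e1 := ev_b (δ := 1/2) (c := 1 / (80 * (K + 1))) (by norm_num) (by positivity) 0 κ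
  have e2 := ev_b (δ := 1/7) (c := 1 / 80) (by norm_num) (by norm_num) 0 κ
  have e3 := ev_b (δ := 1/2 - eps1) (c := 1 / 80) (by rw [he]; norm_num) (by norm_num)
    (C3 + 2 * c2 * eps1) κ
  have e4 := ev_b (δ := 1) (c := 1 / 80) (by norm_num) (by norm_num) C3 κ
  obtain ⟨x₀, hx⟩ := eventually_atTop.1 (((e1.and e2).and (e3.and e4)).and
    ((eventually_gt_atTop (Real.exp 80))))
  refine ⟨x₀, fun b hb => ?_⟩
  obtain ⟨⟨⟨f1, f2⟩, f3, f4⟩, f5⟩ := hx b hb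
  have hb0 : 0 < b := (Real.exp_pos _).trans f5
  have hL80 : 80 < Real.log b := by rw [Real.lt_log_iff_exp_lt hb0]; exact f5
  refine ⟨by linarith, fun y₁ y₀ h1 h0 g1 g0 => ?_⟩
  set L := Real.log b with hL
  have hL0 : 0 < L := by linarith
  have pκ : 0 < L ^ (-κ) := Real.rpow_pos_of_pos hL0 _
  -- (i)
  have i1 : 2 * Real.sqrt ((K * y₁) * (K * y₀) / b) ≤ L ^ (-κ) / 80 * (y₁ + y₀) := by
    have h2 : (K * y₁) * (K * y₀) / b = (K * b ^ (-(1/2):ℝ)) ^ 2 * (y₁ * y₀) := by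
      have : (b ^ (-(1/2):ℝ)) ^ 2 = b⁻¹ := by
        rw [← Real.rpow_natCast, ← Real.rpow_mul hb0.le, ← Real.rpow_neg_one]; norm_num
      rw [mul_pow, this]
      field_simp
    have hKb : 0 ≤ K * b ^ (-(1/2):ℝ) := by positivity
    rw [h2, Real.sqrt_mul (sq_nonneg _), Real.sqrt_sq hKb]
    have h3 := sqrt_le_add h1 h0
    have h4 : K * b ^ (-(1/2):ℝ) ≤ L ^ (-κ) / 80 := by
      rw [Real.rpow_zero, one_mul] at f1
      have h5 : K * b ^ (-(1/2):ℝ) ≤ (K + 1) * (1 / (80 * (K + 1)) * L ^ (-κ)) := by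
        have : 0 ≤ b ^ (-(1/2):ℝ) := by positivity
        exact mul_le_mul (by linarith) f1 this (by linarith)
      refine h5.trans (le_of_eq ?_)
      field_simp
    calc 2 * (K * b ^ (-(1/2):ℝ) * Real.sqrt (y₁ * y₀))
        ≤ 2 * (L ^ (-κ) / 80 * ((y₁ + y₀) / 2)) := by
          refine mul_le_mul_of_nonneg_left ?_ (by norm_num)
          exact mul_le_mul h4 h3 (Real.sqrt_nonneg _) (by positivity)
      _ = _ := by ring
  have i2 : b ^ (-(1/7):ℝ) * (y₁ + y₀) ≤ L ^ (-κ) / 80 * (y₁ + y₀) := by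
    rw [Real.rpow_zero, one_mul] at f2
    refine mul_le_mul_of_nonneg_right ?_ (by positivity)
    linarith
  have i3 : L ^ (-A₀) * (y₁ * y₀) ≤ L ^ (-κ) / 80 * (y₁ + y₀) := by
    have h5 : L ^ (-A₀) * (y₁ * y₀) ≤ L ^ (-A₀) * (y₁ * L ^ c2) :=
      mul_le_mul_of_nonneg_left (mul_le_mul_of_nonneg_left g0 h1) (by positivity)
    have h6 : L ^ (-A₀) * L ^ c2 ≤ L ^ (-κ) / 80 := by
      rw [← Real.rpow_add hL0]
      calc L ^ (-A₀ + c2) ≤ L ^ (-κ + -1) :=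
            Real.rpow_le_rpow_of_exponent_le (by linarith) (by linarith)
        _ = L ^ (-κ) * L⁻¹ := by rw [Real.rpow_add hL0, Real.rpow_neg_one]
        _ ≤ L ^ (-κ) * (1/80) := by
            refine mul_le_mul_of_nonneg_left ?_ pκ.le
            rw [one_div]
            exact inv_anti₀ (by norm_num) hL80.le
        _ = _ := by ring
    calc L ^ (-A₀) * (y₁ * y₀) ≤ (L ^ (-A₀) * L ^ c2) * y₁ := by linarith
      _ ≤ L ^ (-κ) / 80 * y₁ := mul_le_mul_of_nonneg_right h6 h1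
      _ ≤ _ := mul_le_mul_of_nonneg_left (by linarith) (by positivity)
  have i4 : L ^ C3 * (b ^ (-(1/2-eps1)) * (y₁ * y₀) ^ (1/2+eps1)) ≤ L ^ (-κ) / 80 * (y₁ + y₀) := by
    have h5 := pow_le (mul_nonneg h1 h0) hL0 (mul_pow2 h1 h0 hL0 g1 g0)
    have h3 := sqrt_le_add h1 h0
    have h6 : L ^ (C3 + 2 * c2 * eps1) = L ^ C3 * L ^ (2 * c2 * eps1) := Real.rpow_add hL0 _ _
    rw [h6] at f3
    have pb : 0 ≤ b ^ (-(1/2-eps1)) := Real.rpow_nonneg hb0.le _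
    have pC : 0 ≤ L ^ C3 := Real.rpow_nonneg hL0.le _
    calc L ^ C3 * (b ^ (-(1/2-eps1)) * (y₁ * y₀) ^ (1/2+eps1))
        ≤ L ^ C3 * (b ^ (-(1/2-eps1)) * (L ^ (2 * c2 * eps1) * Real.sqrt (y₁ * y₀))) :=
          mul_le_mul_of_nonneg_left (mul_le_mul_of_nonneg_left h5 pb) pC
      _ = (L ^ C3 * L ^ (2 * c2 * eps1) * b ^ (-(1/2-eps1))) * Real.sqrt (y₁ * y₀) := by ring
      _ ≤ (1 / 80 * L ^ (-κ)) * ((y₁ + y₀) / 2) :=
          mul_le_mul f3 h3 (Real.sqrt_nonneg _) (by positivity)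
      _ ≤ _ := by nlinarith [mul_nonneg pκ.le (add_nonneg h1 h0)]
  have i5 : L ^ C3 / b * y₁ ≤ L ^ (-κ) / 80 * (y₁ + y₀) := by
    have h6 : L ^ C3 / b ≤ L ^ (-κ) / 80 := by
      rw [Real.rpow_neg_one] at f4
      rw [div_eq_mul_inv]
      linarith
    calc L ^ C3 / b * y₁ ≤ L ^ (-κ) / 80 * y₁ := mul_le_mul_of_nonneg_right h6 h1
      _ ≤ _ := mul_le_mul_of_nonneg_left (by linarith) (by positivity)
  have : L ^ (-κ) / 16 * (y₁ + y₀) = 5 * (L ^ (-κ) / 80 * (y₁ + y₀)) := by ring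
  rw [this]
  linarith

/-- **difference of exponents at least two**: `x` = far mass, `y` = near mass, `z` = the high one -/
theorem pay1 (K κ A₀ C3 c2 : ℝ) (hK : 0 ≤ K) (hA : κ + c2 + 1 ≤ A₀) :
    ∃ x₀ : ℝ, ∀ b ≥ x₀, 1 < Real.log b ∧ ∀ x y z : ℝ, 0 ≤ x → 0 ≤ y → x ≤ Real.log b ^ c2 →
      y ≤ Real.log b ^ c2 → z ≤ x + y →
      2 * Real.sqrt ((K * x) * (K * y) / b ^ 2) + b ^ (-(13/25):ℝ) * (x * y) ^ (1/2+eps1) +
      (Real.log b ^ (-A₀) * (x * y) +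
        Real.log b ^ C3 * ((b ^ (-(1/2-eps1))) ^ 2 * (x * y) ^ (1/2+eps1)) +
        Real.log b ^ C3 / b ^ 2 * z) ≤ Real.log b ^ (-κ) / 16 * (x + y / b) := by
  have he : eps1 = 1/1000 := rfl
  have e1 := ev_b (δ := 1/2) (c := 1 / (80 * (K + 1))) (by norm_num) (by positivity) 0 κ
  have e2 := ev_b (δ := 1/50) (c := 1 / 80) (by norm_num) (by norm_num) (2 * c2 * eps1) κ
  have e3 := ev_b (δ := 1/2 - 2 * eps1) (c := 1 / 80) (by rw [he]; norm_num) (by norm_num)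
    (C3 + 2 * c2 * eps1) κ
  have e4 := ev_b (δ := 1) (c := 1 / 80) (by norm_num) (by norm_num) C3 κ
  obtain ⟨x₀, hx⟩ := eventually_atTop.1 (((e1.and e2).and (e3.and e4)).and
    ((eventually_gt_atTop (Real.exp 80))))
  refine ⟨x₀, fun b hb => ?_⟩
  obtain ⟨⟨⟨f1, f2⟩, f3, f4⟩, f5⟩ := hx b hb
  have hb0 : 0 < b := (Real.exp_pos _).trans f5
  have hb1 : 1 ≤ b := (Real.one_le_exp (by norm_num)).trans f5.le
  have hL80 : 80 < Real.log b := by rw [Real.lt_log_iff_exp_lt hb0]; exact f5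
  refine ⟨by linarith, fun x y z h1 h0 g1 g0 hz => ?_⟩
  set L := Real.log b with hL
  have hL0 : 0 < L := by linarith
  have pκ : 0 < L ^ (-κ) := Real.rpow_pos_of_pos hL0 _
  have hyb : 0 ≤ y / b := by positivity
  have hxy : 0 ≤ x + y / b := by positivity
  -- `√(xy) = √b √(x y/b)`
  have hsq : Real.sqrt (x * y) = b ^ (1/2:ℝ) * Real.sqrt (x * (y / b)) := by
    rw [← Real.sqrt_eq_rpow, ← Real.sqrt_mul hb0.le]
    congr 1
    field_simp
  have hs := sqrt_le_add h1 hyb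
  have ps := Real.sqrt_nonneg (x * (y / b))
  -- (i)
  have i1 : 2 * Real.sqrt ((K * x) * (K * y) / b ^ 2) ≤ L ^ (-κ) / 80 * (x + y / b) := by
    have h2 : (K * x) * (K * y) / b ^ 2 = (K * b ^ (-(1/2):ℝ)) ^ 2 * (x * (y / b)) := by
      have : (b ^ (-(1/2):ℝ)) ^ 2 = b⁻¹ := by
        rw [← Real.rpow_natCast, ← Real.rpow_mul hb0.le, ← Real.rpow_neg_one]; norm_num
      rw [mul_pow, this]
      field_simp
    have hKb : 0 ≤ K * b ^ (-(1/2):ℝ) := by positivity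
    rw [h2, Real.sqrt_mul (sq_nonneg _), Real.sqrt_sq hKb]
    have h4 : K * b ^ (-(1/2):ℝ) ≤ L ^ (-κ) / 80 := by
      rw [Real.rpow_zero, one_mul] at f1
      have h5 : K * b ^ (-(1/2):ℝ) ≤ (K + 1) * (1 / (80 * (K + 1)) * L ^ (-κ)) := by
        have : 0 ≤ b ^ (-(1/2):ℝ) := by positivity
        exact mul_le_mul (by linarith) f1 this (by linarith)
      refine h5.trans (le_of_eq ?_)
      field_simp
    calc 2 * (K * b ^ (-(1/2):ℝ) * Real.sqrt (x * (y / b)))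
        ≤ 2 * (L ^ (-κ) / 80 * ((x + y / b) / 2)) := by
          refine mul_le_mul_of_nonneg_left ?_ (by norm_num)
          exact mul_le_mul h4 hs ps (by positivity)
      _ = _ := by ring
  have hpw := pow_le (mul_nonneg h1 h0) hL0 (mul_pow2 h1 h0 hL0 g1 g0)
  have i2 : b ^ (-(13/25):ℝ) * (x * y) ^ (1/2+eps1) ≤ L ^ (-κ) / 80 * (x + y / b) := by
    have e5 : b ^ (-(13/25):ℝ) * b ^ (1/2:ℝ) = b ^ (-(1/50):ℝ) := by
      rw [← Real.rpow_add hb0]; norm_num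
    calc b ^ (-(13/25):ℝ) * (x * y) ^ (1/2+eps1)
        ≤ b ^ (-(13/25):ℝ) * (L ^ (2 * c2 * eps1) * Real.sqrt (x * y)) :=
          mul_le_mul_of_nonneg_left hpw (by positivity)
      _ = L ^ (2 * c2 * eps1) * (b ^ (-(13/25):ℝ) * b ^ (1/2:ℝ)) * Real.sqrt (x * (y / b)) := by
          rw [hsq]; ring
      _ = (L ^ (2 * c2 * eps1) * b ^ (-(1/50):ℝ)) * Real.sqrt (x * (y / b)) := by rw [e5]
      _ ≤ (1 / 80 * L ^ (-κ)) * ((x + y / b) / 2) := mul_le_mul f2 hs ps (by positivity)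
      _ ≤ _ := by nlinarith [mul_nonneg pκ.le hxy]
  have i3 : L ^ (-A₀) * (x * y) ≤ L ^ (-κ) / 80 * (x + y / b) := by
    have h5 : L ^ (-A₀) * (x * y) ≤ L ^ (-A₀) * (x * L ^ c2) :=
      mul_le_mul_of_nonneg_left (mul_le_mul_of_nonneg_left g0 h1) (by positivity)
    have h6 : L ^ (-A₀) * L ^ c2 ≤ L ^ (-κ) / 80 := by
      rw [← Real.rpow_add hL0]
      calc L ^ (-A₀ + c2) ≤ L ^ (-κ + -1) :=
            Real.rpow_le_rpow_of_exponent_le (by linarith) (by linarith)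
        _ = L ^ (-κ) * L⁻¹ := by rw [Real.rpow_add hL0, Real.rpow_neg_one]
        _ ≤ L ^ (-κ) * (1/80) := by
            refine mul_le_mul_of_nonneg_left ?_ pκ.le
            rw [one_div]
            exact inv_anti₀ (by norm_num) hL80.le
        _ = _ := by ring
    calc L ^ (-A₀) * (x * y) ≤ (L ^ (-A₀) * L ^ c2) * x := by linarith
      _ ≤ L ^ (-κ) / 80 * x := mul_le_mul_of_nonneg_right h6 h1
      _ ≤ _ := mul_le_mul_of_nonneg_left (by linarith) (by positivity)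
  have i4 : L ^ C3 * ((b ^ (-(1/2-eps1))) ^ 2 * (x * y) ^ (1/2+eps1)) ≤
      L ^ (-κ) / 80 * (x + y / b) := by
    have h6 : L ^ (C3 + 2 * c2 * eps1) = L ^ C3 * L ^ (2 * c2 * eps1) := Real.rpow_add hL0 _ _
    rw [h6] at f3
    have pb : 0 ≤ (b ^ (-(1/2-eps1))) ^ 2 := sq_nonneg _
    have pC : 0 ≤ L ^ C3 := Real.rpow_nonneg hL0.le _
    have e5 : (b ^ (-(1/2-eps1))) ^ 2 * b ^ (1/2:ℝ) = b ^ (-(1/2 - 2*eps1)) := by
      rw [← Real.rpow_natCast, ← Real.rpow_mul hb0.le, ← Real.rpow_add hb0]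
      congr 1
      rw [he]; norm_num
    calc L ^ C3 * ((b ^ (-(1/2-eps1))) ^ 2 * (x * y) ^ (1/2+eps1))
        ≤ L ^ C3 * ((b ^ (-(1/2-eps1))) ^ 2 * (L ^ (2 * c2 * eps1) * Real.sqrt (x * y))) :=
          mul_le_mul_of_nonneg_left (mul_le_mul_of_nonneg_left hpw pb) pC
      _ = (L ^ C3 * L ^ (2 * c2 * eps1) * ((b ^ (-(1/2-eps1))) ^ 2 * b ^ (1/2:ℝ))) *
          Real.sqrt (x * (y / b)) := by rw [hsq]; ring
      _ = (L ^ C3 * L ^ (2 * c2 * eps1) * b ^ (-(1/2 - 2*eps1))) * Real.sqrt (x * (y / b)) := by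
          rw [e5]
      _ ≤ (1 / 80 * L ^ (-κ)) * ((x + y / b) / 2) := mul_le_mul f3 hs ps (by positivity)
      _ ≤ _ := by nlinarith [mul_nonneg pκ.le hxy]
  have i5 : L ^ C3 / b ^ 2 * z ≤ L ^ (-κ) / 80 * (x + y / b) := by
    have h6 : L ^ C3 / b ≤ L ^ (-κ) / 80 := by
      rw [Real.rpow_neg_one] at f4
      rw [div_eq_mul_inv]
      linarith
    have pC : 0 ≤ L ^ C3 := Real.rpow_nonneg hL0.le _
    have h7 : z / b ≤ x + y / b := by
      have h8 : z / b ≤ (x + y) / b := div_le_div_of_nonneg_right hz hb0.le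
      have h9 : x / b ≤ x := div_le_self h1 hb1
      rw [add_div] at h8
      linarith
    calc L ^ C3 / b ^ 2 * z = L ^ C3 / b * (z / b) := by field_simp
      _ ≤ L ^ C3 / b * (x + y / b) := mul_le_mul_of_nonneg_left h7 (by positivity)
      _ ≤ _ := mul_le_mul_of_nonneg_right h6 hxy
  have : L ^ (-κ) / 16 * (x + y / b) = 5 * (L ^ (-κ) / 80 * (x + y / b)) := by ring
  rw [this]
  linarith

end Crest.Agent.R4P.FarPayN7
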