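import Crest.Agent.R4P.FarSp_7
import Crest.Agent.R4P.FarPayN_7

/-!
R4 (S0004), POWERS, module dseR (D3), helper7: **the payment of the cross term of a far node**.

* `zF X κ b t₁ t₀ q` : charge of the item `q`;
* `cr_far` : `CrOk` at every far node, from bounds `K · mass` of the energies of the two children and of
  the children of the base of the near child.
-/

set_option autoImplicit false
set_option linter.unusedSectionVars false
set_option linter.unusedVariables false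

open MeasureTheory Filter

namespace Crest.Agent.R4P.FarPay7

open Crest.Agent.R4P.Cnt588 Crest.Agent.R4P.Item758 Crest.Agent.R4P.W363
open Crest.Agent.R4P.Data758 Crest.Agent.R4P.OmSt532 Crest.Agent.R4P.OmData532
open Crest.Agent.R4P.LfDat734 Crest.Agent.R4P.WPex189
open Crest.Agent.R4P.Bld532
open Crest.Agent.R4P.Step588 (NDt ND1 ctx_NDt uq_lt)
open Crest.Agent.R4P.WalkIT579 (tp isL nodeOk_hi top_of_nodeOk)
open Crest.Agent.R4P.Skel189 Crest.Agent.R4P.RseSt23 Crest.Agent.R4P.RseNd23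
open Crest.Agent.R4.Soft104 (w)
open Crest.Agent.R4P.AvgItem710
open Crest.Agent.R4.ClosL758 Crest.Agent.R4.ClosR758 Crest.Agent.R4.Tour104 Crest.Agent.R4.Fam464
open Crest.Agent.R4.Tour758 Crest.Agent.R4.Avg758
open Crest.Agent.R4P.AddNode7 Crest.Agent.R4P.FarLift7 Crest.Agent.R4P.DseCh23
open Crest.Agent.R4P.DseInd21 (ED)
open Crest.Agent.R4P.FarNear7 Crest.Agent.R4P.FarNode7
open Crest.Agent.R4.Item758 (IL)
open Crest.Agent.R4.ClsS (eps1)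
open Crest.Agent.R4

/-! ### populations -/

section gen
variable {Λ κ : Type*} [Fintype Λ] [DecidableEq Λ] [DecidableEq κ]

lemma Q_Dr_symm (r : Λ → κ) (f g : Λ → ℝ → ℝ) : Q (Dr r) f g = Q (Dr r) g f := by
  unfold Q
  refine Finset.sum_bij (fun e _ => (e.2, e.1)) ?_ ?_ ?_ ?_
  · intro e he
    unfold Dr at he ⊢
    rw [Finset.mem_filter] at he ⊢
    exact ⟨Finset.mem_univ _, he.2.symm⟩
  · intro a _ b _ h
    obtain ⟨h1, h2⟩ := Prod.ext_iff.1 h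
    exact Prod.ext h2 h1
  · intro e he
    refine ⟨(e.2, e.1), ?_, rfl⟩
    unfold Dr at he ⊢
    rw [Finset.mem_filter] at he ⊢
    exact ⟨Finset.mem_univ _, he.2.symm⟩
  · intro e _
    congr 1
    funext x
    exact mul_comm _ _

lemma Q_split_r (E : Finset (Λ × Λ)) (f g : Λ → ℝ → ℝ) (A : Finset Λ) (P : Λ → Prop)
    [DecidablePred P] :
    Q E f (rv A g) = Q E f (rv (A.filter P) g) + Q E f (rv (A.filter fun j => ¬ P j) g) := by
  unfold Q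
  rw [← Finset.sum_add_distrib]
  refine Finset.sum_congr rfl fun e _ => ?_
  have hz : I (fun x => f e.1 x * (0:ℝ)) = 0 := by simp [I]
  by_cases hA : e.2 ∈ A
  · by_cases hP : P e.2
    · have h1 : e.2 ∈ A.filter P := Finset.mem_filter.2 ⟨hA, hP⟩
      have h2 : e.2 ∉ A.filter fun j => ¬ P j := fun h => (Finset.mem_filter.1 h).2 hP
      rw [rv_of_mem hA, rv_of_mem h1, rv_of_not_mem h2, hz, add_zero]
    · have h1 : e.2 ∉ A.filter P := fun h => hP (Finset.mem_filter.1 h).2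
      have h2 : e.2 ∈ A.filter fun j => ¬ P j := Finset.mem_filter.2 ⟨hA, hP⟩
      rw [rv_of_mem hA, rv_of_not_mem h1, rv_of_mem h2, hz, zero_add]
  · have h1 : e.2 ∉ A.filter P := fun h => hA (Finset.mem_filter.1 h).1
    have h2 : e.2 ∉ A.filter fun j => ¬ P j := fun h => hA (Finset.mem_filter.1 h).1
    rw [rv_of_not_mem hA, rv_of_not_mem h1, rv_of_not_mem h2, hz, add_zero]

lemma Q_split_l (E : Finset (Λ × Λ)) (f g : Λ → ℝ → ℝ) (A : Finset Λ) (P : Λ → Prop)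
    [DecidablePred P] :
    Q E (rv A f) g = Q E (rv (A.filter P) f) g + Q E (rv (A.filter fun j => ¬ P j) f) g := by
  unfold Q
  rw [← Finset.sum_add_distrib]
  refine Finset.sum_congr rfl fun e _ => ?_
  have hz : I (fun x => (0:ℝ) * g e.2 x) = 0 := by simp [I]
  by_cases hA : e.1 ∈ A
  · by_cases hP : P e.1
    · have h1 : e.1 ∈ A.filter P := Finset.mem_filter.2 ⟨hA, hP⟩
      have h2 : e.1 ∉ A.filter fun j => ¬ P j := fun h => (Finset.mem_filter.1 h).2 hP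
      rw [rv_of_mem hA, rv_of_mem h1, rv_of_not_mem h2, hz, add_zero]
    · have h1 : e.1 ∉ A.filter P := fun h => hP (Finset.mem_filter.1 h).2
      have h2 : e.1 ∈ A.filter fun j => ¬ P j := Finset.mem_filter.2 ⟨hA, hP⟩
      rw [rv_of_mem hA, rv_of_not_mem h1, rv_of_mem h2, hz, zero_add]
  · have h1 : e.1 ∉ A.filter P := fun h => hA (Finset.mem_filter.1 h).1
    have h2 : e.1 ∉ A.filter fun j => ¬ P j := fun h => hA (Finset.mem_filter.1 h).1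
    rw [rv_of_not_mem hA, rv_of_not_mem h1, rv_of_not_mem h2, hz, add_zero]

lemma Q_empty_r (E : Finset (Λ × Λ)) (f g : Λ → ℝ → ℝ) {A : Finset Λ}
    (h : ∀ j ∈ A, ∀ x, g j x = 0) : Q E f (rv A g) = 0 := by
  unfold Q
  refine Finset.sum_eq_zero fun e _ => ?_
  have hz : I (fun x => f e.1 x * (0:ℝ)) = 0 := by simp [I]
  by_cases hA : e.2 ∈ A
  · have : rv A g e.2 = fun _ => 0 := by rw [rv_of_mem hA]; funext x; exact h _ hA x
    rw [this, hz]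
  · rw [rv_of_not_mem hA, hz]

end gen

section ctx
variable {N : Skel189.Num} {γ : ℝ} {p0 P₀ : ℕ}

open Classical in
/-- **the charge of a far node** -/
noncomputable def zF (X : Ctx N γ p0 P₀) (κ : ℝ) (b : ℕ) (t₀ : IT) (q : ℕ) : ℝ :=
  if q ∈ X.S' then (if q ∈ t₀.items ∧ ¬ spc X b t₀ q then Real.log b ^ (-κ) / b
    else Real.log b ^ (-κ)) else 0

lemma zF_nonneg (X : Ctx N γ p0 P₀) (κ : ℝ) (b : ℕ) (t₀ : IT) (q : ℕ) : 0 ≤ zF X κ b t₀ q := by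
  unfold zF
  have := Real.log_natCast_nonneg b
  split_ifs <;> positivity

/-- **all the pairs of one world** -/
theorem pair_all {X : Ctx N γ p0 P₀} {Y : Finset (ℕ × ℕ × Finset ℕ)} {u : NS} {b m : ℕ} {th tl : IT}
    {Ah Al : Finset X.c.Lam} {L1 L2 U1 : ℝ}
    (hl : Q (DL X Y b) (rv Ah (Uw X Y u th)) (rv Al (Uw X Y u tl)) ≤ L1 + L2)
    (hu : Q (DU X Y b) (rv Ah (Uw X Y u th)) (rv Al (Uw X Y u tl)) ≤ U1) :
    Q (Dr ((X.c.D.par Y).rho b)) (rv Ah (Uw X Y u th)) (rv Al (Uw X Y u tl)) ≤ L1 + L2 + U1 := by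
  rw [Q_DL_DU]
  exact add_le_add hl hu

set_option maxHeartbeats 1000000 in
/-- **pairs whose exponents differ by at least one**: charge of both masses -/
theorem pair0 : ∃ κ₀ : ℝ, 0 ≤ κ₀ ∧ ∀ (N : Skel189.Num) (Ct A₀ K κ : ℝ), 0 ≤ Ct → 0 ≤ A₀ →
    0 ≤ K → κ + N.c2 + 1 ≤ A₀ →
    ∃ p₁ : ℕ, ∀ p0 ≥ p₁, ∀ (γ : ℝ) (P₀ : ℕ), 2 ≤ P₀ →
    ∀ X : Ctx N γ p0 P₀, RseH X → X.c.d1 * Kc X.S ≤ 1 →
    (∀ p, p0 < p → Real.log p ^ (-Ct) ≤ X.c.wp.thr p) →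
    ∀ (Y : Finset (ℕ × ℕ × Finset ℕ)) (u : NS) (τ : IT) (b i : ℕ) (th tl : IT)
      (Ah Al : Finset X.c.Lam), PR X Y u τ b i 0 th tl Ah Al → ∀ y₁ y₀ : ℝ,
      y₁ ≤ Real.log b ^ N.c2 → y₀ ≤ Real.log b ^ N.c2 →
      mA X u th Ah ≤ y₁ → mA X u tl Al ≤ y₀ →
      eA X Y b u th Ah ≤ K * y₁ → eA X Y b u tl Al ≤ K * y₀ → 0 ≤ eA X Y b u tl Al →
      Q (Dr ((X.c.D.par Y).rho b)) (rv Ah (Uw X Y u th)) (rv Al (Uw X Y u tl)) ≤
        Real.log b ^ (-κ) / 16 * (y₁ + y₀) := by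
  obtain ⟨κ₀, hκ₀, HU⟩ := unl_pair
  refine ⟨κ₀, hκ₀, fun N Ct A₀ K κ hCt hA₀ hK hA => ?_⟩
  obtain ⟨p1, h1⟩ := lab_pair N
  obtain ⟨p2, h2⟩ := HU N Ct A₀ hCt hA₀
  obtain ⟨x₀, h3⟩ := FarPayN7.pay0 K κ A₀ (κ₀ + (Ct + A₀) / 500) N.c2 hK hA
  refine ⟨p1 + p2 + ⌈x₀⌉₊ + 2, fun p0 hp0 γ P₀ hP X hX hd1 hthr Y u τ b i th tl Ah Al P y₁ y₀
    g1 g0 m1 m0 e1 e0 e0' => ?_⟩
  have he : LL207.e1 = eps1 := by unfold LL207.e1; rfl
  have he' : eps1 = 1/1000 := rfl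
  have hc0 := P.nf.c0.le
  have hb : p0 < b := by
    obtain ⟨-, k2, -⟩ := nodeOk_hi P.nf.nd.self.node P.nl
    rw [← P.col]; exact k2
  have hbR : (0:ℝ) < b := by exact_mod_cast (by omega : 0 < b)
  obtain ⟨hL, h3'⟩ := h3 b ((Nat.le_ceil _).trans (by exact_mod_cast (by omega : ⌈x₀⌉₊ ≤ b)))
  have hM1 := mA_nonneg (X := X) hc0 th Ah
  have hM0 := mA_nonneg (X := X) hc0 tl Al
  have hy1 : 0 ≤ y₁ := hM1.trans m1
  have hy0 : 0 ≤ y₀ := hM0.trans m0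
  have key := h3' y₁ y₀ hy1 hy0 g1 g0
  have hlab := h1 p0 (by omega) γ P₀ hP X hX hd1 Y u τ b i 0 th tl Ah Al P
  have hunl := h2 p0 (by omega) γ P₀ hP X hX hthr Y u τ b i 0 th tl Ah Al P
  rw [if_pos rfl, zero_add, pow_one] at hlab
  rw [zero_add, pow_one, pow_one] at hunl
  have hall := pair_all (m := 0) hlab hunl
  refine hall.trans (le_trans ?_ key)
  have hl0 : 0 ≤ Real.log (b:ℝ) := by linarith
  have s1 : eA X Y b u th Ah * eA X Y b u tl Al / b ≤ (K * y₁) * (K * y₀) / b :=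
    div_le_div_of_nonneg_right (mul_le_mul e1 e0 e0' (mul_nonneg hK hy1)) hbR.le
  have s2 := Real.sqrt_le_sqrt s1
  have s3 : mA X u th Ah * mA X u tl Al ≤ y₁ * y₀ := mul_le_mul m1 m0 hM0 hy1
  have s4 := Real.rpow_le_rpow (mul_nonneg hM1 hM0) s3 (by rw [he']; norm_num : (0:ℝ) ≤ 1/2+eps1)
  refine add_le_add (add_le_add ?_ ?_) (add_le_add (add_le_add ?_ ?_) ?_)
  · exact mul_le_mul_of_nonneg_left s2 (by norm_num)
  · exact mul_le_mul_of_nonneg_left (add_le_add m1 m0) (by positivity)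
  · exact mul_le_mul_of_nonneg_left s3 (by positivity)
  · exact mul_le_mul_of_nonneg_left (mul_le_mul_of_nonneg_left s4 (by positivity)) (by positivity)
  · exact mul_le_mul_of_nonneg_left m1 (by positivity)

set_option maxHeartbeats 1000000 in
/-- **pairs whose exponents differ by at least two**: charge of the far mass `x` and of the near mass
`y` divided by `b` -/
theorem pair1 : ∃ κ₀ : ℝ, 0 ≤ κ₀ ∧ ∀ (N : Skel189.Num) (Ct A₀ K κ : ℝ), 0 ≤ Ct → 0 ≤ A₀ →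
    0 ≤ K → κ + N.c2 + 1 ≤ A₀ →
    ∃ p₁ : ℕ, ∀ p0 ≥ p₁, ∀ (γ : ℝ) (P₀ : ℕ), 2 ≤ P₀ →
    ∀ X : Ctx N γ p0 P₀, RseH X → X.c.d1 * Kc X.S ≤ 1 →
    (∀ p, p0 < p → Real.log p ^ (-Ct) ≤ X.c.wp.thr p) →
    ∀ (Y : Finset (ℕ × ℕ × Finset ℕ)) (u : NS) (τ : IT) (b i : ℕ) (th tl : IT)
      (Ah Al : Finset X.c.Lam), PR X Y u τ b i 1 th tl Ah Al → ∀ x y z₁ z₀ : ℝ,
      (z₁ = x ∧ z₀ = y ∨ z₁ = y ∧ z₀ = x) → 0 ≤ x → 0 ≤ y →
      x ≤ Real.log b ^ N.c2 → y ≤ Real.log b ^ N.c2 →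
      mA X u th Ah ≤ z₁ → mA X u tl Al ≤ z₀ →
      eA X Y b u th Ah ≤ K * z₁ → eA X Y b u tl Al ≤ K * z₀ → 0 ≤ eA X Y b u tl Al →
      Q (Dr ((X.c.D.par Y).rho b)) (rv Ah (Uw X Y u th)) (rv Al (Uw X Y u tl)) ≤
        Real.log b ^ (-κ) / 16 * (x + y / b) := by
  obtain ⟨κ₀, hκ₀, HU⟩ := unl_pair
  refine ⟨κ₀, hκ₀, fun N Ct A₀ K κ hCt hA₀ hK hA => ?_⟩
  obtain ⟨p1, h1⟩ := lab_pair N
  obtain ⟨p2, h2⟩ := HU N Ct A₀ hCt hA₀
  obtain ⟨x₀, h3⟩ := FarPayN7.pay1 K κ A₀ (κ₀ + (Ct + A₀) / 500) N.c2 hK hA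
  refine ⟨p1 + p2 + ⌈x₀⌉₊ + 2, fun p0 hp0 γ P₀ hP X hX hd1 hthr Y u τ b i th tl Ah Al P x y z₁ z₀
    hz hx hy g1 g0 m1 m0 e1 e0 e0' => ?_⟩
  have he : LL207.e1 = eps1 := by unfold LL207.e1; rfl
  have he' : eps1 = 1/1000 := rfl
  have hc0 := P.nf.c0.le
  have hb : p0 < b := by
    obtain ⟨-, k2, -⟩ := nodeOk_hi P.nf.nd.self.node P.nl
    rw [← P.col]; exact k2
  have hbR : (0:ℝ) < b := by exact_mod_cast (by omega : 0 < b)
  obtain ⟨hL, h3'⟩ := h3 b ((Nat.le_ceil _).trans (by exact_mod_cast (by omega : ⌈x₀⌉₊ ≤ b)))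
  have hM1 := mA_nonneg (X := X) hc0 th Ah
  have hM0 := mA_nonneg (X := X) hc0 tl Al
  have hz1 : 0 ≤ z₁ := hM1.trans m1
  have hz0 : 0 ≤ z₀ := hM0.trans m0
  have hzz : z₁ * z₀ = x * y := by
    rcases hz with ⟨rfl, rfl⟩ | ⟨rfl, rfl⟩
    · rfl
    · exact mul_comm _ _
  have hzs : z₁ ≤ x + y := by
    rcases hz with ⟨rfl, rfl⟩ | ⟨rfl, rfl⟩ <;> linarith
  have key := h3' x y z₁ hx hy g1 g0 hzs
  have hlab := h1 p0 (by omega) γ P₀ hP X hX hd1 Y u τ b i 1 th tl Ah Al P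
  have hunl := h2 p0 (by omega) γ P₀ hP X hX hthr Y u τ b i 1 th tl Ah Al P
  rw [if_neg one_ne_zero, he] at hlab
  have e2 : (1:ℕ) + 1 = 2 := rfl
  rw [e2] at hlab hunl
  have hall := pair_all (m := 1) hlab hunl
  refine hall.trans (le_trans ?_ key)
  have hl0 : 0 ≤ Real.log (b:ℝ) := by linarith
  have hKK : (K * z₁) * (K * z₀) = (K * x) * (K * y) := by
    calc (K * z₁) * (K * z₀) = K * K * (z₁ * z₀) := by ring
      _ = _ := by rw [hzz]; ring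
  have s1 : eA X Y b u th Ah * eA X Y b u tl Al / (b:ℝ) ^ 2 ≤ (K * x) * (K * y) / (b:ℝ) ^ 2 := by
    rw [← hKK]
    exact div_le_div_of_nonneg_right (mul_le_mul e1 e0 e0' (mul_nonneg hK hz1)) (by positivity)
  have s2 := Real.sqrt_le_sqrt s1
  have s3 : mA X u th Ah * mA X u tl Al ≤ x * y := by
    rw [← hzz]; exact mul_le_mul m1 m0 hM0 hz1
  have s4 := Real.rpow_le_rpow (mul_nonneg hM1 hM0) s3 (by rw [he']; norm_num : (0:ℝ) ≤ 1/2+eps1)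
  refine add_le_add (add_le_add ?_ ?_) (add_le_add (add_le_add ?_ ?_) ?_)
  · exact mul_le_mul_of_nonneg_left s2 (by norm_num)
  · exact mul_le_mul_of_nonneg_left s4 (by positivity)
  · exact mul_le_mul_of_nonneg_left s3 (by positivity)
  · exact mul_le_mul_of_nonneg_left (mul_le_mul_of_nonneg_left s4 (by positivity)) (by positivity)
  · exact mul_le_mul_of_nonneg_left m1 (by positivity)

end ctx

end Crest.Agent.R4P.FarPay7
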