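import Crest.Agent.R4P.FarPair_7
import Crest.Agent.R4P.DseInd_21

/-!
R4 (S0004), POWERS, module dseR (D3), helper7: **the atypical items of the near child** (missing or
retained at `b`): masses and energies.

* `NE` : the energies of the children of the base of a near child;
* `spc` : `b` is missing or retained, or the base is a leaf; `Msp` : mass of these items;
* `near_sp` : energies and masses of the items of exponents `< K` and `> K` by `Msp`.
-/

set_option autoImplicit false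
set_option linter.unusedSectionVars false
set_option linter.unusedVariables false

open MeasureTheory Filter

namespace Crest.Agent.R4P.FarNode7

open Crest.Agent.R4P.Cnt588 Crest.Agent.R4P.Item758 Crest.Agent.R4P.W363
open Crest.Agent.R4P.Data758 Crest.Agent.R4P.OmSt532 Crest.Agent.R4P.OmData532
open Crest.Agent.R4P.LfDat734 Crest.Agent.R4P.WPex189
open Crest.Agent.R4P.Bld532
open Crest.Agent.R4P.Step588 (NDt ND1 ctx_NDt uq_lt)
open Crest.Agent.R4P.WalkIT579 (tp isL nodeOk_hi top_of_nodeOk)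
open Crest.Agent.R4P.Skel189 Crest.Agent.R4P.RseSt23 Crest.Agent.R4P.RseNd23
open Crest.Agent.R4.Soft104 (w)
open Crest.Agent.R4P.AvgItem710
open Crest.Agent.R4.ClosL758 Crest.Agent.R4.ClosR758 Crest.Agent.R4.Tour104 Crest.Agent.R4.Fam464
open Crest.Agent.R4.Tour758 Crest.Agent.R4.Avg758
open Crest.Agent.R4P.AddNode7 Crest.Agent.R4P.FarLift7 Crest.Agent.R4P.DseCh23
open Crest.Agent.R4P.DseInd21 (ED)
open Crest.Agent.R4P.FarNear7
open Crest.Agent.R4

section ctx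
variable {N : Skel189.Num} {γ : ℝ} {p0 P₀ : ℕ}

/-- **energies of the children of the base of a near child** -/
def NE (X : Ctx N γ p0 P₀) (Y : Finset (ℕ × ℕ × Finset ℕ)) (A : Finset X.c.Lam) (K : ℝ) :
    NS → IT → Prop
  | u, .br p _ t₁ t₀ =>
      ED X Y (A ∩ X.c.sp p) p ⟨p, u.c / (1 - 1 / (p : ℝ)), u.A * p, u.B⟩ t₁ ≤
        K * (u.c / (1 - 1 / (p : ℝ)) * ∑ q ∈ al X t₁ (A ∩ X.c.sp p), w X.ψ q) ∧
      ED X Y A p ⟨p, u.c * p, u.A, u.B * p⟩ t₀ ≤ K * (u.c * p * ∑ q ∈ al X t₀ A, w X.ψ q)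
  | u, .up p _ t => ED X Y (A ∩ X.c.sp p) p ⟨p, u.c, u.A, u.B⟩ t ≤
        K * (u.c * ∑ q ∈ al X t (A ∩ X.c.sp p), w X.ψ q)
  | u, .pl p t => NE X Y A K ⟨p + 1, u.c, u.A * p, u.B⟩ t
  | _, _ => True

/-- the base under the pulls is a leaf -/
def lfB : IT → Prop
  | .leaf _ => True
  | .pl _ t => lfB t
  | _ => False

/-- special items of a near child -/
def spc (X : Ctx N γ p0 P₀) (b : ℕ) (t₀ : IT) (q : ℕ) : Prop :=
  b ∈ X.c.t.mt q ∨ b ∈ X.c.t.uq q ∨ lfB t₀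

variable {X : Ctx N γ p0 P₀} {u : NS} {b : ℕ} {t₁ t₀ : IT}

lemma lfB_plk {p : ℕ} {t : IT} : ∀ i : ℕ, lfB (plk p i t) ↔ lfB t
  | 0 => Iff.rfl
  | i + 1 => lfB_plk i

lemma NE_plk {Y : Finset (ℕ × ℕ × Finset ℕ)} {A : Finset X.c.Lam} {K : ℝ} {p : ℕ} {t : IT} :
    ∀ (i : ℕ) (u : NS), u.n = p + 1 → NE X Y A K u (plk p i t) →
      NE X Y A K ⟨p + 1, u.c, u.A * p ^ i, u.B⟩ t := by
  intro i
  induction i with
  | zero =>
    intro u hn h
    rw [pow_zero, mul_one, ← hn]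
    exact h
  | succ i ih =>
    intro u hn h
    have h' : NE X Y A K ⟨p + 1, u.c, u.A * p, u.B⟩ (plk p i t) := h
    have := ih ⟨p + 1, u.c, u.A * p, u.B⟩ rfl h'
    have e : u.A * p ^ (i + 1) = u.A * p * p ^ i := by ring
    rw [e]
    exact this

/-- energies are monotone in the population -/
lemma eA_mono {t : IT} (h : NDt X.par (w X.ψ) X.c.t u t) (Y : Finset (ℕ × ℕ × Finset ℕ)) (b : ℕ)
    {A A' : Finset X.c.Lam} (hA : ∀ j ∈ A', j.1.1 ∈ t.items → j ∈ A) :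
    eA X Y b u t A' ≤ eA X Y b u t A := by
  have pu := PB_Uw h Y
  refine Q_mono (fun j => PB_rv pu A' j) (fun j => PB_rv pu A' j) (fun j => PB_rv pu A j)
    (fun j => PB_rv pu A j) ?_ ?_ <;>
  · intro j x
    rw [rv_apply, rv_apply]
    by_cases hj : j ∈ A'
    · rw [if_pos hj]
      by_cases hj' : j.1.1 ∈ t.items
      · rw [if_pos (hA j hj hj')]
      · rw [Uw_zero Y hj']
        split_ifs <;> exact le_rfl
    · rw [if_neg hj]
      split_ifs
      · exact (pu j).nonneg x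
      · exact le_rfl

lemma eA_nonneg {t : IT} (h : NDt X.par (w X.ψ) X.c.t u t) (Y : Finset (ℕ × ℕ × Finset ℕ)) (b : ℕ)
    (A : Finset X.c.Lam) : 0 ≤ eA X Y b u t A := by
  have pu := PB_Uw h Y
  unfold eA Q
  exact Finset.sum_nonneg fun e _ => Tour104.I_nonneg fun x =>
    mul_nonneg ((PB_rv pu A _).nonneg x) ((PB_rv pu A _).nonneg x)

/-- energies of empty populations -/
lemma eA_zero {t : IT} (h : NDt X.par (w X.ψ) X.c.t u t) (Y : Finset (ℕ × ℕ × Finset ℕ)) (b : ℕ)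
    {A : Finset X.c.Lam} (hA : ∀ j ∈ A, j.1.1 ∉ t.items) : eA X Y b u t A = 0 := by
  refine le_antisymm ?_ (eA_nonneg h Y b A)
  refine (eA_mono h Y b (A := ∅) fun j hj hj' => absurd hj' (hA j hj)).trans (le_of_eq ?_)
  unfold eA Q
  refine Finset.sum_eq_zero fun e _ => ?_
  rw [rv_of_not_mem (Finset.notMem_empty _)]
  simp [I]

lemma mA_le {t : IT} (hc : 0 ≤ u.c) {S : Finset ℕ} {A : Finset X.c.Lam} (h : al X t A ⊆ S) :
    mA X u t A ≤ u.c * ∑ q ∈ S, w X.ψ q :=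
  mul_le_mul_of_nonneg_left (Finset.sum_le_sum_of_subset_of_nonneg h fun q _ _ => X.hW q) hc

lemma mem_al {t : IT} {A : Finset X.c.Lam} {q : ℕ} :
    q ∈ al X t A ↔ q ∈ t.items ∧ q ∈ X.S' ∧ ∃ j ∈ A, j.1.1 = q := by
  unfold al; rw [Finset.mem_filter]

open Classical in
/-- alive special items -/
noncomputable def Sps (X : Ctx N γ p0 P₀) (b : ℕ) (t₀ : IT) (A : Finset X.c.Lam) : Finset ℕ :=
  (al X t₀ A).filter (spc X b t₀)

open Classical in
lemma mem_Sps {A : Finset X.c.Lam} {q : ℕ} :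
    q ∈ Sps X b t₀ A ↔ q ∈ al X t₀ A ∧ spc X b t₀ q := by
  unfold Sps; rw [Finset.mem_filter]

/-- mass of the alive special items -/
noncomputable def Msp (X : Ctx N γ p0 P₀) (u : NS) (b : ℕ) (t₀ : IT) (A : Finset X.c.Lam) : ℝ :=
  u.c * ∑ q ∈ Sps X b t₀ A, w X.ψ q

/-- missing primes of a node are missing primes of the items -/
lemma mt_up {τ : IT} (h : NDt X.par (w X.ψ) X.c.t u τ) {q p : ℕ} (hq : q ∈ τ.items)
    (hp : p ∈ τ.mt q) : p ∈ X.c.t.mt q := by
  have h1 := h.self.mp q hq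
  have hpp : p.Prime := (BldF542.mt_lt τ u.n h.self.ok q p hp).1
  have h2 : p ∣ mp τ q := by
    rw [BldF542.mp_eq_prod τ u.n h.self.ok]
    exact Finset.dvd_prod_of_mem (fun i => i) hp
  have h3 : p ∣ mp X.c.t q := by rw [h1]; exact h2.mul_left _
  rw [BldF542.mp_eq_prod X.c.t _ X.tOk, hpp.prime.dvd_finsetProd_iff] at h3
  obtain ⟨c, hc, hpc⟩ := h3
  have hcp := (BldF542.mt_lt X.c.t _ X.tOk q c hc).1
  have : p = c := (Nat.prime_dvd_prime_iff_eq hpp hcp).1 hpc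
  rw [this]; exact hc

open Classical in
set_option maxHeartbeats 1000000 in
/-- **energies and masses of the atypical items of a near child** -/
theorem near_sp (hb : b.Prime) (hc : 0 < u.c) (hA0 : 0 < u.A) {i K : ℕ} {t : IT} (hB : NB b t)
    (ht : NDt X.par (w X.ψ) X.c.t ⟨b + 1, u.c, u.A * b ^ i, u.B⟩ t) (hK : KT i K t)
    (h0 : NDt X.par (w X.ψ) X.c.t ⟨b + 1, u.c, u.A, u.B⟩ (plk b i t))
    (hnear : ∀ q ∈ (plk b i t).items, ¬ b ^ (K + 2) ∣ q / u.A)
    (Y : Finset (ℕ × ℕ × Finset ℕ)) (A : Finset X.c.Lam) {C : ℝ} (hC : 0 ≤ C)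
    (hE0 : eA X Y b u (plk b i t) A ≤ C * mA X u (plk b i t) A)
    (hNE : NE X Y A C ⟨b + 1, u.c, u.A * b ^ i, u.B⟩ t) :
    eA X Y b u (plk b i t) (A.filter fun j => ¬ b ^ K ∣ j.1.1 / u.A) ≤
        2 * C * Msp X u b (plk b i t) A ∧
      eA X Y b u (plk b i t) (A.filter fun j => b ^ (K + 1) ∣ j.1.1 / u.A) ≤
        2 * C * Msp X u b (plk b i t) A ∧
      mA X u (plk b i t) (A.filter fun j => ¬ b ^ K ∣ j.1.1 / u.A) ≤ Msp X u b (plk b i t) A ∧
      mA X u (plk b i t) (A.filter fun j => b ^ (K + 1) ∣ j.1.1 / u.A) ≤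
        Msp X u b (plk b i t) A := by
  have hit : (plk b i t).items = t.items := plk_items i
  have hbi : 0 < b ^ i := pow_pos hb.pos i
  have hbR : (0:ℝ) < b := by exact_mod_cast hb.pos
  have hb2 : (2:ℝ) ≤ b := by exact_mod_cast hb.two_le
  have h0' : NDt X.par (w X.ψ) X.c.t ⟨b + 1, u.c, u.A, u.B⟩ (plk b i t) := h0
  have hMsp0 : 0 ≤ Msp X u b (plk b i t) A :=
    mul_nonneg hc.le (Finset.sum_nonneg fun q _ => X.hW q)
  have hdiv : ∀ q ∈ t.items, b ^ i ∣ q / u.A ∧ q / (u.A * b ^ i) = q / u.A / b ^ i := fun q hq =>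
    dvd_of_plk (S := ∅) ht hq ((Dvd.intro _ rfl).trans (ht.bk.dvd q hq)) hA0
  have hup : ∀ q ∈ t.items, ∀ m : ℕ, (b ^ m ∣ q / (u.A * b ^ i) ↔ b ^ (i + m) ∣ q / u.A) := by
    intro q hq m
    obtain ⟨d1, d2⟩ := hdiv q hq
    rw [d2]
    obtain ⟨c, hc⟩ := d1
    rw [hc, Nat.mul_div_cancel_left _ hbi, pow_add, Nat.mul_dvd_mul_iff_left hbi]
  -- monotonicity of energies on the near child (state `u`)
  have hmono : ∀ {A₁ A₂ : Finset X.c.Lam}, (∀ j ∈ A₁, j.1.1 ∈ (plk b i t).items → j ∈ A₂) →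
      eA X Y b u (plk b i t) A₁ ≤ eA X Y b u (plk b i t) A₂ := fun {A₁ A₂} h =>
    eA_mono (u := ⟨b + 1, u.c, u.A, u.B⟩) h0' Y b h
  -- masses
  have hmass : ∀ {A₁ : Finset X.c.Lam}, A₁ ⊆ A → (∀ j ∈ A₁, j.1.1 ∈ t.items → spc X b (plk b i t) j.1.1) →
      mA X u (plk b i t) A₁ ≤ Msp X u b (plk b i t) A := by
    intro A₁ hA₁ hsp
    refine mA_le hc.le fun q hq => ?_
    obtain ⟨a1, a2, j, hj, rfl⟩ := mem_al.1 hq
    refine mem_Sps.2 ⟨mem_al.2 ⟨a1, a2, j, hA₁ hj, rfl⟩, hsp j hj ?_⟩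
    rw [← hit]; exact a1
  cases hB with
  | leaf S =>
    have hsp : ∀ q, spc X b (plk b i (.leaf S)) q := fun q =>
      Or.inr (Or.inr ((lfB_plk i).2 trivial))
    have e : mA X u (plk b i (.leaf S)) A ≤ Msp X u b (plk b i (.leaf S)) A :=
      hmass subset_rfl fun j _ _ => hsp _
    have key : ∀ {A₁ : Finset X.c.Lam}, A₁ ⊆ A → eA X Y b u (plk b i (.leaf S)) A₁ ≤
        2 * C * Msp X u b (plk b i (.leaf S)) A := by
      intro A₁ hA₁
      refine (hmono fun j hj _ => hA₁ hj).trans (hE0.trans ?_)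
      have := mul_le_mul_of_nonneg_left e hC
      nlinarith [mul_nonneg hC hMsp0]
    exact ⟨key (Finset.filter_subset _ _), key (Finset.filter_subset _ _),
      hmass (Finset.filter_subset _ _) fun j _ _ => hsp _,
      hmass (Finset.filter_subset _ _) fun j _ _ => hsp _⟩
  | br Sp s₁ s₀ =>
    have hK' : K = i + 1 := hK
    subst hK'
    obtain ⟨-, -, -, -, -, f1, f0, fS, -⟩ := ht.self.node
    have f1' : s₁.items = dv (u.A * b ^ i) b (s₁.items ∪ s₀.items) := f1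
    have f0' : s₀.items = nd (u.A * b ^ i) b (s₁.items ∪ s₀.items) := f0
    have fS' : Sp = dv (u.A * b ^ i) (b ^ 2) (s₁.items ∪ s₀.items) := fS
    have hdj : Disjoint s₁.items s₀.items := ht.fit.2.2.1
    have hm0 : ∀ q ∈ (IT.br b Sp s₁ s₀).items, ¬ b ^ (i + 1) ∣ q / u.A → q ∈ s₀.items := by
      intro q hq hn
      rw [f0', mem_nd]
      refine ⟨hq, fun hd => hn ?_⟩
      exact (hup q hq 1).1 (by rwa [pow_one])
    have hm1 : ∀ q ∈ s₁.items, b ^ (i + 1) ∣ q / u.A := by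
      intro q hq
      have hq' : q ∈ (IT.br b Sp s₁ s₀).items := Finset.mem_union_left _ hq
      rw [f1', mem_dv] at hq
      exact (hup q hq' 1).1 (by rw [pow_one]; exact hq.2)
    have hmS : ∀ q ∈ (IT.br b Sp s₁ s₀).items, b ^ (i + 1 + 1) ∣ q / u.A → q ∈ Sp := by
      intro q hq hd
      rw [fS', mem_dv]
      exact ⟨hq, (hup q hq 2).2 hd⟩
    have hSps1 : Sp ⊆ s₁.items := by
      intro q hq
      rw [fS', mem_dv] at hq
      rw [f1', mem_dv]
      exact ⟨hq.1, (dvd_pow_self b two_ne_zero).trans hq.2⟩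
    -- missing / retained
    have hmt : ∀ q ∈ s₀.items, b ∈ X.c.t.mt q := by
      intro q hq
      refine mt_up ht (Finset.mem_union_right _ hq) ?_
      show b ∈ (if q ∈ s₀.items then insert b (s₀.mt q) else s₁.mt q)
      rw [if_pos hq]
      exact Finset.mem_insert_self _ _
    have huq : ∀ q ∈ Sp, b ∈ X.c.t.uq q := by
      intro q hq
      have hq1 := hSps1 hq
      have hq0 : q ∉ s₀.items := Finset.disjoint_left.1 hdj hq1
      refine (ht.self.lo q (Finset.mem_union_left _ hq1) b (Nat.lt_succ_self b)).2 ?_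
      show b ∈ (if q ∈ s₀.items then s₀.uq q else if q ∈ Sp then insert b (s₁.uq q) else s₁.uq q)
      rw [if_neg hq0, if_pos hq]
      exact Finset.mem_insert_self _ _
    obtain ⟨n1, n0⟩ := hNE
    refine ⟨?_, ?_, ?_, ?_⟩
    · -- missing items
      have k1 := E_miss (X := X) (u := u) hb ht Y A (A.filter fun j => ¬ b ^ (i + 1) ∣ j.1.1 / u.A)
        (Finset.filter_subset _ _)
        (fun j hj hj1 => (Finset.mem_filter.1 hj).2 (hm1 _ hj1)) (Dr ((X.c.D.par Y).rho b))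
      refine le_trans k1 ?_
      have k2 : Q (Dr ((X.c.D.par Y).rho b)) (rv A (Uw X Y ⟨b, u.c * b, u.A * b ^ i, u.B * b⟩ s₀))
          (rv A (Uw X Y ⟨b, u.c * b, u.A * b ^ i, u.B * b⟩ s₀)) ≤
          C * (u.c * b * ∑ q ∈ al X s₀ A, w X.ψ q) := n0
      have k3 : u.c * ∑ q ∈ al X s₀ A, w X.ψ q ≤ Msp X u b (plk b i (.br b Sp s₁ s₀)) A := by
        refine mul_le_mul_of_nonneg_left (Finset.sum_le_sum_of_subset_of_nonneg (fun q hq => ?_)
          fun q _ _ => X.hW q) hc.le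
        obtain ⟨a1, a2⟩ := mem_al.1 hq
        refine mem_Sps.2 ⟨mem_al.2 ⟨?_, a2⟩, Or.inl (hmt q a1)⟩
        rw [hit]; exact Finset.mem_union_right _ a1
      have k4 : C * (u.c * b * ∑ q ∈ al X s₀ A, w X.ψ q) / b =
          C * (u.c * ∑ q ∈ al X s₀ A, w X.ψ q) := by field_simp
      have k5 := div_le_div_of_nonneg_right k2 hbR.le
      rw [k4] at k5
      have k6 := mul_le_mul_of_nonneg_left k3 hC
      have k7 := mul_nonneg hC hMsp0
      linarith
    · -- retained items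
      have k0 : eA X Y b u (plk b i (.br b Sp s₁ s₀))
            (A.filter fun j => b ^ (i + 1 + 1) ∣ j.1.1 / u.A) ≤
          eA X Y b u (plk b i (.br b Sp s₁ s₀)) (A.filter fun j => j.1.1 ∈ Sp) :=
        hmono fun j hj hj' => by
          obtain ⟨a1, a2⟩ := Finset.mem_filter.1 hj
          exact Finset.mem_filter.2 ⟨a1, hmS _ (by rw [← hit]; exact hj') a2⟩
      have k1 := E_ret_br (X := X) (u := u) hb ht Y (A ∩ X.c.sp b) (A.filter fun j => j.1.1 ∈ Sp)
        (fun j hj => by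
          obtain ⟨a1, a2⟩ := Finset.mem_filter.1 hj
          refine Finset.mem_inter.2 ⟨a1, ?_⟩
          unfold Cf.sp
          exact Finset.mem_filter.2 ⟨Finset.mem_univ _, huq _ a2⟩)
        (fun j hj => Finset.disjoint_left.1 hdj (hSps1 (Finset.mem_filter.1 hj).2))
        (Dr ((X.c.D.par Y).rho b))
      have k2 : Q (Dr ((X.c.D.par Y).rho b))
          (rv (A ∩ X.c.sp b) (Uw X Y ⟨b, u.c / (1 - 1 / (b : ℝ)), u.A * b ^ i * b, u.B⟩ s₁))
          (rv (A ∩ X.c.sp b) (Uw X Y ⟨b, u.c / (1 - 1 / (b : ℝ)), u.A * b ^ i * b, u.B⟩ s₁)) ≤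
          C * (u.c / (1 - 1 / (b : ℝ)) * ∑ q ∈ al X s₁ (A ∩ X.c.sp b), w X.ψ q) := n1
      refine (k0.trans k1).trans (k2.trans ?_)
      have k3 : ∑ q ∈ al X s₁ (A ∩ X.c.sp b), w X.ψ q ≤
          ∑ q ∈ Sps X b (plk b i (.br b Sp s₁ s₀)) A, w X.ψ q := by
        refine Finset.sum_le_sum_of_subset_of_nonneg (fun q hq => ?_) fun q _ _ => X.hW q
        obtain ⟨a1, a2, j, hj, rfl⟩ := mem_al.1 hq
        obtain ⟨j1, j2⟩ := Finset.mem_inter.1 hj
        refine mem_Sps.2 ⟨mem_al.2 ⟨?_, a2, j, j1, rfl⟩, Or.inr (Or.inl ?_)⟩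
        · rw [hit]; exact Finset.mem_union_left _ a1
        · unfold Cf.sp at j2
          exact (Finset.mem_filter.1 j2).2
      have hinv : 1 / (1 - 1 / (b:ℝ)) ≤ 2 := by
        have h1 : 1 / (b:ℝ) ≤ 1 / 2 := one_div_le_one_div_of_le (by norm_num) hb2
        have h2 : (1:ℝ)/2 ≤ 1 - 1 / (b:ℝ) := by linarith
        calc 1 / (1 - 1 / (b:ℝ)) ≤ 1 / (1/2) := one_div_le_one_div_of_le (by norm_num) h2
          _ = 2 := by norm_num
      have hs1 : 0 ≤ ∑ q ∈ al X s₁ (A ∩ X.c.sp b), w X.ψ q := Finset.sum_nonneg fun q _ => X.hW q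
      have e : u.c / (1 - 1 / (b : ℝ)) = u.c * (1 / (1 - 1 / (b:ℝ))) := by ring
      have k4 : u.c / (1 - 1 / (b : ℝ)) * ∑ q ∈ al X s₁ (A ∩ X.c.sp b), w X.ψ q ≤
          2 * Msp X u b (plk b i (.br b Sp s₁ s₀)) A := by
        rw [e]
        unfold Msp
        calc u.c * (1 / (1 - 1 / (b:ℝ))) * ∑ q ∈ al X s₁ (A ∩ X.c.sp b), w X.ψ q
            ≤ u.c * 2 * ∑ q ∈ al X s₁ (A ∩ X.c.sp b), w X.ψ q :=
              mul_le_mul_of_nonneg_right (mul_le_mul_of_nonneg_left hinv hc.le) hs1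
          _ ≤ u.c * 2 * ∑ q ∈ Sps X b (plk b i (.br b Sp s₁ s₀)) A, w X.ψ q :=
              mul_le_mul_of_nonneg_left k3 (by positivity)
          _ = _ := by ring
      calc C * (u.c / (1 - 1 / (b : ℝ)) * ∑ q ∈ al X s₁ (A ∩ X.c.sp b), w X.ψ q)
          ≤ C * (2 * Msp X u b (plk b i (.br b Sp s₁ s₀)) A) := mul_le_mul_of_nonneg_left k4 hC
        _ = _ := by ring
    · refine hmass (Finset.filter_subset _ _) fun j hj hj' => Or.inl (hmt _ (hm0 _ hj' ?_))
      exact (Finset.mem_filter.1 hj).2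
    · refine hmass (Finset.filter_subset _ _) fun j hj hj' => Or.inr (Or.inl (huq _ (hmS _ hj' ?_)))
      exact (Finset.mem_filter.1 hj).2
  | up Sp s =>
    have hK' : K = i := hK
    subst hK'
    obtain ⟨-, -, -, -, -, fS, -⟩ := ht.self.node
    have fS' : Sp = dv (u.A * b ^ K) b s.items := fS
    have hmS : ∀ q ∈ s.items, b ^ (K + 1) ∣ q / u.A → q ∈ Sp := by
      intro q hq hd
      rw [fS', mem_dv]
      have := (hup q hq 1).2 hd
      rw [pow_one] at this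
      exact ⟨hq, this⟩
    have hSps1 : Sp ⊆ s.items := by
      intro q hq
      rw [fS', mem_dv] at hq
      exact hq.1
    have huq : ∀ q ∈ Sp, b ∈ X.c.t.uq q := by
      intro q hq
      refine (ht.self.lo q (hSps1 hq) b (Nat.lt_succ_self b)).2 ?_
      show b ∈ (if q ∈ Sp then insert b (s.uq q) else s.uq q)
      rw [if_pos hq]
      exact Finset.mem_insert_self _ _
    have hno : ∀ j ∈ A.filter fun j => ¬ b ^ K ∣ j.1.1 / u.A, j.1.1 ∉ (plk b K (.up b Sp s)).items := by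
      intro j hj hj'
      rw [hit] at hj'
      exact (Finset.mem_filter.1 hj).2 (hdiv _ hj').1
    have n1 := hNE
    refine ⟨?_, ?_, ?_, ?_⟩
    · have : eA X Y b u (plk b K (.up b Sp s)) (A.filter fun j => ¬ b ^ K ∣ j.1.1 / u.A) = 0 :=
        eA_zero (u := ⟨b + 1, u.c, u.A, u.B⟩) h0' Y b hno
      rw [this]
      positivity
    · have k0 : eA X Y b u (plk b K (.up b Sp s))
            (A.filter fun j => b ^ (K + 1) ∣ j.1.1 / u.A) ≤
          eA X Y b u (plk b K (.up b Sp s)) (A.filter fun j => j.1.1 ∈ Sp) :=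
        hmono fun j hj hj' => by
          obtain ⟨a1, a2⟩ := Finset.mem_filter.1 hj
          exact Finset.mem_filter.2 ⟨a1, hmS _ (by rw [hit] at hj'; exact hj') a2⟩
      have k1 := E_ret_up (X := X) (u := u) hb ht Y (A ∩ X.c.sp b) (A.filter fun j => j.1.1 ∈ Sp)
        (fun j hj => by
          obtain ⟨a1, a2⟩ := Finset.mem_filter.1 hj
          refine Finset.mem_inter.2 ⟨a1, ?_⟩
          unfold Cf.sp
          exact Finset.mem_filter.2 ⟨Finset.mem_univ _, huq _ a2⟩)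
        (Dr ((X.c.D.par Y).rho b))
      have k2 : Q (Dr ((X.c.D.par Y).rho b))
          (rv (A ∩ X.c.sp b) (Uw X Y ⟨b, u.c, u.A * b ^ K, u.B⟩ s))
          (rv (A ∩ X.c.sp b) (Uw X Y ⟨b, u.c, u.A * b ^ K, u.B⟩ s)) ≤
          C * (u.c * ∑ q ∈ al X s (A ∩ X.c.sp b), w X.ψ q) := n1
      refine (k0.trans k1).trans (k2.trans ?_)
      have k3 : u.c * ∑ q ∈ al X s (A ∩ X.c.sp b), w X.ψ q ≤ Msp X u b (plk b K (.up b Sp s)) A := by
        refine mul_le_mul_of_nonneg_left (Finset.sum_le_sum_of_subset_of_nonneg (fun q hq => ?_)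
          fun q _ _ => X.hW q) hc.le
        obtain ⟨a1, a2, j, hj, rfl⟩ := mem_al.1 hq
        obtain ⟨j1, j2⟩ := Finset.mem_inter.1 hj
        refine mem_Sps.2 ⟨mem_al.2 ⟨?_, a2, j, j1, rfl⟩, Or.inr (Or.inl ?_)⟩
        · rw [hit]; exact a1
        · unfold Cf.sp at j2
          exact (Finset.mem_filter.1 j2).2
      have k6 := mul_le_mul_of_nonneg_left k3 hC
      have k7 := mul_nonneg hC hMsp0
      linarith
    · refine hmass (Finset.filter_subset _ _) fun j hj hj' => ?_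
      exact absurd (by rw [hit]; exact hj') (hno j hj)
    · refine hmass (Finset.filter_subset _ _) fun j hj hj' => Or.inr (Or.inl (huq _ (hmS _ hj' ?_)))
      exact (Finset.mem_filter.1 hj).2

end ctx

end Crest.Agent.R4P.FarNode7
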