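import Crest.Agent.R4P.GainX_36
import Crest.Agent.R4P.GMer_27

/-!
R4 (S0004) with powers, [MB], helper27: **ties and pulls are columns of the merge game**.

`t = br p w r t₁ t₀ v B G` (tie `w = 1/p`, pull `w = 0`), label `c`, `q = 1 - 1/p`.
* `nT t c y` : content of the second child (`bT` for a tie, `aT` for a pull).
* `row` : `vT t c ((y+i)/p) = (1-q) nT + q aT + (s_i - (1-q)) Δ`.
* families `node : J → Option (DT Λ κ)` (`none` = dummy), `lab : J → κ`:
  `cvF` (contents at `x`), `chF` (contents of the children at `y`), `colF : Col ..`.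
* `I_colF` : `I (F - Ep F (p x))² + I Pot (contents) ≤ I Pot (children)`.
-/

set_option autoImplicit false
set_option linter.unusedSectionVars false
set_option linter.unusedVariables false
open MeasureTheory Filter Set

namespace Crest.Agent.R4P.GCol27

open Crest.Agent.R4.Tour104 Crest.Agent.R4.Tour758 Crest.Agent.R4.Avg758 Crest.Agent.R4.Clos758
open Crest.Agent.R4.ClosL758 Crest.Agent.R4.ClosG758 Crest.Agent.R4.ClosR758
open Crest.Agent.R4P.ClosR442 Crest.Agent.R4P.Grp36
open Crest.Agent.R4P.Xfer36 Crest.Agent.R4P.TopC36 Crest.Agent.R4P.PN36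
open Crest.Agent.R4P.GainX36 (vT PB_vT)
open Crest.Agent.R4P.GMer27
open Crest.Agent.R4P.Walk560 (DT)

/-! ### shares -/

/-- the shares of the lifts -/
lemma shares {p : ℕ} (hp : 0 < p) {d : ℝ} (g : Fin p → ℝ) (hg : ∀ i, 0 ≤ g i)
    (hs : ∑ i, g i = d) : ∃ s : Fin p → ℝ, (∀ i, 0 ≤ s i ∧ s i ≤ 1) ∧
      ∑ i, 1 / (p : ℝ) * s i = 1 / (p : ℝ) ∧ ∀ i, g i = s i * d := by
  have hp' : (0 : ℝ) < p := by exact_mod_cast hp
  have hp1 : (1 : ℝ) ≤ p := by exact_mod_cast hp
  have hd0 : 0 ≤ d := hs ▸ Finset.sum_nonneg fun i _ => hg i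
  rcases eq_or_lt_of_le hd0 with h | h
  · refine ⟨fun _ => 1 / (p : ℝ), fun _ => ⟨by positivity, ?_⟩, ?_, fun i => ?_⟩
    · rw [div_le_one hp']; exact hp1
    · rw [Finset.sum_const, Finset.card_univ, Fintype.card_fin, nsmul_eq_mul]
      field_simp
    · have h1 : ∑ i, g i = 0 := by rw [hs, ← h]
      have h2 := (Finset.sum_eq_zero_iff_of_nonneg fun i _ => hg i).1 h1 i (Finset.mem_univ i)
      rw [h2, ← h, mul_zero]
  · refine ⟨fun i => g i / d, fun i => ⟨div_nonneg (hg i) hd0, ?_⟩, ?_, fun i => ?_⟩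
    · rw [div_le_one h, ← hs]
      exact Finset.single_le_sum (f := g) (fun j _ => hg j) (Finset.mem_univ i)
    · rw [← Finset.mul_sum, ← Finset.sum_div, hs, div_self h.ne', mul_one]
    · rw [div_mul_cancel₀ _ h.ne']

section row
variable {Λ κ : Type} [Fintype Λ] [DecidableEq Λ] [Fintype κ] [DecidableEq κ]

/-- the weight of the second child -/
noncomputable def wT : DT Λ κ → ℝ
  | .br _ w _ _ _ _ _ _ => w
  | _ => 0

/-- the content of the second child (a pull has only one child) -/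
noncomputable def nT (t : DT Λ κ) (c : κ) (y : ℝ) : ℝ := if wT t = 0 then aT t c y else bT t c y

/-- **one member is a row of a column** -/
theorem row {p : ℕ} (hp : 0 < p) {t : DT Λ κ} (h : NOk t) (hb : isB p t = true) (c : κ) (y : ℝ) :
    ∃ (s : Fin p → ℝ) (Δ : ℝ), (∀ i, 0 ≤ s i ∧ s i ≤ 1) ∧
      ∑ i, 1 / (p : ℝ) * s i = 1 - (1 - 1 / (p : ℝ)) ∧
      0 ≤ Δ ∧ Δ ≤ max (nT t c y - aT t c y) 0 ∧
      ∀ i : Fin p, vT t c ((y + (i : ℕ)) / p) = (1 - (1 - 1 / (p : ℝ))) * nT t c y +
        (1 - 1 / (p : ℝ)) * aT t c y + (s i - (1 - (1 - 1 / (p : ℝ)))) * Δ := by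
  obtain ⟨w, r, t₁, t₀, v, B, G, e⟩ := isB_eq hb
  subst e
  have hT := TieOk.br h.1
  have hp' : (0 : ℝ) < p := by exact_mod_cast hp
  have pB : PB (B c) := (h.2.2.2.col c).pB
  have pG : PB (G c) := (h.2.2.2.col c).pG
  have pa : PB (sm r t₁.g.val c) := PB_sm (fun j => h.2.1.pb j) r c
  have hG := hT.eG c y
  simp only at hG
  obtain ⟨s, hs0, hs1, hs2⟩ := shares hp (fun i : Fin p => G c ((y + (i : ℕ)) / p))
    (fun i => pG.nonneg _) (d := max (sm r t₀.g.val c y - sm r t₁.g.val c y) 0) (by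
      rw [← hG, ← Fin.sum_univ_eq_sum_range (fun i => G c ((y + i) / p)) p])
  have ev : ∀ i : Fin p, sm r v c ((y + (i : ℕ)) / p) = B c y + G c ((y + (i : ℕ)) / p) := by
    intro i
    rw [hT.ev c, mul_div_cancel₀ _ hp'.ne', pB.per_nat]
  have ea : aT (DT.br p w r t₁ t₀ v B G) c y = sm r t₁.g.val c y := rfl
  have eb : bT (DT.br p w r t₁ t₀ v B G) c y = sm r t₀.g.val c y := rfl
  have ew : wT (DT.br p w r t₁ t₀ v B G) = w := rfl
  have e1 : ∀ x, vT (DT.br p w r t₁ t₀ v B G) c x = sm r v c x := fun _ => rfl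
  unfold nT
  rw [ew, ea, eb]
  simp only [e1]
  rcases hT.hw with hw | ⟨hw, hb0⟩
  · have hw0 : w ≠ 0 := by rw [hw]; positivity
    rw [if_neg hw0]
    refine ⟨s, max (sm r t₀.g.val c y - sm r t₁.g.val c y) 0, hs0, by rw [hs1]; ring,
      le_max_right _ _, le_rfl, fun i => ?_⟩
    rw [ev i, hT.eB c y, hs2 i, hw]
    rcases le_total (sm r t₀.g.val c y) (sm r t₁.g.val c y) with hh | hh
    · rw [max_eq_left (by linarith), max_eq_right (by linarith)]
      ring
    · rw [max_eq_right (by linarith), max_eq_left (by linarith)]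
      ring
  · rw [if_pos hw]
    refine ⟨s, 0, hs0, by rw [hs1]; ring, le_rfl, le_max_right _ _, fun i => ?_⟩
    have h0 : max (sm r t₀.g.val c y - sm r t₁.g.val c y) 0 = 0 := by
      rw [hb0 c y]
      exact max_eq_right (by have := pa.nonneg y; linarith)
    rw [ev i, hT.eB c y, hs2 i, hw, h0]
    ring

lemma aT_PB {p : ℕ} {t : DT Λ κ} (h : t.g.Ok) (ht : isB p t = true) (c : κ) : PB (aT t c) := by
  obtain ⟨w, r, t₁, t₀, v, B, G, e⟩ := isB_eq ht
  subst e
  exact PB_sm (fun j => h.1.pb j) r c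

lemma bT_PB {p : ℕ} {t : DT Λ κ} (h : t.g.Ok) (ht : isB p t = true) (c : κ) : PB (bT t c) := by
  obtain ⟨w, r, t₁, t₀, v, B, G, e⟩ := isB_eq ht
  subst e
  exact PB_sm (fun j => h.2.1.pb j) r c

lemma nT_PB {p : ℕ} {t : DT Λ κ} (h : t.g.Ok) (ht : isB p t = true) (c : κ) : PB (nT t c) := by
  by_cases hw : wT t = 0
  · have e : nT t c = aT t c := by funext y; unfold nT; rw [if_pos hw]
    rw [e]; exact aT_PB h ht c
  · have e : nT t c = bT t c := by funext y; unfold nT; rw [if_neg hw]
    rw [e]; exact bT_PB h ht c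

end row

/-! ### families -/

section fam
variable {Λ κ : Type} [Fintype Λ] [DecidableEq Λ] [Fintype κ] [DecidableEq κ]
  {J : Type*} [Fintype J] {node : J → Option (DT Λ κ)} {lab : J → κ} {p : ℕ}

/-- contents of a family at `x`; `none` is a dummy -/
noncomputable def cvF (node : J → Option (DT Λ κ)) (lab : J → κ) (x : ℝ) (j : J) : ℝ :=
  match node j with
  | none => 0
  | some t => vT t (lab j) x

/-- contents of the children at `y` -/
noncomputable def chF (node : J → Option (DT Λ κ)) (lab : J → κ) (y : ℝ) (x : J × Bool) : ℝ :=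
  match node x.1 with
  | none => 0
  | some t => if x.2 then aT t (lab x.1) y else nT t (lab x.1) y

/-- all members are ties or pulls of the column `p`, or dummies -/
def Fok (p : ℕ) (node : J → Option (DT Λ κ)) : Prop :=
  ∀ j t, node j = some t → NOk t ∧ isB p t = true

lemma PB_cvF (hn : Fok p node) (j : J) : PB fun x => cvF node lab x j := by
  unfold cvF
  rcases e : node j with _ | t
  · exact PB.const le_rfl
  · exact PB_vT (hn j t e).1.2 (hn j t e).2 _

lemma PB_chF (hn : Fok p node) (x : J × Bool) : PB fun y => chF node lab y x := by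
  unfold chF
  rcases e : node x.1 with _ | t
  · exact PB.const le_rfl
  · rcases e' : x.2 with _ | _
    · simp only [Bool.false_eq_true, if_false]
      exact nT_PB (hn _ t e).1.2 (hn _ t e).2 _
    · simp only [if_true]
      exact aT_PB (hn _ t e).1.2 (hn _ t e).2 _

/-- **the family is a column** -/
theorem colF (hp : 0 < p) (hn : Fok p node) (y : ℝ) :
    Col (1 - 1 / (p : ℝ)) (chF node lab y) (fun _ : Fin p => 1 / (p : ℝ))
      (fun i => cvF node lab ((y + (i : ℕ)) / p)) where
  u0 := fun i => by positivity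
  u1 := by
    have hp' : (p : ℝ) ≠ 0 := by exact_mod_cast hp.ne'
    rw [Finset.sum_const, Finset.card_univ, Fintype.card_fin, nsmul_eq_mul]
    field_simp
  rule := fun j => by
    have hp' : (0 : ℝ) < p := by exact_mod_cast hp
    have hp1 : (1 : ℝ) ≤ p := by exact_mod_cast hp
    rcases e : node j with _ | t
    · refine ⟨fun _ => 1 / (p : ℝ), 0, fun i => ⟨by positivity, ?_⟩, ?_, le_rfl, le_max_right _ _,
        fun i => ?_⟩
      · rw [div_le_one hp']; exact hp1
      · rw [Finset.sum_const, Finset.card_univ, Fintype.card_fin, nsmul_eq_mul]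
        field_simp
        ring
      · simp [cvF, chF, av, e]
    · obtain ⟨s, Δ, h1, h2, h3, h4, h5⟩ := row hp (hn j t e).1 (hn j t e).2 (lab j) y
      refine ⟨s, Δ, h1, h2, h3, ?_, fun i => ?_⟩
      · have e1 : chF node lab y (j, false) = nT t (lab j) y := by simp [chF, e]
        have e2 : chF node lab y (j, true) = aT t (lab j) y := by simp [chF, e]
        rw [e1, e2]
        exact h4
      · have e0 : cvF node lab ((y + (i : ℕ)) / p) j = vT t (lab j) ((y + (i : ℕ)) / p) := by
          simp [cvF, e]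
        have e1 : av (1 - 1 / (p : ℝ)) (chF node lab y) j =
            (1 - (1 - 1 / (p : ℝ))) * nT t (lab j) y + (1 - 1 / (p : ℝ)) * aT t (lab j) y := by
          simp [av, chF, e]
        rw [e0, e1]
        exact h5 i

variable {c : J → ℝ} {W : Set (J → ℝ)}

lemma meas_cvF (hn : Fok p node) : Measurable fun x => cvF node lab x :=
  measurable_pi_lambda _ fun j => (PB_cvF hn j).meas

lemma meas_chF (hn : Fok p node) : Measurable fun y => chF node lab y :=
  measurable_pi_lambda _ fun x => (PB_chF hn x).meas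

lemma PB_M {c : J → ℝ} (c0 : ∀ j, 0 ≤ c j) {f : ℝ → J → ℝ} (hf : ∀ j, PB fun x => f x j) :
    PB fun x => M c (f x) := by
  unfold M
  exact PB.sum _ fun j _ => (hf j).smul (c0 j)

/-- the potential of a family -/
lemma PB_Pot (H : TC c W) {f : ℝ → J → ℝ} (hf : ∀ j, PB fun x => f x j)
    (h1 : ∀ x j, f x j ≤ 1) : PB fun x => Pot c W (f x) := by
  have hm : Measurable f := measurable_pi_lambda _ fun j => (hf j).meas
  refine ⟨measurable_Pot H hm, fun x => Pot_nonneg H _, ⟨14, fun x => ?_⟩, fun x => ?_⟩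
  · have h := Pot_le H (fun j => (hf j).nonneg x) (h1 x)
    have h2 : M c (f x) ≤ M c (fun _ => (1 : ℝ)) := M_mono H.c0 (h1 x)
    rw [M_const H.c1] at h2
    linarith
  · have : f (x + 1) = f x := by
      funext j
      exact (hf j).per x
    rw [this]

lemma cv_le (hp : 2 ≤ p) (hn : Fok p node) (h1 : ∀ y x, chF node lab y x ≤ 1) (x : ℝ) (j : J) :
    cvF node lab x j ≤ 1 := by
  have hp0 : 0 < p := by omega
  have hp' : (0 : ℝ) < p := by exact_mod_cast hp0
  have hp2 : (2 : ℝ) ≤ p := by exact_mod_cast hp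
  have hq : 0 < 1 - 1 / (p : ℝ) ∧ 1 - 1 / (p : ℝ) < 1 := by
    have : 1 / (p : ℝ) ≤ 1 / 2 := one_div_le_one_div_of_le (by norm_num) hp2
    have : 0 < 1 / (p : ℝ) := by positivity
    constructor <;> linarith
  have hC := colF (lab := lab) hp0 hn ((p : ℝ) * x)
  have h0 : ∀ z, 0 ≤ chF node lab ((p : ℝ) * x) z := fun z => (PB_chF hn z).nonneg _
  have := (hC.bd hq h0 (v := 1) (h1 _) ⟨0, hp0⟩ j).2
  simpa [mul_div_cancel_left₀ _ hp'.ne'] using this

/-- **the integrated column** -/
theorem I_colF (H : TC c W) (hp : 2 ≤ p) (hn : Fok p node) (h1 : ∀ y x, chF node lab y x ≤ 1) :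
    I (fun x => (M c (cvF node lab x) -
        Ep p (fun x => M c (cvF node lab x)) (p * x)) ^ 2) +
      I (fun x => Pot c W (cvF node lab x)) ≤
      I (fun y => Pot (cT (1 - 1 / (p : ℝ)) c) (WT (1 - 1 / (p : ℝ)) W) (chF node lab y)) := by
  have hp0 : 0 < p := by omega
  have hp' : (0 : ℝ) < p := by exact_mod_cast hp0
  have hp2 : (2 : ℝ) ≤ p := by exact_mod_cast hp
  have hq : 0 < 1 - 1 / (p : ℝ) ∧ 1 - 1 / (p : ℝ) < 1 := by
    have : 1 / (p : ℝ) ≤ 1 / 2 := one_div_le_one_div_of_le (by norm_num) hp2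
    have : 0 < 1 / (p : ℝ) := by positivity
    constructor <;> linarith
  have pv := fun j => PB_cvF (lab := lab) hn j
  have pch := fun x => PB_chF (lab := lab) hn x
  have PF : PB fun x => M c (cvF node lab x) := PB_M H.c0 pv
  have PP : PB fun x => Pot c W (cvF node lab x) := PB_Pot H pv (cv_le hp hn h1)
  have PQ : PB fun y => Pot (cT (1 - 1 / (p : ℝ)) c) (WT (1 - 1 / (p : ℝ)) W) (chF node lab y) :=
    PB_Pot (H.tie hq) pch h1
  have PE : PB (Ep p fun x => M c (cvF node lab x)) := PF.Ep hp0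
  have PS : PB fun x => (M c (cvF node lab x) -
      Ep p (fun x => M c (cvF node lab x)) (p * x)) ^ 2 := by
    have p2 := PE.pull p
    obtain ⟨b1, hb1⟩ := PF.bdd
    obtain ⟨b2, hb2⟩ := p2.bdd
    refine ⟨(PF.meas.sub p2.meas).pow_const 2, fun x => sq_nonneg _, ⟨(|b1| + |b2|) ^ 2, fun x => ?_⟩,
      fun x => ?_⟩
    · rw [← sq_abs]
      refine pow_le_pow_left₀ (abs_nonneg _) ?_ 2
      refine (abs_sub _ _).trans (add_le_add ?_ ?_)
      · rw [abs_of_nonneg (PF.nonneg x)]; exact (hb1 x).trans (le_abs_self _)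
      · rw [abs_of_nonneg (p2.nonneg x)]; exact (hb2 x).trans (le_abs_self _)
    · have e1 : M c (cvF node lab (x + 1)) = M c (cvF node lab x) := PF.per x
      have e2 : Ep p (fun x => M c (cvF node lab x)) (p * (x + 1)) =
          Ep p (fun x => M c (cvF node lab x)) (p * x) := p2.per x
      rw [e1, e2]
  have hcol : ∀ y, Ep p (fun x => (M c (cvF node lab x) -
      Ep p (fun x => M c (cvF node lab x)) (p * x)) ^ 2) y +
      Ep p (fun x => Pot c W (cvF node lab x)) y ≤
      Pot (cT (1 - 1 / (p : ℝ)) c) (WT (1 - 1 / (p : ℝ)) W) (chF node lab y) := by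
    intro y
    have hC := colF (lab := lab) hp0 hn y
    have h0 : ∀ z, 0 ≤ chF node lab y z := fun z => (pch z).nonneg _
    have h := Pot_col H hq h0 (h1 y) hC
    have hM := M_Col (c := c) hC
    have hE : Ep p (fun x => M c (cvF node lab x)) y =
        M (cT (1 - 1 / (p : ℝ)) c) (chF node lab y) := by
      rw [← hM]
      unfold Ep
      rw [← Fin.sum_univ_eq_sum_range (fun i => M c (cvF node lab ((y + i) / p))) p,
        Finset.sum_div]
      exact Finset.sum_congr rfl fun i _ => by ring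
    have e1 : Ep p (fun x => (M c (cvF node lab x) -
        Ep p (fun x => M c (cvF node lab x)) (p * x)) ^ 2) y =
        ∑ i : Fin p, 1 / (p : ℝ) * (M c (cvF node lab ((y + (i : ℕ)) / p)) -
          M (cT (1 - 1 / (p : ℝ)) c) (chF node lab y)) ^ 2 := by
      unfold Ep
      rw [← Fin.sum_univ_eq_sum_range (fun i => (M c (cvF node lab ((y + i) / p)) -
        (∑ k ∈ Finset.range p, M c (cvF node lab ((p * ((y + i) / p) + k) / p))) / p) ^ 2) p,
        Finset.sum_div]
      refine Finset.sum_congr rfl fun i _ => ?_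
      have e3 : (∑ k ∈ Finset.range p,
          M c (cvF node lab ((p * ((y + ((i : ℕ) : ℝ)) / p) + k) / p))) / p =
          M (cT (1 - 1 / (p : ℝ)) c) (chF node lab y) := by
        rw [← hE, mul_div_cancel₀ _ hp'.ne']
        have := PE.per_nat (i : ℕ) y
        unfold Ep at this
        rw [this]
        rfl
      rw [e3]
      ring
    have e2 : Ep p (fun x => Pot c W (cvF node lab x)) y =
        ∑ i : Fin p, 1 / (p : ℝ) * Pot c W (cvF node lab ((y + (i : ℕ)) / p)) := by
      unfold Ep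
      rw [← Fin.sum_univ_eq_sum_range (fun i => Pot c W (cvF node lab ((y + i) / p))) p,
        Finset.sum_div]
      exact Finset.sum_congr rfl fun i _ => by ring
    rw [e1, e2]
    exact h
  rw [← I_Ep hp0 PS.integrableOn, ← I_Ep hp0 PP.integrableOn,
    ← I_add (PS.Ep hp0).integrableOn (PP.Ep hp0).integrableOn]
  exact I_mono ((PS.Ep hp0).add (PP.Ep hp0)).integrableOn PQ.integrableOn hcol

end fam

end Crest.Agent.R4P.GCol27
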