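import Crest.Agent.R4.GEv864
import Crest.Agent.R4.GEvW812
import Crest.Agent.R4.GKapL812
import Crest.Agent.R4P.ColG710
import Crest.Agent.R4P.GAsm927

/-!
# R4 powers pass (S0004), [N], helper13 (after helper927): **tree-free half of `R4/GFinC927` and
`R4/GFinK927`**

* namespace `GFinC927` : `cast_col`, `rpow_le_one`, `gsC` (with `1 / c₀`), `εC`;
* namespace `GFinK927` : `cG`, `εG`, `num_K`; `NumG` (columns `CKX`), `exists_NumG`.
-/

set_option autoImplicit false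
set_option linter.unusedSectionVars false
set_option linter.unusedVariables false
set_option linter.unusedSimpArgs false

namespace Crest.Agent.R4P.GFinC927

open Crest.Agent.R4.GDef864

lemma cast_col {B p : ℕ} (hp : 0 < p) : ((B * p : ℕ) : ℝ) / p = B := by
  have : (p : ℝ) ≠ 0 := by exact_mod_cast hp.ne'
  push_cast
  field_simp

/-- gain of the non-critical pairs -/
noncomputable def gsC (c : Crest.Agent.R4.GDef864.Par) (ε : ℕ → ℝ) (CL c₀ : ℝ) (p : ℕ) : ℝ :=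
  (2 / Real.sqrt (c.Z p) + 28 * (ε p * (1 + Real.log (1 / ε p)))) *
    (CL * Real.log p * (1 / c₀))

lemma rpow_le_one {p : ℕ} {a : ℝ} (ha : 0 ≤ a) (hp : 1 ≤ p) : (p : ℝ) ^ (-a) ≤ 1 :=
  Real.rpow_le_one_of_one_le_of_nonpos (by exact_mod_cast hp) (by linarith)

/-- small part of the missing masses at a column -/
noncomputable def εC (p : ℕ) : ℝ :=
  (p : ℝ) ^ (-(1 / 7000) : ℝ) + 2 * (p : ℝ) ^ (-(1 / 3) : ℝ)

end Crest.Agent.R4P.GFinC927

namespace Crest.Agent.R4P.GFinK927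

open Crest.Agent.R4.GDef864 Crest.Agent.R4P.GFinC927 Crest.Agent.R4.GKap812
open Crest.Agent.R4P.ColW710
open Crest.Agent.R4.AdvWin560 Crest.Agent.R4.AdvWin560.WT Crest.Agent.R4.Own927
open Crest.Agent.R4P.Res927

lemma rt_log_two : Real.log 2 ≤ rt (Real.log 2) := by
  have h1 := Real.log_two_lt_d9
  have h2 := Real.log_two_gt_d9
  rw [rt_eq (by linarith)]
  calc Real.log 2 = Real.log 2 ^ (1 : ℝ) := (Real.rpow_one _).symm
    _ ≤ Real.log 2 ^ eG :=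
      Real.rpow_le_rpow_of_exponent_ge (by linarith) (by linarith) eG_lt.le

lemma two_le_exp {P : ℕ} (hP : 2 ≤ P) : 2 ≤ Real.exp (rt (Real.log P)) := by
  have h1 : Real.log 2 ≤ Real.log P := Real.log_le_log (by norm_num) (by exact_mod_cast hP)
  calc (2 : ℝ) = Real.exp (Real.log 2) := (Real.exp_log (by norm_num)).symm
    _ ≤ Real.exp (rt (Real.log P)) :=
      Real.exp_le_exp.2 (rt_log_two.trans (rt_le_rt h1))

/-- parameters of module G -/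
noncomputable def cG : Crest.Agent.R4.GDef864.Par where
  c' := 1 / 600
  Cd := 120
  C := 2
  Z := fun P => ⌈Real.exp (rt (Real.log P))⌉₊
  η := fun P => Real.exp (-(2 * rt (Real.log P)))

noncomputable def εG (P : ℕ) : ℝ := Real.exp (-(rt (Real.log P)))

lemma cG_good : cG.Good where
  c'0 := by norm_num [cG]
  c'1 := by norm_num [cG]
  Cd := by norm_num [cG]
  C0 := by norm_num [cG]
  Z1 := fun P => Nat.one_le_ceil_iff.2 (Real.exp_pos _)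
  Zle := by
    intro P hP
    have h1 := two_le_exp hP
    have h2 : (⌈Real.exp (rt (Real.log P))⌉₊ : ℝ) < Real.exp (rt (Real.log P)) + 1 :=
      Nat.ceil_lt_add_one (Real.exp_pos _).le
    have h3 : Real.exp (2 * rt (Real.log P)) =
        Real.exp (rt (Real.log P)) * Real.exp (rt (Real.log P)) := by
      rw [← Real.exp_add]; ring_nf
    show (⌈Real.exp (rt (Real.log P))⌉₊ : ℝ) ≤ Real.exp (2 * rt (Real.log P))
    rw [h3]
    nlinarith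
  η0 := fun P => Real.exp_pos _
  η1 := fun P => Real.exp_le_one_iff.2 (by
    have := rt_nonneg (Real.log P)
    linarith)
  ηge := fun P hP => le_rfl

lemma εG_pos (P : ℕ) : 0 < εG P := Real.exp_pos _

lemma εG_le (P : ℕ) : εG P ≤ 1 := Real.exp_le_one_iff.2 (by
  have := rt_nonneg (Real.log P)
  linarith)

lemma η_le {P d : ℕ} (h : (2 : ℝ) ^ d ≤ Real.exp (rt (Real.log P))) :
    cG.η P ≤ εG P / 2 ^ d := by
  rw [le_div_iff₀ (by positivity)]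
  show Real.exp (-(2 * rt (Real.log P))) * 2 ^ d ≤ Real.exp (-(rt (Real.log P)))
  calc Real.exp (-(2 * rt (Real.log P))) * 2 ^ d ≤
      Real.exp (-(2 * rt (Real.log P))) * Real.exp (rt (Real.log P)) :=
        mul_le_mul_of_nonneg_left h (Real.exp_pos _).le
    _ = Real.exp (-(rt (Real.log P))) := by
        rw [← Real.exp_add]; ring_nf

/-- the gain of the non-critical pairs -/
lemma gsG_le {CL c₀ : ℝ} (hCL : 0 ≤ CL) (hc₀ : 0 < c₀) {P : ℕ} (hP : 3 ≤ P) :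
    |gsC cG εG CL c₀ P| ≤ (58 * (CL * (1 / c₀))) *
      (Real.exp (-(1 / 2 * Real.sqrt (Real.log (P : ℕ)))) * Real.log P ^ (2 : ℝ)) := by
  have hP0 : (0 : ℝ) < P := by exact_mod_cast (by omega : 0 < P)
  have hl1 : 1 ≤ Real.log P := by
    rw [Real.le_log_iff_exp_le hP0]
    have h1 := Real.exp_one_lt_d9
    have h2 : (3 : ℝ) ≤ P := by exact_mod_cast hP
    linarith
  have hrt := sqrt_le_rt hl1
  refine le_trans ?_ (mul_le_mul_of_nonneg_left (mul_le_mul_of_nonneg_right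
    (Real.exp_le_exp.2 (show -(1 / 2 * rt (Real.log (P : ℕ))) ≤
      -(1 / 2 * Real.sqrt (Real.log (P : ℕ))) by linarith)) (by positivity)) (by positivity))
  set s := rt (Real.log P) with hs
  have hs0 : 0 ≤ s := rt_nonneg _
  have hs1 : s ≤ Real.log P := rt_le_self hl1
  have hZ : Real.exp s ≤ (cG.Z P : ℝ) := Nat.le_ceil _
  have hZ1 : Real.exp (1 / 2 * s) ≤ Real.sqrt (cG.Z P) := by
    refine Real.le_sqrt_of_sq_le ?_
    refine le_trans (le_of_eq ?_) hZ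
    rw [← Real.exp_nat_mul]
    congr 1
    push_cast; ring
  have h1 : 2 / Real.sqrt (cG.Z P) ≤ 2 * Real.exp (-(1 / 2 * s)) := by
    rw [Real.exp_neg, ← div_eq_mul_inv]
    exact div_le_div_of_nonneg_left (by norm_num) (Real.exp_pos _) hZ1
  have h2 : Real.log (1 / εG P) = s := by
    unfold εG
    rw [one_div, Real.exp_neg, inv_inv, Real.log_exp]
  have h3 : εG P ≤ Real.exp (-(1 / 2 * s)) := Real.exp_le_exp.2 (by
    show -(rt (Real.log P)) ≤ -(1 / 2 * s)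
    rw [← hs]; linarith)
  have hε0 := (εG_pos P).le
  have hZ0 : 0 < Real.sqrt (cG.Z P) := lt_of_lt_of_le (Real.exp_pos _) hZ1
  have e0 := (Real.exp_pos (-(1 / 2 * s))).le
  have h4 : 2 / Real.sqrt (cG.Z P) + 28 * (εG P * (1 + Real.log (1 / εG P))) ≤
      58 * Real.exp (-(1 / 2 * s)) * Real.log P := by
    rw [h2]
    have h5 : εG P * (1 + s) ≤ Real.exp (-(1 / 2 * s)) * (2 * Real.log P) :=
      mul_le_mul h3 (by linarith) (by linarith) e0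
    nlinarith
  have h6 : 0 ≤ 2 / Real.sqrt (cG.Z P) + 28 * (εG P * (1 + Real.log (1 / εG P))) := by
    rw [h2]; positivity
  have h7 : 0 ≤ CL * Real.log P * (1 / c₀) := by positivity
  unfold gsC
  rw [abs_of_nonneg (mul_nonneg h6 h7)]
  have e2 : Real.log P ^ (2 : ℝ) = Real.log P * Real.log P := by
    rw [show (2 : ℝ) = ((2 : ℕ) : ℝ) by norm_num, Real.rpow_natCast, sq]
  rw [e2]
  calc _ ≤ 58 * Real.exp (-(1 / 2 * s)) * Real.log P * (CL * Real.log P * (1 / c₀)) :=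
        mul_le_mul_of_nonneg_right h4 h7
    _ = _ := by ring

/-- empty count -/
lemma Cnt_empty {p0 : ℕ} {D : ℝ} (hp : 1 ≤ p0) : Cnt ∅ p0 D := by
  intro P hP
  simp only [Finset.filter_empty, Finset.card_empty, Nat.cast_zero]
  exact Real.rpow_nonneg (Real.log_natCast_nonneg P) _

/-- count from the previous integer -/
lemma Cnt_pred {F : Finset ℕ} {p0 : ℕ} {D : ℝ} (h : Cnt F p0 D) (hF : ∀ x ∈ F, p0 ≤ x) :
    Cnt F (p0 - 1) D := by
  intro P hP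
  rcases Nat.lt_or_ge P p0 with h1 | h1
  · have : F.filter (· ≤ P) = ∅ := by
      rw [Finset.filter_eq_empty_iff]
      intro x hx hxP
      have := hF x hx
      omega
    rw [this]
    simp only [Finset.card_empty, Nat.cast_zero]
    exact Real.rpow_nonneg (Real.log_natCast_nonneg P) _
  · exact h P h1

/-- small powers -/
lemma kapP (D c K κ : ℝ) (hc : 0 < c) (hK : 0 ≤ K) (hκ : 0 < κ) : ∃ p₁ : ℕ, ∀ p0 ≥ p₁,
    ∀ F : Finset ℕ, (∀ x ∈ F, p0 < x) → Cnt F p0 D → ∑ P ∈ F, K * (P : ℝ) ^ (-c) ≤ κ := by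
  obtain ⟨p₁, h⟩ := kap D c K κ hc hK hκ
  refine ⟨max p₁ 1, fun p0 hp0 F hF hC => ?_⟩
  have := h p0 ((le_max_left _ _).trans hp0) ∅ F (by simp) hF
    (Cnt_empty ((le_max_right _ _).trans hp0)) hC
  simpa using this

/-- **all the numbers**: `hK` of `eNM_self` -/
theorem num_K {CL c₀ Dc κ : ℝ} (hCL : 0 ≤ CL) (hc₀ : 0 < c₀) (hD : 0 ≤ Dc)
    (hκ : 0 < κ) : ∃ p₁ : ℕ, ∀ p0 ≥ p₁, ∀ F : Finset ℕ, (∀ x ∈ F, p0 ≤ x) →
    Cnt F p0 Dc →
    ∑ P ∈ F, (2 * (∑ x ∈ F.filter (P < ·), 1 / (x:ℝ) + 4 * (P:ℝ)^(-(cG.c'/20000))) +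
      2 * (εC P + |gsC cG εG CL c₀ P|)) ≤ κ := by
  have hκ' : 0 < κ / 16 := by positivity
  obtain ⟨a1, h1⟩ := kap Dc (cG.c'/20000) 4 (κ / 16) (by norm_num [cG]) (by norm_num) hκ'
  obtain ⟨a2, h2⟩ := kapP Dc (1 / 7000) 1 (κ / 16) (by norm_num) (by norm_num) hκ'
  obtain ⟨a4, h4⟩ := kapP Dc (1 / 3) 2 (κ / 16) (by norm_num) (by norm_num) hκ'
  obtain ⟨a5, h5⟩ := Crest.Agent.R4.GKap812.kapS Dc 2 (1 / 2) (58 * (CL * (1 / c₀))) (κ / 16) hD (by norm_num)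
    (by positivity) hκ'
  refine ⟨a1 + a2 + a4 + a5 + 4, fun p0 hp0 F hF hC => ?_⟩
  have hF' : ∀ x ∈ F, p0 - 1 < x := fun x hx => by
    have := hF x hx
    omega
  have hC' := Cnt_pred hC hF
  have k1 := h1 (p0 - 1) (by omega) F F hF' hF' hC' hC'
  have k2 := h2 (p0 - 1) (by omega) F hF' hC'
  have k4 := h4 (p0 - 1) (by omega) F hF' hC'
  have k5 := h5 (p0 - 1) (by omega) F hF' hC'
  have key : ∑ P ∈ F, (2 * (∑ x ∈ F.filter (P < ·), 1 / (x:ℝ) + 4 * (P:ℝ)^(-(cG.c'/20000))) +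
      2 * (εC P + |gsC cG εG CL c₀ P|)) ≤
      2 * ∑ P ∈ F, (∑ x ∈ F.filter (P < ·), 1 / (x:ℝ) + 4 * (P:ℝ)^(-(cG.c'/20000))) +
      2 * (∑ P ∈ F, 1 * (P : ℝ) ^ (-(1 / 7000) : ℝ) +
        ∑ P ∈ F, 2 * (P : ℝ) ^ (-(1 / 3) : ℝ) +
        ∑ P ∈ F, (58 * (CL * (1 / c₀))) *
          (Real.exp (-(1 / 2 * Real.sqrt (Real.log (P : ℕ)))) * Real.log P ^ (2 : ℝ))) := by
    rw [← Finset.sum_add_distrib, ← Finset.sum_add_distrib,
      Finset.mul_sum, Finset.mul_sum, ← Finset.sum_add_distrib]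
    refine Finset.sum_le_sum fun P hP => ?_
    have g2 := gsG_le (P := P) hCL hc₀ (by have := hF P hP; omega)
    unfold εC
    linarith
  refine key.trans ?_
  linarith

/-! ### all numbers in one structure -/

/-- **numbers of G-FINAL** at `p0` -/
structure NumG (CL C1 c₀ Dc κ : ℝ) (p0 : ℕ) : Prop where
  cc : CKX CL C1 (1 / c₀) p0
  p2 : 2 ^ 40 ≤ p0
  again : ∀ (P P₁ : ℕ) (θ₀ rq rr rr₁ : ℝ) (a a' : Finset ℕ),
    p0 ≤ P → P < P₁ → (∀ s ∈ a, P < s) → (∀ s ∈ a', P < s) → P₁ ∈ a →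
    Cr cG θ₀ rq rr₁ P₁ (a.filter (P₁ < ·)) (a'.filter (P₁ < ·)) →
    Cr cG θ₀ rq rr P a a' →
    EvN cG θ₀ rr P a a' ∨ EvN cG θ₀ rq P a' a
  ev : ∀ P : ℕ, p0 ≤ P → ∀ (θ₀ ρ : ℝ) (F : Finset ℕ) (t : WT) (n : ℕ), t.Ok n →
    E (fun v => ind (EvN cG θ₀ ρ P (v.filter (P < ·)) (F.filter (P < ·)))) t ∅ ≤
      ∑ x ∈ F.filter (P < ·), 1 / (x:ℝ) + 4 * (P:ℝ)^(-(cG.c'/20000))
  num : ∀ F : Finset ℕ, (∀ x ∈ F, p0 ≤ x) → Cnt F p0 Dc →
    ∑ P ∈ F, (2 * (∑ x ∈ F.filter (P < ·), 1 / (x:ℝ) + 4 * (P:ℝ)^(-(cG.c'/20000))) +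
      2 * (εC P + |gsC cG εG CL c₀ P|)) ≤ κ

theorem exists_NumG {CL C1 c₀ Dc κ : ℝ} (hCL : 1 ≤ CL) (hc₀ : 0 < c₀) (hD : 0 ≤ Dc)
    (hκ : 0 < κ) : ∃ p₁ : ℕ, ∀ p0 ≥ p₁, NumG CL C1 c₀ Dc κ p0 := by
  obtain ⟨a1, h1⟩ := exists_CKX hCL C1 (1 / c₀) (by positivity)
  obtain ⟨a2, -, h2⟩ := Crest.Agent.R4.GEv864.again_N cG cG_good
  obtain ⟨a3, h3⟩ := Crest.Agent.R4.GEvW812.W3 cG cG_good
  obtain ⟨a4, h4⟩ := num_K (CL := CL) (by linarith) hc₀ hD hκ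
  refine ⟨a1 + 2 ^ 40 + a2 + ⌈|a3|⌉₊ + a4, fun p0 hp0 =>
    ⟨h1.mono (by omega), by omega, ?_, ?_, h4 p0 (by omega)⟩⟩
  · intro P P₁ θ₀ rq rr rr₁ a a' hP
    exact h2 P P₁ θ₀ rq rr rr₁ a a' (by omega)
  · intro P hP θ₀ ρ F t n ht
    have b1 : a3 ≤ (P : ℝ) := by
      have c1 : a3 ≤ |a3| := le_abs_self _
      have c2 : |a3| ≤ ⌈|a3|⌉₊ := Nat.le_ceil _
      have c3 : ((⌈|a3|⌉₊ : ℕ) : ℝ) ≤ P := by exact_mod_cast (by omega : ⌈|a3|⌉₊ ≤ P)
      linarith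
    have := h3 P b1 θ₀ ρ F t n ht
    refine le_trans (le_of_eq ?_) this
    congr 1

end Crest.Agent.R4P.GFinK927
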