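import Crest.Agent.R4P.GFinC_13
import Crest.Agent.R4P.OSWIA19

/-!
# R4 powers pass (S0004), [N], helper13 (after helper927's `R4/GFinK927`): **G-FINAL for the near
misses**, all numbers in one structure

`NumG.gnm` : the constants of `GFinC_13`; `Wld` : inputs of the world; `eNM_final`.
-/

set_option autoImplicit false
set_option linter.unusedSectionVars false
set_option linter.unusedVariables false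
set_option linter.unusedSimpArgs false

namespace Crest.Agent.R4P.GFinK927

open Crest.Agent.R4.GDef864 Crest.Agent.R4P.GFinC927 Crest.Agent.R4.GKap812
open Crest.Agent.R4P.ColW710
open Crest.Agent.R4.AdvWin560 Crest.Agent.R4.AdvWin560.WT Crest.Agent.R4.Own927
open Crest.Agent.R4P.Res927
open Crest.Agent.R4.Tour104 Crest.Agent.R4.Tour758 Crest.Agent.R4.Avg758 Crest.Agent.R4.Clos758
open Crest.Agent.R4.ClosL758 Crest.Agent.R4.ClosG758 Crest.Agent.R4.ClosR758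
open Crest.Agent.R4.Fam464 Crest.Agent.R4P.Cnt588 Crest.Agent.R4P.Walk560 Crest.Agent.R4.Piece464
open Crest.Agent.R4P.Item758 Crest.Agent.R4P.AvgItem710
open Crest.Agent.R4P.Bld532 (NS All NodeOk Bk)
open Crest.Agent.R4P.GInst194 Crest.Agent.R4P.WalkIT579
open Crest.Agent.R4P.GSt927 Crest.Agent.R4P.GFin927 Crest.Agent.R4P.NMW710
open Crest.Agent.R4P.Rad800 Crest.Agent.R4.DeepSt579
open Crest.Agent.R4P.GSplit194 Crest.Agent.R4P.IMI194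

section
variable {Λ κ : Type*} [Fintype Λ] [DecidableEq Λ] [Fintype κ] [DecidableEq κ] [WRel κ]
variable {D : Par Λ κ} {sp : ℕ → Finset Λ} {ρ : ℕ → ℝ} {Al : Finset ℕ} {P : Bld532.Par}
  {W : ℕ → ℝ} {U : ℕ → Finset ℕ} {CL C1 c₀ Dc κ' : ℝ} {p0 : ℕ}
  {dd : ℕ → ℕ} {stp : Stp Λ κ} {Ix : XSt Λ κ → Prop} {Qp : NS → IT → Prop}

/-- the constants of `GFinC_13` -/
lemma NumG.gnm (hN : NumG CL C1 c₀ Dc κ' p0) (hCL : 0 ≤ CL)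
    (ni : ∀ p, p0 ≤ p → NI D ρ Al P W C1 c₀ p)
    (ut : ∀ p : ℕ, p0 ≤ p → ∀ q ∈ Al, ∀ z : ℝ, (p : ℝ) ≤ z →
      ∑ l ∈ (U q).filter (fun l : ℕ => z < (l : ℝ)), (1 : ℝ) / l ≤ z ^ (-(1 / 2 : ℝ)))
    (spo : D.SpOk sp) (il : ∀ b, IL D.it (sp b))
    (hdd : ∀ p : ℕ, p0 ≤ p → (2 : ℝ) ^ dd p ≤ Real.exp (rt (Real.log p)))
    (st : ∀ s : St Λ κ, ¬ stp s → ¬ s.p ∣ s.M → ¬ s.p ∣ s.M' → s.p ∉ s.O → s.p ∉ s.O' →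
      ∑ l ∈ s.O, 1 / (l : ℝ) ≤ (s.p : ℝ) ^ (-(1 / 3) : ℝ) ∧
      ∑ l ∈ s.O', 1 / (l : ℝ) ≤ (s.p : ℝ) ^ (-(1 / 3) : ℝ))
    (ix : ∀ x, XI x → Ix x → ∀ e ∈ steps stp (dvM mI) x, Ix e.y)
    (of : ∀ x, Ix x → ¬ stp x.s → p0 < x.n → ¬ x.s.p ∣ x.s.M → ¬ x.s.p ∣ x.s.M' →
      x.s.p ∉ x.s.O → x.s.p ∉ x.s.O' → ∑ l ∈ x.s.O, (l : ℝ) ^ (-(11 / 12) : ℝ) ≤ 1 ∧
      ∑ l ∈ x.s.O', (l : ℝ) ^ (-(11 / 12) : ℝ) ≤ 1) :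
    GNM D sp ρ Al P W U CL C1 c₀ p0 cG εG dd stp Ix where
  cc := hN.cc
  CL0 := hCL
  p2 := hN.p2
  good := cG_good
  again := hN.again
  ni := ni
  Ut := ut
  spo := spo
  il := il
  ε0 := fun p _ => εG_pos p
  ε1 := fun p _ => εG_le p
  η := fun p hp => η_le (hdd p hp)
  st := st
  ix := ix
  of := of

/-- **the inputs of the world** at a self state: no literal `[F]` pairs, 194's `WH` -/
structure Wld (D : Par Λ κ) (sp : ℕ → Finset Λ) (ρ : ℕ → ℝ) (Al : Finset ℕ)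
    (stp : Stp Λ κ) (Qp : NS → IT → Prop) (Ix : XSt Λ κ → Prop)
    (dd : ℕ → ℕ) (B₀ : ℕ) (s₀ : St Λ κ) : Prop where
  fs : ∀ x, GI (dvM mI) mI s₀ (HX D sp Qp (JJ Ix) B₀ B₀) x → Cl D sp Qp (JJ Ix) B₀ B₀ stp x →
    ∀ d, HD D sp Qp (JJ Ix) B₀ B₀ x d → FSx D ρ x d
  wh : ∀ x, GI (dvM mI) mI s₀ (HX D sp Qp (JJ Ix) B₀ B₀) x → Cl D sp Qp (JJ Ix) B₀ B₀ stp x →
    ∀ d, HD D sp Qp (JJ Ix) B₀ B₀ x d → ∀ e ∈ EB D ρ Al x d, R1 x d e →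
      ∃ (ρ₀ : ℝ) (n₀ : ℕ), 0 < ρ₀ ∧
      WH D ρ (Ro (D.rho d.p)) x.s.M (d.u.B * d.p) d.u.A d.p x.s.M' (d.u'.B * d.p) d.u'.A d.p
        ρ₀ n₀ (dd d.p) e (FN D x d e)

/-- **G-FINAL FOR THE NEAR MISSES**: `W (eNM) ≤ (1 + κ') ∑ mI` at a self state -/
theorem eNM_final (hN : NumG CL C1 c₀ Dc κ' p0) (hCL : 0 ≤ CL)
    (ni : ∀ p, p0 ≤ p → NI D ρ Al P W C1 c₀ p)
    (ut : ∀ p : ℕ, p0 ≤ p → ∀ q ∈ Al, ∀ z : ℝ, (p : ℝ) ≤ z →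
      ∑ l ∈ (U q).filter (fun l : ℕ => z < (l : ℝ)), (1 : ℝ) / l ≤ z ^ (-(1 / 2 : ℝ)))
    (spo : D.SpOk sp) (il : ∀ b, IL D.it (sp b))
    (hdd : ∀ p : ℕ, p0 ≤ p → (2 : ℝ) ^ dd p ≤ Real.exp (rt (Real.log p)))
    (st : ∀ s : St Λ κ, ¬ stp s → ¬ s.p ∣ s.M → ¬ s.p ∣ s.M' → s.p ∉ s.O → s.p ∉ s.O' →
      ∑ l ∈ s.O, 1 / (l : ℝ) ≤ (s.p : ℝ) ^ (-(1 / 3) : ℝ) ∧
      ∑ l ∈ s.O', 1 / (l : ℝ) ≤ (s.p : ℝ) ^ (-(1 / 3) : ℝ))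
    (ix : ∀ x, XI x → Ix x → ∀ e ∈ steps stp (dvM mI) x, Ix e.y)
    (of : ∀ x, Ix x → ¬ stp x.s → p0 < x.n → ¬ x.s.p ∣ x.s.M → ¬ x.s.p ∣ x.s.M' →
      x.s.p ∉ x.s.O → x.s.p ∉ x.s.O' → ∑ l ∈ x.s.O, (l : ℝ) ^ (-(11 / 12) : ℝ) ≤ 1 ∧
      ∑ l ∈ x.s.O', (l : ℝ) ^ (-(11 / 12) : ℝ) ≤ 1)
    (hQ : ∀ u τ, Qp u τ → NB D Al P W U CL c₀ p0 u τ) {u : NS} {τ : IT} {A : Finset Λ}
    (hs : SideI D sp u.B u.A τ A (D.toDT sp u.B u.A τ)) (hq : All Qp u τ)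
    (hilA : IL D.it A) (hO : τ.Ok u.n) (hn : 0 < u.n)
    (hix : Ix (XSt.st u.n (selfSt (D.toDT sp u.B u.A τ) A)))
    (hw : Wld D sp ρ Al stp Qp Ix dd u.B (selfSt (D.toDT sp u.B u.A τ) A))
    (hcnt : ∀ j ∈ A, mI (D.toDT sp u.B u.A τ) j ≠ 0 →
      Cnt (mtD (dvM mI) j (D.toDT sp u.B u.A τ)) p0 Dc) :
    WS stp (eNM stp) (selfSt (D.toDT sp u.B u.A τ) A) ≤
      (1 + κ') * ∑ j ∈ A, mI (D.toDT sp u.B u.A τ) j := by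
  have H := hN.gnm hCL ni ut spo il hdd st ix of
  rw [show selfSt (D.toDT sp u.B u.A τ) A =
    (XSt.st u.n (selfSt (D.toDT sp u.B u.A τ) A)).s from rfl, WS_eq_H stp (dvM mI)]
  refine eNM_self H hQ hs hq hilA hO hn hix hw.fs hw.wh hN.ev fun j hj hm => ?_
  exact hN.num _ (fun x hx => mtD_big hQ j τ hq x hx) (hcnt j hj hm)

end

end Crest.Agent.R4P.GFinK927
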