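import Crest.Agent.R4P.HiLeaf_28
import Crest.Agent.R4P.StepState2_7
import Crest.Agent.R4P.TBLeaf_28

/-!
R4 (S0004), powers, module D, helper28: **(nonleaf, leaf) states of the cross walk**, high pairs.

One side has the window majorants `ItHi2`, the other one (a leaf) is below a product weight (`OmW`).
`HL_Q` : the energy is at most `C K' e² ((C1 Σ mI + tiny) / 2) Σ_r b' ρ_r dens P_r` plus the values of the
pairs in `Lo`; `HL_Q'` mirrored; `LoS` : the threshold predicate.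
-/

set_option autoImplicit false
set_option linter.unusedSectionVars false
set_option linter.unusedVariables false
open Finset hiding dens

namespace Crest.Agent.R4P.HiLeafS28

open Crest.Agent.R4.HVW560 Crest.Agent.R4P.AvgItem710
open Crest.Agent.R4.Ovl560 (LW nw nw_nonneg nw_add exw dens dens_pos dens_mono)
open Crest.Agent.R4.Tour104 Crest.Agent.R4.Tour758 Crest.Agent.R4.Avg758 Crest.Agent.R4.Clos758
open Crest.Agent.R4.ClosL758 Crest.Agent.R4.ClosG758 Crest.Agent.R4.ClosR758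
open Crest.Agent.R4.Fam464 Crest.Agent.R4P.Cnt588 Crest.Agent.R4P.Walk560 Crest.Agent.R4.Piece464
open Crest.Agent.R4P.GInst194 Crest.Agent.R4P.WalkIT579 Crest.Agent.R4P.Item758
open Crest.Agent.R4P.NMW710 Crest.Agent.R4P.CrossLoc25 Crest.Agent.R4P.CrossLocC25
open Crest.Agent.R4P.Step588 (Fq ItHi2 PB_Fq iF_le_Fq sum_IFq_le)
open Crest.Agent.R4P.LeafFam28 Crest.Agent.R4P.LeafSide28 Crest.Agent.R4P.CofMono28
open Crest.Agent.R4P.TBLeaf28 Crest.Agent.R4P.HiLeaf28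

variable {Λ κ : Type*} [Fintype Λ] [DecidableEq Λ] [Fintype κ] [DecidableEq κ]
variable {D : Par Λ κ} {ρ : ℕ → ℝ} {Al : Finset ℕ} {M M' b pr b' pr' : ℕ} {t t' : IT}

/-- the threshold predicate at the stops: pairs which are not in `Lo` have scale `≥ T` and good anatomy
above the square root of the scale -/
structure LoS (Lo : ℝ × ℝ → ℕ × ℕ → Prop) (ρ : ℕ → ℝ) (x0 y0 : ℕ × ℕ → ℕ) (T : ℝ) : Prop where
  T : ∀ s e, ¬ Lo s e → T ≤ Dsc (ρ e.1) (ρ e.2) s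
  sd : ∀ s e, ¬ Lo s e → SD (x0 e) (y0 e) (Real.sqrt (Dsc (ρ e.1) (ρ e.2) s)) ≤ 1

/-- the item sum of a side below a product weight -/
lemma Fq_le_pc (hR : D.Rad ρ) (hb : 0 < b) (hF : Fit b pr t) (hW : D.Wts pr t) {K : ℝ}
    {P : ℕ → Finset ℕ} {v : ℕ → ℕ → ℤ → ℝ} (ho : OmW D b pr t K P v) {q : ℕ} (hq : q ∈ t.items)
    (x : ℝ) :
    Fq D b pr t 1 q x ≤ K * pc (b * D.γ) (-(b * ρ q)) (b * ρ q) (q / pr)
      (nw (P q) (su (1 * mp t q) (v q))) x := by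
  have h := famW_node (c := 1) hR hb hF hW (one_dvd _) ho hq Finset.univ
  simp only [Nat.cast_one, div_one] at h
  have h1 : Fq D b pr t 1 q x ≤ ∑ j ∈ Finset.univ.filter (fun j => D.it j = q),
      K * pc (b * D.γ) (b * D.al j) (b * D.be j) (q / pr) (nw (P q) (su (1 * mp t q) (v q))) x :=
    Finset.sum_le_sum fun j hj => h.le j hj x
  refine h1.trans ?_
  rw [← Finset.mul_sum]
  exact mul_le_mul_of_nonneg_left
    (AwNw28.sum_pc_le_pc h.wt.nonneg h.al h.be h.dj x) h.K0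

variable {x0 y0 : ℕ × ℕ → ℕ}

/-- **one pair** -/
theorem iF_HL {C : ℝ} (hC : PairO C) (hC0 : 0 ≤ C) (hR : D.Rad ρ) (hM : 0 < M) (hM' : 0 < M')
    (hb : 0 < b) (hb' : 0 < b') (hF : Fit b pr t) (hF' : Fit b' pr' t') (hW : D.Wts pr t)
    (hW' : D.Wts pr' t') {K' : ℝ} {P : ℕ → Finset ℕ} {v : ℕ → ℕ → ℤ → ℝ}
    (ho : OmW D b' pr' t' K' P v) (Rl : Finset (Λ × Λ)) (A A' : Finset Λ) {K V0 : ℕ}
    {C1 η H ε T : ℝ} (hε : 0 < ε) (hε1 : ε ≤ 2) (hH : 0 ≤ H) {e : ℕ × ℕ} (he : e.1 ∈ t.items)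
    (he' : e.2 ∈ t'.items) (hI : ItHi2 D ρ b pr t K V0 C1 η H e.1) (hJ : JC x0 y0 M pr M' pr' e)
    (hT4 : 4 ≤ T) (hV : (V0 : ℝ) ≤ Real.sqrt T) (hV2 : 2 * V0 * H / ε ≤ Real.sqrt T)
    (hD : T ≤ Dsc (ρ e.1) (ρ e.2) (SE M b pr M' b' pr' e))
    (hS : SD (x0 e) (y0 e) (Real.sqrt (Dsc (ρ e.1) (ρ e.2) (SE M b pr M' b' pr' e))) ≤ 1) :
    D.iF Rl (D.uA M b pr t A 1) (D.uA M' b' pr' t' A' 1) e ≤
      (C * K' * Real.exp 2 / 2 * (C1 * (I (Fq D b pr t 1 e.1) + η * (b * ρ e.1)) +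
        3 * K * ε * (b * ρ e.1))) * (b' * ρ e.2 * dens (P e.2)) := by
  set Dd := Dsc (ρ e.1) (ρ e.2) (SE M b pr M' b' pr' e) with hDd
  obtain ⟨k, w, hk, hw, hz⟩ := hI
  obtain ⟨a1', a2', -⟩ := hF'.item _ he'
  have w0' : 0 < e.2 / pr' :=
    Nat.div_pos (Nat.le_of_dvd a1' a2') (Nat.pos_of_dvd_of_pos a2' a1')
  have b0 : (0 : ℝ) < b := by exact_mod_cast hb
  have b0' : (0 : ℝ) < b' := by exact_mod_cast hb'
  have r0 : 0 < (b : ℝ) * ρ e.1 := mul_pos b0 (hR.pos _)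
  have r0' : 0 < (b' : ℝ) * ρ e.2 := mul_pos b0' (hR.pos _)
  have hda : Da (e.1 / pr) M (e.2 / pr') M' (b * ρ e.1) (b' * ρ e.2) = Dd := by
    rw [hDd]
    exact Da_eq_sc (e.1 / pr) M (e.2 / pr') M' b b' (ρ e.1) (ρ e.2)
  have hx : ∀ l ∈ P e.2, ExF l (su (1 * mp t' e.2) (v e.2) l) := fun l hl =>
    (ho.ex _ he' l hl).comp_mul (ho.pm _ he' l hl) fun h => by
      have h1 : l ∣ 1 * mp t' e.2 := by exact_mod_cast h
      exact ho.nb _ he' l hl (h1.trans (mul_dvd_mul_right (one_dvd _) _))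
  have hTd : Real.sqrt T ≤ Real.sqrt Dd := Real.sqrt_le_sqrt hD
  have hDd0 : 0 ≤ Dd := by linarith
  have hsq : Real.sqrt Dd * Real.sqrt Dd = Dd := Real.mul_self_sqrt hDd0
  have hs2 : 2 ≤ Real.sqrt Dd := by
    have : Real.sqrt 4 ≤ Real.sqrt Dd := Real.sqrt_le_sqrt (hT4.trans hD)
    have h4 : Real.sqrt 4 = 2 := by
      rw [show (4 : ℝ) = 2 ^ 2 by norm_num]; exact Real.sqrt_sq (by norm_num)
    linarith
  have hwV : (w : ℝ) ≤ V0 := by exact_mod_cast hw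
  have key := IZ2_leaf hC hC0 (PB_Fq D e.1 hb hF hW (one_dvd _)) (PB_Fq D e.2 hb' hF' hW' (one_dvd _))
    (M := M) (M' := M') hz (P := P e.2) (u := su (1 * mp t' e.2) (v e.2)) (θ' := b' * D.γ)
    (r' := b' * ρ e.2) (K' := K') (w' := e.2 / pr') (ε := ε)
    (fun x => Fq_le_pc hR hb' hF' hW' ho he' x) ho.K0 hM hM' w0' r0' (ho.pm _ he') (ho.dv _ he')
    hx hε hε1 (D₁ := Real.sqrt Dd) (by linarith) (by
      have h1 : Crest.Agent.R4.AvgItem710.Da (e.1 / pr) M (e.2 / pr') M' (b * ρ e.1) (b' * ρ e.2) =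
        Dd := hda
      rw [h1]
      have h2 : 2 * w * H / ε ≤ 2 * V0 * H / ε := by
        refine div_le_div_of_nonneg_right ?_ hε.le
        refine mul_le_mul_of_nonneg_right ?_ hH
        linarith
      calc 2 * w * H / ε * Real.sqrt Dd ≤ Real.sqrt Dd * Real.sqrt Dd :=
            mul_le_mul_of_nonneg_right (h2.trans (hV2.trans hTd)) (Real.sqrt_nonneg _)
        _ = Dd := hsq)
  refine (iF_le_Fq hM hM' hb hb' hF hF' hW hW' Rl A A' e).trans (key.trans ?_)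
  have hmu : 0 ≤ C1 * (I (Fq D b pr t 1 e.1) + η * (b * ρ e.1)) := hz.pos.2.2
  have hAF : anF (cof (e.1 / pr / M.gcd (e.1 / pr)) (e.2 / pr' / M'.gcd (e.2 / pr')))
      (cof (e.2 / pr' / M'.gcd (e.2 / pr')) (e.1 / pr / M.gcd (e.1 / pr))) (Real.sqrt Dd) ≤
      Real.exp 2 := by
    refine (anF_mono hJ.px hJ.py hJ.x hJ.y le_rfl).trans ((anF_le hs2).trans
      (Real.exp_le_exp.2 ?_))
    linarith
  have hkK : (k : ℝ) ≤ K := by exact_mod_cast hk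
  have hd : 0 ≤ dens (P e.2) := (dens_pos (ho.pm _ he')).le
  have hK0 := ho.K0
  have g1 : C1 * (I (Fq D b pr t 1 e.1) + η * (b * ρ e.1)) + 3 * k * ε * (b * ρ e.1) ≤
      C1 * (I (Fq D b pr t 1 e.1) + η * (b * ρ e.1)) + 3 * K * ε * (b * ρ e.1) := by
    have : 3 * (k : ℝ) * ε * (b * ρ e.1) ≤ 3 * K * ε * (b * ρ e.1) := by
      have h1 : 0 ≤ ε * (b * ρ e.1) := by positivity
      nlinarith
    linarith
  have g0 : 0 ≤ C1 * (I (Fq D b pr t 1 e.1) + η * (b * ρ e.1)) + 3 * k * ε * (b * ρ e.1) := by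
    positivity
  calc C * K' * ((C1 * (I (Fq D b pr t 1 e.1) + η * (b * ρ e.1)) + 3 * k * ε * (b * ρ e.1)) / 2 *
        (b' * ρ e.2 * dens (P e.2))) * anF (cof (e.1 / pr / M.gcd (e.1 / pr))
        (e.2 / pr' / M'.gcd (e.2 / pr'))) (cof (e.2 / pr' / M'.gcd (e.2 / pr'))
        (e.1 / pr / M.gcd (e.1 / pr))) (Real.sqrt Dd)
      ≤ C * K' * ((C1 * (I (Fq D b pr t 1 e.1) + η * (b * ρ e.1)) + 3 * k * ε * (b * ρ e.1)) / 2 *
        (b' * ρ e.2 * dens (P e.2))) * Real.exp 2 :=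
        mul_le_mul_of_nonneg_left hAF (by positivity)
    _ ≤ C * K' * ((C1 * (I (Fq D b pr t 1 e.1) + η * (b * ρ e.1)) + 3 * K * ε * (b * ρ e.1)) / 2 *
        (b' * ρ e.2 * dens (P e.2))) * Real.exp 2 := by
        have := hR.pos e.2
        gcongr
    _ = _ := by ring

open Classical in
/-- **(nonleaf, leaf)**, blocks -/
theorem HL_Q {C : ℝ} (hC : PairO C) (hC0 : 0 ≤ C) (hR : D.Rad ρ)
    (hdead : ∀ j, D.it j ∉ Al → ∀ a, D.om j a = 0) (hM : 0 < M) (hM' : 0 < M')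
    (hb : 0 < b) (hb' : 0 < b') (hF : Fit b pr t) (hF' : Fit b' pr' t') (hW : D.Wts pr t)
    (hW' : D.Wts pr' t') {K' : ℝ} {P : ℕ → Finset ℕ} {v : ℕ → ℕ → ℤ → ℝ}
    (ho : OmW D b' pr' t' K' P v) (Rl : Finset (Λ × Λ)) (A A' : Finset Λ) {K V0 : ℕ}
    {C1 η H ε T : ℝ} (hε : 0 < ε) (hε1 : ε ≤ 2) (hH : 0 ≤ H)
    (hI : ∀ q ∈ Qi D Al t A, ItHi2 D ρ b pr t K V0 C1 η H q)
    (hJ : ∀ e ∈ Qi D Al t A ×ˢ Qi D Al t' A', JC x0 y0 M pr M' pr' e)
    (hT4 : 4 ≤ T) (hV : (V0 : ℝ) ≤ Real.sqrt T) (hV2 : 2 * V0 * H / ε ≤ Real.sqrt T)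
    {Lo : ℝ × ℝ → ℕ × ℕ → Prop} (hL : LoS Lo ρ x0 y0 T) :
    Q Rl (D.uA M b pr t A 1) (D.uA M' b' pr' t' A' 1) ≤
      (C * K' * Real.exp 2 / 2 * (C1 * ∑ q ∈ Qi D Al t A, I (Fq D b pr t 1 q) +
        (C1 * η + 3 * K * ε) * SR ρ b (Qi D Al t A))) *
        ∑ r ∈ Qi D Al t' A', (b' : ℝ) * ρ r * dens (P r) +
      ∑ e ∈ Qi D Al t A ×ˢ Qi D Al t' A',
        (b : ℝ) * b' * FL Lo ρ D.γ (SE M b pr M' b' pr' e) e := by
  have key := block_core (c := 1) (c' := 1) hR hdead hM hM' hb hb' hF hF' hW hW' (one_dvd _)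
    (one_dvd _) Rl A A' (Pw := fun _ => True) (Lo := fun e => Lo (SE M b pr M' b' pr' e) e)
    (f := fun q => C * K' * Real.exp 2 / 2 * (C1 * (I (Fq D b pr t 1 q) + η * (b * ρ q)) +
        3 * K * ε * (b * ρ q)))
    (g := fun r => (b' : ℝ) * ρ r * dens (P r))
    (fun q hq => by
      obtain ⟨k, w, hk, hw, hz⟩ := hI q hq
      have hmu : 0 ≤ C1 * (I (Fq D b pr t 1 q) + η * (b * ρ q)) := hz.pos.2.2
      have := (hR.pos q).le
      have := ho.K0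
      positivity)
    (fun r hr => by
      have := (hR.pos r).le
      have := (dens_pos (ho.pm _ (mem_Qi.1 hr).1)).le
      positivity)
    (fun _ _ => trivial)
    (fun e he _ hn => by
      have hm := Finset.mem_product.1 he
      exact iF_HL hC hC0 hR hM hM' hb hb' hF hF' hW hW' ho Rl A A' hε hε1 hH
        (mem_Qi.1 hm.1).1 (mem_Qi.1 hm.2).1 (hI _ hm.1) (hJ e he) hT4 hV hV2 (hL.T _ e hn)
        (hL.sd _ e hn))
  refine key.trans (add_le_add (le_of_eq ?_) ?_)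
  · congr 1
    rw [← Finset.mul_sum, Finset.sum_add_distrib, ← Finset.mul_sum, ← Finset.mul_sum,
      Finset.sum_add_distrib, ← Finset.mul_sum]
    unfold SR
    ring
  · refine sum_lo_le (fun e => mul_nonneg (by positivity) (FL_nonneg hR.pos _ _ _))
      fun e _ _ h2 => ?_
    rw [pb_one]
    unfold vE FL
    rw [if_pos ⟨h2, SE_pos M b pr M' b' pr' e⟩]

end Crest.Agent.R4P.HiLeafS28
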