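import Crest.Agent.R4.AnnLeaf368
import Crest.Agent.R4.LF4R793
import Crest.Agent.R4.AvgItem710

/-!
R4 (S0004), powers pass, group [X] (helper30): **overlap of two filtered items, tree free** (for the
(leaf, leaf') and (leaf, tie) states of the cross walk).

* `vw A c l a` : local filter, class `c l` excluded for `l ∈ A`, constant `1 - 1/l` otherwise.
* `prod_lf_vw_le` : product of the joint local factors.
* `pieces_le` : overlap of the pieces of two items of arbitrary moduli `w, w'`, filters `nw P (vw A c)`,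
  `nw Q (vw B c')`, with a bound `F` of the coincidences as hypothesis; the exceptional determinants
  (`¬ N n`) cost `2 R R'/D` each.
* `pieces_one` : one side without classes (`A = ∅`): no exceptional determinants, `F = 1`.
* `coin_sub_le`, `pieces_lab` : labels, the excluded classes are those of the labels at *some* of the
  active primes; the coincidences of the non exact determinants cost `C3`.
-/

set_option autoImplicit false
open MeasureTheory
open Finset hiding dens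

namespace Crest.Agent.R4P.LeafOs30

open Crest.Agent.R4.Ovl560 Crest.Agent.R4.Piece464
open Crest.Agent.R4.Tour104 (I PB)
open Crest.Agent.R4.HVW560 (cof)
open Crest.Agent.R4.AvgItem710 (Dp)
open Crest.Agent.R4.LF363 (bA bB bez yq Act)
open Crest.Agent.R4.LF4 (kc prod_kc lf_not_mem exists_dsumN actS actS_subset cls cls_spec C3 one_le_C3
  coin_le)

/-! ### filters -/

open Classical in
/-- local filter: the class `c l` is excluded for `l ∈ A`, constant weight `1 - 1/l` otherwise -/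
noncomputable def vw (A : Finset ℕ) (c : ℕ → ℤ) (l : ℕ) (a : ℤ) : ℝ :=
  if l ∈ A then exw c l a else 1 - 1 / (l : ℝ)

variable {P Q A B : Finset ℕ} {c c' : ℕ → ℤ}

lemma vw_mem {l : ℕ} (h : l ∈ A) (a : ℤ) : vw A c l a = exw c l a := by
  classical
  unfold vw; rw [if_pos h]

lemma vw_not_mem {l : ℕ} (h : l ∉ A) (a : ℤ) : vw A c l a = 1 - 1 / (l : ℝ) := by
  classical
  unfold vw; rw [if_neg h]

lemma vw_nonneg {l : ℕ} (hl : l.Prime) (a : ℤ) : 0 ≤ vw A c l a := by
  by_cases h : l ∈ A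
  · rw [vw_mem h]; exact exw_nonneg _ _ _
  · rw [vw_not_mem h]; exact (one_sub_pos hl).le

lemma vw_le_one (l : ℕ) (a : ℤ) : vw A c l a ≤ 1 := by
  by_cases h : l ∈ A
  · rw [vw_mem h]; exact exw_le_one _ _ _
  · rw [vw_not_mem h]
    have : (0 : ℝ) ≤ 1 / l := by positivity
    linarith

lemma LW_vw (hP : ∀ l ∈ P, l.Prime) : LW P (vw A c) := by
  intro l hl
  refine ⟨fun a => vw_nonneg (hP l hl) a, fun a => ?_⟩
  by_cases h : l ∈ A
  · rw [vw_mem h, vw_mem h]
    exact (LW_exw {l} c l (mem_singleton_self l)).2 a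
  · rw [vw_not_mem h, vw_not_mem h]

/-- a full period has mean `1 - 1/l` -/
lemma mean_vw {l : ℕ} (hl : l.Prime) {x : ℕ} (hx : ¬ l ∣ x) (a : ℤ) :
    ∑ k ∈ range l, vw A c l (a + x * k) = l * (1 - 1 / (l : ℝ)) := by
  have hl0 : (l : ℝ) ≠ 0 := by exact_mod_cast hl.ne_zero
  by_cases h : l ∈ A
  · rw [Finset.sum_congr rfl fun k _ => vw_mem h _, mean_exw hl hx]
    field_simp
  · rw [Finset.sum_congr rfl fun k _ => vw_not_mem h _, sum_const, card_range, nsmul_eq_mul]

/-- monotonicity in the excluded classes, up to the densities -/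
lemma nw_empty (u : ℕ → ℤ → ℝ) (a : ℤ) : nw ∅ u a = 1 := prod_empty

/-! ### local factors -/

lemma lf_vw (hA : A ⊆ P) (hB : B ⊆ Q) (x y : ℕ) (a b : ℤ) (p : ℕ) :
    lf P Q (vw A c) (vw B c') x y a b p =
      kc P A p * kc Q B p * lf A B (exw c) (exw c') x y a b p := by
  classical
  have h1 : ∀ z : ℤ, (if p ∈ P then vw A c p z else 1) =
      kc P A p * (if p ∈ A then exw c p z else 1) := by
    intro z
    unfold kc
    by_cases hp : p ∈ P
    · rw [if_pos hp]
      by_cases h : p ∈ A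
      · rw [vw_mem h, if_neg, if_pos h, one_mul]
        rw [mem_sdiff]; exact fun h2 => h2.2 h
      · rw [vw_not_mem h, if_pos (mem_sdiff.2 ⟨hp, h⟩), if_neg h, mul_one]
    · have h : p ∉ A := fun h => hp (hA h)
      rw [if_neg hp, if_neg (fun h2 => hp (mem_sdiff.1 h2).1), if_neg h, one_mul]
  have h2 : ∀ z : ℤ, (if p ∈ Q then vw B c' p z else 1) =
      kc Q B p * (if p ∈ B then exw c' p z else 1) := by
    intro z
    unfold kc
    by_cases hp : p ∈ Q
    · rw [if_pos hp]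
      by_cases h : p ∈ B
      · rw [vw_mem h, if_neg, if_pos h, one_mul]
        rw [mem_sdiff]; exact fun h2 => h2.2 h
      · rw [vw_not_mem h, if_pos (mem_sdiff.2 ⟨hp, h⟩), if_neg h, mul_one]
    · have h : p ∉ B := fun h => hp (hB h)
      rw [if_neg hp, if_neg (fun h2 => hp (mem_sdiff.1 h2).1), if_neg h, one_mul]
  unfold lf
  rw [← mul_div_assoc, Finset.mul_sum]
  congr 1
  refine Finset.sum_congr rfl fun k _ => ?_
  rw [h1, h2]
  ring

lemma lf_nonneg_vw (hP : ∀ p ∈ P, p.Prime) (hQ : ∀ p ∈ Q, p.Prime) (x y : ℕ) (a b : ℤ) (p : ℕ) :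
    0 ≤ lf P Q (vw A c) (vw B c') x y a b p := by
  unfold lf
  refine div_nonneg (Finset.sum_nonneg fun k _ => mul_nonneg ?_ ?_) (Nat.cast_nonneg p)
  · split_ifs with h
    · exact vw_nonneg (hP p h) _
    · exact zero_le_one
  · split_ifs with h
    · exact vw_nonneg (hQ p h) _
    · exact zero_le_one

lemma lf_le_one_vw (hQ : ∀ p ∈ Q, p.Prime) (x y : ℕ) (a b : ℤ) {p : ℕ}
    (hp : 0 < p) : lf P Q (vw A c) (vw B c') x y a b p ≤ 1 := by
  have hp0 : (0 : ℝ) < p := by exact_mod_cast hp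
  unfold lf
  rw [div_le_one hp0]
  calc ∑ k ∈ range p, (if p ∈ P then vw A c p (a + x * k) else 1) *
        (if p ∈ Q then vw B c' p (b + y * k) else 1) ≤ ∑ _k ∈ range p, (1 : ℝ) := by
        refine Finset.sum_le_sum fun k _ => ?_
        have e1 : (if p ∈ P then vw A c p (a + x * k) else 1) ≤ 1 := by
          split_ifs
          · exact vw_le_one _ _
          · exact le_rfl
        have e2 : (if p ∈ Q then vw B c' p (b + y * k) else 1) ≤ 1 := by
          split_ifs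
          · exact vw_le_one _ _
          · exact le_rfl
        have e3 : (0 : ℝ) ≤ (if p ∈ Q then vw B c' p (b + y * k) else 1) := by
          split_ifs with h
          · exact vw_nonneg (hQ p h) _
          · exact zero_le_one
        exact mul_le_one₀ e1 e3 e2
    _ = p := by rw [sum_const, card_range, nsmul_eq_mul, mul_one]

open Classical in
/-- **product of the joint local factors** -/
theorem prod_lf_vw_le (hA : A ⊆ P) (hB : B ⊆ Q) (hP : ∀ p ∈ P, p.Prime) (hQ : ∀ p ∈ Q, p.Prime)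
    {x y : ℕ} (hxy : Nat.Coprime x y) {n a b : ℤ} (hn : a * y - b * x = n) :
    ∏ p ∈ P ∪ Q, lf P Q (vw A c) (vw B c') x y a b p ≤
      dens P * dens Q * (dens (uns A B x y))⁻¹ *
        (if Surv A B c c' x y n then (dens (coin A B c c' x y n))⁻¹ else 0) := by
  have hAp : ∀ p ∈ A, p.Prime := fun p hp => hP p (hA hp)
  have hBp : ∀ p ∈ B, p.Prime := fun p hp => hQ p (hB hp)
  have hPQ : ∀ p ∈ P ∪ Q, p.Prime := fun p hp => by
    rcases mem_union.1 hp with h | h
    · exact hP p h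
    · exact hQ p h
  have e1 : ∏ p ∈ P ∪ Q, lf P Q (vw A c) (vw B c') x y a b p =
      dens (P \ A) * dens (Q \ B) *
        ∏ p ∈ A ∪ B, lf A B (exw c) (exw c') x y a b p := by
    rw [prod_congr rfl fun p _ => lf_vw hA hB x y a b p, prod_mul_distrib, prod_mul_distrib,
      prod_kc subset_union_left, prod_kc subset_union_right]
    congr 1
    symm
    refine prod_subset (union_subset_union hA hB) fun p hp hp' => ?_
    rw [mem_union, not_or] at hp'
    exact lf_not_mem (hPQ p hp).ne_zero hp'.1 hp'.2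
  have e2 : ∏ p ∈ A ∪ B, lf A B (exw c) (exw c') x y a b p ≤
      ∏ p ∈ A ∪ B, lam A B c c' x y n p := by
    refine prod_le_prod (fun p _ => ?_) fun p hp => lf_le_lam _ _ hAp hBp hxy n a b hn hp
    unfold lf
    refine div_nonneg (Finset.sum_nonneg fun k _ => mul_nonneg ?_ ?_) (Nat.cast_nonneg p)
    · split_ifs
      · exact exw_nonneg _ _ _
      · exact zero_le_one
    · split_ifs
      · exact exw_nonneg _ _ _
      · exact zero_le_one
  have hd1 : 0 ≤ dens (P \ A) * dens (Q \ B) :=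
    mul_nonneg (dens_pos fun p hp => hP p (mem_sdiff.1 hp).1).le
      (dens_pos fun p hp => hQ p (mem_sdiff.1 hp).1).le
  rw [e1]
  refine (mul_le_mul_of_nonneg_left e2 hd1).trans (le_of_eq ?_)
  rw [prod_lam, dens_uns hAp hxy]
  have h1 := dens_split A x
  have h2 := dens_split B y
  have h3 : dens P = dens (P \ A) * dens A := by
    unfold dens; rw [prod_sdiff hA]
  have h4 : dens Q = dens (Q \ B) * dens B := by
    unfold dens; rw [prod_sdiff hB]
  have h5 : dens (A.filter fun p => p ∣ x) ≠ 0 :=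
    (dens_pos fun p hp => hAp p (mem_filter.1 hp).1).ne'
  have h6 : dens (B.filter fun p => p ∣ y) ≠ 0 :=
    (dens_pos fun p hp => hBp p (mem_filter.1 hp).1).ne'
  rw [h3, h4, h1, h2]
  field_simp

/-- at the primes of both filters the local factor is at most `1 - 1/p` -/
lemma lf_both (hP : ∀ p ∈ P, p.Prime) {x y : ℕ} (hxy : Nat.Coprime x y) (a b : ℤ) {p : ℕ}
    (hpP : p ∈ P) (hpQ : p ∈ Q) : lf P Q (vw A c) (vw B c') x y a b p ≤ 1 - 1 / (p : ℝ) := by
  have hpp := hP p hpP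
  have hp0 : (0 : ℝ) < p := by exact_mod_cast hpp.pos
  unfold lf
  simp only [if_pos hpP, if_pos hpQ]
  rw [div_le_iff₀ hp0, mul_comm (1 - 1 / (p : ℝ))]
  by_cases hx : p ∣ x
  · have hy : ¬ p ∣ y := fun h => hpp.one_lt.ne' (Nat.eq_one_of_dvd_coprimes hxy hx h)
    rw [← mean_vw (A := B) (c := c') hpp hy b]
    exact Finset.sum_le_sum fun k _ => mul_le_of_le_one_left (vw_nonneg hpp _) (vw_le_one _ _)
  · rw [← mean_vw (A := A) (c := c) hpp hx a]
    exact Finset.sum_le_sum fun k _ => mul_le_of_le_one_right (vw_nonneg hpp _) (vw_le_one _ _)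

/-- trivial bound of the product -/
lemma prod_lf_le_dens (hP : ∀ p ∈ P, p.Prime) (hQ : ∀ p ∈ Q, p.Prime) {x y : ℕ}
    (hxy : Nat.Coprime x y) (a b : ℤ) :
    ∏ p ∈ P ∪ Q, lf P Q (vw A c) (vw B c') x y a b p ≤ dens (P ∩ Q) := by
  have hPQ : ∀ p ∈ P ∪ Q, p.Prime := fun p hp => by
    rcases mem_union.1 hp with h | h
    · exact hP p h
    · exact hQ p h
  have hsub : P ∩ Q ⊆ P ∪ Q := inter_subset_left.trans subset_union_left
  rw [← prod_sdiff hsub]
  unfold dens
  calc (∏ p ∈ (P ∪ Q) \ (P ∩ Q), lf P Q (vw A c) (vw B c') x y a b p) *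
        ∏ p ∈ P ∩ Q, lf P Q (vw A c) (vw B c') x y a b p
      ≤ 1 * ∏ p ∈ P ∩ Q, (1 - 1 / (p : ℝ)) := by
        refine mul_le_mul ?_ ?_ (prod_nonneg fun p _ => lf_nonneg_vw hP hQ x y a b p) zero_le_one
        · exact prod_le_one (fun p _ => lf_nonneg_vw hP hQ x y a b p) fun p hp =>
            lf_le_one_vw hQ x y a b (hPQ p (mem_sdiff.1 hp).1).pos
        · exact prod_le_prod (fun p _ => lf_nonneg_vw hP hQ x y a b p) fun p hp =>
            lf_both hP hxy a b (mem_inter.1 hp).1 (mem_inter.1 hp).2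
    _ = _ := one_mul _

/-! ### the overlap of the pieces of two items -/

/-- the constant of the overlap bound -/
noncomputable def CV : ℝ := max (2 * exists_dsumN.choose) 10

lemma CV_ge : 10 ≤ CV := le_max_right _ _
lemma CV_nonneg : 0 ≤ CV := by linarith [CV_ge]

/-- inverse density of the unshared primes above `max 1 D` -/
noncomputable def AX (x y : ℕ) (D : ℝ) : ℝ :=
  (dens ((x * y).primeFactors.filter fun p : ℕ => max 1 D < p))⁻¹

lemma one_le_AX (x y : ℕ) (D : ℝ) : 1 ≤ AX x y D :=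
  one_le_dens_inv fun _ hp => Nat.prime_of_mem_primeFactors (mem_filter.1 hp).1

set_option maxHeartbeats 2000000 in
/-- the sum over the determinants -/
theorem dets_le (hA : A ⊆ P) (hB : B ⊆ Q) (hP : ∀ p ∈ P, p.Prime) (hQ : ∀ p ∈ Q, p.Prime)
    {x y : ℕ} (hx : 0 < x) (hy : 0 < y) (hxy : Nat.Coprime x y) {R R' D : ℝ} (hR : 0 < R)
    (hR' : 0 < R') (hD : D = max (y * R) (x * R')) {a : ℝ} (N : ℤ → Prop) {F : ℝ} (hF0 : 0 ≤ F)
    (hF : ∀ n ∈ win a (y * R + x * R'), N n →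
      (dens ((coin A B c c' x y n).filter fun p : ℕ => max 1 D < p))⁻¹ ≤ F)
    (Wn : Finset ℤ) (hWn : ∀ n ∈ win a (y * R + x * R'), ¬ N n → n ∈ Wn) (α β : ℤ → ℤ)
    (hαβ : ∀ n, α n * y - β n * x = n) :
    2 * (R * R' / D) * ∑ n ∈ win a (y * R + x * R'),
        ∏ p ∈ P ∪ Q, lf P Q (vw A c) (vw B c') x y (α n) (β n) p ≤
      CV * F * ((R * dens P) * (R' * dens Q) * max 1 (1 / D) * AX x y D) +
        2 * (R * R' / D) * dens (P ∩ Q) * Wn.card := by
  classical
  have hxr : (0 : ℝ) < x := by exact_mod_cast hx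
  have hyr : (0 : ℝ) < y := by exact_mod_cast hy
  have h1 : (y : ℝ) * R ≤ D := by rw [hD]; exact le_max_left _ _
  have h2 : (x : ℝ) * R' ≤ D := by rw [hD]; exact le_max_right _ _
  have hDpos : 0 < D := lt_of_lt_of_le (mul_pos hyr hR) h1
  have hL : (y : ℝ) * R + x * R' ≤ 2 * D := by linarith
  have hAp : ∀ p ∈ A, p.Prime := fun p hp => hP p (hA hp)
  have hBp : ∀ p ∈ B, p.Prime := fun p hp => hQ p (hB hp)
  have hun := uns_prime (x := x) (y := y) hAp hBp
  set U := uns A B x y with hU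
  have hdU : 0 < dens U := dens_pos hun
  have hdP : 0 < dens P := dens_pos hP
  have hdQ : 0 < dens Q := dens_pos hQ
  have hdI : 0 ≤ dens (P ∩ Q) := (dens_pos fun p hp => hP p (mem_inter.1 hp).1).le
  have hsubU : U ⊆ (x * y).primeFactors := by
    intro p hp
    have hpp := hun p hp
    rw [Nat.mem_primeFactors]
    refine ⟨hpp, ?_, (Nat.mul_pos hx hy).ne'⟩
    rw [hU, uns, mem_union, mem_filter, mem_filter] at hp
    rcases hp with h | h
    · exact Dvd.dvd.mul_right h.2 _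
    · exact Dvd.dvd.mul_left h.2 _
  have hccp : ∀ p ∈ (x * y).primeFactors, p.Prime := fun p hp => Nat.prime_of_mem_primeFactors hp
  have hAI : (dens (U.filter fun p : ℕ => max 1 D < p))⁻¹ ≤ AX x y D := by
    unfold AX
    refine inv_anti₀ (dens_pos fun p hp => hccp p (mem_filter.1 hp).1) ?_
    refine dens_mono (fun p hp => hccp p (mem_filter.1 hp).1) ?_
    exact filter_subset_filter _ hsubU
  have hAI0 : 0 ≤ AX x y D := zero_le_one.trans (one_le_AX x y D)
  have hRR : 0 ≤ 2 * (R * R' / D) := by positivity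
  set Wd := win a (y * R + x * R') with hWd
  set S : ℤ → ℝ := fun n => if Surv A B c c' x y n then (dens (coin A B c c' x y n))⁻¹ else 0 with hS
  set T : ℤ → ℝ := fun n => ∏ p ∈ P ∪ Q, lf P Q (vw A c) (vw B c') x y (α n) (β n) p with hT
  have hsplit : ∑ n ∈ Wd, T n = ∑ n ∈ Wd.filter N, T n + ∑ n ∈ Wd.filter (fun n => ¬ N n), T n :=
    (Finset.sum_filter_add_sum_filter_not _ _ _).symm
  have hex : ∑ n ∈ Wd.filter (fun n => ¬ N n), T n ≤ dens (P ∩ Q) * Wn.card := by
    calc ∑ n ∈ Wd.filter (fun n => ¬ N n), T n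
        ≤ ∑ _n ∈ Wd.filter (fun n => ¬ N n), dens (P ∩ Q) :=
          Finset.sum_le_sum fun n _ => prod_lf_le_dens hP hQ hxy _ _
      _ = (Wd.filter (fun n => ¬ N n)).card * dens (P ∩ Q) := by
          rw [sum_const, nsmul_eq_mul]
      _ ≤ Wn.card * dens (P ∩ Q) := by
          refine mul_le_mul_of_nonneg_right ?_ hdI
          have : (Wd.filter (fun n => ¬ N n)) ⊆ Wn := fun n hn =>
            hWn n (mem_filter.1 hn).1 (mem_filter.1 hn).2
          exact_mod_cast card_le_card this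
      _ = _ := mul_comm _ _
  have hterm : ∀ n : ℤ, T n ≤ dens P * dens Q * (dens U)⁻¹ * S n := fun n =>
    prod_lf_vw_le hA hB hP hQ hxy (hαβ n)
  have hnx : ∑ n ∈ Wd.filter N, T n ≤ dens P * dens Q * (dens U)⁻¹ * ∑ n ∈ Wd.filter N, S n := by
    rw [Finset.mul_sum]
    exact Finset.sum_le_sum fun n _ => hterm n
  have hpq : 0 ≤ dens P * dens Q * (dens U)⁻¹ := by positivity
  have key : 2 * (R * R' / D) * ∑ n ∈ Wd.filter N, T n ≤
      CV * F * ((R * dens P) * (R' * dens Q) * max 1 (1 / D) * AX x y D) := by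
    have hsum : 2 * (R * R' / D) * ∑ n ∈ Wd.filter N, T n ≤
        2 * (R * R' / D) * (dens P * dens Q * (dens U)⁻¹ * ∑ n ∈ Wd.filter N, S n) :=
      mul_le_mul_of_nonneg_left hnx hRR
    refine hsum.trans ?_
    have hm0 : 0 ≤ (R * dens P) * (R' * dens Q) := by positivity
    rcases le_total 1 D with hD1 | hD1
    · -- `D ≥ 1`
      have hmax : max 1 D = D := max_eq_right hD1
      have hmax2 : max 1 (1 / D) = 1 := max_eq_left ((div_le_iff₀ hDpos).2 (by linarith))
      have hs := exists_dsumN.choose_spec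
      have h3 := hs.2 c c' hAp hBp hxy D hD1 a (y * R + x * R') hL N F hF0
        (fun n hn hex _ => by
          have := hF n hn hex
          rwa [hmax] at this)
      have h3' : ∑ n ∈ Wd.filter N, S n ≤
          exists_dsumN.choose * D * dens (U.filter fun p : ℕ => (p : ℝ) ≤ D) * F := by
        have key : ∀ (G : Finset ℤ) (g : ℤ → ℝ) (i1 i2 : DecidablePred N),
            ∑ n ∈ @Finset.filter ℤ N i1 G, g n = ∑ n ∈ @Finset.filter ℤ N i2 G, g n := by
          intro G g i1 i2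
          rw [Subsingleton.elim i1 i2]
        exact (le_of_eq (key _ _ _ _)).trans h3
      have h4 : dens U = dens (U.filter fun p : ℕ => (p : ℝ) ≤ D) *
          dens (U.filter fun p : ℕ => D < p) := by
        unfold dens
        rw [← prod_filter_mul_prod_filter_not U (fun p : ℕ => (p : ℝ) ≤ D)]
        congr 1
        exact prod_congr (filter_congr fun p _ => not_le) fun p _ => rfl
      have h5 : 0 < dens (U.filter fun p : ℕ => (p : ℝ) ≤ D) :=
        dens_pos fun p hp => hun p (mem_filter.1 hp).1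
      have h6 : 0 < dens (U.filter fun p : ℕ => D < p) :=
        dens_pos fun p hp => hun p (mem_filter.1 hp).1
      rw [hmax] at hAI
      rw [hmax2, mul_one]
      have hc0 : 0 < exists_dsumN.choose := hs.1
      calc 2 * (R * R' / D) * (dens P * dens Q * (dens U)⁻¹ * ∑ n ∈ Wd.filter N, S n)
          ≤ 2 * (R * R' / D) * (dens P * dens Q * (dens U)⁻¹ * (exists_dsumN.choose * D *
              dens (U.filter fun p : ℕ => (p : ℝ) ≤ D) * F)) := by
            refine mul_le_mul_of_nonneg_left ?_ hRR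
            exact mul_le_mul_of_nonneg_left h3' hpq
        _ = (2 * exists_dsumN.choose) * F * ((R * dens P) * (R' * dens Q) *
              (dens (U.filter fun p : ℕ => D < p))⁻¹) := by
            rw [h4]
            field_simp
        _ ≤ (2 * exists_dsumN.choose) * F * ((R * dens P) * (R' * dens Q) * AX x y D) := by
            refine mul_le_mul_of_nonneg_left ?_ (by positivity)
            exact mul_le_mul_of_nonneg_left hAI hm0
        _ ≤ CV * F * ((R * dens P) * (R' * dens Q) * AX x y D) := by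
            refine mul_le_mul_of_nonneg_right ?_ (mul_nonneg hm0 hAI0)
            exact mul_le_mul_of_nonneg_right (le_max_left _ _) hF0
    · -- `D ≤ 1`
      have hmax : max 1 D = 1 := max_eq_left hD1
      have hmax2 : max 1 (1 / D) = 1 / D := max_eq_right ((le_div_iff₀ hDpos).2 (by linarith))
      have hfil : ∀ H : Finset ℕ, (∀ p ∈ H, p.Prime) → H.filter (fun p : ℕ => (1 : ℝ) < p) = H := by
        intro H hH
        refine filter_true_of_mem fun p hp => ?_
        exact_mod_cast (hH p hp).one_lt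
      have hcard : ((Wd.filter N).card : ℝ) ≤ 5 := by
        have h3 : ((Wd).card : ℝ) ≤ 2 * (y * R + x * R') + 1 := card_win_le' _ (by positivity)
        have h4 : ((Wd.filter N).card : ℝ) ≤ (Wd.card : ℝ) := by exact_mod_cast card_filter_le _ _
        linarith
      have h3' : ∑ n ∈ Wd.filter N, S n ≤ 5 * F := by
        calc ∑ n ∈ Wd.filter N, S n
            ≤ ∑ _n ∈ Wd.filter N, F := by
              refine Finset.sum_le_sum fun n hn => ?_
              rw [mem_filter] at hn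
              have h4 := hF n hn.1 hn.2
              rw [hmax, hfil _ (coin_prime hAp n)] at h4
              simp only [hS]
              split_ifs
              · exact h4
              · exact hF0
          _ = ((Wd.filter N).card : ℝ) * F := by
              rw [sum_const, nsmul_eq_mul]
          _ ≤ 5 * F := mul_le_mul_of_nonneg_right hcard hF0
      rw [hmax, hfil _ hun] at hAI
      rw [hmax2]
      calc 2 * (R * R' / D) * (dens P * dens Q * (dens U)⁻¹ * ∑ n ∈ Wd.filter N, S n)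
          ≤ 2 * (R * R' / D) * (dens P * dens Q * (dens U)⁻¹ * (5 * F)) := by
            refine mul_le_mul_of_nonneg_left ?_ hRR
            exact mul_le_mul_of_nonneg_left h3' hpq
        _ = 10 * F * ((R * dens P) * (R' * dens Q) * (1 / D) * (dens U)⁻¹) := by ring
        _ ≤ 10 * F * ((R * dens P) * (R' * dens Q) * (1 / D) * AX x y D) := by
            refine mul_le_mul_of_nonneg_left ?_ (by positivity)
            exact mul_le_mul_of_nonneg_left hAI (by positivity)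
        _ ≤ CV * F * ((R * dens P) * (R' * dens Q) * (1 / D) * AX x y D) := by
            refine mul_le_mul_of_nonneg_right ?_ (by positivity)
            exact mul_le_mul_of_nonneg_right CV_ge hF0
  rw [hsplit, mul_add]
  refine add_le_add key ?_
  calc 2 * (R * R' / D) * ∑ n ∈ Wd.filter (fun n => ¬ N n), T n
      ≤ 2 * (R * R' / D) * (dens (P ∩ Q) * Wn.card) := mul_le_mul_of_nonneg_left hex hRR
    _ = _ := by ring

/-- **overlap of the pieces of two filtered items**, arbitrary moduli -/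
theorem pieces_le {ι ι' : Type*} (Rel : Finset (ι × ι')) (hA : A ⊆ P) (hB : B ⊆ Q) {w w' : ℕ}
    (hw : 0 < w) (hw' : 0 < w') (hP : P ⊆ w.primeFactors) (hQ : Q ⊆ w'.primeFactors)
    {θ θ' R R' : ℝ} (hR : 0 < R) (hR' : 0 < R') {α β : ι → ℝ} {α' β' : ι' → ℝ}
    (hα : ∀ e ∈ Rel, -R ≤ α e.1 ∧ β e.1 ≤ R) (hα' : ∀ e ∈ Rel, -R' ≤ α' e.2 ∧ β' e.2 ≤ R')
    (hdis : ∀ s s' : ℝ, ∀ e ∈ Rel, ∀ f ∈ Rel, (α e.1 ≤ s ∧ s < β e.1) →
      (α' e.2 ≤ s' ∧ s' < β' e.2) → (α f.1 ≤ s ∧ s < β f.1) → (α' f.2 ≤ s' ∧ s' < β' f.2) → e = f)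
    (N : ℤ → Prop) {F : ℝ} (hF0 : 0 ≤ F)
    (hF : ∀ n : ℤ, |(n : ℝ) - (cof w w' * θ' - cof w' w * θ)| < cof w' w * R + cof w w' * R' →
      N n → (dens ((coin A B c c' (cof w w') (cof w' w) n).filter
        fun p : ℕ => max 1 (Dp w w' R R') < p))⁻¹ ≤ F)
    (Wn : Finset ℤ)
    (hWn : ∀ n : ℤ, |(n : ℝ) - (cof w w' * θ' - cof w' w * θ)| < cof w' w * R + cof w w' * R' →
      ¬ N n → n ∈ Wn) :
    ∑ e ∈ Rel, I (fun t => pc θ (α e.1) (β e.1) w (nw P (vw A c)) t *
        pc θ' (α' e.2) (β' e.2) w' (nw Q (vw B c')) t) ≤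
      CV * F * ((R * dens P) * (R' * dens Q) * max 1 (1 / Dp w w' R R') *
          AX (cof w w') (cof w' w) (Dp w w' R R')) +
        2 * (R * R' / Dp w w' R R') * dens (P ∩ Q) * Wn.card := by
  classical
  set x := cof w w' with hx
  set y := cof w' w with hy
  set g := Nat.gcd w w' with hg
  have hxp : 0 < x := Crest.Agent.R4.HVW560.cof_pos hw
  have hyp : 0 < y := Crest.Agent.R4.HVW560.cof_pos hw'
  have hgp : 0 < g := Nat.gcd_pos_of_pos_left _ hw
  have hxy : Nat.Coprime x y := Crest.Agent.R4.HVW560.cof_coprime hw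
  have hgx : g * x = w := Crest.Agent.R4.LF363.gcd_mul_cof w w'
  have hgy : g * y = w' := Crest.Agent.R4.LF363.gcd_mul_cof' w w'
  have hxr : (0 : ℝ) < x := by exact_mod_cast hxp
  have hyr : (0 : ℝ) < y := by exact_mod_cast hyp
  have hgr : (0 : ℝ) < g := by exact_mod_cast hgp
  have hPp : ∀ p ∈ P, p.Prime := fun p hp => Nat.prime_of_mem_primeFactors (hP hp)
  have hQp : ∀ p ∈ Q, p.Prime := fun p hp => Nat.prime_of_mem_primeFactors (hQ hp)
  have h1 := Crest.Agent.R4.AnnLeaf368.world_pair Rel (LW_vw (A := A) (c := c) hPp)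
    (LW_vw (A := B) (c := c') hQp) hPp hQp hgp hxp hyp hxy
    (fun p hp => by rw [hgx]; exact Nat.dvd_of_mem_primeFactors (hP hp))
    (fun p hp => by rw [hgy]; exact Nat.dvd_of_mem_primeFactors (hQ hp))
    θ θ' R R' hR.le hR'.le (fun n => n * bA x y) (fun n => n * bB x y) (bez hxy)
    α β α' β' hα hα' hdis (win (x * θ' - y * θ) (y * R + x * R'))
    (fun e he a b t k1 k2 => by
      rw [mem_win]
      have g1 := hα e he
      have g2 := hα' e he
      set u : ℝ := ((g * x : ℕ) : ℝ) * t - θ - a with hu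
      set v : ℝ := ((g * y : ℕ) : ℝ) * t - θ' - b with hv
      have e1 : ((a * y - b * x : ℤ) : ℝ) - (x * θ' - y * θ) = x * v - y * u := by
        rw [hu, hv]; push_cast; ring
      rw [e1, abs_lt]
      have u1 : -R ≤ u := g1.1.trans k1.1
      have u2 : u < R := k1.2.trans_le g1.2
      have v1 : -R' ≤ v := g2.1.trans k2.1
      have v2 : v < R' := k2.2.trans_le g2.2
      have m1 := mul_le_mul_of_nonneg_left u1 hyr.le
      have m2 := mul_lt_mul_of_pos_left u2 hyr
      have m3 := mul_le_mul_of_nonneg_left v1 hxr.le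
      have m4 := mul_lt_mul_of_pos_left v2 hxr
      constructor <;> linarith)
  rw [hgx, hgy] at h1
  refine h1.trans ?_
  have e1 : 2 * min (R / (w : ℝ)) (R' / (w' : ℝ)) * g = 2 * (R * R' / Dp w w' R R') := by
    have e2 := Crest.Agent.R4.Ovl560.min_mul_max (r := R) (r' := R') hgr hxr hyr (by
      exact lt_max_of_lt_left (mul_pos hxr hR'))
    have e3 : (w : ℝ) = g * x := by rw [← hgx]; push_cast; ring
    have e4 : (w' : ℝ) = g * y := by rw [← hgy]; push_cast; ring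
    have e5 : Dp w w' R R' = max (x * R') (y * R) := by
      unfold Dp; rw [max_comm]
    rw [e3, e4, e2, e5]
    ring
  have e6 : 2 * min (R / (w : ℝ)) (R' / (w' : ℝ)) *
      ∑ n ∈ win (x * θ' - y * θ) (y * R + x * R'), ((g : ℝ) *
        ∏ p ∈ P ∪ Q, lf P Q (vw A c) (vw B c') x y (n * bA x y) (n * bB x y) p) =
      2 * (R * R' / Dp w w' R R') * ∑ n ∈ win (x * θ' - y * θ) (y * R + x * R'),
        ∏ p ∈ P ∪ Q, lf P Q (vw A c) (vw B c') x y (n * bA x y) (n * bB x y) p := by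
    rw [← e1, ← Finset.mul_sum]; ring
  rw [e6]
  exact dets_le hA hB hPp hQp hxp hyp hxy hR hR' rfl N hF0
    (fun n hn => hF n (mem_win.1 hn)) Wn (fun n hn => hWn n (mem_win.1 hn)) _ _ (bez hxy)

/-- **one side has no classes** (`A = ∅`, in particular a raw side `P = ∅`): no exceptional
determinants and no coincidences -/
theorem pieces_one {ι ι' : Type*} (Rel : Finset (ι × ι')) (hB : B ⊆ Q) {w w' : ℕ}
    (hw : 0 < w) (hw' : 0 < w') (hQ : Q ⊆ w'.primeFactors)
    {θ θ' R R' : ℝ} (hR : 0 < R) (hR' : 0 < R') {α β : ι → ℝ} {α' β' : ι' → ℝ}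
    (hα : ∀ e ∈ Rel, -R ≤ α e.1 ∧ β e.1 ≤ R) (hα' : ∀ e ∈ Rel, -R' ≤ α' e.2 ∧ β' e.2 ≤ R')
    (hdis : ∀ s s' : ℝ, ∀ e ∈ Rel, ∀ f ∈ Rel, (α e.1 ≤ s ∧ s < β e.1) →
      (α' e.2 ≤ s' ∧ s' < β' e.2) → (α f.1 ≤ s ∧ s < β f.1) → (α' f.2 ≤ s' ∧ s' < β' f.2) → e = f) :
    ∑ e ∈ Rel, I (fun t => pc θ (α e.1) (β e.1) w (fun _ => 1) t *
        pc θ' (α' e.2) (β' e.2) w' (nw Q (vw B c')) t) ≤
      CV * (R * (R' * dens Q) * max 1 (1 / Dp w w' R R') *
          AX (cof w w') (cof w' w) (Dp w w' R R')) := by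
  classical
  have h := pieces_le (P := ∅) (A := ∅) (c := fun _ => 0) (c' := c') Rel (Finset.Subset.refl _) hB
    hw hw' (Finset.empty_subset _) hQ (θ := θ) (θ' := θ') hR hR' hα hα' hdis (fun _ => True)
    (F := 1) zero_le_one (fun n _ _ => by
      have e : (coin ∅ B (fun _ => 0) c' (cof w w') (cof w' w) n).filter
          (fun p : ℕ => max 1 (Dp w w' R R') < p) = ∅ := by
        unfold coin
        rw [Finset.empty_inter, Finset.filter_empty, Finset.filter_empty]
      rw [e]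
      unfold dens
      rw [prod_empty, inv_one]) ∅ (fun n _ h => absurd trivial h)
  have e0 : dens (∅ : Finset ℕ) = 1 := prod_empty
  have e1 : nw (∅ : Finset ℕ) (vw ∅ fun _ => 0) = fun _ => 1 := funext fun a => nw_empty _ a
  rw [e0, e1] at h
  simp only [mul_one, Finset.card_empty, Nat.cast_zero, mul_zero, add_zero] at h
  exact h

/-! ### labels -/

/-- the excluded classes of a side are those of the label `lab` of the target `θ` (label radius
`φ ≤ R`) at some of the active primes -/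
structure LabOk (θ R φ : ℝ) (lab : Option ℚ) (P A : Finset ℕ) (c : ℕ → ℤ) : Prop where
  φ0 : 0 < φ
  φR : φ ≤ R
  sub : A ⊆ actS θ φ lab P
  cl : ∀ l ∈ A, c l ≡ cls lab l [ZMOD (l : ℤ)]

lemma LabOk.AP {θ R φ : ℝ} {lab : Option ℚ} (h : LabOk θ R φ lab P A c) : A ⊆ P :=
  h.sub.trans (actS_subset _ _ _ _)

lemma mem_actS {θ φ : ℝ} {lab : Option ℚ} {l : ℕ} :
    l ∈ actS θ φ lab P ↔ l ∈ P ∧ ∃ ρ : ℚ, lab = some ρ ∧ Act θ φ ρ l := by
  classical
  unfold actS
  rw [mem_filter]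

/-- the classes of the label itself -/
lemma LabOk.self {θ R φ : ℝ} (lab : Option ℚ) (h0 : 0 < φ) (hR : φ ≤ R) :
    LabOk θ R φ lab P (actS θ φ lab P) (cls lab) :=
  ⟨h0, hR, Finset.Subset.refl _, fun _ _ => rfl⟩

lemma uw_eq_vw {θ φ : ℝ} {lab : Option ℚ} {l : ℕ} (hl : l.Prime) (hlP : l ∈ P) (a : ℤ) :
    Crest.Agent.R4.LF363.uw θ φ lab l a = vw (actS θ φ lab P) (cls lab) l a := by
  classical
  rw [Crest.Agent.R4.LF4.uw_eq_if hl hlP a]
  unfold vw
  congr

lemma nw_uw_eq {θ φ : ℝ} {lab : Option ℚ} (hP : ∀ l ∈ P, l.Prime) (a : ℤ) :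
    nw P (Crest.Agent.R4.LF363.uw θ φ lab) a = nw P (vw (actS θ φ lab P) (cls lab)) a := by
  unfold nw
  exact prod_congr rfl fun l hl => uw_eq_vw (hP l hl) hl a

/-- smaller sets of primes -/
lemma LabOk.mono {θ R φ : ℝ} {lab : Option ℚ} (h : LabOk θ R φ lab P A c) {P' A' : Finset ℕ}
    (hA : A' ⊆ A) (hP : A' ⊆ P') : LabOk θ R φ lab P' A' c :=
  ⟨h.φ0, h.φR, fun _ hl => mem_actS.2 ⟨hP hl, (mem_actS.1 (h.sub (hA hl))).2⟩,
    fun l hl => h.cl l (hA hl)⟩

lemma mul_den_dvd (m : ℕ) (ρ : ℚ) : ((m : ℚ) * ρ).den ∣ ρ.den := by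
  have h := Rat.mul_den_dvd (m : ℚ) ρ
  simpa using h

/-- `(mρ).den k = ρ.den`, `(mρ).num k = m ρ.num` -/
lemma mul_num_den (m : ℕ) (ρ : ℚ) : ∃ k : ℕ, ((m : ℚ) * ρ).den * k = ρ.den ∧
    ((m : ℚ) * ρ).num * (k : ℤ) = m * ρ.num := by
  obtain ⟨k, hk⟩ := mul_den_dvd m ρ
  refine ⟨k, hk.symm, ?_⟩
  have hd : (((m : ℚ) * ρ).den : ℚ) ≠ 0 := by exact_mod_cast ((m : ℚ) * ρ).den_ne_zero
  have h1 : ((m : ℚ) * ρ) * ((m : ℚ) * ρ).den = ((m : ℚ) * ρ).num := Rat.mul_den_eq_num _
  have h2 : ρ * ρ.den = ρ.num := Rat.mul_den_eq_num ρ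
  have h3 : (ρ.den : ℚ) = ((m : ℚ) * ρ).den * k := by exact_mod_cast hk
  have h4 : ((((m : ℚ) * ρ).num * (k : ℤ) : ℤ) : ℚ) = ((m * ρ.num : ℤ) : ℚ) := by
    push_cast
    rw [← h1, ← h2, h3]; ring
  exact_mod_cast h4

lemma yq_mul_le (m : ℕ) (hm : 0 < m) (θ φ : ℝ) (hφ : 0 < φ) (ρ : ℚ) :
    yq (m * θ) (m * φ) ((m : ℚ) * ρ) ≤ yq θ φ ρ := by
  have hmR : (0 : ℝ) < m := by exact_mod_cast hm
  unfold yq
  refine Real.sqrt_le_sqrt (Real.log_le_log ?_ ?_)
  · have : (0 : ℝ) < ((m : ℚ) * ρ).den := by exact_mod_cast ((m : ℚ) * ρ).den_pos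
    have h2 : 0 ≤ |(m : ℝ) * θ - (((m : ℚ) * ρ : ℚ) : ℝ)| / (m * φ) := by positivity
    have h3 : 0 < 2 + |(m : ℝ) * θ - (((m : ℚ) * ρ : ℚ) : ℝ)| / (m * φ) := by linarith
    exact mul_pos this h3
  · have e1 : |(m : ℝ) * θ - (((m : ℚ) * ρ : ℚ) : ℝ)| / (m * φ) = |θ - ρ| / φ := by
      have : (m : ℝ) * θ - (((m : ℚ) * ρ : ℚ) : ℝ) = m * (θ - ρ) := by push_cast; ring
      rw [this, abs_mul, abs_of_pos hmR]
      field_simp
    rw [e1]
    refine mul_le_mul_of_nonneg_right ?_ (by positivity)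
    exact_mod_cast Nat.le_of_dvd ρ.den_pos (mul_den_dvd m ρ)

/-- **raising**: target, radii, label and classes are multiplied by `m` -/
lemma LabOk.raise {θ R φ : ℝ} {lab : Option ℚ} (hP : ∀ l ∈ P, l.Prime) (h : LabOk θ R φ lab P A c)
    {m : ℕ} (hm : 0 < m) :
    LabOk (m * θ) (m * R) (m * φ) (lab.map fun ρ => (m : ℚ) * ρ) P A (fun l => m * c l) := by
  have hmR : (0 : ℝ) < m := by exact_mod_cast hm
  have hact : ∀ l ∈ A, ∀ ρ, lab = some ρ → Act θ φ ρ l →
      Act (m * θ) (m * φ) ((m : ℚ) * ρ) l := by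
    intro _ _ ρ _ ha
    exact ⟨(yq_mul_le m hm θ φ h.φ0 ρ).trans_lt ha.1, fun hd => ha.2 (hd.trans (mul_den_dvd m ρ))⟩
  refine ⟨mul_pos hmR h.φ0, mul_le_mul_of_nonneg_left h.φR hmR.le, fun l hl => ?_, fun l hl => ?_⟩
  · obtain ⟨h1, ρ, rfl, ha⟩ := mem_actS.1 (h.sub hl)
    exact mem_actS.2 ⟨h1, (m : ℚ) * ρ, rfl, hact l hl ρ rfl ha⟩
  · obtain ⟨h1, ρ, rfl, ha⟩ := mem_actS.1 (h.sub hl)
    have hlp := hP l h1
    have h2 := (cls_spec hlp ha (cls (some ρ) l)).2 rfl
    refine ((h.cl l hl).mul_left (m : ℤ)).trans ?_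
    refine (cls_spec hlp (hact l hl ρ rfl ha) _).1 ?_
    obtain ⟨k, hk1, hk2⟩ := mul_num_den m ρ
    have hlk : ¬ l ∣ k := fun hd => ha.2 (by rw [← hk1]; exact Dvd.dvd.mul_left hd _)
    have hcop : IsCoprime (l : ℤ) (k : ℤ) :=
      Nat.isCoprime_iff_coprime.2 ((Nat.Prime.coprime_iff_not_dvd hlp).2 hlk)
    refine hcop.dvd_of_dvd_mul_right ?_
    have e : ((((m : ℚ) * ρ).den : ℤ) * ((m : ℤ) * cls (some ρ) l) + ((m : ℚ) * ρ).num) * (k : ℤ) =
        m * ((ρ.den : ℤ) * cls (some ρ) l + ρ.num) := by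
      have hk1' : (((m : ℚ) * ρ).den : ℤ) * (k : ℤ) = ρ.den := by exact_mod_cast hk1
      have : ((((m : ℚ) * ρ).den : ℤ) * ((m : ℤ) * cls (some ρ) l) + ((m : ℚ) * ρ).num) * (k : ℤ) =
        (((m : ℚ) * ρ).den : ℤ) * (k : ℤ) * ((m : ℤ) * cls (some ρ) l) +
          ((m : ℚ) * ρ).num * (k : ℤ) := by ring
      rw [this, hk1', hk2]; ring
    rw [e]
    exact Dvd.dvd.mul_left h2 _

/-- **coincidences of non exact determinants** -/
theorem coin_sub_le {θ θ' R R' φ φ' : ℝ} {lab lab' : Option ℚ} (hP : ∀ l ∈ P, l.Prime)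
    (h : LabOk θ R φ lab P A c) (h' : LabOk θ' R' φ' lab' Q B c') {x y : ℕ} {n : ℤ} {D : ℝ}
    (h1 : y * R ≤ D) (h2 : x * R' ≤ D) (hn : |(n : ℝ) - (x * θ' - y * θ)| < y * R + x * R')
    (hex : ¬ ∃ ρ σ : ℚ, lab = some ρ ∧ lab' = some σ ∧ (n : ℚ) = σ * x - ρ * y) :
    (dens ((coin A B c c' x y n).filter fun p : ℕ => max 1 D < p))⁻¹ ≤ C3 := by
  have key := coin_le (P := P) (Q := Q) hP h.φ0 h.φR h'.φ0 h'.φR h1 h2 hn hex
  refine le_trans ?_ key
  have hpr : ∀ p ∈ (coin (actS θ φ lab P) (actS θ' φ' lab' Q) (cls lab) (cls lab') x y n).filter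
      (fun p : ℕ => max 1 D < p), p.Prime := fun p hp => hP p (actS_subset _ _ _ _
    (mem_inter.1 (mem_filter.1 (mem_filter.1 hp).1).1).1)
  have hsub : (coin A B c c' x y n).filter (fun p : ℕ => max 1 D < p) ⊆
      (coin (actS θ φ lab P) (actS θ' φ' lab' Q) (cls lab) (cls lab') x y n).filter
        (fun p : ℕ => max 1 D < p) := by
    refine filter_subset_filter _ fun p hp => ?_
    unfold coin at hp ⊢
    rw [mem_filter, mem_inter] at hp ⊢
    obtain ⟨⟨hA, hB⟩, hx, hy, hc⟩ := hp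
    refine ⟨⟨h.sub hA, h'.sub hB⟩, hx, hy, hc.trans ?_⟩
    exact ((h.cl p hA).mul_right _).sub ((h'.cl p hB).mul_right _)
  refine inv_anti₀ (dens_pos hpr) (dens_mono hpr hsub)

/-- the constant of the pair bound with labels -/
noncomputable def CLL : ℝ := CV * C3

lemma CLL_ge : 10 ≤ CLL := by
  have h1 := one_le_C3
  have h2 := CV_ge
  unfold CLL
  nlinarith

/-- **overlap of the pieces of two labelled items** -/
theorem pieces_lab {ι ι' : Type*} (Rel : Finset (ι × ι')) {w w' : ℕ}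
    (hw : 0 < w) (hw' : 0 < w') (hP : P ⊆ w.primeFactors) (hQ : Q ⊆ w'.primeFactors)
    {θ θ' R R' φ φ' : ℝ} {lab lab' : Option ℚ}
    (h : LabOk θ R φ lab P A c) (h' : LabOk θ' R' φ' lab' Q B c')
    {α β : ι → ℝ} {α' β' : ι' → ℝ}
    (hα : ∀ e ∈ Rel, -R ≤ α e.1 ∧ β e.1 ≤ R) (hα' : ∀ e ∈ Rel, -R' ≤ α' e.2 ∧ β' e.2 ≤ R')
    (hdis : ∀ s s' : ℝ, ∀ e ∈ Rel, ∀ f ∈ Rel, (α e.1 ≤ s ∧ s < β e.1) →
      (α' e.2 ≤ s' ∧ s' < β' e.2) → (α f.1 ≤ s ∧ s < β f.1) → (α' f.2 ≤ s' ∧ s' < β' f.2) → e = f) :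
    ∑ e ∈ Rel, I (fun t => pc θ (α e.1) (β e.1) w (nw P (vw A c)) t *
        pc θ' (α' e.2) (β' e.2) w' (nw Q (vw B c')) t) ≤
      CLL * ((R * dens P) * (R' * dens Q) * max 1 (1 / Dp w w' R R') *
          AX (cof w w') (cof w' w) (Dp w w' R R')) +
        2 * (R * R' / Dp w w' R R') * dens (P ∩ Q) := by
  classical
  have hR : 0 < R := h.φ0.trans_le h.φR
  have hR' : 0 < R' := h'.φ0.trans_le h'.φR
  set x := cof w w' with hx
  set y := cof w' w with hy
  have hPp : ∀ p ∈ P, p.Prime := fun p hp => Nat.prime_of_mem_primeFactors (hP hp)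
  set Ex : ℤ → Prop := fun n => ∃ ρ σ : ℚ, lab = some ρ ∧ lab' = some σ ∧
    (n : ℚ) = σ * x - ρ * y with hEx
  have huniq : ∀ n n', Ex n → Ex n' → n = n' := by
    rintro n n' ⟨ρ, σ, h1, h2, h3⟩ ⟨ρ', σ', h1', h2', h3'⟩
    have e1 : ρ = ρ' := by rw [h1] at h1'; exact Option.some.inj h1'
    have e2 : σ = σ' := by rw [h2] at h2'; exact Option.some.inj h2'
    subst e1; subst e2
    have : (n : ℚ) = n' := by rw [h3, h3']
    exact_mod_cast this
  set Wn : Finset ℤ := if hh : ∃ n, Ex n then {hh.choose} else ∅ with hWn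
  have hcard : (Wn.card : ℝ) ≤ 1 := by
    rw [hWn]
    split_ifs
    · simp
    · simp
  have hmem : ∀ n, Ex n → n ∈ Wn := by
    intro n hn
    have hh : ∃ n, Ex n := ⟨n, hn⟩
    rw [hWn, dif_pos hh, mem_singleton]
    exact huniq n _ hn hh.choose_spec
  have hD1 : (y : ℝ) * R ≤ Dp w w' R R' := le_max_left _ _
  have hD2 : (x : ℝ) * R' ≤ Dp w w' R R' := le_max_right _ _
  have key := pieces_le Rel h.AP h'.AP hw hw' hP hQ (θ := θ) (θ' := θ') hR hR' hα hα' hdis
    (c := c) (c' := c') (fun n => ¬ Ex n) (F := C3) (zero_le_one.trans one_le_C3)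
    (fun n hn hN => coin_sub_le hPp h h' hD1 hD2 hn hN) Wn
    (fun n _ hN => hmem n (not_not.1 hN))
  refine key.trans ?_
  have hDpos : 0 < Dp w w' R R' := lt_of_lt_of_le
    (mul_pos (by exact_mod_cast Crest.Agent.R4.HVW560.cof_pos hw') hR) hD1
  have hdI : 0 ≤ dens (P ∩ Q) := (dens_pos fun p hp => hPp p (mem_inter.1 hp).1).le
  have e1 : 2 * (R * R' / Dp w w' R R') * dens (P ∩ Q) * Wn.card ≤
      2 * (R * R' / Dp w w' R R') * dens (P ∩ Q) :=
    mul_le_of_le_one_right (by positivity) hcard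
  unfold CLL
  linarith

end Crest.Agent.R4P.LeafOs30
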