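import Crest.Agent.R4P.LeafFam_28
import Crest.Agent.R4P.LeafOs_30

/-!
R4 (S0004), powers pass, group [X] (helper30): `LeafFam28.PairO CV`, the one-sided pair bound of
`LeafFam_28` from `LeafOs_30.pieces_one`.
-/

set_option autoImplicit false
open MeasureTheory
open Finset hiding dens

namespace Crest.Agent.R4P.PairO30

open Crest.Agent.R4.Tour104 Crest.Agent.R4.Piece464
open Crest.Agent.R4.Ovl560 (LW nw exw dens dens_pos)
open Crest.Agent.R4.HVW560
open Crest.Agent.R4.AvgItem710 (Dp)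
open Crest.Agent.R4P.LeafFam28 Crest.Agent.R4P.LeafOs30

/-- a product of local weights which are constants or exclude a class -/
lemma nw_ExF {P : Finset ℕ} {u : ℕ → ℤ → ℝ} (hu : ∀ l ∈ P, ExF l (u l)) :
    ∃ (A : Finset ℕ) (c : ℕ → ℤ), A ⊆ P ∧ ∀ a, nw P u a = nw P (vw A c) a := by
  classical
  set A := P.filter fun l => ∃ c : ℤ, ∀ a, u l a = if a ≡ c [ZMOD l] then 0 else 1 with hA
  set c : ℕ → ℤ := fun l =>
    if h : ∃ c : ℤ, ∀ a, u l a = if a ≡ c [ZMOD l] then 0 else 1 then h.choose else 0 with hc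
  refine ⟨A, c, Finset.filter_subset _ _, fun a => ?_⟩
  unfold nw
  refine Finset.prod_congr rfl fun l hl => ?_
  by_cases h : ∃ c : ℤ, ∀ a, u l a = if a ≡ c [ZMOD l] then 0 else 1
  · have hm : l ∈ A := Finset.mem_filter.2 ⟨hl, h⟩
    rw [vw_mem hm]
    have h1 := h.choose_spec a
    have h2 : c l = h.choose := by
      rw [hc]
      exact dif_pos h
    rw [h1]
    unfold exw
    rw [h2]
  · have hm : l ∉ A := fun h' => h (Finset.mem_filter.1 h').2
    rw [vw_not_mem hm]
    rcases hu l hl with h1 | ⟨c, h1⟩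
    · exact h1 a
    · exact absurd ⟨c, h1⟩ h

/-- **the one-sided pair bound** -/
theorem pairO : PairO CV := by
  classical
  intro θ r θ' r' w w' P u hw hw' hr hr' hP hPw hu hD
  obtain ⟨A, c, hA, hn⟩ := nw_ExF hu
  have hQ : P ⊆ w'.primeFactors := fun l hl =>
    Nat.mem_primeFactors.2 ⟨hP l hl, hPw l hl, hw'.ne'⟩
  have key := pieces_one (ι := Unit) (ι' := Unit) {((), ())} hA hw hw' hQ (θ := θ) (θ' := θ')
    (c' := c) hr hr' (α := fun _ => -r) (β := fun _ => r) (α' := fun _ => -r') (β' := fun _ => r')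
    (fun _ _ => ⟨le_refl _, le_refl _⟩) (fun _ _ => ⟨le_refl _, le_refl _⟩)
    (fun _ _ _ _ _ _ _ _ _ _ => Subsingleton.elim _ _)
  rw [Finset.sum_singleton] at key
  have e1 : nw P u = nw P (vw A c) := funext hn
  rw [e1]
  have h1 : max 1 (1 / Dp w w' r r') = 1 := by
    refine max_eq_left ?_
    rw [div_le_one (by linarith)]
    exact hD
  have h2 : AX (cof w w') (cof w' w) (Dp w w' r r') = anF (cof w w') (cof w' w) (Dp w w' r r') := by
    unfold AX anF
    rw [max_eq_right hD]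
  rw [h1, h2, mul_one] at key
  refine le_trans (le_of_eq ?_) (key.trans (le_of_eq ?_))
  · rfl
  · ring

end Crest.Agent.R4P.PairO30
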