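import Crest.Agent.R4P.LeafOs_30
import Crest.Agent.R4P.PairO_30

/-!
R4 (S0004), powers pass, group [X] (helper30): **pieces whose common points satisfy a relation of width
`δ`, one side with a sieve** (tree free).

* `pieces_rel` : one raw side, one side with local filters: `≤ CV R R' dens Q / D * max 1 δ * AX δ`
  (`AX δ` = anatomy above `max 1 δ`);
* `fam_one_rel` : the same for two averaged families (averages `M`, `M'`).
-/

set_option autoImplicit false
open MeasureTheory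
open Finset hiding dens

namespace Crest.Agent.R4P.SameTf30

open Crest.Agent.R4.Tour104 Crest.Agent.R4.Piece464
open Crest.Agent.R4.Ovl560
open Crest.Agent.R4.HVW560
open Crest.Agent.R4.AvgItem710 (Dp)
open Crest.Agent.R4P.LeafOs30
open Crest.Agent.R4.LF363 (bA bB bez)

variable {P Q A B : Finset ℕ} {c c' : ℕ → ℤ}

/-- **one side without classes, pieces whose common points satisfy a relation of width `δ`** -/
theorem pieces_rel {ι ι' : Type*} (Rel : Finset (ι × ι')) (hB : B ⊆ Q) {w w' : ℕ}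
    (hw : 0 < w) (hw' : 0 < w') (hQ : Q ⊆ w'.primeFactors)
    {θ θ' R R' : ℝ} (hR : 0 < R) (hR' : 0 < R') {α β : ι → ℝ} {α' β' : ι' → ℝ}
    (hα : ∀ e ∈ Rel, -R ≤ α e.1 ∧ β e.1 ≤ R) (hα' : ∀ e ∈ Rel, -R' ≤ α' e.2 ∧ β' e.2 ≤ R')
    (hdis : ∀ s s' : ℝ, ∀ e ∈ Rel, ∀ f ∈ Rel, (α e.1 ≤ s ∧ s < β e.1) →
      (α' e.2 ≤ s' ∧ s' < β' e.2) → (α f.1 ≤ s ∧ s < β f.1) → (α' f.2 ≤ s' ∧ s' < β' f.2) → e = f)
    {C C' δ : ℝ} (hδ : 0 < δ)
    (hrel : ∀ e ∈ Rel, ∀ (t : ℝ) (a b : ℤ),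
      α e.1 ≤ (w : ℝ) * t - θ - a → (w : ℝ) * t - θ - a < β e.1 →
      α' e.2 ≤ (w' : ℝ) * t - θ' - b → (w' : ℝ) * t - θ' - b < β' e.2 →
      |((a:ℝ) + C) * (cof w' w : ℕ) - (b + C') * (cof w w' : ℕ)| ≤ δ) :
    ∑ e ∈ Rel, I (fun t => pc θ (α e.1) (β e.1) w (fun _ => 1) t *
        pc θ' (α' e.2) (β' e.2) w' (nw Q (vw B c')) t) ≤
      CV * (R * (R' * dens Q) / Dp w w' R R' * max 1 δ * AX (cof w w') (cof w' w) δ) := by
  classical
  set x := cof w w' with hx
  set y := cof w' w with hy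
  set g := Nat.gcd w w' with hg
  have hxp : 0 < x := Crest.Agent.R4.HVW560.cof_pos hw
  have hyp : 0 < y := Crest.Agent.R4.HVW560.cof_pos hw'
  have hgp : 0 < g := Nat.gcd_pos_of_pos_left _ hw
  have hxy : Nat.Coprime x y := Crest.Agent.R4.HVW560.cof_coprime hw
  have hgx : g * x = w := Crest.Agent.R4.LF363.gcd_mul_cof w w'
  have hgy : g * y = w' := Crest.Agent.R4.LF363.gcd_mul_cof' w w'
  have hxr : (0 : ℝ) < x := by exact_mod_cast hxp
  have hyr : (0 : ℝ) < y := by exact_mod_cast hyp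
  have hgr : (0 : ℝ) < g := by exact_mod_cast hgp
  have hQp : ∀ p ∈ Q, p.Prime := fun p hp => Nat.prime_of_mem_primeFactors (hQ hp)
  have hPp : ∀ p ∈ (∅ : Finset ℕ), p.Prime := fun p hp => absurd hp (Finset.notMem_empty _)
  have h1 := Crest.Agent.R4.AnnLeaf368.world_pair Rel (P := ∅) (Q := Q)
    (u := vw ∅ fun _ => 0) (v := vw B c') (LW_vw hPp)
    (LW_vw (A := B) (c := c') hQp) hPp hQp hgp hxp hyp hxy
    (fun p hp => absurd hp (Finset.notMem_empty _))
    (fun p hp => by rw [hgy]; exact Nat.dvd_of_mem_primeFactors (hQ hp))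
    θ θ' R R' hR.le hR'.le (fun n => n * bA x y) (fun n => n * bB x y) (bez hxy)
    α β α' β' hα hα' hdis (win (x * C' - y * C) (y * (δ / y) + x * (δ / x)))
    (fun e he a b t k1 k2 => by
      rw [mem_win]
      rw [hgx] at k1
      rw [hgy] at k2
      have h3 := hrel e he t a b k1.1 k1.2 k2.1 k2.2
      have e1 : ((a * y - b * x : ℤ) : ℝ) - (x * C' - y * C) =
          ((a:ℝ) + C) * y - (b + C') * x := by push_cast; ring
      rw [e1]
      refine lt_of_le_of_lt h3 ?_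
      rw [mul_div_cancel₀ _ hyr.ne', mul_div_cancel₀ _ hxr.ne']
      linarith)
  rw [hgx, hgy] at h1
  have e0 : nw (∅ : Finset ℕ) (vw ∅ fun _ => 0) = fun _ => 1 := funext fun a => nw_empty _ a
  rw [e0] at h1
  refine h1.trans ?_
  have hDpos : 0 < Dp w w' R R' := lt_max_of_lt_left (mul_pos hyr hR)
  have e1 : 2 * min (R / (w : ℝ)) (R' / (w' : ℝ)) * g = 2 * (R * R' / Dp w w' R R') := by
    have e2 := Crest.Agent.R4.Ovl560.min_mul_max (r := R) (r' := R') hgr hxr hyr (by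
      exact lt_max_of_lt_left (mul_pos hxr hR'))
    have e3 : (w : ℝ) = g * x := by rw [← hgx]; push_cast; ring
    have e4 : (w' : ℝ) = g * y := by rw [← hgy]; push_cast; ring
    have e5 : Dp w w' R R' = max (x * R') (y * R) := by
      unfold Dp; rw [max_comm]
    rw [e3, e4, e2, e5]
    ring
  set W := win (x * C' - y * C) (y * (δ / y) + x * (δ / x)) with hW
  have e6 : 2 * min (R / (w : ℝ)) (R' / (w' : ℝ)) *
      ∑ n ∈ W, ((g : ℝ) *
        ∏ p ∈ ∅ ∪ Q, lf ∅ Q (vw ∅ fun _ => 0) (vw B c') x y (n * bA x y) (n * bB x y) p) =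
      2 * (R * R' / Dp w w' R R') * ∑ n ∈ W,
        ∏ p ∈ ∅ ∪ Q, lf ∅ Q (vw ∅ fun _ => 0) (vw B c') x y (n * bA x y) (n * bB x y) p := by
    rw [← e1, ← Finset.mul_sum]; ring
  rw [e6]
  have key := dets_le (P := ∅) (A := ∅) (c := fun _ => 0) (c' := c') (Finset.Subset.refl _) hB hPp
    hQp hxp hyp hxy (div_pos hδ hyr) (div_pos hδ hxr) (D := δ)
    (by rw [mul_div_cancel₀ _ hyr.ne', mul_div_cancel₀ _ hxr.ne', max_self])
    (a := x * C' - y * C) (fun _ => True)
    (F := 1) zero_le_one (fun n _ _ => by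
      have e : (coin ∅ B (fun _ => 0) c' x y n).filter
          (fun p : ℕ => max 1 δ < p) = ∅ := by
        unfold coin
        rw [Finset.empty_inter, Finset.filter_empty, Finset.filter_empty]
      rw [e]
      unfold dens
      rw [prod_empty, inv_one]) ∅ (fun n _ h => absurd trivial h) _ _ (bez hxy)
  have e7 : dens (∅ : Finset ℕ) = 1 := prod_empty
  rw [e7] at key
  simp only [mul_one, Finset.card_empty, Nat.cast_zero, mul_zero, add_zero] at key
  have hmx : max 1 (1 / δ) = max 1 δ / δ := by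
    rcases le_total 1 δ with h | h
    · rw [max_eq_right h, max_eq_left ((div_le_one hδ).2 h), div_self hδ.ne']
    · rw [max_eq_left h, max_eq_right ((one_le_div hδ).2 h)]
  set S := ∑ n ∈ W,
    ∏ p ∈ ∅ ∪ Q, lf ∅ Q (vw ∅ fun _ => 0) (vw B c') x y (n * bA x y) (n * bB x y) p with hS
  have hfac : 0 < 2 * (δ / y * (δ / x) / δ) := by positivity
  have k2 : S ≤ CV * (dens Q * max 1 δ * AX x y δ) / 2 := by
    rw [hmx] at key
    have k3 : 2 * (δ / y * (δ / x) / δ) * S ≤ 2 * (δ / y * (δ / x) / δ) *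
        (CV * (dens Q * max 1 δ * AX x y δ) / 2) := by
      refine key.trans (le_of_eq ?_)
      field_simp
    exact le_of_mul_le_mul_left k3 hfac
  calc 2 * (R * R' / Dp w w' R R') * S
      ≤ 2 * (R * R' / Dp w w' R R') * (CV * (dens Q * max 1 δ * AX x y δ) / 2) :=
        mul_le_mul_of_nonneg_left k2 (by positivity)
    _ = _ := by ring


open Crest.Agent.R4.Avg758 Crest.Agent.R4P.AvgItem710
open Crest.Agent.R4P.LeafFam28 Crest.Agent.R4P.AwNw28

/-- one averaged piece below a window -/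
lemma Ep_le_pc {ι : Type*} {J : Finset ι} {g : ι → ℝ → ℝ} {θ r : ℝ} {w M : ℕ} {α β : ι → ℝ}
    {K : ℝ} {v : ℤ → ℝ} (h : FamW J g θ r w α β K v) (hM : 0 < M) {j : ι} (hj : j ∈ J) (y : ℝ) :
    Ep M (g j) y ≤ K / (rf w M : ℝ) *
      pc (rf w M * θ) (rf w M * α j) (rf w M * β j) (w / M.gcd w) (aw w M v) y := by
  have h1 : Ep M (g j) y ≤ Ep M (fun x => K * pc θ (α j) (β j) w v x) y :=
    Ep_mono (h.le j hj) y
  have h2 : Ep M (fun x => K * pc θ (α j) (β j) w v x) y = K * Ep M (pc θ (α j) (β j) w v) y := by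
    unfold Ep
    rw [← Finset.mul_sum]
    ring
  rw [h2, Ep_pc hM h.wt y] at h1
  refine h1.trans (le_of_eq ?_)
  ring

open Classical in
/-- **one side without sieve, averaged families, pieces whose common points satisfy a relation of
width `δ`** -/
theorem fam_one_rel {ι ι' : Type*} {J : Finset ι} {J' : Finset ι'}
    {g : ι → ℝ → ℝ} {g' : ι' → ℝ → ℝ} {θ r θ' r' : ℝ} {w M w' M' : ℕ} {α β : ι → ℝ}
    {α' β' : ι' → ℝ} {κ : ι → ℤ → ℝ} {K : ℝ} {P : Finset ℕ} {u : ℕ → ℤ → ℝ}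
    (h : Fam J g θ r w α β κ) (h' : FamW J' g' θ' r' w' α' β' K (nw P u))
    (hM : 0 < M) (hM' : 0 < M') (hw : 0 < w) (hw' : 0 < w') (hr : 0 < r) (hr' : 0 < r')
    (hP : ∀ l ∈ P, l.Prime) (hPw : ∀ l ∈ P, l ∣ w') (hu : ∀ l ∈ P, ExF l (u l))
    {Rl : Finset (ι × ι')} (hRl : ∀ e ∈ Rl, e.1 ∈ J ∧ e.2 ∈ J') {c c' δ : ℝ} (hδ : 0 < δ)
    (hrel : ∀ e ∈ Rl, ∀ (y : ℝ) (a a' : ℤ),
      (rf w M : ℝ) * α e.1 ≤ (w / M.gcd w : ℕ) * y - rf w M * θ - a →
      ((w / M.gcd w : ℕ) : ℝ) * y - rf w M * θ - a < rf w M * β e.1 →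
      (rf w' M' : ℝ) * α' e.2 ≤ (w' / M'.gcd w' : ℕ) * y - rf w' M' * θ' - a' →
      ((w' / M'.gcd w' : ℕ) : ℝ) * y - rf w' M' * θ' - a' < rf w' M' * β' e.2 →
      |((a:ℝ) + c) * (cof (w' / M'.gcd w') (w / M.gcd w) : ℕ) -
        (a' + c') * (cof (w / M.gcd w) (w' / M'.gcd w') : ℕ)| ≤ δ) :
    ∑ e ∈ Rl, I (fun y => Ep M (g e.1) y * Ep M' (g' e.2) y) ≤
      K * (CV * (r * (r' * dens P) / Da w M w' M' r r' * max 1 δ *
        AX (cof (w / M.gcd w) (w' / M'.gcd w')) (cof (w' / M'.gcd w') (w / M.gcd w)) δ)) := by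
  have m0 : (0 : ℝ) < rf w M := by exact_mod_cast rf_pos hM
  have m0' : (0 : ℝ) < rf w' M' := by exact_mod_cast rf_pos hM'
  have w0 := div_pos' (M := M) hw hM
  have w0' := div_pos' (M := M') hw' hM'
  have hLW := LW_of hP hu
  have hW : FamW J g θ r w α β 1 (fun _ => (1 : ℝ)) :=
    Fam.toW h zero_le_one Wt_one fun j hj a => by rw [one_mul]; exact h.one j hj a
  set P₁ := P.filter (fun p => p ∣ w' / M'.gcd w') with hP₁
  set P₂ := P.filter (fun p => ¬ p ∣ w' / M'.gcd w') with hP₂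
  have e1 : aw w M (fun _ => (1 : ℝ)) = fun _ => 1 := aw_const hM 1
  have e2 : aw w' M' (nw P u) = fun a => dens P₂ * nw P₁ (ru w' M' u) a := by
    funext a
    rw [aw_nw hM' hLW hP hPw a]
    congr 1
    unfold dens
    exact Finset.prod_congr rfl fun l hl => ExF.mn (hP l (Finset.mem_filter.1 hl).1)
      (hu l (Finset.mem_filter.1 hl).1)
  have d2 : 0 < dens P₂ := dens_pos fun l hl => hP l (Finset.mem_filter.1 hl).1
  have hP1 : ∀ l ∈ P₁, l.Prime := fun l hl => hP l (Finset.mem_filter.1 hl).1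
  have hP1w : ∀ l ∈ P₁, l ∣ w' / M'.gcd w' := fun l hl => (Finset.mem_filter.1 hl).2
  have hu1 : ∀ l ∈ P₁, ExF l (ru w' M' u l) := fun l hl => by
    refine (hu l (Finset.mem_filter.1 hl).1).comp_mul (hP1 l hl) ?_
    exact gcdA_not_dvd (hP1 l hl) (cop' hM') (hP1w l hl)
  obtain ⟨B, cB, hB, hn⟩ := Crest.Agent.R4P.PairO30.nw_ExF hu1
  have e3 : nw P₁ (ru w' M' u) = nw P₁ (vw B cB) := funext hn
  have hQ : P₁ ⊆ (w' / M'.gcd w').primeFactors := fun l hl =>
    Nat.mem_primeFactors.2 ⟨hP1 l hl, hP1w l hl, w0'.ne'⟩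
  have key := pieces_rel Rl hB w0 w0' hQ (θ := rf w M * θ) (θ' := rf w' M' * θ') (c' := cB)
    (mul_pos m0 hr) (mul_pos m0' hr') (α := fun j => rf w M * α j) (β := fun j => rf w M * β j)
    (α' := fun j => rf w' M' * α' j) (β' := fun j => rf w' M' * β' j)
    (fun e he => by
      have h1 := mul_le_mul_of_nonneg_left (h.al _ (hRl e he).1) m0.le
      have h2 := mul_le_mul_of_nonneg_left (h.be _ (hRl e he).1) m0.le
      exact ⟨by linarith, h2⟩)
    (fun e he => by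
      have h1 := mul_le_mul_of_nonneg_left (h'.al _ (hRl e he).2) m0'.le
      have h2 := mul_le_mul_of_nonneg_left (h'.be _ (hRl e he).2) m0'.le
      exact ⟨by linarith, h2⟩)
    (fun s s' e he f hf a1 a2 b1 b2 => by
      have g1 : e.1 = f.1 := by
        by_contra hne
        rcases h.dj _ (hRl e he).1 _ (hRl f hf).1 hne with k | k
        · have := mul_le_mul_of_nonneg_left k m0.le
          linarith [a1.2, b1.1]
        · have := mul_le_mul_of_nonneg_left k m0.le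
          linarith [a1.1, b1.2]
      have g2 : e.2 = f.2 := by
        by_contra hne
        rcases h'.dj _ (hRl e he).2 _ (hRl f hf).2 hne with k | k
        · have := mul_le_mul_of_nonneg_left k m0'.le
          linarith [a2.2, b2.1]
        · have := mul_le_mul_of_nonneg_left k m0'.le
          linarith [a2.1, b2.2]
      exact Prod.ext g1 g2)
    hδ (fun e he t a b l1 l2 l3 l4 => hrel e he t a b l1 l2 l3 l4)
  have hK := h'.K0
  have step : ∀ e ∈ Rl, I (fun y => Ep M (g e.1) y * Ep M' (g' e.2) y) ≤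
      K * dens P₂ / ((rf w M : ℝ) * rf w' M') * I (fun t => pc (rf w M * θ) (rf w M * α e.1)
        (rf w M * β e.1) (w / M.gcd w) (fun _ => 1) t * pc (rf w' M' * θ') (rf w' M' * α' e.2)
        (rf w' M' * β' e.2) (w' / M'.gcd w') (nw P₁ (vw B cB)) t) := by
    intro e he
    obtain ⟨k1, k2⟩ := hRl e he
    have p1 := (h.pb _ k1).Ep hM
    have p2 := (h'.pb _ k2).Ep hM'
    have q1 := PB_pc (θ := rf w M * θ) (α := rf w M * α e.1) (β := rf w M * β e.1) w0
      (Wt_one (w := w / M.gcd w))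
    have q2 := PB_pc (θ := rf w' M' * θ') (α := rf w' M' * α' e.2) (β := rf w' M' * β' e.2) w0'
      (Wt_nw' (LW_vw (A := B) (c := cB) hP1) hP1w)
    rw [← I_smul]
    refine I_mono (p1.mul p2).integrableOn ((q1.mul q2).integrableOn.const_mul _) fun y => ?_
    have a1 := Ep_le_pc hW hM k1 y
    have a2 := Ep_le_pc h' hM' k2 y
    rw [e1] at a1
    rw [e2, AwNw28.pc_smul, e3] at a2
    have b1 : 0 ≤ Ep M' (g' e.2) y := p2.nonneg y
    have b2 : 0 ≤ 1 / (rf w M : ℝ) * pc (rf w M * θ) (rf w M * α e.1)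
        (rf w M * β e.1) (w / M.gcd w) (fun _ => 1) y := mul_nonneg (by positivity) (q1.nonneg y)
    refine (mul_le_mul a1 a2 b1 b2).trans (le_of_eq ?_)
    field_simp
  refine (Finset.sum_le_sum step).trans ?_
  rw [← Finset.mul_sum]
  have hKd : 0 ≤ K * dens P₂ / ((rf w M : ℝ) * rf w' M') := by positivity
  refine (mul_le_mul_of_nonneg_left key hKd).trans (le_of_eq ?_)
  have hd : dens P = dens P₂ * dens P₁ := by
    unfold Crest.Agent.R4.Ovl560.dens
    rw [hP₁, hP₂, mul_comm]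
    exact (Finset.prod_filter_mul_prod_filter_not P (fun p => p ∣ w' / M'.gcd w') _).symm
  rw [hd]
  show _ = K * (CV * (r * (r' * (dens P₂ * dens P₁)) /
    Dp (w / M.gcd w) (w' / M'.gcd w') (rf w M * r) (rf w' M' * r') * max 1 δ *
    AX (cof (w / M.gcd w) (w' / M'.gcd w')) (cof (w' / M'.gcd w') (w / M.gcd w)) δ))
  field_simp

end Crest.Agent.R4P.SameTf30
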