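import Crest.Agent.R4P.RseRel_23
import Crest.Agent.R4P.PairR_23
import Crest.Agent.R4P.HiLeafS_28
import Crest.Agent.R4P.SameTf_30

/-!
R4 (S0004), powers pass, group [X] (helper30): **pairs of pieces with one index at a state of the
(cross) walk** (averages `M`, `M'`), raw radii.

* `Fam.avgF`, `fam_rel_avg`, `iF_rel_avg` : the relation lemma of `PairR_23` for averaged families;
* `rel_of_off2`, `exact_node2` : close / exact centres on the common circle of two sides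
  (`A B = A' B'`);
* `same_none`, `same_some`, `same_ix` : the energy of a pair of items, pieces with one index.
-/

set_option autoImplicit false
set_option linter.unusedSectionVars false
set_option linter.unusedVariables false
open MeasureTheory Filter

namespace Crest.Agent.R4P.SameIx30

open Crest.Agent.R4.Tour104 Crest.Agent.R4.Piece464 Crest.Agent.R4P.AvgItem710
open Crest.Agent.R4.Avg758 Crest.Agent.R4.HVW560
open Crest.Agent.R4.W363 (off off_circle grd cell grd_close snapped_eq)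
open Crest.Agent.R4P.W363
open Crest.Agent.R4.PairC944 (fam_rel_le)
open Crest.Agent.R4P.Item758 Crest.Agent.R4P.Cnt588 Crest.Agent.R4.ClosR758 Crest.Agent.R4.Fam464
open Crest.Agent.R4P.LeafSide28
open Crest.Agent.R4.Tour758 Crest.Agent.R4.Clos758 Crest.Agent.R4.ClosL758 Crest.Agent.R4.ClosG758

/-! ### averaged families -/

/-- **the averaged family**, multiplied by `rf w M`, is a family -/
theorem avgF {ι : Type*} {J : Finset ι} {g : ι → ℝ → ℝ} {θ r : ℝ} {w M : ℕ} {α β : ι → ℝ}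
    {κ : ι → ℤ → ℝ} (h : Fam J g θ r w α β κ) (hM : 0 < M) :
    Fam J (fun j y => (rf w M : ℝ) * Ep M (g j) y) (rf w M * θ) (rf w M * r) (w / M.gcd w)
      (fun j => rf w M * α j) (fun j => rf w M * β j) (fun j => aw w M (κ j)) := by
  have m0 : (0 : ℝ) < rf w M := by exact_mod_cast rf_pos hM
  refine ⟨fun j hj => ((h.pb j hj).Ep hM).smul m0.le, fun j hj x => ?_, fun j hj => ?_,
    fun j hj a => aw_le hM (h.one j hj) a, fun j hj => ?_, fun j hj => ?_, fun i hi j hj hij => ?_⟩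
  · have h1 := (Ep_mono (p := M) (h.le j hj) x).trans (Ep_pc hM (h.wt j hj) x).le
    calc (rf w M : ℝ) * Ep M (g j) x ≤ rf w M * (1 / (rf w M : ℝ) *
          pc (rf w M * θ) (rf w M * α j) (rf w M * β j) (w / M.gcd w) (aw w M (κ j)) x) :=
          mul_le_mul_of_nonneg_left h1 m0.le
      _ = _ := by field_simp
  · exact aw_Wt (h.wt j hj)
  · have := mul_le_mul_of_nonneg_left (h.al j hj) m0.le
    show -(↑(rf w M) * r) ≤ ↑(rf w M) * α j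
    linarith
  · exact mul_le_mul_of_nonneg_left (h.be j hj) m0.le
  · rcases h.dj i hi j hj hij with k | k
    · exact Or.inl (mul_le_mul_of_nonneg_left k m0.le)
    · exact Or.inr (mul_le_mul_of_nonneg_left k m0.le)

/-- **two averaged families, pieces whose common points satisfy the relation of width `δ`** -/
theorem fam_rel_avg {ι ι' : Type*} [DecidableEq ι] [DecidableEq ι'] {J : Finset ι} {J' : Finset ι'}
    {g : ι → ℝ → ℝ} {g' : ι' → ℝ → ℝ} {θ r θ' r' : ℝ} {w M w' M' : ℕ} {α β : ι → ℝ}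
    {α' β' : ι' → ℝ} {κ : ι → ℤ → ℝ} {κ' : ι' → ℤ → ℝ} (h : Fam J g θ r w α β κ)
    (h' : Fam J' g' θ' r' w' α' β' κ') (hM : 0 < M) (hM' : 0 < M') (hw : 0 < w) (hw' : 0 < w')
    (hr : 0 < r) (hr' : 0 < r') {P : Finset (ι × ι')} (hP : P ⊆ J ×ˢ J') {c c' δ : ℝ} (hδ : 0 ≤ δ)
    (hrel : ∀ e ∈ P, ∀ (y : ℝ) (a a' : ℤ),
      (rf w M : ℝ) * α e.1 ≤ (w / M.gcd w : ℕ) * y - rf w M * θ - a →
      ((w / M.gcd w : ℕ) : ℝ) * y - rf w M * θ - a < rf w M * β e.1 →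
      (rf w' M' : ℝ) * α' e.2 ≤ (w' / M'.gcd w' : ℕ) * y - rf w' M' * θ' - a' →
      ((w' / M'.gcd w' : ℕ) : ℝ) * y - rf w' M' * θ' - a' < rf w' M' * β' e.2 →
      |((a:ℝ) + c) * (cof (w' / M'.gcd w') (w / M.gcd w) : ℕ) -
        (a' + c') * (cof (w / M.gcd w) (w' / M'.gcd w') : ℕ)| ≤ δ) :
    ∑ e ∈ P, I (fun y => Ep M (g e.1) y * Ep M' (g' e.2) y) ≤
      2 * (r * r' / Da w M w' M' r r') * (2 * δ + 1) := by
  have m0 : (0 : ℝ) < rf w M := by exact_mod_cast rf_pos hM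
  have m0' : (0 : ℝ) < rf w' M' := by exact_mod_cast rf_pos hM'
  have w0 := div_pos' (M := M) hw hM
  have w0' := div_pos' (M := M') hw' hM'
  have key := fam_rel_le (avgF h hM) (avgF h' hM') w0 w0' (mul_pos m0 hr) (mul_pos m0' hr') hP hδ hrel
  have e1 : ∑ e ∈ P, I (fun y => (rf w M : ℝ) * Ep M (g e.1) y * (rf w' M' * Ep M' (g' e.2) y)) =
      (rf w M : ℝ) * rf w' M' * ∑ e ∈ P, I (fun y => Ep M (g e.1) y * Ep M' (g' e.2) y) := by
    rw [Finset.mul_sum]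
    refine Finset.sum_congr rfl fun e _ => ?_
    rw [← I_smul]
    congr 1; funext y; ring
  rw [e1] at key
  have hmm : 0 < (rf w M : ℝ) * rf w' M' := mul_pos m0 m0'
  have e2 : 2 * (rf w M * r * (rf w' M' * r') /
      Dp (w / M.gcd w) (w' / M'.gcd w') (rf w M * r) (rf w' M' * r')) * (2 * δ + 1) =
      (rf w M : ℝ) * rf w' M' * (2 * (r * r' / Da w M w' M' r r') * (2 * δ + 1)) := by
    unfold Da; ring
  rw [e2] at key
  exact le_of_mul_le_mul_left key hmm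

section pair
open Crest.Agent.R4.Ovl560 (dens dens_pos)
open Crest.Agent.R4P.LeafOs30 (CV AX)
open Crest.Agent.R4P.LeafFam28 (OmW ExF famW_node)
open Crest.Agent.R4P.SameTf30 (fam_one_rel)

variable {Λ κ : Type*} [DecidableEq Λ] [Fintype Λ] [Fintype κ] [DecidableEq κ]

/-- **relation of width `δ`** between the centres (`a + C`, `a' + C'`) of the averaged windows of the
pieces of the items `e.1`, `e.2` which have a common point -/
def RW (D : Par Λ κ) (M b pr c M' b' pr' c' : ℕ) (A A' : Finset Λ) (R : Finset (Λ × Λ)) (e : ℕ × ℕ)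
    (C C' δ : ℝ) : Prop :=
  ∀ x ∈ R, x.1 ∈ A → x.2 ∈ A' → D.it x.1 = e.1 → D.it x.2 = e.2 →
      ∀ (y : ℝ) (a a' : ℤ),
      (rf (e.1 / pr) M : ℝ) * ((b : ℝ) / c * D.al x.1) ≤
        ((e.1 / pr / M.gcd (e.1 / pr) : ℕ) : ℝ) * y - rf (e.1 / pr) M * ((b : ℝ) / c * D.γ) - a →
      ((e.1 / pr / M.gcd (e.1 / pr) : ℕ) : ℝ) * y - rf (e.1 / pr) M * ((b : ℝ) / c * D.γ) - a <
        rf (e.1 / pr) M * ((b : ℝ) / c * D.be x.1) →
      (rf (e.2 / pr') M' : ℝ) * ((b' : ℝ) / c' * D.al x.2) ≤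
        ((e.2 / pr' / M'.gcd (e.2 / pr') : ℕ) : ℝ) * y -
          rf (e.2 / pr') M' * ((b' : ℝ) / c' * D.γ) - a' →
      ((e.2 / pr' / M'.gcd (e.2 / pr') : ℕ) : ℝ) * y -
          rf (e.2 / pr') M' * ((b' : ℝ) / c' * D.γ) - a' <
        rf (e.2 / pr') M' * ((b' : ℝ) / c' * D.be x.2) →
      |((a:ℝ) + C) * (cof (e.2 / pr' / M'.gcd (e.2 / pr')) (e.1 / pr / M.gcd (e.1 / pr)) : ℕ) -
        (a' + C') * (cof (e.1 / pr / M.gcd (e.1 / pr)) (e.2 / pr' / M'.gcd (e.2 / pr')) : ℕ)|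
        ≤ δ

lemma RW.mono {D : Par Λ κ} {M b pr c M' b' pr' c' : ℕ} {A A' : Finset Λ} {R : Finset (Λ × Λ)}
    {e : ℕ × ℕ} {C C' δ δ' : ℝ} (h : RW D M b pr c M' b' pr' c' A A' R e C C' δ) (hd : δ ≤ δ') :
    RW D M b pr c M' b' pr' c' A A' R e C C' δ' :=
  fun x h1 h2 h3 h4 h5 y a a' l1 l2 l3 l4 => (h x h1 h2 h3 h4 h5 y a a' l1 l2 l3 l4).trans hd

lemma swap_mem {R : Finset (Λ × Λ)} {x : Λ × Λ} :
    x ∈ R.map (Equiv.prodComm Λ Λ).toEmbedding ↔ x.swap ∈ R := by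
  rw [Finset.mem_map]
  constructor
  · rintro ⟨y, hy, rfl⟩; exact hy
  · intro h; exact ⟨x.swap, h, by simp⟩

lemma RW.swap {D : Par Λ κ} {M b pr c M' b' pr' c' : ℕ} {A A' : Finset Λ} {R : Finset (Λ × Λ)}
    {e : ℕ × ℕ} {C C' δ : ℝ} (h : RW D M b pr c M' b' pr' c' A A' R e C C' δ) :
    RW D M' b' pr' c' M b pr c A' A (R.map (Equiv.prodComm Λ Λ).toEmbedding) e.swap C' C δ := by
  intro x h1 h2 h3 h4 h5 y a a' l1 l2 l3 l4
  rw [abs_sub_comm]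
  exact h x.swap (swap_mem.1 h1) h3 h2 h5 h4 y a' a l3 l4 l1 l2

lemma iF_swap {D : Par Λ κ} (R : Finset (Λ × Λ)) (φ ψ : Λ → ℝ → ℝ) (e : ℕ × ℕ) :
    D.iF (R.map (Equiv.prodComm Λ Λ).toEmbedding) ψ φ e.swap = D.iF R φ ψ e := by
  unfold Par.iF
  rw [Finset.filter_map, Finset.sum_map]
  refine Finset.sum_congr ?_ fun x _ => ?_
  · refine Finset.filter_congr fun x _ => ?_
    simp only [Function.comp, Equiv.coe_toEmbedding, Equiv.prodComm_apply, Prod.swap, Prod.ext_iff]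
    exact and_comm
  · congr 1; funext y
    exact mul_comm _ _

section
variable {D : Par Λ κ} {ρ : ℕ → ℝ} {M b pr c M' b' pr' c' : ℕ} {t t' : IT} {A A' : Finset Λ}

/-- the energy of a pair of items as a sum over its pairs of pieces in `A × A'` -/
lemma iF_eq_sum (hM : 0 < M) (hM' : 0 < M') (R : Finset (Λ × Λ)) (e : ℕ × ℕ) :
    D.iF R (D.uA M b pr t A c) (D.uA M' b' pr' t' A' c') e =
      ∑ x ∈ (R.filter (fun x => (D.it x.1, D.it x.2) = e)).filter (fun x => x.1 ∈ A ∧ x.2 ∈ A'),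
        I (fun y => Ep M ((D.toFT b pr t).U c x.1) y * Ep M' ((D.toFT b' pr' t').U c' x.2) y) := by
  classical
  unfold Par.iF
  conv_rhs => rw [Finset.sum_filter]
  refine Finset.sum_congr rfl fun x _ => ?_
  split_ifs with hx
  · congr 1; funext y
    unfold Par.uA avg
    rw [rv_of_mem hx.1, rv_of_mem hx.2]
  · have h0 : (fun y => D.uA M b pr t A c x.1 y * D.uA M' b' pr' t' A' c' x.2 y) = fun _ => 0 := by
      funext y
      by_cases h1 : x.1 ∈ A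
      · have h2 : x.2 ∉ A' := fun h2 => hx ⟨h1, h2⟩
        rw [uA_zero (t := t') hM' (fun k => h2 k.1), mul_zero]
      · rw [uA_zero (t := t) hM (fun k => h1 k.1), zero_mul]
    rw [h0]; simp [I]

/-- **the energy of a pair of items at a state, pieces whose common points satisfy the relation of
width `δ`**, raw radii -/
theorem iF_rel_avg (hR : D.Rad ρ) (hM : 0 < M) (hM' : 0 < M') (hb : 0 < b) (hb' : 0 < b')
    (hF : Fit b pr t) (hF' : Fit b' pr' t') (hW : D.Wts pr t) (hW' : D.Wts pr' t') (hc : c ∣ b)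
    (hc' : c' ∣ b') (R : Finset (Λ × Λ)) (e : ℕ × ℕ) (he : e.1 ∈ t.items)
    (he' : e.2 ∈ t'.items) {C C' δ : ℝ} (hδ : 0 ≤ δ)
    (hrel : RW D M b pr c M' b' pr' c' A A' R e C C' δ) :
    D.iF R (D.uA M b pr t A c) (D.uA M' b' pr' t' A' c') e ≤
      2 * (((b : ℝ) / c * ρ e.1) * ((b' : ℝ) / c' * ρ e.2) / DaI ρ M b pr c M' b' pr' c' e) *
        (2 * δ + 1) := by
  classical
  obtain ⟨a1, a2, a3⟩ := hF.item _ he
  obtain ⟨a1', a2', a3'⟩ := hF'.item _ he'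
  have w0 : 0 < e.1 / pr := Nat.div_pos (Nat.le_of_dvd a1 a2) (Nat.pos_of_dvd_of_pos a2 a1)
  have w0' : 0 < e.2 / pr' :=
    Nat.div_pos (Nat.le_of_dvd a1' a2') (Nat.pos_of_dvd_of_pos a2' a1')
  have c0 : (0 : ℝ) < c := by exact_mod_cast Nat.pos_of_dvd_of_pos hc hb
  have c0' : (0 : ℝ) < c' := by exact_mod_cast Nat.pos_of_dvd_of_pos hc' hb'
  have b0 : (0 : ℝ) < b := by exact_mod_cast hb
  have b0' : (0 : ℝ) < b' := by exact_mod_cast hb'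
  have r0 : 0 < (b : ℝ) / c * ρ e.1 := mul_pos (by positivity) (hR.pos _)
  have r0' : 0 < (b' : ℝ) / c' * ρ e.2 := mul_pos (by positivity) (hR.pos _)
  rw [iF_eq_sum hM hM']
  have hPm : ∀ x ∈ (R.filter (fun x => (D.it x.1, D.it x.2) = e)).filter
      (fun x => x.1 ∈ A ∧ x.2 ∈ A'), x ∈ R ∧ x.1 ∈ A ∧ x.2 ∈ A' ∧ D.it x.1 = e.1 ∧ D.it x.2 = e.2 := by
    intro x hx
    obtain ⟨h1, h2⟩ := Finset.mem_filter.1 hx
    obtain ⟨h3, h4⟩ := Finset.mem_filter.1 h1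
    exact ⟨h3, h2.1, h2.2, congrArg Prod.fst h4, congrArg Prod.snd h4⟩
  exact fam_rel_avg (fam_node hR hb hF hW hc he A) (fam_node hR hb' hF' hW' hc' he' A')
    hM hM' w0 w0' r0 r0' (fun x hx => by
      obtain ⟨-, h2, h3, h4, h5⟩ := hPm x hx
      exact Finset.mem_product.2 ⟨Finset.mem_filter.2 ⟨h2, h4⟩, Finset.mem_filter.2 ⟨h3, h5⟩⟩)
    (c := C) (c' := C') hδ (fun x hx y a a' l1 l2 l3 l4 => by
      obtain ⟨h1, h2, h3, h4, h5⟩ := hPm x hx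
      exact hrel x h1 h2 h3 h4 h5 y a a' l1 l2 l3 l4)

/-- **the same, sieve on the right side** -/
theorem iF_rel_R (hR : D.Rad ρ) (hM : 0 < M) (hM' : 0 < M') (hb : 0 < b) (hb' : 0 < b')
    (hF : Fit b pr t) (hF' : Fit b' pr' t') (hW : D.Wts pr t) (hW' : D.Wts pr' t') (hc : c ∣ b)
    (hc' : c' ∣ b') {K : ℝ} {P : ℕ → Finset ℕ} {u : ℕ → ℕ → ℤ → ℝ} (ho : OmW D b' pr' t' K P u)
    (R : Finset (Λ × Λ)) (e : ℕ × ℕ) (he : e.1 ∈ t.items)
    (he' : e.2 ∈ t'.items) {C C' δ : ℝ} (hδ : 0 < δ)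
    (hrel : RW D M b pr c M' b' pr' c' A A' R e C C' δ) :
    D.iF R (D.uA M b pr t A c) (D.uA M' b' pr' t' A' c') e ≤
      K * (CV * (((b : ℝ) / c * ρ e.1) * (((b' : ℝ) / c' * ρ e.2) * dens (P e.2)) /
        DaI ρ M b pr c M' b' pr' c' e * max 1 δ *
        AX (cof (e.1 / pr / M.gcd (e.1 / pr)) (e.2 / pr' / M'.gcd (e.2 / pr')))
          (cof (e.2 / pr' / M'.gcd (e.2 / pr')) (e.1 / pr / M.gcd (e.1 / pr))) δ)) := by
  classical
  obtain ⟨a1, a2, a3⟩ := hF.item _ he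
  obtain ⟨a1', a2', a3'⟩ := hF'.item _ he'
  have w0 : 0 < e.1 / pr := Nat.div_pos (Nat.le_of_dvd a1 a2) (Nat.pos_of_dvd_of_pos a2 a1)
  have w0' : 0 < e.2 / pr' :=
    Nat.div_pos (Nat.le_of_dvd a1' a2') (Nat.pos_of_dvd_of_pos a2' a1')
  have c0 : (0 : ℝ) < c := by exact_mod_cast Nat.pos_of_dvd_of_pos hc hb
  have c0' : (0 : ℝ) < c' := by exact_mod_cast Nat.pos_of_dvd_of_pos hc' hb'
  have b0 : (0 : ℝ) < b := by exact_mod_cast hb
  have b0' : (0 : ℝ) < b' := by exact_mod_cast hb'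
  have r0 : 0 < (b : ℝ) / c * ρ e.1 := mul_pos (by positivity) (hR.pos _)
  have r0' : 0 < (b' : ℝ) / c' * ρ e.2 := mul_pos (by positivity) (hR.pos _)
  have hx : ∀ l ∈ P e.2, ExF l (Crest.Agent.R4P.LeafFam28.su (c' * mp t' e.2) (u e.2) l) :=
    fun l hl => (ho.ex _ he' l hl).comp_mul (ho.pm _ he' l hl) fun h => by
      have h1 : l ∣ c' * mp t' e.2 := by exact_mod_cast h
      exact ho.nb _ he' l hl (h1.trans (mul_dvd_mul_right hc' _))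
  rw [iF_eq_sum hM hM']
  have hPm : ∀ x ∈ (R.filter (fun x => (D.it x.1, D.it x.2) = e)).filter
      (fun x => x.1 ∈ A ∧ x.2 ∈ A'), x ∈ R ∧ x.1 ∈ A ∧ x.2 ∈ A' ∧ D.it x.1 = e.1 ∧ D.it x.2 = e.2 := by
    intro x hx
    obtain ⟨h1, h2⟩ := Finset.mem_filter.1 hx
    obtain ⟨h3, h4⟩ := Finset.mem_filter.1 h1
    exact ⟨h3, h2.1, h2.2, congrArg Prod.fst h4, congrArg Prod.snd h4⟩
  exact fam_one_rel (fam_node hR hb hF hW hc he A) (famW_node hR hb' hF' hW' hc' ho he' A')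
    hM hM' w0 w0' r0 r0' (ho.pm _ he') (ho.dv _ he') hx (fun x hx => by
      obtain ⟨-, h2, h3, h4, h5⟩ := hPm x hx
      exact ⟨Finset.mem_filter.2 ⟨h2, h4⟩, Finset.mem_filter.2 ⟨h3, h5⟩⟩)
    (c := C) (c' := C') hδ (fun x hx y a a' l1 l2 l3 l4 => by
      obtain ⟨h1, h2, h3, h4, h5⟩ := hPm x hx
      exact hrel x h1 h2 h3 h4 h5 y a a' l1 l2 l3 l4)

lemma AX_swap (x y : ℕ) (δ : ℝ) : AX y x δ = AX x y δ := by unfold AX; rw [mul_comm]

/-- **the same, sieve on the left side** -/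
theorem iF_rel_L (hR : D.Rad ρ) (hM : 0 < M) (hM' : 0 < M') (hb : 0 < b) (hb' : 0 < b')
    (hF : Fit b pr t) (hF' : Fit b' pr' t') (hW : D.Wts pr t) (hW' : D.Wts pr' t') (hc : c ∣ b)
    (hc' : c' ∣ b') {K : ℝ} {P : ℕ → Finset ℕ} {u : ℕ → ℕ → ℤ → ℝ} (ho : OmW D b pr t K P u)
    (R : Finset (Λ × Λ)) (e : ℕ × ℕ) (he : e.1 ∈ t.items)
    (he' : e.2 ∈ t'.items) {C C' δ : ℝ} (hδ : 0 < δ)
    (hrel : RW D M b pr c M' b' pr' c' A A' R e C C' δ) :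
    D.iF R (D.uA M b pr t A c) (D.uA M' b' pr' t' A' c') e ≤
      K * (CV * ((((b : ℝ) / c * ρ e.1) * dens (P e.1)) * ((b' : ℝ) / c' * ρ e.2) /
        DaI ρ M b pr c M' b' pr' c' e * max 1 δ *
        AX (cof (e.1 / pr / M.gcd (e.1 / pr)) (e.2 / pr' / M'.gcd (e.2 / pr')))
          (cof (e.2 / pr' / M'.gcd (e.2 / pr')) (e.1 / pr / M.gcd (e.1 / pr))) δ)) := by
  have key := iF_rel_R (A := A') (A' := A) hR hM' hM hb' hb hF' hF hW' hW hc' hc ho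
    (R.map (Equiv.prodComm Λ Λ).toEmbedding) e.swap he' he hδ hrel.swap
  rw [iF_swap] at key
  refine key.trans (le_of_eq ?_)
  simp only [Prod.fst_swap, Prod.snd_swap]
  rw [AX_swap]
  have eD : DaI ρ M' b' pr' c' M b pr c e.swap = DaI ρ M b pr c M' b' pr' c' e := by
    unfold DaI
    simp only [Prod.fst_swap, Prod.snd_swap]
    exact Da_swap _ _ _ _ _ _
  rw [eD]
  ring

end

end pair

/-! ### centres on the common circle of two sides -/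

/-- **close offsets: close centres**, two sides with one circle `A B = A' B'` -/
theorem rel_of_off2 {γ c c' : ℝ} {q r A B w A' B' w' : ℕ} (hA : 0 < A) (hB : 0 < B) (hw : 0 < w)
    (hA' : 0 < A') (hw' : 0 < w') (hq : q = A * w) (hr : r = A' * w') (hAB : A * B = A' * B')
    {y : ℝ} {a a' : ℤ} {z z' : ℝ} (hz : (B:ℝ) * z = w * y - B * γ - a)
    (hz' : (B':ℝ) * z' = w' * y - B' * γ - a') {ψ ψ' η : ℝ} (hη : 0 ≤ η)
    (h : |off γ c q z - off γ c' r z'| ≤ η * min (ψ / q) (ψ' / r)) :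
    |((a:ℝ) + B * c) * (cof w' w : ℕ) - (a' + B' * c') * (cof w w' : ℕ)| ≤
      η * Dp w w' (B * ψ) (B' * ψ') := by
  have hA0 : (0:ℝ) < A := by exact_mod_cast hA
  have hB0 : (0:ℝ) < B := by exact_mod_cast hB
  have hw0 : (0:ℝ) < w := by exact_mod_cast hw
  have hw0' : (0:ℝ) < w' := by exact_mod_cast hw'
  have hY : (0:ℝ) < (cof w' w : ℕ) := by exact_mod_cast cof_pos (w' := w) hw'
  have hX : (0:ℝ) < (cof w w' : ℕ) := by exact_mod_cast cof_pos (w' := w') hw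
  have hg : (0:ℝ) < (w.gcd w' : ℕ) := by exact_mod_cast Nat.gcd_pos_of_pos_left _ hw
  have ew : (w:ℝ) = (w.gcd w' : ℕ) * (cof w w' : ℕ) := by
    exact_mod_cast (Crest.Agent.R4.AvgItem710.mul_cof).symm
  have ew' : (w':ℝ) = (w.gcd w' : ℕ) * (cof w' w : ℕ) := by
    exact_mod_cast (Crest.Agent.R4.AvgItem710.mul_cof').symm
  have e1 := off_circle (γ := γ) (c := c) (z := z) hA hw hq (B := B)
  have e2 := off_circle (γ := γ) (c := c') (z := z') hA' hw' hr (B := B')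
  rw [hz] at e1
  rw [hz', ← hAB] at e2
  have e3 : ((a:ℝ) + B * c) * (cof w' w : ℕ) - (a' + B' * c') * (cof w w' : ℕ) =
      -((A * B : ℕ) : ℝ) * (off γ c q z - off γ c' r z') * (w * (cof w' w : ℕ)) := by
    have e4 : ((A * B : ℕ) : ℝ) * (off γ c q z - off γ c' r z') =
        (w * y - B * γ - a + (B * γ - B * c)) / w -
          (w' * y - B' * γ - a' + (B' * γ - B' * c')) / w' := by
      rw [mul_sub, e1, e2]
    rw [neg_mul, e4]
    have hX0 := hX.ne'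
    have hY0 := hY.ne'
    have hg0 := hg.ne'
    rw [ew, ew']
    field_simp
    ring
  rw [e3, abs_mul, abs_mul, abs_neg, abs_of_pos (by positivity : (0:ℝ) < w * (cof w' w : ℕ)),
    Nat.abs_cast]
  have hpos : (0:ℝ) ≤ ((A * B : ℕ) : ℝ) := Nat.cast_nonneg _
  have hpos2 : (0:ℝ) ≤ w * (cof w' w : ℕ) := by positivity
  have h5 : η * min (ψ / q) (ψ' / r) ≤ η * (ψ / q) :=
    mul_le_mul_of_nonneg_left (min_le_left _ _) hη
  have h6 : ((A * B : ℕ) : ℝ) * (η * (ψ / q)) * (w * (cof w' w : ℕ)) =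
      η * ((cof w' w : ℕ) * (B * ψ)) := by
    rw [hq]; push_cast
    field_simp
  calc ((A * B : ℕ) : ℝ) * |off γ c q z - off γ c' r z'| * (w * (cof w' w : ℕ))
      ≤ ((A * B : ℕ) : ℝ) * (η * min (ψ / q) (ψ' / r)) * (w * (cof w' w : ℕ)) := by gcongr
    _ ≤ ((A * B : ℕ) : ℝ) * (η * (ψ / q)) * (w * (cof w' w : ℕ)) := by gcongr
    _ = η * ((cof w' w : ℕ) * (B * ψ)) := h6
    _ ≤ _ := mul_le_mul_of_nonneg_left (le_max_left _ _) hη

open Crest.Agent.R4P.WPex189 in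
/-- the separation on the circle `A B = A' B'`, `B ≤ K A'` -/
theorem circle2 {P : WP} {γ : ℝ} {r : ℕ → ℝ} {t : IT} {S : Finset ℕ} {n K : ℕ}
    (h : Fine P γ r t S n K) {p p' q q' : ℕ} (hp : p ≤ n) (hp' : p' ≤ n) (hq : q ∈ S)
    (hq' : q' ∈ S) {σ τ : ℚ} (hσ : LbAt P γ r t p q σ)
    (hτ : LbAt P γ r t p' q' τ) {A A' B B' w w' : ℕ} (e : q = A * w) (e' : q' = A' * w')
    (hB : B ≤ K * A') :
    P.δ₀ * (((A * B : ℕ) : ℝ) * ((((B : ℚ) * σ).den * w) * ((((B' : ℚ) * τ).den) * w'))) ≤ 1 := by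
  refine le_trans ?_ (h.gridB p hp p' hp' q hq q' hq' σ τ hσ hτ)
  refine mul_le_mul_of_nonneg_left ?_ h.δ0.le
  have key : (A * B) * ((((B : ℚ) * σ).den * w) * ((((B' : ℚ) * τ).den) * w')) ≤
      K * ((σ.den * q) * (τ.den * q')) := by
    calc (A * B) * ((((B : ℚ) * σ).den * w) * ((((B' : ℚ) * τ).den) * w'))
        ≤ (A * B) * ((σ.den * w) * (τ.den * w')) :=
          Nat.mul_le_mul_left _ (Nat.mul_le_mul (Nat.mul_le_mul_right _ (den_mul_le B σ))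
            (Nat.mul_le_mul_right _ (den_mul_le B' τ)))
      _ = B * ((σ.den * (A * w)) * (τ.den * w')) := by ring
      _ = B * ((σ.den * q) * (τ.den * w')) := by rw [e]
      _ ≤ (K * A') * ((σ.den * q) * (τ.den * w')) := Nat.mul_le_mul_right _ hB
      _ = K * ((σ.den * q) * (τ.den * (A' * w'))) := by ring
      _ = K * ((σ.den * q) * (τ.den * q')) := by rw [e']
  exact_mod_cast key

open Crest.Agent.R4P.WPex189 in
/-- **same index, both labelled: exact centres on the common circle** -/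
theorem exact_node2 {wp : WP} {γ : ℝ} {r : ℕ → ℝ} {t : IT} {S : Finset ℕ} {n K : ℕ}
    (h : Fine wp γ r t S n K) {p q q' : ℕ} (hp : p ≤ n) (hq : q ∈ S) (hq' : q' ∈ S)
    (hq0 : 0 < q) (hq0' : 0 < q') {σ σ' : ℚ} (hσ : LbAt wp γ r t p q σ)
    (hσ' : LbAt wp γ r t p q' σ') {A B W A' B' W' : ℕ} (hA : 0 < A) (hB : 0 < B)
    (hA' : 0 < A') (hW : 0 < W) (hW' : 0 < W') (e : q = A * W) (e' : q' = A' * W')
    (hAB : A * B = A' * B') (hBK : B ≤ K * A') {y z z' : ℝ} {a a' : ℤ}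
    (hz : (B:ℝ) * z = W * y - B * γ - a) (hz' : (B':ℝ) * z' = W' * y - B' * γ - a')
    (h1 : |z| ≤ r q) (h2 : |z'| ≤ r q')
    (hix : wp.ix γ p q (some σ) z = wp.ix γ p q' (some σ') z') :
    ((a:ℝ) + ((B * σ : ℚ) : ℝ)) * (cof W' W : ℕ) = (a' + ((B' * σ' : ℚ) : ℝ)) * (cof W W' : ℕ) := by
  have hWr : (0:ℝ) < W := by exact_mod_cast hW
  have hWr' : (0:ℝ) < W' := by exact_mod_cast hW'
  have hABp : (0:ℝ) < ((A * B : ℕ) : ℝ) := by exact_mod_cast Nat.mul_pos hA hB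
  have h3 : cell (grd wp.δ₀ wp.n₁) (off γ σ q z) = cell (grd wp.δ₀ wp.n₁) (off γ σ' q' z') :=
    congrArg Prod.snd hix
  have h4 := grd_close h.δ0 (h.offB p hp q hq hq0 σ hσ z h1) (h.offB p hp q' hq' hq0' σ' hσ' z' h2) h3
  have f1 := off_circle (γ := γ) (c := σ) (z := z) hA hW e (B := B)
  have f2 := off_circle (γ := γ) (c := σ') (z := z') hA' hW' e' (B := B')
  rw [hz] at f1
  rw [hz', ← hAB] at f2
  have g1 : ((A * B : ℕ) : ℝ) * off γ σ q z = y - ((a:ℝ) + ((B * σ : ℚ) : ℝ)) / W := by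
    rw [f1]; push_cast; field_simp; ring
  have g2 : ((A * B : ℕ) : ℝ) * off γ σ' q' z' = y - ((a':ℝ) + ((B' * σ' : ℚ) : ℝ)) / W' := by
    rw [f2]; push_cast; field_simp; ring
  have h5 : |((a:ℝ) + ((B * σ : ℚ) : ℝ)) / W - (a' + ((B' * σ' : ℚ) : ℝ)) / W'| <
      ((A * B : ℕ) : ℝ) * wp.δ₀ := by
    have e1 : ((a:ℝ) + ((B * σ : ℚ) : ℝ)) / W - (a' + ((B' * σ' : ℚ) : ℝ)) / W' =
        -(((A * B : ℕ) : ℝ) * (off γ σ q z - off γ σ' q' z')) := by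
      rw [mul_sub, g1, g2]; ring
    rw [e1, abs_neg, abs_mul, abs_of_pos hABp]
    exact mul_lt_mul_of_pos_left h4 hABp
  have h6 := circle2 h hp hp hq hq' hσ hσ' e e' hBK (B' := B')
  have h7 := snapped_eq (q := W) (r := W') hW hW' (σ := (B : ℚ) * σ) (τ := (B' : ℚ) * σ') (a := a)
    (a' := a') (δ := ((A * B : ℕ) : ℝ) * wp.δ₀) (by
      refine le_trans (le_of_eq ?_) h6
      push_cast; ring) h5
  rw [div_eq_div_iff hWr.ne' hWr'.ne'] at h7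
  have hg : (0:ℝ) < (W.gcd W' : ℕ) := by exact_mod_cast Nat.gcd_pos_of_pos_left _ hW
  have ew : (W:ℝ) = (W.gcd W' : ℕ) * (cof W W' : ℕ) := by
    exact_mod_cast (Crest.Agent.R4.AvgItem710.mul_cof).symm
  have ew' : (W':ℝ) = (W.gcd W' : ℕ) * (cof W' W : ℕ) := by
    exact_mod_cast (Crest.Agent.R4.AvgItem710.mul_cof').symm
  rw [ew, ew'] at h7
  apply mul_left_cancel₀ hg.ne'
  linarith


/-! ### contexts -/

section ctx
open Crest.Agent.R4P.Data758 Crest.Agent.R4P.OmSt532 Crest.Agent.R4P.OmData532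
open Crest.Agent.R4P.LfDat734 Crest.Agent.R4P.WPex189
open Crest.Agent.R4P.Bld532 (NS All NodeOk Bk)
open Crest.Agent.R4P.Step588 (NDt ND1 ctx_NDt uq_lt)
open Crest.Agent.R4P.Skel189 Crest.Agent.R4P.RseSt23
open Crest.Agent.R4P.RseNd23 (exp_nonneg')
open Crest.Agent.R4.Soft104 (w)
open Crest.Agent.R4.LF363 (Lab)
open Crest.Agent.R4P.CrossLoc25 Crest.Agent.R4P.CofMono28
open Crest.Agent.R4.Ovl560 (dens dens_pos)
open Crest.Agent.R4P.LeafOs30 (CV AX)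
open Crest.Agent.R4P.LeafFam28 (OmW ExF famW_node anF)

variable {Λ κ : Type*} [DecidableEq Λ] [Fintype Λ] [Fintype κ] [DecidableEq κ]
variable {N : Skel189.Num} {γ : ℝ} {p0 P₀ : ℕ} {X : Ctx N γ p0 P₀} {u u' : NS} {τ τ' : IT}

/-- **a point of a piece in an averaged window** -/
lemma pt_avg {B : ℕ} (hB : 0 < B) {m : ℕ} (hm : 0 < m) {j : X.c.Lam} {W : ℕ} {y : ℝ} {a : ℤ}
    {p : ℕ} (hp : p ≤ top X.S)
    (l1 : (m : ℝ) * ((B : ℝ) / (1 : ℕ) * X.c.bp j.1.1 j.1.2) ≤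
      (W : ℝ) * y - m * ((B : ℝ) / (1 : ℕ) * X.c.γ) - a)
    (l2 : (W : ℝ) * y - m * ((B : ℝ) / (1 : ℕ) * X.c.γ) - a <
      m * ((B : ℝ) / (1 : ℕ) * X.c.bp j.1.1 (j.1.2 + 1))) :
    ∃ z : ℝ, ((m * B : ℕ) : ℝ) * z = W * y - ((m * B : ℕ) : ℝ) * X.c.γ - a ∧ |z| ≤ X.c.r j.1.1 ∧
      X.c.wp.ix X.c.γ p j.1.1 (X.c.st p j.1.1) z = (X.c.world p j.1).1 := by
  have hB' : (0 : ℝ) < ((m * B : ℕ) : ℝ) := by exact_mod_cast Nat.mul_pos hm hB
  rw [Nat.cast_one, div_one] at l1 l2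
  have e0 : ((m * B : ℕ) : ℝ) = m * B := by push_cast; ring
  have l1' : ((m * B : ℕ) : ℝ) * X.c.bp j.1.1 j.1.2 ≤
      (W : ℝ) * y - ((m * B : ℕ) : ℝ) * X.c.γ - a := by
    rw [e0]; linarith
  have l2' : (W : ℝ) * y - ((m * B : ℕ) : ℝ) * X.c.γ - a <
      ((m * B : ℕ) : ℝ) * X.c.bp j.1.1 (j.1.2 + 1) := by
    rw [e0]; linarith
  have h0 : ((m * B : ℕ) : ℝ) * ((W * y - ((m * B : ℕ) : ℝ) * X.c.γ - a) / ((m * B : ℕ) : ℝ)) =
      W * y - ((m * B : ℕ) : ℝ) * X.c.γ - a := by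
    field_simp
  refine ⟨(W * y - ((m * B : ℕ) : ℝ) * X.c.γ - a) / ((m * B : ℕ) : ℝ), h0, ?_, ?_⟩
  · have h1 : X.c.bp j.1.1 j.1.2 ≤ (W * y - ((m * B : ℕ) : ℝ) * X.c.γ - a) / ((m * B : ℕ) : ℝ) := by
      rw [le_div_iff₀ hB']; linarith
    have h2 : (W * y - ((m * B : ℕ) : ℝ) * X.c.γ - a) / ((m * B : ℕ) : ℝ) <
        X.c.bp j.1.1 (j.1.2 + 1) := by
      rw [div_lt_iff₀ hB']; linarith
    have h3 := X.ok.bp_ge j j.1.2
    have h4 := X.ok.bp_le j (Cf.k_lt j)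
    rw [abs_le]
    exact ⟨by linarith, by linarith⟩
  · refine X.ok.ix_point hp j ?_ ?_
    · show X.c.bp j.1.1 j.1.2 ≤ _
      rw [le_div_iff₀ hB']; linarith
    · show _ < X.c.bp j.1.1 (j.1.2 + 1)
      rw [div_lt_iff₀ hB']; linarith

lemma split_A {M A q : ℕ} (hd : A ∣ q) :
    q = (A * M.gcd (q / A)) * (q / A / M.gcd (q / A)) := by
  have h1 : M.gcd (q / A) * (q / A / M.gcd (q / A)) = q / A :=
    Nat.mul_div_cancel' (Nat.gcd_dvd_right _ _)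
  rw [mul_assoc, h1, Nat.mul_div_cancel' hd]

lemma split_AB {M A B w : ℕ} : (A * M.gcd w) * (rf w M * B) = A * B * M := by
  have h1 : rf w M * M.gcd w = M := mul_gcd_M
  calc (A * M.gcd w) * (rf w M * B) = A * B * (rf w M * M.gcd w) := by ring
    _ = _ := by rw [h1]

/-- `u.B u'.B ≤ Kc` -/
lemma BB_le (h : NDt X.par (w X.ψ) X.c.t u τ) (h' : NDt X.par (w X.ψ) X.c.t u' τ') {q r : ℕ}
    (hq : q ∈ τ.items) (hr : r ∈ τ'.items) : u.B * u'.B ≤ Kc X.S := by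
  have key : ∀ {v : NS} {σ : IT}, NDt X.par (w X.ψ) X.c.t v σ → ∀ {s : ℕ}, s ∈ σ.items →
      v.B ≤ ∏ i ∈ Finset.Icc 1 (top X.S), i := by
    intro v σ hv s hs
    have h1 : mp X.c.t s ≤ ∏ i ∈ Finset.Icc 1 (top X.S), i := by
      rw [BldF542.mp_eq_prod X.c.t (top X.S) X.tOk s]
      have h1 := BldF542.mt_lt X.c.t (top X.S) X.tOk s
      have h2 : (X.c.t.mt s) ⊆ Finset.Icc 1 (top X.S) := fun l hl =>
        Finset.mem_Icc.2 ⟨(h1 l hl).1.one_lt.le, (h1 l hl).2.le⟩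
      exact Finset.prod_le_prod_of_subset_of_one_le' h2 fun i hi _ => (Finset.mem_Icc.1 hi).1
    rw [hv.self.mp _ hs] at h1
    have h2 : 0 < mp σ s := by
      rw [BldF542.mp_eq_prod σ v.n hv.self.ok]
      exact Finset.prod_pos fun l hl => (BldF542.mt_lt σ v.n hv.self.ok _ l hl).1.pos
    exact (Nat.le_mul_of_pos_right _ h2).trans h1
  have h1 := key h hq
  have h2 := key h' hr
  have h3 : ∏ i ∈ Finset.Icc 1 (top X.S), i ≤ 4 ^ (8 * top X.S ^ 4) := by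
    set n := top X.S with hn
    calc ∏ i ∈ Finset.Icc 1 n, i ≤ ∏ _i ∈ Finset.Icc 1 n, n :=
          Finset.prod_le_prod' fun i hi => (Finset.mem_Icc.1 hi).2
      _ = n ^ n := by simp
      _ ≤ (4 ^ n) ^ n := Nat.pow_le_pow_left (Nat.lt_pow_self (by norm_num)).le _
      _ = 4 ^ (n * n) := by rw [← pow_mul]
      _ ≤ 4 ^ (8 * n ^ 4) := by
          refine Nat.pow_le_pow_right (by norm_num) ?_
          rcases Nat.eq_zero_or_pos n with h0 | h0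
          · rw [h0]; simp
          · calc n * n = n ^ 2 := by ring
              _ ≤ n ^ 4 := Nat.pow_le_pow_right h0 (by norm_num)
              _ ≤ 8 * n ^ 4 := Nat.le_mul_of_pos_left _ (by norm_num)
  unfold Kc
  exact Nat.mul_le_mul h1 (h2.trans h3)

/-- the condition `B ≤ K A'` of `exact_node2` for coprime moduli -/
lemma BK_of {M M' A B A' B' K w w' : ℕ} (hM' : 0 < M') (hA' : 0 < A') (hB' : 0 < B')
    (hc : Nat.Coprime M M') (circ : A * B * M = A' * B' * M') (hK : B * B' ≤ K) :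
    rf w M * B ≤ K * (A' * M'.gcd w') := by
  have h1 : M ∣ A' * B' := by
    refine hc.dvd_of_dvd_mul_right ?_
    rw [← circ]; exact dvd_mul_left _ _
  have h2 : rf w M ≤ M := Nat.div_le_self _ _
  have h3 : M ≤ A' * B' := Nat.le_of_dvd (Nat.mul_pos hA' hB') h1
  have h4 : 0 < M'.gcd w' := Nat.gcd_pos_of_pos_left _ hM'
  calc rf w M * B ≤ (A' * B') * B := Nat.mul_le_mul_right _ (h2.trans h3)
    _ = (B * B') * A' := by ring
    _ ≤ K * A' := Nat.mul_le_mul_right _ hK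
    _ ≤ K * (A' * M'.gcd w') := Nat.mul_le_mul_left _ (Nat.le_mul_of_pos_right _ h4)

/-- **the relation of two unlabelled pieces with one index**, at a state -/
theorem rel_none2 (h : NDt X.par (w X.ψ) X.c.t u τ) (h' : NDt X.par (w X.ψ) X.c.t u' τ') {p : ℕ}
    (hp : p ≤ top X.S) {M M' : ℕ} (hM : 0 < M) (hM' : 0 < M')
    (circ : u.A * u.B * M = u'.A * u'.B * M') {j j' : X.c.Lam}
    (hix : (X.c.world p j.1).1 = (X.c.world p j'.1).1)
    (hj : j.1.1 ∈ τ.items) (hj' : j'.1.1 ∈ τ'.items)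
    (s1 : X.c.st p j.1.1 = none) (s2 : X.c.st p j'.1.1 = none) {y : ℝ} {a a' : ℤ}
    (l1 : (rf (j.1.1 / u.A) M : ℝ) * ((u.B : ℝ) / (1 : ℕ) * X.c.bp j.1.1 j.1.2) ≤
      ((j.1.1 / u.A / M.gcd (j.1.1 / u.A) : ℕ) : ℝ) * y -
        rf (j.1.1 / u.A) M * ((u.B : ℝ) / (1 : ℕ) * X.c.γ) - a)
    (l2 : ((j.1.1 / u.A / M.gcd (j.1.1 / u.A) : ℕ) : ℝ) * y -
        rf (j.1.1 / u.A) M * ((u.B : ℝ) / (1 : ℕ) * X.c.γ) - a <
      rf (j.1.1 / u.A) M * ((u.B : ℝ) / (1 : ℕ) * X.c.bp j.1.1 (j.1.2 + 1)))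
    (l3 : (rf (j'.1.1 / u'.A) M' : ℝ) * ((u'.B : ℝ) / (1 : ℕ) * X.c.bp j'.1.1 j'.1.2) ≤
      ((j'.1.1 / u'.A / M'.gcd (j'.1.1 / u'.A) : ℕ) : ℝ) * y -
        rf (j'.1.1 / u'.A) M' * ((u'.B : ℝ) / (1 : ℕ) * X.c.γ) - a')
    (l4 : ((j'.1.1 / u'.A / M'.gcd (j'.1.1 / u'.A) : ℕ) : ℝ) * y -
        rf (j'.1.1 / u'.A) M' * ((u'.B : ℝ) / (1 : ℕ) * X.c.γ) - a' <
      rf (j'.1.1 / u'.A) M' * ((u'.B : ℝ) / (1 : ℕ) * X.c.bp j'.1.1 (j'.1.2 + 1))) :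
    |((a:ℝ) + ((rf (j.1.1 / u.A) M * u.B : ℕ) : ℝ) * X.c.γ) *
        (cof (j'.1.1 / u'.A / M'.gcd (j'.1.1 / u'.A)) (j.1.1 / u.A / M.gcd (j.1.1 / u.A)) : ℕ) -
      (a' + ((rf (j'.1.1 / u'.A) M' * u'.B : ℕ) : ℝ) * X.c.γ) *
        (cof (j.1.1 / u.A / M.gcd (j.1.1 / u.A)) (j'.1.1 / u'.A / M'.gcd (j'.1.1 / u'.A)) : ℕ)| ≤
      etaL X.c.wp p * DaI X.c.rr M u.B u.A 1 M' u'.B u'.A 1 (j.1.1, j'.1.1) := by
  have hB := h.B_pos
  have hB' := h'.B_pos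
  have m0 : 0 < rf (j.1.1 / u.A) M := rf_pos hM
  have m0' : 0 < rf (j'.1.1 / u'.A) M' := rf_pos hM'
  obtain ⟨z, e1, z1, i1⟩ := pt_avg hB m0 hp l1 l2
  obtain ⟨z', e2, z2, i2⟩ := pt_avg hB' m0' hp l3 l4
  rw [hix, ← i2] at i1
  rw [s1, s2] at i1
  have hq0 : 0 < j.1.1 := X.sys.pos _ (X.mem_S j)
  have hq0' : 0 < j'.1.1 := X.sys.pos _ (X.mem_S j')
  have key := X.fine.close hp (Cf.mem_S j) (Cf.mem_S j') hq0 hq0' z1 z2 (Cf.r_pos j) (Cf.r_pos j') i1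
  have hd := h.bk.dvd _ hj
  have hd' := h'.bk.dvd _ hj'
  have hw : 0 < j.1.1 / u.A := Nat.pos_of_ne_zero (h.div_ne hj)
  have hw' : 0 < j'.1.1 / u'.A := Nat.pos_of_ne_zero (h'.div_ne hj')
  have g0 : 0 < M.gcd (j.1.1 / u.A) := gcd_pos' hM
  have g0' : 0 < M'.gcd (j'.1.1 / u'.A) := gcd_pos' hM'
  have h2 := rel_of_off2 (γ := X.c.γ) (c := X.c.γ) (c' := X.c.γ) (q := j.1.1)
    (r := j'.1.1) (A := u.A * M.gcd (j.1.1 / u.A)) (B := rf (j.1.1 / u.A) M * u.B)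
    (w := j.1.1 / u.A / M.gcd (j.1.1 / u.A)) (A' := u'.A * M'.gcd (j'.1.1 / u'.A))
    (B' := rf (j'.1.1 / u'.A) M' * u'.B) (w' := j'.1.1 / u'.A / M'.gcd (j'.1.1 / u'.A))
    (Nat.mul_pos h.A_pos g0) (Nat.mul_pos m0 hB) (div_pos' hw hM)
    (Nat.mul_pos h'.A_pos g0') (div_pos' hw' hM') (split_A hd) (split_A hd')
    (by rw [split_AB, split_AB]; exact circ) e1 e2
    (ψ := X.c.r j.1.1) (ψ' := X.c.r j'.1.1) (η := Real.exp (1 / 2 ^ (X.c.wp.dep p)) - 1)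
    (exp_nonneg' _ _) key
  refine h2.trans ?_
  have e3 : DaI X.c.rr M u.B u.A 1 M' u'.B u'.A 1 (j.1.1, j'.1.1) =
      Dp (j.1.1 / u.A / M.gcd (j.1.1 / u.A)) (j'.1.1 / u'.A / M'.gcd (j'.1.1 / u'.A))
        (((rf (j.1.1 / u.A) M * u.B : ℕ) : ℝ) * X.c.r j.1.1)
        (((rf (j'.1.1 / u'.A) M' * u'.B : ℕ) : ℝ) * X.c.r j'.1.1) := by
    unfold DaI Da
    simp only
    rw [Cf.rr_eq, Cf.rr_eq, Nat.cast_one, div_one, div_one]
    push_cast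
    rw [mul_assoc, mul_assoc]
  rw [e3]
  refine mul_le_mul_of_nonneg_right (exp_le_etaL _ _) ?_
  unfold Crest.Agent.R4.AvgItem710.Dp
  refine le_max_of_le_left ?_
  have := (Cf.r_pos j).le
  positivity

/-- **the relation of two labelled pieces with one index**, at a state: exact centres -/
theorem rel_some2 (h : NDt X.par (w X.ψ) X.c.t u τ) (h' : NDt X.par (w X.ψ) X.c.t u' τ') {p : ℕ}
    (hp : p ≤ top X.S) (hlam : X.c.lam p = 0) {M M' : ℕ} (hM : 0 < M) (hM' : 0 < M')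
    (circ : u.A * u.B * M = u'.A * u'.B * M') (hco : Nat.Coprime M M') {j j' : X.c.Lam}
    (hix : (X.c.world p j.1).1 = (X.c.world p j'.1).1)
    (hj : j.1.1 ∈ τ.items) (hj' : j'.1.1 ∈ τ'.items) {σ σ' : ℚ}
    (s1 : X.c.st p j.1.1 = some σ) (s2 : X.c.st p j'.1.1 = some σ') {y : ℝ} {a a' : ℤ}
    (l1 : (rf (j.1.1 / u.A) M : ℝ) * ((u.B : ℝ) / (1 : ℕ) * X.c.bp j.1.1 j.1.2) ≤
      ((j.1.1 / u.A / M.gcd (j.1.1 / u.A) : ℕ) : ℝ) * y -
        rf (j.1.1 / u.A) M * ((u.B : ℝ) / (1 : ℕ) * X.c.γ) - a)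
    (l2 : ((j.1.1 / u.A / M.gcd (j.1.1 / u.A) : ℕ) : ℝ) * y -
        rf (j.1.1 / u.A) M * ((u.B : ℝ) / (1 : ℕ) * X.c.γ) - a <
      rf (j.1.1 / u.A) M * ((u.B : ℝ) / (1 : ℕ) * X.c.bp j.1.1 (j.1.2 + 1)))
    (l3 : (rf (j'.1.1 / u'.A) M' : ℝ) * ((u'.B : ℝ) / (1 : ℕ) * X.c.bp j'.1.1 j'.1.2) ≤
      ((j'.1.1 / u'.A / M'.gcd (j'.1.1 / u'.A) : ℕ) : ℝ) * y -
        rf (j'.1.1 / u'.A) M' * ((u'.B : ℝ) / (1 : ℕ) * X.c.γ) - a')
    (l4 : ((j'.1.1 / u'.A / M'.gcd (j'.1.1 / u'.A) : ℕ) : ℝ) * y -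
        rf (j'.1.1 / u'.A) M' * ((u'.B : ℝ) / (1 : ℕ) * X.c.γ) - a' <
      rf (j'.1.1 / u'.A) M' * ((u'.B : ℝ) / (1 : ℕ) * X.c.bp j'.1.1 (j'.1.2 + 1))) :
    ((a:ℝ) + ((((rf (j.1.1 / u.A) M * u.B : ℕ) : ℚ) * σ : ℚ) : ℝ)) *
        (cof (j'.1.1 / u'.A / M'.gcd (j'.1.1 / u'.A)) (j.1.1 / u.A / M.gcd (j.1.1 / u.A)) : ℕ) =
      (a' + ((((rf (j'.1.1 / u'.A) M' * u'.B : ℕ) : ℚ) * σ' : ℚ) : ℝ)) *
        (cof (j.1.1 / u.A / M.gcd (j.1.1 / u.A)) (j'.1.1 / u'.A / M'.gcd (j'.1.1 / u'.A)) : ℕ) := by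
  have hB := h.B_pos
  have hB' := h'.B_pos
  have m0 : 0 < rf (j.1.1 / u.A) M := rf_pos hM
  have m0' : 0 < rf (j'.1.1 / u'.A) M' := rf_pos hM'
  obtain ⟨z, e1, z1, i1⟩ := pt_avg hB m0 hp l1 l2
  obtain ⟨z', e2, z2, i2⟩ := pt_avg hB' m0' hp l3 l4
  rw [hix, ← i2] at i1
  rw [s1, s2] at i1
  have hs : LbAt X.c.wp X.c.γ X.c.r X.c.t p j.1.1 σ := stB_lbAt s1
  have hs' : LbAt X.c.wp X.c.γ X.c.r X.c.t p j'.1.1 σ' := stB_lbAt s2
  have hd := h.bk.dvd _ hj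
  have hd' := h'.bk.dvd _ hj'
  have hw : 0 < j.1.1 / u.A := Nat.pos_of_ne_zero (h.div_ne hj)
  have hw' : 0 < j'.1.1 / u'.A := Nat.pos_of_ne_zero (h'.div_ne hj')
  have g0 : 0 < M.gcd (j.1.1 / u.A) := gcd_pos' hM
  have g0' : 0 < M'.gcd (j'.1.1 / u'.A) := gcd_pos' hM'
  exact exact_node2 X.fine hp (Cf.mem_S j) (Cf.mem_S j') (X.sys.pos _ (X.mem_S j))
    (X.sys.pos _ (X.mem_S j')) hs hs' (A := u.A * M.gcd (j.1.1 / u.A))
    (B := rf (j.1.1 / u.A) M * u.B)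
    (W := j.1.1 / u.A / M.gcd (j.1.1 / u.A)) (A' := u'.A * M'.gcd (j'.1.1 / u'.A))
    (B' := rf (j'.1.1 / u'.A) M' * u'.B) (W' := j'.1.1 / u'.A / M'.gcd (j'.1.1 / u'.A))
    (Nat.mul_pos h.A_pos g0) (Nat.mul_pos m0 hB) (Nat.mul_pos h'.A_pos g0') (div_pos' hw hM)
    (div_pos' hw' hM') (split_A hd) (split_A hd') (by rw [split_AB, split_AB]; exact circ)
    (BK_of hM' h'.A_pos h'.B_pos hco circ (BB_le h h' hj hj')) e1 e2 z1 z2 i1


/-! ### unlabelled pairs with one index: the energy at a pair of nodes -/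

/-- radius of an item on the circle of a node -/
noncomputable abbrev RB (X : Ctx N γ p0 P₀) (u : NS) (q : ℕ) : ℝ := (u.B : ℝ) * X.c.rr q

/-- the scale of a pair of items at a pair of nodes -/
noncomputable abbrev DU (X : Ctx N γ p0 P₀) (M : ℕ) (u : NS) (M' : ℕ) (u' : NS) (e : ℕ × ℕ) : ℝ :=
  Dsc (X.c.rr e.1) (X.c.rr e.2) (SE M u.B u.A M' u'.B u'.A e)

lemma DaI_eq (M : ℕ) (u : NS) (M' : ℕ) (u' : NS) (e : ℕ × ℕ) :
    DaI X.c.rr M u.B u.A 1 M' u'.B u'.A 1 e = DU X M u M' u' e := by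
  unfold DaI DU SE
  rw [Nat.cast_one, div_one, div_one]
  exact Da_eq_sc (e.1 / u.A) M (e.2 / u'.A) M' u.B u'.B (X.c.rr e.1) (X.c.rr e.2)

lemma wts_nd (h : NDt X.par (w X.ψ) X.c.t u τ) (Y : Finset (ℕ × ℕ × Finset ℕ)) :
    (X.c.D.par Y).Wts u.A τ :=
  h.wts fun j _ => X.ok.wt _ (Cf.mem_S j) _

/-- **pairs of unlabelled pieces with one index at the column `p`** -/
structure UN (X : Ctx N γ p0 P₀) (p : ℕ) (R : Finset (X.c.Lam × X.c.Lam)) : Prop where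
  ix : ∀ x ∈ R, (X.c.world p x.1.1).1 = (X.c.world p x.2.1).1
  un : ∀ x ∈ R, X.c.st p x.1.1.1 = none

lemma UN.un' {p : ℕ} {R : Finset (X.c.Lam × X.c.Lam)} (h : UN X p R) :
    ∀ x ∈ R, X.c.st p x.2.1.1 = none := by
  intro x hx
  have h1 : (X.c.st p x.1.1.1).isSome = (X.c.st p x.2.1.1).isSome := WP.isSome_eq _ (h.ix x hx)
  rw [h.un x hx] at h1
  exact Option.isSome_eq_false_iff.1 h1.symm |> Option.isNone_iff_eq_none.1

lemma UN.mono {p : ℕ} {R R' : Finset (X.c.Lam × X.c.Lam)} (h : UN X p R) (hs : R' ⊆ R) : UN X p R' :=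
  ⟨fun x hx => h.ix x (hs hx), fun x hx => h.un x (hs hx)⟩

/-- the relation of the unlabelled pieces of a pair of items -/
theorem RW_none (h : NDt X.par (w X.ψ) X.c.t u τ) (h' : NDt X.par (w X.ψ) X.c.t u' τ') {p : ℕ}
    (hp : p ≤ top X.S) {M M' : ℕ} (hM : 0 < M) (hM' : 0 < M')
    (circ : u.A * u.B * M = u'.A * u'.B * M') (Y : Finset (ℕ × ℕ × Finset ℕ))
    {R : Finset (X.c.Lam × X.c.Lam)} (hR : UN X p R) (A A' : Finset X.c.Lam) {e : ℕ × ℕ}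
    (he : e.1 ∈ τ.items) (he' : e.2 ∈ τ'.items) :
    RW (X.c.D.par Y) M u.B u.A 1 M' u'.B u'.A 1 A A' R e
      (((rf (e.1 / u.A) M * u.B : ℕ) : ℝ) * X.c.γ) (((rf (e.2 / u'.A) M' * u'.B : ℕ) : ℝ) * X.c.γ)
      (etaL X.c.wp p * DU X M u M' u' e) := by
  intro x hx _ _ i1 i2 y a a' l1 l2 l3 l4
  have i1' : x.1.1.1 = e.1 := i1
  have i2' : x.2.1.1 = e.2 := i2
  have s1 := hR.un x hx
  have s2 := hR.un' x hx
  rw [← DaI_eq]
  rw [← i1'] at l1 l2 he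
  rw [← i2'] at l3 l4 he'
  have k := rel_none2 h h' hp hM hM' circ (hR.ix x hx) he he' s1 s2 l1 l2 l3 l4
  rw [i1', i2'] at k
  exact k

lemma DU_pos {Y : Finset (ℕ × ℕ × Finset ℕ)} (h : NDt X.par (w X.ψ) X.c.t u τ)
    (h' : NDt X.par (w X.ψ) X.c.t u' τ') {M M' : ℕ} (hM : 0 < M) (hM' : 0 < M') {e : ℕ × ℕ}
    (he : e.1 ∈ τ.items) (he' : e.2 ∈ τ'.items) : 0 < DU X M u M' u' e := by
  rw [← DaI_eq]
  have hw : 0 < e.1 / u.A := Nat.pos_of_ne_zero (h.div_ne he)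
  have hw' : 0 < e.2 / u'.A := Nat.pos_of_ne_zero (h'.div_ne he')
  have hB : (0 : ℝ) < u.B := by exact_mod_cast h.B_pos
  have hr := (X.ok.rad Y).pos e.1
  have m0 : (0 : ℝ) < rf (e.1 / u.A) M := by exact_mod_cast rf_pos hM
  unfold DaI Da Crest.Agent.R4.AvgItem710.Dp
  refine lt_max_of_lt_left ?_
  have hY : (0:ℝ) < (cof (e.2 / u'.A / M'.gcd (e.2 / u'.A)) (e.1 / u.A / M.gcd (e.1 / u.A)) : ℕ) := by
    exact_mod_cast cof_pos (w' := e.1 / u.A / M.gcd (e.1 / u.A)) (div_pos' (M := M') hw' hM')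
  positivity

/-- **one pair, raw radii** -/
theorem iF_un (h : NDt X.par (w X.ψ) X.c.t u τ) (h' : NDt X.par (w X.ψ) X.c.t u' τ') {p : ℕ}
    (hp : p ≤ top X.S) {M M' : ℕ} (hM : 0 < M) (hM' : 0 < M')
    (circ : u.A * u.B * M = u'.A * u'.B * M') (Y : Finset (ℕ × ℕ × Finset ℕ))
    {R : Finset (X.c.Lam × X.c.Lam)} (hR : UN X p R) (A A' : Finset X.c.Lam) {e : ℕ × ℕ}
    (he : e.1 ∈ τ.items) (he' : e.2 ∈ τ'.items) :
    (X.c.D.par Y).iF R ((X.c.D.par Y).uA M u.B u.A τ A 1) ((X.c.D.par Y).uA M' u'.B u'.A τ' A' 1) e ≤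
      4 * etaL X.c.wp p * (RB X u e.1 * RB X u' e.2) +
        2 * (RB X u e.1 * RB X u' e.2 / DU X M u M' u' e) := by
  have hD := DU_pos (Y := Y) h h' hM hM' he he'
  have key := iF_rel_avg (X.ok.rad Y) hM hM' h.B_pos h'.B_pos h.fit h'.fit (wts_nd h Y)
    (wts_nd h' Y) (one_dvd _) (one_dvd _) R e he he'
    (mul_nonneg (etaL_pos _ _).le hD.le) (RW_none h h' hp hM hM' circ Y hR A A' he he')
  rw [DaI_eq, Nat.cast_one, div_one, div_one] at key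
  refine key.trans (le_of_eq ?_)
  unfold RB
  field_simp
  ring

/-- **pairs of labelled pieces with one index at the column `p`** -/
structure LB (X : Ctx N γ p0 P₀) (p : ℕ) (R : Finset (X.c.Lam × X.c.Lam)) : Prop where
  ix : ∀ x ∈ R, (X.c.world p x.1.1).1 = (X.c.world p x.2.1).1
  lb : ∀ x ∈ R, X.c.st p x.1.1.1 ≠ none

lemma LB.lb' {p : ℕ} {R : Finset (X.c.Lam × X.c.Lam)} (h : LB X p R) :
    ∀ x ∈ R, X.c.st p x.2.1.1 ≠ none := by
  intro x hx h2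
  have h1 : (X.c.st p x.1.1.1).isSome = (X.c.st p x.2.1.1).isSome := WP.isSome_eq _ (h.ix x hx)
  rw [h2] at h1
  exact h.lb x hx (Option.isSome_eq_false_iff.1 h1 |> Option.isNone_iff_eq_none.1)

lemma LB.mono {p : ℕ} {R R' : Finset (X.c.Lam × X.c.Lam)} (h : LB X p R) (hs : R' ⊆ R) : LB X p R' :=
  ⟨fun x hx => h.ix x (hs hx), fun x hx => h.lb x (hs hx)⟩

/-- **one pair of items, labelled pieces with one index**: at most `2 R R' / D` (any node) -/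
theorem iF_lb (h : NDt X.par (w X.ψ) X.c.t u τ) (h' : NDt X.par (w X.ψ) X.c.t u' τ') {p : ℕ}
    (hp : p ≤ top X.S) (hlam : X.c.lam p = 0) {M M' : ℕ} (hM : 0 < M) (hM' : 0 < M')
    (circ : u.A * u.B * M = u'.A * u'.B * M') (hco : Nat.Coprime M M')
    (Y : Finset (ℕ × ℕ × Finset ℕ))
    {R : Finset (X.c.Lam × X.c.Lam)} (hR : LB X p R) (A A' : Finset X.c.Lam) {e : ℕ × ℕ}
    (he : e.1 ∈ τ.items) (he' : e.2 ∈ τ'.items) :
    (X.c.D.par Y).iF R ((X.c.D.par Y).uA M u.B u.A τ A 1) ((X.c.D.par Y).uA M' u'.B u'.A τ' A' 1) e ≤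
      2 * (RB X u e.1 * RB X u' e.2 / DU X M u M' u' e) := by
  have hD := DU_pos (Y := Y) h h' hM hM' he he'
  have hrr := (X.ok.rad Y).pos
  have hpos : 0 ≤ 2 * (RB X u e.1 * RB X u' e.2 / DU X M u M' u' e) := by
    have := hrr e.1
    have := hrr e.2
    positivity
  by_cases hn : ∃ x ∈ R, x.1.1.1 = e.1 ∧ x.2.1.1 = e.2
  · obtain ⟨x0, hx0, j1, j2⟩ := hn
    obtain ⟨σ, hσ⟩ := Option.ne_none_iff_exists'.1 (hR.lb x0 hx0)
    obtain ⟨σ', hσ'⟩ := Option.ne_none_iff_exists'.1 (hR.lb' x0 hx0)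
    rw [j1] at hσ
    rw [j2] at hσ'
    have hrw : RW (X.c.D.par Y) M u.B u.A 1 M' u'.B u'.A 1 A A' R e
        ((((rf (e.1 / u.A) M * u.B : ℕ) : ℚ) * σ : ℚ) : ℝ)
        ((((rf (e.2 / u'.A) M' * u'.B : ℕ) : ℚ) * σ' : ℚ) : ℝ) 0 := by
      intro x hx _ _ i1 i2 y a a' l1 l2 l3 l4
      have i1' : x.1.1.1 = e.1 := i1
      have i2' : x.2.1.1 = e.2 := i2
      rw [← i1'] at l1 l2 he hσ
      rw [← i2'] at l3 l4 he' hσ'
      have k := rel_some2 h h' hp hlam hM hM' circ hco (hR.ix x hx) he he' hσ hσ' l1 l2 l3 l4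
      rw [i1', i2'] at k
      rw [k, sub_self, abs_zero]
    have key := iF_rel_avg (X.ok.rad Y) hM hM' h.B_pos h'.B_pos h.fit h'.fit (wts_nd h Y)
      (wts_nd h' Y) (one_dvd _) (one_dvd _) R e he he' le_rfl hrw
    rw [DaI_eq, Nat.cast_one, div_one, div_one] at key
    refine key.trans (le_of_eq ?_)
    unfold RB
    ring
  · refine le_trans (le_of_eq ?_) hpos
    unfold Par.iF
    refine Finset.sum_eq_zero fun x hx => ?_
    obtain ⟨h1, h2⟩ := Finset.mem_filter.1 hx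
    exact absurd ⟨x, h1, (Prod.ext_iff.1 h2).1, (Prod.ext_iff.1 h2).2⟩ hn

open Crest.Agent.R4P.TBLeaf28 (JC) in
/-- the anatomy factor above `√D` -/
lemma AX_le_exp {x0 y0 : ℕ × ℕ → ℕ} {M pr M' pr' : ℕ} {e : ℕ × ℕ} (hJ : JC x0 y0 M pr M' pr' e)
    {D δ : ℝ} (h4 : 4 ≤ D) (hS : SD (x0 e) (y0 e) (Real.sqrt D) ≤ 1) (hδ : Real.sqrt D ≤ δ) :
    AX (cof (e.1 / pr / M.gcd (e.1 / pr)) (e.2 / pr' / M'.gcd (e.2 / pr')))
      (cof (e.2 / pr' / M'.gcd (e.2 / pr')) (e.1 / pr / M.gcd (e.1 / pr))) δ ≤ Real.exp 2 := by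
  have h2 : 2 ≤ Real.sqrt D := by
    rw [show (2 : ℝ) = Real.sqrt (2 ^ 2) by rw [Real.sqrt_sq (by norm_num)]]
    exact Real.sqrt_le_sqrt (by linarith)
  have e1 : ∀ x y : ℕ, AX x y δ = anF x y (max 1 δ) := fun x y => rfl
  rw [e1]
  refine (anF_mono hJ.px hJ.py hJ.x hJ.y (hδ.trans (le_max_right _ _))).trans ((anF_le h2).trans
    (Real.exp_le_exp.2 ?_))
  linarith

/-- `η D ≥ √D` for `D ≥ η⁻²` -/
lemma sqrt_le_mul {η D : ℝ} (hη : 0 < η) (hD : 0 ≤ D) (h : (η ^ 2)⁻¹ ≤ D) :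
    Real.sqrt D ≤ η * D := by
  rw [Real.sqrt_le_left (by positivity)]
  have h1 : 1 ≤ η ^ 2 * D := by
    rw [inv_le_iff_one_le_mul₀ (by positivity)] at h
    linarith
  calc D = D * 1 := (mul_one D).symm
    _ ≤ D * (η ^ 2 * D) := mul_le_mul_of_nonneg_left h1 hD
    _ = (η * D) ^ 2 := by ring

section sieve
open Crest.Agent.R4P.TBLeaf28 (JC)

/-- **one pair, sieve on the right side** : `√η ≤ c₁ dens`, or `D ≥ η⁻²` and good anatomy above `√D` -/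
theorem iF_unR (h : NDt X.par (w X.ψ) X.c.t u τ) (h' : NDt X.par (w X.ψ) X.c.t u' τ') {p : ℕ}
    (hp : p ≤ top X.S) {M M' : ℕ} (hM : 0 < M) (hM' : 0 < M')
    (circ : u.A * u.B * M = u'.A * u'.B * M') (Y : Finset (ℕ × ℕ × Finset ℕ))
    {K : ℝ} {P : ℕ → Finset ℕ} {v : ℕ → ℕ → ℤ → ℝ} (ho : OmW (X.c.D.par Y) u'.B u'.A τ' K P v)
    {R : Finset (X.c.Lam × X.c.Lam)} (hR : UN X p R) (A A' : Finset X.c.Lam) {e : ℕ × ℕ}
    (he : e.1 ∈ τ.items) (he' : e.2 ∈ τ'.items) (hη1 : etaL X.c.wp p ≤ 1) {c₁ C₂ : ℝ}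
    (hc : 4 * c₁ ≤ C₂) (hC : K * (CV * Real.exp 2) ≤ C₂) {x0 y0 : ℕ × ℕ → ℕ}
    (hcase : Real.sqrt (etaL X.c.wp p) ≤ c₁ * dens (P e.2) ∨
      ((etaL X.c.wp p ^ 2)⁻¹ ≤ DU X M u M' u' e ∧ 4 ≤ DU X M u M' u' e ∧
        SD (x0 e) (y0 e) (Real.sqrt (DU X M u M' u' e)) ≤ 1 ∧ JC x0 y0 M u.A M' u'.A e)) :
    (X.c.D.par Y).iF R ((X.c.D.par Y).uA M u.B u.A τ A 1) ((X.c.D.par Y).uA M' u'.B u'.A τ' A' 1) e ≤
      C₂ * Real.sqrt (etaL X.c.wp p) * (RB X u e.1 * (RB X u' e.2 * dens (P e.2))) +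
        2 * (RB X u e.1 * RB X u' e.2 / DU X M u M' u' e) := by
  have hD := DU_pos (Y := Y) h h' hM hM' he he'
  have hη := etaL_pos X.c.wp p
  have hB : (0 : ℝ) < u.B := by exact_mod_cast h.B_pos
  have hB' : (0 : ℝ) < u'.B := by exact_mod_cast h'.B_pos
  have hr := (X.ok.rad Y).pos e.1
  have hr' := (X.ok.rad Y).pos e.2
  have hd : 0 < dens (P e.2) := dens_pos (ho.pm _ he')
  have q1 : 0 < RB X u e.1 := mul_pos hB hr
  have q2 : 0 < RB X u' e.2 := mul_pos hB' hr'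
  set η := etaL X.c.wp p with hηd
  have hs0 : 0 < Real.sqrt η := Real.sqrt_pos.2 hη
  have hss : Real.sqrt η * Real.sqrt η = η := Real.mul_self_sqrt hη.le
  have hK := ho.K0
  rcases hcase with h1 | ⟨h1, h2, h3, h4⟩
  · refine (iF_un h h' hp hM hM' circ Y hR A A' he he').trans (add_le_add_left ?_ _)
    have k1 : 4 * η * (RB X u e.1 * RB X u' e.2) ≤
        4 * c₁ * Real.sqrt η * (RB X u e.1 * (RB X u' e.2 * dens (P e.2))) := by
      have k2 := mul_le_mul_of_nonneg_left h1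
        (mul_nonneg (mul_nonneg (by norm_num : (0:ℝ) ≤ 4) hs0.le) (mul_pos q1 q2).le)
      calc 4 * η * (RB X u e.1 * RB X u' e.2) =
          4 * Real.sqrt η * (RB X u e.1 * RB X u' e.2) * Real.sqrt η := by
            rw [← hss]; rw [Real.sqrt_mul_self hs0.le]; ring
        _ ≤ 4 * Real.sqrt η * (RB X u e.1 * RB X u' e.2) * (c₁ * dens (P e.2)) := k2
        _ = _ := by ring
    refine k1.trans ?_
    refine mul_le_mul_of_nonneg_right (mul_le_mul_of_nonneg_right hc hs0.le) (by positivity)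
  · have key := iF_rel_R (X.ok.rad Y) hM hM' h.B_pos h'.B_pos h.fit h'.fit (wts_nd h Y)
      (wts_nd h' Y) (one_dvd _) (one_dvd _) ho R e he he'
      (mul_pos hη hD) (RW_none h h' hp hM hM' circ Y hR A A' he he')
    rw [DaI_eq, Nat.cast_one, div_one, div_one] at key
    have e1 := sqrt_le_mul hη hD.le h1
    have hsD : 2 ≤ Real.sqrt (DU X M u M' u' e) := by
      rw [show (2 : ℝ) = Real.sqrt (2 ^ 2) by rw [Real.sqrt_sq (by norm_num)]]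
      exact Real.sqrt_le_sqrt (by linarith)
    have e2 : max 1 (η * DU X M u M' u' e) = η * DU X M u M' u' e :=
      max_eq_right (by linarith)
    have e3 := AX_le_exp h4 h2 h3 e1
    have e0 : 0 ≤ 2 * (RB X u e.1 * RB X u' e.2 / DU X M u M' u' e) := by positivity
    rw [e2] at key
    have e4 : (u.B : ℝ) * X.c.rr e.1 * (u'.B * X.c.rr e.2 * dens (P e.2)) / DU X M u M' u' e *
        (η * DU X M u M' u' e) = η * (RB X u e.1 * (RB X u' e.2 * dens (P e.2))) := by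
      unfold RB
      field_simp
    rw [e4] at key
    have e5 : η ≤ Real.sqrt η := by
      have : Real.sqrt η ≤ 1 := Real.sqrt_le_one.2 hη1
      calc η = Real.sqrt η * Real.sqrt η := hss.symm
        _ ≤ Real.sqrt η * 1 := mul_le_mul_of_nonneg_left this hs0.le
        _ = _ := mul_one _
    have hCV := Crest.Agent.R4P.LeafOs30.CV_nonneg
    have e6 : 0 ≤ η * (RB X u e.1 * (RB X u' e.2 * dens (P e.2))) := by positivity
    refine (key.trans ?_).trans (le_add_of_nonneg_right e0)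
    calc _ ≤ K * (CV * (η * (RB X u e.1 * (RB X u' e.2 * dens (P e.2))) * Real.exp 2)) := by
          refine mul_le_mul_of_nonneg_left (mul_le_mul_of_nonneg_left ?_ hCV) hK
          exact mul_le_mul_of_nonneg_left e3 e6
      _ = K * (CV * Real.exp 2) * (η * (RB X u e.1 * (RB X u' e.2 * dens (P e.2)))) := by ring
      _ ≤ C₂ * (Real.sqrt η * (RB X u e.1 * (RB X u' e.2 * dens (P e.2)))) := by
          refine mul_le_mul hC (mul_le_mul_of_nonneg_right e5 (by positivity)) e6 ?_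
          refine le_trans ?_ hC
          exact mul_nonneg hK (mul_nonneg hCV (Real.exp_pos 2).le)
      _ = _ := by ring


lemma DU_swap (M : ℕ) (u : NS) (M' : ℕ) (u' : NS) (e : ℕ × ℕ) :
    DU X M' u' M u e.swap = DU X M u M' u' e := by
  rw [← DaI_eq, ← DaI_eq]
  unfold DaI
  simp only [Prod.fst_swap, Prod.snd_swap]
  exact Da_swap _ _ _ _ _ _

lemma UN.swap {p : ℕ} {R : Finset (X.c.Lam × X.c.Lam)} (h : UN X p R) :
    UN X p (R.map (Equiv.prodComm X.c.Lam X.c.Lam).toEmbedding) :=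
  ⟨fun x hx => (h.ix x.swap (swap_mem.1 hx)).symm, fun x hx => h.un' x.swap (swap_mem.1 hx)⟩

/-- **one pair, sieve on the left side** -/
theorem iF_unL (h : NDt X.par (w X.ψ) X.c.t u τ) (h' : NDt X.par (w X.ψ) X.c.t u' τ') {p : ℕ}
    (hp : p ≤ top X.S) {M M' : ℕ} (hM : 0 < M) (hM' : 0 < M')
    (circ : u.A * u.B * M = u'.A * u'.B * M') (Y : Finset (ℕ × ℕ × Finset ℕ))
    {K : ℝ} {P : ℕ → Finset ℕ} {v : ℕ → ℕ → ℤ → ℝ} (ho : OmW (X.c.D.par Y) u.B u.A τ K P v)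
    {R : Finset (X.c.Lam × X.c.Lam)} (hR : UN X p R) (A A' : Finset X.c.Lam) {e : ℕ × ℕ}
    (he : e.1 ∈ τ.items) (he' : e.2 ∈ τ'.items) (hη1 : etaL X.c.wp p ≤ 1) {c₁ C₂ : ℝ}
    (hc : 4 * c₁ ≤ C₂) (hC : K * (CV * Real.exp 2) ≤ C₂) {x0 y0 : ℕ × ℕ → ℕ}
    (hcase : Real.sqrt (etaL X.c.wp p) ≤ c₁ * dens (P e.1) ∨
      ((etaL X.c.wp p ^ 2)⁻¹ ≤ DU X M u M' u' e ∧ 4 ≤ DU X M u M' u' e ∧
        SD (x0 e) (y0 e) (Real.sqrt (DU X M u M' u' e)) ≤ 1 ∧ JC x0 y0 M u.A M' u'.A e)) :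
    (X.c.D.par Y).iF R ((X.c.D.par Y).uA M u.B u.A τ A 1) ((X.c.D.par Y).uA M' u'.B u'.A τ' A' 1) e ≤
      C₂ * Real.sqrt (etaL X.c.wp p) * ((RB X u e.1 * dens (P e.1)) * RB X u' e.2) +
        2 * (RB X u e.1 * RB X u' e.2 / DU X M u M' u' e) := by
  have key := iF_unR (A := A') (A' := A) (e := e.swap) h' h hp hM' hM circ.symm Y ho hR.swap he' he
    hη1 hc hC (x0 := fun e => y0 e.swap) (y0 := fun e => x0 e.swap) (by
      rw [DU_swap]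
      rcases hcase with k | ⟨k1, k2, k3, k4⟩
      · exact Or.inl k
      · refine Or.inr ⟨k1, k2, ?_, k4.swap⟩
        simp only [Prod.swap_swap]
        unfold SD at k3 ⊢
        rwa [mul_comm])
  rw [iF_swap, DU_swap] at key
  refine key.trans (le_of_eq ?_)
  simp only [Prod.fst_swap, Prod.snd_swap]
  ring

end sieve

/-! ### all the pairs with one index -/

/-- **pairs of pieces with one index at the column `p`**; labelled pairs are allowed if `lam p = 0` and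
the moduli are coprime -/
structure SX (X : Ctx N γ p0 P₀) (p M M' : ℕ) (R : Finset (X.c.Lam × X.c.Lam)) : Prop where
  ix : ∀ x ∈ R, (X.c.world p x.1.1).1 = (X.c.world p x.2.1).1
  ok : (∀ x ∈ R, X.c.st p x.1.1.1 = none) ∨ (X.c.lam p = 0 ∧ Nat.Coprime M M')

lemma UN.sx {p : ℕ} {R : Finset (X.c.Lam × X.c.Lam)} (h : UN X p R) (M M' : ℕ) : SX X p M M' R :=
  ⟨h.ix, Or.inl h.un⟩

lemma SX.mono {p M M' : ℕ} {R R' : Finset (X.c.Lam × X.c.Lam)} (h : SX X p M M' R) (hs : R' ⊆ R) :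
    SX X p M M' R' :=
  ⟨fun x hx => h.ix x (hs hx), h.ok.imp (fun k x hx => k x (hs hx)) id⟩

/-- the unlabelled part of a set of pairs of pieces -/
noncomputable def unl (X : Ctx N γ p0 P₀) (p : ℕ) (R : Finset (X.c.Lam × X.c.Lam)) :
    Finset (X.c.Lam × X.c.Lam) := R.filter (fun x => X.c.st p x.1.1.1 = none)

/-- the labelled part of a set of pairs of pieces -/
noncomputable def lbd (X : Ctx N γ p0 P₀) (p : ℕ) (R : Finset (X.c.Lam × X.c.Lam)) :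
    Finset (X.c.Lam × X.c.Lam) := R.filter (fun x => ¬ X.c.st p x.1.1.1 = none)

lemma SX.unl {p M M' : ℕ} {R : Finset (X.c.Lam × X.c.Lam)} (h : SX X p M M' R) :
    UN X p (unl X p R) :=
  ⟨fun x hx => h.ix x (Finset.mem_filter.1 hx).1, fun x hx => (Finset.mem_filter.1 hx).2⟩

lemma SX.lbd {p M M' : ℕ} {R : Finset (X.c.Lam × X.c.Lam)} (h : SX X p M M' R) :
    LB X p (lbd X p R) :=
  ⟨fun x hx => h.ix x (Finset.mem_filter.1 hx).1, fun x hx => (Finset.mem_filter.1 hx).2⟩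

lemma iF_unl {Y : Finset (ℕ × ℕ × Finset ℕ)} {p : ℕ} (R : Finset (X.c.Lam × X.c.Lam))
    (F G : X.c.Lam → ℝ → ℝ) {e : ℕ × ℕ} (hs : X.c.st p e.1 = none) :
    (X.c.D.par Y).iF R F G e = (X.c.D.par Y).iF (unl X p R) F G e := by
  unfold Par.iF unl
  rw [Finset.filter_filter]
  refine Finset.sum_congr (Finset.filter_congr fun x _ => ?_) fun _ _ => rfl
  constructor
  · intro h
    have h1 : x.1.1.1 = e.1 := (Prod.ext_iff.1 h).1
    exact ⟨by rw [h1]; exact hs, h⟩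
  · exact fun h => h.2

lemma iF_lbd {Y : Finset (ℕ × ℕ × Finset ℕ)} {p : ℕ} (R : Finset (X.c.Lam × X.c.Lam))
    (F G : X.c.Lam → ℝ → ℝ) {e : ℕ × ℕ} (hs : ¬ X.c.st p e.1 = none) :
    (X.c.D.par Y).iF R F G e = (X.c.D.par Y).iF (lbd X p R) F G e := by
  unfold Par.iF lbd
  rw [Finset.filter_filter]
  refine Finset.sum_congr (Finset.filter_congr fun x _ => ?_) fun _ _ => rfl
  constructor
  · intro h
    have h1 : x.1.1.1 = e.1 := (Prod.ext_iff.1 h).1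
    exact ⟨by rw [h1]; exact hs, h⟩
  · exact fun h => h.2

/-- **labelled pairs of items**, one index -/
theorem iF_sx_lab (h : NDt X.par (w X.ψ) X.c.t u τ) (h' : NDt X.par (w X.ψ) X.c.t u' τ') {p : ℕ}
    (hp : p ≤ top X.S) {M M' : ℕ} (hM : 0 < M) (hM' : 0 < M')
    (circ : u.A * u.B * M = u'.A * u'.B * M') (Y : Finset (ℕ × ℕ × Finset ℕ))
    {R : Finset (X.c.Lam × X.c.Lam)} (hR : SX X p M M' R) (A A' : Finset X.c.Lam) {e : ℕ × ℕ}
    (he : e.1 ∈ τ.items) (he' : e.2 ∈ τ'.items) (hs : ¬ X.c.st p e.1 = none) :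
    (X.c.D.par Y).iF R ((X.c.D.par Y).uA M u.B u.A τ A 1) ((X.c.D.par Y).uA M' u'.B u'.A τ' A' 1) e ≤
      2 * (RB X u e.1 * RB X u' e.2 / DU X M u M' u' e) := by
  rw [iF_lbd R _ _ hs]
  rcases hR.ok with h1 | ⟨h1, h2⟩
  · have h0 : lbd X p R = ∅ := by
      unfold SameIx30.lbd
      exact Finset.filter_eq_empty_iff.2 fun x hx => not_not.2 (h1 x hx)
    rw [h0]
    have hD := DU_pos (Y := Y) h h' hM hM' he he'
    have hrr := (X.ok.rad Y).pos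
    have := hrr e.1
    have := hrr e.2
    unfold Par.iF
    simp only [Finset.filter_empty, Finset.sum_empty]
    positivity
  · exact iF_lb h h' hp h1 hM hM' circ h2 Y hR.lbd A A' he he'

/-- **one pair, raw radii**, all the pieces with one index -/
theorem iF_sx (h : NDt X.par (w X.ψ) X.c.t u τ) (h' : NDt X.par (w X.ψ) X.c.t u' τ') {p : ℕ}
    (hp : p ≤ top X.S) {M M' : ℕ} (hM : 0 < M) (hM' : 0 < M')
    (circ : u.A * u.B * M = u'.A * u'.B * M') (Y : Finset (ℕ × ℕ × Finset ℕ))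
    {R : Finset (X.c.Lam × X.c.Lam)} (hR : SX X p M M' R) (A A' : Finset X.c.Lam) {e : ℕ × ℕ}
    (he : e.1 ∈ τ.items) (he' : e.2 ∈ τ'.items) :
    (X.c.D.par Y).iF R ((X.c.D.par Y).uA M u.B u.A τ A 1) ((X.c.D.par Y).uA M' u'.B u'.A τ' A' 1) e ≤
      4 * etaL X.c.wp p * (RB X u e.1 * RB X u' e.2) +
        2 * (RB X u e.1 * RB X u' e.2 / DU X M u M' u' e) := by
  by_cases hs : X.c.st p e.1 = none
  · rw [iF_unl R _ _ hs]
    exact iF_un h h' hp hM hM' circ Y hR.unl A A' he he'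
  · refine (iF_sx_lab h h' hp hM hM' circ Y hR A A' he he' hs).trans
      (le_add_of_nonneg_left ?_)
    have hrr := (X.ok.rad Y).pos
    have := hrr e.1
    have := hrr e.2
    have := (etaL_pos X.c.wp p).le
    positivity

section sieve2
open Crest.Agent.R4P.TBLeaf28 (JC)

/-- **one pair, sieve on the right side**, all the pieces with one index -/
theorem iF_sxR (h : NDt X.par (w X.ψ) X.c.t u τ) (h' : NDt X.par (w X.ψ) X.c.t u' τ') {p : ℕ}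
    (hp : p ≤ top X.S) {M M' : ℕ} (hM : 0 < M) (hM' : 0 < M')
    (circ : u.A * u.B * M = u'.A * u'.B * M') (Y : Finset (ℕ × ℕ × Finset ℕ))
    {K : ℝ} {P : ℕ → Finset ℕ} {v : ℕ → ℕ → ℤ → ℝ} (ho : OmW (X.c.D.par Y) u'.B u'.A τ' K P v)
    {R : Finset (X.c.Lam × X.c.Lam)} (hR : SX X p M M' R) (A A' : Finset X.c.Lam) {e : ℕ × ℕ}
    (he : e.1 ∈ τ.items) (he' : e.2 ∈ τ'.items) (hη1 : etaL X.c.wp p ≤ 1) {c₁ C₂ : ℝ}
    (hc : 4 * c₁ ≤ C₂) (hC : K * (CV * Real.exp 2) ≤ C₂) {x0 y0 : ℕ × ℕ → ℕ}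
    (hcase : Real.sqrt (etaL X.c.wp p) ≤ c₁ * dens (P e.2) ∨
      ((etaL X.c.wp p ^ 2)⁻¹ ≤ DU X M u M' u' e ∧ 4 ≤ DU X M u M' u' e ∧
        SD (x0 e) (y0 e) (Real.sqrt (DU X M u M' u' e)) ≤ 1 ∧ JC x0 y0 M u.A M' u'.A e)) :
    (X.c.D.par Y).iF R ((X.c.D.par Y).uA M u.B u.A τ A 1) ((X.c.D.par Y).uA M' u'.B u'.A τ' A' 1) e ≤
      C₂ * Real.sqrt (etaL X.c.wp p) * (RB X u e.1 * (RB X u' e.2 * dens (P e.2))) +
        2 * (RB X u e.1 * RB X u' e.2 / DU X M u M' u' e) := by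
  by_cases hs : X.c.st p e.1 = none
  · rw [iF_unl R _ _ hs]
    exact iF_unR h h' hp hM hM' circ Y ho hR.unl A A' he he' hη1 hc hC hcase
  · refine (iF_sx_lab h h' hp hM hM' circ Y hR A A' he he' hs).trans
      (le_add_of_nonneg_left ?_)
    have hC0 : 0 ≤ C₂ := le_trans
      (mul_nonneg ho.K0 (mul_nonneg Crest.Agent.R4P.LeafOs30.CV_nonneg (Real.exp_pos 2).le)) hC
    have hrr := (X.ok.rad Y).pos
    have := hrr e.1
    have := hrr e.2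
    have := (dens_pos (ho.pm _ he')).le
    positivity

/-- **one pair, sieve on the left side**, all the pieces with one index -/
theorem iF_sxL (h : NDt X.par (w X.ψ) X.c.t u τ) (h' : NDt X.par (w X.ψ) X.c.t u' τ') {p : ℕ}
    (hp : p ≤ top X.S) {M M' : ℕ} (hM : 0 < M) (hM' : 0 < M')
    (circ : u.A * u.B * M = u'.A * u'.B * M') (Y : Finset (ℕ × ℕ × Finset ℕ))
    {K : ℝ} {P : ℕ → Finset ℕ} {v : ℕ → ℕ → ℤ → ℝ} (ho : OmW (X.c.D.par Y) u.B u.A τ K P v)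
    {R : Finset (X.c.Lam × X.c.Lam)} (hR : SX X p M M' R) (A A' : Finset X.c.Lam) {e : ℕ × ℕ}
    (he : e.1 ∈ τ.items) (he' : e.2 ∈ τ'.items) (hη1 : etaL X.c.wp p ≤ 1) {c₁ C₂ : ℝ}
    (hc : 4 * c₁ ≤ C₂) (hC : K * (CV * Real.exp 2) ≤ C₂) {x0 y0 : ℕ × ℕ → ℕ}
    (hcase : Real.sqrt (etaL X.c.wp p) ≤ c₁ * dens (P e.1) ∨
      ((etaL X.c.wp p ^ 2)⁻¹ ≤ DU X M u M' u' e ∧ 4 ≤ DU X M u M' u' e ∧
        SD (x0 e) (y0 e) (Real.sqrt (DU X M u M' u' e)) ≤ 1 ∧ JC x0 y0 M u.A M' u'.A e)) :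
    (X.c.D.par Y).iF R ((X.c.D.par Y).uA M u.B u.A τ A 1) ((X.c.D.par Y).uA M' u'.B u'.A τ' A' 1) e ≤
      C₂ * Real.sqrt (etaL X.c.wp p) * ((RB X u e.1 * dens (P e.1)) * RB X u' e.2) +
        2 * (RB X u e.1 * RB X u' e.2 / DU X M u M' u' e) := by
  by_cases hs : X.c.st p e.1 = none
  · rw [iF_unl R _ _ hs]
    exact iF_unL h h' hp hM hM' circ Y ho hR.unl A A' he he' hη1 hc hC hcase
  · refine (iF_sx_lab h h' hp hM hM' circ Y hR A A' he he' hs).trans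
      (le_add_of_nonneg_left ?_)
    have hC0 : 0 ≤ C₂ := le_trans
      (mul_nonneg ho.K0 (mul_nonneg Crest.Agent.R4P.LeafOs30.CV_nonneg (Real.exp_pos 2).le)) hC
    have hrr := (X.ok.rad Y).pos
    have := hrr e.1
    have := hrr e.2
    have := (dens_pos (ho.pm _ he)).le
    positivity

end sieve2

/-! ### blocks -/

open Crest.Agent.R4P.NMW710 (Qi mem_Qi) in
/-- the energy of a set of pairs of pieces at a pair of nodes, from bounds of the pairs of items -/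
theorem Q_le_pairs {D : Par Λ κ} {Al : Finset ℕ} {M b pr M' b' pr' : ℕ} {t t' : IT}
    (hdead : ∀ j, D.it j ∉ Al → ∀ a, D.om j a = 0) (hM : 0 < M) (hM' : 0 < M')
    (hb : 0 < b) (hb' : 0 < b') (hF : Fit b pr t) (hF' : Fit b' pr' t') (hW : D.Wts pr t)
    (hW' : D.Wts pr' t') (R : Finset (Λ × Λ)) (A A' : Finset Λ) {f g : ℕ → ℝ} {H : ℕ × ℕ → ℝ}
    (hf : ∀ q ∈ Qi D Al t A, 0 ≤ f q) (hg : ∀ r ∈ Qi D Al t' A', 0 ≤ g r) (hH : ∀ e, 0 ≤ H e)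
    (hP : ∀ e ∈ D.PE R (D.uA M b pr t A 1) (D.uA M' b' pr' t' A' 1),
      e ∈ Qi D Al t A ×ˢ Qi D Al t' A' →
      D.iF R (D.uA M b pr t A 1) (D.uA M' b' pr' t' A' 1) e ≤ f e.1 * g e.2 + H e) :
    Q R (D.uA M b pr t A 1) (D.uA M' b' pr' t' A' 1) ≤
      (∑ q ∈ Qi D Al t A, f q) * ∑ r ∈ Qi D Al t' A', g r +
        ∑ e ∈ Qi D Al t A ×ˢ Qi D Al t' A', H e := by
  classical
  have hsub := Crest.Agent.R4P.NMW710.PE_sub hdead hM hM' hb hb' hF hF' hW hW' (one_dvd _) (one_dvd _) R A A'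
  rw [D.Q_eq]
  refine (Finset.sum_le_sum fun e he => hP e he (hsub he)).trans ?_
  refine (Finset.sum_le_sum_of_subset_of_nonneg hsub fun e he _ => ?_).trans (le_of_eq ?_)
  · have hm := Finset.mem_product.1 he
    exact add_nonneg (mul_nonneg (hf _ hm.1) (hg _ hm.2)) (hH e)
  · rw [Finset.sum_add_distrib, Finset.sum_mul_sum, ← Finset.sum_product']


/-- splitting a set of pairs of pieces -/
lemma Q_filter_add {R : Finset (Λ × Λ)} (Pr : Λ × Λ → Prop) [DecidablePred Pr] (F G : Λ → ℝ → ℝ) :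
    Q R F G = Q (R.filter Pr) F G + Q (R.filter fun x => ¬ Pr x) F G := by
  unfold Q
  exact (Finset.sum_filter_add_sum_filter_not _ _ _).symm

lemma Q_unl_lbd (p : ℕ) (R : Finset (X.c.Lam × X.c.Lam)) (F G : X.c.Lam → ℝ → ℝ) :
    Q R F G = Q (unl X p R) F G + Q (lbd X p R) F G := Q_filter_add _ F G

/-- **a merge**: the pairs which are not related at `p` have one index at `p` -/
lemma ix_of_not_rel {Y : Finset (ℕ × ℕ × Finset ℕ)} {p : ℕ} {x : X.c.Lam × X.c.Lam}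
    (h : x ∉ Ro ((X.c.D.par Y).rho p)) : (X.c.world p x.1.1).1 = (X.c.world p x.2.1).1 := by
  rw [Cf.Ro_par, Cf.mem_Ro, not_not] at h
  exact h

lemma UN_unl {Y : Finset (ℕ × ℕ × Finset ℕ)} {p : ℕ} (R : Finset (X.c.Lam × X.c.Lam)) :
    UN X p (unl X p (R \ Ro ((X.c.D.par Y).rho p))) :=
  ⟨fun x hx => ix_of_not_rel (Y := Y) (Finset.mem_sdiff.1 (Finset.mem_filter.1 hx).1).2,
    fun x hx => (Finset.mem_filter.1 hx).2⟩

open Classical in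
/-- **value of an unlabelled pair with one index** in the letters of the scale pair -/
noncomputable def Vm (PP : ℕ × ℕ → Prop) (ρ : ℕ → ℝ) (s : ℝ × ℝ) (e : ℕ × ℕ) : ℝ :=
  if PP e ∧ 0 ≤ s.1 then 2 * (ρ e.1 * ρ e.2 / Dsc (ρ e.1) (ρ e.2) s) else 0

lemma Dsc_nonneg {r r' : ℝ} {s : ℝ × ℝ} (hr : 0 ≤ r) (hs : 0 ≤ s.1) : 0 ≤ Dsc r r' s :=
  le_max_of_le_left (mul_nonneg hs hr)

lemma Vm_nonneg {ρ : ℕ → ℝ} (hρ : ∀ q, 0 < ρ q) (PP : ℕ × ℕ → Prop) (s : ℝ × ℝ) (e : ℕ × ℕ) :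
    0 ≤ Vm PP ρ s e := by
  unfold Vm
  split_ifs with h
  · have := Dsc_nonneg (r' := ρ e.2) (hρ e.1).le h.2
    have := hρ e.1
    have := hρ e.2
    positivity
  · exact le_rfl

/-- raising a scale pair by `p` divides the value by `p` -/
lemma Vm_raise {ρ : ℕ → ℝ} (PP : ℕ × ℕ → Prop) {p : ℕ} (hp : 0 < p) (s : ℝ × ℝ) (e : ℕ × ℕ) :
    Vm PP ρ (p * s.1, p * s.2) e = 1 / (p : ℝ) * Vm PP ρ s e := by
  have hp0 : (0 : ℝ) < p := by exact_mod_cast hp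
  unfold Vm
  have e1 : (0 ≤ (p : ℝ) * s.1) ↔ 0 ≤ s.1 := mul_nonneg_iff_of_pos_left hp0
  by_cases hc : PP e ∧ 0 ≤ s.1
  · rw [if_pos ⟨hc.1, e1.2 hc.2⟩, if_pos hc]
    have e2 : Dsc (ρ e.1) (ρ e.2) ((p : ℝ) * s.1, (p : ℝ) * s.2) = p * Dsc (ρ e.1) (ρ e.2) s := by
      unfold Dsc
      rw [mul_max_of_nonneg _ _ hp0.le]
      simp only [mul_assoc]
    rw [e2]
    field_simp
  · rw [if_neg (fun h => hc ⟨h.1, e1.1 h.2⟩), if_neg hc, mul_zero]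

section blocks
open Crest.Agent.R4P.TBLeaf28 (JC)
open Crest.Agent.R4P.HiLeafS28 (LoS)
open Crest.Agent.R4P.NMW710 (Qi mem_Qi)

lemma Vm_eq {PP : ℕ × ℕ → Prop} {M M' : ℕ} {e : ℕ × ℕ} (h : PP e) :
    (u.B : ℝ) * u'.B * Vm PP X.c.rr (SE M u.B u.A M' u'.B u'.A e) e =
      2 * (RB X u e.1 * RB X u' e.2 / DU X M u M' u' e) := by
  unfold Vm
  rw [if_pos ⟨h, SE_pos M u.B u.A M' u'.B u'.A e⟩]
  unfold RB DU
  ring

lemma dead_ctx (Y : Finset (ℕ × ℕ × Finset ℕ)) :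
    ∀ j, (X.c.D.par Y).it j ∉ X.S' → ∀ a, (X.c.D.par Y).om j a = 0 :=
  fun j hj a => X.om_zero hj _ a

/-- **nonleaf against nonleaf**: pairs with one index at a pair of nodes -/
theorem same_Q (h : NDt X.par (w X.ψ) X.c.t u τ) (h' : NDt X.par (w X.ψ) X.c.t u' τ') {p : ℕ}
    (hp : p ≤ top X.S) {M M' : ℕ} (hM : 0 < M) (hM' : 0 < M')
    (circ : u.A * u.B * M = u'.A * u'.B * M') (Y : Finset (ℕ × ℕ × Finset ℕ))
    {R : Finset (X.c.Lam × X.c.Lam)} (hR : SX X p M M' R) (A A' : Finset X.c.Lam)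
    {PP : ℕ × ℕ → Prop}
    (hP : ∀ e ∈ (X.c.D.par Y).PE R ((X.c.D.par Y).uA M u.B u.A τ A 1)
      ((X.c.D.par Y).uA M' u'.B u'.A τ' A' 1), PP e) :
    Q R ((X.c.D.par Y).uA M u.B u.A τ A 1) ((X.c.D.par Y).uA M' u'.B u'.A τ' A' 1) ≤
      4 * etaL X.c.wp p * (SR X.c.rr u.B (Qi (X.c.D.par Y) X.S' τ A) *
        SR X.c.rr u'.B (Qi (X.c.D.par Y) X.S' τ' A')) +
      ∑ e ∈ Qi (X.c.D.par Y) X.S' τ A ×ˢ Qi (X.c.D.par Y) X.S' τ' A',
        (u.B : ℝ) * u'.B * Vm PP X.c.rr (SE M u.B u.A M' u'.B u'.A e) e := by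
  have hη := (etaL_pos X.c.wp p).le
  have hrr := (X.ok.rad Y).pos
  have key := Q_le_pairs (dead_ctx (X := X) Y) hM hM' h.B_pos h'.B_pos h.fit h'.fit (wts_nd h Y)
    (wts_nd h' Y) R A A' (f := fun q => 4 * etaL X.c.wp p * RB X u q) (g := fun r => RB X u' r)
    (H := fun e => (u.B : ℝ) * u'.B * Vm PP X.c.rr (SE M u.B u.A M' u'.B u'.A e) e)
    (fun q _ => by have := hrr q; positivity) (fun q _ => by have := hrr q; positivity)
    (fun e => mul_nonneg (by positivity) (Vm_nonneg hrr _ _ _))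
    (fun e he hm => by
      have hm := Finset.mem_product.1 hm
      have k := iF_sx h h' hp hM hM' circ Y hR A A' (e := e) (mem_Qi.1 hm.1).1 (mem_Qi.1 hm.2).1
      rw [Vm_eq (hP e he)]
      refine k.trans (le_of_eq ?_)
      ring)
  refine key.trans (le_of_eq ?_)
  unfold SR
  rw [← Finset.mul_sum]
  ring

/-- **labelled pairs with one index at a pair of nodes** (any nodes, leaves included) -/
theorem lb_Q (h : NDt X.par (w X.ψ) X.c.t u τ) (h' : NDt X.par (w X.ψ) X.c.t u' τ') {p : ℕ}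
    (hp : p ≤ top X.S) (hlam : X.c.lam p = 0) {M M' : ℕ} (hM : 0 < M) (hM' : 0 < M')
    (circ : u.A * u.B * M = u'.A * u'.B * M') (hco : Nat.Coprime M M')
    (Y : Finset (ℕ × ℕ × Finset ℕ))
    {R : Finset (X.c.Lam × X.c.Lam)} (hR : LB X p R) (A A' : Finset X.c.Lam)
    {PP : ℕ × ℕ → Prop}
    (hP : ∀ e ∈ (X.c.D.par Y).PE R ((X.c.D.par Y).uA M u.B u.A τ A 1)
      ((X.c.D.par Y).uA M' u'.B u'.A τ' A' 1), PP e) :
    Q R ((X.c.D.par Y).uA M u.B u.A τ A 1) ((X.c.D.par Y).uA M' u'.B u'.A τ' A' 1) ≤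
      ∑ e ∈ Qi (X.c.D.par Y) X.S' τ A ×ˢ Qi (X.c.D.par Y) X.S' τ' A',
        (u.B : ℝ) * u'.B * Vm PP X.c.rr (SE M u.B u.A M' u'.B u'.A e) e := by
  have hrr := (X.ok.rad Y).pos
  have key := Q_le_pairs (dead_ctx (X := X) Y) hM hM' h.B_pos h'.B_pos h.fit h'.fit (wts_nd h Y)
    (wts_nd h' Y) R A A' (f := fun _ => 0) (g := fun _ => 0)
    (H := fun e => (u.B : ℝ) * u'.B * Vm PP X.c.rr (SE M u.B u.A M' u'.B u'.A e) e)
    (fun q _ => le_rfl) (fun q _ => le_rfl)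
    (fun e => mul_nonneg (by positivity) (Vm_nonneg hrr _ _ _))
    (fun e he hm => by
      have hm := Finset.mem_product.1 hm
      have k := iF_lb h h' hp hlam hM hM' circ hco Y hR A A' (e := e) (mem_Qi.1 hm.1).1
        (mem_Qi.1 hm.2).1
      rw [Vm_eq (hP e he), mul_zero, zero_add]
      exact k)
  refine key.trans (le_of_eq ?_)
  simp

lemma LB_lbd {Y : Finset (ℕ × ℕ × Finset ℕ)} {p : ℕ} (R : Finset (X.c.Lam × X.c.Lam)) :
    LB X p (lbd X p (R \ Ro ((X.c.D.par Y).rho p))) :=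
  ⟨fun x hx => ix_of_not_rel (Y := Y) (Finset.mem_sdiff.1 (Finset.mem_filter.1 hx).1).2,
    fun x hx => (Finset.mem_filter.1 hx).2⟩

/-- **nonleaf against a sieved side**, low level of the leaf: `√η ≤ c₁ dens` -/
theorem same_QR1 (h : NDt X.par (w X.ψ) X.c.t u τ) (h' : NDt X.par (w X.ψ) X.c.t u' τ') {p : ℕ}
    (hp : p ≤ top X.S) {M M' : ℕ} (hM : 0 < M) (hM' : 0 < M')
    (circ : u.A * u.B * M = u'.A * u'.B * M') (Y : Finset (ℕ × ℕ × Finset ℕ))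
    {K : ℝ} {P : ℕ → Finset ℕ} {v : ℕ → ℕ → ℤ → ℝ} (ho : OmW (X.c.D.par Y) u'.B u'.A τ' K P v)
    {R : Finset (X.c.Lam × X.c.Lam)} (hR : SX X p M M' R) (A A' : Finset X.c.Lam)
    {PP : ℕ × ℕ → Prop}
    (hP : ∀ e ∈ (X.c.D.par Y).PE R ((X.c.D.par Y).uA M u.B u.A τ A 1)
      ((X.c.D.par Y).uA M' u'.B u'.A τ' A' 1), PP e)
    (hη1 : etaL X.c.wp p ≤ 1) {c₁ C₂ : ℝ}
    (hc : 4 * c₁ ≤ C₂) (hC : K * (CV * Real.exp 2) ≤ C₂)
    (hcase : ∀ r ∈ Qi (X.c.D.par Y) X.S' τ' A', Real.sqrt (etaL X.c.wp p) ≤ c₁ * dens (P r)) :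
    Q R ((X.c.D.par Y).uA M u.B u.A τ A 1) ((X.c.D.par Y).uA M' u'.B u'.A τ' A' 1) ≤
      C₂ * Real.sqrt (etaL X.c.wp p) * (SR X.c.rr u.B (Qi (X.c.D.par Y) X.S' τ A) *
        ∑ r ∈ Qi (X.c.D.par Y) X.S' τ' A', (u'.B : ℝ) * X.c.rr r * dens (P r)) +
      ∑ e ∈ Qi (X.c.D.par Y) X.S' τ A ×ˢ Qi (X.c.D.par Y) X.S' τ' A',
        (u.B : ℝ) * u'.B * Vm PP X.c.rr (SE M u.B u.A M' u'.B u'.A e) e := by
  have hrr := (X.ok.rad Y).pos
  have hC0 : 0 ≤ C₂ := le_trans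
    (mul_nonneg ho.K0 (mul_nonneg Crest.Agent.R4P.LeafOs30.CV_nonneg (Real.exp_pos 2).le)) hC
  have key := Q_le_pairs (dead_ctx (X := X) Y) hM hM' h.B_pos h'.B_pos h.fit h'.fit (wts_nd h Y)
    (wts_nd h' Y) R A A' (f := fun q => C₂ * Real.sqrt (etaL X.c.wp p) * RB X u q)
    (g := fun r => RB X u' r * dens (P r))
    (H := fun e => (u.B : ℝ) * u'.B * Vm PP X.c.rr (SE M u.B u.A M' u'.B u'.A e) e)
    (fun q _ => by have := hrr q; positivity)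
    (fun r hr => by
      have := hrr r
      have := (dens_pos (ho.pm _ (mem_Qi.1 hr).1)).le
      positivity)
    (fun e => mul_nonneg (by positivity) (Vm_nonneg hrr _ _ _))
    (fun e he hm => by
      have hm := Finset.mem_product.1 hm
      have k := iF_sxR h h' hp hM hM' circ Y ho hR A A' (e := e) (mem_Qi.1 hm.1).1
        (mem_Qi.1 hm.2).1 hη1 hc hC (x0 := fun _ => 1) (y0 := fun _ => 1)
        (Or.inl (hcase _ hm.2))
      rw [Vm_eq (hP e he)]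
      refine k.trans (le_of_eq ?_)
      ring)
  refine key.trans (le_of_eq ?_)
  unfold SR
  rw [← Finset.mul_sum]
  ring

open Classical in
/-- **nonleaf against a sieved side**, high level of the leaf: `η⁻² ≤ T` -/
theorem same_QR2 (h : NDt X.par (w X.ψ) X.c.t u τ) (h' : NDt X.par (w X.ψ) X.c.t u' τ') {p : ℕ}
    (hp : p ≤ top X.S) {M M' : ℕ} (hM : 0 < M) (hM' : 0 < M')
    (circ : u.A * u.B * M = u'.A * u'.B * M') (Y : Finset (ℕ × ℕ × Finset ℕ))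
    {K : ℝ} {P : ℕ → Finset ℕ} {v : ℕ → ℕ → ℤ → ℝ} (ho : OmW (X.c.D.par Y) u'.B u'.A τ' K P v)
    {R : Finset (X.c.Lam × X.c.Lam)} (hR : SX X p M M' R) (A A' : Finset X.c.Lam)
    {PP : ℕ × ℕ → Prop}
    (hP : ∀ e ∈ (X.c.D.par Y).PE R ((X.c.D.par Y).uA M u.B u.A τ A 1)
      ((X.c.D.par Y).uA M' u'.B u'.A τ' A' 1), PP e)
    (hη1 : etaL X.c.wp p ≤ 1) {C₂ : ℝ} (hC : K * (CV * Real.exp 2) ≤ C₂)
    {x0 y0 : ℕ × ℕ → ℕ} {Lo : ℝ × ℝ → ℕ × ℕ → Prop} {T : ℝ} (hL : LoS Lo X.c.rr x0 y0 T)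
    (hT4 : 4 ≤ T) (hT : (etaL X.c.wp p ^ 2)⁻¹ ≤ T)
    (hJ : ∀ e ∈ Qi (X.c.D.par Y) X.S' τ A ×ˢ Qi (X.c.D.par Y) X.S' τ' A', JC x0 y0 M u.A M' u'.A e) :
    Q R ((X.c.D.par Y).uA M u.B u.A τ A 1) ((X.c.D.par Y).uA M' u'.B u'.A τ' A' 1) ≤
      C₂ * Real.sqrt (etaL X.c.wp p) * (SR X.c.rr u.B (Qi (X.c.D.par Y) X.S' τ A) *
        ∑ r ∈ Qi (X.c.D.par Y) X.S' τ' A', (u'.B : ℝ) * X.c.rr r * dens (P r)) +
      ∑ e ∈ Qi (X.c.D.par Y) X.S' τ A ×ˢ Qi (X.c.D.par Y) X.S' τ' A', (u.B : ℝ) * u'.B *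
        (if PP e then FL Lo X.c.rr X.c.γ (SE M u.B u.A M' u'.B u'.A e) e +
          Vm PP X.c.rr (SE M u.B u.A M' u'.B u'.A e) e else 0) := by
  have hrr := (X.ok.rad Y).pos
  have hC0 : 0 ≤ C₂ := le_trans
    (mul_nonneg ho.K0 (mul_nonneg Crest.Agent.R4P.LeafOs30.CV_nonneg (Real.exp_pos 2).le)) hC
  have key := Q_le_pairs (dead_ctx (X := X) Y) hM hM' h.B_pos h'.B_pos h.fit h'.fit (wts_nd h Y)
    (wts_nd h' Y) R A A' (f := fun q => C₂ * Real.sqrt (etaL X.c.wp p) * RB X u q)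
    (g := fun r => RB X u' r * dens (P r))
    (H := fun e => (u.B : ℝ) * u'.B *
        (if PP e then FL Lo X.c.rr X.c.γ (SE M u.B u.A M' u'.B u'.A e) e +
          Vm PP X.c.rr (SE M u.B u.A M' u'.B u'.A e) e else 0))
    (fun q _ => by have := hrr q; positivity)
    (fun r hr => by
      have := hrr r
      have := (dens_pos (ho.pm _ (mem_Qi.1 hr).1)).le
      positivity)
    (fun e => by
      refine mul_nonneg (by positivity) ?_
      split_ifs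
      · exact add_nonneg (FL_nonneg hrr _ _ _) (Vm_nonneg hrr _ _ _)
      · exact le_rfl)
    (fun e he hm => by
      have hm' := Finset.mem_product.1 hm
      have hPe := hP e he
      have d1 := (dens_pos (ho.pm _ (mem_Qi.1 hm'.2).1)).le
      have r1 := hrr e.1
      have r2 := hrr e.2
      have hfg : 0 ≤ C₂ * Real.sqrt (etaL X.c.wp p) * RB X u e.1 * (RB X u' e.2 * dens (P e.2)) := by
        positivity
      rw [if_pos hPe, mul_add]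
      have n1 : 0 ≤ (u.B : ℝ) * u'.B * FL Lo X.c.rr X.c.γ (SE M u.B u.A M' u'.B u'.A e) e :=
        mul_nonneg (by positivity) (FL_nonneg hrr _ _ _)
      have n2 : 0 ≤ (u.B : ℝ) * u'.B * Vm PP X.c.rr (SE M u.B u.A M' u'.B u'.A e) e :=
        mul_nonneg (by positivity) (Vm_nonneg hrr _ _ _)
      by_cases hl : Lo (SE M u.B u.A M' u'.B u'.A e) e
      · have k := iF_le (X.ok.rad Y) hM hM' h.B_pos h'.B_pos h.fit h'.fit (wts_nd h Y)
          (wts_nd h' Y) (one_dvd _) (one_dvd _) R A A' e (mem_Qi.1 hm'.1).1 (mem_Qi.1 hm'.2).1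
        rw [pb_one] at k
        have k2 : vE X.c.γ X.c.rr M u.B u.A M' u'.B u'.A e =
            (u.B : ℝ) * u'.B * FL Lo X.c.rr X.c.γ (SE M u.B u.A M' u'.B u'.A e) e := by
          unfold vE FL
          rw [if_pos ⟨hl, SE_pos M u.B u.A M' u'.B u'.A e⟩]
        have k3 : (X.c.D.par Y).γ = X.c.γ := rfl
        rw [k3, k2] at k
        linarith
      · have g1 := hL.T _ e hl
        have g2 := hL.sd _ e hl
        have k := iF_sxR h h' hp hM hM' circ Y ho hR A A' (e := e) (mem_Qi.1 hm'.1).1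
          (mem_Qi.1 hm'.2).1 hη1 (c₁ := 0) (by linarith) hC (x0 := x0) (y0 := y0)
          (Or.inr ⟨hT.trans g1, hT4.trans g1, g2, hJ e hm⟩)
        rw [Vm_eq hPe]
        rw [Vm_eq hPe] at n2
        refine k.trans ?_
        linarith)
  refine key.trans (le_of_eq ?_)
  unfold SR
  rw [← Finset.mul_sum]
  ring

/-- **a sieved side against a nonleaf**, low level of the leaf: `√η ≤ c₁ dens` -/
theorem same_QL1 (h : NDt X.par (w X.ψ) X.c.t u τ) (h' : NDt X.par (w X.ψ) X.c.t u' τ') {p : ℕ}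
    (hp : p ≤ top X.S) {M M' : ℕ} (hM : 0 < M) (hM' : 0 < M')
    (circ : u.A * u.B * M = u'.A * u'.B * M') (Y : Finset (ℕ × ℕ × Finset ℕ))
    {K : ℝ} {P : ℕ → Finset ℕ} {v : ℕ → ℕ → ℤ → ℝ} (ho : OmW (X.c.D.par Y) u.B u.A τ K P v)
    {R : Finset (X.c.Lam × X.c.Lam)} (hR : SX X p M M' R) (A A' : Finset X.c.Lam)
    {PP : ℕ × ℕ → Prop}
    (hP : ∀ e ∈ (X.c.D.par Y).PE R ((X.c.D.par Y).uA M u.B u.A τ A 1)
      ((X.c.D.par Y).uA M' u'.B u'.A τ' A' 1), PP e)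
    (hη1 : etaL X.c.wp p ≤ 1) {c₁ C₂ : ℝ}
    (hc : 4 * c₁ ≤ C₂) (hC : K * (CV * Real.exp 2) ≤ C₂)
    (hcase : ∀ q ∈ Qi (X.c.D.par Y) X.S' τ A, Real.sqrt (etaL X.c.wp p) ≤ c₁ * dens (P q)) :
    Q R ((X.c.D.par Y).uA M u.B u.A τ A 1) ((X.c.D.par Y).uA M' u'.B u'.A τ' A' 1) ≤
      C₂ * Real.sqrt (etaL X.c.wp p) *
        ((∑ q ∈ Qi (X.c.D.par Y) X.S' τ A, (u.B : ℝ) * X.c.rr q * dens (P q)) *
          SR X.c.rr u'.B (Qi (X.c.D.par Y) X.S' τ' A')) +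
      ∑ e ∈ Qi (X.c.D.par Y) X.S' τ A ×ˢ Qi (X.c.D.par Y) X.S' τ' A',
        (u.B : ℝ) * u'.B * Vm PP X.c.rr (SE M u.B u.A M' u'.B u'.A e) e := by
  have hrr := (X.ok.rad Y).pos
  have hC0 : 0 ≤ C₂ := le_trans
    (mul_nonneg ho.K0 (mul_nonneg Crest.Agent.R4P.LeafOs30.CV_nonneg (Real.exp_pos 2).le)) hC
  have key := Q_le_pairs (dead_ctx (X := X) Y) hM hM' h.B_pos h'.B_pos h.fit h'.fit (wts_nd h Y)
    (wts_nd h' Y) R A A' (f := fun q => C₂ * Real.sqrt (etaL X.c.wp p) * (RB X u q * dens (P q)))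
    (g := fun r => RB X u' r)
    (H := fun e => (u.B : ℝ) * u'.B * Vm PP X.c.rr (SE M u.B u.A M' u'.B u'.A e) e)
    (fun q hq => by
      have := hrr q
      have := (dens_pos (ho.pm _ (mem_Qi.1 hq).1)).le
      positivity)
    (fun r _ => by have := hrr r; positivity)
    (fun e => mul_nonneg (by positivity) (Vm_nonneg hrr _ _ _))
    (fun e he hm => by
      have hm := Finset.mem_product.1 hm
      have k := iF_sxL h h' hp hM hM' circ Y ho hR A A' (e := e) (mem_Qi.1 hm.1).1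
        (mem_Qi.1 hm.2).1 hη1 hc hC (x0 := fun _ => 1) (y0 := fun _ => 1)
        (Or.inl (hcase _ hm.1))
      rw [Vm_eq (hP e he)]
      refine k.trans (le_of_eq ?_)
      ring)
  refine key.trans (le_of_eq ?_)
  unfold SR
  rw [← Finset.mul_sum]
  ring

open Classical in
/-- **a sieved side against a nonleaf**, high level of the leaf: `η⁻² ≤ T` -/
theorem same_QL2 (h : NDt X.par (w X.ψ) X.c.t u τ) (h' : NDt X.par (w X.ψ) X.c.t u' τ') {p : ℕ}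
    (hp : p ≤ top X.S) {M M' : ℕ} (hM : 0 < M) (hM' : 0 < M')
    (circ : u.A * u.B * M = u'.A * u'.B * M') (Y : Finset (ℕ × ℕ × Finset ℕ))
    {K : ℝ} {P : ℕ → Finset ℕ} {v : ℕ → ℕ → ℤ → ℝ} (ho : OmW (X.c.D.par Y) u.B u.A τ K P v)
    {R : Finset (X.c.Lam × X.c.Lam)} (hR : SX X p M M' R) (A A' : Finset X.c.Lam)
    {PP : ℕ × ℕ → Prop}
    (hP : ∀ e ∈ (X.c.D.par Y).PE R ((X.c.D.par Y).uA M u.B u.A τ A 1)
      ((X.c.D.par Y).uA M' u'.B u'.A τ' A' 1), PP e)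
    (hη1 : etaL X.c.wp p ≤ 1) {C₂ : ℝ} (hC : K * (CV * Real.exp 2) ≤ C₂)
    {x0 y0 : ℕ × ℕ → ℕ} {Lo : ℝ × ℝ → ℕ × ℕ → Prop} {T : ℝ} (hL : LoS Lo X.c.rr x0 y0 T)
    (hT4 : 4 ≤ T) (hT : (etaL X.c.wp p ^ 2)⁻¹ ≤ T)
    (hJ : ∀ e ∈ Qi (X.c.D.par Y) X.S' τ A ×ˢ Qi (X.c.D.par Y) X.S' τ' A', JC x0 y0 M u.A M' u'.A e) :
    Q R ((X.c.D.par Y).uA M u.B u.A τ A 1) ((X.c.D.par Y).uA M' u'.B u'.A τ' A' 1) ≤
      C₂ * Real.sqrt (etaL X.c.wp p) *
        ((∑ q ∈ Qi (X.c.D.par Y) X.S' τ A, (u.B : ℝ) * X.c.rr q * dens (P q)) *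
          SR X.c.rr u'.B (Qi (X.c.D.par Y) X.S' τ' A')) +
      ∑ e ∈ Qi (X.c.D.par Y) X.S' τ A ×ˢ Qi (X.c.D.par Y) X.S' τ' A', (u.B : ℝ) * u'.B *
        (if PP e then FL Lo X.c.rr X.c.γ (SE M u.B u.A M' u'.B u'.A e) e +
          Vm PP X.c.rr (SE M u.B u.A M' u'.B u'.A e) e else 0) := by
  have hrr := (X.ok.rad Y).pos
  have hC0 : 0 ≤ C₂ := le_trans
    (mul_nonneg ho.K0 (mul_nonneg Crest.Agent.R4P.LeafOs30.CV_nonneg (Real.exp_pos 2).le)) hC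
  have key := Q_le_pairs (dead_ctx (X := X) Y) hM hM' h.B_pos h'.B_pos h.fit h'.fit (wts_nd h Y)
    (wts_nd h' Y) R A A' (f := fun q => C₂ * Real.sqrt (etaL X.c.wp p) * (RB X u q * dens (P q)))
    (g := fun r => RB X u' r)
    (H := fun e => (u.B : ℝ) * u'.B *
        (if PP e then FL Lo X.c.rr X.c.γ (SE M u.B u.A M' u'.B u'.A e) e +
          Vm PP X.c.rr (SE M u.B u.A M' u'.B u'.A e) e else 0))
    (fun q hq => by
      have := hrr q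
      have := (dens_pos (ho.pm _ (mem_Qi.1 hq).1)).le
      positivity)
    (fun r _ => by have := hrr r; positivity)
    (fun e => by
      refine mul_nonneg (by positivity) ?_
      split_ifs
      · exact add_nonneg (FL_nonneg hrr _ _ _) (Vm_nonneg hrr _ _ _)
      · exact le_rfl)
    (fun e he hm => by
      have hm' := Finset.mem_product.1 hm
      have hPe := hP e he
      have d1 := (dens_pos (ho.pm _ (mem_Qi.1 hm'.1).1)).le
      have r1 := hrr e.1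
      have r2 := hrr e.2
      have hfg : 0 ≤ C₂ * Real.sqrt (etaL X.c.wp p) * (RB X u e.1 * dens (P e.1)) * RB X u' e.2 := by
        positivity
      rw [if_pos hPe, mul_add]
      have n1 : 0 ≤ (u.B : ℝ) * u'.B * FL Lo X.c.rr X.c.γ (SE M u.B u.A M' u'.B u'.A e) e :=
        mul_nonneg (by positivity) (FL_nonneg hrr _ _ _)
      have n2 : 0 ≤ (u.B : ℝ) * u'.B * Vm PP X.c.rr (SE M u.B u.A M' u'.B u'.A e) e :=
        mul_nonneg (by positivity) (Vm_nonneg hrr _ _ _)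
      by_cases hl : Lo (SE M u.B u.A M' u'.B u'.A e) e
      · have k := iF_le (X.ok.rad Y) hM hM' h.B_pos h'.B_pos h.fit h'.fit (wts_nd h Y)
          (wts_nd h' Y) (one_dvd _) (one_dvd _) R A A' e (mem_Qi.1 hm'.1).1 (mem_Qi.1 hm'.2).1
        rw [pb_one] at k
        have k2 : vE X.c.γ X.c.rr M u.B u.A M' u'.B u'.A e =
            (u.B : ℝ) * u'.B * FL Lo X.c.rr X.c.γ (SE M u.B u.A M' u'.B u'.A e) e := by
          unfold vE FL
          rw [if_pos ⟨hl, SE_pos M u.B u.A M' u'.B u'.A e⟩]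
        have k3 : (X.c.D.par Y).γ = X.c.γ := rfl
        rw [k3, k2] at k
        linarith
      · have g1 := hL.T _ e hl
        have g2 := hL.sd _ e hl
        have k := iF_sxL h h' hp hM hM' circ Y ho hR A A' (e := e) (mem_Qi.1 hm'.1).1
          (mem_Qi.1 hm'.2).1 hη1 (c₁ := 0) (by linarith) hC (x0 := x0) (y0 := y0)
          (Or.inr ⟨hT.trans g1, hT4.trans g1, g2, hJ e hm⟩)
        rw [Vm_eq hPe]
        rw [Vm_eq hPe] at n2
        refine k.trans ?_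
        linarith)
  refine key.trans (le_of_eq ?_)
  unfold SR
  rw [← Finset.mul_sum]
  ring


/-- **a merge**: all the pairs which are not related at `p` -/
lemma SX_sdiff {Y : Finset (ℕ × ℕ × Finset ℕ)} {p M M' : ℕ} (hlam : X.c.lam p = 0)
    (hco : Nat.Coprime M M') (R : Finset (X.c.Lam × X.c.Lam)) :
    SX X p M M' (R \ Ro ((X.c.D.par Y).rho p)) :=
  ⟨fun x hx => ix_of_not_rel (Y := Y) (Finset.mem_sdiff.1 hx).2, Or.inr ⟨hlam, hco⟩⟩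

/-- **nonleaf against nonleaf**: unlabelled pairs -/
theorem un_Q (h : NDt X.par (w X.ψ) X.c.t u τ) (h' : NDt X.par (w X.ψ) X.c.t u' τ') {p : ℕ}
    (hp : p ≤ top X.S) {M M' : ℕ} (hM : 0 < M) (hM' : 0 < M')
    (circ : u.A * u.B * M = u'.A * u'.B * M') (Y : Finset (ℕ × ℕ × Finset ℕ))
    {R : Finset (X.c.Lam × X.c.Lam)} (hR : UN X p R) (A A' : Finset X.c.Lam)
    {PP : ℕ × ℕ → Prop}
    (hP : ∀ e ∈ (X.c.D.par Y).PE R ((X.c.D.par Y).uA M u.B u.A τ A 1)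
      ((X.c.D.par Y).uA M' u'.B u'.A τ' A' 1), PP e) :
    Q R ((X.c.D.par Y).uA M u.B u.A τ A 1) ((X.c.D.par Y).uA M' u'.B u'.A τ' A' 1) ≤
      4 * etaL X.c.wp p * (SR X.c.rr u.B (Qi (X.c.D.par Y) X.S' τ A) *
        SR X.c.rr u'.B (Qi (X.c.D.par Y) X.S' τ' A')) +
      ∑ e ∈ Qi (X.c.D.par Y) X.S' τ A ×ˢ Qi (X.c.D.par Y) X.S' τ' A',
        (u.B : ℝ) * u'.B * Vm PP X.c.rr (SE M u.B u.A M' u'.B u'.A e) e :=
  same_Q h h' hp hM hM' circ Y (hR.sx M M') A A' hP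

end blocks

end ctx

end Crest.Agent.R4P.SameIx30
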