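import Crest.Agent.R4P.NodeG_33
import Crest.Agent.R4P.SameIx_30
import Crest.Agent.R4P.TopX_36

/-!
R4 (S0004) with powers, group [W-eSHR], helper33: **pair energies of the groups of nodes**.

* `vN X x` : the values of a member; `gval_im`.
* `Q_group` : `Q R (gval g) (gval g) = Σ_{m, m'} m.1 m'.1 Q R (v m) (v m')`.
* `QN_lb` : for pairs `R` of LABELLED pieces with one index at the column `p`, two nodes on one circle:
  `Q R (v m) (v m') ≤ Σ_{(q, q')} 2 R R' / D` over the item pairs which occur in `R`.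
* `group_lb` : **the energy of the pairs `R` in a group**.
* `exact_pt` : two pieces of one index, both labelled, both `≠ 0` at a point of the circle:
  exact centres.
-/

set_option autoImplicit false
set_option linter.unusedSectionVars false
set_option linter.unusedVariables false
open MeasureTheory Filter Set

namespace Crest.Agent.R4P.GPair33

open Crest.Agent.R4.Tour104 Crest.Agent.R4.Tour758 Crest.Agent.R4.Avg758 Crest.Agent.R4.Clos758
open Crest.Agent.R4.ClosL758 Crest.Agent.R4.ClosG758 Crest.Agent.R4.ClosR758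
open Crest.Agent.R4.HVW560
open Crest.Agent.R4.Fam464 Crest.Agent.R4.Piece464
open Crest.Agent.R4P.Cnt588 Crest.Agent.R4P.Item758 Crest.Agent.R4P.AvgItem710
open Crest.Agent.R4P.ClosR442 Crest.Agent.R4P.Walk560 Crest.Agent.R4P.Grp36
open Crest.Agent.R4P.NodeG33
open Crest.Agent.R4P.Data758 Crest.Agent.R4P.Skel189
open Crest.Agent.R4P.Bld532 (NS All)
open Crest.Agent.R4P.Step588 (NDt ND1 ctx_NDt)
open Crest.Agent.R4.Soft104 (w)
open Crest.Agent.R4P.SameIx30
open Crest.Agent.R4P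

variable {N : Skel189.Num} {γ : ℝ} {p0 P₀ : ℕ} {X : Ctx N γ p0 P₀}

/-- the facts of the nodes of a context -/
abbrev QX (X : Ctx N γ p0 P₀) : NS → IT → Prop := NDt X.par (w X.ψ) X.c.t

/-- the values of a member on its circle -/
noncomputable def vN (X : Ctx N γ p0 P₀) : Nd → X.c.Lam → ℝ → ℝ
  | .inl z => fun j => ((X.c.D.par X.Y).toFT z.1.B z.1.A z.2).U 1 j
  | .inr _ => fun _ _ => 0

/-- the group of a list of nodes of a context -/
noncomputable abbrev imX (X : Ctx N γ p0 P₀) (G : NGp) := im (X.c.D.par X.Y) X.c.sp G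

lemma PB_vN_inl {s : NS} {t : IT} (h : QX X s t) (j : X.c.Lam) : PB (vN X (.inl (s, t)) j) :=
  FT.pb h.B_pos ((X.c.D.par X.Y).toFT_Adm _ _ _ h.B_pos h.fit (wts_nd h X.Y)) (one_dvd _) j

lemma val_imN {s : NS} {t : IT} (h : QX X s t) (j : X.c.Lam) :
    (imN (X.c.D.par X.Y) X.c.sp (.inl (s, t))).g.val j = vN X (.inl (s, t)) j := by
  show ((X.c.D.par X.Y).toDT X.c.sp s.B s.A t).g.val j = _
  rw [Par.toDT_g, Par.toG_val (X.c.D.par X.Y) h.B_pos h.fit (wts_nd h X.Y)]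
  rfl

lemma val_imN_r (q : ℕ) (j : X.c.Lam) :
    (imN (X.c.D.par X.Y) X.c.sp (.inr q)).g.val j = vN X (.inr q) j := rfl

lemma MOk.val {c0 : ℝ} {T : ℕ} {m : ℝ × Nd} (h : MOk (QX X) c0 T m) (j : X.c.Lam) :
    (imN (X.c.D.par X.Y) X.c.sp m.2).g.val j = vN X m.2 j := by
  rcases m with ⟨c, ⟨s, t⟩ | q⟩
  · exact val_imN h.1.self j
  · exact val_imN_r q j

lemma MOk.PB {c0 : ℝ} {T : ℕ} {m : ℝ × Nd} (h : MOk (QX X) c0 T m) (j : X.c.Lam) :
    PB (vN X m.2 j) := by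
  rcases m with ⟨c, ⟨s, t⟩ | q⟩
  · exact PB_vN_inl h.1.self j
  · exact PB.const le_rfl

lemma MOk.c0 {c0 : ℝ} {T : ℕ} {m : ℝ × Nd} (h : MOk (QX X) c0 T m) : 0 ≤ m.1 := by
  rcases m with ⟨c, ⟨s, t⟩ | q⟩
  · exact h.2.2.2.le
  · exact (show c = 0 from h).ge

/-- the group function -/
lemma gval_im {c0 : ℝ} {T : ℕ} {G : NGp} (h : NG (QX X) c0 T G) (j : X.c.Lam) (y : ℝ) :
    gval (imX X G) j y = (G.map fun m => m.1 * vN X m.2 j y).sum := by
  induction G with
  | nil => rfl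
  | cons m G ih =>
    have e : gval (imX X (m :: G)) j y =
        m.1 * (imN (X.c.D.par X.Y) X.c.sp m.2).g.val j y + gval (imX X G) j y := rfl
    rw [e, ih (fun a ha => h a (List.mem_cons_of_mem _ ha)), List.map_cons,
      List.sum_cons, MOk.val (h m (by simp)) j]

lemma PB_gval_im {c0 : ℝ} {T : ℕ} {G : NGp} (h : NG (QX X) c0 T G) (j : X.c.Lam) :
    PB (gval (imX X G) j) := by
  induction G with
  | nil =>
    have e : gval (imX X []) j = fun _ => 0 := rfl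
    rw [e]; exact PB.const le_rfl
  | cons m G ih =>
    have e : gval (imX X (m :: G)) j = fun y => m.1 * vN X m.2 j y + gval (imX X G) j y := by
      funext y
      rw [← MOk.val (h m (by simp)) j]
      rfl
    rw [e]
    exact ((MOk.PB (h m (by simp)) j).smul (MOk.c0 (h m (by simp)))).add
      (ih (fun a ha => h a (List.mem_cons_of_mem _ ha)))

section Q
variable {Λ : Type*}

lemma Q_lin_left (R : Finset (Λ × Λ)) (c : ℝ) {f g h : Λ → ℝ → ℝ} (hf : ∀ j, PB (f j))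
    (hg : ∀ j, PB (g j)) (hh : ∀ j, PB (h j)) :
    Q R (fun j y => c * f j y + g j y) h = c * Q R f h + Q R g h := by
  unfold Q
  rw [Finset.mul_sum, ← Finset.sum_add_distrib]
  refine Finset.sum_congr rfl fun e _ => ?_
  rw [← I_smul, ← I_add (((hf _).mul (hh _)).integrableOn.const_mul c)
    ((hg _).mul (hh _)).integrableOn]
  congr 1; funext y; ring

lemma Q_lin_right (R : Finset (Λ × Λ)) (c : ℝ) {f g h : Λ → ℝ → ℝ} (hf : ∀ j, PB (f j))
    (hg : ∀ j, PB (g j)) (hh : ∀ j, PB (h j)) :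
    Q R h (fun j y => c * f j y + g j y) = c * Q R h f + Q R h g := by
  unfold Q
  rw [Finset.mul_sum, ← Finset.sum_add_distrib]
  refine Finset.sum_congr rfl fun e _ => ?_
  rw [← I_smul, ← I_add (((hh _).mul (hf _)).integrableOn.const_mul c)
    ((hh _).mul (hg _)).integrableOn]
  congr 1; funext y; ring

end Q

lemma Q_group_left {c0 : ℝ} {T : ℕ} {G : NGp} (h : NG (QX X) c0 T G)
    (R : Finset (X.c.Lam × X.c.Lam)) {f : X.c.Lam → ℝ → ℝ} (hf : ∀ j, PB (f j)) :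
    Q R (gval (imX X G)) f = (G.map fun m => m.1 * Q R (vN X m.2) f).sum := by
  induction G with
  | nil =>
    show Q R (fun _ _ => 0) f = 0
    unfold Q
    simp [I]
  | cons m G ih =>
    have h' : NG (QX X) c0 T G := fun a ha => h a (List.mem_cons_of_mem _ ha)
    have e : gval (imX X (m :: G)) = fun j y => m.1 * vN X m.2 j y + gval (imX X G) j y := by
      funext j y
      rw [← MOk.val (h m (by simp)) j]
      rfl
    rw [e, Q_lin_left R _ (MOk.PB (h m (by simp))) (PB_gval_im h') hf, ih h', List.map_cons,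
      List.sum_cons]

lemma Q_group_right {c0 : ℝ} {T : ℕ} {G : NGp} (h : NG (QX X) c0 T G)
    (R : Finset (X.c.Lam × X.c.Lam)) {f : X.c.Lam → ℝ → ℝ} (hf : ∀ j, PB (f j)) :
    Q R f (gval (imX X G)) = (G.map fun m => m.1 * Q R f (vN X m.2)).sum := by
  induction G with
  | nil =>
    show Q R f (fun _ _ => 0) = 0
    unfold Q
    simp [I]
  | cons m G ih =>
    have h' : NG (QX X) c0 T G := fun a ha => h a (List.mem_cons_of_mem _ ha)
    have e : gval (imX X (m :: G)) = fun j y => m.1 * vN X m.2 j y + gval (imX X G) j y := by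
      funext j y
      rw [← MOk.val (h m (by simp)) j]
      rfl
    rw [e, Q_lin_right R _ (MOk.PB (h m (by simp))) (PB_gval_im h') hf, ih h', List.map_cons,
      List.sum_cons]

/-- the double sum over a group -/
noncomputable def lin2 (G : NGp) (φ : Nd → Nd → ℝ) : ℝ :=
  (G.map fun m => m.1 * (G.map fun m' => m'.1 * φ m.2 m'.2).sum).sum

/-- **pair energies of a group** -/
theorem Q_group {c0 : ℝ} {T : ℕ} {G : NGp} (h : NG (QX X) c0 T G)
    (R : Finset (X.c.Lam × X.c.Lam)) :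
    Q R (gval (imX X G)) (gval (imX X G)) = lin2 G fun x x' => Q R (vN X x) (vN X x') := by
  rw [Q_group_left h R (PB_gval_im h)]
  unfold lin2
  congr 1
  refine List.map_congr_left fun m hm => ?_
  rw [Q_group_right h R (MOk.PB (h m hm))]

/-! ### two nodes on one circle -/

lemma vN_eq_uA {s : NS} {t : IT} : vN X (.inl (s, t)) =
    (X.c.D.par X.Y).uA 1 s.B s.A t Finset.univ 1 := by
  funext j y
  unfold Par.uA avg
  rw [rv_of_mem (Finset.mem_univ j), Ep_one]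
  rfl

open Classical in
/-- the pairs of items which occur in `R` -/
noncomputable def itR (X : Ctx N γ p0 P₀) (R : Finset (X.c.Lam × X.c.Lam)) : Finset (ℕ × ℕ) :=
  R.image fun x => (x.1.1.1, x.2.1.1)

open Classical in
/-- the arithmetic sum of two members -/
noncomputable def aS (X : Ctx N γ p0 P₀) (R : Finset (X.c.Lam × X.c.Lam)) : Nd → Nd → ℝ
  | .inl z, .inl z' => ∑ e ∈ (z.2.items ×ˢ z'.2.items) ∩ itR X R,
      2 * (RB X z.1 e.1 * RB X z'.1 e.2 / DU X 1 z.1 1 z'.1 e)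
  | _, _ => 0

/-- **the energy of labelled pairs of one index**, two nodes on one circle -/
theorem QN_lb {s s' : NS} {t t' : IT} (h : QX X s t) (h' : QX X s' t') {p : ℕ}
    (hp : p ≤ top X.S) (hlam : X.c.lam p = 0) (hT : s.A * s.B = s'.A * s'.B)
    {R : Finset (X.c.Lam × X.c.Lam)} (hR : LB X p R) :
    Q R (vN X (.inl (s, t))) (vN X (.inl (s', t'))) ≤ aS X R (.inl (s, t)) (.inl (s', t')) := by
  classical
  rw [vN_eq_uA, vN_eq_uA, (X.c.D.par X.Y).Q_eq]
  have hpe : (X.c.D.par X.Y).PE R ((X.c.D.par X.Y).uA 1 s.B s.A t Finset.univ 1)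
      ((X.c.D.par X.Y).uA 1 s'.B s'.A t' Finset.univ 1) ⊆ (t.items ×ˢ t'.items) ∩ itR X R := by
    intro e he
    obtain ⟨j, j', h1, -, -, h4, h5, h6, h7, -⟩ := Par.PE_ex one_pos one_pos he
    refine Finset.mem_inter.2 ⟨Finset.mem_product.2 ⟨h6, h7⟩, ?_⟩
    unfold itR
    refine Finset.mem_image.2 ⟨(j, j'), h1, ?_⟩
    exact Prod.ext h4 h5
  have hnn : ∀ e ∈ (t.items ×ˢ t'.items) ∩ itR X R,
      0 ≤ 2 * (RB X s e.1 * RB X s' e.2 / DU X 1 s 1 s' e) := by
    intro e he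
    have h1 := Finset.mem_product.1 (Finset.mem_inter.1 he).1
    have hD := DU_pos (Y := X.Y) h h' one_pos one_pos (M := 1) (M' := 1) h1.1 h1.2
    have hrr := (X.ok.rad X.Y).pos
    have := hrr e.1
    have := hrr e.2
    positivity
  refine (Finset.sum_le_sum fun e he => ?_).trans
    (Finset.sum_le_sum_of_subset_of_nonneg hpe fun e he _ => hnn e he)
  have h1 := Finset.mem_product.1 (Finset.mem_inter.1 (hpe he)).1
  exact iF_lb h h' hp hlam one_pos one_pos (by rw [mul_one, mul_one]; exact hT)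
    (Nat.coprime_one_left 1) X.Y hR Finset.univ Finset.univ h1.1 h1.2

lemma aS_nonneg {c0 : ℝ} {T : ℕ} {m m' : ℝ × Nd} (h : MOk (QX X) c0 T m)
    (h' : MOk (QX X) c0 T m') (R : Finset (X.c.Lam × X.c.Lam)) : 0 ≤ aS X R m.2 m'.2 := by
  classical
  rcases m with ⟨c, ⟨s, t⟩ | q⟩
  · rcases m' with ⟨c', ⟨s', t'⟩ | q'⟩
    · refine Finset.sum_nonneg fun e he => ?_
      have h1 := Finset.mem_product.1 (Finset.mem_inter.1 he).1
      have hD := DU_pos (Y := X.Y) h.1.self h'.1.self one_pos one_pos (M := 1) (M' := 1) h1.1 h1.2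
      have hrr := (X.ok.rad X.Y).pos
      have := hrr e.1
      have := hrr e.2
      positivity
    · exact le_rfl
  · rcases m' with ⟨c', ⟨s', t'⟩ | q'⟩ <;> exact le_rfl

/-- **the energy of labelled pairs of one index in a group** -/
theorem group_lb {c0 : ℝ} {T : ℕ} {G : NGp} (h : NG (QX X) c0 T G) {p : ℕ}
    (hp : p ≤ top X.S) (hlam : X.c.lam p = 0) {R : Finset (X.c.Lam × X.c.Lam)} (hR : LB X p R) :
    Q R (gval (imX X G)) (gval (imX X G)) ≤ lin2 G (aS X R) := by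
  rw [Q_group h]
  unfold lin2
  refine List.sum_le_sum fun m hm => ?_
  refine mul_le_mul_of_nonneg_left (List.sum_le_sum fun m' hm' => ?_) (MOk.c0 (h m hm))
  refine mul_le_mul_of_nonneg_left ?_ (MOk.c0 (h m' hm'))
  have k := h m hm
  have k' := h m' hm'
  rcases m with ⟨c, ⟨s, t⟩ | q⟩
  · rcases m' with ⟨c', ⟨s', t'⟩ | q'⟩
    · exact QN_lb k.1.self k'.1.self hp hlam (k.2.2.1.trans k'.2.2.1.symm) hR
    · refine le_of_eq ?_
      show Q R _ (fun _ _ => 0) = 0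
      unfold Q; simp [I]
  · have e : Q R (vN X (.inr q)) (vN X m'.2) = 0 := by
      show Q R (fun _ _ => 0) _ = 0
      unfold Q; simp [I]
    show Q R (vN X (.inr q)) (vN X m'.2) ≤ _
    rw [e]
    exact aS_nonneg k k' R

/-! ### exact centres at a point -/

/-- a nonzero value: the tooth -/
lemma tooth {s : NS} {t : IT} (h : QX X s t) {j : X.c.Lam} {y : ℝ}
    (hv : vN X (.inl (s, t)) j y ≠ 0) : j.1.1 ∈ t.items ∧ ∃ a : ℤ,
      (s.B : ℝ) * X.c.bp j.1.1 j.1.2 ≤ ((j.1.1 / s.A : ℕ) : ℝ) * y - s.B * X.c.γ - a ∧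
      ((j.1.1 / s.A : ℕ) : ℝ) * y - s.B * X.c.γ - a < s.B * X.c.bp j.1.1 (j.1.2 + 1) := by
  classical
  have hj : j.1.1 ∈ t.items := by
    by_contra hj
    exact hv ((X.c.D.par X.Y).U_zero t s.B s.A 1 j hj y)
  refine ⟨hj, ?_⟩
  have hF := fam_node (X.ok.rad X.Y) h.B_pos h.fit (wts_nd h X.Y) (one_dvd _) hj Finset.univ
  have h1 := hF.le j (Finset.mem_filter.2 ⟨Finset.mem_univ _, rfl⟩) y
  have h0 := (PB_vN_inl h j).nonneg y
  have hpos : 0 < vN X (.inl (s, t)) j y := lt_of_le_of_ne h0 (Ne.symm hv)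
  have h2 : 0 < pc ((s.B : ℝ) / (1 : ℕ) * X.c.γ) ((s.B : ℝ) / (1 : ℕ) * X.c.bp j.1.1 j.1.2)
      ((s.B : ℝ) / (1 : ℕ) * X.c.bp j.1.1 (j.1.2 + 1)) (j.1.1 / s.A)
      (fun a => (X.c.D.par X.Y).om j ((1 * mp t j.1.1 : ℕ) * a)) y := lt_of_lt_of_le hpos h1
  unfold pc at h2
  obtain ⟨a, ha, -⟩ := Finset.exists_ne_zero_of_sum_ne_zero h2.ne'
  obtain ⟨h3, h4⟩ := mem_pw.1 ha
  refine ⟨a, ?_, ?_⟩
  · simpa using h3
  · simpa using h4

/-- **exact centres**: two members of one circle, pieces of one index at the column `p`, both labelled,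
both nonzero at `y` -/
theorem exact_pt {s s' : NS} {t t' : IT} (h : QX X s t) (h' : QX X s' t') {p : ℕ}
    (hp : p ≤ top X.S) (hlam : X.c.lam p = 0) (hT : s.A * s.B = s'.A * s'.B) {j j' : X.c.Lam}
    (hix : (X.c.world p j.1).1 = (X.c.world p j'.1).1) {σ σ' : ℚ}
    (s1 : X.c.st p j.1.1 = some σ) (s2 : X.c.st p j'.1.1 = some σ') {y : ℝ}
    (hv : vN X (.inl (s, t)) j y ≠ 0) (hv' : vN X (.inl (s', t')) j' y ≠ 0) :
    ∃ a a' : ℤ,
      ((s.B : ℝ) * X.c.bp j.1.1 j.1.2 ≤ ((j.1.1 / s.A : ℕ) : ℝ) * y - s.B * X.c.γ - a ∧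
        ((j.1.1 / s.A : ℕ) : ℝ) * y - s.B * X.c.γ - a < s.B * X.c.bp j.1.1 (j.1.2 + 1)) ∧
      ((s'.B : ℝ) * X.c.bp j'.1.1 j'.1.2 ≤ ((j'.1.1 / s'.A : ℕ) : ℝ) * y - s'.B * X.c.γ - a' ∧
        ((j'.1.1 / s'.A : ℕ) : ℝ) * y - s'.B * X.c.γ - a' < s'.B * X.c.bp j'.1.1 (j'.1.2 + 1)) ∧
      ((a : ℚ) + s.B * σ) * (j'.1.1 / s'.A : ℕ) = (a' + s'.B * σ') * (j.1.1 / s.A : ℕ) := by
  obtain ⟨hj, a, l1, l2⟩ := tooth h hv
  obtain ⟨hj', a', l3, l4⟩ := tooth h' hv'
  refine ⟨a, a', ⟨l1, l2⟩, ⟨l3, l4⟩, ?_⟩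
  have hw : 0 < j.1.1 / s.A := Nat.pos_of_ne_zero (h.div_ne hj)
  have k := rel_some2 h h' hp hlam one_pos one_pos (by rw [mul_one, mul_one]; exact hT)
    (Nat.coprime_one_left 1) hix hj hj' s1 s2 (y := y) (a := a) (a' := a')
    (by simpa [rf] using l1) (by simpa [rf] using l2) (by simpa [rf] using l3)
    (by simpa [rf] using l4)
  set W := j.1.1 / s.A with hW
  set W' := j'.1.1 / s'.A with hW'
  have e1 : rf W 1 = 1 := by simp [rf]
  have e2 : rf W' 1 = 1 := by simp [rf]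
  have e3 : W / (1 : ℕ).gcd W = W := by simp
  have e4 : W' / (1 : ℕ).gcd W' = W' := by simp
  rw [e1, e2, e3, e4, one_mul, one_mul] at k
  have k' : ((a : ℚ) + s.B * σ) * (cof W' W : ℕ) = (a' + s'.B * σ') * (cof W W' : ℕ) := by
    exact_mod_cast k
  have hg : (0 : ℚ) < (W.gcd W' : ℕ) := by exact_mod_cast Nat.gcd_pos_of_pos_left _ hw
  have ew : (W : ℚ) = (W.gcd W' : ℕ) * (cof W W' : ℕ) := by
    exact_mod_cast (Crest.Agent.R4.AvgItem710.mul_cof).symm
  have ew' : (W' : ℚ) = (W.gcd W' : ℕ) * (cof W' W : ℕ) := by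
    exact_mod_cast (Crest.Agent.R4.AvgItem710.mul_cof').symm
  rw [ew, ew']
  calc ((a : ℚ) + s.B * σ) * ((W.gcd W' : ℕ) * (cof W' W : ℕ)) =
      (W.gcd W' : ℕ) * (((a : ℚ) + s.B * σ) * (cof W' W : ℕ)) := by ring
    _ = (W.gcd W' : ℕ) * ((a' + s'.B * σ') * (cof W W' : ℕ)) := by rw [k']
    _ = _ := by ring

end Crest.Agent.R4P.GPair33
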