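import Crest.Agent.R4P.GCol_27
import Crest.Agent.R4P.Born_28

/-!
R4 (S0004) with powers, [MB] T2, helper343: **bundled groups**.

* `ev g φ = Σ m.1 φ(m.2)` : a group as a measure; `GS_congr` : `GS loc` only depends on the measure,
  if `loc` does.
* a bundled group: `J` finite, weights `a : J → ℝ`, `L : J → List (DT Λ κ)`, `fl a L` its list.
* `bB p`, `bR p` : ties + pulls / rest of a bundle at the column `p`; `chP`, `chN` : children (a pull
  has the same child twice); `stC` : the bundles of the children, over `J × Bool`.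
* `GS_step` : the step of `GS` in terms of bundles.
-/

set_option autoImplicit false
set_option linter.unusedSectionVars false
set_option linter.unusedVariables false
open MeasureTheory Filter Set

namespace Crest.Agent.R4P.GWa343

open Crest.Agent.R4.Tour104 Crest.Agent.R4.Tour758 Crest.Agent.R4.Avg758 Crest.Agent.R4.Clos758
open Crest.Agent.R4.ClosL758 Crest.Agent.R4.ClosG758 Crest.Agent.R4.ClosR758
open Crest.Agent.R4P.ClosR442 Crest.Agent.R4P.Grp36
open Crest.Agent.R4P.GMer27
open Crest.Agent.R4P.Walk560 (DT)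

section lists
variable {Λ κ : Type*}

/-- a group as a measure -/
noncomputable def ev (g : Gp Λ κ) (φ : DT Λ κ → ℝ) : ℝ := (g.map fun m => m.1 * φ m.2).sum

@[simp] lemma ev_nil (φ : DT Λ κ → ℝ) : ev ([] : Gp Λ κ) φ = 0 := rfl

lemma ev_cons (m : ℝ × DT Λ κ) (g : Gp Λ κ) (φ : DT Λ κ → ℝ) :
    ev (m :: g) φ = m.1 * φ m.2 + ev g φ := by simp [ev]

lemma ev_append (g h : Gp Λ κ) (φ : DT Λ κ → ℝ) : ev (g ++ h) φ = ev g φ + ev h φ := by
  simp [ev]

lemma ev_const (c : ℝ) (L : List (DT Λ κ)) (φ : DT Λ κ → ℝ) :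
    ev (L.map fun t => (c, t)) φ = c * (L.map φ).sum := by
  induction L with
  | nil => simp
  | cons t L ih => rw [List.map_cons, ev_cons, ih, List.map_cons, List.sum_cons]; ring

lemma ev_rsG (p : ℕ) (g : Gp Λ κ) (φ : DT Λ κ → ℝ) :
    ev (rsG p g) φ = ev g (fun t => ((rs p t).map φ).sum) := by
  induction g with
  | nil => rfl
  | cons m g ih => rw [rsG_cons, ev_append, ev_const, ih, ev_cons]

lemma ev_filter (F : DT Λ κ → Bool) (g : Gp Λ κ) (φ : DT Λ κ → ℝ) :
    ev (g.filter fun m => F m.2) φ = ev g (fun t => if F t = true then φ t else 0) := by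
  induction g with
  | nil => rfl
  | cons m g ih =>
    rw [ev_cons]
    by_cases h : F m.2 = true
    · rw [List.filter_cons_of_pos (by simpa using h), ev_cons, ih, if_pos h]
    · rw [List.filter_cons_of_neg (by simpa using h), ih, if_neg h]; ring

lemma ev_gB (p : ℕ) (g : Gp Λ κ) (φ : DT Λ κ → ℝ) :
    ev (gB p g) φ = ev g (fun t => ((rs p t).map fun s => if isB p s = true then φ s else 0).sum) := by
  unfold gB
  rw [ev_filter (fun t => isB p t), ev_rsG]

lemma ev_gR (p : ℕ) (g : Gp Λ κ) (φ : DT Λ κ → ℝ) :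
    ev (gR p g) φ =
      ev g (fun t => ((rs p t).map fun s => if (!isB p s) = true then φ s else 0).sum) := by
  unfold gR
  rw [ev_filter (fun t => !isB p t), ev_rsG]

lemma ev_flat (g : Gp Λ κ) (φ : DT Λ κ → ℝ) :
    ev (g.flatMap fun m => (chd m.2).map fun q => (m.1 * q.1, q.2)) φ =
      ev g (fun t => ev (chd t) φ) := by
  induction g with
  | nil => rfl
  | cons m g ih =>
    rw [List.flatMap_cons, ev_append, ih, ev_cons]
    congr 1
    simp only [ev, List.map_map, Function.comp_def, mul_assoc, List.sum_map_mul_left]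

lemma ev_gC (p : ℕ) (g : Gp Λ κ) (φ : DT Λ κ → ℝ) :
    ev (gC p g) φ = ev (gB p g) (fun t => ev (chd t) φ) := ev_flat _ _

/-- the same measure -/
def Eqv (g h : Gp Λ κ) : Prop := ∀ φ : DT Λ κ → ℝ, ev g φ = ev h φ

lemma Eqv.refl (g : Gp Λ κ) : Eqv g g := fun _ => rfl
lemma Eqv.symm {g h : Gp Λ κ} (H : Eqv g h) : Eqv h g := fun φ => (H φ).symm
lemma Eqv.trans {g h k : Gp Λ κ} (H : Eqv g h) (K : Eqv h k) : Eqv g k := fun φ => (H φ).trans (K φ)

lemma Eqv.gB {p : ℕ} {g h : Gp Λ κ} (H : Eqv g h) : Eqv (gB p g) (gB p h) := fun φ => by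
  rw [ev_gB, ev_gB, H]

lemma Eqv.gR {p : ℕ} {g h : Gp Λ κ} (H : Eqv g h) : Eqv (gR p g) (gR p h) := fun φ => by
  rw [ev_gR, ev_gR, H]

lemma Eqv.gC {p : ℕ} {g h : Gp Λ κ} (H : Eqv g h) : Eqv (gC p g) (gC p h) := fun φ => by
  rw [ev_gC, ev_gC, H.gB]

/-- the local term only depends on the measure -/
def LocE (loc : ℕ → Gp Λ κ → ℝ) : Prop := ∀ p g h, Eqv g h → loc p g = loc p h

lemma GS_congr {loc : ℕ → Gp Λ κ → ℝ} (hl : LocE loc) : ∀ (n p : ℕ) (g h : Gp Λ κ), Eqv g h →
    GS loc n p g = GS loc n p h := by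
  intro n
  induction n with
  | zero => intro p g h _; rfl
  | succ n ih =>
    intro p g h H
    unfold GS
    split_ifs with hp
    · rfl
    · rw [hl p _ _ (H.gB (p := p)), ih p _ _ (H.gC (p := p)), ih (p - 1) _ _ (H.gR (p := p))]

/-! ### bundles -/

/-- ties and pulls of a bundle -/
def bB (p : ℕ) (L : List (DT Λ κ)) : List (DT Λ κ) := (L.flatMap (rs p)).filter fun t => isB p t

/-- the rest of a bundle -/
def bR (p : ℕ) (L : List (DT Λ κ)) : List (DT Λ κ) := (L.flatMap (rs p)).filter fun t => !isB p t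

open Classical in
/-- first child (second weight `1 - w`) -/
noncomputable def chP : DT Λ κ → DT Λ κ
  | .br _ _ _ t₁ _ _ _ _ => t₁
  | t => t

open Classical in
/-- second child; a pull has the same child twice -/
noncomputable def chN : DT Λ κ → DT Λ κ
  | .br _ w _ t₁ t₀ _ _ _ => if w = 0 then t₁ else t₀
  | t => t

/-- the bundles of the children -/
noncomputable def stC {J : Type*} (p : ℕ) (L : J → List (DT Λ κ)) (x : J × Bool) :
    List (DT Λ κ) := (bB p (L x.1)).map fun t => if x.2 then chP t else chN t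

/-- the list of a bundled group -/
noncomputable def fl {J : Type*} [Fintype J] (a : J → ℝ) (L : J → List (DT Λ κ)) : Gp Λ κ :=
  Finset.univ.toList.flatMap fun j => (L j).map fun t => (a j, t)

lemma ev_flatMap {α : Type*} (l : List α) (F : α → Gp Λ κ) (φ : DT Λ κ → ℝ) :
    ev (l.flatMap F) φ = (l.map fun j => ev (F j) φ).sum := by
  induction l with
  | nil => rfl
  | cons j l ih => rw [List.flatMap_cons, ev_append, ih, List.map_cons, List.sum_cons]

lemma ev_fl {J : Type*} [Fintype J] (a : J → ℝ) (L : J → List (DT Λ κ)) (φ : DT Λ κ → ℝ) :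
    ev (fl a L) φ = ∑ j, a j * ((L j).map φ).sum := by
  unfold fl
  rw [ev_flatMap, Finset.sum_map_toList]
  exact Finset.sum_congr rfl fun j _ => ev_const _ _ _

lemma map_flat (p : ℕ) (L : List (DT Λ κ)) (ψ : DT Λ κ → ℝ) :
    (L.map fun t => ((rs p t).map ψ).sum).sum = ((L.flatMap (rs p)).map ψ).sum := by
  induction L with
  | nil => rfl
  | cons t L ih =>
    rw [List.map_cons, List.sum_cons, ih, List.flatMap_cons, List.map_append, List.sum_append]

lemma map_if (F : DT Λ κ → Bool) (L : List (DT Λ κ)) (ψ : DT Λ κ → ℝ) :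
    (L.map fun t => if F t = true then ψ t else 0).sum = ((L.filter F).map ψ).sum := by
  induction L with
  | nil => rfl
  | cons t L ih =>
    by_cases h : F t = true
    · rw [List.filter_cons_of_pos h, List.map_cons, List.map_cons, List.sum_cons, List.sum_cons, ih,
        if_pos h]
    · rw [List.filter_cons_of_neg h, List.map_cons, List.sum_cons, ih, if_neg h, zero_add]

variable {J : Type*} [Fintype J]

lemma fl_gB (p : ℕ) (a : J → ℝ) (L : J → List (DT Λ κ)) :
    Eqv (gB p (fl a L)) (fl a fun j => bB p (L j)) := fun φ => by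
  rw [ev_gB, ev_fl, ev_fl]
  refine Finset.sum_congr rfl fun j _ => ?_
  rw [map_flat p (L j) (fun s => if isB p s = true then φ s else 0), map_if (fun s => isB p s)]
  rfl

lemma fl_gR (p : ℕ) (a : J → ℝ) (L : J → List (DT Λ κ)) :
    Eqv (gR p (fl a L)) (fl a fun j => bR p (L j)) := fun φ => by
  rw [ev_gR, ev_fl, ev_fl]
  refine Finset.sum_congr rfl fun j _ => ?_
  rw [map_flat p (L j) (fun s => if (!isB p s) = true then φ s else 0), map_if (fun s => !isB p s)]
  rfl

/-- weights of ties and pulls -/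
def WOk (p : ℕ) : DT Λ κ → Prop
  | .br _ w _ _ _ _ _ _ => w = 1 / (p : ℝ) ∨ w = 0
  | _ => True

lemma sum_prodB (f : J × Bool → ℝ) : ∑ x, f x = ∑ j, (f (j, false) + f (j, true)) := by
  rw [Fintype.sum_prod_type]
  refine Finset.sum_congr rfl fun j _ => ?_
  rw [Fintype.sum_bool, add_comm]

lemma fl_gC {p : ℕ} (a : J → ℝ) (L : J → List (DT Λ κ))
    (hw : ∀ j, ∀ t ∈ bB p (L j), WOk p t) :
    Eqv (gC p (fl a L)) (fl (cT (1 - 1 / (p : ℝ)) a) (stC p L)) := fun φ => by
  rw [ev_gC, fl_gB p a L, ev_fl, ev_fl, sum_prodB]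
  refine Finset.sum_congr rfl fun j _ => ?_
  have key : ∀ K : List (DT Λ κ), (∀ t ∈ K, WOk p t ∧ isB p t = true) →
      a j * (K.map fun t => ev (chd t) φ).sum =
        a j * (1 - (1 - 1 / (p : ℝ))) * ((K.map fun t => chN t).map φ).sum +
        a j * (1 - 1 / (p : ℝ)) * ((K.map fun t => chP t).map φ).sum := by
    intro K hK
    induction K with
    | nil => simp
    | cons t K ih =>
      have ih' := ih fun s hs => hK s (List.mem_cons_of_mem _ hs)
      obtain ⟨h1, h2⟩ := hK t (by simp)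
      obtain ⟨w, r, t₁, t₀, v, B, G, e⟩ := isB_eq h2
      simp only [List.map_cons, List.sum_cons]
      rw [mul_add, ih', mul_add, mul_add]
      have e1 : a j * ev (chd t) φ = a j * (1 - (1 - 1 / (p : ℝ))) * φ (chN t) +
          a j * (1 - 1 / (p : ℝ)) * φ (chP t) := by
        subst e
        have h3 : w = 1 / (p : ℝ) ∨ w = 0 := h1
        have h4 : ev (chd (DT.br p w r t₁ t₀ v B G)) φ = (1 - w) * φ t₁ + w * φ t₀ := by
          simp [chd, ev]
        have h5 : chP (DT.br p w r t₁ t₀ v B G) = t₁ := rfl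
        have h6 : chN (DT.br p w r t₁ t₀ v B G) = if w = 0 then t₁ else t₀ := rfl
        rw [h4, h5, h6]
        by_cases hw0 : w = 0
        · rw [if_pos hw0, hw0]; ring
        · rw [if_neg hw0, h3.resolve_right hw0]; ring
      rw [e1]; ring
  have := key (bB p (L j)) fun t ht => ⟨hw j t ht, (List.mem_filter.1 ht).2⟩
  simp only [stC, cT, Bool.false_eq_true, if_false, if_true]
  exact this

/-- **the step of `GS` for bundles** -/
theorem GS_step {loc : ℕ → Gp Λ κ → ℝ} (hl : LocE loc) (n : ℕ) {p : ℕ} (hp : p ≠ 0) (a : J → ℝ)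
    (L : J → List (DT Λ κ)) (hw : ∀ j, ∀ t ∈ bB p (L j), WOk p t) :
    GS loc (n + 1) p (fl a L) = loc p (fl a fun j => bB p (L j)) +
      GS loc n p (fl (cT (1 - 1 / (p : ℝ)) a) (stC p L)) +
      GS loc n (p - 1) (fl a fun j => bR p (L j)) := by
  rw [← hl p _ _ (fl_gB p a L), ← GS_congr hl n p _ _ (fl_gC a L hw),
    ← GS_congr hl n (p - 1) _ _ (fl_gR p a L)]
  show (if p = 0 then 0 else _) = _
  rw [if_neg hp]

end lists

end Crest.Agent.R4P.GWa343
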