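import Crest.Agent.R4P.GWa_343

/-!
R4 (S0004) with powers, [MB] T2, helper343: **contents of bundles and the column step**.

* `cf kd t z x` : content of the class `z` of the class map `kd : Λ → ι` in the node `t`;
  `bc kd L z x` : the same for a bundle.
* `I_colG` : the integrated column for arbitrary contents.
* `colB` : a bundle with at most one tie and any number of pulls is a column row.
* `I_colB` : `I (F - Ep F (p x))² + I Pot (contents) ≤ I Pot (children)` for every class.
-/

set_option autoImplicit false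
set_option linter.unusedSectionVars false
set_option linter.unusedVariables false
open MeasureTheory Filter Set

namespace Crest.Agent.R4P.GWb343

open Crest.Agent.R4.Tour104 Crest.Agent.R4.Tour758 Crest.Agent.R4.Avg758 Crest.Agent.R4.Clos758
open Crest.Agent.R4.ClosL758 Crest.Agent.R4.ClosG758 Crest.Agent.R4.ClosR758
open Crest.Agent.R4P.ClosR442 Crest.Agent.R4P.Grp36
open Crest.Agent.R4P.Xfer36 Crest.Agent.R4P.TopC36 Crest.Agent.R4P.PN36
open Crest.Agent.R4P.GainX36 (vT PB_vT)
open Crest.Agent.R4P.GMer27 Crest.Agent.R4P.GCol27 Crest.Agent.R4P.GWa343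
open Crest.Agent.R4P.Walk560 (DT)

section gen
variable {J : Type*} [Fintype J] {c : J → ℝ} {W : Set (J → ℝ)} {p : ℕ}

/-- **the integrated column**, arbitrary contents -/
theorem I_colG (H : TC c W) (hp : 2 ≤ p) {v : ℝ → J → ℝ} {h : ℝ → J × Bool → ℝ}
    (pv : ∀ j, PB fun x => v x j) (pch : ∀ x, PB fun y => h y x) (h1 : ∀ y x, h y x ≤ 1)
    (hcol : ∀ y, Col (1 - 1 / (p : ℝ)) (h y) (fun _ : Fin p => 1 / (p : ℝ))
      (fun i => v ((y + (i : ℕ)) / p))) :
    I (fun x => (M c (v x) - Ep p (fun x => M c (v x)) (p * x)) ^ 2) +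
      I (fun x => Pot c W (v x)) ≤
      I (fun y => Pot (cT (1 - 1 / (p : ℝ)) c) (WT (1 - 1 / (p : ℝ)) W) (h y)) := by
  have hp0 : 0 < p := by omega
  have hp' : (0 : ℝ) < p := by exact_mod_cast hp0
  have hp2 : (2 : ℝ) ≤ p := by exact_mod_cast hp
  have hq : 0 < 1 - 1 / (p : ℝ) ∧ 1 - 1 / (p : ℝ) < 1 := by
    have : 1 / (p : ℝ) ≤ 1 / 2 := one_div_le_one_div_of_le (by norm_num) hp2
    have : 0 < 1 / (p : ℝ) := by positivity
    constructor <;> linarith
  have h0 : ∀ y z, 0 ≤ h y z := fun y z => (pch z).nonneg _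
  have hv1 : ∀ x j, v x j ≤ 1 := by
    intro x j
    have := ((hcol ((p : ℝ) * x)).bd hq (h0 _) (v := 1) (h1 _) ⟨0, hp0⟩ j).2
    simpa [mul_div_cancel_left₀ _ hp'.ne'] using this
  have PF : PB fun x => M c (v x) := PB_M H.c0 pv
  have PP : PB fun x => Pot c W (v x) := PB_Pot H pv hv1
  have PQ : PB fun y => Pot (cT (1 - 1 / (p : ℝ)) c) (WT (1 - 1 / (p : ℝ)) W) (h y) :=
    PB_Pot (H.tie hq) pch h1
  have PE : PB (Ep p fun x => M c (v x)) := PF.Ep hp0
  have PS : PB fun x => (M c (v x) - Ep p (fun x => M c (v x)) (p * x)) ^ 2 := by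
    have p2 := PE.pull p
    obtain ⟨b1, hb1⟩ := PF.bdd
    obtain ⟨b2, hb2⟩ := p2.bdd
    refine ⟨(PF.meas.sub p2.meas).pow_const 2, fun x => sq_nonneg _, ⟨(|b1| + |b2|) ^ 2, fun x => ?_⟩,
      fun x => ?_⟩
    · rw [← sq_abs]
      refine pow_le_pow_left₀ (abs_nonneg _) ?_ 2
      refine (abs_sub _ _).trans (add_le_add ?_ ?_)
      · rw [abs_of_nonneg (PF.nonneg x)]; exact (hb1 x).trans (le_abs_self _)
      · rw [abs_of_nonneg (p2.nonneg x)]; exact (hb2 x).trans (le_abs_self _)
    · have e1 : M c (v (x + 1)) = M c (v x) := PF.per x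
      have e2 : Ep p (fun x => M c (v x)) (p * (x + 1)) =
          Ep p (fun x => M c (v x)) (p * x) := p2.per x
      rw [e1, e2]
  have hcol' : ∀ y, Ep p (fun x => (M c (v x) - Ep p (fun x => M c (v x)) (p * x)) ^ 2) y +
      Ep p (fun x => Pot c W (v x)) y ≤
      Pot (cT (1 - 1 / (p : ℝ)) c) (WT (1 - 1 / (p : ℝ)) W) (h y) := by
    intro y
    have hC := hcol y
    have hh := Pot_col H hq (h0 y) (h1 y) hC
    have hM := M_Col (c := c) hC
    have hE : Ep p (fun x => M c (v x)) y = M (cT (1 - 1 / (p : ℝ)) c) (h y) := by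
      rw [← hM]
      unfold Ep
      rw [← Fin.sum_univ_eq_sum_range (fun i => M c (v ((y + i) / p))) p, Finset.sum_div]
      exact Finset.sum_congr rfl fun i _ => by ring
    have e1 : Ep p (fun x => (M c (v x) - Ep p (fun x => M c (v x)) (p * x)) ^ 2) y =
        ∑ i : Fin p, 1 / (p : ℝ) * (M c (v ((y + (i : ℕ)) / p)) -
          M (cT (1 - 1 / (p : ℝ)) c) (h y)) ^ 2 := by
      unfold Ep
      rw [← Fin.sum_univ_eq_sum_range (fun i => (M c (v ((y + i) / p)) -
        (∑ k ∈ Finset.range p, M c (v ((p * ((y + i) / p) + k) / p))) / p) ^ 2) p,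
        Finset.sum_div]
      refine Finset.sum_congr rfl fun i _ => ?_
      have e3 : (∑ k ∈ Finset.range p,
          M c (v ((p * ((y + ((i : ℕ) : ℝ)) / p) + k) / p))) / p =
          M (cT (1 - 1 / (p : ℝ)) c) (h y) := by
        rw [← hE, mul_div_cancel₀ _ hp'.ne']
        have := PE.per_nat (i : ℕ) y
        unfold Ep at this
        rw [this]
        rfl
      rw [e3]
      ring
    have e2 : Ep p (fun x => Pot c W (v x)) y =
        ∑ i : Fin p, 1 / (p : ℝ) * Pot c W (v ((y + (i : ℕ)) / p)) := by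
      unfold Ep
      rw [← Fin.sum_univ_eq_sum_range (fun i => Pot c W (v ((y + i) / p))) p, Finset.sum_div]
      exact Finset.sum_congr rfl fun i _ => by ring
    rw [e1, e2]
    exact hh
  rw [← I_Ep hp0 PS.integrableOn, ← I_Ep hp0 PP.integrableOn,
    ← I_add (PS.Ep hp0).integrableOn (PP.Ep hp0).integrableOn]
  exact I_mono ((PS.Ep hp0).add (PP.Ep hp0)).integrableOn PQ.integrableOn hcol'

end gen

/-! ### contents -/

section cont
variable {Λ κ : Type} [Fintype Λ] [DecidableEq Λ] [Fintype κ] [DecidableEq κ]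
  {δ : Type} [Fintype δ] [DecidableEq δ]

/-- content of the class `z` in a node -/
noncomputable def cf (kd : Λ → δ) (t : DT Λ κ) (z : δ) (x : ℝ) : ℝ := sm kd t.g.val z x

/-- content of the class `z` in a bundle -/
noncomputable def bc (kd : Λ → δ) (L : List (DT Λ κ)) (z : δ) (x : ℝ) : ℝ :=
  (L.map fun t => cf kd t z x).sum

@[simp] lemma bc_nil (kd : Λ → δ) (z : δ) (x : ℝ) : bc kd ([] : List (DT Λ κ)) z x = 0 := rfl

lemma bc_cons (kd : Λ → δ) (t : DT Λ κ) (L : List (DT Λ κ)) (z : δ) (x : ℝ) :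
    bc kd (t :: L) z x = cf kd t z x + bc kd L z x := by simp [bc]

lemma bc_append (kd : Λ → δ) (L K : List (DT Λ κ)) (z : δ) (x : ℝ) :
    bc kd (L ++ K) z x = bc kd L z x + bc kd K z x := by simp [bc]

/-- all functions of a bundle are fine -/
def PBL (L : List (DT Λ κ)) : Prop := ∀ t ∈ L, ∀ j, PB (t.g.val j)

lemma PB_cf {kd : Λ → δ} {t : DT Λ κ} (h : ∀ j, PB (t.g.val j)) (z : δ) : PB (cf kd t z) :=
  PB_sm h kd z

lemma PB_bc {kd : Λ → δ} {L : List (DT Λ κ)} (h : PBL L) (z : δ) : PB (bc kd L z) := by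
  induction L with
  | nil =>
    have e : bc kd ([] : List (DT Λ κ)) z = fun _ => 0 := rfl
    rw [e]; exact PB.const le_rfl
  | cons t L ih =>
    have e : bc kd (t :: L) z = fun x => cf kd t z x + bc kd L z x :=
      funext fun x => bc_cons kd t L z x
    rw [e]
    exact (PB_cf (h t (by simp)) z).add (ih fun s hs => h s (List.mem_cons_of_mem _ hs))

lemma sum_cf (kd : Λ → δ) (t : DT Λ κ) (x : ℝ) : ∑ z, cf kd t z x = ∑ j, t.g.val j x := by
  unfold cf sm
  exact Finset.sum_fiberwise Finset.univ kd fun j => t.g.val j x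

/-- the class contents of the list -/
lemma cval_fl {J : Type*} [Fintype J] (kd : Λ → δ) (a : J → ℝ) (L : J → List (DT Λ κ)) (z : δ)
    (x : ℝ) : cval kd (fl a L) z x = ∑ j, a j * bc kd (L j) z x := by
  have e : cval kd (fl a L) z x = ev (fl a L) (fun t => cf kd t z x) := by
    unfold cval gval ev cf sm
    induction fl a L with
    | nil => simp
    | cons m g ih =>
      simp only [List.map_cons, List.sum_cons]
      rw [Finset.sum_add_distrib, ih, ← Finset.mul_sum]
  rw [e, ev_fl]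
  rfl

/-- the resolution does not change the contents -/
lemma rs_cf (kd : Λ → δ) (p : ℕ) (t : DT Λ κ) (z : δ) (x : ℝ) :
    ((rs p t).map fun s => cf kd s z x).sum = cf kd t z x := by
  induction t with
  | leaf r f => simp [rs]
  | br q w r t₁ t₀ v B G => simp [rs]
  | add q r t₁ t₀ ih₁ ih₀ =>
    unfold rs
    split_ifs with h
    · rw [List.map_append, List.sum_append, ih₁, ih₀]
      unfold cf sm
      rw [← Finset.sum_add_distrib]
      rfl
    · simp
  | up q Sp t ih =>
    unfold rs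
    split_ifs with h
    · exact ih
    · simp

lemma bc_split (kd : Λ → δ) (p : ℕ) (L : List (DT Λ κ)) (z : δ) (x : ℝ) :
    bc kd L z x = bc kd (bB p L) z x + bc kd (bR p L) z x := by
  have h1 : ∀ K : List (DT Λ κ), bc kd K z x = bc kd (K.filter fun t => isB p t) z x +
      bc kd (K.filter fun t => !isB p t) z x := by
    intro K
    induction K with
    | nil => simp
    | cons t K ih =>
      by_cases h : isB p t = true
      · rw [List.filter_cons_of_pos (by simpa using h), List.filter_cons_of_neg (by simp [h]),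
          bc_cons, bc_cons, ih]; ring
      · rw [List.filter_cons_of_neg (by simpa using h),
          List.filter_cons_of_pos (by simpa using h), bc_cons, bc_cons, ih]; ring
  have h2 : bc kd (L.flatMap (rs p)) z x = bc kd L z x := by
    induction L with
    | nil => rfl
    | cons t L ih =>
      rw [List.flatMap_cons, bc_append, ih, bc_cons]
      congr 1
      exact rs_cf kd p t z x
  rw [← h2, h1]
  rfl

/-! ### the column of a bundle -/

/-- the ties and pulls of a bundle: fine nodes, class map `kd`, at most one tie -/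
structure BOk (kd : Λ → κ) (p : ℕ) (K : List (DT Λ κ)) : Prop where
  ok : ∀ t ∈ K, NOk t ∧ isB p t = true
  cl : ∀ t ∈ K, ∀ w r t₁ t₀ v B G, t = .br p w r t₁ t₀ v B G → r = kd
  one : (K.filter fun t => decide (wT t ≠ 0)).length ≤ 1

lemma BOk.tail {kd : Λ → κ} {p : ℕ} {t : DT Λ κ} {K : List (DT Λ κ)} (h : BOk kd p (t :: K)) :
    BOk kd p K where
  ok := fun s hs => h.ok s (List.mem_cons_of_mem _ hs)
  cl := fun s hs => h.cl s (List.mem_cons_of_mem _ hs)
  one := by
    have := h.one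
    by_cases hw : wT t ≠ 0
    · rw [List.filter_cons_of_pos (by simpa using hw), List.length_cons] at this
      omega
    · rw [List.filter_cons_of_neg (by simpa using hw)] at this
      exact this

lemma cf_v {kd : Λ → κ} {p : ℕ} {K : List (DT Λ κ)} (h : BOk kd p K) {t : DT Λ κ} (ht : t ∈ K)
    (z : κ) (x : ℝ) : cf kd t z x = vT t z x := by
  obtain ⟨w, r, t₁, t₀, v, B, G, e⟩ := isB_eq (h.ok t ht).2
  have hr := h.cl t ht w r t₁ t₀ v B G e
  subst e
  subst hr
  rfl

lemma cf_a {kd : Λ → κ} {p : ℕ} {K : List (DT Λ κ)} (h : BOk kd p K) {t : DT Λ κ} (ht : t ∈ K)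
    (z : κ) (y : ℝ) : cf kd (chP t) z y = aT t z y := by
  obtain ⟨w, r, t₁, t₀, v, B, G, e⟩ := isB_eq (h.ok t ht).2
  have hr := h.cl t ht w r t₁ t₀ v B G e
  subst e
  subst hr
  rfl

lemma cf_n {kd : Λ → κ} {p : ℕ} {K : List (DT Λ κ)} (h : BOk kd p K) {t : DT Λ κ} (ht : t ∈ K)
    (z : κ) (y : ℝ) : cf kd (chN t) z y = nT t z y := by
  obtain ⟨w, r, t₁, t₀, v, B, G, e⟩ := isB_eq (h.ok t ht).2
  have hr := h.cl t ht w r t₁ t₀ v B G e
  subst e
  subst hr
  unfold nT
  have ew : wT (DT.br p w r t₁ t₀ v B G) = w := rfl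
  have e5 : chN (DT.br p w r t₁ t₀ v B G) = if w = 0 then t₁ else t₀ := rfl
  rw [ew, e5]
  split_ifs <;> rfl

/-- **a bundle is a row of a column** -/
theorem rowB {kd : Λ → κ} {p : ℕ} (hp : 0 < p) {K : List (DT Λ κ)} (h : BOk kd p K) (z : κ)
    (y : ℝ) : ∃ (s : Fin p → ℝ) (Δ : ℝ), (∀ i, 0 ≤ s i ∧ s i ≤ 1) ∧
      ∑ i, 1 / (p : ℝ) * s i = 1 - (1 - 1 / (p : ℝ)) ∧
      0 ≤ Δ ∧ Δ ≤ max (bc kd (K.map chN) z y - bc kd (K.map chP) z y) 0 ∧
      ((K.filter fun t => decide (wT t ≠ 0)).length = 0 → Δ = 0 ∧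
        bc kd (K.map chN) z y = bc kd (K.map chP) z y) ∧
      ∀ i : Fin p, bc kd K z ((y + (i : ℕ)) / p) =
        (1 - (1 - 1 / (p : ℝ))) * bc kd (K.map chN) z y +
        (1 - 1 / (p : ℝ)) * bc kd (K.map chP) z y + (s i - (1 - (1 - 1 / (p : ℝ)))) * Δ := by
  have hp' : (0 : ℝ) < p := by exact_mod_cast hp
  have hp1 : (1 : ℝ) ≤ p := by exact_mod_cast hp
  induction K with
  | nil =>
    refine ⟨fun _ => 1 / (p : ℝ), 0, fun i => ⟨by positivity, ?_⟩, ?_, le_rfl, le_max_right _ _,
      fun _ => ⟨rfl, rfl⟩, fun i => ?_⟩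
    · rw [div_le_one hp']; exact hp1
    · rw [Finset.sum_const, Finset.card_univ, Fintype.card_fin, nsmul_eq_mul]
      field_simp
      ring
    · simp
  | cons t K ih =>
    obtain ⟨s, Δ, a1, a2, a3, a4, a5, a6⟩ := ih h.tail
    obtain ⟨s', Δ', b1, b2, b3, b4, b5⟩ := row hp (h.ok t (by simp)).1 (h.ok t (by simp)).2 z y
    have ev : ∀ x, cf kd t z x = vT t z x := fun x => cf_v h (by simp) z x
    have ea : cf kd (chP t) z y = aT t z y := cf_a h (by simp) z y
    have en : cf kd (chN t) z y = nT t z y := cf_n h (by simp) z y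
    simp only [List.map_cons, bc_cons, ea, en]
    by_cases hw : wT t = 0
    · -- a pull
      have hn : nT t z y = aT t z y := by unfold nT; rw [if_pos hw]
      have hΔ : Δ' = 0 := by
        rw [hn, sub_self, max_self] at b4
        exact le_antisymm b4 b3
      refine ⟨s, Δ, a1, a2, a3, ?_, ?_, fun i => ?_⟩
      · rw [hn]; convert a4 using 2; ring
      · intro hl
        rw [List.filter_cons_of_neg (by simpa using hw)] at hl
        obtain ⟨h1, h2⟩ := a5 hl
        exact ⟨h1, by rw [hn, h2]⟩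
      · rw [ev, b5 i, a6 i, hn, hΔ]; ring
    · -- a tie
      have hl : (K.filter fun t => decide (wT t ≠ 0)).length = 0 := by
        have := h.one
        rw [List.filter_cons_of_pos (by simpa using hw), List.length_cons] at this
        omega
      obtain ⟨h1, h2⟩ := a5 hl
      refine ⟨s', Δ', b1, b2, b3, ?_, ?_, fun i => ?_⟩
      · rw [h2]; convert b4 using 2; ring
      · intro hl'
        rw [List.filter_cons_of_pos (by simpa using hw), List.length_cons] at hl'
        omega
      · rw [ev, b5 i, a6 i, h1, h2]; ring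

variable {J : Type*} [Fintype J]

/-- **the bundled group is a column** -/
theorem colB {kd : Λ → κ} {p : ℕ} (hp : 0 < p) {L : J → List (DT Λ κ)}
    (h : ∀ j, BOk kd p (bB p (L j))) (z : κ) (y : ℝ) :
    Col (1 - 1 / (p : ℝ)) (fun x => bc kd (stC p L x) z y) (fun _ : Fin p => 1 / (p : ℝ))
      (fun i j => bc kd (bB p (L j)) z ((y + (i : ℕ)) / p)) where
  u0 := fun i => by positivity
  u1 := by
    have hp' : (p : ℝ) ≠ 0 := by exact_mod_cast hp.ne'
    rw [Finset.sum_const, Finset.card_univ, Fintype.card_fin, nsmul_eq_mul]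
    field_simp
  rule := fun j => by
    obtain ⟨s, Δ, h1, h2, h3, h4, -, h5⟩ := rowB hp (h j) z y
    refine ⟨s, Δ, h1, h2, h3, ?_, fun i => ?_⟩
    · simpa [stC] using h4
    · have := h5 i
      simpa [stC, av] using this

/-- potential of a family of bundles -/
noncomputable def PP (Pi : ℝ) (c : J → ℝ) (W : Set (J → ℝ)) (kd : Λ → δ)
    (L : J → List (DT Λ κ)) : ℝ :=
  Pi ^ 2 * ∑ z, I (fun x => Pot c W (fun j => bc kd (L j) z x))

end cont

end Crest.Agent.R4P.GWb343
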