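import Crest.Agent.R4P.GWb_343
import Crest.Agent.R4P.LogL_51

/-!
R4 (S0004) with powers, [MB] T2, helper343: **bundled states** for the mode walk (ModeG_51).

* `St Λ κ` : members `J`, weights `c`, test class `W`, bundles `L`; `St.g` its list.
* `stCh p`, `stN p` : children of the ties and pulls / the other members without leaves.
* `totals` : `S`, `SB`, `SL`, `S_split`, `Ep_SB`.
* `Pt kd p`, `PtB kd p` : potentials of the classes `kd p`; `PB_Pt`, `Pt_born`, `Pt_join`, `Pt_ref`.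
* `InvOk` : the closure conditions of an invariant `Inv : ℕ → List (DT Λ κ) → Prop`.
* `GS_leaf`, `GS_stN` : leaves do not matter for `GS`.
-/

set_option autoImplicit false
set_option linter.unusedSectionVars false
set_option linter.unusedVariables false
open MeasureTheory Filter Set

namespace Crest.Agent.R4P.GWc343

open Crest.Agent.R4.Tour104 Crest.Agent.R4.Tour758 Crest.Agent.R4.Avg758 Crest.Agent.R4.Clos758
open Crest.Agent.R4.ClosL758 Crest.Agent.R4.ClosG758 Crest.Agent.R4.ClosR758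
open Crest.Agent.R4P.ClosR442 Crest.Agent.R4P.Grp36
open Crest.Agent.R4P.Xfer36 Crest.Agent.R4P.TopC36 Crest.Agent.R4P.PN36
open Crest.Agent.R4P.GMer27 Crest.Agent.R4P.GCol27 Crest.Agent.R4P.GWa343 Crest.Agent.R4P.GWb343
open Crest.Agent.R4P.LogG51 (gtot PB_gtot gtot_split Ep_gtot gtot_cval)
open Crest.Agent.R4P.LogL51 (isLf)
open Crest.Agent.R4P.Walk560 (DT)

/-! ### families over a test class -/

section fam
variable {J : Type*} [Fintype J] {c : J → ℝ} {W : Set (J → ℝ)}

lemma pot_inj' (H : TC c W) {h x : J → ℝ} (hx : ∀ j, 0 ≤ x j) :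
    Pot c W (fun j => h j + x j) ≤ Pot c W h + 14 * M c x := Pot_inj H hx

lemma pot_inj2 (H : TC c W) {h x : J → ℝ} (hx : ∀ j, 0 ≤ h j) :
    Pot c W (fun j => h j + x j) ≤ Pot c W x + 14 * M c h := by
  have := Pot_inj H (h := x) hx
  rwa [show (fun j => x j + h j) = fun j => h j + x j from funext fun j => add_comm _ _] at this

lemma pot_join (H : TC c W) {h x : J → ℝ} (hh : ∀ j, 0 ≤ h j) (hx : ∀ j, 0 ≤ x j) :
    Pot c W (fun j => h j + x j) ≤ Pot c W h + Pot c W x + 14 * min (M c h) (M c x) := by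
  have h1 := pot_inj' H (h := h) hx
  have h2 := pot_inj2 H (x := x) hh
  have h3 := Pot_nonneg H h
  have h4 := Pot_nonneg H x
  rcases min_choice (M c h) (M c x) with e | e <;> rw [e] <;> linarith

variable {δ : Type*} [Fintype δ]

lemma sum_join (H : TC c W) {f g : δ → J → ℝ} (hf : ∀ z j, 0 ≤ f z j) (hg : ∀ z j, 0 ≤ g z j) :
    ∑ z, Pot c W (fun j => f z j + g z j) ≤ ∑ z, Pot c W (f z) + ∑ z, Pot c W (g z) +
      14 * min (∑ z, M c (f z)) (∑ z, M c (g z)) := by
  have h1 : ∑ z, Pot c W (fun j => f z j + g z j) ≤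
      ∑ z, (Pot c W (f z) + Pot c W (g z) + 14 * min (M c (f z)) (M c (g z))) :=
    Finset.sum_le_sum fun z _ => pot_join H (hf z) (hg z)
  have h2 : ∑ z, min (M c (f z)) (M c (g z)) ≤ min (∑ z, M c (f z)) (∑ z, M c (g z)) :=
    le_min (Finset.sum_le_sum fun z _ => min_le_left _ _)
      (Finset.sum_le_sum fun z _ => min_le_right _ _)
  rw [Finset.sum_add_distrib, Finset.sum_add_distrib, ← Finset.mul_sum] at h1
  linarith

lemma sum_inj (H : TC c W) {f g : δ → J → ℝ} (hg : ∀ z j, 0 ≤ g z j) :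
    ∑ z, Pot c W (fun j => f z j + g z j) ≤ ∑ z, Pot c W (f z) + 14 * ∑ z, M c (g z) := by
  have h1 : ∑ z, Pot c W (fun j => f z j + g z j) ≤ ∑ z, (Pot c W (f z) + 14 * M c (g z)) :=
    Finset.sum_le_sum fun z _ => pot_inj' H (hg z)
  rwa [Finset.sum_add_distrib, ← Finset.mul_sum] at h1

lemma sum_born (H : TC c W) {f : δ → J → ℝ} (hf : ∀ z j, 0 ≤ f z j) :
    ∑ z, Pot c W (f z) ≤ 14 * ∑ z, M c (f z) := by
  have := sum_inj H (f := fun (_ : δ) (_ : J) => (0 : ℝ)) hf
  simp only [zero_add] at this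
  refine this.trans ?_
  have e : ∑ _z : δ, Pot c W (fun _ => (0 : ℝ)) = 0 :=
    Finset.sum_eq_zero fun z _ => Pot_zero H
  rw [e, zero_add]

variable {δ' : Type*} [Fintype δ'] [DecidableEq δ'] [DecidableEq δ]

/-- **a finer class map is free** : `r : δ → δ'` maps the fine classes to the coarse classes -/
lemma sum_ref (H : TC c W) (r : δ → δ') {f : δ → J → ℝ} {g : δ' → J → ℝ}
    (hf : ∀ z j, 0 ≤ f z j) (he : ∀ z' j, ∑ z ∈ Finset.univ.filter (fun z => r z = z'), f z j =
      g z' j) (h1 : ∀ z' j, g z' j ≤ 1) :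
    ∑ z, Pot c W (f z) ≤ ∑ z', Pot c W (g z') := by
  rw [← Finset.sum_fiberwise Finset.univ r fun z => Pot c W (f z)]
  refine Finset.sum_le_sum fun z' _ => ?_
  have h := Pot_sum H (Finset.univ.filter fun z => r z = z') f (fun z _ j => hf z j)
    (fun j => by rw [he z' j]; exact h1 z' j)
  refine h.trans (le_of_eq ?_)
  congr 1
  funext j
  exact he z' j

end fam

/-! ### bundled states -/

/-- bundled states -/
structure St (Λ κ : Type) where
  /-- members -/
  J : Type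
  /-- finite -/
  fJ : Fintype J
  /-- weights -/
  c : J → ℝ
  /-- test class -/
  W : Set (J → ℝ)
  /-- bundles -/
  L : J → List (DT Λ κ)

section st
variable {Λ κ : Type} [Fintype Λ] [DecidableEq Λ] [Fintype κ] [DecidableEq κ]

instance (s : St Λ κ) : Fintype s.J := s.fJ

/-- leaf members -/
def bL (p : ℕ) (L : List (DT Λ κ)) : List (DT Λ κ) := (bR p L).filter fun t => isLf t

/-- the other members which are not leaves -/
def bN (p : ℕ) (L : List (DT Λ κ)) : List (DT Λ κ) := (bR p L).filter fun t => !isLf t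

/-- the list of a state -/
noncomputable def St.g (s : St Λ κ) : Gp Λ κ := fl s.c s.L

/-- the state of the children of the ties and pulls -/
noncomputable def stCh (p : ℕ) (s : St Λ κ) : St Λ κ :=
  if 2 ≤ p then ⟨s.J × Bool, inferInstance, cT (1 - 1 / (p : ℝ)) s.c,
    WT (1 - 1 / (p : ℝ)) s.W, stC p s.L⟩
  else ⟨s.J, s.fJ, s.c, s.W, fun _ => []⟩

lemma stCh_pos {p : ℕ} (hp : 2 ≤ p) (s : St Λ κ) : stCh p s =
    ⟨s.J × Bool, inferInstance, cT (1 - 1 / (p : ℝ)) s.c, WT (1 - 1 / (p : ℝ)) s.W, stC p s.L⟩ :=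
  if_pos hp

lemma stCh_neg {p : ℕ} (hp : ¬ 2 ≤ p) (s : St Λ κ) :
    stCh p s = ⟨s.J, s.fJ, s.c, s.W, fun _ => []⟩ := if_neg hp

/-- the state of the other members -/
noncomputable def stN (p : ℕ) (s : St Λ κ) : St Λ κ := ⟨s.J, s.fJ, s.c, s.W, fun j => bN p (s.L j)⟩

/-- total content -/
noncomputable def S (s : St Λ κ) (x : ℝ) : ℝ := gtot s.g x

/-- total content of the ties and pulls -/
noncomputable def SB (p : ℕ) (s : St Λ κ) (x : ℝ) : ℝ := gtot (fl s.c fun j => bB p (s.L j)) x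

/-- total content of the leaves -/
noncomputable def SL (p : ℕ) (s : St Λ κ) (x : ℝ) : ℝ := gtot (fl s.c fun j => bL p (s.L j)) x

lemma gtot_ev (g : Gp Λ κ) (x : ℝ) : gtot g x = ev g fun t => ∑ j, t.g.val j x := by
  unfold gtot gval ev
  induction g with
  | nil => simp
  | cons m g ih =>
    simp only [List.map_cons, List.sum_cons]
    rw [Finset.sum_add_distrib, ih, ← Finset.mul_sum]

lemma gtot_congr {g h : Gp Λ κ} (H : Eqv g h) (x : ℝ) : gtot g x = gtot h x := by
  rw [gtot_ev, gtot_ev, H]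

/-- total of a bundle -/
noncomputable def bt (L : List (DT Λ κ)) (x : ℝ) : ℝ := (L.map fun t => ∑ j, t.g.val j x).sum

lemma gtot_fl {J : Type*} [Fintype J] (a : J → ℝ) (L : J → List (DT Λ κ)) (x : ℝ) :
    gtot (fl a L) x = ∑ j, a j * bt (L j) x := by
  rw [gtot_ev, ev_fl]; rfl

variable {δ : Type} [Fintype δ] [DecidableEq δ]

lemma sum_bc (kd : Λ → δ) (L : List (DT Λ κ)) (x : ℝ) : ∑ z, bc kd L z x = bt L x := by
  unfold bt
  induction L with
  | nil => simp
  | cons t L ih =>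
    simp only [bc_cons, List.map_cons, List.sum_cons]
    rw [Finset.sum_add_distrib, ih]
    congr 1
    unfold GWb343.cf sm
    exact Finset.sum_fiberwise Finset.univ kd fun j => t.g.val j x

/-- the class averages sum up to the total -/
lemma sum_M {J : Type*} [Fintype J] (kd : Λ → δ) (c : J → ℝ) (L : J → List (DT Λ κ)) (x : ℝ) :
    ∑ z, M c (fun j => bc kd (L j) z x) = gtot (fl c L) x := by
  unfold M
  rw [Finset.sum_comm, gtot_fl]
  refine Finset.sum_congr rfl fun j _ => ?_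
  rw [← Finset.mul_sum, sum_bc]

lemma bc_split3 (kd : Λ → δ) (p : ℕ) (L : List (DT Λ κ)) (z : δ) (x : ℝ) :
    bc kd L z x = bc kd (bL p L) z x + bc kd (bB p L) z x + bc kd (bN p L) z x := by
  have h1 : ∀ K : List (DT Λ κ), bc kd K z x = bc kd (K.filter fun t => isLf t) z x +
      bc kd (K.filter fun t => !isLf t) z x := by
    intro K
    induction K with
    | nil => simp
    | cons t K ih =>
      by_cases h : isLf t = true
      · rw [List.filter_cons_of_pos (by simpa using h), List.filter_cons_of_neg (by simp [h]),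
          bc_cons, bc_cons, ih]; ring
      · rw [List.filter_cons_of_neg (by simpa using h),
          List.filter_cons_of_pos (by simpa using h), bc_cons, bc_cons, ih]; ring
  rw [bc_split kd p L, h1 (bR p L)]
  unfold bL bN
  ring

/-- **the three parts of the total** -/
lemma S_split (p : ℕ) (s : St Λ κ) (x : ℝ) : S s x = SL p s x + SB p s x + S (stN p s) x := by
  unfold S SL SB St.g stN
  rw [gtot_fl, gtot_fl, gtot_fl, gtot_fl, ← Finset.sum_add_distrib, ← Finset.sum_add_distrib]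
  refine Finset.sum_congr rfl fun j _ => ?_
  have e : ∀ L : List (DT Λ κ), bt L x = ∑ z, bc (fun i : Λ => i) L z x := fun L =>
    (sum_bc (fun i : Λ => i) L x).symm
  simp only [e, Finset.mul_sum]
  rw [← Finset.sum_add_distrib, ← Finset.sum_add_distrib]
  refine Finset.sum_congr rfl fun z _ => ?_
  rw [bc_split3 (fun i : Λ => i) p (s.L j) z x]
  ring

/-! ### potentials -/

/-- potential of the classes `kd` -/
noncomputable def Pt (kd : ℕ → Λ → δ) (p : ℕ) (s : St Λ κ) (x : ℝ) : ℝ :=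
  ∑ z, Pot s.c s.W fun j => bc (kd p) (s.L j) z x

/-- potential of the ties and pulls -/
noncomputable def PtB (kd : ℕ → Λ → δ) (p : ℕ) (s : St Λ κ) (x : ℝ) : ℝ :=
  ∑ z, Pot s.c s.W fun j => bc (kd p) (bB p (s.L j)) z x

/-- good bundles for the classes of `kd p` -/
structure BG (kd : ℕ → Λ → δ) (p : ℕ) (L : List (DT Λ κ)) : Prop where
  pb : PBL L
  im : ∀ t ∈ L, t.All IMean
  pba : ∀ t ∈ L, t.All fun t => ∀ j, PB (t.g.val j)
  le1 : ∀ z x, bc (kd p) L z x ≤ 1

lemma PBL.sub {L K : List (DT Λ κ)} (h : PBL L) (hK : ∀ t ∈ K, t ∈ L) : PBL K :=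
  fun t ht => h t (hK t ht)

lemma bc_nonneg {kd : Λ → δ} {L : List (DT Λ κ)} (h : PBL L) (z : δ) (x : ℝ) :
    0 ≤ bc kd L z x := (PB_bc h z).nonneg x

lemma rs_PB {p : ℕ} {t : DT Λ κ} (h : t.All fun t => ∀ j, PB (t.g.val j)) :
    ∀ s ∈ rs p t, s.All fun t => ∀ j, PB (t.g.val j) := rs_all p h

lemma PBL_flat {kd : ℕ → Λ → δ} {p p' : ℕ} {L : List (DT Λ κ)} (h : BG kd p' L) :
    ∀ t ∈ L.flatMap (rs p), t.All fun t => ∀ j, PB (t.g.val j) := by
  intro t ht
  obtain ⟨u, hu, ht⟩ := List.mem_flatMap.1 ht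
  exact rs_all p (h.pba u hu) t ht

lemma PBL_bB {kd : ℕ → Λ → δ} {p p' : ℕ} {L : List (DT Λ κ)} (h : BG kd p' L) : PBL (bB p L) :=
  fun t ht => (PBL_flat h t (List.mem_filter.1 ht).1).self

lemma PBL_bL {kd : ℕ → Λ → δ} {p p' : ℕ} {L : List (DT Λ κ)} (h : BG kd p' L) : PBL (bL p L) :=
  fun t ht => (PBL_flat h t (List.mem_filter.1 (List.mem_filter.1 ht).1).1).self

lemma PBL_bN {kd : ℕ → Λ → δ} {p p' : ℕ} {L : List (DT Λ κ)} (h : BG kd p' L) : PBL (bN p L) :=
  fun t ht => (PBL_flat h t (List.mem_filter.1 (List.mem_filter.1 ht).1).1).self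

lemma bB_le {kd : ℕ → Λ → δ} {p : ℕ} {L : List (DT Λ κ)} (h : BG kd p L) (z : δ) (x : ℝ) :
    bc (kd p) (bB p L) z x ≤ 1 := by
  have h1 := bc_split3 (kd p) p L z x
  have h2 := bc_nonneg (kd := kd p) (PBL_bL (p := p) h) z x
  have h3 := bc_nonneg (kd := kd p) (PBL_bN (p := p) h) z x
  have h4 := h.le1 z x
  linarith

/-- good states -/
def GSt (kd : ℕ → Λ → δ) (p : ℕ) (s : St Λ κ) : Prop := TC s.c s.W ∧ ∀ j, BG kd p (s.L j)

variable {kd : ℕ → Λ → δ} {p : ℕ} {s : St Λ κ}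

lemma GSt.gok (h : GSt kd p s) : GOk s.g := by
  have key : ∀ m ∈ s.g, ∃ j, ∃ t ∈ s.L j, m = (s.c j, t) := by
    intro m hm
    obtain ⟨j, -, hm⟩ := List.mem_flatMap.1 hm
    obtain ⟨t, ht, rfl⟩ := List.mem_map.1 hm
    exact ⟨j, t, ht, rfl⟩
  refine ⟨fun m hm => ?_, fun m hm => ?_, fun m hm => ?_⟩ <;> obtain ⟨j, t, ht, rfl⟩ := key m hm
  · exact h.1.c0 j
  · exact (h.2 j).im t ht
  · exact (h.2 j).pba t ht

lemma PB_bt {L : List (DT Λ κ)} (h : PBL L) : PB (bt L) := by
  induction L with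
  | nil =>
    have e : bt ([] : List (DT Λ κ)) = fun _ => 0 := rfl
    rw [e]; exact PB.const le_rfl
  | cons t L ih =>
    have e : bt (t :: L) = fun x => (∑ j, t.g.val j x) + bt L x := funext fun x => by
      simp [bt]
    rw [e]
    exact (PB.sum _ fun j _ => h t (by simp) j).add (ih fun s hs => h s (List.mem_cons_of_mem _ hs))

lemma PB_fl {J : Type*} [Fintype J] {a : J → ℝ} (ha : ∀ j, 0 ≤ a j) {L : J → List (DT Λ κ)}
    (h : ∀ j, PBL (L j)) : PB (gtot (fl a L)) := by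
  have e : gtot (fl a L) = fun x => ∑ j, a j * bt (L j) x := funext fun x => gtot_fl a L x
  rw [e]
  exact PB.sum _ fun j _ => (PB_bt (h j)).smul (ha j)

lemma PB_S (h : GSt kd p s) : PB (S s) := PB_fl h.1.c0 fun j => (h.2 j).pb
lemma PB_SB (h : GSt kd p s) : PB (SB p s) := PB_fl h.1.c0 fun j => PBL_bB (h.2 j)
lemma PB_SL (h : GSt kd p s) : PB (SL p s) := PB_fl h.1.c0 fun j => PBL_bL (h.2 j)

lemma PB_Pt (h : GSt kd p s) : PB (Pt kd p s) :=
  PB.sum _ fun z _ => PB_Pot h.1 (fun j => PB_bc (h.2 j).pb z) fun x j => (h.2 j).le1 z x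

lemma PB_PtB (h : GSt kd p s) : PB (PtB kd p s) :=
  PB.sum _ fun z _ => PB_Pot h.1 (fun j => PB_bc (PBL_bB (h.2 j)) z) fun x j => bB_le (h.2 j) z x

lemma Pt_nonneg (h : GSt kd p s) (x : ℝ) : 0 ≤ Pt kd p s x :=
  Finset.sum_nonneg fun z _ => Pot_nonneg h.1 _

lemma PtB_nonneg (h : GSt kd p s) (x : ℝ) : 0 ≤ PtB kd p s x :=
  Finset.sum_nonneg fun z _ => Pot_nonneg h.1 _

lemma Pt_born (h : GSt kd p s) (x : ℝ) : Pt kd p s x ≤ 14 * S s x := by
  have := sum_born h.1 (f := fun z j => bc (kd p) (s.L j) z x)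
    fun z j => bc_nonneg (h.2 j).pb z x
  rw [sum_M] at this
  exact this

lemma PtB_born (h : GSt kd p s) (x : ℝ) : PtB kd p s x ≤ 14 * SB p s x := by
  have := sum_born h.1 (f := fun z j => bc (kd p) (bB p (s.L j)) z x)
    fun z j => bc_nonneg (PBL_bB (h.2 j)) z x
  rw [sum_M] at this
  exact this

/-- the potential of the rest in the classes of the column `p` -/
noncomputable def PtR (kd : ℕ → Λ → δ) (p : ℕ) (s : St Λ κ) (x : ℝ) : ℝ :=
  ∑ z, Pot s.c s.W fun j => bc (kd p) (bN p (s.L j)) z x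

/-- **a finer class map going down is free** -/
theorem PtR_ref (hk : ∀ j j', kd p j = kd p j' → kd (p - 1) j = kd (p - 1) j')
    (h : GSt kd p s) (hN : GSt kd (p - 1) (stN p s)) (x : ℝ) :
    PtR kd p s x ≤ Pt kd (p - 1) (stN p s) x := by
  classical
  -- the coarse class of a fine class
  let r : δ → δ := fun z => if hz : ∃ j, kd p j = z then kd (p - 1) hz.choose else z
  have hr : ∀ j, r (kd p j) = kd (p - 1) j := by
    intro j
    have hz : ∃ j', kd p j' = kd p j := ⟨j, rfl⟩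
    show (if hz : ∃ j', kd p j' = kd p j then _ else _) = _
    rw [dif_pos hz]
    exact hk _ _ hz.choose_spec
  refine sum_ref h.1 r (f := fun z j => bc (kd p) (bN p (s.L j)) z x)
    (g := fun z' j => bc (kd (p - 1)) (bN p (s.L j)) z' x)
    (fun z j => bc_nonneg (PBL_bN (h.2 j)) z x) (fun z' j => ?_) (fun z' j => (hN.2 j).le1 z' x)
  induction bN p (s.L j) with
  | nil => simp
  | cons t K ih =>
    simp only [bc_cons]
    rw [Finset.sum_add_distrib, ih]
    congr 1
    unfold GWb343.cf sm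
    have e1 : ∑ z ∈ Finset.univ.filter (fun z => r z = z'),
        ∑ j ∈ Finset.univ.filter (fun j => kd p j = z), t.g.val j x =
        ∑ z ∈ Finset.univ.filter (fun z => r z = z'),
        ∑ j, (if kd p j = z then t.g.val j x else 0) :=
      Finset.sum_congr rfl fun z _ => Finset.sum_filter _ _
    rw [e1, Finset.sum_comm, Finset.sum_filter]
    refine Finset.sum_congr rfl fun j _ => ?_
    rw [Finset.sum_ite_eq]
    simp only [Finset.mem_filter, Finset.mem_univ, true_and, hr]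

/-- the joins at a point -/
theorem Pt_join (h : GSt kd p s) (x : ℝ) :
    Pt kd p s x ≤ PtB kd p s x + PtR kd p s x + 14 * min (SB p s x) (S (stN p s) x) +
      14 * SL p s x ∧
    Pt kd p s x ≤ PtB kd p s x + 14 * (S (stN p s) x + SL p s x) ∧
    Pt kd p s x ≤ PtR kd p s x + 14 * (SB p s x + SL p s x) := by
  have nB : ∀ z j, 0 ≤ bc (kd p) (bB p (s.L j)) z x := fun z j =>
    bc_nonneg (PBL_bB (h.2 j)) z x
  have nN : ∀ z j, 0 ≤ bc (kd p) (bN p (s.L j)) z x := fun z j =>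
    bc_nonneg (PBL_bN (h.2 j)) z x
  have nL : ∀ z j, 0 ≤ bc (kd p) (bL p (s.L j)) z x := fun z j =>
    bc_nonneg (PBL_bL (h.2 j)) z x
  have e0 : Pt kd p s x = ∑ z, Pot s.c s.W fun j =>
      (bc (kd p) (bB p (s.L j)) z x + bc (kd p) (bN p (s.L j)) z x) +
        bc (kd p) (bL p (s.L j)) z x := by
    unfold Pt
    refine Finset.sum_congr rfl fun z _ => ?_
    congr 1
    funext j
    rw [bc_split3 (kd p) p (s.L j) z x]
    ring
  have h1 := sum_inj h.1 (f := fun z j => bc (kd p) (bB p (s.L j)) z x +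
    bc (kd p) (bN p (s.L j)) z x) nL
  have h2 := sum_join h.1 nB nN
  have h3 := sum_inj h.1 (f := fun z j => bc (kd p) (bB p (s.L j)) z x) nN
  have h4 := sum_inj h.1 (f := fun z j => bc (kd p) (bN p (s.L j)) z x) nB
  have e5 : ∀ z, (fun j => bc (kd p) (bN p (s.L j)) z x + bc (kd p) (bB p (s.L j)) z x) =
      fun j => bc (kd p) (bB p (s.L j)) z x + bc (kd p) (bN p (s.L j)) z x := fun z =>
    funext fun j => add_comm _ _
  simp only [e5] at h4
  rw [sum_M, sum_M] at h2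
  rw [sum_M] at h1 h3 h4
  have hB : gtot (fl s.c fun j => bB p (s.L j)) x = SB p s x := rfl
  have hN : gtot (fl s.c fun j => bN p (s.L j)) x = S (stN p s) x := rfl
  have hL : gtot (fl s.c fun j => bL p (s.L j)) x = SL p s x := rfl
  have hPB : ∑ z, Pot s.c s.W (fun j => bc (kd p) (bB p (s.L j)) z x) = PtB kd p s x := rfl
  have hPN : ∑ z, Pot s.c s.W (fun j => bc (kd p) (bN p (s.L j)) z x) = PtR kd p s x := rfl
  rw [hB, hN, hPB, hPN] at h2
  rw [hN, hPB] at h3
  rw [hB, hPN] at h4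
  rw [hL] at h1
  rw [e0]
  refine ⟨by linarith, by linarith, by linarith⟩

end st

end Crest.Agent.R4P.GWc343
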