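import Crest.Agent.R4P.Mode_940

/-!
R4 (S0004) with powers, group game, helper940: **families of classes over a TC space**.

`PP c W h = Σ_z Pot c W (h z)`, `SS c h = Σ_z M c (h z)`.

* `PP_born` : `PP ≤ 14 SS` (heights arbitrary), `PP_join`, `PP_drop`, `PP_refine`,
* `PP_col` : the column for all the classes at once, with the costs `(M c (G i z))^2` of the
  parts which are not constant on the fibre.
-/

set_option autoImplicit false
set_option linter.unusedVariables false
set_option linter.unusedSectionVars false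

namespace Crest.Agent.R4P.ModeP940

open Finset Crest.Agent.R4P.GMer27 Crest.Agent.R4P.Mode940

variable {J ζ : Type*} [Fintype J] [Fintype ζ] {c : J → ℝ} {W : Set (J → ℝ)}

/-- potential of a family of classes -/
noncomputable def PP (c : J → ℝ) (W : Set (J → ℝ)) (h : ζ → J → ℝ) : ℝ := ∑ z, Pot c W (h z)

/-- total of a family of classes -/
def SS (c : J → ℝ) (h : ζ → J → ℝ) : ℝ := ∑ z, M c (h z)

lemma PP_nonneg (H : TC c W) (h : ζ → J → ℝ) : 0 ≤ PP c W h :=
  Finset.sum_nonneg fun z _ => Pot_nonneg H _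

lemma SS_nonneg (c0 : ∀ j, 0 ≤ c j) {h : ζ → J → ℝ} (hh : ∀ z j, 0 ≤ h z j) : 0 ≤ SS c h :=
  Finset.sum_nonneg fun z _ => M_nonneg c0 (hh z)

lemma SS_add (h h' : ζ → J → ℝ) : SS c (fun z j => h z j + h' z j) = SS c h + SS c h' := by
  unfold SS
  rw [← Finset.sum_add_distrib]
  exact Finset.sum_congr rfl fun z _ => M_add (c := c) (h z) (h' z)

/-- **births from scratch** -/
lemma PP_born (H : TC c W) {h : ζ → J → ℝ} (hh : ∀ z j, 0 ≤ h z j) :
    PP c W h ≤ 14 * SS c h := by
  unfold PP SS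
  rw [Finset.mul_sum]
  refine Finset.sum_le_sum fun z _ => ?_
  have h1 := Pot_inj H (h := fun _ => 0) (x := h z) (hh z)
  rw [Pot_zero H, zero_add] at h1
  have e : (fun j => (0:ℝ) + h z j) = h z := funext fun j => zero_add _
  rwa [e] at h1

/-- the second family is born into the first one -/
lemma PP_drop (H : TC c W) {h h' : ζ → J → ℝ} (hh' : ∀ z j, 0 ≤ h' z j) :
    PP c W (fun z j => h z j + h' z j) ≤ PP c W h + 14 * SS c h' := by
  unfold PP SS
  rw [Finset.mul_sum, ← Finset.sum_add_distrib]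
  exact Finset.sum_le_sum fun z _ => Pot_inj H (hh' z)

/-- **join of two families** -/
lemma PP_join (H : TC c W) {h h' : ζ → J → ℝ} (hh : ∀ z j, 0 ≤ h z j) (hh' : ∀ z j, 0 ≤ h' z j) :
    PP c W (fun z j => h z j + h' z j) ≤ PP c W h + PP c W h' + 14 * min (SS c h) (SS c h') := by
  have key : ∀ z, Pot c W (fun j => h z j + h' z j) ≤
      Pot c W (h z) + Pot c W (h' z) + 14 * min (M c (h z)) (M c (h' z)) := by
    intro z
    have h1 := Pot_inj H (h := h z) (x := h' z) (hh' z)
    have h2 := Pot_inj H (h := h' z) (x := h z) (hh z)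
    have e : (fun j => h' z j + h z j) = fun j => h z j + h' z j := funext fun j => add_comm _ _
    rw [e] at h2
    have p1 := Pot_nonneg H (h z)
    have p2 := Pot_nonneg H (h' z)
    rcases le_total (M c (h z)) (M c (h' z)) with h3 | h3
    · rw [min_eq_left h3]; linarith
    · rw [min_eq_right h3]; linarith
  have h1 : PP c W (fun z j => h z j + h' z j) ≤
      ∑ z, (Pot c W (h z) + Pot c W (h' z) + 14 * min (M c (h z)) (M c (h' z))) :=
    Finset.sum_le_sum fun z _ => key z
  rw [Finset.sum_add_distrib, Finset.sum_add_distrib, ← Finset.mul_sum] at h1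
  have h2 : ∑ z, min (M c (h z)) (M c (h' z)) ≤ min (SS c h) (SS c h') :=
    le_min (Finset.sum_le_sum fun z _ => min_le_left _ _)
      (Finset.sum_le_sum fun z _ => min_le_right _ _)
  unfold PP at h1 ⊢
  linarith

/-- **refinement of the classes**: the class `k` of the finer family is in the class `f k` -/
lemma PP_refine (H : TC c W) {κ : Type*} [Fintype κ] [DecidableEq ζ] (f : κ → ζ)
    {h : ζ → J → ℝ} {g : κ → J → ℝ} (hg : ∀ k j, 0 ≤ g k j)
    (hs : ∀ z j, ∑ k ∈ univ.filter (fun k => f k = z), g k j = h z j) (h1 : ∀ z j, h z j ≤ 1) :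
    PP c W g ≤ PP c W h := by
  unfold PP
  rw [← Finset.sum_fiberwise_of_maps_to (s := univ) (t := univ) (g := f) fun k _ => mem_univ _]
  refine Finset.sum_le_sum fun z _ => ?_
  have h2 := Pot_sum H (univ.filter (fun k => f k = z)) g (fun k _ j => hg k j)
    (fun j => by rw [hs]; exact h1 z j)
  have e : (fun j => ∑ k ∈ univ.filter (fun k => f k = z), g k j) = h z := funext fun j => hs z j
  rwa [e] at h2

lemma SS_refine {κ : Type*} [Fintype κ] [DecidableEq ζ] (f : κ → ζ)
    {h : ζ → J → ℝ} {g : κ → J → ℝ}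
    (hs : ∀ z j, ∑ k ∈ univ.filter (fun k => f k = z), g k j = h z j) :
    SS c g = SS c h := by
  unfold SS
  rw [← Finset.sum_fiberwise_of_maps_to (s := univ) (t := univ) (g := f) fun k _ => mem_univ _]
  refine Finset.sum_congr rfl fun z _ => ?_
  rw [← M_sum]
  congr 1
  exact funext fun j => hs z j

/-- total of the family is at most the drop -/
lemma PP_mono (H : TC c W) {h g : ζ → J → ℝ} (hh : ∀ z j, 0 ≤ h z j) (hg : ∀ z j, h z j ≤ g z j)
    (h1 : ∀ z j, g z j ≤ 1) : PP c W h ≤ PP c W g :=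
  Finset.sum_le_sum fun z _ => Pot_mono H (hh z) (hg z) (h1 z)

/-! ### the column -/

section col
variable {ι : Type*} [Fintype ι] {q : ℝ} {u : ι → ℝ}

/-- **the column for all the classes at once**: `g i z` = the cost terms, `M c (X i z) - g i z` does
not depend on the lift `i` -/
theorem PP_col (H : TC c W) (hq : 0 < q ∧ q < 1) {h : ζ → J × Bool → ℝ} {X : ι → ζ → J → ℝ}
    (h0 : ∀ z x, 0 ≤ h z x) (h1 : ∀ z x, h z x ≤ 1) (u0 : ∀ i, 0 ≤ u i) (u1 : ∑ i, u i = 1)
    (C : ∀ z, Col q (h z) u (fun i => X i z)) {g : ι → ζ → ℝ} {β : ζ → ℝ}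
    (hg : ∀ i z, M c (X i z) = β z + g i z) :
    ∑ i, u i * (∑ z, g i z ^ 2 + PP c W (X i)) ≤
      PP (cT q c) (WT q W) h + ∑ z, (∑ i, u i * g i z) ^ 2 := by
  have key : ∀ z, ∑ i, u i * (g i z ^ 2 + Pot c W (X i z)) ≤
      Pot (cT q c) (WT q W) (h z) + (∑ i, u i * g i z) ^ 2 := by
    intro z
    have hc := Pot_col H hq (h0 z) (h1 z) (C z)
    set m := M (cT q c) (h z) with hm
    have e1 : ∑ i, u i * M c (X i z) = m := M_Col (C z)
    have e2 : ∑ i, u i * M c (X i z) = β z + ∑ i, u i * g i z := by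
      rw [Finset.sum_congr rfl fun i _ => show u i * M c (X i z) = u i * β z + u i * g i z by
        rw [hg i z]; ring]
      rw [Finset.sum_add_distrib, ← Finset.sum_mul, u1, one_mul]
    set a := ∑ i, u i * g i z with ha
    have e3 : m = β z + a := by rw [← e1, e2]
    have e4 : ∑ i, u i * (M c (X i z) - m) ^ 2 = ∑ i, u i * g i z ^ 2 - a ^ 2 := by
      have : ∀ i, u i * (M c (X i z) - m) ^ 2 = u i * g i z ^ 2 - 2 * a * (u i * g i z) + u i * a ^ 2 := by
        intro i
        rw [hg i z, e3]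
        ring
      rw [Finset.sum_congr rfl fun i _ => this i, Finset.sum_add_distrib, Finset.sum_sub_distrib,
        ← Finset.mul_sum, ← ha, ← Finset.sum_mul, u1]
      ring
    have e5 : ∑ i, u i * (g i z ^ 2 + Pot c W (X i z)) =
        ∑ i, u i * g i z ^ 2 + ∑ i, u i * Pot c W (X i z) := by
      rw [← Finset.sum_add_distrib]
      exact Finset.sum_congr rfl fun i _ => by ring
    rw [e5]
    have hc' : ∑ i, u i * (M c (X i z) - m) ^ 2 + ∑ i, u i * Pot c W (X i z) ≤
        Pot (cT q c) (WT q W) (h z) := hc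
    rw [e4] at hc'
    linarith
  have h2 : ∑ i, u i * (∑ z, g i z ^ 2 + PP c W (X i)) =
      ∑ z, ∑ i, u i * (g i z ^ 2 + Pot c W (X i z)) := by
    rw [Finset.sum_comm]
    refine Finset.sum_congr rfl fun i _ => ?_
    unfold PP
    rw [← Finset.sum_add_distrib, Finset.mul_sum]
  rw [h2]
  have h3 := Finset.sum_le_sum fun z (_ : z ∈ (univ : Finset ζ)) => key z
  rw [Finset.sum_add_distrib] at h3
  exact h3

/-- the column with births `e` on the lifts: contents = column row + `e` -/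
theorem PP_col_birth (H : TC c W) (hq : 0 < q ∧ q < 1) {h : ζ → J × Bool → ℝ}
    {X e : ι → ζ → J → ℝ} (h0 : ∀ z x, 0 ≤ h z x) (h1 : ∀ z x, h z x ≤ 1) (u0 : ∀ i, 0 ≤ u i)
    (u1 : ∑ i, u i = 1) (C : ∀ z, Col q (h z) u (fun i => X i z)) {g : ι → ζ → ℝ} {β : ζ → ℝ}
    (hg : ∀ i z, M c (X i z) = β z + g i z) (he : ∀ i z j, 0 ≤ e i z j) :
    ∑ i, u i * (∑ z, g i z ^ 2 + PP c W (fun z j => X i z j + e i z j)) ≤
      PP (cT q c) (WT q W) h + ∑ z, (∑ i, u i * g i z) ^ 2 + 14 * ∑ i, u i * SS c (e i) := by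
  have h2 := PP_col H hq h0 h1 u0 u1 C hg
  have h3 : ∑ i, u i * (∑ z, g i z ^ 2 + PP c W (fun z j => X i z j + e i z j)) ≤
      ∑ i, u i * (∑ z, g i z ^ 2 + PP c W (X i)) + ∑ i, 14 * (u i * SS c (e i)) := by
    rw [← Finset.sum_add_distrib]
    refine Finset.sum_le_sum fun i _ => ?_
    have h4 := PP_drop H (h := X i) (h' := e i) (he i)
    have h5 := mul_le_mul_of_nonneg_left h4 (u0 i)
    linarith
  rw [← Finset.mul_sum] at h3
  linarith

/-- **the light column**: no class structure; `S i = β + G i` -/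
theorem light_col {S : ι → ℝ} {g : ι → ℝ} {β : ℝ} (u0 : ∀ i, 0 ≤ u i) (u1 : ∑ i, u i = 1)
    (hS : ∀ i, S i = β + g i) (hβ : 0 ≤ β) (hg : ∀ i, 0 ≤ g i) (h2 : ∑ i, u i * S i ≤ 2) :
    ThL (∑ i, u i * S i) + ∑ i, u i * (if S i < 2 then g i ^ 2 else 0) ≤
      ∑ i, u i * ThL (S i) + 4 * (∑ i, u i * g i) ^ 2 := by
  have hS0 : ∀ i, 0 ≤ S i := fun i => by rw [hS i]; linarith [hg i]
  have hb := psi_breg u0 u1 hS0 h2
  set m := ∑ i, u i * S i with hm
  set a := ∑ i, u i * g i with ha
  have e1 : m = β + a := by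
    rw [hm, Finset.sum_congr rfl fun i _ => show u i * S i = u i * β + u i * g i by rw [hS i]; ring,
      Finset.sum_add_distrib, ← Finset.sum_mul, u1, one_mul]
  have e2 : ∑ i, u i * ThL (S i) = 100 * Real.log 2 * m + 4 * ∑ i, u i * psi (S i) := by
    unfold ThL
    rw [Finset.sum_congr rfl fun i _ => show u i * (100 * Real.log 2 * S i + 4 * psi (S i)) =
      100 * Real.log 2 * (u i * S i) + 4 * (u i * psi (S i)) by ring, Finset.sum_add_distrib,
      ← Finset.mul_sum, ← Finset.mul_sum]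
  have e3 : ∀ i, u i * (if S i < 2 then g i ^ 2 else 0) ≤
      2 * (u i * (if S i ≤ 2 then (S i - m) ^ 2 else 0)) + 2 * (u i * a ^ 2) := by
    intro i
    have hu := u0 i
    split_ifs with k1 k2 k2
    · have e4 : S i - m = g i - a := by rw [hS i, e1]; ring
      rw [e4]
      have : g i ^ 2 ≤ 2 * (g i - a) ^ 2 + 2 * a ^ 2 := by nlinarith [sq_nonneg (g i - 2 * a)]
      have := mul_le_mul_of_nonneg_left this hu
      nlinarith
    · exact absurd k1.le k2
    · have := mul_nonneg hu (sq_nonneg (S i - m))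
      have := mul_nonneg hu (sq_nonneg a)
      linarith
    · have := mul_nonneg hu (sq_nonneg a)
      linarith
  have h3 := Finset.sum_le_sum fun i (_ : i ∈ (univ : Finset ι)) => e3 i
  rw [Finset.sum_add_distrib, ← Finset.mul_sum, ← Finset.mul_sum, ← Finset.sum_mul, u1] at h3
  have h4 : 0 ≤ ∑ i, u i * (if S i ≤ 2 then (S i - m) ^ 2 else 0) :=
    Finset.sum_nonneg fun i _ => mul_nonneg (u0 i) (by split_ifs <;> positivity)
  rw [e2]
  unfold ThL at *
  nlinarith [sq_nonneg a]

end col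

end Crest.Agent.R4P.ModeP940
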