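import Crest.Agent.R4P.GWc_343
import Crest.Agent.R4P.ModeP_940

/-!
R4 (S0004) with powers, [MB] T2, helper343: **the column of a bundled state**.

* `Bm`, `Gm` : the two parts of a tie / pull; `cst p s x = Σ_c (GmG .. c x)²` the local term of the
  group walk (full classes); `be p s`, `GG p s` : the two parts of the total of the ties.
* `SB_dec` : `SB p s x = be p s (p x) + GG p s x`; `mean` : `Ep p (SB p s) = S (stCh p s)`.
* `cst_le_sq`, `cst_le_SB` : the cost against the total.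
* `col` : **the column**, full classes.
* `EqvL`, `GS_congrL` : `GS` does not see leaves; `GS_st` : `GS` of a state = the walk sum of `cst`.
-/

set_option autoImplicit false
set_option linter.unusedSectionVars false
set_option linter.unusedVariables false
open MeasureTheory Filter Set

namespace Crest.Agent.R4P.GWd343

open Crest.Agent.R4.Tour104 Crest.Agent.R4.Tour758 Crest.Agent.R4.Avg758 Crest.Agent.R4.Clos758
open Crest.Agent.R4.ClosL758 Crest.Agent.R4.ClosG758 Crest.Agent.R4.ClosR758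
open Crest.Agent.R4P.ClosR442 Crest.Agent.R4P.Grp36
open Crest.Agent.R4P.Xfer36 Crest.Agent.R4P.TopC36 Crest.Agent.R4P.PN36
open Crest.Agent.R4P.GainX36 (vT PB_vT)
open Crest.Agent.R4P.GMer27 Crest.Agent.R4P.GCol27 Crest.Agent.R4P.GWa343 Crest.Agent.R4P.GWb343
open Crest.Agent.R4P.GWc343
open Crest.Agent.R4P.ModeP940 (PP PP_col)
open Crest.Agent.R4P.LogG51 (gtot PB_gtot gtot_split Ep_gtot gtot_cval)
open Crest.Agent.R4P.LogL51 (isLf)
open Crest.Agent.R4P.Walk560 (DT)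

section st
variable {Λ κ : Type} [Fintype Λ] [DecidableEq Λ] [Fintype κ] [DecidableEq κ]

/-! ### the two parts of a tie -/

open Classical in
/-- the constant part of a tie (`0` for the other nodes) -/
noncomputable def Bm : DT Λ κ → κ → ℝ → ℝ
  | .br _ _ _ _ _ _ B _ => fun c x => if (∀ c, PB (B c)) then B c x else 0
  | _ => fun _ _ => 0

lemma PB_Bm (t : DT Λ κ) (c : κ) : PB (Bm t c) := by
  cases t with
  | br q w r t₁ t₀ v B G =>
    unfold Bm
    by_cases h : ∀ c, PB (B c)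
    · simp only [if_pos h]; exact h c
    · simp only [if_neg h]; exact PB.const le_rfl
  | _ => exact PB.const le_rfl

lemma PB_Gm' (t : DT Λ κ) (c : κ) : PB (Gm t c) := by
  cases t with
  | br q w r t₁ t₀ v B G =>
    unfold Gm
    by_cases h : ∀ c, PB (G c)
    · simp only [if_pos h]; exact h c
    · simp only [if_neg h]; exact PB.const le_rfl
  | _ => exact PB.const le_rfl

/-- the class content of a tie or pull -/
lemma tie_dec {p : ℕ} {t : DT Λ κ} (h : NOk t) (hb : isB p t = true) (c : κ) (x : ℝ) :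
    vT t c x = Bm t c (p * x) + Gm t c x := by
  obtain ⟨w, r, t₁, t₀, v, B, G, e⟩ := isB_eq hb
  subst e
  have hT := TieOk.br h.1
  have pB : ∀ c, PB (B c) := fun c => (h.2.2.2.col c).pB
  have pG : ∀ c, PB (G c) := fun c => (h.2.2.2.col c).pG
  show sm r v c x = Bm _ c (p * x) + Gm _ c x
  unfold Bm Gm
  simp only [if_pos pB, if_pos pG]
  exact hT.ev c x

/-- the total of a tie or pull -/
lemma tie_tot {p : ℕ} {t : DT Λ κ} (h : NOk t) (hb : isB p t = true) (x : ℝ) :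
    ∑ j, t.g.val j x = ∑ c, Bm t c (p * x) + ∑ c, Gm t c x := by
  have e1 : ∑ j, t.g.val j x = ∑ c, vT t c x := by
    obtain ⟨w, r, t₁, t₀, v, B, G, e⟩ := isB_eq hb
    subst e
    exact (sum_cf r (DT.br p w r t₁ t₀ v B G) x).symm
  rw [e1, ← Finset.sum_add_distrib]
  exact Finset.sum_congr rfl fun c _ => tie_dec h hb c x

/-- constant part of a group -/
noncomputable def BmG (g : Gp Λ κ) (c : κ) (y : ℝ) : ℝ := ev g fun t => Bm t c y

lemma GmG_ev (g : Gp Λ κ) (c : κ) (x : ℝ) : GmG g c x = ev g fun t => Gm t c x := rfl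

lemma PB_ev {g : Gp Λ κ} (h : ∀ m ∈ g, 0 ≤ m.1) {φ : DT Λ κ → ℝ → ℝ} (hφ : ∀ t, PB (φ t)) :
    PB fun x => ev g fun t => φ t x := by
  induction g with
  | nil => exact PB.const le_rfl
  | cons m g ih =>
    have e : (fun x => ev (m :: g) fun t => φ t x) = fun x => m.1 * φ m.2 x + ev g fun t => φ t x :=
      funext fun x => ev_cons _ _ _
    rw [e]
    exact ((hφ m.2).smul (h m (by simp))).add (ih fun a ha => h a (List.mem_cons_of_mem _ ha))

/-- the ties and pulls of a state -/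
noncomputable def gBs (p : ℕ) (s : St Λ κ) : Gp Λ κ := fl s.c fun j => bB p (s.L j)

lemma mem_fl {J : Type*} [Fintype J] {a : J → ℝ} {L : J → List (DT Λ κ)} {m : ℝ × DT Λ κ}
    (h : m ∈ fl a L) : ∃ j, ∃ t ∈ L j, m = (a j, t) := by
  obtain ⟨j, -, hm⟩ := List.mem_flatMap.1 h
  obtain ⟨t, ht, rfl⟩ := List.mem_map.1 hm
  exact ⟨j, t, ht, rfl⟩

/-- constant part, total -/
noncomputable def be (p : ℕ) (s : St Λ κ) (y : ℝ) : ℝ := ∑ c, BmG (gBs p s) c y

/-- lift part, total -/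
noncomputable def GG (p : ℕ) (s : St Λ κ) (x : ℝ) : ℝ := ∑ c, GmG (gBs p s) c x

/-- **the local term of the group walk**, full classes -/
noncomputable def cst (p : ℕ) (s : St Λ κ) (x : ℝ) : ℝ := ∑ c, GmG (gBs p s) c x ^ 2

variable {p : ℕ} {s : St Λ κ}

lemma gBs_nonneg (c0 : ∀ j, 0 ≤ s.c j) : ∀ m ∈ gBs p s, 0 ≤ m.1 := by
  intro m hm
  obtain ⟨j, t, -, rfl⟩ := mem_fl hm
  exact c0 j

lemma PB_gG (c0 : ∀ j, 0 ≤ s.c j) (c : κ) : PB (GmG (gBs p s) c) :=
  PB_ev (gBs_nonneg c0) fun t => PB_Gm' t c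

lemma PB_gBm (c0 : ∀ j, 0 ≤ s.c j) (c : κ) : PB (BmG (gBs p s) c) :=
  PB_ev (gBs_nonneg c0) fun t => PB_Bm t c

lemma PB_be (c0 : ∀ j, 0 ≤ s.c j) : PB (be p s) := PB.sum _ fun c _ => PB_gBm c0 c
lemma PB_GG (c0 : ∀ j, 0 ≤ s.c j) : PB (GG p s) := PB.sum _ fun c _ => PB_gG c0 c
lemma PB_cst (c0 : ∀ j, 0 ≤ s.c j) : PB (cst p s) := PB.sum _ fun c _ => PBsq (PB_gG c0 c)

/-- good nodes at the column `p` -/
def BN (p : ℕ) (s : St Λ κ) : Prop := ∀ j, ∀ t ∈ bB p (s.L j), NOk t ∧ isB p t = true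

lemma ev_congr' {g : Gp Λ κ} {φ ψ : DT Λ κ → ℝ} (h : ∀ m ∈ g, φ m.2 = ψ m.2) : ev g φ = ev g ψ := by
  induction g with
  | nil => rfl
  | cons m g ih =>
    rw [ev_cons, ev_cons, h m (by simp), ih fun a ha => h a (List.mem_cons_of_mem _ ha)]

lemma ev_add (g : Gp Λ κ) (φ ψ : DT Λ κ → ℝ) :
    ev g (fun t => φ t + ψ t) = ev g φ + ev g ψ := by
  induction g with
  | nil => simp
  | cons m g ih => rw [ev_cons, ev_cons, ev_cons, ih]; ring

lemma ev_fsum {ι : Type*} (u : Finset ι) (g : Gp Λ κ) (φ : ι → DT Λ κ → ℝ) :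
    ev g (fun t => ∑ i ∈ u, φ i t) = ∑ i ∈ u, ev g (φ i) := by
  induction g with
  | nil => simp
  | cons m g ih =>
    rw [ev_cons, ih, Finset.mul_sum, ← Finset.sum_add_distrib]
    exact Finset.sum_congr rfl fun i _ => (ev_cons _ _ _).symm

/-- **the decomposition of the total** -/
lemma SB_dec (h : BN p s) (x : ℝ) : GWc343.SB p s x = be p s (p * x) + GG p s x := by
  unfold GWc343.SB be GG BmG
  rw [gtot_ev]
  have e : ev (fl s.c fun j => bB p (s.L j)) (fun t => ∑ j, t.g.val j x) =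
      ev (gBs p s) (fun t => ∑ c, Bm t c (p * x) + ∑ c, Gm t c x) := by
    refine ev_congr' fun m hm => ?_
    obtain ⟨j, t, ht, rfl⟩ := mem_fl hm
    exact tie_tot (h j t ht).1 (h j t ht).2 x
  rw [e, ev_add, ev_fsum, ev_fsum]
  rfl

/-- **the cost against the total, light** -/
lemma cst_le_sq (c0 : ∀ j, 0 ≤ s.c j) (x : ℝ) : cst p s x ≤ GG p s x ^ 2 := by
  unfold cst GG
  exact sum_sq_le _ _ fun c _ => (PB_gG c0 c).nonneg x

/-- the average content of a class of the ties -/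
lemma M_dec {kd : Λ → κ} (h : ∀ j, BOk kd p (bB p (s.L j))) (z : κ) (x : ℝ) :
    M s.c (fun j => bc kd (bB p (s.L j)) z x) =
      BmG (gBs p s) z (p * x) + GmG (gBs p s) z x := by
  have e0 : M s.c (fun j => bc kd (bB p (s.L j)) z x) = ev (gBs p s) fun t => cf kd t z x := by
    unfold gBs
    rw [ev_fl]
    rfl
  rw [e0]
  unfold BmG
  rw [GmG_ev, ← ev_add]
  refine ev_congr' fun m hm => ?_
  obtain ⟨j, t, ht, rfl⟩ := mem_fl hm
  rw [cf_v (h j) ht, tie_dec ((h j).ok t ht).1 ((h j).ok t ht).2]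

variable {kd : ℕ → Λ → κ}

/-- **the cost against the total, heavy** -/
lemma cst_le_SB (hs : GSt kd p s) (h : ∀ j, BOk (kd p) p (bB p (s.L j))) (x : ℝ) :
    cst p s x ≤ GWc343.SB p s x := by
  have e : GWc343.SB p s x = ∑ z, M s.c (fun j => bc (kd p) (bB p (s.L j)) z x) :=
    (sum_M (kd p) s.c (fun j => bB p (s.L j)) x).symm
  rw [e]
  unfold cst
  refine Finset.sum_le_sum fun z _ => ?_
  have h1 := M_dec h z x
  have h2 := (PB_gG (p := p) hs.1.c0 z).nonneg x
  have h3 := (PB_gBm (p := p) hs.1.c0 z).nonneg (p * x)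
  have h4 : M s.c (fun j => bc (kd p) (bB p (s.L j)) z x) ≤ 1 := by
    rw [← M_const hs.1.c1 1]
    exact M_mono hs.1.c0 fun j => bB_le (hs.2 j) z x
  nlinarith

/-! ### the mean -/

lemma bt_append (L K : List (DT Λ κ)) (x : ℝ) : bt (L ++ K) x = bt L x + bt K x := by simp [bt]

/-- **the mean of the total** -/
theorem mean (hs : GSt kd p s) (hw : ∀ j, ∀ t ∈ bB p (s.L j), WOk p t)
    (hn : p < 2 → ∀ j, bB p (s.L j) = []) (y : ℝ) : Ep p (GWc343.SB p s) y = S (stCh p s) y := by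
  by_cases hp : 2 ≤ p
  · have h1 := Ep_gtot (p := p) hs.gok y
    have e1 : GWc343.SB p s = gtot (gB p s.g) := funext fun x =>
      (gtot_congr (fl_gB p s.c s.L) x).symm
    rw [e1, h1, stCh_pos hp]
    exact gtot_congr (fl_gC s.c s.L hw) y
  · rw [stCh_neg hp]
    have hn' := hn (by omega)
    have e1 : GWc343.SB p s = fun _ => 0 := by
      funext x
      unfold GWc343.SB
      rw [gtot_fl]
      refine Finset.sum_eq_zero fun j _ => ?_
      rw [hn' j]
      simp [bt]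
    have e2 : S (⟨s.J, s.fJ, s.c, s.W, fun _ => []⟩ : St Λ κ) y = 0 := by
      unfold S St.g
      rw [gtot_fl]
      exact Finset.sum_eq_zero fun j _ => by simp [bt]
    rw [e1, e2]
    unfold Ep
    simp

/-! ### the column -/

/-- the error of the column -/
noncomputable def exC (p : ℕ) (s : St Λ κ) (x : ℝ) : ℝ :=
  ∑ c, Ep p (GmG (gBs p s) c) (p * x) ^ 2

lemma PB_exC (hp : 0 < p) (c0 : ∀ j, 0 ≤ s.c j) : PB (exC p s) :=
  PB.sum _ fun c _ => PBsq (((PB_gG c0 c).Ep hp).pull p)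

/-- **the column, full classes** -/
theorem col (hp : 2 ≤ p) (hs : GSt kd p s) (h : ∀ j, BOk (kd p) p (bB p (s.L j)))
    (h1 : GSt kd p (stCh p s)) (y : ℝ) :
    Ep p (fun x => cst p s x + PtB kd p s x) y ≤
      Pt kd p (stCh p s) y + Ep p (exC p s) y := by
  have hp0 : 0 < p := by omega
  have hp' : (0 : ℝ) < p := by exact_mod_cast hp0
  have hp2 : (2 : ℝ) ≤ p := by exact_mod_cast hp
  have hq : 0 < 1 - 1 / (p : ℝ) ∧ 1 - 1 / (p : ℝ) < 1 := by
    have : 1 / (p : ℝ) ≤ 1 / 2 := one_div_le_one_div_of_le (by norm_num) hp2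
    have : 0 < 1 / (p : ℝ) := by positivity
    constructor <;> linarith
  rw [stCh_pos hp] at h1
  have hh0 : ∀ (z : κ) (x : s.J × Bool), 0 ≤ bc (kd p) (stC p s.L x) z y := fun z x =>
    bc_nonneg (h1.2 x).pb z y
  have hh1 : ∀ (z : κ) (x : s.J × Bool), bc (kd p) (stC p s.L x) z y ≤ 1 := fun z x =>
    (h1.2 x).le1 z y
  have u1 : ∑ _i : Fin p, 1 / (p : ℝ) = 1 := by
    rw [Finset.sum_const, Finset.card_univ, Fintype.card_fin, nsmul_eq_mul]
    field_simp
  have key := PP_col hs.1 hq (h := fun z x => bc (kd p) (stC p s.L x) z y)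
    (X := fun (i : Fin p) z j => bc (kd p) (bB p (s.L j)) z ((y + (i : ℕ)) / p))
    hh0 hh1 (u := fun _ : Fin p => 1 / (p : ℝ)) (fun _ => by positivity) u1
    (fun z => colB hp0 h z y)
    (g := fun i z => GmG (gBs p s) z ((y + (i : ℕ)) / p)) (β := fun z => BmG (gBs p s) z y)
    (fun i z => by
      rw [M_dec h z, mul_div_cancel₀ _ hp'.ne', (PB_gBm hs.1.c0 z).per_nat])
  have e1 : Ep p (fun x => cst p s x + PtB kd p s x) y =
      ∑ i : Fin p, 1 / (p : ℝ) * (∑ z, GmG (gBs p s) z ((y + (i : ℕ)) / p) ^ 2 +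
        PP s.c s.W fun z j => bc (kd p) (bB p (s.L j)) z ((y + (i : ℕ)) / p)) := by
    unfold Ep
    rw [← Fin.sum_univ_eq_sum_range (fun i => cst p s ((y + i) / p) + PtB kd p s ((y + i) / p)) p,
      Finset.sum_div]
    refine Finset.sum_congr rfl fun i _ => ?_
    have e2 : PP s.c s.W (fun z j => bc (kd p) (bB p (s.L j)) z ((y + (i : ℕ)) / p)) =
        PtB kd p s ((y + (i : ℕ)) / p) := rfl
    rw [e2]
    unfold cst
    ring
  have e3 : ∀ z, ∑ i : Fin p, 1 / (p : ℝ) * GmG (gBs p s) z ((y + (i : ℕ)) / p) =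
      Ep p (GmG (gBs p s) z) y := by
    intro z
    unfold Ep
    rw [← Fin.sum_univ_eq_sum_range (fun i => GmG (gBs p s) z ((y + i) / p)) p, Finset.sum_div]
    exact Finset.sum_congr rfl fun i _ => by ring
  have e4 : Ep p (exC p s) y = ∑ z, Ep p (GmG (gBs p s) z) y ^ 2 := by
    have hpb : PB fun y => ∑ z, Ep p (GmG (gBs p s) z) y ^ 2 :=
      PB.sum _ fun z _ => PBsq ((PB_gG hs.1.c0 z).Ep hp0)
    show Ep p (fun x => (fun y => ∑ z, Ep p (GmG (gBs p s) z) y ^ 2) (p * x)) y = _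
    unfold Ep
    have e5 : ∀ i ∈ Finset.range p, (fun y => ∑ z, Ep p (GmG (gBs p s) z) y ^ 2)
        (p * ((y + (i : ℝ)) / p)) = ∑ z, Ep p (GmG (gBs p s) z) y ^ 2 := fun i _ => by
      have := pull_fibre (a := fun y => ∑ z, Ep p (GmG (gBs p s) z) y ^ 2) hp0 hpb.per y i
      exact this
    have e6 := Finset.sum_congr rfl e5
    unfold Ep at e6
    rw [e6, Finset.sum_const, Finset.card_range, nsmul_eq_mul]
    field_simp
  rw [e1, e4, stCh_pos hp]
  refine key.trans (le_of_eq ?_)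
  have e7 : PP (cT (1 - 1 / (p : ℝ)) s.c) (WT (1 - 1 / (p : ℝ)) s.W)
      (fun z x => bc (kd p) (stC p s.L x) z y) =
      Pt kd p ⟨s.J × Bool, inferInstance, cT (1 - 1 / (p : ℝ)) s.c,
        WT (1 - 1 / (p : ℝ)) s.W, stC p s.L⟩ y := rfl
  rw [e7]
  congr 1
  exact Finset.sum_congr rfl fun z _ => by rw [e3 z]

/-! ### leaves -/

/-- the same measure outside of the leaves -/
def EqvL (g h : Gp Λ κ) : Prop :=
  ∀ φ : DT Λ κ → ℝ, (∀ t, isLf t = true → φ t = 0) → ev g φ = ev h φ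

lemma Eqv.toL {g h : Gp Λ κ} (H : Eqv g h) : EqvL g h := fun φ _ => H φ

lemma EqvL.trans {g h k : Gp Λ κ} (H : EqvL g h) (K : EqvL h k) : EqvL g k :=
  fun φ hφ => (H φ hφ).trans (K φ hφ)

lemma EqvL.symm {g h : Gp Λ κ} (H : EqvL g h) : EqvL h g := fun φ hφ => (H φ hφ).symm

lemma rs_leaf (p : ℕ) {t : DT Λ κ} (h : isLf t = true) : rs p t = [t] ∧ isB p t = false := by
  cases t with
  | leaf r f => exact ⟨rfl, rfl⟩
  | br q w r t₁ t₀ v B G => simp [isLf] at h
  | add q r t₁ t₀ => simp [isLf] at h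
  | up q Sp t => simp [isLf] at h

lemma EqvL.gB {p : ℕ} {g h : Gp Λ κ} (H : EqvL g h) : Eqv (gB p g) (gB p h) := fun φ => by
  rw [ev_gB, ev_gB]
  refine H _ fun t ht => ?_
  rw [(rs_leaf p ht).1]
  simp [(rs_leaf p ht).2]

lemma EqvL.gR {p : ℕ} {g h : Gp Λ κ} (H : EqvL g h) : EqvL (gR p g) (gR p h) := fun φ hφ => by
  rw [ev_gR, ev_gR]
  refine H _ fun t ht => ?_
  rw [(rs_leaf p ht).1]
  simp [(rs_leaf p ht).2, hφ t ht]

lemma EqvL.gC {p : ℕ} {g h : Gp Λ κ} (H : EqvL g h) : Eqv (gC p g) (gC p h) := fun φ => by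
  rw [ev_gC, ev_gC, H.gB]

/-- **`GS` does not see leaves** -/
theorem GS_congrL {loc : ℕ → Gp Λ κ → ℝ} (hl : LocE loc) : ∀ (n p : ℕ) (g h : Gp Λ κ), EqvL g h →
    GS loc n p g = GS loc n p h := by
  intro n
  induction n with
  | zero => intro p g h _; rfl
  | succ n ih =>
    intro p g h H
    unfold GS
    split_ifs with hp
    · rfl
    · rw [hl p _ _ (H.gB (p := p)), ih p _ _ (Eqv.toL (H.gC (p := p))),
        ih (p - 1) _ _ (H.gR (p := p))]

lemma fl_bR_bN {J : Type*} [Fintype J] (p : ℕ) (a : J → ℝ) (L : J → List (DT Λ κ)) :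
    EqvL (fl a fun j => bR p (L j)) (fl a fun j => bN p (L j)) := fun φ hφ => by
  rw [ev_fl, ev_fl]
  refine Finset.sum_congr rfl fun j _ => ?_
  congr 1
  unfold bN
  induction bR p (L j) with
  | nil => rfl
  | cons t K ih =>
    by_cases h : isLf t = true
    · rw [List.filter_cons_of_neg (by simp [h]), List.map_cons, List.sum_cons, hφ t h, zero_add, ih]
    · rw [List.filter_cons_of_pos (by simpa using h), List.map_cons, List.sum_cons, List.map_cons,
        List.sum_cons, ih]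

/-- the local term of the group walk, full classes -/
noncomputable def locF (_ : ℕ) (g : Gp Λ κ) : ℝ := I (fun x => ∑ c, GmG g c x ^ 2)

lemma locF_E : LocE (locF : ℕ → Gp Λ κ → ℝ) := fun p g h H => by
  unfold locF
  congr 1
  funext x
  refine Finset.sum_congr rfl fun c _ => ?_
  rw [GmG_ev, GmG_ev, H]

lemma locF_nil (p : ℕ) : locF p ([] : Gp Λ κ) = 0 := by
  unfold locF GmG
  simp [I]

lemma GS_nil' {loc : ℕ → Gp Λ κ → ℝ} (h0 : ∀ p, loc p [] = 0) : ∀ n p : ℕ, GS loc n p [] = 0 := by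
  intro n
  induction n with
  | zero => intro p; rfl
  | succ n ih =>
    intro p
    unfold GS
    split_ifs with hp
    · rfl
    · rw [gB_nil, gC_nil, gR_nil, ih, ih, h0]; ring

/-- **the step of `GS` for a state** -/
theorem GS_st (n : ℕ) (hp : p ≠ 0) (hw : ∀ j, ∀ t ∈ bB p (s.L j), WOk p t)
    (hn : p < 2 → ∀ j, bB p (s.L j) = []) :
    GS locF (n + 1) p s.g = I (cst p s) + GS locF n p (stCh p s).g +
      GS locF n (p - 1) (stN p s).g := by
  have h1 := GS_step locF_E n hp s.c s.L hw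
  have h2 : GS locF n (p - 1) (fl s.c fun j => bR p (s.L j)) = GS locF n (p - 1) (stN p s).g :=
    GS_congrL locF_E n (p - 1) _ _ (fl_bR_bN p s.c s.L)
  have h3 : GS locF n p (fl (cT (1 - 1 / (p : ℝ)) s.c) (stC p s.L)) =
      GS locF n p (stCh p s).g := by
    by_cases h : 2 ≤ p
    · rw [stCh_pos h]; rfl
    · rw [stCh_neg h]
      have hn' := hn (by omega)
      have e1 : Eqv (fl (cT (1 - 1 / (p : ℝ)) s.c) (stC p s.L)) ([] : Gp Λ κ) := fun φ => by
        rw [ev_fl, ev_nil]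
        refine Finset.sum_eq_zero fun x _ => ?_
        unfold stC
        rw [hn' x.1]
        simp
      have e2 : Eqv (St.g (⟨s.J, s.fJ, s.c, s.W, fun _ => []⟩ : St Λ κ)) ([] : Gp Λ κ) := fun φ => by
        unfold St.g
        rw [ev_fl, ev_nil]
        exact Finset.sum_eq_zero fun x _ => by simp
      rw [GS_congr locF_E n p _ _ e1, GS_congr locF_E n p _ _ e2]
  rw [← h2, ← h3]
  exact h1

end st

end Crest.Agent.R4P.GWd343
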