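import Crest.Agent.R4P.ModeG_51
import Crest.Agent.R4P.ModeP_940
import Crest.Agent.R4P.GCol_27

/-!
R4 (S0004) with powers, [MB] T2, helper343: **row systems** = abstract contents for the mode walk
`ModeG_51`.

* `Gs β` : group states over a type `β` of bundles : members `J`, weights `c`, test class `W`,
  bundles `L : J → β`.
* `RS β δ` : row system: operations `cP cN rN` on bundles, totals `tt tL tB`, contents `h hL hB hN` by
  the classes `δ` (arbitrary functions, heights `≤ 1`).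
* `RC R` : group data `be G cost ex br` over a row system with the facts of the column.
* `RC.mw : MW (Gs β)` : **the instance**, so that `ModeG51.main`, `main_eps` apply.
* `RowAx`, `col_of_rows` : the column from rows, `hB z = X z + e z`, `M (X z) = be z (p x) + g z x`.
-/

set_option autoImplicit false
set_option linter.unusedSectionVars false
set_option linter.unusedVariables false
open MeasureTheory Filter Set

namespace Crest.Agent.R4P.RSys343

open Crest.Agent.R4.Tour104 Crest.Agent.R4.Clos758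
open Crest.Agent.R4P.GMer27 Crest.Agent.R4P.GCol27
open Crest.Agent.R4P.ModeP940 (PP SS PP_col PP_join PP_drop PP_born PP_nonneg PP_col_birth)
open Crest.Agent.R4P.ModeG51 (MW)

/-- group states -/
structure Gs (β : Type) where
  /-- members -/
  J : Type
  /-- finite -/
  fJ : Fintype J
  /-- weights -/
  c : J → ℝ
  /-- test class -/
  W : Set (J → ℝ)
  /-- bundles -/
  L : J → β

instance {β : Type} (s : Gs β) : Fintype s.J := s.fJ

/-- **row system** : bundles `β`, classes `δ` -/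
structure RS (β δ : Type) [Fintype δ] where
  /-- children P -/
  cP : ℕ → β → β
  /-- children N -/
  cN : ℕ → β → β
  /-- the rest (without ties, pulls and leaves) -/
  rN : ℕ → β → β
  /-- invariant -/
  ok : ℕ → β → Prop
  okP : ∀ {p b}, ok p b → p ≠ 0 → ok p (cP p b)
  okN : ∀ {p b}, ok p b → p ≠ 0 → ok p (cN p b)
  okR : ∀ {p b}, ok p b → p ≠ 0 → ok (p - 1) (rN p b)
  /-- total -/
  tt : β → ℝ → ℝ
  /-- total of the leaves and births -/
  tL : ℕ → β → ℝ → ℝ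
  /-- total of the ties and pulls -/
  tB : ℕ → β → ℝ → ℝ
  /-- contents -/
  h : ℕ → β → δ → ℝ → ℝ
  /-- contents of leaves and births -/
  hL : ℕ → β → δ → ℝ → ℝ
  /-- contents of ties and pulls -/
  hB : ℕ → β → δ → ℝ → ℝ
  /-- contents of the rest, by the classes of the column `p` -/
  hN : ℕ → β → δ → ℝ → ℝ
  pL : ∀ {p b}, ok p b → p ≠ 0 → ∀ z, PB (hL p b z)
  pB : ∀ {p b}, ok p b → p ≠ 0 → ∀ z, PB (hB p b z)
  pN : ∀ {p b}, ok p b → p ≠ 0 → ∀ z, PB (hN p b z)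
  ph : ∀ {p b}, ok p b → ∀ z, PB (h p b z)
  le1 : ∀ {p b}, ok p b → ∀ z x, h p b z x ≤ 1
  sp : ∀ {p b}, ok p b → p ≠ 0 → ∀ z x, h p b z x = hL p b z x + hB p b z x + hN p b z x
  sh : ∀ {p b}, ok p b → ∀ x, ∑ z, h p b z x = tt b x
  sL : ∀ {p b}, ok p b → p ≠ 0 → ∀ x, ∑ z, hL p b z x = tL p b x
  sB : ∀ {p b}, ok p b → p ≠ 0 → ∀ x, ∑ z, hB p b z x = tB p b x
  sN : ∀ {p b}, ok p b → p ≠ 0 → ∀ x, ∑ z, hN p b z x = tt (rN p b) x
  mean : ∀ {p b}, ok p b → 2 ≤ p → ∀ y,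
    Ep p (tB p b) y = 1 / (p : ℝ) * tt (cN p b) y + (1 - 1 / (p : ℝ)) * tt (cP p b) y
  no1 : ∀ {b}, ok 1 b → ∀ x, tB 1 b x = 0 ∧ tt (cP 1 b) x = 0

section rs
variable {β δ : Type} [Fintype δ] (R : RS β δ)

namespace RS

/-- the state of the children -/
noncomputable def C (p : ℕ) (s : Gs β) : Gs β :=
  if 2 ≤ p then ⟨s.J × Bool, inferInstance, cT (1 - 1 / (p : ℝ)) s.c,
    WT (1 - 1 / (p : ℝ)) s.W, fun x => if x.2 then R.cP p (s.L x.1) else R.cN p (s.L x.1)⟩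
  else ⟨s.J, s.fJ, s.c, s.W, fun j => R.cP p (s.L j)⟩

/-- the state of the rest -/
def N (p : ℕ) (s : Gs β) : Gs β := ⟨s.J, s.fJ, s.c, s.W, fun j => R.rN p (s.L j)⟩

lemma C_pos {p : ℕ} (hp : 2 ≤ p) (s : Gs β) : R.C p s =
    ⟨s.J × Bool, inferInstance, cT (1 - 1 / (p : ℝ)) s.c,
    WT (1 - 1 / (p : ℝ)) s.W, fun x => if x.2 then R.cP p (s.L x.1) else R.cN p (s.L x.1)⟩ :=
  if_pos hp

lemma C_neg {p : ℕ} (hp : ¬ 2 ≤ p) (s : Gs β) : R.C p s =
    ⟨s.J, s.fJ, s.c, s.W, fun j => R.cP p (s.L j)⟩ := if_neg hp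

/-- total -/
noncomputable def S (s : Gs β) (x : ℝ) : ℝ := M s.c fun j => R.tt (s.L j) x
/-- total of leaves and births -/
noncomputable def SL (p : ℕ) (s : Gs β) (x : ℝ) : ℝ := M s.c fun j => R.tL p (s.L j) x
/-- total of ties and pulls -/
noncomputable def SB (p : ℕ) (s : Gs β) (x : ℝ) : ℝ := M s.c fun j => R.tB p (s.L j) x
/-- potential -/
noncomputable def Pt (p : ℕ) (s : Gs β) (x : ℝ) : ℝ := PP s.c s.W fun z j => R.h p (s.L j) z x
/-- potential of the ties and pulls -/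
noncomputable def PtB (p : ℕ) (s : Gs β) (x : ℝ) : ℝ := PP s.c s.W fun z j => R.hB p (s.L j) z x
/-- potential of the rest, classes of the column `p` -/
noncomputable def PtR (p : ℕ) (s : Gs β) (x : ℝ) : ℝ := PP s.c s.W fun z j => R.hN p (s.L j) z x

/-- good group states -/
def gok (p : ℕ) (s : Gs β) : Prop := TC s.c s.W ∧ ∀ j, R.ok p (s.L j)

variable {R} {p : ℕ} {s : Gs β}

lemma q_bd (hp : 2 ≤ p) : 0 < 1 - 1 / (p : ℝ) ∧ 1 - 1 / (p : ℝ) < 1 := by
  have hp2 : (2 : ℝ) ≤ p := by exact_mod_cast hp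
  have : 1 / (p : ℝ) ≤ 1 / 2 := one_div_le_one_div_of_le (by norm_num) hp2
  have : 0 < 1 / (p : ℝ) := by positivity
  constructor <;> linarith

lemma gok_C (hs : R.gok p s) (hp : p ≠ 0) : R.gok p (R.C p s) := by
  by_cases h : 2 ≤ p
  · rw [C_pos R h]
    refine ⟨hs.1.tie (q_bd h), fun x => ?_⟩
    show R.ok p (if x.2 = true then R.cP p (s.L x.1) else R.cN p (s.L x.1))
    split_ifs
    · exact R.okP (hs.2 x.1) hp
    · exact R.okN (hs.2 x.1) hp
  · rw [C_neg R h]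
    exact ⟨hs.1, fun j => R.okP (hs.2 j) hp⟩

lemma gok_N (hs : R.gok p s) (hp : p ≠ 0) : R.gok (p - 1) (R.N p s) :=
  ⟨hs.1, fun j => R.okR (hs.2 j) hp⟩

lemma PB_sumδ {f : δ → ℝ → ℝ} {g : ℝ → ℝ} (hf : ∀ z, PB (f z)) (e : ∀ x, ∑ z, f z x = g x) :
    PB g := by
  have : g = fun x => ∑ z, f z x := funext fun x => (e x).symm
  rw [this]
  exact PB.sum _ fun z _ => hf z

lemma PB_MM {f : β → ℝ → ℝ} (hs : R.gok p s) (hf : ∀ j, PB (f (s.L j))) :
    PB fun x => M s.c fun j => f (s.L j) x :=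
  PB_M hs.1.c0 (f := fun x j => f (s.L j) x) hf

lemma PB_S (hs : R.gok p s) : PB (R.S s) :=
  PB_MM hs fun j => PB_sumδ (R.ph (hs.2 j)) (R.sh (hs.2 j))

lemma PB_SL (hs : R.gok p s) (hp : p ≠ 0) : PB (R.SL p s) :=
  PB_MM (f := R.tL p) hs fun j => PB_sumδ (R.pL (hs.2 j) hp) (R.sL (hs.2 j) hp)

lemma PB_SB (hs : R.gok p s) (hp : p ≠ 0) : PB (R.SB p s) :=
  PB_MM (f := R.tB p) hs fun j => PB_sumδ (R.pB (hs.2 j) hp) (R.sB (hs.2 j) hp)

lemma SS_swap {f : β → δ → ℝ → ℝ} {g : β → ℝ → ℝ} (x : ℝ) (e : ∀ j, ∑ z, f (s.L j) z x = g (s.L j) x) :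
    SS s.c (fun z j => f (s.L j) z x) = M s.c fun j => g (s.L j) x := by
  unfold SS
  rw [← M_sum]
  congr 1
  funext j
  exact e j

lemma SS_h (hs : R.gok p s) (x : ℝ) : SS s.c (fun z j => R.h p (s.L j) z x) = R.S s x :=
  SS_swap (f := R.h p) (g := R.tt) x fun j => R.sh (hs.2 j) x

lemma SS_hL (hs : R.gok p s) (hp : p ≠ 0) (x : ℝ) :
    SS s.c (fun z j => R.hL p (s.L j) z x) = R.SL p s x :=
  SS_swap (f := R.hL p) (g := R.tL p) x fun j => R.sL (hs.2 j) hp x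

lemma SS_hB (hs : R.gok p s) (hp : p ≠ 0) (x : ℝ) :
    SS s.c (fun z j => R.hB p (s.L j) z x) = R.SB p s x :=
  SS_swap (f := R.hB p) (g := R.tB p) x fun j => R.sB (hs.2 j) hp x

lemma SS_hN (hs : R.gok p s) (hp : p ≠ 0) (x : ℝ) :
    SS s.c (fun z j => R.hN p (s.L j) z x) = R.S (R.N p s) x := by
  unfold SS
  rw [← M_sum]
  show M s.c (fun j => ∑ z, R.hN p (s.L j) z x) = M s.c fun j => R.tt (R.rN p (s.L j)) x
  congr 1
  funext j
  exact R.sN (hs.2 j) hp x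

/-- **the three parts of the total** -/
lemma spl (hs : R.gok p s) (hp : p ≠ 0) (x : ℝ) :
    R.S s x = R.SL p s x + R.SB p s x + R.S (R.N p s) x := by
  show M s.c (fun j => R.tt (s.L j) x) = M s.c (fun j => R.tL p (s.L j) x) +
    M s.c (fun j => R.tB p (s.L j) x) + M s.c fun j => R.tt (R.rN p (s.L j)) x
  rw [← M_add, ← M_add]
  congr 1
  funext j
  rw [← R.sh (hs.2 j), ← R.sL (hs.2 j) hp, ← R.sB (hs.2 j) hp, ← R.sN (hs.2 j) hp,
    ← Finset.sum_add_distrib, ← Finset.sum_add_distrib]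
  exact Finset.sum_congr rfl fun z _ => R.sp (hs.2 j) hp z x

/-- **the mean** -/
lemma mean' (hs : R.gok p s) (hp : p ≠ 0) (y : ℝ) : Ep p (R.SB p s) y = R.S (R.C p s) y := by
  have e1 : Ep p (R.SB p s) y = M s.c fun j => Ep p (R.tB p (s.L j)) y := by
    unfold SB M Ep
    simp only [Finset.sum_div, Finset.mul_sum]
    rw [Finset.sum_comm]
    refine Finset.sum_congr rfl fun i _ => Finset.sum_congr rfl fun j _ => by ring
  rw [e1]
  by_cases h : 2 ≤ p
  · rw [C_pos R h]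
    show _ = M (cT (1 - 1 / (p : ℝ)) s.c) fun x : s.J × Bool =>
      R.tt (if x.2 = true then R.cP p (s.L x.1) else R.cN p (s.L x.1)) y
    rw [M_cT]
    congr 1
    funext j
    rw [R.mean (hs.2 j) h]
    unfold av
    simp
  · rw [C_neg R h]
    show _ = M s.c fun j => R.tt (R.cP p (s.L j)) y
    have hp1 : p = 1 := by omega
    subst hp1
    congr 1
    funext j
    have h1 := R.no1 (hs.2 j)
    rw [(h1 y).2]
    unfold Ep
    refine div_eq_zero_iff.2 (Or.inl (Finset.sum_eq_zero fun i _ => (h1 _).1))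

lemma nnL (hs : R.gok p s) (hp : p ≠ 0) (x : ℝ) (z : δ) (j : s.J) : 0 ≤ R.hL p (s.L j) z x :=
  (R.pL (hs.2 j) hp z).nonneg x
lemma nnB (hs : R.gok p s) (hp : p ≠ 0) (x : ℝ) (z : δ) (j : s.J) : 0 ≤ R.hB p (s.L j) z x :=
  (R.pB (hs.2 j) hp z).nonneg x
lemma nnN (hs : R.gok p s) (hp : p ≠ 0) (x : ℝ) (z : δ) (j : s.J) : 0 ≤ R.hN p (s.L j) z x :=
  (R.pN (hs.2 j) hp z).nonneg x
lemma nnh (hs : R.gok p s) (x : ℝ) (z : δ) (j : s.J) : 0 ≤ R.h p (s.L j) z x :=
  (R.ph (hs.2 j) z).nonneg x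

lemma hB_le1 (hs : R.gok p s) (hp : p ≠ 0) (x : ℝ) (z : δ) (j : s.J) : R.hB p (s.L j) z x ≤ 1 := by
  have h1 := R.le1 (hs.2 j) z x
  have h2 := R.sp (hs.2 j) hp z x
  have h3 := nnL hs hp x z j
  have h4 := nnN hs hp x z j
  linarith

lemma PB_PP {f : β → δ → ℝ → ℝ} (hs : R.gok p s) (hf : ∀ j z, PB (f (s.L j) z))
    (h1 : ∀ x z j, f (s.L j) z x ≤ 1) : PB fun x => PP s.c s.W fun z j => f (s.L j) z x :=
  PB.sum _ fun z _ => PB_Pot hs.1 (f := fun x j => f (s.L j) z x) (fun j => hf j z)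
    fun x j => h1 x z j

lemma PB_Pt (hs : R.gok p s) : PB (R.Pt p s) :=
  PB_PP hs (fun j z => R.ph (hs.2 j) z) fun x z j => R.le1 (hs.2 j) z x

lemma PB_PtB (hs : R.gok p s) (hp : p ≠ 0) : PB (R.PtB p s) :=
  PB_PP hs (fun j z => R.pB (hs.2 j) hp z) fun x z j => hB_le1 hs hp x z j

lemma Pt_born (hs : R.gok p s) (x : ℝ) : R.Pt p s x ≤ 14 * R.S s x := by
  have := PP_born hs.1 (h := fun z j => R.h p (s.L j) z x) (nnh hs x)
  rwa [SS_h hs] at this

lemma PtB_born (hs : R.gok p s) (hp : p ≠ 0) (x : ℝ) : R.PtB p s x ≤ 14 * R.SB p s x := by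
  have := PP_born hs.1 (h := fun z j => R.hB p (s.L j) z x) (nnB hs hp x)
  rwa [SS_hB hs hp] at this

/-- **the joins** -/
theorem joins (hs : R.gok p s) (hp : p ≠ 0) (x : ℝ) :
    R.Pt p s x ≤ R.PtB p s x + R.PtR p s x + 14 * min (R.SB p s x) (R.S (R.N p s) x) +
      14 * R.SL p s x ∧
    R.Pt p s x ≤ R.PtB p s x + 14 * (R.S (R.N p s) x + R.SL p s x) ∧
    R.Pt p s x ≤ R.PtR p s x + 14 * (R.SB p s x + R.SL p s x) := by
  have e0 : R.Pt p s x = PP s.c s.W fun z j =>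
      (R.hB p (s.L j) z x + R.hN p (s.L j) z x) + R.hL p (s.L j) z x := by
    unfold Pt
    congr 1
    funext z j
    rw [R.sp (hs.2 j) hp z x]
    ring
  have h1 := PP_drop hs.1 (h := fun z j => R.hB p (s.L j) z x + R.hN p (s.L j) z x)
    (h' := fun z j => R.hL p (s.L j) z x) (nnL hs hp x)
  have h2 := PP_join hs.1 (h := fun z j => R.hB p (s.L j) z x)
    (h' := fun z j => R.hN p (s.L j) z x) (nnB hs hp x) (nnN hs hp x)
  have h3 := PP_drop hs.1 (h := fun z j => R.hB p (s.L j) z x)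
    (h' := fun z j => R.hN p (s.L j) z x) (nnN hs hp x)
  have h4 := PP_drop hs.1 (h := fun z j => R.hN p (s.L j) z x)
    (h' := fun z j => R.hB p (s.L j) z x) (nnB hs hp x)
  have e5 : (fun z j => R.hN p (s.L j) z x + R.hB p (s.L j) z x) =
      fun (z : δ) (j : s.J) => R.hB p (s.L j) z x + R.hN p (s.L j) z x :=
    funext fun z => funext fun j => add_comm _ _
  rw [e5] at h4
  rw [SS_hB hs hp, SS_hN hs hp] at h2
  rw [SS_hN hs hp] at h3
  rw [SS_hB hs hp] at h4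
  rw [SS_hL hs hp] at h1
  have hPB : PP s.c s.W (fun z j => R.hB p (s.L j) z x) = R.PtB p s x := rfl
  have hPN : PP s.c s.W (fun z j => R.hN p (s.L j) z x) = R.PtR p s x := rfl
  rw [hPB, hPN] at h2
  rw [hPB] at h3
  rw [hPN] at h4
  rw [e0]
  refine ⟨by linarith, by linarith, by linarith⟩

end RS

/-- **group data over a row system** -/
structure RC where
  /-- good group states -/
  ok : ℕ → Gs β → Prop
  gk : ∀ {p s}, ok p s → R.gok p s
  okC : ∀ {p s}, ok p s → p ≠ 0 → ok p (R.C p s)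
  okN : ∀ {p s}, ok p s → p ≠ 0 → ok (p - 1) (R.N p s)
  /-- constant part of the total of the ties -/
  be : ℕ → Gs β → ℝ → ℝ
  /-- lift part of the total of the ties -/
  G : ℕ → Gs β → ℝ → ℝ
  /-- cost -/
  cost : ℕ → Gs β → ℝ → ℝ
  /-- error of the column -/
  ex : ℕ → Gs β → ℝ → ℝ
  /-- error of the class change -/
  br : ℕ → Gs β → ℝ → ℝ
  pG : ∀ {p s}, ok p s → p ≠ 0 → PB (G p s)
  pcost : ∀ {p s}, ok p s → p ≠ 0 → PB (cost p s)
  pex : ∀ {p s}, ok p s → p ≠ 0 → PB (ex p s)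
  pbr : ∀ {p s}, ok p s → p ≠ 0 → PB (br p s)
  bper : ∀ {p s}, ok p s → p ≠ 0 → ∀ x, be p s (x + 1) = be p s x
  dec : ∀ {p s}, ok p s → p ≠ 0 → ∀ x, R.SB p s x = be p s (p * x) + G p s x
  c1 : ∀ {p s}, ok p s → p ≠ 0 → ∀ x, cost p s x ≤ G p s x ^ 2
  c2 : ∀ {p s}, ok p s → p ≠ 0 → ∀ x, cost p s x ≤ R.SB p s x
  col : ∀ {p s}, ok p s → 2 ≤ p → ∀ y,
    Ep p (fun x => cost p s x + R.PtB p s x) y ≤ R.Pt p (R.C p s) y + Ep p (ex p s) y
  ref : ∀ {p s}, ok p s → p ≠ 0 → ∀ x, R.PtR p s x ≤ R.Pt (p - 1) (R.N p s) x + br p s x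

variable {R}

/-- **the instance** -/
noncomputable def RC.mw (D : RC R) : MW (Gs β) where
  C := R.C
  N := R.N
  ok := D.ok
  S := R.S
  SL := R.SL
  SB := R.SB
  be := D.be
  G := D.G
  cost := D.cost
  ex := D.ex
  br := D.br
  Pt := R.Pt
  PtB := R.PtB
  okC := D.okC
  okN := D.okN
  pS := fun ht => RS.PB_S (D.gk ht)
  pSL := fun ht hp => RS.PB_SL (D.gk ht) hp
  pSB := fun ht hp => RS.PB_SB (D.gk ht) hp
  pG := D.pG
  pcost := D.pcost
  pex := D.pex
  pbr := D.pbr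
  pPt := fun ht => RS.PB_Pt (D.gk ht)
  pPtB := fun ht hp => RS.PB_PtB (D.gk ht) hp
  spl := fun ht hp x => RS.spl (D.gk ht) hp x
  mean := fun ht hp y => RS.mean' (D.gk ht) hp y
  dec := D.dec
  bper := D.bper
  c1 := D.c1
  c2 := D.c2
  col := fun {p t} ht hp y => by
    by_cases h : 2 ≤ p
    · exact D.col ht h y
    · have hp1 : p = 1 := by omega
      subst hp1
      have hg := D.gk ht
      have e0 : ∀ x, R.SB 1 t x = 0 := fun x => by
        unfold RS.SB M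
        refine Finset.sum_eq_zero fun j _ => ?_
        show t.c j * R.tB 1 (t.L j) x = 0
        rw [(R.no1 (hg.2 j) x).1, mul_zero]
      have e1 : ∀ x, D.cost 1 t x + R.PtB 1 t x = 0 := fun x => by
        have h1 := D.c2 ht hp x
        have h2 := RS.PtB_born hg hp x
        have h3 := (D.pcost ht hp).nonneg x
        have h4 := (RS.PB_PtB hg hp).nonneg x
        rw [e0] at h1 h2
        linarith
      have e2 : Ep 1 (fun x => D.cost 1 t x + R.PtB 1 t x) y = 0 := by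
        unfold Ep
        refine div_eq_zero_iff.2 (Or.inl (Finset.sum_eq_zero fun i _ => e1 _))
      rw [e2]
      exact add_nonneg ((RS.PB_Pt (RS.gok_C hg hp)).nonneg y)
        (((D.pex ht hp).Ep one_pos).nonneg y)
  born := fun ht x => RS.Pt_born (D.gk ht) x
  bornB := fun ht hp x => RS.PtB_born (D.gk ht) hp x
  joH := fun ht hp x => by
    have h1 := (RS.joins (D.gk ht) hp x).1
    have h2 := D.ref ht hp x
    linarith
  joB := fun ht hp x => by
    have h1 := (RS.joins (D.gk ht) hp x).2.1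
    have h2 := (D.pbr ht hp).nonneg x
    linarith
  joN := fun ht hp x => by
    have h1 := (RS.joins (D.gk ht) hp x).2.2
    have h2 := D.ref ht hp x
    linarith

end rs

/-! ### the column from rows -/

section rows
variable {β δ : Type} [Fintype δ] {R : RS β δ} {p : ℕ} {s : Gs β}

/-- **rows** : the contents of the ties are a column row `X` + births `e`; `X` = constant part +
lift part -/
structure RowAx (R : RS β δ) (p : ℕ) (b : β) (bc gc X e : δ → ℝ → ℝ) : Prop where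
  pb : ∀ z, PB (bc z)
  pg : ∀ z, PB (gc z)
  pe : ∀ z, PB (e z)
  cont : ∀ z x, R.hB p b z x = X z x + e z x
  dec : ∀ z x, X z x = bc z (p * x) + gc z x
  row : ∀ z y, ∃ (s : Fin p → ℝ) (Δ : ℝ), (∀ i, 0 ≤ s i ∧ s i ≤ 1) ∧
      ∑ i, 1 / (p : ℝ) * s i = 1 - (1 - 1 / (p : ℝ)) ∧
      0 ≤ Δ ∧ Δ ≤ max (R.h p (R.cN p b) z y - R.h p (R.cP p b) z y) 0 ∧
      ∀ i : Fin p, X z ((y + (i : ℕ)) / p) =
        (1 - (1 - 1 / (p : ℝ))) * R.h p (R.cN p b) z y +
        (1 - 1 / (p : ℝ)) * R.h p (R.cP p b) z y + (s i - (1 - (1 - 1 / (p : ℝ)))) * Δ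

/-- cost of the classes -/
noncomputable def cR (gc : β → δ → ℝ → ℝ) (s : Gs β) (x : ℝ) : ℝ :=
  ∑ z, M s.c (fun j => gc (s.L j) z x) ^ 2

/-- error of the classes -/
noncomputable def eR (p : ℕ) (gc : β → δ → ℝ → ℝ) (e : β → δ → ℝ → ℝ) (s : Gs β) (x : ℝ) : ℝ :=
  ∑ z, Ep p (fun x => M s.c fun j => gc (s.L j) z x) (p * x) ^ 2 +
    14 * ∑ z, M s.c (fun j => e (s.L j) z x)

/-- **the column from rows** -/
theorem col_of_rows (hp : 2 ≤ p) (hs : R.gok p s) {bc gc X e : β → δ → ℝ → ℝ}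
    (H : ∀ j, RowAx R p (s.L j) (bc (s.L j)) (gc (s.L j)) (X (s.L j)) (e (s.L j))) (y : ℝ) :
    Ep p (fun x => cR gc s x + R.PtB p s x) y ≤ R.Pt p (R.C p s) y + Ep p (eR p gc e s) y := by
  have hp0 : 0 < p := by omega
  have hp' : (0 : ℝ) < p := by exact_mod_cast hp0
  have hC := RS.gok_C hs (show p ≠ 0 by omega)
  rw [RS.C_pos R hp] at hC ⊢
  have u1 : ∑ _i : Fin p, 1 / (p : ℝ) = 1 := by
    rw [Finset.sum_const, Finset.card_univ, Fintype.card_fin, nsmul_eq_mul]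
    field_simp
  have hh0 : ∀ (z : δ) (x : s.J × Bool),
      0 ≤ R.h p (if x.2 = true then R.cP p (s.L x.1) else R.cN p (s.L x.1)) z y :=
    fun z x => (R.ph (hC.2 x) z).nonneg y
  have hh1 : ∀ (z : δ) (x : s.J × Bool),
      R.h p (if x.2 = true then R.cP p (s.L x.1) else R.cN p (s.L x.1)) z y ≤ 1 :=
    fun z x => R.le1 (hC.2 x) z y
  have hx : ∀ i : ℕ, (p:ℝ) * ((y + i) / p) = y + i := fun i => by field_simp
  have hCol : ∀ z, Col (1 - 1 / (p : ℝ))
      (fun x : s.J × Bool => R.h p (if x.2 = true then R.cP p (s.L x.1) else R.cN p (s.L x.1)) z y)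
      (fun _ : Fin p => 1 / (p : ℝ)) (fun i j => X (s.L j) z ((y + (i : ℕ)) / p)) := by
    intro z
    refine ⟨fun i => by positivity, u1, fun j => ?_⟩
    obtain ⟨a, Δ, h1, h2, h3, h4, h5⟩ := (H j).row z y
    refine ⟨a, Δ, h1, h2, h3, by simpa using h4, fun i => ?_⟩
    have := h5 i
    simpa [av] using this
  have key := PP_col_birth hs.1 (RS.q_bd hp)
    (h := fun z (x : s.J × Bool) =>
      R.h p (if x.2 = true then R.cP p (s.L x.1) else R.cN p (s.L x.1)) z y)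
    (X := fun (i : Fin p) z j => X (s.L j) z ((y + (i : ℕ)) / p))
    (e := fun (i : Fin p) z j => e (s.L j) z ((y + (i : ℕ)) / p))
    hh0 hh1 (u := fun _ : Fin p => 1 / (p : ℝ)) (fun _ => by positivity) u1 hCol
    (g := fun i z => M s.c fun j => gc (s.L j) z ((y + (i : ℕ)) / p))
    (β := fun z => M s.c fun j => bc (s.L j) z y)
    (fun i z => by
      rw [← M_add]
      congr 1
      funext j
      rw [(H j).dec, hx i, ((H j).pb z).per_nat])
    (fun i z j => ((H j).pe z).nonneg _)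
  have eE : ∀ f : ℝ → ℝ, Ep p f y = ∑ i : Fin p, (1 / (p:ℝ)) * f ((y + (i:ℕ)) / p) := by
    intro f
    unfold Ep
    rw [Finset.sum_range, Finset.sum_div]
    exact Finset.sum_congr rfl fun i _ => by ring
  have pE : ∀ z, PB (Ep p fun x => M s.c fun j => gc (s.L j) z x) := fun z =>
    (RS.PB_MM (f := fun b => gc b z) hs fun j => (H j).pg z).Ep hp0
  have e1 : Ep p (fun x => cR gc s x + R.PtB p s x) y =
      ∑ i : Fin p, 1 / (p : ℝ) * (∑ z, (M s.c fun j => gc (s.L j) z ((y + (i : ℕ)) / p)) ^ 2 +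
        PP s.c s.W fun z j => X (s.L j) z ((y + (i : ℕ)) / p) +
          e (s.L j) z ((y + (i : ℕ)) / p)) := by
    rw [eE]
    refine Finset.sum_congr rfl fun i _ => ?_
    congr 2
    show PP s.c s.W (fun z j => R.hB p (s.L j) z ((y + (i : ℕ)) / p)) = _
    congr 1
    funext z j
    exact (H j).cont z _
  have e2 : Ep p (eR p gc e s) y = ∑ z, (Ep p (fun x => M s.c fun j => gc (s.L j) z x) y) ^ 2 +
      14 * ∑ i : Fin p, 1 / (p : ℝ) * SS s.c (fun z j => e (s.L j) z ((y + (i : ℕ)) / p)) := by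
    rw [eE]
    have e3 : ∀ i : Fin p, (1 / (p:ℝ)) * eR p gc e s ((y + (i:ℕ)) / p) =
        (1 / (p:ℝ)) * (∑ z, (Ep p (fun x => M s.c fun j => gc (s.L j) z x) y) ^ 2) +
        14 * (1 / (p : ℝ) * SS s.c (fun z j => e (s.L j) z ((y + (i : ℕ)) / p))) := by
      intro i
      unfold eR SS
      have e4 : ∀ z, Ep p (fun x => M s.c fun j => gc (s.L j) z x) (p * ((y + (i:ℕ)) / p)) =
          Ep p (fun x => M s.c fun j => gc (s.L j) z x) y := fun z => by
        rw [hx i, (pE z).per_nat]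
      rw [Finset.sum_congr rfl fun z _ => by rw [e4 z]]
      ring
    rw [Finset.sum_congr rfl fun i _ => e3 i, Finset.sum_add_distrib, ← Finset.sum_mul, u1,
      one_mul, ← Finset.mul_sum]
  rw [e1, e2]
  have e5 : ∀ z, ∑ i : Fin p, 1 / (p : ℝ) * (M s.c fun j => gc (s.L j) z ((y + (i : ℕ)) / p)) =
      Ep p (fun x => M s.c fun j => gc (s.L j) z x) y := fun z =>
    (eE (fun x => M s.c fun j => gc (s.L j) z x)).symm
  have e6 : ∑ z, (∑ i : Fin p, 1 / (p : ℝ) *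
      (M s.c fun j => gc (s.L j) z ((y + (i : ℕ)) / p))) ^ 2 =
      ∑ z, (Ep p (fun x => M s.c fun j => gc (s.L j) z x) y) ^ 2 :=
    Finset.sum_congr rfl fun z _ => by rw [e5 z]
  rw [e6] at key
  refine key.trans (le_of_eq ?_)
  show _ = PP (cT (1 - 1 / (p : ℝ)) s.c) (WT (1 - 1 / (p : ℝ)) s.W) (fun z (x : s.J × Bool) =>
      R.h p (if x.2 = true then R.cP p (s.L x.1) else R.cN p (s.L x.1)) z y) + _
  ring

end rows

end Crest.Agent.R4P.RSys343
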