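import Crest.Agent.R4P.GWd_343
import Crest.Agent.R4P.RSys_343

/-!
R4 (S0004) with powers, [MB] T2, helper343: **the mode walk of the bundles of decorated trees**.

* `InvB kd Inv` : closure conditions of an invariant of bundles; `dtRS : RS (List (DT Λ κ)) δ` the row
  system of bundles with the class contents `bc (kd p)`.
* `K_eq_GS` : the walk sum of the costs is `GS`.
* `fullRC` : the group data for the full classes (`kd p` = the class maps of the ties), any `br`.
* `SOl`, `E_le` : the errors are second order: `E ≤ 3 GS SOl + BR`.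
* `T2F` : **`GS locF n p [(1, t)] ≤ ε I tot² + C_ε I tot + 3 GS SOl`** for nested class maps.
-/

set_option autoImplicit false
set_option linter.unusedSectionVars false
set_option linter.unusedVariables false
open MeasureTheory Filter Set

namespace Crest.Agent.R4P.GWe343

open Crest.Agent.R4.Tour104 Crest.Agent.R4.Tour758 Crest.Agent.R4.Avg758 Crest.Agent.R4.Clos758
open Crest.Agent.R4.ClosL758 Crest.Agent.R4.ClosG758 Crest.Agent.R4.ClosR758
open Crest.Agent.R4P.ClosR442 Crest.Agent.R4P.Grp36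
open Crest.Agent.R4P.Xfer36 Crest.Agent.R4P.TopC36 Crest.Agent.R4P.PN36
open Crest.Agent.R4P.GMer27 Crest.Agent.R4P.GCol27 Crest.Agent.R4P.GWa343 Crest.Agent.R4P.GWb343
open Crest.Agent.R4P.GWc343 Crest.Agent.R4P.GWd343 Crest.Agent.R4P.RSys343
open Crest.Agent.R4P.ModeP940 (PP SS)
open Crest.Agent.R4P.ModeG51 (MW K E hv on K_succ E_succ main_eps)
open Crest.Agent.R4P.LogG51 (gtot PB_gtot gtot_split Ep_gtot gtot_cval)
open Crest.Agent.R4P.LogL51 (isLf)
open Crest.Agent.R4P.Walk560 (DT)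

section st
variable {Λ κ : Type} [Fintype Λ] [DecidableEq Λ] [Fintype κ] [DecidableEq κ]
  {δ : Type} [Fintype δ] [DecidableEq δ]

/-- **closure conditions** of an invariant of bundles -/
structure InvB (kd : ℕ → Λ → δ) (Inv : ℕ → List (DT Λ κ) → Prop) : Prop where
  bg : ∀ {p L}, Inv p L → BG kd p L
  wok : ∀ {p L}, Inv p L → p ≠ 0 → ∀ t ∈ bB p L, WOk p t
  toP : ∀ {p L}, Inv p L → p ≠ 0 → Inv p ((bB p L).map chP)
  toN : ∀ {p L}, Inv p L → p ≠ 0 → Inv p ((bB p L).map chN)
  toR : ∀ {p L}, Inv p L → p ≠ 0 → Inv (p - 1) (bN p L)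
  no1 : ∀ {L}, Inv 1 L → bB 1 L = []

lemma bt_nil (x : ℝ) : bt ([] : List (DT Λ κ)) x = 0 := rfl
lemma bt_cons (t : DT Λ κ) (L : List (DT Λ κ)) (x : ℝ) :
    bt (t :: L) x = ∑ j, t.g.val j x + bt L x := by simp [bt]

/-- the mean of a bundle of ties and pulls -/
lemma mean_bt {kd : ℕ → Λ → δ} {p : ℕ} {L : List (DT Λ κ)} (hL : BG kd p L)
    (hw : ∀ t ∈ bB p L, WOk p t) (hp : 2 ≤ p) (y : ℝ) : Ep p (bt (bB p L)) y =
      1 / (p : ℝ) * bt ((bB p L).map chN) y + (1 - 1 / (p : ℝ)) * bt ((bB p L).map chP) y := by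
  have him : ∀ t ∈ bB p L, IMean t ∧ isB p t = true := by
    intro t ht
    have h1 := List.mem_filter.1 ht
    obtain ⟨u, hu, h2⟩ := List.mem_flatMap.1 h1.1
    exact ⟨(rs_all p (hL.im u hu) t h2).self, h1.2⟩
  have hp' : (0 : ℝ) < p := by positivity
  revert him hw
  induction bB p L with
  | nil =>
    intro _ _
    have e : bt ([] : List (DT Λ κ)) = fun _ => 0 := rfl
    simp only [List.map_nil, e]
    unfold Ep
    simp
  | cons t K ih =>
    intro hw him
    have e : bt (t :: K) = fun x => (∑ j, t.g.val j x) + bt K x := funext fun x => bt_cons t K x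
    have e2 : Ep p (bt (t :: K)) y = Ep p (fun x => ∑ j, t.g.val j x) y + Ep p (bt K) y := by
      rw [e]
      unfold Ep
      rw [Finset.sum_add_distrib, add_div]
    rw [e2, ih (fun s hs => hw s (List.mem_cons_of_mem _ hs))
      (fun s hs => him s (List.mem_cons_of_mem _ hs)), Ep_sum', List.map_cons, List.map_cons,
      bt_cons, bt_cons]
    obtain ⟨h1, h2⟩ := him t (by simp)
    obtain ⟨w, r, t₁, t₀, v, B, G, e⟩ := isB_eq h2
    have h3 := hw t (by simp)
    subst e
    have h4 : w = 1 / (p : ℝ) ∨ w = 0 := h3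
    have h5 : ∀ j y, Ep p (v j) y = (1 - w) * t₁.g.val j y + w * t₀.g.val j y := h1.2.2.2
    have e3 : ∑ j, Ep p ((DT.br p w r t₁ t₀ v B G).g.val j) y =
        (1 - w) * ∑ j, t₁.g.val j y + w * ∑ j, t₀.g.val j y := by
      rw [Finset.mul_sum, Finset.mul_sum, ← Finset.sum_add_distrib]
      exact Finset.sum_congr rfl fun j _ => h5 j y
    have e4 : chP (DT.br p w r t₁ t₀ v B G) = t₁ := rfl
    have e5 : chN (DT.br p w r t₁ t₀ v B G) = if w = 0 then t₁ else t₀ := rfl
    rw [e3, e4, e5]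
    by_cases hw0 : w = 0
    · rw [if_pos hw0, hw0]; ring
    · rw [if_neg hw0, h4.resolve_right hw0]; ring

/-- **the row system of bundles** -/
noncomputable def dtRS {kd : ℕ → Λ → δ} {Inv : ℕ → List (DT Λ κ) → Prop} (H : InvB kd Inv) :
    RS (List (DT Λ κ)) δ where
  cP := fun p L => (bB p L).map chP
  cN := fun p L => (bB p L).map chN
  rN := fun p L => bN p L
  ok := Inv
  okP := H.toP
  okN := H.toN
  okR := H.toR
  tt := bt
  tL := fun p L => bt (bL p L)
  tB := fun p L => bt (bB p L)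
  h := fun p L z => bc (kd p) L z
  hL := fun p L z => bc (kd p) (bL p L) z
  hB := fun p L z => bc (kd p) (bB p L) z
  hN := fun p L z => bc (kd p) (bN p L) z
  pL := fun ht _ z => PB_bc (PBL_bL (H.bg ht)) z
  pB := fun ht _ z => PB_bc (PBL_bB (H.bg ht)) z
  pN := fun ht _ z => PB_bc (PBL_bN (H.bg ht)) z
  ph := fun ht z => PB_bc (H.bg ht).pb z
  le1 := fun ht z x => (H.bg ht).le1 z x
  sp := fun _ _ z x => bc_split3 _ _ _ z x
  sh := fun _ x => sum_bc _ _ x
  sL := fun _ _ x => sum_bc _ _ x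
  sB := fun _ _ x => sum_bc _ _ x
  sN := fun _ _ x => sum_bc _ _ x
  mean := fun ht hp y => mean_bt (H.bg ht) (H.wok ht (by omega)) hp y
  no1 := fun ht x => by
    have h := H.no1 ht
    constructor
    · show bt (bB 1 _) x = 0
      rw [h]; rfl
    · show bt ((bB 1 _).map chP) x = 0
      rw [h]; rfl

/-- the state of lists -/
def st (s : Gs (List (DT Λ κ))) : GWc343.St Λ κ := ⟨s.J, s.fJ, s.c, s.W, s.L⟩

variable {kd : ℕ → Λ → δ} {Inv : ℕ → List (DT Λ κ) → Prop} {H : InvB kd Inv}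
  {p : ℕ} {s : Gs (List (DT Λ κ))}

lemma st_C (hs : (dtRS H).gok p s) (hp : p ≠ 0) : st ((dtRS H).C p s) = stCh p (st s) := by
  by_cases h : 2 ≤ p
  · rw [RS.C_pos _ h, stCh_pos h]
    unfold st
    congr 1
    funext x
    show (if x.2 = true then (bB p (s.L x.1)).map chP else (bB p (s.L x.1)).map chN) =
      (bB p (s.L x.1)).map fun t => if x.2 = true then chP t else chN t
    cases x.2 <;> simp
  · have hp1 : p = 1 := by omega
    subst hp1
    rw [RS.C_neg _ h, stCh_neg h]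
    unfold st
    congr 1
    funext j
    show (bB 1 (s.L j)).map chP = []
    rw [H.no1 (hs.2 j)]
    rfl

lemma st_N : st ((dtRS H).N p s) = GWc343.stN p (st s) := rfl

lemma gok_GSt (hs : (dtRS H).gok p s) : GSt kd p (st s) := ⟨hs.1, fun j => H.bg (hs.2 j)⟩

/-- the step of `GS` for a state, any local term -/
theorem GS_st' {loc : ℕ → Gp Λ κ → ℝ} (hl : LocE loc) (n : ℕ) (hs : (dtRS H).gok p s)
    (hp : p ≠ 0) : GS loc (n + 1) p (st s).g = loc p (gBs p (st s)) +
      GS loc n p (st ((dtRS H).C p s)).g + GS loc n (p - 1) (st ((dtRS H).N p s)).g := by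
  have hw : ∀ j, ∀ t ∈ bB p ((st s).L j), WOk p t := fun j => H.wok (hs.2 j) hp
  have h1 := GS_step hl n hp (st s).c (st s).L hw
  have h2 : GS loc n (p - 1) (fl (st s).c fun j => bR p ((st s).L j)) =
      GS loc n (p - 1) (st ((dtRS H).N p s)).g :=
    GS_congrL hl n (p - 1) _ _ (fl_bR_bN p (st s).c (st s).L)
  have h3 : GS loc n p (fl (cT (1 - 1 / (p : ℝ)) (st s).c) (stC p (st s).L)) =
      GS loc n p (st ((dtRS H).C p s)).g := by
    rw [st_C hs hp]
    by_cases h : 2 ≤ p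
    · rw [stCh_pos h]; rfl
    · rw [stCh_neg h]
      have hp1 : p = 1 := by omega
      subst hp1
      have e1 : Eqv (fl (cT (1 - 1 / ((1 : ℕ) : ℝ)) (st s).c) (stC 1 (st s).L)) ([] : Gp Λ κ) :=
        fun φ => by
          rw [ev_fl, ev_nil]
          refine Finset.sum_eq_zero fun x _ => ?_
          unfold stC
          have : bB 1 ((st s).L x.1) = [] := H.no1 (hs.2 x.1)
          rw [this]
          simp
      have e2 : Eqv (GWc343.St.g (⟨(st s).J, (st s).fJ, (st s).c, (st s).W, fun _ => []⟩ :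
          GWc343.St Λ κ)) ([] : Gp Λ κ) := fun φ => by
        unfold GWc343.St.g
        rw [ev_fl, ev_nil]
        exact Finset.sum_eq_zero fun x _ => by simp
      rw [GS_congr hl n 1 _ _ e1, GS_congr hl n 1 _ _ e2]
  rw [← h2, ← h3]
  exact h1

/-- **the walk sum of the costs is `GS`** -/
theorem K_eq_GS {loc : ℕ → Gp Λ κ → ℝ} (hl : LocE loc) (D : RC (dtRS H))
    (hc : ∀ {p s}, D.ok p s → p ≠ 0 → I (D.cost p s) = loc p (gBs p (st s))) :
    ∀ (n p : ℕ) (s : Gs (List (DT Λ κ))), D.ok p s → K D.mw n p s = GS loc n p (st s).g := by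
  intro n
  induction n with
  | zero => intro p s _; rfl
  | succ n ih =>
    intro p s hs
    by_cases hp : p = 0
    · subst hp
      have e1 : K D.mw (n + 1) 0 s = 0 := by simp [K]
      have e2 : GS loc (n + 1) 0 (st s).g = 0 := by simp [GS]
      rw [e1, e2]
    · rw [K_succ _ n hp, GS_st' hl n (D.gk hs) hp]
      have i1 := ih p _ (D.okC hs hp)
      have i2 := ih (p - 1) _ (D.okN hs hp)
      have e1 : I (D.mw.cost p s) = loc p (gBs p (st s)) := hc hs hp
      rw [e1]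
      show _ + K D.mw n p ((dtRS H).C p s) + K D.mw n (p - 1) ((dtRS H).N p s) = _
      rw [i1, i2]

/-- monotony in the local term on good states -/
theorem GS_mono' {loc loc' : ℕ → Gp Λ κ → ℝ} (hl : LocE loc) (hl' : LocE loc')
    (h : ∀ {p s}, (dtRS H).gok p s → p ≠ 0 → loc p (gBs p (st s)) ≤ loc' p (gBs p (st s))) :
    ∀ (n p : ℕ) (s : Gs (List (DT Λ κ))), (dtRS H).gok p s →
      GS loc n p (st s).g ≤ GS loc' n p (st s).g := by
  intro n
  induction n with
  | zero => intro p s _; exact le_rfl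
  | succ n ih =>
    intro p s hs
    by_cases hp : p = 0
    · subst hp
      simp [GS]
    · rw [GS_st' hl n hs hp, GS_st' hl' n hs hp]
      exact add_le_add (add_le_add (h hs hp) (ih p _ (RS.gok_C hs hp)))
        (ih (p - 1) _ (RS.gok_N hs hp))

/-! ### the second order term -/

/-- second order term of a group of ties -/
noncomputable def SOl (p : ℕ) (g : Gp Λ κ) : ℝ :=
  I (fun y => (Ep p (fun x => ∑ c, GmG g c x) y) ^ 2)

lemma SOl_E : LocE (SOl : ℕ → Gp Λ κ → ℝ) := fun p g h H => by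
  unfold SOl
  congr 1
  funext y
  congr 2
  funext x
  exact Finset.sum_congr rfl fun c _ => by rw [GmG_ev, GmG_ev, H]

/-- walk sum of the class changes, at heavy points -/
noncomputable def BR {β δ' : Type} [Fintype δ'] {R : RS β δ'} (D : RC R) : ℕ → ℕ → Gs β → ℝ
  | 0, _, _ => 0
  | n + 1, p, s => if p = 0 then 0 else
      I (fun x => on (hv D.mw (n + 1) p s x) (D.br p s x)) +
      BR D n p (R.C p s) + BR D n (p - 1) (R.N p s)

/-! ### full classes -/

section full
variable {kd : ℕ → Λ → κ} {Inv : ℕ → List (DT Λ κ) → Prop} {H : InvB kd Inv}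

/-- potential of the rest by the classes of the column -/
noncomputable def chg (H : InvB kd Inv) (p : ℕ) (s : Gs (List (DT Λ κ))) (x : ℝ) : ℝ :=
  (dtRS H).PtR p s x - (dtRS H).Pt (p - 1) ((dtRS H).N p s) x

/-- **the group data of the full classes** -/
noncomputable def fullRC (H : InvB kd Inv)
    (hb : ∀ {p L}, Inv p L → p ≠ 0 → BOk (kd p) p (bB p L))
    (br : ℕ → Gs (List (DT Λ κ)) → ℝ → ℝ)
    (pbr : ∀ {p s}, (dtRS H).gok p s → p ≠ 0 → PB (br p s))
    (ref : ∀ {p s}, (dtRS H).gok p s → p ≠ 0 → ∀ x,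
      (dtRS H).PtR p s x ≤ (dtRS H).Pt (p - 1) ((dtRS H).N p s) x + br p s x) :
    RC (dtRS H) where
  ok := (dtRS H).gok
  gk := fun h => h
  okC := RS.gok_C
  okN := RS.gok_N
  be := fun p s => be p (st s)
  G := fun p s => GG p (st s)
  cost := fun p s => cst p (st s)
  ex := fun p s => exC p (st s)
  br := br
  pG := fun hs _ => PB_GG hs.1.c0
  pcost := fun hs _ => PB_cst hs.1.c0
  pex := fun hs hp => PB_exC (Nat.pos_of_ne_zero hp) hs.1.c0
  pbr := pbr
  bper := fun hs _ x => (PB_be hs.1.c0).per x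
  dec := fun {p s} hs hp x => by
    have h := SB_dec (s := st s) (p := p) (fun j t ht => (hb (hs.2 j) hp).ok t ht) x
    rw [← h]
    show M s.c (fun j => bt (bB p (s.L j)) x) = GWc343.SB p (st s) x
    unfold GWc343.SB
    rw [gtot_fl]
    rfl
  c1 := fun hs _ x => cst_le_sq hs.1.c0 x
  c2 := fun {p s} hs hp x => by
    have h := cst_le_SB (s := st s) (p := p) (gok_GSt hs) (fun j => hb (hs.2 j) hp) x
    refine h.trans (le_of_eq ?_)
    show GWc343.SB p (st s) x = M s.c (fun j => bt (bB p (s.L j)) x)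
    unfold GWc343.SB
    rw [gtot_fl]
    rfl
  col := fun {p s} hs hp y => by
    have h0 := gok_GSt (RS.gok_C hs (show p ≠ 0 by omega))
    rw [st_C hs (by omega)] at h0
    have h := col (s := st s) hp (gok_GSt hs) (fun j => hb (hs.2 j) (by omega)) h0 y
    rw [← st_C hs (by omega)] at h
    exact h
  ref := ref

lemma Ep_exC {s : GWc343.St Λ κ} (hp : 0 < p) (c0 : ∀ j, 0 ≤ s.c j) (y : ℝ) :
    Ep p (exC p s) y ≤ (Ep p (GG p s) y) ^ 2 := by
  have hp' : (0 : ℝ) < p := by exact_mod_cast hp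
  have pE : ∀ c, PB (Ep p (GmG (gBs p s) c)) := fun c => (PB_gG c0 c).Ep hp
  have hpb : PB fun y => ∑ z, Ep p (GmG (gBs p s) z) y ^ 2 :=
      PB.sum _ fun z _ => PBsq ((PB_gG c0 z).Ep hp)
  have e4 : Ep p (exC p s) y = ∑ z, Ep p (GmG (gBs p s) z) y ^ 2 := by
    show Ep p (fun x => (fun y => ∑ z, Ep p (GmG (gBs p s) z) y ^ 2) (p * x)) y = _
    unfold Ep
    have e5 : ∀ i ∈ Finset.range p, (fun y => ∑ z, Ep p (GmG (gBs p s) z) y ^ 2)
        (p * ((y + (i : ℝ)) / p)) = ∑ z, Ep p (GmG (gBs p s) z) y ^ 2 := fun i _ => by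
      have := pull_fibre (a := fun y => ∑ z, Ep p (GmG (gBs p s) z) y ^ 2) hp hpb.per y i
      exact this
    have e6 := Finset.sum_congr rfl e5
    unfold Ep at e6
    rw [e6, Finset.sum_const, Finset.card_range, nsmul_eq_mul]
    field_simp
  rw [e4]
  have e5 : Ep p (GG p s) y = ∑ z, Ep p (GmG (gBs p s) z) y := by
    show Ep p (fun x => ∑ c, GmG (gBs p s) c x) y = _
    rw [Ep_sum']
  rw [e5]
  exact sum_sq_le _ _ fun z _ => (pE z).nonneg y

/-- **the errors are second order + class changes** -/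
theorem E_le (hb : ∀ {p L}, Inv p L → p ≠ 0 → BOk (kd p) p (bB p L))
    (br : ℕ → Gs (List (DT Λ κ)) → ℝ → ℝ)
    (pbr : ∀ {p s}, (dtRS H).gok p s → p ≠ 0 → PB (br p s))
    (ref : ∀ {p s}, (dtRS H).gok p s → p ≠ 0 → ∀ x,
      (dtRS H).PtR p s x ≤ (dtRS H).Pt (p - 1) ((dtRS H).N p s) x + br p s x) :
    ∀ (n p : ℕ) (s : Gs (List (DT Λ κ))), (dtRS H).gok p s →
      E (fullRC H hb br pbr ref).mw n p s ≤
        3 * GS SOl n p (st s).g + BR (fullRC H hb br pbr ref) n p s := by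
  intro n
  induction n with
  | zero =>
    intro p s _
    show (0 : ℝ) ≤ 3 * 0 + 0
    norm_num
  | succ n ih =>
    intro p s hs
    by_cases hp : p = 0
    · subst hp
      simp [E, GS, BR]
    · rw [E_succ _ n hp, GS_st' SOl_E n hs hp]
      have hp0 : 0 < p := Nat.pos_of_ne_zero hp
      have i1 := ih p _ (RS.gok_C hs hp)
      have i2 := ih (p - 1) _ (RS.gok_N hs hp)
      have e1 : BR (fullRC H hb br pbr ref) (n + 1) p s =
        I (fun x => on (hv (fullRC H hb br pbr ref).mw (n + 1) p s x) (br p s x)) +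
        BR (fullRC H hb br pbr ref) n p ((dtRS H).C p s) +
        BR (fullRC H hb br pbr ref) n (p - 1) ((dtRS H).N p s) := by
        show (if p = 0 then 0 else _) = _
        rw [if_neg hp]
        rfl
      have pG : PB (fun y => (Ep p (GG p (st s)) y) ^ 2) := PBsq ((PB_GG hs.1.c0).Ep hp0)
      have e2 : I (fun y => on (hv (fullRC H hb br pbr ref).mw n p
          ((dtRS H).C p s) y) (Ep p (exC p (st s)) y)) ≤ SOl p (gBs p (st s)) := by
        obtain ⟨mC, pC⟩ := ModeG51.hv_facts (fullRC H hb br pbr ref).mw n p _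
          (show (fullRC H hb br pbr ref).mw.ok p ((dtRS H).C p s) from RS.gok_C hs hp)
        refine I_mono (ModeG51.PB_on mC pC
          ((PB_exC (s := st s) hp0 hs.1.c0).Ep hp0)).integrableOn pG.integrableOn fun y => ?_
        exact (ModeG51.on_le (((PB_exC (s := st s) hp0 hs.1.c0).Ep hp0).nonneg y)).trans
          (Ep_exC hp0 hs.1.c0 y)
      have e3 : I (fun y => Ep p (GG p (st s)) y ^ 2) = SOl p (gBs p (st s)) := rfl
      rw [e1]
      show 2 * I (fun y => Ep p (GG p (st s)) y ^ 2) +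
        I (fun y => on (hv (fullRC H hb br pbr ref).mw n p
          ((dtRS H).C p s) y) (Ep p (exC p (st s)) y)) +
        I (fun x => on (hv (fullRC H hb br pbr ref).mw (n + 1) p s x) (br p s x)) +
        E (fullRC H hb br pbr ref).mw n p ((dtRS H).C p s) +
        E (fullRC H hb br pbr ref).mw n (p - 1) ((dtRS H).N p s) ≤ _
      rw [e3]
      linarith

/-- **[T2F] with class changes** -/
theorem T2F_br (hb : ∀ {p L}, Inv p L → p ≠ 0 → BOk (kd p) p (bB p L))
    (br : ℕ → Gs (List (DT Λ κ)) → ℝ → ℝ)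
    (pbr : ∀ {p s}, (dtRS H).gok p s → p ≠ 0 → PB (br p s))
    (ref : ∀ {p s}, (dtRS H).gok p s → p ≠ 0 → ∀ x,
      (dtRS H).PtR p s x ≤ (dtRS H).Pt (p - 1) ((dtRS H).N p s) x + br p s x)
    (n p : ℕ) (s : Gs (List (DT Λ κ))) (hs : (dtRS H).gok p s) {ε : ℝ} (hε : 0 < ε) :
    GS locF n p (st s).g ≤ ε * I (fun x => (dtRS H).S s x ^ 2) +
      (86 + 100 * Log51.Lc (ε / 100)) * I ((dtRS H).S s) + 3 * GS SOl n p (st s).g +
      BR (fullRC H hb br pbr ref) n p s := by
  have h1 := main_eps (w := (fullRC H hb br pbr ref).mw) n p s hs hε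
  have h2 := K_eq_GS locF_E (fullRC H hb br pbr ref) (fun {p s} _ _ => rfl) n p s hs
  have h3 := E_le hb br pbr ref n p s hs
  rw [h2] at h1
  have h4 : GS locF n p (st s).g ≤ ε * I (fun x => (dtRS H).S s x ^ 2) +
      (86 + 100 * Log51.Lc (ε / 100)) * I ((dtRS H).S s) +
      E (fullRC H hb br pbr ref).mw n p s := h1
  linarith

/-- nested class maps: no class change error -/
lemma ref_nested (hk : ∀ p j j', kd p j = kd p j' → kd (p - 1) j = kd (p - 1) j')
    {p : ℕ} {s : Gs (List (DT Λ κ))} (hs : (dtRS H).gok p s) (hp : p ≠ 0) (x : ℝ) :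
    (dtRS H).PtR p s x ≤ (dtRS H).Pt (p - 1) ((dtRS H).N p s) x + (fun _ => (0 : ℝ)) x := by
  have h := PtR_ref (hk p) (gok_GSt hs) (gok_GSt (RS.gok_N hs hp)) x
  rw [add_zero]
  exact h

lemma BR_zero (hb : ∀ {p L}, Inv p L → p ≠ 0 → BOk (kd p) p (bB p L)) (pbr ref) :
    ∀ (n p : ℕ) (s : Gs (List (DT Λ κ))),
      BR (fullRC H hb (fun _ _ _ => 0) pbr ref) n p s = 0 := by
  intro n
  induction n with
  | zero => intro p s; rfl
  | succ n ih =>
    intro p s
    have e : ∀ P : Prop, on P (0 : ℝ) = 0 := fun P => by unfold ModeG51.on; split_ifs <;> rfl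
    show (if p = 0 then 0 else I (fun x => on (hv _ (n + 1) p s x) (0 : ℝ)) + _ + _) = _
    rw [ih, ih]
    simp only [e]
    simp [I]

/-- **[T2F]** : nested class maps, full classes -/
theorem T2F (hb : ∀ {p L}, Inv p L → p ≠ 0 → BOk (kd p) p (bB p L))
    (hk : ∀ p j j', kd p j = kd p j' → kd (p - 1) j = kd (p - 1) j')
    (n p : ℕ) (s : Gs (List (DT Λ κ))) (hs : (dtRS H).gok p s) {ε : ℝ} (hε : 0 < ε) :
    GS locF n p (st s).g ≤ ε * I (fun x => (dtRS H).S s x ^ 2) +
      (86 + 100 * Log51.Lc (ε / 100)) * I ((dtRS H).S s) + 3 * GS SOl n p (st s).g := by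
  have h := T2F_br hb (fun _ _ _ => 0) (fun _ _ => PB.const le_rfl)
    (fun hs hp x => ref_nested hk hs hp x) n p s hs hε
  rw [BR_zero] at h
  linarith

end full

/-! ### one tree -/

/-- the state of one tree -/
noncomputable def one (t : DT Λ κ) : Gs (List (DT Λ κ)) :=
  ⟨Unit, inferInstance, fun _ => 1, Wc Unit, fun _ => [t]⟩

lemma one_gok {p : ℕ} {t : DT Λ κ} (h : Inv p [t]) : (dtRS H).gok p (one t) :=
  ⟨TC.triv (fun _ => zero_le_one) (by
    show ∑ _j : Unit, (1 : ℝ) = 1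
    simp), fun _ => h⟩

lemma one_g (t : DT Λ κ) : (st (one t)).g = [((1 : ℝ), t)] := by
  unfold GWc343.St.g fl st one
  simp

lemma one_S (t : DT Λ κ) (x : ℝ) : (dtRS H).S (one t) x = ∑ j, t.g.val j x := by
  show M (fun _ : Unit => (1 : ℝ)) (fun _ => bt [t] x) = _
  unfold M bt
  simp

/-- **[T2F] for one tree** -/
theorem T2F_one {kd : ℕ → Λ → κ} {Inv : ℕ → List (DT Λ κ) → Prop} (H : InvB kd Inv)
    (hb : ∀ {p L}, Inv p L → p ≠ 0 → BOk (kd p) p (bB p L))
    (hk : ∀ p j j', kd p j = kd p j' → kd (p - 1) j = kd (p - 1) j')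
    (n p : ℕ) {t : DT Λ κ} (ht : Inv p [t]) {ε : ℝ} (hε : 0 < ε) :
    GS locF n p [((1 : ℝ), t)] ≤ ε * I (fun x => (∑ j, t.g.val j x) ^ 2) +
      (86 + 100 * Log51.Lc (ε / 100)) * I (fun x => ∑ j, t.g.val j x) +
      3 * GS SOl n p [((1 : ℝ), t)] := by
  have h := T2F (H := H) hb hk n p (one t) (one_gok ht) hε
  rw [one_g] at h
  have e : (dtRS H).S (one t) = fun x => ∑ j, t.g.val j x := funext fun x => one_S t x
  rw [e] at h
  exact h

end st

end Crest.Agent.R4P.GWe343
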