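import Crest.Agent.R4P.GWe_343
import Crest.Agent.R4P.XEx_29

/-!
R4 (S0004) with powers, [MB] T2, helper343: **bundles of the real trees**.

* `AddD` : the codes of the two parts of an add node are disjoint.
* `BI F p L` : all nodes of the members have `F` and `AddD`, columns `≤ p`, the codes of the members at
  `p` are pairwise disjoint.
* `BI.toP`, `BI.toN`, `BI.toR`, `BI.no1`, `BI.len` (at most one member of `bN`), `BI.one` (at most one
  tie in `bB`), `BI.bok`, `BI.one_mem` (start).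
-/

set_option autoImplicit false
set_option linter.unusedSectionVars false
set_option linter.unusedVariables false
open MeasureTheory Filter Set

namespace Crest.Agent.R4P.GWf343

open Crest.Agent.R4.Tour104 Crest.Agent.R4.Tour758 Crest.Agent.R4.Avg758 Crest.Agent.R4.Clos758
open Crest.Agent.R4.ClosL758 Crest.Agent.R4.ClosG758 Crest.Agent.R4.ClosR758
open Crest.Agent.R4P.ClosR442 Crest.Agent.R4P.Grp36
open Crest.Agent.R4P.Xfer36 Crest.Agent.R4P.TopC36 Crest.Agent.R4P.PN36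
open Crest.Agent.R4P.GMer27 Crest.Agent.R4P.GCol27 Crest.Agent.R4P.GWa343 Crest.Agent.R4P.GWb343
open Crest.Agent.R4P.GWc343 Crest.Agent.R4P.GWd343 Crest.Agent.R4P.GWe343
open Crest.Agent.R4P.CrsD26 (Cs)
open Crest.Agent.R4P.XEx29 (rs_col Cs_closed zero_mem_Cs Cs_rs closed_of_col rs_shape)
open Crest.Agent.R4P.LogL51 (isLf isLf_iff)
open Crest.Agent.R4P.Walk560 (DT WrN)

section st
variable {Λ κ : Type} [Fintype Λ] [DecidableEq Λ] [Fintype κ] [DecidableEq κ]

/-- the codes of the two parts of an add node are disjoint -/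
def AddD : DT Λ κ → Prop
  | .add b _ t₁ t₀ => ∀ e, e ∈ Cs b t₁ → e ∈ Cs b t₀ → False
  | _ => True

/-- disjoint codes -/
def DJ (p : ℕ) (t t' : DT Λ κ) : Prop := ∀ e, e ∈ Cs p t → e ∈ Cs p t' → False

/-- **the invariant of bundles** -/
structure BI (F : DT Λ κ → Prop) (p : ℕ) (L : List (DT Λ κ)) : Prop where
  all : ∀ t ∈ L, t.All F
  add : ∀ t ∈ L, t.All AddD
  col : ∀ t ∈ L, t.Col (p + 1)
  dis : L.Pairwise (DJ p)

variable {F : DT Λ κ → Prop} {p : ℕ} {L : List (DT Λ κ)}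

lemma rs_dis {t : DT Λ κ} (h : t.All AddD) : (rs p t).Pairwise (DJ p) := by
  induction t with
  | leaf r f => simp [rs]
  | br q w r t₁ t₀ v B G => simp [rs]
  | add q r t₁ t₀ ih₁ ih₀ =>
    unfold rs
    split_ifs with hq
    · rw [List.pairwise_append]
      refine ⟨ih₁ h.2.1, ih₀ h.2.2, fun s hs s' hs' e he he' => ?_⟩
      have h1 : ∀ e, e ∈ Cs q t₁ → e ∈ Cs q t₀ → False := h.1
      rw [hq] at h1
      exact h1 e (Cs_rs _ _ hs _ he) (Cs_rs _ _ hs' _ he')
    · simp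
  | up q Sp t ih =>
    unfold rs
    split_ifs with hq
    · exact ih h.2
    · simp

lemma BI.flat (h : BI F p L) : BI F p (L.flatMap (rs p)) := by
  refine ⟨fun t ht => ?_, fun t ht => ?_, fun t ht => ?_, ?_⟩
  · obtain ⟨u, hu, ht⟩ := List.mem_flatMap.1 ht
    exact rs_all p (h.all u hu) t ht
  · obtain ⟨u, hu, ht⟩ := List.mem_flatMap.1 ht
    exact rs_all p (h.add u hu) t ht
  · obtain ⟨u, hu, ht⟩ := List.mem_flatMap.1 ht
    exact rs_col (h.col u hu) t ht
  · rw [List.pairwise_flatMap]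
    refine ⟨fun t ht => rs_dis (h.add t ht), ?_⟩
    refine h.dis.imp fun {a b} hab s hs s' hs' e he he' => ?_
    exact hab e (Cs_rs _ _ hs _ he) (Cs_rs _ _ hs' _ he')

lemma BI.filter (h : BI F p L) (f : DT Λ κ → Bool) : BI F p (L.filter f) :=
  ⟨fun t ht => h.all t (List.mem_filter.1 ht).1, fun t ht => h.add t (List.mem_filter.1 ht).1,
    fun t ht => h.col t (List.mem_filter.1 ht).1, h.dis.filter f⟩

lemma BI.bB (h : BI F p L) : BI F p (bB p L) := h.flat.filter _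

lemma BI.bN (h : BI F p L) : BI F p (bN p L) := (h.flat.filter _).filter _

lemma isB_of_bB {t : DT Λ κ} (h : t ∈ GWa343.bB p L) : isB p t = true := (List.mem_filter.1 h).2

/-- children: columns, codes -/
lemma chP_facts {t : DT Λ κ} (hc : t.Col (p + 1)) (hb : isB p t = true) :
    (chP t).Col (p + 1) ∧ ∀ e ∈ Cs p (chP t), e + 1 ∈ Cs p t := by
  obtain ⟨w, r, t₁, t₀, v, B, G, rfl⟩ := isB_eq hb
  refine ⟨hc.2.2.1, fun e he => ?_⟩
  by_cases hw : w = 0
  · exact Or.inr (Or.inr ⟨rfl, hw, e, he, rfl⟩)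
  · have h1 := Cs_closed (closed_of_col (hc.2.2.2.2 hw).1) e he
    rw [h1]
    exact Or.inr (Or.inl ⟨rfl, hw, rfl⟩)

lemma chN_facts {t : DT Λ κ} (hc : t.Col (p + 1)) (hb : isB p t = true) :
    (chN t).Col (p + 1) ∧ ∀ e ∈ Cs p (chN t), e + 1 ∈ Cs p t := by
  obtain ⟨w, r, t₁, t₀, v, B, G, rfl⟩ := isB_eq hb
  have e5 : chN (DT.br p w r t₁ t₀ v B G) = if w = 0 then t₁ else t₀ := rfl
  rw [e5]
  by_cases hw : w = 0
  · rw [if_pos hw]
    exact ⟨hc.2.2.1, fun e he => Or.inr (Or.inr ⟨rfl, hw, e, he, rfl⟩)⟩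
  · rw [if_neg hw]
    refine ⟨hc.2.2.2.1, fun e he => ?_⟩
    have h1 := Cs_closed (closed_of_col (hc.2.2.2.2 hw).2) e he
    rw [h1]
    exact Or.inr (Or.inl ⟨rfl, hw, rfl⟩)

lemma chP_all {F : DT Λ κ → Prop} {t : DT Λ κ} (h : t.All F) (hb : isB p t = true) :
    (chP t).All F := by
  obtain ⟨w, r, t₁, t₀, v, B, G, rfl⟩ := isB_eq hb
  exact h.2.1

lemma chN_all {F : DT Λ κ → Prop} {t : DT Λ κ} (h : t.All F) (hb : isB p t = true) :
    (chN t).All F := by
  obtain ⟨w, r, t₁, t₀, v, B, G, rfl⟩ := isB_eq hb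
  have e5 : chN (DT.br p w r t₁ t₀ v B G) = if w = 0 then t₁ else t₀ := rfl
  rw [e5]
  split_ifs
  · exact h.2.1
  · exact h.2.2

lemma BI.map (h : BI F p L) {f : DT Λ κ → DT Λ κ} (hb : ∀ t ∈ L, isB p t = true)
    (hf : ∀ t, t.Col (p + 1) → isB p t = true →
      (f t).Col (p + 1) ∧ ∀ e ∈ Cs p (f t), e + 1 ∈ Cs p t)
    (ha : ∀ (F' : DT Λ κ → Prop) (t : DT Λ κ), t.All F' → isB p t = true → (f t).All F') :
    BI F p (L.map f) := by
  refine ⟨fun t ht => ?_, fun t ht => ?_, fun t ht => ?_, ?_⟩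
  · obtain ⟨u, hu, rfl⟩ := List.mem_map.1 ht
    exact ha _ u (h.all u hu) (hb u hu)
  · obtain ⟨u, hu, rfl⟩ := List.mem_map.1 ht
    exact ha _ u (h.add u hu) (hb u hu)
  · obtain ⟨u, hu, rfl⟩ := List.mem_map.1 ht
    exact (hf u (h.col u hu) (hb u hu)).1
  · rw [List.pairwise_map]
    have h2 := h.dis
    refine h2.imp_of_mem fun {a b} hma hmb hab e he he' => ?_
    exact hab (e + 1) ((hf a (h.col a hma) (hb a hma)).2 e he)
      ((hf b (h.col b hmb) (hb b hmb)).2 e he')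

/-- **children P** -/
theorem BI.toP (h : BI F p L) : BI F p ((GWa343.bB p L).map chP) :=
  h.bB.map (fun t ht => isB_of_bB ht) (fun t hc hb => chP_facts hc hb)
    fun F' t ht hb => chP_all ht hb

/-- **children N** -/
theorem BI.toN (h : BI F p L) : BI F p ((GWa343.bB p L).map chN) :=
  h.bB.map (fun t ht => isB_of_bB ht) (fun t hc hb => chN_facts hc hb)
    fun F' t ht hb => chN_all ht hb

lemma len_le_one {R : DT Λ κ → DT Λ κ → Prop} : ∀ {l : List (DT Λ κ)}, l.Pairwise R →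
    (∀ a ∈ l, ∀ b ∈ l, ¬ R a b) → l.length ≤ 1
  | [], _, _ => by simp
  | [a], _, _ => by simp
  | a :: b :: l, h, h2 => by
    exfalso
    rw [List.pairwise_cons] at h
    exact h2 a (by simp) b (by simp) (h.1 b (by simp))

lemma zero_of_bN {t : DT Λ κ} (h : t ∈ GWc343.bN p L) : 0 ∈ Cs p t ∧ t.top ≠ p ∧ ¬ t.isLeaf := by
  obtain ⟨h1, h2⟩ := List.mem_filter.1 h
  obtain ⟨h3, h4⟩ := List.mem_filter.1 h1
  obtain ⟨u, -, h6⟩ := List.mem_flatMap.1 h3
  have hl : ¬ t.isLeaf := by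
    rw [← isLf_iff]
    simpa using h2
  have hB : ¬ isB p t = true := by simpa using h4
  have htop : t.top ≠ p := by
    rcases rs_shape u t h6 with h7 | h7 | h7
    · exact absurd h7 hB
    · exact absurd h7 hl
    · exact h7
  exact ⟨zero_mem_Cs hl htop, htop, hl⟩

/-- **at most one member is left** -/
theorem BI.len (h : BI F p L) : (GWc343.bN p L).length ≤ 1 :=
  len_le_one h.bN.dis fun a ha b hb hab => hab 0 (zero_of_bN ha).1 (zero_of_bN hb).1

lemma pairwise_of_len {R : DT Λ κ → DT Λ κ → Prop} : ∀ {l : List (DT Λ κ)}, l.length ≤ 1 →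
    l.Pairwise R
  | [], _ => by simp
  | [a], _ => by simp
  | a :: b :: l, h => by simp at h

/-- **the rest** -/
theorem BI.toR (h : BI F p L) (hp : p ≠ 0) : BI F (p - 1) (GWc343.bN p L) := by
  refine ⟨h.bN.all, h.bN.add, fun t ht => ?_, pairwise_of_len h.len⟩
  have h1 := h.bN.col t ht
  have h2 := (zero_of_bN ht).2.1
  have h3 := h1.top_le
  have e : p - 1 + 1 = p := by omega
  rw [e]
  exact h1.lower (lt_of_le_of_ne h3 h2)

/-- **at most one tie** -/
theorem BI.one (h : BI F p L) :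
    ((GWa343.bB p L).filter fun t => decide (wT t ≠ 0)).length ≤ 1 := by
  refine len_le_one (h.bB.dis.filter _) fun a ha b hb hab => ?_
  have key : ∀ t ∈ (GWa343.bB p L).filter (fun t => decide (wT t ≠ 0)), 1 ∈ Cs p t := by
    intro t ht
    obtain ⟨h1, h2⟩ := List.mem_filter.1 ht
    obtain ⟨w, r, t₁, t₀, v, B, G, rfl⟩ := isB_eq (isB_of_bB h1)
    have h3 : w ≠ 0 := of_decide_eq_true h2
    exact Or.inr (Or.inl ⟨rfl, h3, rfl⟩)
  exact hab 1 (key a ha) (key b hb)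

/-- **no ties at the column `1`** -/
theorem BI.no1 (h : BI F 1 L) : GWa343.bB 1 L = [] := by
  rw [List.eq_nil_iff_forall_not_mem]
  intro t ht
  have h1 := h.bB.col t ht
  obtain ⟨w, r, t₁, t₀, v, B, G, rfl⟩ := isB_eq (isB_of_bB ht)
  exact Nat.not_prime_one h1.1

/-- start -/
theorem BI.start {t : DT Λ κ} (h : t.All F) (ha : t.All AddD) (hc : t.Col (p + 1)) :
    BI F p [t] :=
  ⟨fun s hs => by rw [List.mem_singleton.1 hs]; exact h,
    fun s hs => by rw [List.mem_singleton.1 hs]; exact ha,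
    fun s hs => by rw [List.mem_singleton.1 hs]; exact hc, by simp⟩

/-- the class maps of the ties -/
theorem BI.bok {wr : ℕ → Λ → κ} (h : BI F p L) (h1 : ∀ t, F t → NOk t) (h2 : ∀ t, F t → WrN wr t) :
    BOk (wr p) p (GWa343.bB p L) where
  ok := fun t ht => ⟨h1 _ (h.bB.all t ht).self, isB_of_bB ht⟩
  cl := fun t ht w r t₁ t₀ v B G e => by
    have := h2 _ (h.bB.all t ht).self
    rw [e] at this
    exact this
  one := h.one

lemma wok_of_NOk {t : DT Λ κ} (h : NOk t) (hb : isB p t = true) : WOk p t := by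
  obtain ⟨w, r, t₁, t₀, v, B, G, rfl⟩ := isB_eq hb
  have h1 := TieOk.br h.1
  rcases h1.hw with h2 | h2
  · exact Or.inl h2
  · exact Or.inr h2.1

/-- **the closure conditions**, with an additional closed height condition `HB` -/
theorem BI.invB {δ : Type} [Fintype δ] [DecidableEq δ] {kd : ℕ → Λ → δ}
    (h1 : ∀ t, F t → NOk t) (h2 : ∀ t, F t → IMean t) {HB : ℕ → List (DT Λ κ) → Prop}
    (h4 : ∀ {p L}, BI F p L → HB p L → ∀ z x, bc (kd p) L z x ≤ 1)
    (hP : ∀ {p L}, BI F p L → HB p L → p ≠ 0 → HB p ((GWa343.bB p L).map chP))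
    (hN : ∀ {p L}, BI F p L → HB p L → p ≠ 0 → HB p ((GWa343.bB p L).map chN))
    (hR : ∀ {p L}, BI F p L → HB p L → p ≠ 0 → HB (p - 1) (GWc343.bN p L)) :
    InvB kd (fun p L => BI F p L ∧ HB p L) where
  bg := fun {p L} h => by
    have hpb : ∀ t ∈ L, t.All fun t => ∀ j, PB (t.g.val j) := fun t ht =>
      (h.1.all t ht).mono fun s hs j => (h1 s hs).2.pb j
    exact ⟨fun t ht j => (hpb t ht).self j, fun t ht => (h.1.all t ht).mono h2, hpb, h4 h.1 h.2⟩
  wok := fun {p L} h _ t ht => wok_of_NOk (h1 _ (h.1.bB.all t ht).self) (isB_of_bB ht)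
  toP := fun h hp => ⟨h.1.toP, hP h.1 h.2 hp⟩
  toN := fun h hp => ⟨h.1.toN, hN h.1 h.2 hp⟩
  toR := fun h hp => ⟨h.1.toR hp, hR h.1 h.2 hp⟩
  no1 := fun h => h.1.no1

end st

end Crest.Agent.R4P.GWf343
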