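import Crest.Agent.R4.InSS944

/-!
R4 (S0004), helper24: **D2** of `[W-dseR]`: exact equal-label pairs `x ≠ y` of one node have a
`k`-gain (`k` = denominator of the label) resp. a `λ`-gain (`λ = |θ - ρ| / R`).
-/

set_option autoImplicit false
open Finset

namespace Crest.Agent.R4P.GainKL24

open Crest.Agent.R4 Crest.Agent.R4.HVW560 Crest.Agent.R4.HVWX793
open Crest.Agent.R4.StopAsm709 Crest.Agent.R4.StopHvw709
open Crest.Agent.R4.Schur709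
open Crest.Agent.R4.ClsS (eps1 Af)
open Crest.Agent.R4.LF363 (Lab)
open Crest.Agent.R4.LF11 (DD ew)
open Crest.Agent.R4.InX944
open Crest.Agent.R4.LF765 (Struct)

/-! ### class `[E]` is empty for one target and `x ≠ y` -/

theorem noES {θ r r' : ℝ} {x y : ℕ} (hne : x ≠ y) : ¬ ES θ θ x y r r' := by
  rintro ⟨t, m, m', s1, f1⟩
  have ht0 : 0 < t := Dich579.t_pos s1.ht
  have hr := s1.hr
  have hrt : r ≤ 1/t := s1.r_le
  have hts : t ≤ 1/r := by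
    rw [le_div_iff₀ hr]
    rw [le_div_iff₀ ht0] at hrt
    linarith
  have h400 : (2:ℝ)^400 ≤ 1/r := s1.ht.trans hts
  have hs1 : 1 < 1/r := lt_of_lt_of_le (one_lt_pow₀ (by norm_num) (by norm_num)) h400
  have hbal : (1/r)^(-(51/50):ℝ) < ((1:ℕ):ℝ) * r := by
    have h1 : (1/r)^(-(51/50):ℝ) < (1/r)^(-(1:ℝ)) :=
      Real.rpow_lt_rpow_of_exponent_lt hs1 (by norm_num)
    have h2 : (1/r)^(-(1:ℝ)) = ((1:ℕ):ℝ) * r := by
      rw [Real.rpow_neg_one]; simp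
    rw [← h2]; exact h1
  have g : Dich579.Small 1 θ θ (1/r) 1 1 r r 0 0 := by
    refine ⟨h400, le_refl _, Real.one_le_rpow hs1.le (by norm_num), Nat.one_pos, Nat.one_pos, hr, hr,
      ?_, ?_, ?_, hbal, hbal, ?_, ?_⟩
    · simp
    · simp
    · simp; exact hr.le
    · simp
    · simp
  have h := (Dich579.uniq s1 g (by simpa using hne)).1
  exact f1 h

/-! ### unstructured targets -/

/-- distance of a multiple of a rational to the integers -/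
lemma rat_far {ρ : ℚ} {k : ℕ} {m : ℤ} (h : (ρ:ℝ) * k ≠ m) : 1 / (ρ.den:ℝ) ≤ |(ρ:ℝ) * k - m| := by
  have hd0 : (0:ℝ) < ρ.den := by exact_mod_cast ρ.pos
  have hρe : (ρ:ℝ) = (ρ.num:ℝ) / ρ.den := by exact_mod_cast (Rat.num_div_den ρ).symm
  have e : (ρ:ℝ) * k - m = ((ρ.num * k - m * ρ.den : ℤ):ℝ) / ρ.den := by
    rw [hρe]; push_cast; field_simp
  rw [e, abs_div, abs_of_pos hd0]
  apply div_le_div_of_nonneg_right _ hd0.le
  have hne0 : (ρ.num * k - m * ρ.den : ℤ) ≠ 0 := by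
    intro h0
    apply h
    have : (ρ:ℝ) * k - m = 0 := by rw [e, h0]; simp
    linarith
  have := Int.one_le_abs hne0
  have h3 : (1:ℝ) ≤ (|(ρ.num * k - m * ρ.den : ℤ)| : ℤ) := by exact_mod_cast this
  rw [Int.cast_abs] at h3
  exact h3

lemma rat_int {ρ : ℚ} {k : ℕ} {m : ℤ} (h : (ρ:ℝ) * k = m) : ρ.den ∣ k := by
  have hd0 : (ρ.den:ℤ) ≠ 0 := by exact_mod_cast ρ.den_nz
  have h1 : (ρ.num:ℤ) * k = m * ρ.den := by
    have hρe : (ρ:ℝ) = (ρ.num:ℝ) / ρ.den := by exact_mod_cast (Rat.num_div_den ρ).symm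
    have hd0' : (ρ.den:ℝ) ≠ 0 := by exact_mod_cast ρ.den_nz
    rw [hρe] at h
    field_simp at h
    have h2 : (ρ.num:ℝ) * k = m * ρ.den := by linarith
    exact_mod_cast h2
  have h2 : (ρ.den:ℤ) ∣ ρ.num * k := ⟨m, by rw [h1]; ring⟩
  have h3 : IsCoprime (ρ.den:ℤ) ρ.num := by
    rw [Int.isCoprime_iff_gcd_eq_one]
    have := ρ.reduced
    rw [Nat.Coprime] at this
    rw [Int.gcd_comm]
    exact this
  exact_mod_cast h3.dvd_of_dvd_mul_left h2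

/-- a rational with a large denominator is unstructured -/
lemma uns_k {ρ : ℚ} {N t Y : ℝ} (ht : 0 < t) (hY : 0 < Y) (hN : N < ρ.den)
    (h : 2 * N * ρ.den < t * Y) : ¬ Struct N ρ t Y := by
  rintro ⟨k, h1, h2, m, h3⟩
  have hd0 : (0:ℝ) < ρ.den := by exact_mod_cast ρ.pos
  have hne : (ρ:ℝ) * k ≠ m := by
    intro h0
    have h4 := Nat.le_of_dvd h1 (rat_int h0)
    have h5 : (ρ.den:ℝ) ≤ k := by exact_mod_cast h4
    linarith
  have h4 := (rat_far hne).trans h3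
  rw [div_le_div_iff₀ hd0 (by positivity)] at h4
  linarith

/-- a perturbed rational is unstructured -/
lemma uns_l {ρ : ℚ} {ε N t Y : ℝ}
    (ha : N * |ε| + 2 * N / (t * Y) < 1 / (ρ.den:ℝ)) (hb : 2 * N / (t * Y) < |ε|) :
    ¬ Struct N (ρ + ε) t Y := by
  rintro ⟨k, h1, h2, m, h3⟩
  have hd0 : (0:ℝ) < ρ.den := by exact_mod_cast ρ.pos
  have hk1 : (1:ℝ) ≤ k := by exact_mod_cast h1
  by_cases hne : (ρ:ℝ) * k = m
  · have e : ((ρ:ℝ) + ε) * k - m = k * ε := by rw [← hne]; ring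
    rw [e, abs_mul, abs_of_nonneg (by positivity : (0:ℝ) ≤ k)] at h3
    have : |ε| ≤ k * |ε| := le_mul_of_one_le_left (abs_nonneg _) hk1
    linarith
  · have h4 := rat_far hne
    have e : (ρ:ℝ) * k - m = (((ρ:ℝ) + ε) * k - m) - k * ε := by ring
    have h5 : |(ρ:ℝ) * k - m| ≤ |((ρ:ℝ) + ε) * k - m| + k * |ε| := by
      rw [e]
      refine (abs_sub _ _).trans ?_
      rw [abs_mul, abs_of_nonneg (by positivity : (0:ℝ) ≤ k)]
    have h6 : k * |ε| ≤ N * |ε| := mul_le_mul_of_nonneg_right h2 (abs_nonneg _)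
    linarith

/-! ### exact equal-label pairs -/

/-- the cofactors of an exact pair are congruent modulo the denominator -/
lemma exact_dvd {ρ : ℚ} {x y : ℕ} {m m' : ℤ} (h : ((m:ℝ) + ρ) * y = (m' + ρ) * x) :
    (ρ.den:ℤ) ∣ (y:ℤ) - x := by
  have hρe : (ρ:ℝ) = (ρ.num:ℝ) / ρ.den := by exact_mod_cast (Rat.num_div_den ρ).symm
  have hd0' : (ρ.den:ℝ) ≠ 0 := by exact_mod_cast ρ.den_nz
  rw [hρe] at h
  field_simp at h
  have h1 : ((m:ℝ) * ρ.den + ρ.num) * y = (m' * ρ.den + ρ.num) * x := by linarith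
  have h2 : (m * ρ.den + ρ.num) * (y:ℤ) = (m' * ρ.den + ρ.num) * x := by exact_mod_cast h1
  have h3 : (ρ.den:ℤ) ∣ ρ.num * ((y:ℤ) - x) := ⟨m' * x - m * y, by linarith [h2]⟩
  have h4 : IsCoprime (ρ.den:ℤ) ρ.num := by
    rw [Int.isCoprime_iff_gcd_eq_one]
    have := ρ.reduced
    rw [Nat.Coprime] at this
    rw [Int.gcd_comm]
    exact this
  exact h4.dvd_of_dvd_mul_left h3

lemma exact_big {ρ : ℚ} {x y : ℕ} {m m' : ℤ} (hne : x ≠ y)
    (h : ((m:ℝ) + ρ) * y = (m' + ρ) * x) : (ρ.den:ℝ) ≤ x ∨ (ρ.den:ℝ) ≤ y := by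
  have h1 := exact_dvd h
  have h2 : (y:ℤ) - x ≠ 0 := by
    intro h0; apply hne; omega
  have h3 := Int.le_of_dvd (abs_pos.2 h2) ((dvd_abs _ _).2 h1)
  rcases le_total x y with h4 | h4
  · right
    have h5 : |(y:ℤ) - x| ≤ y := by
      rw [abs_of_nonneg (by omega)]; omega
    exact_mod_cast h3.trans h5
  · left
    have h5 : |(y:ℤ) - x| ≤ x := by
      rw [abs_of_nonpos (by omega)]; omega
    exact_mod_cast h3.trans h5


/-! ### the mid range -/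

section Mid
variable {Q t : ℝ}

lemma N_le (hQ : (2:ℝ)^400 ≤ Q) (ht0 : 0 < t) (h19 : t ≤ Q^(19/2:ℝ)) :
    t^(1/20:ℝ) ≤ Q^(19/40:ℝ) ∧ t^(1/50:ℝ) ≤ Q^(19/100:ℝ) := by
  have hQ0 : 0 < Q := lt_of_lt_of_le (by positivity) hQ
  constructor
  · calc t^(1/20:ℝ) ≤ (Q^(19/2:ℝ))^(1/20:ℝ) := Real.rpow_le_rpow ht0.le h19 (by norm_num)
      _ = Q^(19/40:ℝ) := by rw [← Real.rpow_mul hQ0.le]; norm_num
  · calc t^(1/50:ℝ) ≤ (Q^(19/2:ℝ))^(1/50:ℝ) := Real.rpow_le_rpow ht0.le h19 (by norm_num)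
      _ = Q^(19/100:ℝ) := by rw [← Real.rpow_mul hQ0.le]; norm_num

lemma sixteen_le (hQ : (2:ℝ)^400 ≤ Q) : 16 ≤ Q^(1/100:ℝ) := by
  calc (16:ℝ) = ((2:ℝ)^400)^(1/100:ℝ) := by
        rw [← Real.rpow_natCast, ← Real.rpow_mul (by norm_num)]; norm_num
    _ ≤ Q^(1/100:ℝ) := Real.rpow_le_rpow (by positivity) hQ (by norm_num)

/-- constants are absorbed -/
lemma absorb (hQ : (2:ℝ)^400 ≤ Q) {c a b : ℝ} (hc : c ≤ 8) (hab : a + 1/100 ≤ b) :
    c * Q^a < Q^b := by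
  have hQ0 : 0 < Q := lt_of_lt_of_le (by positivity) hQ
  have hQ1 : 1 ≤ Q := le_trans (one_le_pow₀ (by norm_num)) hQ
  have h16 := sixteen_le hQ
  have hQa : 0 < Q^a := by positivity
  calc c * Q^a ≤ 8 * Q^a := mul_le_mul_of_nonneg_right hc hQa.le
    _ < Q^(1/100:ℝ) * Q^a := mul_lt_mul_of_pos_right (by linarith) hQa
    _ = Q^(a+1/100) := by rw [← Real.rpow_add hQ0, add_comm]
    _ ≤ Q^b := Real.rpow_le_rpow_of_exponent_le hQ1 hab

/-- `k`-case -/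
theorem gen_k {ρ : ℚ} {x y : ℕ} {r r' : ℝ} {m m' : ℤ} (hQ : (2:ℝ)^400 ≤ Q) (hden : Q ≤ ρ.den)
    (h4 : Q^4 ≤ t) (h19 : t ≤ Q^(19/2:ℝ)) (hne : x ≠ y)
    (hex : ((m:ℝ) + ρ) * y = (m' + ρ) * x) : ClsT2.Gen3 ρ ρ t x y r r' := by
  have hQ0 : 0 < Q := lt_of_lt_of_le (by positivity) hQ
  have hQ1 : 1 ≤ Q := le_trans (one_le_pow₀ (by norm_num)) hQ
  have ht0 : 0 < t := lt_of_lt_of_le (by positivity) h4
  have hd0 : (0:ℝ) < ρ.den := by exact_mod_cast ρ.pos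
  obtain ⟨hN, -⟩ := N_le hQ ht0 h19
  have hNQ : t^(1/20:ℝ) < Q := by
    refine lt_of_le_of_lt hN ?_
    have := absorb hQ (c := 1) (a := 19/40) (b := 1) (by norm_num) (by norm_num)
    rwa [one_mul, Real.rpow_one] at this
  have hN4 : 4 * t^(1/20:ℝ) < t := by
    calc 4 * t^(1/20:ℝ) ≤ 4 * Q^(19/40:ℝ) := by linarith
      _ < Q^(4:ℝ) := absorb hQ (by norm_num) (by norm_num)
      _ = Q^4 := by rw [← Real.rpow_natCast]; norm_num
      _ ≤ t := h4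
  have uns : ∀ z : ℝ, (ρ.den:ℝ) ≤ z → ∀ Y : ℝ, 0 < Y → Y < z → z ≤ 2 * Y →
      ¬ Struct (t^(1/20:ℝ)) ρ t Y := by
    intro z hz Y hY0 _ hzY
    apply uns_k ht0 hY0 (lt_of_lt_of_le hNQ hden)
    calc 2 * t^(1/20:ℝ) * ρ.den ≤ 2 * t^(1/20:ℝ) * (2 * Y) :=
          mul_le_mul_of_nonneg_left (hz.trans hzY) (by positivity)
      _ = (4 * t^(1/20:ℝ)) * Y := by ring
      _ < t * Y := mul_lt_mul_of_pos_right hN4 hY0
  refine ⟨⟨m * y - m' * x, ?_⟩, ?_⟩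
  · have e : (((m * y - m' * x : ℤ):ℝ) - (ρ * x - ρ * y)) = (m + ρ) * y - (m' + ρ) * x := by
      push_cast; ring
    rw [e, hex, sub_self, abs_zero]; positivity
  · rcases exact_big hne hex with h | h
    · right; right
      exact ⟨lt_of_lt_of_le hNQ (hden.trans h), fun X h1 h2 h3 => uns x h X h1 h2 h3⟩
    · right; left
      exact ⟨lt_of_lt_of_le hNQ (hden.trans h), fun X h1 h2 h3 => uns y h X h1 h2 h3⟩

/-- one side of the `λ`-case -/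
lemma side_l {θ : ℝ} {ρ : ℚ} {z : ℕ} {c η : ℝ} (hQ : (2:ℝ)^400 ≤ Q) (hden : (ρ.den:ℝ) < Q)
    (h4 : Q^4 ≤ t) (h19 : t ≤ Q^(19/2:ℝ)) (hη : 0 < η) (hz : 0 < z)
    (hδ : η * |θ - ρ| ≤ 2 / t) (hc : Q * c ≤ |θ - ρ|) (hbal : t^(-(51/50):ℝ) < z * (η * c)) :
    t^(1/20:ℝ) < z ∧ ∀ Y : ℝ, 0 < Y → Y < z → (z:ℝ) ≤ 2 * Y →
      ¬ Struct (t^(1/20:ℝ)) (ρ + η * (θ - ρ)) t Y := by
  have hQ0 : 0 < Q := lt_of_lt_of_le (by positivity) hQ
  have hQ1 : 1 ≤ Q := le_trans (one_le_pow₀ (by norm_num)) hQ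
  have ht0 : 0 < t := lt_of_lt_of_le (by positivity) h4
  have hd0 : (0:ℝ) < ρ.den := by exact_mod_cast ρ.pos
  have hz0 : (0:ℝ) < z := by exact_mod_cast hz
  have hz1 : (1:ℝ) ≤ z := by exact_mod_cast hz
  obtain ⟨hN, hN'⟩ := N_le hQ ht0 h19
  have hNp : 0 < t^(1/20:ℝ) := by positivity
  have e51 : t^(-(51/50):ℝ) = t⁻¹ * (t^(1/50:ℝ))⁻¹ := by
    rw [← Real.rpow_neg_one, ← Real.rpow_neg ht0.le, ← Real.rpow_add ht0]; norm_num
  have hu0 : 0 < t^(1/50:ℝ) := by positivity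
  -- lower bound for η δ
  have hlow : Q * (t⁻¹ * (t^(1/50:ℝ))⁻¹) / z < η * |θ - ρ| := by
    rw [div_lt_iff₀ hz0, ← e51]
    calc Q * t^(-(51/50):ℝ) < Q * (z * (η * c)) := mul_lt_mul_of_pos_left hbal hQ0
      _ = (z * η) * (Q * c) := by ring
      _ ≤ (z * η) * |θ - ρ| := mul_le_mul_of_nonneg_left hc (by positivity)
      _ = η * |θ - ρ| * z := by ring
  constructor
  · -- z is large
    have h1 : Q * (t⁻¹ * (t^(1/50:ℝ))⁻¹) / z < 2 / t := hlow.trans_le hδ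
    rw [div_lt_div_iff₀ hz0 ht0] at h1
    have h2 : Q * (t^(1/50:ℝ))⁻¹ < 2 * z := by
      calc Q * (t^(1/50:ℝ))⁻¹ = Q * (t⁻¹ * (t^(1/50:ℝ))⁻¹) * t := by field_simp
        _ < 2 * z := h1
    have h3 : Q < 2 * z * t^(1/50:ℝ) := by
      rw [← div_eq_mul_inv, div_lt_iff₀ hu0] at h2
      exact h2
    by_contra hcon
    have h4' : (z:ℝ) ≤ Q^(19/40:ℝ) := (not_lt.1 hcon).trans hN
    have h5 : 2 * (z:ℝ) * t^(1/50:ℝ) ≤ 2 * Q^(19/40:ℝ) * Q^(19/100:ℝ) :=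
      mul_le_mul (mul_le_mul_of_nonneg_left h4' (by norm_num)) hN' hu0.le (by positivity)
    have h6 : 2 * Q^(19/40:ℝ) * Q^(19/100:ℝ) < Q := by
      rw [mul_assoc, ← Real.rpow_add hQ0]
      have := absorb hQ (c := 2) (a := 19/40+19/100) (b := 1) (by norm_num) (by norm_num)
      rwa [Real.rpow_one] at this
    linarith
  · intro Y hY0 _ hzY
    have hε : |η * (θ - ρ)| = η * |θ - ρ| := by rw [abs_mul, abs_of_pos hη]
    have hNY : 2 * t^(1/20:ℝ) / (t * Y) ≤ 4 * t^(1/20:ℝ) / (t * z) := by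
      rw [div_le_div_iff₀ (by positivity) (by positivity)]
      calc 2 * t^(1/20:ℝ) * (t * z) ≤ 2 * t^(1/20:ℝ) * (t * (2 * Y)) := by gcongr
        _ = 4 * t^(1/20:ℝ) * (t * Y) := by ring
    apply uns_l
    · rw [hε]
      have h1 : 4 * t^(1/20:ℝ) / (t * z) ≤ 4 * t^(1/20:ℝ) / t := by
        apply div_le_div_of_nonneg_left (by positivity) ht0
        exact le_mul_of_one_le_right ht0.le hz1
      have h2 : t^(1/20:ℝ) * (η * |θ - ρ|) ≤ t^(1/20:ℝ) * (2 / t) :=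
        mul_le_mul_of_nonneg_left hδ hNp.le
      have h3 : 1 / Q < 1 / (ρ.den:ℝ) := one_div_lt_one_div_of_lt hd0 hden
      have h5 : 6 * t^(1/20:ℝ) / t < 1 / Q := by
        rw [div_lt_div_iff₀ ht0 hQ0, one_mul]
        calc 6 * t^(1/20:ℝ) * Q ≤ 6 * Q^(19/40:ℝ) * Q^(1:ℝ) := by
              rw [Real.rpow_one]
              exact mul_le_mul_of_nonneg_right (by linarith) hQ0.le
          _ = 6 * Q^(19/40+1:ℝ) := by rw [mul_assoc, ← Real.rpow_add hQ0]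
          _ < Q^(4:ℝ) := absorb hQ (by norm_num) (by norm_num)
          _ = Q^4 := by rw [← Real.rpow_natCast]; norm_num
          _ ≤ t := h4
      calc t^(1/20:ℝ) * (η * |θ - ρ|) + 2 * t^(1/20:ℝ) / (t * Y)
          ≤ t^(1/20:ℝ) * (2 / t) + 4 * t^(1/20:ℝ) / t := add_le_add h2 (hNY.trans h1)
        _ = 6 * t^(1/20:ℝ) / t := by ring
        _ < 1 / (ρ.den:ℝ) := h5.trans h3
    · rw [hε]
      refine lt_of_le_of_lt hNY (lt_of_le_of_lt ?_ hlow)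
      rw [div_le_div_iff₀ (by positivity) hz0]
      have h5 : 4 * t^(1/20:ℝ) * t^(1/50:ℝ) ≤ Q := by
        calc 4 * t^(1/20:ℝ) * t^(1/50:ℝ) ≤ 4 * Q^(19/40:ℝ) * Q^(19/100:ℝ) :=
              mul_le_mul (mul_le_mul_of_nonneg_left hN (by norm_num)) hN' hu0.le (by positivity)
          _ = 4 * Q^(19/40+19/100:ℝ) := by rw [mul_assoc, ← Real.rpow_add hQ0]
          _ ≤ Q^(1:ℝ) := (absorb hQ (by norm_num) (by norm_num)).le
          _ = Q := Real.rpow_one Q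
      have h6 : 4 * t^(1/20:ℝ) ≤ Q * (t^(1/50:ℝ))⁻¹ := by
        rw [← div_eq_mul_inv, le_div_iff₀ hu0]; exact h5
      calc 4 * t^(1/20:ℝ) * z ≤ Q * (t^(1/50:ℝ))⁻¹ * z := mul_le_mul_of_nonneg_right h6 hz0.le
        _ = Q * (t⁻¹ * (t^(1/50:ℝ))⁻¹) * (t * z) := by field_simp

/-- `λ`-case -/
theorem gen_l {θ : ℝ} {ρ : ℚ} {x y : ℕ} {a b η : ℝ} {m m' : ℤ} (hQ : (2:ℝ)^400 ≤ Q)
    (hden : (ρ.den:ℝ) < Q) (h4 : Q^4 ≤ t) (h19 : t ≤ Q^(19/2:ℝ)) (hη : 0 < η)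
    (hx : 0 < x) (hy : 0 < y) (hne : x ≠ y)
    (hex : ((m:ℝ) + ρ) * y = (m' + ρ) * x)
    (hov : |θ - ρ| * |(y:ℝ) - x| ≤ 2 * max ((y:ℝ) * a) ((x:ℝ) * b))
    (hD : η * max ((y:ℝ) * a) ((x:ℝ) * b) ≤ 1/t)
    (hc : Q * a ≤ |θ - ρ| ∨ Q * b ≤ |θ - ρ|) :
    ClsT2.Gen3 (ρ + η * (θ - ρ)) (ρ + η * (θ - ρ)) t x y (η * a) (η * b) := by
  have ht0 : 0 < t := by
    have hQ0 : 0 < Q := lt_of_lt_of_le (by positivity) hQ
    exact lt_of_lt_of_le (by positivity) h4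
  have hov2 : η * |θ - ρ| * |(y:ℝ) - x| ≤ 2 / t := by
    calc η * |θ - ρ| * |(y:ℝ) - x| = η * (|θ - ρ| * |(y:ℝ) - x|) := by ring
      _ ≤ η * (2 * max ((y:ℝ) * a) ((x:ℝ) * b)) := mul_le_mul_of_nonneg_left hov hη.le
      _ = 2 * (η * max ((y:ℝ) * a) ((x:ℝ) * b)) := by ring
      _ ≤ 2 * (1/t) := mul_le_mul_of_nonneg_left hD (by norm_num)
      _ = 2/t := by ring
  have h1 : (1:ℝ) ≤ |(y:ℝ) - x| := by
    have h2 : ((y:ℤ) - x) ≠ 0 := by intro h0; apply hne; omega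
    have := Int.one_le_abs h2
    exact_mod_cast this
  have hδ : η * |θ - ρ| ≤ 2 / t :=
    (le_mul_of_one_le_right (by positivity) h1).trans hov2
  refine ⟨⟨m * y - m' * x, ?_⟩, ?_⟩
  · have e : (((m * y - m' * x : ℤ):ℝ) - ((ρ + η * (θ - ρ)) * x - (ρ + η * (θ - ρ)) * y)) =
        ((m + ρ) * y - (m' + ρ) * x) + η * (θ - ρ) * (y - x) := by
      push_cast; ring
    rw [e, hex, sub_self, zero_add, abs_mul, abs_mul, abs_of_pos hη]
    exact hov2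
  · unfold Dich579.Alt
    by_cases hb : (x:ℝ) * (η * b) ≤ t^(-(51/50):ℝ) ∨ (y:ℝ) * (η * a) ≤ t^(-(51/50):ℝ)
    · exact Or.inl hb
    right
    push Not at hb
    obtain ⟨hb1, hb2⟩ := hb
    rcases hc with hc | hc
    · left
      exact side_l hQ hden h4 h19 hη hy hδ hc hb2
    · right
      exact side_l hQ hden h4 h19 hη hx hδ hc hb1

end Mid

/-! ### the deep theorem at a scaled radius -/

theorem scaled : ∃ C c0 : ℝ, 1 ≤ C ∧ 0 < c0 ∧ ∀ c1 : ℝ, 0 < c1 → c1 ≤ c0 → ∃ T0 : ℝ, 1 ≤ T0 ∧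
    ∀ (θ θ' T X K L η : ℝ) (V W : Finset ℕ) (E : Finset (ℕ × ℕ)) (R R' : ℕ → ℝ) (F : ℕ × ℕ → ℝ)
      (G : ℕ),
    T0 ≤ T → X ≤ Real.exp (T^c1) → 0 ≤ K → 0 < G → 0 < η → η ≤ 1 →
    (∀ w ∈ V, 0 < w ∧ 0 < R w) → (∀ w ∈ W, 0 < w ∧ 0 < R' w) →
    (∀ w ∈ V, R w ≤ L * wt R w) → (∀ w ∈ W, R' w ≤ L * wt R' w) →
    (∀ z : ℝ, X ≤ z → ∀ w ∈ V, Crest.Agent.R4.ClsB.Tame z G w) →
    (∀ z : ℝ, X ≤ z → ∀ w ∈ W, Crest.Agent.R4.ClsB.Tame z G w) →
    E ⊆ V ×ˢ W → (∀ e ∈ E, η * DP R R' e ≤ 1/T) →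
    (∀ e ∈ E, F e ≤ K * ((R e.1 * R' e.2) / DP R R' e)) →
    (∀ e ∈ E, ∀ t : ℝ, T ≤ t → 1/(2*t) < η * DP R R' e → η * DP R R' e ≤ 1/t → 0 < F e →
      ClsT2.Gen3 θ θ' t (cof e.1 e.2) (cof e.2 e.1) (η * R e.1) (η * R' e.2)) →
    ∑ e ∈ E, F e ≤ C * K * L^2 * T^(-(1/1000):ℝ) *
      ((∑ q ∈ V, wt R q) * (∑ r ∈ W, wt R' r))^(1/2+eps1) := by
  obtain ⟨C, c0, hC1, hc0, hC⟩ := ClsT2.deepHyp_Gen3
  refine ⟨C, c0, hC1, hc0, ?_⟩
  intro c1 hc1 hc10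
  obtain ⟨T0, hT01, hT0⟩ := hC c1 hc1 hc10
  refine ⟨T0, hT01, ?_⟩
  intro θ θ' T X K L η V W E R R' F G hT hX hK hG hη hη1 hV hW hLV hLW hVt hWt hES hED hF hgen
  have he1 : eps1 = 1/1000 := rfl
  have hTp : 0 < T := lt_of_lt_of_le (by linarith) hT
  set Re : ℕ → ℝ := fun w => η * R w with hRe
  set Re' : ℕ → ℝ := fun w => η * R' w with hRe'
  have hDe : ∀ e, DD Re Re' e = η * DP R R' e := by
    intro e
    unfold DD DP
    rw [mul_max_of_nonneg _ _ hη.le, hRe, hRe']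
    congr 1 <;> ring
  have hmem : ∀ e ∈ E, e.1 ∈ V ∧ e.2 ∈ W := fun e he => Finset.mem_product.1 (hES he)
  have hDpos : ∀ e ∈ E, 0 < DP R R' e := fun e he => DP_pos (hW _ (hmem e he).2).1 (hV _ (hmem e he).1).2
  have hmu : ∀ q ∈ V, 0 ≤ wt R q := fun q hq => by
    unfold wt; exact mul_nonneg (hV q hq).2.le (by positivity)
  have hmu' : ∀ q ∈ W, 0 ≤ wt R' q := fun q hq => by
    unfold wt; exact mul_nonneg (hW q hq).2.le (by positivity)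
  have hM0 := Finset.sum_nonneg hmu
  have hM0' := Finset.sum_nonneg hmu'
  have hwe : ∀ q, wt Re q = η * wt R q := fun q => by unfold wt; rw [hRe]; ring
  have hwe' : ∀ q, wt Re' q = η * wt R' q := fun q => by unfold wt; rw [hRe']; ring
  have hsum : ∑ q ∈ V, wt Re q = η * ∑ q ∈ V, wt R q := by
    rw [Finset.mul_sum]; exact Finset.sum_congr rfl fun q _ => hwe q
  have hsum' : ∑ q ∈ W, wt Re' q = η * ∑ q ∈ W, wt R' q := by
    rw [Finset.mul_sum]; exact Finset.sum_congr rfl fun q _ => hwe' q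
  have hRR : ∀ e ∈ E, R e.1 * R' e.2 ≤ L^2 * (wt R e.1 * wt R' e.2) := by
    intro e he
    have h1 := hLV _ (hmem e he).1
    have h2 := hLW _ (hmem e he).2
    have h5 : 0 ≤ L * wt R e.1 := (hV _ (hmem e he).1).2.le.trans h1
    calc R e.1 * R' e.2 ≤ (L * wt R e.1) * (L * wt R' e.2) :=
          mul_le_mul h1 h2 (hW _ (hmem e he).2).2.le h5
      _ = _ := by ring
  have bound := hT0 θ θ' T X ((K/η) * L^2) V W E Re Re' F G hT hX (by positivity) hG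
    (fun w hw => ⟨(hV w hw).1, mul_pos hη (hV w hw).2⟩)
    (fun w hw => ⟨(hW w hw).1, mul_pos hη (hW w hw).2⟩)
    hVt hWt hES (fun e he => by rw [hDe]; exact hED e he)
    (fun e he => by
      rw [hDe]
      have hD := hDpos e he
      have f1 := Crest.Agent.R4.ClsS.one_le_Af (cof e.1 e.2)
      have f2 := Crest.Agent.R4.ClsS.one_le_Af (cof e.2 e.1)
      have f4 : 0 ≤ wt R e.1 * wt R' e.2 := mul_nonneg (hmu _ (hmem e he).1) (hmu' _ (hmem e he).2)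
      have f5 : wt R e.1 * wt R' e.2 ≤ wt R e.1 * wt R' e.2 * (Af (cof e.1 e.2) * Af (cof e.2 e.1)) :=
        le_mul_of_one_le_right f4 (by nlinarith)
      calc F e ≤ K * ((R e.1 * R' e.2) / DP R R' e) := hF e he
        _ ≤ K * ((L^2 * (wt R e.1 * wt R' e.2 * (Af (cof e.1 e.2) * Af (cof e.2 e.1)))) / DP R R' e) := by
            apply mul_le_mul_of_nonneg_left _ hK
            apply div_le_div_of_nonneg_right _ hD.le
            exact (hRR e he).trans (mul_le_mul_of_nonneg_left f5 (by positivity))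
        _ = (K/η) * L^2 * (ew Re Re' e / (η * DP R R' e)) := by
            unfold ew
            rw [hwe, hwe']
            field_simp)
    (fun e he t ht h1 h2 hFe => by
      rw [hDe] at h1 h2
      exact hgen e he t ht h1 h2 hFe)
  refine bound.trans ?_
  rw [hsum, hsum']
  have e1 : (η * ∑ q ∈ V, wt R q) * (η * ∑ r ∈ W, wt R' r) =
      η^2 * ((∑ q ∈ V, wt R q) * ∑ r ∈ W, wt R' r) := by ring
  rw [e1, Real.mul_rpow (by positivity) (mul_nonneg hM0 hM0')]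
  have e2 : (η^2)^(1/2+eps1) = η * η^(2*eps1) := by
    rw [← Real.rpow_natCast, ← Real.rpow_mul hη.le]
    conv_rhs => rw [← Real.rpow_one η, ← Real.rpow_mul hη.le, ← Real.rpow_add hη]
    congr 1
    rw [he1]; norm_num
  rw [e2]
  have h3 : η^(2*eps1) ≤ 1 := Real.rpow_le_one hη.le hη1 (by rw [he1]; norm_num)
  have hP : 0 ≤ ((∑ q ∈ V, wt R q) * (∑ r ∈ W, wt R' r))^(1/2+eps1) :=
    Real.rpow_nonneg (mul_nonneg hM0 hM0') _
  have hTk : 0 < T^(-(1/1000):ℝ) := by positivity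
  calc C * (K / η * L^2) * T^(-(1/1000):ℝ) *
        (η * η^(2*eps1) * ((∑ q ∈ V, wt R q) * (∑ r ∈ W, wt R' r))^(1/2+eps1))
      = (C * K * L^2 * T^(-(1/1000):ℝ) * ((∑ q ∈ V, wt R q) * (∑ r ∈ W, wt R' r))^(1/2+eps1)) *
          η^(2*eps1) := by field_simp
    _ ≤ (C * K * L^2 * T^(-(1/1000):ℝ) * ((∑ q ∈ V, wt R q) * (∑ r ∈ W, wt R' r))^(1/2+eps1)) * 1 := by
        apply mul_le_mul_of_nonneg_left h3
        have : 0 ≤ C := by linarith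
        positivity
    _ = _ := by ring

lemma cof_ne {q r : ℕ} (hne : q ≠ r) : cof q r ≠ cof r q := by
  intro h
  apply hne
  have a1 : cof q r * Nat.gcd q r = q := cof_mul_gcd q r
  have a2 : cof r q * Nat.gcd r q = r := cof_mul_gcd r q
  rw [Nat.gcd_comm, ← h] at a2
  rw [← a1]; exact a2

/-! ### one label -/

open Classical in
/-- **D2, one label** -/
theorem gain1 : ∃ C c0 : ℝ, 1 ≤ C ∧ 0 < c0 ∧ ∀ c1 : ℝ, 0 < c1 → c1 ≤ c0 → ∃ T0 : ℝ, 1 ≤ T0 ∧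
    ∀ (X L K θ : ℝ) (ρ : ℚ) (n G : ℕ) (V W : Finset ℕ) (E : Finset (ℕ × ℕ)) (R R' : ℕ → ℝ)
      (F : ℕ × ℕ → ℝ),
    400 ≤ n → T0 ≤ (2:ℝ)^n → X ≤ Real.exp (((2:ℝ)^n)^c1) → 0 < G → 0 ≤ K → E ⊆ V ×ˢ W →
    (∀ w ∈ V, 0 < w ∧ 0 < R w) → (∀ w ∈ W, 0 < w ∧ 0 < R' w) →
    (∀ w ∈ V, R w ≤ L * wt R w) → (∀ w ∈ W, R' w ≤ L * wt R' w) →
    (∀ z : ℝ, X ≤ z → ∀ w ∈ V, Crest.Agent.R4.ClsB.Tame z G w) →
    (∀ z : ℝ, X ≤ z → ∀ w ∈ W, Crest.Agent.R4.ClsB.Tame z G w) →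
    (∀ e ∈ E, 0 ≤ F e) → (∀ e ∈ E, F e ≤ K * ((R e.1 * R' e.2) / DP R R' e)) →
    (∀ e ∈ E, 0 < F e → e.1 ≠ e.2 ∧
      (∃ m m' : ℤ, ((m:ℝ) + ρ) * (cof e.2 e.1 : ℕ) = (m' + ρ) * (cof e.1 e.2 : ℕ)) ∧
      |θ - ρ| * |((cof e.2 e.1 : ℕ):ℝ) - (cof e.1 e.2 : ℕ)| ≤ 2 * DP R R' e ∧
      ((2:ℝ)^n ≤ ρ.den ∨ 2^n * R e.1 ≤ |θ - ρ| ∨ 2^n * R' e.2 ≤ |θ - ρ|)) →
    ∑ e ∈ E, F e ≤ K * L^2 *
        (((2:ℝ)^n)^(-(1/2):ℝ) * ((∑ q ∈ V, wt R q) * ∑ r ∈ W, wt R' r) +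
          C * ((2:ℝ)^n)^(-(4/1000):ℝ) * ((∑ q ∈ V, wt R q) * ∑ r ∈ W, wt R' r)^(1/2+eps1)) +
      ∑ e ∈ E.filter (fun e => FS (9*n) θ θ (cof e.1 e.2) (cof e.2 e.1) (R e.1) (R' e.2)), F e := by
  obtain ⟨C, c0, hC1, hc0, hC⟩ := scaled
  refine ⟨3 * C, c0, by linarith, hc0, ?_⟩
  intro c1 hc1 hc10
  obtain ⟨T0, hT01, hT0⟩ := hC c1 hc1 hc10
  refine ⟨T0, hT01, ?_⟩
  intro X L K θ ρ n G V W E R R' F hn hTn hX hG hK hES hV hW hLV hLW hVt hWt hF0 hF hP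
  set Q : ℝ := (2:ℝ)^n with hQdef
  have hQ : (2:ℝ)^400 ≤ Q := pow_le_pow_right₀ (by norm_num) hn
  have hQ0 : 0 < Q := by positivity
  have hQ1 : 1 ≤ Q := one_le_pow₀ (by norm_num)
  have hQ4 : Q ≤ Q^4 := le_self_pow₀ hQ1 (by norm_num)
  have hT4 : T0 ≤ Q^4 := hTn.trans hQ4
  have hX4 : X ≤ Real.exp ((Q^4)^c1) :=
    hX.trans (Real.exp_le_exp.2 (Real.rpow_le_rpow hQ0.le hQ4 hc1.le))
  have hQ9 : Q^9 = (2:ℝ)^(9*n) := by rw [hQdef, ← pow_mul, mul_comm]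
  have hQQ9 : Q ≤ Q^9 := le_self_pow₀ hQ1 (by norm_num)
  have hT9 : T0 ≤ Q^9 := hTn.trans hQQ9
  have hX9 : X ≤ Real.exp ((Q^9)^c1) :=
    hX.trans (Real.exp_le_exp.2 (Real.rpow_le_rpow hQ0.le hQQ9 hc1.le))
  have hmem : ∀ e ∈ E, e.1 ∈ V ∧ e.2 ∈ W := fun e he => Finset.mem_product.1 (hES he)
  have hDpos : ∀ e ∈ E, 0 < DP R R' e := fun e he => DP_pos (hW _ (hmem e he).2).1 (hV _ (hmem e he).1).2
  have hmu : ∀ q ∈ V, 0 ≤ wt R q := fun q hq => by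
    unfold wt; exact mul_nonneg (hV q hq).2.le (by positivity)
  have hmu' : ∀ q ∈ W, 0 ≤ wt R' q := fun q hq => by
    unfold wt; exact mul_nonneg (hW q hq).2.le (by positivity)
  have hM0 := Finset.sum_nonneg hmu
  have hM0' := Finset.sum_nonneg hmu'
  set MM : ℝ := (∑ q ∈ V, wt R q) * ∑ r ∈ W, wt R' r with hMM
  have hMM0 : 0 ≤ MM := mul_nonneg hM0 hM0'
  have hPP : 0 ≤ MM^(1/2+eps1) := Real.rpow_nonneg hMM0 _
  have hRR : ∀ e ∈ E, R e.1 * R' e.2 ≤ L^2 * (wt R e.1 * wt R' e.2) := by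
    intro e he
    have h1 := hLV _ (hmem e he).1
    have h2 := hLW _ (hmem e he).2
    have h5 : 0 ≤ L * wt R e.1 := (hV _ (hmem e he).1).2.le.trans h1
    calc R e.1 * R' e.2 ≤ (L * wt R e.1) * (L * wt R' e.2) :=
          mul_le_mul h1 h2 (hW _ (hmem e he).2).2.le h5
      _ = _ := by ring
  -- the general mid-range bound
  have hcof : ∀ e ∈ E, 0 < cof e.1 e.2 ∧ 0 < cof e.2 e.1 := fun e he =>
    ⟨cof_pos (hV _ (hmem e he).1).1, cof_pos (hW _ (hmem e he).2).1⟩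
  have mid : ∀ (η : ℝ) (E' : Finset (ℕ × ℕ)), 0 < η → η ≤ 1 → E' ⊆ E →
      (∀ e ∈ E', η * DP R R' e ≤ 1/Q^4) → (∀ e ∈ E', Q^(-(19/2):ℝ) ≤ η * DP R R' e) →
      ∑ e ∈ E', F e ≤ C * K * L^2 * (Q^4)^(-(1/1000):ℝ) * MM^(1/2+eps1) := by
    intro η E' hη hη1 hE'E h1 h2
    have hup : ∀ e ∈ E', ∀ t : ℝ, 0 < t → η * DP R R' e ≤ 1/t → t ≤ Q^(19/2:ℝ) := by
      intro e he t ht h3
      have h4 := (h2 e he).trans h3
      rw [Real.rpow_neg hQ0.le, ← one_div] at h4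
      exact (one_div_le_one_div (by positivity) ht).1 h4
    by_cases hden : Q ≤ ρ.den
    · refine hT0 (ρ:ℝ) (ρ:ℝ) (Q^4) X K L η V W E' R R' F G hT4 hX4 hK hG hη hη1 hV hW hLV hLW hVt hWt
        (hE'E.trans hES) h1 (fun e he => hF e (hE'E he)) ?_
      intro e he t ht h3 h4 hFe
      have ht0 : 0 < t := lt_of_lt_of_le (by positivity) ht
      obtain ⟨hne, ⟨m, m', hex⟩, hov, -⟩ := hP e (hE'E he) hFe
      exact gen_k hQ hden ht (hup e he t ht0 h4) (cof_ne hne) hex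
    · rw [not_le] at hden
      refine hT0 (ρ + η * (θ - ρ)) (ρ + η * (θ - ρ)) (Q^4) X K L η V W E' R R' F G hT4 hX4 hK hG hη hη1
        hV hW hLV hLW hVt hWt (hE'E.trans hES) h1 (fun e he => hF e (hE'E he)) ?_
      intro e he t ht h3 h4 hFe
      have ht0 : 0 < t := lt_of_lt_of_le (by positivity) ht
      obtain ⟨hne, ⟨m, m', hex⟩, hov, hc⟩ := hP e (hE'E he) hFe
      have hc2 : Q * R e.1 ≤ |θ - ρ| ∨ Q * R' e.2 ≤ |θ - ρ| := by
        rcases hc with h | h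
        · exact absurd h (not_le.2 hden)
        · exact h
      have hcf := hcof e (hE'E he)
      exact gen_l hQ hden ht (hup e he t ht0 h4) hη hcf.1 hcf.2
        (cof_ne hne) hex hov h4 hc2
  -- splitting
  set EB := E.filter (fun e => Q^(1/2:ℝ) < DP R R' e) with hEB
  set E1 := E.filter (fun e => ¬ Q^(1/2:ℝ) < DP R R' e) with hE1
  set EI := E1.filter (fun e => Q^(-(9/2):ℝ) < DP R R' e) with hEI
  set E2 := E1.filter (fun e => ¬ Q^(-(9/2):ℝ) < DP R R' e) with hE2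
  set EII := E2.filter (fun e => 1/Q^9 < DP R R' e) with hEII
  set E3 := E2.filter (fun e => ¬ 1/Q^9 < DP R R' e) with hE3
  set PF : ℕ × ℕ → Prop := fun e => FS (9*n) θ θ (cof e.1 e.2) (cof e.2 e.1) (R e.1) (R' e.2) with hPF
  set EF := E3.filter (fun e => PF e) with hEF
  set EG := E3.filter (fun e => ¬ PF e) with hEG
  have hsplit : ∑ e ∈ E, F e =
      ∑ e ∈ EB, F e + (∑ e ∈ EI, F e + (∑ e ∈ EII, F e + (∑ e ∈ EF, F e + ∑ e ∈ EG, F e))) := by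
    rw [hEF, hEG, Finset.sum_filter_add_sum_filter_not, hEII, hE3, Finset.sum_filter_add_sum_filter_not,
      hEI, hE2, Finset.sum_filter_add_sum_filter_not, hEB, hE1, Finset.sum_filter_add_sum_filter_not]
  have m1 : ∀ e ∈ E1, e ∈ E := fun e he => (Finset.mem_filter.1 he).1
  have m2 : ∀ e ∈ E2, e ∈ E1 := fun e he => (Finset.mem_filter.1 he).1
  have m3 : ∀ e ∈ E3, e ∈ E2 := fun e he => (Finset.mem_filter.1 he).1
  -- (B)
  have bB : ∑ e ∈ EB, F e ≤ K * L^2 * (Q^(-(1/2):ℝ) * MM) := by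
    have hterm : ∀ e ∈ EB, F e ≤ K * L^2 * Q^(-(1/2):ℝ) * (wt R e.1 * wt R' e.2) := by
      intro e he
      have heE := (Finset.mem_filter.1 he).1
      have hD := (Finset.mem_filter.1 he).2
      have hww : 0 ≤ wt R e.1 * wt R' e.2 :=
        mul_nonneg (hmu _ (hmem e heE).1) (hmu' _ (hmem e heE).2)
      calc F e ≤ K * ((R e.1 * R' e.2) / DP R R' e) := hF e heE
        _ ≤ K * ((L^2 * (wt R e.1 * wt R' e.2)) / Q^(1/2:ℝ)) := by
            apply mul_le_mul_of_nonneg_left _ hK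
            exact div_le_div₀ (by positivity) (hRR e heE) (by positivity) hD.le
        _ = K * L^2 * Q^(-(1/2):ℝ) * (wt R e.1 * wt R' e.2) := by
            rw [Real.rpow_neg hQ0.le]; field_simp
    calc ∑ e ∈ EB, F e ≤ ∑ e ∈ EB, K * L^2 * Q^(-(1/2):ℝ) * (wt R e.1 * wt R' e.2) :=
          Finset.sum_le_sum hterm
      _ ≤ ∑ e ∈ V ×ˢ W, K * L^2 * Q^(-(1/2):ℝ) * (wt R e.1 * wt R' e.2) := by
          apply Finset.sum_le_sum_of_subset_of_nonneg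
          · exact fun e he => hES (Finset.mem_filter.1 he).1
          · intro e he _
            have := Finset.mem_product.1 he
            have h1 := hmu _ this.1
            have h2 := hmu' _ this.2
            positivity
      _ = K * L^2 * (Q^(-(1/2):ℝ) * MM) := by
          rw [← Finset.mul_sum, hMM, Finset.sum_mul_sum, Finset.sum_product]
          ring
  -- (I)
  have g4 : (Q^4)^(-(1/1000):ℝ) = Q^(-(4/1000):ℝ) := by
    rw [← Real.rpow_natCast, ← Real.rpow_mul hQ0.le]; norm_num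
  have bI : ∑ e ∈ EI, F e ≤ C * K * L^2 * Q^(-(4/1000):ℝ) * MM^(1/2+eps1) := by
    rw [← g4]
    have hη0 : 0 < Q^(-5:ℝ) := by positivity
    refine mid (Q^(-5:ℝ)) EI hη0 (Real.rpow_le_one_of_one_le_of_nonpos hQ1 (by norm_num))
      (fun e he => m1 e (Finset.mem_filter.1 he).1) ?_ ?_
    · intro e he
      have h1 : DP R R' e ≤ Q^(1/2:ℝ) := not_lt.1 (Finset.mem_filter.1 (Finset.mem_filter.1 he).1).2
      calc Q^(-5:ℝ) * DP R R' e ≤ Q^(-5:ℝ) * Q^(1/2:ℝ) := mul_le_mul_of_nonneg_left h1 hη0.le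
        _ = Q^(-(9/2):ℝ) := by rw [← Real.rpow_add hQ0]; norm_num
        _ ≤ Q^(-4:ℝ) := Real.rpow_le_rpow_of_exponent_le hQ1 (by norm_num)
        _ = 1/Q^4 := by
            rw [Real.rpow_neg hQ0.le, one_div]
            congr 1
            rw [← Real.rpow_natCast]; norm_num
    · intro e he
      have h1 := (Finset.mem_filter.1 he).2
      calc Q^(-(19/2):ℝ) = Q^(-5:ℝ) * Q^(-(9/2):ℝ) := by rw [← Real.rpow_add hQ0]; norm_num
        _ ≤ Q^(-5:ℝ) * DP R R' e := mul_le_mul_of_nonneg_left h1.le hη0.le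
  -- (II)
  have bII : ∑ e ∈ EII, F e ≤ C * K * L^2 * Q^(-(4/1000):ℝ) * MM^(1/2+eps1) := by
    rw [← g4]
    refine mid 1 EII one_pos le_rfl (fun e he => m1 e (m2 e (Finset.mem_filter.1 he).1)) ?_ ?_
    · intro e he
      have h1 : DP R R' e ≤ Q^(-(9/2):ℝ) := not_lt.1 (Finset.mem_filter.1 (Finset.mem_filter.1 he).1).2
      rw [one_mul]
      calc DP R R' e ≤ Q^(-(9/2):ℝ) := h1
        _ ≤ Q^(-4:ℝ) := Real.rpow_le_rpow_of_exponent_le hQ1 (by norm_num)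
        _ = 1/Q^4 := by
            rw [Real.rpow_neg hQ0.le, one_div]
            congr 1
            rw [← Real.rpow_natCast]; norm_num
    · intro e he
      have h1 := (Finset.mem_filter.1 he).2
      rw [one_mul]
      refine le_trans ?_ h1.le
      calc Q^(-(19/2):ℝ) ≤ Q^(-9:ℝ) := Real.rpow_le_rpow_of_exponent_le hQ1 (by norm_num)
        _ = 1/Q^9 := by
            rw [Real.rpow_neg hQ0.le, one_div]
            congr 1
            rw [← Real.rpow_natCast]; norm_num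
  -- (III)
  have bG : ∑ e ∈ EG, F e ≤ C * K * L^2 * Q^(-(4/1000):ℝ) * MM^(1/2+eps1) := by
    have h9 : (Q^9)^(-(1/1000):ℝ) ≤ Q^(-(4/1000):ℝ) := by
      rw [← Real.rpow_natCast, ← Real.rpow_mul hQ0.le]
      apply Real.rpow_le_rpow_of_exponent_le hQ1; norm_num
    have hb : ∑ e ∈ EG, F e ≤ C * K * L^2 * (Q^9)^(-(1/1000):ℝ) * MM^(1/2+eps1) := by
      refine hT0 θ θ (Q^9) X K L 1 V W EG R R' F G hT9 hX9 hK hG one_pos le_rfl hV hW hLV hLW hVt hWt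
        (fun e he => hES (m1 e (m2 e (m3 e (Finset.mem_filter.1 he).1)))) ?_
        (fun e he => hF e (m1 e (m2 e (m3 e (Finset.mem_filter.1 he).1)))) ?_
      · intro e he
        rw [one_mul]
        exact not_lt.1 (Finset.mem_filter.1 (Finset.mem_filter.1 he).1).2
      · intro e he t ht h3 h4 hFe
        rw [one_mul] at h3 h4
        have heE := m1 e (m2 e (m3 e (Finset.mem_filter.1 he).1))
        have hnF := (Finset.mem_filter.1 he).2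
        obtain ⟨hne, ⟨m, m', hex⟩, hov, hc⟩ := hP e heE hFe
        have hcf := hcof e heE
        have hxy := cof_ne hne
        have hrel : |((m:ℝ) + θ) * (cof e.2 e.1 : ℕ) - (m' + θ) * (cof e.1 e.2 : ℕ)| ≤
            2 * max ((cof e.2 e.1 : ℝ) * R e.1) ((cof e.1 e.2 : ℝ) * R' e.2) := by
          have e1 : ((m:ℝ) + θ) * (cof e.2 e.1 : ℕ) - (m' + θ) * (cof e.1 e.2 : ℕ) =
              (((m:ℝ) + ρ) * (cof e.2 e.1 : ℕ) - (m' + ρ) * (cof e.1 e.2 : ℕ)) +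
              (θ - ρ) * (((cof e.2 e.1 : ℕ):ℝ) - (cof e.1 e.2 : ℕ)) := by ring
          rw [e1, hex, sub_self, zero_add, abs_mul]
          exact hov
        have hcl := classify_num (n := 9*n) (by omega) hcf.1 hcf.2 (hV _ (hmem e heE).1).2
          (hW _ (hmem e heE).2).2 hrel
        rw [one_mul, one_mul]
        rcases hcl with h | h | h
        · exact gen3_of hrel h (by rw [← hQ9]; exact ht) h3 h4
        · exact absurd h (noES hxy)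
        · exact absurd h hnF
    refine hb.trans ?_
    apply mul_le_mul_of_nonneg_right _ hPP
    apply mul_le_mul_of_nonneg_left h9
    have : 0 ≤ C := by linarith
    positivity
  have bF : ∑ e ∈ EF, F e ≤ ∑ e ∈ E.filter (fun e => PF e), F e := by
    apply Finset.sum_le_sum_of_subset_of_nonneg
    · intro e he
      have h1 := Finset.mem_filter.1 he
      exact Finset.mem_filter.2 ⟨m1 e (m2 e (m3 e h1.1)), h1.2⟩
    · intro e he _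
      exact hF0 e (Finset.mem_filter.1 he).1
  rw [hsplit]
  calc _ ≤ K * L^2 * (Q^(-(1/2):ℝ) * MM) + (C * K * L^2 * Q^(-(4/1000):ℝ) * MM^(1/2+eps1) +
        (C * K * L^2 * Q^(-(4/1000):ℝ) * MM^(1/2+eps1) +
          (∑ e ∈ E.filter (fun e => PF e), F e + C * K * L^2 * Q^(-(4/1000):ℝ) * MM^(1/2+eps1)))) := by
        linarith
    _ = _ := by ring

/-! ### all labels -/

lemma diag_rpow {ι : Type*} (I : Finset ι) (a b : ι → ℝ) {s : ℝ} (hs : 1/2 ≤ s)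
    (ha : ∀ i ∈ I, 0 ≤ a i) (hb : ∀ i ∈ I, 0 ≤ b i) :
    ∑ i ∈ I, (a i * b i)^s ≤ ((∑ i ∈ I, a i) * ∑ i ∈ I, b i)^s := by
  classical
  have h := schur_rpow I I (fun i j => if i = j then (1:ℝ) else 0) a b (D := 1) hs
    (fun i _ j _ => by positivity)
    (fun i hi => by rw [Finset.sum_ite_eq, if_pos hi])
    (fun j hj => by rw [Finset.sum_ite_eq', if_pos hj]) (by norm_num) ha hb
  rw [one_mul] at h
  refine le_trans (le_of_eq ?_) h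
  refine Finset.sum_congr rfl fun i hi => ?_
  rw [Finset.sum_eq_single i]
  · rw [if_pos rfl, one_mul]
  · intro j _ hj
    rw [if_neg (Ne.symm hj), zero_mul]
  · intro h; exact absurd hi h

open Classical in
/-- **D2**: exact pairs with equal labels, one node, one target `θ`; every related pair has a label
with a denominator `≥ 2^n`, or at distance `≥ 2^n R` of the target for one of the two radii. The
pairs which are exact for labels valid at the present radii are left on the right. -/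
theorem gainKL : ∃ C c0 : ℝ, 1 ≤ C ∧ 0 < c0 ∧ ∀ c1 : ℝ, 0 < c1 → c1 ≤ c0 → ∃ T0 : ℝ, 1 ≤ T0 ∧
    ∀ (X L K θ : ℝ) (τ τ' : ℕ → ℚ) (n G : ℕ) (V W : Finset ℕ) (E : Finset (ℕ × ℕ)) (R R' : ℕ → ℝ)
      (F : ℕ × ℕ → ℝ),
    400 ≤ n → T0 ≤ (2:ℝ)^n → X ≤ Real.exp (((2:ℝ)^n)^c1) → 0 < G → 0 ≤ K → E ⊆ V ×ˢ W →
    (∀ w ∈ V, 0 < w ∧ 0 < R w) → (∀ w ∈ W, 0 < w ∧ 0 < R' w) →
    (∀ w ∈ V, R w ≤ L * wt R w) → (∀ w ∈ W, R' w ≤ L * wt R' w) →
    (∀ z : ℝ, X ≤ z → ∀ w ∈ V, Crest.Agent.R4.ClsB.Tame z G w) →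
    (∀ z : ℝ, X ≤ z → ∀ w ∈ W, Crest.Agent.R4.ClsB.Tame z G w) →
    (∀ e ∈ E, 0 ≤ F e) → (∀ e ∈ E, F e ≤ K * ((R e.1 * R' e.2) / DP R R' e)) →
    (∀ e ∈ E, 0 < F e → e.1 ≠ e.2 ∧ τ e.1 = τ' e.2 ∧
      (∃ m m' : ℤ, ((m:ℝ) + τ e.1) * (cof e.2 e.1 : ℕ) = (m' + τ e.1) * (cof e.1 e.2 : ℕ)) ∧
      |θ - τ e.1| * |((cof e.2 e.1 : ℕ):ℝ) - (cof e.1 e.2 : ℕ)| ≤ 2 * DP R R' e ∧
      ((2:ℝ)^n ≤ (τ e.1).den ∨ 2^n * R e.1 ≤ |θ - τ e.1| ∨ 2^n * R' e.2 ≤ |θ - τ e.1|)) →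
    ∑ e ∈ E, F e ≤ K * L^2 *
        (((2:ℝ)^n)^(-(1/2):ℝ) * ((∑ q ∈ V, wt R q) * ∑ r ∈ W, wt R' r) +
          C * ((2:ℝ)^n)^(-(4/1000):ℝ) * ((∑ q ∈ V, wt R q) * ∑ r ∈ W, wt R' r)^(1/2+eps1)) +
      ∑ e ∈ E.filter (fun e => FS (9*n) θ θ (cof e.1 e.2) (cof e.2 e.1) (R e.1) (R' e.2)), F e := by
  obtain ⟨C, c0, hC1, hc0, hC⟩ := gain1
  refine ⟨C, c0, hC1, hc0, ?_⟩
  intro c1 hc1 hc10
  obtain ⟨T0, hT01, hT0⟩ := hC c1 hc1 hc10
  refine ⟨T0, hT01, ?_⟩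
  intro X L K θ τ τ' n G V W E R R' F hn hTn hX hG hK hES hV hW hLV hLW hVt hWt hF0 hF hP
  have he1 : eps1 = 1/1000 := rfl
  have hmu : ∀ q ∈ V, 0 ≤ wt R q := fun q hq => by
    unfold wt; exact mul_nonneg (hV q hq).2.le (by positivity)
  have hmu' : ∀ q ∈ W, 0 ≤ wt R' q := fun q hq => by
    unfold wt; exact mul_nonneg (hW q hq).2.le (by positivity)
  set PF : ℕ × ℕ → Prop := fun e => FS (9*n) θ θ (cof e.1 e.2) (cof e.2 e.1) (R e.1) (R' e.2) with hPF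
  set Ep := E.filter (fun e => 0 < F e) with hEp
  set I : Finset ℚ := V.image τ ∪ W.image τ' with hI
  have hsum0 : ∑ e ∈ E, F e = ∑ e ∈ Ep, F e := by
    rw [hEp]
    symm
    apply Finset.sum_filter_of_ne
    intro e he h0
    exact lt_of_le_of_ne (hF0 e he) (Ne.symm h0)
  have hmapE : ∀ e ∈ Ep, τ e.1 ∈ I := fun e he =>
    Finset.mem_union_left _ (Finset.mem_image_of_mem τ
      (Finset.mem_product.1 (hES (Finset.mem_filter.1 he).1)).1)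
  have hsplit : ∑ e ∈ Ep, F e = ∑ ρ ∈ I, ∑ e ∈ Ep.filter (fun e => τ e.1 = ρ), F e :=
    (Finset.sum_fiberwise_of_maps_to hmapE F).symm
  have hsV : ∑ ρ ∈ I, ∑ q ∈ V.filter (fun q => τ q = ρ), wt R q = ∑ q ∈ V, wt R q :=
    Finset.sum_fiberwise_of_maps_to (fun q hq => Finset.mem_union_left _ (Finset.mem_image_of_mem τ hq)) _
  have hsW : ∑ ρ ∈ I, ∑ q ∈ W.filter (fun q => τ' q = ρ), wt R' q = ∑ q ∈ W, wt R' q :=
    Finset.sum_fiberwise_of_maps_to (fun q hq => Finset.mem_union_right _ (Finset.mem_image_of_mem τ' hq)) _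
  set a : ℚ → ℝ := fun ρ => ∑ q ∈ V.filter (fun q => τ q = ρ), wt R q with ha
  set b : ℚ → ℝ := fun ρ => ∑ q ∈ W.filter (fun q => τ' q = ρ), wt R' q with hb
  have ha0 : ∀ ρ ∈ I, 0 ≤ a ρ := fun ρ _ => Finset.sum_nonneg fun q hq => hmu q (Finset.mem_filter.1 hq).1
  have hb0 : ∀ ρ ∈ I, 0 ≤ b ρ := fun ρ _ => Finset.sum_nonneg fun q hq => hmu' q (Finset.mem_filter.1 hq).1
  have hone : ∀ ρ ∈ I, ∑ e ∈ Ep.filter (fun e => τ e.1 = ρ), F e ≤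
      K * L^2 * (((2:ℝ)^n)^(-(1/2):ℝ) * (a ρ * b ρ) +
          C * ((2:ℝ)^n)^(-(4/1000):ℝ) * (a ρ * b ρ)^(1/2+eps1)) +
      ∑ e ∈ (Ep.filter (fun e => τ e.1 = ρ)).filter PF, F e := by
    intro ρ _
    refine hT0 X L K θ ρ n G (V.filter (fun q => τ q = ρ)) (W.filter (fun q => τ' q = ρ))
      (Ep.filter (fun e => τ e.1 = ρ)) R R' F hn hTn hX hG hK ?_
      (fun w hw => hV w (Finset.mem_filter.1 hw).1) (fun w hw => hW w (Finset.mem_filter.1 hw).1)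
      (fun w hw => hLV w (Finset.mem_filter.1 hw).1) (fun w hw => hLW w (Finset.mem_filter.1 hw).1)
      (fun z hz w hw => hVt z hz w (Finset.mem_filter.1 hw).1)
      (fun z hz w hw => hWt z hz w (Finset.mem_filter.1 hw).1)
      (fun e he => hF0 e (Finset.mem_filter.1 (Finset.mem_filter.1 he).1).1)
      (fun e he => hF e (Finset.mem_filter.1 (Finset.mem_filter.1 he).1).1) ?_
    · intro e he
      obtain ⟨he1', he2⟩ := Finset.mem_filter.1 he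
      obtain ⟨he3, he4⟩ := Finset.mem_filter.1 he1'
      have h1 := Finset.mem_product.1 (hES he3)
      have h2 := (hP e he3 he4).2.1
      exact Finset.mem_product.2 ⟨Finset.mem_filter.2 ⟨h1.1, he2⟩,
        Finset.mem_filter.2 ⟨h1.2, by rw [← h2]; exact he2⟩⟩
    · intro e he hFe
      obtain ⟨he1', he2⟩ := Finset.mem_filter.1 he
      obtain ⟨he3, he4⟩ := Finset.mem_filter.1 he1'
      obtain ⟨h1, _, h3, h4, h5⟩ := hP e he3 he4
      rw [he2] at h3 h4 h5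
      exact ⟨h1, h3, h4, h5⟩
  have hFS : ∑ ρ ∈ I, ∑ e ∈ (Ep.filter (fun e => τ e.1 = ρ)).filter PF, F e ≤
      ∑ e ∈ E.filter PF, F e := by
    have h1 : ∀ ρ ∈ I, ∑ e ∈ (Ep.filter (fun e => τ e.1 = ρ)).filter PF, F e =
        ∑ e ∈ (Ep.filter PF).filter (fun e => τ e.1 = ρ), F e := by
      intro ρ _
      congr 1
      ext e
      simp only [Finset.mem_filter]
      tauto
    rw [Finset.sum_congr rfl h1,
      Finset.sum_fiberwise_of_maps_to (fun e he => hmapE e (Finset.mem_filter.1 he).1)]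
    apply Finset.sum_le_sum_of_subset_of_nonneg
    · intro e he
      obtain ⟨h1, h2⟩ := Finset.mem_filter.1 he
      exact Finset.mem_filter.2 ⟨(Finset.mem_filter.1 h1).1, h2⟩
    · intro e he _
      exact hF0 e (Finset.mem_filter.1 he).1
  have hprod : ∑ ρ ∈ I, a ρ * b ρ ≤ (∑ q ∈ V, wt R q) * ∑ r ∈ W, wt R' r := by
    have := diag_rpow I a b (s := 1) (by norm_num) ha0 hb0
    simp only [Real.rpow_one] at this
    rw [← hsV, ← hsW]; exact this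
  have hpw : ∑ ρ ∈ I, (a ρ * b ρ)^(1/2+eps1) ≤
      ((∑ q ∈ V, wt R q) * ∑ r ∈ W, wt R' r)^(1/2+eps1) := by
    have := diag_rpow I a b (s := 1/2+eps1) (by rw [he1]; norm_num) ha0 hb0
    rw [← hsV, ← hsW]; exact this
  rw [hsum0, hsplit]
  have hC0 : 0 ≤ C := by linarith
  calc ∑ ρ ∈ I, ∑ e ∈ Ep.filter (fun e => τ e.1 = ρ), F e
      ≤ ∑ ρ ∈ I, (K * L^2 * (((2:ℝ)^n)^(-(1/2):ℝ) * (a ρ * b ρ) +
          C * ((2:ℝ)^n)^(-(4/1000):ℝ) * (a ρ * b ρ)^(1/2+eps1)) +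
          ∑ e ∈ (Ep.filter (fun e => τ e.1 = ρ)).filter PF, F e) := Finset.sum_le_sum hone
    _ = K * L^2 * (((2:ℝ)^n)^(-(1/2):ℝ) * (∑ ρ ∈ I, a ρ * b ρ) +
          C * ((2:ℝ)^n)^(-(4/1000):ℝ) * ∑ ρ ∈ I, (a ρ * b ρ)^(1/2+eps1)) +
          ∑ ρ ∈ I, ∑ e ∈ (Ep.filter (fun e => τ e.1 = ρ)).filter PF, F e := by
        rw [Finset.sum_add_distrib, ← Finset.mul_sum, Finset.sum_add_distrib, Finset.mul_sum,
          Finset.mul_sum]
    _ ≤ _ := by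
        apply add_le_add _ hFS
        apply mul_le_mul_of_nonneg_left _ (by positivity)
        apply add_le_add
        · exact mul_le_mul_of_nonneg_left hprod (by positivity)
        · exact mul_le_mul_of_nonneg_left hpw (by positivity)

/-! ### class `[F]` for one target: the label is alive on both sides -/

/-- two different rationals -/
lemma rat_sep {ρ σ : ℚ} (h : ρ ≠ σ) : 1 / ((ρ.den:ℝ) * σ.den) ≤ |(ρ:ℝ) - σ| := by
  have hd0 : (0:ℝ) < ρ.den := by exact_mod_cast ρ.pos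
  have hd1 : (0:ℝ) < σ.den := by exact_mod_cast σ.pos
  have hρe : (ρ:ℝ) = (ρ.num:ℝ) / ρ.den := by exact_mod_cast (Rat.num_div_den ρ).symm
  have hσe : (σ:ℝ) = (σ.num:ℝ) / σ.den := by exact_mod_cast (Rat.num_div_den σ).symm
  have e : (ρ:ℝ) - σ = ((ρ.num * σ.den - σ.num * ρ.den : ℤ):ℝ) / ((ρ.den:ℝ) * σ.den) := by
    rw [hρe, hσe]; push_cast; field_simp
  rw [e, abs_div, abs_of_pos (by positivity : (0:ℝ) < (ρ.den:ℝ) * σ.den)]
  apply div_le_div_of_nonneg_right _ (by positivity)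
  have hne0 : (ρ.num * σ.den - σ.num * ρ.den : ℤ) ≠ 0 := by
    intro h0
    apply h
    have : (ρ:ℝ) - σ = 0 := by rw [e, h0]; simp
    have h2 : (ρ:ℝ) = σ := by linarith
    exact_mod_cast h2
  have := Int.one_le_abs hne0
  have h3 : (1:ℝ) ≤ (|(ρ.num * σ.den - σ.num * ρ.den : ℤ)| : ℤ) := by exact_mod_cast this
  rw [Int.cast_abs] at h3
  exact h3

/-- an exact overlapping pair `x ≠ y` of class `[F]` (one target) has its label valid at both radii -/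
theorem FS_lab {n : ℕ} (hn : 400 ≤ n) {θ : ℝ} {ρ : ℚ} {x y : ℕ} {r r' : ℝ} {m m' : ℤ}
    (hx : 0 < x) (hy : 0 < y) (hne : x ≠ y) (hr : 0 < r) (hr' : 0 < r')
    (hex : ((m:ℝ) + ρ) * y = (m' + ρ) * x)
    (hov : |θ - ρ| * |(y:ℝ) - x| ≤ 2 * max ((y:ℝ) * r) ((x:ℝ) * r'))
    (h : FS n θ θ x y r r') : Lab θ r ρ ∧ Lab θ r' ρ := by
  obtain ⟨t, m1, m1', ρ1, ρ2, ht, h1, h2, h3, hF, h4⟩ := h
  have ht4 : (2:ℝ)^400 ≤ t := (pow_le_pow_right₀ (by norm_num) hn).trans ht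
  have ht0 : 0 < t := lt_of_lt_of_le (by positivity) ht
  have hx1 : (1:ℝ) ≤ x := by exact_mod_cast hx
  have hy1 : (1:ℝ) ≤ y := by exact_mod_cast hy
  have r1 : r ≤ 1/t := le_trans (le_mul_of_one_le_left hr.le hy1) ((le_max_left _ _).trans h2)
  have r2 : r' ≤ 1/t := le_trans (le_mul_of_one_le_left hr'.le hx1) ((le_max_right _ _).trans h2)
  have hov' : |(m + θ) * y - (m' + θ) * x| ≤ 2 / t := by
    have e1 : ((m:ℝ) + θ) * y - (m' + θ) * x =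
        (((m:ℝ) + ρ) * y - (m' + ρ) * x) + (θ - ρ) * ((y:ℝ) - x) := by ring
    rw [e1, hex, sub_self, zero_add, abs_mul]
    calc |θ - ρ| * |(y:ℝ) - x| ≤ 2 * max ((y:ℝ) * r) ((x:ℝ) * r') := hov
      _ ≤ 2 * (1/t) := mul_le_mul_of_nonneg_left h2 (by norm_num)
      _ = 2 / t := by ring
  have hex1 := hF.exact m m' hov'
  -- the two labels are equal
  have e12 : ρ1 = ρ2 := by
    by_contra hne12
    have s1 := rat_sep hne12
    have b1 : |θ - (ρ1:ℝ)| ≤ t^(39/200:ℝ) * (1/t) :=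
      hF.near.trans (mul_le_mul_of_nonneg_left r1 (by positivity))
    have b2 : |θ - (ρ2:ℝ)| ≤ t^(39/200:ℝ) * (1/t) :=
      hF.near'.trans (mul_le_mul_of_nonneg_left r2 (by positivity))
    have s2 : |(ρ1:ℝ) - ρ2| ≤ 2 * (t^(39/200:ℝ) * (1/t)) := by
      have e : (ρ1:ℝ) - ρ2 = (θ - ρ2) - (θ - ρ1) := by ring
      rw [e]
      exact (abs_sub _ _).trans (by linarith)
    have hd0 : (0:ℝ) < ρ1.den := by exact_mod_cast ρ1.pos
    have hd1 : (0:ℝ) < ρ2.den := by exact_mod_cast ρ2.pos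
    have s3 : (ρ1.den:ℝ) * ρ2.den ≤ t^(42/200:ℝ) := by
      calc (ρ1.den:ℝ) * ρ2.den ≤ t^(21/200:ℝ) * t^(21/200:ℝ) :=
            mul_le_mul hF.den hF.den' hd1.le (by positivity)
        _ = t^(42/200:ℝ) := by rw [← Real.rpow_add ht0]; norm_num
    have s4 : 1 / t^(42/200:ℝ) ≤ 2 * (t^(39/200:ℝ) * (1/t)) :=
      ((one_div_le_one_div_of_le (by positivity) s3).trans s1).trans s2
    have s5 : (2:ℝ) < t^(1/200:ℝ) := by
      have := Dich579.four_le ht4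
      linarith
    have s6 : t ≤ 2 * t^(81/200:ℝ) := by
      rw [div_le_iff₀ (by positivity)] at s4
      have : 2 * (t^(39/200:ℝ) * (1/t)) * t^(42/200:ℝ) = 2 * t^(81/200:ℝ) / t := by
        have e : t^(81/200:ℝ) = t^(39/200:ℝ) * t^(42/200:ℝ) := by
          rw [← Real.rpow_add ht0]; norm_num
        rw [e]; ring
      rw [this, le_div_iff₀ ht0, one_mul] at s4
      exact s4
    have s7 : 2 * t^(81/200:ℝ) < t := by
      calc 2 * t^(81/200:ℝ) < t^(1/200:ℝ) * t^(81/200:ℝ) :=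
            mul_lt_mul_of_pos_right s5 (by positivity)
        _ = t^(82/200:ℝ) := by rw [← Real.rpow_add ht0]; norm_num
        _ ≤ t^(1:ℝ) := Real.rpow_le_rpow_of_exponent_le (Dich579.one_le_t ht4) (by norm_num)
        _ = t := Real.rpow_one t
    linarith
  have e1 : ρ1 = ρ := by
    rw [← e12] at hex1
    have h5 : ((ρ1:ℝ) - ρ) * ((y:ℝ) - x) = 0 := by
      have := hex
      linear_combination hex1 - hex
    have h6 : (y:ℝ) - x ≠ 0 := by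
      intro h0
      apply hne
      have : (x:ℝ) = y := by linarith
      exact_mod_cast this
    have h7 := (mul_eq_zero.1 h5).resolve_right h6
    have h8 : (ρ1:ℝ) = ρ := by linarith
    exact_mod_cast h8
  refine ⟨?_, ?_⟩
  · rw [← e1]; exact hF.lab
  · rw [← e1, e12]; exact hF.lab'

/-- **D2, dead labels**: if moreover the label is dead on one of the two sides, nothing remains. -/
theorem gainKL_dead : ∃ C c0 : ℝ, 1 ≤ C ∧ 0 < c0 ∧ ∀ c1 : ℝ, 0 < c1 → c1 ≤ c0 → ∃ T0 : ℝ, 1 ≤ T0 ∧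
    ∀ (X L K θ : ℝ) (τ τ' : ℕ → ℚ) (n G : ℕ) (V W : Finset ℕ) (E : Finset (ℕ × ℕ)) (R R' : ℕ → ℝ)
      (F : ℕ × ℕ → ℝ),
    400 ≤ n → T0 ≤ (2:ℝ)^n → X ≤ Real.exp (((2:ℝ)^n)^c1) → 0 < G → 0 ≤ K → E ⊆ V ×ˢ W →
    (∀ w ∈ V, 0 < w ∧ 0 < R w) → (∀ w ∈ W, 0 < w ∧ 0 < R' w) →
    (∀ w ∈ V, R w ≤ L * wt R w) → (∀ w ∈ W, R' w ≤ L * wt R' w) →
    (∀ z : ℝ, X ≤ z → ∀ w ∈ V, Crest.Agent.R4.ClsB.Tame z G w) →
    (∀ z : ℝ, X ≤ z → ∀ w ∈ W, Crest.Agent.R4.ClsB.Tame z G w) →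
    (∀ e ∈ E, 0 ≤ F e) → (∀ e ∈ E, F e ≤ K * ((R e.1 * R' e.2) / DP R R' e)) →
    (∀ e ∈ E, 0 < F e → e.1 ≠ e.2 ∧ τ e.1 = τ' e.2 ∧
      (∃ m m' : ℤ, ((m:ℝ) + τ e.1) * (cof e.2 e.1 : ℕ) = (m' + τ e.1) * (cof e.1 e.2 : ℕ)) ∧
      |θ - τ e.1| * |((cof e.2 e.1 : ℕ):ℝ) - (cof e.1 e.2 : ℕ)| ≤ 2 * DP R R' e ∧
      (¬ Lab θ (R e.1) (τ e.1) ∨ ¬ Lab θ (R' e.2) (τ e.1)) ∧
      ((2:ℝ)^n ≤ (τ e.1).den ∨ 2^n * R e.1 ≤ |θ - τ e.1| ∨ 2^n * R' e.2 ≤ |θ - τ e.1|)) →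
    ∑ e ∈ E, F e ≤ K * L^2 *
        (((2:ℝ)^n)^(-(1/2):ℝ) * ((∑ q ∈ V, wt R q) * ∑ r ∈ W, wt R' r) +
          C * ((2:ℝ)^n)^(-(4/1000):ℝ) * ((∑ q ∈ V, wt R q) * ∑ r ∈ W, wt R' r)^(1/2+eps1)) := by
  classical
  obtain ⟨C, c0, hC1, hc0, hC⟩ := gainKL
  refine ⟨C, c0, hC1, hc0, ?_⟩
  intro c1 hc1 hc10
  obtain ⟨T0, hT01, hT0⟩ := hC c1 hc1 hc10
  refine ⟨T0, hT01, ?_⟩
  intro X L K θ τ τ' n G V W E R R' F hn hTn hX hG hK hES hV hW hLV hLW hVt hWt hF0 hF hP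
  have main := hT0 X L K θ τ τ' n G V W E R R' F hn hTn hX hG hK hES hV hW hLV hLW hVt hWt hF0 hF
    (fun e he hFe => by
      obtain ⟨a, b, c, d, _, f⟩ := hP e he hFe
      exact ⟨a, b, c, d, f⟩)
  refine main.trans ?_
  have h0 : ∑ e ∈ E.filter (fun e => FS (9*n) θ θ (cof e.1 e.2) (cof e.2 e.1) (R e.1) (R' e.2)), F e
      ≤ 0 := by
    apply Finset.sum_nonpos
    intro e he
    obtain ⟨he1, he2⟩ := Finset.mem_filter.1 he
    by_contra hpos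
    rw [not_le] at hpos
    obtain ⟨a, b, ⟨m, m', hex⟩, d, hdead, f⟩ := hP e he1 hpos
    have hm := Finset.mem_product.1 (hES he1)
    have h := FS_lab (n := 9*n) (by omega) (cof_pos (hV _ hm.1).1) (cof_pos (hW _ hm.2).1) (cof_ne a)
      (hV _ hm.1).2 (hW _ hm.2).2 hex d he2
    rcases hdead with h1 | h1
    · exact h1 h.1
    · exact h1 h.2
  linarith

end Crest.Agent.R4P.GainKL24
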