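import Crest.Agent.R4P.MinkG_16

/-!
R4 (S0004) with powers, group [W-eSHR], helper16: **the gain of ONE kernel `W (min f f')` controls the
cost of the missing parts** (helper878 #20505).

* `Dens om L`: `om` continuous, positive on `(0, ∞)`, `∫₀ᴮ dt / (2 om t) ≤ L` for all `B`;
  `Wf om x = ∫₀ˣ 2 om`.
* `gw W a b a' b' = max 0 (W (min b b') - W (max a a'))`.
* `pos_sq_le`: `(Σ mᵢ (bᵢ - aᵢ)⁺)² ≤ L Σᵢ Σⱼ mᵢ mⱼ gw W ..`.
* `lW`, `lG_le_lW`, `GS_lG_le`: the same on the group walk of `Grp_36`: `GS lG ≤ L * GS lW`.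
* `dens_pow`, `Wf_pow`: `om t = t ^ s + t ^ (1 + e)`, `L = 1 / (2 (1 - s)) + 1 / (2 e)`,
  `W x = 2 / (1 + s) x ^ (1 + s) + 2 / (2 + e) x ^ (2 + e)`.
-/

set_option autoImplicit false
set_option linter.unusedSectionVars false
open MeasureTheory Filter Set Topology intervalIntegral

namespace Crest.Agent.R4P.GainW16

open Crest.Agent.R4.Tour104 Crest.Agent.R4.Tour758 Crest.Agent.R4.Avg758 Crest.Agent.R4.Clos758
open Crest.Agent.R4.ClosL758 Crest.Agent.R4.ClosG758 Crest.Agent.R4.ClosR758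
open Crest.Agent.R4P.ClosR442 Crest.Agent.R4P.Walk560 Crest.Agent.R4P.Grp36 Crest.Agent.R4P.Xfer36
open Crest.Agent.R4P.Mink16 Crest.Agent.R4P.MinkG16

/-- a density -/
structure Dens (om : ℝ → ℝ) (L : ℝ) : Prop where
  cont : Continuous om
  nonneg : ∀ t, 0 ≤ om t
  pos : ∀ t, 0 < t → 0 < om t
  iv : ∀ B, 0 ≤ B → IntervalIntegrable (fun t => (2 * om t)⁻¹) volume 0 B
  le : ∀ B, 0 ≤ B → ∫ t in (0 : ℝ)..B, (2 * om t)⁻¹ ≤ L

/-- primitive of `2 om` -/
noncomputable def Wf (om : ℝ → ℝ) (x : ℝ) : ℝ := ∫ t in (0 : ℝ)..x, 2 * om t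

/-- the gain kernel of `W` -/
noncomputable def gw (W : ℝ → ℝ) (a b a' b' : ℝ) : ℝ := max 0 (W (min b b') - W (max a a'))

lemma gw_nonneg (W : ℝ → ℝ) (a b a' b' : ℝ) : 0 ≤ gw W a b a' b' := le_max_left _ _

variable {om : ℝ → ℝ} {L : ℝ}

lemma Dens.ii (h : Dens om L) (u w : ℝ) : IntervalIntegrable (fun t => 2 * om t) volume u w :=
  (continuous_const.mul h.cont).intervalIntegrable u w

lemma Dens.W_cont (h : Dens om L) : Continuous (Wf om) :=
  intervalIntegral.continuous_primitive h.ii 0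

lemma Dens.W_sub (h : Dens om L) (u w : ℝ) : Wf om w - Wf om u = ∫ t in u..w, 2 * om t :=
  intervalIntegral.integral_interval_sub_left (h.ii _ _) (h.ii _ _)

lemma Dens.W_mono (h : Dens om L) : Monotone (Wf om) := by
  intro u w huw
  have : 0 ≤ Wf om w - Wf om u := by
    rw [h.W_sub]
    exact intervalIntegral.integral_nonneg huw fun t _ => mul_nonneg (by norm_num) (h.nonneg t)
  linarith

/-- the integral over a strip -/
lemma Dens.int_ind (h : Dens om L) {a b B : ℝ} (ha : 0 ≤ a) (hB : 0 ≤ B) (hb : b ≤ B) :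
    ∫ t in (0 : ℝ)..B, 2 * om t * ind a b t = max 0 (Wf om b - Wf om a) := by
  rw [integral_of_le hB]
  have e1 : (fun t => 2 * om t * ind a b t) = (Ioc a b).indicator fun t => 2 * om t := by
    funext t
    unfold ind
    by_cases h : t ∈ Ioc a b <;> simp [h]
  have e2 : Ioc 0 B ∩ Ioc a b = Ioc a b := inter_eq_right.2 (Ioc_subset_Ioc ha hb)
  rw [e1, setIntegral_indicator measurableSet_Ioc, e2]
  rcases le_or_gt a b with hab | hab
  · rw [← integral_of_le hab, ← h.W_sub, max_eq_right (sub_nonneg.2 (h.W_mono hab))]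
  · rw [Ioc_eq_empty (not_lt.2 hab.le), Measure.restrict_empty, integral_zero_measure,
      max_eq_left (sub_nonpos.2 (h.W_mono hab.le))]

lemma Dens.gw_int (h : Dens om L) {a b a' b' B : ℝ} (ha : 0 ≤ a) (hB : 0 ≤ B) (hb : b ≤ B) :
    ∫ t in (0 : ℝ)..B, 2 * om t * (ind a b t * ind a' b' t) = gw (Wf om) a b a' b' := by
  simp only [ind_mul]
  rw [h.int_ind (ha.trans (le_max_left _ _)) hB ((min_le_left _ _).trans hb)]
  rfl

section list
variable {ι : Type*}

lemma ii_mono {f g : ℝ → ℝ} {u w : ℝ} (hg : IntervalIntegrable g volume u w) (hm : Measurable f)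
    (h : ∀ t, |f t| ≤ g t) : IntervalIntegrable f volume u w :=
  hg.mono_fun' hm.aestronglyMeasurable (Filter.Eventually.of_forall h)

/-- **the quadratic form of the gain kernel** -/
lemma Dens.gs_int (h : Dens om L) (l : List ι) {m a b : ι → ℝ} (ha : ∀ i ∈ l, 0 ≤ a i)
    {B : ℝ} (hB : 0 ≤ B) (hb : ∀ i ∈ l, b i ≤ B) :
    ∫ t in (0 : ℝ)..B, 2 * om t * gs l m a b t ^ 2 =
      dsum l m fun i j => gw (Wf om) (a i) (b i) (a j) (b j) := by
  have hkey : ∀ (L : List ι) (f : ι → ℝ → ℝ), (∀ i ∈ L, IntervalIntegrable (f i) volume 0 B) →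
      ∫ t in (0 : ℝ)..B, (L.map fun i => f i t).sum = (L.map fun i => ∫ t in (0 : ℝ)..B, f i t).sum ∧
        IntervalIntegrable (fun t => (L.map fun i => f i t).sum) volume 0 B := by
    intro L f
    induction L with
    | nil => intro _; simp
    | cons i L ih =>
      intro h
      obtain ⟨h1, h2⟩ := ih fun j hj => h j (List.mem_cons_of_mem _ hj)
      simp only [List.map_cons, List.sum_cons]
      refine ⟨?_, (h i (by simp)).add h2⟩
      rw [intervalIntegral.integral_add (h i (by simp)) h2, h1]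
  have hone : ∀ i j, IntervalIntegrable
      (fun t => m i * m j * (2 * om t * (ind (a i) (b i) t * ind (a j) (b j) t))) volume 0 B := by
    intro i j
    refine ii_mono (g := fun t => |m i * m j| * (2 * om t)) ((h.ii 0 B).const_mul _)
      (measurable_const.mul ((measurable_const.mul h.cont.measurable).mul
        ((ind_meas _ _).mul (ind_meas _ _)))) fun t => ?_
    show |m i * m j * (2 * om t * (ind (a i) (b i) t * ind (a j) (b j) t))| ≤ _
    have h0 : 0 ≤ 2 * om t := mul_nonneg (by norm_num) (h.nonneg t)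
    rw [abs_mul, abs_mul (2 * om t), abs_of_nonneg h0,
      abs_of_nonneg (mul_nonneg (ind_nonneg (a i) (b i) t) (ind_nonneg (a j) (b j) t))]
    have h1 : ind (a i) (b i) t * ind (a j) (b j) t ≤ 1 :=
      mul_le_one₀ (ind_le_one _ _ _) (ind_nonneg _ _ _) (ind_le_one _ _ _)
    exact mul_le_mul_of_nonneg_left (mul_le_of_le_one_right h0 h1) (abs_nonneg _)
  have e : (fun t => 2 * om t * gs l m a b t ^ 2) = fun t =>
      (l.map fun i => (l.map fun j =>
        m i * m j * (2 * om t * (ind (a i) (b i) t * ind (a j) (b j) t))).sum).sum := by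
    funext t
    unfold gs
    rw [pow_two, ← List.sum_map_mul_right, ← List.sum_map_mul_left]
    congr 1
    refine List.map_congr_left fun i _ => ?_
    rw [← List.sum_map_mul_left, ← List.sum_map_mul_left]
    congr 1
    exact List.map_congr_left fun j _ => by ring
  rw [e]
  rw [(hkey l _ fun i _ => (hkey l (fun j t =>
    m i * m j * (2 * om t * (ind (a i) (b i) t * ind (a j) (b j) t))) fun j _ => hone i j).2).1]
  unfold dsum
  congr 1
  refine List.map_congr_left fun i hi => ?_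
  rw [(hkey l (fun j t =>
    m i * m j * (2 * om t * (ind (a i) (b i) t * ind (a j) (b j) t))) fun j _ => hone i j).1]
  congr 1
  refine List.map_congr_left fun j _ => ?_
  rw [intervalIntegral.integral_const_mul, h.gw_int (ha i hi) hB (hb i hi)]

/-- **GAIN controls COST** -/
theorem Dens.pos_sq_le (h : Dens om L) (l : List ι) {m a b : ι → ℝ} (hm : ∀ i ∈ l, 0 ≤ m i)
    (ha : ∀ i ∈ l, 0 ≤ a i) :
    (l.map fun i => m i * max 0 (b i - a i)).sum ^ 2 ≤
      L * dsum l m fun i j => gw (Wf om) (a i) (b i) (a j) (b j) := by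
  obtain ⟨B, hB, hb⟩ : ∃ B : ℝ, 0 ≤ B ∧ ∀ i ∈ l, b i ≤ B := by
    clear hm ha
    induction l with
    | nil => exact ⟨0, le_rfl, by simp⟩
    | cons i l ih =>
      obtain ⟨B, hB, hb⟩ := ih
      refine ⟨max B (b i), hB.trans (le_max_left _ _), fun j hj => ?_⟩
      rcases List.mem_cons.1 hj with rfl | hj
      · exact le_max_right _ _
      · exact (hb j hj).trans (le_max_left _ _)
  rw [← h.gs_int l ha hB hb]
  set Q := ∫ t in (0 : ℝ)..B, 2 * om t * gs l m a b t ^ 2 with hQ
  set g := gs l m a b with hg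
  set J := ∫ t in (0 : ℝ)..B, g t with hJ
  set V := ∫ t in (0 : ℝ)..B, (2 * om t)⁻¹ with hV
  have hVL : V ≤ L := h.le B hB
  have hV0 : 0 ≤ V := intervalIntegral.integral_nonneg hB fun t _ =>
    inv_nonneg.2 (mul_nonneg (by norm_num) (h.nonneg t))
  have hQ0 : 0 ≤ Q := intervalIntegral.integral_nonneg hB fun t _ =>
    mul_nonneg (mul_nonneg (by norm_num) (h.nonneg t)) (sq_nonneg _)
  have hgi : IntervalIntegrable g volume 0 B := gs_ii l m a b _ _
  have hii : ∀ i, IntervalIntegrable (fun t => m i * ind (a i) (b i) t) volume 0 B :=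
    fun i => ii_of_bdd (C := |m i|) (measurable_const.mul (ind_meas _ _)) fun t _ => by
      show |m i * ind (a i) (b i) t| ≤ _
      rw [abs_mul, abs_of_nonneg (ind_nonneg (a i) (b i) t)]
      exact mul_le_of_le_one_right (abs_nonneg _) (ind_le_one _ _ _)
  have hJe : (l.map fun i => m i * max 0 (b i - a i)).sum = J := by
    have e1 : J = (l.map fun i => ∫ t in (0 : ℝ)..B, m i * ind (a i) (b i) t).sum := by
      rw [hJ, hg]
      clear_value Q g J V
      clear hQ hg hJ hV hVL hV0 hQ0 hgi hm ha hb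
      unfold gs
      induction l with
      | nil => simp
      | cons i l ih =>
        simp only [List.map_cons, List.sum_cons]
        rw [← ih]
        exact intervalIntegral.integral_add (hii i) (gs_ii l m a b _ _)
    rw [e1]
    congr 1
    refine List.map_congr_left fun i hi => ?_
    rw [intervalIntegral.integral_const_mul, int_ind_one (ha i hi) (hb i hi) hB]
  rw [hJe]
  have hQi : IntervalIntegrable (fun t => 2 * om t * g t ^ 2) volume 0 B := by
    refine ii_mono (g := fun t => (l.map fun i => |m i|).sum ^ 2 * (2 * om t))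
      ((h.ii 0 B).const_mul _)
      ((measurable_const.mul h.cont.measurable).mul ((gs_meas l m a b).pow_const 2)) fun t => ?_
    show |2 * om t * g t ^ 2| ≤ _
    have h0 : 0 ≤ 2 * om t := mul_nonneg (by norm_num) (h.nonneg t)
    rw [abs_mul, abs_of_nonneg h0, abs_pow, mul_comm]
    exact mul_le_mul_of_nonneg_right (pow_le_pow_left₀ (abs_nonneg _) (gs_bdd l m a b t) 2) h0
  -- Cauchy-Schwarz through the discriminant
  have key : ∀ c : ℝ, 0 ≤ Q - 2 * c * J + c ^ 2 * V := by
    intro c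
    have hVi := h.iv B hB
    have e : (∫ t in (0 : ℝ)..B, ((2 * om t * g t ^ 2 - 2 * c * g t) + c ^ 2 * (2 * om t)⁻¹)) =
        Q - 2 * c * J + c ^ 2 * V := by
      rw [intervalIntegral.integral_add (hQi.sub (hgi.const_mul _)) (hVi.const_mul _),
        intervalIntegral.integral_sub hQi (hgi.const_mul _), intervalIntegral.integral_const_mul,
        intervalIntegral.integral_const_mul]
    rw [← e, integral_of_le hB]
    refine setIntegral_nonneg measurableSet_Ioc fun t ht => ?_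
    have h0 : 0 < 2 * om t := mul_pos (by norm_num) (h.pos t ht.1)
    have e3 : (2 * om t * g t ^ 2 - 2 * c * g t) + c ^ 2 * (2 * om t)⁻¹ =
        (2 * om t * g t - c) ^ 2 * (2 * om t)⁻¹ := by
      have hu : (2 * om t) * (2 * om t)⁻¹ = 1 := mul_inv_cancel₀ h0.ne'
      linear_combination (-(2 * om t * g t ^ 2) + 2 * c * g t) * hu
    rw [e3]
    exact mul_nonneg (sq_nonneg _) (inv_nonneg.2 h0.le)
  rcases hV0.eq_or_lt with hV1 | hV1
  · -- then J = 0
    have hJ0 : J ^ 2 ≤ 0 := by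
      by_contra hc
      have hJ1 : 0 < J ^ 2 := not_le.1 hc
      have hJn : J ≠ 0 := fun h => by rw [h] at hJ1; simp at hJ1
      have h1 := key ((Q + 1) / (2 * J))
      rw [← hV1] at h1
      have h2 : 2 * ((Q + 1) / (2 * J)) * J = Q + 1 := by field_simp
      rw [h2] at h1
      linarith
    exact hJ0.trans (mul_nonneg (hV0.trans hVL) hQ0)
  · have h1 := key (J / V)
    have h2 : 2 * (J / V) * J = 2 * (J ^ 2 / V) := by ring
    have h3 : (J / V) ^ 2 * V = J ^ 2 / V := by field_simp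
    rw [h2, h3] at h1
    have h4 : J ^ 2 / V ≤ Q := by linarith
    rw [div_le_iff₀ hV1] at h4
    nlinarith

end list

/-! ### the group walk -/

section grp
variable {Λ κ δ : Type*} [Fintype δ]

/-- gain of the kernel `W (min f f')` in a group of ties -/
noncomputable def lW (W : ℝ → ℝ) (ω : ℕ → ℝ) (a b : ℕ → DT Λ κ → δ → ℝ → ℝ) (p : ℕ)
    (g : Gp Λ κ) : ℝ :=
  ω p * I fun y => ∑ z, dsum g (fun m => m.1) fun m m' =>
    gw W (a p m.2 z y) (b p m.2 z y) (a p m'.2 z y) (b p m'.2 z y)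

lemma PB_gw (h : Dens om L) {a b a' b' : ℝ → ℝ} (ha : PB a) (hb : PB b) (ha' : PB a')
    (hb' : PB b') : PB fun y => gw (Wf om) (a y) (b y) (a' y) (b' y) := by
  obtain ⟨B, hB⟩ := hb.bdd
  refine ⟨?_, fun y => gw_nonneg _ _ _ _ _, ⟨Wf om B, fun y => ?_⟩,
    fun y => by rw [hb.per, ha.per, hb'.per, ha'.per]⟩
  · unfold gw
    exact measurable_const.max ((h.W_cont.measurable.comp (hb.meas.min hb'.meas)).sub
      (h.W_cont.measurable.comp (ha.meas.max ha'.meas)))
  · unfold gw
    have h0 : Wf om 0 = 0 := by simp [Wf]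
    have h1 : Wf om (min (b y) (b' y)) ≤ Wf om B := h.W_mono ((min_le_left _ _).trans (hB y))
    have h2 : 0 ≤ Wf om (max (a y) (a' y)) := by
      rw [← h0]; exact h.W_mono ((ha.nonneg y).trans (le_max_left _ _))
    have h3 : 0 ≤ Wf om B := by
      rw [← h0]; exact h.W_mono ((hb.nonneg y).trans (hB y))
    exact max_le h3 (by linarith)

variable {ω : ℕ → ℝ} {a b : ℕ → DT Λ κ → δ → ℝ → ℝ} {p : ℕ} {g : Gp Λ κ}

lemma PB_dsumW (hd : Dens om L) (h : ∀ m ∈ g, 0 ≤ m.1) (hab : ABOk a b p g) (z : δ) :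
    PB fun y => dsum g (fun m => m.1) fun m m' =>
      gw (Wf om) (a p m.2 z y) (b p m.2 z y) (a p m'.2 z y) (b p m'.2 z y) := by
  unfold dsum
  refine PB_list g (F := fun m y => (g.map fun m' => m.1 * m'.1 *
    gw (Wf om) (a p m.2 z y) (b p m.2 z y) (a p m'.2 z y) (b p m'.2 z y)).sum) fun m hm => ?_
  refine PB_list g (F := fun m' y => m.1 * m'.1 *
    gw (Wf om) (a p m.2 z y) (b p m.2 z y) (a p m'.2 z y) (b p m'.2 z y)) fun m' hm' => ?_
  exact (PB_gw hd (hab m hm z).1 (hab m hm z).2 (hab m' hm' z).1 (hab m' hm' z).2).smul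
    (mul_nonneg (h m hm) (h m' hm'))

/-- **GAIN controls COST** in a group of ties -/
lemma lG_le_lW (hd : Dens om L) (hω : 0 ≤ ω p) (h : ∀ m ∈ g, 0 ≤ m.1) (hab : ABOk a b p g) :
    lG ω a b p g ≤ L * lW (Wf om) ω a b p g := by
  have pG : ∀ z, PB fun y => gm g (fun t => max 0 (b p t z y - a p t z y)) ^ 2 := fun z =>
    PBsq (PB_gm h (F := fun t y => max 0 (b p t z y - a p t z y)) fun m hm =>
      PB_pos (hab m hm z).1 (hab m hm z).2)
  have hI : I (fun y => ∑ z, gm g (fun t => max 0 (b p t z y - a p t z y)) ^ 2) ≤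
      L * I (fun y => ∑ z, dsum g (fun m => m.1) fun m m' =>
        gw (Wf om) (a p m.2 z y) (b p m.2 z y) (a p m'.2 z y) (b p m'.2 z y)) := by
    rw [← I_smul]
    have q : PB fun y => ∑ z, dsum g (fun m => m.1) fun m m' =>
        gw (Wf om) (a p m.2 z y) (b p m.2 z y) (a p m'.2 z y) (b p m'.2 z y) :=
      PB.sum Finset.univ fun z _ => PB_dsumW hd h hab z
    refine I_mono (PB.sum Finset.univ fun z _ => pG z).integrableOn
      (q.integrableOn.const_mul L) fun y => ?_
    rw [Finset.mul_sum]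
    refine Finset.sum_le_sum fun z _ => ?_
    exact hd.pos_sq_le g (m := fun m => m.1) (a := fun m => a p m.2 z y)
      (b := fun m => b p m.2 z y) h fun m hm => (hab m hm z).1.nonneg y
  unfold lG lW
  calc _ ≤ ω p * (L * _) := mul_le_mul_of_nonneg_left hI hω
    _ = _ := by ring

/-- **the costs of the group walk are controlled by the gains of one kernel** -/
theorem GS_lG_le (hd : Dens om L) (hω : ∀ p, 0 ≤ ω p)
    (hab : ∀ p g, GOk g → (∀ m ∈ g, isB p m.2 = true) → ABOk a b p g) {n p : ℕ} {g : Gp Λ κ}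
    (hg : GOk g) : GS (lG ω a b) n p g ≤ L * GS (lW (Wf om) ω a b) n p g := by
  rw [← GS_smul]
  exact GS_mono (fun p g hg hb => lG_le_lW hd (hω p) hg.c (hab p g hg hb)) n p g hg

/-- the local term `lW` is the form of a kernel -/
lemma lW_eq_ker (hd : Dens om L) (hc : ∀ m ∈ g, 0 ≤ m.1) (hab : ABOk a b p g) :
    lW (Wf om) ω a b p g = ker (fun p t t' => ω p * I fun y => ∑ z,
      gw (Wf om) (a p t z y) (b p t z y) (a p t' z y) (b p t' z y)) p g g := by
  rw [ker_smul ω (fun p t t' => I fun y => ∑ z,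
      gw (Wf om) (a p t z y) (b p t z y) (a p t' z y) (b p t' z y))]
  unfold lW
  congr 1
  have e : (fun y => ∑ z, dsum g (fun m => m.1) fun m m' =>
      gw (Wf om) (a p m.2 z y) (b p m.2 z y) (a p m'.2 z y) (b p m'.2 z y)) =
      fun y => dsum g (fun m => m.1) fun m m' => ∑ z,
        gw (Wf om) (a p m.2 z y) (b p m.2 z y) (a p m'.2 z y) (b p m'.2 z y) := by
    funext y
    exact dsum_sum g fun z m m' =>
      gw (Wf om) (a p m.2 z y) (b p m.2 z y) (a p m'.2 z y) (b p m'.2 z y)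
  rw [e, I_dsum hc (F := fun m m' y => ∑ z,
    gw (Wf om) (a p m.2 z y) (b p m.2 z y) (a p m'.2 z y) (b p m'.2 z y)) fun m hm m' hm' =>
    PB.sum Finset.univ fun z _ => PB_gw hd (hab m hm z).1 (hab m hm z).2 (hab m' hm' z).1
      (hab m' hm' z).2]
  rfl

end grp

/-! ### the concrete density -/

section pow
variable {s e : ℝ}

/-- `t ^ s + t ^ (1 + e)` -/
noncomputable def omp (s e t : ℝ) : ℝ := (max t 0) ^ s + (max t 0) ^ (1 + e)

lemma omp_cont (hs : 0 < s) (he : 0 < e) : Continuous (omp s e) := by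
  unfold omp
  have h : Continuous fun t : ℝ => max t 0 := continuous_id.max continuous_const
  exact (h.rpow_const fun _ => Or.inr hs.le).add (h.rpow_const fun _ => Or.inr (by linarith))

lemma Wf_pow (hs : 0 < s) (he : 0 < e) {x : ℝ} (hx : 0 ≤ x) :
    Wf (omp s e) x = 2 / (1 + s) * x ^ (1 + s) + 2 / (2 + e) * x ^ (2 + e) := by
  unfold Wf
  have e1 : ∫ t in (0 : ℝ)..x, 2 * omp s e t = ∫ t in (0 : ℝ)..x, (2 * t ^ s + 2 * t ^ (1 + e)) := by
    refine intervalIntegral.integral_congr fun t ht => ?_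
    rw [uIcc_of_le hx] at ht
    show 2 * omp s e t = 2 * t ^ s + 2 * t ^ (1 + e)
    unfold omp
    rw [max_eq_left ht.1]
    ring
  have i1 : IntervalIntegrable (fun t : ℝ => t ^ s) volume 0 x :=
    intervalIntegral.intervalIntegrable_rpow' (by linarith)
  have i2 : IntervalIntegrable (fun t : ℝ => t ^ (1 + e)) volume 0 x :=
    intervalIntegral.intervalIntegrable_rpow' (by linarith)
  rw [e1, intervalIntegral.integral_add (i1.const_mul 2) (i2.const_mul 2),
    intervalIntegral.integral_const_mul, intervalIntegral.integral_const_mul,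
    integral_rpow (Or.inl (by linarith)), integral_rpow (Or.inl (by linarith)),
    Real.zero_rpow (by linarith), Real.zero_rpow (by linarith)]
  have e3 : s + 1 = 1 + s := by ring
  have e4 : 1 + e + 1 = 2 + e := by ring
  rw [e3, e4]
  ring

theorem dens_pow (hs : 0 < s) (hs1 : s < 1) (he : 0 < e) :
    Dens (omp s e) (1 / (2 * (1 - s)) + 1 / (2 * e)) := by
  have hc := omp_cont hs he
  have hpos : ∀ t, 0 < t → 0 < omp s e t := by
    intro t ht
    unfold omp
    rw [max_eq_left ht.le]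
    have := Real.rpow_pos_of_pos ht s
    have := Real.rpow_pos_of_pos ht (1 + e)
    linarith
  have hnn : ∀ t, 0 ≤ omp s e t := fun t => add_nonneg
    (Real.rpow_nonneg (le_max_right _ _) _) (Real.rpow_nonneg (le_max_right _ _) _)
  have hm : Measurable fun t => (2 * omp s e t)⁻¹ := (measurable_const.mul hc.measurable).inv
  have b1 : ∀ t, 0 < t → (2 * omp s e t)⁻¹ ≤ (1 / 2) * t ^ (-s) := by
    intro t ht
    rw [Real.rpow_neg ht.le]
    have h1 := Real.rpow_pos_of_pos ht s
    have h2 := Real.rpow_pos_of_pos ht (1 + e)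
    have h3 : 2 * t ^ s ≤ 2 * omp s e t := by unfold omp; rw [max_eq_left ht.le]; linarith
    calc (2 * omp s e t)⁻¹ ≤ (2 * t ^ s)⁻¹ := inv_anti₀ (by positivity) h3
      _ = _ := by rw [mul_inv]; ring
  have b2 : ∀ t, 0 < t → (2 * omp s e t)⁻¹ ≤ (1 / 2) * t ^ (-(1 + e)) := by
    intro t ht
    rw [Real.rpow_neg ht.le]
    have h1 := Real.rpow_pos_of_pos ht s
    have h2 := Real.rpow_pos_of_pos ht (1 + e)
    have h3 : 2 * t ^ (1 + e) ≤ 2 * omp s e t := by unfold omp; rw [max_eq_left ht.le]; linarith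
    calc (2 * omp s e t)⁻¹ ≤ (2 * t ^ (1 + e))⁻¹ := inv_anti₀ (by positivity) h3
      _ = _ := by rw [mul_inv]; ring
  have hi1 : ∀ B, 0 ≤ B → IntervalIntegrable (fun t : ℝ => (1 / 2) * t ^ (-s)) volume 0 B :=
    fun B _ => (intervalIntegral.intervalIntegrable_rpow' (by linarith)).const_mul _
  have hiv : ∀ B, 0 ≤ B → IntervalIntegrable (fun t => (2 * omp s e t)⁻¹) volume 0 B := by
    intro B hB
    refine (hi1 B hB).mono_fun' hm.aestronglyMeasurable ?_
    rw [uIoc_of_le hB]
    refine (ae_restrict_iff' measurableSet_Ioc).2 (Filter.Eventually.of_forall fun t ht => ?_)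
    show ‖(2 * omp s e t)⁻¹‖ ≤ 1 / 2 * t ^ (-s)
    rw [Real.norm_eq_abs, abs_of_nonneg (inv_nonneg.2 (mul_nonneg (by norm_num) (hnn t)))]
    exact b1 t ht.1
  have hle1 : ∀ B, 0 ≤ B → B ≤ 1 → ∫ t in (0 : ℝ)..B, (2 * omp s e t)⁻¹ ≤ 1 / (2 * (1 - s)) := by
    intro B hB hB1
    have h1 : ∫ t in (0 : ℝ)..B, (2 * omp s e t)⁻¹ ≤ ∫ t in (0 : ℝ)..B, (1 / 2) * t ^ (-s) := by
      rw [integral_of_le hB, integral_of_le hB]
      exact setIntegral_mono_on ((intervalIntegrable_iff_integrableOn_Ioc_of_le hB).1 (hiv B hB))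
        ((intervalIntegrable_iff_integrableOn_Ioc_of_le hB).1 (hi1 B hB)) measurableSet_Ioc
        fun t ht => b1 t ht.1
    refine h1.trans ?_
    rw [intervalIntegral.integral_const_mul, integral_rpow (Or.inl (by linarith)),
      Real.zero_rpow (by linarith)]
    have h2 : B ^ (-s + 1) ≤ 1 := Real.rpow_le_one hB hB1 (by linarith)
    have h3 : 0 < -s + 1 := by linarith
    have h4 : (B ^ (-s + 1) - 0) / (-s + 1) ≤ 1 / (1 - s) := by
      rw [sub_zero, show -s + 1 = 1 - s by ring] at *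
      exact div_le_div_of_nonneg_right h2 (by linarith)
    calc 1 / 2 * ((B ^ (-s + 1) - 0) / (-s + 1)) ≤ 1 / 2 * (1 / (1 - s)) := by linarith
      _ = 1 / (2 * (1 - s)) := by rw [one_div_mul_one_div]
  refine ⟨hc, hnn, hpos, hiv, fun B hB => ?_⟩
  rcases le_total B 1 with hB1 | hB1
  · have h1 := hle1 B hB hB1
    have h2 : 0 < 1 / (2 * e) := by positivity
    linarith
  · have i1 : IntervalIntegrable (fun t => (2 * omp s e t)⁻¹) volume 0 1 := hiv 1 zero_le_one
    have i2 : IntervalIntegrable (fun t => (2 * omp s e t)⁻¹) volume 1 B :=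
      (hiv 1 zero_le_one).symm.trans (hiv B hB)
    rw [← intervalIntegral.integral_add_adjacent_intervals i1 i2]
    refine add_le_add (hle1 1 zero_le_one le_rfl) ?_
    have h0 : (0 : ℝ) ∉ uIcc 1 B := by
      rw [uIcc_of_le hB1]
      intro h
      linarith [h.1]
    have i3 : IntervalIntegrable (fun t : ℝ => (1 / 2) * t ^ (-(1 + e))) volume 1 B :=
      (intervalIntegral.intervalIntegrable_rpow (Or.inr h0)).const_mul _
    have h1 : ∫ t in (1 : ℝ)..B, (2 * omp s e t)⁻¹ ≤ ∫ t in (1 : ℝ)..B, (1 / 2) * t ^ (-(1 + e)) := by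
      rw [integral_of_le hB1, integral_of_le hB1]
      exact setIntegral_mono_on ((intervalIntegrable_iff_integrableOn_Ioc_of_le hB1).1 i2)
        ((intervalIntegrable_iff_integrableOn_Ioc_of_le hB1).1 i3) measurableSet_Ioc
        fun t ht => b2 t (by linarith [ht.1])
    refine h1.trans ?_
    rw [intervalIntegral.integral_const_mul, integral_rpow (Or.inr ⟨by linarith, h0⟩),
      Real.one_rpow]
    have h2 : 0 ≤ B ^ (-(1 + e) + 1) := Real.rpow_nonneg (by linarith) _
    have h3 : (B ^ (-(1 + e) + 1) - 1) / (-(1 + e) + 1) = (1 - B ^ (-(1 + e) + 1)) / e := by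
      rw [show -(1 + e) + 1 = -e by ring, div_neg, ← neg_div, neg_sub]
    rw [h3]
    have h4 : (1 - B ^ (-(1 + e) + 1)) / e ≤ 1 / e :=
      div_le_div_of_nonneg_right (by linarith) he.le
    calc 1 / 2 * ((1 - B ^ (-(1 + e) + 1)) / e) ≤ 1 / 2 * (1 / e) := by linarith
      _ = 1 / (2 * e) := by rw [one_div_mul_one_div]

end pow

end Crest.Agent.R4P.GainW16
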