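import Mathlib

/-!
R4 (S0004), A-part, helper878: **the kernel `k(f,f') = W(min f f')` with ONE convex weight `W`**
(no truncation, no dyadic heights).  Pure real inequalities.

* `AW W` : `W 0 = 0`, `W` increasing and convex on `[0,∞)`.
* `kk W x y = W (min x y)`, `offv`, `hitv` (values of the parent off / on the hit lift),
  `Dl W w a b` (loss of `E W`), `gg` (gain).
* `single`, `tie` : the one-tie inequalities.
* `Dl_un`, `cutN`, `cutHit` : unmatched contents (needs `PW W`, true for `x^(3/2)`, `x^2`).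
* `single_sp`, `tie_sp`, `spB_of` : the same on spread lifts (exact fibre loss `Ds`).
* `fib_lt` : in-node column inequality, contents of one class on arbitrary lifts.
* `sup_add`, `splitUp`, `joinUp`, `min_le_gap` : joins and splits inside a node.
* `OmOk om`, `Wo om` : weights given by a density; `Wo_AW`, `Wo_PW`, `Wo_gap`, `Wo_le`.
* `cost_le_gain` : `(Σ p_i (b_i-a_i)^+)² ≤ ∫ dt/(2 om) * Σ_ij p_i p_j gg`.
* `om1`, `W1` : `om1 = √t` on `[0,1]`, `t (1+log t)²` above, constant `3/2`.
-/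

set_option autoImplicit false
set_option linter.unusedVariables false

open Set

namespace Crest.Agent.R4P.KerW878

/-- admissible weights -/
structure AW (W : ℝ → ℝ) : Prop where
  zero : W 0 = 0
  mono : ∀ ⦃x y : ℝ⦄, 0 ≤ x → x ≤ y → W x ≤ W y
  conv : ConvexOn ℝ (Set.Ici 0) W

/-- the kernel -/
def kk (W : ℝ → ℝ) (x y : ℝ) : ℝ := W (min x y)

/-- value of the parent off the hit lift -/
def offv (w a b : ℝ) : ℝ := a - w * max (a - b) 0

/-- value of the parent on the hit lift -/
def hitv (w a b : ℝ) : ℝ := offv w a b + max (b - a) 0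

/-- loss of `E W` at a tie -/
def Dl (W : ℝ → ℝ) (w a b : ℝ) : ℝ :=
  (1 - w) * W a + w * W b - (1 - w) * W (offv w a b) - w * W (hitv w a b)

/-- gain of a pair at a tie -/
def gg (W : ℝ → ℝ) (a b a' b' : ℝ) : ℝ := max 0 (W (min b b') - W (max a a'))

lemma offv_of_le {w a b : ℝ} (h : a ≤ b) : offv w a b = a := by
  unfold offv; rw [max_eq_right (by linarith)]; ring

lemma offv_of_ge {w a b : ℝ} (h : b ≤ a) : offv w a b = (1 - w) * a + w * b := by
  unfold offv; rw [max_eq_left (by linarith)]; ring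

lemma hitv_of_le {w a b : ℝ} (h : a ≤ b) : hitv w a b = b := by
  unfold hitv; rw [offv_of_le h, max_eq_left (by linarith)]; ring

lemma hitv_of_ge {w a b : ℝ} (h : b ≤ a) : hitv w a b = offv w a b := by
  unfold hitv; rw [max_eq_right (by linarith)]; ring

lemma kk_comm (W : ℝ → ℝ) (x y : ℝ) : kk W x y = kk W y x := by unfold kk; rw [min_comm]

section basic

variable {W : ℝ → ℝ}

lemma AW.nonneg (h : AW W) {x : ℝ} (hx : 0 ≤ x) : 0 ≤ W x := by
  have := h.mono le_rfl hx; rwa [h.zero] at this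

lemma AW.cv (h : AW W) {w x y : ℝ} (hw0 : 0 ≤ w) (hw1 : w ≤ 1) (hx : 0 ≤ x) (hy : 0 ≤ y) :
    W ((1 - w) * x + w * y) ≤ (1 - w) * W x + w * W y :=
  h.conv.2 (Set.mem_Ici.2 hx) (Set.mem_Ici.2 hy) (by linarith) hw0 (by ring)

/-- the loss is nonnegative -/
lemma Dl_nonneg (h : AW W) {w a b : ℝ} (hw0 : 0 ≤ w) (hw1 : w ≤ 1) (ha : 0 ≤ a) (hb : 0 ≤ b) :
    0 ≤ Dl W w a b := by
  unfold Dl
  rcases le_total a b with hab | hab
  · rw [offv_of_le hab, hitv_of_le hab]; linarith
  · rw [hitv_of_ge hab, offv_of_ge hab]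
    have := h.cv hw0 hw1 ha hb
    linarith

lemma Dl_of_le {w a b : ℝ} (hab : a ≤ b) : Dl W w a b = 0 := by
  unfold Dl; rw [offv_of_le hab, hitv_of_le hab]; ring

lemma Dl_of_ge {w a b : ℝ} (hab : b ≤ a) :
    Dl W w a b = (1 - w) * W a + w * W b - W ((1 - w) * a + w * b) := by
  unfold Dl; rw [hitv_of_ge hab, offv_of_ge hab]; ring

lemma offv_nonneg {w a b : ℝ} (hw0 : 0 ≤ w) (hw1 : w ≤ 1) (ha : 0 ≤ a) (hb : 0 ≤ b) :
    0 ≤ offv w a b := by
  rcases le_total a b with hab | hab
  · rw [offv_of_le hab]; exact ha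
  · rw [offv_of_ge hab]
    have := mul_nonneg (show (0 : ℝ) ≤ 1 - w by linarith) ha
    have := mul_nonneg hw0 hb
    linarith

lemma offv_le {w a b : ℝ} (hw0 : 0 ≤ w) : offv w a b ≤ a := by
  unfold offv
  have := mul_nonneg hw0 (le_max_right (a - b) 0)
  linarith

lemma hitv_nonneg {w a b : ℝ} (hw0 : 0 ≤ w) (hw1 : w ≤ 1) (ha : 0 ≤ a) (hb : 0 ≤ b) :
    0 ≤ hitv w a b := by
  unfold hitv
  have := offv_nonneg hw0 hw1 ha hb
  have := le_max_right (b - a) 0
  linarith

/-- **one content against a fixed level** -/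
lemma single (h : AW W) {w a b c : ℝ} (hw0 : 0 ≤ w) (hw1 : w ≤ 1) (ha : 0 ≤ a) (hb : 0 ≤ b)
    (hc : 0 ≤ c) :
    -Dl W w a b ≤ (1 - w) * kk W (offv w a b) c + w * kk W (hitv w a b) c -
      (1 - w) * kk W a c - w * kk W b c := by
  unfold kk
  rcases le_total a b with hab | hab
  · rw [Dl_of_le hab, offv_of_le hab, hitv_of_le hab]; linarith
  · rw [Dl_of_ge hab, hitv_of_ge hab, offv_of_ge hab]
    set o := (1 - w) * a + w * b with ho
    have hbo : b ≤ o := by
      have := mul_le_mul_of_nonneg_left hab (show (0 : ℝ) ≤ 1 - w by linarith)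
      rw [ho]; linarith
    have hoa : o ≤ a := by
      have := mul_le_mul_of_nonneg_left hab hw0
      rw [ho]; linarith
    have hcv : W o ≤ (1 - w) * W a + w * W b := h.cv hw0 hw1 ha hb
    have ho0 : 0 ≤ o := le_trans hb hbo
    have hw' : (0 : ℝ) ≤ 1 - w := by linarith
    rcases le_total a c with h1 | h1
    · rw [min_eq_left h1, min_eq_left (hoa.trans h1), min_eq_left (hab.trans h1)]; linarith
    · rw [min_eq_right h1]
      rcases le_total o c with h2 | h2
      · rw [min_eq_left h2, min_eq_left (hbo.trans h2)]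
        have := mul_le_mul_of_nonneg_left (h.mono hc h1) hw'
        linarith
      · rw [min_eq_right h2]
        rcases le_total b c with h3 | h3
        · rw [min_eq_left h3]
          have := mul_le_mul_of_nonneg_left (h.mono hb h3) hw0
          linarith
        · rw [min_eq_right h3]; linarith

/-- gain of the pair of the two upper parts -/
lemma gain_le (h : AW W) {w a b a' b' : ℝ} (hw0 : 0 ≤ w) (hw1 : w ≤ 1) (ha : 0 ≤ a) (hb : 0 ≤ b)
    (ha' : 0 ≤ a') (hb' : 0 ≤ b') :
    gg W a b a' b' ≤ kk W (offv w a b) (offv w a' b') + kk W (hitv w a b) (hitv w a' b') -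
      kk W (offv w a b) (hitv w a' b') - kk W (hitv w a b) (offv w a' b') := by
  unfold gg kk
  rcases le_total b a with hab | hab
  · rw [hitv_of_ge hab]
    have : W (min b b') - W (max a a') ≤ 0 := by
      have := h.mono (le_min hb hb') ((min_le_left b b').trans (hab.trans (le_max_left a a')))
      linarith
    rw [max_eq_left this]; linarith
  · rcases le_total b' a' with hab' | hab'
    · rw [hitv_of_ge hab']
      have : W (min b b') - W (max a a') ≤ 0 := by
        have := h.mono (le_min hb hb') ((min_le_right b b').trans (hab'.trans (le_max_right a a')))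
        linarith
      rw [max_eq_left this]; linarith
    · rw [offv_of_le hab, hitv_of_le hab, offv_of_le hab', hitv_of_le hab']
      apply max_le
      · rcases le_total a a' with h1 | h1
        · rw [min_eq_left h1, min_eq_left (h1.trans hab')]
          rcases le_total b b' with h2 | h2
          · rw [min_eq_left h2]
            have := h.mono (le_min hb ha') (min_le_left b a')
            linarith
          · rw [min_eq_right h2, min_eq_right (hab'.trans h2)]
            have := h.mono ha' hab'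
            linarith
        · rw [min_eq_right h1, min_eq_right (h1.trans hab)]
          rcases le_total b b' with h2 | h2
          · rw [min_eq_left h2, min_eq_left (hab.trans h2)]
            have := h.mono ha hab
            linarith
          · rw [min_eq_right h2]
            have := h.mono (le_min ha hb') (min_le_right a b')
            linarith
      · rcases le_total a a' with h1 | h1
        · rw [min_eq_left h1, max_eq_right h1, min_eq_left (h1.trans hab')]
          have := h.mono (le_min hb ha') (min_le_right b a')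
          linarith
        · rw [min_eq_right h1, max_eq_left h1, min_eq_right (h1.trans hab)]
          have := h.mono (le_min ha hb') (min_le_left a b')
          linarith

/-- **the one-tie inequality** -/
theorem tie (h : AW W) {w a b a' b' : ℝ} (hw0 : 0 ≤ w) (hw1 : w ≤ 1) (ha : 0 ≤ a) (hb : 0 ≤ b)
    (ha' : 0 ≤ a') (hb' : 0 ≤ b') :
    w * (1 - w) * gg W a b a' b' - Dl W w a b - Dl W w a' b' ≤
      (1 - w) * kk W (offv w a b) (offv w a' b') + w * kk W (hitv w a b) (hitv w a' b') -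
      ((1 - w) ^ 2 * kk W a a' + w * (1 - w) * (kk W a b' + kk W b a') + w ^ 2 * kk W b b') := by
  have hw' : (0 : ℝ) ≤ 1 - w := by linarith
  have o := offv_nonneg hw0 hw1 ha hb
  have t := hitv_nonneg hw0 hw1 ha hb
  have s1 := mul_le_mul_of_nonneg_left (single h hw0 hw1 ha hb ha') hw'
  have s2 := mul_le_mul_of_nonneg_left (single h hw0 hw1 ha hb hb') hw0
  have s3 := mul_le_mul_of_nonneg_left (single h hw0 hw1 ha' hb' o) hw'
  have s4 := mul_le_mul_of_nonneg_left (single h hw0 hw1 ha' hb' t) hw0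
  have g := mul_le_mul_of_nonneg_left (gain_le h hw0 hw1 ha hb ha' hb') (mul_nonneg hw0 hw')
  rw [kk_comm W (offv w a' b') (offv w a b), kk_comm W (hitv w a' b') (offv w a b),
    kk_comm W a' (offv w a b), kk_comm W b' (offv w a b)] at s3
  rw [kk_comm W (offv w a' b') (hitv w a b), kk_comm W (hitv w a' b') (hitv w a b),
    kk_comm W a' (hitv w a b), kk_comm W b' (hitv w a b)] at s4
  nlinarith [s1, s2, s3, s4, g]

end basic

/-! ### unmatched contents -/

/-- the power condition: the loss of an unmatched content is at least half of its energy -/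
def PW (W : ℝ → ℝ) : Prop :=
  ∀ ⦃w x : ℝ⦄, 0 ≤ w → w ≤ 1 → 0 ≤ x → W ((1 - w) * x) ≤ (1 - w) * (1 - w / 2) * W x

section un

variable {W : ℝ → ℝ}

lemma Dl_un (hP : PW W) (h : AW W) {w a : ℝ} (hw0 : 0 ≤ w) (hw1 : w ≤ 1) (ha : 0 ≤ a) :
    w * (1 - w) * W a ≤ 2 * Dl W w a 0 := by
  rw [Dl_of_ge ha, h.zero]
  have := hP hw0 hw1 ha
  have e : (1 - w) * a + w * 0 = (1 - w) * a := by ring
  rw [e]
  nlinarith

lemma kk_le_left (h : AW W) {x y : ℝ} (hx : 0 ≤ x) (hy : 0 ≤ y) : kk W x y ≤ W x :=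
  h.mono (le_min hx hy) (min_le_left _ _)

lemma kk_nonneg (h : AW W) {x y : ℝ} (hx : 0 ≤ x) (hy : 0 ≤ y) : 0 ≤ kk W x y :=
  h.nonneg (le_min hx hy)

lemma kk_mono (h : AW W) {x x' y y' : ℝ} (hx : 0 ≤ x) (hy : 0 ≤ y) (hxx : x ≤ x') (hyy : y ≤ y') :
    kk W x y ≤ kk W x' y' :=
  h.mono (le_min hx hy) (min_le_min hxx hyy)

/-- **the cut of an `N` content from an unmatched `P` content** -/
lemma cutN (hP : PW W) (h : AW W) {w a b' : ℝ} (hw0 : 0 ≤ w) (hw1 : w ≤ 1) (ha : 0 ≤ a)
    (hb' : 0 ≤ b') : w * (1 - w) * kk W a b' ≤ 2 * Dl W w a 0 :=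
  (mul_le_mul_of_nonneg_left (kk_le_left h ha hb') (mul_nonneg hw0 (by linarith))).trans
    (Dl_un hP h hw0 hw1 ha)

/-- unmatched `P` content `a` (value `(1-w) a` off the hit lift, nothing on it) against a content
`(a', b')`: related off the hit lift only -/
lemma cutHit (hP : PW W) (h : AW W) {w a a' b' : ℝ} (hw0 : 0 ≤ w) (hw1 : w ≤ 1) (ha : 0 ≤ a)
    (ha' : 0 ≤ a') (hb' : 0 ≤ b') :
    (1 - w) ^ 2 * kk W a a' + w * (1 - w) * kk W a b' - 5 * Dl W w a 0 - Dl W w a' b' ≤
      (1 - w) * kk W (offv w a 0) (offv w a' b') := by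
  have t := tie h hw0 hw1 ha le_rfl ha' hb'
  have z1 : kk W 0 a' = 0 := by unfold kk; rw [min_eq_left ha']; exact h.zero
  have z2 : kk W 0 b' = 0 := by unfold kk; rw [min_eq_left hb']; exact h.zero
  have g0 : 0 ≤ gg W a 0 a' b' := le_max_left _ _
  have hg := mul_nonneg (mul_nonneg hw0 (show (0 : ℝ) ≤ 1 - w by linarith)) g0
  rw [z1, z2] at t
  have e : hitv w a 0 = offv w a 0 := hitv_of_ge ha
  rw [e] at t
  have o0 := offv_nonneg hw0 hw1 ha (le_refl (0 : ℝ))
  have u := kk_le_left h o0 (hitv_nonneg hw0 hw1 ha' hb')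
  have e2 : offv w a 0 = (1 - w) * a := by rw [offv_of_ge ha]; ring
  have p := hP hw0 hw1 ha
  have d := Dl_un hP h hw0 hw1 ha
  have wa := h.nonneg ha
  -- `w W ((1-w) a) ≤ w (1-w) W a ≤ 2 D`
  have q : w * W (offv w a 0) ≤ 2 * Dl W w a 0 := by
    rw [e2]
    have h1 : W ((1 - w) * a) ≤ (1 - w) * W a := by
      refine p.trans ?_
      have : (1 - w) * (1 - w / 2) ≤ (1 - w) * 1 :=
        mul_le_mul_of_nonneg_left (by linarith) (by linarith)
      calc (1 - w) * (1 - w / 2) * W a ≤ (1 - w) * 1 * W a :=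
            mul_le_mul_of_nonneg_right this wa
        _ = (1 - w) * W a := by ring
    have h2 := mul_le_mul_of_nonneg_left h1 hw0
    linarith
  have q2 := mul_le_mul_of_nonneg_left u hw0
  have dn := Dl_nonneg h hw0 hw1 ha (le_refl (0 : ℝ))
  linarith

end un

/-! ### spread lifts

`v i` are the values of the parent on the lifts `i ∈ s`, `w = 1 / #s`.  Only
`Σ_i ψ (v i) ≤ (#s - 1) ψ a + ψ b` for convex `ψ` is used (`SpB`); the loss is the exact one. -/

section spread

variable {W : ℝ → ℝ} {ι : Type*}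

/-- exact fibre loss -/
noncomputable def Ds (W : ℝ → ℝ) (s : Finset ι) (a b : ℝ) (v : ι → ℝ) : ℝ :=
  ((s.card : ℝ) - 1) * W a + W b - ∑ i ∈ s, W (v i)

/-- the values are a convex spread of `a` (`#s - 1` times) and `b` (once) -/
def SpB (s : Finset ι) (a b : ℝ) (v : ι → ℝ) : Prop :=
  ∀ ψ : ℝ → ℝ, ConvexOn ℝ (Set.Ici 0) ψ → (∀ ⦃x y : ℝ⦄, 0 ≤ x → x ≤ y → ψ x ≤ ψ y) →
    ∑ i ∈ s, ψ (v i) ≤ ((s.card : ℝ) - 1) * ψ a + ψ b

/-- the part of `W` above a level is convex and increasing -/
lemma cut_conv (h : AW W) {c : ℝ} (hc : 0 ≤ c) :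
    ConvexOn ℝ (Set.Ici 0) (fun x => W x - kk W x c) := by
  have e : ∀ x ∈ Set.Ici (0 : ℝ), W x - kk W x c = W (max x c) - W c := by
    intro x hx
    unfold kk
    rcases le_total x c with h1 | h1
    · rw [min_eq_left h1, max_eq_right h1]; ring
    · rw [min_eq_right h1, max_eq_left h1]
  refine ConvexOn.congr (f := fun x => W (max x c) - W c) ?_ fun x hx => (e x hx).symm
  refine ⟨convex_Ici 0, fun x hx y hy a b ha hb hab => ?_⟩
  have h1 : max (a • x + b • y) c ≤ a • max x c + b • max y c := by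
    simp only [smul_eq_mul]
    refine max_le (add_le_add (mul_le_mul_of_nonneg_left (le_max_left _ _) ha)
      (mul_le_mul_of_nonneg_left (le_max_left _ _) hb)) ?_
    have e1 := mul_le_mul_of_nonneg_left (le_max_right x c) ha
    have e2 := mul_le_mul_of_nonneg_left (le_max_right y c) hb
    have : c = a * c + b * c := by rw [← add_mul, hab, one_mul]
    linarith
  have h2 := h.mono (hc.trans (le_max_right (a • x + b • y) c)) h1
  have h3 := h.conv.2 (Set.mem_Ici.2 (hc.trans (le_max_right x c)))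
    (Set.mem_Ici.2 (hc.trans (le_max_right y c))) ha hb hab
  simp only [smul_eq_mul] at h2 h3 ⊢
  have : W c = a * W c + b * W c := by rw [← add_mul, hab, one_mul]
  nlinarith

lemma cut_mono (h : AW W) {c : ℝ} (hc : 0 ≤ c) ⦃x y : ℝ⦄ (hx : 0 ≤ x) (hxy : x ≤ y) :
    W x - kk W x c ≤ W y - kk W y c := by
  unfold kk
  rcases le_total y c with h1 | h1
  · rw [min_eq_left h1, min_eq_left (hxy.trans h1)]; linarith
  · rw [min_eq_right h1]
    rcases le_total x c with h2 | h2
    · rw [min_eq_left h2]; have := h.mono hc h1; linarith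
    · rw [min_eq_right h2]; have := h.mono hx hxy; linarith

lemma Ds_nonneg (h : AW W) {s : Finset ι} {a b : ℝ} {v : ι → ℝ} (hs : SpB s a b v) :
    0 ≤ Ds W s a b v := by
  have := hs W h.conv h.mono
  unfold Ds; linarith

/-- **one content on spread lifts against a fixed level** -/
lemma single_sp (h : AW W) {s : Finset ι} {a b c : ℝ} {v : ι → ℝ} (hs : SpB s a b v)
    (hc : 0 ≤ c) :
    ((s.card : ℝ) - 1) * kk W a c + kk W b c - Ds W s a b v ≤ ∑ i ∈ s, kk W (v i) c := by
  have := hs (fun x => W x - kk W x c) (cut_conv h hc) (cut_mono h hc)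
  simp only [Finset.sum_sub_distrib] at this
  unfold Ds
  linarith

/-- **two contents on spread lifts, product of the fibres** (`w = 1 / #s`) -/
theorem tie_sp (h : AW W) {s : Finset ι} (hn : 0 < s.card) {a b a' b' : ℝ} {v v' : ι → ℝ}
    (ha : 0 ≤ a) (hb : 0 ≤ b) (hv' : ∀ i ∈ s, 0 ≤ v' i) (hs : SpB s a b v) (hs' : SpB s a' b' v') :
    ((s.card : ℝ) - 1) ^ 2 * kk W a a' + ((s.card : ℝ) - 1) * (kk W a b' + kk W b a') +
      kk W b b' - s.card * Ds W s a b v - s.card * Ds W s a' b' v' ≤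
      ∑ j ∈ s, ∑ i ∈ s, kk W (v i) (v' j) := by
  have hn1 : (0 : ℝ) ≤ (s.card : ℝ) - 1 := by
    have : (1 : ℝ) ≤ s.card := by exact_mod_cast hn
    linarith
  have h1 : ∑ j ∈ s, (((s.card : ℝ) - 1) * kk W a (v' j) + kk W b (v' j) - Ds W s a b v) ≤
      ∑ j ∈ s, ∑ i ∈ s, kk W (v i) (v' j) :=
    Finset.sum_le_sum fun j hj => single_sp h hs (hv' j hj)
  rw [Finset.sum_sub_distrib, Finset.sum_add_distrib, ← Finset.mul_sum] at h1
  simp only [Finset.sum_const, nsmul_eq_mul] at h1
  have e : ∀ x, ∑ j ∈ s, kk W x (v' j) = ∑ j ∈ s, kk W (v' j) x :=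
    fun x => Finset.sum_congr rfl fun j _ => kk_comm W _ _
  rw [e a, e b] at h1
  have h2 := mul_le_mul_of_nonneg_left (single_sp h hs' ha) hn1
  have h3 := single_sp h hs' hb
  rw [kk_comm W a' a, kk_comm W b' a] at h2
  rw [kk_comm W a' b, kk_comm W b' b] at h3
  nlinarith

/-- the ideal fibre: `off + (b - a)^+ π_i` -/
lemma spB_of {s : Finset ι} (hn : 0 < s.card) {a b : ℝ} {π : ι → ℝ} (ha : 0 ≤ a) (hb : 0 ≤ b)
    (h0 : ∀ i ∈ s, 0 ≤ π i) (h1 : ∑ i ∈ s, π i = 1) :
    SpB s a b fun i => offv (1 / (s.card : ℝ)) a b + max (b - a) 0 * π i := by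
  intro ψ hψ hm
  have hc : (1 : ℝ) ≤ s.card := by exact_mod_cast hn
  rcases le_total a b with hab | hab
  · rw [offv_of_le hab, max_eq_left (by linarith : (0 : ℝ) ≤ b - a)]
    have h2 : ∀ i ∈ s, ψ (a + (b - a) * π i) ≤ (1 - π i) * ψ a + π i * ψ b := by
      intro i hi
      have hle : π i ≤ 1 := by rw [← h1]; exact Finset.single_le_sum h0 hi
      have e : a + (b - a) * π i = (1 - π i) * a + π i * b := by ring
      rw [e]
      exact hψ.2 (Set.mem_Ici.2 ha) (Set.mem_Ici.2 hb) (by linarith) (h0 i hi) (by ring)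
    refine (Finset.sum_le_sum h2).trans (le_of_eq ?_)
    rw [Finset.sum_add_distrib, ← Finset.sum_mul, ← Finset.sum_mul, Finset.sum_sub_distrib, h1]
    simp
  · rw [offv_of_ge hab, max_eq_right (by linarith : b - a ≤ 0)]
    simp only [zero_mul, add_zero, Finset.sum_const, nsmul_eq_mul]
    have h2 := hψ.2 (Set.mem_Ici.2 ha) (Set.mem_Ici.2 hb)
      (show (0 : ℝ) ≤ 1 - 1 / s.card by rw [sub_nonneg, div_le_one (by linarith)]; exact hc)
      (show (0 : ℝ) ≤ 1 / (s.card : ℝ) by positivity) (by ring)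
    simp only [smul_eq_mul] at h2
    have h3 := mul_le_mul_of_nonneg_left h2 (show (0 : ℝ) ≤ (s.card : ℝ) by linarith)
    refine h3.trans (le_of_eq ?_)
    field_simp

end spread

/-! ### the fibre of one class in a node -/

section fib

variable {W : ℝ → ℝ} {ι : Type*}

lemma AW.sup_add (h : AW W) {x y : ℝ} (hx : 0 ≤ x) (hy : 0 ≤ y) : W x + W y ≤ W (x + y) := by
  rcases eq_or_lt_of_le (add_nonneg hx hy) with h0 | h0
  · have hx0 : x = 0 := by linarith
    have hy0 : y = 0 := by linarith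
    subst hx0; subst hy0; rw [add_zero, h.zero, add_zero]
  · have e1 : (1 - y / (x + y)) * 0 + y / (x + y) * (x + y) = y := by field_simp; ring
    have e2 : (1 - x / (x + y)) * 0 + x / (x + y) * (x + y) = x := by field_simp; ring
    have c1 := h.cv (w := y / (x + y)) (div_nonneg hy h0.le)
      ((div_le_one h0).2 (by linarith)) le_rfl h0.le
    have c2 := h.cv (w := x / (x + y)) (div_nonneg hx h0.le)
      ((div_le_one h0).2 (by linarith)) le_rfl h0.le
    rw [e1, h.zero] at c1
    rw [e2, h.zero] at c2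
    have e3 : y / (x + y) + x / (x + y) = 1 := by field_simp; ring
    have e4 : y / (x + y) * W (x + y) + x / (x + y) * W (x + y) = W (x + y) := by
      rw [← add_mul, e3, one_mul]
    linarith

/-- contents of one class on arbitrary lifts, below the hit part: exact convexity -/
lemma fib_lt (h : AW W) (s : Finset ι) {f G : ℝ} {g : ι → ℝ} (hf : 0 ≤ f) (hg : ∀ i ∈ s, 0 ≤ g i)
    (hG : ∑ i ∈ s, g i = G) (hfG : f ≤ G) :
    ∑ i ∈ s, W (f + g i * (1 - f / G)) ≤ ((s.card : ℝ) - 1) * W f + W G ∨ G = 0 := by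
  rcases eq_or_lt_of_le (hf.trans hfG) with h0 | h0
  · exact Or.inr h0.symm
  · left
    have h1 : ∀ i ∈ s, W (f + g i * (1 - f / G)) ≤ (1 - g i / G) * W f + g i / G * W G := by
      intro i hi
      have e : f + g i * (1 - f / G) = (1 - g i / G) * f + g i / G * G := by
        field_simp; ring
      rw [e]
      refine h.cv (div_nonneg (hg i hi) h0.le) ?_ hf h0.le
      rw [div_le_one h0, ← hG]
      exact Finset.single_le_sum hg hi
    refine (Finset.sum_le_sum h1).trans (le_of_eq ?_)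
    rw [Finset.sum_add_distrib, ← Finset.sum_mul, ← Finset.sum_mul, Finset.sum_sub_distrib,
      ← Finset.sum_div, hG, div_self h0.ne']
    simp

/-- splits: a part of a content against a fixed level costs at most the superadditivity gap -/
lemma splitUp (h : AW W) {a a' g : ℝ} (ha : 0 ≤ a) (ha' : 0 ≤ a') (hg : 0 ≤ g) :
    kk W (a + a') g - kk W a g - kk W a' g ≤ W (a + a') - W a - W a' := by
  unfold kk
  rcases le_total (a + a') g with h1 | h1
  · rw [min_eq_left h1, min_eq_left (by linarith : a ≤ g), min_eq_left (by linarith : a' ≤ g)]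
  · rw [min_eq_right h1]
    -- `W (a+a') - W g ≥ W a - W (min a g) + W a' - W (min a' g)`
    rcases le_total a g with h2 | h2
    · rw [min_eq_left h2]
      rcases le_total a' g with h3 | h3
      · rw [min_eq_left h3]; have := h.mono hg h1; linarith
      · rw [min_eq_right h3]
        have := h.mono ha' (show a' ≤ a + a' by linarith); linarith
    · rw [min_eq_right h2]
      rcases le_total a' g with h3 | h3
      · rw [min_eq_left h3]; have := h.mono ha (show a ≤ a + a' by linarith); linarith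
      · rw [min_eq_right h3]
        have := h.sup_add ha ha'
        have := h.nonneg hg
        linarith

/-- joins: the loss is at most the energy of the smaller part -/
lemma joinUp (h : AW W) {a a' g : ℝ} (ha : 0 ≤ a) (ha' : 0 ≤ a') (hg : 0 ≤ g) :
    kk W a g + kk W a' g - kk W (a + a') g ≤ W (min a a') := by
  have key : ∀ ⦃a a' : ℝ⦄, 0 ≤ a → 0 ≤ a' → a ≤ a' →
      kk W a g + kk W a' g - kk W (a + a') g ≤ W a := by
    intro a a' ha ha' haa
    have h1 := kk_le_left h ha hg
    have h2 := kk_mono h ha' hg (show a' ≤ a + a' by linarith) (le_refl g)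
    linarith
  rcases le_total a a' with haa | haa
  · rw [min_eq_left haa]; exact key ha ha' haa
  · rw [min_eq_right haa]
    have := key ha' ha haa
    rw [add_comm a' a] at this
    linarith

/-- the smaller part is controlled by the superadditivity gap -/
lemma min_le_gap {W : ℝ → ℝ} (h : AW W) {κ : ℝ} (hκ : ∀ ⦃x : ℝ⦄, 0 ≤ x → κ * W x ≤ W (2 * x) - 2 * W x)
    {a a' : ℝ} (ha : 0 ≤ a) (ha' : 0 ≤ a') :
    κ * W (min a a') ≤ W (a + a') - W a - W a' := by
  have key : ∀ ⦃a a' : ℝ⦄, 0 ≤ a → 0 ≤ a' → a ≤ a' → κ * W a ≤ W (a + a') - W a - W a' := by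
    intro a a' ha ha' haa
    -- convexity: `W (a + a') - W a' ≥ W (2 a) - W a`
    have h1 : W (2 * a) - W a ≤ W (a + a') - W a' := by
      rcases eq_or_lt_of_le ha' with h0 | h0
      · have : a = 0 := by linarith
        subst this; rw [← h0]; simp [h.zero]
      -- points a ≤ a', 2a ≤ a + a'
      have c1 : W (2 * a) ≤ (1 - a / a') * W a + a / a' * W (a + a') := by
        have e : (2 : ℝ) * a = (1 - a / a') * a + a / a' * (a + a') := by field_simp; ring
        conv_lhs => rw [e]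
        exact h.cv (div_nonneg ha ha') ((div_le_one h0).2 haa) ha (by linarith)
      have c2 : W a' ≤ (1 - (1 - a / a')) * W a + (1 - a / a') * W (a + a') := by
        have e : a' = (1 - (1 - a / a')) * a + (1 - a / a') * (a + a') := by field_simp; ring
        conv_lhs => rw [e]
        refine h.cv ?_ ?_ ha (by linarith)
        · have := (div_le_one h0).2 haa; linarith
        · have := div_nonneg ha ha'; linarith
      nlinarith
    have := hκ ha
    linarith
  rcases le_total a a' with haa | haa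
  · rw [min_eq_left haa]; exact key ha ha' haa
  · rw [min_eq_right haa]
    have := key ha' ha haa
    rw [add_comm a' a] at this
    linarith

end fib

/-! ### weights given by an increasing density -/

open MeasureTheory

/-- densities: continuous, positive, `om t / √t` increasing -/
structure OmOk (om : ℝ → ℝ) : Prop where
  cont : Continuous om
  pos : ∀ ⦃t : ℝ⦄, 0 < t → 0 < om t
  pw : ∀ ⦃l s : ℝ⦄, 0 ≤ l → l ≤ 1 → 0 ≤ s → om (l * s) ≤ Real.sqrt l * om s

/-- the weight of a density -/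
noncomputable def Wo (om : ℝ → ℝ) (x : ℝ) : ℝ := ∫ t in (0 : ℝ)..x, 2 * om t

section om

variable {om : ℝ → ℝ}

lemma OmOk.nn (h : OmOk om) {t : ℝ} (ht : 0 ≤ t) : 0 ≤ om t := by
  rcases eq_or_lt_of_le ht with h0 | h0
  · subst h0
    by_contra hc
    push Not at hc
    have := h.pw (l := 0) (s := 0) le_rfl zero_le_one le_rfl
    rw [zero_mul, Real.sqrt_zero, zero_mul] at this
    have h2 := h.cont.continuousAt (x := (0 : ℝ))
    have h3 : ∀ᶠ t in nhds (0 : ℝ), om t < 0 := h2.eventually (gt_mem_nhds hc)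
    obtain ⟨ε, hε, h4⟩ := Metric.eventually_nhds_iff.1 h3
    have h5 := h4 (y := ε / 2) (by rw [Real.dist_eq, sub_zero, abs_of_pos (by linarith)]; linarith)
    have := h.pos (t := ε / 2) (by linarith)
    linarith
  · exact (h.pos h0).le

lemma OmOk.mono (h : OmOk om) {s t : ℝ} (hs : 0 ≤ s) (hst : s ≤ t) : om s ≤ om t := by
  rcases eq_or_lt_of_le (hs.trans hst) with h0 | h0
  · have : s = t := by linarith
    rw [this]
  · have h1 := h.pw (l := s / t) (s := t) (div_nonneg hs h0.le) ((div_le_one h0).2 hst) h0.le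
    rw [div_mul_cancel₀ _ h0.ne'] at h1
    refine h1.trans ?_
    have h2 : Real.sqrt (s / t) ≤ 1 := Real.sqrt_le_one.2 ((div_le_one h0).2 hst)
    have := mul_le_mul_of_nonneg_right h2 (h.nn h0.le)
    linarith

lemma OmOk.ii (h : OmOk om) (a b : ℝ) : IntervalIntegrable (fun t => 2 * om t) volume a b :=
  (h.cont.const_mul 2 |>.intervalIntegrable a b : _)

lemma Wo_sub (h : OmOk om) (a b : ℝ) : Wo om b - Wo om a = ∫ t in a..b, 2 * om t := by
  unfold Wo
  exact intervalIntegral.integral_interval_sub_left (h.ii 0 b) (h.ii 0 a)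

lemma Wo_AW (h : OmOk om) : AW (Wo om) := by
  refine ⟨by unfold Wo; simp, fun x y hx hxy => ?_, ?_⟩
  · have := Wo_sub h x y
    have h2 : 0 ≤ ∫ t in x..y, 2 * om t := intervalIntegral.integral_nonneg hxy
      fun t ht => mul_nonneg zero_le_two (h.nn (hx.trans ht.1))
    linarith
  · have hd : ∀ x : ℝ, HasDerivAt (Wo om) (2 * om x) x := fun x =>
      intervalIntegral.integral_hasDerivAt_right (h.ii 0 x)
        (h.cont.const_mul 2 |>.stronglyMeasurableAtFilter _ _) (h.cont.const_mul 2).continuousAt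
    refine MonotoneOn.convexOn_of_deriv (convex_Ici 0)
      (fun x _ => (hd x).continuousAt.continuousWithinAt)
      (fun x _ => (hd x).differentiableAt.differentiableWithinAt) ?_
    intro x hx y hy hxy
    rw [interior_Ici] at hx hy
    rw [(hd x).deriv, (hd y).deriv]
    have := h.mono (le_of_lt hx) hxy
    linarith

/-- `W (l x) ≤ l √l W x` -/
lemma Wo_scale (h : OmOk om) {l x : ℝ} (hl0 : 0 ≤ l) (hl1 : l ≤ 1) (hx : 0 ≤ x) :
    Wo om (l * x) ≤ l * Real.sqrt l * Wo om x := by
  have e : Wo om (l * x) = l * ∫ s in (0 : ℝ)..x, 2 * om (l * s) := by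
    unfold Wo
    rw [← smul_eq_mul l (∫ s in (0 : ℝ)..x, 2 * om (l * s)),
      intervalIntegral.smul_integral_comp_mul_left (fun t => 2 * om t) l, mul_zero]
  rw [e, mul_assoc]
  refine mul_le_mul_of_nonneg_left ?_ hl0
  unfold Wo
  rw [← intervalIntegral.integral_const_mul]
  refine intervalIntegral.integral_mono_on hx ?_ ((h.ii 0 x).const_mul _) ?_
  · exact ((h.cont.comp (continuous_const.mul continuous_id)).const_mul 2).intervalIntegrable 0 x
  · intro s hs
    have := h.pw hl0 hl1 hs.1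
    nlinarith

lemma Wo_PW (h : OmOk om) : PW (Wo om) := by
  intro w x hw0 hw1 hx
  refine (Wo_scale h (by linarith : (0 : ℝ) ≤ 1 - w) (by linarith) hx).trans ?_
  refine mul_le_mul_of_nonneg_right ?_ ((Wo_AW h).nonneg hx)
  refine mul_le_mul_of_nonneg_left ?_ (by linarith)
  rw [Real.sqrt_le_left (by linarith)]
  nlinarith [sq_nonneg w]

/-- doubling gap -/
lemma Wo_gap (h : OmOk om) ⦃x : ℝ⦄ (hx : 0 ≤ x) : 4 / 5 * Wo om x ≤ Wo om (2 * x) - 2 * Wo om x := by
  have h1 := Wo_scale h (l := 1 / 2) (x := 2 * x) (by norm_num) (by norm_num) (by linarith)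
  have e : (1 : ℝ) / 2 * (2 * x) = x := by ring
  rw [e] at h1
  have h2 : Real.sqrt (1 / 2) ≤ 5 / 7 := by
    rw [Real.sqrt_le_left (by norm_num)]; norm_num
  have h3 := (Wo_AW h).nonneg (show 0 ≤ 2 * x by linarith)
  have h4 : 1 / 2 * Real.sqrt (1 / 2) * Wo om (2 * x) ≤ 1 / 2 * (5 / 7) * Wo om (2 * x) :=
    mul_le_mul_of_nonneg_right (by linarith) h3
  linarith

lemma Wo_le (h : OmOk om) {x : ℝ} (hx : 0 ≤ x) : Wo om x ≤ 2 * x * om x := by
  unfold Wo
  have h1 : (∫ t in (0 : ℝ)..x, 2 * om t) ≤ ∫ t in (0 : ℝ)..x, 2 * om x :=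
    intervalIntegral.integral_mono_on hx (h.ii 0 x) intervalIntegrable_const
      fun t ht => by have := h.mono ht.1 ht.2; linarith
  rw [intervalIntegral.integral_const, smul_eq_mul] at h1
  linarith

/-- gain as an integral -/
lemma gg_int (h : OmOk om) {a b a' b' : ℝ} (ha : 0 ≤ a) (hb : 0 ≤ b) (ha' : 0 ≤ a')
    (hb' : 0 ≤ b') :
    gg (Wo om) a b a' b' = ∫ t in Ioi (0 : ℝ),
      (Ioc a b).indicator (fun _ => (1 : ℝ)) t * (Ioc a' b').indicator (fun _ => (1 : ℝ)) t *
        (2 * om t) := by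
  have e : ∀ t, (Ioc a b).indicator (fun _ => (1 : ℝ)) t *
      (Ioc a' b').indicator (fun _ => (1 : ℝ)) t * (2 * om t) =
      (Ioc (max a a') (min b b')).indicator (fun t => 2 * om t) t := by
    intro t
    rw [← Ioc_inter_Ioc]
    by_cases h1 : t ∈ Ioc a b <;> by_cases h2 : t ∈ Ioc a' b' <;> simp [Set.indicator, h1, h2]
  simp_rw [e]
  have hsub : Ioc (max a a') (min b b') ⊆ Ioi (0 : ℝ) :=
    fun t ht => lt_of_le_of_lt (ha.trans (le_max_left a a')) ht.1
  rw [integral_indicator measurableSet_Ioc, Measure.restrict_restrict measurableSet_Ioc,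
    inter_eq_left.2 hsub]
  rcases le_total (max a a') (min b b') with h1 | h1
  · rw [← intervalIntegral.integral_of_le h1, ← Wo_sub h]
    unfold gg
    rw [max_eq_right]
    have := (Wo_AW h).mono (ha.trans (le_max_left a a')) h1
    linarith
  · rw [Ioc_eq_empty (by exact not_lt.2 h1)]
    unfold gg
    rw [max_eq_left]
    · simp
    · have := (Wo_AW h).mono (le_min hb hb') h1
      linarith

/-- **the cost is controlled by the gain** (Cauchy-Schwarz) -/
theorem cost_le_gain (h : OmOk om) {C : ℝ}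
    (hi : IntegrableOn (fun t => 1 / (2 * om t)) (Ioi (0 : ℝ)))
    (hC : ∫ t in Ioi (0 : ℝ), 1 / (2 * om t) ≤ C) {ι : Type*} (s : Finset ι) {p a b : ι → ℝ}
    (hp : ∀ i ∈ s, 0 ≤ p i) (ha : ∀ i ∈ s, 0 ≤ a i) (hb : ∀ i ∈ s, 0 ≤ b i) :
    (∑ i ∈ s, p i * max (b i - a i) 0) ^ 2 ≤
      C * ∑ i ∈ s, ∑ j ∈ s, p i * p j * gg (Wo om) (a i) (b i) (a j) (b j) := by
  set g : ℝ → ℝ := fun t => ∑ i ∈ s, p i * (Ioc (a i) (b i)).indicator (fun _ => (1 : ℝ)) t with hg
  set G := ∑ i ∈ s, p i * max (b i - a i) 0 with hG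
  have iI : ∀ i ∈ s, ∀ f : ℝ → ℝ, Continuous f → IntegrableOn
      (fun t => (Ioc (a i) (b i)).indicator (fun _ => (1 : ℝ)) t * f t) (Ioi (0 : ℝ)) := by
    intro i hi' f hf
    have e : (fun t => (Ioc (a i) (b i)).indicator (fun _ => (1 : ℝ)) t * f t) =
        (Ioc (a i) (b i)).indicator f := by
      funext t; by_cases h1 : t ∈ Ioc (a i) (b i) <;> simp [Set.indicator, h1]
    rw [e]
    refine Integrable.integrableOn ?_
    rw [integrable_indicator_iff measurableSet_Ioc]
    exact (hf.integrableOn_Icc (a := a i) (b := b i)).mono_set Ioc_subset_Icc_self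
  have iJ : ∀ i ∈ s, IntegrableOn (fun t => (Ioc (a i) (b i)).indicator (fun _ => (1 : ℝ)) t)
      (Ioi (0 : ℝ)) := by
    intro i hi'
    have := iI i hi' (fun _ => 1) continuous_const
    simpa using this
  have ig : IntegrableOn g (Ioi (0 : ℝ)) :=
    integrable_finsetSum _ fun i hi' => (iJ i hi').const_mul _
  have vg : ∫ t in Ioi (0 : ℝ), g t = G := by
    rw [hg, integral_finsetSum]
    · refine Finset.sum_congr rfl fun i hi' => ?_
      have hsub : Ioc (a i) (b i) ⊆ Ioi (0 : ℝ) := fun t ht => lt_of_le_of_lt (ha i hi') ht.1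
      rw [integral_const_mul, integral_indicator measurableSet_Ioc,
        Measure.restrict_restrict measurableSet_Ioc, inter_eq_left.2 hsub]
      simp only [integral_const, smul_eq_mul, mul_one, measureReal_restrict_apply,
        MeasurableSet.univ, univ_inter, Real.volume_real_Ioc]
    · exact fun i hi' => (iJ i hi').const_mul _
  have i2 : ∀ i ∈ s, ∀ j ∈ s, IntegrableOn (fun t =>
      (Ioc (a i) (b i)).indicator (fun _ => (1 : ℝ)) t *
        (Ioc (a j) (b j)).indicator (fun _ => (1 : ℝ)) t * (2 * om t)) (Ioi (0 : ℝ)) := by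
    intro i hi' j hj'
    have e : ∀ t, (Ioc (a i) (b i)).indicator (fun _ => (1 : ℝ)) t *
        (Ioc (a j) (b j)).indicator (fun _ => (1 : ℝ)) t * (2 * om t) =
        (Ioc (max (a i) (a j)) (min (b i) (b j))).indicator (fun t => 2 * om t) t := by
      intro t
      rw [← Ioc_inter_Ioc]
      by_cases h1 : t ∈ Ioc (a i) (b i) <;> by_cases h2 : t ∈ Ioc (a j) (b j) <;>
        simp [Set.indicator, h1, h2]
    simp_rw [e]
    refine Integrable.integrableOn ?_
    rw [integrable_indicator_iff measurableSet_Ioc]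
    exact ((h.cont.const_mul 2).integrableOn_Icc).mono_set Ioc_subset_Icc_self
  have eg2 : ∀ t, g t ^ 2 * (2 * om t) = ∑ i ∈ s, ∑ j ∈ s, p i * p j *
      ((Ioc (a i) (b i)).indicator (fun _ => (1 : ℝ)) t *
        (Ioc (a j) (b j)).indicator (fun _ => (1 : ℝ)) t * (2 * om t)) := by
    intro t
    rw [hg, sq, Finset.sum_mul_sum, Finset.sum_mul]
    refine Finset.sum_congr rfl fun i _ => ?_
    rw [Finset.sum_mul]
    refine Finset.sum_congr rfl fun j _ => by ring
  have ig2 : IntegrableOn (fun t => g t ^ 2 * (2 * om t)) (Ioi (0 : ℝ)) := by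
    simp_rw [eg2]
    exact integrable_finsetSum _ fun i hi' => integrable_finsetSum _ fun j hj' =>
      (i2 i hi' j hj').const_mul _
  have vg2 : ∫ t in Ioi (0 : ℝ), g t ^ 2 * (2 * om t) =
      ∑ i ∈ s, ∑ j ∈ s, p i * p j * gg (Wo om) (a i) (b i) (a j) (b j) := by
    simp_rw [eg2]
    rw [integral_finsetSum _ fun i hi' => integrable_finsetSum _ fun j hj' =>
      (i2 i hi' j hj').const_mul _]
    refine Finset.sum_congr rfl fun i hi' => ?_
    rw [integral_finsetSum _ fun j hj' => (i2 i hi' j hj').const_mul _]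
    refine Finset.sum_congr rfl fun j hj' => ?_
    rw [integral_const_mul, gg_int h (ha i hi') (hb i hi') (ha j hj') (hb j hj')]
  rw [← vg2]
  set K := ∫ t in Ioi (0 : ℝ), 1 / (2 * om t) with hK
  set E := ∫ t in Ioi (0 : ℝ), g t ^ 2 * (2 * om t) with hE
  -- the quadratic inequality
  have quad : ∀ l : ℝ, 2 * l * G ≤ E + l ^ 2 * K := by
    intro l
    rw [← vg, hE, hK, ← integral_const_mul, ← integral_const_mul, ← integral_add ig2
      (hi.const_mul _)]
    refine setIntegral_mono_on (ig.const_mul _) (ig2.add (hi.const_mul _)) measurableSet_Ioi ?_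
    intro t ht
    have ho := h.pos (mem_Ioi.1 ht)
    have e : g t ^ 2 * (2 * om t) + l ^ 2 * (1 / (2 * om t)) - 2 * l * g t =
        (g t * (2 * om t) - l) ^ 2 / (2 * om t) := by field_simp; ring
    have : 0 ≤ (g t * (2 * om t) - l) ^ 2 / (2 * om t) :=
      div_nonneg (sq_nonneg _) (by linarith)
    show 2 * l * g t ≤ g t ^ 2 * (2 * om t) + l ^ 2 * (1 / (2 * om t))
    linarith
  have hE0 : 0 ≤ E := setIntegral_nonneg measurableSet_Ioi fun t ht =>
    mul_nonneg (sq_nonneg _) (mul_nonneg zero_le_two (h.pos (mem_Ioi.1 ht)).le)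
  have hK0 : 0 ≤ K := setIntegral_nonneg measurableSet_Ioi fun t ht =>
    div_nonneg zero_le_one (mul_nonneg zero_le_two (h.pos (mem_Ioi.1 ht)).le)
  have main : G ^ 2 ≤ K * E := by
    rcases eq_or_lt_of_le hK0 with h0 | h0
    · -- `K = 0` forces `G = 0`
      have h1 : ∀ l : ℝ, 2 * l * G ≤ E := by
        intro l; have := quad l; rw [← h0] at this; linarith
      have hG0 : G = 0 := by
        by_contra hne
        have := h1 ((E + 1) / (2 * G))
        rw [show 2 * ((E + 1) / (2 * G)) * G = E + 1 by field_simp] at this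
        linarith
      rw [hG0, ← h0]; simp
    · have := quad (G / K)
      have e1 : 2 * (G / K) * G = 2 * (G ^ 2 / K) := by ring
      have e2 : (G / K) ^ 2 * K = G ^ 2 / K := by field_simp
      rw [e1, e2] at this
      have h3 : G ^ 2 / K ≤ E := by linarith
      rw [div_le_iff₀ h0] at h3
      linarith
  exact main.trans (mul_le_mul_of_nonneg_right hC hE0)

end om

/-! ### a concrete density: `√t` on `[0,1]`, `t (1 + log t)^2` above -/

/-- the density -/
noncomputable def om1 (t : ℝ) : ℝ := Real.sqrt (t * max t 1) * (1 + Real.log (max t 1)) ^ 2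

lemma om1_ok : OmOk om1 := by
  refine ⟨?_, fun t ht => ?_, fun l s hl0 hl1 hs => ?_⟩
  · unfold om1
    refine (Real.continuous_sqrt.comp (continuous_id.mul (continuous_id.max continuous_const))).mul
      ((continuous_const.add (Continuous.log (continuous_id.max continuous_const) ?_)).pow 2)
    intro x
    have : (1 : ℝ) ≤ max (id x) 1 := le_max_right _ _
    positivity
  · unfold om1
    have h1 : (1 : ℝ) ≤ max t 1 := le_max_right _ _
    have h2 := Real.log_nonneg h1
    have h3 : 0 < t * max t 1 := mul_pos ht (by linarith)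
    have := Real.sqrt_pos.2 h3
    positivity
  · unfold om1
    have h1 : (1 : ℝ) ≤ max (l * s) 1 := le_max_right _ _
    have h2 := Real.log_nonneg h1
    have hls : l * s ≤ s := by nlinarith
    have h3 : max (l * s) 1 ≤ max s 1 := max_le_max hls le_rfl
    have h4 := Real.log_le_log (by linarith) h3
    rw [← mul_assoc, ← Real.sqrt_mul hl0]
    refine mul_le_mul (Real.sqrt_le_sqrt ?_) (by gcongr) (sq_nonneg _) (Real.sqrt_nonneg _)
    rw [mul_assoc]
    exact mul_le_mul_of_nonneg_left (mul_le_mul_of_nonneg_left h3 hs) hl0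

lemma om1_le {t : ℝ} (h0 : 0 ≤ t) (h1 : t ≤ 1) : om1 t = Real.sqrt t := by
  unfold om1; rw [max_eq_right h1]; simp

lemma om1_ge {t : ℝ} (h1 : 1 ≤ t) : om1 t = t * (1 + Real.log t) ^ 2 := by
  unfold om1; rw [max_eq_left h1, Real.sqrt_mul_self (by linarith)]

/-- the weight of `om1` -/
noncomputable def W1 : ℝ → ℝ := Wo om1

lemma om1_io : IntegrableOn (fun t => 1 / (2 * om1 t)) (Ioc (0 : ℝ) 1) ∧
    ∫ t in Ioc (0 : ℝ) 1, 1 / (2 * om1 t) = 1 := by
  have hc : ContinuousOn Real.sqrt (Icc (0 : ℝ) 1) := Real.continuous_sqrt.continuousOn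
  have hd : ∀ t ∈ Ioo (0 : ℝ) 1, HasDerivAt Real.sqrt (1 / (2 * Real.sqrt t)) t :=
    fun t ht => Real.hasDerivAt_sqrt ht.1.ne'
  have hi : IntegrableOn (fun t => 1 / (2 * Real.sqrt t)) (Ioc (0 : ℝ) 1) :=
    intervalIntegral.integrableOn_deriv_of_nonneg hc hd fun t _ => by positivity
  have e : ∀ t ∈ Ioc (0 : ℝ) 1, 1 / (2 * Real.sqrt t) = 1 / (2 * om1 t) :=
    fun t ht => by rw [om1_le ht.1.le ht.2]
  refine ⟨hi.congr_fun e measurableSet_Ioc, ?_⟩
  rw [← setIntegral_congr_fun measurableSet_Ioc e,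
    ← intervalIntegral.integral_of_le zero_le_one,
    intervalIntegral.integral_eq_sub_of_hasDerivAt_of_le zero_le_one hc hd
      ((intervalIntegrable_iff_integrableOn_Ioc_of_le zero_le_one).2 hi)]
  simp

lemma om1_ioi : IntegrableOn (fun t => 1 / (2 * om1 t)) (Ioi (1 : ℝ)) ∧
    ∫ t in Ioi (1 : ℝ), 1 / (2 * om1 t) = 1 / 2 := by
  set F : ℝ → ℝ := fun t => -(1 / (2 * (1 + Real.log t))) with hF
  have hd : ∀ t ∈ Ici (1 : ℝ), HasDerivAt F (1 / (2 * (t * (1 + Real.log t) ^ 2))) t := by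
    intro t ht
    have ht1 : (1 : ℝ) ≤ t := ht
    have h0 : 0 < t := by linarith
    have hl := Real.log_nonneg ht1
    have h1 : HasDerivAt (fun t => 2 * (1 + Real.log t)) (2 * (0 + t⁻¹)) t :=
      ((hasDerivAt_const t (1 : ℝ)).add (Real.hasDerivAt_log h0.ne')).const_mul 2
    have h2 := (h1.inv (by positivity)).neg
    have e : F = fun t => -(2 * (1 + Real.log t))⁻¹ := by funext t; rw [hF]; simp only [one_div]
    rw [e]
    refine h2.congr_deriv ?_
    field_simp
    ring
  have ht : Filter.Tendsto F Filter.atTop (nhds 0) := by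
    rw [hF]
    have h1 : Filter.Tendsto (fun t => 2 * (1 + Real.log t)) Filter.atTop Filter.atTop :=
      (Filter.tendsto_atTop_add_const_left _ 1 Real.tendsto_log_atTop).const_mul_atTop two_pos
    have h2 := (h1.inv_tendsto_atTop).neg
    simp only [neg_zero] at h2
    refine h2.congr fun t => ?_
    simp [one_div]
  have hp : ∀ t ∈ Ioi (1 : ℝ), 0 ≤ 1 / (2 * (t * (1 + Real.log t) ^ 2)) := by
    intro t ht
    have : (0 : ℝ) < t := lt_trans one_pos ht
    positivity
  have hi := integrableOn_Ioi_deriv_of_nonneg' hd hp ht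
  have e : ∀ t ∈ Ioi (1 : ℝ), 1 / (2 * (t * (1 + Real.log t) ^ 2)) = 1 / (2 * om1 t) :=
    fun t ht => by rw [om1_ge (le_of_lt ht)]
  refine ⟨hi.congr_fun e measurableSet_Ioi, ?_⟩
  rw [← setIntegral_congr_fun measurableSet_Ioi e, integral_Ioi_of_hasDerivAt_of_nonneg' hd hp ht]
  rw [hF]; simp

lemma om1_int : IntegrableOn (fun t => 1 / (2 * om1 t)) (Ioi (0 : ℝ)) ∧
    ∫ t in Ioi (0 : ℝ), 1 / (2 * om1 t) ≤ 3 / 2 := by
  have e : Ioi (0 : ℝ) = Ioc 0 1 ∪ Ioi 1 := (Ioc_union_Ioi_eq_Ioi zero_le_one).symm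
  rw [e]
  refine ⟨om1_io.1.union om1_ioi.1, ?_⟩
  rw [setIntegral_union Ioc_disjoint_Ioi_same measurableSet_Ioi om1_io.1 om1_ioi.1, om1_io.2,
    om1_ioi.2]
  norm_num

lemma W1_AW : AW W1 := Wo_AW om1_ok

lemma W1_PW : PW W1 := Wo_PW om1_ok

/-- cost <= gain for `W1` -/
theorem W1_cost {ι : Type*} (s : Finset ι) {p a b : ι → ℝ}
    (hp : ∀ i ∈ s, 0 ≤ p i) (ha : ∀ i ∈ s, 0 ≤ a i) (hb : ∀ i ∈ s, 0 ≤ b i) :
    (∑ i ∈ s, p i * max (b i - a i) 0) ^ 2 ≤
      3 / 2 * ∑ i ∈ s, ∑ j ∈ s, p i * p j * gg W1 (a i) (b i) (a j) (b j) :=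
  cost_le_gain om1_ok om1_int.1 om1_int.2 s hp ha hb

/-- `W1` is at most `2 x √x` on `[0,1]` -/
lemma W1_le_one {x : ℝ} (h0 : 0 ≤ x) (h1 : x ≤ 1) : W1 x ≤ 2 * x * Real.sqrt x := by
  have := Wo_le om1_ok h0
  rwa [om1_le h0 h1] at this

lemma W1_le {x : ℝ} (h0 : 0 ≤ x) : W1 x ≤ 2 * x * om1 x := Wo_le om1_ok h0

end Crest.Agent.R4P.KerW878
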