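import Crest.Agent.R4P.PN_36
import Crest.Agent.R4P.KerW_878

/-!
R4 (S0004) with powers, group [W-eSHR], helper36: **the cost `gT` is at most the gain of the kernel `W`**.

For a tie or pull `t = br p w r t₁ t₀ v B G` : `oT t c x = B c (p x)`, `vT t c x = sm r v c x`.
`kX ix W t t' = I Σ_c Σ_c' [ix c = ix c'] gg W (oT t c) (vT t c) (oT t' c') (vT t' c')`.
* `gT_le_kX` : `I Σ_z (Σ_{c : ix c = z} GmG g c)^2 ≤ C * ker kX`, if `CostW W C`.
* `tgtTop_of2` : `TgtTop` from bounds of `GS (ker kX)` with `W1`.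
-/

set_option autoImplicit false
set_option linter.unusedSectionVars false
set_option linter.unusedVariables false
open MeasureTheory Filter Set

namespace Crest.Agent.R4P.GainX36

open Crest.Agent.R4.Tour104 Crest.Agent.R4.Tour758 Crest.Agent.R4.Avg758 Crest.Agent.R4.Clos758
open Crest.Agent.R4.ClosL758 Crest.Agent.R4.ClosG758 Crest.Agent.R4.ClosR758
open Crest.Agent.R4P.ClosR442 Crest.Agent.R4P.Grp36
open Crest.Agent.R4P.Xfer36 Crest.Agent.R4P.TopC36 Crest.Agent.R4P.PN36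
open Crest.Agent.R4P.KerW878 (AW gg W1 W1_AW W1_cost)
open Crest.Agent.R4P.Walk560 (DT)

/-- the cost is controlled by the gain of `W` -/
def CostW (W : ℝ → ℝ) (C : ℝ) : Prop :=
  ∀ {ι : Type} (s : Finset ι) (p a b : ι → ℝ), (∀ i ∈ s, 0 ≤ p i) → (∀ i ∈ s, 0 ≤ a i) →
    (∀ i ∈ s, 0 ≤ b i) → (∑ i ∈ s, p i * max (b i - a i) 0) ^ 2 ≤
      C * ∑ i ∈ s, ∑ j ∈ s, p i * p j * gg W (a i) (b i) (a j) (b j)

lemma W1_CostW : CostW W1 (3 / 2) := fun s p a b hp ha hb => W1_cost s hp ha hb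

/-! ### measurability -/

lemma meas_W {W : ℝ → ℝ} (h : AW W) {f : ℝ → ℝ} (hf : Measurable f) (h0 : ∀ x, 0 ≤ f x) :
    Measurable fun x => W (f x) := by
  have hm : Monotone fun x => W (max x 0) := fun x y hxy =>
    h.mono (le_max_right _ _) (max_le_max hxy le_rfl)
  have e : (fun x => W (f x)) = fun x => (fun x => W (max x 0)) (f x) := by
    funext x
    simp only
    rw [max_eq_left (h0 x)]
  rw [e]
  exact hm.measurable.comp hf

lemma gg_nonneg (W : ℝ → ℝ) (a b a' b' : ℝ) : 0 ≤ gg W a b a' b' := le_max_left _ _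

lemma PB_gg {W : ℝ → ℝ} (h : AW W) {a b a' b' : ℝ → ℝ} (ha : PB a) (hb : PB b) (ha' : PB a')
    (hb' : PB b') : PB fun x => gg W (a x) (b x) (a' x) (b' x) := by
  obtain ⟨Bd, hB⟩ := hb.bdd
  refine ⟨?_, fun x => gg_nonneg W _ _ _ _, ⟨max 0 (W Bd), fun x => ?_⟩, fun x => ?_⟩
  · unfold gg
    exact measurable_const.max ((meas_W h (hb.meas.min hb'.meas) fun x =>
      le_min (hb.nonneg x) (hb'.nonneg x)).sub (meas_W h (ha.meas.max ha'.meas) fun x =>
      le_max_of_le_left (ha.nonneg x)))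
  · unfold gg
    refine max_le_max le_rfl ?_
    have h1 : 0 ≤ W (max (a x) (a' x)) := h.nonneg (le_max_of_le_left (ha.nonneg x))
    have h2 : W (min (b x) (b' x)) ≤ W Bd :=
      h.mono (le_min (hb.nonneg x) (hb'.nonneg x)) ((min_le_left _ _).trans (hB x))
    linarith
  · rw [ha.per, hb.per, ha'.per, hb'.per]

/-! ### the kernel -/

section ker
variable {Λ κ : Type} [Fintype Λ] [DecidableEq Λ] [Fintype κ] [DecidableEq κ]

/-- the part of a tie which is constant on the fibres -/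
noncomputable def oT : DT Λ κ → κ → ℝ → ℝ
  | .br p _ _ _ _ _ B _ => fun c x => B c (p * x)
  | _ => fun _ _ => 0

/-- the contents of a tie on its circle -/
noncomputable def vT : DT Λ κ → κ → ℝ → ℝ
  | .br _ _ r _ _ v _ _ => fun c x => sm r v c x
  | _ => fun _ _ => 0

lemma PB_oT {p : ℕ} {t : DT Λ κ} (h : t.g.Ok) (ht : isB p t = true) (c : κ) : PB (oT t c) := by
  obtain ⟨w, r, t₁, t₀, v, B, G, e⟩ := isB_eq ht
  subst e
  exact (h.2.2.col c).pB.pull p

lemma PB_vT {p : ℕ} {t : DT Λ κ} (h : t.g.Ok) (ht : isB p t = true) (c : κ) : PB (vT t c) := by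
  obtain ⟨w, r, t₁, t₀, v, B, G, e⟩ := isB_eq ht
  subst e
  exact (h.2.2.col c).PB

lemma Gm_eq {p : ℕ} {t : DT Λ κ} (h : NOk t) (ht : isB p t = true) (c : κ) (x : ℝ) :
    Gm t c x = max (vT t c x - oT t c x) 0 := by
  obtain ⟨w, r, t₁, t₀, v, B, G, e⟩ := isB_eq ht
  subst e
  have hG : ∀ c, PB (G c) := fun c => (h.2.2.2.col c).pG
  have e1 : Gm (DT.br p w r t₁ t₀ v B G) c x = G c x := by
    unfold Gm
    simp only [if_pos hG]
  have e2 : vT (DT.br p w r t₁ t₀ v B G) c x - oT (DT.br p w r t₁ t₀ v B G) c x = G c x := by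
    show sm r v c x - B c (p * x) = G c x
    rw [(TieOk.br h.1).ev c x]
    ring
  rw [e1, e2, max_eq_left ((hG c).nonneg x)]

/-- the gain kernel of two ties -/
noncomputable def kX {ι : Type} [DecidableEq ι] (ix : κ → ι) (W : ℝ → ℝ) (t t' : DT Λ κ) : ℝ :=
  I (fun x => ∑ c, ∑ c', if ix c = ix c' then
    gg W (oT t c x) (vT t c x) (oT t' c' x) (vT t' c' x) else 0)

/-- index form of a group -/
lemma sum_fin {α : Type} (g : List α) (F : α → ℝ) :
    (g.map F).sum = ∑ k : Fin g.length, F g[k.1] :=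
  (Fin.sum_univ_fun_getElem g F).symm

lemma sum_classes {ι α : Type} [Fintype ι] [DecidableEq ι] [Fintype α] (f : α → ι)
    (F : α → α → ℝ) :
    ∑ z, ∑ i ∈ Finset.univ.filter (fun i => f i = z), ∑ j ∈ Finset.univ.filter (fun j => f j = z),
      F i j = ∑ i, ∑ j, if f i = f j then F i j else 0 := by
  have e : ∀ z : ι, ∑ i ∈ Finset.univ.filter (fun i => f i = z),
      ∑ j ∈ Finset.univ.filter (fun j => f j = z), F i j =
      ∑ i ∈ Finset.univ.filter (fun i => f i = z), ∑ j, if f i = f j then F i j else 0 := by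
    intro z
    refine Finset.sum_congr rfl fun i hi => ?_
    rw [Finset.sum_filter]
    refine Finset.sum_congr rfl fun j _ => ?_
    rw [(Finset.mem_filter.1 hi).2]
    by_cases h : f j = z
    · rw [if_pos h, if_pos h.symm]
    · rw [if_neg h, if_neg (fun hh => h hh.symm)]
  rw [Finset.sum_congr rfl fun z _ => e z]
  exact Finset.sum_fiberwise Finset.univ f fun i => ∑ j, if f i = f j then F i j else 0

variable {ι : Type} [Fintype ι] [DecidableEq ι] {ix : κ → ι} {W : ℝ → ℝ} {C : ℝ} {p : ℕ}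
  {g : Gp Λ κ}

/-- pointwise cost and gain -/
lemma cost_pt (hC : CostW W C) (hw : Wg g) (hg : ∀ m ∈ g, NOk m.2)
    (hb : ∀ m ∈ g, isB p m.2 = true) (x : ℝ) :
    ∑ z, ixF ix (GmG g) z x ^ 2 ≤ C * ∑ k : Fin g.length, ∑ l : Fin g.length,
      (g[k.1]).1 * (g[l.1]).1 * ∑ c, ∑ c', if ix c = ix c' then
        gg W (oT (g[k.1]).2 c x) (vT (g[k.1]).2 c x) (oT (g[l.1]).2 c' x) (vT (g[l.1]).2 c' x)
        else 0 := by
  have hm : ∀ k : Fin g.length, g[k.1] ∈ g := fun k => List.getElem_mem _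
  set P : Fin g.length × κ → ℝ := fun i => (g[i.1.1]).1 with hP
  set a : Fin g.length × κ → ℝ := fun i => oT (g[i.1.1]).2 i.2 x with ha
  set b : Fin g.length × κ → ℝ := fun i => vT (g[i.1.1]).2 i.2 x with hbd
  have e1 : ∀ z, ixF ix (GmG g) z x =
      ∑ i ∈ Finset.univ.filter (fun i : Fin g.length × κ => ix i.2 = z),
        P i * max (b i - a i) 0 := by
    intro z
    unfold ixF
    rw [Finset.sum_filter, Finset.sum_filter, Fintype.sum_prod_type_right]
    refine Finset.sum_congr rfl fun c _ => ?_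
    by_cases h : ix c = z
    · simp only [if_pos h]
      unfold GmG
      rw [sum_fin]
      refine Finset.sum_congr rfl fun k _ => ?_
      rw [Gm_eq (hg _ (hm k)) (hb _ (hm k))]
    · simp only [if_neg h, Finset.sum_const_zero]
  have e2 : ∑ z, (∑ i ∈ Finset.univ.filter (fun i : Fin g.length × κ => ix i.2 = z),
        P i * max (b i - a i) 0) ^ 2 ≤
      ∑ z, C * ∑ i ∈ Finset.univ.filter (fun i : Fin g.length × κ => ix i.2 = z),
        ∑ j ∈ Finset.univ.filter (fun i : Fin g.length × κ => ix i.2 = z),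
        P i * P j * gg W (a i) (b i) (a j) (b j) := by
    refine Finset.sum_le_sum fun z _ => hC _ P a b (fun i _ => (hw _ (hm i.1)).1)
      (fun i _ => (PB_oT (hg _ (hm i.1)).2 (hb _ (hm i.1)) _).nonneg x)
      (fun i _ => (PB_vT (hg _ (hm i.1)).2 (hb _ (hm i.1)) _).nonneg x)
  rw [Finset.sum_congr rfl fun z _ => by rw [e1 z]]
  refine e2.trans (le_of_eq ?_)
  rw [← Finset.mul_sum, sum_classes (fun i : Fin g.length × κ => ix i.2)
    (fun i j => P i * P j * gg W (a i) (b i) (a j) (b j)), Fintype.sum_prod_type]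
  congr 1
  refine Finset.sum_congr rfl fun k _ => ?_
  have e3 : ∀ c : κ, (∑ j : Fin g.length × κ, if ix c = ix j.2 then
      P (k, c) * P j * gg W (a (k, c)) (b (k, c)) (a j) (b j) else 0) =
      ∑ l : Fin g.length, ∑ c', if ix c = ix c' then
      P (k, c) * P (l, c') * gg W (a (k, c)) (b (k, c)) (a (l, c')) (b (l, c')) else 0 := fun c =>
    Fintype.sum_prod_type _
  rw [Finset.sum_congr rfl fun c _ => e3 c, Finset.sum_comm]
  refine Finset.sum_congr rfl fun l _ => ?_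
  rw [Finset.mul_sum]
  refine Finset.sum_congr rfl fun c _ => ?_
  rw [Finset.mul_sum]
  refine Finset.sum_congr rfl fun c' _ => ?_
  split_ifs
  · rfl
  · rw [mul_zero]

lemma PB_kX (h : AW W) {t t' : DT Λ κ} (ht : t.g.Ok) (ht' : t'.g.Ok) (hb : isB p t = true)
    (hb' : isB p t' = true) : PB fun x => ∑ c, ∑ c', if ix c = ix c' then
    gg W (oT t c x) (vT t c x) (oT t' c' x) (vT t' c' x) else 0 := by
  refine PB.sum _ fun c _ => PB.sum _ fun c' _ => ?_
  split_ifs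
  · exact PB_gg h (PB_oT ht hb c) (PB_vT ht hb c) (PB_oT ht' hb' c') (PB_vT ht' hb' c')
  · exact PB.const le_rfl

/-- the kernel of a group -/
lemma ker_kX (h : AW W) (hw : Wg g) (hg : ∀ m ∈ g, NOk m.2) (hb : ∀ m ∈ g, isB p m.2 = true) :
    ker (fun _ => kX ix W) p g g = I (fun x => ∑ k : Fin g.length, ∑ l : Fin g.length,
      (g[k.1]).1 * (g[l.1]).1 * ∑ c, ∑ c', if ix c = ix c' then
        gg W (oT (g[k.1]).2 c x) (vT (g[k.1]).2 c x) (oT (g[l.1]).2 c' x) (vT (g[l.1]).2 c' x)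
        else 0) := by
  have hm : ∀ k : Fin g.length, g[k.1] ∈ g := fun k => List.getElem_mem _
  have pb : ∀ k l : Fin g.length, PB fun x => (g[k.1]).1 * (g[l.1]).1 *
      ∑ c, ∑ c', if ix c = ix c' then
        gg W (oT (g[k.1]).2 c x) (vT (g[k.1]).2 c x) (oT (g[l.1]).2 c' x) (vT (g[l.1]).2 c' x)
        else 0 := fun k l =>
    (PB_kX h (hg _ (hm k)).2 (hg _ (hm l)).2 (hb _ (hm k)) (hb _ (hm l))).smul
      (mul_nonneg (hw _ (hm k)).1 (hw _ (hm l)).1)
  rw [I_sum _ fun k _ => (PB.sum _ fun l _ => pb k l).integrableOn]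
  unfold Xfer36.ker
  rw [sum_fin]
  refine Finset.sum_congr rfl fun k _ => ?_
  rw [sum_fin, I_sum _ fun l _ => (pb k l).integrableOn]
  refine Finset.sum_congr rfl fun l _ => ?_
  rw [I_smul]
  rfl

/-- **the cost is at most the gain** -/
theorem gT_le_kX [WRel κ] (h : AW W) (hC : CostW W C) (hC0 : 0 ≤ C) (hw : Wg g) (hg : ∀ m ∈ g, NOk m.2)
    (hb : ∀ m ∈ g, isB p m.2 = true) :
    I (fun x => ∑ z, ixF ix (GmG g) z x ^ 2) ≤ C * ker (fun _ => kX ix W) p g g := by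
  have hm : ∀ k : Fin g.length, g[k.1] ∈ g := fun k => List.getElem_mem _
  rw [ker_kX h hw hg hb, ← I_smul]
  refine I_mono (PB.sum _ fun z _ => PBsq (PB_ixF (PB_GmG hw) z)).integrableOn ?_
    fun x => cost_pt hC hw hg hb x
  refine PB.integrableOn (PB.smul (PB.sum _ fun k _ => PB.sum _ fun l _ => ?_) hC0)
  exact (PB_kX h (hg _ (hm k)).2 (hg _ (hm l)).2 (hb _ (hm k)) (hb _ (hm l))).smul
    (mul_nonneg (hw _ (hm k)).1 (hw _ (hm l)).1)

/-- **the group walk** -/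
theorem GS_gT_le [WRel κ] (h : AW W) (hC : CostW W C) (hC0 : 0 ≤ C) (n p : ℕ) (hw : Wg g)
    (hg : GAll NOk g) : GS (fun _ g => I (fun x => ∑ z, ixF ix (GmG g) z x ^ 2)) n p g ≤
      C * GS (fun p g => ker (fun _ => kX ix W) p g g) n p g := by
  rw [← GS_smul]
  exact GS_monoF (fun p g hp hw hg hb => gT_le_kX h hC hC0 hw (fun m hm => (hg m hm).self) hb)
    n p g hw hg

end ker

/-! ### contexts -/

section ctx
open Crest.Agent.R4P.Cnt588 Crest.Agent.R4P.Data758 Crest.Agent.R4P.Skel189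
open Crest.Agent.R4P.Bld532 (NS All)
open Crest.Agent.R4P.Fin5 (CF)
open Crest.Agent.R4P.FinT26 Crest.Agent.R4P.TopX36

variable {N : Skel189.Num} {γ : ℝ} {p0 P₀ : ℕ}

/-- **`TgtTop` from the gains of the kernel `W`** -/
theorem tgtTop_of2 {W : ℝ → ℝ} {C : ℝ} (hW : AW W) (hC : CostW W C) (hC0 : 0 ≤ C)
    (h : ∃ a : ℝ, 0 ≤ a ∧ Ev N γ fun p0 P₀ X => CF X → ∀ j₀ : X.c.Lam,
    All (fun u τ => ∀ n, GS (fun p g => ker (fun _ => kX (ixL (X := X)) W) p g g) n
      (X.self u τ Finset.univ).p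
      [((1 : ℝ), (X.self u τ Finset.univ).t)] ≤ a * (X.mu j₀ u τ Finset.univ +
      X.mu j₀ u τ Finset.univ * X.mu j₀ u τ Finset.univ)) ⟨top X.S, 1, 1, 1⟩ X.c.t) :
    TgtTop N γ := by
  obtain ⟨a, ha, h⟩ := h
  refine tgtTop_of ⟨C * a, mul_nonneg hC0 ha, h.mono fun p0 P₀ X hh hF j₀ => ?_⟩
  exact All.mono (fun u τ hh n => by
    refine (GS_gT_le hW hC hC0 n _ hh.2.1 (GAll.one hh.2.2)).trans ?_
    rw [mul_assoc]
    exact mul_le_mul_of_nonneg_left (hh.1 n) hC0)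
    (All.and (hh hF j₀) (All.and (ctx_Wg X j₀) (ctx_NOk X j₀)))

/-- the kernel `W1` -/
theorem tgtTop_W1 (h : ∃ a : ℝ, 0 ≤ a ∧ Ev N γ fun p0 P₀ X => CF X → ∀ j₀ : X.c.Lam,
    All (fun u τ => ∀ n, GS (fun p g => ker (fun _ => kX (ixL (X := X)) W1) p g g) n
      (X.self u τ Finset.univ).p
      [((1 : ℝ), (X.self u τ Finset.univ).t)] ≤ a * (X.mu j₀ u τ Finset.univ +
      X.mu j₀ u τ Finset.univ * X.mu j₀ u τ Finset.univ)) ⟨top X.S, 1, 1, 1⟩ X.c.t) :
    TgtTop N γ := tgtTop_of2 W1_AW W1_CostW (by norm_num) h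

end ctx

end Crest.Agent.R4P.GainX36
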