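import Crest.Agent.R4.MergeGen970

/-!
# The abstract merge theorem with injections (joins) (R4P, helper10)

* `B_inj` : `B (h + x) ≤ B h + 7 n E x` (`h, x ≥ 0`, `h + x ≤ 1`).
* `B_join` : `B (x + y) ≤ B x + B y + 7 n min (E x) (E y)`.
* `GameJ` : leaf / split (+ drop) / column (general rule `Col`) / `inj` : `h` is replaced by `h + x`.
  Index: cost and injected mass.
* `gameJ_le` : cost `≤ 14 (E h + injected mass)`.
-/

set_option autoImplicit false
set_option linter.unusedVariables false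

namespace Crest.Agent.R4P.GameJ10

open Finset Crest.Agent.R4.MergeGen970
open Crest.Agent.R4.MergePot970 hiding Game game_aux game_le

variable {p : ℕ → ℝ}

/-! ### monotonicity and injection for `T`, `t`, `B` -/

lemma T_mono (hp : ∀ m, 0 < p m ∧ p m < 1) (m : ℕ) (lam : ℝ) {h z : F} (hz : ∀ c, h c ≤ z c) :
    T p m lam h ≤ T p m lam z := by
  obtain ⟨φ, h1, h2⟩ := T_max (p := p) m lam h
  rw [← h2]
  refine le_trans ?_ (le_T m lam z h1)
  apply E_mono hp
  intro c
  exact mul_le_mul_of_nonneg_right (by linarith [hz c]) (W_bd h1 c).1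

lemma T_inj (hp : ∀ m, 0 < p m ∧ p m < 1) (m : ℕ) (lam : ℝ) {h x : F} (hx : ∀ c, 0 ≤ x c) :
    T p m lam (fun c => h c + x c) ≤ T p m lam h + E p m x := by
  obtain ⟨φ, h1, h2⟩ := T_max (p := p) m lam (fun c => h c + x c)
  rw [← h2]
  have h3 := le_T (p := p) m lam h h1
  refine le_trans ?_ (add_le_add h3 (le_refl (E p m x)))
  rw [← E_add]
  apply E_mono hp
  intro c
  have := mul_le_mul_of_nonneg_left (W_bd h1 c).2 (hx c)
  show (h c + x c - lam) * φ c ≤ (h c - lam) * φ c + x c
  nlinarith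

/-- **the injection lemma** -/
lemma B_inj (hp : ∀ m, 0 < p m ∧ p m < 1) {n : ℕ} (hn : 0 < n) (m : ℕ) {h x : F}
    (hx : ∀ c, 0 ≤ x c) : B p n m (fun c => h c + x c) ≤ B p n m h + 7 * (n * E p m x) := by
  have hn' : (0 : ℝ) < n := by exact_mod_cast hn
  set z : F := fun c => h c + x c with hz
  let D : ℕ → ℝ := fun i => t p n m z i - t p n m h i
  let s : ℕ → ℝ := fun i => nu p n m z i + nu p n m h i
  let c : ℕ → ℝ := fun i => w n i * (7 - s i)
  have hD0 : ∀ i, 0 ≤ D i := fun i => sub_nonneg.2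
    (T_mono hp m (i / n) fun c => by show h c ≤ h c + x c; linarith [hx c])
  have hD1 : ∀ i, D i ≤ E p m x := by
    intro i
    have := T_inj hp m (i / n) (h := h) hx
    show T p m (i / n) z - T p m (i / n) h ≤ _
    linarith
  have hs2 : ∀ i, s i ≤ 2 := fun i => by
    have a1 := nu_le_one hp hn m z i
    have a2 := nu_le_one hp hn m h i
    show _ + _ ≤ _
    linarith
  have hcm : ∀ i, c i ≤ c (i + 1) := by
    intro i
    have hs : s (i + 1) ≤ s i := by
      have a1 := nu_anti hp hn m z i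
      have a2 := nu_anti hp hn m h i
      show _ + _ ≤ _ + _
      linarith
    show w n i * (7 - s i) ≤ w n (i + 1) * (7 - s (i + 1))
    have h3 := w_mono n i
    have h4 := w_nonneg n i
    nlinarith [mul_nonneg h4 (sub_nonneg.2 hs), mul_nonneg (sub_nonneg.2 h3)
      (sub_nonneg.2 (hs2 (i + 1)))]
  have hc0 : c 0 = 0 := by
    show w n 0 * _ = 0
    rw [w_zero, zero_mul]
  have hcn : c n ≤ 7 := by
    have h1 : w n n ≤ 1 := by
      apply div_le_one_of_le₀ le_rfl (Real.sqrt_nonneg _)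
    have h2 : 0 ≤ s n := add_nonneg (nu_nonneg hp hn m z n) (nu_nonneg hp hn m h n)
    show w n n * (7 - s n) ≤ 7
    have h3 := w_nonneg n n
    nlinarith [mul_nonneg h3 h2]
  have hdiff : B p n m z - B p n m h = n * ∑ i ∈ range n, c i * (D i - D (i + 1)) := by
    simp only [B]
    rw [← Finset.sum_sub_distrib, Finset.mul_sum]
    apply Finset.sum_congr rfl
    intro i _
    have e : n * (D i - D (i + 1)) = nu p n m z i - nu p n m h i := by
      simp only [nu, D]
      ring
    show _ = n * (w n i * (7 - (nu p n m z i + nu p n m h i)) * (D i - D (i + 1)))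
    calc _ = w n i * ((7 - (nu p n m z i + nu p n m h i)) * (nu p n m z i - nu p n m h i)) := by
          ring
      _ = _ := by rw [← e]; ring
  have hab := abel c D n
  have hsum : ∑ i ∈ range n, (c (i + 1) - c i) * D (i + 1) ≤ c n * E p m x := by
    calc ∑ i ∈ range n, (c (i + 1) - c i) * D (i + 1)
        ≤ ∑ i ∈ range n, (c (i + 1) - c i) * E p m x := by
          apply Finset.sum_le_sum
          intro i _
          exact mul_le_mul_of_nonneg_left (hD1 _) (sub_nonneg.2 (hcm i))
      _ = c n * E p m x := by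
          rw [← Finset.sum_mul, Finset.sum_range_sub, hc0, sub_zero]
  have hEx : 0 ≤ E p m x := E_nonneg hp m hx
  have hcn0 : 0 ≤ c n := by
    show 0 ≤ w n n * (7 - s n)
    exact mul_nonneg (w_nonneg n n) (by linarith [hs2 n])
  have hfin : ∑ i ∈ range n, c i * (D i - D (i + 1)) ≤ 7 * E p m x := by
    have h1 : 0 ≤ c n * D n := mul_nonneg hcn0 (hD0 n)
    have h2 : c n * E p m x ≤ 7 * E p m x := mul_le_mul_of_nonneg_right hcn hEx
    rw [hc0, zero_mul, zero_add] at hab
    linarith
  have := mul_le_mul_of_nonneg_left hfin hn'.le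
  linarith

lemma B_join (hp : ∀ m, 0 < p m ∧ p m < 1) {n : ℕ} (hn : 0 < n) (m : ℕ) {x y : F}
    (hx : ∀ c, 0 ≤ x c) (hy : ∀ c, 0 ≤ y c) :
    B p n m (fun c => x c + y c) ≤
      B p n m x + B p n m y + 7 * (n * min (E p m x) (E p m y)) := by
  have h1 := B_inj hp hn m (h := x) hy
  have h2 := B_inj hp hn m (h := y) hx
  rw [show (fun c => y c + x c) = fun c => x c + y c from funext fun c => add_comm _ _] at h2
  have h3 := B_nonneg hp hn m x
  have h4 := B_nonneg hp hn m y
  rcases min_choice (E p m x) (E p m y) with h | h <;> rw [h] <;> linarith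

/-! ### the game with injections -/

/-- `GameJ p m h c j` : some strategy collects the amount `c` from `h`, with total injected mass
`j` (averaged over the fibres of the columns) -/
inductive GameJ (p : ℕ → ℝ) : ℕ → F → ℝ → ℝ → Prop
  | leaf (m : ℕ) (h : F) : GameJ p m h 0 0
  | split {m : ℕ} {h x y : F} {a b i j : ℝ} (hs : ∀ c, x c + y c ≤ h c) (hx : ∀ c, 0 ≤ x c)
      (hy : ∀ c, 0 ≤ y c) (ga : GameJ p m x a i) (gb : GameJ p m y b j) :
      GameJ p m h (a + b) (i + j)
  | col {m : ℕ} {h : F} {k : ℕ} {u : Fin k → ℝ} {X : Fin k → F} {a j : Fin k → ℝ}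
      (H : Col (p m) h u X) (ga : ∀ i, GameJ p m (X i) (a i) (j i)) :
      GameJ p (m + 1) h (∑ i, u i * (E p m (X i) - E p (m + 1) h) ^ 2 + ∑ i, u i * a i)
        (∑ i, u i * j i)
  | inj {m : ℕ} {h x : F} {a j : ℝ} (hx : ∀ c, 0 ≤ x c) (h1 : ∀ c, h c + x c ≤ 1)
      (g : GameJ p m (fun c => h c + x c) a j) : GameJ p m h a (j + E p m x)

lemma gameJ_aux (hp : ∀ m, 0 < p m ∧ p m < 1) {m : ℕ} {h : F} {c j : ℝ} (g : GameJ p m h c j) :
    (∀ r, 0 ≤ h r) → (∀ r, h r ≤ 1) →
    ∃ N : ℝ, ∀ n : ℕ, 0 < n → n * c ≤ 2 * B p n m h + 14 * (n * j) + N := by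
  induction g with
  | leaf m h =>
    intro _ _
    refine ⟨0, fun n hn => ?_⟩
    have := B_nonneg hp hn m h
    simp only [mul_zero, add_zero]
    linarith
  | @split m h x y a b i j hs hx hy ga gb iha ihb =>
    intro h0 h1
    have hxy : ∀ c, x c + y c ≤ 1 := fun c => le_trans (hs c) (h1 c)
    obtain ⟨N1, H1⟩ := iha hx (fun c => by have := hxy c; have := hy c; linarith)
    obtain ⟨N2, H2⟩ := ihb hy (fun c => by have := hxy c; have := hx c; linarith)
    refine ⟨N1 + N2, fun n hn => ?_⟩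
    have h3 := B_split hp hn m hx hy hxy
    have h4 := H1 n hn
    have h5 := H2 n hn
    have h6 := B_mono hp hn m (x := fun c => x c + y c) (h := h)
      (fun c => add_nonneg (hx c) (hy c)) hs h1
    rw [mul_add, mul_add, mul_add]
    linarith
  | @col m h k u X a j H ga iha =>
    intro h0 h1
    choose N HN using fun i => iha i (fun r => (H.bd (hp m) h0 h1 i r).1)
      (fun r => (H.bd (hp m) h0 h1 i r).2)
    refine ⟨2 + ∑ i, u i * N i, fun n hn => ?_⟩
    have h3 := B_colG hp hn m h0 h1 H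
    have h4 : ∑ i, u i * (n * a i) ≤
        ∑ i, u i * (2 * B p n m (X i) + 14 * (n * j i) + N i) := by
      apply Finset.sum_le_sum
      intro i _
      exact mul_le_mul_of_nonneg_left (HN i n hn) (H.u0 i)
    have e1 : ∑ i, u i * (n * a i) = n * ∑ i, u i * a i := by
      rw [Finset.mul_sum]
      apply Finset.sum_congr rfl
      intro i _
      ring
    have e2 : ∑ i, u i * (2 * B p n m (X i) + 14 * (n * j i) + N i) =
        2 * ∑ i, u i * B p n m (X i) + 14 * (n * ∑ i, u i * j i) + ∑ i, u i * N i := by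
      rw [Finset.mul_sum, Finset.mul_sum, Finset.mul_sum, ← Finset.sum_add_distrib,
        ← Finset.sum_add_distrib]
      apply Finset.sum_congr rfl
      intro i _
      ring
    rw [e1, e2] at h4
    rw [mul_add]
    linarith
  | @inj m h x a j hx h1 g ih =>
    intro h0 _
    obtain ⟨N, H⟩ := ih (fun r => add_nonneg (h0 r) (hx r)) h1
    refine ⟨N, fun n hn => ?_⟩
    have h3 := B_inj hp hn m (h := h) hx
    have h4 := H n hn
    rw [mul_add, mul_add]
    linarith

/-- **the abstract merge theorem with injections** -/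
theorem gameJ_le (hp : ∀ m, 0 < p m ∧ p m < 1) {m : ℕ} {h : F} {c j : ℝ} (g : GameJ p m h c j)
    (h0 : ∀ r, 0 ≤ h r) (h1 : ∀ r, h r ≤ 1) : c ≤ 14 * (E p m h + j) := by
  obtain ⟨N, H⟩ := gameJ_aux hp g h0 h1
  by_contra hc
  push Not at hc
  obtain ⟨n, hn⟩ := exists_nat_gt (max (N / (c - 14 * (E p m h + j))) 0)
  have hn0 : 0 < n := by
    have := lt_of_le_of_lt (le_max_right _ _) hn
    exact_mod_cast this
  have hn1 := lt_of_le_of_lt (le_max_left _ _) hn
  rw [div_lt_iff₀ (by linarith)] at hn1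
  have h2 := H n hn0
  have h3 := B_le hp hn0 m h0 h1
  linarith

/-- a game without injections -/
lemma GameJ.of {m : ℕ} {h : F} {c : ℝ} (g : Game p m h c) : GameJ p m h c 0 := by
  induction g with
  | leaf m h => exact GameJ.leaf m h
  | split hs hx hy ga gb iha ihb =>
    have := GameJ.split hs hx hy iha ihb
    rwa [add_zero] at this
  | col H ga iha =>
    have := GameJ.col H iha
    simpa using this

/-- costs and injected masses are nonnegative -/
lemma gameJ_nonneg (hp : ∀ m, 0 < p m ∧ p m < 1) {m : ℕ} {h : F} {c j : ℝ}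
    (g : GameJ p m h c j) : 0 ≤ c ∧ 0 ≤ j := by
  induction g with
  | leaf m h => exact ⟨le_rfl, le_rfl⟩
  | split hs hx hy ga gb iha ihb => exact ⟨add_nonneg iha.1 ihb.1, add_nonneg iha.2 ihb.2⟩
  | col H ga iha =>
    exact ⟨add_nonneg (Finset.sum_nonneg fun i _ => mul_nonneg (H.u0 i) (sq_nonneg _))
      (Finset.sum_nonneg fun i _ => mul_nonneg (H.u0 i) (iha i).1),
      Finset.sum_nonneg fun i _ => mul_nonneg (H.u0 i) (iha i).2⟩
  | inj hx h1 g ih => exact ⟨ih.1, add_nonneg ih.2 (E_nonneg hp _ hx)⟩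

end Crest.Agent.R4P.GameJ10
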