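import Crest.Agent.R4.MergeGen970

/-!
# The abstract merge theorem in `L²`, unbounded heights (R4P, helper20)

* `game_comp` : companion function `g` (`0 ≤ g ≤ 1`, initially `1`) and Carleson-Bellman potential:
  `cost(h) + 2 f²/τ + 1568 f²/(14 τ + d) ≤ 114 E (h²/g)`, `f = E h`, `τ = E g`, `d` = cost of the
  companion game.
* `game_L2` : cost `≤ 114 * E h²` for every game with `h ≥ 0` (no bound on the heights).
* `game_add` : decomposition principle `√c ≤ √a + √b`.
* `Vs` : supremum of the costs; `Vs_split`, `Vs_col`, `Vs_le`, `Vs_add`.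
* `GameI`, `gameI_le` : the game with births, `L²` price of the births.
-/

set_option autoImplicit false

namespace Crest.Agent.R4P.GameL220

open Finset Crest.Agent.R4.MergeGen970
open Crest.Agent.R4.MergePot970 hiding Game game_aux game_le

variable {p : ℕ → ℝ}

/-! ### the perspective `f²/D` -/

/-- tangent line -/
lemma ps_ge {f D : ℝ} (hD : 0 ≤ D) (h0 : D = 0 → f = 0) (t : ℝ) :
    2 * t * f - t ^ 2 * D ≤ f ^ 2 / D := by
  rcases eq_or_lt_of_le hD with h | h
  · rw [h0 h.symm, ← h]; simp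
  · rw [le_div_iff₀ h]
    nlinarith [sq_nonneg (f - t * D)]

/-- equality at the slope `f/D` -/
lemma ps_eq {f D : ℝ} (h0 : D = 0 → f = 0) : f ^ 2 / D = 2 * (f / D) * f - (f / D) ^ 2 * D := by
  by_cases h : D = 0
  · rw [h0 h, h]; simp
  · field_simp; ring

lemma ps_nonneg {f D : ℝ} (hD : 0 ≤ D) : 0 ≤ f ^ 2 / D := div_nonneg (sq_nonneg _) hD

/-- subadditivity, two terms -/
lemma ps_add {f D f' D' : ℝ} (hD : 0 ≤ D) (hD' : 0 ≤ D') (h0 : D = 0 → f = 0)
    (h0' : D' = 0 → f' = 0) : (f + f') ^ 2 / (D + D') ≤ f ^ 2 / D + f' ^ 2 / D' := by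
  have hz : D + D' = 0 → f + f' = 0 := fun h => by
    have h1 : D = 0 := by linarith
    have h2 : D' = 0 := by linarith
    rw [h0 h1, h0' h2, add_zero]
  rw [ps_eq hz]
  set t := (f + f') / (D + D')
  have a := ps_ge hD h0 t
  have b := ps_ge hD' h0' t
  linarith

lemma ps_anti {f D D' : ℝ} (hD : 0 ≤ D) (h0 : D = 0 → f = 0) (h : D ≤ D') :
    f ^ 2 / D' ≤ f ^ 2 / D := by
  rcases eq_or_lt_of_le hD with h1 | h1
  · rw [h0 h1.symm]; simp
  · exact div_le_div_of_nonneg_left (sq_nonneg _) h1 h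

/-- subadditivity with weights -/
lemma ps_sum {k : ℕ} {u f D : Fin k → ℝ} (u0 : ∀ i, 0 ≤ u i) (hD : ∀ i, 0 ≤ D i)
    (h0 : ∀ i, D i = 0 → f i = 0) :
    (∑ i, u i * f i) ^ 2 / (∑ i, u i * D i) ≤ ∑ i, u i * (f i ^ 2 / D i) := by
  have hz : ∑ i, u i * D i = 0 → ∑ i, u i * f i = 0 := fun h => by
    have h1 := (Finset.sum_eq_zero_iff_of_nonneg fun i _ => mul_nonneg (u0 i) (hD i)).1 h
    refine Finset.sum_eq_zero fun i hi => ?_
    rcases mul_eq_zero.1 (h1 i hi) with h2 | h2
    · rw [h2, zero_mul]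
    · rw [h0 i h2, mul_zero]
  rw [ps_eq hz]
  set t := (∑ i, u i * f i) / (∑ i, u i * D i)
  have e : 2 * t * ∑ i, u i * f i - t ^ 2 * ∑ i, u i * D i =
      ∑ i, u i * (2 * t * f i - t ^ 2 * D i) := by
    rw [Finset.mul_sum, Finset.mul_sum, ← Finset.sum_sub_distrib]
    exact Finset.sum_congr rfl fun i _ => by ring
  rw [e]
  exact Finset.sum_le_sum fun i _ => mul_le_mul_of_nonneg_left (ps_ge (hD i) (h0 i) t) (u0 i)

/-! ### the column inequality for the numbers -/

lemma col_num {k : ℕ} {u f τ d : Fin k → ℝ} (u0 : ∀ i, 0 ≤ u i)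
    (ht0 : ∀ i, 0 ≤ τ i) (ht1 : ∀ i, τ i ≤ 1) (hf : ∀ i, τ i = 0 → f i = 0)
    (hd0 : ∀ i, 0 ≤ d i) {F₀ T V D₀ : ℝ} (hF : F₀ = ∑ i, u i * f i) (hT : T = ∑ i, u i * τ i)
    (hV : V = ∑ i, u i * (τ i - T) ^ 2) (hD : D₀ = V + ∑ i, u i * d i) (hD14 : D₀ ≤ 14 * T) :
    ∑ i, u i * (f i - F₀) ^ 2 + 2 * (F₀ ^ 2 / T) + 1568 * (F₀ ^ 2 / (14 * T + D₀)) ≤
      2 * ∑ i, u i * (f i ^ 2 / τ i) + 1568 * ∑ i, u i * (f i ^ 2 / (14 * τ i + d i)) := by
  have hT0 : 0 ≤ T := by rw [hT]; exact Finset.sum_nonneg fun i _ => mul_nonneg (u0 i) (ht0 i)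
  have hV0 : 0 ≤ V := by
    rw [hV]; exact Finset.sum_nonneg fun i _ => mul_nonneg (u0 i) (sq_nonneg _)
  have hz : T = 0 → F₀ = 0 := fun h => by
    rw [hT] at h
    have h1 := (Finset.sum_eq_zero_iff_of_nonneg fun i _ => mul_nonneg (u0 i) (ht0 i)).1 h
    rw [hF]
    refine Finset.sum_eq_zero fun i hi => ?_
    rcases mul_eq_zero.1 (h1 i hi) with h2 | h2
    · rw [h2, zero_mul]
    · rw [hf i h2, mul_zero]
  set t := F₀ / T with ht
  have hft : F₀ = t * T := by
    by_cases h : T = 0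
    · rw [hz h, h, mul_zero]
    · rw [ht]; field_simp
  -- step 1
  have s1 : ∑ i, u i * (f i - t * τ i) ^ 2 + F₀ ^ 2 / T ≤ ∑ i, u i * (f i ^ 2 / τ i) := by
    have e1 : F₀ ^ 2 / T = ∑ i, u i * (2 * t * f i - t ^ 2 * τ i) := by
      rw [ps_eq hz, hT, hF]
      rw [← hT, ← hF, ← ht]
      rw [hT, hF, Finset.mul_sum, Finset.mul_sum, ← Finset.sum_sub_distrib]
      exact Finset.sum_congr rfl fun i _ => by ring
    rw [e1, ← Finset.sum_add_distrib]
    refine Finset.sum_le_sum fun i _ => ?_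
    rw [← mul_add]
    refine mul_le_mul_of_nonneg_left ?_ (u0 i)
    rcases eq_or_lt_of_le (ht0 i) with h | h
    · rw [hf i h.symm, ← h]; simp
    · rw [le_div_iff₀ h]
      have h1 := ht1 i
      nlinarith [mul_nonneg (sq_nonneg (f i - t * τ i)) (sub_nonneg.2 h1)]
  -- step 2
  have s2 : F₀ ^ 2 / (14 * T + D₀) + t ^ 2 * V / 784 ≤
      ∑ i, u i * (f i ^ 2 / (14 * τ i + d i)) := by
    have h1 := ps_sum (u := u) (f := f) (D := fun i => 14 * τ i + d i) u0
      (fun i => by have := ht0 i; have := hd0 i; linarith)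
      (fun i h => hf i (by have := ht0 i; have := hd0 i; linarith))
    refine le_trans ?_ h1
    have e1 : ∑ i, u i * (14 * τ i + d i) = 14 * T + D₀ - V := by
      rw [hD, hT]
      have : ∑ i, u i * (14 * τ i + d i) = 14 * ∑ i, u i * τ i + ∑ i, u i * d i := by
        rw [Finset.mul_sum, ← Finset.sum_add_distrib]
        exact Finset.sum_congr rfl fun i _ => by ring
      rw [this]; ring
    rw [e1, ← hF]
    have hdd : V ≤ D₀ := by
      rw [hD]
      have : 0 ≤ ∑ i, u i * d i := Finset.sum_nonneg fun i _ => mul_nonneg (u0 i) (hd0 i)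
      linarith
    rcases eq_or_lt_of_le hT0 with h | h
    · have hF0 : F₀ = 0 := hz h.symm
      have ht' : t = 0 := by rw [ht, hF0, zero_div]
      rw [hF0, ht']; simp
    · have hA : 0 < 14 * T + D₀ - V := by linarith
      have hB : 0 < 14 * T + D₀ := by linarith
      have hBV : 14 * T + D₀ - V ≤ 28 * T := by linarith
      have hB28 : 14 * T + D₀ ≤ 28 * T := by linarith
      have e2 : F₀ ^ 2 / (14 * T + D₀ - V) - F₀ ^ 2 / (14 * T + D₀) =
          F₀ ^ 2 * V / ((14 * T + D₀ - V) * (14 * T + D₀)) := by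
        field_simp
        ring
      have e3 : F₀ ^ 2 * V / ((28 * T) * (28 * T)) ≤
          F₀ ^ 2 * V / ((14 * T + D₀ - V) * (14 * T + D₀)) := by
        apply div_le_div_of_nonneg_left (mul_nonneg (sq_nonneg _) hV0) (mul_pos hA hB)
        exact mul_le_mul hBV hB28 hB.le (by linarith)
      have e4 : F₀ ^ 2 * V / ((28 * T) * (28 * T)) = t ^ 2 * V / 784 := by
        rw [hft]
        field_simp
        ring
      linarith
  -- step 3
  have s3 : ∑ i, u i * (f i - F₀) ^ 2 ≤
      2 * ∑ i, u i * (f i - t * τ i) ^ 2 + 2 * t ^ 2 * V := by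
    rw [hV, Finset.mul_sum, Finset.mul_sum, ← Finset.sum_add_distrib]
    refine Finset.sum_le_sum fun i _ => ?_
    have e : 2 * (u i * (f i - t * τ i) ^ 2) + 2 * t ^ 2 * (u i * (τ i - T) ^ 2) =
        u i * (2 * (f i - t * τ i) ^ 2 + 2 * (t * (τ i - T)) ^ 2) := by ring
    rw [e]
    refine mul_le_mul_of_nonneg_left ?_ (u0 i)
    have : f i - F₀ = (f i - t * τ i) + t * (τ i - T) := by rw [hft]; ring
    rw [this]
    nlinarith [sq_nonneg ((f i - t * τ i) - t * (τ i - T))]
  linarith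

/-! ### the column inequality at one configuration -/

/-- the companion excess -/
noncomputable def dg (a b ga gb Δ : ℝ) : ℝ :=
  if b < a ∧ gb < ga then Δ / (a - b) * (ga - gb) else 0

lemma dg_nonneg {a b ga gb Δ : ℝ} (h : 0 ≤ Δ) : 0 ≤ dg a b ga gb Δ := by
  unfold dg
  split_ifs with hc
  · exact mul_nonneg (div_nonneg h (by linarith [hc.1])) (by linarith [hc.2])
  · exact le_rfl

lemma dg_le {a b ga gb Δ : ℝ} (h1 : Δ ≤ max (a - b) 0) :
    dg a b ga gb Δ ≤ max (ga - gb) 0 := by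
  unfold dg
  split_ifs with hc
  · have hab : 0 < a - b := by linarith [hc.1]
    rw [max_eq_left hab.le] at h1
    refine le_max_of_le_left ?_
    have : Δ / (a - b) ≤ 1 := by rw [div_le_one hab]; exact h1
    have h2 : 0 ≤ ga - gb := by linarith [hc.2]
    nlinarith
  · exact le_max_right _ _

lemma col_pt {k : ℕ} {u s : Fin k → ℝ} {q a b ga gb Δ : ℝ} (hq : 0 < q ∧ q < 1)
    (u0 : ∀ i, 0 ≤ u i) (u1 : ∑ i, u i = 1) (hs : ∀ i, 0 ≤ s i ∧ s i ≤ 1)
    (hsu : ∑ i, u i * s i = 1 - q) (ha : 0 ≤ a) (hb : 0 ≤ b) (hga : 0 ≤ ga) (hgb : 0 ≤ gb)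
    (h0a : ga = 0 → a = 0) (h0b : gb = 0 → b = 0) (hΔ0 : 0 ≤ Δ) (hΔ1 : Δ ≤ max (a - b) 0) :
    ∑ i, u i * (((1 - q) * a + q * b + (s i - (1 - q)) * Δ) ^ 2 /
      ((1 - q) * ga + q * gb + (s i - (1 - q)) * dg a b ga gb Δ)) ≤
      (1 - q) * (a ^ 2 / ga) + q * (b ^ 2 / gb) := by
  have hq1 : 0 ≤ 1 - q := by linarith [hq.2]
  -- the perspective with weights `α, β`
  have key : ∀ α β : ℝ, 0 ≤ α → 0 ≤ β → (α * a + β * b) ^ 2 / (α * ga + β * gb) ≤
      α * (a ^ 2 / ga) + β * (b ^ 2 / gb) := by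
    intro α β hα hβ
    have hz : α * ga + β * gb = 0 → α * a + β * b = 0 := fun h => by
      have h1 : α * ga = 0 := by nlinarith [mul_nonneg hα hga, mul_nonneg hβ hgb]
      have h2 : β * gb = 0 := by nlinarith [mul_nonneg hα hga, mul_nonneg hβ hgb]
      have h3 : α * a = 0 := by
        rcases mul_eq_zero.1 h1 with h | h
        · rw [h, zero_mul]
        · rw [h0a h, mul_zero]
      have h4 : β * b = 0 := by
        rcases mul_eq_zero.1 h2 with h | h
        · rw [h, zero_mul]
        · rw [h0b h, mul_zero]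
      rw [h3, h4, add_zero]
    rw [ps_eq hz]
    set t := (α * a + β * b) / (α * ga + β * gb)
    have h1 := mul_le_mul_of_nonneg_left (ps_ge hga h0a t) hα
    have h2 := mul_le_mul_of_nonneg_left (ps_ge hgb h0b t) hβ
    nlinarith
  -- weights
  have hδ : ∀ δ : ℝ, 0 ≤ δ → δ ≤ 1 → ∀ i, 0 ≤ (1 - q) + (s i - (1 - q)) * δ ∧
      0 ≤ q - (s i - (1 - q)) * δ := by
    intro δ h0 h1 i
    obtain ⟨c0, c1⟩ := hs i
    constructor <;> nlinarith [mul_nonneg c0 h0, mul_nonneg (sub_nonneg.2 c1) h0,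
      mul_nonneg hq1 (sub_nonneg.2 h1), mul_nonneg hq.1.le (sub_nonneg.2 h1)]
  have hsum : ∀ δ A B : ℝ, ∑ i, u i * (((1 - q) + (s i - (1 - q)) * δ) * A +
      (q - (s i - (1 - q)) * δ) * B) = (1 - q) * A + q * B := by
    intro δ A B
    have e : ∀ i, u i * (((1 - q) + (s i - (1 - q)) * δ) * A + (q - (s i - (1 - q)) * δ) * B) =
        u i * ((1 - q) * A + q * B - (1 - q) * δ * (A - B)) + (u i * s i) * (δ * (A - B)) := by
      intro i; ring
    rw [Finset.sum_congr rfl fun i _ => e i, Finset.sum_add_distrib, ← Finset.sum_mul,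
      ← Finset.sum_mul, u1, hsu]
    ring
  by_cases hab : b < a
  · have hab' : 0 < a - b := by linarith
    rw [max_eq_left hab'.le] at hΔ1
    set δ := Δ / (a - b) with hδd
    have hδ0 : 0 ≤ δ := div_nonneg hΔ0 hab'.le
    have hδ1 : δ ≤ 1 := by rw [hδd, div_le_one hab']; exact hΔ1
    have hΔ : Δ = δ * (a - b) := by rw [hδd]; field_simp
    have eX : ∀ i, (1 - q) * a + q * b + (s i - (1 - q)) * Δ =
        ((1 - q) + (s i - (1 - q)) * δ) * a + (q - (s i - (1 - q)) * δ) * b := by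
      intro i; rw [hΔ]; ring
    by_cases hg : gb < ga
    · have eG : ∀ i, (1 - q) * ga + q * gb + (s i - (1 - q)) * dg a b ga gb Δ =
          ((1 - q) + (s i - (1 - q)) * δ) * ga + (q - (s i - (1 - q)) * δ) * gb := by
        intro i
        unfold dg
        rw [if_pos ⟨hab, hg⟩]
        ring
      rw [← hsum δ (a ^ 2 / ga) (b ^ 2 / gb)]
      refine Finset.sum_le_sum fun i _ => ?_
      rw [eX i, eG i]
      exact mul_le_mul_of_nonneg_left (key _ _ (hδ δ hδ0 hδ1 i).1 (hδ δ hδ0 hδ1 i).2) (u0 i)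
    · push Not at hg
      have ha' : 0 < a := by linarith
      have hga' : 0 < ga := lt_of_le_of_ne hga fun h => by
        have := h0a h.symm; linarith
      have hgb' : 0 < gb := by linarith
      set G := (1 - q) * ga + q * gb with hG
      have hG0 : 0 < G := by
        have := mul_nonneg hq1 hga
        have := mul_pos hq.1 hgb'
        linarith
      have eG : ∀ i, G + (s i - (1 - q)) * dg a b ga gb Δ = G := by
        intro i
        unfold dg
        rw [if_neg (fun hc => by linarith [hc.2]), mul_zero, add_zero]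
      have h1 : ∑ i, u i * (((1 - q) * a + q * b + (s i - (1 - q)) * Δ) ^ 2 / G) ≤
          ((1 - q) * a ^ 2 + q * b ^ 2) / G := by
        rw [← hsum δ (a ^ 2) (b ^ 2), Finset.sum_div]
        refine Finset.sum_le_sum fun i _ => ?_
        rw [mul_div_assoc]
        refine mul_le_mul_of_nonneg_left ?_ (u0 i)
        apply div_le_div_of_nonneg_right _ hG0.le
        rw [eX i]
        obtain ⟨c0, c1⟩ := hδ δ hδ0 hδ1 i
        have c2 : ((1 - q) + (s i - (1 - q)) * δ) + (q - (s i - (1 - q)) * δ) = 1 := by ring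
        set α := (1 - q) + (s i - (1 - q)) * δ
        set β := q - (s i - (1 - q)) * δ
        have hαβ := mul_nonneg c0 c1
        have : α * a ^ 2 + β * b ^ 2 - (α * a + β * b) ^ 2 = α * β * (a - b) ^ 2 := by
          have hβ : β = 1 - α := by linarith
          rw [hβ]; ring
        nlinarith [mul_nonneg hαβ (sq_nonneg (a - b))]
      simp only [eG]
      refine h1.trans ?_
      rw [div_le_iff₀ hG0]
      set A := a ^ 2 / ga with hA
      set B := b ^ 2 / gb with hB
      have eA : a ^ 2 = A * ga := by rw [hA]; field_simp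
      have eB : b ^ 2 = B * gb := by rw [hB]; field_simp
      have hAB : B ≤ A := by
        rw [hA, hB]
        apply div_le_div₀ (sq_nonneg _) _ hga' hg
        nlinarith
      rw [eA, eB, hG]
      have hw : 0 ≤ (1 - q) * q := mul_nonneg hq1 hq.1.le
      have := mul_nonneg hw (mul_nonneg (sub_nonneg.2 hg) (sub_nonneg.2 hAB))
      nlinarith [this]
  · have hab' : a - b ≤ 0 := by push Not at hab; linarith
    rw [max_eq_right hab'] at hΔ1
    have hΔ : Δ = 0 := le_antisymm hΔ1 hΔ0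
    have eG : dg a b ga gb Δ = 0 := by
      unfold dg
      rw [if_neg fun hc => hab hc.1]
    rw [hΔ] at eG ⊢
    simp only [eG, mul_zero, add_zero]
    rw [← Finset.sum_mul, u1, one_mul]
    exact key _ _ hq1 hq.1.le

/-! ### the companion -/

/-- admissible pair (content, companion) -/
structure Adm (h g : F) : Prop where
  h0 : ∀ c, 0 ≤ h c
  g0 : ∀ c, 0 ≤ g c
  g1 : ∀ c, g c ≤ 1
  z : ∀ c, g c = 0 → h c = 0

lemma cs (hp : ∀ m, 0 < p m ∧ p m < 1) (m : ℕ) {h g : F} (H : Adm h g) (t : ℝ) :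
    2 * t * E p m h - t ^ 2 * E p m g ≤ E p m (fun c => h c ^ 2 / g c) := by
  rw [← E_smul, ← E_smul, ← E_sub]
  exact E_mono hp m fun c => ps_ge (H.g0 c) (H.z c) t

lemma Ez (hp : ∀ m, 0 < p m ∧ p m < 1) (m : ℕ) {h g : F} (H : Adm h g) :
    E p m g = 0 → E p m h = 0 := by
  intro h0
  by_contra hne
  have hpos : 0 < E p m h := lt_of_le_of_ne (E_nonneg hp m H.h0) (Ne.symm hne)
  have h1 := cs hp m H ((E p m (fun c => h c ^ 2 / g c) + 1) / (2 * E p m h))
  rw [h0, mul_zero, sub_zero] at h1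
  have : 2 * ((E p m (fun c => h c ^ 2 / g c) + 1) / (2 * E p m h)) * E p m h =
      E p m (fun c => h c ^ 2 / g c) + 1 := by
    field_simp
  linarith

lemma cs_div (hp : ∀ m, 0 < p m ∧ p m < 1) (m : ℕ) {h g : F} (H : Adm h g) :
    E p m h ^ 2 / E p m g ≤ E p m (fun c => h c ^ 2 / g c) := by
  rw [ps_eq (Ez hp m H)]
  exact cs hp m H _

/-- the bound for a leaf -/
lemma leaf_le (hp : ∀ m, 0 < p m ∧ p m < 1) (m : ℕ) {h g : F} (H : Adm h g) :
    2 * (E p m h ^ 2 / E p m g) + 1568 * (E p m h ^ 2 / (14 * E p m g)) ≤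
      114 * E p m (fun c => h c ^ 2 / g c) := by
  have h1 := cs_div hp m H
  have h2 : E p m h ^ 2 / (14 * E p m g) = (E p m h ^ 2 / E p m g) / 14 := by
    rw [mul_comm, div_mul_eq_div_div]
  rw [h2]
  linarith

/-- the pair of a part -/
lemma Adm.part {h g x : F} (H : Adm h g) (hx : ∀ c, 0 ≤ x c) (hxh : ∀ c, x c ≤ h c) :
    Adm x (fun c => g c * (x c / h c)) := by
  have hr : ∀ c, 0 ≤ x c / h c ∧ x c / h c ≤ 1 := by
    intro c
    refine ⟨div_nonneg (hx c) (H.h0 c), ?_⟩
    rcases eq_or_lt_of_le (H.h0 c) with h | h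
    · rw [← h]; simp
    · rw [div_le_one h]; exact hxh c
  refine ⟨hx, fun c => mul_nonneg (H.g0 c) (hr c).1, fun c => ?_, fun c hc => ?_⟩
  · have := mul_le_mul (H.g1 c) (hr c).2 (hr c).1 zero_le_one
    linarith
  · rcases mul_eq_zero.1 hc with h | h
    · have := H.z c h
      exact le_antisymm (by rw [← this]; exact hxh c) (hx c)
    · rcases div_eq_zero_iff.1 h with h | h
      · exact h
      · exact le_antisymm (by rw [← h]; exact hxh c) (hx c)

lemma part_sq {h g x : ℝ} (hx : 0 ≤ x) (hxh : x ≤ h) (hz : g = 0 → h = 0) :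
    x ^ 2 / (g * (x / h)) = x * h / g := by
  by_cases h0 : h = 0
  · have : x = 0 := le_antisymm (by rw [← h0]; exact hxh) hx
    rw [this, h0]; simp
  by_cases x0 : x = 0
  · rw [x0]; simp
  have g0 : g ≠ 0 := fun hg => h0 (hz hg)
  field_simp

lemma Col_nn {q : ℝ} (hq : 0 < q ∧ q < 1) {h : F} {k : ℕ} {u : Fin k → ℝ} {X : Fin k → F}
    (H : Col q h u X) (h0 : ∀ c, 0 ≤ h c) (i : Fin k) (r : List Bool) : 0 ≤ X i r := by
  obtain ⟨s, Δ, hs, hsu, hΔ0, hΔ1, hX⟩ := H.rule r
  rw [hX i]
  have a0 := h0 (false :: r)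
  have b0 := h0 (true :: r)
  obtain ⟨s0, s1⟩ := hs i
  simp only [av]
  set a := h (false :: r)
  set b := h (true :: r)
  have q1 : 0 ≤ 1 - q := by linarith [hq.2]
  rcases le_total a b with hab | hab
  · have hz : Δ = 0 := by
      rw [max_eq_right (by linarith)] at hΔ1
      linarith
    rw [hz]
    have := mul_nonneg q1 a0
    have := mul_nonneg hq.1.le b0
    linarith
  · rw [max_eq_left (by linarith)] at hΔ1
    have e1 : (1 - q) * Δ ≤ (1 - q) * (a - b) := mul_le_mul_of_nonneg_left hΔ1 q1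
    have e2 : 0 ≤ s i * Δ := mul_nonneg s0 hΔ0
    nlinarith

/-- the column of the companion -/
lemma Col_comp {q : ℝ} (hq : 0 < q ∧ q < 1) {h g : F} {k : ℕ} {u : Fin k → ℝ} {X : Fin k → F}
    (H : Col q h u X) (A : Adm h g) : ∃ Y : Fin k → F, Col q g u Y ∧ (∀ i, Adm (X i) (Y i)) ∧
      ∀ r, ∑ i, u i * (X i r ^ 2 / Y i r) ≤ av q (fun c => h c ^ 2 / g c) r := by
  classical
  have hnn := Col_nn hq H A.h0
  choose s Δ hs hsu hΔ0 hΔ1 hX using H.rule
  let D : List Bool → ℝ := fun r =>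
    dg (h (false :: r)) (h (true :: r)) (g (false :: r)) (g (true :: r)) (Δ r)
  let Y : Fin k → F := fun i r => av q g r + (s r i - (1 - q)) * D r
  have hY : Col q g u Y := ⟨H.u0, H.u1, fun r => ⟨s r, D r, hs r, hsu r, dg_nonneg (hΔ0 r),
    dg_le (hΔ1 r), fun i => rfl⟩⟩
  have q1 : 0 ≤ 1 - q := by linarith [hq.2]
  refine ⟨Y, hY, fun i => ⟨fun r => hnn i r, fun r => (hY.bd hq A.g0 A.g1 i r).1,
    fun r => (hY.bd hq A.g0 A.g1 i r).2, fun r hr => ?_⟩, fun r => ?_⟩
  · -- support
    have a0 := A.h0 (false :: r)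
    have b0 := A.h0 (true :: r)
    have ga0 := A.g0 (false :: r)
    have gb0 := A.g0 (true :: r)
    have za := A.z (false :: r)
    have zb := A.z (true :: r)
    have hr' : (1 - q) * g (false :: r) + q * g (true :: r) + (s r i - (1 - q)) *
      dg (h (false :: r)) (h (true :: r)) (g (false :: r)) (g (true :: r)) (Δ r) = 0 := hr
    rw [hX r i]
    show (1 - q) * h (false :: r) + q * h (true :: r) + (s r i - (1 - q)) * Δ r = 0
    obtain ⟨c0, c1⟩ := hs r i
    have d0 := hΔ0 r
    have d1 := hΔ1 r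
    set a := h (false :: r)
    set b := h (true :: r)
    set ga := g (false :: r)
    set gb := g (true :: r)
    by_cases hc : b < a ∧ gb < ga
    · have hab' : 0 < a - b := by linarith [hc.1]
      rw [max_eq_left hab'.le] at d1
      set δ := Δ r / (a - b) with hδd
      have hδ0 : 0 ≤ δ := div_nonneg d0 hab'.le
      have hδ1 : δ ≤ 1 := by rw [hδd, div_le_one hab']; exact d1
      have hΔ : Δ r = δ * (a - b) := by rw [hδd]; field_simp
      have eD : dg a b ga gb (Δ r) = δ * (ga - gb) := by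
        unfold dg
        rw [if_pos hc]
      rw [eD] at hr'
      rw [hΔ]
      have w1 : 0 ≤ (1 - q) + (s r i - (1 - q)) * δ := by
        nlinarith [mul_nonneg c0 hδ0, mul_nonneg q1 (sub_nonneg.2 hδ1)]
      have w2 : 0 ≤ q - (s r i - (1 - q)) * δ := by
        nlinarith [mul_nonneg (sub_nonneg.2 c1) hδ0, mul_nonneg hq.1.le (sub_nonneg.2 hδ1)]
      have hga' : 0 < ga := by linarith [hc.2]
      have e1 : ((1 - q) + (s r i - (1 - q)) * δ) * ga + (q - (s r i - (1 - q)) * δ) * gb = 0 := by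
        linarith
      have z1 : ((1 - q) + (s r i - (1 - q)) * δ) * ga = 0 := by
        nlinarith [mul_nonneg w1 ga0, mul_nonneg w2 gb0]
      have z2 : (1 - q) + (s r i - (1 - q)) * δ = 0 := by
        rcases mul_eq_zero.1 z1 with h | h
        · exact h
        · exact absurd h hga'.ne'
      have z3 : (q - (s r i - (1 - q)) * δ) * gb = 0 := by
        rw [z2] at e1; linarith
      have z4 : q - (s r i - (1 - q)) * δ = 1 := by linarith
      rw [z4, one_mul] at z3
      have z5 := zb z3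
      have : (1 - q) * a + q * b + (s r i - (1 - q)) * (δ * (a - b)) =
        ((1 - q) + (s r i - (1 - q)) * δ) * a + (q - (s r i - (1 - q)) * δ) * b := by ring
      rw [this, z2, z5]; ring
    · have eD : dg a b ga gb (Δ r) = 0 := by
        unfold dg
        rw [if_neg hc]
      rw [eD, mul_zero, add_zero] at hr'
      have m1 := mul_nonneg q1 ga0
      have m2 := mul_nonneg hq.1.le gb0
      have z1 : ga = 0 := by
        have : (1 - q) * ga = 0 := by linarith
        rcases mul_eq_zero.1 this with h | h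
        · linarith [hq.2]
        · exact h
      have z2 : gb = 0 := by
        have : q * gb = 0 := by linarith
        rcases mul_eq_zero.1 this with h | h
        · linarith [hq.1]
        · exact h
      have z3 := za z1
      have z4 := zb z2
      rw [z3, z4, sub_zero, max_self] at d1
      have z5 : Δ r = 0 := le_antisymm d1 d0
      rw [z3, z4, z5]; ring
  · have h1 := col_pt (s := s r) hq H.u0 H.u1 (hs r) (hsu r) (A.h0 (false :: r))
      (A.h0 (true :: r)) (A.g0 (false :: r)) (A.g0 (true :: r)) (A.z _) (A.z _) (hΔ0 r) (hΔ1 r)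
    refine le_trans (le_of_eq ?_) h1
    refine Finset.sum_congr rfl fun i _ => ?_
    rw [hX r i]
    rfl

/-- **the companion theorem** -/
theorem game_comp (hp : ∀ m, 0 < p m ∧ p m < 1) {m : ℕ} {h : F} {c : ℝ} (G : Game p m h c) :
    ∀ g, Adm h g → ∃ d, Game p m g d ∧ 0 ≤ d ∧
      c + 2 * (E p m h ^ 2 / E p m g) + 1568 * (E p m h ^ 2 / (14 * E p m g + d)) ≤
        114 * E p m (fun c => h c ^ 2 / g c) := by
  induction G with
  | leaf m h =>
    intro g A
    refine ⟨0, Game.leaf m g, le_rfl, ?_⟩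
    have := leaf_le hp m A
    rw [add_zero]
    linarith
  | @split m h x y a b hs hx hy ga gb iha ihb =>
    intro g A
    have hxh : ∀ c, x c ≤ h c := fun c => by have := hs c; have := hy c; linarith
    have hyh : ∀ c, y c ≤ h c := fun c => by have := hs c; have := hx c; linarith
    have hzh : ∀ c, h c - x c - y c ≤ h c := fun c => by
      have := hx c; have := hy c; linarith
    have hz0 : ∀ c, 0 ≤ h c - x c - y c := fun c => by have := hs c; linarith
    obtain ⟨d1, G1, D1, I1⟩ := iha _ (A.part hx hxh)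
    obtain ⟨d2, G2, D2, I2⟩ := ihb _ (A.part hy hyh)
    have A3 := A.part (x := fun c => h c - x c - y c) hz0 hzh
    have I3 := leaf_le hp m A3
    have hg3 : ∀ c, g c * (x c / h c) + g c * (y c / h c) + g c * ((h c - x c - y c) / h c) ≤
        g c := by
      intro c
      by_cases h0 : h c = 0
      · rw [h0]; simp; exact A.g0 c
      · apply le_of_eq
        field_simp
        ring
    have hg2 : ∀ c, g c * (x c / h c) + g c * (y c / h c) ≤ g c := fun c => by
      have := hg3 c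
      have h4 : 0 ≤ g c * ((h c - x c - y c) / h c) := A3.g0 c
      linarith
    refine ⟨d1 + d2, Game.split hg2 (A.part hx hxh).g0 (A.part hy hyh).g0 G1 G2,
      add_nonneg D1 D2, ?_⟩
    have A1 := A.part hx hxh
    have A2 := A.part hy hyh
    set g1 : F := fun c => g c * (x c / h c) with hg1d
    set g2 : F := fun c => g c * (y c / h c) with hg2d
    set z : F := fun c => h c - x c - y c with hzd
    set g3 : F := fun c => g c * (z c / h c) with hg3d
    -- expectations
    have eh : E p m h = E p m x + E p m y + E p m z := by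
      rw [← E_add, ← E_add]
      congr 1
      funext c
      rw [hzd]; ring
    have eg : E p m g1 + E p m g2 + E p m g3 ≤ E p m g := by
      rw [← E_add, ← E_add]
      exact E_mono hp m hg3
    have eQ : E p m (fun c => x c ^ 2 / g1 c) + E p m (fun c => y c ^ 2 / g2 c) +
        E p m (fun c => z c ^ 2 / g3 c) = E p m (fun c => h c ^ 2 / g c) := by
      rw [← E_add, ← E_add]
      congr 1
      funext c
      rw [part_sq (hx c) (hxh c) (A.z c), part_sq (hy c) (hyh c) (A.z c),
        part_sq (hz0 c) (hzh c) (A.z c)]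
      by_cases h0 : g c = 0
      · rw [h0]; simp
      · field_simp; ring
    have t1 := E_nonneg hp m A1.g0
    have t2 := E_nonneg hp m A2.g0
    have t3 := E_nonneg hp m A3.g0
    have z1 := Ez hp m A1
    have z2 := Ez hp m A2
    have z3 := Ez hp m A3
    have zz : E p m g1 + E p m g2 + E p m g3 = 0 → E p m h = 0 := fun h0 => by
      rw [eh, z1 (by linarith), z2 (by linarith), z3 (by linarith)]; ring
    have P1 : E p m h ^ 2 / E p m g ≤ E p m x ^ 2 / E p m g1 + E p m y ^ 2 / E p m g2 +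
        E p m z ^ 2 / E p m g3 := by
      refine (ps_anti (by linarith) zz eg).trans ?_
      rw [eh]
      refine (ps_add (by linarith) t3 (fun h0 => ?_) z3).trans
        (add_le_add (ps_add t1 t2 z1 z2) le_rfl)
      rw [z1 (by linarith), z2 (by linarith), add_zero]
    have P2 : E p m h ^ 2 / (14 * E p m g + (d1 + d2)) ≤ E p m x ^ 2 / (14 * E p m g1 + d1) +
        E p m y ^ 2 / (14 * E p m g2 + d2) + E p m z ^ 2 / (14 * E p m g3) := by
      have s1 : E p m h ^ 2 / (14 * E p m g + (d1 + d2)) ≤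
          E p m h ^ 2 / ((14 * E p m g1 + d1) + (14 * E p m g2 + d2) + 14 * E p m g3) :=
        ps_anti (by linarith) (fun h0 => zz (by linarith)) (by linarith)
      refine s1.trans ?_
      rw [eh]
      refine (ps_add (by linarith) (by linarith) (fun h0 => ?_) (fun h0 => z3 (by linarith))).trans
        (add_le_add (ps_add (by linarith) (by linarith) (fun h0 => z1 (by linarith))
          (fun h0 => z2 (by linarith))) le_rfl)
      rw [z1 (by linarith), z2 (by linarith), add_zero]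
    rw [← eQ]
    linarith
  | @col m h k u X a H ga iha =>
    intro g A
    obtain ⟨Y, HY, AY, hQ⟩ := Col_comp (hp m) H A
    choose d hG hd0 hI using fun i => iha i (Y i) (AY i)
    have GY := Game.col HY hG
    have hle := game_le hp GY A.g0 A.g1
    refine ⟨_, GY, ?_, ?_⟩
    · exact add_nonneg (Finset.sum_nonneg fun i _ => mul_nonneg (H.u0 i) (sq_nonneg _))
        (Finset.sum_nonneg fun i _ => mul_nonneg (H.u0 i) (hd0 i))
    have eF := E_Col (p := p) m H
    have eT := E_Col (p := p) m HY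
    have N := col_num (u := u) (f := fun i => E p m (X i)) (τ := fun i => E p m (Y i)) (d := d)
      H.u0 (fun i => E_nonneg hp m (AY i).g0)
      (fun i => by
        have := E_mono hp m (f := Y i) (g := fun _ => 1) (AY i).g1
        rwa [E_const] at this)
      (fun i => Ez hp m (AY i)) hd0 (F₀ := E p (m + 1) h) (T := E p (m + 1) g) eF.symm eT.symm
      rfl rfl hle
    -- the second moments
    have hQ' : ∑ i, u i * E p m (fun c => X i c ^ 2 / Y i c) ≤
        E p (m + 1) (fun c => h c ^ 2 / g c) := by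
      rw [← E_sum]
      show _ ≤ E p m (av (p m) fun c => h c ^ 2 / g c)
      exact E_mono hp m hQ
    have hS : ∑ i, u i * (a i + 2 * (E p m (X i) ^ 2 / E p m (Y i)) +
        1568 * (E p m (X i) ^ 2 / (14 * E p m (Y i) + d i))) ≤
        ∑ i, u i * (114 * E p m (fun c => X i c ^ 2 / Y i c)) :=
      Finset.sum_le_sum fun i _ => mul_le_mul_of_nonneg_left (hI i) (H.u0 i)
    have e1 : ∑ i, u i * (a i + 2 * (E p m (X i) ^ 2 / E p m (Y i)) +
        1568 * (E p m (X i) ^ 2 / (14 * E p m (Y i) + d i))) = ∑ i, u i * a i +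
        2 * ∑ i, u i * (E p m (X i) ^ 2 / E p m (Y i)) +
        1568 * ∑ i, u i * (E p m (X i) ^ 2 / (14 * E p m (Y i) + d i)) := by
      rw [Finset.mul_sum, Finset.mul_sum, ← Finset.sum_add_distrib, ← Finset.sum_add_distrib]
      exact Finset.sum_congr rfl fun i _ => by ring
    have e2 : ∑ i, u i * (114 * E p m (fun c => X i c ^ 2 / Y i c)) =
        114 * ∑ i, u i * E p m (fun c => X i c ^ 2 / Y i c) := by
      rw [Finset.mul_sum]
      exact Finset.sum_congr rfl fun i _ => by ring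
    rw [e1, e2] at hS
    linarith

/-- **the abstract merge theorem in `L²`**, unbounded heights -/
theorem game_L2 (hp : ∀ m, 0 < p m ∧ p m < 1) {m : ℕ} {h : F} {c : ℝ} (G : Game p m h c)
    (h0 : ∀ r, 0 ≤ h r) : c ≤ 114 * E p m (fun r => h r ^ 2) := by
  have A : Adm h (fun _ => 1) := ⟨h0, fun _ => zero_le_one, fun _ => le_rfl,
    fun _ h => absurd h one_ne_zero⟩
  obtain ⟨d, G1, d0, I⟩ := game_comp hp G _ A
  have e : (fun c => h c ^ 2 / (1 : ℝ)) = fun c => h c ^ 2 := by funext c; rw [div_one]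
  rw [e] at I
  have i1 : 0 ≤ E p m h ^ 2 / E p m (fun _ => 1) :=
    ps_nonneg (E_nonneg hp m fun _ => zero_le_one)
  have i2 : 0 ≤ E p m h ^ 2 / (14 * E p m (fun _ => 1) + d) :=
    ps_nonneg (by have := E_nonneg hp m (f := fun _ => (1:ℝ)) fun _ => zero_le_one; linarith)
  linarith

end Crest.Agent.R4P.GameL220
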