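import Crest.Agent.R4.MergeGen970

/-!
# The abstract merge theorem for unbounded class functions (R4P, helper31)

`Game` of MergeGen970 (leaf, split, column).  `game_le` needs `h ≤ 1`.

* `game_add` : a game of `h = h₁ + h₂` splits into games of `h₁`, `h₂`; `√c ≤ √c₁ + √c₂` (Minkowski).
* `game_scale` : `h ≤ M` : `c ≤ 14 M E h`.
* `game_layers` : `√c ≤ ∑ √(14 M_k E h_k)` for `h = ∑ h_k`, `h_k ≤ M_k`.
* `game_mom` : `c ≤ C (E h + E h^(2+ε))` for bounded `h`, constant independent of the bound.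
-/

set_option autoImplicit false
set_option linter.unusedVariables false

namespace Crest.Agent.R4P.GameL31

open Finset Crest.Agent.R4.MergeGen970
open Crest.Agent.R4.MergePot970 hiding Game

variable {p : ℕ → ℝ}

/-! ### Minkowski -/

lemma sqrt_add_sq {a b a₁ a₂ b₁ b₂ : ℝ} (ha₁ : 0 ≤ a₁) (ha₂ : 0 ≤ a₂) (hb₁ : 0 ≤ b₁) (hb₂ : 0 ≤ b₂)
    (ha : a ≤ (a₁ + a₂) ^ 2) (hb : b ≤ (b₁ + b₂) ^ 2) :
    a + b ≤ (Real.sqrt (a₁ ^ 2 + b₁ ^ 2) + Real.sqrt (a₂ ^ 2 + b₂ ^ 2)) ^ 2 := by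
  have h1 := Real.sq_sqrt (show 0 ≤ a₁ ^ 2 + b₁ ^ 2 by positivity)
  have h2 := Real.sq_sqrt (show 0 ≤ a₂ ^ 2 + b₂ ^ 2 by positivity)
  have h3 : a₁ * a₂ + b₁ * b₂ ≤ Real.sqrt (a₁ ^ 2 + b₁ ^ 2) * Real.sqrt (a₂ ^ 2 + b₂ ^ 2) := by
    rw [← Real.sqrt_mul (by positivity)]
    refine Real.le_sqrt_of_sq_le ?_
    nlinarith [sq_nonneg (a₁ * b₂ - a₂ * b₁)]
  nlinarith

/-- Minkowski in `ℓ²(u)` -/
lemma mink {ι : Type*} (T : Finset ι) (u : ι → ℝ) (hu : ∀ i ∈ T, 0 ≤ u i) (x y z : ι → ℝ)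
    (hy : ∀ i ∈ T, 0 ≤ y i) (hz : ∀ i ∈ T, 0 ≤ z i) (h : ∀ i ∈ T, x i ≤ (y i + z i) ^ 2) :
    ∑ i ∈ T, u i * x i ≤ (Real.sqrt (∑ i ∈ T, u i * y i ^ 2) +
      Real.sqrt (∑ i ∈ T, u i * z i ^ 2)) ^ 2 := by
  have hy2 : 0 ≤ ∑ i ∈ T, u i * y i ^ 2 :=
    Finset.sum_nonneg fun i hi => mul_nonneg (hu i hi) (sq_nonneg _)
  have hz2 : 0 ≤ ∑ i ∈ T, u i * z i ^ 2 :=
    Finset.sum_nonneg fun i hi => mul_nonneg (hu i hi) (sq_nonneg _)
  have cs : ∑ i ∈ T, u i * (y i * z i) ≤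
      Real.sqrt (∑ i ∈ T, u i * y i ^ 2) * Real.sqrt (∑ i ∈ T, u i * z i ^ 2) := by
    rw [← Real.sqrt_mul hy2]
    refine Real.le_sqrt_of_sq_le ?_
    have key := Finset.sum_mul_sq_le_sq_mul_sq T (fun i => Real.sqrt (u i) * y i)
      (fun i => Real.sqrt (u i) * z i)
    have e1 : ∀ i ∈ T, Real.sqrt (u i) * y i * (Real.sqrt (u i) * z i) = u i * (y i * z i) := by
      intro i hi
      have := Real.mul_self_sqrt (hu i hi)
      calc Real.sqrt (u i) * y i * (Real.sqrt (u i) * z i) =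
          (Real.sqrt (u i) * Real.sqrt (u i)) * (y i * z i) := by ring
        _ = _ := by rw [this]
    have e2 : ∀ w : ι → ℝ, ∀ i ∈ T, (Real.sqrt (u i) * w i) ^ 2 = u i * w i ^ 2 := by
      intro w i hi
      rw [mul_pow, Real.sq_sqrt (hu i hi)]
    rw [Finset.sum_congr rfl e1, Finset.sum_congr rfl (e2 y), Finset.sum_congr rfl (e2 z)] at key
    exact key
  calc ∑ i ∈ T, u i * x i ≤ ∑ i ∈ T, (u i * y i ^ 2 + u i * z i ^ 2 + 2 * (u i * (y i * z i))) := by
        refine Finset.sum_le_sum fun i hi => ?_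
        have := mul_le_mul_of_nonneg_left (h i hi) (hu i hi)
        nlinarith
    _ = ∑ i ∈ T, u i * y i ^ 2 + ∑ i ∈ T, u i * z i ^ 2 + 2 * ∑ i ∈ T, u i * (y i * z i) := by
        rw [Finset.sum_add_distrib, Finset.sum_add_distrib, Finset.mul_sum]
    _ ≤ _ := by
        have h1 := Real.sq_sqrt hy2
        have h2 := Real.sq_sqrt hz2
        nlinarith

/-! ### splitting a game -/

/-- costs are nonnegative -/
lemma game_nonneg {m : ℕ} {h : F} {c : ℝ} (g : Game p m h c) : 0 ≤ c := by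
  induction g with
  | leaf m h => exact le_rfl
  | split hs hx hy ga gb iha ihb => exact add_nonneg iha ihb
  | col H ga iha =>
    refine add_nonneg (Finset.sum_nonneg fun i _ => mul_nonneg (H.u0 i) (sq_nonneg _))
      (Finset.sum_nonneg fun i _ => mul_nonneg (H.u0 i) (iha i))

/-- the column of a part -/
noncomputable def prt (q : ℝ) (h₁ h₂ : F) (Δ : List Bool → ℝ) (r : List Bool) : ℝ :=
  Δ r * (max (h₁ (false :: r) - h₁ (true :: r)) 0 /
    (max (h₁ (false :: r) - h₁ (true :: r)) 0 + max (h₂ (false :: r) - h₂ (true :: r)) 0))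

/-- the columns of the two parts -/
lemma col_add {q : ℝ} (hq : 0 < q ∧ q < 1) {h h₁ h₂ : F} {k : ℕ} {u : Fin k → ℝ} {X : Fin k → F}
    (H : Col q h u X) (e : ∀ r, h r = h₁ r + h₂ r) (h10 : ∀ r, 0 ≤ h₁ r) (h20 : ∀ r, 0 ≤ h₂ r) :
    ∃ X₁ X₂ : Fin k → F, Col q h₁ u X₁ ∧ Col q h₂ u X₂ ∧ (∀ i r, X i r = X₁ i r + X₂ i r) ∧
      (∀ i r, 0 ≤ X₁ i r) ∧ ∀ i r, 0 ≤ X₂ i r := by
  choose s Δ hs hsu hΔ0 hΔ1 hX using H.rule
  set d₁ : List Bool → ℝ := fun r => max (h₁ (false :: r) - h₁ (true :: r)) 0 with hd₁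
  set d₂ : List Bool → ℝ := fun r => max (h₂ (false :: r) - h₂ (true :: r)) 0 with hd₂
  have d10 : ∀ r, 0 ≤ d₁ r := fun r => le_max_right _ _
  have d20 : ∀ r, 0 ≤ d₂ r := fun r => le_max_right _ _
  have hsub : ∀ r, Δ r ≤ d₁ r + d₂ r := by
    intro r
    refine (hΔ1 r).trans (max_le ?_ (add_nonneg (d10 r) (d20 r)))
    rw [e, e]
    have a := le_max_left (h₁ (false :: r) - h₁ (true :: r)) 0
    have b := le_max_left (h₂ (false :: r) - h₂ (true :: r)) 0
    show _ ≤ max (h₁ (false :: r) - h₁ (true :: r)) 0 + max (h₂ (false :: r) - h₂ (true :: r)) 0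
    linarith
  set Δ₁ : List Bool → ℝ := fun r => Δ r * (d₁ r / (d₁ r + d₂ r)) with hΔ₁
  set Δ₂ : List Bool → ℝ := fun r => Δ r * (d₂ r / (d₁ r + d₂ r)) with hΔ₂
  have hfr : ∀ r, ∀ d : ℝ, 0 ≤ d → 0 ≤ Δ r * (d / (d₁ r + d₂ r)) ∧ Δ r * (d / (d₁ r + d₂ r)) ≤ d := by
    intro r d hd
    have h0 := add_nonneg (d10 r) (d20 r)
    refine ⟨mul_nonneg (hΔ0 r) (div_nonneg hd h0), ?_⟩
    rcases h0.eq_or_lt with h | h
    · rw [← h, div_zero, mul_zero]; exact hd
    · rw [mul_div_assoc', div_le_iff₀ h, mul_comm d]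
      exact mul_le_mul_of_nonneg_right (hsub r) hd
  have hsum : ∀ r, Δ r = Δ₁ r + Δ₂ r := by
    intro r
    show Δ r = Δ r * (d₁ r / (d₁ r + d₂ r)) + Δ r * (d₂ r / (d₁ r + d₂ r))
    rcases (add_nonneg (d10 r) (d20 r)).eq_or_lt with h | h
    · have : Δ r = 0 := le_antisymm (by rw [h]; exact hsub r) (hΔ0 r)
      rw [this, zero_mul, zero_mul, add_zero]
    · rw [← mul_add, ← add_div, div_self h.ne', mul_one]
  have bd : ∀ (g : F) (D : List Bool → ℝ) (i : Fin k) (r : List Bool), (∀ r, 0 ≤ g r) →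
      0 ≤ D r → D r ≤ max (g (false :: r) - g (true :: r)) 0 →
      0 ≤ av q g r + (s r i - (1 - q)) * D r := by
    intro g D i r g0 D0 D1
    have a0 := g0 (false :: r)
    have b0 := g0 (true :: r)
    obtain ⟨s0, s1⟩ := hs r i
    have q1 : 0 ≤ 1 - q := by linarith [hq.2]
    simp only [av]
    rcases le_total (g (false :: r)) (g (true :: r)) with hab | hab
    · have hz : D r = 0 := by
        rw [max_eq_right (by linarith)] at D1
        linarith
      rw [hz]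
      have := mul_nonneg q1 a0
      have := mul_nonneg hq.1.le b0
      linarith
    · rw [max_eq_left (by linarith)] at D1
      have e1 : (1 - q) * D r ≤ (1 - q) * (g (false :: r) - g (true :: r)) :=
        mul_le_mul_of_nonneg_left D1 q1
      have e2 : 0 ≤ s r i * D r := mul_nonneg s0 D0
      nlinarith
  refine ⟨fun i r => av q h₁ r + (s r i - (1 - q)) * Δ₁ r,
    fun i r => av q h₂ r + (s r i - (1 - q)) * Δ₂ r,
    ⟨H.u0, H.u1, fun r => ⟨s r, Δ₁ r, hs r, hsu r, (hfr r _ (d10 r)).1, (hfr r _ (d10 r)).2,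
      fun i => rfl⟩⟩,
    ⟨H.u0, H.u1, fun r => ⟨s r, Δ₂ r, hs r, hsu r, (hfr r _ (d20 r)).1, (hfr r _ (d20 r)).2,
      fun i => rfl⟩⟩, fun i r => ?_,
    fun i r => bd h₁ Δ₁ i r h10 (hfr r _ (d10 r)).1 (hfr r _ (d10 r)).2,
    fun i r => bd h₂ Δ₂ i r h20 (hfr r _ (d20 r)).1 (hfr r _ (d20 r)).2⟩
  show X i r = (av q h₁ r + (s r i - (1 - q)) * Δ₁ r) + (av q h₂ r + (s r i - (1 - q)) * Δ₂ r)
  rw [hX r i, hsum r]
  simp only [av, e]
  ring

/-- **SPLITTING A GAME** -/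
theorem game_add (hp : ∀ m, 0 < p m ∧ p m < 1) {m : ℕ} {h : F} {c : ℝ} (g : Game p m h c) :
    ∀ h₁ h₂ : F, (∀ r, h r = h₁ r + h₂ r) → (∀ r, 0 ≤ h₁ r) → (∀ r, 0 ≤ h₂ r) →
    ∃ c₁ c₂ : ℝ, Game p m h₁ c₁ ∧ Game p m h₂ c₂ ∧ c ≤ (Real.sqrt c₁ + Real.sqrt c₂) ^ 2 := by
  induction g with
  | leaf m h =>
    intro h₁ h₂ _ _ _
    exact ⟨0, 0, Game.leaf m h₁, Game.leaf m h₂, by positivity⟩
  | @split m h x y a b hs hx hy ga gb iha ihb =>
    intro h₁ h₂ e h10 h20
    have key : ∀ z : F, (∀ r, 0 ≤ z r) → (∀ r, z r ≤ h r) →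
        ∀ r, z r = z r * (h₁ r / h r) + z r * (h₂ r / h r) := by
      intro z z0 z1 r
      rcases eq_or_ne (h r) 0 with h0 | h0
      · have : z r = 0 := le_antisymm (by rw [← h0]; exact z1 r) (z0 r)
        rw [this, zero_mul, zero_mul, add_zero]
      · rw [← mul_add, ← add_div, ← e, div_self h0, mul_one]
    have hh0 : ∀ r, 0 ≤ h r := fun r => by rw [e]; exact add_nonneg (h10 r) (h20 r)
    have f0 : ∀ (z w : F), (∀ r, 0 ≤ z r) → (∀ r, 0 ≤ w r) → ∀ r, 0 ≤ z r * (w r / h r) :=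
      fun z w z0 w0 r => mul_nonneg (z0 r) (div_nonneg (w0 r) (hh0 r))
    have hxh : ∀ r, x r ≤ h r := fun r => by have := hs r; have := hy r; linarith
    have hyh : ∀ r, y r ≤ h r := fun r => by have := hs r; have := hx r; linarith
    obtain ⟨a₁, a₂, g1, g2, ha⟩ := iha (fun r => x r * (h₁ r / h r)) (fun r => x r * (h₂ r / h r))
      (key x hx hxh) (f0 x h₁ hx h10) (f0 x h₂ hx h20)
    obtain ⟨b₁, b₂, g3, g4, hb⟩ := ihb (fun r => y r * (h₁ r / h r)) (fun r => y r * (h₂ r / h r))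
      (key y hy hyh) (f0 y h₁ hy h10) (f0 y h₂ hy h20)
    have hle : ∀ w : F, (∀ r, 0 ≤ w r) → ∀ r, x r * (w r / h r) + y r * (w r / h r) ≤ w r := by
      intro w w0 r
      rw [← add_mul]
      rcases (hh0 r).eq_or_lt with h0 | h0
      · rw [← h0, div_zero, mul_zero]; exact w0 r
      · rw [mul_div_assoc', div_le_iff₀ h0, mul_comm (w r)]
        exact mul_le_mul_of_nonneg_right (hs r) (w0 r)
    refine ⟨a₁ + b₁, a₂ + b₂, Game.split (hle h₁ h10) (f0 x h₁ hx h10) (f0 y h₁ hy h10) g1 g3,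
      Game.split (hle h₂ h20) (f0 x h₂ hx h20) (f0 y h₂ hy h20) g2 g4, ?_⟩
    have hk := sqrt_add_sq (Real.sqrt_nonneg a₁) (Real.sqrt_nonneg a₂) (Real.sqrt_nonneg b₁)
      (Real.sqrt_nonneg b₂) ha hb
    rw [Real.sq_sqrt (game_nonneg g1), Real.sq_sqrt (game_nonneg g2), Real.sq_sqrt (game_nonneg g3),
      Real.sq_sqrt (game_nonneg g4)] at hk
    exact hk
  | @col m h k u X a H ga iha =>
    intro h₁ h₂ e h10 h20
    obtain ⟨X₁, X₂, H₁, H₂, eX, X10, X20⟩ := col_add (hp m) H e h10 h20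
    choose a₁ a₂ g1 g2 ha using fun i => iha i (X₁ i) (X₂ i) (eX i) (X10 i) (X20 i)
    refine ⟨_, _, Game.col H₁ g1, Game.col H₂ g2, ?_⟩
    have eh : E p (m + 1) h = E p (m + 1) h₁ + E p (m + 1) h₂ := by
      rw [← E_add]
      congr 1
      funext r
      exact e r
    have eXi : ∀ i, E p m (X i) = E p m (X₁ i) + E p m (X₂ i) := by
      intro i
      rw [← E_add]
      congr 1
      funext r
      exact eX i r
    have k1 := mink Finset.univ u (fun i _ => H.u0 i) (fun i => (E p m (X i) - E p (m + 1) h) ^ 2)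
      (fun i => |E p m (X₁ i) - E p (m + 1) h₁|) (fun i => |E p m (X₂ i) - E p (m + 1) h₂|)
      (fun i _ => abs_nonneg _) (fun i _ => abs_nonneg _) (fun i _ => by
        have e2 : E p m (X i) - E p (m + 1) h =
            (E p m (X₁ i) - E p (m + 1) h₁) + (E p m (X₂ i) - E p (m + 1) h₂) := by
          rw [eh, eXi]; ring
        rw [e2, ← sq_abs]
        exact pow_le_pow_left₀ (abs_nonneg _) (abs_add_le _ _) 2)
    have k2 := mink Finset.univ u (fun i _ => H.u0 i) a (fun i => Real.sqrt (a₁ i))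
      (fun i => Real.sqrt (a₂ i)) (fun i _ => Real.sqrt_nonneg _) (fun i _ => Real.sqrt_nonneg _)
      (fun i _ => ha i)
    simp only [sq_abs] at k1
    simp only [Real.sq_sqrt (game_nonneg (g1 _)), Real.sq_sqrt (game_nonneg (g2 _))] at k2
    set A₁ := ∑ i, u i * (E p m (X₁ i) - E p (m + 1) h₁) ^ 2 with hA₁
    set A₂ := ∑ i, u i * (E p m (X₂ i) - E p (m + 1) h₂) ^ 2 with hA₂
    set B₁ := ∑ i, u i * a₁ i with hB₁
    set B₂ := ∑ i, u i * a₂ i with hB₂
    have A10 : 0 ≤ A₁ := Finset.sum_nonneg fun i _ => mul_nonneg (H.u0 i) (sq_nonneg _)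
    have A20 : 0 ≤ A₂ := Finset.sum_nonneg fun i _ => mul_nonneg (H.u0 i) (sq_nonneg _)
    have B10 : 0 ≤ B₁ := Finset.sum_nonneg fun i _ => mul_nonneg (H.u0 i) (game_nonneg (g1 i))
    have B20 : 0 ≤ B₂ := Finset.sum_nonneg fun i _ => mul_nonneg (H.u0 i) (game_nonneg (g2 i))
    have hk := sqrt_add_sq (Real.sqrt_nonneg A₁) (Real.sqrt_nonneg A₂) (Real.sqrt_nonneg B₁)
      (Real.sqrt_nonneg B₂) k1 k2
    rw [Real.sq_sqrt A10, Real.sq_sqrt A20, Real.sq_sqrt B10, Real.sq_sqrt B20] at hk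
    exact hk

/-! ### scaling, layers -/

theorem game_smul {m : ℕ} {h : F} {c : ℝ} (g : Game p m h c) {l : ℝ} (hl : 0 ≤ l) :
    Game p m (fun r => l * h r) (l ^ 2 * c) := by
  induction g with
  | leaf m h =>
    rw [mul_zero]
    exact Game.leaf m _
  | @split m h x y a b hs hx hy ga gb iha ihb =>
    rw [mul_add]
    exact Game.split (fun r => by
      rw [← mul_add]; exact mul_le_mul_of_nonneg_left (hs r) hl) (fun r => mul_nonneg hl (hx r))
      (fun r => mul_nonneg hl (hy r)) iha ihb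
  | @col m h k u X a H ga iha =>
    have H' : Col (p m) (fun r => l * h r) u fun i r => l * X i r := by
      refine ⟨H.u0, H.u1, fun r => ?_⟩
      obtain ⟨s, Δ, hs, hsu, hΔ0, hΔ1, hX⟩ := H.rule r
      refine ⟨s, l * Δ, hs, hsu, mul_nonneg hl hΔ0, ?_, fun i => ?_⟩
      · have e : max (l * h (false :: r) - l * h (true :: r)) 0 =
            l * max (h (false :: r) - h (true :: r)) 0 := by
          rw [mul_max_of_nonneg _ _ hl, mul_zero, mul_sub]
        rw [e]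
        exact mul_le_mul_of_nonneg_left hΔ1 hl
      · rw [hX]
        simp only [av]
        ring
    have hg := Game.col H' iha
    have e : ∑ i, u i * (E p m (fun r => l * X i r) - E p (m + 1) fun r => l * h r) ^ 2 +
        ∑ i, u i * (l ^ 2 * a i) =
        l ^ 2 * (∑ i, u i * (E p m (X i) - E p (m + 1) h) ^ 2 + ∑ i, u i * a i) := by
      rw [mul_add, Finset.mul_sum, Finset.mul_sum]
      congr 1
      · refine Finset.sum_congr rfl fun i _ => ?_
        rw [E_smul, E_smul]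
        ring
      · refine Finset.sum_congr rfl fun i _ => ?_
        ring
    rw [e] at hg
    exact hg

/-- bounded functions -/
theorem game_scale (hp : ∀ m, 0 < p m ∧ p m < 1) {m : ℕ} {h : F} {c M : ℝ} (g : Game p m h c)
    (h0 : ∀ r, 0 ≤ h r) (hM : 0 < M) (h1 : ∀ r, h r ≤ M) : c ≤ 14 * (M * E p m h) := by
  have hg := game_smul g (l := M⁻¹) (by positivity)
  have h2 := game_le hp hg (fun r => mul_nonneg (by positivity) (h0 r)) (fun r => by
    rw [inv_mul_le_iff₀ hM, mul_one]; exact h1 r)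
  rw [E_smul] at h2
  have h3 : M ^ 2 * (M⁻¹ ^ 2 * c) ≤ M ^ 2 * (14 * (M⁻¹ * E p m h)) :=
    mul_le_mul_of_nonneg_left h2 (by positivity)
  have e1 : M ^ 2 * (M⁻¹ ^ 2 * c) = c := by field_simp
  have e2 : M ^ 2 * (14 * (M⁻¹ * E p m h)) = 14 * (M * E p m h) := by field_simp
  rw [e1, e2] at h3
  exact h3

/-- **finitely many layers** -/
theorem game_layers (hp : ∀ m, 0 < p m ∧ p m < 1) {m : ℕ} (M : ℕ → ℝ) (hM : ∀ k, 0 < M k)
    (L : ℕ → F) (L0 : ∀ k r, 0 ≤ L k r) (L1 : ∀ k r, L k r ≤ M k) (K : ℕ) : ∀ {h : F} {c : ℝ},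
    Game p m h c → (∀ r, h r = ∑ k ∈ range K, L k r) →
    Real.sqrt c ≤ ∑ k ∈ range K, Real.sqrt (14 * (M k * E p m (L k))) := by
  induction K with
  | zero =>
    intro h c g e
    have h1 := game_scale hp g (M := 1) (fun r => by rw [e]; simp) one_pos (fun r => by
      rw [e]; simp)
    have h2 : E p m h = 0 := by
      have : h = fun _ => 0 := by funext r; rw [e]; simp
      rw [this, E_const]
    rw [h2] at h1
    have : c = 0 := le_antisymm (by linarith) (game_nonneg g)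
    rw [this]; simp
  | succ K ih =>
    intro h c g e
    obtain ⟨c₁, c₂, g1, g2, hc⟩ := game_add hp g (fun r => ∑ k ∈ range K, L k r) (L K)
      (fun r => by rw [e, Finset.sum_range_succ]) (fun r => Finset.sum_nonneg fun k _ => L0 k r)
      (L0 K)
    have h1 := ih g1 (fun r => rfl)
    have h2 := game_scale hp g2 (L0 K) (hM K) (L1 K)
    rw [Finset.sum_range_succ]
    have h3 : Real.sqrt c ≤ Real.sqrt c₁ + Real.sqrt c₂ :=
      Real.sqrt_le_iff.2 ⟨add_nonneg (Real.sqrt_nonneg _) (Real.sqrt_nonneg _), hc⟩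
    have h4 := Real.sqrt_le_sqrt h2
    linarith

/-- the layers -/
noncomputable def lay (h : F) (k : ℕ) : F := fun r =>
  match k with
  | 0 => if h r < 1 then h r else 0
  | k + 1 => if (2:ℝ) ^ k ≤ h r ∧ h r < 2 ^ (k + 1) then h r else 0

lemma lay_nonneg {h : F} (h0 : ∀ r, 0 ≤ h r) (k : ℕ) (r : List Bool) : 0 ≤ lay h k r := by
  cases k with
  | zero => simp only [lay]; split_ifs <;> [exact h0 r; exact le_rfl]
  | succ k => simp only [lay]; split_ifs <;> [exact h0 r; exact le_rfl]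

lemma lay_le {h : F} (h0 : ∀ r, 0 ≤ h r) (k : ℕ) (r : List Bool) : lay h k r ≤ 2 ^ k := by
  cases k with
  | zero =>
    simp only [lay, pow_zero]
    split_ifs with h1
    · exact h1.le
    · exact zero_le_one
  | succ k =>
    simp only [lay]
    split_ifs with h1
    · exact h1.2.le
    · positivity

lemma lay_sum {h : F} (h0 : ∀ r, 0 ≤ h r) (K : ℕ) (hK : ∀ r, h r < 2 ^ K) (r : List Bool) :
    h r = ∑ k ∈ range (K + 1), lay h k r := by
  have key : ∀ K : ℕ, ∑ k ∈ range (K + 1), lay h k r = if h r < 2 ^ K then h r else 0 := by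
    intro K
    induction K with
    | zero => simp [lay]
    | succ K ih =>
      rw [Finset.sum_range_succ, ih]
      have h2 : (2:ℝ) ^ K ≤ 2 ^ (K + 1) := pow_le_pow_right₀ (by norm_num) (Nat.le_succ K)
      simp only [lay]
      by_cases h3 : h r < 2 ^ K
      · rw [if_pos h3, if_neg (fun h => absurd h.1 (not_le.2 h3)), if_pos (h3.trans_le h2), add_zero]
      · rw [if_neg h3, zero_add]
        by_cases h4 : h r < 2 ^ (K + 1)
        · rw [if_pos ⟨not_lt.1 h3, h4⟩, if_pos h4]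
        · rw [if_neg (fun h => h4 h.2), if_neg h4]
  rw [key, if_pos (hK r)]

/-- **THE MERGE THEOREM WITH A `(2+ε)`-MOMENT** -/
theorem game_mom (hp : ∀ m, 0 < p m ∧ p m < 1) {ε : ℝ} (hε : 0 < ε) {m : ℕ} {h : F} {c : ℝ}
    (g : Game p m h c) (h0 : ∀ r, 0 ≤ h r) (K : ℕ) (hK : ∀ r, h r < 2 ^ K) :
    c ≤ 28 * E p m h + 56 / (1 - 2 ^ (-(ε / 2))) ^ 2 * E p m (fun r => h r ^ (2 + ε)) := by
  have h1 := game_layers hp (fun k => (2:ℝ) ^ k) (fun k => by positivity) (lay h) (lay_nonneg h0)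
    (lay_le h0) (K + 1) g (lay_sum h0 K hK)
  set Mo := E p m (fun r => h r ^ (2 + ε)) with hMo
  have hMo0 : 0 ≤ Mo := E_nonneg hp m fun r => Real.rpow_nonneg (h0 r) _
  set x : ℝ := 2 ^ (-(ε / 2)) with hx
  have hx0 : 0 < x := by positivity
  have hx1 : x < 1 := by
    rw [hx]
    exact Real.rpow_lt_one_of_one_lt_of_neg (by norm_num) (by linarith)
  rw [Finset.sum_range_succ'] at h1
  have e0 : Real.sqrt (14 * (2 ^ 0 * E p m (lay h 0))) ≤ Real.sqrt (14 * E p m h) := by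
    apply Real.sqrt_le_sqrt
    rw [pow_zero, one_mul]
    refine mul_le_mul_of_nonneg_left (E_mono hp m fun r => ?_) (by norm_num)
    simp only [lay]
    split_ifs
    · exact le_rfl
    · exact h0 r
  have ek : ∀ k, Real.sqrt (14 * (2 ^ (k + 1) * E p m (lay h (k + 1)))) ≤
      Real.sqrt (28 * Mo) * x ^ k := by
    intro k
    have h2 : E p m (lay h (k + 1)) ≤ (2:ℝ) ^ (-((k:ℝ) * (1 + ε))) * Mo := by
      rw [hMo, ← E_smul]
      refine E_mono hp m fun r => ?_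
      have hr0 := Real.rpow_nonneg (h0 r) (2 + ε)
      simp only [lay]
      split_ifs with h3
      · have hk : (0:ℝ) < 2 ^ k := by positivity
        have hpos : 0 < h r := hk.trans_le h3.1
        have e1 : h r ^ (2 + ε) = h r * h r ^ (1 + ε) := by
          nth_rewrite 2 [← Real.rpow_one (h r)]
          rw [← Real.rpow_add hpos]
          congr 1; ring
        have e2 : (2:ℝ) ^ ((k:ℝ) * (1 + ε)) ≤ h r ^ (1 + ε) := by
          rw [Real.rpow_mul (by norm_num), Real.rpow_natCast]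
          exact Real.rpow_le_rpow hk.le h3.1 (by linarith)
        have e3 : (2:ℝ) ^ (-((k:ℝ) * (1 + ε))) * 2 ^ ((k:ℝ) * (1 + ε)) = 1 := by
          rw [← Real.rpow_add (by norm_num), neg_add_cancel, Real.rpow_zero]
        rw [e1]
        have e4 : (0:ℝ) < 2 ^ (-((k:ℝ) * (1 + ε))) := by positivity
        calc h r = (2 ^ (-((k:ℝ) * (1 + ε))) * 2 ^ ((k:ℝ) * (1 + ε))) * h r := by rw [e3, one_mul]
          _ ≤ (2 ^ (-((k:ℝ) * (1 + ε))) * h r ^ (1 + ε)) * h r := by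
              exact mul_le_mul_of_nonneg_right (mul_le_mul_of_nonneg_left e2 e4.le) hpos.le
          _ = _ := by ring
      · positivity
    have h3 : (2:ℝ) ^ (k + 1) * E p m (lay h (k + 1)) ≤ 2 * (Mo * x ^ (2 * k)) := by
      calc (2:ℝ) ^ (k + 1) * E p m (lay h (k + 1)) ≤
          (2:ℝ) ^ (k + 1) * ((2:ℝ) ^ (-((k:ℝ) * (1 + ε))) * Mo) :=
            mul_le_mul_of_nonneg_left h2 (by positivity)
        _ = _ := by
            have e5 : (2:ℝ) ^ (k + 1) * 2 ^ (-((k:ℝ) * (1 + ε))) = 2 * x ^ (2 * k) := by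
              rw [hx, ← Real.rpow_natCast, ← Real.rpow_natCast, ← Real.rpow_mul (by norm_num),
                ← Real.rpow_add (by norm_num)]
              have e6 : (2:ℝ) * 2 ^ (-(ε / 2) * ((2 * k : ℕ) : ℝ)) =
                  2 ^ ((1:ℝ) + -(ε / 2) * ((2 * k : ℕ) : ℝ)) := by
                rw [Real.rpow_add (by norm_num), Real.rpow_one]
              rw [e6]
              congr 1
              push_cast
              ring
            rw [← mul_assoc, e5]; ring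
    calc Real.sqrt (14 * (2 ^ (k + 1) * E p m (lay h (k + 1)))) ≤
        Real.sqrt (28 * Mo * (x ^ k) ^ 2) := by
          apply Real.sqrt_le_sqrt
          rw [← pow_mul, mul_comm k 2]
          linarith
      _ = _ := by
          rw [Real.sqrt_mul (by positivity), Real.sqrt_sq (by positivity)]
  have hgeo : ∑ k ∈ range K, x ^ k ≤ 1 / (1 - x) := by
    rw [one_div]
    exact (summable_geometric_of_lt_one hx0.le hx1).sum_le_tsum _ (fun i _ => by positivity)
      |>.trans_eq (tsum_geometric_of_lt_one hx0.le hx1)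
  have h4 : Real.sqrt c ≤ Real.sqrt (28 * Mo) * (1 / (1 - x)) + Real.sqrt (14 * E p m h) := by
    refine h1.trans (add_le_add ?_ e0)
    calc ∑ k ∈ range K, Real.sqrt (14 * (2 ^ (k + 1) * E p m (lay h (k + 1)))) ≤
        ∑ k ∈ range K, Real.sqrt (28 * Mo) * x ^ k := Finset.sum_le_sum fun k _ => ek k
      _ = Real.sqrt (28 * Mo) * ∑ k ∈ range K, x ^ k := by rw [Finset.mul_sum]
      _ ≤ _ := mul_le_mul_of_nonneg_left hgeo (Real.sqrt_nonneg _)
  have hc := game_nonneg g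
  have hE := E_nonneg hp m h0
  have h5 := Real.sq_sqrt hc
  have h6 := Real.sq_sqrt (show 0 ≤ 28 * Mo by positivity)
  have h7 := Real.sq_sqrt (show 0 ≤ 14 * E p m h by positivity)
  have h8 : Real.sqrt c ^ 2 ≤ (Real.sqrt (28 * Mo) * (1 / (1 - x)) + Real.sqrt (14 * E p m h)) ^ 2 :=
    pow_le_pow_left₀ (Real.sqrt_nonneg _) h4 2
  have h9 : (Real.sqrt (28 * Mo) * (1 / (1 - x)) + Real.sqrt (14 * E p m h)) ^ 2 ≤
      2 * (Real.sqrt (28 * Mo) * (1 / (1 - x))) ^ 2 + 2 * Real.sqrt (14 * E p m h) ^ 2 := by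
    nlinarith [sq_nonneg (Real.sqrt (28 * Mo) * (1 / (1 - x)) - Real.sqrt (14 * E p m h))]
  rw [mul_pow, h6, h7] at h9
  rw [h5] at h8
  have e9 : 2 * (28 * Mo * (1 / (1 - x)) ^ 2) = 56 / (1 - x) ^ 2 * Mo := by
    rw [one_div, inv_pow]; ring
  linarith

end Crest.Agent.R4P.GameL31
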