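import Crest.Agent.R4P.BlksP_29
import Crest.Agent.R4P.Glue_29

/-!
R4 (S0004) with powers, module D, helper29: **the glue of the cross walk with exact predicates of the pairs**.

* `IvS` : the scale pairs of the item pairs are the ones of the crossing state; `IvS.next` : inherited.
* `hloc_P` : the local costs `eNMC + eONEC + eXITC` for the values `VcL Pc`, `VxL Px`.
* `ctx_cross_P` : `Glue29.ctx_cross` with the predicates `Pc`, `Px` (`BlksP29.LkN`).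
-/

set_option autoImplicit false
set_option linter.unusedSectionVars false
set_option linter.unusedVariables false
open Finset

namespace Crest.Agent.R4P.GlueP29

open Crest.Agent.R4.HVW560 Crest.Agent.R4P.AvgItem710
open Crest.Agent.R4.Tour104 Crest.Agent.R4.Tour758 Crest.Agent.R4.Avg758 Crest.Agent.R4.Clos758
open Crest.Agent.R4.ClosL758 Crest.Agent.R4.ClosG758 Crest.Agent.R4.ClosR758
open Crest.Agent.R4.Fam464 Crest.Agent.R4P.Cnt588 Crest.Agent.R4P.Walk560 Crest.Agent.R4P.Item758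
open Crest.Agent.R4P.Bld532 (NS All NodeOk Bk dv nd mem_dv mem_nd)
open Crest.Agent.R4P.GSt927 Crest.Agent.R4P.WalkIT579 Crest.Agent.R4P.NMW710
open Crest.Agent.R4P.CrossLoc25 Crest.Agent.R4P.CrossLocC25 Crest.Agent.R4P.WalkC
open Crest.Agent.R4P.CyC25 Crest.Agent.R4P.YI25 Crest.Agent.R4P.RawB25
open Crest.Agent.R4P.VItem34 (meI meI_eq MX_meI)
open Crest.Agent.R4.WalkX560 (MX)
open Crest.Agent.R4P.Data758 Crest.Agent.R4.Piece464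
open Crest.Agent.R4P.BlksP29 Crest.Agent.R4P.Glue29

section gen
variable {Λ κ : Type*} [Fintype Λ] [DecidableEq Λ] [Fintype κ] [DecidableEq κ] [WRel κ]
  {D : Par Λ κ} {sp : ℕ → Finset Λ} {P : Bld532.Par} {W : ℕ → ℝ} {Qp : NS → IT → Prop}
  {Al : Finset ℕ} {RP : Finset (Λ × Λ) → Prop} {ρ : ℕ → ℝ} {CL c₀ : ℝ} {p0 : ℕ}

/-- the scale pairs at a state are the given ones -/
def IvS (D : Par Λ κ) (Al : Finset ℕ) (s₀ : ℕ × ℕ → ℝ × ℝ) (s : St Λ κ) (u u' : NS) (τ τ' : IT) :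
    Prop :=
  ∀ e ∈ Ep D Al s τ τ', SE s.M u.B u.A s.M' u'.B u'.A e = s₀ e

/-- the scale pairs do not change along the walk -/
lemma IvS.next {s₀ : ℕ × ℕ → ℝ × ℝ} {p : ℕ} (hp : p.Prime) {s : St Λ κ} {u u' : NS} {τ τ' : IT}
    (h : IvS D Al s₀ s u u' τ τ') {c : CR Λ κ} (hc : Chd D Al sp Qp RP p s u u' τ τ' c) :
    IvS D Al s₀ c.s c.v c.v' c.σ c.σ' := by
  intro e he
  rw [hc.sc hp he]
  exact h e (hc.sub he)

open Classical in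
/-- **local costs with exact predicates** -/
theorem hloc_P (hh : YH D sp P W Qp) (hr : RH D ρ Al Qp CL c₀ p0)
    {Lo : ℝ × ℝ → ℕ × ℕ → Prop} (hLo : LoOk Lo ρ) {Pc Px : ℕ → ℕ × ℕ → Prop}
    {s₀ : ℕ × ℕ → ℝ × ℝ} (hc : ∀ l e, LkN D Qp (s₀ e) l e → Pc l e)
    (hx : ∀ (l : ℕ) (e : ℕ × ℕ), LkN D Qp (l * (s₀ e).1, l * (s₀ e).2) l e → Px l e) {stp : St Λ κ → Prop}
    (hst : ∀ s : St Λ κ, s.t.isLeaf ∨ s.t'.isLeaf → stp s)
    {a : ℕ → ℝ} (ha : ∀ p, 12 * kp CL c₀ p ^ 2 ≤ a p)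
    {Vs : ℝ × ℝ → ℕ × ℕ → ℝ} (h0 : ∀ s e, 0 ≤ Vs s e)
    {μ : TrG Λ κ → Finset Λ → ℝ} {B : ℝ} (hB : 0 ≤ B) (hμ : ∀ t : TrG Λ κ, t.Ok → ∀ A, 0 ≤ μ t A)
    {s : St Λ κ} {u u' : NS} {τ τ' : IT} (hI : IvS D Al s₀ s u u' τ τ')
    (h : YI D sp Qp RP s u u' τ τ') :
    eNMC stp s + eONEC stp s + eXITC stp μ B s ≤ cyC stp a meI s +
      ∑ e ∈ Ep D Al s τ τ', lcS stp Vs (VcL Pc D.γ ρ Lo) (VxL Px D.γ ρ Lo) s u u' τ τ' e :=
  loc_C hh h0 (fun _ _ _ => VcL_nonneg hr.rad.pos _ _ _) (fun _ _ _ => VxL_nonneg hr.rad.pos _ _ _)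
    hB hμ MX_meI.nn meI_split (fun p => le_trans (by positivity) (ha p)) h
    (fun hG => Blks_P hh hr hLo h
      (not_isL_L h fun hl => hG.2.1 (hst s (Or.inl hl)))
      (not_isL_R h fun hl => hG.2.1 (hst s (Or.inr hl)))
      (fun e he hk => hc _ _ (by rw [← hI e he]; exact hk))
      (fun e he hk => hx _ _ (by rw [← hI e he]; exact hk)) (ha _))

end gen

/-! ### contexts -/

section ctx
open Crest.Agent.R4P.Skel189 (Ctx top)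
open Crest.Agent.R4.Item758 (AdI)
open Crest.Agent.R4.Soft104
open Crest.Agent.R4P.Step588 (CT)
open Crest.Agent.R4P.Strip29 (stS strip Xs_stS Qs_stS)
open Crest.Agent.R4P.VNum34 Crest.Agent.R4P.VItem34 Crest.Agent.R4P.VCtx29
open Crest.Agent.R4P.Frame758 (tM tN tG tD wt)
open Crest.Agent.R4P.VWalk36 (toZ V)
open Crest.Agent.R4P

variable {N : Skel189.Num} {γ : ℝ} {p0 P₀ : ℕ} {X : Ctx N γ p0 P₀} {j₀ : X.c.Lam}
  {Qp : NS → IT → Prop} {RP : Finset (X.c.Lam × X.c.Lam) → Prop}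

/-- **THE EXCESS OF A CROSSING PAIR IN A CONTEXT**, exact predicates; `s₀` = scale pairs of the crossing state -/
theorem ctx_cross_P (hQ : ∀ u τ, Qp u τ → NodeOk X.par (w X.ψ) u τ)
    (hRH : RH (X.c.D.par X.Y) X.c.rr X.S' Qp (2 * CT) (1 / 2) p0)
    (hRP : ∀ l, RP (Ro ((X.c.D.par X.Y).rho l)))
    {Lo : ℝ × ℝ → ℕ × ℕ → Prop} (hLo : LoOk Lo X.c.rr) {Pc Px : ℕ → ℕ × ℕ → Prop}
    {s₀ : ℕ × ℕ → ℝ × ℝ} (hc : ∀ l e, LkN (X.c.D.par X.Y) Qp (s₀ e) l e → Pc l e)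
    (hx : ∀ (l : ℕ) (e : ℕ × ℕ), LkN (X.c.D.par X.Y) Qp (l * (s₀ e).1, l * (s₀ e).2) l e → Px l e)
    {Vs : ℝ × ℝ → ℕ × ℕ → ℝ} (h0 : ∀ s e, 0 ≤ Vs s e)
    {Iv : X.Sta → NS → NS → IT → IT → Prop} {l Φ : X.Sta → NS → NS → IT → IT → ℕ × ℕ → ℝ}
    (hIv : ∀ s u u' τ τ', Iv s u u' τ τ' → IvS (X.c.D.par X.Y) X.S' s₀ s u u' τ τ')
    {K : ℝ} {gS Gst : X.Sta → ℝ} {B : ℝ}
    (H : LocH (X.c.D.par X.Y) X.S' (fun _ => ∅) Qp RP stpX Iv l Vs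
      (VcL Pc (X.c.D.par X.Y).γ X.c.rr Lo) (VxL Px (X.c.D.par X.Y).γ X.c.rr Lo) K gS Gst
      (X.tm j₀) B)
    (hS : PSup (X.c.D.par X.Y) X.S' (fun _ => ∅) Qp RP stpX Iv l Φ) (hB : 0 ≤ B)
    {z : X.Sta} {v v' : NS} {σ σ' : IT} (hI : Iv (stS z) v v' σ σ')
    (h : YI (X.c.D.par X.Y) (fun _ => ∅) Qp RP (stS z) v v' σ σ') {C g : ℝ} (hg0 : 0 ≤ g)
    (hg : WC stpX (fun s => gS s + Gst s) (stS z) ≤
      C * (X.tm j₀ z.t.g z.A * X.tm j₀ z.t'.g z.A') + g) :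
    Xs (X.tm j₀) (B + C) z ≤ V stp2 aX meI (toZ z) z.A z.A' + g +
      ∑ e ∈ Ep (X.c.D.par X.Y) X.S' z σ σ',
        ((1 + K) * potS Vs (VcL Pc (X.c.D.par X.Y).γ X.c.rr Lo)
          (VxL Px (X.c.D.par X.Y).γ X.c.rr Lo) z v v' σ σ' e + Φ (stS z) v v' σ σ' e) := by
  have hh : YH (X.c.D.par X.Y) (fun _ => (∅ : Finset X.c.Lam)) X.par (w X.ψ) Qp := YH.strip hQ
  have hk : ∀ p : ℕ, 12 * kp (2 * CT) (1 / 2) p ^ 2 ≤ aX p := by
    intro p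
    refine le_of_eq ?_
    unfold kp aX Blks29.KAB
    ring
  have hpos := hRH.rad.pos
  have hg' : WC stpX (fun s => gS s + Gst s) (stS z) ≤
      C * (X.tm j₀ (stS z).t.g (stS z).A * X.tm j₀ (stS z).t'.g (stS z).A') + g := by
    refine hg.trans (le_of_eq ?_)
    simp [stS]
  have key := cross_leC (s := stS z) (stV := stp2) (me := meI) (a := aX) (n := (stS z).p) (C := C)
    hh hRP H hS
    h0 (fun _ _ _ => VcL_nonneg hpos _ _ _) (fun _ _ _ => VxL_nonneg hpos _ _ _)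
    (fun s u u' τ τ' hi hy => hloc_P hh hRH hLo hc hx
      (fun s hs => hs.elim (fun h => Or.inl h) (fun h => Or.inr (Or.inl h))) hk h0 hB
      (fun t ht A => Skel189.tM_nonneg X j₀ ht A) (hIv s u u' τ τ' hi) hy)
    hB SI_stp2 MX_meI aX_nonneg (fun s hs => Or.inr (Or.inr hs)) hI h (inv_YI h) hg0 hg'
  rw [Xs_stS] at key
  have eV : V stp2 aX meI (toZ (stS z)) (stS z).A (stS z).A' = V stp2 aX meI (toZ z) z.A z.A' :=
    V_stZ stp2 aX meI z.A z.A' _ (toZ z) (Nat.lt_succ_self _)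
  rw [eV] at key
  exact key

end ctx

end Crest.Agent.R4P.GlueP29
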