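import Crest.Agent.R4P.Walk560

/-!
R4 (S0004) with powers, group [W-eSHR], helper36: **groups of nodes on one circle**.

A group is a list of weighted nodes `(c, t)`, all on the same circle.  At the column `p`
* `rsG` : the `add` and `up` nodes of the column `p` are replaced by their children (the group
  function `gval` does not change);
* `gB` : members which are ties / pulls at `p`, `gR` : the other ones;
* `gC` : the children of `gB` (on the circle `p x`).

* `GS loc n p g` : sum of the local terms `loc p (gB p g)` over the full product walk of the group.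
* `PS ℓ n p g h` : the same for two groups and a bilinear local term.
* `En κd g` : energy of the group function for the classes of `κd : Λ → δ` (a static equivalence
  relation on the pieces), `Cov` : its loss at a column.
* `GS_cov_le` : **the identity** `Σ Cov ≤ En`.
-/

set_option autoImplicit false
set_option linter.unusedSectionVars false
set_option linter.unusedVariables false
open MeasureTheory Filter Set

namespace Crest.Agent.R4P.Grp36

open Crest.Agent.R4.Tour104 Crest.Agent.R4.Tour758 Crest.Agent.R4.Avg758 Crest.Agent.R4.Clos758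
open Crest.Agent.R4.ClosL758 Crest.Agent.R4.ClosG758 Crest.Agent.R4.ClosR758
open Crest.Agent.R4P.ClosR442 Crest.Agent.R4P.Walk560

variable {Λ κ : Type*}

/-- a group of nodes -/
abbrev Gp (Λ κ : Type*) := List (ℝ × DT Λ κ)

/-- resolve the add and up nodes of the column `p` -/
def rs (p : ℕ) : DT Λ κ → List (DT Λ κ)
  | .leaf r f => [.leaf r f]
  | .br q w r t₁ t₀ v B G => [.br q w r t₁ t₀ v B G]
  | .add q r t₁ t₀ => if q = p then rs p t₁ ++ rs p t₀ else [.add q r t₁ t₀]
  | .up q Sp t => if q = p then rs p t else [.up q Sp t]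

/-- tie or pull of the column `p` -/
def isB (p : ℕ) : DT Λ κ → Bool
  | .br q _ _ _ _ _ _ _ => decide (q = p)
  | _ => false

/-- children of a tie or pull -/
def chd : DT Λ κ → Gp Λ κ
  | .br _ w _ t₁ t₀ _ _ _ => [(1 - w, t₁), (w, t₀)]
  | _ => []

/-- resolved group -/
def rsG (p : ℕ) (g : Gp Λ κ) : Gp Λ κ := g.flatMap fun m => (rs p m.2).map fun t => (m.1, t)

/-- the ties and pulls at `p` -/
def gB (p : ℕ) (g : Gp Λ κ) : Gp Λ κ := (rsG p g).filter fun m => isB p m.2

/-- the other members -/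
def gR (p : ℕ) (g : Gp Λ κ) : Gp Λ κ := (rsG p g).filter fun m => !isB p m.2

/-- the children of the ties and pulls at `p` -/
def gC (p : ℕ) (g : Gp Λ κ) : Gp Λ κ :=
  (gB p g).flatMap fun m => (chd m.2).map fun q => (m.1 * q.1, q.2)

/-- the group function -/
noncomputable def gval (g : Gp Λ κ) (j : Λ) (x : ℝ) : ℝ := (g.map fun m => m.1 * m.2.g.val j x).sum

/-! ### linearity -/

@[simp] lemma rsG_nil (p : ℕ) : rsG p ([] : Gp Λ κ) = [] := rfl
@[simp] lemma gB_nil (p : ℕ) : gB p ([] : Gp Λ κ) = [] := rfl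
@[simp] lemma gR_nil (p : ℕ) : gR p ([] : Gp Λ κ) = [] := rfl
@[simp] lemma gC_nil (p : ℕ) : gC p ([] : Gp Λ κ) = [] := rfl

lemma rsG_append (p : ℕ) (g h : Gp Λ κ) : rsG p (g ++ h) = rsG p g ++ rsG p h := by
  simp [rsG, List.flatMap_append]

lemma gB_append (p : ℕ) (g h : Gp Λ κ) : gB p (g ++ h) = gB p g ++ gB p h := by
  simp [gB, rsG_append, List.filter_append]

lemma gR_append (p : ℕ) (g h : Gp Λ κ) : gR p (g ++ h) = gR p g ++ gR p h := by
  simp [gR, rsG_append, List.filter_append]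

lemma gC_append (p : ℕ) (g h : Gp Λ κ) : gC p (g ++ h) = gC p g ++ gC p h := by
  simp [gC, gB_append, List.flatMap_append]

/-- multiply the weights -/
def smG (c : ℝ) (g : Gp Λ κ) : Gp Λ κ := g.map fun m => (c * m.1, m.2)

@[simp] lemma smG_nil (c : ℝ) : smG c ([] : Gp Λ κ) = [] := rfl

lemma smG_append (c : ℝ) (g h : Gp Λ κ) : smG c (g ++ h) = smG c g ++ smG c h := by
  simp [smG]

lemma rsG_cons (p : ℕ) (m : ℝ × DT Λ κ) (g : Gp Λ κ) :
    rsG p (m :: g) = ((rs p m.2).map fun t => (m.1, t)) ++ rsG p g := by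
  simp [rsG]

lemma rsG_smG (p : ℕ) (c : ℝ) (g : Gp Λ κ) : rsG p (smG c g) = smG c (rsG p g) := by
  induction g with
  | nil => rfl
  | cons m g ih =>
    show rsG p ((c * m.1, m.2) :: smG c g) = _
    rw [rsG_cons, rsG_cons, ih, smG_append]
    congr 1
    simp [smG]

lemma filter_smG (c : ℝ) (F : DT Λ κ → Bool) (g : Gp Λ κ) :
    (smG c g).filter (fun m => F m.2) = smG c (g.filter fun m => F m.2) := by
  induction g with
  | nil => rfl
  | cons m g ih =>
    show ((c * m.1, m.2) :: smG c g).filter (fun m => F m.2) = _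
    by_cases h : F m.2 = true
    · rw [List.filter_cons_of_pos (by simpa using h), List.filter_cons_of_pos (by simpa using h), ih]
      rfl
    · rw [List.filter_cons_of_neg (by simpa using h), List.filter_cons_of_neg (by simpa using h), ih]

lemma gB_smG (p : ℕ) (c : ℝ) (g : Gp Λ κ) : gB p (smG c g) = smG c (gB p g) := by
  unfold gB; rw [rsG_smG, filter_smG c (fun t => isB p t)]

lemma gR_smG (p : ℕ) (c : ℝ) (g : Gp Λ κ) : gR p (smG c g) = smG c (gR p g) := by
  unfold gR; rw [rsG_smG, filter_smG c (fun t => !isB p t)]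

lemma gC_smG (p : ℕ) (c : ℝ) (g : Gp Λ κ) : gC p (smG c g) = smG c (gC p g) := by
  unfold gC
  rw [gB_smG]
  induction gB p g with
  | nil => rfl
  | cons m g ih =>
    show ((c * m.1, m.2) :: smG c g).flatMap (fun m => (chd m.2).map fun q => (m.1 * q.1, q.2)) = _
    rw [List.flatMap_cons, ih, List.flatMap_cons, smG_append]
    congr 1
    simp [smG, mul_assoc]

lemma gval_append (g h : Gp Λ κ) (j : Λ) (x : ℝ) : gval (g ++ h) j x = gval g j x + gval h j x := by
  simp [gval]

@[simp] lemma gval_nil (j : Λ) (x : ℝ) : gval ([] : Gp Λ κ) j x = 0 := rfl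

lemma gval_cons (m : ℝ × DT Λ κ) (g : Gp Λ κ) (j : Λ) (x : ℝ) :
    gval (m :: g) j x = m.1 * m.2.g.val j x + gval g j x := by
  simp [gval]

lemma gval_smG (c : ℝ) (g : Gp Λ κ) (j : Λ) (x : ℝ) : gval (smG c g) j x = c * gval g j x := by
  induction g with
  | nil => simp [smG]
  | cons m g ih =>
    show gval ((c * m.1, m.2) :: smG c g) j x = _
    rw [gval_cons, ih, gval_cons]; ring

/-! ### the steps -/

lemma val_add {q : ℕ} {r : Λ → κ} {t₁ t₀ : DT Λ κ} (j : Λ) (x : ℝ) :
    (DT.add q r t₁ t₀).g.val j x = t₁.g.val j x + t₀.g.val j x := rfl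

lemma gval_rs (p : ℕ) (c : ℝ) (t : DT Λ κ) (j : Λ) (x : ℝ) :
    gval ((rs p t).map fun t => (c, t)) j x = c * t.g.val j x := by
  induction t with
  | leaf r f => simp [rs, gval]
  | br q w r t₁ t₀ v B G => simp [rs, gval]
  | add q r t₁ t₀ ih₁ ih₀ =>
    unfold rs
    split_ifs with h
    · rw [List.map_append, gval_append, ih₁, ih₀, val_add]; ring
    · simp [gval]
  | up q Sp t ih =>
    unfold rs
    split_ifs with h
    · exact ih
    · simp [gval]

/-- the resolution does not change the group function -/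
lemma gval_rsG (p : ℕ) (g : Gp Λ κ) (j : Λ) (x : ℝ) : gval (rsG p g) j x = gval g j x := by
  induction g with
  | nil => rfl
  | cons m g ih => rw [rsG_cons, gval_append, gval_rs, ih, gval_cons]

lemma gval_filter (F : DT Λ κ → Bool) (g : Gp Λ κ) (j : Λ) (x : ℝ) :
    gval (g.filter fun m => F m.2) j x + gval (g.filter fun m => !F m.2) j x = gval g j x := by
  induction g with
  | nil => simp
  | cons m g ih =>
    by_cases h : F m.2 = true
    · rw [List.filter_cons_of_pos (by simpa using h), List.filter_cons_of_neg (by simp [h]),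
        gval_cons, gval_cons]
      linarith
    · rw [List.filter_cons_of_neg (by simpa using h),
        List.filter_cons_of_pos (by simpa using h), gval_cons, gval_cons]
      linarith

/-- **splitting** -/
lemma gval_split (p : ℕ) (g : Gp Λ κ) (j : Λ) (x : ℝ) :
    gval g j x = gval (gB p g) j x + gval (gR p g) j x := by
  rw [← gval_rsG p g, ← gval_filter (fun t => isB p t) (rsG p g)]
  rfl

/-- item-level mean at the ties and pulls -/
def IMean : DT Λ κ → Prop
  | .br p w _ t₁ t₀ v _ _ => 0 < p ∧ 0 ≤ w ∧ w ≤ 1 ∧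
      ∀ j y, Ep p (v j) y = (1 - w) * t₁.g.val j y + w * t₀.g.val j y
  | _ => True

/-- good members: nonnegative weights, item-level means at all nodes, bounded functions -/
structure GOk (g : Gp Λ κ) : Prop where
  c : ∀ m ∈ g, 0 ≤ m.1
  im : ∀ m ∈ g, m.2.All IMean
  pb : ∀ m ∈ g, m.2.All fun t => ∀ j, PB (t.g.val j)

lemma GOk.nil : GOk ([] : Gp Λ κ) := ⟨by simp, by simp, by simp⟩

lemma GOk.append {g h : Gp Λ κ} (hg : GOk g) (hh : GOk h) : GOk (g ++ h) :=
  ⟨fun m hm => (List.mem_append.1 hm).elim (hg.c m) (hh.c m),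
    fun m hm => (List.mem_append.1 hm).elim (hg.im m) (hh.im m),
    fun m hm => (List.mem_append.1 hm).elim (hg.pb m) (hh.pb m)⟩

lemma GOk.sub {g h : Gp Λ κ} (hg : GOk g) (hh : ∀ m ∈ h, m ∈ g) : GOk h :=
  ⟨fun m hm => hg.c m (hh m hm), fun m hm => hg.im m (hh m hm), fun m hm => hg.pb m (hh m hm)⟩

lemma rs_all {F : DT Λ κ → Prop} (p : ℕ) {t : DT Λ κ} (h : t.All F) : ∀ s ∈ rs p t, s.All F := by
  induction t with
  | leaf r f => intro s hs; simp only [rs, List.mem_singleton] at hs; rw [hs]; exact h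
  | br q w r t₁ t₀ v B G => intro s hs; simp only [rs, List.mem_singleton] at hs; rw [hs]; exact h
  | add q r t₁ t₀ ih₁ ih₀ =>
    intro s hs
    unfold rs at hs
    split_ifs at hs with hq
    · rcases List.mem_append.1 hs with hs | hs
      · exact ih₁ h.2.1 s hs
      · exact ih₀ h.2.2 s hs
    · rw [List.mem_singleton.1 hs]; exact h
  | up q Sp t ih =>
    intro s hs
    unfold rs at hs
    split_ifs at hs with hq
    · exact ih h.2 s hs
    · rw [List.mem_singleton.1 hs]; exact h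

lemma mem_rsG {p : ℕ} {g : Gp Λ κ} {m : ℝ × DT Λ κ} (h : m ∈ rsG p g) :
    ∃ m' ∈ g, m.1 = m'.1 ∧ m.2 ∈ rs p m'.2 := by
  obtain ⟨m', hm', h2⟩ := List.mem_flatMap.1 h
  obtain ⟨t, ht, rfl⟩ := List.mem_map.1 h2
  exact ⟨m', hm', rfl, ht⟩

lemma GOk.rsG {p : ℕ} {g : Gp Λ κ} (h : GOk g) : GOk (rsG p g) := by
  refine ⟨fun m hm => ?_, fun m hm => ?_, fun m hm => ?_⟩ <;> obtain ⟨m', h1, h2, h3⟩ := mem_rsG hm
  · rw [h2]; exact h.c m' h1
  · exact rs_all p (h.im m' h1) _ h3
  · exact rs_all p (h.pb m' h1) _ h3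

lemma GOk.gB {p : ℕ} {g : Gp Λ κ} (h : GOk g) : GOk (gB p g) :=
  (h.rsG (p := p)).sub fun m hm => (List.mem_filter.1 hm).1

lemma GOk.gR {p : ℕ} {g : Gp Λ κ} (h : GOk g) : GOk (gR p g) :=
  (h.rsG (p := p)).sub fun m hm => (List.mem_filter.1 hm).1

lemma isB_eq {p : ℕ} {t : DT Λ κ} (h : isB p t = true) : ∃ w r t₁ t₀ v B G,
    t = .br p w r t₁ t₀ v B G := by
  cases t with
  | leaf r f => simp [isB] at h
  | br q w r t₁ t₀ v B G =>
    have hq : q = p := by simpa [isB] using h
    exact ⟨w, r, t₁, t₀, v, B, G, by rw [hq]⟩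
  | add q r t₁ t₀ => simp [isB] at h
  | up q Sp t => simp [isB] at h

lemma mem_gB {p : ℕ} {g : Gp Λ κ} {m : ℝ × DT Λ κ} (h : m ∈ gB p g) :
    m ∈ rsG p g ∧ isB p m.2 = true := List.mem_filter.1 h

lemma mem_gC {p : ℕ} {g : Gp Λ κ} {m : ℝ × DT Λ κ} (h : m ∈ gC p g) :
    ∃ m' ∈ gB p g, ∃ q ∈ chd m'.2, m = (m'.1 * q.1, q.2) := by
  obtain ⟨m', hm', h2⟩ := List.mem_flatMap.1 h
  obtain ⟨q, hq, rfl⟩ := List.mem_map.1 h2
  exact ⟨m', hm', q, hq, rfl⟩

lemma GOk.gC {p : ℕ} {g : Gp Λ κ} (h : GOk g) : GOk (gC p g) := by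
  have hB := h.gB (p := p)
  refine ⟨fun m hm => ?_, fun m hm => ?_, fun m hm => ?_⟩ <;>
    obtain ⟨m', h1, q, h2, rfl⟩ := mem_gC hm <;>
    obtain ⟨w, r, t₁, t₀, v, B, G, e⟩ := isB_eq (mem_gB h1).2
  · have h3 := (hB.im m' h1).self
    rw [e] at h2 h3
    simp only [chd, List.mem_cons, List.not_mem_nil, or_false] at h2
    rcases h2 with rfl | rfl
    · exact mul_nonneg (hB.c m' h1) (by linarith [h3.2.2.1])
    · exact mul_nonneg (hB.c m' h1) h3.2.1
  · have h3 := hB.im m' h1
    rw [e] at h2 h3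
    simp only [chd, List.mem_cons, List.not_mem_nil, or_false] at h2
    rcases h2 with rfl | rfl
    · exact h3.2.1
    · exact h3.2.2
  · have h3 := hB.pb m' h1
    rw [e] at h2 h3
    simp only [chd, List.mem_cons, List.not_mem_nil, or_false] at h2
    rcases h2 with rfl | rfl
    · exact h3.2.1
    · exact h3.2.2

lemma PB_gval {g : Gp Λ κ} (h : GOk g) (j : Λ) : PB (gval g j) := by
  induction g with
  | nil =>
    have e : gval ([] : Gp Λ κ) j = fun _ => 0 := rfl
    rw [e]; exact PB.const le_rfl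
  | cons m g ih =>
    have e : gval (m :: g) j = fun x => m.1 * m.2.g.val j x + gval g j x :=
      funext fun x => gval_cons m g j x
    rw [e]
    exact (((h.pb m (by simp)).self j).smul (h.c m (by simp))).add
      (ih (h.sub fun a ha => List.mem_cons_of_mem _ ha))

/-- **the mean of the tie part is the function of the children** -/
lemma Ep_gB {p : ℕ} {g : Gp Λ κ} (h : GOk g) (j : Λ) (y : ℝ) :
    Ep p (gval (gB p g) j) y = gval (gC p g) j y := by
  unfold gC
  have hB : GOk (gB p g) := h.gB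
  have hb : ∀ m ∈ gB p g, isB p m.2 = true := fun m hm => (mem_gB hm).2
  revert hB hb
  induction gB p g with
  | nil =>
    intro _ _
    show Ep p (fun _ => (0 : ℝ)) y = 0
    unfold Ep; simp
  | cons m g ih =>
    intro hB hb
    obtain ⟨w, r, t₁, t₀, v, B, G, e⟩ := isB_eq (hb m (by simp))
    have h3 := (hB.im m (by simp)).self
    rw [e] at h3
    have e1 : gval (m :: g) j = fun x => m.1 * m.2.g.val j x + gval g j x :=
      funext fun x => gval_cons m g j x
    rw [e1, Ep_add, Ep_smul, ih (hB.sub fun a ha => List.mem_cons_of_mem _ ha)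
      (fun a ha => hb a (List.mem_cons_of_mem _ ha)), List.flatMap_cons, gval_append]
    congr 1
    rw [e]
    show m.1 * Ep p (v j) y = gval [(m.1 * (1 - w), t₁), (m.1 * w, t₀)] j y
    rw [h3.2.2.2, gval_cons, gval_cons, gval_nil]
    ring

/-! ### the sums over the product walk of a group -/

/-- sum of the local terms of the tie parts over the product walk -/
noncomputable def GS (loc : ℕ → Gp Λ κ → ℝ) : ℕ → ℕ → Gp Λ κ → ℝ
  | 0, _, _ => 0
  | n + 1, p, g => if p = 0 then 0 else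
      loc p (gB p g) + GS loc n p (gC p g) + GS loc n (p - 1) (gR p g)

/-- the same for two groups -/
noncomputable def PS (ℓ : ℕ → Gp Λ κ → Gp Λ κ → ℝ) : ℕ → ℕ → Gp Λ κ → Gp Λ κ → ℝ
  | 0, _, _, _ => 0
  | n + 1, p, g, h => if p = 0 then 0 else
      ℓ p (gB p g) (gB p h) + PS ℓ n p (gC p g) (gC p h) + PS ℓ n (p - 1) (gR p g) (gR p h)

lemma PS_self (ℓ : ℕ → Gp Λ κ → Gp Λ κ → ℝ) (n p : ℕ) (g : Gp Λ κ) :
    PS ℓ n p g g = GS (fun p g => ℓ p g g) n p g := by
  induction n generalizing p g with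
  | zero => rfl
  | succ n ih =>
    unfold PS GS
    split_ifs
    · rfl
    · rw [ih, ih]

/-- monotony in the local terms -/
lemma GS_mono {loc loc' : ℕ → Gp Λ κ → ℝ} (h : ∀ p g, GOk g → (∀ m ∈ g, isB p m.2 = true) →
    loc p g ≤ loc' p g) : ∀ (n p : ℕ) (g : Gp Λ κ), GOk g → GS loc n p g ≤ GS loc' n p g := by
  intro n
  induction n with
  | zero => intro p g _; exact le_rfl
  | succ n ih =>
    intro p g hg
    unfold GS
    split_ifs with hp
    · exact le_rfl
    · exact add_le_add (add_le_add (h p _ hg.gB fun m hm => (mem_gB hm).2) (ih p _ hg.gC))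
        (ih (p - 1) _ hg.gR)

lemma GS_add (loc loc' : ℕ → Gp Λ κ → ℝ) : ∀ (n p : ℕ) (g : Gp Λ κ),
    GS (fun p g => loc p g + loc' p g) n p g = GS loc n p g + GS loc' n p g := by
  intro n
  induction n with
  | zero => intro p g; simp [GS]
  | succ n ih =>
    intro p g
    unfold GS
    split_ifs with hp
    · simp
    · rw [ih, ih]; ring

lemma GS_smul (c : ℝ) (loc : ℕ → Gp Λ κ → ℝ) : ∀ (n p : ℕ) (g : Gp Λ κ),
    GS (fun p g => c * loc p g) n p g = c * GS loc n p g := by
  intro n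
  induction n with
  | zero => intro p g; simp [GS]
  | succ n ih =>
    intro p g
    unfold GS
    split_ifs with hp
    · simp
    · rw [ih, ih]; ring

lemma GS_nonneg {loc : ℕ → Gp Λ κ → ℝ} (h : ∀ p g, GOk g → (∀ m ∈ g, isB p m.2 = true) →
    0 ≤ loc p g) (n p : ℕ) (g : Gp Λ κ) (hg : GOk g) : 0 ≤ GS loc n p g := by
  induction n generalizing p g with
  | zero => exact le_rfl
  | succ n ih =>
    unfold GS
    split_ifs with hp
    · exact le_rfl
    · exact add_nonneg (add_nonneg (h p _ hg.gB fun m hm => (mem_gB hm).2) (ih p _ hg.gC))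
        (ih (p - 1) _ hg.gR)

/-! ### bilinearity -/

lemma PS_add_left {ℓ : ℕ → Gp Λ κ → Gp Λ κ → ℝ}
    (hl : ∀ p g g' h, ℓ p (g ++ g') h = ℓ p g h + ℓ p g' h) : ∀ (n p : ℕ) (g g' h : Gp Λ κ),
    PS ℓ n p (g ++ g') h = PS ℓ n p g h + PS ℓ n p g' h := by
  intro n
  induction n with
  | zero => intro p g g' h; simp [PS]
  | succ n ih =>
    intro p g g' h
    unfold PS
    split_ifs with hp
    · simp
    · rw [gB_append, gC_append, gR_append, hl, ih, ih]; ring

lemma PS_add_right {ℓ : ℕ → Gp Λ κ → Gp Λ κ → ℝ}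
    (hl : ∀ p g h h', ℓ p g (h ++ h') = ℓ p g h + ℓ p g h') : ∀ (n p : ℕ) (g h h' : Gp Λ κ),
    PS ℓ n p g (h ++ h') = PS ℓ n p g h + PS ℓ n p g h' := by
  intro n
  induction n with
  | zero => intro p g g' h; simp [PS]
  | succ n ih =>
    intro p g g' h
    unfold PS
    split_ifs with hp
    · simp
    · rw [gB_append, gC_append, gR_append, hl, ih, ih]; ring

lemma PS_sm_left {ℓ : ℕ → Gp Λ κ → Gp Λ κ → ℝ} {c : ℝ}
    (hl : ∀ p g h, ℓ p (smG c g) h = c * ℓ p g h) : ∀ (n p : ℕ) (g h : Gp Λ κ),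
    PS ℓ n p (smG c g) h = c * PS ℓ n p g h := by
  intro n
  induction n with
  | zero => intro p g h; simp [PS]
  | succ n ih =>
    intro p g h
    unfold PS
    split_ifs with hp
    · simp
    · rw [gB_smG, gC_smG, gR_smG, hl, ih, ih]; ring

lemma PS_sm_right {ℓ : ℕ → Gp Λ κ → Gp Λ κ → ℝ} {c : ℝ}
    (hl : ∀ p g h, ℓ p g (smG c h) = c * ℓ p g h) : ∀ (n p : ℕ) (g h : Gp Λ κ),
    PS ℓ n p g (smG c h) = c * PS ℓ n p g h := by
  intro n
  induction n with
  | zero => intro p g h; simp [PS]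
  | succ n ih =>
    intro p g h
    unfold PS
    split_ifs with hp
    · simp
    · rw [gB_smG, gC_smG, gR_smG, hl, ih, ih]; ring

/-! ### energies of a static equivalence relation -/

section energy
variable [Fintype Λ] {δ : Type*} [Fintype δ] [DecidableEq δ]

/-- class functions of a group -/
noncomputable def cval (κd : Λ → δ) (g : Gp Λ κ) (d : δ) (x : ℝ) : ℝ :=
  ∑ j ∈ Finset.univ.filter (fun j => κd j = d), gval g j x

lemma PB_cval (κd : Λ → δ) {g : Gp Λ κ} (h : GOk g) (d : δ) : PB (cval κd g d) :=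
  PB.sum _ fun j _ => PB_gval h j

/-- the energy of a group -/
noncomputable def En (κd : Λ → δ) (g : Gp Λ κ) : ℝ := ∑ d, I (fun x => cval κd g d x ^ 2)

lemma En_nonneg (κd : Λ → δ) (g : Gp Λ κ) : 0 ≤ En κd g :=
  Finset.sum_nonneg fun d _ => I_nonneg fun x => sq_nonneg _

/-- the covariance of a group at the column `p` -/
noncomputable def Cov (κd : Λ → δ) (p : ℕ) (g : Gp Λ κ) : ℝ :=
  ∑ d, (I (fun x => cval κd g d x ^ 2) - I (fun y => Ep p (cval κd g d) y ^ 2))

lemma cval_split (κd : Λ → δ) (p : ℕ) (g : Gp Λ κ) (d : δ) (x : ℝ) :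
    cval κd g d x = cval κd (gB p g) d x + cval κd (gR p g) d x := by
  unfold cval
  rw [← Finset.sum_add_distrib]
  exact Finset.sum_congr rfl fun j _ => gval_split p g j x

lemma En_split (κd : Λ → δ) (p : ℕ) {g : Gp Λ κ} (h : GOk g) :
    En κd (gB p g) + En κd (gR p g) ≤ En κd g := by
  unfold En
  rw [← Finset.sum_add_distrib]
  refine Finset.sum_le_sum fun d _ => ?_
  have p1 := PB_cval κd (h.gB (p := p)) d
  have p2 := PB_cval κd (h.gR (p := p)) d
  have p3 := PB_cval κd h d
  rw [← I_add (PBsq p1).integrableOn (PBsq p2).integrableOn]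
  refine I_mono ((PBsq p1).add (PBsq p2)).integrableOn (PBsq p3).integrableOn fun x => ?_
  rw [cval_split κd p g d x]
  nlinarith [mul_nonneg (p1.nonneg x) (p2.nonneg x)]

lemma Ep_sum' {ι : Type*} (s : Finset ι) (p : ℕ) (f : ι → ℝ → ℝ) (y : ℝ) :
    Ep p (fun x => ∑ i ∈ s, f i x) y = ∑ i ∈ s, Ep p (f i) y := by
  unfold Ep
  rw [Finset.sum_comm, Finset.sum_div]

lemma Ep_cval (κd : Λ → δ) {p : ℕ} {g : Gp Λ κ} (h : GOk g) (d : δ) (y : ℝ) :
    Ep p (cval κd (gB p g) d) y = cval κd (gC p g) d y := by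
  show Ep p (fun x => ∑ j ∈ Finset.univ.filter (fun j => κd j = d), gval (gB p g) j x) y = _
  rw [Ep_sum']
  exact Finset.sum_congr rfl fun j _ => Ep_gB h j y

lemma En_gB (κd : Λ → δ) {p : ℕ} {g : Gp Λ κ} (h : GOk g) :
    En κd (gB p g) = Cov κd p (gB p g) + En κd (gC p g) := by
  unfold En Cov
  rw [← Finset.sum_add_distrib]
  refine Finset.sum_congr rfl fun d _ => ?_
  have e : (fun y => Ep p (cval κd (gB p g) d) y ^ 2) = fun x => cval κd (gC p g) d x ^ 2 :=
    funext fun y => by rw [Ep_cval κd h]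
  rw [e]; ring

/-- **THE IDENTITY** (as an inequality): the covariances of a static equivalence relation are
bounded by the energy at the start -/
theorem GS_cov_le (κd : Λ → δ) : ∀ (n p : ℕ) (g : Gp Λ κ), GOk g →
    GS (fun p g => Cov κd p g) n p g ≤ En κd g := by
  intro n
  induction n with
  | zero => intro p g hg; exact En_nonneg κd g
  | succ n ih =>
    intro p g hg
    unfold GS
    split_ifs with hp
    · exact En_nonneg κd g
    · have h1 := ih p _ (hg.gC (p := p))
      have h2 := ih (p - 1) _ (hg.gR (p := p))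
      have h3 := En_split κd p hg
      have h4 := En_gB κd (p := p) hg
      linarith

end energy

end Crest.Agent.R4P.Grp36
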