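import Crest.Agent.R4P.WalkS560
import Crest.Agent.R4.WalkR560

/-!
R4 (S0004), powers pass, module D, helper35: the **cross walk** of the crossing pairs on the trees with
powers (replaces `R4/WalkYR560`).

States = states `St` of the pair walk, measure = `St.rank`, invariant = `Inv` of the pair walk. `stp` is any
stop rule. Leaves are walked through (`vw` of a leaf is `up ∅`); the walk ends at (leaf, leaf) and at stops.

* pre-steps (`isPL`, `isPR`) as in the pair walk (free steps, pulls);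
* (tie, tie): three children continue, both missing is an exit (weight `w w'`);
* (tie, up / absent / leaf): the part with the prime (`A' ∩ Sp`): both children continue; the part
  without: the present child continues, the missing child is an exit (weight `w`);
* an `add` node is split (both children continue, the other side whole), no cost;
* (up, up): one child, no split.

`walkC_bound` : `Qs s ≤ B μ μ' + WC (eAllC) s`;  `Xs_le_WC`; wrappers for `WC`.
-/

set_option autoImplicit false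
set_option linter.unusedSectionVars false
set_option linter.unusedVariables false
open MeasureTheory Filter Set

namespace Crest.Agent.R4P.WalkC

open Crest.Agent.R4.Tour104 Crest.Agent.R4.Tour758 Crest.Agent.R4.Avg758 Crest.Agent.R4.Clos758
open Crest.Agent.R4.ClosL758 Crest.Agent.R4.ClosG758 Crest.Agent.R4.ClosR758
open Crest.Agent.R4P.ClosR442 Crest.Agent.R4P.Walk560

export Crest.Agent.R4.WalkR560 (avg_comp_sm QR_col2 QR_col1 rv_split_fun)

variable {Λ κ : Type*} [Fintype Λ] [DecidableEq Λ] [DecidableEq κ] [WRel κ]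

open Classical in
/-- continuing states of the cross walk, with the phantom states (weight `0`) of the pulls -/
noncomputable def nxt0C (stp : St Λ κ → Prop) (s : St Λ κ) : List (ℝ × St Λ κ) :=
  if s.t.isLeaf ∧ s.t'.isLeaf then [] else if stp s then [] else
  if s.isPL then s.stL else if s.isPR then s.stR else
  match vw s.p s.t, vw s.p s.t' with
  | .br w r t₁ t₀ _ _ _, .br w' _ t₁' t₀' _ _ _ =>
      [((1 - w) * (1 - w'), { s with R := Ro r, t := t₁, t' := t₁' }),
       ((1 - w) * w', { s with R := Ro r, t := t₁, t' := t₀' }),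
       (w * (1 - w'), { s with R := Ro r, t := t₀, t' := t₁' })]
  | .br w r t₁ t₀ _ _ _, .up Sp u =>
      if s.p ∣ s.M' then
        [(1 - w, { s with M' := s.p * s.M', O := insert s.p s.O, R := Ro r, t := t₁, t' := u })]
      else
      [(1 - w, { s with M' := s.p * s.M', O := insert s.p s.O, R := Ro r, t := t₁, t' := u, A' := s.A' ∩ Sp }),
       (w, { s with M' := s.p * s.M', O := insert s.p s.O, R := Ro r, t := t₀, t' := u, A' := s.A' ∩ Sp }),
       (1 - w, { s with M' := s.p * s.M', O := insert s.p s.O, R := Ro r, t := t₁, t' := u, A' := s.A' \ Sp })]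
  | .up Sp u, .br w r t₁' t₀' _ _ _ =>
      if s.p ∣ s.M then
        [(1 - w, { s with M := s.p * s.M, O' := insert s.p s.O', R := Ro r, t := u, t' := t₁' })]
      else
      [(1 - w, { s with M := s.p * s.M, O' := insert s.p s.O', R := Ro r, t := u, A := s.A ∩ Sp, t' := t₁' }),
       (w, { s with M := s.p * s.M, O' := insert s.p s.O', R := Ro r, t := u, A := s.A ∩ Sp, t' := t₀' }),
       (1 - w, { s with M := s.p * s.M, O' := insert s.p s.O', R := Ro r, t := u, A := s.A \ Sp, t' := t₁' })]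
  | .add _ t₁ t₀, _ => [(1, { s with t := t₁ }), (1, { s with t := t₀ })]
  | _, .add _ t₁' t₀' => [(1, { s with t' := t₁' }), (1, { s with t' := t₀' })]
  | .up _ u, .up _ u' => [(1, { s with t := u, t' := u' })]

open Classical in
/-- the continuing states of the cross walk -/
noncomputable def nxtC (stp : St Λ κ → Prop) (s : St Λ κ) : List (ℝ × St Λ κ) :=
  (nxt0C stp s).filter fun q => q.1 ≠ 0

lemma mem_nxtC {stp : St Λ κ → Prop} {s : St Λ κ} {q : ℝ × St Λ κ} :
    q ∈ nxtC stp s ↔ q ∈ nxt0C stp s ∧ q.1 ≠ 0 := by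
  simp [nxtC, List.mem_filter]

/-- the phantom states do not contribute -/
lemma nxtC_sum (stp : St Λ κ → Prop) (s : St Λ κ) (F : St Λ κ → ℝ) :
    ((nxtC stp s).map fun q => q.1 * F q.2).sum = ((nxt0C stp s).map fun q => q.1 * F q.2).sum := by
  unfold nxtC
  induction nxt0C stp s with
  | nil => rfl
  | cons a l ih =>
    by_cases h : a.1 = 0
    · rw [List.filter_cons_of_neg (by simp [h]), ih, List.map_cons, List.sum_cons, h]
      simp
    · rw [List.filter_cons_of_pos (by simp [h]), List.map_cons, List.sum_cons, ih, List.map_cons,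
        List.sum_cons]

lemma leaf_top {t : DT Λ κ} (h : t.isLeaf) : t.top = 0 := by
  cases t with
  | leaf r f => rfl
  | br _ _ _ _ _ _ _ _ => exact absurd h id
  | add _ _ _ _ => exact absurd h id
  | up _ _ _ => exact absurd h id

/-- a state which is not (leaf, leaf): one side is no leaf and has the column `s.p` -/
lemma live (n : ℕ) {s : St Λ κ} (hL : s.t.Col n) (hR : s.t'.Col n)
    (h : ¬ (s.t.isLeaf ∧ s.t'.isLeaf)) :
    (¬ s.t.isLeaf ∧ s.t.top = s.p) ∨ (¬ s.t'.isLeaf ∧ s.t'.top = s.p) := by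
  have hp : s.p = max s.t.top s.t'.top := rfl
  by_cases hl : s.t.isLeaf
  · have hl' : ¬ s.t'.isLeaf := fun h' => h ⟨hl, h'⟩
    right
    refine ⟨hl', ?_⟩
    rw [hp, leaf_top hl, max_eq_right (Nat.zero_le _)]
  · by_cases hl' : s.t'.isLeaf
    · left
      refine ⟨hl, ?_⟩
      rw [hp, leaf_top hl', max_eq_left (Nat.zero_le _)]
    · rcases le_total s.t.top s.t'.top with h1 | h1
      · right; exact ⟨hl', by rw [hp, max_eq_right h1]⟩
      · left; exact ⟨hl, by rw [hp, max_eq_left h1]⟩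

/-- the same without columns -/
lemma live' {s : St Λ κ} (h : ¬ (s.t.isLeaf ∧ s.t'.isLeaf)) :
    (¬ s.t.isLeaf ∧ s.t.top = s.p) ∨ (¬ s.t'.isLeaf ∧ s.t'.top = s.p) := by
  have hp : s.p = max s.t.top s.t'.top := rfl
  by_cases hl : s.t.isLeaf
  · have hl' : ¬ s.t'.isLeaf := fun h' => h ⟨hl, h'⟩
    right
    refine ⟨hl', ?_⟩
    rw [hp, leaf_top hl, max_eq_right (Nat.zero_le _)]
  · by_cases hl' : s.t'.isLeaf
    · left
      refine ⟨hl, ?_⟩
      rw [hp, leaf_top hl', max_eq_left (Nat.zero_le _)]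
    · rcases le_total s.t.top s.t'.top with h1 | h1
      · right; exact ⟨hl', by rw [hp, max_eq_right h1]⟩
      · left; exact ⟨hl, by rw [hp, max_eq_left h1]⟩

set_option maxHeartbeats 1000000 in
lemma nxt0C_rank (stp : St Λ κ → Prop) (s : St Λ κ) : ∀ q ∈ nxt0C stp s, q.2.rank < s.rank := by
  intro q hq
  unfold nxt0C at hq
  by_cases h1 : s.t.isLeaf ∧ s.t'.isLeaf
  · simp [h1] at hq
  by_cases h2 : stp s
  · simp [h1, h2] at hq
  rw [if_neg h1, if_neg h2] at hq
  by_cases hPL : s.isPL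
  · rw [if_pos hPL] at hq
    obtain ⟨w, r, t₁, t₀, v, B, G, -, et, ⟨-, e⟩ | ⟨-, -, e⟩⟩ := St.isPL_cases hPL <;>
    · have e' := congrArg DT.size et
      simp only [DT.size] at e'
      rw [e] at hq
      simp only [List.mem_cons, List.not_mem_nil, or_false] at hq
      rcases hq with rfl | rfl <;> simp only [St.rank, St.fL, St.pL] <;> omega
  by_cases hPR : s.isPR
  · rw [if_neg hPL, if_pos hPR] at hq
    obtain ⟨w, r, t₁, t₀, v, B, G, -, et, ⟨-, e⟩ | ⟨-, -, e⟩⟩ := St.isPR_cases hPR <;>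
    · have e' := congrArg DT.size et
      simp only [DT.size] at e'
      rw [e] at hq
      simp only [List.mem_cons, List.not_mem_nil, or_false] at hq
      rcases hq with rfl | rfl <;> simp only [St.rank, St.fR, St.pR] <;> omega
  rw [if_neg hPL, if_neg hPR] at hq
  rcases hv : vw s.p s.t with ⟨w, r, t₁, t₀, v, B, G⟩ | ⟨r, t₁, t₀⟩ | ⟨Sp, u⟩ <;>
  rcases hv' : vw s.p s.t' with ⟨w', r', t₁', t₀', v', B', G'⟩ | ⟨r', t₁', t₀'⟩ | ⟨Sp', u'⟩ <;>
  simp only [hv, hv'] at hq
  · have e := congrArg DT.size (vw_br hv)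
    have e' := congrArg DT.size (vw_br hv')
    simp only [DT.size] at e e'
    simp only [List.mem_cons, List.not_mem_nil, or_false] at hq
    rcases hq with rfl | rfl | rfl <;> simp only [St.rank] <;> omega
  · have e' := congrArg DT.size (vw_add hv')
    simp only [DT.size] at e'
    simp only [List.mem_cons, List.not_mem_nil, or_false] at hq
    rcases hq with rfl | rfl <;> simp only [St.rank] <;> omega
  · have e := congrArg DT.size (vw_br hv)
    have e' := vw_up_size hv'
    simp only [DT.size] at e e'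
    split_ifs at hq
    · simp only [List.mem_cons, List.not_mem_nil, or_false] at hq
      subst hq
      simp only [St.rank]; omega
    simp only [List.mem_cons, List.not_mem_nil, or_false] at hq
    rcases hq with rfl | rfl | rfl <;> simp only [St.rank] <;> omega
  · have e := congrArg DT.size (vw_add hv)
    simp only [DT.size] at e
    simp only [List.mem_cons, List.not_mem_nil, or_false] at hq
    rcases hq with rfl | rfl <;> simp only [St.rank] <;> omega
  · have e := congrArg DT.size (vw_add hv)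
    simp only [DT.size] at e
    simp only [List.mem_cons, List.not_mem_nil, or_false] at hq
    rcases hq with rfl | rfl <;> simp only [St.rank] <;> omega
  · have e := congrArg DT.size (vw_add hv)
    simp only [DT.size] at e
    simp only [List.mem_cons, List.not_mem_nil, or_false] at hq
    rcases hq with rfl | rfl <;> simp only [St.rank] <;> omega
  · have e := vw_up_size hv
    have e' := congrArg DT.size (vw_br hv')
    simp only [DT.size] at e e'
    split_ifs at hq
    · simp only [List.mem_cons, List.not_mem_nil, or_false] at hq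
      subst hq
      simp only [St.rank]; omega
    simp only [List.mem_cons, List.not_mem_nil, or_false] at hq
    rcases hq with rfl | rfl | rfl <;> simp only [St.rank] <;> omega
  · have e' := congrArg DT.size (vw_add hv')
    simp only [DT.size] at e'
    simp only [List.mem_cons, List.not_mem_nil, or_false] at hq
    rcases hq with rfl | rfl <;> simp only [St.rank] <;> omega
  · have e := vw_up_size hv
    have e' := vw_up_size hv'
    simp only [List.mem_cons, List.not_mem_nil, or_false] at hq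
    subst hq
    rcases live' h1 with ⟨hl, ht⟩ | ⟨hl, ht⟩
    · have := vw_up_size_lt hv hl ht
      simp only [St.rank]; omega
    · have := vw_up_size_lt hv' hl ht
      simp only [St.rank]; omega

lemma nxtC_rank (stp : St Λ κ → Prop) (s : St Λ κ) : ∀ q ∈ nxtC stp s, q.2.rank < s.rank :=
  fun q hq => nxt0C_rank stp s q (mem_nxtC.1 hq).1

variable [Fintype κ] {wr : ℕ → Λ → κ} {Ad : TrG Λ κ → Finset Λ → Prop}
  {μ : TrG Λ κ → Finset Λ → ℝ} {ν : TrG Λ κ → ℝ} {n : ℕ}

/-- the column of a live state is a prime `≤ n` -/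
lemma p_primeC {s : St Λ κ} (h : Inv wr Ad μ ν n s) (h1 : ¬ (s.t.isLeaf ∧ s.t'.isLeaf)) :
    s.p.Prime ∧ s.p ≤ n := by
  rcases live' h1 with ⟨hl, ht⟩ | ⟨hl, ht⟩
  · have := col_top h.L.col hl
    rw [ht] at this
    exact ⟨this.1, Nat.lt_succ_iff.1 this.2⟩
  · have := col_top h.R.col hl
    rw [ht] at this
    exact ⟨this.1, Nat.lt_succ_iff.1 this.2⟩

set_option maxHeartbeats 1000000 in
/-- the invariant is preserved -/
theorem next0C {stp : St Λ κ → Prop} {s : St Λ κ} (h : Inv wr Ad μ ν n s) :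
    ∀ q ∈ nxt0C stp s, Inv wr Ad μ ν s.p q.2 ∧ 0 ≤ q.1 := by
  intro q hq
  unfold nxt0C at hq
  by_cases h1 : s.t.isLeaf ∧ s.t'.isLeaf
  · simp [h1] at hq
  by_cases h2 : stp s
  · simp [h1, h2] at hq
  rw [if_neg h1, if_neg h2] at hq
  obtain ⟨hpp, hpn⟩ := p_primeC h h1
  have hL := h.L
  have hR := h.R
  have hpL : s.t.top ≤ s.p := le_max_left _ _
  have hpR : s.t'.top ≤ s.p := le_max_right _ _
  have hLp := hL.down hpL
  have hRp := hR.down hpR
  have aL := h.aL
  have aR := h.aR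
  have aLp := aL.down hpn
  have aRp := aR.down hpn
  by_cases hPL : s.isPL
  · rw [if_pos hPL] at hq
    obtain ⟨w, r, t₁, t₀, v, B, G, -, et, h3⟩ := St.isPL_cases hPL
    rw [et] at hL
    obtain ⟨a1, a0, hb, -, -⟩ := hL.br
    have q1 : 0 ≤ 1 - w := by linarith [hb.w1]
    rcases h3 with ⟨hd, e⟩ | ⟨-, -, e⟩ <;> rw [e] at hq <;>
      simp only [List.mem_cons, List.not_mem_nil, or_false] at hq
    · rcases hq with rfl | rfl
      · exact ⟨⟨a1, hRp, aL.div hpn hpp hd, aRp⟩, q1⟩
      · exact ⟨⟨a0, hRp, aL.div hpn hpp hd, aRp⟩, hb.w0⟩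
    · rcases hq with rfl | rfl
      · exact ⟨⟨a1, hRp, aLp, aR.ins hpn hpp⟩, q1⟩
      · exact ⟨⟨a0, hRp, aLp, aR.ins hpn hpp⟩, hb.w0⟩
  by_cases hPR : s.isPR
  · rw [if_neg hPL, if_pos hPR] at hq
    obtain ⟨w, r, t₁, t₀, v, B, G, -, et, h3⟩ := St.isPR_cases hPR
    rw [et] at hR
    obtain ⟨a1, a0, hb, -, -⟩ := hR.br
    have q1 : 0 ≤ 1 - w := by linarith [hb.w1]
    rcases h3 with ⟨hd, e⟩ | ⟨-, -, e⟩ <;> rw [e] at hq <;>
      simp only [List.mem_cons, List.not_mem_nil, or_false] at hq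
    · rcases hq with rfl | rfl
      · exact ⟨⟨hLp, a1, aLp, aR.div hpn hpp hd⟩, q1⟩
      · exact ⟨⟨hLp, a0, aLp, aR.div hpn hpp hd⟩, hb.w0⟩
    · rcases hq with rfl | rfl
      · exact ⟨⟨hLp, a1, aL.ins hpn hpp, aRp⟩, q1⟩
      · exact ⟨⟨hLp, a0, aL.ins hpn hpp, aRp⟩, hb.w0⟩
  rw [if_neg hPL, if_neg hPR] at hq
  rcases hv : vw s.p s.t with ⟨w, r, t₁, t₀, v, B, G⟩ | ⟨r, t₁, t₀⟩ | ⟨Sp, u⟩ <;>
  rcases hv' : vw s.p s.t' with ⟨w', r', t₁', t₀', v', B', G'⟩ | ⟨r', t₁', t₀'⟩ | ⟨Sp', u'⟩ <;>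
  simp only [hv, hv'] at hq
  · -- br br
    rw [vw_br hv] at hL
    rw [vw_br hv'] at hR
    obtain ⟨a1, a0, hb, -, -⟩ := hL.br
    obtain ⟨b1, b0, hb', -, -⟩ := hR.br
    have q1 : 0 ≤ 1 - w := by linarith [hb.w1]
    have q2 : 0 ≤ 1 - w' := by linarith [hb'.w1]
    simp only [List.mem_cons, List.not_mem_nil, or_false] at hq
    rcases hq with rfl | rfl | rfl
    · exact ⟨⟨a1, b1, aLp, aRp⟩, mul_nonneg q1 q2⟩
    · exact ⟨⟨a1, b0, aLp, aRp⟩, mul_nonneg q1 hb'.w0⟩
    · exact ⟨⟨a0, b1, aLp, aRp⟩, mul_nonneg hb.w0 q2⟩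
  · -- br add
    rw [vw_add hv'] at hR
    obtain ⟨b1, b0⟩ := hR.add
    simp only [List.mem_cons, List.not_mem_nil, or_false] at hq
    rcases hq with rfl | rfl
    · exact ⟨⟨hLp, b1, aLp, aRp⟩, zero_le_one⟩
    · exact ⟨⟨hLp, b0, aLp, aRp⟩, zero_le_one⟩
  · -- br up
    rw [vw_br hv] at hL
    obtain ⟨a1, a0, hb, -, -⟩ := hL.br
    obtain ⟨b, b1, b0⟩ := hR.vwup hv' hpR hpp.pos
    have q1 : 0 ≤ 1 - w := by linarith [hb.w1]
    split_ifs at hq
    · simp only [List.mem_cons, List.not_mem_nil, or_false] at hq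
      subst hq
      exact ⟨⟨a1, b, aLp, aR.ins hpn hpp⟩, q1⟩
    simp only [List.mem_cons, List.not_mem_nil, or_false] at hq
    rcases hq with rfl | rfl | rfl
    · exact ⟨⟨a1, b1, aLp, aR.ins hpn hpp⟩, q1⟩
    · exact ⟨⟨a0, b1, aLp, aR.ins hpn hpp⟩, hb.w0⟩
    · exact ⟨⟨a1, b0, aLp, aR.ins hpn hpp⟩, q1⟩
  · -- add br
    rw [vw_add hv] at hL
    obtain ⟨a1, a0⟩ := hL.add
    simp only [List.mem_cons, List.not_mem_nil, or_false] at hq
    rcases hq with rfl | rfl
    · exact ⟨⟨a1, hRp, aLp, aRp⟩, zero_le_one⟩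
    · exact ⟨⟨a0, hRp, aLp, aRp⟩, zero_le_one⟩
  · -- add add
    rw [vw_add hv] at hL
    obtain ⟨a1, a0⟩ := hL.add
    simp only [List.mem_cons, List.not_mem_nil, or_false] at hq
    rcases hq with rfl | rfl
    · exact ⟨⟨a1, hRp, aLp, aRp⟩, zero_le_one⟩
    · exact ⟨⟨a0, hRp, aLp, aRp⟩, zero_le_one⟩
  · -- add up
    rw [vw_add hv] at hL
    obtain ⟨a1, a0⟩ := hL.add
    simp only [List.mem_cons, List.not_mem_nil, or_false] at hq
    rcases hq with rfl | rfl
    · exact ⟨⟨a1, hRp, aLp, aRp⟩, zero_le_one⟩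
    · exact ⟨⟨a0, hRp, aLp, aRp⟩, zero_le_one⟩
  · -- up br
    rw [vw_br hv'] at hR
    obtain ⟨b1, b0, hb, -, -⟩ := hR.br
    obtain ⟨a, a1, a0⟩ := hL.vwup hv hpL hpp.pos
    have q1 : 0 ≤ 1 - w' := by linarith [hb.w1]
    split_ifs at hq
    · simp only [List.mem_cons, List.not_mem_nil, or_false] at hq
      subst hq
      exact ⟨⟨a, b1, aL.ins hpn hpp, aRp⟩, q1⟩
    simp only [List.mem_cons, List.not_mem_nil, or_false] at hq
    rcases hq with rfl | rfl | rfl
    · exact ⟨⟨a1, b1, aL.ins hpn hpp, aRp⟩, q1⟩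
    · exact ⟨⟨a1, b0, aL.ins hpn hpp, aRp⟩, hb.w0⟩
    · exact ⟨⟨a0, b1, aL.ins hpn hpp, aRp⟩, q1⟩
  · -- up add
    rw [vw_add hv'] at hR
    obtain ⟨b1, b0⟩ := hR.add
    simp only [List.mem_cons, List.not_mem_nil, or_false] at hq
    rcases hq with rfl | rfl
    · exact ⟨⟨hLp, b1, aLp, aRp⟩, zero_le_one⟩
    · exact ⟨⟨hLp, b0, aLp, aRp⟩, zero_le_one⟩
  · -- up up
    obtain ⟨a, -, -⟩ := hL.vwup hv hpL hpp.pos
    obtain ⟨b, -, -⟩ := hR.vwup hv' hpR hpp.pos
    simp only [List.mem_cons, List.not_mem_nil, or_false] at hq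
    subst hq
    exact ⟨⟨a, b, aLp, aRp⟩, zero_le_one⟩

theorem nextC {stp : St Λ κ → Prop} {s : St Λ κ} (h : Inv wr Ad μ ν n s) :
    ∀ q ∈ nxtC stp s, Inv wr Ad μ ν s.p q.2 ∧ 0 ≤ q.1 :=
  fun q hq => next0C h q (mem_nxtC.1 hq).1

theorem nextC_pos {stp : St Λ κ → Prop} {s : St Λ κ} (h : Inv wr Ad μ ν n s) :
    ∀ q ∈ nxtC stp s, 0 < q.1 :=
  fun q hq => lt_of_le_of_ne (next0C h q (mem_nxtC.1 hq).1).2 (Ne.symm (mem_nxtC.1 hq).2)

/-- the invariant at some level -/
theorem nextCE {stp : St Λ κ → Prop} {s : St Λ κ} (h : ∃ n, Inv wr Ad μ ν n s) :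
    ∀ q ∈ nxtC stp s, (∃ n, Inv wr Ad μ ν n q.2) ∧ 0 ≤ q.1 := by
  obtain ⟨n, h⟩ := h
  exact fun q hq => ⟨⟨_, (nextC h q hq).1⟩, (nextC h q hq).2⟩

set_option maxHeartbeats 1000000 in
/-- node predicates are inherited by the continuing states -/
theorem nxt0C_all {stp : St Λ κ → Prop} {F : DT Λ κ → Prop} {s : St Λ κ} (h : s.t.All F)
    (h' : s.t'.All F) : ∀ q ∈ nxt0C stp s, q.2.t.All F ∧ q.2.t'.All F := by
  intro q hq
  unfold nxt0C at hq
  by_cases h1 : s.t.isLeaf ∧ s.t'.isLeaf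
  · simp [h1] at hq
  by_cases h2 : stp s
  · simp [h1, h2] at hq
  rw [if_neg h1, if_neg h2] at hq
  by_cases hPL : s.isPL
  · rw [if_pos hPL] at hq
    obtain ⟨w, r, t₁, t₀, v, B, G, -, et, ⟨-, e⟩ | ⟨-, -, e⟩⟩ := St.isPL_cases hPL <;>
    · rw [e] at hq
      have h3 := h
      rw [et] at h3
      simp only [List.mem_cons, List.not_mem_nil, or_false] at hq
      rcases hq with rfl | rfl
      · exact ⟨h3.2.1, h'⟩
      · exact ⟨h3.2.2, h'⟩
  by_cases hPR : s.isPR
  · rw [if_neg hPL, if_pos hPR] at hq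
    obtain ⟨w, r, t₁, t₀, v, B, G, -, et, ⟨-, e⟩ | ⟨-, -, e⟩⟩ := St.isPR_cases hPR <;>
    · rw [e] at hq
      have h3 := h'
      rw [et] at h3
      simp only [List.mem_cons, List.not_mem_nil, or_false] at hq
      rcases hq with rfl | rfl
      · exact ⟨h, h3.2.1⟩
      · exact ⟨h, h3.2.2⟩
  rw [if_neg hPL, if_neg hPR] at hq
  rcases hv : vw s.p s.t with ⟨w, r, t₁, t₀, v, B, G⟩ | ⟨r, t₁, t₀⟩ | ⟨Sp, u⟩ <;>
  rcases hv' : vw s.p s.t' with ⟨w', r', t₁', t₀', v', B', G'⟩ | ⟨r', t₁', t₀'⟩ | ⟨Sp', u'⟩ <;>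
  simp only [hv, hv'] at hq <;> try simp only [List.mem_cons, List.not_mem_nil, or_false] at hq
  · rw [vw_br hv] at h
    rw [vw_br hv'] at h'
    rcases hq with rfl | rfl | rfl
    · exact ⟨h.2.1, h'.2.1⟩
    · exact ⟨h.2.1, h'.2.2⟩
    · exact ⟨h.2.2, h'.2.1⟩
  · rw [vw_add hv'] at h'
    rcases hq with rfl | rfl
    · exact ⟨h, h'.2.1⟩
    · exact ⟨h, h'.2.2⟩
  · rw [vw_br hv] at h
    have b := vw_up_all hv' h'
    split_ifs at hq
    · simp only [List.mem_cons, List.not_mem_nil, or_false] at hq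
      subst hq
      exact ⟨h.2.1, b⟩
    simp only [List.mem_cons, List.not_mem_nil, or_false] at hq
    rcases hq with rfl | rfl | rfl
    · exact ⟨h.2.1, b⟩
    · exact ⟨h.2.2, b⟩
    · exact ⟨h.2.1, b⟩
  · rw [vw_add hv] at h
    rcases hq with rfl | rfl
    · exact ⟨h.2.1, h'⟩
    · exact ⟨h.2.2, h'⟩
  · rw [vw_add hv] at h
    rcases hq with rfl | rfl
    · exact ⟨h.2.1, h'⟩
    · exact ⟨h.2.2, h'⟩
  · rw [vw_add hv] at h
    rcases hq with rfl | rfl
    · exact ⟨h.2.1, h'⟩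
    · exact ⟨h.2.2, h'⟩
  · rw [vw_br hv'] at h'
    have b := vw_up_all hv h
    split_ifs at hq
    · simp only [List.mem_cons, List.not_mem_nil, or_false] at hq
      subst hq
      exact ⟨b, h'.2.1⟩
    simp only [List.mem_cons, List.not_mem_nil, or_false] at hq
    rcases hq with rfl | rfl | rfl
    · exact ⟨b, h'.2.1⟩
    · exact ⟨b, h'.2.2⟩
    · exact ⟨b, h'.2.1⟩
  · rw [vw_add hv'] at h'
    rcases hq with rfl | rfl
    · exact ⟨h, h'.2.1⟩
    · exact ⟨h, h'.2.2⟩
  · subst hq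
    exact ⟨vw_up_all hv h, vw_up_all hv' h'⟩

theorem nxtC_all {stp : St Λ κ → Prop} {F : DT Λ κ → Prop} {s : St Λ κ} (h : s.t.All F)
    (h' : s.t'.All F) : ∀ q ∈ nxtC stp s, q.2.t.All F ∧ q.2.t'.All F :=
  fun q hq => nxt0C_all h h' q (mem_nxtC.1 hq).1

/-! ### local errors -/

open Classical in
/-- cost of a stop and of the end -/
noncomputable def eSTOPC (stp : St Λ κ → Prop) (μ : TrG Λ κ → Finset Λ → ℝ) (B : ℝ)
    (s : St Λ κ) : ℝ :=
  if (s.t.isLeaf ∧ s.t'.isLeaf) ∨ stp s then Xs μ B s else 0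

/-- states at which a column is processed which is not a pre-step -/
def Gen (stp : St Λ κ → Prop) (s : St Λ κ) : Prop :=
  ¬ (s.t.isLeaf ∧ s.t'.isLeaf) ∧ ¬ stp s ∧ ¬ s.isPL ∧ ¬ s.isPR

open Classical in
/-- two-sided near misses -/
noncomputable def eNMC (stp : St Λ κ → Prop) (s : St Λ κ) : ℝ :=
  if Gen stp s then
  match vw s.p s.t, vw s.p s.t' with
  | .br _ r _ _ _ _ G, .br _ _ _ _ _ _ G' =>
      Q (orel κ) (avg s.M (rk s.A r G)) (avg s.M' (rk s.A' r G'))
  | _, _ => 0 else 0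

open Classical in
/-- one-sided columns, both parts of the other side -/
noncomputable def eONEC (stp : St Λ κ → Prop) (s : St Λ κ) : ℝ :=
  if Gen stp s then
  match vw s.p s.t, vw s.p s.t' with
  | .br _ r _ _ _ _ G, .up Sp u =>
      if s.p ∣ s.M' then os (orel κ) s.p (avg s.M (rk s.A r G)) (sm r (avg s.M' (rv s.A' u.g.val)))
      else
      os (orel κ) s.p (avg s.M (rk s.A r G)) (sm r (avg s.M' (rv (s.A' ∩ Sp) u.g.val))) +
      os (orel κ) s.p (avg s.M (rk s.A r G)) (sm r (avg s.M' (rv (s.A' \ Sp) u.g.val)))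
  | .up Sp u, .br _ r _ _ _ _ G =>
      if s.p ∣ s.M then os (orel κ) s.p (avg s.M' (rk s.A' r G)) (sm r (avg s.M (rv s.A u.g.val)))
      else
      os (orel κ) s.p (avg s.M' (rk s.A' r G)) (sm r (avg s.M (rv (s.A ∩ Sp) u.g.val))) +
      os (orel κ) s.p (avg s.M' (rk s.A' r G)) (sm r (avg s.M (rv (s.A \ Sp) u.g.val)))
  | _, _ => 0 else 0

open Classical in
/-- pairs which are in one world below but not above -/
noncomputable def eSHRC (stp : St Λ κ → Prop) (s : St Λ κ) : ℝ :=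
  if (s.t.isLeaf ∧ s.t'.isLeaf) ∨ stp s then 0 else
  if s.isPL then s.shr (vw s.p s.t) else if s.isPR then s.shr (vw s.p s.t') else
  match vw s.p s.t, vw s.p s.t' with
  | .br _ r _ _ _ _ _, .br _ _ _ _ _ _ _ => Qs { s with R := s.R \ Ro r }
  | .br _ r _ _ _ _ _, .up _ _ => Qs { s with R := s.R \ Ro r }
  | .up _ _, .br _ r _ _ _ _ _ => Qs { s with R := s.R \ Ro r }
  | _, _ => 0

open Classical in
/-- cost of the exits: both sides miss the prime, one of them is a tie -/
noncomputable def eXITC (stp : St Λ κ → Prop) (μ : TrG Λ κ → Finset Λ → ℝ) (B : ℝ)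
    (s : St Λ κ) : ℝ :=
  if Gen stp s then
  match vw s.p s.t, vw s.p s.t' with
  | .br w r _ t₀ _ _ _, .br w' _ _ t₀' _ _ _ =>
      w * w' * Xs μ B { s with R := Ro r, t := t₀, t' := t₀' }
  | .br w r _ t₀ _ _ _, .up Sp u =>
      if s.p ∣ s.M' then
        w * Xs μ B { s with M' := s.p * s.M', O := insert s.p s.O, R := Ro r, t := t₀, t' := u }
      else
      w * Xs μ B { s with M' := s.p * s.M', O := insert s.p s.O, R := Ro r, t := t₀, t' := u, A' := s.A' \ Sp }
  | .up Sp u, .br w r _ t₀' _ _ _ =>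
      if s.p ∣ s.M then
        w * Xs μ B { s with M := s.p * s.M, O' := insert s.p s.O', R := Ro r, t := u, t' := t₀' }
      else
      w * Xs μ B { s with M := s.p * s.M, O' := insert s.p s.O', R := Ro r, t := u, A := s.A \ Sp, t' := t₀' }
  | _, _ => 0 else 0

/-- total local cost -/
noncomputable def eAllC (stp : St Λ κ → Prop) (μ : TrG Λ κ → Finset Λ → ℝ) (B : ℝ)
    (s : St Λ κ) : ℝ :=
  eNMC stp s + eONEC stp s + eSHRC stp s + eXITC stp μ B s + eSTOPC stp μ B s

/-- walk sums -/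
noncomputable def WC (stp : St Λ κ → Prop) (loc : St Λ κ → ℝ) (s : St Λ κ) : ℝ :=
  W (nxtC stp) St.rank loc s

lemma WC_eq (stp : St Λ κ → Prop) (loc : St Λ κ → ℝ) (s : St Λ κ) :
    WC stp loc s = loc s + ((nxtC stp s).map fun q => q.1 * WC stp loc q.2).sum :=
  W_eq (fun s => nxtC_rank stp s) loc s

lemma WC_eq0 (stp : St Λ κ → Prop) (loc : St Λ κ → ℝ) (s : St Λ κ) :
    WC stp loc s = loc s + ((nxt0C stp s).map fun q => q.1 * WC stp loc q.2).sum := by
  rw [WC_eq, nxtC_sum]

/-! ### one-step estimates -/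

lemma Xs_nonneg (μ : TrG Λ κ → Finset Λ → ℝ) (B : ℝ) (s : St Λ κ) : 0 ≤ Xs μ B s :=
  le_max_left _ _

lemma Side.nn {t : DT Λ κ} {A : Finset Λ} (h : Side wr Ad μ ν n t A) : 0 ≤ μ t.g A :=
  h.wf.self.mass.base.nn _ h.ad

lemma Side.pb {t : DT Λ κ} {A : Finset Λ} (h : Side wr Ad μ ν n t A) :
    ∀ j, PB (rv A t.g.val j) := PB_rv (fun j => h.ok.pb j) A

/-- masses at a `br` node -/
lemma Side.brm {p : ℕ} {w : ℝ} {r : Λ → κ} {t₁ t₀ : DT Λ κ} {v : Λ → ℝ → ℝ} {B G : κ → ℝ → ℝ}
    {A : Finset Λ} (h : Side wr Ad μ ν n (.br p w r t₁ t₀ v B G) A) :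
    (1 - w) * μ t₁.g A + w * μ t₀.g A ≤ μ (DT.br p w r t₁ t₀ v B G).g A :=
  h.wf.1.mass.2.1 _ h.ad

lemma Side.addm {p : ℕ} {r : Λ → κ} {t₁ t₀ : DT Λ κ}
    {A : Finset Λ} (h : Side wr Ad μ ν n (.add p r t₁ t₀) A) :
    μ t₁.g A + μ t₀.g A ≤ μ (DT.add p r t₁ t₀).g A :=
  h.wf.1.mass.2.1 _ h.ad

lemma inter_sdiff_union (A S : Finset Λ) : A ∩ S ∪ A \ S = A := by
  rw [Finset.union_comm]; exact Finset.sdiff_union_inter _ _

lemma disj_inter_sdiff (A S : Finset Λ) : Disjoint (A ∩ S) (A \ S) := by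
  rw [Finset.disjoint_left]
  intro x hx hx'
  exact (Finset.mem_sdiff.1 hx').2 (Finset.mem_inter.1 hx).2

/-- masses of the two parts of an `up` / absent column -/
lemma Side.upm {p : ℕ} {t : DT Λ κ} {Sp : Finset Λ} {u : DT Λ κ} {A : Finset Λ}
    (h : Side wr Ad μ ν n t A) (hv : vw p t = .up Sp u) (hp : t.top ≤ p) (hp0 : 0 < p) :
    μ u.g (A ∩ Sp) + μ u.g (A \ Sp) ≤ μ t.g A := by
  obtain ⟨h0, h1, h2⟩ := h.vwup hv hp hp0
  have := h0.wf.self.mass.base.un (A ∩ Sp) (A \ Sp) (disj_inter_sdiff A Sp) h1.ad h2.ad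
  rw [inter_sdiff_union, vw_up_g hv] at this
  rw [vw_up_g hv]
  exact this

lemma rv_split (A S : Finset Λ) (f : Λ → ℝ → ℝ) (j : Λ) (x : ℝ) :
    rv A f j x = rv (A ∩ S) f j x + rv (A \ S) f j x := by
  have := congrFun (congrFun (rv_union (disj_inter_sdiff A S) f) j) x
  rw [inter_sdiff_union] at this
  exact this

/-- free column on the left -/
lemma Qs_freeL {s : St Λ κ} {p : ℕ} {w : ℝ} {r : Λ → κ} {t₁ t₀ : DT Λ κ} {v : Λ → ℝ → ℝ}
    {B G : κ → ℝ → ℝ} (et : s.t = .br p w r t₁ t₀ v B G) (hd : p ∣ s.M) (hM : 0 < s.M)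
    (hM' : 0 < s.M') (hL : Side wr Ad μ ν n s.t s.A) (hR : Side wr Ad μ ν n s.t' s.A') :
    Q (Ro r) (avg s.M (rv s.A s.t.g.val)) (avg s.M' (rv s.A' s.t'.g.val)) =
      (1 - w) * Q (Ro r) (avg (s.M / p) (rv s.A t₁.g.val)) (avg s.M' (rv s.A' s.t'.g.val)) +
      w * Q (Ro r) (avg (s.M / p) (rv s.A t₀.g.val)) (avg s.M' (rv s.A' s.t'.g.val)) := by
  have hL2 := hL
  rw [et] at hL2
  obtain ⟨a1, a0, hb, -, hA⟩ := hL2.br
  have hP : 0 < p := hb.hP
  have hM1 : 0 < s.M / p := Nat.div_pos (Nat.le_of_dvd hM hd) hP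
  have key := Q_free (M := s.M / p) hM1 hM' (BrOk.res hb hA) (Side.pb a1) (Side.pb a0) (Side.pb hR)
  rw [Nat.mul_div_cancel' hd] at key
  have e : s.t.g.val = v := by rw [et]; rfl
  rw [e]
  exact key

/-- free column on the right -/
lemma Qs_freeR {s : St Λ κ} {p : ℕ} {w : ℝ} {r : Λ → κ} {t₁ t₀ : DT Λ κ} {v : Λ → ℝ → ℝ}
    {B G : κ → ℝ → ℝ} (et : s.t' = .br p w r t₁ t₀ v B G) (hd : p ∣ s.M') (hM : 0 < s.M)
    (hM' : 0 < s.M') (hL : Side wr Ad μ ν n s.t s.A) (hR : Side wr Ad μ ν n s.t' s.A') :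
    Q (Ro r) (avg s.M (rv s.A s.t.g.val)) (avg s.M' (rv s.A' s.t'.g.val)) =
      (1 - w) * Q (Ro r) (avg s.M (rv s.A s.t.g.val)) (avg (s.M' / p) (rv s.A' t₁.g.val)) +
      w * Q (Ro r) (avg s.M (rv s.A s.t.g.val)) (avg (s.M' / p) (rv s.A' t₀.g.val)) := by
  have hR2 := hR
  rw [et] at hR2
  obtain ⟨a1, a0, hb, -, hA⟩ := hR2.br
  have hP : 0 < p := hb.hP
  have hM1 : 0 < s.M' / p := Nat.div_pos (Nat.le_of_dvd hM' hd) hP
  have key := Q_free (M := s.M' / p) hM1 hM (BrOk.res hb hA) (Side.pb a1) (Side.pb a0) (Side.pb hL)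
  rw [Nat.mul_div_cancel' hd] at key
  have e : s.t'.g.val = v := by rw [et]; rfl
  rw [e, Ro_swap r _ (avg s.M' (rv s.A' v)), Ro_swap r _ (avg (s.M' / p) (rv s.A' t₁.g.val)),
    Ro_swap r _ (avg (s.M' / p) (rv s.A' t₀.g.val))]
  exact key

/-- one-sided column, tie on the left, against the population `A₂` of `u` -/
lemma Qs_colL {M M' : ℕ} {n' : ℕ} {p : ℕ} {w : ℝ} {r : Λ → κ} {t₁ t₀ u : DT Λ κ} {v : Λ → ℝ → ℝ}
    {B G : κ → ℝ → ℝ} {A A₂ : Finset Λ} (hM : 0 < M) (hM' : 0 < M')
    (hL : Side wr Ad μ ν n (.br p w r t₁ t₀ v B G) A) (hR : Side wr Ad μ ν n' u A₂)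
    (hc : Nat.Coprime p M) :
    Q (Ro r) (avg M (rv A v)) (avg M' (rv A₂ u.g.val)) =
      (1 - w) * Q (Ro r) (avg M (rv A t₁.g.val)) (avg (p * M') (rv A₂ u.g.val)) +
      w * Q (Ro r) (avg M (rv A t₀.g.val)) (avg (p * M') (rv A₂ u.g.val)) +
      os (orel κ) p (avg M (rk A r G)) (sm r (avg M' (rv A₂ u.g.val))) := by
  obtain ⟨a1, a0, hb, -, hA⟩ := hL.br
  exact QR_col1 (BrOk.res hb hA) (Side.pb a1) (Side.pb a0) (Side.pb hR) hM hM' hc

/-- one-sided column, tie on the right, against the population `A₂` of `u` -/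
lemma Qs_colR {M M' : ℕ} {n' : ℕ} {p : ℕ} {w : ℝ} {r : Λ → κ} {t₁ t₀ u : DT Λ κ} {v : Λ → ℝ → ℝ}
    {B G : κ → ℝ → ℝ} {A A₂ : Finset Λ} (hM : 0 < M) (hM' : 0 < M')
    (hL : Side wr Ad μ ν n (.br p w r t₁ t₀ v B G) A) (hR : Side wr Ad μ ν n' u A₂)
    (hc : Nat.Coprime p M) :
    Q (Ro r) (avg M' (rv A₂ u.g.val)) (avg M (rv A v)) =
      (1 - w) * Q (Ro r) (avg (p * M') (rv A₂ u.g.val)) (avg M (rv A t₁.g.val)) +
      w * Q (Ro r) (avg (p * M') (rv A₂ u.g.val)) (avg M (rv A t₀.g.val)) +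
      os (orel κ) p (avg M (rk A r G)) (sm r (avg M' (rv A₂ u.g.val))) := by
  have key := Qs_colL hM hM' hL hR hc
  rw [Ro_swap r (avg M (rv A v)), Ro_swap r (avg M (rv A t₁.g.val)),
    Ro_swap r (avg M (rv A t₀.g.val))] at key
  exact key

/-- split of an `add` node on the left -/
lemma add_bound {B : ℝ} (hB : 0 ≤ B) {s : St Λ κ} {n n' : ℕ} {r : Λ → κ} {t₁ t₀ : DT Λ κ} {p : ℕ}
    {Z₁ Z₀ : ℝ} (hL : Side wr Ad μ ν n s.t s.A) (hR : Side wr Ad μ ν n' s.t' s.A') (hM : 0 < s.M)
    (hM' : 0 < s.M') (et : s.t = .add p r t₁ t₀)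
    (c1 : Qs { s with t := t₁ } ≤ B * (μ t₁.g s.A * μ s.t'.g s.A') + Z₁)
    (c0 : Qs { s with t := t₀ } ≤ B * (μ t₀.g s.A * μ s.t'.g s.A') + Z₀) :
    Qs s ≤ B * (μ s.t.g s.A * μ s.t'.g s.A') + (0 + (1 * Z₁ + (1 * Z₀ + 0))) := by
  have nn' := Side.nn hR
  have pR := Side.pb hR
  have hL2 := hL
  rw [et] at hL2
  obtain ⟨a1, a0⟩ := hL2.add
  have hm := Side.addm hL2
  have eg : (DT.add p r t₁ t₀).g = s.t.g := by rw [← et]
  rw [eg] at hm
  have hval : s.t.g.val = fun j x => t₁.g.val j x + t₀.g.val j x := by rw [et]; rfl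
  have spl := Q_add_left (R := s.R) (PB_avg hM (Side.pb a1)) (PB_avg hM (Side.pb a0))
    (PB_avg hM' pR)
  rw [← rv_split_fun (A := s.A) (f := s.t.g.val) (fun j x => by
    rw [hval]; exact congrFun (congrFun (rv_add s.A t₁.g.val t₀.g.val) j) x) s.M] at spl
  have hprod := mul_le_mul_of_nonneg_left (mul_le_mul_of_nonneg_right hm nn') hB
  unfold Qs at c1 c0 ⊢
  simp only at c1 c0 ⊢
  linarith

/-- split of an `add` node on the right -/
lemma add_bound' {B : ℝ} (hB : 0 ≤ B) {s : St Λ κ} {n n' : ℕ} {r' : Λ → κ} {t₁' t₀' : DT Λ κ} {p : ℕ}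
    {Z₁ Z₀ : ℝ} (hL : Side wr Ad μ ν n s.t s.A) (hR : Side wr Ad μ ν n' s.t' s.A') (hM : 0 < s.M)
    (hM' : 0 < s.M') (et' : s.t' = .add p r' t₁' t₀')
    (c1 : Qs { s with t' := t₁' } ≤ B * (μ s.t.g s.A * μ t₁'.g s.A') + Z₁)
    (c0 : Qs { s with t' := t₀' } ≤ B * (μ s.t.g s.A * μ t₀'.g s.A') + Z₀) :
    Qs s ≤ B * (μ s.t.g s.A * μ s.t'.g s.A') + (0 + (1 * Z₁ + (1 * Z₀ + 0))) := by
  have nn := Side.nn hL
  have pL := Side.pb hL
  have hR2 := hR
  rw [et'] at hR2
  obtain ⟨b1, b0⟩ := hR2.add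
  have hm' := Side.addm hR2
  have eg' : (DT.add p r' t₁' t₀').g = s.t'.g := by rw [← et']
  rw [eg'] at hm'
  have hval : s.t'.g.val = fun j x => t₁'.g.val j x + t₀'.g.val j x := by rw [et']; rfl
  have spl := Q_add_right (R := s.R) (PB_avg hM pL) (PB_avg hM' (Side.pb b1))
    (PB_avg hM' (Side.pb b0))
  rw [← rv_split_fun (A := s.A') (f := s.t'.g.val) (fun j x => by
    rw [hval]; exact congrFun (congrFun (rv_add s.A' t₁'.g.val t₀'.g.val) j) x) s.M'] at spl
  have hprod := mul_le_mul_of_nonneg_left (mul_le_mul_of_nonneg_left hm' nn) hB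
  unfold Qs at c1 c0 ⊢
  simp only at c1 c0 ⊢
  linarith

set_option maxHeartbeats 4000000 in
/-- **cross walk bound** -/
theorem walkC_bound' {stp : St Λ κ → Prop} {B : ℝ} (hB : 0 ≤ B) :
    ∀ (k n : ℕ) (s : St Λ κ), s.rank < k → Inv wr Ad μ ν n s →
      Qs s ≤ B * (μ s.t.g s.A * μ s.t'.g s.A') + WC stp (eAllC stp μ B) s := by
  intro k
  induction k with
  | zero => intro n s hs; omega
  | succ k ih =>
    intro n s hs h
    have hcont : ∀ q ∈ nxt0C stp s, Qs q.2 ≤ B * (μ q.2.t.g q.2.A * μ q.2.t'.g q.2.A') +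
        WC stp (eAllC stp μ B) q.2 := fun q hq =>
      ih s.p q.2 (by have := nxt0C_rank stp s q hq; omega) (next0C h q hq).1
    rw [WC_eq0]
    by_cases h1 : s.t.isLeaf ∧ s.t'.isLeaf
    · have e1 : nxt0C stp s = [] := by simp [nxt0C, h1]
      have e0 : eAllC stp μ B s = Xs μ B s := by
        simp [eAllC, eNMC, eONEC, eSHRC, eXITC, eSTOPC, Gen, h1]
      rw [e0, e1]
      simp only [List.map_nil, List.sum_nil, add_zero]
      exact Qs_le_Xs μ B s
    by_cases h2 : stp s
    · have e1 : nxt0C stp s = [] := by simp [nxt0C, h1, h2]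
      have e0 : eAllC stp μ B s = Xs μ B s := by
        simp [eAllC, eNMC, eONEC, eSHRC, eXITC, eSTOPC, Gen, h2]
      rw [e0, e1]
      simp only [List.map_nil, List.sum_nil, add_zero]
      exact Qs_le_Xs μ B s
    obtain ⟨hpp, hpn⟩ := p_primeC h h1
    have hL := h.L
    have hR := h.R
    have hM := h.aL.M0
    have hM' := h.aR.M0
    have hpL : s.t.top ≤ s.p := le_max_left _ _
    have hpR : s.t'.top ≤ s.p := le_max_right _ _
    have nn := Side.nn hL
    have nn' := Side.nn hR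
    have pL := Side.pb hL
    have pR := Side.pb hR
    by_cases hPL : s.isPL
    · obtain ⟨w, r, t₁, t₀, v, B₁, G, hv, et, h3⟩ := St.isPL_cases hPL
      have e0 : eAllC stp μ B s = Qs { s with R := s.R \ Ro r } := by
        simp [eAllC, eNMC, eONEC, eSHRC, eXITC, eSTOPC, Gen, h1, h2, hPL, St.shr, hv]
      have hL2 := hL
      rw [et] at hL2
      obtain ⟨a1, a0, hb, -, hA⟩ := hL2.br
      have hm := Side.brm hL2
      have hpul : PulN s.t := hL.wf.self.pul
      rw [et] at hpul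
      have shr := Q_le_sdiff s.R (Ro r) (PB_avg hM pL) (PB_avg hM' pR)
      have w0 := hb.w0
      have w1 : 0 ≤ 1 - w := by linarith [hb.w1]
      have n1 := Side.nn a1
      have n0 := Side.nn a0
      have hprod := mul_le_mul_of_nonneg_left (mul_le_mul_of_nonneg_right hm nn') hB
      have eg : (DT.br s.p w r t₁ t₀ v B₁ G).g = s.t.g := by rw [← et]
      rw [eg] at hprod
      rcases h3 with ⟨hd, e⟩ | ⟨hd, hw, e⟩
      · have e1 : nxt0C stp s = [(1 - w, s.fL r t₁), (w, s.fL r t₀)] := by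
          simp [nxt0C, h1, h2, hPL, e]
        rw [e1] at hcont
        have c1 := hcont _ (List.mem_cons_self)
        have c0 := hcont _ (List.mem_cons_of_mem _ (List.mem_cons_self))
        rw [e0, e1]
        have key := Qs_freeL et hd hM hM' hL hR
        have m1 := mul_le_mul_of_nonneg_left c1 w1
        have m0 := mul_le_mul_of_nonneg_left c0 w0
        simp only [List.map_cons, List.map_nil, List.sum_cons, List.sum_nil]
        unfold Qs at m1 m0 ⊢
        simp only [St.fL] at m1 m0 ⊢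
        linarith
      · have e1 : nxt0C stp s = [(1 - w, s.pL r t₁), (w, s.pL r t₀)] := by
          simp [nxt0C, h1, h2, hPL, e]
        rw [e1] at hcont
        have c1 := hcont _ (List.mem_cons_self)
        have c0 := hcont _ (List.mem_cons_of_mem _ (List.mem_cons_self))
        rw [e0, e1]
        have cL : Nat.Coprime s.p s.M := (Nat.Prime.coprime_iff_not_dvd hpp).2 hd
        have key := Qs_colL hM hM' hL2 hR cL
        rw [(hpul hw).2, avg_rk_zero, os_zero, add_zero] at key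
        have e2 : s.t.g.val = v := by rw [et]; rfl
        rw [← e2] at key
        have m1 := mul_le_mul_of_nonneg_left c1 w1
        have m0 := mul_le_mul_of_nonneg_left c0 w0
        simp only [List.map_cons, List.map_nil, List.sum_cons, List.sum_nil]
        unfold Qs at m1 m0 ⊢
        simp only [St.pL] at m1 m0 ⊢
        linarith
    by_cases hPR : s.isPR
    · obtain ⟨w, r, t₁, t₀, v, B₁, G, hv, et, h3⟩ := St.isPR_cases hPR
      have e0 : eAllC stp μ B s = Qs { s with R := s.R \ Ro r } := by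
        simp [eAllC, eNMC, eONEC, eSHRC, eXITC, eSTOPC, Gen, h1, h2, hPL, hPR, St.shr, hv]
      have hR2 := hR
      rw [et] at hR2
      obtain ⟨a1, a0, hb, -, hA⟩ := hR2.br
      have hm := Side.brm hR2
      have hpul : PulN s.t' := hR.wf.self.pul
      rw [et] at hpul
      have shr := Q_le_sdiff s.R (Ro r) (PB_avg hM pL) (PB_avg hM' pR)
      have w0 := hb.w0
      have w1 : 0 ≤ 1 - w := by linarith [hb.w1]
      have n1 := Side.nn a1
      have n0 := Side.nn a0
      have hprod := mul_le_mul_of_nonneg_left (mul_le_mul_of_nonneg_left hm nn) hB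
      have eg : (DT.br s.p w r t₁ t₀ v B₁ G).g = s.t'.g := by rw [← et]
      rw [eg] at hprod
      rcases h3 with ⟨hd, e⟩ | ⟨hd, hw, e⟩
      · have e1 : nxt0C stp s = [(1 - w, s.fR r t₁), (w, s.fR r t₀)] := by
          simp [nxt0C, h1, h2, hPL, hPR, e]
        rw [e1] at hcont
        have c1 := hcont _ (List.mem_cons_self)
        have c0 := hcont _ (List.mem_cons_of_mem _ (List.mem_cons_self))
        rw [e0, e1]
        have key := Qs_freeR et hd hM hM' hL hR
        have m1 := mul_le_mul_of_nonneg_left c1 w1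
        have m0 := mul_le_mul_of_nonneg_left c0 w0
        simp only [List.map_cons, List.map_nil, List.sum_cons, List.sum_nil]
        unfold Qs at m1 m0 ⊢
        simp only [St.fR] at m1 m0 ⊢
        linarith
      · have e1 : nxt0C stp s = [(1 - w, s.pR r t₁), (w, s.pR r t₀)] := by
          simp [nxt0C, h1, h2, hPL, hPR, e]
        rw [e1] at hcont
        have c1 := hcont _ (List.mem_cons_self)
        have c0 := hcont _ (List.mem_cons_of_mem _ (List.mem_cons_self))
        rw [e0, e1]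
        have cR : Nat.Coprime s.p s.M' := (Nat.Prime.coprime_iff_not_dvd hpp).2 hd
        have key := Qs_colR hM' hM hR2 hL cR
        rw [(hpul hw).2, avg_rk_zero, os_zero, add_zero] at key
        have e2 : s.t'.g.val = v := by rw [et]; rfl
        rw [← e2] at key
        have m1 := mul_le_mul_of_nonneg_left c1 w1
        have m0 := mul_le_mul_of_nonneg_left c0 w0
        simp only [List.map_cons, List.map_nil, List.sum_cons, List.sum_nil]
        unfold Qs at m1 m0 ⊢
        simp only [St.pR] at m1 m0 ⊢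
        linarith
    have hG : Gen stp s := ⟨h1, h2, hPL, hPR⟩
    rcases hv : vw s.p s.t with ⟨w, r, t₁, t₀, v, B₁, G⟩ | ⟨r, t₁, t₀⟩ | ⟨Sp, u⟩ <;>
    rcases hv' : vw s.p s.t' with ⟨w', r', t₁', t₀', v', B', G'⟩ | ⟨r', t₁', t₀'⟩ | ⟨Sp', u'⟩
    · -- br br
      have e1 : nxt0C stp s = [((1 - w) * (1 - w'), { s with R := Ro r, t := t₁, t' := t₁' }),
          ((1 - w) * w', { s with R := Ro r, t := t₁, t' := t₀' }),
          (w * (1 - w'), { s with R := Ro r, t := t₀, t' := t₁' })] := by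
        simp [nxt0C, h1, h2, hPL, hPR, hv, hv']
      have e0 : eAllC stp μ B s = Q (orel κ) (avg s.M (rk s.A r G)) (avg s.M' (rk s.A' r G')) +
          Qs { s with R := s.R \ Ro r } +
          w * w' * Xs μ B { s with R := Ro r, t := t₀, t' := t₀' } := by
        simp [eAllC, eNMC, eONEC, eSHRC, eXITC, eSTOPC, hG, h1, h2, hPL, hPR, hv, hv']
      rw [e1] at hcont
      have c11 := hcont _ (List.mem_cons_self)
      have c10 := hcont _ (List.mem_cons_of_mem _ (List.mem_cons_self))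
      have c01 := hcont _ (List.mem_cons_of_mem _ (List.mem_cons_of_mem _ (List.mem_cons_self)))
      have c00 := Qs_le_Xs μ B { s with R := Ro r, t := t₀, t' := t₀' }
      rw [e0, e1]
      have et := vw_br hv
      have et' := vw_br hv'
      have cL : Nat.Coprime s.p s.M := (Nat.Prime.coprime_iff_not_dvd hpp).2 (St.not_isPL_br hPL hv hv')
      have cR : Nat.Coprime s.p s.M' := (Nat.Prime.coprime_iff_not_dvd hpp).2 (St.not_isPR_br hPR hv hv')
      have hL2 := hL
      have hR2 := hR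
      rw [et] at hL2
      rw [et'] at hR2
      obtain ⟨a1, a0, hb, hr, hA⟩ := hL2.br
      obtain ⟨b1, b0, hb', hr', hA'⟩ := hR2.br
      have err : r' = r := by rw [hr, hr']
      subst err
      have hm := Side.brm hL2
      have hm' := Side.brm hR2
      have eg : (DT.br s.p w r' t₁ t₀ v B₁ G).g = s.t.g := by rw [← et]
      have eg' : (DT.br s.p w' r' t₁' t₀' v' B' G').g = s.t'.g := by rw [← et']
      rw [eg] at hm
      rw [eg'] at hm'
      have key := QR_col2 (BrOk.res hb hA) (BrOk.res hb' hA') (Side.pb a1) (Side.pb a0)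
        (Side.pb b1) (Side.pb b0) hM hM' cL cR
      have e2 : s.t.g.val = v := by rw [et]; rfl
      have e2' : s.t'.g.val = v' := by rw [et']; rfl
      rw [← e2, ← e2'] at key
      have shr := Q_le_sdiff s.R (Ro r') (PB_avg hM pL) (PB_avg hM' pR)
      have n1 := Side.nn a1
      have n0 := Side.nn a0
      have n1' := Side.nn b1
      have n0' := Side.nn b0
      have w0 := hb.w0
      have w0' := hb'.w0
      have q1 : 0 ≤ 1 - w := by linarith [hb.w1]
      have q2 : 0 ≤ 1 - w' := by linarith [hb'.w1]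
      have hprod := mul_le_mul hm hm' (by positivity) nn
      have hprod' := mul_le_mul_of_nonneg_left hprod hB
      have m11 := mul_le_mul_of_nonneg_left c11 (mul_nonneg q1 q2)
      have m10 := mul_le_mul_of_nonneg_left c10 (mul_nonneg q1 w0')
      have m01 := mul_le_mul_of_nonneg_left c01 (mul_nonneg w0 q2)
      have m00 := mul_le_mul_of_nonneg_left c00 (mul_nonneg w0 w0')
      simp only [List.map_cons, List.map_nil, List.sum_cons, List.sum_nil]
      unfold Qs at m11 m10 m01 m00 ⊢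
      simp only at m11 m10 m01 m00 ⊢
      linarith
    · -- br add
      have e1 : nxt0C stp s = [(1, { s with t' := t₁' }), (1, { s with t' := t₀' })] := by
        simp [nxt0C, h1, h2, hPL, hPR, hv, hv']
      have e0 : eAllC stp μ B s = 0 := by
        simp [eAllC, eNMC, eONEC, eSHRC, eXITC, eSTOPC, hG, h1, h2, hPL, hPR, hv, hv']
      rw [e1] at hcont
      have c1 := hcont _ (List.mem_cons_self)
      have c0 := hcont _ (List.mem_cons_of_mem _ (List.mem_cons_self))
      rw [e0, e1]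
      exact add_bound' hB hL hR hM hM' (vw_add hv') c1 c0
    · -- br up
      have et := vw_br hv
      have cL : Nat.Coprime s.p s.M := (Nat.Prime.coprime_iff_not_dvd hpp).2 (St.not_isPL_up hPL hv hv').1
      have hL2 := hL
      rw [et] at hL2
      obtain ⟨a1, a0, hb, hr, hA⟩ := hL2.br
      obtain ⟨b, b1, b0⟩ := hR.vwup hv' hpR hpp.pos
      have hm := Side.brm hL2
      have hm' := Side.upm hR hv' hpR hpp.pos
      have eg : (DT.br s.p w r t₁ t₀ v B₁ G).g = s.t.g := by rw [← et]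
      rw [eg] at hm
      have shr := Q_le_sdiff s.R (Ro r) (PB_avg hM pL) (PB_avg hM' pR)
      have e2 : s.t.g.val = v := by rw [et]; rfl
      have n1 := Side.nn a1
      have n0 := Side.nn a0
      have w0 := hb.w0
      have w1 : 0 ≤ 1 - w := by linarith [hb.w1]
      by_cases hd : s.p ∣ s.M'
      · have e1 : nxt0C stp s =
            [(1 - w, { s with M' := s.p * s.M', O := insert s.p s.O, R := Ro r, t := t₁, t' := u' })] := by
          simp [nxt0C, h1, h2, hPL, hPR, hv, hv', hd]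
        have e0 : eAllC stp μ B s =
            os (orel κ) s.p (avg s.M (rk s.A r G)) (sm r (avg s.M' (rv s.A' u'.g.val))) +
            Qs { s with R := s.R \ Ro r } +
            w * Xs μ B { s with M' := s.p * s.M', O := insert s.p s.O, R := Ro r, t := t₀, t' := u' } := by
          simp [eAllC, eNMC, eONEC, eSHRC, eXITC, eSTOPC, hG, h1, h2, hPL, hPR, hv, hv', hd]
        rw [e1] at hcont
        have c1 := hcont _ (List.mem_cons_self)
        have c0 := Qs_le_Xs μ B { s with M' := s.p * s.M', O := insert s.p s.O, R := Ro r, t := t₀, t' := u' }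
        rw [e0, e1]
        have k := Qs_colL hM hM' hL2 b cL
        rw [← e2, vw_up_g hv'] at k
        rw [vw_up_g hv'] at hm'
        have hprod' := mul_le_mul_of_nonneg_left (mul_le_mul_of_nonneg_right hm nn') hB
        have m1 := mul_le_mul_of_nonneg_left c1 w1
        have m0 := mul_le_mul_of_nonneg_left c0 w0
        simp only [List.map_cons, List.map_nil, List.sum_cons, List.sum_nil]
        unfold Qs at m1 m0 ⊢
        simp only [vw_up_g hv'] at m1 m0 ⊢
        linarith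
      have e1 : nxt0C stp s =
          [(1 - w, { s with M' := s.p * s.M', O := insert s.p s.O, R := Ro r, t := t₁, t' := u', A' := s.A' ∩ Sp' }),
           (w, { s with M' := s.p * s.M', O := insert s.p s.O, R := Ro r, t := t₀, t' := u', A' := s.A' ∩ Sp' }),
           (1 - w, { s with M' := s.p * s.M', O := insert s.p s.O, R := Ro r, t := t₁, t' := u', A' := s.A' \ Sp' })] := by
        simp [nxt0C, h1, h2, hPL, hPR, hv, hv', hd]
      have e0 : eAllC stp μ B s =
          os (orel κ) s.p (avg s.M (rk s.A r G)) (sm r (avg s.M' (rv (s.A' ∩ Sp') u'.g.val))) +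
          os (orel κ) s.p (avg s.M (rk s.A r G)) (sm r (avg s.M' (rv (s.A' \ Sp') u'.g.val))) +
          Qs { s with R := s.R \ Ro r } +
          w * Xs μ B { s with M' := s.p * s.M', O := insert s.p s.O, R := Ro r, t := t₀, t' := u', A' := s.A' \ Sp' } := by
        simp [eAllC, eNMC, eONEC, eSHRC, eXITC, eSTOPC, hG, h1, h2, hPL, hPR, hv, hv', hd]
      rw [e1] at hcont
      have c11 := hcont _ (List.mem_cons_self)
      have c01 := hcont _ (List.mem_cons_of_mem _ (List.mem_cons_self))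
      have c10 := hcont _ (List.mem_cons_of_mem _ (List.mem_cons_of_mem _ (List.mem_cons_self)))
      have c00 := Qs_le_Xs μ B { s with M' := s.p * s.M', O := insert s.p s.O, R := Ro r, t := t₀, t' := u', A' := s.A' \ Sp' }
      rw [e0, e1]
      have k1 := Qs_colL hM hM' hL2 b1 cL
      have k0 := Qs_colL hM hM' hL2 b0 cL
      rw [← e2] at k1 k0
      have spl := Q_add_right (R := Ro r) (PB_avg hM pL) (PB_avg hM' (Side.pb b1))
        (PB_avg hM' (Side.pb b0))
      rw [← rv_split_fun (A := s.A') (f := u'.g.val) (fun j x => rv_split s.A' Sp' u'.g.val j x) s.M',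
        vw_up_g hv'] at spl
      rw [vw_up_g hv'] at k1 k0
      rw [vw_up_g hv'] at hm'
      have n1' := Side.nn b1
      have n0' := Side.nn b0
      rw [vw_up_g hv'] at n1' n0'
      have hprod := mul_le_mul hm hm' (by positivity) nn
      have hprod' := mul_le_mul_of_nonneg_left hprod hB
      have m11 := mul_le_mul_of_nonneg_left c11 w1
      have m10 := mul_le_mul_of_nonneg_left c10 w1
      have m01 := mul_le_mul_of_nonneg_left c01 w0
      have m00 := mul_le_mul_of_nonneg_left c00 w0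
      simp only [List.map_cons, List.map_nil, List.sum_cons, List.sum_nil]
      unfold Qs at m11 m10 m01 m00 ⊢
      simp only [vw_up_g hv'] at m11 m10 m01 m00 ⊢
      linarith
    · -- add br
      have e1 : nxt0C stp s = [(1, { s with t := t₁ }), (1, { s with t := t₀ })] := by
        simp [nxt0C, h1, h2, hPL, hPR, hv, hv']
      have e0 : eAllC stp μ B s = 0 := by
        simp [eAllC, eNMC, eONEC, eSHRC, eXITC, eSTOPC, hG, h1, h2, hPL, hPR, hv, hv']
      rw [e1] at hcont
      have c1 := hcont _ (List.mem_cons_self)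
      have c0 := hcont _ (List.mem_cons_of_mem _ (List.mem_cons_self))
      rw [e0, e1]
      exact add_bound hB hL hR hM hM' (vw_add hv) c1 c0
    · -- add add
      have e1 : nxt0C stp s = [(1, { s with t := t₁ }), (1, { s with t := t₀ })] := by
        simp [nxt0C, h1, h2, hPL, hPR, hv, hv']
      have e0 : eAllC stp μ B s = 0 := by
        simp [eAllC, eNMC, eONEC, eSHRC, eXITC, eSTOPC, hG, h1, h2, hPL, hPR, hv, hv']
      rw [e1] at hcont
      have c1 := hcont _ (List.mem_cons_self)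
      have c0 := hcont _ (List.mem_cons_of_mem _ (List.mem_cons_self))
      rw [e0, e1]
      exact add_bound hB hL hR hM hM' (vw_add hv) c1 c0
    · -- add up
      have e1 : nxt0C stp s = [(1, { s with t := t₁ }), (1, { s with t := t₀ })] := by
        simp [nxt0C, h1, h2, hPL, hPR, hv, hv']
      have e0 : eAllC stp μ B s = 0 := by
        simp [eAllC, eNMC, eONEC, eSHRC, eXITC, eSTOPC, hG, h1, h2, hPL, hPR, hv, hv']
      rw [e1] at hcont
      have c1 := hcont _ (List.mem_cons_self)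
      have c0 := hcont _ (List.mem_cons_of_mem _ (List.mem_cons_self))
      rw [e0, e1]
      exact add_bound hB hL hR hM hM' (vw_add hv) c1 c0
    · -- up br
      have et := vw_br hv'
      have cR : Nat.Coprime s.p s.M' := (Nat.Prime.coprime_iff_not_dvd hpp).2 (St.not_isPR_up hPR hv hv').1
      have hR2 := hR
      rw [et] at hR2
      obtain ⟨a1, a0, hb, hr, hA⟩ := hR2.br
      obtain ⟨b, b1, b0⟩ := hL.vwup hv hpL hpp.pos
      have hm := Side.brm hR2
      have hm' := Side.upm hL hv hpL hpp.pos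
      have eg : (DT.br s.p w' r' t₁' t₀' v' B' G').g = s.t'.g := by rw [← et]
      rw [eg] at hm
      have shr := Q_le_sdiff s.R (Ro r') (PB_avg hM pL) (PB_avg hM' pR)
      have e2 : s.t'.g.val = v' := by rw [et]; rfl
      have n1 := Side.nn a1
      have n0 := Side.nn a0
      have w0 := hb.w0
      have w1 : 0 ≤ 1 - w' := by linarith [hb.w1]
      by_cases hd : s.p ∣ s.M
      · have e1 : nxt0C stp s =
            [(1 - w', { s with M := s.p * s.M, O' := insert s.p s.O', R := Ro r', t := u, t' := t₁' })] := by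
          simp [nxt0C, h1, h2, hPL, hPR, hv, hv', hd]
        have e0 : eAllC stp μ B s =
            os (orel κ) s.p (avg s.M' (rk s.A' r' G')) (sm r' (avg s.M (rv s.A u.g.val))) +
            Qs { s with R := s.R \ Ro r' } +
            w' * Xs μ B { s with M := s.p * s.M, O' := insert s.p s.O', R := Ro r', t := u, t' := t₀' } := by
          simp [eAllC, eNMC, eONEC, eSHRC, eXITC, eSTOPC, hG, h1, h2, hPL, hPR, hv, hv', hd]
        rw [e1] at hcont
        have c1 := hcont _ (List.mem_cons_self)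
        have c0 := Qs_le_Xs μ B { s with M := s.p * s.M, O' := insert s.p s.O', R := Ro r', t := u, t' := t₀' }
        rw [e0, e1]
        have k := Qs_colR hM' hM hR2 b cR
        rw [← e2, vw_up_g hv] at k
        rw [vw_up_g hv] at hm'
        have hprod' := mul_le_mul_of_nonneg_left (mul_le_mul_of_nonneg_left hm nn) hB
        have m1 := mul_le_mul_of_nonneg_left c1 w1
        have m0 := mul_le_mul_of_nonneg_left c0 w0
        simp only [List.map_cons, List.map_nil, List.sum_cons, List.sum_nil]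
        unfold Qs at m1 m0 ⊢
        simp only [vw_up_g hv] at m1 m0 ⊢
        linarith
      have e1 : nxt0C stp s =
          [(1 - w', { s with M := s.p * s.M, O' := insert s.p s.O', R := Ro r', t := u, A := s.A ∩ Sp, t' := t₁' }),
           (w', { s with M := s.p * s.M, O' := insert s.p s.O', R := Ro r', t := u, A := s.A ∩ Sp, t' := t₀' }),
           (1 - w', { s with M := s.p * s.M, O' := insert s.p s.O', R := Ro r', t := u, A := s.A \ Sp, t' := t₁' })] := by
        simp [nxt0C, h1, h2, hPL, hPR, hv, hv', hd]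
      have e0 : eAllC stp μ B s =
          os (orel κ) s.p (avg s.M' (rk s.A' r' G')) (sm r' (avg s.M (rv (s.A ∩ Sp) u.g.val))) +
          os (orel κ) s.p (avg s.M' (rk s.A' r' G')) (sm r' (avg s.M (rv (s.A \ Sp) u.g.val))) +
          Qs { s with R := s.R \ Ro r' } +
          w' * Xs μ B { s with M := s.p * s.M, O' := insert s.p s.O', R := Ro r', t := u, A := s.A \ Sp, t' := t₀' } := by
        simp [eAllC, eNMC, eONEC, eSHRC, eXITC, eSTOPC, hG, h1, h2, hPL, hPR, hv, hv', hd]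
      rw [e1] at hcont
      have c11 := hcont _ (List.mem_cons_self)
      have c01 := hcont _ (List.mem_cons_of_mem _ (List.mem_cons_self))
      have c10 := hcont _ (List.mem_cons_of_mem _ (List.mem_cons_of_mem _ (List.mem_cons_self)))
      have c00 := Qs_le_Xs μ B { s with M := s.p * s.M, O' := insert s.p s.O', R := Ro r', t := u, A := s.A \ Sp, t' := t₀' }
      rw [e0, e1]
      have k1 := Qs_colR hM' hM hR2 b1 cR
      have k0 := Qs_colR hM' hM hR2 b0 cR
      rw [← e2] at k1 k0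
      have spl := Q_add_left (R := Ro r') (PB_avg hM (Side.pb b1)) (PB_avg hM (Side.pb b0))
        (PB_avg hM' pR)
      rw [← rv_split_fun (A := s.A) (f := u.g.val) (fun j x => rv_split s.A Sp u.g.val j x) s.M,
        vw_up_g hv] at spl
      rw [vw_up_g hv] at k1 k0
      rw [vw_up_g hv] at hm'
      have n1' := Side.nn b1
      have n0' := Side.nn b0
      rw [vw_up_g hv] at n1' n0'
      have hprod := mul_le_mul hm' hm (by positivity) nn
      have hprod' := mul_le_mul_of_nonneg_left hprod hB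
      have m11 := mul_le_mul_of_nonneg_left c11 w1
      have m10 := mul_le_mul_of_nonneg_left c10 w1
      have m01 := mul_le_mul_of_nonneg_left c01 w0
      have m00 := mul_le_mul_of_nonneg_left c00 w0
      simp only [List.map_cons, List.map_nil, List.sum_cons, List.sum_nil]
      unfold Qs at m11 m10 m01 m00 ⊢
      simp only [vw_up_g hv] at m11 m10 m01 m00 ⊢
      linarith
    · -- up add
      have e1 : nxt0C stp s = [(1, { s with t' := t₁' }), (1, { s with t' := t₀' })] := by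
        simp [nxt0C, h1, h2, hPL, hPR, hv, hv']
      have e0 : eAllC stp μ B s = 0 := by
        simp [eAllC, eNMC, eONEC, eSHRC, eXITC, eSTOPC, hG, h1, h2, hPL, hPR, hv, hv']
      rw [e1] at hcont
      have c1 := hcont _ (List.mem_cons_self)
      have c0 := hcont _ (List.mem_cons_of_mem _ (List.mem_cons_self))
      rw [e0, e1]
      exact add_bound' hB hL hR hM hM' (vw_add hv') c1 c0
    · -- up up
      have e1 : nxt0C stp s = [(1, { s with t := u, t' := u' })] := by
        simp [nxt0C, h1, h2, hPL, hPR, hv, hv']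
      have e0 : eAllC stp μ B s = 0 := by
        simp [eAllC, eNMC, eONEC, eSHRC, eXITC, eSTOPC, hG, h1, h2, hPL, hPR, hv, hv']
      rw [e1] at hcont
      have c := hcont _ (List.mem_cons_self)
      rw [e0, e1]
      simp only [List.map_cons, List.map_nil, List.sum_cons, List.sum_nil]
      unfold Qs at c ⊢
      simp only [vw_up_g hv, vw_up_g hv'] at c ⊢
      linarith

/-- **cross walk bound**: the raw overlap of a crossing pair -/
theorem walkC_bound {stp : St Λ κ → Prop} {B : ℝ} (hB : 0 ≤ B) {s : St Λ κ}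
    (h : ∃ n, Inv wr Ad μ ν n s) :
    Qs s ≤ B * (μ s.t.g s.A * μ s.t'.g s.A') + WC stp (eAllC stp μ B) s := by
  obtain ⟨n, h⟩ := h
  exact walkC_bound' hB (s.rank + 1) n s (Nat.lt_succ_self _) h

theorem Xs_le_WC {stp : St Λ κ → Prop} {B : ℝ} (hB : 0 ≤ B) {s : St Λ κ}
    (h : ∃ n, Inv wr Ad μ ν n s) :
    Xs μ B s ≤ max 0 (WC stp (eAllC stp μ B) s) := by
  have := walkC_bound (stp := stp) hB h
  unfold Xs
  refine max_le (le_max_left _ _) (le_max_of_le_right ?_)
  linarith

/-! ### wrappers for `WC` -/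

omit [Fintype κ]

theorem WC_add (stp : St Λ κ → Prop) (f g : St Λ κ → ℝ) (s : St Λ κ) :
    WC stp (fun s => f s + g s) s = WC stp f s + WC stp g s :=
  W_add (fun s => nxtC_rank stp s) f g s

theorem WC_smul (stp : St Λ κ → Prop) (c : ℝ) (f : St Λ κ → ℝ) (s : St Λ κ) :
    WC stp (fun s => c * f s) s = c * WC stp f s :=
  W_smul (fun s => nxtC_rank stp s) c f s

/-- supersolutions; `Iv` is any invariant of the walk -/
theorem WC_le_super {stp : St Λ κ → Prop} {Iv : St Λ κ → Prop}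
    (hI : ∀ s, Iv s → ∀ q ∈ nxtC stp s, Iv q.2 ∧ 0 ≤ q.1) {loc Φ : St Λ κ → ℝ}
    (hΦ : ∀ s, Iv s → loc s + ((nxtC stp s).map fun q => q.1 * Φ q.2).sum ≤ Φ s)
    {s : St Λ κ} (hs : Iv s) : WC stp loc s ≤ Φ s :=
  W_le_super (Inv := Iv) (fun s => nxtC_rank stp s) hI hΦ s hs

theorem WC_mono {stp : St Λ κ → Prop} {Iv : St Λ κ → Prop}
    (hI : ∀ s, Iv s → ∀ q ∈ nxtC stp s, Iv q.2 ∧ 0 ≤ q.1) {f g : St Λ κ → ℝ}
    (hfg : ∀ s, Iv s → f s ≤ g s) {s : St Λ κ} (hs : Iv s) :
    WC stp f s ≤ WC stp g s :=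
  W_mono (Inv := Iv) (fun s => nxtC_rank stp s) hI hfg s hs

theorem WC_nonneg {stp : St Λ κ → Prop} {Iv : St Λ κ → Prop}
    (hI : ∀ s, Iv s → ∀ q ∈ nxtC stp s, Iv q.2 ∧ 0 ≤ q.1) {f : St Λ κ → ℝ}
    (hf : ∀ s, Iv s → 0 ≤ f s) {s : St Λ κ} (hs : Iv s) : 0 ≤ WC stp f s :=
  W_nonneg (Inv := Iv) (fun s => nxtC_rank stp s) hI hf s hs

lemma WC_zero (stp : St Λ κ → Prop) (s : St Λ κ) : WC stp (fun _ => (0 : ℝ)) s = 0 := by
  have := WC_smul stp 0 (fun _ => (0 : ℝ)) s
  simpa using this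

/-- linearity over finite families: costs of pairs of items -/
theorem WC_sum {X : Type*} [DecidableEq X] (stp : St Λ κ → Prop) (F : Finset X)
    (k : St Λ κ → X → ℝ) (s : St Λ κ) :
    WC stp (fun s => ∑ e ∈ F, k s e) s = ∑ e ∈ F, WC stp (fun s => k s e) s := by
  induction F using Finset.induction_on with
  | empty => simpa using WC_zero stp s
  | insert a F ha ih =>
    simp only [Finset.sum_insert ha]
    rw [WC_add, ih]

/-- a pair which never pays -/
theorem WC_eq_zero {stp : St Λ κ → Prop} {Iv : St Λ κ → Prop}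
    (hI : ∀ s, Iv s → ∀ q ∈ nxtC stp s, Iv q.2 ∧ 0 ≤ q.1) {f : St Λ κ → ℝ}
    (hf : ∀ s, Iv s → f s = 0) {s : St Λ κ} (hs : Iv s) : WC stp f s = 0 := by
  refine le_antisymm ?_ (WC_nonneg hI (fun s hs => (hf s hs).ge) hs)
  refine WC_le_super (Φ := fun _ => 0) hI (fun s hs => ?_) hs
  simp [hf s hs]

end Crest.Agent.R4P.WalkC
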