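import Crest.Agent.R4P.TBLeaf_28
import Crest.Agent.R4P.LeafOs_30
import Crest.Agent.R4P.WalkC_35

/-!
R4 (S0004), powers pass, group [X] (helper30): **(leaf, leaf') states of the cross walk**.

* `aw_vw` : the averaged weight of a product of local filters is a product of local filters;
* `fam_pair_lab` : energy of two averaged families of pieces with labelled weights;
* `OmL` : the weights of one item at a leaf, with label; `iF_lab` : energy of a pair of items;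
* `ll_block` : the energy of a pair of leaves: product of the sifted masses plus the `pb` of the pairs
  of a set `Lo`;
* `LL_Q`, `LL_Qs`, `LL_Xs` : the same in the letters of the cross walk (value function
  `FL Lo` of the scale pair); `eSTOPC_le`.
-/

set_option autoImplicit false
set_option linter.unusedSectionVars false
set_option linter.unusedVariables false
open MeasureTheory
open Finset hiding dens

namespace Crest.Agent.R4P.LLPair30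

open Crest.Agent.R4.Tour104 Crest.Agent.R4.Piece464 Crest.Agent.R4.Avg758
open Crest.Agent.R4.HVW560 Crest.Agent.R4P.AvgItem710
open Crest.Agent.R4.Ovl560 (LW nw nw_nonneg nw_add exw dens dens_pos dens_mono)
open Crest.Agent.R4.Item464 (mn)
open Crest.Agent.R4.LF363 (uw)
open Crest.Agent.R4.LF4 (actS cls)
open Crest.Agent.R4P.LeafOs30 Crest.Agent.R4P.AwNw28
open Crest.Agent.R4P.LeafFam28 (ExF)

lemma ExF_vw {l : ℕ} (A : Finset ℕ) (c : ℕ → ℤ) : ExF l (vw A c l) := by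
  by_cases h : l ∈ A
  · refine Or.inr ⟨c l, fun a => ?_⟩
    rw [vw_mem h]; rfl
  · exact Or.inl fun a => vw_not_mem h a

lemma mn_vw {l : ℕ} (hl : l.Prime) (A : Finset ℕ) (c : ℕ → ℤ) : mn (vw A c) l = 1 - 1 / (l : ℝ) :=
  ExF.mn hl (ExF_vw A c)

lemma nw_congr {P : Finset ℕ} {u v : ℕ → ℤ → ℝ} (h : ∀ l ∈ P, ∀ a, u l a = v l a) (a : ℤ) :
    nw P u a = nw P v a := Finset.prod_congr rfl fun l hl => h l hl a

section avg
variable {P Q A B : Finset ℕ} {c c' : ℕ → ℤ}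

open Classical in
/-- **average of a product of local filters** -/
theorem aw_vw {w M : ℕ} (hM : 0 < M) (hP : ∀ p ∈ P, p.Prime) (hPw : ∀ p ∈ P, p ∣ w) (a : ℤ) :
    aw w M (nw P (vw A c)) a = dens (P.filter (fun p => ¬ p ∣ w / M.gcd w)) *
      nw (P.filter (fun p => p ∣ w / M.gcd w))
        (vw (A ∩ P.filter (fun p => p ∣ w / M.gcd w)) (fun l => (rf w M : ℤ) * c l)) a := by
  rw [aw_nw hM (LW_vw hP) hP hPw a]
  congr 1
  · exact Finset.prod_congr rfl fun l hl => mn_vw (hP l (Finset.mem_filter.1 hl).1) A c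
  · refine nw_congr (fun l hl a => ?_) a
    have hl' := (Finset.mem_filter.1 hl).2
    unfold ru
    by_cases h : l ∈ A
    · rw [vw_mem h, vw_mem (Finset.mem_inter.2 ⟨h, hl⟩)]
      exact exw_raise (cop' hM) hl' a
    · rw [vw_not_mem h, vw_not_mem (fun h' => h (Finset.mem_inter.1 h').1)]

lemma dens_le_one {P : Finset ℕ} (hP : ∀ p ∈ P, p.Prime) : dens P ≤ 1 :=
  Finset.prod_le_one (fun l hl => (Crest.Agent.R4.Ovl560.one_sub_pos (hP l hl)).le)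
    fun l hl => by
      have : (0 : ℝ) ≤ 1 / (l : ℝ) := by positivity
      linarith

open Classical in
/-- **two families of averaged pieces with labelled weights** -/
theorem fam_pair_lab {ι ι' : Type*} {J : Finset ι} {J' : Finset ι'} {g : ι → ℝ → ℝ}
    {g' : ι' → ℝ → ℝ} {θ R φ θ' R' φ' : ℝ} {w M w' M' : ℕ} {α β : ι → ℝ} {α' β' : ι' → ℝ}
    {K K' : ℝ} {lab lab' : Option ℚ}
    (h : FamW J g θ R w α β K (nw P (vw A c))) (h' : FamW J' g' θ' R' w' α' β' K' (nw Q (vw B c')))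
    (hM : 0 < M) (hM' : 0 < M') (hw : 0 < w) (hw' : 0 < w')
    (hP : P ⊆ w.primeFactors) (hQ : Q ⊆ w'.primeFactors)
    (hl : LabOk θ R φ lab P A c) (hl' : LabOk θ' R' φ' lab' Q B c') :
    ∑ j ∈ J, ∑ j' ∈ J', I (fun y => Ep M (g j) y * Ep M' (g' j') y) ≤
      K * K' * (CLL * ((R * dens P) * (R' * dens Q) * max 1 (1 / Da w M w' M' R R') *
          AX (cof (w / M.gcd w) (w' / M'.gcd w')) (cof (w' / M'.gcd w') (w / M.gcd w))
            (Da w M w' M' R R')) +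
        2 * (R * R' / Da w M w' M' R R')) := by
  have m0 : (0 : ℝ) < rf w M := by exact_mod_cast rf_pos hM
  have m0' : (0 : ℝ) < rf w' M' := by exact_mod_cast rf_pos hM'
  have w0 := div_pos' (M := M) hw hM
  have w0' := div_pos' (M := M') hw' hM'
  have hR : 0 < R := hl.φ0.trans_le hl.φR
  have hR' : 0 < R' := hl'.φ0.trans_le hl'.φR
  have hPp : ∀ p ∈ P, p.Prime := fun p hp => Nat.prime_of_mem_primeFactors (hP hp)
  have hQp : ∀ p ∈ Q, p.Prime := fun p hp => Nat.prime_of_mem_primeFactors (hQ hp)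
  have hPd : ∀ p ∈ P, p ∣ w := fun p hp => Nat.dvd_of_mem_primeFactors (hP hp)
  have hQd : ∀ p ∈ Q, p ∣ w' := fun p hp => Nat.dvd_of_mem_primeFactors (hQ hp)
  refine (fam_pair_w h h' hM hM' hw hw').trans ?_
  set P₁ := P.filter (fun p => p ∣ w / M.gcd w) with hP₁
  set P₂ := P.filter (fun p => ¬ p ∣ w / M.gcd w) with hP₂
  set Q₁ := Q.filter (fun p => p ∣ w' / M'.gcd w') with hQ₁
  set Q₂ := Q.filter (fun p => ¬ p ∣ w' / M'.gcd w') with hQ₂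
  set c₁ : ℕ → ℤ := fun l => (rf w M : ℤ) * c l with hc₁
  set c₁' : ℕ → ℤ := fun l => (rf w' M' : ℤ) * c' l with hc₁'
  have e1 : aw w M (nw P (vw A c)) = fun a => dens P₂ * nw P₁ (vw (A ∩ P₁) c₁) a := by
    funext a; exact aw_vw hM hPp hPd a
  have e2 : aw w' M' (nw Q (vw B c')) = fun a => dens Q₂ * nw Q₁ (vw (B ∩ Q₁) c₁') a := by
    funext a; exact aw_vw hM' hQp hQd a
  have d2 : 0 < dens P₂ := dens_pos fun l hl => hPp l (Finset.mem_filter.1 hl).1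
  have d2' : 0 < dens Q₂ := dens_pos fun l hl => hQp l (Finset.mem_filter.1 hl).1
  have d1 : 0 < dens P₁ := dens_pos fun l hl => hPp l (Finset.mem_filter.1 hl).1
  have d1' : 0 < dens Q₁ := dens_pos fun l hl => hQp l (Finset.mem_filter.1 hl).1
  have hP1w : P₁ ⊆ (w / M.gcd w).primeFactors := fun l hl =>
    Nat.mem_primeFactors.2 ⟨hPp l (Finset.mem_filter.1 hl).1, (Finset.mem_filter.1 hl).2, w0.ne'⟩
  have hQ1w : Q₁ ⊆ (w' / M'.gcd w').primeFactors := fun l hl =>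
    Nat.mem_primeFactors.2 ⟨hQp l (Finset.mem_filter.1 hl).1, (Finset.mem_filter.1 hl).2, w0'.ne'⟩
  have L1 : LabOk (rf w M * θ) (rf w M * R) (rf w M * φ) (lab.map fun ρ => ((rf w M : ℕ) : ℚ) * ρ)
      P₁ (A ∩ P₁) c₁ :=
    (hl.raise hPp (rf_pos hM)).mono Finset.inter_subset_left Finset.inter_subset_right
  have L1' : LabOk (rf w' M' * θ') (rf w' M' * R') (rf w' M' * φ')
      (lab'.map fun ρ => ((rf w' M' : ℕ) : ℚ) * ρ) Q₁ (B ∩ Q₁) c₁' :=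
    (hl'.raise hQp (rf_pos hM')).mono Finset.inter_subset_left Finset.inter_subset_right
  have key := pieces_lab (ι := Unit) (ι' := Unit) {((), ())} w0 w0' hP1w hQ1w L1 L1'
    (α := fun _ => -(rf w M * R)) (β := fun _ => rf w M * R) (α' := fun _ => -(rf w' M' * R'))
    (β' := fun _ => rf w' M' * R')
    (fun _ _ => ⟨le_refl _, le_refl _⟩) (fun _ _ => ⟨le_refl _, le_refl _⟩)
    (fun _ _ _ _ _ _ _ _ _ _ => Subsingleton.elim _ _)
  rw [Finset.sum_singleton] at key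
  have eD : Dp (w / M.gcd w) (w' / M'.gcd w') (rf w M * R) (rf w' M' * R') = Da w M w' M' R R' := rfl
  rw [eD] at key
  set Da' := Da w M w' M' R R' with hDa
  have hDpos : 0 < Da' := lt_of_lt_of_le
    (mul_pos (by exact_mod_cast Crest.Agent.R4.HVW560.cof_pos w0') (mul_pos m0 hR)) (le_max_left _ _)
  set X := AX (cof (w / M.gcd w) (w' / M'.gcd w')) (cof (w' / M'.gcd w') (w / M.gcd w)) Da' with hX
  have hX1 : 1 ≤ X := one_le_AX _ _ _
  have e4 : I (fun y => pc (rf w M * θ) (-(rf w M * R)) (rf w M * R) (w / M.gcd w)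
        (aw w M (nw P (vw A c))) y *
        pc (rf w' M' * θ') (-(rf w' M' * R')) (rf w' M' * R') (w' / M'.gcd w')
          (aw w' M' (nw Q (vw B c'))) y) =
      dens P₂ * dens Q₂ * I (fun y => pc (rf w M * θ) (-(rf w M * R)) (rf w M * R) (w / M.gcd w)
        (nw P₁ (vw (A ∩ P₁) c₁)) y *
        pc (rf w' M' * θ') (-(rf w' M' * R')) (rf w' M' * R') (w' / M'.gcd w')
          (nw Q₁ (vw (B ∩ Q₁) c₁')) y) := by
    rw [← I_smul]
    congr 1; funext y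
    rw [e1, e2, AwNw28.pc_smul, AwNw28.pc_smul]
    ring
  rw [e4]
  have hd : dens P = dens P₂ * dens P₁ := by
    unfold Crest.Agent.R4.Ovl560.dens
    rw [hP₁, hP₂, mul_comm]
    exact (Finset.prod_filter_mul_prod_filter_not P (fun p => p ∣ w / M.gcd w) _).symm
  have hd' : dens Q = dens Q₂ * dens Q₁ := by
    unfold Crest.Agent.R4.Ovl560.dens
    rw [hQ₁, hQ₂, mul_comm]
    exact (Finset.prod_filter_mul_prod_filter_not Q (fun p => p ∣ w' / M'.gcd w') _).symm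
  have hKK : 0 ≤ K * K' := mul_nonneg h.K0 h'.K0
  have hK : 0 ≤ K * K' / ((rf w M : ℝ) * rf w' M') := by positivity
  have one1 : dens P₂ ≤ 1 := dens_le_one fun l hl => hPp l (Finset.mem_filter.1 hl).1
  have one1' : dens Q₂ ≤ 1 := dens_le_one fun l hl => hQp l (Finset.mem_filter.1 hl).1
  have one2 : dens (P₁ ∩ Q₁) ≤ 1 := dens_le_one fun l hl =>
    hPp l (Finset.mem_filter.1 (Finset.mem_inter.1 hl).1).1
  have i0 : 0 ≤ dens (P₁ ∩ Q₁) := (dens_pos fun l hl =>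
    hPp l (Finset.mem_filter.1 (Finset.mem_inter.1 hl).1).1).le
  have three : dens P₂ * dens Q₂ * dens (P₁ ∩ Q₁) ≤ 1 := by
    have h1 : dens P₂ * dens Q₂ ≤ 1 := mul_le_one₀ one1 d2'.le one1'
    exact mul_le_one₀ h1 i0 one2
  have hRD : 0 ≤ 2 * (R * R' / Da') := by positivity
  calc K * K' / ((rf w M : ℝ) * rf w' M') * (dens P₂ * dens Q₂ * _)
      ≤ K * K' / ((rf w M : ℝ) * rf w' M') * (dens P₂ * dens Q₂ *
        (CLL * ((rf w M * R * dens P₁) * (rf w' M' * R' * dens Q₁) * max 1 (1 / Da') * X) +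
          2 * (rf w M * R * (rf w' M' * R') / Da') * dens (P₁ ∩ Q₁))) :=
        mul_le_mul_of_nonneg_left (mul_le_mul_of_nonneg_left key (mul_pos d2 d2').le) hK
    _ = K * K' * (CLL * ((R * (dens P₂ * dens P₁)) * (R' * (dens Q₂ * dens Q₁)) * max 1 (1 / Da') * X) +
          2 * (R * R' / Da') * (dens P₂ * dens Q₂ * dens (P₁ ∩ Q₁))) := by
        field_simp
    _ ≤ K * K' * (CLL * ((R * (dens P₂ * dens P₁)) * (R' * (dens Q₂ * dens Q₁)) * max 1 (1 / Da') * X) +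
          2 * (R * R' / Da')) := by
        refine mul_le_mul_of_nonneg_left ?_ hKK
        have := mul_le_of_le_one_right hRD three
        linarith
    _ = _ := by rw [hd, hd']

end avg

/-! ### leaves -/

section state
open Crest.Agent.R4.Tour758 Crest.Agent.R4.Clos758
open Crest.Agent.R4.ClosL758 Crest.Agent.R4.ClosG758 Crest.Agent.R4.ClosR758
open Crest.Agent.R4.Fam464 Crest.Agent.R4P.Cnt588 Crest.Agent.R4P.Item758
open Crest.Agent.R4P.GInst194 Crest.Agent.R4P.NMW710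
open Crest.Agent.R4P.LeafFam28 Crest.Agent.R4P.LeafSide28

variable {Λ κ : Type*} [Fintype Λ] [DecidableEq Λ] [Fintype κ] [DecidableEq κ]
  {D : Item758.Par Λ κ} {ρ : ℕ → ℝ} {Al : Finset ℕ} {M M' b pr b' pr' : ℕ} {t t' : IT}
  {A A' : Finset Λ}

/-- **the weights of one item at a leaf** `(b, pr)`: `P` primes of `q / pr`, label `lab` with radius
`φ` on the leaf circle -/
structure OmL (D : Item758.Par Λ κ) (ρ : ℕ → ℝ) (b pr q : ℕ) (K : ℝ) (P : Finset ℕ) (φ : ℝ)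
    (lab : Option ℚ) : Prop where
  K0 : 0 ≤ K
  sub : P ⊆ (q / pr).primeFactors
  φ0 : 0 < φ
  φR : φ ≤ b * ρ q
  le : ∀ j, D.it j = q → ∀ a, D.om j a ≤ K * nw P (uw (b * D.γ) φ lab) a

/-- the pieces of one item at a leaf -/
lemma OmL.fam {K φ : ℝ} {P : Finset ℕ} {lab : Option ℚ} {q : ℕ} (ho : OmL D ρ b pr q K P φ lab)
    (hR : D.Rad ρ) (hb : 0 < b) (hF : Fit b pr t) (hW : D.Wts pr t) (hq : q ∈ t.items)
    (hm : mp t q = 1) (A : Finset Λ) :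
    FamW (A.filter fun j => D.it j = q) (fun j => (D.toFT b pr t).U 1 j) ((b : ℝ) * D.γ)
      ((b : ℝ) * ρ q) (q / pr) (fun j => (b : ℝ) * D.al j) (fun j => (b : ℝ) * D.be j)
      K (nw P (vw (actS (b * D.γ) φ lab P) (cls lab))) := by
  have hP : ∀ l ∈ P, l.Prime := fun l hl => Nat.prime_of_mem_primeFactors (ho.sub hl)
  have h0 := fam_node hR hb hF hW (one_dvd b) hq A
  rw [Nat.cast_one, div_one] at h0
  refine Fam.toW h0 ho.K0 (Wt_nw' (LW_vw hP) fun l hl => Nat.dvd_of_mem_primeFactors (ho.sub hl))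
    fun j hj a => ?_
  have e : D.it j = q := (Finset.mem_filter.1 hj).2
  have h1 := ho.le j e a
  rw [nw_uw_eq hP] at h1
  rw [hm]
  simpa using h1

lemma OmL.labOk {K φ : ℝ} {P : Finset ℕ} {lab : Option ℚ} {q : ℕ}
    (ho : OmL D ρ b pr q K P φ lab) :
    LabOk (b * D.γ) (b * ρ q) φ lab P (actS (b * D.γ) φ lab P) (cls lab) :=
  LabOk.self lab ho.φ0 ho.φR

/-- **the energy of a pair of items of two leaves** -/
theorem iF_lab (hR : D.Rad ρ) (hM : 0 < M) (hM' : 0 < M') (hb : 0 < b) (hb' : 0 < b')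
    (hF : Fit b pr t) (hF' : Fit b' pr' t') (hW : D.Wts pr t) (hW' : D.Wts pr' t')
    (R : Finset (Λ × Λ)) (A A' : Finset Λ) (e : ℕ × ℕ)
    (he : e.1 ∈ t.items) (he' : e.2 ∈ t'.items) (hm : mp t e.1 = 1) (hm' : mp t' e.2 = 1)
    {K K' φ φ' : ℝ} {P P' : Finset ℕ} {lab lab' : Option ℚ}
    (ho : OmL D ρ b pr e.1 K P φ lab) (ho' : OmL D ρ b' pr' e.2 K' P' φ' lab') :
    D.iF R (D.uA M b pr t A 1) (D.uA M' b' pr' t' A' 1) e ≤
      K * K' * (CLL * (((b : ℝ) * ρ e.1 * dens P) * ((b' : ℝ) * ρ e.2 * dens P') *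
          max 1 (1 / DaI ρ M b pr 1 M' b' pr' 1 e) *
          AX (cof (e.1 / pr / M.gcd (e.1 / pr)) (e.2 / pr' / M'.gcd (e.2 / pr')))
            (cof (e.2 / pr' / M'.gcd (e.2 / pr')) (e.1 / pr / M.gcd (e.1 / pr)))
            (DaI ρ M b pr 1 M' b' pr' 1 e)) +
        2 * ((b : ℝ) * ρ e.1 * ((b' : ℝ) * ρ e.2) / DaI ρ M b pr 1 M' b' pr' 1 e)) := by
  obtain ⟨a1, a2, a3⟩ := hF.item _ he
  obtain ⟨a1', a2', a3'⟩ := hF'.item _ he'
  have w0 : 0 < e.1 / pr := Nat.div_pos (Nat.le_of_dvd a1 a2) (Nat.pos_of_dvd_of_pos a2 a1)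
  have w0' : 0 < e.2 / pr' :=
    Nat.div_pos (Nat.le_of_dvd a1' a2') (Nat.pos_of_dvd_of_pos a2' a1')
  have key := fam_pair_lab (ho.fam hR hb hF hW he hm A) (ho'.fam hR hb' hF' hW' he' hm' A') hM hM'
    w0 w0' ho.sub ho'.sub ho.labOk ho'.labOk
  have eD : DaI ρ M b pr 1 M' b' pr' 1 e =
      Da (e.1 / pr) M (e.2 / pr') M' ((b : ℝ) * ρ e.1) ((b' : ℝ) * ρ e.2) := by
    unfold DaI
    rw [Nat.cast_one, div_one, div_one]
  rw [eD]
  exact (iF_le_prod hM hM' hb hb' hF hF' hW hW' (one_dvd _) (one_dvd _) R A A' e).trans key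

/-- the same, generic pairs: scale `≥ 1`, anatomy `≤ T`, exact part below the densities -/
theorem iF_lab_gen (hR : D.Rad ρ) (hM : 0 < M) (hM' : 0 < M') (hb : 0 < b) (hb' : 0 < b')
    (hF : Fit b pr t) (hF' : Fit b' pr' t') (hW : D.Wts pr t) (hW' : D.Wts pr' t')
    (R : Finset (Λ × Λ)) (A A' : Finset Λ) (e : ℕ × ℕ)
    (he : e.1 ∈ t.items) (he' : e.2 ∈ t'.items) (hm : mp t e.1 = 1) (hm' : mp t' e.2 = 1)
    {K K' φ φ' : ℝ} {P P' : Finset ℕ} {lab lab' : Option ℚ}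
    (ho : OmL D ρ b pr e.1 K P φ lab) (ho' : OmL D ρ b' pr' e.2 K' P' φ' lab') {T T₂ : ℝ}
    (hD : 1 ≤ DaI ρ M b pr 1 M' b' pr' 1 e) (hT : anI ρ M b pr 1 M' b' pr' 1 e ≤ T)
    (hT₂ : 1 ≤ T₂ * (DaI ρ M b pr 1 M' b' pr' 1 e * (dens P * dens P'))) :
    D.iF R (D.uA M b pr t A 1) (D.uA M' b' pr' t' A' 1) e ≤
      K * K' * (CLL * T + 2 * T₂) *
        (((b : ℝ) * ρ e.1 * dens P) * ((b' : ℝ) * ρ e.2 * dens P')) := by
  have key := iF_lab hR hM hM' hb hb' hF hF' hW hW' R A A' e he he' hm hm' ho ho'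
  refine key.trans ?_
  set Δ := DaI ρ M b pr 1 M' b' pr' 1 e with hΔ
  have hΔ0 : 0 < Δ := by linarith
  have h1 : max 1 (1 / Δ) = 1 := by
    refine max_eq_left ?_
    rw [div_le_one hΔ0]; exact hD
  have h2 : AX (cof (e.1 / pr / M.gcd (e.1 / pr)) (e.2 / pr' / M'.gcd (e.2 / pr')))
            (cof (e.2 / pr' / M'.gcd (e.2 / pr')) (e.1 / pr / M.gcd (e.1 / pr))) Δ =
      anI ρ M b pr 1 M' b' pr' 1 e := by
    unfold AX anI anF
    rw [← hΔ, max_eq_right hD]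
  rw [h1, h2, mul_one]
  have r1 : 0 ≤ (b : ℝ) * ρ e.1 := mul_nonneg (Nat.cast_nonneg _) (hR.pos _).le
  have r2 : 0 ≤ (b' : ℝ) * ρ e.2 := mul_nonneg (Nat.cast_nonneg _) (hR.pos _).le
  have d1 : 0 < dens P := dens_pos fun l hl => Nat.prime_of_mem_primeFactors (ho.sub hl)
  have d2 : 0 < dens P' := dens_pos fun l hl => Nat.prime_of_mem_primeFactors (ho'.sub hl)
  set m : ℝ := ((b : ℝ) * ρ e.1 * dens P) * ((b' : ℝ) * ρ e.2 * dens P') with hmdef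
  have hm0 : 0 ≤ m := by positivity
  have hC := CLL_ge
  have hx : (b : ℝ) * ρ e.1 * ((b' : ℝ) * ρ e.2) / Δ ≤ T₂ * m := by
    rw [div_le_iff₀ hΔ0]
    have h3 : 0 ≤ (b : ℝ) * ρ e.1 * ((b' : ℝ) * ρ e.2) := mul_nonneg r1 r2
    have h4 := mul_le_mul_of_nonneg_left hT₂ h3
    rw [mul_one] at h4
    refine h4.trans (le_of_eq ?_)
    rw [hmdef]; ring
  have hy : CLL * (m * anI ρ M b pr 1 M' b' pr' 1 e) ≤ CLL * (m * T) :=
    mul_le_mul_of_nonneg_left (mul_le_mul_of_nonneg_left hT hm0) (by linarith)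
  calc K * K' * (CLL * (m * anI ρ M b pr 1 M' b' pr' 1 e) +
        2 * ((b : ℝ) * ρ e.1 * ((b' : ℝ) * ρ e.2) / Δ))
      ≤ K * K' * (CLL * (m * T) + 2 * (T₂ * m)) :=
        mul_le_mul_of_nonneg_left (by linarith) (mul_nonneg ho.K0 ho'.K0)
    _ = _ := by ring

open Classical in
/-- **(leaf, leaf')**: product of the sifted masses plus the `pb` of the low pairs -/
theorem ll_block (hR : D.Rad ρ) (hdead : ∀ j, D.it j ∉ Al → ∀ a, D.om j a = 0)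
    (hM : 0 < M) (hM' : 0 < M') (hb : 0 < b) (hb' : 0 < b') (hF : Fit b pr t) (hF' : Fit b' pr' t')
    (hW : D.Wts pr t) (hW' : D.Wts pr' t') (R : Finset (Λ × Λ)) (A A' : Finset Λ)
    {K K' : ℝ} (hK : 0 ≤ K) (hK' : 0 ≤ K') {P P' : ℕ → Finset ℕ} {φ φ' : ℕ → ℝ}
    {lab lab' : ℕ → Option ℚ}
    (ho : ∀ q ∈ Qi D Al t A, mp t q = 1 ∧ OmL D ρ b pr q K (P q) (φ q) (lab q))
    (ho' : ∀ q ∈ Qi D Al t' A', mp t' q = 1 ∧ OmL D ρ b' pr' q K' (P' q) (φ' q) (lab' q))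
    {Pw Lo : ℕ × ℕ → Prop} {T T₂ : ℝ} (hT : 0 ≤ T) (hT₂ : 0 ≤ T₂)
    (hP : ∀ e ∈ D.PE R (D.uA M b pr t A 1) (D.uA M' b' pr' t' A' 1), Pw e)
    (hLo : ∀ e ∈ Qi D Al t A ×ˢ Qi D Al t' A', Pw e → ¬ Lo e →
      1 ≤ DaI ρ M b pr 1 M' b' pr' 1 e ∧ anI ρ M b pr 1 M' b' pr' 1 e ≤ T ∧
      1 ≤ T₂ * (DaI ρ M b pr 1 M' b' pr' 1 e * (dens (P e.1) * dens (P' e.2)))) :
    Q R (D.uA M b pr t A 1) (D.uA M' b' pr' t' A' 1) ≤
      K * K' * (CLL * T + 2 * T₂) * ((∑ q ∈ Qi D Al t A, (b : ℝ) * ρ q * dens (P q)) *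
        ∑ r ∈ Qi D Al t' A', (b' : ℝ) * ρ r * dens (P' r)) +
      ∑ e ∈ (Qi D Al t A ×ˢ Qi D Al t' A').filter (fun e => Pw e ∧ Lo e),
        D.pb ρ M b pr 1 e.1 M' b' pr' 1 e.2 := by
  classical
  have hC := CLL_ge
  have hKT : 0 ≤ K * K' * (CLL * T + 2 * T₂) := by positivity
  have hd : ∀ q ∈ Qi D Al t A, 0 ≤ (b : ℝ) * ρ q * dens (P q) := fun q hq => by
    have h1 := (dens_pos (P := P q) fun l hl =>
      Nat.prime_of_mem_primeFactors ((ho q hq).2.sub hl)).le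
    have h2 := (hR.pos q).le
    positivity
  have hd' : ∀ q ∈ Qi D Al t' A', 0 ≤ (b' : ℝ) * ρ q * dens (P' q) := fun q hq => by
    have h1 := (dens_pos (P := P' q) fun l hl =>
      Nat.prime_of_mem_primeFactors ((ho' q hq).2.sub hl)).le
    have h2 := (hR.pos q).le
    positivity
  have key := block_core hR hdead hM hM' hb hb' hF hF' hW hW' (one_dvd _) (one_dvd _) R A A'
    (f := fun q => K * K' * (CLL * T + 2 * T₂) * ((b : ℝ) * ρ q * dens (P q)))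
    (g := fun r => (b' : ℝ) * ρ r * dens (P' r)) (Pw := Pw) (Lo := Lo)
    (fun q hq => mul_nonneg hKT (hd q hq)) hd' hP
    (fun e he h1 h2 => by
      have hm := Finset.mem_product.1 he
      obtain ⟨k1, k2, k3⟩ := hLo e he h1 h2
      refine (iF_lab_gen hR hM hM' hb hb' hF hF' hW hW' R A A' e
        (mem_Qi.1 hm.1).1 (mem_Qi.1 hm.2).1 (ho _ hm.1).1 (ho' _ hm.2).1 (ho _ hm.1).2 (ho' _ hm.2).2
        k1 k2 k3).trans (le_of_eq ?_)
      ring)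
  refine key.trans (le_of_eq ?_)
  rw [← Finset.mul_sum]
  ring

/-! ### the cross walk -/

open Crest.Agent.R4P.CrossLoc25 Crest.Agent.R4P.CrossLocC25 Crest.Agent.R4P.TBLeaf28
open Crest.Agent.R4P.Walk560 Crest.Agent.R4P.WalkC

variable {Lo : ℝ × ℝ → ℕ × ℕ → Prop} {x0 y0 : ℕ × ℕ → ℕ}

open Classical in
/-- **(leaf, leaf')** in the letters of the cross walk -/
theorem LL_Q (hL : LoX Lo ρ x0 y0) {T₁ : ℝ} (hT₁ : ∀ s e, ¬ Lo s e → T₁ ≤ Dsc (ρ e.1) (ρ e.2) s)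
    (hR : D.Rad ρ) (hdead : ∀ j, D.it j ∉ Al → ∀ a, D.om j a = 0)
    (hM : 0 < M) (hM' : 0 < M') (hb : 0 < b) (hb' : 0 < b') (hF : Fit b pr t) (hF' : Fit b' pr' t')
    (hW : D.Wts pr t) (hW' : D.Wts pr' t') (R : Finset (Λ × Λ)) (A A' : Finset Λ)
    {K K' : ℝ} (hK : 0 ≤ K) (hK' : 0 ≤ K') {P P' : ℕ → Finset ℕ} {φ φ' : ℕ → ℝ}
    {lab lab' : ℕ → Option ℚ}
    (ho : ∀ q ∈ Qi D Al t A, mp t q = 1 ∧ OmL D ρ b pr q K (P q) (φ q) (lab q))
    (ho' : ∀ q ∈ Qi D Al t' A', mp t' q = 1 ∧ OmL D ρ b' pr' q K' (P' q) (φ' q) (lab' q))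
    (hJ : ∀ e ∈ Qi D Al t A ×ˢ Qi D Al t' A', JC x0 y0 M pr M' pr' e) {T₂ : ℝ} (hT₂ : 0 ≤ T₂)
    (hd : ∀ e ∈ Qi D Al t A ×ˢ Qi D Al t' A', 1 ≤ T₂ * (T₁ * (dens (P e.1) * dens (P' e.2)))) :
    Q R (D.uA M b pr t A 1) (D.uA M' b' pr' t' A' 1) ≤
      K * K' * (CLL * Real.exp 2 + 2 * T₂) * ((∑ q ∈ Qi D Al t A, (b : ℝ) * ρ q * dens (P q)) *
        ∑ r ∈ Qi D Al t' A', (b' : ℝ) * ρ r * dens (P' r)) +
      ∑ e ∈ Qi D Al t A ×ˢ Qi D Al t' A',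
        (b : ℝ) * b' * FL Lo ρ D.γ (SE M b pr M' b' pr' e) e := by
  have hb1 : (b : ℝ) / (1 : ℕ) = b := by simp
  have hb1' : (b' : ℝ) / (1 : ℕ) = b' := by simp
  have key := ll_block hR hdead hM hM' hb hb' hF hF' hW hW' R A A' hK hK' ho ho'
    (Pw := fun _ => True) (Lo := fun e => Lo (SE M b pr M' b' pr' e) e) (T := Real.exp 2) (T₂ := T₂)
    (Real.exp_pos 2).le hT₂ (fun _ _ => trivial)
    (fun e he _ hn => by
      obtain ⟨k1, k2⟩ := good_pair hL hb1 hb1' rfl hn (hJ e he)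
      refine ⟨k1, k2, ?_⟩
      have hm := Finset.mem_product.1 he
      have d1 : 0 < dens (P e.1) := dens_pos fun l hl =>
        Nat.prime_of_mem_primeFactors ((ho _ hm.1).2.sub hl)
      have d2 : 0 < dens (P' e.2) := dens_pos fun l hl =>
        Nat.prime_of_mem_primeFactors ((ho' _ hm.2).2.sub hl)
      have hD : DaI ρ M b pr 1 M' b' pr' 1 e = Dsc (ρ e.1) (ρ e.2) (SE M b pr M' b' pr' e) := by
        unfold DaI
        rw [hb1, hb1']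
        exact Da_eq_sc (e.1 / pr) M (e.2 / pr') M' b b' (ρ e.1) (ρ e.2)
      have h1 := hT₁ _ e hn
      rw [← hD] at h1
      refine (hd e he).trans (mul_le_mul_of_nonneg_left ?_ hT₂)
      exact mul_le_mul_of_nonneg_right h1 (mul_pos d1 d2).le)
  refine key.trans (add_le_add le_rfl ?_)
  refine sum_lo_le (fun e => mul_nonneg (by positivity) (FL_nonneg hR.pos _ _ _)) fun e _ _ h2 => ?_
  rw [pb_one]
  unfold vE FL
  rw [if_pos ⟨h2, SE_pos M b pr M' b' pr' e⟩]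

variable [WRel κ] {sp : ℕ → Finset Λ}

lemma eSTOPC_le (stp : St Λ κ → Prop) (μ : TrG Λ κ → Finset Λ → ℝ) (B : ℝ) (s : St Λ κ) :
    eSTOPC stp μ B s ≤ Xs μ B s := by
  unfold eSTOPC
  split_ifs
  · exact le_rfl
  · exact Xs_nonneg _ _ _

open Classical in
/-- **(leaf, leaf')** state -/
theorem LL_Qs (hL : LoX Lo ρ x0 y0) {T₁ : ℝ} (hT₁ : ∀ s e, ¬ Lo s e → T₁ ≤ Dsc (ρ e.1) (ρ e.2) s)
    (hR : D.Rad ρ) (hdead : ∀ j, D.it j ∉ Al → ∀ a, D.om j a = 0) {s : St Λ κ}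
    (h : StI D sp s b pr t b' pr' t')
    {K K' : ℝ} (hK : 0 ≤ K) (hK' : 0 ≤ K') {P P' : ℕ → Finset ℕ} {φ φ' : ℕ → ℝ}
    {lab lab' : ℕ → Option ℚ}
    (ho : ∀ q ∈ Qi D Al t s.A, mp t q = 1 ∧ OmL D ρ b pr q K (P q) (φ q) (lab q))
    (ho' : ∀ q ∈ Qi D Al t' s.A', mp t' q = 1 ∧ OmL D ρ b' pr' q K' (P' q) (φ' q) (lab' q))
    (hJ : ∀ e ∈ Qi D Al t s.A ×ˢ Qi D Al t' s.A', JC x0 y0 s.M pr s.M' pr' e) {T₂ : ℝ}
    (hT₂ : 0 ≤ T₂)
    (hd : ∀ e ∈ Qi D Al t s.A ×ˢ Qi D Al t' s.A', 1 ≤ T₂ * (T₁ * (dens (P e.1) * dens (P' e.2)))) :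
    Qs s ≤ K * K' * (CLL * Real.exp 2 + 2 * T₂) *
        ((∑ q ∈ Qi D Al t s.A, (b : ℝ) * ρ q * dens (P q)) *
        ∑ r ∈ Qi D Al t' s.A', (b' : ℝ) * ρ r * dens (P' r)) +
      ∑ e ∈ Qi D Al t s.A ×ˢ Qi D Al t' s.A',
        (b : ℝ) * b' * FL Lo ρ D.γ (SE s.M b pr s.M' b' pr' e) e := by
  rw [Qs_Q h]
  exact LL_Q hL hT₁ hR hdead h.M0 h.M0' h.L.hb h.R.hb h.L.hF h.R.hF h.L.hW h.R.hW s.R s.A s.A'
    hK hK' ho ho' hJ hT₂ hd

open Classical in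
/-- the same when the product part is paid by `B μ μ'` -/
theorem LL_Xs (hL : LoX Lo ρ x0 y0) {T₁ : ℝ} (hT₁ : ∀ s e, ¬ Lo s e → T₁ ≤ Dsc (ρ e.1) (ρ e.2) s)
    (hR : D.Rad ρ) (hdead : ∀ j, D.it j ∉ Al → ∀ a, D.om j a = 0) {s : St Λ κ}
    (h : StI D sp s b pr t b' pr' t')
    {K K' : ℝ} (hK : 0 ≤ K) (hK' : 0 ≤ K') {P P' : ℕ → Finset ℕ} {φ φ' : ℕ → ℝ}
    {lab lab' : ℕ → Option ℚ}
    (ho : ∀ q ∈ Qi D Al t s.A, mp t q = 1 ∧ OmL D ρ b pr q K (P q) (φ q) (lab q))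
    (ho' : ∀ q ∈ Qi D Al t' s.A', mp t' q = 1 ∧ OmL D ρ b' pr' q K' (P' q) (φ' q) (lab' q))
    (hJ : ∀ e ∈ Qi D Al t s.A ×ˢ Qi D Al t' s.A', JC x0 y0 s.M pr s.M' pr' e) {T₂ : ℝ}
    (hT₂ : 0 ≤ T₂)
    (hd : ∀ e ∈ Qi D Al t s.A ×ˢ Qi D Al t' s.A', 1 ≤ T₂ * (T₁ * (dens (P e.1) * dens (P' e.2))))
    {μ : TrG Λ κ → Finset Λ → ℝ} {B : ℝ}
    (hB : K * K' * (CLL * Real.exp 2 + 2 * T₂) *
        ((∑ q ∈ Qi D Al t s.A, (b : ℝ) * ρ q * dens (P q)) *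
        ∑ r ∈ Qi D Al t' s.A', (b' : ℝ) * ρ r * dens (P' r)) ≤ B * (μ s.t.g s.A * μ s.t'.g s.A')) :
    Xs μ B s ≤ ∑ e ∈ Qi D Al t s.A ×ˢ Qi D Al t' s.A',
        (b : ℝ) * b' * FL Lo ρ D.γ (SE s.M b pr s.M' b' pr' e) e := by
  have key := LL_Qs hL hT₁ hR hdead h hK hK' ho ho' hJ hT₂ hd
  unfold Xs
  refine max_le (Finset.sum_nonneg fun e _ =>
    mul_nonneg (by positivity) (FL_nonneg hR.pos _ _ _)) ?_
  linarith

end state

end Crest.Agent.R4P.LLPair30
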