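import Crest.Agent.R4P.HiLeafS_28
import Crest.Agent.R4P.LLPair_30

/-!
R4 (S0004), powers, module D, helper28: **(leaf, nonleaf) states of the cross walk**, high pairs
(mirror of `HiLeafS_28`), and both in state form.

`iF_HL'` : one pair, leaf left; `HL_Q'` : blocks; `HL_Qs`, `HL_Xs`, `HL_Qs'`, `HL_Xs'` : states.
-/

set_option autoImplicit false
set_option linter.unusedSectionVars false
set_option linter.unusedVariables false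
open Finset hiding dens

namespace Crest.Agent.R4P.HiLeafS28

open Crest.Agent.R4.HVW560 Crest.Agent.R4P.AvgItem710
open Crest.Agent.R4.Ovl560 (LW nw nw_nonneg nw_add exw dens dens_pos dens_mono)
open Crest.Agent.R4.Tour104 Crest.Agent.R4.Tour758 Crest.Agent.R4.Avg758 Crest.Agent.R4.Clos758
open Crest.Agent.R4.ClosL758 Crest.Agent.R4.ClosG758 Crest.Agent.R4.ClosR758
open Crest.Agent.R4.Fam464 Crest.Agent.R4P.Cnt588 Crest.Agent.R4P.Walk560 Crest.Agent.R4.Piece464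
open Crest.Agent.R4P.GInst194 Crest.Agent.R4P.WalkIT579 Crest.Agent.R4P.Item758
open Crest.Agent.R4P.NMW710 Crest.Agent.R4P.CrossLoc25 Crest.Agent.R4P.CrossLocC25
open Crest.Agent.R4P.Step588 (Fq ItHi2 PB_Fq iF_le_Fq sum_IFq_le)
open Crest.Agent.R4P.LeafFam28 Crest.Agent.R4P.LeafSide28 Crest.Agent.R4P.CofMono28
open Crest.Agent.R4P.TBLeaf28 Crest.Agent.R4P.HiLeaf28 Crest.Agent.R4P.LLPair30

variable {Λ κ : Type*} [Fintype Λ] [DecidableEq Λ] [Fintype κ] [DecidableEq κ]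
variable {D : Par Λ κ} {ρ : ℕ → ℝ} {Al : Finset ℕ} {M M' b pr b' pr' : ℕ} {t t' : IT}
variable {x0 y0 : ℕ × ℕ → ℕ}

/-- **one pair**, leaf left -/
theorem iF_HL' {C : ℝ} (hC : PairO C) (hC0 : 0 ≤ C) (hR : D.Rad ρ) (hM : 0 < M) (hM' : 0 < M')
    (hb : 0 < b) (hb' : 0 < b') (hF : Fit b pr t) (hF' : Fit b' pr' t') (hW : D.Wts pr t)
    (hW' : D.Wts pr' t') {K' : ℝ} {P : ℕ → Finset ℕ} {v : ℕ → ℕ → ℤ → ℝ}
    (ho : OmW D b pr t K' P v) (Rl : Finset (Λ × Λ)) (A A' : Finset Λ) {K V0 : ℕ}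
    {C1 η H ε T : ℝ} (hε : 0 < ε) (hε1 : ε ≤ 2) (hH : 0 ≤ H) {e : ℕ × ℕ} (he : e.1 ∈ t.items)
    (he' : e.2 ∈ t'.items) (hI : ItHi2 D ρ b' pr' t' K V0 C1 η H e.2) (hJ : JC x0 y0 M pr M' pr' e)
    (hT4 : 4 ≤ T) (hV : (V0 : ℝ) ≤ Real.sqrt T) (hV2 : 2 * V0 * H / ε ≤ Real.sqrt T)
    (hD : T ≤ Dsc (ρ e.1) (ρ e.2) (SE M b pr M' b' pr' e))
    (hS : SD (x0 e) (y0 e) (Real.sqrt (Dsc (ρ e.1) (ρ e.2) (SE M b pr M' b' pr' e))) ≤ 1) :
    D.iF Rl (D.uA M b pr t A 1) (D.uA M' b' pr' t' A' 1) e ≤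
      (b * ρ e.1 * dens (P e.1)) *
      (C * K' * Real.exp 2 / 2 * (C1 * (I (Fq D b' pr' t' 1 e.2) + η * (b' * ρ e.2)) +
        3 * K * ε * (b' * ρ e.2))) := by
  set Dd := Dsc (ρ e.1) (ρ e.2) (SE M b pr M' b' pr' e) with hDd
  obtain ⟨k, w, hk, hw, hz⟩ := hI
  obtain ⟨a1, a2, -⟩ := hF.item _ he
  have w0 : 0 < e.1 / pr := Nat.div_pos (Nat.le_of_dvd a1 a2) (Nat.pos_of_dvd_of_pos a2 a1)
  have b0 : (0 : ℝ) < b := by exact_mod_cast hb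
  have b0' : (0 : ℝ) < b' := by exact_mod_cast hb'
  have r0 : 0 < (b : ℝ) * ρ e.1 := mul_pos b0 (hR.pos _)
  have r0' : 0 < (b' : ℝ) * ρ e.2 := mul_pos b0' (hR.pos _)
  have hda : Crest.Agent.R4.AvgItem710.Da (e.2 / pr') M' (e.1 / pr) M (b' * ρ e.2) (b * ρ e.1) =
      Dd := by
    rw [Da_swap, hDd]
    exact Da_eq_sc (e.1 / pr) M (e.2 / pr') M' b b' (ρ e.1) (ρ e.2)
  have hx : ∀ l ∈ P e.1, ExF l (su (1 * mp t e.1) (v e.1) l) := fun l hl =>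
    (ho.ex _ he l hl).comp_mul (ho.pm _ he l hl) fun h => by
      have h1 : l ∣ 1 * mp t e.1 := by exact_mod_cast h
      exact ho.nb _ he l hl (h1.trans (mul_dvd_mul_right (one_dvd _) _))
  have hTd : Real.sqrt T ≤ Real.sqrt Dd := Real.sqrt_le_sqrt hD
  have hDd0 : 0 ≤ Dd := by linarith
  have hsq : Real.sqrt Dd * Real.sqrt Dd = Dd := Real.mul_self_sqrt hDd0
  have hs2 : 2 ≤ Real.sqrt Dd := by
    have : Real.sqrt 4 ≤ Real.sqrt Dd := Real.sqrt_le_sqrt (hT4.trans hD)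
    have h4 : Real.sqrt 4 = 2 := by
      rw [show (4 : ℝ) = 2 ^ 2 by norm_num]; exact Real.sqrt_sq (by norm_num)
    linarith
  have hwV : (w : ℝ) ≤ V0 := by exact_mod_cast hw
  have key := IZ2_leaf hC hC0 (PB_Fq D e.2 hb' hF' hW' (one_dvd _)) (PB_Fq D e.1 hb hF hW (one_dvd _))
    (M := M') (M' := M) hz (P := P e.1) (u := su (1 * mp t e.1) (v e.1)) (θ' := b * D.γ)
    (r' := b * ρ e.1) (K' := K') (w' := e.1 / pr) (ε := ε)
    (fun x => Fq_le_pc hR hb hF hW ho he x) ho.K0 hM' hM w0 r0 (ho.pm _ he) (ho.dv _ he)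
    hx hε hε1 (D₁ := Real.sqrt Dd) (by linarith) (by
      rw [hda]
      have h2 : 2 * w * H / ε ≤ 2 * V0 * H / ε := by
        refine div_le_div_of_nonneg_right ?_ hε.le
        refine mul_le_mul_of_nonneg_right ?_ hH
        linarith
      calc 2 * w * H / ε * Real.sqrt Dd ≤ Real.sqrt Dd * Real.sqrt Dd :=
            mul_le_mul_of_nonneg_right (h2.trans (hV2.trans hTd)) (Real.sqrt_nonneg _)
        _ = Dd := hsq)
  have key0 := iF_le_Fq hM hM' hb hb' hF hF' hW hW' Rl A A' e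
  have e0 : (fun y => Ep M (Fq D b pr t 1 e.1) y * Ep M' (Fq D b' pr' t' 1 e.2) y) =
      fun y => Ep M' (Fq D b' pr' t' 1 e.2) y * Ep M (Fq D b pr t 1 e.1) y :=
    funext fun y => mul_comm _ _
  rw [e0] at key0
  refine key0.trans (key.trans ?_)
  rw [anF_swap]
  have hmu : 0 ≤ C1 * (I (Fq D b' pr' t' 1 e.2) + η * (b' * ρ e.2)) := hz.pos.2.2
  have hAF : anF (cof (e.1 / pr / M.gcd (e.1 / pr)) (e.2 / pr' / M'.gcd (e.2 / pr')))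
      (cof (e.2 / pr' / M'.gcd (e.2 / pr')) (e.1 / pr / M.gcd (e.1 / pr))) (Real.sqrt Dd) ≤
      Real.exp 2 := by
    refine (anF_mono hJ.px hJ.py hJ.x hJ.y le_rfl).trans ((anF_le hs2).trans
      (Real.exp_le_exp.2 ?_))
    linarith
  have hkK : (k : ℝ) ≤ K := by exact_mod_cast hk
  have hd : 0 ≤ dens (P e.1) := (dens_pos (ho.pm _ he)).le
  have hK0 := ho.K0
  have g1 : C1 * (I (Fq D b' pr' t' 1 e.2) + η * (b' * ρ e.2)) + 3 * k * ε * (b' * ρ e.2) ≤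
      C1 * (I (Fq D b' pr' t' 1 e.2) + η * (b' * ρ e.2)) + 3 * K * ε * (b' * ρ e.2) := by
    have : 3 * (k : ℝ) * ε * (b' * ρ e.2) ≤ 3 * K * ε * (b' * ρ e.2) := by
      have h1 : 0 ≤ ε * (b' * ρ e.2) := by positivity
      nlinarith
    linarith
  have g0 : 0 ≤ C1 * (I (Fq D b' pr' t' 1 e.2) + η * (b' * ρ e.2)) + 3 * k * ε * (b' * ρ e.2) := by
    positivity
  have hr := hR.pos e.1
  calc C * K' * ((C1 * (I (Fq D b' pr' t' 1 e.2) + η * (b' * ρ e.2)) + 3 * k * ε * (b' * ρ e.2)) / 2 *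
        (b * ρ e.1 * dens (P e.1))) * anF (cof (e.1 / pr / M.gcd (e.1 / pr))
        (e.2 / pr' / M'.gcd (e.2 / pr'))) (cof (e.2 / pr' / M'.gcd (e.2 / pr'))
        (e.1 / pr / M.gcd (e.1 / pr))) (Real.sqrt Dd)
      ≤ C * K' * ((C1 * (I (Fq D b' pr' t' 1 e.2) + η * (b' * ρ e.2)) + 3 * k * ε * (b' * ρ e.2)) / 2 *
        (b * ρ e.1 * dens (P e.1))) * Real.exp 2 :=
        mul_le_mul_of_nonneg_left hAF (by positivity)
    _ ≤ C * K' * ((C1 * (I (Fq D b' pr' t' 1 e.2) + η * (b' * ρ e.2)) + 3 * K * ε * (b' * ρ e.2)) / 2 *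
        (b * ρ e.1 * dens (P e.1))) * Real.exp 2 := by
        gcongr
    _ = _ := by ring

open Classical in
/-- **(leaf, nonleaf)**, blocks -/
theorem HL_Q' {C : ℝ} (hC : PairO C) (hC0 : 0 ≤ C) (hR : D.Rad ρ)
    (hdead : ∀ j, D.it j ∉ Al → ∀ a, D.om j a = 0) (hM : 0 < M) (hM' : 0 < M')
    (hb : 0 < b) (hb' : 0 < b') (hF : Fit b pr t) (hF' : Fit b' pr' t') (hW : D.Wts pr t)
    (hW' : D.Wts pr' t') {K' : ℝ} {P : ℕ → Finset ℕ} {v : ℕ → ℕ → ℤ → ℝ}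
    (ho : OmW D b pr t K' P v) (Rl : Finset (Λ × Λ)) (A A' : Finset Λ) {K V0 : ℕ}
    {C1 η H ε T : ℝ} (hε : 0 < ε) (hε1 : ε ≤ 2) (hH : 0 ≤ H)
    (hI : ∀ q ∈ Qi D Al t' A', ItHi2 D ρ b' pr' t' K V0 C1 η H q)
    (hJ : ∀ e ∈ Qi D Al t A ×ˢ Qi D Al t' A', JC x0 y0 M pr M' pr' e)
    (hT4 : 4 ≤ T) (hV : (V0 : ℝ) ≤ Real.sqrt T) (hV2 : 2 * V0 * H / ε ≤ Real.sqrt T)
    {Lo : ℝ × ℝ → ℕ × ℕ → Prop} (hL : LoS Lo ρ x0 y0 T) :
    Q Rl (D.uA M b pr t A 1) (D.uA M' b' pr' t' A' 1) ≤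
      (∑ r ∈ Qi D Al t A, (b : ℝ) * ρ r * dens (P r)) *
      (C * K' * Real.exp 2 / 2 * (C1 * ∑ q ∈ Qi D Al t' A', I (Fq D b' pr' t' 1 q) +
        (C1 * η + 3 * K * ε) * SR ρ b' (Qi D Al t' A'))) +
      ∑ e ∈ Qi D Al t A ×ˢ Qi D Al t' A',
        (b : ℝ) * b' * FL Lo ρ D.γ (SE M b pr M' b' pr' e) e := by
  have key := block_core (c := 1) (c' := 1) hR hdead hM hM' hb hb' hF hF' hW hW' (one_dvd _)
    (one_dvd _) Rl A A' (Pw := fun _ => True) (Lo := fun e => Lo (SE M b pr M' b' pr' e) e)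
    (g := fun q => C * K' * Real.exp 2 / 2 * (C1 * (I (Fq D b' pr' t' 1 q) + η * (b' * ρ q)) +
        3 * K * ε * (b' * ρ q)))
    (f := fun r => (b : ℝ) * ρ r * dens (P r))
    (fun r hr => by
      have := (hR.pos r).le
      have := (dens_pos (ho.pm _ (mem_Qi.1 hr).1)).le
      positivity)
    (fun q hq => by
      obtain ⟨k, w, hk, hw, hz⟩ := hI q hq
      have hmu : 0 ≤ C1 * (I (Fq D b' pr' t' 1 q) + η * (b' * ρ q)) := hz.pos.2.2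
      have := (hR.pos q).le
      have := ho.K0
      positivity)
    (fun _ _ => trivial)
    (fun e he _ hn => by
      have hm := Finset.mem_product.1 he
      exact iF_HL' hC hC0 hR hM hM' hb hb' hF hF' hW hW' ho Rl A A' hε hε1 hH
        (mem_Qi.1 hm.1).1 (mem_Qi.1 hm.2).1 (hI _ hm.2) (hJ e he) hT4 hV hV2 (hL.T _ e hn)
        (hL.sd _ e hn))
  refine key.trans (add_le_add (le_of_eq ?_) ?_)
  · congr 1
    rw [← Finset.mul_sum, Finset.sum_add_distrib, ← Finset.mul_sum, ← Finset.mul_sum,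
      Finset.sum_add_distrib, ← Finset.mul_sum]
    unfold SR
    ring
  · refine sum_lo_le (fun e => mul_nonneg (by positivity) (FL_nonneg hR.pos _ _ _))
      fun e _ _ h2 => ?_
    rw [pb_one]
    unfold vE FL
    rw [if_pos ⟨h2, SE_pos M b pr M' b' pr' e⟩]

/-! ### one leaf item -/

/-- the population of an item -/
noncomputable def Aq (D : Par Λ κ) (q : ℕ) : Finset Λ := Finset.univ.filter (fun j => D.it j = q)

lemma Qi_Aq_sub (D : Par Λ κ) (Al : Finset ℕ) (t : IT) (q : ℕ) : Qi D Al t (Aq D q) ⊆ {q} := by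
  intro r hr
  obtain ⟨-, -, j, hj, hjr⟩ := mem_Qi.1 hr
  rw [Aq, Finset.mem_filter] at hj
  rw [Finset.mem_singleton, ← hjr]
  exact hj.2

section state
variable [WRel κ]

open Classical in
/-- **(nonleaf, leaf)**, states -/
theorem HL_Qs {C : ℝ} (hC : PairO C) (hC0 : 0 ≤ C) (hR : D.Rad ρ)
    (hdead : ∀ j, D.it j ∉ Al → ∀ a, D.om j a = 0) {sp : ℕ → Finset Λ} {s : St Λ κ}
    (h : StI D sp s b pr t b' pr' t') {K' : ℝ} {P : ℕ → Finset ℕ} {v : ℕ → ℕ → ℤ → ℝ}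
    (ho : OmW D b' pr' t' K' P v) {K V0 : ℕ}
    {C1 η H ε T : ℝ} (hε : 0 < ε) (hε1 : ε ≤ 2) (hH : 0 ≤ H)
    (hI : ∀ q ∈ Qi D Al t s.A, ItHi2 D ρ b pr t K V0 C1 η H q)
    (hJ : ∀ e ∈ Qi D Al t s.A ×ˢ Qi D Al t' s.A', JC x0 y0 s.M pr s.M' pr' e)
    (hT4 : 4 ≤ T) (hV : (V0 : ℝ) ≤ Real.sqrt T) (hV2 : 2 * V0 * H / ε ≤ Real.sqrt T)
    {Lo : ℝ × ℝ → ℕ × ℕ → Prop} (hL : LoS Lo ρ x0 y0 T) :
    Qs s ≤
      (C * K' * Real.exp 2 / 2 * (C1 * ∑ q ∈ Qi D Al t s.A, I (Fq D b pr t 1 q) +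
        (C1 * η + 3 * K * ε) * SR ρ b (Qi D Al t s.A))) *
        ∑ r ∈ Qi D Al t' s.A', (b' : ℝ) * ρ r * dens (P r) +
      ∑ e ∈ Qi D Al t s.A ×ˢ Qi D Al t' s.A',
        (b : ℝ) * b' * FL Lo ρ D.γ (SE s.M b pr s.M' b' pr' e) e := by
  rw [Qs_Q h]
  exact HL_Q hC hC0 hR hdead h.M0 h.M0' h.L.hb h.R.hb h.L.hF h.R.hF h.L.hW h.R.hW ho s.R s.A s.A'
    hε hε1 hH hI hJ hT4 hV hV2 hL

open Classical in
/-- **(leaf, nonleaf)**, states -/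
theorem HL_Qs' {C : ℝ} (hC : PairO C) (hC0 : 0 ≤ C) (hR : D.Rad ρ)
    (hdead : ∀ j, D.it j ∉ Al → ∀ a, D.om j a = 0) {sp : ℕ → Finset Λ} {s : St Λ κ}
    (h : StI D sp s b pr t b' pr' t') {K' : ℝ} {P : ℕ → Finset ℕ} {v : ℕ → ℕ → ℤ → ℝ}
    (ho : OmW D b pr t K' P v) {K V0 : ℕ}
    {C1 η H ε T : ℝ} (hε : 0 < ε) (hε1 : ε ≤ 2) (hH : 0 ≤ H)
    (hI : ∀ q ∈ Qi D Al t' s.A', ItHi2 D ρ b' pr' t' K V0 C1 η H q)
    (hJ : ∀ e ∈ Qi D Al t s.A ×ˢ Qi D Al t' s.A', JC x0 y0 s.M pr s.M' pr' e)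
    (hT4 : 4 ≤ T) (hV : (V0 : ℝ) ≤ Real.sqrt T) (hV2 : 2 * V0 * H / ε ≤ Real.sqrt T)
    {Lo : ℝ × ℝ → ℕ × ℕ → Prop} (hL : LoS Lo ρ x0 y0 T) :
    Qs s ≤
      (∑ r ∈ Qi D Al t s.A, (b : ℝ) * ρ r * dens (P r)) *
      (C * K' * Real.exp 2 / 2 * (C1 * ∑ q ∈ Qi D Al t' s.A', I (Fq D b' pr' t' 1 q) +
        (C1 * η + 3 * K * ε) * SR ρ b' (Qi D Al t' s.A'))) +
      ∑ e ∈ Qi D Al t s.A ×ˢ Qi D Al t' s.A',
        (b : ℝ) * b' * FL Lo ρ D.γ (SE s.M b pr s.M' b' pr' e) e := by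
  rw [Qs_Q h]
  exact HL_Q' hC hC0 hR hdead h.M0 h.M0' h.L.hb h.R.hb h.L.hF h.R.hF h.L.hW h.R.hW ho s.R s.A s.A'
    hε hε1 hH hI hJ hT4 hV hV2 hL

end state

/-! ### numbers -/

open Filter Crest.Agent.R4.StepNum442 in
/-- **the numbers of a context** : `T = exp (20 √p)`, `ε = exp (-2 √p)` -/
theorem num_HL (C1 CL : ℝ) : ∃ N0 : ℕ, ∀ N : ℕ, N0 ≤ N → ∀ (V0 : ℕ) (H : ℝ),
    (V0 : ℝ) ≤ Real.exp ((N : ℝ) ^ (1 / 4 : ℝ)) → 0 ≤ H →
    H ≤ 2 * Real.exp ((N : ℝ) ^ (1 / 8 : ℝ)) →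
    4 ≤ Real.exp (20 * (N : ℝ) ^ (1 / 2 : ℝ)) ∧
    (V0 : ℝ) ≤ Real.sqrt (Real.exp (20 * (N : ℝ) ^ (1 / 2 : ℝ))) ∧
    2 * V0 * H / Real.exp (-(2 * (N : ℝ) ^ (1 / 2 : ℝ))) ≤
      Real.sqrt (Real.exp (20 * (N : ℝ) ^ (1 / 2 : ℝ))) ∧
    (C1 * Real.exp (-((N : ℝ) ^ (1 / 2 : ℝ)) / 4) +
      3 * (Kn N : ℕ) * Real.exp (-(2 * (N : ℝ) ^ (1 / 2 : ℝ)))) *
      (CL * Real.log N) ≤ 1 := by
  set E : ℝ := (|C1| + 6) * |CL| with hE
  have h1 : ∀ᶠ N : ℕ in atTop, E * (Real.log N) ^ 1 ≤ (N : ℝ) ^ (1 / 4 : ℝ) :=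
    ev_log 1 (by norm_num) E
  have h2 : ∀ᶠ N : ℕ in atTop, 4 * (N : ℝ) ^ (1 / 4 : ℝ) ≤ (N : ℝ) ^ (1 / 2 : ℝ) :=
    ev_pow (by norm_num) _
  have h3 : ∀ᶠ N : ℕ in atTop, 1 * (N : ℝ) ^ (1 / 8 : ℝ) ≤ (N : ℝ) ^ (1 / 4 : ℝ) :=
    ev_pow (by norm_num) _
  have h4 : ∀ᶠ N : ℕ in atTop, (4 : ℝ) ≤ (N : ℝ) ^ (1 / 2 : ℝ) := ev_const (by norm_num) _
  obtain ⟨N0, hN0⟩ := eventually_atTop.1 ((h1.and h2).and (h3.and h4))
  refine ⟨max N0 1, fun N hN V0 H hV hH0 hH => ?_⟩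
  obtain ⟨⟨k1, k2⟩, k3, k4⟩ := hN0 N ((le_max_left _ _).trans hN)
  have hlog : 0 ≤ Real.log N := Real.log_nonneg (by exact_mod_cast (le_max_right _ _).trans hN)
  have hKn := Kn_le N
  set s : ℝ := (N : ℝ) ^ (1 / 2 : ℝ) with hs
  set r : ℝ := (N : ℝ) ^ (1 / 4 : ℝ) with hr
  set w : ℝ := (N : ℝ) ^ (1 / 8 : ℝ) with hw
  have r0 : 0 ≤ r := by positivity
  have hsq : Real.sqrt (Real.exp (20 * s)) = Real.exp (10 * s) := by
    rw [show 20 * s = 10 * s + 10 * s by ring, Real.exp_add]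
    exact Real.sqrt_mul_self (Real.exp_pos _).le
  rw [hsq]
  have e4 : 4 ≤ Real.exp s := by have := Real.add_one_le_exp s; linarith
  refine ⟨e4.trans (Real.exp_le_exp.2 (by linarith)),
    hV.trans (Real.exp_le_exp.2 (by linarith)), ?_, ?_⟩
  · rw [div_le_iff₀ (Real.exp_pos _), ← Real.exp_add]
    have h5 : (V0 : ℝ) * H ≤ Real.exp r * (2 * Real.exp w) :=
      mul_le_mul hV hH hH0 (Real.exp_pos _).le
    have h6 : Real.exp r * Real.exp w ≤ Real.exp (r + w) := by rw [Real.exp_add]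
    calc 2 * (V0 : ℝ) * H = 2 * (V0 * H) := by ring
      _ ≤ 2 * (Real.exp r * (2 * Real.exp w)) := by linarith
      _ = 4 * (Real.exp r * Real.exp w) := by ring
      _ ≤ Real.exp s * Real.exp (r + w) :=
          mul_le_mul e4 h6 (by positivity) (Real.exp_pos _).le
      _ = Real.exp (s + (r + w)) := by simp only [Real.exp_add]
      _ ≤ Real.exp (10 * s + -(2 * s)) := Real.exp_le_exp.2 (by linarith)
  · have e5 : (Kn N : ℝ) * Real.exp (-(2 * s)) ≤ 2 * Real.exp (-s / 4) := by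
      calc (Kn N : ℝ) * Real.exp (-(2 * s)) ≤ 2 * Real.exp s * Real.exp (-(2 * s)) :=
            mul_le_mul_of_nonneg_right hKn (Real.exp_pos _).le
        _ = 2 * Real.exp (-s) := by rw [mul_assoc, ← Real.exp_add]; congr 2; ring
        _ ≤ 2 * Real.exp (-s / 4) :=
            mul_le_mul_of_nonneg_left (Real.exp_le_exp.2 (by linarith)) (by norm_num)
    have e6 : C1 * Real.exp (-s / 4) ≤ |C1| * Real.exp (-s / 4) :=
      mul_le_mul_of_nonneg_right (le_abs_self _) (Real.exp_pos _).le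
    have e7 : C1 * Real.exp (-s / 4) + 3 * (Kn N : ℕ) * Real.exp (-(2 * s)) ≤
        (|C1| + 6) * Real.exp (-s / 4) := by nlinarith
    have e8 : C1 * Real.exp (-s / 4) + 3 * (Kn N : ℕ) * Real.exp (-(2 * s)) ≥
        -((|C1| + 6) * Real.exp (-s / 4)) := by
      have h7 : -(|C1|) * Real.exp (-s / 4) ≤ C1 * Real.exp (-s / 4) :=
        mul_le_mul_of_nonneg_right (neg_abs_le _) (Real.exp_pos _).le
      have h8 : 0 ≤ 3 * ((Kn N : ℕ) : ℝ) * Real.exp (-(2 * s)) := by positivity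
      have h9 := Real.exp_pos (-s / 4)
      nlinarith
    have e9 : |C1 * Real.exp (-s / 4) + 3 * (Kn N : ℕ) * Real.exp (-(2 * s))| ≤
        (|C1| + 6) * Real.exp (-s / 4) := abs_le.2 ⟨by linarith, e7⟩
    rw [pow_one] at k1
    have e10 : r ≤ Real.exp (s / 4) := by
      have := Real.add_one_le_exp (s / 4)
      linarith
    calc (C1 * Real.exp (-s / 4) + 3 * (Kn N : ℕ) * Real.exp (-(2 * s))) * (CL * Real.log N)
        ≤ |(C1 * Real.exp (-s / 4) + 3 * (Kn N : ℕ) * Real.exp (-(2 * s))) * (CL * Real.log N)| :=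
          le_abs_self _
      _ = |C1 * Real.exp (-s / 4) + 3 * (Kn N : ℕ) * Real.exp (-(2 * s))| *
          (|CL| * Real.log N) := by rw [abs_mul, abs_mul, abs_of_nonneg hlog]
      _ ≤ (|C1| + 6) * Real.exp (-s / 4) * (|CL| * Real.log N) :=
          mul_le_mul_of_nonneg_right e9 (by positivity)
      _ = E * Real.log N * Real.exp (-s / 4) := by rw [hE]; ring
      _ ≤ Real.exp (s / 4) * Real.exp (-s / 4) :=
          mul_le_mul_of_nonneg_right (k1.trans e10) (Real.exp_pos _).le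
      _ = 1 := by rw [← Real.exp_add]; simp [neg_div]

end Crest.Agent.R4P.HiLeafS28
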