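import Crest.Agent.R4P.LeafSide_28
import Crest.Agent.R4.StepFat588

/-!
R4 (S0004), powers, module D, helper28: **window majorant against leaf weights** (tree free).

* `pc_cls` : a piece whose weight has period `v ∣ w` is a combination of raw arcs of modulus `w / v`;
* `cls_pair` : such a piece against a product weight, from the one-sided pair bound `PairO`;
* `IZ2_leaf` : a function with a window majorant `IZ2` against a function below a product weight,
  averages included: no loss except the anatomy factor above `D ε / (2 v H)`.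
-/

set_option autoImplicit false
set_option linter.unusedSectionVars false
set_option linter.unusedVariables false
open MeasureTheory
open Finset hiding dens

namespace Crest.Agent.R4P.HiLeaf28

open Crest.Agent.R4.Tour104 Crest.Agent.R4.Piece464 Crest.Agent.R4.Avg758
open Crest.Agent.R4.HVW560 Crest.Agent.R4.AvgItem710
open Crest.Agent.R4.Ovl560 (LW nw nw_nonneg nw_add exw dens dens_pos dens_mono)
open Crest.Agent.R4.Step588 (WF WFOk IZ2 v1 v1_pos v1_dvd v1_dvd' aw_per1)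
open Crest.Agent.R4P.AwNw28 (ru aw_nw FamW)
open Crest.Agent.R4P.LeafFam28 Crest.Agent.R4P.LeafSide28

/-! ### classes -/

/-- **a piece with a weight of period `v`** -/
theorem pc_cls {θ α β : ℝ} {w v : ℕ} (hv : 0 < v) (hvw : v ∣ w) {κ : ℤ → ℝ} (h : Wt v κ) (x : ℝ) :
    pc θ α β w κ x = ∑ c ∈ Finset.range v, κ (c : ℤ) *
      pc ((θ + c) / v) (α / v) (β / v) (w / v) (fun _ => 1) x := by
  classical
  have hv' : (0 : ℝ) < v := by exact_mod_cast hv
  have hvz : (0 : ℤ) < v := by exact_mod_cast hv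
  obtain ⟨w₁, rfl⟩ := hvw
  rw [Nat.mul_div_cancel_left _ hv]
  have h1 : ∀ c : ℕ, κ (c : ℤ) * pc ((θ + c) / v) (α / v) (β / v) w₁ (fun _ => 1) x =
      ∑ a ∈ Finset.Ioc ⌊(w₁ : ℝ) * x - (θ + c) / v - β / v⌋ ⌊(w₁ : ℝ) * x - (θ + c) / v - α / v⌋,
        κ (c : ℤ) := by
    intro c
    unfold pc
    rw [Finset.mul_sum]
    simp only [mul_one]
  rw [Finset.sum_congr rfl fun c _ => h1 c]
  unfold pc
  rw [← Finset.sum_fiberwise_of_maps_to (s := Finset.Ioc ⌊((v * w₁ : ℕ) : ℝ) * x - θ - β⌋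
    ⌊((v * w₁ : ℕ) : ℝ) * x - θ - α⌋) (t := Finset.range v) (g := fun a : ℤ => (a % v).toNat)]
  · refine Finset.sum_congr rfl fun c hc => ?_
    have hcv : (c : ℤ) < v := by exact_mod_cast Finset.mem_range.1 hc
    refine Finset.sum_bij' (fun a _ => a / v) (fun a _ => (c : ℤ) + v * a) ?_ ?_ ?_ ?_ ?_
    · intro a ha
      obtain ⟨h2, h3⟩ := Finset.mem_filter.1 ha
      obtain ⟨h4, h5⟩ := mem_pw.1 h2
      have h6 : (c : ℤ) = a % v := by
        rw [← h3]; exact Int.toNat_of_nonneg (Int.emod_nonneg a hvz.ne')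
      have h7 : (a : ℝ) = c + v * ((a / v : ℤ) : ℝ) := by
        have : a = c + v * (a / v) := by rw [h6]; exact (Int.emod_add_mul_ediv a v).symm
        exact_mod_cast congrArg (fun z : ℤ => (z : ℝ)) this
      rw [h7] at h4 h5
      push_cast at h4 h5
      rw [mem_pw]
      constructor
      · rw [div_le_iff₀ hv']
        have : ((w₁ : ℝ) * x - (θ + c) / v - ((a / v : ℤ) : ℝ)) * v =
            v * w₁ * x - θ - (c + v * ((a / v : ℤ) : ℝ)) := by field_simp; ring
        rw [this]; exact h4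
      · rw [lt_div_iff₀ hv']
        have : ((w₁ : ℝ) * x - (θ + c) / v - ((a / v : ℤ) : ℝ)) * v =
            v * w₁ * x - θ - (c + v * ((a / v : ℤ) : ℝ)) := by field_simp; ring
        rw [this]; exact h5
    · intro a ha
      rw [mem_pw] at ha
      obtain ⟨h4, h5⟩ := ha
      rw [div_le_iff₀ hv'] at h4
      rw [lt_div_iff₀ hv'] at h5
      have e : ((w₁ : ℝ) * x - (θ + c) / v - (a : ℝ)) * v =
            v * w₁ * x - θ - (c + v * (a : ℝ)) := by field_simp; ring
      rw [e] at h4 h5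
      refine Finset.mem_filter.2 ⟨mem_pw.2 ?_, ?_⟩
      · push_cast
        exact ⟨h4, h5⟩
      · have : ((c : ℤ) + v * a) % v = c := by
          rw [Int.add_mul_emod_self_left, Int.emod_eq_of_lt (by positivity) hcv]
        rw [this]
        simp
    · intro a ha
      obtain ⟨h2, h3⟩ := Finset.mem_filter.1 ha
      have h6 : (c : ℤ) = a % v := by
        rw [← h3]; exact Int.toNat_of_nonneg (Int.emod_nonneg a hvz.ne')
      show (c : ℤ) + v * (a / v) = a
      rw [h6]; exact Int.emod_add_mul_ediv a v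
    · intro a ha
      show ((c : ℤ) + v * a) / v = a
      rw [Int.add_mul_ediv_left _ _ hvz.ne', Int.ediv_eq_zero_of_lt (by positivity) hcv, zero_add]
    · intro a ha
      obtain ⟨h2, h3⟩ := Finset.mem_filter.1 ha
      have h6 : (c : ℤ) = a % v := by
        rw [← h3]; exact Int.toNat_of_nonneg (Int.emod_nonneg a hvz.ne')
      show κ a = κ (c : ℤ)
      rw [h6]
      exact h.congr (Int.mod_modEq a v).symm
  · intro a _
    have h1 := Int.emod_nonneg a hvz.ne'
    have h2 := Int.emod_lt_of_pos a hvz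
    rw [Finset.mem_range]
    omega

lemma pc_arc {θ α β : ℝ} {w : ℕ} (x : ℝ) :
    pc θ α β w (fun _ => 1) x = arc (θ + (α + β) / 2) ((β - α) / 2) w x := by
  unfold arc pc
  congr 2 <;> · congr 1; ring

/-! ### cofactors of `X / v` -/

lemma cof_div_l (v a c : ℕ) (ha : 0 < a) : cof a c ∣ cof (v * a) c := by
  unfold cof
  have hg : 0 < a.gcd c := Nat.gcd_pos_of_pos_left _ ha
  obtain ⟨a', ha'⟩ := Nat.gcd_dvd_left a c
  obtain ⟨c', hc'⟩ := Nat.gcd_dvd_right a c
  set g := a.gcd c with hgd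
  have hcop : Nat.Coprime a' c' := by
    have h1 : a / g = a' := by
      conv_lhs => rw [ha']
      exact Nat.mul_div_cancel_left _ hg
    have h2 : c / g = c' := by
      conv_lhs => rw [hc']
      exact Nat.mul_div_cancel_left _ hg
    rw [← h1, ← h2]; exact Nat.coprime_div_gcd_div_gcd hg
  have e1 : (v * a).gcd c = g * (v.gcd c') := by
    conv_lhs => rw [ha', hc', show v * (g * a') = g * (v * a') by ring, Nat.gcd_mul_left]
    congr 1
    exact Nat.Coprime.gcd_mul_right_cancel v hcop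
  have e2 : a / g = a' := by
    conv_lhs => rw [ha']
    exact Nat.mul_div_cancel_left _ hg
  rw [e2, e1]
  obtain ⟨v', hv'⟩ := Nat.gcd_dvd_left v c'
  rcases Nat.eq_zero_or_pos (v.gcd c') with h0 | h0
  · rw [h0, mul_zero, Nat.div_zero]; exact dvd_zero _
  have e3 : v * a / (g * v.gcd c') = a' * v' := by
    have : v * a = (g * v.gcd c') * (a' * v') := by
      conv_lhs => rw [ha', hv']
      ring
    rw [this]
    exact Nat.mul_div_cancel_left _ (Nat.mul_pos hg h0)
  rw [e3]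
  exact dvd_mul_right _ _

lemma cof_div_r (v a c : ℕ) (ha : 0 < a) (hv : 0 < v) : cof c a ∣ v * cof c (v * a) := by
  unfold cof
  have hg : 0 < c.gcd a := Nat.gcd_pos_of_pos_right _ ha
  obtain ⟨c', hc'⟩ := Nat.gcd_dvd_left c a
  have h1 : c.gcd (v * a) ∣ v * c.gcd a := by
    rw [← Nat.gcd_mul_left]
    exact Nat.gcd_dvd_gcd_of_dvd_left _ (Dvd.intro_left v rfl)
  obtain ⟨e, he⟩ := h1
  obtain ⟨c2, hc2⟩ := Nat.gcd_dvd_left c (v * a)
  have hg2 : 0 < c.gcd (v * a) := Nat.gcd_pos_of_pos_right _ (Nat.mul_pos hv ha)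
  have e1 : c / c.gcd a = c' := by
    conv_lhs => rw [hc', Nat.gcd_comm]
    rw [Nat.gcd_comm a]
    have : (c.gcd a * c').gcd a = c.gcd a := by rw [← hc']
    rw [this]
    exact Nat.mul_div_cancel_left _ hg
  have e2 : c / c.gcd (v * a) = c2 := Nat.div_eq_of_eq_mul_right hg2 hc2
  rw [e1, e2]
  -- `c = g c' = g2 c2`, `g2 e = v g`
  refine ⟨e, ?_⟩
  have : c.gcd a * (v * c2) = c.gcd a * (c' * e) := by
    calc c.gcd a * (v * c2) = (v * c.gcd a) * c2 := by ring
      _ = (c.gcd (v * a) * e) * c2 := by rw [he]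
      _ = (c.gcd (v * a) * c2) * e := by ring
      _ = c * e := by rw [← hc2]
      _ = (c.gcd a * c') * e := by rw [← hc']
      _ = _ := by ring
  exact Nat.eq_of_mul_eq_mul_left hg this

lemma cof_le_r (v a c : ℕ) (hc : 0 < c) : cof c (v * a) ≤ cof c a := by
  unfold cof
  refine Nat.div_le_div_left (Nat.le_of_dvd (Nat.gcd_pos_of_pos_left _ hc) ?_)
    (Nat.gcd_pos_of_pos_left _ hc)
  exact Nat.gcd_dvd_gcd_of_dvd_right _ (Dvd.intro_left v rfl)

lemma cof_le_l (v a c : ℕ) (ha : 0 < a) (hv : 0 < v) : cof (v * a) c ≤ v * cof a c := by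
  unfold cof
  have h1 : v * a / (v * a).gcd c ≤ v * a / a.gcd c := by
    refine Nat.div_le_div_left (Nat.le_of_dvd (Nat.gcd_pos_of_pos_left _ (Nat.mul_pos hv ha)) ?_)
      (Nat.gcd_pos_of_pos_left _ ha)
    exact Nat.gcd_dvd_gcd_of_dvd_left _ (Dvd.intro_left v rfl)
  refine h1.trans (le_of_eq ?_)
  exact Nat.mul_div_assoc _ (Nat.gcd_dvd_left _ _)

lemma Dp_div {X Y v : ℕ} (hv : 0 < v) (hvX : v ∣ X) (hX : 0 < X) (hY : 0 < Y) {δ r' : ℝ}
    (hδ : 0 ≤ δ) (hr' : 0 ≤ r') : Dp X Y δ r' ≤ v * Dp (X / v) Y (δ / v) r' := by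
  obtain ⟨a, rfl⟩ := hvX
  rw [Nat.mul_div_cancel_left _ hv]
  have ha : 0 < a := Nat.pos_of_mul_pos_left hX
  have hv' : (0 : ℝ) < v := by exact_mod_cast hv
  unfold Dp
  rw [mul_max_of_nonneg _ _ hv'.le]
  refine max_le_max ?_ ?_
  · have h1 : ((cof Y (v * a) : ℕ) : ℝ) ≤ cof Y a := by exact_mod_cast cof_le_r v a Y hY
    calc (cof Y (v * a) : ℝ) * δ ≤ cof Y a * δ := mul_le_mul_of_nonneg_right h1 hδ
      _ = _ := by field_simp
  · have h1 : ((cof (v * a) Y : ℕ) : ℝ) ≤ v * cof a Y := by exact_mod_cast cof_le_l v a Y ha hv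
    calc (cof (v * a) Y : ℝ) * r' ≤ v * cof a Y * r' := mul_le_mul_of_nonneg_right h1 hr'
      _ = _ := by ring

lemma anF_div {X Y v : ℕ} (hv : 0 < v) (hvX : v ∣ X) (hX : 0 < X) (hY : 0 < Y) {D₁ D₂ : ℝ}
    (h1 : (v : ℝ) ≤ D₁) (h2 : D₁ ≤ D₂) :
    anF (cof (X / v) Y) (cof Y (X / v)) D₂ ≤ anF (cof X Y) (cof Y X) D₁ := by
  obtain ⟨a, rfl⟩ := hvX
  rw [Nat.mul_div_cancel_left _ hv]
  have ha : 0 < a := Nat.pos_of_mul_pos_left hX
  unfold anF
  have p1 : ∀ l ∈ (cof a Y * cof Y a).primeFactors.filter (fun l : ℕ => D₂ < (l : ℝ)), l.Prime :=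
    fun l hl => Nat.prime_of_mem_primeFactors (Finset.mem_filter.1 hl).1
  have p2 : ∀ l ∈ (cof (v * a) Y * cof Y (v * a)).primeFactors.filter (fun l : ℕ => D₁ < (l : ℝ)),
      l.Prime := fun l hl => Nat.prime_of_mem_primeFactors (Finset.mem_filter.1 hl).1
  refine inv_anti₀ (dens_pos p2) (dens_mono p2 fun l hl => ?_)
  obtain ⟨h3, h4⟩ := Finset.mem_filter.1 hl
  have hlp := Nat.prime_of_mem_primeFactors h3
  have hlv : ¬ l ∣ v := by
    intro hd
    have h5 := Nat.le_of_dvd hv hd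
    have h6 : (l : ℝ) ≤ v := by exact_mod_cast h5
    linarith
  refine Finset.mem_filter.2 ⟨Nat.mem_primeFactors.2 ⟨hlp, ?_, ?_⟩, by linarith⟩
  · rcases (Nat.Prime.dvd_mul hlp).1 (Nat.dvd_of_mem_primeFactors h3) with h5 | h5
    · exact (h5.trans (cof_div_l v a Y ha)).mul_right _
    · have h6 := h5.trans (cof_div_r v a Y ha hv)
      exact ((Nat.Prime.dvd_mul hlp).1 h6).resolve_left hlv |>.mul_left _
  · exact (Nat.mul_pos (Crest.Agent.R4.AvgItem710.cof_pos hX) (cof_pos' hY)).ne'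

/-! ### a piece against a product weight -/

/-- **a piece with a weight of period `v` against a product weight** -/
theorem cls_pair {C : ℝ} (hC : PairO C) (hC0 : 0 ≤ C) {θ α β θ' r' : ℝ} {X Y v : ℕ} (hv : 0 < v)
    (hvX : v ∣ X) (hX : 0 < X) (hY : 0 < Y) {κ : ℤ → ℝ} (hκ : Wt v κ) (hαβ : α < β) (hr' : 0 < r')
    {P : Finset ℕ} {u : ℕ → ℤ → ℝ} (hP : ∀ l ∈ P, l.Prime) (hPY : ∀ l ∈ P, l ∣ Y)
    (hu : ∀ l ∈ P, ExF l (u l)) {D₁ : ℝ} (h1 : (v : ℝ) ≤ D₁)
    (h2 : v * D₁ ≤ Dp X Y ((β - α) / 2) r') :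
    I (fun y => pc θ α β X κ y * pc θ' (-r') r' Y (nw P u) y) ≤
      C * (I (pc θ α β X κ) / 2 * (r' * dens P)) * anF (cof X Y) (cof Y X) D₁ := by
  have hv' : (0 : ℝ) < v := by exact_mod_cast hv
  have hv1 : (1 : ℝ) ≤ v := by exact_mod_cast hv
  have hXv : 0 < X / v := Nat.div_pos (Nat.le_of_dvd hX hvX) hv
  have hδ : 0 < (β - α) / 2 := by linarith
  have hLW := LW_of hP hu
  have hWt : Wt Y (nw P u) := Wt_nw' hLW hPY
  have hd : 0 ≤ dens P := (dens_pos hP).le
  set A : ℕ → ℝ → ℝ := fun c => arc ((θ + c) / v + (α / v + β / v) / 2) ((β - α) / 2 / v) (X / v)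
    with hA
  have e1 : ∀ y, pc θ α β X κ y = ∑ c ∈ Finset.range v, κ (c : ℤ) * A c y := by
    intro y
    rw [pc_cls hv hvX hκ]
    refine Finset.sum_congr rfl fun c _ => ?_
    rw [pc_arc, hA]
    have : (β / v - α / v) / 2 = (β - α) / 2 / v := by ring
    rw [this]
  have pA : ∀ c, PB (A c) := fun c => PB_arc _ _ hXv
  have pG : PB (pc θ' (-r') r' Y (nw P u)) := PB_pc hY hWt
  have e2 : I (fun y => pc θ α β X κ y * pc θ' (-r') r' Y (nw P u) y) =
      ∑ c ∈ Finset.range v, κ (c : ℤ) * I (fun y => A c y * pc θ' (-r') r' Y (nw P u) y) := by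
    have : (fun y => pc θ α β X κ y * pc θ' (-r') r' Y (nw P u) y) = fun y =>
        ∑ c ∈ Finset.range v, κ (c : ℤ) * (A c y * pc θ' (-r') r' Y (nw P u) y) := by
      funext y
      rw [e1, Finset.sum_mul]
      exact Finset.sum_congr rfl fun c _ => by ring
    rw [this, I_sum _ fun c _ => (((pA c).mul pG).smul (hκ.nonneg _)).integrableOn]
    exact Finset.sum_congr rfl fun c _ => I_smul _ _
  have e3 : I (pc θ α β X κ) = ∑ c ∈ Finset.range v, κ (c : ℤ) * (2 * ((β - α) / 2 / v)) := by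
    have : pc θ α β X κ = fun y => ∑ c ∈ Finset.range v, κ (c : ℤ) * A c y := funext e1
    rw [this, I_sum _ fun c _ => ((pA c).smul (hκ.nonneg _)).integrableOn]
    refine Finset.sum_congr rfl fun c _ => ?_
    rw [I_smul, hA, I_arc (by positivity) hXv]
  have hDd := Dp_div (X := X) (Y := Y) hv hvX hX hY (δ := (β - α) / 2) (r' := r') hδ.le hr'.le
  have hD2 : D₁ ≤ Dp (X / v) Y ((β - α) / 2 / v) r' := le_of_mul_le_mul_left (h2.trans hDd) hv'
  have key : ∀ c : ℕ, I (fun y => A c y * pc θ' (-r') r' Y (nw P u) y) ≤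
      C * ((β - α) / 2 / v * (r' * dens P)) * anF (cof X Y) (cof Y X) D₁ := by
    intro c
    have k1 := hC ((θ + c) / v + (α / v + β / v) / 2) ((β - α) / 2 / v) θ' r' (X / v) Y P u hXv hY
      (by positivity) hr' hP hPY hu (by linarith)
    refine k1.trans ?_
    refine mul_le_mul_of_nonneg_left (anF_div hv hvX hX hY h1 hD2) ?_
    have : 0 ≤ (β - α) / 2 / v := by positivity
    positivity
  rw [e2, e3]
  calc ∑ c ∈ Finset.range v, κ (c : ℤ) * I (fun y => A c y * pc θ' (-r') r' Y (nw P u) y)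
      ≤ ∑ c ∈ Finset.range v, κ (c : ℤ) *
          (C * ((β - α) / 2 / v * (r' * dens P)) * anF (cof X Y) (cof Y X) D₁) :=
        Finset.sum_le_sum fun c _ => mul_le_mul_of_nonneg_left (key c) (hκ.nonneg _)
    _ = _ := by
        rw [← Finset.sum_mul, ← Finset.sum_mul]
        ring

/-! ### averages, windows -/

lemma pc_mono_be {θ α β β' : ℝ} {w : ℕ} {κ : ℤ → ℝ} (h : ∀ a, 0 ≤ κ a) (hb : β ≤ β') (x : ℝ) :
    pc θ α β w κ x ≤ pc θ α β' w κ x := by
  unfold pc
  refine Finset.sum_le_sum_of_subset_of_nonneg (Finset.Ioc_subset_Ioc_left ?_) fun a _ _ => h a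
  exact Int.floor_le_floor (by linarith)

open Classical in
/-- a function below a product weight, averaged -/
lemma Ep_leaf {G : ℝ → ℝ} {θ' r' K' : ℝ} {w' M' : ℕ} {P : Finset ℕ} {u : ℕ → ℤ → ℝ}
    (hG : ∀ x, G x ≤ K' * pc θ' (-r') r' w' (nw P u) x) (hK : 0 ≤ K') (hM' : 0 < M') (hw' : 0 < w')
    (hP : ∀ l ∈ P, l.Prime) (hPw : ∀ l ∈ P, l ∣ w') (hu : ∀ l ∈ P, ExF l (u l)) (y : ℝ) :
    Ep M' G y ≤ K' / (rf w' M' : ℝ) * dens (P.filter fun p => ¬ p ∣ w' / M'.gcd w') *
      pc (rf w' M' * θ') (-(rf w' M' * r')) (rf w' M' * r') (w' / M'.gcd w')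
        (nw (P.filter fun p => p ∣ w' / M'.gcd w') (ru w' M' u)) y := by
  have hLW := LW_of hP hu
  have hWt : Wt w' (nw P u) := Wt_nw' hLW hPw
  have h1 := Ep_mono hG y (p := M')
  have h2 : Ep M' (fun x => K' * pc θ' (-r') r' w' (nw P u) x) y =
      K' * Ep M' (pc θ' (-r') r' w' (nw P u)) y := by
    unfold Ep
    rw [← Finset.mul_sum]
    ring
  rw [h2, Ep_pc hM' hWt y] at h1
  have e2 : aw w' M' (nw P u) = fun a => dens (P.filter fun p => ¬ p ∣ w' / M'.gcd w') *
      nw (P.filter fun p => p ∣ w' / M'.gcd w') (ru w' M' u) a := by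
    funext a
    rw [aw_nw hM' hLW hP hPw a]
    congr 1
    unfold dens
    exact Finset.prod_congr rfl fun l hl => ExF.mn (hP l (Finset.mem_filter.1 hl).1)
      (hu l (Finset.mem_filter.1 hl).1)
  rw [e2, AwNw28.pc_smul] at h1
  have e3 : (rf w' M' : ℝ) * -r' = -(rf w' M' * r') := by ring
  rw [e3] at h1
  refine h1.trans (le_of_eq ?_)
  ring

open Classical in
/-- **a window majorant against a function below a product weight**, averages included -/
theorem IZ2_leaf {C : ℝ} (hC : PairO C) (hC0 : 0 ≤ C) {F G : ℝ → ℝ} (hF : PB F) (hG : PB G)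
    {R θ μ H θ' r' K' ε : ℝ} {K v w w' M M' : ℕ} (h : IZ2 F R K v w θ μ H)
    {P : Finset ℕ} {u : ℕ → ℤ → ℝ} (hG' : ∀ x, G x ≤ K' * pc θ' (-r') r' w' (nw P u) x)
    (hK : 0 ≤ K') (hM : 0 < M) (hM' : 0 < M') (hw' : 0 < w') (hr' : 0 < r')
    (hP : ∀ l ∈ P, l.Prime) (hPw : ∀ l ∈ P, l ∣ w') (hu : ∀ l ∈ P, ExF l (u l))
    (hε : 0 < ε) (hε1 : ε ≤ 2) {D₁ : ℝ} (h1 : (v : ℝ) ≤ D₁)
    (h2 : 2 * v * H / ε * D₁ ≤ Da w M w' M' R r') :
    I (fun y => Ep M F y * Ep M' G y) ≤
      C * K' * ((μ + 3 * K * ε * R) / 2 * (r' * dens P)) *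
        anF (cof (w / M.gcd w) (w' / M'.gcd w')) (cof (w' / M'.gcd w') (w / M.gcd w)) D₁ := by
  obtain ⟨R₁, n, α, β, κ, a1, a2, a3, a4, a5, a6, a7, a8⟩ := h
  have hv := a6.v0
  have hw := a6.w0
  have n0 : 0 < n := by linarith
  have hR : 0 < R := a1.trans_le a2
  have hH : 0 < H := by
    by_contra hc
    push Not at hc
    have : H * R₁ ≤ 0 := mul_nonpos_of_nonpos_of_nonneg hc a1.le
    linarith
  have hv' : (0 : ℝ) < v := by exact_mod_cast hv
  set U := w / M.gcd w with hU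
  set U' := w' / M'.gcd w' with hU'
  have hU0 : 0 < U := div_pos' hw hM
  have hU0' : 0 < U' := div_pos' hw' hM'
  have m0 : (0 : ℝ) < rf w M := by exact_mod_cast rf_pos hM
  have m0' : (0 : ℝ) < rf w' M' := by exact_mod_cast rf_pos hM'
  set P₁ := P.filter (fun p => p ∣ U') with hP₁
  set P₂ := P.filter (fun p => ¬ p ∣ U') with hP₂
  have d2 : 0 < dens P₂ := dens_pos fun l hl => hP l (Finset.mem_filter.1 hl).1
  have hP1 : ∀ l ∈ P₁, l.Prime := fun l hl => hP l (Finset.mem_filter.1 hl).1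
  have hP1w : ∀ l ∈ P₁, l ∣ U' := fun l hl => (Finset.mem_filter.1 hl).2
  have hu1 : ∀ l ∈ P₁, ExF l (ru w' M' u l) := fun l hl => by
    refine (hu l (Finset.mem_filter.1 hl).1).comp_mul (hP1 l hl) ?_
    exact gcdA_not_dvd (hP1 l hl) (cop' hM') (hP1w l hl)
  have hd : dens P = dens P₂ * dens P₁ := by
    unfold dens
    rw [hP₁, hP₂, mul_comm]
    exact (Finset.prod_filter_mul_prod_filter_not P (fun p => p ∣ U') _).symm
  have hLW1 := LW_of hP1 hu1
  have hWt1 : Wt U' (nw P₁ (ru w' M' u)) := Wt_nw' hLW1 hP1w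
  set Lf : ℝ → ℝ := pc (rf w' M' * θ') (-(rf w' M' * r')) (rf w' M' * r') U'
    (nw P₁ (ru w' M' u)) with hLf
  have pLf : PB Lf := PB_pc hU0' hWt1
  -- the enlarged windows
  set be : ℕ → ℝ := fun i => β i + ε * R₁ with hbe
  set Wi : ℕ → ℝ → ℝ := fun i => pc (rf w M * θ) (rf w M * α i) (rf w M * be i) U (aw w M (κ i))
    with hWi
  have hwt1 : ∀ i, Wt (v1 v w M) (aw w M (κ i)) := fun i => aw_per1 a6.vw (a6.wt i)
  have hwtU : ∀ i, Wt U (aw w M (κ i)) := fun i => aw_Wt ((a6.wt i).dvd a6.vw)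
  have pWi : ∀ i, PB (Wi i) := fun i => PB_pc hU0 (hwtU i)
  have hεR : 0 < ε * R₁ := mul_pos hε a1
  have e1 : ∀ y, Ep M F y ≤ n * (1 / (rf w M : ℝ)) * ∑ i ∈ Finset.range K, Wi i y := by
    intro y
    have b1 := Ep_mono a7 y (p := M)
    have b2 : Ep M (fun x => n * WF θ K α β w κ x) y =
        n * ∑ i ∈ Finset.range K, Ep M (pc θ (α i) (β i) w (κ i)) y := by
      unfold Ep WF
      rw [← Finset.mul_sum, Finset.sum_comm, mul_div_assoc, Finset.sum_div]
    rw [b2] at b1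
    refine b1.trans ?_
    rw [mul_assoc]
    refine mul_le_mul_of_nonneg_left ?_ n0.le
    rw [Finset.mul_sum]
    refine Finset.sum_le_sum fun i hi => ?_
    rw [Ep_pc hM ((a6.wt i).dvd a6.vw)]
    refine mul_le_mul_of_nonneg_left ?_ (by positivity)
    refine pc_mono_be (hwtU i).nonneg ?_ y
    exact mul_le_mul_of_nonneg_left (by rw [hbe]; linarith) m0.le
  have e2 : ∀ y, Ep M' G y ≤ K' / (rf w' M' : ℝ) * dens P₂ * Lf y := fun y =>
    Ep_leaf hG' hK hM' hw' hP hPw hu y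
  have c0 : 0 ≤ K' / (rf w' M' : ℝ) * dens P₂ := by positivity
  have c1 : 0 ≤ n * (1 / (rf w M : ℝ)) := by positivity
  have pS : PB fun y => ∑ i ∈ Finset.range K, Wi i y := PB.sum _ fun i _ => pWi i
  have s1 : I (fun y => Ep M F y * Ep M' G y) ≤
      (n * (1 / (rf w M : ℝ)) * (K' / (rf w' M' : ℝ) * dens P₂)) *
        ∑ i ∈ Finset.range K, I (fun y => Wi i y * Lf y) := by
    have e3 : ∑ i ∈ Finset.range K, I (fun y => Wi i y * Lf y) =
        I (fun y => (∑ i ∈ Finset.range K, Wi i y) * Lf y) := by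
      rw [← I_sum _ fun i _ => ((pWi i).mul pLf).integrableOn]
      congr 1; funext y
      rw [Finset.sum_mul]
    rw [e3, ← I_smul]
    refine I_mono ((hF.Ep hM).mul (hG.Ep hM')).integrableOn
      (((pS.mul pLf).integrableOn).const_mul _) fun y => ?_
    refine (mul_le_mul (e1 y) (e2 y) (Ep_nonneg hG.nonneg y)
      (mul_nonneg c1 (pS.nonneg y))).trans (le_of_eq ?_)
    ring
  -- every window
  have hab : ∀ i, i < K → ε * R₁ ≤ be i - α i := fun i hi => by
    have := a6.ab i hi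
    rw [hbe]; simp only; linarith
  have hH1 : 1 ≤ H := by
    by_contra hc
    push Not at hc
    have : H * R₁ < R₁ := by nlinarith
    linarith
  have hDD : Da w M w' M' R r' ≤ H * Da w M w' M' R₁ r' := by
    rcases Crest.Agent.R4.Step588.Da_scale (w := w) (M := M) (w' := w') (M' := M') (R' := r')
      (R₁' := r') a3 (le_mul_of_one_le_left hr'.le hH1) with hh | hh
    · exact hh
    · linarith
  have hDw : ∀ i, i < K → ((v1 v w M : ℕ) : ℝ) * D₁ ≤
      Dp U U' ((rf w M * be i - rf w M * α i) / 2) (rf w' M' * r') := by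
    intro i hi
    have hv1 : ((v1 v w M : ℕ) : ℝ) ≤ v := by exact_mod_cast Nat.le_of_dvd hv v1_dvd
    have hD1 : 0 ≤ D₁ := hv'.le.trans h1
    have g1 : (ε / 2) * Da w M w' M' R₁ r' ≤
        Dp U U' ((rf w M * be i - rf w M * α i) / 2) (rf w' M' * r') := by
      unfold Da Dp
      rw [mul_max_of_nonneg _ _ (by positivity)]
      refine max_le_max ?_ ?_
      · have g2 := mul_le_mul_of_nonneg_left (hab i hi) m0.le
        have g3 : (0 : ℝ) ≤ cof U' U := Nat.cast_nonneg _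
        have g4 : ε / 2 * (rf w M * R₁) ≤ (rf w M * be i - rf w M * α i) / 2 := by
          have : rf w M * (be i - α i) = (rf w M : ℝ) * be i - rf w M * α i := by ring
          linarith
        calc ε / 2 * ((cof U' U : ℝ) * (rf w M * R₁)) = (cof U' U : ℝ) * (ε / 2 * (rf w M * R₁)) := by
              ring
          _ ≤ _ := mul_le_mul_of_nonneg_left g4 g3
      · have g3 : (0 : ℝ) ≤ (cof U U' : ℝ) * (rf w' M' * r') := by positivity
        exact mul_le_of_le_one_left g3 (by linarith)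
    refine le_trans ?_ g1
    have g5 : 2 * v * H / ε * D₁ ≤ H * Da w M w' M' R₁ r' := h2.trans hDD
    have g6 : 2 * v / ε * D₁ ≤ Da w M w' M' R₁ r' := by
      refine le_of_mul_le_mul_left ?_ hH
      calc H * (2 * v / ε * D₁) = 2 * v * H / ε * D₁ := by ring
        _ ≤ _ := g5
    calc ((v1 v w M : ℕ) : ℝ) * D₁ ≤ v * D₁ := mul_le_mul_of_nonneg_right hv1 hD1
      _ = ε / 2 * (2 * v / ε * D₁) := by field_simp
      _ ≤ _ := mul_le_mul_of_nonneg_left g6 (by positivity)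
  set AF := anF (cof U U') (cof U' U) D₁ with hAF
  have hAF0 : 0 < AF := anF_pos _ _ _
  have hIW : ∀ i, i < K → I (Wi i) = rf w M * I (pc θ (α i) (be i) w (κ i)) := by
    intro i hi
    have g1 : α i ≤ be i := by have := hab i hi; linarith
    have g2 := (a6.wt i).dvd a6.vw
    have g3 : (rf w M : ℝ) * α i ≤ rf w M * be i := mul_le_mul_of_nonneg_left g1 m0.le
    have g4 : I (Wi i) = ((rf w M : ℝ) * be i - rf w M * α i) * mnw U (aw w M (κ i)) :=
      I_pc g3 hU0 (hwtU i)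
    rw [g4, I_pc g1 hw g2, mnw_aw hw hM g2]
    ring
  have hwin : ∀ i ∈ Finset.range K, I (fun y => Wi i y * Lf y) ≤
      C * ((rf w M * I (pc θ (α i) (be i) w (κ i))) / 2 * (rf w' M' * r' * dens P₁)) * AF := by
    intro i hi
    have hi' := Finset.mem_range.1 hi
    rw [← hIW i hi']
    have g1 : (rf w M : ℝ) * α i < rf w M * be i :=
      mul_lt_mul_of_pos_left (by have := hab i hi'; linarith) m0
    have hv1' : (((v1 v w M : ℕ)) : ℝ) ≤ D₁ := by
      have : ((v1 v w M : ℕ) : ℝ) ≤ v := by exact_mod_cast Nat.le_of_dvd hv v1_dvd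
      linarith
    exact cls_pair hC hC0 (v1_pos hv) v1_dvd' hU0 hU0' (hwt1 i) g1 (mul_pos m0' hr') hP1 hP1w hu1
      hv1' (hDw i hi')
  -- the masses
  have hmass : ∑ i ∈ Finset.range K, I (pc θ (α i) (be i) w (κ i)) ≤
      I (WF θ K α β w κ) + K * (ε * R₁) := by
    have g0 : I (WF θ K α β w κ) = ∑ i ∈ Finset.range K, I (pc θ (α i) (β i) w (κ i)) := by
      have : WF θ K α β w κ = fun x => ∑ i ∈ Finset.range K, pc θ (α i) (β i) w (κ i) x := by
        funext x; rfl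
      rw [this]
      exact I_sum _ fun i _ => (PB_pc hw ((a6.wt i).dvd a6.vw)).integrableOn
    rw [g0]
    have : (K : ℝ) * (ε * R₁) = ∑ _i ∈ Finset.range K, ε * R₁ := by
      rw [Finset.sum_const, Finset.card_range, nsmul_eq_mul]
    rw [this, ← Finset.sum_add_distrib]
    refine Finset.sum_le_sum fun i hi => ?_
    have hi' := Finset.mem_range.1 hi
    have g2 := (a6.wt i).dvd a6.vw
    have g1 : α i ≤ be i := by have := hab i hi'; linarith
    rw [I_pc g1 hw g2, I_pc (a6.ab i hi') hw g2]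
    have g3 : mnw w (κ i) ≤ 1 := by
      have := mnw_mono (w := w) (a6.le1 i)
      rwa [mnw_const hw] at this
    have g4 : (be i - α i) = (β i - α i) + ε * R₁ := by rw [hbe]; ring
    rw [g4, add_mul]
    have : ε * R₁ * mnw w (κ i) ≤ ε * R₁ := mul_le_of_le_one_right hεR.le g3
    linarith
  refine s1.trans ((mul_le_mul_of_nonneg_left (Finset.sum_le_sum hwin)
    (mul_nonneg c1 c0)).trans ?_)
  have e5 : n * (1 / (rf w M : ℝ)) * (K' / (rf w' M' : ℝ) * dens P₂) *
      ∑ i ∈ Finset.range K,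
        C * ((rf w M * I (pc θ (α i) (be i) w (κ i))) / 2 * (rf w' M' * r' * dens P₁)) * AF =
      C * K' * ((n * ∑ i ∈ Finset.range K, I (pc θ (α i) (be i) w (κ i))) / 2 * (r' * dens P)) *
        AF := by
    rw [hd, Finset.mul_sum, Finset.mul_sum, Finset.sum_div, Finset.sum_mul, Finset.mul_sum,
      Finset.sum_mul]
    refine Finset.sum_congr rfl fun i _ => ?_
    field_simp
  rw [e5]
  refine mul_le_mul_of_nonneg_right ?_ hAF0.le
  refine mul_le_mul_of_nonneg_left ?_ (by positivity)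
  refine mul_le_mul_of_nonneg_right ?_ (by
    have := (dens_pos hP).le
    positivity)
  refine div_le_div_of_nonneg_right ?_ (by norm_num)
  have f1 := mul_le_mul_of_nonneg_left hmass n0.le
  have f2 : n * (I (WF θ K α β w κ) + K * (ε * R₁)) =
      n * I (WF θ K α β w κ) + K * ε * (n * R₁) := by ring
  have f3 : (K : ℝ) * ε * (n * R₁) ≤ K * ε * (3 * R) :=
    mul_le_mul_of_nonneg_left a5 (by positivity)
  calc n * ∑ i ∈ Finset.range K, I (pc θ (α i) (be i) w (κ i)) ≤ _ := f1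
    _ = _ := f2
    _ ≤ μ + K * ε * (3 * R) := by linarith
    _ = _ := by ring

end Crest.Agent.R4P.HiLeaf28
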