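import Crest.Agent.R4P.Grp_36

/-!
R4 (S0004), group [W-eSHR], helper9: **class-blind payment with a convex potential** (#9 Hub).

For a convex `φ : [0,∞) → [0,∞)`, `φ 0 = 0`, nondecreasing, and static families `κd : Λ → δ` of pieces:
* `Ph φ κd g = Σ_d I (φ (cval κd g d))`, `Jn φ κd p g` = the Jensen gap at the column `p`;
* `GS_jen_le : GS (Jn φ κd) n p g ≤ Ph φ κd g` (no relation between the pieces is used).
* `hub H` : Huber function (`v²` for `v ≤ H`, linear above), `hub_le : hub H v ≤ 2 H v`;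
* `hub_gap` : pointwise gain; `low_cost` : at a column, the square of the fibre part is paid at the
  points where the group function is `≤ H`.
-/

set_option autoImplicit false
set_option linter.unusedSectionVars false
set_option linter.unusedVariables false
open MeasureTheory Filter Set

namespace Crest.Agent.R4P.Hub9

open Crest.Agent.R4.Tour104 Crest.Agent.R4.Tour758 Crest.Agent.R4.Avg758 Crest.Agent.R4.Clos758
open Crest.Agent.R4.ClosL758 Crest.Agent.R4.ClosG758 Crest.Agent.R4.ClosR758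
open Crest.Agent.R4P.ClosR442 Crest.Agent.R4P.Walk560 Crest.Agent.R4P.Grp36

/-- convex potentials -/
structure Cvx (φ : ℝ → ℝ) : Prop where
  conv : ConvexOn ℝ (Ici (0 : ℝ)) φ
  zero : φ 0 = 0
  mono : MonotoneOn φ (Ici (0 : ℝ))
  meas : Measurable φ

variable {φ : ℝ → ℝ}

lemma Cvx.nonneg (h : Cvx φ) {v : ℝ} (hv : 0 ≤ v) : 0 ≤ φ v := by
  rw [← h.zero]; exact h.mono (mem_Ici.2 le_rfl) (mem_Ici.2 hv) hv

/-- superadditivity -/
lemma Cvx.add_le (h : Cvx φ) {a b : ℝ} (ha : 0 ≤ a) (hb : 0 ≤ b) : φ a + φ b ≤ φ (a + b) := by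
  rcases (add_nonneg ha hb).eq_or_lt with h0 | h0
  · have ha' : a = 0 := by linarith
    have hb' : b = 0 := by linarith
    simp [ha', hb', h.zero]
  · have key : ∀ u v : ℝ, 0 ≤ u → 0 ≤ v → u + v = a + b → φ u ≤ u / (a + b) * φ (a + b) := by
      intro u v hu hv huv
      have ha1 : 0 ≤ v / (a + b) := div_nonneg hv h0.le
      have hb1 : 0 ≤ u / (a + b) := div_nonneg hu h0.le
      have hs : v / (a + b) + u / (a + b) = 1 := by
        rw [← add_div, add_comm v u, huv, div_self h0.ne']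
      have h1 := h.conv.2 (mem_Ici.2 (le_refl (0 : ℝ))) (mem_Ici.2 h0.le) ha1 hb1 hs
      simp only [smul_eq_mul, mul_zero, zero_add, h.zero] at h1
      rwa [div_mul_cancel₀ _ h0.ne'] at h1
    have h1 := key a b ha hb rfl
    have h2 := key b a hb ha (add_comm b a)
    have e : a / (a + b) * φ (a + b) + b / (a + b) * φ (a + b) = φ (a + b) := by
      rw [← add_mul, ← add_div, div_self h0.ne', one_mul]
    linarith

lemma Cvx.PB (h : Cvx φ) {f : ℝ → ℝ} (hf : PB f) : PB fun x => φ (f x) := by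
  obtain ⟨B, hB⟩ := hf.bdd
  refine ⟨h.meas.comp hf.meas, fun x => h.nonneg (hf.nonneg x), ⟨φ B, fun x => ?_⟩, fun x => ?_⟩
  · exact h.mono (mem_Ici.2 (hf.nonneg x)) (mem_Ici.2 ((hf.nonneg x).trans (hB x))) (hB x)
  · simp only [hf.per]

/-- Jensen on the fibres -/
lemma Cvx.jensen (h : Cvx φ) {p : ℕ} (hp : 0 < p) {f : ℝ → ℝ} (hf : ∀ x, 0 ≤ f x) (y : ℝ) :
    φ (Ep p f y) ≤ Ep p (fun x => φ (f x)) y := by
  have hp' : (0 : ℝ) < p := by exact_mod_cast hp
  have h1 := h.conv.map_sum_le (t := Finset.range p) (w := fun _ => (1 : ℝ) / p)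
    (p := fun i : ℕ => f ((y + i) / p)) (fun _ _ => by positivity)
    (by rw [Finset.sum_const, Finset.card_range, nsmul_eq_mul]; field_simp)
    (fun i _ => mem_Ici.2 (hf _))
  unfold Ep
  simp only [smul_eq_mul, ← Finset.mul_sum] at h1
  calc φ ((∑ i ∈ Finset.range p, f ((y + i) / p)) / p)
      = φ (1 / (p : ℝ) * ∑ i ∈ Finset.range p, f ((y + i) / p)) := by congr 1; ring
    _ ≤ 1 / (p : ℝ) * ∑ i ∈ Finset.range p, φ (f ((y + i) / p)) := h1
    _ = _ := by ring

lemma Cvx.I_jensen (h : Cvx φ) {p : ℕ} (hp : 0 < p) {f : ℝ → ℝ} (hf : Crest.Agent.R4.Tour104.PB f) :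
    I (fun y => φ (Ep p f y)) ≤ I (fun x => φ (f x)) := by
  rw [← I_Ep hp (h.PB hf).integrableOn]
  exact I_mono (h.PB (hf.Ep hp)).integrableOn ((h.PB hf).Ep hp).integrableOn fun y =>
    h.jensen hp hf.nonneg y

/-! ### the group recursion -/

section grp
variable {Λ κ δ : Type*} [Fintype Λ] [Fintype δ] [DecidableEq δ]

/-- potential of a group -/
noncomputable def Ph (φ : ℝ → ℝ) (κd : Λ → δ) (g : Gp Λ κ) : ℝ := ∑ d, I (fun x => φ (cval κd g d x))

/-- Jensen gap of a group at the column `p` -/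
noncomputable def Jn (φ : ℝ → ℝ) (κd : Λ → δ) (p : ℕ) (g : Gp Λ κ) : ℝ :=
  ∑ d, (I (fun x => φ (cval κd g d x)) - I (fun y => φ (Ep p (cval κd g d) y)))

lemma Ph_nonneg (h : Cvx φ) (κd : Λ → δ) {g : Gp Λ κ} (hg : GOk g) : 0 ≤ Ph φ κd g :=
  Finset.sum_nonneg fun d _ => I_nonneg fun x => h.nonneg ((PB_cval κd hg d).nonneg x)

lemma Jn_nonneg (h : Cvx φ) (κd : Λ → δ) {p : ℕ} (hp : 0 < p) {g : Gp Λ κ} (hg : GOk g) :
    0 ≤ Jn φ κd p g :=
  Finset.sum_nonneg fun d _ => sub_nonneg.2 (h.I_jensen hp (PB_cval κd hg d))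

lemma Ph_split (h : Cvx φ) (κd : Λ → δ) (p : ℕ) {g : Gp Λ κ} (hg : GOk g) :
    Ph φ κd (gB p g) + Ph φ κd (gR p g) ≤ Ph φ κd g := by
  unfold Ph
  rw [← Finset.sum_add_distrib]
  refine Finset.sum_le_sum fun d _ => ?_
  have p1 := PB_cval κd (hg.gB (p := p)) d
  have p2 := PB_cval κd (hg.gR (p := p)) d
  have p3 := PB_cval κd hg d
  rw [← I_add (h.PB p1).integrableOn (h.PB p2).integrableOn]
  refine I_mono ((h.PB p1).add (h.PB p2)).integrableOn (h.PB p3).integrableOn fun x => ?_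
  rw [cval_split κd p g d x]
  exact h.add_le (p1.nonneg x) (p2.nonneg x)

lemma Ph_gB (κd : Λ → δ) {p : ℕ} {g : Gp Λ κ} (hg : GOk g) :
    Ph φ κd (gB p g) = Jn φ κd p (gB p g) + Ph φ κd (gC p g) := by
  unfold Ph Jn
  rw [← Finset.sum_add_distrib]
  refine Finset.sum_congr rfl fun d _ => ?_
  have e : (fun y => φ (Ep p (cval κd (gB p g) d) y)) = fun x => φ (cval κd (gC p g) d x) :=
    funext fun y => by rw [Ep_cval κd hg]
  rw [e]; ring

/-- **the Jensen gaps of the whole product walk are bounded by the potential at the start** -/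
theorem GS_jen_le (h : Cvx φ) (κd : Λ → δ) : ∀ (n p : ℕ) (g : Gp Λ κ), GOk g →
    GS (fun p g => Jn φ κd p g) n p g ≤ Ph φ κd g := by
  intro n
  induction n with
  | zero => intro p g hg; exact Ph_nonneg h κd hg
  | succ n ih =>
    intro p g hg
    unfold GS
    split_ifs with hp
    · exact Ph_nonneg h κd hg
    · have h1 := ih p _ (hg.gC (p := p))
      have h2 := ih (p - 1) _ (hg.gR (p := p))
      have h3 := Ph_split h κd p hg
      have h4 := Ph_gB (φ := φ) κd (p := p) hg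
      linarith

end grp

/-! ### the Huber function -/

/-- the Huber function -/
noncomputable def hub (H v : ℝ) : ℝ := if v ≤ H then v ^ 2 else 2 * H * v - H ^ 2

lemma hub_le {H v : ℝ} (hH : 0 ≤ H) (hv : 0 ≤ v) : hub H v ≤ 2 * H * v := by
  unfold hub
  split_ifs with h
  · nlinarith
  · nlinarith [sq_nonneg H]

lemma hub_le_sq {H v : ℝ} : hub H v ≤ v ^ 2 := by
  unfold hub
  split_ifs with h
  · exact le_rfl
  · nlinarith [sq_nonneg (v - H)]

/-- the tangent at `m` -/
lemma hub_tangent {H : ℝ} (hH : 0 ≤ H) (m x : ℝ) (hm : 0 ≤ m) (hx : 0 ≤ x) :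
    hub H m + 2 * min m H * (x - m) + (if x ≤ H ∧ m ≤ H then (x - m) ^ 2 else 0) ≤ hub H x := by
  unfold hub
  by_cases h1 : m ≤ H
  · rw [min_eq_left h1, if_pos h1]
    by_cases h2 : x ≤ H
    · rw [if_pos ⟨h2, h1⟩, if_pos h2]; nlinarith
    · rw [if_neg (fun h => h2 h.1), if_neg h2]
      push Not at h2
      nlinarith [mul_nonneg (sub_nonneg.2 h1) (sub_nonneg.2 h2.le), sq_nonneg (H - m)]
  · push Not at h1
    rw [min_eq_right h1.le, if_neg (not_le.2 h1), if_neg (fun h => (not_le.2 h1) h.2)]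
    by_cases h2 : x ≤ H
    · rw [if_pos h2]; nlinarith [sq_nonneg (x - H)]
    · rw [if_neg h2]; nlinarith

lemma hub_mono {H : ℝ} (hH : 0 ≤ H) : MonotoneOn (hub H) (Ici (0 : ℝ)) := by
  intro a ha b hb hab
  have ha' : 0 ≤ a := ha
  have h := hub_tangent hH a b ha' hb
  have h1 : 0 ≤ 2 * min a H * (b - a) :=
    mul_nonneg (mul_nonneg zero_le_two (le_min ha' hH)) (sub_nonneg.2 hab)
  have h2 : (0 : ℝ) ≤ if b ≤ H ∧ a ≤ H then (b - a) ^ 2 else 0 := by
    split_ifs
    · exact sq_nonneg _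
    · exact le_rfl
  linarith

lemma hub_conv {H : ℝ} (hH : 0 ≤ H) : ConvexOn ℝ (Ici (0 : ℝ)) (hub H) := by
  refine ⟨convex_Ici 0, fun x hx y hy a b ha hb hab => ?_⟩
  have hx' : 0 ≤ x := hx
  have hy' : 0 ≤ y := hy
  simp only [smul_eq_mul]
  set m := a * x + b * y with hm
  have hm0 : 0 ≤ m := by positivity
  have nn : ∀ u : ℝ, (0 : ℝ) ≤ if u ≤ H ∧ m ≤ H then (u - m) ^ 2 else 0 := fun u => by
    split_ifs
    · exact sq_nonneg _
    · exact le_rfl
  have h1 := hub_tangent hH m x hm0 hx'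
  have h2 := hub_tangent hH m y hm0 hy'
  have h3 := mul_le_mul_of_nonneg_left (h1.trans' (le_add_of_nonneg_right (nn x))) ha
  have h4 := mul_le_mul_of_nonneg_left (h2.trans' (le_add_of_nonneg_right (nn y))) hb
  have e : a * (hub H m + 2 * min m H * (x - m)) + b * (hub H m + 2 * min m H * (y - m)) =
      (a + b) * hub H m + 2 * min m H * (a * x + b * y - (a + b) * m) := by ring
  rw [hab, ← hm] at e
  have : a * (hub H m + 2 * min m H * (x - m)) + b * (hub H m + 2 * min m H * (y - m)) =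
      hub H m := by rw [e]; ring
  linarith

lemma hub_zero {H : ℝ} (hH : 0 ≤ H) : hub H 0 = 0 := by unfold hub; rw [if_pos hH]; ring

lemma hub_meas (H : ℝ) : Measurable (hub H) := by
  unfold hub
  exact Measurable.ite measurableSet_Iic (measurable_id.pow_const 2)
    ((measurable_const.mul measurable_id).sub measurable_const)

/-- **the Huber function is a potential** -/
theorem Cvx_hub {H : ℝ} (hH : 0 ≤ H) : Cvx (hub H) :=
  ⟨hub_conv hH, hub_zero hH, hub_mono hH, hub_meas H⟩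

/-- the gain on a fibre -/
theorem hub_gap {H : ℝ} (hH : 0 ≤ H) {p : ℕ} (hp : 0 < p) {F : ℝ → ℝ} (hF : ∀ x, 0 ≤ F x) (y : ℝ) :
    hub H (Ep p F y) + Ep p (fun x => if F x ≤ H ∧ Ep p F y ≤ H then (F x - Ep p F y) ^ 2 else 0) y
      ≤ Ep p (fun x => hub H (F x)) y := by
  set m := Ep p F y with hm
  have hm0 : 0 ≤ m := Ep_nonneg hF y
  have h1 : Ep p (fun x => (hub H m + 2 * min m H * (F x - m)) +
      (if F x ≤ H ∧ m ≤ H then (F x - m) ^ 2 else 0)) y ≤ Ep p (fun x => hub H (F x)) y :=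
    Ep_mono (fun x => hub_tangent hH m (F x) hm0 (hF x)) y
  rw [Ep_add] at h1
  have e : (fun x => hub H m + 2 * min m H * (F x - m)) = fun x =>
      (hub H m - 2 * min m H * m) + (2 * min m H) * F x := by funext x; ring
  have e2 : Ep p (fun x => hub H m + 2 * min m H * (F x - m)) y = hub H m := by
    rw [e, Ep_add, Ep_const hp, Ep_smul, ← hm]; ring
  rw [e2] at h1
  exact h1

/-- **cost at the low points of a fibre**: `F = B (p x) + G x`, `G ≥ 0` -/
theorem low_fibre {H : ℝ} (hH : 0 ≤ H) {p : ℕ} (hp : 0 < p) {B G : ℝ → ℝ} (hB : ∀ x, 0 ≤ B x)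
    (hBp : ∀ x, B (x + 1) = B x) (hG : ∀ x, 0 ≤ G x) (y : ℝ) :
    Ep p (fun x => if B (p * x) + G x ≤ H then G x ^ 2 else 0) y ≤
      4 * (Ep p (fun x => hub H (B (p * x) + G x)) y - hub H (Ep p (fun x => B (p * x) + G x) y)) +
        4 * (Ep p G y) ^ 2 := by
  set F : ℝ → ℝ := fun x => B (p * x) + G x with hF
  set m := Ep p F y with hm
  have hF0 : ∀ x, 0 ≤ F x := fun x => add_nonneg (hB _) (hG x)
  have hmB : m = B y + Ep p G y := by
    rw [hm, hF]
    have e : (fun x => B (p * x) + G x) = fun x => B (p * x) * 1 + G x := by funext x; ring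
    rw [e, Ep_add, Ep_pull_mul hp hBp, Ep_const hp, mul_one]
  have hgap := hub_gap hH hp hF0 y
  rw [← hm] at hgap
  have key : Ep p (fun x => if F x ≤ H then G x ^ 2 else 0) y ≤
      Ep p (fun x => 4 * (if F x ≤ H ∧ m ≤ H then (F x - m) ^ 2 else 0) + 4 * (Ep p G y) ^ 2) y := by
    unfold Ep
    have hp' : (0 : ℝ) < p := by exact_mod_cast hp
    refine div_le_div_of_nonneg_right (Finset.sum_le_sum fun i hi => ?_) hp'.le
    set x := (y + i) / (p : ℝ) with hx
    have hBx : B (p * x) = B y := by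
      have e : (p : ℝ) * x = y + i := by rw [hx]; field_simp
      rw [e]
      have : ∀ (n : ℕ), B (y + n) = B y := by
        intro n
        induction n with
        | zero => simp
        | succ n ih => push_cast; rw [← add_assoc, hBp, ih]
      exact this i
    have hFx : F x = B y + G x := by
      show B (p * x) + G x = _
      rw [hBx]
    have hEp : (∑ i ∈ Finset.range p, G ((y + i) / p)) / (p : ℝ) = Ep p G y := rfl
    show (if F x ≤ H then G x ^ 2 else 0) ≤ 4 * (if F x ≤ H ∧ m ≤ H then (F x - m) ^ 2 else 0) +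
      4 * ((∑ i ∈ Finset.range p, G ((y + i) / p)) / (p : ℝ)) ^ 2
    rw [hEp]
    have hg0 := hG x
    have hE0 : 0 ≤ Ep p G y := Ep_nonneg hG y
    have hsq : 0 ≤ (Ep p G y) ^ 2 := sq_nonneg _
    by_cases h1 : F x ≤ H
    · rw [if_pos h1]
      by_cases h2 : 2 * Ep p G y ≤ G x
      · have h3 : m ≤ H := by rw [hmB]; rw [hFx] at h1; linarith
        rw [if_pos ⟨h1, h3⟩]
        have e : F x - m = G x - Ep p G y := by rw [hFx, hmB]; ring
        rw [e]
        nlinarith
      · push Not at h2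
        have h3 : 0 ≤ 4 * (if F x ≤ H ∧ m ≤ H then (F x - m) ^ 2 else 0) := by
          split_ifs
          · positivity
          · norm_num
        nlinarith
    · rw [if_neg h1]
      have h3 : 0 ≤ 4 * (if F x ≤ H ∧ m ≤ H then (F x - m) ^ 2 else 0) := by
        split_ifs
        · positivity
        · norm_num
      linarith
  rw [Ep_add, Ep_smul, Ep_const hp] at key
  linarith

end Crest.Agent.R4P.Hub9
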