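import Crest.Agent.R4P.YIa_25

/-!
R4P (S0004), helper31, module D, group [X]: **the hull potential** (accidental primes), tree free.

A pair of items `(q, r)` of the two sides of a state with the current prime `p` carries
`Hp = nf(left target, mt q, p) + nf(right target, mt r, p)
      + (δ p θ + δ p θ') (fl(r against the left side) + fl(q against the right side))`,
`fl = [some item of the other side has a smaller effective exponent] + [some has a larger one]`,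
`nf = Σ_{b < p} 4 δ b (target of the item at b) + Σ_{l ∈ mt} 8 e₀ l`.

* `Hp_le` : it does not increase along the moves of the main walk; `Hp_drop` : what it pays when the hull
  of the other side shrinks at `p`.
* `Psi` = sum over the pairs with the weights `c W q · c' W r`; `Psi_le`, `Psi_pay` : sums over the
  children of a step (disjoint rectangles).
-/

set_option autoImplicit false
set_option linter.unusedSectionVars false
set_option linter.unusedVariables false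
open Finset

namespace Crest.Agent.R4P.Hull31

/-- the target of the lower primes and the missing ties -/
noncomputable def nf (δ : ℕ → ℕ → ℝ) (e₀ : ℕ → ℝ) (B : ℕ) (m : Finset ℕ) (n : ℕ) : ℝ :=
  ∑ b ∈ Finset.range n, 4 * δ b (B * ∏ s ∈ m.filter (b < ·), s) +
    ∑ l ∈ m, 8 * e₀ l

/-- effective exponent of an item -/
def ef (p B q : ℕ) : ℕ := q.factorization p + B.factorization p

open Classical in
/-- hull flags -/
noncomputable def fl (p B : ℕ) (S : Finset ℕ) (k : ℕ) : ℝ :=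
  (if ∃ q ∈ S, ef p B q < k then 1 else 0) + (if ∃ q ∈ S, k < ef p B q then 1 else 0)

lemma fl_nonneg (p B : ℕ) (S : Finset ℕ) (k : ℕ) : 0 ≤ fl p B S k := by
  unfold fl; split_ifs <;> norm_num

lemma fl_le (p B : ℕ) (S : Finset ℕ) (k : ℕ) : fl p B S k ≤ 2 := by
  unfold fl; split_ifs <;> norm_num

lemma fl_mono {p B : ℕ} {S S₁ : Finset ℕ} (h : S₁ ⊆ S) (k : ℕ) : fl p B S₁ k ≤ fl p B S k := by
  unfold fl
  refine add_le_add ?_ ?_
  · split_ifs with h1 h2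
    · exact le_rfl
    · obtain ⟨q, hq, hk⟩ := h1
      exact absurd ⟨q, h hq, hk⟩ h2
    · exact zero_le_one
    · exact le_rfl
  · split_ifs with h1 h2
    · exact le_rfl
    · obtain ⟨q, hq, hk⟩ := h1
      exact absurd ⟨q, h hq, hk⟩ h2
    · exact zero_le_one
    · exact le_rfl

/-- the cut below `k`: the part with smaller exponents leaves -/
lemma fl_low {p B : ℕ} {S S₁ : Finset ℕ} (h : S₁ ⊆ S) {k : ℕ} (h1 : ∀ q ∈ S₁, k ≤ ef p B q)
    {q : ℕ} (hq : q ∈ S) (hk : ef p B q < k) : fl p B S₁ k + 1 ≤ fl p B S k := by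
  have e1 : ¬ ∃ q ∈ S₁, ef p B q < k := by
    rintro ⟨q, hq, h2⟩
    exact absurd (h1 q hq) (not_le.2 h2)
  have e2 : ∃ q ∈ S, ef p B q < k := ⟨q, hq, hk⟩
  unfold fl
  rw [if_neg e1, if_pos e2]
  split_ifs with h3 h4
  · norm_num
  · obtain ⟨q, hq, hk⟩ := h3
    exact absurd ⟨q, h hq, hk⟩ h4
  · norm_num
  · norm_num

/-- the cut above `k`: the part with larger exponents leaves -/
lemma fl_high {p B : ℕ} {S S₁ : Finset ℕ} (h : S₁ ⊆ S) {k : ℕ} (h1 : ∀ q ∈ S₁, ef p B q ≤ k)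
    {q : ℕ} (hq : q ∈ S) (hk : k < ef p B q) : fl p B S₁ k + 1 ≤ fl p B S k := by
  have e1 : ¬ ∃ q ∈ S₁, k < ef p B q := by
    rintro ⟨q, hq, h2⟩
    exact absurd (h1 q hq) (not_le.2 h2)
  have e2 : ∃ q ∈ S, k < ef p B q := ⟨q, hq, hk⟩
  unfold fl
  rw [if_neg e1, if_pos e2]
  split_ifs with h3 h4
  · norm_num
  · obtain ⟨q, hq, hk⟩ := h3
    exact absurd ⟨q, h hq, hk⟩ h4
  · norm_num
  · norm_num

section
variable {δ : ℕ → ℕ → ℝ} {e₀ : ℕ → ℝ} (hδ : ∀ b θ, 0 ≤ δ b θ) (he : ∀ b θ, δ b θ ≤ e₀ b)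
include hδ he

lemma e0_nonneg (b : ℕ) : 0 ≤ e₀ b := (hδ b 0).trans (he b 0)

lemma nf_nonneg (B : ℕ) (m : Finset ℕ) (n : ℕ) : 0 ≤ nf δ e₀ B m n := by
  unfold nf
  refine add_nonneg (Finset.sum_nonneg fun b _ => ?_) (Finset.sum_nonneg fun l _ => ?_)
  · exact mul_nonneg (by norm_num) (hδ _ _)
  · exact mul_nonneg (by norm_num) (e0_nonneg hδ he _)

/-- lower level, no missing tie -/
lemma nf_step {B : ℕ} {m : Finset ℕ} {p p₁ : ℕ} (h : p₁ < p) (hm : ∀ s ∈ m, s ≤ p₁) :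
    nf δ e₀ B m p₁ + 4 * δ p₁ B ≤ nf δ e₀ B m p := by
  unfold nf
  have e1 : ∑ b ∈ Finset.range (p₁ + 1), 4 * δ b (B * ∏ s ∈ m.filter (b < ·), s) ≤
      ∑ b ∈ Finset.range p, 4 * δ b (B * ∏ s ∈ m.filter (b < ·), s) :=
    Finset.sum_le_sum_of_subset_of_nonneg (Finset.range_mono h) fun b _ _ =>
      mul_nonneg (by norm_num) (hδ _ _)
  rw [Finset.sum_range_succ] at e1
  have e2 : m.filter (p₁ < ·) = ∅ := by
    rw [Finset.filter_eq_empty_iff]
    intro s hs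
    exact not_lt.2 (hm s hs)
  rw [e2, Finset.prod_empty, mul_one] at e1
  linarith

/-- a missing tie at `p` is put into the target -/
lemma nf_ins {B : ℕ} {m : Finset ℕ} {p : ℕ} (hp : p ∉ m) :
    nf δ e₀ B (insert p m) p = nf δ e₀ (B * p) m p + 8 * e₀ p := by
  unfold nf
  rw [Finset.sum_insert hp]
  have e1 : ∀ b ∈ Finset.range p, 4 * δ b (B * ∏ s ∈ (insert p m).filter (b < ·), s) =
      4 * δ b (B * p * ∏ s ∈ m.filter (b < ·), s) := by
    intro b hb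
    have hbp : b < p := Finset.mem_range.1 hb
    have e2 : (insert p m).filter (b < ·) = insert p (m.filter (b < ·)) := by
      rw [Finset.filter_insert, if_pos hbp]
    have e3 : p ∉ m.filter (b < ·) := fun h => hp (Finset.mem_filter.1 h).1
    rw [e2, Finset.prod_insert e3, ← mul_assoc]
  rw [Finset.sum_congr rfl e1]
  ring

end

/-- the data of one side of a state, with its items and their missing ties -/
structure Sd where
  c : ℝ
  B : ℕ
  S : Finset ℕ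
  m : ℕ → Finset ℕ

/-- a move of one side at the prime `p`, new level `p₁ ≤ p` -/
structure Sr (p p₁ : ℕ) (X Y : Sd) : Prop where
  sub : Y.S ⊆ X.S
  mv : (Y.B = X.B ∧ ∀ q ∈ Y.S, Y.m q = X.m q) ∨
    (Y.B = X.B * p ∧ ∀ q ∈ Y.S, p ∉ Y.m q ∧ X.m q = insert p (Y.m q))
  top : ∀ q ∈ Y.S, ∀ s ∈ Y.m q, s ≤ p₁

/-- the side stays or goes to a child without changing the target -/
structure Spr (p₁ : ℕ) (X Y : Sd) : Prop where
  sub : Y.S ⊆ X.S
  B : Y.B = X.B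
  m : ∀ q ∈ Y.S, Y.m q = X.m q
  top : ∀ q ∈ Y.S, ∀ s ∈ Y.m q, s ≤ p₁

lemma Spr.sr {p p₁ : ℕ} {X Y : Sd} (h : Spr p₁ X Y) : Sr p p₁ X Y := ⟨h.sub, Or.inl ⟨h.B, h.m⟩, h.top⟩

/-- **the potential of a pair** -/
noncomputable def Hp (δ : ℕ → ℕ → ℝ) (e₀ : ℕ → ℝ) (p : ℕ) (X X' : Sd) (q r : ℕ) : ℝ :=
  nf δ e₀ X.B (X.m q) p + nf δ e₀ X'.B (X'.m r) p +
    (δ p X.B + δ p X'.B) *
      (fl p X.B X.S (ef p X'.B r) + fl p X'.B X'.S (ef p X.B q))

section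
variable {δ : ℕ → ℕ → ℝ} {e₀ : ℕ → ℝ} (hδ : ∀ b θ, 0 ≤ δ b θ) (he : ∀ b θ, δ b θ ≤ e₀ b)
  {p p₁ : ℕ}
include hδ he

lemma Hp_nonneg (p : ℕ) (X X' : Sd) (q r : ℕ) : 0 ≤ Hp δ e₀ p X X' q r := by
  unfold Hp
  have h1 := nf_nonneg hδ he X.B (X.m q) p
  have h2 := nf_nonneg hδ he X'.B (X'.m r) p
  have h3 := mul_nonneg (add_nonneg (hδ p X.B) (hδ p X'.B))
    (add_nonneg (fl_nonneg p X.B X.S (ef p X'.B r)) (fl_nonneg p X'.B X'.S (ef p X.B q)))
  linarith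

/-- one side, lower level -/
lemma Sr.low {X Y : Sd} (h : Sr p p₁ X Y) (hp : p₁ < p) {q : ℕ} (hq : q ∈ Y.S) :
    nf δ e₀ Y.B (Y.m q) p₁ + 4 * δ p₁ Y.B ≤ nf δ e₀ X.B (X.m q) p := by
  rcases h.mv with ⟨h1, h2⟩ | ⟨h1, h2⟩
  · rw [h1, ← h2 q hq]
    exact nf_step hδ he hp (h.top q hq)
  · obtain ⟨h3, h4⟩ := h2 q hq
    rw [h4, nf_ins hδ he h3, h1]
    have := nf_step hδ he (B := X.B * p) hp (h.top q hq)
    have := e0_nonneg hδ he p
    linarith

/-- one side, same level -/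
lemma Sr.same {X Y : Sd} (h : Sr p p X Y) {q : ℕ} (hq : q ∈ Y.S) :
    (Y.B = X.B ∧ nf δ e₀ Y.B (Y.m q) p = nf δ e₀ X.B (X.m q) p) ∨
      nf δ e₀ Y.B (Y.m q) p + 8 * e₀ p = nf δ e₀ X.B (X.m q) p := by
  rcases h.mv with ⟨h1, h2⟩ | ⟨h1, h2⟩
  · left
    rw [h1, ← h2 q hq]
    exact ⟨rfl, rfl⟩
  · right
    obtain ⟨h3, h4⟩ := h2 q hq
    rw [h4, nf_ins hδ he h3, h1]

/-- flags cost at most `8 e₀` -/
lemma flag_le (p θ θ' : ℕ) (x y : ℝ) (hx : x ≤ 2) (hy : y ≤ 2) (hxy : 0 ≤ x + y) :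
    (δ p θ + δ p θ') * (x + y) ≤ 8 * e₀ p := by
  have h1 := hδ p θ
  have h2 := hδ p θ'
  have h3 := he p θ
  have h4 := he p θ'
  have h5 : (δ p θ + δ p θ') * (x + y) ≤ (2 * e₀ p) * 4 :=
    mul_le_mul (by linarith) (by linarith) hxy (by linarith)
  linarith

/-- **the potential of a pair does not increase** -/
theorem Hp_le {X X' Y Y' : Sd} (h : Sr p p₁ X Y) (h' : Sr p p₁ X' Y') (hp : p₁ ≤ p) {q r : ℕ}
    (hq : q ∈ Y.S) (hr : r ∈ Y'.S) : Hp δ e₀ p₁ Y Y' q r ≤ Hp δ e₀ p X X' q r := by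
  rcases hp.lt_or_eq with hlt | rfl
  · have h1 := h.low hδ he hlt hq
    have h2 := h'.low hδ he hlt hr
    have h3 : (δ p₁ Y.B + δ p₁ Y'.B) *
        (fl p₁ Y.B Y.S (ef p₁ Y'.B r) + fl p₁ Y'.B Y'.S (ef p₁ Y.B q)) ≤
        4 * δ p₁ Y.B + 4 * δ p₁ Y'.B := by
      have a := hδ p₁ Y.B
      have b := hδ p₁ Y'.B
      have c1 := fl_le p₁ Y.B Y.S (ef p₁ Y'.B r)
      have c2 := fl_le p₁ Y'.B Y'.S (ef p₁ Y.B q)
      calc _ ≤ (δ p₁ Y.B + δ p₁ Y'.B) * 4 :=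
            mul_le_mul_of_nonneg_left (by linarith) (by linarith)
        _ = _ := by ring
    have h4 := mul_nonneg (add_nonneg (hδ p X.B) (hδ p X'.B))
      (add_nonneg (fl_nonneg p X.B X.S (ef p X'.B r)) (fl_nonneg p X'.B X'.S (ef p X.B q)))
    unfold Hp
    linarith
  · have n1 := fl_nonneg p₁ Y.B Y.S (ef p₁ Y'.B r)
    have n2 := fl_nonneg p₁ Y'.B Y'.S (ef p₁ Y.B q)
    have m1 := fl_nonneg p₁ X.B X.S (ef p₁ X'.B r)
    have m2 := fl_nonneg p₁ X'.B X'.S (ef p₁ X.B q)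
    have h4 := mul_nonneg (add_nonneg (hδ p₁ X.B) (hδ p₁ X'.B))
      (add_nonneg m1 m2)
    have h5 := flag_le hδ he p₁ Y.B Y'.B _ _
      (fl_le p₁ Y.B Y.S (ef p₁ Y'.B r)) (fl_le p₁ Y'.B Y'.S (ef p₁ Y.B q)) (add_nonneg n1 n2)
    have e0 := e0_nonneg hδ he p₁
    unfold Hp
    rcases h.same hδ he hq with ⟨b1, e1⟩ | e1 <;>
      rcases h'.same hδ he hr with ⟨b1', e1'⟩ | e1'
    · rw [e1, e1', b1, b1']
      have k1 := fl_mono (p := p₁) (B := X.B) h.sub (ef p₁ X'.B r)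
      have k2 := fl_mono (p := p₁) (B := X'.B) h'.sub (ef p₁ X.B q)
      have k3 := mul_le_mul_of_nonneg_left (add_le_add k1 k2)
        (add_nonneg (hδ p₁ X.B) (hδ p₁ X'.B))
      linarith
    · linarith
    · linarith
    · linarith

/-- **what the potential of a pair pays when the hulls shrink** -/
theorem Hp_drop {X X' Y Y' : Sd} (h : Spr p₁ X Y) (h' : Spr p₁ X' Y') (hp : p₁ ≤ p) {q r : ℕ}
    (hq : q ∈ Y.S) (hr : r ∈ Y'.S) : Hp δ e₀ p₁ Y Y' q r +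
      (δ p X.B + δ p X'.B) *
        ((fl p X.B X.S (ef p X'.B r) - fl p X.B Y.S (ef p X'.B r)) +
          (fl p X'.B X'.S (ef p X.B q) - fl p X'.B Y'.S (ef p X.B q))) ≤
      Hp δ e₀ p X X' q r := by
  have g0 := add_nonneg (hδ p X.B) (hδ p X'.B)
  rcases hp.lt_or_eq with hlt | rfl
  · have h1 := h.sr.low hδ he hlt hq
    have h2 := h'.sr.low hδ he hlt hr
    have h3 : (δ p₁ Y.B + δ p₁ Y'.B) *
        (fl p₁ Y.B Y.S (ef p₁ Y'.B r) + fl p₁ Y'.B Y'.S (ef p₁ Y.B q)) ≤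
        4 * δ p₁ Y.B + 4 * δ p₁ Y'.B := by
      have a := hδ p₁ Y.B
      have b := hδ p₁ Y'.B
      have c1 := fl_le p₁ Y.B Y.S (ef p₁ Y'.B r)
      have c2 := fl_le p₁ Y'.B Y'.S (ef p₁ Y.B q)
      calc _ ≤ (δ p₁ Y.B + δ p₁ Y'.B) * 4 :=
            mul_le_mul_of_nonneg_left (by linarith) (by linarith)
        _ = _ := by ring
    have n1 := fl_nonneg p X.B Y.S (ef p X'.B r)
    have n2 := fl_nonneg p X'.B Y'.S (ef p X.B q)
    have h4 : (δ p X.B + δ p X'.B) *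
        ((fl p X.B X.S (ef p X'.B r) - fl p X.B Y.S (ef p X'.B r)) +
          (fl p X'.B X'.S (ef p X.B q) - fl p X'.B Y'.S (ef p X.B q))) ≤
        (δ p X.B + δ p X'.B) *
        (fl p X.B X.S (ef p X'.B r) + fl p X'.B X'.S (ef p X.B q)) :=
      mul_le_mul_of_nonneg_left (by linarith) g0
    unfold Hp
    linarith
  · unfold Hp
    rw [h.B, h'.B, h.m q hq, h'.m r hr]
    apply le_of_eq
    ring

end

/-! ### states -/

/-- **the potential of a state** -/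
noncomputable def Psi (δ : ℕ → ℕ → ℝ) (e₀ : ℕ → ℝ) (W : ℕ → ℝ) (p : ℕ) (X X' : Sd) : ℝ :=
  ∑ e ∈ X.S ×ˢ X'.S, (X.c * W e.1) * (X'.c * W e.2) * Hp δ e₀ p X X' e.1 e.2

/-- a child of a step -/
structure Kid where
  w : ℝ
  p : ℕ
  X : Sd
  X' : Sd

section
variable {δ : ℕ → ℕ → ℝ} {e₀ : ℕ → ℝ} (hδ : ∀ b θ, 0 ≤ δ b θ) (he : ∀ b θ, δ b θ ≤ e₀ b)
  {W : ℕ → ℝ} (hW : ∀ q, 0 ≤ W q) {p : ℕ} {X X' : Sd}
include hδ he hW

lemma Psi_nonneg (h0 : 0 ≤ X.c) (h0' : 0 ≤ X'.c) : 0 ≤ Psi δ e₀ W p X X' :=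
  Finset.sum_nonneg fun e _ => mul_nonneg (mul_nonneg (mul_nonneg h0 (hW _)) (mul_nonneg h0' (hW _)))
    (Hp_nonneg hδ he _ _ _ _ _)

/-- **the potential does not increase** -/
theorem Psi_le (h0 : 0 ≤ X.c) (h0' : 0 ≤ X'.c) {L : List Kid}
    (hL : ∀ k ∈ L, Sr p k.p X k.X ∧ Sr p k.p X' k.X' ∧ k.p ≤ p ∧
      k.w * (k.X.c * k.X'.c) ≤ X.c * X'.c)
    (hd : L.Pairwise fun a b => Disjoint (a.X.S ×ˢ a.X'.S) (b.X.S ×ˢ b.X'.S)) :
    (L.map fun k => k.w * Psi δ e₀ W k.p k.X k.X').sum ≤ Psi δ e₀ W p X X' := by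
  have key := YI25.sum_rects (fun _ => (0:ℝ))
    (fun e : ℕ × ℕ => (X.c * W e.1) * (X'.c * W e.2) * Hp δ e₀ p X X' e.1 e.2)
    (fun k : Kid => k.X.S ×ˢ k.X'.S)
    (fun k e => k.w * ((k.X.c * W e.1) * (k.X'.c * W e.2) * Hp δ e₀ k.p k.X k.X' e.1 e.2))
    L (X.S ×ˢ X'.S) hd (fun k hk => Finset.product_subset_product (hL k hk).1.sub (hL k hk).2.1.sub)
    (fun k hk e he' => ?_) (fun e _ => mul_nonneg (mul_nonneg (mul_nonneg h0 (hW _))
      (mul_nonneg h0' (hW _))) (Hp_nonneg hδ he _ _ _ _ _))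
  · simp only [Finset.sum_const_zero, zero_add] at key
    refine le_trans (le_of_eq ?_) key
    congr 1
    refine List.map_congr_left fun k _ => ?_
    unfold Psi
    rw [Finset.mul_sum]
  · obtain ⟨h1, h2, h3, h4⟩ := hL k hk
    obtain ⟨hq, hr⟩ := Finset.mem_product.1 he'
    have a := Hp_le hδ he h1 h2 h3 hq hr
    have b := Hp_nonneg hδ he k.p k.X k.X' e.1 e.2
    have w0 : 0 ≤ W e.1 * W e.2 := mul_nonneg (hW _) (hW _)
    have e1 : k.w * ((k.X.c * W e.1) * (k.X'.c * W e.2) * Hp δ e₀ k.p k.X k.X' e.1 e.2) =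
        (k.w * (k.X.c * k.X'.c)) * (W e.1 * W e.2) * Hp δ e₀ k.p k.X k.X' e.1 e.2 := by ring
    have e2 : (X.c * W e.1) * (X'.c * W e.2) * Hp δ e₀ p X X' e.1 e.2 =
        (X.c * X'.c) * (W e.1 * W e.2) * Hp δ e₀ p X X' e.1 e.2 := by ring
    simp only [add_zero]
    rw [e1, e2]
    exact mul_le_mul (mul_le_mul_of_nonneg_right h4 w0) a b
      (mul_nonneg (mul_nonneg h0 h0') w0)

/-- **what the potential pays** at a step without missing ties: `Z'` = items of the right side for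
which the hull of the left side shrinks, `Z` = items of the left side for which the hull of the right
side shrinks -/
theorem Psi_pay (h0 : 0 ≤ X.c) (h0' : 0 ≤ X'.c) {L : List Kid}
    (hL : ∀ k ∈ L, Spr k.p X k.X ∧ Spr k.p X' k.X' ∧ k.p ≤ p ∧
      0 ≤ k.w * (k.X.c * k.X'.c) ∧ k.w * (k.X.c * k.X'.c) ≤ X.c * X'.c)
    (hd : L.Pairwise fun a b => Disjoint (a.X.S ×ˢ a.X'.S) (b.X.S ×ˢ b.X'.S))
    {Z Z' : Finset ℕ} (hZ : Z ⊆ X.S) (hZ' : Z' ⊆ X'.S)
    (z1 : ∀ q ∈ Z, 1 ≤ fl p X'.B X'.S (ef p X.B q) ∧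
      ∀ k ∈ L, q ∈ k.X.S → fl p X'.B k.X'.S (ef p X.B q) + 1 ≤ fl p X'.B X'.S (ef p X.B q))
    (z2 : ∀ r ∈ Z', 1 ≤ fl p X.B X.S (ef p X'.B r) ∧
      ∀ k ∈ L, r ∈ k.X'.S → fl p X.B k.X.S (ef p X'.B r) + 1 ≤ fl p X.B X.S (ef p X'.B r)) :
    (δ p X.B + δ p X'.B) *
        ((X.c * ∑ q ∈ X.S, W q) * (X'.c * ∑ r ∈ Z', W r) +
          (X.c * ∑ q ∈ Z, W q) * (X'.c * ∑ r ∈ X'.S, W r)) +
      (L.map fun k => k.w * Psi δ e₀ W k.p k.X k.X').sum ≤ Psi δ e₀ W p X X' := by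
  classical
  set g := δ p X.B + δ p X'.B with hg
  have g0 : 0 ≤ g := add_nonneg (hδ _ _) (hδ _ _)
  have key := YI25.sum_rects
    (fun e : ℕ × ℕ => g * ((X.c * W e.1) * (X'.c * W e.2) *
      ((if e.2 ∈ Z' then 1 else 0) + (if e.1 ∈ Z then 1 else 0))))
    (fun e : ℕ × ℕ => (X.c * W e.1) * (X'.c * W e.2) * Hp δ e₀ p X X' e.1 e.2)
    (fun k : Kid => k.X.S ×ˢ k.X'.S)
    (fun k e => k.w * ((k.X.c * W e.1) * (k.X'.c * W e.2) * Hp δ e₀ k.p k.X k.X' e.1 e.2))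
    L (X.S ×ˢ X'.S) hd (fun k hk => Finset.product_subset_product (hL k hk).1.sub (hL k hk).2.1.sub)
    (fun k hk e he' => ?_) (fun e he' => ?_)
  · have e1 : ∑ e ∈ X.S ×ˢ X'.S, g * ((X.c * W e.1) * (X'.c * W e.2) *
        ((if e.2 ∈ Z' then 1 else 0) + (if e.1 ∈ Z then 1 else 0))) =
        g * ((X.c * ∑ q ∈ X.S, W q) * (X'.c * ∑ r ∈ Z', W r) +
          (X.c * ∑ q ∈ Z, W q) * (X'.c * ∑ r ∈ X'.S, W r)) := by
      rw [← Finset.mul_sum]
      congr 1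
      have a1 : ∀ e : ℕ × ℕ, (X.c * W e.1) * (X'.c * W e.2) *
          ((if e.2 ∈ Z' then (1:ℝ) else 0) + (if e.1 ∈ Z then 1 else 0)) =
          (X.c * W e.1) * (X'.c * (if e.2 ∈ Z' then W e.2 else 0)) +
          (X.c * (if e.1 ∈ Z then W e.1 else 0)) * (X'.c * W e.2) := by
        intro e
        split_ifs <;> ring
      rw [Finset.sum_congr rfl fun e _ => a1 e, Finset.sum_add_distrib,
        Finset.sum_product, Finset.sum_product]
      have b1 : ∀ (S : Finset ℕ) (T : Finset ℕ), T ⊆ S →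
          ∑ r ∈ S, (if r ∈ T then W r else 0) = ∑ r ∈ T, W r := by
        intro S T hT
        rw [← Finset.sum_filter]
        congr 1
        ext r
        simp only [Finset.mem_filter]
        exact ⟨fun h => h.2, fun h => ⟨hT h, h⟩⟩
      congr 1
      · simp only
        rw [← b1 _ _ hZ', Finset.mul_sum, Finset.mul_sum, Finset.sum_mul]
        refine Finset.sum_congr rfl fun q _ => ?_
        rw [Finset.mul_sum]
      · simp only
        rw [← b1 _ _ hZ, Finset.mul_sum, Finset.mul_sum, Finset.sum_mul]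
        refine Finset.sum_congr rfl fun q _ => ?_
        rw [Finset.mul_sum]
    rw [e1] at key
    refine le_trans (add_le_add le_rfl (le_of_eq ?_)) key
    congr 1
    refine List.map_congr_left fun k _ => ?_
    unfold Psi
    rw [Finset.mul_sum]
  · obtain ⟨h1, h2, h3, h5, h4⟩ := hL k hk
    obtain ⟨hq, hr⟩ := Finset.mem_product.1 he'
    have a := Hp_drop hδ he h1 h2 h3 hq hr
    rw [← hg] at a
    have b := Hp_nonneg hδ he k.p k.X k.X' e.1 e.2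
    have w0 : 0 ≤ W e.1 * W e.2 := mul_nonneg (hW _) (hW _)
    have m1 := fl_mono (p := p) (B := X.B) h1.sub (ef p X'.B e.2)
    have m2 := fl_mono (p := p) (B := X'.B) h2.sub (ef p X.B e.1)
    have c1 : (if e.2 ∈ Z' then (1:ℝ) else 0) ≤
        fl p X.B X.S (ef p X'.B e.2) - fl p X.B k.X.S (ef p X'.B e.2) := by
      split_ifs with h
      · have := (z2 _ h).2 k hk hr
        linarith
      · linarith
    have c2 : (if e.1 ∈ Z then (1:ℝ) else 0) ≤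
        fl p X'.B X'.S (ef p X.B e.1) - fl p X'.B k.X'.S (ef p X.B e.1) := by
      split_ifs with h
      · have := (z1 _ h).2 k hk hq
        linarith
      · linarith
    have c3 := mul_le_mul_of_nonneg_left (add_le_add c1 c2) g0
    have e1 : k.w * ((k.X.c * W e.1) * (k.X'.c * W e.2) * Hp δ e₀ k.p k.X k.X' e.1 e.2) =
        (k.w * (k.X.c * k.X'.c)) * (W e.1 * W e.2) * Hp δ e₀ k.p k.X k.X' e.1 e.2 := by ring
    have e2 : (X.c * W e.1) * (X'.c * W e.2) * Hp δ e₀ p X X' e.1 e.2 =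
        (X.c * X'.c) * (W e.1 * W e.2) * Hp δ e₀ p X X' e.1 e.2 := by ring
    have e3 : g * ((X.c * W e.1) * (X'.c * W e.2) *
        ((if e.2 ∈ Z' then (1:ℝ) else 0) + (if e.1 ∈ Z then 1 else 0))) =
        (X.c * X'.c) * (W e.1 * W e.2) *
          (g * ((if e.2 ∈ Z' then (1:ℝ) else 0) + (if e.1 ∈ Z then 1 else 0))) := by ring
    rw [e1, e2, e3]
    have k1 : (k.w * (k.X.c * k.X'.c)) * (W e.1 * W e.2) * Hp δ e₀ k.p k.X k.X' e.1 e.2 ≤
        (X.c * X'.c) * (W e.1 * W e.2) * Hp δ e₀ k.p k.X k.X' e.1 e.2 :=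
      mul_le_mul_of_nonneg_right (mul_le_mul_of_nonneg_right h4 w0) b
    refine le_trans (add_le_add k1 le_rfl) ?_
    rw [← mul_add]
    exact mul_le_mul_of_nonneg_left (by linarith) (mul_nonneg (mul_nonneg h0 h0') w0)
  · obtain ⟨hq, hr⟩ := Finset.mem_product.1 he'
    have w0 : 0 ≤ (X.c * W e.1) * (X'.c * W e.2) :=
      mul_nonneg (mul_nonneg h0 (hW _)) (mul_nonneg h0' (hW _))
    have n1 := fl_nonneg p X.B X.S (ef p X'.B e.2)
    have n2 := fl_nonneg p X'.B X'.S (ef p X.B e.1)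
    have c1 : (if e.2 ∈ Z' then (1:ℝ) else 0) ≤ fl p X.B X.S (ef p X'.B e.2) := by
      split_ifs with h
      · exact (z2 _ h).1
      · exact n1
    have c2 : (if e.1 ∈ Z then (1:ℝ) else 0) ≤ fl p X'.B X'.S (ef p X.B e.1) := by
      split_ifs with h
      · exact (z1 _ h).1
      · exact n2
    have h1 := nf_nonneg hδ he X.B (X.m e.1) p
    have h2 := nf_nonneg hδ he X'.B (X'.m e.2) p
    have c3 := mul_le_mul_of_nonneg_left (add_le_add c1 c2) g0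
    have c4 : g * ((if e.2 ∈ Z' then (1:ℝ) else 0) + (if e.1 ∈ Z then 1 else 0)) ≤
        Hp δ e₀ p X X' e.1 e.2 := by
      unfold Hp
      rw [← hg]
      linarith
    calc _ = (X.c * W e.1) * (X'.c * W e.2) *
          (g * ((if e.2 ∈ Z' then (1:ℝ) else 0) + (if e.1 ∈ Z then 1 else 0))) := by ring
      _ ≤ _ := mul_le_mul_of_nonneg_left c4 w0

end

end Crest.Agent.R4P.Hull31
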