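import Crest.Agent.R4P.HullPot_31
import Crest.Agent.R4P.GSt927
import Crest.Agent.R4P.CrossSum_29

/-!
R4P (S0004), helper31, module D, group [X]: **the steps of the main walk with explicit item data** and the
hull potential along them.

* `YD` = a state with history and with its item data; `nextY` : the list of the continuing states with
  explicit item data (over `steps`), `HI`, `JS`, relations `Sr` of both sides, disjoint rectangles.
* `addL`, `addR`, `jntY` : the add steps.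
-/

set_option autoImplicit false
set_option linter.unusedSectionVars false
set_option linter.unusedVariables false
set_option linter.unusedSimpArgs false
open Finset

namespace Crest.Agent.R4P.Hull31

open Crest.Agent.R4.Tour104 Crest.Agent.R4.Tour758 Crest.Agent.R4.Avg758 Crest.Agent.R4.Clos758
open Crest.Agent.R4.ClosL758 Crest.Agent.R4.ClosG758 Crest.Agent.R4.ClosR758
open Crest.Agent.R4P.Cnt588 Crest.Agent.R4P.Walk560 Crest.Agent.R4P.Item758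
open Crest.Agent.R4P.AvgItem710
open Crest.Agent.R4P.Bld532 (NS All NodeOk Bk)
open Crest.Agent.R4P.Res927 Crest.Agent.R4P.WalkIT579 Crest.Agent.R4P.GSt927
open Crest.Agent.R4P

variable {Λ κ : Type*} [Fintype Λ] [DecidableEq Λ] [Fintype κ] [DecidableEq κ] [WRel κ]
  {D : Par Λ κ} {sp : ℕ → Finset Λ} {P : Bld532.Par} {W : ℕ → ℝ} {Qp : NS → IT → Prop}

/-- missing ties are below the top column -/
lemma mt_top : ∀ {τ : IT} {n : ℕ}, τ.Ok n → ∀ q, ∀ s ∈ τ.mt q, s ≤ WalkIT579.tp τ := by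
  intro τ n h q s hs
  cases τ with
  | leaf S => simp [IT.mt] at hs
  | br p Sp t₁ t₀ =>
    show s ≤ p
    simp only [IT.mt] at hs
    split_ifs at hs
    · rcases Finset.mem_insert.1 hs with rfl | hs
      · exact le_rfl
      · exact (BldF542.mt_lt _ _ h.2.2.2.2.2 _ _ hs).2.le
    · exact (BldF542.mt_lt _ _ h.2.2.2.2.1 _ _ hs).2.le
  | add p t₁ t₀ =>
    show s ≤ p
    simp only [IT.mt] at hs
    split_ifs at hs
    · exact Nat.lt_succ_iff.1 (BldF542.mt_lt _ _ h.2.2.2.2 _ _ hs).2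
    · exact Nat.lt_succ_iff.1 (BldF542.mt_lt _ _ h.2.2.2.1 _ _ hs).2
  | up p Sp t => exact (BldF542.mt_lt _ _ h.2.2.2 _ _ hs).2.le
  | pl p t => exact Nat.lt_succ_iff.1 (BldF542.mt_lt _ _ h.2.2 _ _ hs).2
  | far p t₁ t₀ =>
    show s ≤ p
    simp only [IT.mt] at hs
    split_ifs at hs
    · exact Nat.lt_succ_iff.1 (BldF542.mt_lt _ _ h.2.2.2.2 _ _ hs).2
    · exact Nat.lt_succ_iff.1 (BldF542.mt_lt _ _ h.2.2.2.1 _ _ hs).2

/-- data of a side -/
noncomputable def sdOf (u : NS) (τ : IT) : Sd := ⟨u.c, u.B, τ.items, τ.mt⟩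

open Classical in
/-- items of positive weight -/
noncomputable def pos (W : ℕ → ℝ) (S : Finset ℕ) : Finset ℕ := S.filter (0 < W ·)

lemma mem_pos {W : ℕ → ℝ} {S : Finset ℕ} {q : ℕ} : q ∈ pos W S ↔ q ∈ S ∧ 0 < W q := by
  unfold pos
  rw [Finset.mem_filter]

lemma pos_sub (W : ℕ → ℝ) (S : Finset ℕ) : pos W S ⊆ S := fun q hq => (mem_pos.1 hq).1

lemma pos_mono (W : ℕ → ℝ) {S T : Finset ℕ} (h : S ⊆ T) : pos W S ⊆ pos W T := fun q hq =>
  mem_pos.2 ⟨h (mem_pos.1 hq).1, (mem_pos.1 hq).2⟩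

lemma sum_pos {W : ℕ → ℝ} (hW : ∀ q, 0 ≤ W q) (S : Finset ℕ) : ∑ q ∈ pos W S, W q = ∑ q ∈ S, W q := by
  refine Finset.sum_subset (pos_sub W S) fun q hq hn => ?_
  by_contra h
  exact hn (mem_pos.2 ⟨hq, lt_of_le_of_ne (hW q) (Ne.symm h)⟩)

/-- data of a side with the items of positive weight -/
noncomputable def sdP (W : ℕ → ℝ) (u : NS) (τ : IT) : Sd := ⟨u.c, u.B, pos W τ.items, τ.mt⟩

lemma Sr.pos {W : ℕ → ℝ} {p p₁ : ℕ} {u v : NS} {τ σ : IT} (h : Sr p p₁ (sdOf u τ) (sdOf v σ)) :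
    Sr p p₁ (sdP W u τ) (sdP W v σ) := by
  refine ⟨pos_mono W h.sub, ?_, fun q hq => h.top q (pos_sub W _ hq)⟩
  rcases h.mv with ⟨h1, h2⟩ | ⟨h1, h2⟩
  · exact Or.inl ⟨h1, fun q hq => h2 q (pos_sub W _ hq)⟩
  · exact Or.inr ⟨h1, fun q hq => h2 q (pos_sub W _ hq)⟩

lemma Spr.pos {W : ℕ → ℝ} {p₁ : ℕ} {u v : NS} {τ σ : IT} (h : Spr p₁ (sdOf u τ) (sdOf v σ)) :
    Spr p₁ (sdP W u τ) (sdP W v σ) :=
  ⟨pos_mono W h.sub, h.B, fun q hq => h.m q (pos_sub W _ hq), fun q hq => h.top q (pos_sub W _ hq)⟩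

/-- relation of the targets and of the missing ties -/
def MvR (p : ℕ) (u : NS) (τ : IT) (v : NS) (σ : IT) : Prop :=
  (v.B = u.B ∧ ∀ q ∈ σ.items, σ.mt q = τ.mt q) ∨
    (v.B = u.B * p ∧ ∀ q ∈ σ.items, p ∉ σ.mt q ∧ τ.mt q = insert p (σ.mt q))

/-- a move of one side with its item data -/
structure Mx (D : Par Λ κ) (sp : ℕ → Finset Λ) (Qp : NS → IT → Prop) (B₀ : ℕ) (u : NS) (τ : IT)
    (p f : ℕ) (U₁ : Finset ℕ) (A₁ : Finset Λ) (d₁ : DT Λ κ) (w : ℝ) (v : NS) (σ : IT) : Prop where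
  sd : w ≠ 0 → SD D sp Qp B₀ U₁ v σ A₁ d₁ ∧ v.A * v.B = u.A * u.B * f ∧ Lv p v
  top : d₁.top ≤ p
  sub : σ.items ⊆ τ.items
  w0 : 0 ≤ w
  c0 : 0 ≤ v.c
  wc : w * v.c ≤ u.c
  mv : MvR p u τ v σ
  tops : ∀ q ∈ σ.items, ∀ s ∈ σ.mt q, s ≤ d₁.top

section side
variable {B₀ p : ℕ} {U : Finset ℕ} {u : NS} {τ : IT} {A : Finset Λ} {d : DT Λ κ}
  {w : ℝ} {r : Λ → κ} {t₁ t₀ : DT Λ κ} {v : Λ → ℝ → ℝ} {B G : κ → ℝ → ℝ}

lemma toDT_tp (D : Par Λ κ) (sp : ℕ → Finset Λ) (b pr : ℕ) (τ : IT) :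
    (D.toDT sp b pr τ).top = WalkIT579.tp τ := by cases τ <;> rfl

lemma wt_facts (hp : p.Prime) : 0 ≤ 1 - 1 / (p:ℝ) ∧ 0 < 1 - 1 / (p:ℝ) ∧ 0 < (p:ℝ) := by
  have h2 : (2:ℝ) ≤ p := by exact_mod_cast hp.two_le
  have h0 : (0:ℝ) < p := by linarith
  have h1 : 1 / (p:ℝ) ≤ 1 / 2 := one_div_le_one_div_of_le (by norm_num) h2
  exact ⟨by linarith, by linarith, h0⟩

/-- children of a tie or of a pull -/
lemma SD.two (hc : ∀ u τ, Qp u τ → 0 ≤ u.c) (h : SD D sp Qp B₀ U u τ A (.br p w r t₁ t₀ v B G))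
    (hU : p ∉ U) :
    ∃ v₁ σ₁ v₀ σ₀, Mx D sp Qp B₀ u τ p p U A t₁ (1 - w) v₁ σ₁ ∧
      Mx D sp Qp B₀ u τ p p (insert p U) A t₀ w v₀ σ₀ ∧ Disjoint σ₁.items σ₀.items := by
  have c0 : 0 ≤ u.c := hc _ _ h.q.self
  rcases toDT_br h.I.eq.symm with ⟨Sp, τ₁, τ₀, rfl, -, rfl, rfl, rfl, -⟩ | ⟨τ₁, rfl, -, rfl, rfl, rfl, -⟩
  · have hp : p.Prime := h.I.hF.1
    obtain ⟨w1, w2, w3⟩ := wt_facts hp
    have hd : Disjoint τ₁.items τ₀.items := h.ok.2.2.1
    have hs1 : SD D sp Qp B₀ U ⟨p, u.c / (1 - 1 / (p:ℝ)), u.A * p, u.B⟩ τ₁ A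
        (D.toDT sp u.B (u.A * p) τ₁) := ⟨h.I.br₁, h.ok.2.2.2.2.1, h.q.2.1, h.b, h.il⟩
    have hs0 : SD D sp Qp B₀ (insert p U) ⟨p, u.c * p, u.A, u.B * p⟩ τ₀ A
        (D.toDT sp (u.B * p) u.A τ₀) :=
      ⟨h.I.br₀, h.ok.2.2.2.2.2, h.q.2.2, prod_ins h.b hU, h.il⟩
    refine ⟨_, τ₁, _, τ₀, ⟨fun _ => ⟨hs1, ?_, Lv_of (Or.inl rfl)⟩,
        hs1.top_le hp.pos (Or.inl rfl), Finset.subset_union_left, w1, ?_, ?_, Or.inl ⟨rfl, ?_⟩, ?_⟩,
      ⟨fun _ => ⟨hs0, ?_, Lv_of (Or.inl rfl)⟩,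
        hs0.top_le hp.pos (Or.inl rfl), Finset.subset_union_right, by positivity, ?_, ?_,
        Or.inr ⟨rfl, ?_⟩, ?_⟩, hd⟩
    · show u.A * p * u.B = u.A * u.B * p
      ring
    · exact div_nonneg c0 w1
    · exact (mul_div_cancel₀ _ w2.ne').le
    · intro q hq
      simp only [IT.mt, if_neg (Finset.disjoint_left.1 hd hq)]
    · intro q hq s hs
      rw [toDT_tp]
      exact mt_top h.ok.2.2.2.2.1 q s hs
    · show u.A * (u.B * p) = u.A * u.B * p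
      ring
    · exact mul_nonneg c0 w3.le
    · show 1 / (p:ℝ) * (u.c * p) ≤ u.c
      apply le_of_eq
      field_simp
    · intro q hq
      simp only [IT.mt, if_pos hq]
      exact ⟨fun h' => lt_irrefl _ (BldF542.mt_lt _ _ h.ok.2.2.2.2.2 _ _ h').2, trivial⟩
    · intro q hq s hs
      rw [toDT_tp]
      exact mt_top h.ok.2.2.2.2.2 q s hs
  · have hp : p.Prime := h.I.hF.1
    have hs1 : SD D sp Qp B₀ U ⟨p + 1, u.c, u.A * p, u.B⟩ τ₁ A
        (D.toDT sp u.B (u.A * p) τ₁) := ⟨h.I.pl, h.ok.2.2, h.q.2, h.b, h.il⟩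
    refine ⟨_, τ₁, u, .leaf ∅, ⟨fun _ => ⟨hs1, ?_, Lv_of (Or.inr rfl)⟩,
        hs1.top_le hp.pos (Or.inr rfl), Finset.Subset.refl _, by norm_num, c0, ?_,
        Or.inl ⟨rfl, fun q _ => rfl⟩, ?_⟩,
      ⟨fun h => absurd rfl h, Nat.zero_le _, by simp [IT.items], le_rfl, c0, by simpa using c0,
        Or.inl ⟨rfl, by simp [IT.items]⟩, by simp [IT.items]⟩, by simp [IT.items]⟩
    · show u.A * p * u.B = u.A * u.B * p
      ring
    · simp
    · intro q hq s hs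
      rw [toDT_tp]
      exact mt_top h.ok.2.2 q s hs

/-- children of an `add` view -/
lemma SD.addY (hc : ∀ u τ, Qp u τ → 0 ≤ u.c) (h : SD D sp Qp B₀ U u τ A (.add p r t₁ t₀)) :
    ∃ τ₁ τ₀, (τ = .add p τ₁ τ₀ ∨ τ = .far p τ₁ τ₀) ∧
      Mx D sp Qp B₀ u τ p 1 U A t₁ 1 ⟨p + 1, u.c, u.A, u.B⟩ τ₁ ∧
      Mx D sp Qp B₀ u τ p 1 U A t₀ 1 ⟨p + 1, u.c, u.A, u.B⟩ τ₀ ∧ Disjoint τ₁.items τ₀.items ∧
      t₁ = D.toDT sp u.B u.A τ₁ ∧ t₀ = D.toDT sp u.B u.A τ₀ ∧ τ.items = τ₁.items ∪ τ₀.items ∧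
      (∀ q ∈ τ₁.items, τ₁.mt q = τ.mt q) ∧ ∀ q ∈ τ₀.items, τ₀.mt q = τ.mt q := by
  have c0 : 0 ≤ u.c := hc _ _ h.q.self
  obtain ⟨τ₁, τ₀, hτ, -, rfl, rfl⟩ := toDT_add h.I.eq.symm
  have hp : p.Prime := by
    rcases hτ with rfl | rfl
    · exact h.ok.1
    · exact h.ok.1
  obtain ⟨i1, i0⟩ := h.I.addfar hτ
  have hd : Disjoint τ₁.items τ₀.items := by
    rcases hτ with rfl | rfl
    · exact h.ok.2.2.1
    · exact h.ok.2.2.1
  have o1 : τ₁.Ok (p + 1) := by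
    rcases hτ with rfl | rfl
    · exact h.ok.2.2.2.1
    · exact h.ok.2.2.2.1
  have o0 : τ₀.Ok (p + 1) := by
    rcases hτ with rfl | rfl
    · exact h.ok.2.2.2.2
    · exact h.ok.2.2.2.2
  have hs1 : SD D sp Qp B₀ U ⟨p + 1, u.c, u.A, u.B⟩ τ₁ A (D.toDT sp u.B u.A τ₁) := by
    refine ⟨i1, o1, ?_, h.b, h.il⟩
    rcases hτ with rfl | rfl
    · exact h.q.2.1
    · exact h.q.2.1
  have hs0 : SD D sp Qp B₀ U ⟨p + 1, u.c, u.A, u.B⟩ τ₀ A (D.toDT sp u.B u.A τ₀) := by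
    refine ⟨i0, o0, ?_, h.b, h.il⟩
    rcases hτ with rfl | rfl
    · exact h.q.2.2
    · exact h.q.2.2
  have hit : τ.items = τ₁.items ∪ τ₀.items := by rcases hτ with rfl | rfl <;> rfl
  have m1 : ∀ q ∈ τ₁.items, τ₁.mt q = τ.mt q := by
    intro q hq
    have hn := Finset.disjoint_left.1 hd hq
    rcases hτ with rfl | rfl <;> simp only [IT.mt, if_neg hn]
  have m0 : ∀ q ∈ τ₀.items, τ₀.mt q = τ.mt q := by
    intro q hq
    rcases hτ with rfl | rfl <;> simp only [IT.mt, if_pos hq]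
  refine ⟨τ₁, τ₀, hτ, ⟨fun _ => ⟨hs1, (mul_one _).symm, Lv_of (Or.inr rfl)⟩,
      hs1.top_le hp.pos (Or.inr rfl), by rw [hit]; exact Finset.subset_union_left, zero_le_one, c0,
      (one_mul _).le, Or.inl ⟨rfl, m1⟩, fun q hq s hs => ?_⟩,
    ⟨fun _ => ⟨hs0, (mul_one _).symm, Lv_of (Or.inr rfl)⟩,
      hs0.top_le hp.pos (Or.inr rfl), by rw [hit]; exact Finset.subset_union_right, zero_le_one, c0,
      (one_mul _).le, Or.inl ⟨rfl, m0⟩, fun q hq s hs => ?_⟩, hd, rfl, rfl, hit, m1, m0⟩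
  · rw [toDT_tp]
    exact mt_top o1 q s hs
  · rw [toDT_tp]
    exact mt_top o0 q s hs

/-- the side does not move -/
lemma SD.stayY (hc : ∀ u τ, Qp u τ → 0 ≤ u.c) (h : SD D sp Qp B₀ U u τ A d) (hl : Lv p u)
    (ht : d.top ≤ p) : Mx D sp Qp B₀ u τ p 1 U A d 1 u τ where
  sd := fun _ => ⟨h, (mul_one _).symm, hl⟩
  top := ht
  sub := Finset.Subset.refl _
  w0 := zero_le_one
  c0 := hc _ _ h.q.self
  wc := (one_mul _).le
  mv := Or.inl ⟨rfl, fun q _ => rfl⟩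
  tops := fun q hq s hs => by
    have e : d.top = WalkIT579.tp τ := by rw [h.I.eq]; exact toDT_tp D sp _ _ τ
    rw [e]
    exact mt_top h.ok q s hs

/-- `up` view -/
lemma SD.upY (hc : ∀ u τ, Qp u τ → 0 ≤ u.c) (h : SD D sp Qp B₀ U u τ A d) (hl : Lv p u)
    (ht : d.top ≤ p) {Sp : Finset Λ} {e : DT Λ κ} (hv : vw p d = .up Sp e) :
    ∃ z ρ, Mx D sp Qp B₀ u τ p 1 U A e 1 z ρ := by
  have c0 : 0 ≤ u.c := hc _ _ h.q.self
  rcases vw_up hv with h1 | ⟨rfl, rfl, -⟩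
  · obtain ⟨S, τ₁, rfl, rfl, rfl⟩ := toDT_up (h.I.eq.symm.trans h1)
    have hp : p.Prime := h.ok.1
    have hs : SD D sp Qp B₀ U ⟨p, u.c, u.A, u.B⟩ τ₁ A (D.toDT sp u.B u.A τ₁) :=
      ⟨h.I.up, h.ok.2.2.2, h.q.2, h.b, h.il⟩
    refine ⟨_, τ₁, ⟨fun _ => ⟨hs, (mul_one _).symm, Lv_of (Or.inl rfl)⟩,
      hs.top_le hp.pos (Or.inl rfl), Finset.Subset.refl _, zero_le_one, c0, (one_mul _).le,
      Or.inl ⟨rfl, fun q _ => rfl⟩, fun q hq s hs => ?_⟩⟩
    rw [toDT_tp]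
    exact mt_top h.ok.2.2.2 q s hs
  · exact ⟨u, τ, SD.stayY hc h hl ht⟩

end side

/-! ### states with item data -/

/-- a state with history and its item data -/
structure YD (Λ κ : Type*) where
  x : XSt Λ κ
  v : NS
  v' : NS
  σ : IT
  σ' : IT

/-- the kid of a state with data -/
noncomputable def kid (W : ℕ → ℝ) (e : ℝ × YD Λ κ) : Kid :=
  ⟨e.1, e.2.x.s.p, sdP W e.2.v e.2.σ, sdP W e.2.v' e.2.σ'⟩

/-- the hull potential of a state with data -/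
noncomputable def PsiY (δ : ℕ → ℕ → ℝ) (e₀ : ℕ → ℝ) (W : ℕ → ℝ) (y : YD Λ κ) : ℝ :=
  Psi δ e₀ W y.x.s.p (sdP W y.v y.σ) (sdP W y.v' y.σ')

/-- **facts about a child** -/
structure Cd (D : Par Λ κ) (sp : ℕ → Finset Λ) (Qp : NS → IT → Prop) (B₀ B₀' : ℕ) (p : ℕ)
    (u u' : NS) (τ τ' : IT) (e : ℝ × YD Λ κ) : Prop where
  hj : e.1 ≠ 0 → HI D sp Qp B₀ B₀' e.2.x e.2.v e.2.v' e.2.σ e.2.σ' ∧ JS e.2.x.s e.2.v e.2.v'
  L : Sr p e.2.x.s.p (sdOf u τ) (sdOf e.2.v e.2.σ)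
  R : Sr p e.2.x.s.p (sdOf u' τ') (sdOf e.2.v' e.2.σ')
  p : e.2.x.s.p ≤ p
  e0 : 0 ≤ e.1
  w0 : 0 ≤ e.1 * (e.2.v.c * e.2.v'.c)
  w : e.1 * (e.2.v.c * e.2.v'.c) ≤ u.c * u'.c

/-- a child from the moves of its two sides -/
lemma Cd.mk' {B₀ B₀' : ℕ} {y : XSt Λ κ} {u u' : NS} {τ τ' : IT} {p f f' : ℕ} {w w' : ℝ}
    {v v' : NS} {σ σ' : IT} (hc : 0 ≤ u.c)
    (hL : Mx D sp Qp B₀ u τ p f y.u y.s.A y.s.t w v σ)
    (hR : Mx D sp Qp B₀' u' τ' p f' y.u' y.s.A' y.s.t' w' v' σ')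
    (mL : MS p y.s.M y.s.O') (mR : MS p y.s.M' y.s.O)
    (hcir : u.A * u.B * f * y.s.M = u'.A * u'.B * f' * y.s.M') :
    Cd D sp Qp B₀ B₀' p u u' τ τ' (w * w', ⟨y, v, v', σ, σ'⟩) where
  hj := by
    intro hne
    have hp : y.s.p ≤ p := max_le hL.top hR.top
    obtain ⟨h1, h2, h3⟩ := hL.sd (left_ne_zero_of_mul hne)
    obtain ⟨h1', h2', h3'⟩ := hR.sd (right_ne_zero_of_mul hne)
    refine ⟨⟨h1.I, h1'.I, h1.ok, h1'.ok, h1.q, h1'.q, h1.b, h1'.b, h1.il, h1'.il,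
      mL.down hp, mR.down hp⟩, ?_, p, h3.1, h3'.1, fun l hl hlp => ⟨h3.2 l hl hlp, h3'.2 l hl hlp⟩,
      fun l hl hd => mL.geM hl hd, fun l hl hd => mR.geM hl hd⟩
    rw [h2, h2']
    exact hcir
  L := ⟨hL.sub, hL.mv, fun q hq s hs => (hL.tops q hq s hs).trans (le_max_left _ _)⟩
  R := ⟨hR.sub, hR.mv, fun q hq s hs => (hR.tops q hq s hs).trans (le_max_right _ _)⟩
  p := max_le hL.top hR.top
  e0 := mul_nonneg hL.w0 hR.w0
  w0 := by
    show 0 ≤ w * w' * (v.c * v'.c)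
    have := mul_nonneg (mul_nonneg hL.w0 hL.c0) (mul_nonneg hR.w0 hR.c0)
    calc (0:ℝ) ≤ _ := this
      _ = _ := by ring
  w := by
    show w * w' * (v.c * v'.c) ≤ u.c * u'.c
    calc w * w' * (v.c * v'.c) = (w * v.c) * (w' * v'.c) := by ring
      _ ≤ u.c * u'.c := mul_le_mul hL.wc hR.wc (mul_nonneg hR.w0 hR.c0) hc

/-- the children of a step: a list over `steps` -/
def NY (D : Par Λ κ) (sp : ℕ → Finset Λ) (Qp : NS → IT → Prop) (B₀ B₀' : ℕ) (p : ℕ)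
    (u u' : NS) (τ τ' : IT) (S : List (XStep Λ κ)) (l : List (ℝ × YD Λ κ)) : Prop :=
  l.map (fun e => (e.1, e.2.x)) = S.map (fun e => (e.a * e.a', e.y)) ∧
  (∀ e ∈ l, Cd D sp Qp B₀ B₀' p u u' τ τ' e) ∧
  l.Pairwise fun a b => Disjoint (a.2.σ.items ×ˢ a.2.σ'.items) (b.2.σ.items ×ˢ b.2.σ'.items)

lemma dL {I I₁ J J₁ : Finset ℕ} (h : Disjoint I I₁) : Disjoint (I ×ˢ J) (I₁ ×ˢ J₁) := by
  rw [Finset.disjoint_left]
  intro e he he'
  exact Finset.disjoint_left.1 h (Finset.mem_product.1 he).1 (Finset.mem_product.1 he').1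

lemma dR {I I₁ J J₁ : Finset ℕ} (h : Disjoint J J₁) : Disjoint (I ×ˢ J) (I₁ ×ˢ J₁) := by
  rw [Finset.disjoint_left]
  intro e he he'
  exact Finset.disjoint_left.1 h (Finset.mem_product.1 he).2 (Finset.mem_product.1 he').2

set_option maxHeartbeats 4000000 in
/-- **the continuing states with their item data** -/
theorem nextY0 (hsp : D.SpOk sp) (hil : ∀ b, IL D.it (sp b)) (hc : ∀ u τ, Qp u τ → 0 ≤ u.c)
    (hQ : ∀ u τ, Qp u τ → NodeOk P W u τ) {stp : Stp Λ κ} (hn : Strip29.NoSplit stp)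
    {dv : DT Λ κ → Λ → Prop}
    {B₀ B₀' : ℕ} {x : XSt Λ κ} (hx : XI x) {u u' : NS} {τ τ' : IT}
    (h : HI D sp Qp B₀ B₀' x u u' τ τ') (hj : JS x.s u u') :
    ∃ l, NY D sp Qp B₀ B₀' x.s.p u u' τ τ' (steps0 stp dv x) l := by
  classical
  by_cases h1 : x.s.t.isLeaf ∨ x.s.t'.isLeaf
  · exact ⟨[], by simp [steps0, h1], by simp, by simp⟩
  by_cases h2 : stp x.s
  · exact ⟨[], by simp [steps0, h1, h2], by simp, by simp⟩
  have hl : ¬ x.s.t.isLeaf := fun h => h1 (Or.inl h)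
  have hl' : ¬ x.s.t'.isLeaf := fun h => h1 (Or.inr h)
  obtain ⟨lvL, lvR, hpp⟩ := HJ.lev hQ h hj hl hl'
  have topL : x.s.t.top ≤ x.s.p := le_max_left _ _
  have topR : x.s.t'.top ≤ x.s.p := le_max_right _ _
  have sL := h.sL
  have sR := h.sR
  have mL := h.mL
  have mR := h.mR
  have circ := hj.circ
  have c0 : 0 ≤ u.c := hc _ _ h.qL.self
  have stL := SD.stayY hc sL lvL topL
  have stR := SD.stayY hc sR lvR topR
  have huL : x.s.t.top = x.s.p → x.s.p ∉ x.u := fun e hm => by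
    have := hx.u _ hm
    omega
  have huR : x.s.t'.top = x.s.p → x.s.p ∉ x.u' := fun e hm => by
    have := hx.u' _ hm
    omega
  -- the pre-step on the left
  by_cases hPL : x.s.isPL
  · have e0 : steps0 stp dv x = preL dv x := by simp [steps0, h1, h2, hPL]
    rw [e0]
    obtain ⟨w, r, t₁, t₀, v, B, G, hv, ht, -⟩ := St.isPL_cases hPL
    have hu := huL (by rw [ht]; rfl)
    have sL' := sL
    rw [ht] at sL'
    obtain ⟨v₁, σ₁, v₀, σ₀, m1, m0, dj⟩ := SD.two hc sL' hu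
    unfold preL
    rw [hv]
    simp only
    by_cases hd : x.s.p ∣ x.s.M
    · rw [if_pos hd]
      have hm := mL.free le_rfl hpp hd
      have hc' : u.A * u.B * x.s.p * (x.s.M / x.s.p) = u'.A * u'.B * 1 * x.s.M' := by
        rw [mul_assoc, Nat.mul_div_cancel' hd, mul_one]; exact circ
      refine ⟨[((1 - w) * 1, ⟨.go x.s.p (x.s.fL r t₁) x.u x.u', v₁, u', σ₁, τ'⟩),
        (w * 1, ⟨.go x.s.p (x.s.fL r t₀) (insert x.s.p x.u) x.u', v₀, u', σ₀, τ'⟩)],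
        by simp, fun e he => ?_, ?_⟩
      · simp only [List.mem_cons, List.not_mem_nil, or_false] at he
        rcases he with rfl | rfl
        · exact Cd.mk' (y := .go x.s.p (x.s.fL r t₁) x.u x.u') c0 m1 stR hm mR hc'
        · exact Cd.mk' (y := .go x.s.p (x.s.fL r t₀) (insert x.s.p x.u) x.u') c0 m0 stR hm mR hc'
      · simp only [List.pairwise_cons, List.mem_cons, List.not_mem_nil, or_false, forall_eq,
          List.Pairwise.nil, and_true, IsEmpty.forall_iff, implies_true]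
        exact dL dj
    · rw [if_neg hd]
      have hm := mR.mul le_rfl hpp
      have hc' : u.A * u.B * x.s.p * x.s.M = u'.A * u'.B * 1 * (x.s.p * x.s.M') := by
        calc u.A * u.B * x.s.p * x.s.M = x.s.p * (u.A * u.B * x.s.M) := by ring
          _ = x.s.p * (u'.A * u'.B * x.s.M') := by rw [circ]
          _ = _ := by ring
      refine ⟨[((1 - w) * 1, ⟨.go x.s.p (x.s.pL r t₁) x.u x.u', v₁, u', σ₁, τ'⟩),
        (w * 1, ⟨.go x.s.p (x.s.pL r t₀) (insert x.s.p x.u) x.u', v₀, u', σ₀, τ'⟩)],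
        by simp, fun e he => ?_, ?_⟩
      · simp only [List.mem_cons, List.not_mem_nil, or_false] at he
        rcases he with rfl | rfl
        · exact Cd.mk' (y := .go x.s.p (x.s.pL r t₁) x.u x.u') c0 m1 stR mL hm hc'
        · exact Cd.mk' (y := .go x.s.p (x.s.pL r t₀) (insert x.s.p x.u) x.u') c0 m0 stR mL hm hc'
      · simp only [List.pairwise_cons, List.mem_cons, List.not_mem_nil, or_false, forall_eq,
          List.Pairwise.nil, and_true, IsEmpty.forall_iff, implies_true]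
        exact dL dj
  -- the pre-step on the right
  by_cases hPR : x.s.isPR
  · have e0 : steps0 stp dv x = preR dv x := by simp [steps0, h1, h2, hPL, hPR]
    rw [e0]
    obtain ⟨w, r, t₁, t₀, v, B, G, hv, ht, -⟩ := St.isPR_cases hPR
    have hu := huR (by rw [ht]; rfl)
    have sR' := sR
    rw [ht] at sR'
    obtain ⟨v₁, σ₁, v₀, σ₀, m1, m0, dj⟩ := SD.two hc sR' hu
    unfold preR
    rw [hv]
    simp only
    by_cases hd : x.s.p ∣ x.s.M'
    · rw [if_pos hd]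
      have hm := mR.free le_rfl hpp hd
      have hc' : u.A * u.B * 1 * x.s.M = u'.A * u'.B * x.s.p * (x.s.M' / x.s.p) := by
        rw [mul_assoc (u'.A * u'.B), Nat.mul_div_cancel' hd, mul_one]; exact circ
      refine ⟨[(1 * (1 - w), ⟨.go x.s.p (x.s.fR r t₁) x.u x.u', u, v₁, τ, σ₁⟩),
        (1 * w, ⟨.go x.s.p (x.s.fR r t₀) x.u (insert x.s.p x.u'), u, v₀, τ, σ₀⟩)],
        by simp, fun e he => ?_, ?_⟩
      · simp only [List.mem_cons, List.not_mem_nil, or_false] at he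
        rcases he with rfl | rfl
        · exact Cd.mk' (y := .go x.s.p (x.s.fR r t₁) x.u x.u') c0 stL m1 mL hm hc'
        · exact Cd.mk' (y := .go x.s.p (x.s.fR r t₀) x.u (insert x.s.p x.u')) c0 stL m0 mL hm hc'
      · simp only [List.pairwise_cons, List.mem_cons, List.not_mem_nil, or_false, forall_eq,
          List.Pairwise.nil, and_true, IsEmpty.forall_iff, implies_true]
        exact dR dj
    · rw [if_neg hd]
      have hm := mL.mul le_rfl hpp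
      have hc' : u.A * u.B * 1 * (x.s.p * x.s.M) = u'.A * u'.B * x.s.p * x.s.M' := by
        calc u.A * u.B * 1 * (x.s.p * x.s.M) = x.s.p * (u.A * u.B * x.s.M) := by ring
          _ = x.s.p * (u'.A * u'.B * x.s.M') := by rw [circ]
          _ = _ := by ring
      refine ⟨[(1 * (1 - w), ⟨.go x.s.p (x.s.pR r t₁) x.u x.u', u, v₁, τ, σ₁⟩),
        (1 * w, ⟨.go x.s.p (x.s.pR r t₀) x.u (insert x.s.p x.u'), u, v₀, τ, σ₀⟩)],
        by simp, fun e he => ?_, ?_⟩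
      · simp only [List.mem_cons, List.not_mem_nil, or_false] at he
        rcases he with rfl | rfl
        · exact Cd.mk' (y := .go x.s.p (x.s.pR r t₁) x.u x.u') c0 stL m1 hm mR hc'
        · exact Cd.mk' (y := .go x.s.p (x.s.pR r t₀) x.u (insert x.s.p x.u')) c0 stL m0 hm mR hc'
      · simp only [List.pairwise_cons, List.mem_cons, List.not_mem_nil, or_false, forall_eq,
          List.Pairwise.nil, and_true, IsEmpty.forall_iff, implies_true]
        exact dR dj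
  have c11 : u.A * u.B * 1 * x.s.M = u'.A * u'.B * 1 * x.s.M' := by
    rw [mul_one, mul_one]; exact circ
  have cpp : u.A * u.B * x.s.p * x.s.M = u'.A * u'.B * x.s.p * x.s.M' := by
    calc u.A * u.B * x.s.p * x.s.M = x.s.p * (u.A * u.B * x.s.M) := by ring
      _ = x.s.p * (u'.A * u'.B * x.s.M') := by rw [circ]
      _ = _ := by ring
  -- add nodes
  have oA : ∀ (r : Λ → κ) (t₁ t₀ : DT Λ κ), x.s.t = .add x.s.p r t₁ t₀ →
      ∃ l, NY D sp Qp B₀ B₀' x.s.p u u' τ τ' (oneA stp dv x t₁ t₀) l := by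
    intro r t₁ t₀ ht
    have sL' := sL
    rw [ht] at sL'
    obtain ⟨τ₁, τ₀, hτ, m1, m0, dj, -, -, -, -, -⟩ := SD.addY hc sL'
    unfold oneA
    split_ifs
    · refine ⟨[(1 * 1, ⟨.go x.s.p { x.s with t := t₁ } x.u x.u', ⟨x.s.p + 1, u.c, u.A, u.B⟩, u',
        τ₁, τ'⟩)], by simp, fun e he => ?_, by simp⟩
      simp only [List.mem_cons, List.not_mem_nil, or_false] at he
      subst he
      exact Cd.mk' (y := .go x.s.p { x.s with t := t₁ } x.u x.u') c0 m1 stR mL mR c11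
    · refine ⟨[(1 * 1, ⟨.go x.s.p { x.s with t := t₀ } x.u x.u', ⟨x.s.p + 1, u.c, u.A, u.B⟩, u',
        τ₀, τ'⟩)], by simp, fun e he => ?_, by simp⟩
      simp only [List.mem_cons, List.not_mem_nil, or_false] at he
      subst he
      exact Cd.mk' (y := .go x.s.p { x.s with t := t₀ } x.u x.u') c0 m0 stR mL mR c11
  have oB : ∀ (r : Λ → κ) (t₁ t₀ : DT Λ κ), x.s.t' = .add x.s.p r t₁ t₀ →
      ∃ l, NY D sp Qp B₀ B₀' x.s.p u u' τ τ' (oneB stp dv x t₁ t₀) l := by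
    intro r t₁ t₀ ht
    have sR' := sR
    rw [ht] at sR'
    obtain ⟨τ₁, τ₀, hτ, m1, m0, dj, -, -, -, -, -⟩ := SD.addY hc sR'
    unfold oneB
    split_ifs
    · refine ⟨[(1 * 1, ⟨.go x.s.p { x.s with t' := t₁ } x.u x.u', u, ⟨x.s.p + 1, u'.c, u'.A, u'.B⟩,
        τ, τ₁⟩)], by simp, fun e he => ?_, by simp⟩
      simp only [List.mem_cons, List.not_mem_nil, or_false] at he
      subst he
      exact Cd.mk' (y := .go x.s.p { x.s with t' := t₁ } x.u x.u') c0 stL m1 mL mR c11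
    · refine ⟨[(1 * 1, ⟨.go x.s.p { x.s with t' := t₀ } x.u x.u', u, ⟨x.s.p + 1, u'.c, u'.A, u'.B⟩,
        τ, τ₀⟩)], by simp, fun e he => ?_, by simp⟩
      simp only [List.mem_cons, List.not_mem_nil, or_false] at he
      subst he
      exact Cd.mk' (y := .go x.s.p { x.s with t' := t₀ } x.u x.u') c0 stL m0 mL mR c11
  rcases hv : vw x.s.p x.s.t with ⟨w, r, t₁, t₀, v, B₁, G⟩ | ⟨r, t₁, t₀⟩ | ⟨Sp, d⟩ <;>
  rcases hv' : vw x.s.p x.s.t' with ⟨w', r', t₁', t₀', v', B', G'⟩ | ⟨r', t₁', t₀'⟩ | ⟨Sp', d'⟩ <;>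
  simp only [steps0, h1, h2, hPL, hPR, hv, hv', if_false]
  · -- br, br
    have sL' := sL
    rw [vw_br hv] at sL'
    have sR' := sR
    rw [vw_br hv'] at sR'
    have hu := huL (by rw [vw_br hv]; rfl)
    have hu' := huR (by rw [vw_br hv']; rfl)
    obtain ⟨v₁, σ₁, v₀, σ₀, m1, m0, dj⟩ := SD.two hc sL' hu
    obtain ⟨v₁', σ₁', v₀', σ₀', m1', m0', dj'⟩ := SD.two hc sR' hu'
    refine ⟨[((1 - w) * (1 - w'), ⟨.go x.s.p { x.s with R := Ro r, t := t₁, t' := t₁' } x.u x.u',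
          v₁, v₁', σ₁, σ₁'⟩),
        ((1 - w) * w', ⟨.go x.s.p { x.s with R := Ro r, t := t₁, t' := t₀' } x.u
          (insert x.s.p x.u'), v₁, v₀', σ₁, σ₀'⟩),
        (w * (1 - w'), ⟨.go x.s.p { x.s with R := Ro r, t := t₀, t' := t₁' } (insert x.s.p x.u)
          x.u', v₀, v₁', σ₀, σ₁'⟩),
        (w * w', ⟨.go x.s.p { x.s with R := Ro r, t := t₀, t' := t₀' } (insert x.s.p x.u)
          (insert x.s.p x.u'), v₀, v₀', σ₀, σ₀'⟩)], by simp, fun e he => ?_, ?_⟩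
    · simp only [List.mem_cons, List.not_mem_nil, or_false] at he
      rcases he with rfl | rfl | rfl | rfl
      · exact Cd.mk' (y := .go x.s.p { x.s with R := Ro r, t := t₁, t' := t₁' } x.u x.u') c0 m1 m1'
          mL mR cpp
      · exact Cd.mk' (y := .go x.s.p { x.s with R := Ro r, t := t₁, t' := t₀' } x.u
          (insert x.s.p x.u')) c0 m1 m0' mL mR cpp
      · exact Cd.mk' (y := .go x.s.p { x.s with R := Ro r, t := t₀, t' := t₁' } (insert x.s.p x.u)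
          x.u') c0 m0 m1' mL mR cpp
      · exact Cd.mk' (y := .go x.s.p { x.s with R := Ro r, t := t₀, t' := t₀' } (insert x.s.p x.u)
          (insert x.s.p x.u')) c0 m0 m0' mL mR cpp
    · simp only [List.pairwise_cons, List.mem_cons, List.not_mem_nil, or_false, forall_eq_or_imp,
        forall_eq, List.Pairwise.nil, and_true, IsEmpty.forall_iff, implies_true]
      exact ⟨⟨dR dj', dL dj, dL dj⟩, ⟨dL dj, dL dj⟩, dR dj'⟩
  · -- br, add
    exact oB _ _ _ (vw_add hv')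
  · -- br, up
    have sL' := sL
    rw [vw_br hv] at sL'
    have hu := huL (by rw [vw_br hv]; rfl)
    obtain ⟨v₁, σ₁, v₀, σ₀, m1, m0, dj⟩ := SD.two hc sL' hu
    obtain ⟨z, ρ, mu⟩ := SD.upY hc sR lvR topR hv'
    have hm := mR.mul le_rfl hpp
    have hc' : u.A * u.B * x.s.p * x.s.M = u'.A * u'.B * 1 * (x.s.p * x.s.M') := by
      rw [cpp]; ring
    refine ⟨[((1 - w) * 1, ⟨.go x.s.p
        { x.s with M' := x.s.p * x.s.M', O := insert x.s.p x.s.O, R := Ro r, t := t₁, t' := d' }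
        x.u x.u', v₁, z, σ₁, ρ⟩),
        (w * 1, ⟨.go x.s.p
        { x.s with M' := x.s.p * x.s.M', O := insert x.s.p x.s.O, R := Ro r, t := t₀, t' := d' }
        (insert x.s.p x.u) x.u', v₀, z, σ₀, ρ⟩)], by simp, fun e he => ?_, ?_⟩
    · simp only [List.mem_cons, List.not_mem_nil, or_false] at he
      rcases he with rfl | rfl
      · exact Cd.mk' (y := .go x.s.p
          { x.s with M' := x.s.p * x.s.M', O := insert x.s.p x.s.O, R := Ro r, t := t₁, t' := d' }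
          x.u x.u') c0 m1 mu mL hm hc'
      · exact Cd.mk' (y := .go x.s.p
          { x.s with M' := x.s.p * x.s.M', O := insert x.s.p x.s.O, R := Ro r, t := t₀, t' := d' }
          (insert x.s.p x.u) x.u') c0 m0 mu mL hm hc'
    · simp only [List.pairwise_cons, List.mem_cons, List.not_mem_nil, or_false, forall_eq,
        List.Pairwise.nil, and_true, IsEmpty.forall_iff, implies_true]
      exact dL dj
  · -- add, br
    exact oA _ _ _ (vw_add hv)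
  · -- add, add
    by_cases hjt : stp.jt x.s
    · rw [if_pos hjt]
      have sL' := sL
      rw [vw_add hv] at sL'
      have sR' := sR
      rw [vw_add hv'] at sR'
      obtain ⟨τ₁, τ₀, hτ, m1, m0, dj, -, -, -, -, -⟩ := SD.addY hc sL'
      obtain ⟨τ₁', τ₀', hτ', m1', m0', dj', -, -, -, -, -⟩ := SD.addY hc sR'
      refine ⟨[(1 * 1, ⟨.go x.s.p { x.s with t := t₁, t' := t₁' } x.u x.u',
          ⟨x.s.p + 1, u.c, u.A, u.B⟩, ⟨x.s.p + 1, u'.c, u'.A, u'.B⟩, τ₁, τ₁'⟩),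
        (1 * 1, ⟨.go x.s.p { x.s with t := t₀, t' := t₀' } x.u x.u',
          ⟨x.s.p + 1, u.c, u.A, u.B⟩, ⟨x.s.p + 1, u'.c, u'.A, u'.B⟩, τ₀, τ₀'⟩)],
        by simp, fun e he => ?_, ?_⟩
      · simp only [List.mem_cons, List.not_mem_nil, or_false] at he
        rcases he with rfl | rfl
        · exact Cd.mk' (y := .go x.s.p { x.s with t := t₁, t' := t₁' } x.u x.u') c0 m1 m1' mL mR c11
        · exact Cd.mk' (y := .go x.s.p { x.s with t := t₀, t' := t₀' } x.u x.u') c0 m0 m0' mL mR c11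
      · simp only [List.pairwise_cons, List.mem_cons, List.not_mem_nil, or_false, forall_eq,
          List.Pairwise.nil, and_true, IsEmpty.forall_iff, implies_true]
        exact dL dj
    · rw [if_neg hjt]
      split_ifs
      · exact oA _ _ _ (vw_add hv)
      · exact oB _ _ _ (vw_add hv')
  · -- add, up
    rw [if_neg (hn.1 x.s r t₁ t₀ d' Sp' hv hv')]
    exact oA _ _ _ (vw_add hv)
  · -- up, br
    have sR' := sR
    rw [vw_br hv'] at sR'
    have hu' := huR (by rw [vw_br hv']; rfl)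
    obtain ⟨v₁, σ₁, v₀, σ₀, m1, m0, dj⟩ := SD.two hc sR' hu'
    obtain ⟨z, ρ, mu⟩ := SD.upY hc sL lvL topL hv
    have hm := mL.mul le_rfl hpp
    have hc' : u.A * u.B * 1 * (x.s.p * x.s.M) = u'.A * u'.B * x.s.p * x.s.M' := by
      rw [← cpp]; ring
    refine ⟨[(1 * (1 - w'), ⟨.go x.s.p
        { x.s with M := x.s.p * x.s.M, O' := insert x.s.p x.s.O', R := Ro r', t := d, t' := t₁' }
        x.u x.u', z, v₁, ρ, σ₁⟩),
        (1 * w', ⟨.go x.s.p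
        { x.s with M := x.s.p * x.s.M, O' := insert x.s.p x.s.O', R := Ro r', t := d, t' := t₀' }
        x.u (insert x.s.p x.u'), z, v₀, ρ, σ₀⟩)], by simp, fun e he => ?_, ?_⟩
    · simp only [List.mem_cons, List.not_mem_nil, or_false] at he
      rcases he with rfl | rfl
      · exact Cd.mk' (y := .go x.s.p
          { x.s with M := x.s.p * x.s.M, O' := insert x.s.p x.s.O', R := Ro r', t := d, t' := t₁' }
          x.u x.u') c0 mu m1 hm mR hc'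
      · exact Cd.mk' (y := .go x.s.p
          { x.s with M := x.s.p * x.s.M, O' := insert x.s.p x.s.O', R := Ro r', t := d, t' := t₀' }
          x.u (insert x.s.p x.u')) c0 mu m0 hm mR hc'
    · simp only [List.pairwise_cons, List.mem_cons, List.not_mem_nil, or_false, forall_eq,
        List.Pairwise.nil, and_true, IsEmpty.forall_iff, implies_true]
      exact dR dj
  · -- up, add
    rw [if_neg (hn.2 x.s r' t₁' t₀' d Sp hv hv')]
    exact oB _ _ _ (vw_add hv')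
  · -- up, up
    obtain ⟨z, ρ, mu⟩ := SD.upY hc sL lvL topL hv
    obtain ⟨z', ρ', mu'⟩ := SD.upY hc sR lvR topR hv'
    refine ⟨[(1 * 1, ⟨.go x.s.p { x.s with t := d, t' := d' } x.u x.u', z, z', ρ, ρ'⟩)], by simp,
      fun e he => ?_, by simp⟩
    simp only [List.mem_cons, List.not_mem_nil, or_false] at he
    subst he
    exact Cd.mk' (y := .go x.s.p { x.s with t := d, t' := d' } x.u x.u') c0 mu mu' mL mR c11

/-! ### the potential along the steps -/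

/-- the sum over the children -/
lemma Psi_list {δ : ℕ → ℕ → ℝ} {e₀ : ℕ → ℝ} (hδ : ∀ b θ, 0 ≤ δ b θ) (he : ∀ b θ, δ b θ ≤ e₀ b)
    (hW : ∀ q, 0 ≤ W q) {B₀ B₀' p : ℕ} {u u' : NS} {τ τ' : IT} (h0 : 0 ≤ u.c)
    (h0' : 0 ≤ u'.c) {S : List (XStep Λ κ)} {l : List (ℝ × YD Λ κ)}
    (h : NY D sp Qp B₀ B₀' p u u' τ τ' S l) :
    (l.map fun e => e.1 * PsiY δ e₀ W e.2).sum ≤ Psi δ e₀ W p (sdP W u τ) (sdP W u' τ') := by
  have key := Psi_le hδ he hW (p := p) (X := sdP W u τ) (X' := sdP W u' τ') h0 h0'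
    (L := l.map (kid W)) (by
      intro k hk
      obtain ⟨e, he', rfl⟩ := List.mem_map.1 hk
      have hc := h.2.1 e he'
      exact ⟨hc.L.pos, hc.R.pos, hc.p, hc.w⟩) (by
      rw [List.pairwise_map]
      exact h.2.2.imp fun {a b} hab => hab.mono (Finset.product_subset_product (pos_sub W _) (pos_sub W _))
        (Finset.product_subset_product (pos_sub W _) (pos_sub W _)))
  rw [List.map_map] at key
  exact key

section valid
variable {ι : Type*}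

/-- validity of the data of a state (`i` = the node at which the walk starts) -/
structure Vld (D : Par Λ κ) (sp : ℕ → Finset Λ) (Qp : NS → IT → Prop) (stp : Stp Λ κ)
    (dv : DT Λ κ → Λ → Prop) (b₀ b₀' : ι → ℕ) (V : ι → YD Λ κ → Prop) : Prop where
  xi : ∀ i y, V i y → XI y.x
  hi : ∀ i y, V i y → HI D sp Qp (b₀ i) (b₀' i) y.x y.v y.v' y.σ y.σ'
  js : ∀ i y, V i y → JS y.x.s y.v y.v'
  next : ∀ i y, V i y → ∀ e ∈ steps stp dv y.x, ∀ z : YD Λ κ, z.x = e.y →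
    HI D sp Qp (b₀ i) (b₀' i) z.x z.v z.v' z.σ z.σ' → JS z.x.s z.v z.v' → V i z

variable {stp : Stp Λ κ} {dv : DT Λ κ → Λ → Prop} {b₀ b₀' : ι → ℕ} {V : ι → YD Λ κ → Prop}

/-- **the hull potential as a function of the state** -/
noncomputable def PsiI (δ : ℕ → ℕ → ℝ) (e₀ : ℕ → ℝ) (W : ℕ → ℝ) (V : ι → YD Λ κ → Prop)
    (x : XSt Λ κ) : ℝ := sInf {r | ∃ i y, V i y ∧ y.x = x ∧ r = PsiY δ e₀ W y}

/-- sum over the steps -/
noncomputable def sS (stp : Stp Λ κ) (dv : DT Λ κ → Λ → Prop) (Ψ : XSt Λ κ → ℝ) (x : XSt Λ κ) : ℝ :=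
  ((steps stp dv x).map fun e => e.a * e.a' * Ψ e.y).sum

/-- lower bounds -/
lemma le_PsiI {δ : ℕ → ℕ → ℝ} {e₀ : ℕ → ℝ} {x : XSt Λ κ} {i : ι} {y : YD Λ κ}
    (hy : V i y) (hx : y.x = x) {a : ℝ} (h : ∀ i y, V i y → y.x = x → a ≤ PsiY δ e₀ W y) :
    a ≤ PsiI δ e₀ W V x := by
  refine le_csInf ⟨_, i, y, hy, hx, rfl⟩ ?_
  rintro r ⟨j, z, hz, hzx, rfl⟩
  exact h j z hz hzx

section
variable {δ : ℕ → ℕ → ℝ} {e₀ : ℕ → ℝ} (hδ : ∀ b θ, 0 ≤ δ b θ) (he : ∀ b θ, δ b θ ≤ e₀ b)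
  (hW : ∀ q, 0 ≤ W q) (hc : ∀ u τ, Qp u τ → 0 ≤ u.c)
  (hV : Vld D sp Qp stp dv b₀ b₀' V)
include hδ he hW hc hV

lemma PsiY_nonneg {i : ι} {y : YD Λ κ} (hy : V i y) : 0 ≤ PsiY δ e₀ W y :=
  Psi_nonneg hδ he hW (hc _ _ (hV.hi i y hy).qL.self) (hc _ _ (hV.hi i y hy).qR.self)

lemma PsiI_le {i : ι} {y : YD Λ κ} (hy : V i y) : PsiI δ e₀ W V y.x ≤ PsiY δ e₀ W y := by
  refine csInf_le ⟨0, ?_⟩ ⟨i, y, hy, rfl, rfl⟩
  rintro r ⟨j, z, hz, -, rfl⟩
  exact PsiY_nonneg hδ he hW hc hV hz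

/-- the sum over the steps in terms of a list with data -/
lemma sS_le {i : ι} {y : YD Λ κ} (hy : V i y) {l : List (ℝ × YD Λ κ)}
    (hl : NY D sp Qp (b₀ i) (b₀' i) y.x.s.p y.v y.v' y.σ y.σ' (steps0 stp dv y.x) l) :
    sS stp dv (PsiI δ e₀ W V) y.x ≤ (l.map fun e => e.1 * PsiY δ e₀ W e.2).sum := by
  classical
  have e1 : sS stp dv (PsiI δ e₀ W V) y.x =
      (((steps0 stp dv y.x).map fun e => (e.a * e.a', e.y)).map
        fun e => e.1 * PsiI δ e₀ W V e.2).sum := by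
    rw [List.map_map]
    unfold sS steps
    generalize steps0 stp dv y.x = S
    induction S with
    | nil => simp
    | cons a S ih =>
      by_cases ha : a.a * a.a' = 0
      · rw [List.filter_cons_of_neg (by rw [decide_eq_true_eq]; exact not_not.2 ha), ih]
        simp only [Function.comp, List.map_cons, List.sum_cons]
        rw [ha]
        ring
      · rw [List.filter_cons_of_pos (by rw [decide_eq_true_eq]; exact ha), List.map_cons,
          List.sum_cons, ih]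
        simp only [Function.comp, List.map_cons, List.sum_cons]
  rw [e1, ← hl.1, List.map_map]
  refine List.sum_le_sum fun e he' => ?_
  simp only [Function.comp]
  by_cases h0 : e.1 = 0
  · rw [h0]; simp
  · refine mul_le_mul_of_nonneg_left ?_ (hl.2.1 e he').e0
    obtain ⟨k1, k2⟩ := (hl.2.1 e he').hj h0
    have hm : (e.1, e.2.x) ∈ (steps0 stp dv y.x).map (fun e => (e.a * e.a', e.y)) := by
      rw [← hl.1]
      exact List.mem_map.2 ⟨e, he', rfl⟩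
    obtain ⟨s, hs, hse⟩ := List.mem_map.1 hm
    rw [Prod.mk.injEq] at hse
    exact PsiI_le hδ he hW hc hV (hV.next i y hy s (mem_steps.2 ⟨hs, by rw [hse.1]; exact h0⟩) e.2
      hse.2.symm k1 k2)

variable (hsp : D.SpOk sp) (hil : ∀ b, IL D.it (sp b))
    (hQ : ∀ u τ, Qp u τ → NodeOk P W u τ) (hn : Strip29.NoSplit stp)
include hsp hil hQ hn

/-- **the potential does not increase** -/
theorem sS_PsiI {i : ι} {y : YD Λ κ} (hy : V i y) :
    sS stp dv (PsiI δ e₀ W V) y.x ≤ PsiY δ e₀ W y := by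
  obtain ⟨l, hl⟩ := nextY0 hsp hil hc hQ hn (dv := dv) (hV.xi i y hy) (hV.hi i y hy) (hV.js i y hy)
  exact (sS_le hδ he hW hc hV hy hl).trans (Psi_list hδ he hW (hc _ _ (hV.hi i y hy).qL.self)
    (hc _ _ (hV.hi i y hy).qR.self) hl)

omit hδ he hW hc hV hsp hil hQ in
lemma steps0_L {x : XSt Λ κ} {r : Λ → κ} {t₁ t₀ : DT Λ κ} (h : CrossSum29.OneL stp x.s r t₁ t₀) :
    steps0 stp dv x = oneA stp dv x t₁ t₀ := by
  classical
  have h1 : ¬ (x.s.t.isLeaf ∨ x.s.t'.isLeaf) := not_or.2 ⟨h.prp.nl, h.prp.nl'⟩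
  have hv : vw x.s.p x.s.t = .add r t₁ t₀ := by rw [h.et]; simp [vw]
  rcases hv' : vw x.s.p x.s.t' with ⟨w', r', t₁', t₀', v', B', G'⟩ | ⟨r', t₁', t₀'⟩ | ⟨Sp', d'⟩ <;>
    simp only [steps0, h1, h.prp.ns, h.prp.npl, h.prp.npr, hv, hv', if_false]
  · rcases h.wt with hw | ⟨hj, hl⟩
    · exact absurd (vw_add hv') (hw _ _ _)
    · rw [if_neg hj, if_pos hl]
  · rw [if_neg (hn.1 x.s r t₁ t₀ d' Sp' hv hv')]

omit hδ he hW hc hV hsp hil hQ in
lemma steps0_R {x : XSt Λ κ} {r : Λ → κ} {t₁ t₀ : DT Λ κ} (h : CrossSum29.OneR stp x.s r t₁ t₀) :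
    steps0 stp dv x = oneB stp dv x t₁ t₀ := by
  classical
  have h1 : ¬ (x.s.t.isLeaf ∨ x.s.t'.isLeaf) := not_or.2 ⟨h.prp.nl, h.prp.nl'⟩
  have hv' : vw x.s.p x.s.t' = .add r t₁ t₀ := by rw [h.et]; simp [vw]
  rcases hv : vw x.s.p x.s.t with ⟨w', r', t₁', t₀', v', B', G'⟩ | ⟨r', t₁', t₀'⟩ | ⟨Sp', d'⟩ <;>
    simp only [steps0, h1, h.prp.ns, h.prp.npl, h.prp.npr, hv, hv', if_false]
  · rcases h.wt with hw | ⟨hj, hl⟩
    · exact absurd (vw_add hv) (hw _ _ _)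
    · rw [if_neg hj, if_neg hl]
  · rw [if_neg (hn.2 x.s r t₁ t₀ d' Sp' hv hv')]

omit hδ he hW hc hV hsp hil hQ hn in
lemma steps0_J {x : XSt Λ κ} {r : Λ → κ} {t₁ t₀ : DT Λ κ} {r' : Λ → κ} {t₁' t₀' : DT Λ κ}
    (h : CrossSum29.Jnt stp x.s r t₁ t₀ r' t₁' t₀') :
    steps0 stp dv x = [⟨1, 1, dv x.s.t, dv x.s.t', .go x.s.p { x.s with t := t₁, t' := t₁' } x.u x.u'⟩,
         ⟨1, 1, fun j => ¬ dv x.s.t j, fun j => ¬ dv x.s.t' j,
            .go x.s.p { x.s with t := t₀, t' := t₀' } x.u x.u'⟩] := by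
  classical
  have h1 : ¬ (x.s.t.isLeaf ∨ x.s.t'.isLeaf) := not_or.2 ⟨h.prp.nl, h.prp.nl'⟩
  have hv : vw x.s.p x.s.t = .add r t₁ t₀ := by rw [h.et]; simp [vw]
  have hv' : vw x.s.p x.s.t' = .add r' t₁' t₀' := by rw [h.et']; simp [vw]
  simp only [steps0, h1, h.prp.ns, h.prp.npl, h.prp.npr, hv, hv', if_false, h.jt, if_true]

/-- **payment at a one-sided step on the left**: `C` = item tree of the continuing child -/
theorem pay_oneL {i : ι} {y : YD Λ κ} (hy : V i y) {r : Λ → κ} {t₁ t₀ : DT Λ κ}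
    (h : CrossSum29.OneL stp y.x.s r t₁ t₀) {C C' : IT}
    (hT : (y.σ = .add y.x.s.p C' C ∨ y.σ = .add y.x.s.p C C') ∨
      (y.σ = .far y.x.s.p C' C ∨ y.σ = .far y.x.s.p C C'))
    (hdC : stp.c y.x.s t₁ t₀ = D.toDT sp y.v.B y.v.A C) {Z : Finset ℕ} (hZ : Z ⊆ y.σ'.items)
    (hz : ∀ q ∈ Z, fl y.x.s.p y.v.B (pos W C.items) (ef y.x.s.p y.v'.B q) + 1 ≤
        fl y.x.s.p y.v.B (pos W y.σ.items) (ef y.x.s.p y.v'.B q)) :
    (δ y.x.s.p y.v.B + δ y.x.s.p y.v'.B) *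
        ((y.v.c * ∑ q ∈ y.σ.items, W q) * (y.v'.c * ∑ q ∈ Z, W q)) +
      sS stp dv (PsiI δ e₀ W V) y.x ≤ PsiY δ e₀ W y := by
  classical
  have hx := hV.xi i y hy
  have hH := hV.hi i y hy
  have hj := hV.js i y hy
  obtain ⟨lvL, lvR, hpp⟩ := HJ.lev hQ hH hj h.prp.nl h.prp.nl'
  have topL : y.x.s.t.top ≤ y.x.s.p := le_max_left _ _
  have topR : y.x.s.t'.top ≤ y.x.s.p := le_max_right _ _
  have c0 : 0 ≤ y.v.c := hc _ _ hH.qL.self
  have c0' : 0 ≤ y.v'.c := hc _ _ hH.qR.self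
  have sL := hH.sL
  rw [h.et] at sL
  have stR := SD.stayY hc hH.sR lvR topR
  obtain ⟨τ₁, τ₀, hτ, m1, m0, dj, d1, d0, hit, k1, k0⟩ := SD.addY hc sL
  have hCC : C = τ₁ ∨ C = τ₀ := by
    rcases hT with (h2 | h2) | (h2 | h2) <;> rcases hτ with h1 | h1 <;> rw [h1] at h2 <;> simp_all
  have c11 : y.v.A * y.v.B * 1 * y.x.s.M = y.v'.A * y.v'.B * 1 * y.x.s.M' := by
    rw [mul_one, mul_one]; exact hj.circ
  set d : DT Λ κ := stp.c y.x.s t₁ t₀ with hd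
  set z : YD Λ κ := ⟨.go y.x.s.p { y.x.s with t := d } y.x.u y.x.u',
    ⟨y.x.s.p + 1, y.v.c, y.v.A, y.v.B⟩, y.v', C, y.σ'⟩ with hz0
  have hM : Mx D sp Qp (b₀ i) y.v y.σ y.x.s.p 1 y.x.u y.x.s.A d 1
      ⟨y.x.s.p + 1, y.v.c, y.v.A, y.v.B⟩ C := by
    rcases hCC with e | e
    · rw [hdC, e, ← d1]
      exact m1
    · rw [hdC, e, ← d0]
      exact m0
  have hcd := Cd.mk' (y := .go y.x.s.p { y.x.s with t := d } y.x.u y.x.u') c0 hM stR
    hH.mL hH.mR c11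
  have hl : NY D sp Qp (b₀ i) (b₀' i) y.x.s.p y.v y.v' y.σ y.σ' (steps0 stp dv y.x)
      [(1 * 1, z)] := by
    refine ⟨?_, fun e he => ?_, by simp⟩
    · rw [steps0_L hn h]
      unfold oneA
      rw [hz0, hd]
      unfold Stp.c
      split_ifs <;> simp
    · simp only [List.mem_cons, List.not_mem_nil, or_false] at he
      subst he
      exact hcd
  have hs := sS_le hδ he hW hc hV hy hl
  have hCs : C.items ⊆ y.σ.items := hM.sub
  have hkm : ∀ q ∈ C.items, C.mt q = y.σ.mt q := by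
    rcases hCC with e | e
    · rw [e]; exact k1
    · rw [e]; exact k0
  have key := Psi_pay hδ he hW (p := y.x.s.p) (X := sdP W y.v y.σ) (X' := sdP W y.v' y.σ')
    c0 c0' (L := [kid W (1 * 1, z)]) (by
      intro k hk
      simp only [List.mem_cons, List.not_mem_nil, or_false] at hk
      subst hk
      exact ⟨Spr.pos (u := y.v) (v := z.v) (τ := y.σ) (σ := z.σ) ⟨hcd.L.sub, rfl, hkm, hcd.L.top⟩,
        Spr.pos (u := y.v') (v := z.v') (τ := y.σ') (σ := z.σ')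
          ⟨hcd.R.sub, rfl, fun q _ => rfl, hcd.R.top⟩, hcd.p,
        hcd.w0, hcd.w⟩) (by simp) (Z := ∅) (Z' := pos W Z) (Finset.empty_subset _) (pos_mono W hZ)
        (by simp) (by
      intro q hq
      replace hq := pos_sub W _ hq
      have h1 := hz q hq
      refine ⟨?_, fun k hk _ => ?_⟩
      · have := fl_nonneg y.x.s.p y.v.B (pos W C.items) (ef y.x.s.p y.v'.B q)
        show 1 ≤ fl y.x.s.p y.v.B (pos W y.σ.items) (ef y.x.s.p y.v'.B q)
        linarith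
      · simp only [List.mem_cons, List.not_mem_nil, or_false] at hk
        subst hk
        exact h1)
  simp only [Finset.sum_empty, mul_zero, zero_mul, add_zero] at key
  simp only [List.map_cons, List.map_nil, List.sum_cons, List.sum_nil, add_zero] at hs key
  have e1 : (kid W (1 * 1, z)).w * Psi δ e₀ W (kid W (1 * 1, z)).p (kid W (1 * 1, z)).X
      (kid W (1 * 1, z)).X' = 1 * 1 * PsiY δ e₀ W z := rfl
  rw [e1] at key
  have g1 : ∑ q ∈ (sdP W y.v y.σ).S, W q = ∑ q ∈ y.σ.items, W q := sum_pos hW _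
  have g2 : ∑ q ∈ (sdP W y.v' y.σ').S, W q = ∑ q ∈ y.σ'.items, W q := sum_pos hW _
  simp only [g1, g2, sum_pos hW Z] at key
  refine le_trans ?_ key
  exact add_le_add le_rfl hs

/-- **payment at a one-sided step on the right** -/
theorem pay_oneR {i : ι} {y : YD Λ κ} (hy : V i y) {r : Λ → κ} {t₁ t₀ : DT Λ κ}
    (h : CrossSum29.OneR stp y.x.s r t₁ t₀) {C C' : IT}
    (hT : (y.σ' = .add y.x.s.p C' C ∨ y.σ' = .add y.x.s.p C C') ∨
      (y.σ' = .far y.x.s.p C' C ∨ y.σ' = .far y.x.s.p C C'))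
    (hdC : stp.c y.x.s t₁ t₀ = D.toDT sp y.v'.B y.v'.A C) {Z : Finset ℕ} (hZ : Z ⊆ y.σ.items)
    (hz : ∀ q ∈ Z, fl y.x.s.p y.v'.B (pos W C.items) (ef y.x.s.p y.v.B q) + 1 ≤
        fl y.x.s.p y.v'.B (pos W y.σ'.items) (ef y.x.s.p y.v.B q)) :
    (δ y.x.s.p y.v.B + δ y.x.s.p y.v'.B) *
        ((y.v.c * ∑ q ∈ Z, W q) * (y.v'.c * ∑ q ∈ y.σ'.items, W q)) +
      sS stp dv (PsiI δ e₀ W V) y.x ≤ PsiY δ e₀ W y := by
  classical
  have hx := hV.xi i y hy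
  have hH := hV.hi i y hy
  have hj := hV.js i y hy
  obtain ⟨lvL, lvR, hpp⟩ := HJ.lev hQ hH hj h.prp.nl h.prp.nl'
  have topL : y.x.s.t.top ≤ y.x.s.p := le_max_left _ _
  have topR : y.x.s.t'.top ≤ y.x.s.p := le_max_right _ _
  have c0 : 0 ≤ y.v.c := hc _ _ hH.qL.self
  have c0' : 0 ≤ y.v'.c := hc _ _ hH.qR.self
  have sR := hH.sR
  rw [h.et] at sR
  have stL := SD.stayY hc hH.sL lvL topL
  obtain ⟨τ₁, τ₀, hτ, m1, m0, dj, d1, d0, hit, k1, k0⟩ := SD.addY hc sR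
  have hCC : C = τ₁ ∨ C = τ₀ := by
    rcases hT with (h2 | h2) | (h2 | h2) <;> rcases hτ with h1 | h1 <;> rw [h1] at h2 <;> simp_all
  have c11 : y.v.A * y.v.B * 1 * y.x.s.M = y.v'.A * y.v'.B * 1 * y.x.s.M' := by
    rw [mul_one, mul_one]; exact hj.circ
  set d : DT Λ κ := stp.c y.x.s t₁ t₀ with hd
  set z : YD Λ κ := ⟨.go y.x.s.p { y.x.s with t' := d } y.x.u y.x.u',
    y.v, ⟨y.x.s.p + 1, y.v'.c, y.v'.A, y.v'.B⟩, y.σ, C⟩ with hz0
  have hM : Mx D sp Qp (b₀' i) y.v' y.σ' y.x.s.p 1 y.x.u' y.x.s.A' d 1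
      ⟨y.x.s.p + 1, y.v'.c, y.v'.A, y.v'.B⟩ C := by
    rcases hCC with e | e
    · rw [hdC, e, ← d1]
      exact m1
    · rw [hdC, e, ← d0]
      exact m0
  have hcd := Cd.mk' (y := .go y.x.s.p { y.x.s with t' := d } y.x.u y.x.u') c0 stL hM
    hH.mL hH.mR c11
  have hl : NY D sp Qp (b₀ i) (b₀' i) y.x.s.p y.v y.v' y.σ y.σ' (steps0 stp dv y.x)
      [(1 * 1, z)] := by
    refine ⟨?_, fun e he => ?_, by simp⟩
    · rw [steps0_R hn h]
      unfold oneB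
      rw [hz0, hd]
      unfold Stp.c
      split_ifs <;> simp
    · simp only [List.mem_cons, List.not_mem_nil, or_false] at he
      subst he
      exact hcd
  have hs := sS_le hδ he hW hc hV hy hl
  have hkm : ∀ q ∈ C.items, C.mt q = y.σ'.mt q := by
    rcases hCC with e | e
    · rw [e]; exact k1
    · rw [e]; exact k0
  have key := Psi_pay hδ he hW (p := y.x.s.p) (X := sdP W y.v y.σ) (X' := sdP W y.v' y.σ')
    c0 c0' (L := [kid W (1 * 1, z)]) (by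
      intro k hk
      simp only [List.mem_cons, List.not_mem_nil, or_false] at hk
      subst hk
      exact ⟨Spr.pos (u := y.v) (v := z.v) (τ := y.σ) (σ := z.σ)
          ⟨hcd.L.sub, rfl, fun q _ => rfl, hcd.L.top⟩,
        Spr.pos (u := y.v') (v := z.v') (τ := y.σ') (σ := z.σ')
          ⟨hcd.R.sub, rfl, hkm, hcd.R.top⟩, hcd.p,
        hcd.w0, hcd.w⟩) (by simp) (Z := pos W Z) (Z' := ∅) (pos_mono W hZ) (Finset.empty_subset _) (by
      intro q hq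
      replace hq := pos_sub W _ hq
      have h1 := hz q hq
      refine ⟨?_, fun k hk _ => ?_⟩
      · have := fl_nonneg y.x.s.p y.v'.B (pos W C.items) (ef y.x.s.p y.v.B q)
        show 1 ≤ fl y.x.s.p y.v'.B (pos W y.σ'.items) (ef y.x.s.p y.v.B q)
        linarith
      · simp only [List.mem_cons, List.not_mem_nil, or_false] at hk
        subst hk
        exact h1) (by simp)
  simp only [Finset.sum_empty, mul_zero, zero_mul, zero_add] at key
  simp only [List.map_cons, List.map_nil, List.sum_cons, List.sum_nil, add_zero] at hs key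
  have e1 : (kid W (1 * 1, z)).w * Psi δ e₀ W (kid W (1 * 1, z)).p (kid W (1 * 1, z)).X
      (kid W (1 * 1, z)).X' = 1 * 1 * PsiY δ e₀ W z := rfl
  rw [e1] at key
  have g1 : ∑ q ∈ (sdP W y.v y.σ).S, W q = ∑ q ∈ y.σ.items, W q := sum_pos hW _
  have g2 : ∑ q ∈ (sdP W y.v' y.σ').S, W q = ∑ q ∈ y.σ'.items, W q := sum_pos hW _
  simp only [g1, g2, sum_pos hW Z] at key
  refine le_trans ?_ key
  exact add_le_add le_rfl hs

/-- **payment at a joint step**: `Z'` = items of the right side which see a smaller hull of the left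
side, `Z` = items of the left side which see a smaller hull of the right side -/
theorem pay_jnt {i : ι} {y : YD Λ κ} (hy : V i y) {r : Λ → κ} {t₁ t₀ : DT Λ κ} {r' : Λ → κ}
    {t₁' t₀' : DT Λ κ} (h : CrossSum29.Jnt stp y.x.s r t₁ t₀ r' t₁' t₀') {T₁ T₀ T₁' T₀' : IT}
    (hT : y.σ = .add y.x.s.p T₁ T₀ ∨ y.σ = .far y.x.s.p T₁ T₀)
    (hT' : y.σ' = .add y.x.s.p T₁' T₀' ∨ y.σ' = .far y.x.s.p T₁' T₀')
    {Z Z' : Finset ℕ} (hZ : Z ⊆ y.σ.items) (hZ' : Z' ⊆ y.σ'.items)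
    (hz : ∀ q ∈ Z,
      (q ∈ T₁.items → fl y.x.s.p y.v'.B (pos W T₁'.items) (ef y.x.s.p y.v.B q) + 1 ≤
        fl y.x.s.p y.v'.B (pos W y.σ'.items) (ef y.x.s.p y.v.B q)) ∧
      (q ∈ T₀.items → fl y.x.s.p y.v'.B (pos W T₀'.items) (ef y.x.s.p y.v.B q) + 1 ≤
        fl y.x.s.p y.v'.B (pos W y.σ'.items) (ef y.x.s.p y.v.B q)))
    (hz' : ∀ q ∈ Z',
      (q ∈ T₁'.items → fl y.x.s.p y.v.B (pos W T₁.items) (ef y.x.s.p y.v'.B q) + 1 ≤
        fl y.x.s.p y.v.B (pos W y.σ.items) (ef y.x.s.p y.v'.B q)) ∧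
      (q ∈ T₀'.items → fl y.x.s.p y.v.B (pos W T₀.items) (ef y.x.s.p y.v'.B q) + 1 ≤
        fl y.x.s.p y.v.B (pos W y.σ.items) (ef y.x.s.p y.v'.B q))) :
    (δ y.x.s.p y.v.B + δ y.x.s.p y.v'.B) *
        ((y.v.c * ∑ q ∈ y.σ.items, W q) * (y.v'.c * ∑ q ∈ Z', W q) +
          (y.v.c * ∑ q ∈ Z, W q) * (y.v'.c * ∑ q ∈ y.σ'.items, W q)) +
      sS stp dv (PsiI δ e₀ W V) y.x ≤ PsiY δ e₀ W y := by
  classical
  have hx := hV.xi i y hy
  have hH := hV.hi i y hy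
  have hj := hV.js i y hy
  obtain ⟨lvL, lvR, hpp⟩ := HJ.lev hQ hH hj h.prp.nl h.prp.nl'
  have topL : y.x.s.t.top ≤ y.x.s.p := le_max_left _ _
  have topR : y.x.s.t'.top ≤ y.x.s.p := le_max_right _ _
  have c0 : 0 ≤ y.v.c := hc _ _ hH.qL.self
  have c0' : 0 ≤ y.v'.c := hc _ _ hH.qR.self
  have sL := hH.sL
  rw [h.et] at sL
  have sR := hH.sR
  rw [h.et'] at sR
  obtain ⟨τ₁, τ₀, hτ, m1, m0, dj, -, -, hit, k1, k0⟩ := SD.addY hc sL
  obtain ⟨τ₁', τ₀', hτ', m1', m0', dj', -, -, hit', k1', k0'⟩ := SD.addY hc sR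
  obtain ⟨rfl, rfl⟩ : τ₁ = T₁ ∧ τ₀ = T₀ := by
    rcases hτ with h1 | h1 <;> rcases hT with h2 | h2 <;> rw [h1] at h2 <;> simp_all
  obtain ⟨rfl, rfl⟩ : τ₁' = T₁' ∧ τ₀' = T₀' := by
    rcases hτ' with h1 | h1 <;> rcases hT' with h2 | h2 <;> rw [h1] at h2 <;> simp_all
  have c11 : y.v.A * y.v.B * 1 * y.x.s.M = y.v'.A * y.v'.B * 1 * y.x.s.M' := by
    rw [mul_one, mul_one]; exact hj.circ
  set z1 : YD Λ κ := ⟨.go y.x.s.p { y.x.s with t := t₁, t' := t₁' } y.x.u y.x.u',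
    ⟨y.x.s.p + 1, y.v.c, y.v.A, y.v.B⟩, ⟨y.x.s.p + 1, y.v'.c, y.v'.A, y.v'.B⟩, τ₁, τ₁'⟩ with hz1
  set z0 : YD Λ κ := ⟨.go y.x.s.p { y.x.s with t := t₀, t' := t₀' } y.x.u y.x.u',
    ⟨y.x.s.p + 1, y.v.c, y.v.A, y.v.B⟩, ⟨y.x.s.p + 1, y.v'.c, y.v'.A, y.v'.B⟩, τ₀, τ₀'⟩ with hz0
  have hcd1 := Cd.mk' (y := .go y.x.s.p { y.x.s with t := t₁, t' := t₁' } y.x.u y.x.u') c0 m1 m1'
    hH.mL hH.mR c11
  have hcd0 := Cd.mk' (y := .go y.x.s.p { y.x.s with t := t₀, t' := t₀' } y.x.u y.x.u') c0 m0 m0'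
    hH.mL hH.mR c11
  have hl : NY D sp Qp (b₀ i) (b₀' i) y.x.s.p y.v y.v' y.σ y.σ' (steps0 stp dv y.x)
      [(1 * 1, z1), (1 * 1, z0)] := by
    refine ⟨?_, fun e he => ?_, ?_⟩
    · rw [steps0_J h]
      simp [hz1, hz0]
    · simp only [List.mem_cons, List.not_mem_nil, or_false] at he
      rcases he with rfl | rfl
      · exact hcd1
      · exact hcd0
    · simp only [List.pairwise_cons, List.mem_cons, List.not_mem_nil, or_false, forall_eq,
        List.Pairwise.nil, and_true, IsEmpty.forall_iff, implies_true]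
      exact dL dj
  have hs := sS_le hδ he hW hc hV hy hl
  have ki : ∀ q ∈ y.σ.items, q ∈ τ₁.items ∨ q ∈ τ₀.items := by
    intro q hq
    rw [hit] at hq
    exact Finset.mem_union.1 hq
  have ki' : ∀ q ∈ y.σ'.items, q ∈ τ₁'.items ∨ q ∈ τ₀'.items := by
    intro q hq
    rw [hit'] at hq
    exact Finset.mem_union.1 hq
  have key := Psi_pay hδ he hW (p := y.x.s.p) (X := sdP W y.v y.σ) (X' := sdP W y.v' y.σ')
    c0 c0' (L := [kid W (1 * 1, z1), kid W (1 * 1, z0)]) (by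
      intro k hk
      simp only [List.mem_cons, List.not_mem_nil, or_false] at hk
      rcases hk with rfl | rfl
      · exact ⟨Spr.pos (u := y.v) (v := z1.v) (τ := y.σ) (σ := z1.σ) ⟨hcd1.L.sub, rfl, k1, hcd1.L.top⟩,
          Spr.pos (u := y.v') (v := z1.v') (τ := y.σ') (σ := z1.σ') ⟨hcd1.R.sub, rfl, k1', hcd1.R.top⟩,
          hcd1.p, hcd1.w0, hcd1.w⟩
      · exact ⟨Spr.pos (u := y.v) (v := z0.v) (τ := y.σ) (σ := z0.σ) ⟨hcd0.L.sub, rfl, k0, hcd0.L.top⟩,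
          Spr.pos (u := y.v') (v := z0.v') (τ := y.σ') (σ := z0.σ') ⟨hcd0.R.sub, rfl, k0', hcd0.R.top⟩,
          hcd0.p, hcd0.w0, hcd0.w⟩) (by
      simp only [List.pairwise_cons, List.mem_cons, List.not_mem_nil, or_false, forall_eq,
        List.Pairwise.nil, and_true, IsEmpty.forall_iff, implies_true]
      exact (dL dj).mono (Finset.product_subset_product (pos_sub W _) (pos_sub W _))
        (Finset.product_subset_product (pos_sub W _) (pos_sub W _))) (Z := pos W Z) (Z' := pos W Z')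
        (pos_mono W hZ) (pos_mono W hZ') (by
      intro q hq
      replace hq := pos_sub W _ hq
      obtain ⟨h1, h0⟩ := hz q hq
      refine ⟨?_, fun k hk hqk => ?_⟩
      · show 1 ≤ fl y.x.s.p y.v'.B (pos W y.σ'.items) (ef y.x.s.p y.v.B q)
        rcases ki q (hZ hq) with h2 | h2
        · have := fl_nonneg y.x.s.p y.v'.B (pos W τ₁'.items) (ef y.x.s.p y.v.B q)
          linarith [h1 h2]
        · have := fl_nonneg y.x.s.p y.v'.B (pos W τ₀'.items) (ef y.x.s.p y.v.B q)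
          linarith [h0 h2]
      · simp only [List.mem_cons, List.not_mem_nil, or_false] at hk
        rcases hk with rfl | rfl
        · exact h1 (pos_sub W _ hqk)
        · exact h0 (pos_sub W _ hqk)) (by
      intro q hq
      replace hq := pos_sub W _ hq
      obtain ⟨h1, h0⟩ := hz' q hq
      refine ⟨?_, fun k hk hqk => ?_⟩
      · show 1 ≤ fl y.x.s.p y.v.B (pos W y.σ.items) (ef y.x.s.p y.v'.B q)
        rcases ki' q (hZ' hq) with h2 | h2
        · have := fl_nonneg y.x.s.p y.v.B (pos W τ₁.items) (ef y.x.s.p y.v'.B q)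
          linarith [h1 h2]
        · have := fl_nonneg y.x.s.p y.v.B (pos W τ₀.items) (ef y.x.s.p y.v'.B q)
          linarith [h0 h2]
      · simp only [List.mem_cons, List.not_mem_nil, or_false] at hk
        rcases hk with rfl | rfl
        · exact h1 (pos_sub W _ hqk)
        · exact h0 (pos_sub W _ hqk))
  simp only [List.map_cons, List.map_nil, List.sum_cons, List.sum_nil, add_zero] at hs key
  have e1 : (kid W (1 * 1, z1)).w * Psi δ e₀ W (kid W (1 * 1, z1)).p (kid W (1 * 1, z1)).X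
      (kid W (1 * 1, z1)).X' = 1 * 1 * PsiY δ e₀ W z1 := rfl
  have e0 : (kid W (1 * 1, z0)).w * Psi δ e₀ W (kid W (1 * 1, z0)).p (kid W (1 * 1, z0)).X
      (kid W (1 * 1, z0)).X' = 1 * 1 * PsiY δ e₀ W z0 := rfl
  rw [e1, e0] at key
  have g1 : ∑ q ∈ (sdP W y.v y.σ).S, W q = ∑ q ∈ y.σ.items, W q := sum_pos hW _
  have g2 : ∑ q ∈ (sdP W y.v' y.σ').S, W q = ∑ q ∈ y.σ'.items, W q := sum_pos hW _
  simp only [g1, g2, sum_pos hW Z, sum_pos hW Z'] at key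
  refine le_trans ?_ key
  exact add_le_add le_rfl hs

end

end valid

end Crest.Agent.R4P.Hull31
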