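import Crest.Agent.R4.InSS944

/-!
R4P (S0004, powers), [W-dseR], helper28 (after helper944's `R4/InSS944`): **same cell, ONE node, pairs of different
items**, without the hypothesis of a large cofactor (the class `[E]` is empty for `θ = θ'`, `x ≠ y`).

* `ES_empty`, `cof_ne` : the class `[E]` is empty; `inG1` : the bound.
-/

set_option autoImplicit false
open Finset

namespace Crest.Agent.R4P.InG128

open Crest.Agent.R4
open Crest.Agent.R4.HVW560 Crest.Agent.R4.HVWX793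
open Crest.Agent.R4.StopAsm709 Crest.Agent.R4.StopHvw709
open Crest.Agent.R4.Schur709
open Crest.Agent.R4.ClsS (eps1)
open Crest.Agent.R4.LF363 (Lab)
open Crest.Agent.R4.LF11 (DD ew)
open Crest.Agent.R4.InX944
open Crest.Agent.R4.Dich579 (FF Small mkFF)

/-- **the class `[E]` of one target is empty** for different cofactors -/
theorem ES_empty {θ : ℝ} {x y : ℕ} {r r' : ℝ} (hne : x ≠ y) : ¬ ES θ θ x y r r' := by
  rintro ⟨t, m, m', hS, hF⟩
  apply hF
  have ht := hS.ht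
  have ht0 : 0 < t := Dich579.t_pos ht
  have ht1 : 1 ≤ t := Dich579.one_le_t ht
  set d : ℤ := (y : ℤ) - x with hd
  have hd0 : d ≠ 0 := by
    rw [hd]
    intro h
    exact hne (by omega)
  have hdR : (d : ℝ) = (y : ℝ) - x := by rw [hd]; push_cast; ring
  have hd1 : (1 : ℝ) ≤ |(d : ℝ)| := by
    rw [← Int.cast_abs]
    exact_mod_cast Int.one_le_abs hd0
  have hd00 : (d : ℝ) ≠ 0 := by
    intro h
    rw [h, abs_zero] at hd1
    linarith
  set ρ : ℚ := ((m' * x - m * y : ℤ) : ℚ) / (d : ℚ) with hρ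
  have hxN := hS.hxN.trans hS.hN
  have hyN := hS.hyN.trans hS.hN
  have hx0 : (0 : ℝ) ≤ x := Nat.cast_nonneg _
  have hy0 : (0 : ℝ) ≤ y := Nat.cast_nonneg _
  have hdN : |(d : ℝ)| ≤ t ^ (1 / 20 : ℝ) := by
    rw [hdR, abs_le]
    constructor <;> linarith
  have hden : (ρ.den : ℝ) ≤ t ^ (21 / 200 : ℝ) := by
    have h1 := Rat.den_dvd (m' * x - m * y) d
    rw [Rat.divInt_eq_div] at h1
    have h2 : (ρ.den : ℤ) ∣ d := h1
    have h3 : (ρ.den : ℤ) ≤ |d| := Int.le_of_dvd (abs_pos.2 hd0) ((dvd_abs _ _).2 h2)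
    have h4 : (ρ.den : ℝ) ≤ |(d : ℝ)| := by
      rw [← Int.cast_abs]
      exact_mod_cast h3
    refine (h4.trans hdN).trans (Real.rpow_le_rpow_of_exponent_le ht1 (by norm_num))
  have hnear : |θ - ρ| ≤ 2 / t := by
    have e1 : θ - (ρ : ℝ) = ((m + θ) * y - (m' + θ) * x) / d := by
      have e2 : (ρ : ℝ) = ((m' * x - m * y : ℤ) : ℝ) / (d : ℝ) := by
        rw [hρ]
        push_cast
        ring
      rw [e2, eq_div_iff hd00, sub_mul, div_mul_cancel₀ _ hd00, hdR]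
      push_cast
      ring
    rw [e1, abs_div]
    exact (div_le_self (abs_nonneg _) hd1).trans hS.rel
  have hp : |θ - ρ| ≤ t ^ (-(87 / 100) : ℝ) := by
    refine hnear.trans ?_
    have := Dich579.rp_le ht (c := 2) (a := -1) (b := -(87 / 100)) (by norm_num) (by norm_num)
    rwa [Real.rpow_neg_one, ← div_eq_mul_inv] at this
  have nr : ∀ {s : ℝ}, t ^ (-(107 / 100) : ℝ) < s → |θ - ρ| ≤ t ^ (39 / 200 : ℝ) * s := by
    intro s hs
    refine hnear.trans ?_
    have h1 := Dich579.rp_le ht (c := 2) (a := -1) (b := -(175 / 200)) (by norm_num) (by norm_num)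
    rw [Real.rpow_neg_one, ← div_eq_mul_inv] at h1
    refine h1.trans ?_
    calc t ^ (-(175 / 200) : ℝ) = t ^ (39 / 200 : ℝ) * t ^ (-(107 / 100) : ℝ) := by
          rw [← Real.rpow_add ht0]; norm_num
      _ ≤ _ := mul_le_mul_of_nonneg_left hs.le (by positivity)
  exact ⟨ρ, ρ, mkFF ht hS.hx hS.hy hS.hr hS.hr' hS.hxr hS.hyr hden hden (nr hS.r_gt)
    (nr hS.swap.r_gt) hp hp⟩

/-- different items have different cofactors -/
lemma cof_ne {q r : ℕ} (hq : 0 < q) (hr : 0 < r) (h : q ≠ r) : cof q r ≠ cof r q := by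
  intro h2
  apply h
  have h1 : cof q r * Nat.gcd q r = q := Nat.div_mul_cancel (Nat.gcd_dvd_left _ _)
  have h3 : cof r q * Nat.gcd r q = r := Nat.div_mul_cancel (Nat.gcd_dvd_left _ _)
  rw [← h1, h2, Nat.gcd_comm q r, h3]

open Classical in
/-- **same cell, one node, different items** -/
theorem inG1 : ∃ C c0 : ℝ, 1 ≤ C ∧ 0 < c0 ∧ ∀ c1 : ℝ, 0 < c1 → c1 ≤ c0 → ∃ T0 : ℝ, 1 ≤ T0 ∧
    ∀ (X L η θ : ℝ) (n G : ℕ) (V W : Finset ℕ) (E : Finset (ℕ × ℕ)) (R R' : ℕ → ℝ)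
      (F : ℕ × ℕ → ℝ),
    400 ≤ n → T0 ≤ (2:ℝ)^n → X ≤ Real.exp (((2:ℝ)^n)^c1) → 0 < G →
    0 < η → η ≤ 1 → E ⊆ V ×ˢ W → (∀ e ∈ E, e.1 ≠ e.2) →
    (∀ w ∈ V, 0 < w ∧ 0 < R w) → (∀ w ∈ W, 0 < w ∧ 0 < R' w) →
    (∀ w ∈ V, R w ≤ L * wt R w) → (∀ w ∈ W, R' w ≤ L * wt R' w) →
    (∀ z : ℝ, X ≤ z → ∀ w ∈ V, Crest.Agent.R4.ClsB.Tame z G w) →
    (∀ z : ℝ, X ≤ z → ∀ w ∈ W, Crest.Agent.R4.ClsB.Tame z G w) →
    (∀ e ∈ E, 0 ≤ F e) →
    (∀ e ∈ E, F e ≤ 2 * ((R e.1 * R' e.2) / DP R R' e) * (2 * η * DP R R' e + 1)) →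
    (∀ e ∈ E, 0 < F e → ∃ m m' : ℤ,
      |(m + θ) * (cof e.2 e.1 : ℕ) - (m' + θ) * (cof e.1 e.2 : ℕ)| ≤ η * DP R R' e) →
    ∑ e ∈ E, F e ≤
      6 * η * L^2 * ((∑ q ∈ V, wt R q) * ∑ r ∈ W, wt R' r) +
      6 * L^2 * (n * (2 * KH 1 0 eps1 * (2:ℝ)^(2*eps1*n)) + C * ((2:ℝ)^n)^(-(1/1000):ℝ)) *
        (η^(2*eps1) * ((∑ q ∈ V, wt R q) * (∑ r ∈ W, wt R' r))^(1/2+eps1)) +
      ∑ e ∈ E.filter (fun e => FSe n η θ θ R R' e), F e := by
  obtain ⟨C, c0, hC1, hc0, hC⟩ := ClsT2.deepHyp_Gen3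
  refine ⟨C, c0, hC1, hc0, ?_⟩
  intro c1 hc1 hc10
  obtain ⟨T0, hT01, hT0⟩ := hC c1 hc1 hc10
  refine ⟨T0, hT01, ?_⟩
  intro X L η θ n G V W E R R' F hn hTn hX hG hη hη1 hES hne hV hW hLV hLW hVt hWt hFn hF
    hrel
  have he1 : eps1 = 1/1000 := rfl
  have h2n : (0:ℝ) < (2:ℝ)^n := by positivity
  set Re : ℕ → ℝ := fun w => η * R w with hRe
  set Re' : ℕ → ℝ := fun w => η * R' w with hRe'
  set D : ℕ × ℕ → ℝ := DP Re Re' with hDdef
  have hDe : ∀ e, D e = η * DP R R' e := by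
    intro e
    rw [hDdef]; unfold DP
    rw [mul_max_of_nonneg _ _ hη.le, hRe, hRe']
    congr 1 <;> ring
  have hDc : ∀ e, Dc ∅ ∅ Re Re' e = D e := fun e => Dc_empty Re Re' e
  have hmem : ∀ e ∈ E, e.1 ∈ V ∧ e.2 ∈ W := fun e he => Finset.mem_product.1 (hES he)
  have hDpos0 : ∀ e ∈ E, 0 < DP R R' e := fun e he => DP_pos (hW _ (hmem e he).2).1 (hV _ (hmem e he).1).2
  have hDpos : ∀ e ∈ E, 0 < D e := fun e he => by rw [hDe]; exact mul_pos hη (hDpos0 e he)
  have hmu : ∀ q ∈ V, 0 ≤ wt R q := fun q hq => by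
    unfold wt; exact mul_nonneg (hV q hq).2.le (by positivity)
  have hmu' : ∀ q ∈ W, 0 ≤ wt R' q := fun q hq => by
    unfold wt; exact mul_nonneg (hW q hq).2.le (by positivity)
  have hM0 := Finset.sum_nonneg hmu
  have hM0' := Finset.sum_nonneg hmu'
  have hwe : ∀ q, wt Re q = η * wt R q := fun q => by unfold wt; rw [hRe]; ring
  have hwe' : ∀ q, wt Re' q = η * wt R' q := fun q => by unfold wt; rw [hRe']; ring
  have hsum : ∑ q ∈ V, wt Re q = η * ∑ q ∈ V, wt R q := by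
    rw [Finset.mul_sum]; exact Finset.sum_congr rfl fun q _ => hwe q
  have hsum' : ∑ q ∈ W, wt Re' q = η * ∑ q ∈ W, wt R' q := by
    rw [Finset.mul_sum]; exact Finset.sum_congr rfl fun q _ => hwe' q
  have hsmu : ∑ q ∈ V, mu ∅ Re q = η * ∑ q ∈ V, wt R q := by
    rw [← hsum]; exact Finset.sum_congr rfl fun q _ => mu_empty Re q
  have hsmu' : ∑ q ∈ W, mu ∅ Re' q = η * ∑ q ∈ W, wt R' q := by
    rw [← hsum']; exact Finset.sum_congr rfl fun q _ => mu_empty Re' q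
  -- bounds
  have hF6 : ∀ e ∈ E, D e ≤ 1 → F e ≤ 6 * ((R e.1 * R' e.2) / DP R R' e) := by
    intro e he hD1
    rw [hDe] at hD1
    have hD := hDpos0 e he
    have hR := (hV _ (hmem e he).1).2
    have hR' := (hW _ (hmem e he).2).2
    calc F e ≤ 2 * ((R e.1 * R' e.2) / DP R R' e) * (2 * η * DP R R' e + 1) := hF e he
      _ ≤ 2 * ((R e.1 * R' e.2) / DP R R' e) * 3 := by
          apply mul_le_mul_of_nonneg_left _ (by positivity)
          nlinarith
      _ = _ := by ring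
  have hRR : ∀ e ∈ E, R e.1 * R' e.2 ≤ L^2 * (wt R e.1 * wt R' e.2) := by
    intro e he
    have h1 := hLV _ (hmem e he).1
    have h2 := hLW _ (hmem e he).2
    have h5 : 0 ≤ L * wt R e.1 := (hV _ (hmem e he).1).2.le.trans h1
    calc R e.1 * R' e.2 ≤ (L * wt R e.1) * (L * wt R' e.2) :=
          mul_le_mul h1 h2 (hW _ (hmem e he).2).2.le h5
      _ = _ := by ring
  have hFmu : ∀ e ∈ E, D e ≤ 1 → F e ≤ (6/η) * L^2 * ((wt Re e.1 * wt Re' e.2) / D e) := by
    intro e he hD1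
    have hD := hDpos0 e he
    calc F e ≤ 6 * ((R e.1 * R' e.2) / DP R R' e) := hF6 e he hD1
      _ ≤ 6 * ((L^2 * (wt R e.1 * wt R' e.2)) / DP R R' e) :=
          mul_le_mul_of_nonneg_left (div_le_div_of_nonneg_right (hRR e he) hD.le) (by norm_num)
      _ = _ := by rw [hDe, hwe, hwe']; field_simp
  set PA : ℕ × ℕ → Prop := fun e => AltS n θ θ (cof e.1 e.2) (cof e.2 e.1) (Re e.1) (Re' e.2) with hPA
  set PE : ℕ × ℕ → Prop := fun e => ES θ θ (cof e.1 e.2) (cof e.2 e.1) (Re e.1) (Re' e.2) with hPE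
  set EN := E.filter (fun e => D e ≤ 1) with hEN
  set EM := E.filter (fun e => ¬ D e ≤ 1) with hEM
  set EY := EN.filter (fun e => (1/2:ℝ)^n < D e) with hEY
  set EX' := EN.filter (fun e => ¬ (1/2:ℝ)^n < D e) with hEX'
  set EG' := EX'.filter (fun e => PA e) with hEG'
  set EH := EX'.filter (fun e => ¬ PA e) with hEH
  set EE := EH.filter (fun e => PE e) with hEE
  set ER := EH.filter (fun e => ¬ PE e) with hER
  have hsplit : ∑ e ∈ E, F e = (∑ e ∈ EY, F e +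
      (∑ e ∈ EG', F e + (∑ e ∈ EE, F e + ∑ e ∈ ER, F e))) + ∑ e ∈ EM, F e := by
    rw [hEE, hER,
      Finset.sum_filter_add_sum_filter_not, hEG', hEH,
      Finset.sum_filter_add_sum_filter_not, hEY, hEX', Finset.sum_filter_add_sum_filter_not, hEN,
      hEM, Finset.sum_filter_add_sum_filter_not]
  have hENP : ∀ e ∈ EN, e ∈ E ∧ D e ≤ 1 := fun e he => Finset.mem_filter.1 he
  have hEYP : ∀ e ∈ EY, e ∈ EN := fun e he => (Finset.mem_filter.1 he).1
  have hEXP : ∀ e ∈ EX', e ∈ EN := fun e he => (Finset.mem_filter.1 he).1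
  have hEGP : ∀ e ∈ EG', e ∈ EX' := fun e he => (Finset.mem_filter.1 he).1
  have hEHP : ∀ e ∈ EH, e ∈ EX' := fun e he => (Finset.mem_filter.1 he).1
  have hEEP : ∀ e ∈ EE, e ∈ EH := fun e he => (Finset.mem_filter.1 he).1
  have hERP : ∀ e ∈ ER, e ∈ EH := fun e he => (Finset.mem_filter.1 he).1
  have hpow : (1/2:ℝ)^n = 1/2^n := by rw [div_pow, one_pow]
  have hEXD : ∀ e ∈ EX', D e ≤ 1/2^n := by
    intro e he
    have := not_lt.1 (Finset.mem_filter.1 he).2
    rw [hpow] at this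
    exact this
  have hOe : ∀ p ∈ (∅ : Finset ℕ), p.Prime ∧ 0 ≤ p := fun p hp => absurd hp (Finset.notMem_empty p)
  have hVe : ∀ w ∈ V, 0 < w ∧ 0 < Re w := fun w hw => ⟨(hV w hw).1, mul_pos hη (hV w hw).2⟩
  have hWe : ∀ w ∈ W, 0 < w ∧ 0 < Re' w := fun w hw => ⟨(hW w hw).1, mul_pos hη (hW w hw).2⟩
  -- dyadic part
  have boundY := mid_dyadic (ε := eps1) (by rw [he1]; norm_num) (by rw [he1]; norm_num) (N := 0)
    (O := ∅) (O' := ∅) (V := V) (W := W) (R := Re) (R' := Re') hOe hOe hVe hWe (c := 0) (c' := 0)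
    (fun r _ => by simp) (fun r _ => by simp) (K := (6/η) * L^2) (by positivity) (F := F) n EY
    (fun e he => hES (hENP e (hEYP e he)).1)
    (fun e he => by rw [hDc]; exact (hENP e (hEYP e he)).2)
    (fun e he => by rw [hDc]; exact (Finset.mem_filter.1 he).2)
    (fun e he => by
      rw [hDc, mu_empty, mu_empty]
      exact hFmu e (hENP e (hEYP e he)).1 (hENP e (hEYP e he)).2)
  -- deep part
  have hDD : ∀ e, DD Re Re' e = D e := fun e => by unfold DD; rfl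
  have boundG := hT0 θ θ ((2:ℝ)^n) X ((6/η) * L^2) V W EG' Re Re' F G hTn hX (by positivity) hG hVe hWe
    hVt hWt (fun e he => hES (hENP e (hEXP e (hEGP e he))).1)
    (fun e he => by rw [hDD]; exact hEXD e (hEGP e he))
    (fun e he => by
      rw [hDD]
      have h := hENP e (hEXP e (hEGP e he))
      refine (hFmu e h.1 h.2).trans ?_
      apply mul_le_mul_of_nonneg_left _ (by positivity)
      apply div_le_div_of_nonneg_right _ (hDpos e h.1).le
      unfold ew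
      have f1 := Crest.Agent.R4.ClsS.one_le_Af (cof e.1 e.2)
      have f2 := Crest.Agent.R4.ClsS.one_le_Af (cof e.2 e.1)
      have f4 : 0 ≤ wt Re e.1 * wt Re' e.2 := by
        rw [hwe, hwe']
        exact mul_nonneg (mul_nonneg hη.le (hmu _ (hmem e h.1).1)) (mul_nonneg hη.le (hmu' _ (hmem e h.1).2))
      exact le_mul_of_one_le_right f4 (by nlinarith))
    (by
      intro e he t ht h1 h2 hFe
      rw [hDD] at h1 h2
      obtain ⟨m, m', hm⟩ := hrel e (hENP e (hEXP e (hEGP e he))).1 hFe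
      refine gen3_of (m := m) (m' := m') ?_ (Finset.mem_filter.1 he).2 ht h1 h2
      have h3 : max ((cof e.2 e.1 : ℝ) * Re e.1) ((cof e.1 e.2 : ℝ) * Re' e.2) = D e := rfl
      rw [h3, hDe]
      have h4 : 0 < η * DP R R' e := mul_pos hη (hDpos0 e (hENP e (hEXP e (hEGP e he))).1)
      linarith)
  -- the class `[E]` is empty
  have boundE : ∑ e ∈ EE, F e ≤ 0 := by
    refine le_of_eq (Finset.sum_eq_zero fun e he => ?_)
    exfalso
    have heN := hENP e (hEXP e (hEHP e (hEEP e he)))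
    have h := hmem e heN.1
    exact ES_empty (cof_ne (hV _ h.1).1 (hW _ h.2).1 (hne e heN.1)) (Finset.mem_filter.1 he).2
  -- the rest is in the class `FS`
  have boundR : ∑ e ∈ ER, F e ≤ ∑ e ∈ E.filter (fun e => FSe n η θ θ R R' e), F e := by
    have hRS : ∀ e ∈ ER, F e ≠ 0 → e ∈ E.filter (fun e => FSe n η θ θ R R' e) := by
      intro e he hne
      have heX := hEHP e (hERP e he)
      have heP := (hENP e (hEXP e heX)).1
      have h := hmem e heP
      have hpos : 0 < F e := lt_of_le_of_ne (hFn e heP) (Ne.symm hne)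
      obtain ⟨m, m', hm⟩ := hrel e heP hpos
      have hcl := classify_num hn (θ := θ) (θ' := θ) (x := cof e.1 e.2)
        (y := cof e.2 e.1) (r := Re e.1) (r' := Re' e.2) (m := m) (m' := m')
        (cof_pos (hV _ h.1).1) (cof_pos (hW _ h.2).1) (hVe _ h.1).2 (hWe _ h.2).2 (by
          have h3 : max ((cof e.2 e.1 : ℝ) * Re e.1) ((cof e.1 e.2 : ℝ) * Re' e.2) = D e := rfl
          rw [h3, hDe]
          have h4 : 0 < η * DP R R' e := mul_pos hη (hDpos0 e heP)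
          linarith)
      rcases hcl with h3 | h3 | h3
      · exact absurd h3 (Finset.mem_filter.1 (hERP e he)).2
      · exact absurd h3 (Finset.mem_filter.1 he).2
      · exact Finset.mem_filter.2 ⟨heP, h3⟩
    calc ∑ e ∈ ER, F e = ∑ e ∈ ER.filter (fun e => F e ≠ 0), F e := by
          rw [Finset.sum_filter_ne_zero]
      _ ≤ _ := by
          apply Finset.sum_le_sum_of_subset_of_nonneg
          · intro e he
            obtain ⟨h1, h2⟩ := Finset.mem_filter.1 he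
            exact hRS e h1 h2
          · intro e he _
            exact hFn e (Finset.mem_filter.1 he).1
  -- generic part
  have boundM : ∑ e ∈ EM, F e ≤ 6 * η * L^2 * ((∑ q ∈ V, wt R q) * ∑ r ∈ W, wt R' r) := by
    have h1 : ∀ e ∈ EM, F e ≤ 6 * η * L^2 * (wt R e.1 * wt R' e.2) := by
      intro e he
      obtain ⟨heP, hD1⟩ := Finset.mem_filter.1 he
      rw [hDe] at hD1
      have hD1' := (not_le.1 hD1).le
      have hD := hDpos0 e heP
      have h := hmem e heP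
      have hR := (hV _ h.1).2
      have hR' := (hW _ h.2).2
      calc F e ≤ 2 * ((R e.1 * R' e.2) / DP R R' e) * (2 * η * DP R R' e + 1) := hF e heP
        _ ≤ 2 * ((R e.1 * R' e.2) / DP R R' e) * (3 * (η * DP R R' e)) := by
            apply mul_le_mul_of_nonneg_left _ (by positivity)
            linarith
        _ = 6 * η * (R e.1 * R' e.2) := by field_simp; ring
        _ ≤ 6 * η * (L^2 * (wt R e.1 * wt R' e.2)) :=
            mul_le_mul_of_nonneg_left (hRR e heP) (by positivity)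
        _ = _ := by ring
    calc ∑ e ∈ EM, F e ≤ ∑ e ∈ EM, 6 * η * L^2 * (wt R e.1 * wt R' e.2) := Finset.sum_le_sum h1
      _ ≤ ∑ e ∈ V ×ˢ W, 6 * η * L^2 * (wt R e.1 * wt R' e.2) := by
          apply Finset.sum_le_sum_of_subset_of_nonneg
            ((Finset.filter_subset _ _).trans hES)
          intro e he _
          have h := Finset.mem_product.1 he
          have := hmu _ h.1
          have := hmu' _ h.2
          positivity
      _ = _ := by
          rw [← Finset.mul_sum, Finset.sum_product, Finset.sum_mul_sum]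
  rw [hsmu, hsmu'] at boundY
  rw [hsum, hsum'] at boundG
  set M := ∑ q ∈ V, wt R q with hM
  set M' := ∑ q ∈ W, wt R' q with hM'
  have z1 : Real.exp ((1/2-eps1) * (-(((0:ℕ):ℝ) * 0) + 3 * (∑ p ∈ (∅ : Finset ℕ), 1/(p:ℝ)) +
      (-(((0:ℕ):ℝ) * 0) + 3 * ∑ p ∈ (∅ : Finset ℕ), 1/(p:ℝ)))) = 1 := by
    simp
  rw [z1] at boundY
  have e3 : (η * M * (η * M'))^(1/2+eps1) = η * (η^(2*eps1) * (M * M')^(1/2+eps1)) := by
    have h1 : η * M * (η * M') = η^(2:ℝ) * (M * M') := by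
      rw [Real.rpow_two]; ring
    rw [h1, Real.mul_rpow (by positivity) (mul_nonneg hM0 hM0'), ← Real.rpow_mul hη.le]
    have h2 : (2:ℝ) * (1/2+eps1) = 1 + 2 * eps1 := by ring
    rw [h2, Real.rpow_add hη, Real.rpow_one]
    ring
  rw [e3] at boundY boundG
  rw [hsplit]
  set Y1 := η^(2*eps1) * (M * M')^(1/2+eps1) with hY1
  have hfin : 6 * L^2 * (n * (2 * KH 1 0 eps1 * (2:ℝ)^(2*eps1*n)) + C * ((2:ℝ)^n)^(-(1/1000):ℝ)) * Y1
      = n * (2 * ((6/η) * L^2) * KH 1 0 eps1 * (2:ℝ)^(2*eps1*n)) * (1 * (η * Y1)) +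
        C * ((6/η) * L^2) * ((2:ℝ)^n)^(-(1/1000):ℝ) * (η * Y1) := by
    field_simp
  rw [hfin]
  linarith

end Crest.Agent.R4P.InG128
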