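import Mathlib
import Crest.Agent.R4P.LLNumP_35

/-!
R4P (S0004), helper35, group [X]: weight `1/D` for the pairs with `D > T₀` (merges inside the cross walk):
the dyadic sum `∑ (2^k)^(1-2ε) / 2^k` converges, so these pairs cost the same as the pairs with `D ≤ 1`.
-/

set_option autoImplicit false
open Finset

namespace Crest.Agent.R4P.LLNumP
open Crest.Agent.R4.HVW560 Crest.Agent.R4.HVWX793
open Crest.Agent.R4.Schur709 Crest.Agent.R4.StopHvw709 Crest.Agent.R4.StopAsm709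

/-- the constant of the dyadic sum -/
noncomputable def CI (ε : ℝ) : ℝ := 2 / ((2:ℝ)^(2*ε) - 1)

lemma two_rpow_gt {ε : ℝ} (hε : 0 < ε) : 0 < (2:ℝ)^(2*ε) - 1 := by
  have := Real.one_lt_rpow (x := 2) (z := 2*ε) (by norm_num) (by linarith)
  linarith

lemma CI_pos {ε : ℝ} (hε : 0 < ε) : 0 < CI ε := div_pos two_pos (two_rpow_gt hε)

open Classical in
/-- **pairs with `D > T₀`, weight `1/D`** -/
theorem inv_allP {ε : ℝ} (hε : 0 < ε) (hε4 : ε ≤ 1/4) {N : ℕ} {O O' V W : Finset ℕ}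
    {R R' : ℕ → ℝ} (hO : ∀ p ∈ O, p.Prime ∧ N ≤ p) (hO' : ∀ p ∈ O', p.Prime ∧ N ≤ p)
    (hV : ∀ w ∈ V, 0 < w) (hW : ∀ w ∈ W, 0 < w) (hR : ∀ w ∈ V, 0 ≤ R w) (hR' : ∀ w ∈ W, 0 ≤ R' w)
    {c c' : ℝ}
    (hc : ∀ r ∈ W, c ≤ ∑ p ∈ O.filter (fun p => ¬ p ∣ r), 1/(p:ℝ))
    (hc' : ∀ q ∈ V, c' ≤ ∑ p ∈ O'.filter (fun p => ¬ p ∣ q), 1/(p:ℝ))
    {K : ℝ} (hK : 0 ≤ K) {F : ℕ × ℕ → ℝ} {T : ℝ} (hT : 0 < T)
    (E : Finset (ℕ × ℕ)) (hE : E ⊆ V ×ˢ W) (h1 : ∀ e ∈ E, T < Dc O O' R R' e)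
    (hF : ∀ e ∈ E, F e ≤ K * ((mu O' R e.1 * mu O R' e.2) / Dc O O' R R' e)) :
    ∑ e ∈ E, F e ≤ K * (KH 1 0 ε * CI ε * T^(-(2*ε))) * Zm ε N c c' O O' V W R R' := by
  have hZ := Zm_nonneg (ε := ε) (N := N) (c := c) (c' := c') (O := O) (O' := O') hR hR'
  set Z := Zm ε N c c' O O' V W R R' with hZd
  have hKH := (KH_pos 1 0 ε).le
  set q : ℝ := (2:ℝ)^(-(2*ε)) with hq
  have hq0 : 0 < q := Real.rpow_pos_of_pos two_pos _
  have hqi : q * (2:ℝ)^(2*ε) = 1 := by rw [hq, ← Real.rpow_add two_pos]; simp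
  have hg := two_rpow_gt hε
  have hq1 : q < 1 := by
    rw [hq]; exact Real.rpow_lt_one_of_one_lt_of_neg (by norm_num) (by linarith)
  have hCI : CI ε * (1 - q) = 2 * q := by
    unfold CI
    rw [div_mul_eq_mul_div, div_eq_iff hg.ne']
    have : 2 * q * ((2:ℝ)^(2*ε) - 1) = 2 * (q * (2:ℝ)^(2*ε)) - 2 * q := by ring
    rw [this, hqi]; ring
  set G := K * (KH 1 0 ε * CI ε * T^(-(2*ε))) * Z with hG
  have hCI0 := (CI_pos hε).le
  have hT' : 0 ≤ T^(-(2*ε)) := Real.rpow_nonneg hT.le _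
  have hG0 : 0 ≤ G := by positivity
  -- one level
  have lev : ∀ (n : ℕ) (E : Finset (ℕ × ℕ)), E ⊆ V ×ˢ W → (∀ e ∈ E, T * 2^n < Dc O O' R R' e) →
      (∀ e ∈ E, Dc O O' R R' e ≤ T * 2^(n+1)) →
      (∀ e ∈ E, F e ≤ K * ((mu O' R e.1 * mu O R' e.2) / Dc O O' R R' e)) →
      ∑ e ∈ E, F e ≤ G * (1 - q) * q^n := by
    intro n E hE h1 h2 h3
    have hTn : 0 < T * 2^n := by positivity
    have b := mid_P hε hε4 (N := N) (E := E) (T := T * 2^(n+1)) (K := K * (1/(T * 2^n))) (F := F)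
      hO hO' hV hW hR hR' hE hc hc' (by positivity) (by positivity) h2 (fun e he => by
        have hm := Finset.mem_product.1 (hE he)
        have m0 : 0 ≤ mu O' R e.1 * mu O R' e.2 :=
          mul_nonneg (mu_nonneg (hR _ hm.1)) (mu_nonneg (hR' _ hm.2))
        refine (h3 e he).trans ?_
        have : (mu O' R e.1 * mu O R' e.2) / Dc O O' R R' e ≤ (mu O' R e.1 * mu O R' e.2) / (T * 2^n) :=
          div_le_div_of_nonneg_left m0 hTn (h1 e he).le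
        refine (mul_le_mul_of_nonneg_left this hK).trans (le_of_eq ?_)
        ring)
    refine b.trans (le_of_eq ?_)
    have e1 : (T * 2^(n+1))^(1-2*ε) = (2 * (T * 2^n)) * (T^(-(2*ε)) * (q * q^n)) := by
      have a1 : (T * 2^(n+1) : ℝ)^(1-2*ε) = (T * 2^(n+1)) * (T * 2^(n+1))^(-(2*ε)) := by
        rw [sub_eq_add_neg, Real.rpow_add (by positivity), Real.rpow_one]
      have a2 : ((2:ℝ)^(n+1))^(-(2*ε)) = q^(n+1) := by
        rw [hq, ← Real.rpow_natCast, ← Real.rpow_natCast, ← Real.rpow_mul (by norm_num),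
          ← Real.rpow_mul (by norm_num)]
        congr 1; ring
      rw [a1, Real.mul_rpow hT.le (by positivity), a2, pow_succ, pow_succ]; ring
    rw [e1, hG, ← hZd]
    have e2 : K * (KH 1 0 ε * CI ε * T^(-(2*ε))) * Z * (1 - q) * q^n =
        K * KH 1 0 ε * T^(-(2*ε)) * Z * (CI ε * (1-q)) * q^n := by ring
    rw [e2, hCI]
    field_simp
  have key : ∀ n : ℕ, ∀ E : Finset (ℕ × ℕ), E ⊆ V ×ˢ W → (∀ e ∈ E, T < Dc O O' R R' e) →
      (∀ e ∈ E, Dc O O' R R' e ≤ T * 2^n) →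
      (∀ e ∈ E, F e ≤ K * ((mu O' R e.1 * mu O R' e.2) / Dc O O' R R' e)) →
      ∑ e ∈ E, F e ≤ G * (1 - q^n) := by
    intro n
    induction n with
    | zero =>
      intro E hE h1 h2 _
      have : E = ∅ := by
        rw [Finset.eq_empty_iff_forall_notMem]
        intro e he
        have a := h1 e he
        have b := h2 e he
        rw [pow_zero, mul_one] at b
        linarith
      rw [this]; simp
    | succ n ih =>
      intro E hE h1 h2 h3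
      set E1 := E.filter (fun e => Dc O O' R R' e ≤ T * 2^n) with hE1
      set E2 := E.filter (fun e => ¬ Dc O O' R R' e ≤ T * 2^n) with hE2
      have hsplit : ∑ e ∈ E, F e = ∑ e ∈ E1, F e + ∑ e ∈ E2, F e := by
        rw [hE1, hE2, Finset.sum_filter_add_sum_filter_not]
      have s1 : ∀ e ∈ E1, e ∈ E := fun e he => (Finset.mem_filter.1 he).1
      have s2 : ∀ e ∈ E2, e ∈ E := fun e he => (Finset.mem_filter.1 he).1
      have b1 := ih E1 (fun e he => hE (s1 e he)) (fun e he => h1 e (s1 e he))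
        (fun e he => (Finset.mem_filter.1 he).2) (fun e he => h3 e (s1 e he))
      have b2 := lev n E2 (fun e he => hE (s2 e he)) (fun e he => not_le.1 (Finset.mem_filter.1 he).2)
        (fun e he => h2 e (s2 e he)) (fun e he => h3 e (s2 e he))
      rw [hsplit]
      have e6 : G * (1 - q^n) + G * (1 - q) * q^n = G * (1 - q^(n+1)) := by
        rw [pow_succ]; ring
      linarith
  obtain ⟨n, hn⟩ := pow_unbounded_of_one_lt (T⁻¹ * ∑ e ∈ E, |Dc O O' R R' e|) (by norm_num : (1:ℝ) < 2)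
  have h2 : ∀ e ∈ E, Dc O O' R R' e ≤ T * 2^n := by
    intro e he
    have a1 := Finset.single_le_sum (f := fun e => |Dc O O' R R' e|) (fun e _ => abs_nonneg _) he
    have a3 := le_abs_self (Dc O O' R R' e)
    have a4 : |Dc O O' R R' e| ≤ ∑ e ∈ E, |Dc O O' R R' e| := a1
    have a5 : ∑ e ∈ E, |Dc O O' R R' e| ≤ T * 2^n := by
      have := mul_le_mul_of_nonneg_left hn.le hT.le
      rwa [← mul_assoc, mul_inv_cancel₀ hT.ne', one_mul] at this
    linarith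
  have fin := key n E hE h1 h2 hF
  have : G * (1 - q^n) ≤ G := by
    have : (0:ℝ) ≤ q^n := by positivity
    nlinarith
  exact fin.trans this

open Classical in
/-- all pairs, weight `1 / max 1 D` -/
theorem inv_maxP {ε : ℝ} (hε : 0 < ε) (hε4 : ε ≤ 1/4) {N : ℕ} {O O' V W : Finset ℕ}
    {R R' : ℕ → ℝ} (hO : ∀ p ∈ O, p.Prime ∧ N ≤ p) (hO' : ∀ p ∈ O', p.Prime ∧ N ≤ p)
    (hV : ∀ w ∈ V, 0 < w) (hW : ∀ w ∈ W, 0 < w) (hR : ∀ w ∈ V, 0 ≤ R w) (hR' : ∀ w ∈ W, 0 ≤ R' w)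
    {c c' : ℝ}
    (hc : ∀ r ∈ W, c ≤ ∑ p ∈ O.filter (fun p => ¬ p ∣ r), 1/(p:ℝ))
    (hc' : ∀ q ∈ V, c' ≤ ∑ p ∈ O'.filter (fun p => ¬ p ∣ q), 1/(p:ℝ))
    {K : ℝ} (hK : 0 ≤ K) {F : ℕ × ℕ → ℝ}
    (E : Finset (ℕ × ℕ)) (hE : E ⊆ V ×ˢ W)
    (hF : ∀ e ∈ E, F e ≤ K * ((mu O' R e.1 * mu O R' e.2) / max 1 (Dc O O' R R' e))) :
    ∑ e ∈ E, F e ≤ K * (KH 1 0 ε * (1 + CI ε)) * Zm ε N c c' O O' V W R R' := by
  set E1 := E.filter (fun e => Dc O O' R R' e ≤ 1) with hE1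
  set E2 := E.filter (fun e => ¬ Dc O O' R R' e ≤ 1) with hE2
  have hsplit : ∑ e ∈ E, F e = ∑ e ∈ E1, F e + ∑ e ∈ E2, F e := by
    rw [hE1, hE2, Finset.sum_filter_add_sum_filter_not]
  have b1 := mid_P hε hε4 (N := N) (E := E1) (T := 1) (K := K) (F := F) hO hO' hV hW
    hR hR' (fun e he => hE (Finset.mem_filter.1 he).1) hc hc' one_pos hK
    (fun e he => (Finset.mem_filter.1 he).2)
    (fun e he => by
      have h1 := hF e (Finset.mem_filter.1 he).1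
      rwa [max_eq_left (Finset.mem_filter.1 he).2, div_one] at h1)
  have b2 := inv_allP hε hε4 (N := N) (K := K) (F := F) (T := 1) hO hO' hV hW hR hR' hc hc' hK one_pos E2
    (fun e he => hE (Finset.mem_filter.1 he).1)
    (fun e he => not_le.1 (Finset.mem_filter.1 he).2)
    (fun e he => by
      have h1 := hF e (Finset.mem_filter.1 he).1
      rwa [max_eq_right (not_le.1 (Finset.mem_filter.1 he).2).le] at h1)
  rw [hsplit]
  rw [Real.one_rpow, mul_one] at b1 b2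
  refine (add_le_add b1 b2).trans (le_of_eq ?_)
  ring

end Crest.Agent.R4P.LLNumP
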