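import Crest.Agent.R4.LinkW758
import Crest.Agent.R4P.Link758
import Crest.Agent.R4P.GSplit194

/-!
R4 (S0004), powers pass: port of helper758's `R4/LinkW758` to the tree with powers (helper17):
**the world hypothesis `WH` (`GSplit194`) for the data of `Data758`.**

* `iF_PE` : a nonzero item energy means a pair of `PE`.
* `Bl_of_MF` : the product of the missing ties at a column is the factor of the node.
* `wh` : `WH` at a near-miss state (thin radii, raising factors one, labels not accurate).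
-/

set_option autoImplicit false
set_option linter.unusedSectionVars false
set_option linter.unusedVariables false
open MeasureTheory Filter

namespace Crest.Agent.R4P.LinkW758

open Crest.Agent.R4.Tour104 Crest.Agent.R4.Tour758 Crest.Agent.R4.Avg758 Crest.Agent.R4.Clos758
open Crest.Agent.R4.ClosL758 Crest.Agent.R4.ClosG758 Crest.Agent.R4.ClosR758
open Crest.Agent.R4.Fam464 Crest.Agent.R4P.Cnt588 Crest.Agent.R4P.Walk560 Crest.Agent.R4P.Item758
open Crest.Agent.R4.Piece464 Crest.Agent.R4P.W363 Crest.Agent.R4P.AvgItem710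
open Crest.Agent.R4P.Data758
open Crest.Agent.R4.LF363 (Lab lab_unique)
open Crest.Agent.R4.HVW560 (cof)
open Crest.Agent.R4P.Link758 Crest.Agent.R4P.GSplit194
open Crest.Agent.R4P.Bld532 (NS All)

section
variable {Λ κ : Type*} [Fintype Λ] [DecidableEq Λ] [Fintype κ] [DecidableEq κ]
  {D : Par Λ κ}

/-- a nonzero item energy means a pair of `PE` -/
theorem iF_PE {R : Finset (Λ × Λ)} {φ ψ : Λ → ℝ → ℝ} {e : ℕ × ℕ} (h : D.iF R φ ψ e ≠ 0) :
    e ∈ D.PE R φ ψ := by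
  by_contra hne
  apply h
  unfold Par.iF
  refine Finset.sum_eq_zero fun x hx => ?_
  obtain ⟨h1, h2⟩ := Finset.mem_filter.1 hx
  by_contra h3
  refine hne (Par.mem_PE.2 ⟨x.1, x.2, h1, h3, ?_, ?_⟩)
  · rw [← h2]
  · rw [← h2]

end

/-- at a column of a branching node (`br`), the product of the missing ties above the column -/
theorem Bl_of_MF {c : Cf} {u : NS} {p q : ℕ} {Sp : Finset ℕ} {t₁ t₀ : IT}
    (h : MF c.t u (.br p Sp t₁ t₀))
    (hq : q ∈ (IT.br p Sp t₁ t₀).items) : Bl c p q = u.B := by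
  have hO : (IT.br p Sp t₁ t₀).Ok u.n := by
    obtain ⟨F, -, -, hO, -⟩ := h
    exact hO
  have hp : p < u.n := hO.2.1
  refine h.prod_lt hq hp fun s hs => ?_
  obtain ⟨-, -, -, -, h1, h0⟩ := hO
  by_cases hq0 : q ∈ t₀.items
  · simp only [IT.mt, if_pos hq0, Finset.mem_insert] at hs
    rcases hs with rfl | hs
    · exact le_rfl
    · exact (mt_lt t₀ h0 q s hs).le
  · simp only [IT.mt, if_neg hq0] at hs
    exact (mt_lt t₁ h1 q s hs).le

section
variable {c : Cf} {n : ℕ}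

/-- the state of a thin item without a label -/
theorem st_of_unl {l q : ℕ} (hthin : (Bl c l q : ℝ) * c.r q ≤ c.wp.thr l)
    (h : ∀ σ : ℚ, ¬ Lab (Bl c l q * c.γ) (Bl c l q * c.r q) σ) : c.st l q = none := by
  refine stB_thin_none hthin ?_
  unfold lab0
  rw [dif_neg]
  rintro ⟨ρ, hρ⟩
  exact h ρ hρ

/-- the state of a thin item with a label which is not accurate -/
theorem st_of_lab' {l q : ℕ} (hthin : (Bl c l q : ℝ) * c.r q ≤ c.wp.thr l) {ρ₀ : ℚ}
    (h : Lab (Bl c l q * c.γ) (Bl c l q * c.r q) ρ₀) (hac : ¬ Ac c l q) :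
    c.st l q = some (ρ₀ / Bl c l q) :=
  st_of_not_Ac hac (st_of_lab hthin h)

lemma off_self {γ z : ℝ} {q : ℕ} : off γ γ q z = z / q := by
  unfold Crest.Agent.R4.W363.off
  rw [sub_self, add_zero]

/-- **`WH` at a near-miss state.** `b / c₁ = B`, `b' / c₁' = B'` = missing products above the column
`l`; thin radii; raising factors one; all labels used (`not_Ac_all`, `not_Ac_zero`). -/
theorem wh (h : c.Ok n) {l : ℕ} (hl : l ≤ n) (X : Finset (ℕ × ℕ × Finset ℕ))
    {M M' b pr c₁ b' pr' c₁' : ℕ} {t t' : IT} {A A' : Finset c.Lam}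
    (hM : 0 < M) (hM' : 0 < M') (hb : 0 < b) (hb' : 0 < b') (hF : Fit b pr t)
    (hF' : Fit b' pr' t') (hW : (c.D.par X).Wts pr t) (hW' : (c.D.par X).Wts pr' t')
    (hc : c₁ ∣ b) (hc' : c₁' ∣ b') {e : ℕ × ℕ}
    (hcirc : pr * M * (b / c₁) = pr' * M' * (b' / c₁'))
    (hk : b / c₁ = Bl c l e.1) (hk' : b' / c₁' = Bl c l e.2)
    (hrf : rf (e.1 / pr) M = 1) (hrf' : rf (e.2 / pr') M' = 1)
    (hD4 : (cy M pr M' pr' e : ℝ) * ((b : ℝ) / c₁ * c.rr e.1) +
      cx M pr M' pr' e * ((b' : ℝ) / c₁' * c.rr e.2) < 1 / 2)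
    (hthin : (b : ℝ) / c₁ * c.rr e.1 ≤ c.wp.thr l) (hthin' : (b' : ℝ) / c₁' * c.rr e.2 ≤ c.wp.thr l)
    (hac : ¬ Ac c l e.1) (hac' : ¬ Ac c l e.2) :
    WH (c.D.par X) c.rr (Ro ((c.D.par X).rho l)) M b pr c₁ M' b' pr' c₁' c.wp.ρ₀ c.wp.n₀
      (c.wp.dep l) e ((c.D.par X).iF (Ro ((c.D.par X).rho l))
        ((c.D.par X).uA M b pr t A c₁) ((c.D.par X).uA M' b' pr' t' A' c₁') e) := by
  have c0 : 0 < c₁ := Nat.pos_of_dvd_of_pos hc hb
  have c0' : 0 < c₁' := Nat.pos_of_dvd_of_pos hc' hb'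
  have B1 : ((b : ℝ) / c₁) = ((b / c₁ : ℕ) : ℝ) := (cast_div' hc hb).symm
  have B2 : ((b' : ℝ) / c₁') = ((b' / c₁' : ℕ) : ℝ) := (cast_div' hc' hb').symm
  have hB : 0 < b / c₁ := Nat.div_pos (Nat.le_of_dvd hb hc) c0
  have hB' : 0 < b' / c₁' := Nat.div_pos (Nat.le_of_dvd hb' hc') c0'
  constructor
  · -- labelled
    intro m σ σ' hL hL' hm hex
    by_contra hz0
    have he := iF_PE hz0
    obtain ⟨j, j', hj, hA, hA', e1, e2, i1, i2, y, i, a, i', a', z, z', hP, hP'⟩ :=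
      PE_pts hM hM' hb hb' hF hF' hW hW' hc hc' he
    have e1' : j.1.1 = e.1 := e1
    have e2' : j'.1.1 = e.2 := e2
    have hpr : pr ∣ e.1 := (hF.item _ i1).2.1
    have hpr' : pr' ∣ e.2 := (hF'.item _ i2).2.1
    have q0 : 0 < e.1 := by rw [← e1']; exact h.pos _ (Cf.mem_S j)
    have q0' : 0 < e.2 := by rw [← e2']; exact h.pos _ (Cf.mem_S j')
    have p0 : 0 < pr := Nat.pos_of_dvd_of_pos hpr q0
    have p0' : 0 < pr' := Nat.pos_of_dvd_of_pos hpr' q0'
    have w0 : 0 < e.1 / pr := Nat.div_pos (Nat.le_of_dvd q0 hpr) p0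
    have w0' : 0 < e.2 / pr' := Nat.div_pos (Nat.le_of_dvd q0' hpr') p0'
    have r1 : c.rr e.1 = c.r e.1 := by rw [← e1']; exact Cf.rr_eq j
    have r2 : c.rr e.2 = c.r e.2 := by rw [← e2']; exact Cf.rr_eq j'
    have g1 : (e.1 / pr / M.gcd (e.1 / pr)) * cy M pr M' pr' e =
        (e.2 / pr' / M'.gcd (e.2 / pr')) * cx M pr M' pr' e := by
      unfold cx cy
      set W := e.1 / pr / M.gcd (e.1 / pr)
      set W' := e.2 / pr' / M'.gcd (e.2 / pr')
      have a1 : W.gcd W' * cof W W' = W := mul_cof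
      have a2 : W.gcd W' * cof W' W = W' := mul_cof'
      calc W * cof W' W = (W.gcd W' * cof W W') * cof W' W := by rw [a1]
        _ = (W.gcd W' * cof W' W) * cof W W' := by ring
        _ = W' * cof W W' := by rw [a2]
    have gW : 0 < e.1 / pr / M.gcd (e.1 / pr) := gcd_pos hM w0
    have gW' : 0 < e.2 / pr' / M'.gcd (e.2 / pr') := gcd_pos hM' w0'
    have hx : 0 < cx M pr M' pr' e := cof_pos gW
    have hy : 0 < cy M pr M' pr' e := cof_pos gW'
    -- relation of the points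
    have hz : |z| ≤ c.r e.1 := by
      rw [abs_le, ← e1']
      exact ⟨(h.bp_ge j _).trans hP.z1, (hP.z2.le).trans (h.bp_le j (Cf.k_lt j))⟩
    have hz' : |z'| ≤ c.r e.2 := by
      rw [abs_le, ← e2']
      exact ⟨(h.bp_ge j' _).trans hP'.z1, (hP'.z2.le).trans (h.bp_le j' (Cf.k_lt j'))⟩
    have hrel := rel_pts hP hP' hM hM' w0 w0' g1
    rw [hrf, hrf', Nat.cast_one, one_mul, one_mul, one_mul, one_mul] at hrel
    have u1 : (cy M pr M' pr' e : ℝ) * ((b / c₁ : ℕ) * |z|) ≤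
        cy M pr M' pr' e * ((b / c₁ : ℕ) * c.r e.1) := by gcongr
    have u2 : (cx M pr M' pr' e : ℝ) * ((b' / c₁' : ℕ) * |z'|) ≤
        cx M pr M' pr' e * ((b' / c₁' : ℕ) * c.r e.2) := by gcongr
    rw [B1, B2, r1, r2] at hm hD4
    have hγ : (c.D.par X).γ = c.γ := rfl
    rw [hγ] at hm hrel
    set N := num (e.1 / pr) M i a with hN
    set N' := num (e.2 / pr') M' i' a' with hN'
    have hmm : N * (cy M pr M' pr' e : ℤ) - N' * (cx M pr M' pr' e : ℤ) = m := by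
      have h3 : |((N * (cy M pr M' pr' e : ℤ) - N' * (cx M pr M' pr' e : ℤ) - m : ℤ) : ℝ)| < 1 := by
        have h4 : ((N * (cy M pr M' pr' e : ℤ) - N' * (cx M pr M' pr' e : ℤ) - m : ℤ) : ℝ) =
            (((N : ℝ) + (b / c₁ : ℕ) * c.γ) * cy M pr M' pr' e -
              ((N' : ℝ) + (b' / c₁' : ℕ) * c.γ) * cx M pr M' pr' e) -
            ((m : ℝ) - (((b' / c₁' : ℕ) : ℝ) * c.γ * cx M pr M' pr' e -
              ((b / c₁ : ℕ) : ℝ) * c.γ * cy M pr M' pr' e)) := by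
          push_cast; ring
        rw [h4]
        refine lt_of_le_of_lt (abs_sub _ _) ?_
        linarith
      have h5 : |N * (cy M pr M' pr' e : ℤ) - N' * (cx M pr M' pr' e : ℤ) - m| < 1 := by
        exact_mod_cast h3
      have := Int.abs_lt_one_iff.1 h5
      omega
    -- states
    rw [B1, hk, r1] at hL
    rw [B2, hk', r2] at hL'
    rw [B1, hk, r1] at hthin
    rw [B2, hk', r2] at hthin'
    have s1 := st_of_lab' hthin hL hac
    have s2 := st_of_lab' hthin' hL' hac'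
    have hR : (j, j') ∈ Ro (c.D.rho l) := by rw [← Cf.Ro_par c X l]; exact hj
    rw [h.Ro_iff hl j j' hP.z1 hP.z2 hP'.z1 hP'.z2, e1', e2', s1, s2] at hR
    apply hR
    apply WP.ix_same_some
    have b0 : ((Bl c l e.1 : ℕ) : ℝ) ≠ 0 := by rw [← hk]; exact_mod_cast hB.ne'
    have b0' : ((Bl c l e.2 : ℕ) : ℝ) ≠ 0 := by rw [← hk']; exact_mod_cast hB'.ne'
    refine off_eq_of_exact hP hP' hM hM' hB w0 w0' hx hy p0 p0' (Nat.mul_div_cancel' hpr).symm
      (Nat.mul_div_cancel' hpr').symm hcirc g1 ?_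
    rw [hrf, hrf', hk, hk', ← hN, ← hN']
    have k1 : ((Bl c l e.1 : ℕ) : ℝ) * ((σ / Bl c l e.1 : ℚ) : ℝ) = σ := by
      push_cast; field_simp
    have k2 : ((Bl c l e.2 : ℕ) : ℝ) * ((σ' / Bl c l e.2 : ℚ) : ℝ) = σ' := by
      push_cast; field_simp
    rw [k1, k2, Nat.cast_one, one_mul, one_mul]
    have hex' : (m : ℝ) = σ' * cx M pr M' pr' e - σ * cy M pr M' pr' e := by
      exact_mod_cast congrArg (fun x : ℚ => (x : ℝ)) hex
    have hmm' : (N : ℝ) * cy M pr M' pr' e - N' * cx M pr M' pr' e = m := by exact_mod_cast hmm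
    linarith
  · -- unlabelled
    intro hU hU' x hx h1 h2 z z' hz1 hz2 hz1' hz2'
    have e1' : x.1.1.1 = e.1 := h1
    have e2' : x.2.1.1 = e.2 := h2
    have r1 : c.rr e.1 = c.r e.1 := by rw [← e1']; exact Cf.rr_eq x.1
    have r2 : c.rr e.2 = c.r e.2 := by rw [← e2']; exact Cf.rr_eq x.2
    have hγ : (c.D.par X).γ = c.γ := rfl
    rw [B1, hk, r1, hγ] at hU
    rw [B2, hk', r2, hγ] at hU'
    rw [B1, hk, r1] at hthin
    rw [B2, hk', r2] at hthin'
    have s1 := st_of_unl hthin hU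
    have s2 := st_of_unl hthin' hU'
    have hR : (x.1, x.2) ∈ Ro (c.D.rho l) := by rw [← Cf.Ro_par c X l]; exact hx
    rw [h.Ro_iff hl x.1 x.2 hz1 hz2 hz1' hz2', e1', e2', s1, s2] at hR
    intro hcell
    apply hR
    unfold WP.ix WP.E ctr
    rw [off_self, off_self, hcell]

end

end Crest.Agent.R4P.LinkW758
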