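import Crest.Agent.R4P.GlueP_29
import Crest.Agent.R4P.LinkW758

/-!
R4 (S0004) with powers, module D, helper29: **the last column of a state of the cross walk and the common predicate of
the pairs of items**.

* `GS D Qp l M v t c q` : a side seen from the column `l` : the missing ties of `q` not yet passed are `≤ l`;
  `GS.Bl` : `Bl l q ∣ v.B / c`.
* `LkG D Qp s₀ l e` : the pair of items `e` counts (`Par.PE`) for the relation `Ro (rho l)` at two such sides with one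
  circle and the scale pair `s₀`.
* `LkG.of_LkN` : near misses and exits; `LC` : last column of a state, `LC.next`; `LC.lkg` : all the pairs which count at
  a state (ends, stops, merges).
-/

set_option autoImplicit false
set_option linter.unusedSectionVars false
set_option linter.unusedVariables false
open Finset

namespace Crest.Agent.R4P.IvX29

open Crest.Agent.R4.HVW560 Crest.Agent.R4P.AvgItem710
open Crest.Agent.R4.Tour104 Crest.Agent.R4.Tour758 Crest.Agent.R4.Avg758 Crest.Agent.R4.Clos758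
open Crest.Agent.R4.ClosL758 Crest.Agent.R4.ClosG758 Crest.Agent.R4.ClosR758
open Crest.Agent.R4.Fam464 Crest.Agent.R4P.Cnt588 Crest.Agent.R4P.Walk560 Crest.Agent.R4P.Item758
open Crest.Agent.R4P.Bld532 (NS All NodeOk Bk dv nd mem_dv mem_nd)
open Crest.Agent.R4P.GSt927 Crest.Agent.R4P.WalkIT579 Crest.Agent.R4P.NMW710
open Crest.Agent.R4P.CrossLoc25 Crest.Agent.R4P.CrossLocC25 Crest.Agent.R4P.WalkC
open Crest.Agent.R4P.CyC25 Crest.Agent.R4P.YI25
open Crest.Agent.R4P.Data758 Crest.Agent.R4.Piece464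
open Crest.Agent.R4P.BlksP29 Crest.Agent.R4P.GlueP29
open Crest.Agent.R4P.Link758 (MF)

variable {Λ κ : Type*} [Fintype Λ] [DecidableEq Λ] [Fintype κ] [DecidableEq κ] [WRel κ]
  {D : Par Λ κ} {sp : ℕ → Finset Λ} {P : Bld532.Par} {W : ℕ → ℝ} {Qp : NS → IT → Prop}
  {Al : Finset ℕ} {RP : Finset (Λ × Λ) → Prop} {ρ : ℕ → ℝ} {T : IT}

/-- **a side seen from the column `l`** : node `v`, tree `t`, modulus `M`, item `q`; `c = l` if the prime `l` of `v.B` is
not counted (near misses), else `c = 1` -/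
structure GS (D : Par Λ κ) (Qp : NS → IT → Prop) (l M : ℕ) (v : NS) (t : IT) (c q : ℕ) :
    Prop where
  M0 : 0 < M
  b0 : 0 < v.B
  F : Fit v.B v.A t
  W : D.Wts v.A t
  hc : c = 1 ∨ (c = l ∧ l ∣ v.B)
  all : All Qp v t
  ok : t.Ok v.n
  it : q ∈ t.items
  /-- the missing ties not yet passed -/
  nx : ∀ l' ∈ t.mt q, l' ≤ l

lemma GS.dvd {l M : ℕ} {v : NS} {t : IT} {c q : ℕ} (h : GS D Qp l M v t c q) : c ∣ v.B := by
  rcases h.hc with rfl | ⟨rfl, h1⟩
  · exact one_dvd _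
  · exact h1

/-- the missing ties of a node -/
lemma MF.split {v : NS} {t : IT} {q : ℕ} (h : MF T v t) (hq : q ∈ t.items) :
    ∏ s ∈ T.mt q \ t.mt q, s = v.B ∧ (∀ s ∈ T.mt q \ t.mt q, s.Prime ∧ v.n ≤ s) ∧
      t.mt q ⊆ T.mt q := by
  obtain ⟨F, h1, h2, hO, h3⟩ := h
  have e : T.mt q \ t.mt q = F := by
    rw [h3 q hq]
    ext s
    simp only [Finset.mem_sdiff, Finset.mem_union]
    constructor
    · rintro ⟨hs | hs, hn⟩
      · exact hs
      · exact absurd hs hn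
    · intro hs
      refine ⟨Or.inl hs, fun hm => ?_⟩
      have h4 := Link758.mt_lt t hO q s hm
      have h5 := (h1 s hs).2
      omega
  refine ⟨by rw [e]; exact h2, by rw [e]; exact h1, ?_⟩
  rw [h3 q hq]
  exact Finset.subset_union_right

/-- **the missing product of a side** -/
theorem GS.prod {l M : ℕ} {v : NS} {t : IT} {c q : ℕ} (h : GS D Qp l M v t c q)
    (hmf : MF T v t) (hl : l.Prime) :
    ∃ k : ℕ, v.B / c = k * ∏ s ∈ (T.mt q).filter (l < ·), s := by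
  obtain ⟨h1, h2, h3⟩ := MF.split hmf h.it
  set F := T.mt q \ t.mt q with hF
  have hsub : (T.mt q).filter (l < ·) ⊆ F := by
    intro s hs
    rw [Finset.mem_filter] at hs
    exact Finset.mem_sdiff.2 ⟨hs.1, fun hm => absurd (h.nx s hm) (not_le.2 hs.2)⟩
  rcases h.hc with rfl | ⟨rfl, hd⟩
  · exact ⟨∏ s ∈ F \ (T.mt q).filter (l < ·), s, by
      rw [Nat.div_one, Finset.prod_sdiff hsub, h1]⟩
  · have hlF : c ∈ F := by
      rw [← h1] at hd
      obtain ⟨s, hs, hds⟩ := (Prime.dvd_finsetProd_iff hl.prime _).1 hd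
      have : c = s := (Nat.prime_dvd_prime_iff_eq hl (h2 s hs).1).1 hds
      exact this ▸ hs
    have hsub' : (T.mt q).filter (c < ·) ⊆ F.erase c := fun s hs =>
      Finset.mem_erase.2 ⟨(Finset.mem_filter.1 hs).2.ne', hsub hs⟩
    refine ⟨∏ s ∈ F.erase c \ (T.mt q).filter (c < ·), s, ?_⟩
    rw [Finset.prod_sdiff hsub', ← h1, ← Finset.mul_prod_erase F (fun s => s) hlF]
    exact Nat.mul_div_cancel_left _ hl.pos

/-- **the pairs which count for the relation of the column `l`** at two lower sides with one circle and the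
scale pair `s₀` -/
def LkG (D : Par Λ κ) (Qp : NS → IT → Prop) (s₀ : ℝ × ℝ) (l : ℕ) (e : ℕ × ℕ) : Prop :=
  ∃ (M : ℕ) (v : NS) (t : IT) (A : Finset Λ) (c : ℕ) (M' : ℕ) (v' : NS) (t' : IT)
    (A' : Finset Λ) (c' : ℕ), GS D Qp l M v t c e.1 ∧ GS D Qp l M' v' t' c' e.2 ∧
    v.A * (v.B / c) * M = v'.A * (v'.B / c') * M' ∧
    SE M (v.B / c) v.A M' (v'.B / c') v'.A e = s₀ ∧
    e ∈ D.PE (Ro (D.rho l)) (D.uA M v.B v.A t A c) (D.uA M' v'.B v'.A t' A' c')

/-- a lower side at a column -/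
lemma GS.of_LS {p M : ℕ} {v : NS} {t : IT} {c q : ℕ} (h : LS D Qp p M v t c)
    (hq : q ∈ t.items) : GS D Qp p M v t c q where
  M0 := h.M0
  b0 := h.b0
  F := h.F
  W := h.W
  hc := h.c.imp id fun h => ⟨h.1, h.2.1⟩
  all := h.q
  ok := h.ok
  it := hq
  nx := by
    intro l' h1
    obtain ⟨hp, hn⟩ := BldF542.mt_lt _ _ h.ok _ _ h1
    exact h.up l' hp hn

/-- **near misses and exits** -/
theorem LkG.of_LkN {s₀ : ℝ × ℝ} {p : ℕ} {e : ℕ × ℕ}
    (h : LkN D Qp s₀ p e) : LkG D Qp s₀ p e := by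
  obtain ⟨M, v, t, A, c, M', v', t', A', c', h1, h2, h3, h4, h5⟩ := h
  obtain ⟨j, j', -, -, -, -, -, i1, i2, -⟩ := Par.PE_ex h1.M0 h2.M0 h5
  exact ⟨M, v, t, A, c, M', v', t', A', c', GS.of_LS h1 i1,
    GS.of_LS h2 i2, h3, h4, h5⟩

/-! ### the last column -/

/-- **last column of a state** : the relation is the one of a column `l ≥ s.p` -/
def LC (D : Par Λ κ) (s : St Λ κ) : Prop := ∃ l : ℕ, s.R = Ro (D.rho l) ∧ l.Prime ∧ s.p ≤ l

/-- **the last column along the cross walk** -/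
theorem LC.next {s : St Λ κ} {u u' : NS} {τ τ' : IT} (hpp : s.p.Prime) (h : LC D s) {c : CR Λ κ}
    (hc : Chd D Al sp Qp RP s.p s u u' τ τ' c) : LC D c.s := by
  obtain ⟨l, h1, h2, h3⟩ := h
  rcases hc.rl with hr | ⟨hr, -, -⟩
  · exact ⟨s.p, hr, hpp, hc.ple⟩
  · exact ⟨l, hr.trans h1, h2, hc.ple.trans h3⟩

/-- **start** : the relation of the column `b` -/
theorem LC.start {s : St Λ κ} {b : ℕ} (hb : b.Prime) (hR : s.R = Ro (D.rho b)) (hp : s.p ≤ b) :
    LC D s := ⟨b, hR, hb, hp⟩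

/-- top of a side -/
lemma tp_le_p {s : St Λ κ} {u u' : NS} {τ τ' : IT} (hy : YI D sp Qp RP s u u' τ τ') :
    WalkIT579.tp τ ≤ s.p ∧ WalkIT579.tp τ' ≤ s.p := by
  have e1 : s.t.top = WalkIT579.tp τ := by
    rw [hy.L.S.eq]; exact WalkIT579.toDT_top D sp _ _ τ
  have e2 : s.t'.top = WalkIT579.tp τ' := by
    rw [hy.R.S.eq]; exact WalkIT579.toDT_top D sp _ _ τ'
  exact ⟨by rw [← e1]; exact le_max_left _ _, by rw [← e2]; exact le_max_right _ _⟩

/-- **all the pairs which count at a state** (ends, stops, merges) -/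
theorem LC.lkg {s : St Λ κ} {u u' : NS} {τ τ' : IT} (h : LC D s)
    (hy : YI D sp Qp RP s u u' τ τ') {e : ℕ × ℕ} (he : e ∈ Ep D Al s τ τ')
    {R : Finset (Λ × Λ)} (hR : R ⊆ s.R)
    (hPE : e ∈ D.PE R (D.uA s.M u.B u.A τ s.A 1) (D.uA s.M' u'.B u'.A τ' s.A' 1)) :
    ∃ l : ℕ, s.R = Ro (D.rho l) ∧ l.Prime ∧ s.p ≤ l ∧
      LkG D Qp (SE s.M u.B u.A s.M' u'.B u'.A e) l e := by
  obtain ⟨l, h1, h2, h3⟩ := h
  obtain ⟨he1, he2⟩ := Finset.mem_product.1 he
  obtain ⟨t1, t2⟩ := tp_le_p hy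
  refine ⟨l, h1, h2, h3, s.M, u, τ, s.A, 1, s.M', u', τ', s.A', 1,
    ⟨hy.mL.pos, hy.L.S.hb, hy.L.S.hF, hy.L.S.hW, Or.inl rfl, hy.L.q, hy.L.ok, Qi_items he1,
      fun l' hl' => ((mt_le_tp hy.L.ok hl').trans t1).trans h3⟩,
    ⟨hy.mR.pos, hy.R.S.hb, hy.R.S.hF, hy.R.S.hW, Or.inl rfl, hy.R.q, hy.R.ok, Qi_items he2,
      fun l' hl' => ((mt_le_tp hy.R.ok hl').trans t2).trans h3⟩, ?_, ?_, ?_⟩
  · simp only [Nat.div_one]
    exact hy.circ
  · simp only [Nat.div_one]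
  · rw [← h1]
    obtain ⟨j, j', g1, g2, g3, g4⟩ := Par.mem_PE.1 hPE
    exact Par.mem_PE.2 ⟨j, j', hR g1, g2, g3, g4⟩

/-- **the missing product of a side in the letters of the worlds** -/
theorem GS.Bl {c₀ : Cf} {l M : ℕ} {v : NS} {t : IT} {c q : ℕ} (h : GS D Qp l M v t c q)
    (hmf : MF c₀.t v t) (hl : l.Prime) : ∃ k : ℕ, v.B / c = k * Link758.Bl c₀ l q := by
  obtain ⟨k, h1⟩ := h.prod hmf hl
  refine ⟨k, ?_⟩
  rw [h1]
  unfold Link758.Bl
  rw [Crest.Agent.R4.W363.lst_prod]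

end Crest.Agent.R4P.IvX29
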