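import Crest.Agent.R4P.World2_363

/-!
R4 (S0004), [B2], helper943: **arithmetic core of the joins of the labelled classes** (pure rationals
and `Lab` / `lab0`, no trees).

* `persist`, `persist0` : the root label survives a missing tie `s` going up if its new denominator
  is admissible; `den_div_dvd`, `den_div_of_dvd` : the two cases (`s ∣ numerator`, `k⁵ s⁴ R ≤ 1`);
  `changed` : if the label changes, the denominator was not admissible.
* `distinct` : two teeth `(w, n)`, `(w', n')`, `w = x g`, `w' = y g` with the same new centre and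
  different old centres: `1 ≤ k k' (y |old - new| + x |old' - new'|)`.
* `num_gcd` : then `x ≤ k'_new * gcd (k_new * n + h_new) x` (input of the one-tooth Rankin).
* `twin` : equal moduli.
-/

set_option autoImplicit false

namespace Crest.Agent.R4P.Joi943

open Crest.Agent.R4.LF363 Crest.Agent.R4P.W363

/-! ### denominators -/

/-- the denominator of `ρ / s` divides `den ρ * s` -/
lemma den_div_dvd (ρ : ℚ) (s : ℕ) : (ρ / s).den ∣ ρ.den * s := by
  rcases Nat.eq_zero_or_pos s with rfl | hs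
  · simp
  have e : ρ / s = Rat.divInt ρ.num ((ρ.den * s : ℕ) : ℤ) := by
    rw [Rat.divInt_eq_div]
    conv_lhs => rw [← Rat.num_div_den ρ]
    push_cast
    rw [div_div]
  rw [e]
  have := Rat.den_dvd ρ.num ((ρ.den * s : ℕ) : ℤ)
  exact_mod_cast this

lemma den_div_le (ρ : ℚ) {s : ℕ} (hs : 0 < s) : (ρ / s).den ≤ ρ.den * s :=
  Nat.le_of_dvd (Nat.mul_pos ρ.den_pos hs) (den_div_dvd ρ s)

/-- if `s` divides the numerator, the denominator of `ρ / s` divides `den ρ` -/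
lemma den_div_of_dvd (ρ : ℚ) {s : ℕ} (hs : 0 < s) (h : (s : ℤ) ∣ ρ.num) :
    (ρ / s).den ∣ ρ.den := by
  obtain ⟨m, hm⟩ := h
  have hs' : (s : ℚ) ≠ 0 := by exact_mod_cast hs.ne'
  have e : ρ / s = Rat.divInt m (ρ.den : ℤ) := by
    rw [Rat.divInt_eq_div]
    conv_lhs => rw [← Rat.num_div_den ρ, hm]
    push_cast
    field_simp
  rw [e]
  have := Rat.den_dvd m (ρ.den : ℤ)
  exact_mod_cast this

/-! ### persistence of labels at a missing tie -/

/-- **going up across a missing tie `s` the label `ρ` of `s θ` becomes the label `ρ / s` of `θ`**, if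
the denominator is admissible -/
theorem persist {θ r : ℝ} {ρ : ℚ} {s : ℕ} (hs : 0 < s) (h : Lab (s * θ) (s * r) ρ)
    (hd : ((ρ / s : ℚ).den : ℝ) ^ 5 * r ≤ 1) : Lab θ r (ρ / s) := by
  have hs1 : (1 : ℝ) ≤ s := by exact_mod_cast hs
  have hs0 : (0 : ℝ) < s := by linarith
  have hr : 0 < r := (mul_pos_iff_of_pos_left hs0).1 h.pos
  refine ⟨hr, ?_, hd, ?_⟩
  · have h1 := h.le
    have h2 : r ≤ s * r := le_mul_of_one_le_left hr.le hs1
    linarith
  · have e : |θ - ((ρ / s : ℚ) : ℝ)| = |s * θ - ρ| / s := by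
      push_cast
      have e2 : θ - (ρ : ℝ) / s = (s * θ - ρ) / s := by field_simp
      rw [e2, abs_div, abs_of_pos hs0]
    rw [e, div_pow]
    rw [div_le_iff₀ (by positivity)]
    calc |s * θ - ρ| ^ 5 ≤ (s * r) ^ 4 := h.near
      _ = r ^ 4 * (s : ℝ) ^ 4 := by ring
      _ ≤ r ^ 4 * (s : ℝ) ^ 5 := by
          refine mul_le_mul_of_nonneg_left ?_ (by positivity)
          exact pow_le_pow_right₀ hs1 (by norm_num)

/-- `s ∣ numerator`: the label always persists -/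
theorem persist_dvd {θ r : ℝ} {ρ : ℚ} {s : ℕ} (hs : 0 < s) (h : Lab (s * θ) (s * r) ρ)
    (hd : (s : ℤ) ∣ ρ.num) : Lab θ r (ρ / s) := by
  refine persist hs h ?_
  have hs1 : (1 : ℝ) ≤ s := by exact_mod_cast hs
  have hr : 0 < r := (mul_pos_iff_of_pos_left (by linarith : (0:ℝ) < s)).1 h.pos
  have h1 : (ρ / s : ℚ).den ≤ ρ.den := Nat.le_of_dvd ρ.den_pos (den_div_of_dvd ρ hs hd)
  have h2 : ((ρ / s : ℚ).den : ℝ) ≤ ρ.den := by exact_mod_cast h1
  calc ((ρ / s : ℚ).den : ℝ) ^ 5 * r ≤ (ρ.den : ℝ) ^ 5 * (s * r) := by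
        refine mul_le_mul (pow_le_pow_left₀ (by positivity) h2 5)
          (le_mul_of_one_le_left hr.le hs1) hr.le (by positivity)
    _ ≤ 1 := h.den

/-- `k⁵ s⁴ R ≤ 1` (`R = s r` the radius below): the label persists -/
theorem persist_den {θ r : ℝ} {ρ : ℚ} {s : ℕ} (hs : 0 < s) (h : Lab (s * θ) (s * r) ρ)
    (hd : (ρ.den : ℝ) ^ 5 * (s : ℝ) ^ 4 * (s * r) ≤ 1) : Lab θ r (ρ / s) := by
  refine persist hs h ?_
  have hs1 : (1 : ℝ) ≤ s := by exact_mod_cast hs
  have hr : 0 < r := (mul_pos_iff_of_pos_left (by linarith : (0:ℝ) < s)).1 h.pos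
  have h1 := den_div_le ρ hs
  have h2 : ((ρ / s : ℚ).den : ℝ) ≤ ρ.den * s := by exact_mod_cast h1
  calc ((ρ / s : ℚ).den : ℝ) ^ 5 * r ≤ ((ρ.den : ℝ) * s) ^ 5 * r :=
        mul_le_mul_of_nonneg_right (pow_le_pow_left₀ (by positivity) h2 5) hr.le
    _ = (ρ.den : ℝ) ^ 5 * (s : ℝ) ^ 4 * (s * r) := by ring
    _ ≤ 1 := hd

/-- **the root label** (`lab0`, `B` = product of the missing ties above `s`) **persists** -/
theorem persist0 {γ ψ : ℝ} {B s : ℕ} {σ : ℚ} (hs : 0 < s) (hB : 0 < B)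
    (h : lab0 γ ψ (s * B) = some σ) (hd : ((B * σ : ℚ).den : ℝ) ^ 5 * (B * ψ) ≤ 1) :
    lab0 γ ψ B = some σ := by
  have hsB : 0 < s * B := Nat.mul_pos hs hB
  have h1 := lab0_spec hsB h
  have hs' : (s : ℚ) ≠ 0 := by exact_mod_cast hs.ne'
  have hB' : (B : ℚ) ≠ 0 := by exact_mod_cast hB.ne'
  have e1 : ((s * B : ℕ) * σ : ℚ) / s = B * σ := by
    push_cast
    field_simp
  have h2 : Lab (s * (B * γ)) (s * (B * ψ)) ((s * B : ℕ) * σ) := by
    have : Lab ((s * B : ℕ) * γ) ((s * B : ℕ) * ψ) ((s * B : ℕ) * σ) := h1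
    push_cast at this ⊢
    rw [← mul_assoc, ← mul_assoc]
    exact this
  have h3 : Lab (B * γ) (B * ψ) (((s * B : ℕ) * σ : ℚ) / s) := by
    refine persist hs h2 ?_
    rw [e1]
    exact hd
  rw [e1] at h3
  rw [lab0_eq_some h3]
  congr 1
  field_simp

/-- **if the root label changes, its denominator is not admissible above** -/
theorem changed {γ ψ : ℝ} {B s : ℕ} {σ : ℚ} (hs : 0 < s) (hB : 0 < B)
    (h : lab0 γ ψ (s * B) = some σ) (hne : lab0 γ ψ B ≠ some σ) :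
    1 < ((B * σ : ℚ).den : ℝ) ^ 5 * (B * ψ) := by
  by_contra hc
  exact hne (persist0 hs hB h (not_lt.1 hc))

/-! ### joins of distinct moduli -/

/-- a nonzero rational has absolute value at least `1 / den` -/
lemma one_le_den_mul {x : ℚ} (hx : x ≠ 0) {d : ℕ} (hd : x.den ∣ d) (hd0 : 0 < d) :
    1 ≤ (d : ℚ) * |x| := by
  have h1 : (1 : ℚ) ≤ x.den * |x| := by
    have hxd : (0 : ℚ) < x.den := by exact_mod_cast x.den_pos
    have e : (x.den : ℚ) * |x| = |(x.num : ℚ)| := by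
      rw [← Rat.mul_den_eq_num x, abs_mul, abs_of_pos hxd]
      ring
    rw [e, ← Int.cast_abs]
    exact_mod_cast Int.one_le_abs (Rat.num_ne_zero.2 hx)
  refine h1.trans (mul_le_mul_of_nonneg_right ?_ (abs_nonneg _))
  exact_mod_cast Nat.le_of_dvd hd0 hd

/-- **two teeth with the same new centre and different old centres.** `w = x g`, `w' = y g`; `ρ`, `ρ'`
the new labels, `τ`, `τ'` the old labels (of the targets of the two teeth). -/
theorem distinct {x y g : ℕ} (hx : 0 < x) (hy : 0 < y) (hg : 0 < g) {n n' : ℤ} {ρ ρ' τ τ' : ℚ}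
    (hnew : ((n : ℚ) + ρ) / (x * g : ℕ) = (n' + ρ') / (y * g : ℕ))
    (hold : ((n : ℚ) + τ) / (x * g : ℕ) ≠ (n' + τ') / (y * g : ℕ)) :
    1 ≤ (τ.den * τ'.den : ℚ) * (y * |τ - ρ| + x * |τ' - ρ'|) := by
  have hx' : (0 : ℚ) < x := by exact_mod_cast hx
  have hy' : (0 : ℚ) < y := by exact_mod_cast hy
  have hg' : (0 : ℚ) < g := by exact_mod_cast hg
  set u : ℚ := y * (n + τ) - x * (n' + τ') with hu
  have hu0 : u ≠ 0 := by
    intro h0
    apply hold
    push_cast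
    rw [div_eq_div_iff (by positivity) (by positivity)]
    have : (y : ℚ) * (n + τ) = x * (n' + τ') := by linarith
    linear_combination (g : ℚ) * this
  have hnew' : (y : ℚ) * (n + ρ) = x * (n' + ρ') := by
    push_cast at hnew
    rw [div_eq_div_iff (by positivity) (by positivity)] at hnew
    have : (g : ℚ) * ((y : ℚ) * (n + ρ) - x * (n' + ρ')) = 0 := by linear_combination hnew
    rcases mul_eq_zero.1 this with h | h
    · exact absurd h hg'.ne'
    · linarith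
  have e : u = y * (τ - ρ) - x * (τ' - ρ') := by
    rw [hu]; linear_combination hnew'
  have hden : u.den ∣ τ.den * τ'.den := by
    have e2 : u = Rat.divInt (y * (n * τ.den + τ.num) * τ'.den - x * (n' * τ'.den + τ'.num) * τ.den)
        ((τ.den * τ'.den : ℕ) : ℤ) := by
      rw [Rat.divInt_eq_div, hu]
      have h1 : (τ.den : ℚ) ≠ 0 := by exact_mod_cast τ.den_ne_zero
      have h2 : (τ'.den : ℚ) ≠ 0 := by exact_mod_cast τ'.den_ne_zero
      conv_lhs => rw [← Rat.num_div_den τ, ← Rat.num_div_den τ']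
      push_cast
      field_simp
    rw [e2]
    have := Rat.den_dvd (y * (n * τ.den + τ.num) * τ'.den - x * (n' * τ'.den + τ'.num) * τ.den)
      ((τ.den * τ'.den : ℕ) : ℤ)
    exact_mod_cast this
  have h1 := one_le_den_mul hu0 hden (Nat.mul_pos τ.den_pos τ'.den_pos)
  push_cast at h1
  refine h1.trans (mul_le_mul_of_nonneg_left ?_ (by positivity))
  rw [e]
  calc |(y : ℚ) * (τ - ρ) - x * (τ' - ρ')| ≤ |(y : ℚ) * (τ - ρ)| + |(x : ℚ) * (τ' - ρ')| :=
        abs_sub _ _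
    _ = y * |τ - ρ| + x * |τ' - ρ'| := by
        rw [abs_mul, abs_mul, abs_of_pos hx', abs_of_pos hy']

/-- the same with real targets: `|θ - ρ| ≤ e`, `|θ - τ| ≤ d` etc. -/
theorem distinct_real {x y g : ℕ} (hx : 0 < x) (hy : 0 < y) (hg : 0 < g) {n n' : ℤ}
    {ρ ρ' τ τ' : ℚ} (hnew : ((n : ℚ) + ρ) / (x * g : ℕ) = (n' + ρ') / (y * g : ℕ))
    (hold : ((n : ℚ) + τ) / (x * g : ℕ) ≠ (n' + τ') / (y * g : ℕ)) (θ θ' : ℝ) :
    1 ≤ (τ.den * τ'.den : ℝ) * (y * (|θ - τ| + |θ - ρ|) + x * (|θ' - τ'| + |θ' - ρ'|)) := by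
  have h := distinct hx hy hg hnew hold
  have h' : (1 : ℝ) ≤ (τ.den * τ'.den : ℝ) * (y * |(τ : ℝ) - ρ| + x * |(τ' : ℝ) - ρ'|) := by
    exact_mod_cast h
  refine h'.trans (mul_le_mul_of_nonneg_left ?_ (by positivity))
  have a1 : |(τ : ℝ) - ρ| ≤ |θ - τ| + |θ - ρ| := by
    have := abs_sub (θ - ρ) (θ - τ)
    have e : (θ - ρ) - (θ - τ) = (τ : ℝ) - ρ := by ring
    rw [e] at this
    linarith
  have a2 : |(τ' : ℝ) - ρ'| ≤ |θ' - τ'| + |θ' - ρ'| := by
    have := abs_sub (θ' - ρ') (θ' - τ')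
    have e : (θ' - ρ') - (θ' - τ') = (τ' : ℝ) - ρ' := by ring
    rw [e] at this
    linarith
  gcongr

/-- **twins**: equal moduli -/
theorem twin {g : ℕ} (hg : 0 < g) {n n' : ℤ} {ρ ρ' τ τ' : ℚ}
    (hnew : ((n : ℚ) + ρ) / g = (n' + ρ') / g)
    (hold : ((n : ℚ) + τ) / g ≠ (n' + τ') / g) (θ θ' : ℝ) :
    1 ≤ (τ.den * τ'.den : ℝ) * ((|θ - τ| + |θ - ρ|) + (|θ' - τ'| + |θ' - ρ'|)) := by
  have h := distinct_real (x := 1) (y := 1) one_pos one_pos hg (n := n) (n' := n') (ρ := ρ)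
    (ρ' := ρ') (τ := τ) (τ' := τ') (by simpa using hnew) (by simpa using hold) θ θ'
  simpa using h

/-- **the numerator of the common centre contains the type**: `w = x g`, `w' = y g`, `x`, `y` coprime,
`(n + ρ) / w = (n' + ρ') / w'` : `x ∣ den ρ' * (den ρ * n + num ρ)` -/
theorem type_dvd {x y g : ℕ} (hx : 0 < x) (hy : 0 < y) (hg : 0 < g) (hxy : Nat.Coprime x y)
    {n n' : ℤ} {ρ ρ' : ℚ} (h : ((n : ℚ) + ρ) / (x * g : ℕ) = (n' + ρ') / (y * g : ℕ)) :
    (x : ℤ) ∣ ρ'.den * (ρ.den * n + ρ.num) := by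
  have hx' : (0 : ℚ) < x := by exact_mod_cast hx
  have hy' : (0 : ℚ) < y := by exact_mod_cast hy
  have hg' : (0 : ℚ) < g := by exact_mod_cast hg
  have h1 : (ρ.den : ℚ) ≠ 0 := by exact_mod_cast ρ.den_ne_zero
  have h2 : (ρ'.den : ℚ) ≠ 0 := by exact_mod_cast ρ'.den_ne_zero
  have key : (y : ℚ) * (n + ρ) = x * (n' + ρ') := by
    push_cast at h
    rw [div_eq_div_iff (by positivity) (by positivity)] at h
    have : (g : ℚ) * ((y : ℚ) * (n + ρ) - x * (n' + ρ')) = 0 := by linear_combination h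
    rcases mul_eq_zero.1 this with h | h
    · exact absurd h hg'.ne'
    · linarith
  have key2 : (y : ℤ) * (ρ'.den * (ρ.den * n + ρ.num)) = x * (ρ.den * (ρ'.den * n' + ρ'.num)) := by
    have e1 : (ρ.den : ℚ) * ρ = ρ.num := Rat.den_mul_eq_num ρ
    have e2 : (ρ'.den : ℚ) * ρ' = ρ'.num := Rat.den_mul_eq_num ρ'
    have : ((y : ℚ) * (ρ'.den * (ρ.den * n + ρ.num))) = x * (ρ.den * (ρ'.den * n' + ρ'.num)) := by
      rw [← e1, ← e2]
      linear_combination (ρ.den * ρ'.den : ℚ) * key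
    exact_mod_cast this
  have h3 : (x : ℤ) ∣ y * (ρ'.den * (ρ.den * n + ρ.num)) := by
    rw [key2]
    exact dvd_mul_right _ _
  exact (Int.isCoprime_iff_gcd_eq_one.2 (by exact_mod_cast hxy)).dvd_of_dvd_mul_left h3

/-- **input of the one-tooth count** : `x ≤ den ρ' * gcd (den ρ * n + num ρ) x` -/
theorem num_gcd {x y g : ℕ} (hx : 0 < x) (hy : 0 < y) (hg : 0 < g) (hxy : Nat.Coprime x y)
    {n n' : ℤ} {ρ ρ' : ℚ} (h : ((n : ℚ) + ρ) / (x * g : ℕ) = (n' + ρ') / (y * g : ℕ)) :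
    x ≤ ρ'.den * Int.gcd (ρ.den * n + ρ.num) x := by
  have h1 := type_dvd hx hy hg hxy h
  have h2 : x ∣ ρ'.den * Int.gcd (ρ.den * n + ρ.num) x := by
    have h3 : (x : ℤ) ∣ ρ'.den * x := dvd_mul_left _ _
    have h4 : (x : ℤ) ∣ ((Int.gcd (ρ'.den * (ρ.den * n + ρ.num)) (ρ'.den * x) : ℕ) : ℤ) :=
      Int.dvd_coe_gcd h1 h3
    rw [Int.gcd_mul_left] at h4
    have h5 : ((ρ'.den : ℤ)).natAbs = ρ'.den := Int.natAbs_natCast _
    rw [h5] at h4
    exact_mod_cast h4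
  refine Nat.le_of_dvd (Nat.mul_pos ρ'.den_pos ?_) h2
  exact Int.gcd_pos_of_ne_zero_right _ (by exact_mod_cast hx.ne')

end Crest.Agent.R4P.Joi943
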