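import Mathlib

/-!
R4 (S0004) with powers, group [W-eSHR], helper12: **the amplitude inequality for present (kept)
pieces at one tie** (the corrected `[K]` functional, #13070 (1)).

For the members `i` of a group (weights `c i`, `Σ c ≤ 1`) at a tie of weight `w`:
* `k i` = norm of the family at the node, `k1 i`, `k0 i` at the children;
* `k i ^ 2 ≥ (1 - w)^2 k1 i ^ 2 + X i` (`X` = fibre variance);
* DICHOTOMY `X i + C0 * l i ≥ c0 * w * k1 i ^ 2` (`l` = value loss);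
* `k0 i ≤ e i` (entries).
Then the squared amplitude decays: `amp_step`.
-/

set_option autoImplicit false
set_option linter.unusedVariables false

namespace Crest.Agent.R4P.KIneq12

open Finset

/-- Cauchy-Schwarz with weights of sum `≤ 1` -/
lemma cs_le {ι : Type*} (s : Finset ι) {c x : ι → ℝ} (hc : ∀ i ∈ s, 0 ≤ c i)
    (h1 : ∑ i ∈ s, c i ≤ 1) :
    (∑ i ∈ s, c i * x i) ^ 2 ≤ ∑ i ∈ s, c i * x i ^ 2 := by
  have h := Finset.sum_mul_sq_le_sq_mul_sq s (fun i => Real.sqrt (c i))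
    (fun i => Real.sqrt (c i) * x i)
  have e1 : ∑ i ∈ s, Real.sqrt (c i) * (Real.sqrt (c i) * x i) = ∑ i ∈ s, c i * x i := by
    apply Finset.sum_congr rfl; intro i hi
    rw [← mul_assoc, Real.mul_self_sqrt (hc i hi)]
  have e2 : ∑ i ∈ s, Real.sqrt (c i) ^ 2 = ∑ i ∈ s, c i := by
    apply Finset.sum_congr rfl; intro i hi
    rw [Real.sq_sqrt (hc i hi)]
  have e3 : ∑ i ∈ s, (Real.sqrt (c i) * x i) ^ 2 = ∑ i ∈ s, c i * x i ^ 2 := by
    apply Finset.sum_congr rfl; intro i hi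
    rw [mul_pow, Real.sq_sqrt (hc i hi)]
  rw [e1, e2, e3] at h
  have h2 : 0 ≤ ∑ i ∈ s, c i * x i ^ 2 :=
    Finset.sum_nonneg fun i hi => mul_nonneg (hc i hi) (sq_nonneg _)
  nlinarith

/-- the real-number part -/
lemma amp_real {w c1 S L K T Lam : ℝ} (hw : 0 < w) (hw1 : w ≤ 1 / 4) (hc1p : 0 < c1)
    (hc1q : c1 ≤ 1 / 8) (hL0 : 0 ≤ L) (hLS : L ≤ S) (hT0 : 0 ≤ T)
    (hK1 : (1 - w) * (S * (1 + c1 * w) - c1 * w * L) ≤ K)
    (hLam : 0 ≤ Lam) (hLf : 4 * (c1 * w) * L ^ 2 ≤ Lam) :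
    ((1 - w) * S + w * T) ^ 2 + c1 / 4 * w * S ^ 2 ≤ K ^ 2 + Lam + 3 / c1 * w * T ^ 2 := by
  have hS0 : 0 ≤ S := hL0.trans hLS
  obtain ⟨a, ha⟩ : ∃ a, a = c1 * w := ⟨_, rfl⟩
  have hcw : 0 < a := by rw [ha]; positivity
  have hcw1 : a ≤ 1 / 32 := by rw [ha]; nlinarith
  rw [← ha] at hK1 hLf
  have hA0 : 0 ≤ S * (1 + a) - a * L := by nlinarith
  obtain ⟨u, hu⟩ : ∃ u, u = 1 - w := ⟨_, rfl⟩
  have hu0 : 3 / 4 ≤ u := by linarith
  have hu1 : u ≤ 1 := by linarith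
  rw [← hu] at hK1 ⊢
  have hsq : u ^ 2 * (S * (1 + a) - a * L) ^ 2 ≤ K ^ 2 := by
    have h := pow_le_pow_left₀ (mul_nonneg (by linarith : (0:ℝ) ≤ u) hA0) hK1 2
    rwa [mul_pow] at h
  have hu2 : 9 / 16 ≤ u ^ 2 := by nlinarith
  have hu3 : u ^ 2 ≤ 1 := by nlinarith
  have hA : S ^ 2 * (1 + a) - 4 * a * L ^ 2 ≤ (S * (1 + a) - a * L) ^ 2 := by
    have h2 : 0 ≤ a * ((1 + a) * (S - L) ^ 2 + 3 * L ^ 2) := by positivity
    have e : (S * (1 + a) - a * L) ^ 2 = S ^ 2 * (1 + a) - 4 * a * L ^ 2 +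
        a * ((1 + a) * (S - L) ^ 2 + 3 * L ^ 2) := by ring
    linarith
  have hKlow : u ^ 2 * (S ^ 2 * (1 + a)) ≤ K ^ 2 + Lam := by
    have h2 : u ^ 2 * (S ^ 2 * (1 + a) - 4 * a * L ^ 2) ≤ K ^ 2 :=
      (mul_le_mul_of_nonneg_left hA (sq_nonneg _)).trans hsq
    have h3 : u ^ 2 * (4 * a * L ^ 2) ≤ 1 * (4 * a * L ^ 2) :=
      mul_le_mul_of_nonneg_right hu3 (by positivity)
    have h5 : u ^ 2 * (S ^ 2 * (1 + a) - 4 * a * L ^ 2) =
      u ^ 2 * (S ^ 2 * (1 + a)) - u ^ 2 * (4 * a * L ^ 2) := by ring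
    linarith
  have h2 : 2 * (u * S) * (w * T) ≤ a / 2 * (u * S) ^ 2 + 2 / a * (w * T) ^ 2 := by
    have h4 : a / 2 * (u * S) ^ 2 + 2 / a * (w * T) ^ 2 - 2 * (u * S) * (w * T) =
        2 / a * (a / 2 * (u * S) - w * T) ^ 2 := by
      field_simp; ring
    have h5 : 0 ≤ 2 / a * (a / 2 * (u * S) - w * T) ^ 2 := by positivity
    linarith
  have h6 : 2 / a * (w * T) ^ 2 = 2 / c1 * w * T ^ 2 := by rw [ha]; field_simp
  have h7 : (w * T) ^ 2 ≤ 1 / c1 * w * T ^ 2 := by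
    have h8 : w ≤ 1 / c1 := by
      rw [le_div_iff₀ hc1p]; nlinarith
    calc (w * T) ^ 2 = w * (w * T ^ 2) := by ring
      _ ≤ 1 / c1 * (w * T ^ 2) := mul_le_mul_of_nonneg_right h8 (by positivity)
      _ = _ := by ring
  have hfin : c1 / 4 * w * S ^ 2 ≤ a / 2 * (u * S) ^ 2 := by
    have h4 : a / 2 * (u * S) ^ 2 = u ^ 2 * (a / 2 * S ^ 2) := by ring
    have h5 : 9 / 16 * (a / 2 * S ^ 2) ≤ u ^ 2 * (a / 2 * S ^ 2) :=
      mul_le_mul_of_nonneg_right hu2 (by positivity)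
    have h6 : c1 / 4 * w * S ^ 2 = 1 / 2 * (a / 2 * S ^ 2) := by rw [ha]; ring
    have h7 : 0 ≤ a / 2 * S ^ 2 := by positivity
    rw [h4, h6]; linarith
  have h10 : (u * S + w * T) ^ 2 = (u * S) ^ 2 + 2 * (u * S) * (w * T) + (w * T) ^ 2 := by ring
  have hexp : u ^ 2 * (S ^ 2 * (1 + a)) = (u * S) ^ 2 + a * (u * S) ^ 2 := by ring
  have h11 : 3 / c1 * w * T ^ 2 = 2 / c1 * w * T ^ 2 + 1 / c1 * w * T ^ 2 := by ring
  rw [h10, h11]
  linarith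

/-- **the amplitude inequality**: `c0 ≤ 1`, `w ≤ 1/4`.
`(Σ c ((1-w) k1 + w k0))² + (c0/32) w (Σ c k1)² ≤ (Σ c k)² + C0 Σ c l + (24/c0) w Σ c e²`. -/
theorem amp_step {ι : Type*} (s : Finset ι) {c k k1 k0 e l X : ι → ℝ} {w c0 C0 : ℝ}
    (hw : 0 < w) (hw1 : w ≤ 1 / 4) (hc0 : 0 < c0) (hc01 : c0 ≤ 1) (hC0 : 0 ≤ C0)
    (hc : ∀ i ∈ s, 0 ≤ c i) (h1 : ∑ i ∈ s, c i ≤ 1)
    (hk : ∀ i ∈ s, 0 ≤ k i) (hk1 : ∀ i ∈ s, 0 ≤ k1 i) (hk0 : ∀ i ∈ s, 0 ≤ k0 i)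
    (hl : ∀ i ∈ s, 0 ≤ l i) (hX : ∀ i ∈ s, 0 ≤ X i)
    (hke : ∀ i ∈ s, k0 i ≤ e i)
    (hrec : ∀ i ∈ s, (1 - w) ^ 2 * k1 i ^ 2 + X i ≤ k i ^ 2)
    (hD : ∀ i ∈ s, c0 * w * k1 i ^ 2 ≤ X i + C0 * l i) :
    (∑ i ∈ s, c i * ((1 - w) * k1 i + w * k0 i)) ^ 2 + c0 / 32 * w * (∑ i ∈ s, c i * k1 i) ^ 2 ≤
      (∑ i ∈ s, c i * k i) ^ 2 + C0 * ∑ i ∈ s, c i * l i + 24 / c0 * w * ∑ i ∈ s, c i * e i ^ 2 := by
  classical
  set c1 : ℝ := c0 / 8 with hc1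
  have hc1p : 0 < c1 := by positivity
  have hc1q : c1 ≤ 1 / 8 := by rw [hc1]; linarith
  -- light members
  set P : ι → Prop := fun i => X i < c0 / 2 * w * k1 i ^ 2 with hP
  set x : ι → ℝ := fun i => if P i then k1 i else 0 with hx
  have hx0 : ∀ i ∈ s, 0 ≤ x i := fun i hi => by
    simp only [hx]; split_ifs
    · exact hk1 i hi
    · exact le_rfl
  have hxk : ∀ i ∈ s, x i ≤ k1 i := fun i hi => by
    simp only [hx]; split_ifs
    · exact le_rfl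
    · exact hk1 i hi
  have hxl : ∀ i ∈ s, w * x i ^ 2 ≤ 2 * C0 / c0 * l i := fun i hi => by
    simp only [hx]
    split_ifs with h
    · have h2 := hD i hi
      have h3 : X i < c0 / 2 * w * k1 i ^ 2 := h
      rw [div_mul_eq_mul_div, le_div_iff₀ hc0]
      nlinarith
    · have : 0 ≤ 2 * C0 / c0 * l i := mul_nonneg (by positivity) (hl i hi)
      simpa using this
  -- lower bound of `k`
  have hlow : ∀ i ∈ s, (1 - w) * (k1 i * (1 + c1 * w) - c1 * w * x i) ≤ k i := fun i hi => by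
    by_cases h : P i
    · have e1 : x i = k1 i := by simp only [hx]; rw [if_pos h]
      rw [e1]
      have h2 : ((1 - w) * k1 i) ^ 2 ≤ k i ^ 2 := by
        have := hrec i hi; have := hX i hi; nlinarith
      have h3 : (1 - w) * k1 i ≤ k i := by
        have := abs_le_of_sq_le_sq' h2 (hk i hi)
        exact this.2
      calc (1 - w) * (k1 i * (1 + c1 * w) - c1 * w * k1 i) = (1 - w) * k1 i := by ring
        _ ≤ k i := h3
    · have e1 : x i = 0 := by simp only [hx]; rw [if_neg h]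
      have h2 : c0 / 2 * w * k1 i ^ 2 ≤ X i := not_lt.1 h
      rw [e1, mul_zero, sub_zero]
      have h3 : ((1 - w) * (k1 i * (1 + c1 * w))) ^ 2 ≤ k i ^ 2 := by
        have h4 := hrec i hi
        have h5 : (1 - w) ^ 2 ≤ 1 := by nlinarith
        have h6 : (1 + c1 * w) ^ 2 ≤ 1 + c0 / 2 * w := by
          have : c1 * w ≤ 1 := by nlinarith
          have h7 : (1 + c1 * w) ^ 2 = 1 + 2 * (c1 * w) + (c1 * w) * (c1 * w) := by ring
          have h8 : (c1 * w) * (c1 * w) ≤ c1 * w := by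
            have : 0 ≤ c1 * w := by positivity
            nlinarith
          rw [h7, hc1] at *
          nlinarith
        have h9 : 0 ≤ k1 i ^ 2 := sq_nonneg _
        have h10 : 0 ≤ (1 - w) ^ 2 := sq_nonneg _
        calc ((1 - w) * (k1 i * (1 + c1 * w))) ^ 2
            = (1 - w) ^ 2 * k1 i ^ 2 * (1 + c1 * w) ^ 2 := by ring
          _ ≤ (1 - w) ^ 2 * k1 i ^ 2 * (1 + c0 / 2 * w) :=
              mul_le_mul_of_nonneg_left h6 (mul_nonneg h10 h9)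
          _ = (1 - w) ^ 2 * k1 i ^ 2 + (1 - w) ^ 2 * (c0 / 2 * w * k1 i ^ 2) := by ring
          _ ≤ (1 - w) ^ 2 * k1 i ^ 2 + 1 * (c0 / 2 * w * k1 i ^ 2) := by
              have : 0 ≤ c0 / 2 * w * k1 i ^ 2 := by positivity
              nlinarith
          _ ≤ k i ^ 2 := by linarith
      exact (abs_le_of_sq_le_sq' h3 (hk i hi)).2
  set S := ∑ i ∈ s, c i * k1 i with hS
  set L := ∑ i ∈ s, c i * x i with hL
  set K := ∑ i ∈ s, c i * k i with hK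
  set T := ∑ i ∈ s, c i * k0 i with hT
  have hS0 : 0 ≤ S := Finset.sum_nonneg fun i hi => mul_nonneg (hc i hi) (hk1 i hi)
  have hL0 : 0 ≤ L := Finset.sum_nonneg fun i hi => mul_nonneg (hc i hi) (hx0 i hi)
  have hT0 : 0 ≤ T := Finset.sum_nonneg fun i hi => mul_nonneg (hc i hi) (hk0 i hi)
  have hLS : L ≤ S := Finset.sum_le_sum fun i hi => mul_le_mul_of_nonneg_left (hxk i hi) (hc i hi)
  have hK1 : (1 - w) * (S * (1 + c1 * w) - c1 * w * L) ≤ K := by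
    rw [hS, hL, hK, Finset.sum_mul, Finset.mul_sum, ← Finset.sum_sub_distrib, Finset.mul_sum]
    apply Finset.sum_le_sum
    intro i hi
    have := mul_le_mul_of_nonneg_left (hlow i hi) (hc i hi)
    calc _ = c i * ((1 - w) * (k1 i * (1 + c1 * w) - c1 * w * x i)) := by ring
      _ ≤ _ := this
  have hL2 : w * L ^ 2 ≤ 2 * C0 / c0 * ∑ i ∈ s, c i * l i := by
    calc w * L ^ 2 ≤ w * ∑ i ∈ s, c i * x i ^ 2 :=
          mul_le_mul_of_nonneg_left (cs_le s hc h1) hw.le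
      _ = ∑ i ∈ s, c i * (w * x i ^ 2) := by
          rw [Finset.mul_sum]; apply Finset.sum_congr rfl; intro i _; ring
      _ ≤ ∑ i ∈ s, c i * (2 * C0 / c0 * l i) :=
          Finset.sum_le_sum fun i hi => mul_le_mul_of_nonneg_left (hxl i hi) (hc i hi)
      _ = _ := by rw [Finset.mul_sum]; apply Finset.sum_congr rfl; intro i _; ring
  have hT2 : T ^ 2 ≤ ∑ i ∈ s, c i * e i ^ 2 :=
    (cs_le s hc h1).trans (Finset.sum_le_sum fun i hi => mul_le_mul_of_nonneg_left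
      (pow_le_pow_left₀ (hk0 i hi) (hke i hi) 2) (hc i hi))
  have hbel : ∑ i ∈ s, c i * ((1 - w) * k1 i + w * k0 i) = (1 - w) * S + w * T := by
    rw [hS, hT, Finset.mul_sum, Finset.mul_sum, ← Finset.sum_add_distrib]
    apply Finset.sum_congr rfl; intro i _; ring
  have hsuml : 0 ≤ ∑ i ∈ s, c i * l i := Finset.sum_nonneg fun i hi => mul_nonneg (hc i hi) (hl i hi)
  have hLf : 4 * (c1 * w) * L ^ 2 ≤ C0 * ∑ i ∈ s, c i * l i := by
    have h2 : 4 * (c1 * w) * L ^ 2 = c0 / 2 * (w * L ^ 2) := by rw [hc1]; ring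
    rw [h2]
    calc c0 / 2 * (w * L ^ 2) ≤ c0 / 2 * (2 * C0 / c0 * ∑ i ∈ s, c i * l i) :=
          mul_le_mul_of_nonneg_left hL2 (by positivity)
      _ = C0 * ∑ i ∈ s, c i * l i := by field_simp
  have key := amp_real hw hw1 hc1p hc1q hL0 hLS hT0 hK1 (mul_nonneg hC0 hsuml) hLf
  have h24 : 3 / c1 * w * T ^ 2 ≤ 24 / c0 * w * ∑ i ∈ s, c i * e i ^ 2 := by
    have h2 : 3 / c1 = 24 / c0 := by rw [hc1]; field_simp; norm_num
    rw [h2]
    exact mul_le_mul_of_nonneg_left hT2 (by positivity)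
  have h32 : c1 / 4 * w * S ^ 2 = c0 / 32 * w * S ^ 2 := by rw [hc1]; ring
  rw [hbel, ← h32]
  linarith

end Crest.Agent.R4P.KIneq12
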