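import Crest.Agent.R4P.Ker_51

/-!
R4 (S0004), A-part, helper51: **cuts, splits and joins for the truncated min-kernel** (see `Ker_51`).
-/

set_option autoImplicit false
set_option linter.unusedVariables false

namespace Crest.Agent.R4P.Ker51

/-! ### lower bounds of the Huber loss -/

/-- matched excess -/
lemma Dl_exc {c w a b : ℝ} (hw : 0 ≤ w) (hw1 : w ≤ 1) (hb : 0 ≤ b) (hac : a ≤ c) :
    Dl c w a b = w * (1 - w) * (max (a - b) 0) ^ 2 := by
  rcases le_total a b with h | h
  · rw [Dl_of_le h, max_eq_right (sub_nonpos.2 h)]; ring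
  · have h1 : (1 - w) * a + w * b ≤ c := by nlinarith
    rw [Dl_of_ge h, max_eq_left (sub_nonneg.2 h), hu_of_le hac, hu_of_le (h.trans hac),
      hu_of_le h1]
    ring

lemma Dl_un_eq {c w a : ℝ} (hc : 0 ≤ c) (ha : 0 ≤ a) :
    Dl c w a 0 = (1 - w) * hu c a - hu c ((1 - w) * a) := by
  rw [Dl_of_ge ha, hu_zero hc, mul_zero, add_zero, add_zero]

/-- an unmatched item loses `w (1 - w) min(a, c)²` -/
theorem Dl_un {c w a : ℝ} (hc : 0 ≤ c) (hw : 0 ≤ w) (hw1 : w ≤ 1) (ha : 0 ≤ a) :
    w * (1 - w) * (min a c) ^ 2 ≤ Dl c w a 0 := by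
  rw [Dl_un_eq hc ha]
  have hw' : 0 ≤ 1 - w := sub_nonneg.2 hw1
  rcases le_total a c with h | h
  · have h1 : (1 - w) * a ≤ c := by nlinarith
    rw [min_eq_left h, hu_of_le h, hu_of_le h1]
    nlinarith
  · rw [min_eq_right h, hu_of_ge h]
    have hA : (1 - w) * c ≤ (1 - w) * a := mul_le_mul_of_nonneg_left h hw'
    rcases le_total ((1 - w) * a) c with h1 | h1
    · rw [hu_of_le h1]
      have h2 : (1 - w) * a ≤ (1 + w) * c := by nlinarith
      nlinarith [mul_nonneg (sub_nonneg.2 hA) (sub_nonneg.2 h2)]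
    · rw [hu_of_ge h1]
      nlinarith [mul_nonneg (mul_nonneg hw hw) (sq_nonneg c)]

/-- an unmatched item loses `w min((1 - w) a, c)²` -/
theorem Dl_un' {c w a : ℝ} (hc : 0 ≤ c) (hw : 0 ≤ w) (hw1 : w ≤ 1) (ha : 0 ≤ a) :
    w * (min ((1 - w) * a) c) ^ 2 ≤ Dl c w a 0 := by
  rw [Dl_un_eq hc ha]
  have hw' : 0 ≤ 1 - w := sub_nonneg.2 hw1
  rcases le_total ((1 - w) * a) c with h1 | h1
  · rw [min_eq_left h1, hu_of_le h1]
    rcases le_total a c with h | h
    · rw [hu_of_le h]
      nlinarith [mul_nonneg (mul_nonneg (mul_nonneg hw hw) hw') (sq_nonneg a)]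
    · rw [hu_of_ge h]
      have hA : (1 - w) * c ≤ (1 - w) * a := mul_le_mul_of_nonneg_left h hw'
      have hA0 : 0 ≤ (1 - w) * a := mul_nonneg hw' ha
      have h2 : (1 - w) * c ≤ (1 + w) * ((1 - w) * a) := by
        nlinarith [mul_nonneg hw hA0]
      nlinarith [mul_nonneg (sub_nonneg.2 h1) (sub_nonneg.2 h2)]
  · rcases le_total a c with h | h
    · -- then `a = c` or `c = 0` or `w = 0`
      have h3 : (1 - w) * a ≤ a := by nlinarith
      have h4 : (1 - w) * a = c := le_antisymm (h3.trans h) h1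
      rw [h4, min_self, hu_of_le le_rfl, hu_of_le h]
      have h5 : a = c := le_antisymm h (h4 ▸ h3)
      rw [h5] at h4 ⊢
      nlinarith
    · rw [min_eq_right h1, hu_of_ge h, hu_of_ge h1]
      nlinarith

/-! ### cuts at an unmatched item -/

/-- the relation of an unmatched item with an `N`-content is cut for free -/
theorem cutN {c w a b' : ℝ} (hc : 0 ≤ c) (hw : 0 ≤ w) (hw1 : w ≤ 1) (ha : 0 ≤ a)
    (hb' : 0 ≤ b') : w * (1 - w) * kk c a b' ≤ Dl c w a 0 :=
  (mul_le_mul_of_nonneg_left (kk_le_left hc ha hb') (mul_nonneg hw (sub_nonneg.2 hw1))).trans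
    (Dl_un hc hw hw1 ha)

/-- **hit-lift cut**: the item `(a, 0)` is unmatched; its relation with `(a', b')` is kept off the
hit lift and cut on it -/
theorem cutHit {c w a a' b' : ℝ} (hc : 0 ≤ c) (hw : 0 ≤ w) (hw1 : w ≤ 1) (ha : 0 ≤ a)
    (ha' : 0 ≤ a') (hb' : 0 ≤ b') :
    (1 - w) ^ 2 * kk c a a' + w * (1 - w) * kk c a b' - 2 * Dl c w a 0 - Dl c w a' b' ≤
      (1 - w) * kk c (offv w a 0) (offv w a' b') := by
  have h := tie hc hw hw1 ha (le_refl (0 : ℝ)) ha' hb'
  have g0 : 0 ≤ w * (1 - w) * gg c a 0 a' b' :=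
    mul_nonneg (mul_nonneg hw (sub_nonneg.2 hw1)) (le_max_left _ _)
  have e1 : hitv w a 0 = (1 - w) * a := by rw [hit_of_ge ha]; ring
  have h2 : w * kk c (hitv w a 0) (hitv w a' b') ≤ Dl c w a 0 := by
    rw [e1]
    exact (mul_le_mul_of_nonneg_left (kk_le_left hc (mul_nonneg (sub_nonneg.2 hw1) ha)
      (hit_nonneg hw hw1 ha' hb')) hw).trans (Dl_un' hc hw hw1 ha)
  rw [kk_zero hc ha', kk_zero hc hb'] at h
  linarith

/-- the same with the relation kept everywhere -/
theorem tie_un {c w a a' b' : ℝ} (hc : 0 ≤ c) (hw : 0 ≤ w) (hw1 : w ≤ 1) (ha : 0 ≤ a)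
    (ha' : 0 ≤ a') (hb' : 0 ≤ b') :
    (1 - w) ^ 2 * kk c a a' + w * (1 - w) * kk c a b' - Dl c w a 0 - Dl c w a' b' ≤
      (1 - w) * kk c (offv w a 0) (offv w a' b') + w * kk c (hitv w a 0) (hitv w a' b') := by
  have h := tie hc hw hw1 ha (le_refl (0 : ℝ)) ha' hb'
  have g0 : 0 ≤ w * (1 - w) * gg c a 0 a' b' :=
    mul_nonneg (mul_nonneg hw (sub_nonneg.2 hw1)) (le_max_left _ _)
  rw [kk_zero hc ha', kk_zero hc hb'] at h
  linarith

/-! ### in-node splits and joins -/

/-- superadditivity of the Huber function -/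
lemma hu_super {c m A B : ℝ} (hc : 0 ≤ c) (hm : 0 ≤ m) (hA : m ≤ A) (hB : m ≤ B) :
    hu c A + hu c B ≤ hu c (A + B - m) + hu c m := by
  rcases (add_nonneg (sub_nonneg.2 hA) (sub_nonneg.2 hB)).eq_or_lt with h0 | h0
  · have h1 : A = m := by linarith
    have h2 : B = m := by linarith
    rw [h1, h2]
    have : m + m - m = m := by ring
    rw [this]
  · set T := A + B - m with hT
    have hTm : 0 < T - m := by rw [hT]; linarith
    set θ := (A - m) / (T - m) with hθ
    have hθ0 : 0 ≤ θ := div_nonneg (sub_nonneg.2 hA) hTm.le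
    have hθ1 : θ ≤ 1 := by
      rw [hθ, div_le_one hTm, hT]; linarith
    have hmul : θ * (T - m) = A - m := by rw [hθ]; field_simp
    have eA : (1 - θ) * m + θ * T = A := by linarith [hmul, mul_sub θ T m]
    have eB : (1 - (1 - θ)) * m + (1 - θ) * T = B := by
      have : (1 - (1 - θ)) * m + (1 - θ) * T = T - θ * (T - m) := by ring
      rw [this, hmul, hT]; ring
    have h1 := hu_conv (a := m) (b := T) hc hθ0 hθ1
    have h2 := hu_conv (a := m) (b := T) hc (sub_nonneg.2 hθ1) (by linarith : 1 - θ ≤ 1)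
    rw [eA] at h1
    rw [eB] at h2
    linarith

/-- **a split going up, both parts keep the partner, is paid by the Huber potential** -/
theorem splitUp {c a a' g : ℝ} (hc : 0 ≤ c) (ha : 0 ≤ a) (ha' : 0 ≤ a') (hg : 0 ≤ g) :
    kk c (a + a') g - kk c a g - kk c a' g ≤ hu c (a + a') - hu c a - hu c a' := by
  set m := min g c with hm
  have hm0 : 0 ≤ m := le_min hg hc
  have hmc : m ≤ c := min_le_right _ _
  have key : ∀ x : ℝ, kk c x g = (min x m) ^ 2 := fun x => by unfold kk; rw [hm, min_assoc]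
  rw [key, key, key]
  have e1 := hu_sub_kk hc hm0 hmc (add_nonneg ha ha')
  have e2 := hu_sub_kk hc hm0 hmc ha
  have e3 := hu_sub_kk hc hm0 hmc ha'
  have h1 := hu_super hc hm0 (le_max_right a m) (le_max_right a' m)
  have h2 : max a m + max a' m - m ≤ max (a + a') m := by
    rcases le_total a m with h | h
    · rw [max_eq_right h]
      have : m + max a' m - m = max a' m := by ring
      rw [this]
      exact max_le_max (by linarith) le_rfl
    · rcases le_total a' m with h' | h'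
      · rw [max_eq_right h', max_eq_left h]
        have : a + m - m = a := by ring
        rw [this]
        exact le_max_of_le_left (by linarith)
      · rw [max_eq_left h, max_eq_left h']
        exact le_max_of_le_left (by linarith)
  have h3 := hu_mono hc (x := max a m + max a' m - m)
    (by linarith [le_max_right a m, le_max_right a' m]) h2
  rw [hu_of_le hmc] at h1
  linarith

lemma hu_super0 {c a a' : ℝ} (hc : 0 ≤ c) (ha : 0 ≤ a) (ha' : 0 ≤ a') :
    hu c a + hu c a' ≤ hu c (a + a') := by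
  have h := hu_super hc le_rfl ha ha'
  rw [hu_zero hc, sub_zero, add_zero] at h
  exact h

/-- the surplus of the Huber function -/
lemma hu_sup_le {c a a' : ℝ} (hc : 0 ≤ c) (ha : 0 ≤ a) (ha' : 0 ≤ a') :
    hu c (a + a') - hu c a - hu c a' ≤ 2 * c * min a a' := by
  have h1 := hu_tan hc (a + a') a
  have h2 := hu_tan hc (a + a') a'
  have n1 := hu_nonneg (x := a) hc
  have n2 := hu_nonneg (x := a') hc
  have hm : min (a + a') c ≤ c := min_le_right _ _
  have k1 : 2 * min (a + a') c * a' ≤ 2 * c * a' :=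
    mul_le_mul_of_nonneg_right (by linarith) ha'
  have k2 : 2 * min (a + a') c * a ≤ 2 * c * a :=
    mul_le_mul_of_nonneg_right (by linarith) ha
  rcases le_total a a' with h | h
  · rw [min_eq_left h]; nlinarith
  · rw [min_eq_right h]; nlinarith

lemma hu_sup_le_mul {c a a' : ℝ} (hc : 0 ≤ c) (ha : 0 ≤ a) (ha' : 0 ≤ a') :
    hu c (a + a') - hu c a - hu c a' ≤ 2 * (a * a') := by
  rcases le_total (a + a') c with h | h
  · rw [hu_of_le h, hu_of_le (by linarith : a ≤ c), hu_of_le (by linarith : a' ≤ c)]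
    nlinarith
  · rw [hu_of_ge h]
    rcases le_total a c with h1 | h1
    · rw [hu_of_le h1]
      rcases le_total a' c with h2 | h2
      · rw [hu_of_le h2]; nlinarith [sq_nonneg (a + a' - c)]
      · rw [hu_of_ge h2]; nlinarith [mul_nonneg ha (sub_nonneg.2 h2)]
    · rw [hu_of_ge h1]
      rcases le_total a' c with h2 | h2
      · rw [hu_of_le h2]; nlinarith [mul_nonneg ha' (sub_nonneg.2 h1)]
      · rw [hu_of_ge h2]
        nlinarith [mul_nonneg hc (sub_nonneg.2 h2), mul_nonneg (hc.trans h2) (sub_nonneg.2 h1)]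

/-- a join going up loses at most the kernel of the two parts -/
theorem joinUp {c a a' g : ℝ} (hc : 0 ≤ c) (ha : 0 ≤ a) (ha' : 0 ≤ a') (hg : 0 ≤ g) :
    kk c a g + kk c a' g - kk c (a + a') g ≤ kk c a a' := by
  have key : ∀ x y : ℝ, 0 ≤ x → 0 ≤ y → x ≤ y →
      kk c x g + kk c y g - kk c (x + y) g ≤ kk c x y := by
    intro x y hx hy hxy
    have h1 : kk c y g ≤ kk c (x + y) g := kk_mono hc hy hg (by linarith)
    have h2 : kk c x g ≤ (min x c) ^ 2 := kk_le_left hc hx hg
    have h3 : kk c x y = (min x c) ^ 2 := by unfold kk; rw [min_eq_left hxy]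
    linarith
  rcases le_total a a' with h | h
  · exact key a a' ha ha' h
  · have := key a' a ha' ha h
    rw [add_comm a' a, kk_comm c a' a] at this
    linarith

/-- the kernel is bounded by the Huber function -/
lemma kk_le_hu {c x y : ℝ} (hc : 0 ≤ c) (hx : 0 ≤ x) (hy : 0 ≤ y) : kk c x y ≤ hu c x := by
  refine (kk_le_left hc hx hy).trans ?_
  rcases le_total x c with h | h
  · rw [min_eq_left h, hu_of_le h]
  · rw [min_eq_right h, hu_of_ge h]; nlinarith

/-- first order bound of the kernel -/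
lemma kk_le_lin {c x y : ℝ} (hc : 0 ≤ c) (hx : 0 ≤ x) (hy : 0 ≤ y) : kk c x y ≤ c * x := by
  refine (kk_le_left hc hx hy).trans ?_
  rcases le_total x c with h | h
  · rw [min_eq_left h]; nlinarith
  · rw [min_eq_right h]; nlinarith

end Crest.Agent.R4P.Ker51
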