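import Crest.Agent.R4P.KerW_878

/-!
R4 (S0004), A-part, helper51: **in-node splits with multiplicity one: dominant parts**.

A content of height `f = Σ g j` splits (going up) into parts `g j`; `sp W J g = W (Σ g) - Σ W (g j)` is
the decrease of the potential.  If the related contents `f`, `f'` keep only the relation of their
dominant parts (`2 g d ≥ f`), the kernel loses at most `3 (sp + sp')` (`splitDom`); if one of them has
no dominant part it is dropped at the price `4 sp` (`splitNo`).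
-/

set_option autoImplicit false
set_option linter.unusedVariables false

open Set

namespace Crest.Agent.R4P.KerW878

/-- scaling of the weight -/
def SW (W : ℝ → ℝ) : Prop :=
  ∀ ⦃l x : ℝ⦄, 0 ≤ l → l ≤ 1 → 0 ≤ x → W (l * x) ≤ l * Real.sqrt l * W x

lemma Wo_SW {om : ℝ → ℝ} (h : OmOk om) : SW (Wo om) := fun _ _ h0 h1 hx => Wo_scale h h0 h1 hx

lemma W1_SW : SW W1 := Wo_SW om1_ok

variable {W : ℝ → ℝ}

/-- removing a part `δ ≤ f / 2` -/
lemma dom_gap (hS : SW W) (h : AW W) {f δ : ℝ} (hδ : 0 ≤ δ) (hf : 2 * δ ≤ f) :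
    3 * W δ ≤ 2 * (W f - W (f - δ)) := by
  rcases hδ.eq_or_lt with h0 | h0
  · rw [← h0, h.zero, sub_zero, sub_self]; norm_num
  · have hf0 : 0 < f := by linarith
    set l := δ / f with hl
    have l0 : 0 ≤ l := div_nonneg hδ hf0.le
    have l1 : 2 * l ≤ 1 := by
      rw [hl, ← mul_div_assoc, div_le_one hf0]; exact hf
    have e1 : l * f = δ := by rw [hl]; field_simp
    have e2 : (1 - l) * f = f - δ := by rw [sub_mul, one_mul, e1]
    have s1 := hS l0 (by linarith : l ≤ 1) hf0.le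
    have s2 := hS (by linarith : (0 : ℝ) ≤ 1 - l) (by linarith : 1 - l ≤ 1) hf0.le
    rw [e1] at s1
    rw [e2] at s2
    have W0 : 0 ≤ W f := h.nonneg hf0.le
    have q1 : Real.sqrt (1 - l) ≤ 1 - l / 2 := by
      rw [Real.sqrt_le_left (by linarith)]; nlinarith [sq_nonneg l]
    have q2 : 3 * Real.sqrt l ≤ 3 - l := by
      have : Real.sqrt l ≤ (3 - l) / 3 := by
        rw [Real.sqrt_le_left (by linarith)]; nlinarith [sq_nonneg l]
      linarith
    have t1 : (1 - l) * Real.sqrt (1 - l) * W f ≤ (1 - l) * (1 - l / 2) * W f :=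
      mul_le_mul_of_nonneg_right (mul_le_mul_of_nonneg_left q1 (by linarith)) W0
    have t2 : l * (3 * Real.sqrt l) * W f ≤ l * (3 - l) * W f :=
      mul_le_mul_of_nonneg_right (mul_le_mul_of_nonneg_left q2 l0) W0
    nlinarith [s1, s2, t1, t2]

/-- the surplus of a split -/
noncomputable def sp {ι : Type*} (W : ℝ → ℝ) (J : Finset ι) (g : ι → ℝ) : ℝ :=
  W (∑ j ∈ J, g j) - ∑ j ∈ J, W (g j)

section split
variable {ι : Type*} {J : Finset ι} {g : ι → ℝ}

lemma sup_sum (h : AW W) (hg : ∀ j ∈ J, 0 ≤ g j) : ∑ j ∈ J, W (g j) ≤ W (∑ j ∈ J, g j) := by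
  classical
  induction J using Finset.induction_on with
  | empty => simp [h.zero]
  | insert a s ha ih =>
    rw [Finset.sum_insert ha, Finset.sum_insert ha]
    have h1 : ∀ j ∈ s, 0 ≤ g j := fun j hj => hg j (Finset.mem_insert_of_mem hj)
    have h2 := h.sup_add (hg a (Finset.mem_insert_self a s)) (Finset.sum_nonneg h1)
    linarith [ih h1]

lemma sp_nonneg (h : AW W) (hg : ∀ j ∈ J, 0 ≤ g j) : 0 ≤ sp W J g :=
  sub_nonneg.2 (sup_sum h hg)

/-- **no dominant part** -/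
theorem sp_no (hS : SW W) (h : AW W) (hg : ∀ j ∈ J, 0 ≤ g j)
    (hd : ∀ j ∈ J, 2 * g j ≤ ∑ i ∈ J, g i) : W (∑ j ∈ J, g j) ≤ 4 * sp W J g := by
  set f := ∑ j ∈ J, g j with hf
  have f0 : 0 ≤ f := Finset.sum_nonneg hg
  rcases f0.eq_or_lt with h0 | h0
  · have e : ∀ j ∈ J, g j = 0 := fun j hj => by
      have := (Finset.sum_eq_zero_iff_of_nonneg hg).1 (hf ▸ h0.symm) j hj
      exact this
    have e2 : ∑ j ∈ J, W (g j) = 0 := Finset.sum_eq_zero fun j hj => by rw [e j hj, h.zero]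
    unfold sp
    rw [← hf, e2, ← h0, h.zero]; norm_num
  · have W0 : 0 ≤ W f := h.nonneg f0
    have key : ∀ j ∈ J, W (g j) ≤ g j / f * (5 / 7) * W f := by
      intro j hj
      have l0 : 0 ≤ g j / f := div_nonneg (hg j hj) f0
      have l1 : g j / f ≤ 1 / 2 := by
        rw [div_le_iff₀ h0]; linarith [hd j hj]
      have s1 := hS l0 (by linarith) f0
      have e1 : g j / f * f = g j := by field_simp
      rw [e1] at s1
      have q : Real.sqrt (g j / f) ≤ 5 / 7 := by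
        rw [Real.sqrt_le_left (by norm_num)]; nlinarith
      exact s1.trans (mul_le_mul_of_nonneg_right (mul_le_mul_of_nonneg_left q l0) W0)
    have k2 := Finset.sum_le_sum key
    have e3 : ∑ j ∈ J, g j / f * (5 / 7) * W f = 5 / 7 * W f := by
      rw [← Finset.sum_mul, ← Finset.sum_mul, ← Finset.sum_div, ← hf, div_self h0.ne']
      ring
    rw [e3] at k2
    unfold sp
    rw [← hf]
    linarith

/-- **the dominant part** -/
theorem sp_dom (hS : SW W) (h : AW W) (hg : ∀ j ∈ J, 0 ≤ g j) {d : ι} (hd : d ∈ J)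
    (hd2 : ∑ i ∈ J, g i ≤ 2 * g d) : W (∑ j ∈ J, g j) - W (g d) ≤ 3 * sp W J g := by
  classical
  have e1 : g d + ∑ j ∈ J.erase d, g j = ∑ j ∈ J, g j := Finset.add_sum_erase J g hd
  have e2 : W (g d) + ∑ j ∈ J.erase d, W (g j) = ∑ j ∈ J, W (g j) :=
    Finset.add_sum_erase J (fun j => W (g j)) hd
  have hg' : ∀ j ∈ J.erase d, 0 ≤ g j := fun j hj => hg j (Finset.mem_of_mem_erase hj)
  have h1 := sup_sum h hg'
  set δ := ∑ j ∈ J.erase d, g j with hδ
  have hδ0 : 0 ≤ δ := Finset.sum_nonneg hg'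
  have h2 := dom_gap hS h hδ0 (f := ∑ j ∈ J, g j) (by linarith)
  have e3 : ∑ j ∈ J, g j - δ = g d := by linarith
  rw [e3] at h2
  unfold sp
  linarith

end split

/-- the kernel is Lipschitz in units of `W` -/
lemma kk_lip (h : AW W) {f f' g g' : ℝ} (hg : 0 ≤ g) (hg' : 0 ≤ g') (hf : g ≤ f) (hf' : g' ≤ f') :
    W (min f f') - W (min g g') ≤ (W f - W g) + (W f' - W g') := by
  have a1 := h.mono hg hf
  have a2 := h.mono hg' hf'
  rcases le_total g g' with h1 | h1
  · rw [min_eq_left h1]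
    have := h.mono (le_min (hg.trans hf) (hg'.trans hf')) (min_le_left f f')
    linarith
  · rw [min_eq_right h1]
    have := h.mono (le_min (hg.trans hf) (hg'.trans hf')) (min_le_right f f')
    linarith

/-- **SPLIT, both contents have a dominant part** -/
theorem splitDom (hS : SW W) (h : AW W) {ι ι' : Type*} {J : Finset ι} {J' : Finset ι'}
    {g : ι → ℝ} {g' : ι' → ℝ} (hg : ∀ j ∈ J, 0 ≤ g j) (hg' : ∀ j ∈ J', 0 ≤ g' j)
    {d : ι} {d' : ι'} (hd : d ∈ J) (hd' : d' ∈ J') (hd2 : ∑ i ∈ J, g i ≤ 2 * g d)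
    (hd2' : ∑ i ∈ J', g' i ≤ 2 * g' d') :
    W (min (∑ j ∈ J, g j) (∑ j ∈ J', g' j)) - W (min (g d) (g' d')) ≤
      3 * (sp W J g + sp W J' g') := by
  have k := kk_lip h (hg d hd) (hg' d' hd') (Finset.single_le_sum hg hd)
    (Finset.single_le_sum hg' hd')
  linarith [sp_dom hS h hg hd hd2, sp_dom hS h hg' hd' hd2']

/-- only the first content splits -/
theorem splitDom1 (hS : SW W) (h : AW W) {ι : Type*} {J : Finset ι} {g : ι → ℝ} {f' : ℝ}
    (hf' : 0 ≤ f') (hg : ∀ j ∈ J, 0 ≤ g j) {d : ι} (hd : d ∈ J)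
    (hd2 : ∑ i ∈ J, g i ≤ 2 * g d) :
    W (min (∑ j ∈ J, g j) f') - W (min (g d) f') ≤ 3 * sp W J g := by
  have k := kk_lip h (hg d hd) hf' (Finset.single_le_sum hg hd) (le_refl f')
  linarith [sp_dom hS h hg hd hd2]

/-- **SPLIT, the first content has no dominant part** -/
theorem splitNo (hS : SW W) (h : AW W) {ι : Type*} {J : Finset ι} {g : ι → ℝ} {f' : ℝ}
    (hf' : 0 ≤ f') (hg : ∀ j ∈ J, 0 ≤ g j) (hd : ∀ j ∈ J, 2 * g j ≤ ∑ i ∈ J, g i) :
    W (min (∑ j ∈ J, g j) f') ≤ 4 * sp W J g :=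
  (h.mono (le_min (Finset.sum_nonneg hg) hf') (min_le_left _ _)).trans (sp_no hS h hg hd)

/-- uniqueness of a strictly dominant part -/
lemma dom_unique {ι : Type*} {J : Finset ι} {g : ι → ℝ} (hg : ∀ j ∈ J, 0 ≤ g j) {d e : ι}
    (hd : d ∈ J) (he : e ∈ J) (h1 : ∑ i ∈ J, g i < 2 * g d) (h2 : ∑ i ∈ J, g i < 2 * g e) :
    d = e := by
  classical
  by_contra hne
  have hs : g d + g e ≤ ∑ i ∈ J, g i := by
    have e1 : g d + ∑ j ∈ J.erase d, g j = ∑ j ∈ J, g j := Finset.add_sum_erase J g hd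
    have e2 : g e ≤ ∑ j ∈ J.erase d, g j :=
      Finset.single_le_sum (fun j hj => hg j (Finset.mem_of_mem_erase hj))
        (Finset.mem_erase.2 ⟨fun h => hne h.symm, he⟩)
    linarith
  linarith

end Crest.Agent.R4P.KerW878
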