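import Crest.Agent.R4P.Ker2_51

/-!
R4 (S0004), A-part, helper51: **the tie inequality for an abstract kernel and spread lifts**.

`KP φ u` : kernel `k(x,y) = φ (min x y)` and potential `u`.  Instances: `KP_trunc` (truncated square and
Huber function), `KP_conv` (`φ = u = W` convex, monotone; helper878's one-kernel form).

Lifts: finite set `s`, probabilities `π i`, and `la i ∈ [0,1]` with `Σ π i * la i = w`
(`p` lifts: `π i = 1/p`, `w = 1/p`, `la i = g (x_i) / b`); the parent at the lift `i` is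
`Fl w a b la i = offv w a b + max (b - a) 0 * la i`.

* `tieS` : the tie; * `singleS`, `single_low` ; * `cutNS`, `cutSetS` : cuts; * `splitS`, `joinS`.
-/

set_option autoImplicit false
set_option linter.unusedVariables false

open Set

namespace Crest.Agent.R4P.Ker51

/-- kernel function and potential -/
structure KP (φ u : ℝ → ℝ) : Prop where
  zero : φ 0 = 0
  uzero : u 0 = 0
  mono : MonotoneOn φ (Ici (0 : ℝ))
  conv : ∀ m : ℝ, 0 ≤ m → ConvexOn ℝ (Ici (0 : ℝ)) fun x => u x - φ (min x m)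

variable {φ u : ℝ → ℝ}

/-- the gain of two items at one lift -/
noncomputable def Gk (φ : ℝ → ℝ) (o h o' h' : ℝ) : ℝ := max 0 (φ (min h h') - φ (max o o'))

/-- the parent at the lift `i` -/
noncomputable def Fl {ι : Type*} (w a b : ℝ) (la : ι → ℝ) (i : ι) : ℝ :=
  offv w a b + max (b - a) 0 * la i

/-- exact loss of the potential -/
noncomputable def Ds {ι : Type*} (u : ℝ → ℝ) (s : Finset ι) (π : ι → ℝ) (w a b : ℝ) (la : ι → ℝ) : ℝ :=
  (1 - w) * u a + w * u b - ∑ i ∈ s, π i * u (Fl w a b la i)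

lemma KP.mono' (h : KP φ u) {x y : ℝ} (hx : 0 ≤ x) (hxy : x ≤ y) : φ x ≤ φ y :=
  h.mono (mem_Ici.2 hx) (mem_Ici.2 (hx.trans hxy)) hxy

lemma KP.nonneg (h : KP φ u) {x : ℝ} (hx : 0 ≤ x) : 0 ≤ φ x := by
  rw [← h.zero]; exact h.mono' le_rfl hx

lemma Gk_nonneg (o h o' h' : ℝ) : 0 ≤ Gk φ o h o' h' := le_max_left _ _

/-- four-term identity -/
lemma KP.four (h : KP φ u) {o hh o' hh' : ℝ} (ho : 0 ≤ o) (hoh : o ≤ hh) (ho' : 0 ≤ o')
    (hoh' : o' ≤ hh') :
    φ (min hh hh') = φ (min o hh') + φ (min hh o') - φ (min o o') + Gk φ o hh o' hh' := by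
  unfold Gk
  have h0 : 0 ≤ hh := ho.trans hoh
  have h0' : 0 ≤ hh' := ho'.trans hoh'
  rcases le_total o o' with h1 | h1
  · rw [min_eq_left h1, min_eq_left (h1.trans hoh'), max_eq_right h1]
    rcases le_total hh o' with h2 | h2
    · rw [min_eq_left h2, min_eq_left (h2.trans hoh'),
        max_eq_left (sub_nonpos.2 (h.mono' h0 h2))]
      ring
    · rw [min_eq_right h2, max_eq_right (sub_nonneg.2 (h.mono' ho' (le_min h2 hoh')))]
      ring
  · rw [min_eq_right h1, min_eq_right (h1.trans hoh), max_eq_left h1]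
    rcases le_total hh' o with h2 | h2
    · rw [min_eq_right h2, min_eq_right (h2.trans hoh),
        max_eq_left (sub_nonpos.2 (h.mono' h0' h2))]
      ring
    · rw [min_eq_left h2, max_eq_right (sub_nonneg.2 (h.mono' ho (le_min hoh h2)))]
      ring

section lifts
variable {ι : Type*} {s : Finset ι} {π : ι → ℝ} {w : ℝ}

/-- the lift data of an item -/
def LOk (s : Finset ι) (π : ι → ℝ) (w a b : ℝ) (la : ι → ℝ) : Prop :=
  a < b → (∀ i ∈ s, 0 ≤ la i ∧ la i ≤ 1) ∧ ∑ i ∈ s, π i * la i = w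

lemma Fl_of_ge {a b : ℝ} {la : ι → ℝ} (h : b ≤ a) (i : ι) :
    Fl w a b la i = (1 - w) * a + w * b := by
  unfold Fl; rw [off_of_ge h, max_eq_right (sub_nonpos.2 h)]; ring

lemma Fl_of_lt {a b : ℝ} {la : ι → ℝ} (h : a < b) (i : ι) :
    Fl w a b la i = (1 - la i) * a + la i * b := by
  unfold Fl; rw [off_of_le h.le, max_eq_left (sub_nonneg.2 h.le)]; ring

lemma off_le_Fl {a b : ℝ} {la : ι → ℝ} (hl : LOk s π w a b la) {i : ι} (hi : i ∈ s) :
    offv w a b ≤ Fl w a b la i := by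
  unfold Fl
  rcases lt_or_ge a b with h | h
  · have := mul_nonneg (le_max_right (b - a) 0) ((hl h).1 i hi).1
    linarith
  · rw [max_eq_right (sub_nonpos.2 h)]; linarith

lemma Fl_nonneg {a b : ℝ} {la : ι → ℝ} (hw : 0 ≤ w) (hw1 : w ≤ 1) (ha : 0 ≤ a) (hb : 0 ≤ b)
    (hl : LOk s π w a b la) {i : ι} (hi : i ∈ s) : 0 ≤ Fl w a b la i :=
  (off_nonneg hw hw1 ha hb).trans (off_le_Fl hl hi)

/-- the mean of a convex function over the lifts -/
lemma conv_lifts {ψ : ℝ → ℝ} (hψ : ConvexOn ℝ (Ici (0 : ℝ)) ψ) (hπ : ∀ i ∈ s, 0 ≤ π i)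
    (hπ1 : ∑ i ∈ s, π i = 1) (hw : 0 ≤ w) (hw1 : w ≤ 1) {a b : ℝ} (ha : 0 ≤ a) (hb : 0 ≤ b)
    {la : ι → ℝ} (hl : LOk s π w a b la) :
    ∑ i ∈ s, π i * ψ (Fl w a b la i) ≤ (1 - w) * ψ a + w * ψ b := by
  rcases lt_or_ge a b with h | h
  · obtain ⟨h1, h2⟩ := hl h
    have h3 : ∀ i ∈ s, π i * ψ (Fl w a b la i) ≤
        π i * ψ a + (π i * la i) * (ψ b - ψ a) := by
      intro i hi
      have hc := hψ.2 (mem_Ici.2 ha) (mem_Ici.2 hb) (sub_nonneg.2 (h1 i hi).2) (h1 i hi).1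
        (by ring)
      simp only [smul_eq_mul] at hc
      rw [Fl_of_lt h]
      have := mul_le_mul_of_nonneg_left hc (hπ i hi)
      linarith
    refine (Finset.sum_le_sum h3).trans ?_
    rw [Finset.sum_add_distrib, ← Finset.sum_mul, ← Finset.sum_mul, hπ1, h2]
    linarith
  · have hc := hψ.2 (mem_Ici.2 ha) (mem_Ici.2 hb) (sub_nonneg.2 hw1) hw (by ring)
    simp only [smul_eq_mul] at hc
    simp only [Fl_of_ge h]
    rw [← Finset.sum_mul, hπ1, one_mul]
    exact hc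

lemma Ds_nonneg (h : KP φ u) (hπ : ∀ i ∈ s, 0 ≤ π i) (hπ1 : ∑ i ∈ s, π i = 1) (hw : 0 ≤ w)
    (hw1 : w ≤ 1) {a b : ℝ} (ha : 0 ≤ a) (hb : 0 ≤ b) {la : ι → ℝ} (hl : LOk s π w a b la) :
    0 ≤ Ds u s π w a b la := by
  have hc : ConvexOn ℝ (Ici (0 : ℝ)) u := by
    have := h.conv 0 le_rfl
    refine this.congr fun x hx => ?_
    simp only [min_eq_right (mem_Ici.1 hx), h.zero, sub_zero]
  have := conv_lifts hc hπ hπ1 hw hw1 ha hb hl
  unfold Ds
  linarith

/-- **one item against a fixed height** -/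
theorem singleS (h : KP φ u) (hπ : ∀ i ∈ s, 0 ≤ π i) (hπ1 : ∑ i ∈ s, π i = 1) (hw : 0 ≤ w)
    (hw1 : w ≤ 1) {a b y : ℝ} (ha : 0 ≤ a) (hb : 0 ≤ b) (hy : 0 ≤ y) {la : ι → ℝ}
    (hl : LOk s π w a b la) :
    - Ds u s π w a b la ≤ ∑ i ∈ s, π i * φ (min (Fl w a b la i) y)
      - (1 - w) * φ (min a y) - w * φ (min b y) := by
  have h1 := conv_lifts (h.conv y hy) hπ hπ1 hw hw1 ha hb hl
  simp only [mul_sub, Finset.sum_sub_distrib] at h1
  unfold Ds
  linarith

/-- small partners are never charged -/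
theorem single_low (h : KP φ u) (hπ : ∀ i ∈ s, 0 ≤ π i) (hπ1 : ∑ i ∈ s, π i = 1) (hw : 0 ≤ w)
    (hw1 : w ≤ 1) {a b y : ℝ} (ha : 0 ≤ a) (hb : 0 ≤ b) (hy : 0 ≤ y) {la : ι → ℝ}
    (hl : LOk s π w a b la) (hyo : y ≤ offv w a b) :
    0 ≤ ∑ i ∈ s, π i * φ (min (Fl w a b la i) y)
      - (1 - w) * φ (min a y) - w * φ (min b y) := by
  have h1 : ∀ i ∈ s, π i * φ (min (Fl w a b la i) y) = π i * φ y := fun i hi => by
    rw [min_eq_right (hyo.trans (off_le_Fl hl hi))]
  rw [Finset.sum_congr rfl h1, ← Finset.sum_mul, hπ1, one_mul]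
  have h2 := mul_le_mul_of_nonneg_left (h.mono' (le_min ha hy) (min_le_right a y))
    (sub_nonneg.2 hw1)
  have h3 := mul_le_mul_of_nonneg_left (h.mono' (le_min hb hy) (min_le_right b y)) hw
  linarith

/-- **THE TIE, spread lifts** -/
theorem tieS (h : KP φ u) (hπ : ∀ i ∈ s, 0 ≤ π i) (hπ1 : ∑ i ∈ s, π i = 1) (hw : 0 ≤ w)
    (hw1 : w ≤ 1) {a b a' b' : ℝ} (ha : 0 ≤ a) (hb : 0 ≤ b) (ha' : 0 ≤ a') (hb' : 0 ≤ b')
    {la la' : ι → ℝ} (hl : LOk s π w a b la) (hl' : LOk s π w a' b' la') :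
    ∑ i ∈ s, π i * Gk φ (offv w a b) (Fl w a b la i) (offv w a' b') (Fl w a' b' la' i)
      - ∑ i ∈ s, ∑ j ∈ s, π i * π j *
        Gk φ (offv w a b) (Fl w a b la i) (offv w a' b') (Fl w a' b' la' j)
      - Ds u s π w a b la - Ds u s π w a' b' la' ≤
    ∑ i ∈ s, π i * φ (min (Fl w a b la i) (Fl w a' b' la' i))
      - ((1 - w) ^ 2 * φ (min a a') + w * (1 - w) * (φ (min a b') + φ (min b a'))
        + w ^ 2 * φ (min b b')) := by
  set o := offv w a b with ho
  set o' := offv w a' b' with ho'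
  set F : ι → ℝ := Fl w a b la with hF
  set F' : ι → ℝ := Fl w a' b' la' with hF'
  have o0 : 0 ≤ o := off_nonneg hw hw1 ha hb
  have o0' : 0 ≤ o' := off_nonneg hw hw1 ha' hb'
  have hwn : 0 ≤ 1 - w := sub_nonneg.2 hw1
  have four : ∀ i ∈ s, ∀ j ∈ s, φ (min (F i) (F' j)) =
      φ (min o (F' j)) + φ (min (F i) o') - φ (min o o') + Gk φ o (F i) o' (F' j) :=
    fun i hi j hj => h.four o0 (off_le_Fl hl hi) o0' (off_le_Fl hl' hj)
  set A := ∑ j ∈ s, π j * φ (min o (F' j)) with hA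
  set B := ∑ i ∈ s, π i * φ (min (F i) o') with hB
  have d1 : ∑ i ∈ s, π i * φ (min (F i) (F' i)) =
      A + B - φ (min o o') + ∑ i ∈ s, π i * Gk φ o (F i) o' (F' i) := by
    rw [hA, hB, ← Finset.sum_add_distrib]
    have : φ (min o o') = ∑ i ∈ s, π i * φ (min o o') := by rw [← Finset.sum_mul, hπ1, one_mul]
    rw [this, ← Finset.sum_sub_distrib, ← Finset.sum_add_distrib]
    exact Finset.sum_congr rfl fun i hi => by rw [four i hi i hi]; ring
  have d2 : ∑ i ∈ s, ∑ j ∈ s, π i * π j * φ (min (F i) (F' j)) =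
      A + B - φ (min o o') + ∑ i ∈ s, ∑ j ∈ s, π i * π j * Gk φ o (F i) o' (F' j) := by
    have e1 : ∀ i ∈ s, ∑ j ∈ s, π i * π j * φ (min (F i) (F' j)) =
        π i * A + π i * φ (min (F i) o') - π i * φ (min o o') +
          ∑ j ∈ s, π i * π j * Gk φ o (F i) o' (F' j) := by
      intro i hi
      have e2 : ∀ j ∈ s, π i * π j * φ (min (F i) (F' j)) =
          π i * (π j * φ (min o (F' j))) + π j * (π i * φ (min (F i) o')) -
            π j * (π i * φ (min o o')) + π i * π j * Gk φ o (F i) o' (F' j) := by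
        intro j hj; rw [four i hi j hj]; ring
      rw [Finset.sum_congr rfl e2, Finset.sum_add_distrib, Finset.sum_sub_distrib,
        Finset.sum_add_distrib, ← Finset.mul_sum, ← Finset.sum_mul, ← Finset.sum_mul, hπ1,
        one_mul, one_mul]
    rw [Finset.sum_congr rfl e1, Finset.sum_add_distrib, Finset.sum_sub_distrib,
      Finset.sum_add_distrib, ← Finset.sum_mul, ← Finset.sum_mul, hπ1, one_mul, one_mul]
  -- lower bound of the product term
  have s1 : ∀ j ∈ s, (1 - w) * φ (min a (F' j)) + w * φ (min b (F' j)) - Ds u s π w a b la ≤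
      ∑ i ∈ s, π i * φ (min (F i) (F' j)) := by
    intro j hj
    have := singleS h hπ hπ1 hw hw1 ha hb (Fl_nonneg hw hw1 ha' hb' hl' hj) hl
    linarith
  have s2 : ∀ x : ℝ, 0 ≤ x → (1 - w) * φ (min x a') + w * φ (min x b') - Ds u s π w a' b' la' ≤
      ∑ j ∈ s, π j * φ (min x (F' j)) := by
    intro x hx
    have := singleS h hπ hπ1 hw hw1 ha' hb' hx hl'
    simp only [min_comm _ x] at this
    linarith
  have d3 : ∑ i ∈ s, ∑ j ∈ s, π i * π j * φ (min (F i) (F' j)) =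
      ∑ j ∈ s, π j * ∑ i ∈ s, π i * φ (min (F i) (F' j)) := by
    rw [Finset.sum_comm]
    refine Finset.sum_congr rfl fun j _ => ?_
    rw [Finset.mul_sum]
    exact Finset.sum_congr rfl fun i _ => by ring
  have d4 : ∑ j ∈ s, π j * ((1 - w) * φ (min a (F' j)) + w * φ (min b (F' j))
      - Ds u s π w a b la) ≤ ∑ i ∈ s, ∑ j ∈ s, π i * π j * φ (min (F i) (F' j)) := by
    rw [d3]
    exact Finset.sum_le_sum fun j hj => mul_le_mul_of_nonneg_left (s1 j hj) (hπ j hj)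
  have d5 : ∑ j ∈ s, π j * ((1 - w) * φ (min a (F' j)) + w * φ (min b (F' j))
      - Ds u s π w a b la) = (1 - w) * ∑ j ∈ s, π j * φ (min a (F' j)) +
        w * ∑ j ∈ s, π j * φ (min b (F' j)) - Ds u s π w a b la := by
    have e : ∀ j ∈ s, π j * ((1 - w) * φ (min a (F' j)) + w * φ (min b (F' j))
      - Ds u s π w a b la) = (1 - w) * (π j * φ (min a (F' j))) +
        w * (π j * φ (min b (F' j))) - π j * Ds u s π w a b la := fun j _ => by ring
    rw [Finset.sum_congr rfl e, Finset.sum_sub_distrib, Finset.sum_add_distrib,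
      ← Finset.mul_sum, ← Finset.mul_sum, ← Finset.sum_mul, hπ1, one_mul]
  have t1 := mul_le_mul_of_nonneg_left (s2 a ha) hwn
  have t2 := mul_le_mul_of_nonneg_left (s2 b hb) hw
  nlinarith [d1, d2, d4, d5, t1, t2]

lemma Gk_self_left (h : KP φ u) {o o' h' : ℝ} (ho : 0 ≤ o) (ho' : 0 ≤ h') :
    Gk φ o o o' h' = 0 := by
  unfold Gk
  exact max_eq_left (sub_nonpos.2 (h.mono' (le_min ho ho')
    ((min_le_left _ _).trans (le_max_left _ _))))

lemma Gk_self_right (h : KP φ u) {o hh o' : ℝ} (ho : 0 ≤ hh) (ho' : 0 ≤ o') :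
    Gk φ o hh o' o' = 0 := by
  unfold Gk
  exact max_eq_left (sub_nonpos.2 (h.mono' (le_min ho ho')
    ((min_le_right _ _).trans (le_max_right _ _))))

lemma Gk_le (h : KP φ u) {o hh o' h' : ℝ} (ho : 0 ≤ o) (hh0 : 0 ≤ hh) (hh0' : 0 ≤ h') :
    Gk φ o hh o' h' ≤ φ (min hh h') := by
  unfold Gk
  refine max_le (h.nonneg (le_min hh0 hh0')) ?_
  linarith [h.nonneg (ho.trans (le_max_left o o'))]

open Classical in
/-- the double sum (different lifts) is of second order -/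
theorem dbl_le (h : KP φ u) (hπ : ∀ i ∈ s, 0 ≤ π i) (hπ1 : ∑ i ∈ s, π i = 1) (hw : 0 ≤ w)
    (hw1 : w ≤ 1) {a b a' b' : ℝ} (ha : 0 ≤ a) (hb : 0 ≤ b) (ha' : 0 ≤ a') (hb' : 0 ≤ b')
    {la la' : ι → ℝ} (hl : LOk s π w a b la) (hl' : LOk s π w a' b' la')
    {T T' : Finset ι} (hTs : T ⊆ s) (hTs' : T' ⊆ s)
    (hT : ∀ i ∈ s, i ∉ T → la i = 0) (hT' : ∀ i ∈ s, i ∉ T' → la' i = 0) :
    ∑ i ∈ s, ∑ j ∈ s, π i * π j *
        Gk φ (offv w a b) (Fl w a b la i) (offv w a' b') (Fl w a' b' la' j) ≤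
      (∑ i ∈ T, π i) * (∑ j ∈ T', π j) * φ (min b b') := by
  have hTn : 0 ≤ ∑ i ∈ T, π i := Finset.sum_nonneg fun i hi => hπ i (hTs hi)
  have hTn' : 0 ≤ ∑ i ∈ T', π i := Finset.sum_nonneg fun i hi => hπ i (hTs' hi)
  have hR : 0 ≤ (∑ i ∈ T, π i) * (∑ j ∈ T', π j) * φ (min b b') :=
    mul_nonneg (mul_nonneg hTn hTn') (h.nonneg (le_min hb hb'))
  have o0 := off_nonneg hw hw1 ha hb
  have o0' := off_nonneg hw hw1 ha' hb'
  have key : ∀ i ∈ s, ∀ j ∈ s, Gk φ (offv w a b) (Fl w a b la i) (offv w a' b') (Fl w a' b' la' j) ≤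
      (if i ∈ T then 1 else 0) * (if j ∈ T' then 1 else 0) * φ (min b b') := by
    intro i hi j hj
    have f0 := Fl_nonneg hw hw1 ha hb hl hi
    have f0' := Fl_nonneg hw hw1 ha' hb' hl' hj
    have z1 : la i = 0 ∨ b ≤ a → Gk φ (offv w a b) (Fl w a b la i) (offv w a' b')
        (Fl w a' b' la' j) = 0 := by
      intro hz
      have e : Fl w a b la i = offv w a b := by
        unfold Fl
        rcases hz with hz | hz
        · rw [hz]; ring
        · rw [max_eq_right (sub_nonpos.2 hz)]; ring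
      rw [e]
      exact Gk_self_left h o0 f0'
    have z2 : la' j = 0 ∨ b' ≤ a' → Gk φ (offv w a b) (Fl w a b la i) (offv w a' b')
        (Fl w a' b' la' j) = 0 := by
      intro hz
      have e : Fl w a' b' la' j = offv w a' b' := by
        unfold Fl
        rcases hz with hz | hz
        · rw [hz]; ring
        · rw [max_eq_right (sub_nonpos.2 hz)]; ring
      rw [e]
      exact Gk_self_right h f0 o0'
    have nn : 0 ≤ φ (min b b') := h.nonneg (le_min hb hb')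
    by_cases c1 : i ∈ T
    · by_cases c2 : j ∈ T'
      · rw [if_pos c1, if_pos c2, one_mul, one_mul]
        rcases lt_or_ge a b with h1 | h1
        · rcases lt_or_ge a' b' with h2 | h2
          · refine (Gk_le h o0 f0 f0').trans (h.mono' (le_min f0 f0') (min_le_min ?_ ?_))
            · rw [Fl_of_lt h1]; nlinarith [((hl h1).1 i hi).2]
            · rw [Fl_of_lt h2]; nlinarith [((hl' h2).1 j hj).2]
          · rw [z2 (Or.inr h2)]; exact nn
        · rw [z1 (Or.inr h1)]; exact nn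
      · rw [if_neg c2, mul_zero, zero_mul, z2 (Or.inl (hT' j hj c2))]
    · rw [if_neg c1, zero_mul, zero_mul, z1 (Or.inl (hT i hi c1))]
  have k1 : ∑ i ∈ s, ∑ j ∈ s, π i * π j *
        Gk φ (offv w a b) (Fl w a b la i) (offv w a' b') (Fl w a' b' la' j) ≤
      ∑ i ∈ s, ∑ j ∈ s, π i * π j *
        ((if i ∈ T then 1 else 0) * (if j ∈ T' then 1 else 0) * φ (min b b')) :=
    Finset.sum_le_sum fun i hi => Finset.sum_le_sum fun j hj =>
      mul_le_mul_of_nonneg_left (key i hi j hj) (mul_nonneg (hπ i hi) (hπ j hj))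
  refine k1.trans (le_of_eq ?_)
  have e1 : ∑ i ∈ T, π i = ∑ i ∈ s, π i * (if i ∈ T then 1 else 0) := by
    simp only [mul_ite, mul_one, mul_zero]
    rw [← Finset.sum_filter, Finset.filter_mem_eq_inter, Finset.inter_eq_right.2 hTs]
  have e2 : ∑ i ∈ T', π i = ∑ i ∈ s, π i * (if i ∈ T' then 1 else 0) := by
    simp only [mul_ite, mul_one, mul_zero]
    rw [← Finset.sum_filter, Finset.filter_mem_eq_inter, Finset.inter_eq_right.2 hTs']
  rw [e1, e2, Finset.sum_mul_sum, Finset.sum_mul]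
  refine Finset.sum_congr rfl fun i _ => ?_
  rw [Finset.sum_mul]
  exact Finset.sum_congr rfl fun j _ => by ring

/-! ### cuts at an unmatched item -/

lemma Ds_un (h : KP φ u) (hπ1 : ∑ i ∈ s, π i = 1) {a : ℝ} (ha : 0 ≤ a) (la : ι → ℝ) :
    Ds u s π w a 0 la = (1 - w) * u a - u ((1 - w) * a) := by
  unfold Ds
  simp only [Fl_of_ge ha, mul_zero, add_zero, h.uzero]
  rw [← Finset.sum_mul, hπ1, one_mul]

/-- the relation of an unmatched item with an `N`-content is cut -/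
theorem cutNS (h : KP φ u) (hπ1 : ∑ i ∈ s, π i = 1) (hw : 0 ≤ w) (hw1 : w ≤ 1) {K a b' : ℝ}
    (ha : 0 ≤ a) (hb' : 0 ≤ b') (la : ι → ℝ)
    (hK : w * (1 - w) * φ a ≤ K * ((1 - w) * u a - u ((1 - w) * a))) :
    w * (1 - w) * φ (min a b') ≤ K * Ds u s π w a 0 la := by
  rw [Ds_un h hπ1 ha]
  exact (mul_le_mul_of_nonneg_left (h.mono' (le_min ha hb') (min_le_left _ _))
    (mul_nonneg hw (sub_nonneg.2 hw1))).trans hK

/-- unmatched item, relation kept -/
theorem tieS_un (h : KP φ u) (hπ : ∀ i ∈ s, 0 ≤ π i) (hπ1 : ∑ i ∈ s, π i = 1) (hw : 0 ≤ w)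
    (hw1 : w ≤ 1) {a a' b' : ℝ} (ha : 0 ≤ a) (ha' : 0 ≤ a') (hb' : 0 ≤ b')
    {la' : ι → ℝ} (la : ι → ℝ) (hl' : LOk s π w a' b' la') :
    (1 - w) ^ 2 * φ (min a a') + w * (1 - w) * φ (min a b')
      - Ds u s π w a 0 la - Ds u s π w a' b' la' ≤
    ∑ i ∈ s, π i * φ (min ((1 - w) * a) (Fl w a' b' la' i)) := by
  have hl : LOk s π w a 0 la := fun hlt => absurd hlt (not_lt.2 ha)
  have ht := tieS h hπ hπ1 hw hw1 ha le_rfl ha' hb' hl hl'
  have e : ∀ i, Fl w a 0 la i = (1 - w) * a := fun i => by rw [Fl_of_ge ha]; ring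
  have eo : offv w a 0 = (1 - w) * a := by rw [off_of_ge ha]; ring
  have o0 : 0 ≤ (1 - w) * a := mul_nonneg (sub_nonneg.2 hw1) ha
  simp only [e, eo] at ht
  have z : ∀ i ∈ s, Gk φ ((1 - w) * a) ((1 - w) * a) (offv w a' b') (Fl w a' b' la' i) = 0 :=
    fun i hi => Gk_self_left h o0 (Fl_nonneg hw hw1 ha' hb' hl' hi)
  have z1 : ∑ i ∈ s, π i * Gk φ ((1 - w) * a) ((1 - w) * a) (offv w a' b')
      (Fl w a' b' la' i) = 0 := Finset.sum_eq_zero fun i hi => by rw [z i hi, mul_zero]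
  have z2 : ∑ i ∈ s, ∑ j ∈ s, π i * π j * Gk φ ((1 - w) * a) ((1 - w) * a) (offv w a' b')
      (Fl w a' b' la' j) = 0 := Finset.sum_eq_zero fun i _ =>
    Finset.sum_eq_zero fun j hj => by rw [z j hj, mul_zero]
  rw [z1, z2, min_eq_left ha', min_eq_left hb', h.zero] at ht
  linarith

/-- **cut on a set of lifts**: the relation of the unmatched item is kept only off `T` -/
theorem cutSetS [DecidableEq ι] (h : KP φ u) (hπ : ∀ i ∈ s, 0 ≤ π i) (hπ1 : ∑ i ∈ s, π i = 1)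
    (hw : 0 ≤ w) (hw1 : w ≤ 1) {a a' b' : ℝ} (ha : 0 ≤ a) (ha' : 0 ≤ a') (hb' : 0 ≤ b')
    {la' : ι → ℝ} (la : ι → ℝ) (hl' : LOk s π w a' b' la') {T : Finset ι} (hT : T ⊆ s) :
    (1 - w) ^ 2 * φ (min a a') + w * (1 - w) * φ (min a b')
      - Ds u s π w a 0 la - Ds u s π w a' b' la' - (∑ i ∈ T, π i) * φ ((1 - w) * a) ≤
    ∑ i ∈ s \ T, π i * φ (min ((1 - w) * a) (Fl w a' b' la' i)) := by
  have h1 := tieS_un h hπ hπ1 hw hw1 ha ha' hb' la hl'
  have o0 : 0 ≤ (1 - w) * a := mul_nonneg (sub_nonneg.2 hw1) ha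
  have h2 := Finset.sum_sdiff (f := fun i => π i * φ (min ((1 - w) * a) (Fl w a' b' la' i))) hT
  have h3 : ∑ i ∈ T, π i * φ (min ((1 - w) * a) (Fl w a' b' la' i)) ≤
      (∑ i ∈ T, π i) * φ ((1 - w) * a) := by
    rw [Finset.sum_mul]
    exact Finset.sum_le_sum fun i hi => mul_le_mul_of_nonneg_left
      (h.mono' (le_min o0 (Fl_nonneg hw hw1 ha' hb' hl' (hT hi))) (min_le_left _ _)) (hπ i (hT hi))
  linarith

end lifts

/-! ### in-node splits and joins -/

lemma conv_super {f : ℝ → ℝ} (hf : ConvexOn ℝ (Ici (0 : ℝ)) f) (h0 : f 0 = 0) {a b : ℝ}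
    (ha : 0 ≤ a) (hb : 0 ≤ b) : f a + f b ≤ f (a + b) := by
  rcases (add_nonneg ha hb).eq_or_lt with h | h
  · have ha' : a = 0 := by linarith
    have hb' : b = 0 := by linarith
    simp [ha', hb', h0]
  · have key : ∀ x y : ℝ, 0 ≤ x → 0 ≤ y → x + y = a + b → f x ≤ x / (a + b) * f (a + b) := by
      intro x y hx hy hxy
      have ha1 : 0 ≤ y / (a + b) := div_nonneg hy h.le
      have hb1 : 0 ≤ x / (a + b) := div_nonneg hx h.le
      have hs : y / (a + b) + x / (a + b) = 1 := by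
        rw [← add_div, add_comm y x, hxy, div_self h.ne']
      have h1 := hf.2 (mem_Ici.2 (le_refl (0 : ℝ))) (mem_Ici.2 h.le) ha1 hb1 hs
      simp only [smul_eq_mul, mul_zero, zero_add, h0] at h1
      rwa [div_mul_cancel₀ _ h.ne'] at h1
    have h1 := key a b ha hb rfl
    have h2 := key b a hb ha (add_comm b a)
    have e : a / (a + b) * f (a + b) + b / (a + b) * f (a + b) = f (a + b) := by
      rw [← add_mul, ← add_div, div_self h.ne', one_mul]
    linarith

/-- a split going up, both parts keep the partner -/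
theorem splitS (h : KP φ u) {a a' g : ℝ} (ha : 0 ≤ a) (ha' : 0 ≤ a') (hg : 0 ≤ g) :
    φ (min (a + a') g) - φ (min a g) - φ (min a' g) ≤ u (a + a') - u a - u a' := by
  have := conv_super (h.conv g hg) (by simp [h.uzero, min_eq_left hg, h.zero]) ha ha'
  linarith

/-- a join going up -/
theorem joinS (h : KP φ u) {a a' g : ℝ} (ha : 0 ≤ a) (ha' : 0 ≤ a') (hg : 0 ≤ g) :
    φ (min a g) + φ (min a' g) - φ (min (a + a') g) ≤ φ (min a a') := by
  have key : ∀ x y : ℝ, 0 ≤ x → 0 ≤ y → x ≤ y →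
      φ (min x g) + φ (min y g) - φ (min (x + y) g) ≤ φ (min x y) := by
    intro x y hx hy hxy
    have h1 : φ (min y g) ≤ φ (min (x + y) g) :=
      h.mono' (le_min hy hg) (min_le_min (by linarith) le_rfl)
    have h2 : φ (min x g) ≤ φ (min x y) := by
      rw [min_eq_left hxy]; exact h.mono' (le_min hx hg) (min_le_left _ _)
    linarith
  rcases le_total a a' with hh | hh
  · exact key a a' ha ha' hh
  · have := key a' a ha' ha hh
    rw [add_comm a' a, min_comm a' a] at this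
    linarith

/-! ### instances -/

/-- **a convex monotone function** (helper878's one-kernel form) -/
theorem KP_conv {W : ℝ → ℝ} (h0 : W 0 = 0) (hm : MonotoneOn W (Ici (0 : ℝ)))
    (hc : ConvexOn ℝ (Ici (0 : ℝ)) W) : KP W W := by
  refine ⟨h0, h0, hm, fun m hm0 => ?_⟩
  have e : ∀ x : ℝ, 0 ≤ x → W x - W (min x m) = W (max x m) - W m := by
    intro x hx
    rcases le_total x m with h | h
    · rw [min_eq_left h, max_eq_right h]; ring
    · rw [min_eq_right h, max_eq_left h]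
  refine ⟨convex_Ici 0, fun x hx y hy α β hα hβ hαβ => ?_⟩
  have hx' : 0 ≤ x := hx
  have hy' : 0 ≤ y := hy
  have hxy : 0 ≤ α * x + β * y := add_nonneg (mul_nonneg hα hx') (mul_nonneg hβ hy')
  simp only [smul_eq_mul]
  rw [e _ hxy, e _ hx', e _ hy']
  have h1 : max (α * x + β * y) m ≤ α * max x m + β * max y m := by
    refine max_le (add_le_add (mul_le_mul_of_nonneg_left (le_max_left _ _) hα)
      (mul_le_mul_of_nonneg_left (le_max_left _ _) hβ)) ?_
    have h2 := mul_le_mul_of_nonneg_left (le_max_right x m) hα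
    have h3 := mul_le_mul_of_nonneg_left (le_max_right y m) hβ
    have : α * m + β * m = m := by rw [← add_mul, hαβ, one_mul]
    linarith
  have h4 : W (max (α * x + β * y) m) ≤ W (α * max x m + β * max y m) :=
    hm (mem_Ici.2 (hxy.trans (le_max_left _ _)))
      (mem_Ici.2 ((hxy.trans (le_max_left _ _)).trans h1)) h1
  have h5 := hc.2 (mem_Ici.2 (hx'.trans (le_max_left x m))) (mem_Ici.2 (hy'.trans (le_max_left y m)))
    hα hβ hαβ
  simp only [smul_eq_mul] at h5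
  have : α * W m + β * W m = W m := by rw [← add_mul, hαβ, one_mul]
  linarith

/-- **the truncated square and the Huber function** -/
theorem KP_trunc {c : ℝ} (hc : 0 ≤ c) : KP (fun x => (min x c) ^ 2) (hu c) := by
  refine ⟨by simp [min_eq_left hc], hu_zero hc, fun x hx y hy hxy => ?_, fun m hm0 => ?_⟩
  · exact pow_le_pow_left₀ (le_min hx hc) (min_le_min hxy le_rfl) 2
  · set m' := min m c with hm'
    have hm0' : 0 ≤ m' := le_min hm0 hc
    have e : ∀ x : ℝ, 0 ≤ x → hu c x - (min (min x m) c) ^ 2 = hu c (max x m') - m' ^ 2 := by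
      intro x hx
      rw [min_assoc, ← hm', hu_sub_kk hc hm0' (min_le_right _ _) hx]
    refine ⟨convex_Ici 0, fun x hx y hy α β hα hβ hαβ => ?_⟩
    have hx' : 0 ≤ x := hx
    have hy' : 0 ≤ y := hy
    have hxy : 0 ≤ α * x + β * y := add_nonneg (mul_nonneg hα hx') (mul_nonneg hβ hy')
    have hα' : α = 1 - β := by linarith
    simp only [smul_eq_mul]
    rw [e _ hxy, e _ hx', e _ hy']
    have h1 : max (α * x + β * y) m' ≤ α * max x m' + β * max y m' := by
      refine max_le (add_le_add (mul_le_mul_of_nonneg_left (le_max_left _ _) hα)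
        (mul_le_mul_of_nonneg_left (le_max_left _ _) hβ)) ?_
      have h2 := mul_le_mul_of_nonneg_left (le_max_right x m') hα
      have h3 := mul_le_mul_of_nonneg_left (le_max_right y m') hβ
      have : α * m' + β * m' = m' := by rw [← add_mul, hαβ, one_mul]
      linarith
    have h4 := hu_mono hc (hxy.trans (le_max_left _ m')) h1
    have h5 := hu_conv (a := max x m') (b := max y m') hc hβ (by linarith : β ≤ 1)
    rw [← hα'] at h5
    have : α * m' ^ 2 + β * m' ^ 2 = m' ^ 2 := by rw [← add_mul, hαβ, one_mul]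
    linarith

/-- the constants of the cuts for the truncated kernel -/
lemma cut_trunc {c w a : ℝ} (hc : 0 ≤ c) (hw : 0 ≤ w) (hw1 : w ≤ 1) (ha : 0 ≤ a) :
    w * (1 - w) * (min a c) ^ 2 ≤ 1 * ((1 - w) * hu c a - hu c ((1 - w) * a)) := by
  rw [one_mul, ← Dl_un_eq hc ha]; exact Dl_un hc hw hw1 ha

lemma cut_trunc' {c w a : ℝ} (hc : 0 ≤ c) (hw : 0 ≤ w) (hw1 : w ≤ 1) (ha : 0 ≤ a) :
    w * (min ((1 - w) * a) c) ^ 2 ≤ 1 * ((1 - w) * hu c a - hu c ((1 - w) * a)) := by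
  rw [one_mul, ← Dl_un_eq hc ha]; exact Dl_un' hc hw hw1 ha

end Crest.Agent.R4P.Ker51
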