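import Mathlib

/-!
R4 (S0004), A-part, helper51: **the truncated min-kernel at one tie** (helper34 #18636, helper51 #19376).

Pure real inequalities.  `c ≥ 0` truncation, `w ∈ [0,1]` tie weight, heights `≥ 0`.
* `kk c x y = min(x, y, c)²`, `hu c` = Huber function (same text as `Hub9.hub`);
* the tie: `offv w a b`, `hitv w a b`, exact Huber loss `Dl c w a b`, gain `gg c a b a' b'`;
* `tie` : the kernel of a pair of items increases by the gain up to the two Huber losses;
* `cutN`, `cutHit` : cuts at an unmatched item are paid by its Huber loss;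
* `splitUp`, `joinUp`, `hu_sup` : in-node splits and joins.
-/

set_option autoImplicit false
set_option linter.unusedVariables false

namespace Crest.Agent.R4P.Ker51

/-- truncated min-kernel -/
noncomputable def kk (c x y : ℝ) : ℝ := (min (min x y) c) ^ 2

/-- the Huber function -/
noncomputable def hu (c x : ℝ) : ℝ := if x ≤ c then x ^ 2 else 2 * c * x - c ^ 2

/-- height off the hit lift -/
noncomputable def offv (w a b : ℝ) : ℝ := a - w * max (a - b) 0

/-- height on the hit lift -/
noncomputable def hitv (w a b : ℝ) : ℝ := offv w a b + max (b - a) 0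

/-- exact Huber loss at the tie -/
noncomputable def Dl (c w a b : ℝ) : ℝ :=
  (1 - w) * hu c a + w * hu c b - (1 - w) * hu c (offv w a b) - w * hu c (hitv w a b)

/-- the gain of a pair of items -/
noncomputable def gg (c a b a' b' : ℝ) : ℝ := max 0 ((min (min b b') c) ^ 2 - (max a a') ^ 2)

/-! ### elementary facts -/

lemma kk_comm (c x y : ℝ) : kk c x y = kk c y x := by unfold kk; rw [min_comm x y]

lemma kk_nonneg (c x y : ℝ) : 0 ≤ kk c x y := sq_nonneg _

lemma kk_mono {c x x' y : ℝ} (hc : 0 ≤ c) (hx : 0 ≤ x) (hy : 0 ≤ y) (h : x ≤ x') :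
    kk c x y ≤ kk c x' y := by
  unfold kk
  exact pow_le_pow_left₀ (le_min (le_min hx hy) hc)
    (min_le_min (min_le_min h le_rfl) le_rfl) 2

lemma kk_le_left {c x y : ℝ} (hc : 0 ≤ c) (hx : 0 ≤ x) (hy : 0 ≤ y) :
    kk c x y ≤ (min x c) ^ 2 := by
  unfold kk
  exact pow_le_pow_left₀ (le_min (le_min hx hy) hc)
    (min_le_min (min_le_left _ _) le_rfl) 2

lemma kk_zero {c y : ℝ} (hc : 0 ≤ c) (hy : 0 ≤ y) : kk c 0 y = 0 := by
  unfold kk; rw [min_eq_left hy, min_eq_left hc]; ring

lemma hu_zero {c : ℝ} (hc : 0 ≤ c) : hu c 0 = 0 := by unfold hu; rw [if_pos hc]; ring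

lemma hu_of_le {c x : ℝ} (h : x ≤ c) : hu c x = x ^ 2 := by unfold hu; rw [if_pos h]

lemma hu_of_ge {c x : ℝ} (h : c ≤ x) : hu c x = 2 * c * x - c ^ 2 := by
  unfold hu
  split_ifs with h1
  · have : x = c := le_antisymm h1 h
    rw [this]; ring
  · rfl

lemma hu_nonneg {c x : ℝ} (hc : 0 ≤ c) : 0 ≤ hu c x := by
  unfold hu
  split_ifs with h
  · exact sq_nonneg _
  · push Not at h; nlinarith

lemma hu_le {c x : ℝ} (hc : 0 ≤ c) (hx : 0 ≤ x) : hu c x ≤ 2 * c * x := by
  unfold hu
  split_ifs with h
  · nlinarith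
  · nlinarith [sq_nonneg c]

lemma hu_le_sq (c x : ℝ) : hu c x ≤ x ^ 2 := by
  unfold hu
  split_ifs with h
  · exact le_rfl
  · nlinarith [sq_nonneg (x - c)]

/-- tangent lines of the Huber function -/
lemma hu_tan {c : ℝ} (hc : 0 ≤ c) (m x : ℝ) : hu c m + 2 * min m c * (x - m) ≤ hu c x := by
  unfold hu
  by_cases h1 : m ≤ c
  · rw [min_eq_left h1, if_pos h1]
    by_cases h2 : x ≤ c
    · rw [if_pos h2]; nlinarith [sq_nonneg (x - m)]
    · rw [if_neg h2]
      push Not at h2
      nlinarith [mul_nonneg (sub_nonneg.2 h1) (sub_nonneg.2 h2.le), sq_nonneg (c - m)]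
  · push Not at h1
    rw [min_eq_right h1.le, if_neg (not_le.2 h1)]
    by_cases h2 : x ≤ c
    · rw [if_pos h2]; nlinarith [sq_nonneg (x - c)]
    · rw [if_neg h2]; nlinarith

lemma hu_mono {c x y : ℝ} (hc : 0 ≤ c) (hx : 0 ≤ x) (h : x ≤ y) : hu c x ≤ hu c y := by
  have h1 := hu_tan hc x y
  have h2 : 0 ≤ 2 * min x c * (y - x) :=
    mul_nonneg (mul_nonneg zero_le_two (le_min hx hc)) (sub_nonneg.2 h)
  linarith

lemma hu_conv {c w a b : ℝ} (hc : 0 ≤ c) (hw : 0 ≤ w) (hw1 : w ≤ 1) :
    hu c ((1 - w) * a + w * b) ≤ (1 - w) * hu c a + w * hu c b := by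
  set m := (1 - w) * a + w * b with hm
  have h1 := mul_le_mul_of_nonneg_left (hu_tan hc m a) (sub_nonneg.2 hw1)
  have h2 := mul_le_mul_of_nonneg_left (hu_tan hc m b) hw
  have e : (1 - w) * (hu c m + 2 * min m c * (a - m)) + w * (hu c m + 2 * min m c * (b - m)) =
      hu c m + 2 * min m c * ((1 - w) * a + w * b - m) := by ring
  rw [← hm, sub_self, mul_zero, add_zero] at e
  linarith

/-- the potential `hu c (max x m) - m²` -/
lemma hu_sub_kk {c m x : ℝ} (hc : 0 ≤ c) (hm : 0 ≤ m) (hmc : m ≤ c) (hx : 0 ≤ x) :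
    hu c x - (min x m) ^ 2 = hu c (max x m) - m ^ 2 := by
  rcases le_total x m with h | h
  · rw [min_eq_left h, max_eq_right h, hu_of_le (h.trans hmc), hu_of_le hmc]; ring
  · rw [min_eq_right h, max_eq_left h]

lemma off_of_le {w a b : ℝ} (h : a ≤ b) : offv w a b = a := by
  unfold offv; rw [max_eq_right (sub_nonpos.2 h)]; ring

lemma hit_of_le {w a b : ℝ} (h : a ≤ b) : hitv w a b = b := by
  unfold hitv; rw [off_of_le h, max_eq_left (sub_nonneg.2 h)]; ring

lemma off_of_ge {w a b : ℝ} (h : b ≤ a) : offv w a b = (1 - w) * a + w * b := by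
  unfold offv; rw [max_eq_left (sub_nonneg.2 h)]; ring

lemma hit_of_ge {w a b : ℝ} (h : b ≤ a) : hitv w a b = (1 - w) * a + w * b := by
  unfold hitv; rw [off_of_ge h, max_eq_right (sub_nonpos.2 h)]; ring

lemma off_nonneg {w a b : ℝ} (hw : 0 ≤ w) (hw1 : w ≤ 1) (ha : 0 ≤ a) (hb : 0 ≤ b) :
    0 ≤ offv w a b := by
  rcases le_total a b with h | h
  · rw [off_of_le h]; exact ha
  · rw [off_of_ge h]
    exact add_nonneg (mul_nonneg (sub_nonneg.2 hw1) ha) (mul_nonneg hw hb)

lemma off_le_hit (w a b : ℝ) : offv w a b ≤ hitv w a b := by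
  unfold hitv; linarith [le_max_right (b - a) 0]

lemma hit_nonneg {w a b : ℝ} (hw : 0 ≤ w) (hw1 : w ≤ 1) (ha : 0 ≤ a) (hb : 0 ≤ b) :
    0 ≤ hitv w a b := (off_nonneg hw hw1 ha hb).trans (off_le_hit w a b)

/-- mean of the fibre -/
lemma mean_fibre (w a b : ℝ) : (1 - w) * offv w a b + w * hitv w a b = (1 - w) * a + w * b := by
  rcases le_total a b with h | h
  · rw [off_of_le h, hit_of_le h]
  · rw [off_of_ge h, hit_of_ge h]; ring

lemma Dl_of_le {c w a b : ℝ} (h : a ≤ b) : Dl c w a b = 0 := by
  unfold Dl; rw [off_of_le h, hit_of_le h]; ring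

lemma Dl_of_ge {c w a b : ℝ} (h : b ≤ a) :
    Dl c w a b = (1 - w) * hu c a + w * hu c b - hu c ((1 - w) * a + w * b) := by
  unfold Dl; rw [off_of_ge h, hit_of_ge h]; ring

lemma Dl_nonneg {c w a b : ℝ} (hc : 0 ≤ c) (hw : 0 ≤ w) (hw1 : w ≤ 1) : 0 ≤ Dl c w a b := by
  rcases le_total a b with h | h
  · rw [Dl_of_le h]
  · rw [Dl_of_ge h]; linarith [hu_conv (a := a) (b := b) hc hw hw1]

/-! ### the tie -/

/-- **one item against a fixed height** -/
theorem single {c w a b y : ℝ} (hc : 0 ≤ c) (hw : 0 ≤ w) (hw1 : w ≤ 1) (ha : 0 ≤ a) (hb : 0 ≤ b)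
    (hy : 0 ≤ y) :
    - Dl c w a b ≤ (1 - w) * kk c (offv w a b) y + w * kk c (hitv w a b) y
      - (1 - w) * kk c a y - w * kk c b y := by
  rcases le_total a b with h | h
  · rw [Dl_of_le h, off_of_le h, hit_of_le h]; linarith
  · rw [Dl_of_ge h, off_of_ge h, hit_of_ge h]
    set o := (1 - w) * a + w * b with ho
    have ho0 : 0 ≤ o := add_nonneg (mul_nonneg (sub_nonneg.2 hw1) ha) (mul_nonneg hw hb)
    set m := min y c with hm
    have hm0 : 0 ≤ m := le_min hy hc
    have hmc : m ≤ c := min_le_right _ _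
    have key : ∀ x : ℝ, kk c x y = (min x m) ^ 2 := fun x => by
      unfold kk; rw [hm, min_assoc]
    rw [key, key, key]
    have e1 := hu_sub_kk hc hm0 hmc ho0
    have e2 := hu_sub_kk hc hm0 hmc ha
    have e3 := hu_sub_kk hc hm0 hmc hb
    have hmax : max o m ≤ (1 - w) * max a m + w * max b m := by
      refine max_le ?_ ?_
      · rw [ho]
        exact add_le_add (mul_le_mul_of_nonneg_left (le_max_left _ _) (sub_nonneg.2 hw1))
          (mul_le_mul_of_nonneg_left (le_max_left _ _) hw)
      · have h1 := mul_le_mul_of_nonneg_left (le_max_right a m) (sub_nonneg.2 hw1)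
        have h2 := mul_le_mul_of_nonneg_left (le_max_right b m) hw
        have : m = (1 - w) * m + w * m := by ring
        linarith
    have h1 := hu_mono hc (hm0.trans (le_max_right o m)) hmax
    have h2 := hu_conv (a := max a m) (b := max b m) hc hw hw1
    have : hu c (max o m) ≤ (1 - w) * hu c (max a m) + w * hu c (max b m) := h1.trans h2
    nlinarith [this, e1, e2, e3]

/-- the four-term identity of the kernel -/
lemma gain_le {c w a b a' b' : ℝ} (hc : 0 ≤ c) (hw : 0 ≤ w) (hw1 : w ≤ 1)
    (ha : 0 ≤ a) (hb : 0 ≤ b) (ha' : 0 ≤ a') (hb' : 0 ≤ b') :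
    gg c a b a' b' ≤ kk c (offv w a b) (offv w a' b') + kk c (hitv w a b) (hitv w a' b')
      - kk c (offv w a b) (hitv w a' b') - kk c (hitv w a b) (offv w a' b') := by
  have four : ∀ o h o' h' : ℝ, 0 ≤ o → o ≤ h → 0 ≤ o' → o' ≤ h' →
      max 0 ((min (min h h') c) ^ 2 - (max o o') ^ 2) ≤
        kk c o o' + kk c h h' - kk c o h' - kk c h o' := by
    intro o h o' h' ho hoh ho' hoh'
    unfold kk
    have hh : 0 ≤ h := ho.trans hoh
    have hh' : 0 ≤ h' := ho'.trans hoh'
    rcases le_total c (max o o') with hcm | hcm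
    · have hL : max 0 ((min (min h h') c) ^ 2 - (max o o') ^ 2) = 0 := by
        refine max_eq_left ?_
        have h1 : min (min h h') c ≤ max o o' := (min_le_right _ _).trans hcm
        have h2 := pow_le_pow_left₀ (le_min (le_min hh hh') hc) h1 2
        linarith
      rw [hL]
      rcases le_max_iff.1 hcm with h1 | h1
      · -- c ≤ o
        have e1 : min (min o o') c = min o' c := by
          rw [min_assoc, min_eq_right (a := o)]; exact (min_le_right _ _).trans h1
        have e2 : min (min o h') c = min h' c := by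
          rw [min_assoc, min_eq_right (a := o)]; exact (min_le_right _ _).trans h1
        have e3 : min (min h o') c = min o' c := by
          rw [min_assoc, min_eq_right (a := h)]; exact (min_le_right _ _).trans (h1.trans hoh)
        have e4 : min (min h h') c = min h' c := by
          rw [min_assoc, min_eq_right (a := h)]; exact (min_le_right _ _).trans (h1.trans hoh)
        rw [e1, e2, e3, e4]; linarith
      · -- c ≤ o'
        have e1 : min (min o o') c = min o c := by
          rw [min_comm o o', min_assoc, min_eq_right (a := o')]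
          exact (min_le_right _ _).trans h1
        have e2 : min (min o h') c = min o c := by
          rw [min_comm o h', min_assoc, min_eq_right (a := h')]
          exact (min_le_right _ _).trans (h1.trans hoh')
        have e3 : min (min h o') c = min h c := by
          rw [min_comm h o', min_assoc, min_eq_right (a := o')]
          exact (min_le_right _ _).trans h1
        have e4 : min (min h h') c = min h c := by
          rw [min_comm h h', min_assoc, min_eq_right (a := h')]
          exact (min_le_right _ _).trans (h1.trans hoh')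
        rw [e1, e2, e3, e4]; linarith
    · -- max o o' ≤ c
      have hoc : o ≤ c := (le_max_left _ _).trans hcm
      have hoc' : o' ≤ c := (le_max_right _ _).trans hcm
      have e1 : min (min o o') c = min o o' := min_eq_left ((min_le_left _ _).trans hoc)
      have e2 : min (min o h') c = min o h' := min_eq_left ((min_le_left _ _).trans hoc)
      have e3 : min (min h o') c = min h o' := min_eq_left ((min_le_right _ _).trans hoc')
      rw [e1, e2, e3]
      rcases le_total o o' with h1 | h1
      · rw [min_eq_left h1, min_eq_left (h1.trans hoh'), max_eq_right h1]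
        rcases le_total h o' with h2 | h2
        · have e4 : min (min h h') c = h := by
            rw [min_eq_left (h2.trans hoh'), min_eq_left (h2.trans hoc')]
          rw [min_eq_left h2, e4]
          refine max_le ?_ ?_
          · linarith
          · nlinarith
        · rw [min_eq_right h2]
          have h3 : o' ≤ min (min h h') c := le_min (le_min h2 hoh') hoc'
          have h4 := pow_le_pow_left₀ ho' h3 2
          refine max_le ?_ ?_ <;> linarith
      · rw [min_eq_right h1, min_eq_right (h1.trans hoh), max_eq_left h1]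
        rcases le_total h' o with h2 | h2
        · have e4 : min (min h h') c = h' := by
            rw [min_eq_right (h2.trans hoh), min_eq_left (h2.trans hoc)]
          rw [min_eq_right h2, e4]
          refine max_le ?_ ?_
          · linarith
          · nlinarith
        · rw [min_eq_left h2]
          have h3 : o ≤ min (min h h') c := le_min (le_min hoh h2) hoc
          have h4 := pow_le_pow_left₀ ho h3 2
          refine max_le ?_ ?_ <;> linarith
  have zero_of : ∀ x y x' y' : ℝ, 0 ≤ x' → 0 ≤ y → 0 ≤ y' → y ≤ x → 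
      max 0 ((min (min y y') c) ^ 2 - (max x x') ^ 2) = 0 := by
    intro x y x' y' hx' hy hy' hyx
    refine max_eq_left ?_
    have h1 : min (min y y') c ≤ max x x' :=
      ((min_le_left _ _).trans (min_le_left _ _)).trans (hyx.trans (le_max_left _ _))
    have h2 := pow_le_pow_left₀ (le_min (le_min hy hy') hc) h1 2
    linarith
  unfold gg
  rcases le_total a b with h | h
  · rcases le_total a' b' with h' | h'
    · rw [off_of_le h, hit_of_le h, off_of_le h', hit_of_le h']
      exact four a b a' b' ha h ha' h'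
    · have e : max 0 ((min (min b b') c) ^ 2 - (max a a') ^ 2) = 0 := by
        rw [min_comm b b', max_comm a a']
        exact zero_of a' b' a b ha hb' hb h'
      rw [e, off_of_ge h', hit_of_ge h']
      linarith
  · rw [zero_of a b a' b' ha' hb hb' h, off_of_ge h, hit_of_ge h]
    linarith

/-- **THE TIE** -/
theorem tie {c w a b a' b' : ℝ} (hc : 0 ≤ c) (hw : 0 ≤ w) (hw1 : w ≤ 1)
    (ha : 0 ≤ a) (hb : 0 ≤ b) (ha' : 0 ≤ a') (hb' : 0 ≤ b') :
    w * (1 - w) * gg c a b a' b' - Dl c w a b - Dl c w a' b' ≤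
      (1 - w) * kk c (offv w a b) (offv w a' b') + w * kk c (hitv w a b) (hitv w a' b')
      - ((1 - w) ^ 2 * kk c a a' + w * (1 - w) * (kk c a b' + kk c b a') + w ^ 2 * kk c b b') := by
  have hw' : 0 ≤ 1 - w := sub_nonneg.2 hw1
  have o0 := off_nonneg hw hw1 ha hb
  have o0' := off_nonneg hw hw1 ha' hb'
  have h0' := hit_nonneg hw hw1 ha' hb'
  have g1 := mul_le_mul_of_nonneg_left (gain_le hc hw hw1 ha hb ha' hb') (mul_nonneg hw hw')
  have s1 := mul_le_mul_of_nonneg_left (single hc hw hw1 ha hb o0') hw'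
  have s2 := mul_le_mul_of_nonneg_left (single hc hw hw1 ha hb h0') hw
  have s3 := mul_le_mul_of_nonneg_left (single hc hw hw1 ha' hb' ha) hw'
  have s4 := mul_le_mul_of_nonneg_left (single hc hw hw1 ha' hb' hb) hw
  rw [kk_comm c (offv w a' b') a, kk_comm c (hitv w a' b') a, kk_comm c a' a, kk_comm c b' a] at s3
  rw [kk_comm c (offv w a' b') b, kk_comm c (hitv w a' b') b, kk_comm c a' b, kk_comm c b' b] at s4
  nlinarith [g1, s1, s2, s3, s4]

end Crest.Agent.R4P.Ker51
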