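import Crest.Agent.R4.LL207
import Crest.Agent.R4.InG207

/-!
R4 (S0004), helper14: **LL DEATH** (D3' of helper23 #1717; also the part of D2 with one alive item).

One node, one target `θ`.  Items `q ∈ V` carry an old label `τ q` which is DEAD (`¬ Lab θ (R q) (τ q)`, and
`2^n ≤ den` or `2^n R ≤ |θ - τ q|`), items `r ∈ W` a label `τ' r` valid at the present radius.  Pairs which are
EXACT for the two labels (`(m + τ q) y = (m' + τ' r) x`, `x = cof q r ≠ y = cof r q`) and overlapping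
(`|(θ - τ q) y - (θ - τ' r) x| ≤ 2 D`) have a gain `2^{-cn}`.

`D ≤ 2^{-n}`: the pair is generic for the target `θ` (`[E]` and `[F]` are impossible).
`2^{-n} < D ≤ 2^n`: rescaled radii `δ R`, `δ = 2^{-2n}`, and the two targets `τ q + δ (θ - τ q)`,
`τ' r + δ (θ - τ' r)`: the pair is related for these targets and generic.
-/

set_option autoImplicit false
open Finset

namespace Crest.Agent.R4P.LLD14

open Crest.Agent.R4.HVW560 Crest.Agent.R4.HVWX793
open Crest.Agent.R4.StopAsm709 Crest.Agent.R4.StopHvw709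
open Crest.Agent.R4.Schur709
open Crest.Agent.R4.ClsS (eps1)
open Crest.Agent.R4.LF363 (Lab lab_unique rat_gap)
open Crest.Agent.R4.LF765 (Struct)
open Crest.Agent.R4.Dich579 (Alt FF Small)
open Crest.Agent.R4.InX944 (DP DP_pos)

/-- the denominators of exact labels -/
lemma den_le_of_exact {x y : ℕ} (hy : 0 < y) (ρ σ : ℚ) {m m' : ℤ}
    (h : ((m:ℝ) + ρ) * y = (m' + σ) * x) : ρ.den ≤ y * σ.den := by
  obtain ⟨-, h2⟩ := Crest.Agent.R4.LL207.dvd_of_exact ρ σ h
  have h3 := Nat.le_of_dvd hy h2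
  have hg : Nat.gcd ρ.den σ.den ≤ σ.den := Nat.le_of_dvd σ.den_pos (Nat.gcd_dvd_right _ _)
  calc ρ.den = ρ.den / Nat.gcd ρ.den σ.den * Nat.gcd ρ.den σ.den :=
        (Nat.div_mul_cancel (Nat.gcd_dvd_left _ _)).symm
    _ ≤ y * σ.den := Nat.mul_le_mul h3 hg

set_option maxHeartbeats 1000000 in
/-- **the middle range**: genericity for the rescaled targets -/
theorem alt_mid {P θ : ℝ} (hP : (2:ℝ)^400 ≤ P) {ρ σ : ℚ} {x y : ℕ} (hx : 0 < x) (hy : 0 < y)
    {R R' : ℝ} (hσ : Lab θ R' σ) {m m' : ℤ}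
    (hex : ((m:ℝ) + ρ) * y = (m' + σ) * x)
    (hdead : P ≤ ρ.den ∨ P * R ≤ |θ - ρ|) {δ t : ℝ} (hδ : δ * P^2 = 1)
    (hov : |(m + (ρ + δ * (θ - ρ))) * y - (m' + (σ + δ * (θ - σ))) * x| ≤ 2 / t)
    (hD1 : (x:ℝ) * (δ * R') ≤ 1/t) (ht : P ≤ t) (ht3 : t ≤ P^3) :
    Alt (t^(1/20:ℝ)) (ρ + δ * (θ - ρ)) (σ + δ * (θ - σ)) t x y (δ * R) (δ * R') := by
  have hP0 : 0 < P := lt_of_lt_of_le (by positivity) hP
  have hP1' : 1 < P := lt_of_lt_of_le (one_lt_pow₀ (by norm_num) (by norm_num)) hP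
  have hP1 : 1 ≤ P := hP1'.le
  have ht0 : 0 < t := hP0.trans_le ht
  have ht1 : 1 ≤ t := hP1.trans ht
  have hx0 : (0:ℝ) < x := by exact_mod_cast hx
  have hy0 : (0:ℝ) < y := by exact_mod_cast hy
  have hx1 : (1:ℝ) ≤ x := by exact_mod_cast hx
  have hy1 : (1:ℝ) ≤ y := by exact_mod_cast hy
  have hR' := hσ.pos
  have hδ0 : 0 < δ := by
    by_contra hc
    have h1 : δ * P^2 ≤ 0 := mul_nonpos_of_nonpos_of_nonneg (not_lt.1 hc) (by positivity)
    linarith
  have hk : (0:ℝ) < ρ.den := by exact_mod_cast ρ.den_pos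
  have hl : (0:ℝ) < σ.den := by exact_mod_cast σ.den_pos
  set N : ℝ := t^(1/20:ℝ) with hN
  have hN0 : 0 < N := by positivity
  have hN1 : 1 ≤ N := Real.one_le_rpow ht1 (by norm_num)
  -- powers of `P`
  have hP100 : 16 ≤ P^(1/100:ℝ) := by
    calc (16:ℝ) = ((2:ℝ)^400)^(1/100:ℝ) := by
          rw [← Real.rpow_natCast, ← Real.rpow_mul (by norm_num)]; norm_num
      _ ≤ _ := Real.rpow_le_rpow (by positivity) hP (by norm_num)
  have hNP : N ≤ P^(15/100:ℝ) := by
    calc N ≤ (P^3)^(1/20:ℝ) := Real.rpow_le_rpow ht0.le ht3 (by norm_num)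
      _ = P^(15/100:ℝ) := by
          rw [← Real.rpow_natCast, ← Real.rpow_mul hP0.le]; norm_num
  have ht50 : t^(1/50:ℝ) ≤ P^(6/100:ℝ) := by
    calc t^(1/50:ℝ) ≤ (P^3)^(1/50:ℝ) := Real.rpow_le_rpow ht0.le ht3 (by norm_num)
      _ = P^(6/100:ℝ) := by
          rw [← Real.rpow_natCast, ← Real.rpow_mul hP0.le]; norm_num
  have ht51 : t^(-(51/50):ℝ) * (t^(1/50:ℝ) * t) = 1 := by
    have h1 : t^(1/50:ℝ) * t = t^(51/50:ℝ) := by
      nth_rewrite 2 [← Real.rpow_one t]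
      rw [← Real.rpow_add ht0]; norm_num
    rw [h1, ← Real.rpow_add ht0]; norm_num
  have hpw : ∀ a b : ℝ, P^a * P^b = P^(a+b) := fun a b => (Real.rpow_add hP0 a b).symm
  -- the key consequence of non-imbalance
  have ni : ∀ {z s : ℝ}, t^(-(51/50):ℝ) < z * (δ * s) → P^2 < P^(6/100:ℝ) * t * (z * s) := by
    intro z s h
    have h0 : 0 < t^(1/50:ℝ) * t := by positivity
    have h1 : 1 < z * (δ * s) * (t^(1/50:ℝ) * t) := by
      calc (1:ℝ) = t^(-(51/50):ℝ) * (t^(1/50:ℝ) * t) := ht51.symm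
        _ < _ := mul_lt_mul_of_pos_right h h0
    have hzs : 0 < z * (δ * s) := by
      by_contra hc
      have := mul_nonpos_of_nonpos_of_nonneg (not_lt.1 hc) h0.le
      linarith
    have h2 : z * (δ * s) * (t^(1/50:ℝ) * t) ≤ z * (δ * s) * (P^(6/100:ℝ) * t) :=
      mul_le_mul_of_nonneg_left (mul_le_mul_of_nonneg_right ht50 ht0.le) hzs.le
    have h3 : 1 * P^2 < z * (δ * s) * (P^(6/100:ℝ) * t) * P^2 :=
      mul_lt_mul_of_pos_right (h1.trans_le h2) (by positivity)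
    calc P^2 = 1 * P^2 := (one_mul _).symm
      _ < z * (δ * s) * (P^(6/100:ℝ) * t) * P^2 := h3
      _ = (δ * P^2) * (P^(6/100:ℝ) * t * (z * s)) := by ring
      _ = _ := by rw [hδ, one_mul]
  by_contra hA
  unfold Alt at hA
  push Not at hA
  obtain ⟨⟨b1, b2⟩, hY, hX⟩ := hA
  have nx := ni b1
  have ny := ni b2
  have hlab1 : |θ - σ| * σ.den ≤ 1 := by
    have h1 := hσ.err
    have h2 : (1:ℝ) ≤ σ.den := by exact_mod_cast σ.den_pos
    calc |θ - σ| * σ.den ≤ |θ - σ| * (σ.den:ℝ)^4 := by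
          apply mul_le_mul_of_nonneg_left _ (abs_nonneg _)
          calc (σ.den:ℝ) = (σ.den:ℝ)^1 := (pow_one _).symm
            _ ≤ (σ.den:ℝ)^4 := pow_le_pow_right₀ h2 (by norm_num)
      _ ≤ 1 := h1
  have hdR : (σ.den:ℝ) * R' ≤ 1 := by
    have h2 : (1:ℝ) ≤ σ.den := by exact_mod_cast σ.den_pos
    calc (σ.den:ℝ) * R' ≤ (σ.den:ℝ)^5 * R' := by
          apply mul_le_mul_of_nonneg_right _ hR'.le
          calc (σ.den:ℝ) = (σ.den:ℝ)^1 := (pow_one _).symm
            _ ≤ (σ.den:ℝ)^5 := pow_le_pow_right₀ h2 (by norm_num)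
      _ ≤ 1 := hσ.den
  have eσ : |σ + δ * (θ - σ) - σ| = δ * |θ - σ| := by
    rw [add_sub_cancel_left, abs_mul, abs_of_pos hδ0]
  have eρ : |ρ + δ * (θ - ρ) - ρ| = δ * |θ - ρ| := by
    rw [add_sub_cancel_left, abs_mul, abs_of_pos hδ0]
  -- (Z)
  have hZ : (σ.den:ℝ) ≤ P^(25/100:ℝ) ∧ (δ * |θ - σ|) * x ≤ P^(25/100:ℝ) / t := by
    by_cases hxN : N < x
    · obtain ⟨X, hX0, hXx, hxX, hS⟩ := hX hxN
      obtain ⟨ρ', hd, hn⟩ := Crest.Agent.R4.Dich579.struct_rat hN0.le ht0 hX0 hxX hS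
      have heq : ρ' = σ := by
        by_contra hne
        have g := rat_gap hne
        have hd0 : (0:ℝ) < ρ'.den := by exact_mod_cast ρ'.den_pos
        have h1 : |(ρ':ℝ) - σ| ≤ |σ + δ * (θ - σ) - ρ'| + δ * |θ - σ| := by
          rw [← eσ]
          have e : (ρ':ℝ) - σ = (σ + δ * (θ - σ) - σ) - (σ + δ * (θ - σ) - ρ') := by ring
          rw [e]
          refine (abs_sub _ _).trans ?_
          rw [add_comm]
        have h2 : 1 ≤ (|σ + δ * (θ - σ) - ρ'| + δ * |θ - σ|) * (N * σ.den) := by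
          refine g.trans ?_
          apply mul_le_mul h1 _ (by positivity) (by positivity)
          exact mul_le_mul_of_nonneg_right hd hl.le
        have h3 : δ * |θ - σ| * (N * σ.den) ≤ 1/2 := by
          have h4 : δ * |θ - σ| * (N * σ.den) ≤ δ * N := by
            calc δ * |θ - σ| * (N * σ.den) = δ * N * (|θ - σ| * σ.den) := by ring
              _ ≤ δ * N * 1 := mul_le_mul_of_nonneg_left hlab1 (by positivity)
              _ = _ := mul_one _
          have h5 : 2 * N ≤ P^2 := by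
            calc 2 * N ≤ P^(1/100:ℝ) * P^(15/100:ℝ) :=
                  mul_le_mul (by linarith) hNP hN0.le (by positivity)
              _ = P^(16/100:ℝ) := by rw [hpw]; norm_num
              _ ≤ P^(2:ℝ) := Real.rpow_le_rpow_of_exponent_le hP1 (by norm_num)
              _ = P^2 := Real.rpow_two P
          have h6 : δ * (2 * N) ≤ 1 := by rw [← hδ]; exact mul_le_mul_of_nonneg_left h5 hδ0.le
          linarith
        have h4 : 1/2 ≤ |σ + δ * (θ - σ) - ρ'| * (N * σ.den) := by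
          rw [add_mul] at h2; linarith
        have h5 : 1/2 * (x * R') ≤ 4 * N^2 / t := by
          calc 1/2 * (x * R') ≤ |σ + δ * (θ - σ) - ρ'| * (N * σ.den) * (x * R') :=
                mul_le_mul_of_nonneg_right h4 (by positivity)
            _ = (|σ + δ * (θ - σ) - ρ'| * x) * (N * (σ.den * R')) := by ring
            _ ≤ (4 * N / t) * (N * 1) := by
                apply mul_le_mul hn _ (by positivity) (by positivity)
                exact mul_le_mul_of_nonneg_left hdR hN0.le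
            _ = _ := by ring
        have h6 : t * (x * R') ≤ 8 * N^2 := by
          rw [le_div_iff₀ ht0] at h5
          linarith
        have h7 : P^2 < P^(6/100:ℝ) * (8 * N^2) := by
          calc P^2 < P^(6/100:ℝ) * t * (x * R') := nx
            _ = P^(6/100:ℝ) * (t * (x * R')) := by ring
            _ ≤ _ := mul_le_mul_of_nonneg_left h6 (by positivity)
        have h8 : P^(6/100:ℝ) * (8 * N^2) ≤ P^(2:ℝ) := by
          calc P^(6/100:ℝ) * (8 * N^2) ≤ P^(6/100:ℝ) * (P^(1/100:ℝ) * (P^(15/100:ℝ))^2) := by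
                apply mul_le_mul_of_nonneg_left _ (by positivity)
                exact mul_le_mul (by linarith) (pow_le_pow_left₀ hN0.le hNP 2) (by positivity)
                  (by positivity)
            _ = P^(37/100:ℝ) := by
                rw [sq, hpw, hpw, hpw]; norm_num
            _ ≤ P^(2:ℝ) := Real.rpow_le_rpow_of_exponent_le hP1 (by norm_num)
        rw [Real.rpow_two] at h8
        linarith
      rw [heq] at hd hn
      rw [eσ] at hn
      refine ⟨hd.trans (hNP.trans (Real.rpow_le_rpow_of_exponent_le hP1 (by norm_num))), hn.trans ?_⟩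
      apply div_le_div_of_nonneg_right _ ht0.le
      calc 4 * N ≤ P^(1/100:ℝ) * P^(15/100:ℝ) :=
            mul_le_mul (by linarith) hNP hN0.le (by positivity)
        _ = P^(16/100:ℝ) := by rw [hpw]; norm_num
        _ ≤ _ := Real.rpow_le_rpow_of_exponent_le hP1 (by norm_num)
    · have hxN' : (x:ℝ) ≤ N := not_lt.1 hxN
      -- lower bound for the radius
      have h1 : 1 < P^(121/100:ℝ) * R' := by
        have h2 : P^(2:ℝ) < P^(321/100:ℝ) * R' := by
          calc P^(2:ℝ) = P^2 := Real.rpow_two P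
            _ < P^(6/100:ℝ) * t * (x * R') := nx
            _ ≤ P^(6/100:ℝ) * P^3 * (P^(15/100:ℝ) * R') := by
                apply mul_le_mul (mul_le_mul_of_nonneg_left ht3 (by positivity)) _ (by positivity)
                  (by positivity)
                exact mul_le_mul_of_nonneg_right (hxN'.trans hNP) hR'.le
            _ = P^(321/100:ℝ) * R' := by
                have : P^3 = P^(3:ℝ) := by
                  rw [← Real.rpow_natCast]; norm_num
                rw [this]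
                calc P^(6/100:ℝ) * P^(3:ℝ) * (P^(15/100:ℝ) * R')
                    = (P^(6/100:ℝ) * P^(3:ℝ) * P^(15/100:ℝ)) * R' := by ring
                  _ = _ := by rw [hpw, hpw]; norm_num
        have h3 : P^(2:ℝ) * P^(121/100:ℝ) = P^(321/100:ℝ) := by rw [hpw]; norm_num
        rw [← h3, mul_assoc] at h2
        have h4 : 0 < P^(2:ℝ) := by positivity
        have h5 : P^(2:ℝ) * 1 < P^(2:ℝ) * (P^(121/100:ℝ) * R') := by rw [mul_one]; exact h2
        exact lt_of_mul_lt_mul_left h5 h4.le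
      have h2 : (σ.den:ℝ)^5 ≤ P^(121/100:ℝ) := by
        have h3 := hσ.den
        have h4 : (σ.den:ℝ)^5 * R' ≤ P^(121/100:ℝ) * R' := h3.trans h1.le
        exact le_of_mul_le_mul_right h4 hR'
      have h3 : |θ - σ|^5 ≤ (P^(25/100:ℝ) * R')^5 := by
        calc |θ - σ|^5 ≤ R'^4 := hσ.near
          _ = 1 * R'^4 := (one_mul _).symm
          _ ≤ (P^(121/100:ℝ) * R') * R'^4 := mul_le_mul_of_nonneg_right h1.le (by positivity)
          _ ≤ (P^(125/100:ℝ) * R') * R'^4 := by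
              apply mul_le_mul_of_nonneg_right _ (by positivity)
              apply mul_le_mul_of_nonneg_right _ hR'.le
              exact Real.rpow_le_rpow_of_exponent_le hP1 (by norm_num)
          _ = _ := by
              rw [mul_pow, ← Real.rpow_natCast (P^(25/100:ℝ)) 5, ← Real.rpow_mul hP0.le]
              norm_num
              ring
      constructor
      · have h4 : (σ.den:ℝ)^5 ≤ (P^(25/100:ℝ))^5 := by
          calc (σ.den:ℝ)^5 ≤ P^(121/100:ℝ) := h2
            _ ≤ P^(125/100:ℝ) := Real.rpow_le_rpow_of_exponent_le hP1 (by norm_num)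
            _ = _ := by
              rw [← Real.rpow_natCast (P^(25/100:ℝ)) 5, ← Real.rpow_mul hP0.le]
              norm_num
        exact le_of_pow_le_pow_left₀ (by norm_num) (by positivity) h4
      · have h4 : |θ - σ| ≤ P^(25/100:ℝ) * R' :=
          le_of_pow_le_pow_left₀ (by norm_num) (by positivity) h3
        calc δ * |θ - σ| * x ≤ δ * (P^(25/100:ℝ) * R') * x := by gcongr
          _ = P^(25/100:ℝ) * (x * (δ * R')) := by ring
          _ ≤ P^(25/100:ℝ) * (1/t) := mul_le_mul_of_nonneg_left hD1 (by positivity)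
          _ = _ := by ring
  obtain ⟨hZ1, hZ2⟩ := hZ
  -- the second alternative of death is impossible for accurate labels
  have hfin : (ρ.den:ℝ) < P → (δ * |θ - ρ|) * y ≤ 3 * P^(25/100:ℝ) / t → False := by
    intro h1 h2
    have h3 : P * R ≤ |θ - ρ| := hdead.resolve_left (not_le.2 h1)
    have h4 : P^3 < P^(6/100:ℝ) * (3 * P^(25/100:ℝ)) * P^2 := by
      calc P^3 = P * P^2 := by ring
        _ < P * (P^(6/100:ℝ) * t * (y * R)) := mul_lt_mul_of_pos_left ny hP0
        _ = P^(6/100:ℝ) * t * (y * (P * R)) := by ring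
        _ ≤ P^(6/100:ℝ) * t * (y * |θ - ρ|) := by gcongr
        _ = P^(6/100:ℝ) * (t * ((δ * |θ - ρ|) * y)) * P^2 := by
            calc P^(6/100:ℝ) * t * (y * |θ - ρ|) = (δ * P^2) * (P^(6/100:ℝ) * t * (y * |θ - ρ|)) := by
                  rw [hδ, one_mul]
              _ = _ := by ring
        _ ≤ P^(6/100:ℝ) * (3 * P^(25/100:ℝ)) * P^2 := by
            apply mul_le_mul_of_nonneg_right _ (by positivity)
            apply mul_le_mul_of_nonneg_left _ (by positivity)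
            rw [le_div_iff₀ ht0] at h2
            linarith
    have h5 : P^(6/100:ℝ) * (3 * P^(25/100:ℝ)) ≤ P^(1:ℝ) := by
      calc P^(6/100:ℝ) * (3 * P^(25/100:ℝ)) ≤ P^(6/100:ℝ) * (P^(1/100:ℝ) * P^(25/100:ℝ)) := by
            gcongr; linarith
        _ = P^(32/100:ℝ) := by rw [hpw, hpw]; norm_num
        _ ≤ _ := Real.rpow_le_rpow_of_exponent_le hP1 (by norm_num)
    rw [Real.rpow_one] at h5
    have h6 : P^(6/100:ℝ) * (3 * P^(25/100:ℝ)) * P^2 ≤ P * P^2 :=
      mul_le_mul_of_nonneg_right h5 (by positivity)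
    have h7 : P * P^2 = P^3 := by ring
    linarith
  have h1P : (1:ℝ) ≤ P^(25/100:ℝ) := Real.one_le_rpow hP1 (by norm_num)
  by_cases hyN : N < y
  · obtain ⟨Y, hY0, hYy, hyY, hS⟩ := hY hyN
    obtain ⟨ρ', hd, hn⟩ := Crest.Agent.R4.Dich579.struct_rat hN0.le ht0 hY0 hyY hS
    have h4N : 4 * N ≤ P^(25/100:ℝ) := by
      calc 4 * N ≤ P^(1/100:ℝ) * P^(15/100:ℝ) :=
            mul_le_mul (by linarith) hNP hN0.le (by positivity)
        _ = P^(16/100:ℝ) := by rw [hpw]; norm_num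
        _ ≤ _ := Real.rpow_le_rpow_of_exponent_le hP1 (by norm_num)
    have hE : ((m:ℝ) + ρ') * y = (m' + σ) * x := by
      apply Crest.Agent.R4.Lab709.exact_of_close (θ := ρ + δ * (θ - ρ)) (θ' := σ + δ * (θ - σ))
        (E := 4 * P^(25/100:ℝ) / t)
      · rw [eσ]
        have h2 : 2 / t ≤ 2 * P^(25/100:ℝ) / t := by
          apply div_le_div_of_nonneg_right _ ht0.le
          linarith
        have h3 : 4 * N / t ≤ P^(25/100:ℝ) / t := div_le_div_of_nonneg_right h4N ht0.le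
        have h4 : 4 * P^(25/100:ℝ) / t = 2 * P^(25/100:ℝ) / t + P^(25/100:ℝ) / t + P^(25/100:ℝ) / t := by
          ring
        rw [h4]
        have h5 : |(ρ:ℝ) + δ * (θ - ρ) - ρ'| * y ≤ P^(25/100:ℝ) / t := hn.trans h3
        have h6 := hov.trans h2
        linarith
      · have h1 : (ρ'.den:ℝ) * σ.den ≤ P^(40/100:ℝ) := by
          calc (ρ'.den:ℝ) * σ.den ≤ P^(15/100:ℝ) * P^(25/100:ℝ) :=
                mul_le_mul (hd.trans hNP) hZ1 hl.le (by positivity)
            _ = _ := by rw [hpw]; norm_num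
        calc 4 * P^(25/100:ℝ) / t * (ρ'.den * σ.den) ≤ 4 * P^(25/100:ℝ) / t * P^(40/100:ℝ) :=
              mul_le_mul_of_nonneg_left h1 (by positivity)
          _ = (4 * (P^(25/100:ℝ) * P^(40/100:ℝ))) / t := by ring
          _ < 1 := by
              rw [div_lt_one ht0]
              calc 4 * (P^(25/100:ℝ) * P^(40/100:ℝ)) < P^(1/100:ℝ) * (P^(25/100:ℝ) * P^(40/100:ℝ)) := by
                    apply mul_lt_mul_of_pos_right _ (by positivity)
                    linarith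
                _ = P^(66/100:ℝ) := by rw [hpw, hpw]; norm_num
                _ ≤ P^(1:ℝ) := Real.rpow_le_rpow_of_exponent_le hP1 (by norm_num)
                _ = P := Real.rpow_one P
                _ ≤ t := ht
    have heq : ρ' = ρ := by
      have h1 : ((m:ℝ) + ρ') * y = (m + ρ) * y := by rw [hE, hex]
      have h2 := mul_right_cancel₀ hy0.ne' h1
      have h3 : (ρ':ℝ) = ρ := by linarith
      exact_mod_cast h3
    rw [heq] at hd hn
    rw [eρ] at hn
    apply hfin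
    · calc (ρ.den:ℝ) ≤ P^(15/100:ℝ) := hd.trans hNP
        _ < P^(1:ℝ) := Real.rpow_lt_rpow_of_exponent_lt hP1' (by norm_num)
        _ = P := Real.rpow_one P
    · refine hn.trans ?_
      apply div_le_div_of_nonneg_right _ ht0.le
      linarith
  · have hyN' : (y:ℝ) ≤ N := not_lt.1 hyN
    apply hfin
    · have h1 : (ρ.den:ℝ) ≤ y * σ.den := by exact_mod_cast den_le_of_exact hy ρ σ hex
      calc (ρ.den:ℝ) ≤ y * σ.den := h1
        _ ≤ P^(15/100:ℝ) * P^(25/100:ℝ) := mul_le_mul (hyN'.trans hNP) hZ1 hl.le (by positivity)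
        _ = P^(40/100:ℝ) := by rw [hpw]; norm_num
        _ < P^(1:ℝ) := Real.rpow_lt_rpow_of_exponent_lt hP1' (by norm_num)
        _ = P := Real.rpow_one P
    · have e1 : (m + (ρ + δ * (θ - ρ))) * y - (m' + (σ + δ * (θ - σ))) * x =
          (δ * (θ - ρ)) * y - (δ * (θ - σ)) * x := by
        linear_combination hex
      rw [e1] at hov
      have h2 : |(δ * (θ - ρ)) * y| ≤ 2 / t + |(δ * (θ - σ)) * x| := by
        have := abs_sub_abs_le_abs_sub ((δ * (θ - ρ)) * y) ((δ * (θ - σ)) * x)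
        linarith
      rw [abs_mul, abs_mul, abs_mul, abs_mul, abs_of_pos hδ0, abs_of_pos hy0, abs_of_pos hx0] at h2
      refine h2.trans ?_
      have h3 : 2 / t ≤ 2 * P^(25/100:ℝ) / t := by
        apply div_le_div_of_nonneg_right _ ht0.le
        linarith
      have h4 : 3 * P^(25/100:ℝ) / t = 2 * P^(25/100:ℝ) / t + P^(25/100:ℝ) / t := by ring
      rw [h4]
      linarith

/-- **no class `[E]`** for one target and different cofactors -/
theorem FF_of_small {θ t : ℝ} {x y : ℕ} {r r' : ℝ} {m m' : ℤ} (hxy : x ≠ y)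
    (h : Small (t^(1/20:ℝ)) θ θ t x y r r' m m') : ∃ ρ ρ' : ℚ, FF θ θ t r r' x y ρ ρ' := by
  have ht := h.ht
  have ht0 := Crest.Agent.R4.Dich579.t_pos ht
  have ht1 := Crest.Agent.R4.Dich579.one_le_t ht
  set a : ℤ := m' * x - m * y with ha
  set b : ℤ := (y:ℤ) - x with hb
  have hb0 : b ≠ 0 := by
    rw [hb]; intro h0
    apply hxy
    have : (x:ℤ) = y := by linarith
    exact_mod_cast this
  set ρ : ℚ := (a:ℚ) / (b:ℚ) with hρ
  have hb0q : (b:ℚ) ≠ 0 := by exact_mod_cast hb0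
  have hb0r : (b:ℝ) ≠ 0 := by exact_mod_cast hb0
  have hbr : (b:ℝ) = y - x := by rw [hb]; push_cast; ring
  have har : (a:ℝ) = m' * x - m * y := by rw [ha]; push_cast; ring
  have hρr : (ρ:ℝ) = a / b := by rw [hρ]; push_cast; ring
  have hb1 : (1:ℝ) ≤ |(b:ℝ)| := by
    have := Int.one_le_abs hb0
    exact_mod_cast this
  have hden : (ρ.den:ℝ) ≤ |(b:ℝ)| := by
    have h1 := Rat.den_dvd a b
    rw [Rat.divInt_eq_div] at h1
    have h2 : (ρ.den : ℤ) ∣ b := h1
    have h3 : (ρ.den : ℤ) ≤ |b| := Int.le_of_dvd (abs_pos.2 hb0) ((dvd_abs _ _).2 h2)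
    exact_mod_cast h3
  have hbN : |(b:ℝ)| ≤ t^(1/20:ℝ) := by
    rw [hbr, abs_le]
    have h1 := h.hxN
    have h2 := h.hyN
    have h3 : (0:ℝ) ≤ x := Nat.cast_nonneg _
    have h4 : (0:ℝ) ≤ y := Nat.cast_nonneg _
    constructor <;> linarith
  have hnear : |θ - ρ| ≤ 2 / t := by
    have e1 : (θ - ρ) * b = (m + θ) * y - (m' + θ) * x := by
      rw [hρr, sub_mul, div_mul_cancel₀ _ hb0r, har, hbr]; ring
    have h1 : |θ - ρ| * |(b:ℝ)| ≤ 2 / t := by
      rw [← abs_mul, e1]; exact h.rel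
    calc |θ - ρ| = |θ - ρ| * 1 := (mul_one _).symm
      _ ≤ |θ - ρ| * |(b:ℝ)| := mul_le_mul_of_nonneg_left hb1 (abs_nonneg _)
      _ ≤ _ := h1
  have h4 := Crest.Agent.R4.Dich579.four_le ht
  have h2t : 2 / t ≤ t^(-(875/1000):ℝ) := by
    calc 2 / t = 2 * t^(-1:ℝ) := by rw [Real.rpow_neg_one]; ring
      _ ≤ t^(1/200:ℝ) * t^(-1:ℝ) := by
          apply mul_le_mul_of_nonneg_right _ (by positivity)
          linarith
      _ = t^(-(995/1000):ℝ) := by rw [← Real.rpow_add ht0]; norm_num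
      _ ≤ _ := Real.rpow_le_rpow_of_exponent_le ht1 (by norm_num)
  have fin2 : ∀ {w : ℝ}, t^(-(107/100):ℝ) < w → t^(-(875/1000):ℝ) ≤ t^(39/200:ℝ) * w := by
    intro w hw
    calc t^(-(875/1000):ℝ) = t^(39/200:ℝ) * t^(-(107/100):ℝ) := by
          rw [← Real.rpow_add ht0]; norm_num
      _ ≤ _ := mul_le_mul_of_nonneg_left hw.le (by positivity)
  have hd2 : (ρ.den:ℝ) ≤ t^(21/200:ℝ) :=
    hden.trans (hbN.trans (Real.rpow_le_rpow_of_exponent_le ht1 (by norm_num)))
  have hp : |θ - ρ| ≤ t^(-(87/100):ℝ) :=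
    hnear.trans (h2t.trans (Real.rpow_le_rpow_of_exponent_le ht1 (by norm_num)))
  exact ⟨ρ, ρ, Crest.Agent.R4.Dich579.mkFF ht h.hx h.hy h.hr h.hr' h.hxr h.hyr hd2 hd2
    (hnear.trans (h2t.trans (fin2 h.r_gt))) (hnear.trans (h2t.trans (fin2 h.swap.r_gt))) hp hp⟩

/-- **the deep range**: genericity for the target itself -/
theorem alt_deep {n : ℕ} (hn : 400 ≤ n) {θ : ℝ} {ρ σ : ℚ} {x y : ℕ} (hx : 0 < x) (hy : 0 < y)
    (hxy : x ≠ y) {R R' : ℝ} (hR : 0 < R) (hσ : Lab θ R' σ) (hρ : ¬ Lab θ R ρ) {m m' : ℤ}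
    (hex : ((m:ℝ) + ρ) * y = (m' + σ) * x)
    (hov : |(m + θ) * y - (m' + θ) * x| ≤ 2 * max ((y:ℝ) * R) ((x:ℝ) * R')) :
    AltS n θ θ x y R R' := by
  rcases classify_num hn hx hy hR hσ.pos hov with h | h | h
  · exact h
  · obtain ⟨t, m1, m1', hs, hF⟩ := h
    exact absurd (FF_of_small hxy hs) hF
  · obtain ⟨t, m1, m1', ρ1, ρ2, ht, h1, h2, h3, hF, h4⟩ := h
    exfalso
    have ht0 : 0 < t := lt_of_lt_of_le (by positivity) ht
    have h5 := hF.exact m m' (hov.trans (by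
      calc 2 * max ((y:ℝ) * R) ((x:ℝ) * R') ≤ 2 * (1/t) := mul_le_mul_of_nonneg_left h2 (by norm_num)
        _ = 2 / t := by ring))
    have h6 : ρ2 = σ := lab_unique hF.lab' hσ
    rw [h6, ← hex] at h5
    have hy0 : (y:ℝ) ≠ 0 := by exact_mod_cast hy.ne'
    have h7 := mul_right_cancel₀ hy0 h5
    have h8 : ρ1 = ρ := by
      have : (ρ1:ℝ) = ρ := by linarith
      exact_mod_cast this
    rw [h8] at hF
    exact hρ hF.lab

open Crest.Agent.R4.LF11 (DD ew)

open Classical in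
set_option maxHeartbeats 1000000 in
/-- **LL DEATH**: pairs with one dead label (left) and one valid label (right), exact and overlapping. -/
theorem ll_death : ∃ C c0 : ℝ, 1 ≤ C ∧ 0 < c0 ∧ ∀ c1 : ℝ, 0 < c1 → c1 ≤ c0 → ∃ T0 : ℝ, 1 ≤ T0 ∧
    ∀ (X K L θ : ℝ) (n G Nl : ℕ) (V W : Finset ℕ) (E : Finset (ℕ × ℕ)) (P : Finset (ℚ × ℚ))
      (R R' : ℕ → ℝ) (τ τ' : ℕ → ℚ) (F : ℕ × ℕ → ℝ),
    400 ≤ n → T0 ≤ (2:ℝ)^n → X ≤ Real.exp (((2:ℝ)^n)^c1) → 0 < G → 0 ≤ K → 0 ≤ L → E ⊆ V ×ˢ W →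
    (∀ w ∈ V, 0 < w ∧ 0 < R w) → (∀ w ∈ W, 0 < w ∧ 0 < R' w) →
    (∀ w ∈ V, R w ≤ L * wt R w) → (∀ w ∈ W, R' w ≤ L * wt R' w) →
    (∀ z : ℝ, X ≤ z → ∀ w ∈ V, Crest.Agent.R4.ClsB.Tame z G w) →
    (∀ z : ℝ, X ≤ z → ∀ w ∈ W, Crest.Agent.R4.ClsB.Tame z G w) →
    (∀ e ∈ E, cof e.1 e.2 ≠ cof e.2 e.1) →
    (∀ e ∈ E, F e ≤ K * ((R e.1 * R' e.2) / DP R R' e)) →
    (∀ e ∈ E, 0 < F e → (τ e.1, τ' e.2) ∈ P ∧ Lab θ (R' e.2) (τ' e.2) ∧ ¬ Lab θ (R e.1) (τ e.1) ∧
      ((2:ℝ)^n ≤ (τ e.1).den ∨ (2:ℝ)^n * R e.1 ≤ |θ - τ e.1|) ∧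
      ∃ m m' : ℤ, ((m:ℝ) + τ e.1) * (cof e.2 e.1 : ℕ) = (m' + τ' e.2) * (cof e.1 e.2 : ℕ) ∧
        |(m + θ) * (cof e.2 e.1 : ℕ) - (m' + θ) * (cof e.1 e.2 : ℕ)| ≤ 2 * DP R R' e) →
    P.card ≤ Nl →
    ∑ e ∈ E, F e ≤
      K * L^2 * (1/2^n) * ((∑ q ∈ V, wt R q) * (∑ r ∈ W, wt R' r)) +
      C * (Nl + 1) * (K * L^2) * ((2:ℝ)^n)^(-(1/1000):ℝ) *
        ((∑ q ∈ V, wt R q) * (∑ r ∈ W, wt R' r))^(1/2+eps1) := by
  obtain ⟨C, c0, hC1, hc0, hC⟩ := Crest.Agent.R4.ClsT2.deepHyp_Gen3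
  refine ⟨C, c0, hC1, hc0, ?_⟩
  intro c1 hc1 hc10
  obtain ⟨T0, hT01, hT0⟩ := hC c1 hc1 hc10
  refine ⟨T0, hT01, ?_⟩
  intro X K L θ n G Nl V W E P R R' τ τ' F hn hTn hX hG hK hL0 hES hV hW hLV hLW hVt hWt hne hF hdat hPc
  have he1 : eps1 = 1/1000 := rfl
  set Q : ℝ := (2:ℝ)^n with hQ
  have hQ0 : 0 < Q := by positivity
  have hQ400 : (2:ℝ)^400 ≤ Q := pow_le_pow_right₀ (by norm_num) hn
  have hQ1 : 1 ≤ Q := one_le_pow₀ (by norm_num)
  set δ : ℝ := 1/Q^2 with hδ
  have hδ0 : 0 < δ := by positivity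
  have hδQ : δ * Q^2 = 1 := by rw [hδ]; field_simp
  have hmem : ∀ e ∈ E, e.1 ∈ V ∧ e.2 ∈ W := fun e he => Finset.mem_product.1 (hES he)
  have hDpos : ∀ e ∈ E, 0 < DP R R' e := fun e he =>
    DP_pos (hW _ (hmem e he).2).1 (hV _ (hmem e he).1).2
  have hmu : ∀ q ∈ V, 0 ≤ wt R q := fun q hq => by
    unfold wt; exact mul_nonneg (hV q hq).2.le (by positivity)
  have hmu' : ∀ q ∈ W, 0 ≤ wt R' q := fun q hq => by
    unfold wt; exact mul_nonneg (hW q hq).2.le (by positivity)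
  have hM0 := Finset.sum_nonneg hmu
  have hM0' := Finset.sum_nonneg hmu'
  set M := ∑ q ∈ V, wt R q with hM
  set M' := ∑ q ∈ W, wt R' q with hM'
  have hRR : ∀ e ∈ E, R e.1 * R' e.2 ≤ L^2 * (wt R e.1 * wt R' e.2) := by
    intro e he
    have h1 := hLV _ (hmem e he).1
    have h2 := hLW _ (hmem e he).2
    have h5 : 0 ≤ L * wt R e.1 := (hV _ (hmem e he).1).2.le.trans h1
    calc R e.1 * R' e.2 ≤ (L * wt R e.1) * (L * wt R' e.2) :=
          mul_le_mul h1 h2 (hW _ (hmem e he).2).2.le h5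
      _ = _ := by ring
  have hFw : ∀ e ∈ E, F e ≤ (K * L^2) * ((wt R e.1 * wt R' e.2) / DP R R' e) := by
    intro e he
    calc F e ≤ K * ((R e.1 * R' e.2) / DP R R' e) := hF e he
      _ ≤ K * ((L^2 * (wt R e.1 * wt R' e.2)) / DP R R' e) :=
          mul_le_mul_of_nonneg_left (div_le_div_of_nonneg_right (hRR e he) (hDpos e he).le) hK
      _ = _ := by ring
  have hKL : 0 ≤ K * L^2 := by positivity
  have hDD : ∀ e, DD R R' e = DP R R' e := fun e => rfl
  have hew : ∀ (ψ ψ' : ℕ → ℝ) (e : ℕ × ℕ), 0 ≤ wt ψ e.1 * wt ψ' e.2 →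
      wt ψ e.1 * wt ψ' e.2 ≤ ew ψ ψ' e := by
    intro ψ ψ' e h
    unfold ew
    have f1 := Crest.Agent.R4.ClsS.one_le_Af (cof e.1 e.2)
    have f2 := Crest.Agent.R4.ClsS.one_le_Af (cof e.2 e.1)
    exact le_mul_of_one_le_right h (by nlinarith)
  -- the three ranges
  set E0 := E.filter (fun e => 0 < F e) with hE0
  set ED := E0.filter (fun e => DP R R' e ≤ 1/Q) with hED
  set EU := E0.filter (fun e => ¬ DP R R' e ≤ 1/Q) with hEU
  set EM := EU.filter (fun e => DP R R' e ≤ Q) with hEM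
  set EF := EU.filter (fun e => ¬ DP R R' e ≤ Q) with hEF
  have hs0 : ∑ e ∈ E, F e ≤ ∑ e ∈ E0, F e := by
    rw [← Finset.sum_filter_add_sum_filter_not E (fun e => 0 < F e) F]
    have h1 : ∑ e ∈ E.filter (fun e => ¬ 0 < F e), F e ≤ 0 :=
      Finset.sum_nonpos fun e he => not_lt.1 (Finset.mem_filter.1 he).2
    linarith
  have hsplit : ∑ e ∈ E0, F e = ∑ e ∈ ED, F e + (∑ e ∈ EM, F e + ∑ e ∈ EF, F e) := by
    rw [hEM, hEF, Finset.sum_filter_add_sum_filter_not, hED, hEU,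
      Finset.sum_filter_add_sum_filter_not]
  have h0P : ∀ e ∈ E0, e ∈ E ∧ 0 < F e := fun e he => Finset.mem_filter.1 he
  have hDP : ∀ e ∈ ED, e ∈ E0 := fun e he => (Finset.mem_filter.1 he).1
  have hUP : ∀ e ∈ EU, e ∈ E0 := fun e he => (Finset.mem_filter.1 he).1
  have hMP : ∀ e ∈ EM, e ∈ EU := fun e he => (Finset.mem_filter.1 he).1
  have hFP : ∀ e ∈ EF, e ∈ EU := fun e he => (Finset.mem_filter.1 he).1
  -- deep
  have boundD := hT0 θ θ Q X (K * L^2) V W ED R R' F G hTn hX hKL hG hV hW hVt hWt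
    (fun e he => hES (h0P e (hDP e he)).1)
    (fun e he => by rw [hDD]; exact (Finset.mem_filter.1 he).2)
    (fun e he => by
      rw [hDD]
      have h := (h0P e (hDP e he)).1
      refine (hFw e h).trans ?_
      apply mul_le_mul_of_nonneg_left _ hKL
      apply div_le_div_of_nonneg_right _ (hDpos e h).le
      exact hew R R' e (mul_nonneg (hmu _ (hmem e h).1) (hmu' _ (hmem e h).2)))
    (by
      intro e he t ht h1 h2 hFe
      rw [hDD] at h1 h2
      have h := (h0P e (hDP e he)).1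
      obtain ⟨-, hl, hd, -, m, m', hex, hov⟩ := hdat e h hFe
      refine gen3_of (m := m) (m' := m') hov ?_ ht h1 h2
      exact alt_deep hn (cof_pos (hV _ (hmem e h).1).1) (cof_pos (hW _ (hmem e h).2).1) (hne e h)
        (hV _ (hmem e h).1).2 hl hd hex hov)
  -- far
  have boundF : ∑ e ∈ EF, F e ≤ K * L^2 * (1/Q) * (M * M') := by
    have h1 : ∀ e ∈ EF, F e ≤ K * L^2 * (1/Q) * (wt R e.1 * wt R' e.2) := by
      intro e he
      have h := (h0P e (hUP e (hFP e he))).1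
      have hD1 := (not_le.1 (Finset.mem_filter.1 he).2).le
      have h2 : 0 ≤ wt R e.1 * wt R' e.2 := mul_nonneg (hmu _ (hmem e h).1) (hmu' _ (hmem e h).2)
      calc F e ≤ (K * L^2) * ((wt R e.1 * wt R' e.2) / DP R R' e) := hFw e h
        _ ≤ (K * L^2) * ((wt R e.1 * wt R' e.2) / Q) := by
            apply mul_le_mul_of_nonneg_left _ hKL
            exact div_le_div_of_nonneg_left h2 hQ0 hD1
        _ = _ := by ring
    calc ∑ e ∈ EF, F e ≤ ∑ e ∈ EF, K * L^2 * (1/Q) * (wt R e.1 * wt R' e.2) := Finset.sum_le_sum h1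
      _ ≤ ∑ e ∈ V ×ˢ W, K * L^2 * (1/Q) * (wt R e.1 * wt R' e.2) := by
          apply Finset.sum_le_sum_of_subset_of_nonneg
          · intro e he
            exact hES (h0P e (hUP e (hFP e he))).1
          · intro e he _
            have h := Finset.mem_product.1 he
            have := hmu _ h.1
            have := hmu' _ h.2
            positivity
      _ = _ := by rw [← Finset.mul_sum, Finset.sum_product, Finset.sum_mul_sum]
  -- middle
  have hwd : ∀ (ψ : ℕ → ℝ) (q : ℕ), wt (fun w => δ * ψ w) q = δ * wt ψ q := by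
    intro ψ q; unfold wt; ring
  have hDPd : ∀ e, DP (fun w => δ * R w) (fun w => δ * R' w) e = δ * DP R R' e := by
    intro e; unfold DP
    rw [mul_max_of_nonneg _ _ hδ0.le]
    congr 1 <;> ring
  have hfib : ∀ l ∈ P, ∑ e ∈ EM.filter (fun e => (τ e.1, τ' e.2) = l), F e ≤
      C * (K * L^2) * Q^(-(1/1000):ℝ) * (M * M')^(1/2+eps1) := by
    intro l _
    have b := hT0 (l.1 + δ * (θ - l.1)) (l.2 + δ * (θ - l.2)) Q X (K * L^2 * Q^2) V W
      (EM.filter (fun e => (τ e.1, τ' e.2) = l)) (fun w => δ * R w) (fun w => δ * R' w) F G hTn hX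
      (by positivity) hG (fun w hw => ⟨(hV w hw).1, mul_pos hδ0 (hV w hw).2⟩)
      (fun w hw => ⟨(hW w hw).1, mul_pos hδ0 (hW w hw).2⟩) hVt hWt
      (fun e he => hES (h0P e (hUP e (hMP e (Finset.mem_filter.1 he).1))).1)
      (fun e he => by
        have h1 : DD (fun w => δ * R w) (fun w => δ * R' w) e = δ * DP R R' e := hDPd e
        rw [h1]
        have h2 := (Finset.mem_filter.1 (Finset.mem_filter.1 he).1).2
        calc δ * DP R R' e ≤ δ * Q := mul_le_mul_of_nonneg_left h2 hδ0.le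
          _ = 1/Q := by rw [hδ]; field_simp)
      (fun e he => by
        have h1 : DD (fun w => δ * R w) (fun w => δ * R' w) e = δ * DP R R' e := hDPd e
        rw [h1]
        have h := (h0P e (hUP e (hMP e (Finset.mem_filter.1 he).1))).1
        have hD := hDpos e h
        have h3 : 0 ≤ wt R e.1 * wt R' e.2 := mul_nonneg (hmu _ (hmem e h).1) (hmu' _ (hmem e h).2)
        calc F e ≤ (K * L^2) * ((wt R e.1 * wt R' e.2) / DP R R' e) := hFw e h
          _ = (K * L^2 * Q^2) * ((wt (fun w => δ * R w) e.1 * wt (fun w => δ * R' w) e.2) /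
                (δ * DP R R' e)) := by
              rw [hwd, hwd]
              have : Q^2 = 1/δ := by rw [hδ]; field_simp
              rw [this]
              field_simp
          _ ≤ _ := by
              apply mul_le_mul_of_nonneg_left _ (by positivity)
              apply div_le_div_of_nonneg_right _ (by positivity)
              apply hew
              rw [hwd, hwd]
              have h4 : δ * wt R e.1 * (δ * wt R' e.2) = δ^2 * (wt R e.1 * wt R' e.2) := by ring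
              rw [h4]
              exact mul_nonneg (by positivity) h3)
      (by
        intro e he t ht h1 h2 hFe
        have h3 : DD (fun w => δ * R w) (fun w => δ * R' w) e = δ * DP R R' e := hDPd e
        rw [h3] at h1 h2
        obtain ⟨heM, hl⟩ := Finset.mem_filter.1 he
        have heU := Finset.mem_filter.1 (hMP e heM)
        have h := (h0P e heU.1).1
        obtain ⟨-, hlab, -, hdd, m, m', hex, hov⟩ := hdat e h hFe
        have ht0 : 0 < t := hQ0.trans_le ht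
        have hl1 : l.1 = τ e.1 := by rw [← hl]
        have hl2 : l.2 = τ' e.2 := by rw [← hl]
        rw [hl1, hl2]
        have hlow : 1/Q < DP R R' e := not_le.1 heU.2
        have ht3 : t ≤ Q^3 := by
          have h4 : δ * (1/Q) < 1/t := (mul_lt_mul_of_pos_left hlow hδ0).trans_le h2
          have h5 : δ * (1/Q) = 1/Q^3 := by rw [hδ]; field_simp
          rw [h5] at h4
          exact (lt_of_one_div_lt_one_div (by positivity) h4).le
        have e1 : (m + ((τ e.1 : ℝ) + δ * (θ - τ e.1))) * (cof e.2 e.1 : ℕ) -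
            (m' + ((τ' e.2 : ℝ) + δ * (θ - τ' e.2))) * (cof e.1 e.2 : ℕ) =
            δ * ((m + θ) * (cof e.2 e.1 : ℕ) - (m' + θ) * (cof e.1 e.2 : ℕ)) := by
          linear_combination (1 - δ) * hex
        have hov2 : |(m + ((τ e.1 : ℝ) + δ * (θ - τ e.1))) * (cof e.2 e.1 : ℕ) -
            (m' + ((τ' e.2 : ℝ) + δ * (θ - τ' e.2))) * (cof e.1 e.2 : ℕ)| ≤ 2 * (δ * DP R R' e) := by
          rw [e1, abs_mul, abs_of_pos hδ0]
          calc δ * |(m + θ) * (cof e.2 e.1 : ℕ) - (m' + θ) * (cof e.1 e.2 : ℕ)| ≤ δ * (2 * DP R R' e) :=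
                mul_le_mul_of_nonneg_left hov hδ0.le
            _ = _ := by ring
        have hov3 : |(m + ((τ e.1 : ℝ) + δ * (θ - τ e.1))) * (cof e.2 e.1 : ℕ) -
            (m' + ((τ' e.2 : ℝ) + δ * (θ - τ' e.2))) * (cof e.1 e.2 : ℕ)| ≤ 2 / t := by
          refine hov2.trans ?_
          calc 2 * (δ * DP R R' e) ≤ 2 * (1/t) := mul_le_mul_of_nonneg_left h2 (by norm_num)
            _ = 2 / t := by ring
        refine ⟨⟨m * (cof e.2 e.1 : ℕ) - m' * (cof e.1 e.2 : ℕ), ?_⟩, ?_⟩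
        · have e5 : (((m * (cof e.2 e.1 : ℕ) - m' * (cof e.1 e.2 : ℕ) : ℤ):ℝ) -
              (((τ' e.2 : ℝ) + δ * (θ - τ' e.2)) * (cof e.1 e.2 : ℕ) -
                ((τ e.1 : ℝ) + δ * (θ - τ e.1)) * (cof e.2 e.1 : ℕ))) =
              (m + ((τ e.1 : ℝ) + δ * (θ - τ e.1))) * (cof e.2 e.1 : ℕ) -
            (m' + ((τ' e.2 : ℝ) + δ * (θ - τ' e.2))) * (cof e.1 e.2 : ℕ) := by
            push_cast; ring
          rw [e5]; exact hov3
        · have hDle : (cof e.1 e.2 : ℝ) * (δ * R' e.2) ≤ 1/t := by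
            refine le_trans ?_ h2
            calc (cof e.1 e.2 : ℝ) * (δ * R' e.2) = δ * ((cof e.1 e.2 : ℝ) * R' e.2) := by ring
              _ ≤ δ * DP R R' e := mul_le_mul_of_nonneg_left (le_max_right _ _) hδ0.le
          exact alt_mid hQ400 (cof_pos (hV _ (hmem e h).1).1) (cof_pos (hW _ (hmem e h).2).1)
            hlab hex hdd hδQ hov3 hDle ht ht3)
    refine b.trans ?_
    have hs1 : ∑ v ∈ V, wt (fun w => δ * R w) v = δ * M := by
      rw [hM, Finset.mul_sum]; exact Finset.sum_congr rfl fun q _ => hwd R q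
    have hs2 : ∑ v ∈ W, wt (fun w => δ * R' w) v = δ * M' := by
      rw [hM', Finset.mul_sum]; exact Finset.sum_congr rfl fun q _ => hwd R' q
    rw [hs1, hs2]
    have e3 : (δ * M * (δ * M'))^(1/2+eps1) ≤ δ * (M * M')^(1/2+eps1) := by
      have h1 : δ * M * (δ * M') = δ^(2:ℝ) * (M * M') := by
        rw [Real.rpow_two]; ring
      rw [h1, Real.mul_rpow (by positivity) (mul_nonneg hM0 hM0'), ← Real.rpow_mul hδ0.le]
      have h3 : 0 ≤ (M * M')^(1/2+eps1) := Real.rpow_nonneg (mul_nonneg hM0 hM0') _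
      apply mul_le_mul_of_nonneg_right _ h3
      have hδ1 : δ ≤ 1 := by
        rw [hδ, div_le_one (by positivity)]
        exact one_le_pow₀ hQ1
      calc δ^(2 * (1/2+eps1)) ≤ δ^(1:ℝ) :=
            Real.rpow_le_rpow_of_exponent_ge hδ0 hδ1 (by rw [he1]; norm_num)
        _ = δ := Real.rpow_one δ
    have hCK : 0 ≤ C * (K * L^2 * Q^2) * Q^(-(1/1000):ℝ) := by
      have : 0 ≤ C := by linarith
      positivity
    calc C * (K * L^2 * Q^2) * Q^(-(1/1000):ℝ) * (δ * M * (δ * M'))^(1/2+eps1)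
        ≤ C * (K * L^2 * Q^2) * Q^(-(1/1000):ℝ) * (δ * (M * M')^(1/2+eps1)) :=
          mul_le_mul_of_nonneg_left e3 hCK
      _ = (δ * Q^2) * (C * (K * L^2) * Q^(-(1/1000):ℝ) * (M * M')^(1/2+eps1)) := by ring
      _ = _ := by rw [hδQ, one_mul]
  have boundM : ∑ e ∈ EM, F e ≤ Nl * (C * (K * L^2) * Q^(-(1/1000):ℝ) * (M * M')^(1/2+eps1)) := by
    have h1 : ∑ e ∈ EM, F e = ∑ l ∈ P, ∑ e ∈ EM.filter (fun e => (τ e.1, τ' e.2) = l), F e := by
      refine (Finset.sum_fiberwise_of_maps_to (fun e he => ?_) F).symm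
      have h2 := h0P e (hUP e (hMP e he))
      exact (hdat e h2.1 h2.2).1
    have hB0 : 0 ≤ C * (K * L^2) * Q^(-(1/1000):ℝ) * (M * M')^(1/2+eps1) := by
      have : 0 ≤ C := by linarith
      have h3 : 0 ≤ (M * M')^(1/2+eps1) := Real.rpow_nonneg (mul_nonneg hM0 hM0') _
      positivity
    rw [h1]
    calc ∑ l ∈ P, ∑ e ∈ EM.filter (fun e => (τ e.1, τ' e.2) = l), F e
        ≤ ∑ _l ∈ P, C * (K * L^2) * Q^(-(1/1000):ℝ) * (M * M')^(1/2+eps1) := Finset.sum_le_sum hfib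
      _ = P.card * (C * (K * L^2) * Q^(-(1/1000):ℝ) * (M * M')^(1/2+eps1)) := by
          rw [Finset.sum_const, nsmul_eq_mul]
      _ ≤ _ := by
          apply mul_le_mul_of_nonneg_right _ hB0
          exact_mod_cast hPc
  have hfin : C * (Nl + 1) * (K * L^2) * Q^(-(1/1000):ℝ) * (M * M')^(1/2+eps1) =
      Nl * (C * (K * L^2) * Q^(-(1/1000):ℝ) * (M * M')^(1/2+eps1)) +
        C * (K * L^2) * Q^(-(1/1000):ℝ) * (M * M')^(1/2+eps1) := by ring
  rw [hfin]
  linarith

end Crest.Agent.R4P.LLD14
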