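import Crest.Agent.R4P.LocXc_25

/-!
R4P (S0004), helper25, module D, group [X]: **the (leaf, tree) bound with excluded pairs** (helper32 #6364),
definitions.

* `LTI` : a (leaf, tree) state (also after pulls of the left side);
* `PrT` : the predicates of the pairs which are not excluded;
* `TRs` : the pairs of labels of the excluded pairs of items;
* `LTT` : the bound.
-/

set_option autoImplicit false
set_option linter.unusedSectionVars false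
set_option linter.unusedVariables false
open Finset

namespace Crest.Agent.R4P.LocX25

open Crest.Agent.R4.HVW560 Crest.Agent.R4P.AvgItem710
open Crest.Agent.R4.Tour104 Crest.Agent.R4.Tour758 Crest.Agent.R4.Avg758 Crest.Agent.R4.Clos758
open Crest.Agent.R4.ClosL758 Crest.Agent.R4.ClosG758 Crest.Agent.R4.ClosR758
open Crest.Agent.R4.Fam464 Crest.Agent.R4P.Cnt588 Crest.Agent.R4P.Walk560 Crest.Agent.R4P.Item758
open Crest.Agent.R4P.Bld532 (NS All NodeOk)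
open Crest.Agent.R4P.GSt927 Crest.Agent.R4P.WalkIT579 Crest.Agent.R4P.NMW710
open Crest.Agent.R4P.CrossLoc25 Crest.Agent.R4P.CrossLocC25 Crest.Agent.R4P.YI25
open Crest.Agent.R4P.Data758 Crest.Agent.R4.Piece464
open Crest.Agent.R4P.IvX29 Crest.Agent.R4P.ShrW34 Crest.Agent.R4P.ShrG28
open Crest.Agent.R4P.TBLeaf28 (JC)
open Crest.Agent.R4P.Skel189 (Ctx top Kc)
open Crest.Agent.R4.Soft104 (w)
open Crest.Agent.R4P.WmfL25 (mL)
open Crest.Agent.R4.AvgItem710 (rf)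
open Crest.Agent.R4.CrossLoc709 (SE)
open Crest.Agent.R4P

section gen
variable {Λ κ : Type*} [Fintype Λ] [DecidableEq Λ] [Fintype κ] [DecidableEq κ] [WRel κ]

open Classical in
/-- pairs of labels whose items are excluded -/
noncomputable def TRs (D : Par Λ κ) (TW : ℕ × ℕ → Prop) : Finset (Λ × Λ) :=
  Finset.univ.filter fun x => TW (D.it x.1, D.it x.2)

lemma mem_TRs {D : Par Λ κ} {TW : ℕ × ℕ → Prop} {x : Λ × Λ} :
    x ∈ TRs D TW ↔ TW (D.it x.1, D.it x.2) := by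
  unfold TRs
  simp

end gen

variable {N : Skel189.Num} {γ : ℝ} {p0 P₀ : ℕ}

/-- **a (leaf, tree) state** (the leaf may be the end of a chain of pulls of a crossing state) -/
structure LTI (X : Ctx N γ p0 P₀) (Qp : NS → IT → Prop) (b : ℕ) (x0 y0 : ℕ × ℕ → ℕ)
    (s₀ : ℕ × ℕ → ℝ × ℝ) (s : X.Sta) (u u' : NS) (S : Finset ℕ) (τ' : IT) : Prop where
  L : SY (X.c.D.par X.Y) (fun _ => ∅) Qp u (.leaf S) s.A s.t
  R : SY (X.c.D.par X.Y) (fun _ => ∅) Qp u' τ' s.A' s.t'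
  M0 : 0 < s.M
  M0' : 0 < s.M'
  circ : u.A * u.B * s.M = u'.A * u'.B * s.M'
  cop : Nat.Coprime s.M s.M'
  lc : ∃ l : ℕ, s.R = Ro ((X.c.D.par X.Y).rho l) ∧ l.Prime ∧ p0 < l ∧ l ≤ b ∧ tp τ' ≤ l
  lv : ∀ l : ℕ, l.Prime → l < tp τ' → l < u.n
  A : s.A = Finset.univ
  A' : s.A' = Finset.univ
  jc : ∀ e ∈ Ep (X.c.D.par X.Y) X.S' s (.leaf S) τ', JC x0 y0 s.M u.A s.M' u'.A e
  sc : ∀ e ∈ Ep (X.c.D.par X.Y) X.S' s (.leaf S) τ', SE s.M u.B u.A s.M' u'.B u'.A e = s₀ e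

/-- **the predicates of the pairs which are not excluded** -/
structure PrT (X : Ctx N γ p0 P₀) (Qp : NS → IT → Prop) (b : ℕ) (s₀ : ℕ × ℕ → ℝ × ℝ)
    (TW PV : ℕ × ℕ → Prop) (Pc : ℕ → ℕ × ℕ → Prop) : Prop where
  pv : ∀ (l : ℕ) (e : ℕ × ℕ), ¬ TW e → l.Prime → p0 < l → l ≤ b →
    LkG (X.c.D.par X.Y) Qp (s₀ e) l e → PV e
  pc : ∀ (l : ℕ) (e : ℕ × ℕ), ¬ TW e → LkG (X.c.D.par X.Y) Qp (s₀ e) l e → Pc l e
  tw : ∀ e : ℕ × ℕ, TW e → Dsc (X.c.rr e.1) (X.c.rr e.2) (s₀ e) ≤ 1 / 2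

open Classical in
/-- what a pair of items pays at a (leaf, tree) state, excluded pairs `TW` -/
noncomputable def payT (X : Ctx N γ p0 P₀) (K Kf KH Kt : ℝ) (TW : ℕ × ℕ → Prop)
    (Vs : ℝ × ℝ → ℕ × ℕ → ℝ) (Vc : ℕ → ℝ × ℝ → ℕ × ℕ → ℝ) (s : X.Sta) (u u' : NS) (τ τ' : IT)
    (e : ℕ × ℕ) : ℝ :=
  if TW e then Kt * (u.c * w X.ψ e.1 / (rf (e.2 / u'.A) s.M' : ℝ)) +
    Kf * PhiG (X.c.D.par X.Y) (w X.ψ) X.c.t.mt ParF5.rg (HG KH (1 / 4)) s u u' τ τ' e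
  else K * potS Vs Vc (fun _ _ _ => 0) s u u' τ τ' e + Kf * PhX X KH Vs s u u' τ τ' e

/-- **the bound of the (leaf, tree) states**, excluded pairs -/
def LTT (X : Ctx N γ p0 P₀) (j₀ : X.c.Lam) (Qp : NS → IT → Prop) (b : ℕ) (B K Kf KH Kt : ℝ) : Prop :=
  ∀ (x0 y0 : ℕ × ℕ → ℕ) (s₀ : ℕ × ℕ → ℝ × ℝ) (PV : ℕ × ℕ → Prop) (Pc : ℕ → ℕ × ℕ → Prop)
    (TW : ℕ × ℕ → Prop) (T : ℝ) (s : X.Sta) (u u' : NS) (S : Finset ℕ) (τ' : IT), TX b ≤ T →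
    PrT X Qp b s₀ TW PV Pc → LTI X Qp b x0 y0 s₀ s u u' S τ' → ¬ isL τ' →
    Q (s.R \ TRs (X.c.D.par X.Y) TW) ((X.c.D.par X.Y).uA s.M u.B u.A (.leaf S) s.A 1)
        ((X.c.D.par X.Y).uA s.M' u'.B u'.A τ' s.A' 1) ≤
      B * (X.tm j₀ s.t.g s.A * X.tm j₀ s.t'.g s.A') +
      ∑ e ∈ Ep (X.c.D.par X.Y) X.S' s (.leaf S) τ',
        payT X K Kf KH Kt TW (VsX X PV x0 y0 T) (VcX X Pc x0 y0 T) s u u' (.leaf S) τ' e

end Crest.Agent.R4P.LocX25
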