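import Mathlib

/-!
R4 (S0004) with powers, group [W-eSHR], helper34: **lazy leaving of inert P content** (#26166).

A node content of a class `F` at one point is `A + S` (`A` = active part, `S` = inert P stack which
is kept in the function `F`).  At a tie of weight `w` with N content `b`:
* off the hit lift : `Ao w A b + (1 - w) * S`, on the hit lift : `Ah w A b`, and the stack
  `(1 - w) * S` is cut.
* `U_tie` : the potential `W (A + S) + (cut stacks) W I`, `W x = x * √x`, decreases by at least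
  `w (1 - w)^2 / 2 * S * √(A + S)`.
* `newcomer` : `(b - A)^+ ≤ (b - (A + S))^+ + min S b`.
* `scale_sq`, `scale_sum` : Minkowski over dyadic scales.
-/

set_option autoImplicit false

namespace Crest.Agent.R4P.Lazy34

open Finset

/-- the weight `x ^ (3/2)` -/
noncomputable def W (x : ℝ) : ℝ := x * √x

@[simp] lemma W_zero : W 0 = 0 := by simp [W]

lemma W_nonneg {x : ℝ} (h : 0 ≤ x) : 0 ≤ W x := mul_nonneg h (Real.sqrt_nonneg x)

lemma W_mono {x y : ℝ} (hx : 0 ≤ x) (h : x ≤ y) : W x ≤ W y :=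
  mul_le_mul h (Real.sqrt_le_sqrt h) (Real.sqrt_nonneg x) (hx.trans h)

lemma W_one_le {x : ℝ} (h0 : 0 ≤ x) (h1 : x ≤ 1) : W x ≤ x := by
  have := Real.sqrt_le_one.2 h1
  unfold W
  nlinarith [Real.sqrt_nonneg x]

/-- `W (c x) ≤ c W x` for `0 ≤ c ≤ 1` -/
lemma W_smul {c x : ℝ} (c0 : 0 ≤ c) (c1 : c ≤ 1) (hx : 0 ≤ x) : W (c * x) ≤ c * W x := by
  unfold W
  have h1 : √(c * x) ≤ √x := Real.sqrt_le_sqrt (by nlinarith)
  have := mul_le_mul_of_nonneg_left h1 (mul_nonneg c0 hx)
  linarith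

/-- superadditivity -/
lemma W_add {x y : ℝ} (hx : 0 ≤ x) (hy : 0 ≤ y) : W x + W y ≤ W (x + y) := by
  unfold W
  have h1 : √x ≤ √(x + y) := Real.sqrt_le_sqrt (by linarith)
  have h2 : √y ≤ √(x + y) := Real.sqrt_le_sqrt (by linarith)
  nlinarith [mul_le_mul_of_nonneg_left h1 hx, mul_le_mul_of_nonneg_left h2 hy]

/-- superadditivity for finite sums (dispersal) -/
lemma W_sum {ι : Type*} (s : Finset ι) (f : ι → ℝ) (h : ∀ i ∈ s, 0 ≤ f i) :
    ∑ i ∈ s, W (f i) ≤ W (∑ i ∈ s, f i) := by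
  classical
  induction s using Finset.induction_on with
  | empty => simp
  | insert a s ha ih =>
    rw [Finset.sum_insert ha, Finset.sum_insert ha]
    have h1 := ih fun i hi => h i (Finset.mem_insert_of_mem hi)
    have h2 := W_add (h a (Finset.mem_insert_self a s))
      (Finset.sum_nonneg fun i hi => h i (Finset.mem_insert_of_mem hi))
    linarith

/-- the tangent inequality `W x + (3/2) √x (y - x) ≤ W y` -/
lemma W_tangent {x y : ℝ} (hx : 0 ≤ x) (hy : 0 ≤ y) : W x + 3 / 2 * √x * (y - x) ≤ W y := by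
  obtain ⟨a, ha, rfl⟩ : ∃ a, 0 ≤ a ∧ x = a ^ 2 := ⟨√x, Real.sqrt_nonneg x, (Real.sq_sqrt hx).symm⟩
  obtain ⟨b, hb, rfl⟩ : ∃ b, 0 ≤ b ∧ y = b ^ 2 := ⟨√y, Real.sqrt_nonneg y, (Real.sq_sqrt hy).symm⟩
  unfold W
  rw [Real.sqrt_sq ha, Real.sqrt_sq hb]
  -- b^3 - a^3 - (3/2) a (b^2 - a^2) = (b - a)^2 (2 b + a) / 2
  nlinarith [mul_nonneg (sq_nonneg (b - a)) (by linarith : 0 ≤ 2 * b + a)]

/-- two-point convexity -/
lemma W_conv {w x y : ℝ} (w0 : 0 ≤ w) (w1 : w ≤ 1) (hx : 0 ≤ x) (hy : 0 ≤ y) :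
    W ((1 - w) * x + w * y) ≤ (1 - w) * W x + w * W y := by
  have hz : 0 ≤ (1 - w) * x + w * y := by nlinarith [mul_nonneg (sub_nonneg.2 w1) hx, mul_nonneg w0 hy]
  have h1 := mul_le_mul_of_nonneg_left (W_tangent hz hx) (sub_nonneg.2 w1)
  have h2 := mul_le_mul_of_nonneg_left (W_tangent hz hy) w0
  nlinarith [h1, h2]

/-- increments of a convex function grow -/
lemma W_incr {x y t : ℝ} (t0 : 0 ≤ t) (htx : t ≤ x) (hxy : x ≤ y) :
    W (y - t) + W x ≤ W y + W (x - t) := by
  rcases eq_or_lt_of_le (show x - t ≤ y by linarith) with h | h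
  · have e1 : t = 0 := by linarith
    subst e1
    simp only [sub_zero]
    linarith
  · -- both `y - t` and `x` are convex combinations of `x - t` and `y`
    set d := y - (x - t) with hd
    have hd0 : 0 < d := by linarith
    have l0 : 0 ≤ t / d := div_nonneg t0 hd0.le
    have l1 : t / d ≤ 1 := (div_le_one hd0).2 (by linarith)
    have hx0 : 0 ≤ x - t := by linarith
    have hy0 : 0 ≤ y := by linarith
    have c1 := W_conv l0 l1 hy0 hx0
    have c2 := W_conv l0 l1 hx0 hy0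
    have e1 : (1 - t / d) * y + t / d * (x - t) = y - t := by
      have : t / d * d = t := div_mul_cancel₀ t hd0.ne'
      have h2 : (1 - t / d) * y + t / d * (x - t) = y - t / d * d := by rw [hd]; ring
      rw [h2, this]
    have e2 : (1 - t / d) * (x - t) + t / d * y = x := by
      have : t / d * d = t := div_mul_cancel₀ t hd0.ne'
      have h2 : (1 - t / d) * (x - t) + t / d * y = (x - t) + t / d * d := by rw [hd]; ring
      rw [h2, this]; ring
    rw [e1] at c1
    rw [e2] at c2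
    linarith

/-- `W (X - w S) ≤ W X - (3/2 - w/2) w S √X` for `0 ≤ S ≤ X` -/
lemma W_drop {w S X : ℝ} (w0 : 0 ≤ w) (w1 : w ≤ 1) (hS : 0 ≤ S) (hSX : S ≤ X) :
    W (X - w * S) + (3 / 2 - w / 2) * w * S * √X ≤ W X := by
  rcases eq_or_lt_of_le (hS.trans hSX) with h0 | hX
  · have : S = 0 := by linarith
    subst this
    rw [← h0]; simp
  · set x := √X with hx
    have hx0 : 0 < x := Real.sqrt_pos.2 hX
    have hxx : x ^ 2 = X := Real.sq_sqrt hX.le
    have hwS : w * S ≤ X := by nlinarith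
    -- √(X - wS) ≤ x - w S / (2 x)
    have hr0 : 0 ≤ x - w * S / (2 * x) := by
      rw [sub_nonneg, div_le_iff₀ (by linarith)]
      nlinarith
    have hr : √(X - w * S) ≤ x - w * S / (2 * x) := by
      apply Real.sqrt_le_iff.2
      refine ⟨hr0, ?_⟩
      have e : (x - w * S / (2 * x)) ^ 2 = x ^ 2 - w * S + (w * S / (2 * x)) ^ 2 := by
        field_simp
        ring
      rw [e, hxx]
      nlinarith [sq_nonneg (w * S / (2 * x))]
    have h1 : W (X - w * S) ≤ (X - w * S) * (x - w * S / (2 * x)) :=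
      mul_le_mul_of_nonneg_left hr (by linarith)
    have h2 : (X - w * S) * (x - w * S / (2 * x)) =
        X * x - (3 / 2) * w * S * x + (w * S) ^ 2 / (2 * x) := by
      rw [← hxx]
      field_simp
      ring
    have h3 : (w * S) ^ 2 / (2 * x) ≤ w / 2 * w * S * x := by
      rw [div_le_iff₀ (by linarith)]
      have : S * S ≤ S * x ^ 2 := by rw [hxx]; exact mul_le_mul_of_nonneg_left hSX hS
      nlinarith [mul_le_mul_of_nonneg_left this (mul_nonneg w0 w0)]
    unfold W at h1 ⊢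
    rw [← hx]
    nlinarith [h1, h2, h3]

/-! ### the tie -/

/-- active part off the hit lift -/
noncomputable def Ao (w A b : ℝ) : ℝ := (1 - w) * A + w * min A b

/-- active part on the hit lift -/
noncomputable def Ah (w A b : ℝ) : ℝ := Ao w A b + max (b - A) 0

lemma Ao_nonneg {w A b : ℝ} (w0 : 0 ≤ w) (w1 : w ≤ 1) (hA : 0 ≤ A) (hb : 0 ≤ b) : 0 ≤ Ao w A b :=
  add_nonneg (mul_nonneg (sub_nonneg.2 w1) hA) (mul_nonneg w0 (le_min hA hb))

lemma Ao_le {w A b : ℝ} (w0 : 0 ≤ w) : Ao w A b ≤ A := by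
  unfold Ao
  nlinarith [mul_le_mul_of_nonneg_left (min_le_left A b) w0]

lemma Ah_of_le {w A b : ℝ} (h : A ≤ b) : Ah w A b = b := by
  unfold Ah Ao
  rw [min_eq_left h, max_eq_left (by linarith)]; ring

lemma Ah_of_ge {w A b : ℝ} (h : b ≤ A) : Ah w A b = Ao w A b := by
  unfold Ah
  rw [max_eq_right (by linarith), add_zero]

lemma Ah_le_max {w A b : ℝ} (w0 : 0 ≤ w) : Ah w A b ≤ max A b := by
  rcases le_total A b with h | h
  · rw [Ah_of_le h]; exact le_max_right _ _
  · rw [Ah_of_ge h]; exact (Ao_le w0).trans (le_max_left _ _)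

/-- **the potential at a tie**: the loss pays the stack -/
theorem U_tie {w A S b : ℝ} (w0 : 0 ≤ w) (w1 : w ≤ 1) (hA : 0 ≤ A) (hS : 0 ≤ S) (hb : 0 ≤ b) :
    (1 - w) * W (Ao w A b + (1 - w) * S) + w * (W (Ah w A b) + W ((1 - w) * S)) +
      w * (1 - w) ^ 2 / 2 * (S * √(A + S)) ≤ (1 - w) * W (A + S) + w * W b := by
  have w2 : 0 ≤ 1 - w := sub_nonneg.2 w1
  -- the stack alone
  have key : (1 - w) * W (A + (1 - w) * S) + w * W ((1 - w) * S) +
      w * (1 - w) ^ 2 / 2 * (S * √(A + S)) ≤ (1 - w) * W (A + S) := by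
    have h1 := W_drop (X := A + S) w0 w1 hS (by linarith)
    have e1 : A + S - w * S = A + (1 - w) * S := by ring
    rw [e1] at h1
    have h2 : W ((1 - w) * S) ≤ (1 - w) * (S * √(A + S)) := by
      refine (W_smul w2 (by linarith) hS).trans ?_
      refine mul_le_mul_of_nonneg_left ?_ w2
      exact mul_le_mul_of_nonneg_left (Real.sqrt_le_sqrt (by linarith)) hS
    have h3 := mul_le_mul_of_nonneg_left h1 w2
    have h4 := mul_le_mul_of_nonneg_left h2 w0
    nlinarith [h3, h4]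
  rcases le_total A b with h | h
  · rw [Ah_of_le h]
    have e : Ao w A b = A := by unfold Ao; rw [min_eq_left h]; ring
    rw [e]
    nlinarith [key]
  · rw [Ah_of_ge h]
    set t := w * (A - b) with ht
    have e : Ao w A b = A - t := by unfold Ao; rw [min_eq_right h]; ring
    have t0 : 0 ≤ t := mul_nonneg w0 (by linarith)
    have tA : t ≤ A := by nlinarith
    rw [e]
    have h1 := W_incr (y := A + (1 - w) * S) t0 tA (by nlinarith [mul_nonneg w2 hS])
    have e2 : A + (1 - w) * S - t = A - t + (1 - w) * S := by ring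
    rw [e2] at h1
    have h2 : W (A - t) ≤ (1 - w) * W A + w * W b := by
      have := W_conv w0 w1 hA hb
      have e3 : (1 - w) * A + w * b = A - t := by rw [ht]; ring
      rwa [e3] at this
    have h3 := mul_le_mul_of_nonneg_left h1 w2
    nlinarith [key, h3, h2]

/-- the loss is at least a constant times `w * S ^ (3/2)` -/
lemma loss_ge {w A S : ℝ} (w0 : 0 ≤ w) (hw : w ≤ 1 / 4) (hA : 0 ≤ A) (hS : 0 ≤ S) :
    w / 4 * W S ≤ w * (1 - w) ^ 2 / 2 * (S * √(A + S)) := by
  have h1 : W S ≤ S * √(A + S) :=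
    mul_le_mul_of_nonneg_left (Real.sqrt_le_sqrt (by linarith)) hS
  have h2 : (1 : ℝ) / 2 ≤ (1 - w) ^ 2 := by nlinarith
  have h3 : 0 ≤ S * √(A + S) := mul_nonneg hS (Real.sqrt_nonneg _)
  have h4 : w / 4 * W S ≤ w / 4 * (S * √(A + S)) := mul_le_mul_of_nonneg_left h1 (by linarith)
  have h5 : w / 4 ≤ w * (1 - w) ^ 2 / 2 := by nlinarith
  exact h4.trans (mul_le_mul_of_nonneg_right h5 h3)

/-- a cut stack at a tie without partner -/
lemma U_cut {w I : ℝ} (w0 : 0 ≤ w) (w1 : w ≤ 1) (hI : 0 ≤ I) :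
    W ((1 - w) * I) + w * (1 - w) / 2 * W I ≤ (1 - w) * W I := by
  have h1 := W_drop (X := I) w0 w1 hI le_rfl
  have e1 : I - w * I = (1 - w) * I := by ring
  rw [e1] at h1
  unfold W at h1 ⊢
  nlinarith [h1, mul_nonneg hI (Real.sqrt_nonneg I), w0, w1]

/-- **newcomers**: the real newcomers are the newcomers of the function and a part of the stack -/
lemma newcomer {A S b : ℝ} (hS : 0 ≤ S) :
    max (b - A) 0 ≤ max (b - (A + S)) 0 + min S (max (b - A) 0) := by
  rcases le_total (b - A) 0 with h | h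
  · rw [max_eq_right h]
    have : min S 0 = 0 := min_eq_right hS
    rw [this, add_zero]
    exact le_max_right _ _
  · rw [max_eq_left h]
    rcases le_total S (b - A) with h2 | h2
    · rw [min_eq_left h2]
      have := le_max_left (b - (A + S)) 0
      linarith
    · rw [min_eq_right h2]
      have := le_max_right (b - (A + S)) 0
      linarith

/-- the square of the stack part is paid by the loss, if the stack is at most `1` -/
lemma stack_sq {S b : ℝ} (hS : 0 ≤ S) (hS1 : S ≤ 1) (hb : 0 ≤ b) : min S b ^ 2 ≤ W S := by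
  have h0 : 0 ≤ min S b := le_min hS hb
  have h1 : min S b ≤ S := min_le_left _ _
  have h2 : min S b ^ 2 ≤ S ^ 2 := pow_le_pow_left₀ h0 h1 2
  have h3 : S ≤ √S := Real.le_sqrt_of_sq_le (by nlinarith)
  unfold W
  nlinarith [mul_le_mul_of_nonneg_left h3 hS]

/-! ### Minkowski over the scales -/

/-- weighted Cauchy-Schwarz -/
lemma scale_sq {ι : Type*} (s : Finset ι) (r x : ι → ℝ) (hr : ∀ i ∈ s, 0 < r i) :
    (∑ i ∈ s, x i) ^ 2 ≤ (∑ i ∈ s, r i) * ∑ i ∈ s, x i ^ 2 / r i := by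
  have h := Finset.sum_sq_le_sum_mul_sum_of_sq_le_mul s (r := x) (f := r)
    (g := fun i => x i ^ 2 / r i) (fun i hi => (hr i hi).le)
    (fun i hi => div_nonneg (sq_nonneg _) (hr i hi).le)
    (fun i hi => le_of_eq (by
      have := (hr i hi).ne'
      field_simp))
  exact h

/-- **geometric scales**: costs `K j ≤ c * r ^ (2 j) * m` of the dyadic scales add up -/
theorem scale_sum {r c m : ℝ} (r0 : 0 < r) (r1 : r < 1) (hc : 0 ≤ c) (hm : 0 ≤ m) (n : ℕ)
    (x : ℕ → ℝ) (h : ∀ j ∈ range n, x j ^ 2 ≤ c * r ^ (2 * j) * m) :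
    (∑ j ∈ range n, x j) ^ 2 ≤ (1 / (1 - r)) ^ 2 * (c * m) := by
  have hg : ∑ j ∈ range n, r ^ j ≤ 1 / (1 - r) := by
    have h1 := geom_sum_eq (ne_of_lt r1) n
    rw [h1]
    have h2 : (r ^ n - 1) / (r - 1) = (1 - r ^ n) / (1 - r) := by
      rw [← neg_sub 1 (r ^ n), ← neg_sub 1 r, neg_div_neg_eq]
    rw [h2]
    exact div_le_div_of_nonneg_right (by linarith [pow_nonneg r0.le n]) (by linarith)
  have hg0 : 0 ≤ ∑ j ∈ range n, r ^ j := Finset.sum_nonneg fun j _ => pow_nonneg r0.le j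
  have h1 := scale_sq (range n) (fun j => r ^ j) x (fun j _ => pow_pos r0 j)
  have h2 : ∑ j ∈ range n, x j ^ 2 / r ^ j ≤ ∑ j ∈ range n, c * m * r ^ j := by
    refine Finset.sum_le_sum fun j hj => ?_
    rw [div_le_iff₀ (pow_pos r0 j)]
    have := h j hj
    have e : c * m * r ^ j * r ^ j = c * r ^ (2 * j) * m := by rw [two_mul, pow_add]; ring
    rw [e]; exact this
  rw [← Finset.mul_sum] at h2
  have hcm : 0 ≤ c * m := mul_nonneg hc hm
  have h3 : c * m * ∑ j ∈ range n, r ^ j ≤ c * m * (1 / (1 - r)) :=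
    mul_le_mul_of_nonneg_left hg hcm
  have hp : 0 ≤ 1 / (1 - r) := div_nonneg zero_le_one (by linarith)
  calc (∑ j ∈ range n, x j) ^ 2 ≤ (∑ j ∈ range n, r ^ j) * ∑ j ∈ range n, x j ^ 2 / r ^ j := h1
    _ ≤ (1 / (1 - r)) * (c * m * (1 / (1 - r))) :=
        mul_le_mul hg (h2.trans h3) (Finset.sum_nonneg fun j _ =>
          div_nonneg (sq_nonneg _) (pow_nonneg r0.le j)) hp
    _ = (1 / (1 - r)) ^ 2 * (c * m) := by ring

end Crest.Agent.R4P.Lazy34
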