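import Crest.Agent.R4P.LeafCol_27
import Crest.Agent.R4P.YI_25

/-!
R4P (S0004), helper27, module D, group [X]: **the walk of one leaf item against a tree** (moves).

* `LSt` : state of the walk (moduli, last column, right node); `LMv` : its moves (weights);
* `LOk` : item data of a state; `LMv.chd` : the item data of the children, the pair links `Lk`;
* `lam` : `∏_{l ∈ mt} (1 + 1/(l-1))`; `LMv.pot` : the potential `lam * pot` of a pair is a supersolution.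
-/

set_option autoImplicit false
set_option linter.unusedSectionVars false
set_option linter.unusedVariables false
open Finset

namespace Crest.Agent.R4P.LeafM27

open Crest.Agent.R4.HVW560 Crest.Agent.R4P.AvgItem710
open Crest.Agent.R4.Tour104 Crest.Agent.R4.Tour758 Crest.Agent.R4.Avg758 Crest.Agent.R4.Clos758
open Crest.Agent.R4.ClosL758 Crest.Agent.R4.ClosG758 Crest.Agent.R4.ClosR758
open Crest.Agent.R4P.Cnt588 Crest.Agent.R4P.Walk560 Crest.Agent.R4P.Item758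
open Crest.Agent.R4P.Bld532 (NS All NodeOk Bk dv nd mem_dv mem_nd)
open Crest.Agent.R4P.GSt927 Crest.Agent.R4P.WalkIT579 Crest.Agent.R4P.NMW710
open Crest.Agent.R4P.CrossLoc25 Crest.Agent.R4P.CrossLocC25 Crest.Agent.R4P.YI25
open Crest.Agent.R4P.LeafCol27

/-- state of the leaf walk: moduli, last column (relation `Ro (rho l)`), right node -/
structure LSt where
  M : ℕ
  M' : ℕ
  l : ℕ
  u : NS
  t : IT

/-- child nodes -/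
noncomputable abbrev uP (p : ℕ) (u : NS) : NS := ⟨p, u.c / (1 - 1 / (p : ℝ)), u.A * p, u.B⟩
noncomputable abbrev uM (p : ℕ) (u : NS) : NS := ⟨p, u.c * p, u.A, u.B * p⟩
noncomputable abbrev uL (p : ℕ) (u : NS) : NS := ⟨p + 1, u.c, u.A * p, u.B⟩
noncomputable abbrev uA₁ (p : ℕ) (u : NS) : NS := ⟨p + 1, u.c, u.A, u.B⟩
noncomputable abbrev uU (p : ℕ) (u : NS) : NS := ⟨p, u.c, u.A, u.B⟩

/-- **moves** of the walk of the item `q` of a leaf with product `A` -/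
inductive LMv (A q : ℕ) : ℝ → LSt → LSt → Prop
  | fr1 {M M₂ l p : ℕ} {u : NS} {S : Finset ℕ} {t₁ t₀ : IT} :
      LMv A q (1 - 1 / (p : ℝ)) ⟨M, p * M₂, l, u, .br p S t₁ t₀⟩ ⟨M, M₂, l, uP p u, t₁⟩
  | fr0 {M M₂ l p : ℕ} {u : NS} {S : Finset ℕ} {t₁ t₀ : IT} :
      LMv A q (1 / (p : ℝ)) ⟨M, p * M₂, l, u, .br p S t₁ t₀⟩ ⟨M, M₂, l, uM p u, t₀⟩
  | dv1 {M M' l p : ℕ} {u : NS} {S : Finset ℕ} {t₁ t₀ : IT} (h' : ¬ p ∣ M') (h : p ∣ UI M A q) :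
      LMv A q (1 - 1 / (p : ℝ)) ⟨M, M', l, u, .br p S t₁ t₀⟩ ⟨p * M, M', p, uP p u, t₁⟩
  | dv0 {M M' l p : ℕ} {u : NS} {S : Finset ℕ} {t₁ t₀ : IT} (h' : ¬ p ∣ M') (h : p ∣ UI M A q) :
      LMv A q (1 / (p : ℝ) * (1 + 1 / ((p : ℝ) - 1))) ⟨M, M', l, u, .br p S t₁ t₀⟩
        ⟨p * M, M', p, uM p u, t₀⟩
  | nd1 {M M' l p : ℕ} {u : NS} {S : Finset ℕ} {t₁ t₀ : IT} (h' : ¬ p ∣ M') (h : ¬ p ∣ UI M A q) :
      LMv A q (1 - 1 / (p : ℝ)) ⟨M, M', l, u, .br p S t₁ t₀⟩ ⟨p * M, M', p, uP p u, t₁⟩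
  | plf {M M₂ l p : ℕ} {u : NS} {t₁ : IT} :
      LMv A q 1 ⟨M, p * M₂, l, u, .pl p t₁⟩ ⟨M, M₂, l, uL p u, t₁⟩
  | pl {M M' l p : ℕ} {u : NS} {t₁ : IT} (h' : ¬ p ∣ M') :
      LMv A q 1 ⟨M, M', l, u, .pl p t₁⟩ ⟨p * M, M', l, uL p u, t₁⟩
  | ad1 {M M' l p : ℕ} {u : NS} {t₁ t₀ : IT} :
      LMv A q 1 ⟨M, M', l, u, .add p t₁ t₀⟩ ⟨M, M', l, uA₁ p u, t₁⟩
  | ad0 {M M' l p : ℕ} {u : NS} {t₁ t₀ : IT} :
      LMv A q 1 ⟨M, M', l, u, .add p t₁ t₀⟩ ⟨M, M', l, uA₁ p u, t₀⟩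
  | fa1 {M M' l p : ℕ} {u : NS} {t₁ t₀ : IT} :
      LMv A q 1 ⟨M, M', l, u, .far p t₁ t₀⟩ ⟨M, M', l, uA₁ p u, t₁⟩
  | fa0 {M M' l p : ℕ} {u : NS} {t₁ t₀ : IT} :
      LMv A q 1 ⟨M, M', l, u, .far p t₁ t₀⟩ ⟨M, M', l, uA₁ p u, t₀⟩
  | up {M M' l p : ℕ} {u : NS} {S : Finset ℕ} {t₁ : IT} :
      LMv A q 1 ⟨M, M', l, u, .up p S t₁⟩ ⟨M, M', l, uU p u, t₁⟩

variable {Λ κ : Type*} [Fintype Λ] [DecidableEq Λ] [Fintype κ] [DecidableEq κ] [WRel κ]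

/-- **item data** of a state: `v` = the leaf node, `q` = its item, `A'` = population of the right side -/
structure LOk (D : Par Λ κ) (Al : Finset ℕ) (sp : ℕ → Finset Λ) (Qp : NS → IT → Prop)
    (Jp : ℕ × ℝ → ℕ × ℝ → ℕ × ℕ → Prop) (v : NS) (q : ℕ) (A' : Finset Λ) (s : LSt) : Prop where
  y : SY D sp Qp s.u s.t A' (D.toDT sp s.u.B s.u.A s.t)
  M0 : 0 < s.M
  M0' : 0 < s.M'
  c0 : 0 ≤ s.u.c
  circ : v.A * v.B * s.M = s.u.A * s.u.B * s.M'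
  jp : ∀ r ∈ Qi D Al s.t A', Jp (sd (q / v.A) s.M (v.B : ℝ)) (sd (r / s.u.A) s.M' (s.u.B : ℝ)) (q, r)

/-- facts about a child -/
structure LChd (D : Par Λ κ) (Al : Finset ℕ) (sp : ℕ → Finset Λ) (Qp : NS → IT → Prop)
    (Jp : ℕ × ℝ → ℕ × ℝ → ℕ × ℕ → Prop) (v : NS) (Sl : Finset ℕ) (q : ℕ) (A' : Finset Λ) (w : ℝ)
    (s s₂ : LSt) : Prop where
  ok : LOk D Al sp Qp Jp v q A' s₂
  sub : Qi D Al s₂.t A' ⊆ Qi D Al s.t A'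
  lk : ∃ p, p.Prime ∧ ∀ r ∈ Qi D Al s₂.t A', Lk p s.M v.A v.B s.M' s.u.A s.u.B (.leaf Sl) s.t
    s₂.M v.A v.B s₂.M' s₂.u.A s₂.u.B (.leaf Sl) s₂.t (q, r)
  w0 : 0 ≤ w
  wt : ∀ r ∈ Qi D Al s₂.t A', w * (s₂.u.B : ℝ) ≤ s.u.B ∨
    ∃ p : ℕ, p.Prime ∧ s.t.mt r = insert p (s₂.t.mt r) ∧ p ∉ s₂.t.mt r ∧
      w * (s₂.u.B : ℝ) ≤ (1 + 1 / ((p : ℝ) - 1)) * s.u.B

section
variable {D : Par Λ κ} {sp : ℕ → Finset Λ} {P : Bld532.Par} {W : ℕ → ℝ} {Qp : NS → IT → Prop}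
  {Al : Finset ℕ} {Jp : ℕ × ℝ → ℕ × ℝ → ℕ × ℕ → Prop} {v : NS} {Sl : Finset ℕ} {q : ℕ}
  {A' : Finset Λ}

/-- moves of both sides from the move of the right side -/
lemma lk_of (hh : YH D sp P W Qp)
    (hJ : ∀ (p : ℕ) (i i' : Bool) (a a' c c' : ℕ × ℝ) (e : ℕ × ℕ), p.Prime → Mv p i a c →
      Mv p i' a' c' → (i = true ∨ i' = true) → Jp a a' e → Jp c c' e) (hq : 0 < q / v.A)
    {p : ℕ} (hp : p.Prime) {s : LSt} (h : LOk D Al sp Qp Jp v q A' s) {T' : ℕ → Ty}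
    {f M₂ M₂' l₂ : ℕ} {u₂ : NS} {σ' : IT}
    (hR : Sm D Al sp Qp p s.M' s.u s.t A' T' f M₂' u₂ σ' A' (D.toDT sp u₂.B u₂.A σ'))
    (hc : 0 ≤ u₂.c)
    (hf : (f = 1 ∧ M₂ = s.M ∧ ∀ r ∈ Qi D Al σ' A', T' r = .I) ∨
      (f = p ∧ M₂ = p * s.M ∧ ∀ r ∈ Qi D Al σ' A', (avT p s.M v.A q).ok (T' r))) :
    (∀ r ∈ Qi D Al σ' A', Lk p s.M v.A v.B s.M' s.u.A s.u.B (.leaf Sl) s.t
      M₂ v.A v.B M₂' u₂.A u₂.B (.leaf Sl) σ' (q, r)) ∧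
    LOk D Al sp Qp Jp v q A' ⟨M₂, M₂', l₂, u₂, σ'⟩ := by
  have hM₂ : 0 < M₂ := by
    rcases hf with ⟨-, h2, -⟩ | ⟨-, h2, -⟩
    · rw [h2]; exact h.M0
    · rw [h2]; exact Nat.mul_pos hp.pos h.M0
  have key : ∀ r ∈ Qi D Al σ' A', ∃ T : Ty, T.ok (T' r) ∧
      Kd T p ((IT.leaf Sl).mt q) (UI s.M v.A q) (FI s.M v.A q) v.B (UI M₂ v.A q) (FI M₂ v.A q)
        v.B := by
    intro r hr
    rcases hf with ⟨-, h2, h3⟩ | ⟨-, h2, h3⟩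
    · refine ⟨.I, ?_, ?_⟩
      · rw [h3 r hr]; trivial
      · rw [h2]; exact ⟨rfl, Or.inl ⟨rfl, rfl⟩⟩
    · refine ⟨avT p s.M v.A q, h3 r hr, ?_⟩
      rw [h2]
      unfold avT
      split_ifs with hd
      · exact ⟨(uf_av hp h.M0 hd).1, (uf_av hp h.M0 hd).2, rfl⟩
      · exact ⟨(uf_ra hp h.M0 hd).1, hd, Or.inl ⟨(uf_ra hp h.M0 hd).2, rfl⟩⟩
  have hlk : ∀ r ∈ Qi D Al σ' A', Lk p s.M v.A v.B s.M' s.u.A s.u.B (.leaf Sl) s.t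
      M₂ v.A v.B M₂' u₂.A u₂.B (.leaf Sl) σ' (q, r) := by
    intro r hr
    have hr1 := Qi_items hr
    obtain ⟨T, hT, hK⟩ := key r hr
    refine ⟨⟨T, T' r, hT, hK, hR.kd r hr⟩, subset_rfl, hR.mt r hr1, ⟨?_, ?_, ?_, ?_⟩, ?_⟩
    · exact uw_pos h.M0 hq
    · exact uw_pos hM₂ hq
    · exact h.y.UI0 hh h.M0' (hR.it hr1)
    · exact hR.y.UI0 hh hR.M0 hr1
    · intro l hl
      rcases Finset.mem_union.1 hl with hl | hl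
      · simp [IT.mt] at hl
      · exact (BldF542.mt_lt _ _ h.y.ok _ _ hl).1
  refine ⟨hlk, ⟨hR.y, hM₂, hR.M0, hc, ?_, ?_⟩⟩
  · have h1 := hR.nm.circ
    have h2 := h.circ
    simp only at h1 ⊢
    rw [h1]
    rcases hf with ⟨h3, h4, -⟩ | ⟨h3, h4, -⟩
    · rw [h3, h4, mul_one, h2]
    · rw [h3, h4, ← h2]; ring
  · intro r hr
    obtain ⟨T, hT, hK⟩ := key r hr
    have hj := h.jp r (hR.sub hr)
    have k1 := hK.mv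
    have k2 := (hR.kd r hr).mv
    simp only [sd_eq] at hj ⊢
    revert hT k1 k2
    generalize T' r = T₂
    intro hT k1 k2
    cases T <;> cases T₂ <;> simp only [Ty.ok] at hT
    · rw [k1.1 rfl, k2.1 rfl]; exact hj
    · exact hJ p true true _ _ _ _ _ hp (k1.2.1 rfl) (k2.2.1 rfl) (Or.inl rfl) hj
    · exact hJ p true false _ _ _ _ _ hp (k1.2.1 rfl) (k2.2.2 rfl) (Or.inl rfl) hj
    · exact hJ p false true _ _ _ _ _ hp (k1.2.2 rfl) (k2.2.1 rfl) (Or.inr rfl) hj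

/-- the move of an `up` node -/
lemma Sm_up {p M : ℕ} {u : NS} {A : Finset Λ} {d : DT Λ κ} {τ₁ : IT} {S : Finset ℕ}
    (h : SY D sp Qp u (.up p S τ₁) A d) (hM0 : 0 < M) :
    Sm D Al sp Qp p M u (.up p S τ₁) A (fun _ => .I) 1 M (uU p u) τ₁ A
      (D.toDT sp u.B u.A τ₁) := by
  have hs : SY D sp Qp (uU p u) τ₁ A (D.toDT sp u.B u.A τ₁) := ⟨h.S.up, h.ok.2.2.2, h.q.2, h.il⟩
  exact ⟨hs, subset_rfl, subset_rfl, fun q _ => subset_rfl, fun _ _ => ⟨rfl, Or.inl ⟨rfl, rfl⟩⟩,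
    Lw_of (Or.inl rfl), top_le hs h.ok.1.pos (Or.inl rfl), Nm.st _ _ _, hM0⟩

lemma inv_le {p : ℕ} (hp : p.Prime) : 0 < 1 / (p : ℝ) ∧ 0 < 1 - 1 / (p : ℝ) ∧ 1 / (p : ℝ) * p = 1 ∧
    1 / (p : ℝ) ≤ 1 := wt_pos hp

set_option maxHeartbeats 1000000 in
/-- **the children of a state** -/
theorem LMv.chd (hh : YH D sp P W Qp)
    (hJ : ∀ (p : ℕ) (i i' : Bool) (a a' c c' : ℕ × ℝ) (e : ℕ × ℕ), p.Prime → Mv p i a c →
      Mv p i' a' c' → (i = true ∨ i' = true) → Jp a a' e → Jp c c' e) (hq : 0 < q / v.A)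
    {w : ℝ} {s s₂ : LSt} (hm : LMv v.A q w s s₂) (h : LOk D Al sp Qp Jp v q A' s) :
    LChd D Al sp Qp Jp v Sl q A' w s s₂ := by
  cases hm with
  | @fr1 M M₂ l p u S t₁ t₀ =>
    have hp : p.Prime := h.y.S.hF.1
    obtain ⟨w1, w2, w3, w4⟩ := inv_le hp
    have hM₂ : 0 < M₂ := Nat.pos_of_mul_pos_left h.M0'
    have hR := Sm.fbr₁ (Al := Al) hh h.y hM₂ rfl
    obtain ⟨k1, k2⟩ := lk_of (Sl := Sl) (l₂ := l) (M₂ := M) hh hJ hq hp h hR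
      (div_nonneg h.c0 w2.le) (Or.inl ⟨rfl, rfl, fun _ _ => rfl⟩)
    refine ⟨k2, hR.sub, ⟨p, hp, k1⟩, w2.le, fun r hr => Or.inl ?_⟩
    show (1 - 1 / (p : ℝ)) * (u.B : ℝ) ≤ u.B
    nlinarith [(Nat.cast_nonneg u.B : (0 : ℝ) ≤ u.B)]
  | @fr0 M M₂ l p u S t₁ t₀ =>
    have hp : p.Prime := h.y.S.hF.1
    obtain ⟨w1, w2, w3, w4⟩ := inv_le hp
    have hM₂ : 0 < M₂ := Nat.pos_of_mul_pos_left h.M0'
    have hR := Sm.fbr₀ (Al := Al) hh h.y hM₂ rfl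
    obtain ⟨k1, k2⟩ := lk_of (Sl := Sl) (l₂ := l) (M₂ := M) hh hJ hq hp h hR
      (mul_nonneg h.c0 (Nat.cast_nonneg p)) (Or.inl ⟨rfl, rfl, fun _ _ => rfl⟩)
    refine ⟨k2, hR.sub, ⟨p, hp, k1⟩, w1.le, fun r hr => Or.inl ?_⟩
    show 1 / (p : ℝ) * ((u.B * p : ℕ) : ℝ) ≤ u.B
    push_cast
    nlinarith [(Nat.cast_nonneg u.B : (0 : ℝ) ≤ u.B)]
  | @dv1 M M' l p u S t₁ t₀ h1 h2 =>
    have hp : p.Prime := h.y.S.hF.1
    obtain ⟨w1, w2, w3, w4⟩ := inv_le hp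
    have hR := Sm.br₁ (Al := Al) hh h.y h.M0' h1
    obtain ⟨k1, k2⟩ := lk_of (Sl := Sl) (l₂ := p) (M₂ := p * M) hh hJ hq hp h hR
      (div_nonneg h.c0 w2.le) (Or.inr ⟨rfl, rfl, fun r _ => by
        unfold avT; split_ifs <;> trivial⟩)
    refine ⟨k2, hR.sub, ⟨p, hp, k1⟩, w2.le, fun r hr => Or.inl ?_⟩
    show (1 - 1 / (p : ℝ)) * (u.B : ℝ) ≤ u.B
    nlinarith [(Nat.cast_nonneg u.B : (0 : ℝ) ≤ u.B)]
  | @dv0 M M' l p u S t₁ t₀ h1 h2 =>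
    have hp : p.Prime := h.y.S.hF.1
    obtain ⟨w1, w2, w3, w4⟩ := inv_le hp
    have hR := Sm.br₀ (Al := Al) hh h.y h.M0'
    obtain ⟨k1, k2⟩ := lk_of (Sl := Sl) (l₂ := p) (M₂ := p * M) hh hJ hq hp h hR
      (mul_nonneg h.c0 (Nat.cast_nonneg p)) (Or.inr ⟨rfl, rfl, fun r _ => by
        unfold avT; rw [if_pos h2]; trivial⟩)
    have hp1 : (1 : ℝ) < p := by exact_mod_cast hp.one_lt
    have hp2 : 0 < 1 / ((p : ℝ) - 1) := by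
      have : (0:ℝ) < p - 1 := by linarith
      positivity
    refine ⟨k2, hR.sub, ⟨p, hp, k1⟩, by positivity, fun r hr => Or.inr ⟨p, hp, ?_, ?_, ?_⟩⟩
    · exact br_mt₀ (Qi_items hr)
    · exact br_not₀ h.y r
    · show 1 / (p : ℝ) * (1 + 1 / ((p : ℝ) - 1)) * ((u.B * p : ℕ) : ℝ) ≤
        (1 + 1 / ((p : ℝ) - 1)) * u.B
      push_cast
      have e : 1 / (p : ℝ) * (1 + 1 / ((p : ℝ) - 1)) * ((u.B : ℝ) * p) =
        (1 / (p : ℝ) * p) * ((1 + 1 / ((p : ℝ) - 1)) * u.B) := by ring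
      rw [e, w3, one_mul]
  | @nd1 M M' l p u S t₁ t₀ h1 h2 =>
    have hp : p.Prime := h.y.S.hF.1
    obtain ⟨w1, w2, w3, w4⟩ := inv_le hp
    have hR := Sm.br₁ (Al := Al) hh h.y h.M0' h1
    obtain ⟨k1, k2⟩ := lk_of (Sl := Sl) (l₂ := p) (M₂ := p * M) hh hJ hq hp h hR
      (div_nonneg h.c0 w2.le) (Or.inr ⟨rfl, rfl, fun r _ => by
        unfold avT; split_ifs <;> trivial⟩)
    refine ⟨k2, hR.sub, ⟨p, hp, k1⟩, w2.le, fun r hr => Or.inl ?_⟩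
    show (1 - 1 / (p : ℝ)) * (u.B : ℝ) ≤ u.B
    nlinarith [(Nat.cast_nonneg u.B : (0 : ℝ) ≤ u.B)]
  | @plf M M₂ l p u t₁ =>
    have hp : p.Prime := h.y.S.hF.1
    have hM₂ : 0 < M₂ := Nat.pos_of_mul_pos_left h.M0'
    have hR := Sm.fpl (Al := Al) hh h.y hM₂ rfl
    obtain ⟨k1, k2⟩ := lk_of (Sl := Sl) (l₂ := l) (M₂ := M) hh hJ hq hp h hR
      h.c0 (Or.inl ⟨rfl, rfl, fun _ _ => rfl⟩)
    exact ⟨k2, hR.sub, ⟨p, hp, k1⟩, zero_le_one, fun r hr => Or.inl (by simp)⟩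
  | @pl M M' l p u t₁ h1 =>
    have hp : p.Prime := h.y.S.hF.1
    have hR := Sm.pl (Al := Al) hh h.y h.M0' h1
    obtain ⟨k1, k2⟩ := lk_of (Sl := Sl) (l₂ := l) (M₂ := p * M) hh hJ hq hp h hR
      h.c0 (Or.inr ⟨rfl, rfl, fun r _ => by unfold avT; split_ifs <;> trivial⟩)
    exact ⟨k2, hR.sub, ⟨p, hp, k1⟩, zero_le_one, fun r hr => Or.inl (by simp)⟩
  | @ad1 M M' l p u t₁ t₀ =>
    have hp : p.Prime := h.y.ok.1
    obtain ⟨hR, -, -⟩ := Sm.add (Al := Al) hh h.y (Or.inl rfl) h.M0'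
    obtain ⟨k1, k2⟩ := lk_of (Sl := Sl) (l₂ := l) (M₂ := M) hh hJ hq hp h hR
      h.c0 (Or.inl ⟨rfl, rfl, fun _ _ => rfl⟩)
    exact ⟨k2, hR.sub, ⟨p, hp, k1⟩, zero_le_one, fun r hr => Or.inl (by simp)⟩
  | @ad0 M M' l p u t₁ t₀ =>
    have hp : p.Prime := h.y.ok.1
    obtain ⟨-, hR, -⟩ := Sm.add (Al := Al) hh h.y (Or.inl rfl) h.M0'
    obtain ⟨k1, k2⟩ := lk_of (Sl := Sl) (l₂ := l) (M₂ := M) hh hJ hq hp h hR
      h.c0 (Or.inl ⟨rfl, rfl, fun _ _ => rfl⟩)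
    exact ⟨k2, hR.sub, ⟨p, hp, k1⟩, zero_le_one, fun r hr => Or.inl (by simp)⟩
  | @fa1 M M' l p u t₁ t₀ =>
    have hp : p.Prime := h.y.ok.1
    obtain ⟨hR, -, -⟩ := Sm.add (Al := Al) hh h.y (Or.inr rfl) h.M0'
    obtain ⟨k1, k2⟩ := lk_of (Sl := Sl) (l₂ := l) (M₂ := M) hh hJ hq hp h hR
      h.c0 (Or.inl ⟨rfl, rfl, fun _ _ => rfl⟩)
    exact ⟨k2, hR.sub, ⟨p, hp, k1⟩, zero_le_one, fun r hr => Or.inl (by simp)⟩
  | @fa0 M M' l p u t₁ t₀ =>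
    have hp : p.Prime := h.y.ok.1
    obtain ⟨-, hR, -⟩ := Sm.add (Al := Al) hh h.y (Or.inr rfl) h.M0'
    obtain ⟨k1, k2⟩ := lk_of (Sl := Sl) (l₂ := l) (M₂ := M) hh hJ hq hp h hR
      h.c0 (Or.inl ⟨rfl, rfl, fun _ _ => rfl⟩)
    exact ⟨k2, hR.sub, ⟨p, hp, k1⟩, zero_le_one, fun r hr => Or.inl (by simp)⟩
  | @up M M' l p u S t₁ =>
    have hp : p.Prime := h.y.ok.1
    have hR := Sm_up (Al := Al) h.y h.M0'
    obtain ⟨k1, k2⟩ := lk_of (Sl := Sl) (l₂ := l) (M₂ := M) hh hJ hq hp h hR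
      h.c0 (Or.inl ⟨rfl, rfl, fun _ _ => rfl⟩)
    exact ⟨k2, hR.sub, ⟨p, hp, k1⟩, zero_le_one, fun r hr => Or.inl (by simp)⟩

/-! ### the potential -/

/-- `∏_{l ∈ mt} (1 + 1/(l-1))` -/
noncomputable def lam (t : IT) (r : ℕ) : ℝ := ∏ l ∈ t.mt r, (1 + 1 / ((l : ℝ) - 1))

lemma lam_one {t : IT} {n : ℕ} (h : t.Ok n) (r : ℕ) : 1 ≤ lam t r := by
  unfold lam
  refine Finset.prod_induction _ (fun x : ℝ => 1 ≤ x) (fun a b ha hb => by nlinarith) le_rfl ?_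
  intro l hl
  have hp := (BldF542.mt_lt _ _ h _ _ hl).1
  have : (1 : ℝ) < l := by exact_mod_cast hp.one_lt
  have h2 : (0:ℝ) ≤ 1 / ((l : ℝ) - 1) := by
    have : (0:ℝ) < l - 1 := by linarith
    positivity
  linarith

lemma lam_mono {t σ : IT} {n : ℕ} (h : t.Ok n) {r : ℕ} (hs : σ.mt r ⊆ t.mt r) :
    lam σ r ≤ lam t r := by
  unfold lam
  refine Finset.prod_le_prod_of_subset_of_one_le hs (fun l hl => ?_) (fun l hl _ => ?_)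
  · have hp := (BldF542.mt_lt _ _ h _ _ (hs hl)).1
    have : (1 : ℝ) < l := by exact_mod_cast hp.one_lt
    have h2 : (0:ℝ) ≤ 1 / ((l : ℝ) - 1) := by
      have : (0:ℝ) < l - 1 := by linarith
      positivity
    linarith
  · have hp := (BldF542.mt_lt _ _ h _ _ hl).1
    have : (1 : ℝ) < l := by exact_mod_cast hp.one_lt
    have h2 : (0:ℝ) ≤ 1 / ((l : ℝ) - 1) := by
      have : (0:ℝ) < l - 1 := by linarith
      positivity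
    linarith

lemma lam_insert {t σ : IT} {r p : ℕ} (h : t.mt r = insert p (σ.mt r)) (hp : p ∉ σ.mt r) :
    lam t r = (1 + 1 / ((p : ℝ) - 1)) * lam σ r := by
  unfold lam
  rw [h, Finset.prod_insert hp]

/-- **the potential of the pairs is a supersolution** -/
theorem pot_chd {Vs : ℝ × ℝ → ℕ × ℕ → ℝ} {Vc Vx : ℕ → ℝ × ℝ → ℕ × ℕ → ℝ}
    (h0 : ∀ s e, 0 ≤ Vs s e) (h1 : ∀ l s e, 0 ≤ Vc l s e) (h2 : ∀ l s e, 0 ≤ Vx l s e)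
    {w : ℝ} {s s₂ : LSt} (h : LOk D Al sp Qp Jp v q A' s)
    (k : LChd D Al sp Qp Jp v Sl q A' w s s₂) :
    ∀ r ∈ Qi D Al s₂.t A',
      w * (lam s₂.t r * pot Vs Vc Vx s₂.M v.B v.A s₂.M' s₂.u.B s₂.u.A (.leaf Sl) s₂.t (q, r)) ≤
        lam s.t r * pot Vs Vc Vx s.M v.B v.A s.M' s.u.B s.u.A (.leaf Sl) s.t (q, r) := by
  intro r hr
  obtain ⟨p, hp, hlk⟩ := k.lk
  have hL := hlk r hr
  have hP := pot_nonneg h0 h1 h2 s₂.M v.B v.A s₂.M' s₂.u.B s₂.u.A (.leaf Sl) s₂.t (q, r)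
  have hP' := pot_nonneg h0 h1 h2 s.M v.B v.A s.M' s.u.B s.u.A (.leaf Sl) s.t (q, r)
  have l1 := lam_one k.ok.y.ok r
  have l0 := lam_one h.y.ok r
  have hvB : (0:ℝ) ≤ v.B := Nat.cast_nonneg _
  rcases k.wt r hr with hw | ⟨p', hp', hmt, hn, hw⟩
  · have e := pot_lk h0 h1 h2 hp hL k.w0 (by
      calc w * ((v.B : ℝ) * s₂.u.B) = v.B * (w * s₂.u.B) := by ring
        _ ≤ v.B * s.u.B := mul_le_mul_of_nonneg_left hw hvB)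
    calc w * (lam s₂.t r * _) = lam s₂.t r *
          (w * pot Vs Vc Vx s₂.M v.B v.A s₂.M' s₂.u.B s₂.u.A (.leaf Sl) s₂.t (q, r)) := by ring
      _ ≤ lam s₂.t r * pot Vs Vc Vx s.M v.B v.A s.M' s.u.B s.u.A (.leaf Sl) s.t (q, r) :=
        mul_le_mul_of_nonneg_left e (by linarith)
      _ ≤ _ := mul_le_mul_of_nonneg_right (lam_mono h.y.ok hL.mt') hP'
  · have hp1 : (1 : ℝ) < p' := by exact_mod_cast hp'.one_lt
    have hp2 : 0 < 1 / ((p' : ℝ) - 1) := by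
      have : (0:ℝ) < p' - 1 := by linarith
      positivity
    set g : ℝ := 1 + 1 / ((p' : ℝ) - 1) with hg
    have hg0 : 0 < g := by positivity
    have e := pot_lk h0 h1 h2 hp hL (w := w / g) (div_nonneg k.w0 hg0.le) (by
      calc w / g * ((v.B : ℝ) * s₂.u.B) = v.B * ((w * s₂.u.B) / g) := by ring
        _ ≤ v.B * s.u.B := mul_le_mul_of_nonneg_left (by
          rw [div_le_iff₀ hg0]; linarith) hvB)
    rw [lam_insert hmt hn, ← hg]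
    calc w * (lam s₂.t r * _) = g * lam s₂.t r *
          (w / g * pot Vs Vc Vx s₂.M v.B v.A s₂.M' s₂.u.B s₂.u.A (.leaf Sl) s₂.t (q, r)) := by
            field_simp
      _ ≤ _ := mul_le_mul_of_nonneg_left e (by positivity)

end
end Crest.Agent.R4P.LeafM27
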