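import Crest.Agent.R4P.LLCtx_30
import Crest.Agent.R4P.LeafCtx_28
import Crest.Agent.R4P.GSt927

/-!
R4 (S0004), powers, module D, helper28: **masses of leaf items** in terms of `u.c * w ψ`.

* `mq_le` : `u.B ρ_q dens (PL X u.A q) ≤ 2 u.c w ψ q`; `sum_mq_le` : sums over the items of the leaf;
* `OmW_prime` : the weights of a leaf with all the primes of `q / u.A`, constant `2`.
-/

set_option autoImplicit false
set_option linter.unusedSectionVars false
set_option linter.unusedVariables false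
open Finset hiding dens

namespace Crest.Agent.R4P.LeafCtx28

open Crest.Agent.R4.HVW560 Crest.Agent.R4P.AvgItem710
open Crest.Agent.R4.Ovl560 (LW nw nw_nonneg nw_add exw dens dens_pos dens_mono)
open Crest.Agent.R4.Tour104 Crest.Agent.R4.Tour758 Crest.Agent.R4.Avg758 Crest.Agent.R4.Clos758
open Crest.Agent.R4.ClosL758 Crest.Agent.R4.ClosG758 Crest.Agent.R4.ClosR758
open Crest.Agent.R4.Fam464 Crest.Agent.R4P.Cnt588 Crest.Agent.R4P.Walk560 Crest.Agent.R4.Piece464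
open Crest.Agent.R4P.GInst194 Crest.Agent.R4P.WalkIT579 Crest.Agent.R4P.Item758
open Crest.Agent.R4P.NMW710 Crest.Agent.R4P.Data758 Crest.Agent.R4P.OmData532
open Crest.Agent.R4P.Bld532 (NS All NodeOk Bk)
open Crest.Agent.R4P.LfDat734 Crest.Agent.R4.LF363
open Crest.Agent.R4.Om532 (locw omw cls_le_one phi_prod prod_one_sub_ge LW_locw)
open Crest.Agent.R4.DeepSt579 (tq tq_nonneg tq_le_one rd)
open Crest.Agent.R4P.Step588 (NDt ND1)
open Crest.Agent.R4P.Skel189 (Ctx top)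
open Crest.Agent.R4P.LeafFam28 Crest.Agent.R4P.LeafSide28 Crest.Agent.R4P.TBLeaf28
open Crest.Agent.R4P.LLPair30 Crest.Agent.R4P.LLCtx30

variable {N : Skel189.Num} {γ : ℝ} {p0 P₀ : ℕ} {X : Ctx N γ p0 P₀}

lemma tq_eq_dens {v : ℕ} (hv : 0 < v) : tq v = dens v.primeFactors := tot_eq_dens hv

/-- **the mass of a leaf item** -/
theorem mq_le {Y : Finset (ℕ × ℕ × Finset ℕ)} {u : NS} {S : Finset ℕ} (h : LfA X Y u S)
    (hρ : ∀ q, 0 < X.c.rr q) {q : ℕ} (hq : q ∈ S) (hqS : q ∈ X.S') (hA : 0 < q / u.A)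
    (hs : ∑ b ∈ rt X.c.t q, (1 : ℝ) / b ≤ 1 / 2) :
    (u.B : ℝ) * X.c.rr q * dens (PL X u.A q) ≤ 2 * (u.c * Crest.Agent.R4.Soft104.w X.ψ q) := by
  have h1 := h.ms q hq hqS
  have h2 := dens_PL_le (X := X) hA hs
  have h3 : 0 ≤ (u.B : ℝ) * X.c.rr q := mul_nonneg (Nat.cast_nonneg _) (hρ q).le
  have h4 := mul_le_mul_of_nonneg_left h2 h3
  rw [tq_eq_dens hA] at h4
  linarith

end Crest.Agent.R4P.LeafCtx28
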