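import Crest.Agent.R4P.LeafM_27
import Crest.Agent.R4P.OSWS245

/-!
R4P (S0004), helper27, module D, group [X]: **ONE LEAF ITEM AGAINST A TREE**, induction.

* `En` : energy of a state; `WMF` : the merges (changes of the relation), collected exactly;
* `item_bound` : `En ≤ (C₀ + 2 - 2 mass(O)^(3/4)) Θ m_q ν + Σ_r Φ_r + WMF`, from the local bounds: stops, leaf
  ends, exits (ties whose prime does not divide the rest of the item), divisible ties.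
-/

set_option autoImplicit false
set_option linter.unusedSectionVars false
set_option linter.unusedVariables false
open Finset

namespace Crest.Agent.R4P.LeafT27

open Crest.Agent.R4.HVW560 Crest.Agent.R4P.AvgItem710
open Crest.Agent.R4.Tour104 Crest.Agent.R4.Tour758 Crest.Agent.R4.Avg758 Crest.Agent.R4.Clos758

open Crest.Agent.R4.ClosL758 Crest.Agent.R4.ClosG758 Crest.Agent.R4.ClosR758
open Crest.Agent.R4P.Cnt588 Crest.Agent.R4P.Walk560 Crest.Agent.R4P.Item758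
open Crest.Agent.R4P.Bld532 (NS All NodeOk Bk dv nd mem_dv mem_nd)
open Crest.Agent.R4P.GSt927 Crest.Agent.R4P.WalkIT579 Crest.Agent.R4P.NMW710
open Crest.Agent.R4P.CrossLoc25 Crest.Agent.R4P.CrossLocC25 Crest.Agent.R4P.YI25
open Crest.Agent.R4P.LeafCol27 Crest.Agent.R4P.LeafM27

variable {Λ κ : Type*} [Fintype Λ] [DecidableEq Λ] [Fintype κ] [DecidableEq κ] [WRel κ]

/-- energy of a state -/
noncomputable def En (D : Par Λ κ) (v : NS) (Sl : Finset ℕ) (A A' : Finset Λ) (R : Finset (Λ × Λ))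
    (s : LSt) : ℝ :=
  Q R (D.uA s.M v.B v.A (.leaf Sl) A 1) (D.uA s.M' s.u.B s.u.A s.t A' 1)

/-- **the merges** of the leaf walk of a population `A` of a leaf -/
noncomputable def WMF (D : Par Λ κ) (v : NS) (Sl : Finset ℕ) (A' : Finset Λ) :
    IT → Finset Λ → ℕ → ℕ → ℕ → NS → ℝ
  | .leaf _, _, _, _, _, _ => 0
  | .br p S t₁ t₀, A, M, M', l, u =>
      if p ∣ M' then (1 - 1 / (p : ℝ)) * WMF D v Sl A' t₁ A M (M' / p) l (uP p u) +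
        1 / (p : ℝ) * WMF D v Sl A' t₀ A M (M' / p) l (uM p u)
      else Q (Ro (D.rho l) \ Ro (D.rho p)) (D.uA M v.B v.A (.leaf Sl) A 1)
          (D.uA M' u.B u.A (.br p S t₁ t₀) A' 1) +
        ((1 - 1 / (p : ℝ)) * WMF D v Sl A' t₁ A (p * M) M' p (uP p u) +
          1 / (p : ℝ) * (1 + 1 / ((p : ℝ) - 1)) *
            WMF D v Sl A' t₀ (A.filter fun j => p ∣ UI M v.A (D.it j)) (p * M) M' p (uM p u))
  | .add p t₁ t₀, A, M, M', l, u =>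
      WMF D v Sl A' t₁ A M M' l (uA₁ p u) + WMF D v Sl A' t₀ A M M' l (uA₁ p u)
  | .far p t₁ t₀, A, M, M', l, u =>
      WMF D v Sl A' t₁ A M M' l (uA₁ p u) + WMF D v Sl A' t₀ A M M' l (uA₁ p u)
  | .up p _ t, A, M, M', l, u => WMF D v Sl A' t A M M' l (uU p u)
  | .pl p t, A, M, M', l, u =>
      if p ∣ M' then WMF D v Sl A' t A M (M' / p) l (uL p u)
      else WMF D v Sl A' t A (p * M) M' l (uL p u)

section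
variable {D : Par Λ κ} {sp : ℕ → Finset Λ} {P : Bld532.Par} {W : ℕ → ℝ} {Qp : NS → IT → Prop}
  {Al : Finset ℕ} {Jp : ℕ × ℝ → ℕ × ℝ → ℕ × ℕ → Prop} {v : NS} {Sl : Finset ℕ} {q : ℕ}
  {A' : Finset Λ}

lemma WMF_leaf (S : Finset ℕ) (A : Finset Λ) (M M' l : ℕ) (u : NS) :
    WMF D v Sl A' (.leaf S) A M M' l u = 0 := rfl

lemma WMF_free {p : ℕ} (hp : 0 < p) (S : Finset ℕ) (t₁ t₀ : IT) (A : Finset Λ) (M M₂ l : ℕ)
    (u : NS) : WMF D v Sl A' (.br p S t₁ t₀) A M (p * M₂) l u =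
      (1 - 1 / (p : ℝ)) * WMF D v Sl A' t₁ A M M₂ l (uP p u) +
      1 / (p : ℝ) * WMF D v Sl A' t₀ A M M₂ l (uM p u) := by
  conv_lhs => unfold WMF
  rw [if_pos (Dvd.intro _ rfl), Nat.mul_div_cancel_left _ hp]

/-- merges at a tie which is not free -/
lemma WMF_br {M M' l p : ℕ} {u : NS} {S : Finset ℕ} {t₁ t₀ : IT} (hd : ¬ p ∣ M')
    (A : Finset Λ) :
    WMF D v Sl A' (.br p S t₁ t₀) A M M' l u =
      Q (Ro (D.rho l) \ Ro (D.rho p)) (D.uA M v.B v.A (.leaf Sl) A 1)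
        (D.uA M' u.B u.A (.br p S t₁ t₀) A' 1) +
      ((1 - 1 / (p : ℝ)) * WMF D v Sl A' t₁ A (p * M) M' p (uP p u) +
        1 / (p : ℝ) * (1 + 1 / ((p : ℝ) - 1)) * WMF D v Sl A' t₀
          (A.filter fun j => p ∣ UI M v.A (D.it j)) (p * M) M' p (uM p u)) := by
  conv_lhs => unfold WMF
  rw [if_neg hd]

lemma WMF_add (p : ℕ) (t₁ t₀ : IT) (A : Finset Λ) (M M' l : ℕ) (u : NS) :
    WMF D v Sl A' (.add p t₁ t₀) A M M' l u =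
      WMF D v Sl A' t₁ A M M' l (uA₁ p u) + WMF D v Sl A' t₀ A M M' l (uA₁ p u) := rfl

lemma WMF_far (p : ℕ) (t₁ t₀ : IT) (A : Finset Λ) (M M' l : ℕ) (u : NS) :
    WMF D v Sl A' (.far p t₁ t₀) A M M' l u =
      WMF D v Sl A' t₁ A M M' l (uA₁ p u) + WMF D v Sl A' t₀ A M M' l (uA₁ p u) := rfl

lemma WMF_up (p : ℕ) (S : Finset ℕ) (t : IT) (A : Finset Λ) (M M' l : ℕ) (u : NS) :
    WMF D v Sl A' (.up p S t) A M M' l u = WMF D v Sl A' t A M M' l (uU p u) := rfl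

lemma WMF_plf {p : ℕ} (hp : 0 < p) (t : IT) (A : Finset Λ) (M M₂ l : ℕ) (u : NS) :
    WMF D v Sl A' (.pl p t) A M (p * M₂) l u = WMF D v Sl A' t A M M₂ l (uL p u) := by
  conv_lhs => unfold WMF
  rw [if_pos (Dvd.intro _ rfl), Nat.mul_div_cancel_left _ hp]

lemma WMF_pl {p : ℕ} (t : IT) (A : Finset Λ) (M M' l : ℕ) (u : NS) (hd : ¬ p ∣ M') :
    WMF D v Sl A' (.pl p t) A M M' l u = WMF D v Sl A' t A (p * M) M' l (uL p u) := by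
  conv_lhs => unfold WMF
  rw [if_neg hd]

/-- energies are nonnegative -/
lemma Q_nn {R : Finset (Λ × Λ)} {f g : Λ → ℝ → ℝ} (hf : ∀ j, PB (f j)) (hg : ∀ j, PB (g j)) :
    0 ≤ Q R f g :=
  Finset.sum_nonneg fun e _ => I_nonneg ((hf e.1).mul (hg e.2)).nonneg

lemma w_nn {p : ℕ} (hp : p.Prime) : 0 ≤ 1 / (p : ℝ) * (1 + 1 / ((p : ℝ) - 1)) := by
  have hp1 : (1 : ℝ) < p := by exact_mod_cast hp.one_lt
  have h2 : (0:ℝ) < p - 1 := by linarith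
  positivity

/-- merges are nonnegative -/
theorem WMF_nonneg (hvB : 0 < v.B) (hF : Fit v.B v.A (.leaf Sl)) (hWt : D.Wts v.A (.leaf Sl)) :
    ∀ (t : IT) (A : Finset Λ) (M M' l : ℕ) (u : NS) (d : DT Λ κ), 0 < M → 0 < M' →
      SideI D sp u.B u.A t A' d → 0 ≤ WMF D v Sl A' t A M M' l u := by
  intro t
  induction t with
  | leaf S => intro A M M' l u d _ _ _; rw [WMF_leaf]
  | br p S t₁ t₀ ih₁ ih₀ =>
    intro A M M' l u d hM hM' h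
    have hp : p.Prime := h.hF.1
    obtain ⟨w1, w2, w3, w4⟩ := inv_le hp
    by_cases hd : p ∣ M'
    · obtain ⟨M₂, rfl⟩ := hd
      have hM₂ : 0 < M₂ := Nat.pos_of_mul_pos_left hM'
      rw [WMF_free hp.pos]
      exact add_nonneg (mul_nonneg w2.le (ih₁ _ _ _ _ (uP p u) _ hM hM₂ h.br₁))
        (mul_nonneg w1.le (ih₀ _ _ _ _ (uM p u) _ hM hM₂ h.br₀))
    · have hM₂ : 0 < p * M := Nat.mul_pos hp.pos hM
      rw [WMF_br hd]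
      exact add_nonneg (Q_nn (fun j => PB_uA hM hvB hF hWt (one_dvd _) j)
          (fun j => PB_uA hM' h.hb h.hF h.hW (one_dvd _) j))
        (add_nonneg (mul_nonneg w2.le (ih₁ _ _ _ _ (uP p u) _ hM₂ hM' h.br₁))
          (mul_nonneg (w_nn hp) (ih₀ _ _ _ _ (uM p u) _ hM₂ hM' h.br₀)))
  | add p t₁ t₀ ih₁ ih₀ =>
    intro A M M' l u d hM hM' h
    rw [WMF_add]
    exact add_nonneg (ih₁ _ _ _ _ (uA₁ p u) _ hM hM' h.add₁) (ih₀ _ _ _ _ (uA₁ p u) _ hM hM' h.add₀)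
  | up p S t ih =>
    intro A M M' l u d hM hM' h
    rw [WMF_up]
    exact ih _ _ _ _ (uU p u) _ hM hM' h.up
  | pl p t ih =>
    intro A M M' l u d hM hM' h
    have hp : p.Prime := h.hF.1
    by_cases hd : p ∣ M'
    · obtain ⟨M₂, rfl⟩ := hd
      rw [WMF_plf hp.pos]
      exact ih _ _ _ _ (uL p u) _ hM (Nat.pos_of_mul_pos_left hM') h.pl
    · rw [WMF_pl _ _ _ _ _ _ hd]
      exact ih _ _ _ _ (uL p u) _ (Nat.mul_pos hp.pos hM) hM' h.pl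
  | far p t₁ t₀ ih₁ ih₀ =>
    intro A M M' l u d hM hM' h
    rw [WMF_far]
    exact add_nonneg (ih₁ _ _ _ _ (uA₁ p u) _ hM hM' h.far₁) (ih₀ _ _ _ _ (uA₁ p u) _ hM hM' h.far₀)

attribute [local irreducible] WMF

/-! ### sums and numbers -/

lemma sum_two {t t₁ t₀ : IT} (hd : Disjoint t₁.items t₀.items) (h₁ : Qi D Al t₁ A' ⊆ Qi D Al t A')
    (h₀ : Qi D Al t₀ A' ⊆ Qi D Al t A') {F G H : ℕ → ℝ} (hH : ∀ r ∈ Qi D Al t A', 0 ≤ H r)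
    (hF : ∀ r ∈ Qi D Al t₁ A', F r ≤ H r) (hG : ∀ r ∈ Qi D Al t₀ A', G r ≤ H r) :
    ∑ r ∈ Qi D Al t₁ A', F r + ∑ r ∈ Qi D Al t₀ A', G r ≤ ∑ r ∈ Qi D Al t A', H r := by
  calc _ ≤ ∑ r ∈ Qi D Al t₁ A', H r + ∑ r ∈ Qi D Al t₀ A', H r :=
        add_le_add (Finset.sum_le_sum hF) (Finset.sum_le_sum hG)
    _ = ∑ r ∈ Qi D Al t₁ A' ∪ Qi D Al t₀ A', H r := (Finset.sum_union (Qi_disj hd)).symm
    _ ≤ _ := Finset.sum_le_sum_of_subset_of_nonneg (Finset.union_subset h₁ h₀)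
        fun r hr _ => hH r hr

lemma sum_one {t t₁ : IT} (h₁ : Qi D Al t₁ A' ⊆ Qi D Al t A') {F H : ℕ → ℝ}
    (hH : ∀ r ∈ Qi D Al t A', 0 ≤ H r) (hF : ∀ r ∈ Qi D Al t₁ A', F r ≤ H r) :
    ∑ r ∈ Qi D Al t₁ A', F r ≤ ∑ r ∈ Qi D Al t A', H r :=
  (Finset.sum_le_sum hF).trans (Finset.sum_le_sum_of_subset_of_nonneg h₁ fun r hr _ => hH r hr)

/-- the coefficient -/
noncomputable def Cf (C₀ x : ℝ) : ℝ := C₀ + 2 - 2 * x ^ (3/4 : ℝ)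

lemma Cf_ge {C₀ x : ℝ} (h0 : 0 ≤ x) (h1 : x ≤ 1) : C₀ ≤ Cf C₀ x := by
  unfold Cf
  have := Real.rpow_le_one h0 h1 (by norm_num : (0:ℝ) ≤ 3/4)
  linarith

lemma Cf_step {C₀ x p : ℝ} (hp : 1 ≤ p) (hx : 0 ≤ x) (h : x ≤ p ^ (-(1/3) : ℝ)) :
    Cf C₀ (x + 1 / p) + p ^ (-(11/12) : ℝ) ≤ Cf C₀ x := by
  unfold Cf
  have := Crest.Agent.R4P.OSWS245.num1 hp hx h
  linarith

/-- mass of the right node -/
noncomputable def nuL (W : ℕ → ℝ) (s : LSt) : ℝ := s.u.c * Ws W s.t.items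

lemma Ws_nn (hW0 : ∀ q, 0 ≤ W q) (S : Finset ℕ) : 0 ≤ Ws W S := Finset.sum_nonneg fun q _ => hW0 q

lemma Ws_un {S T : Finset ℕ} (h : Disjoint S T) : Ws W (S ∪ T) = Ws W S + Ws W T :=
  Finset.sum_union h

/-- combination of two children -/
lemma comb2 {w₁ w₀ E E₁ E₀ K₁ K₀ S₁ S₀ S W₁ W₀ G : ℝ} (hw₁ : 0 ≤ w₁) (hw₀ : 0 ≤ w₀)
    (hE : E ≤ w₁ * E₁ + w₀ * E₀) (h₁ : E₁ ≤ K₁ + S₁ + W₁) (h₀ : E₀ ≤ K₀ + S₀ + W₀)
    (hS : w₁ * S₁ + w₀ * S₀ ≤ S) (hG : w₁ * K₁ + w₀ * K₀ ≤ G) :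
    E ≤ G + S + (w₁ * W₁ + w₀ * W₀) := by
  have k1 := mul_le_mul_of_nonneg_left h₁ hw₁
  have k0 := mul_le_mul_of_nonneg_left h₀ hw₀
  have e1 : w₁ * (K₁ + S₁ + W₁) = w₁ * K₁ + w₁ * S₁ + w₁ * W₁ := by ring
  have e0 : w₀ * (K₀ + S₀ + W₀) = w₀ * K₀ + w₀ * S₀ + w₀ * W₀ := by ring
  rw [e1] at k1
  rw [e0] at k0
  linarith

/-- **the local hypotheses** of the leaf item walk -/
structure LH (D : Par Λ κ) (Al : Finset ℕ) (sp : ℕ → Finset Λ) (P : Bld532.Par) (W : ℕ → ℝ)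
    (Qp : NS → IT → Prop) (Jp : ℕ × ℝ → ℕ × ℝ → ℕ × ℕ → Prop) (v : NS) (Sl : Finset ℕ) (q : ℕ)
    (A A' : Finset Λ) (Θ : ℕ → ℝ) (C₀ mq : ℝ) (Φ : LSt → ℕ → ℝ) (Jx : LSt → Prop)
    (Oy : ℕ → ℕ → Prop) : Prop where
  hh : YH D sp P W Qp
  hJ : ∀ (p : ℕ) (i i' : Bool) (a a' c c' : ℕ × ℝ) (e : ℕ × ℕ), p.Prime → Mv p i a c →
      Mv p i' a' c' → (i = true ∨ i' = true) → Jp a a' e → Jp c c' e
  hvB : 0 < v.B
  hFl : Fit v.B v.A (.leaf Sl)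
  hWl : D.Wts v.A (.leaf Sl)
  hq : 0 < q / v.A
  hW0 : ∀ q, 0 ≤ W q
  hA : ∀ j ∈ A, D.it j = q
  hΘ1 : ∀ n, 1 ≤ Θ n
  hΘm : Monotone Θ
  hΘs : ∀ p : ℕ, p.Prime → P.p0 < p → Θ p * (1 + 2 * P.sg p / ((p : ℝ) - 1)) ≤ Θ (p + 1)
  hp8 : 8 ≤ P.p0
  hC0 : 0 ≤ C₀
  hmq : 0 ≤ mq
  hJx : ∀ w s s₂, LMv v.A q w s s₂ → LOk D Al sp Qp Jp v q A' s → Jx s → Jx s₂
  hΦ0 : ∀ s, LOk D Al sp Qp Jp v q A' s → Jx s → ∀ r ∈ Qi D Al s.t A', 0 ≤ Φ s r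
  hΦ : ∀ w s s₂, LMv v.A q w s s₂ → LOk D Al sp Qp Jp v q A' s → Jx s →
      ∀ r ∈ Qi D Al s₂.t A', w * Φ s₂ r ≤ Φ s r
  hOy : ∀ (s : LSt) (p : ℕ) (S : Finset ℕ) (t₁ t₀ : IT), s.t = .br p S t₁ t₀ →
      LOk D Al sp Qp Jp v q A' s → Jx s → ¬ p ∣ s.M' → ¬ p ∣ UI s.M v.A q →
      ∀ r ∈ Qi D Al t₁ A', Oy p r
  hstop : ∀ (s : LSt) (p : ℕ) (S : Finset ℕ) (t₁ t₀ : IT), s.t = .br p S t₁ t₀ →
      LOk D Al sp Qp Jp v q A' s → Jx s → ∀ O : Finset ℕ,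
      (∀ l ∈ O, l.Prime ∧ p < l ∧ ∀ r ∈ Qi D Al s.t A', Oy l r) →
      (p : ℝ) ^ (-(1/3) : ℝ) ≤ ∑ l ∈ O, 1 / (l : ℝ) →
      En D v Sl A A' (Ro (D.rho s.l)) s ≤ C₀ * (mq * nuL W s) + ∑ r ∈ Qi D Al s.t A', Φ s r
  hleaf : ∀ (s : LSt) (S : Finset ℕ), s.t = .leaf S → LOk D Al sp Qp Jp v q A' s → Jx s →
      En D v Sl A A' (Ro (D.rho s.l)) s ≤ C₀ * (mq * nuL W s) + ∑ r ∈ Qi D Al s.t A', Φ s r
  hexit : ∀ (s : LSt) (p : ℕ) (S : Finset ℕ) (t₁ t₀ : IT), s.t = .br p S t₁ t₀ →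
      LOk D Al sp Qp Jp v q A' s → Jx s → ¬ p ∣ s.M' → ¬ p ∣ UI s.M v.A q →
      os (orel κ) p (avg s.M' (rk A' (D.rho p) (GD D s.u.B s.u.A p t₁ t₀)))
          (sm (D.rho p) (D.uA s.M v.B v.A (.leaf Sl) A 1)) +
        1 / (p : ℝ) * Q (Ro (D.rho p)) (D.uA (p * s.M) v.B v.A (.leaf Sl) A 1)
          (D.uA s.M' (s.u.B * p) s.u.A t₀ A' 1) ≤
        (p : ℝ) ^ (-(11/12) : ℝ) * (mq * nuL W s) + ∑ r ∈ Qi D Al t₀ A', Φ s r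
  hdiv : ∀ (s : LSt) (p : ℕ) (S : Finset ℕ) (t₁ t₀ : IT), s.t = .br p S t₁ t₀ →
      LOk D Al sp Qp Jp v q A' s → Jx s → ¬ p ∣ s.M' → p ∣ UI s.M v.A q → ∃ Ψ : ℕ → ℝ,
      os (orel κ) p (avg s.M' (rk A' (D.rho p) (GD D s.u.B s.u.A p t₁ t₀)))
          (sm (D.rho p) (D.uA s.M v.B v.A (.leaf Sl) A 1)) ≤
        1 / ((p : ℝ) - 1) * (1 / (p : ℝ) * Q (Ro (D.rho p))
          (D.uA (p * s.M) v.B v.A (.leaf Sl) A 1) (D.uA s.M' (s.u.B * p) s.u.A t₀ A' 1)) +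
        C₀ * (Θ (p + 1) - Θ p * (1 + 2 * P.sg p / ((p : ℝ) - 1))) * (mq * nuL W s) +
        ∑ r ∈ Qi D Al t₀ A', Ψ r ∧
      ∀ r ∈ Qi D Al t₀ A', 1 / (p : ℝ) * (1 + 1 / ((p : ℝ) - 1)) *
        Φ ⟨p * s.M, s.M', p, uM p s.u, t₀⟩ r + Ψ r ≤ Φ s r

/-- the set of settled columns of the item -/
structure OSt (D : Par Λ κ) (Al : Finset ℕ) (A' : Finset Λ) (Oy : ℕ → ℕ → Prop) (s : LSt)
    (O : Finset ℕ) : Prop where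
  h : ∀ l ∈ O, l.Prime ∧ s.u.n ≤ l ∧ ∀ r ∈ Qi D Al s.t A', Oy l r
  le : ∑ l ∈ O, 1 / (l : ℝ) ≤ 1

lemma OSt.mono {Oy : ℕ → ℕ → Prop} {s s₂ : LSt} {O : Finset ℕ} (h : OSt D Al A' Oy s O)
    (hn : s₂.u.n ≤ s.u.n) (hs : Qi D Al s₂.t A' ⊆ Qi D Al s.t A') : OSt D Al A' Oy s₂ O :=
  ⟨fun l hl => ⟨(h.h l hl).1, hn.trans (h.h l hl).2.1, fun r hr => (h.h l hl).2.2 r (hs hr)⟩, h.le⟩

/-- the claim at a state -/
def Cl (D : Par Λ κ) (Al : Finset ℕ) (W : ℕ → ℝ) (v : NS) (Sl : Finset ℕ) (A A' : Finset Λ)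
    (Θ : ℕ → ℝ) (C₀ mq : ℝ) (Φ : LSt → ℕ → ℝ) (s : LSt) (O : Finset ℕ) : Prop :=
  En D v Sl A A' (Ro (D.rho s.l)) s ≤
    Cf C₀ (∑ l ∈ O, 1 / (l : ℝ)) * Θ s.u.n * (mq * nuL W s) + ∑ r ∈ Qi D Al s.t A', Φ s r +
      WMF D v Sl A' s.t A s.M s.M' s.l s.u

section cases
variable {A : Finset Λ} {Θ : ℕ → ℝ} {C₀ mq : ℝ} {Φ : LSt → ℕ → ℝ} {Jx : LSt → Prop}
  {Oy : ℕ → ℕ → Prop}

lemma sum0 (O : Finset ℕ) : 0 ≤ ∑ l ∈ O, 1 / (l : ℝ) := Finset.sum_nonneg fun l _ => by positivity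

lemma LH.nu0 (H : LH D Al sp P W Qp Jp v Sl q A A' Θ C₀ mq Φ Jx Oy) {s : LSt}
    (h : LOk D Al sp Qp Jp v q A' s) : 0 ≤ mq * nuL W s :=
  mul_nonneg H.hmq (mul_nonneg h.c0 (Ws_nn H.hW0 _))

lemma LH.K0 (H : LH D Al sp P W Qp Jp v Sl q A A' Θ C₀ mq Φ Jx Oy) {s : LSt} {O : Finset ℕ}
    (hO : OSt D Al A' Oy s O) : 0 ≤ Cf C₀ (∑ l ∈ O, 1 / (l : ℝ)) :=
  H.hC0.trans (Cf_ge (sum0 O) hO.le)

lemma LH.term (H : LH D Al sp P W Qp Jp v Sl q A A' Θ C₀ mq Φ Jx Oy) {s : LSt} {O : Finset ℕ}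
    (h : LOk D Al sp Qp Jp v q A' s) (hO : OSt D Al A' Oy s O) :
    C₀ * (mq * nuL W s) ≤ Cf C₀ (∑ l ∈ O, 1 / (l : ℝ)) * Θ s.u.n * (mq * nuL W s) := by
  refine mul_le_mul_of_nonneg_right ?_ (H.nu0 h)
  have h1 := Cf_ge (C₀ := C₀) (sum0 O) hO.le
  have h2 := H.hΘ1 s.u.n
  have h3 := H.K0 hO
  nlinarith

lemma LH.pbL (H : LH D Al sp P W Qp Jp v Sl q A A' Θ C₀ mq Φ Jx Oy) {M : ℕ} (hM : 0 < M) (j : Λ) :
    PB (D.uA M v.B v.A (.leaf Sl) A 1 j) := PB_uA hM H.hvB H.hFl H.hWl (one_dvd _) j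

/-- a state with one child of weight one -/
lemma LH.one (H : LH D Al sp P W Qp Jp v Sl q A A' Θ C₀ mq Φ Jx Oy) {s s₂ : LSt} {O : Finset ℕ}
    (h : LOk D Al sp Qp Jp v q A' s) (hx : Jx s) (hO : OSt D Al A' Oy s O)
    (c : LMv v.A q 1 s s₂) (hl : s₂.l = s.l) (hn : s₂.u.n ≤ s.u.n)
    (hE : En D v Sl A A' (Ro (D.rho s.l)) s = En D v Sl A A' (Ro (D.rho s.l)) s₂)
    (hν : nuL W s₂ = nuL W s)
    (hW : WMF D v Sl A' s.t A s.M s.M' s.l s.u = WMF D v Sl A' s₂.t A s₂.M s₂.M' s₂.l s₂.u)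
    (ih : LOk D Al sp Qp Jp v q A' s₂ → Jx s₂ → OSt D Al A' Oy s₂ O →
      Cl D Al W v Sl A A' Θ C₀ mq Φ s₂ O) : Cl D Al W v Sl A A' Θ C₀ mq Φ s O := by
  have k := c.chd (Sl := Sl) H.hh H.hJ H.hq h
  have i := ih k.ok (H.hJx _ _ _ c h hx) (hO.mono hn k.sub)
  unfold Cl at i ⊢
  rw [hE, hW]
  rw [hl] at i
  rw [hl]
  refine i.trans (add_le_add (add_le_add ?_ ?_) le_rfl)
  · rw [hν]
    exact mul_le_mul_of_nonneg_right (mul_le_mul_of_nonneg_left (H.hΘm hn) (H.K0 hO)) (H.nu0 h)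
  · refine sum_one k.sub (H.hΦ0 s h hx) fun r hr => ?_
    have := H.hΦ _ _ _ c h hx r hr
    rwa [one_mul] at this

/-- a state with two children of weight one -/
lemma LH.two (H : LH D Al sp P W Qp Jp v Sl q A A' Θ C₀ mq Φ Jx Oy) {s s₁ s₀ : LSt} {O : Finset ℕ}
    (h : LOk D Al sp Qp Jp v q A' s) (hx : Jx s) (hO : OSt D Al A' Oy s O)
    (c₁ : LMv v.A q 1 s s₁) (c₀ : LMv v.A q 1 s s₀) (hl₁ : s₁.l = s.l) (hl₀ : s₀.l = s.l)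
    (hn₁ : s₁.u.n ≤ s.u.n) (hn₀ : s₀.u.n ≤ s.u.n) (hd : Disjoint s₁.t.items s₀.t.items)
    (hE : En D v Sl A A' (Ro (D.rho s.l)) s = En D v Sl A A' (Ro (D.rho s.l)) s₁ +
      En D v Sl A A' (Ro (D.rho s.l)) s₀)
    (hν : nuL W s₁ + nuL W s₀ = nuL W s)
    (hW : WMF D v Sl A' s.t A s.M s.M' s.l s.u = WMF D v Sl A' s₁.t A s₁.M s₁.M' s₁.l s₁.u +
      WMF D v Sl A' s₀.t A s₀.M s₀.M' s₀.l s₀.u)
    (ih₁ : LOk D Al sp Qp Jp v q A' s₁ → Jx s₁ → OSt D Al A' Oy s₁ O →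
      Cl D Al W v Sl A A' Θ C₀ mq Φ s₁ O)
    (ih₀ : LOk D Al sp Qp Jp v q A' s₀ → Jx s₀ → OSt D Al A' Oy s₀ O →
      Cl D Al W v Sl A A' Θ C₀ mq Φ s₀ O) : Cl D Al W v Sl A A' Θ C₀ mq Φ s O := by
  have k1 := c₁.chd (Sl := Sl) H.hh H.hJ H.hq h
  have k0 := c₀.chd (Sl := Sl) H.hh H.hJ H.hq h
  have i1 := ih₁ k1.ok (H.hJx _ _ _ c₁ h hx) (hO.mono hn₁ k1.sub)
  have i0 := ih₀ k0.ok (H.hJx _ _ _ c₀ h hx) (hO.mono hn₀ k0.sub)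
  unfold Cl at i1 i0 ⊢
  rw [hl₁] at i1
  rw [hl₀] at i0
  rw [hl₁, hl₀] at hW
  have hS := sum_two (D := D) (Al := Al) (A' := A') hd k1.sub k0.sub
    (F := fun r => Φ s₁ r) (G := fun r => Φ s₀ r) (H := fun r => Φ s r) (H.hΦ0 s h hx)
    (fun r hr => by have := H.hΦ _ _ _ c₁ h hx r hr; rwa [one_mul] at this)
    (fun r hr => by have := H.hΦ _ _ _ c₀ h hx r hr; rwa [one_mul] at this)
  have n1 := H.nu0 k1.ok
  have n0 := H.nu0 k0.ok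
  have t1 := mul_le_mul_of_nonneg_right (mul_le_mul_of_nonneg_left (H.hΘm hn₁) (H.K0 hO)) n1
  have t0 := mul_le_mul_of_nonneg_right (mul_le_mul_of_nonneg_left (H.hΘm hn₀) (H.K0 hO)) n0
  have hG : Cf C₀ (∑ l ∈ O, 1 / (l : ℝ)) * Θ s.u.n * (mq * nuL W s) =
      Cf C₀ (∑ l ∈ O, 1 / (l : ℝ)) * Θ s.u.n * (mq * nuL W s₁) +
      Cf C₀ (∑ l ∈ O, 1 / (l : ℝ)) * Θ s.u.n * (mq * nuL W s₀) := by rw [← hν]; ring
  rw [hE, hW, hG]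
  linarith

/-- numbers at a tie -/
lemma tie_num (H : LH D Al sp P W Qp Jp v Sl q A A' Θ C₀ mq Φ Jx Oy) {M M' l p : ℕ} {u : NS}
    {S : Finset ℕ} {t₁ t₀ : IT} (h : LOk D Al sp Qp Jp v q A' ⟨M, M', l, u, .br p S t₁ t₀⟩) :
    p.Prime ∧ P.p0 < p ∧ p < u.n ∧ Disjoint t₁.items t₀.items ∧
    0 ≤ u.c * Ws W t₁.items ∧ 0 ≤ u.c * Ws W t₀.items ∧
    nuL W ⟨M, M', l, u, .br p S t₁ t₀⟩ = u.c * Ws W t₁.items + u.c * Ws W t₀.items ∧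
    u.c * Ws W t₀.items ≤ 2 * P.sg p * (u.c * Ws W t₁.items + u.c * Ws W t₀.items) ∧
    (∀ N N' n : ℕ, (1 - 1 / (p : ℝ)) * nuL W ⟨N, N', n, uP p u, t₁⟩ = u.c * Ws W t₁.items) ∧
    (∀ N N' n : ℕ, 1 / (p : ℝ) * nuL W ⟨N, N', n, uM p u, t₀⟩ = u.c * Ws W t₀.items) := by
  have hp : p.Prime := h.y.S.hF.1
  have hdis : Disjoint t₁.items t₀.items := h.y.ok.2.2.1
  have hN := H.hh.nd _ _ h.y.q.self
  obtain ⟨w1, w2, w3, w4⟩ := inv_le hp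
  have hp0 : (0:ℝ) < p := by exact_mod_cast hp.pos
  refine ⟨hp, hN.2.2.1, h.y.ok.2.1, hdis, mul_nonneg h.c0 (Ws_nn H.hW0 _),
    mul_nonneg h.c0 (Ws_nn H.hW0 _), ?_, ?_, fun N N' n => ?_, fun N N' n => ?_⟩
  · show u.c * Ws W (t₁.items ∪ t₀.items) = _
    rw [Ws_un hdis]; ring
  · have k := hN.2.2.2.2.2.2.2.2.2.2.2.1
    rw [Ws_un hdis] at k
    calc u.c * Ws W t₀.items ≤ u.c * (2 * P.sg p * (Ws W t₁.items + Ws W t₀.items)) :=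
          mul_le_mul_of_nonneg_left k h.c0
      _ = _ := by ring
  · show (1 - 1 / (p : ℝ)) * (u.c / (1 - 1 / (p : ℝ)) * Ws W t₁.items) = _
    rw [← mul_assoc, mul_div_cancel₀ _ w2.ne']
  · show 1 / (p : ℝ) * (u.c * p * Ws W t₀.items) = _
    field_simp

set_option maxHeartbeats 400000 in
/-- **free tie** -/
lemma LH.free (H : LH D Al sp P W Qp Jp v Sl q A A' Θ C₀ mq Φ Jx Oy) {M M₂ l p : ℕ} {u : NS}
    {S : Finset ℕ} {t₁ t₀ : IT} {O : Finset ℕ}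
    (h : LOk D Al sp Qp Jp v q A' ⟨M, p * M₂, l, u, .br p S t₁ t₀⟩)
    (hx : Jx ⟨M, p * M₂, l, u, .br p S t₁ t₀⟩)
    (hO : OSt D Al A' Oy ⟨M, p * M₂, l, u, .br p S t₁ t₀⟩ O)
    (ih₁ : LOk D Al sp Qp Jp v q A' ⟨M, M₂, l, uP p u, t₁⟩ → Jx ⟨M, M₂, l, uP p u, t₁⟩ →
      OSt D Al A' Oy ⟨M, M₂, l, uP p u, t₁⟩ O →
      Cl D Al W v Sl A A' Θ C₀ mq Φ ⟨M, M₂, l, uP p u, t₁⟩ O)
    (ih₀ : LOk D Al sp Qp Jp v q A' ⟨M, M₂, l, uM p u, t₀⟩ → Jx ⟨M, M₂, l, uM p u, t₀⟩ →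
      OSt D Al A' Oy ⟨M, M₂, l, uM p u, t₀⟩ O →
      Cl D Al W v Sl A A' Θ C₀ mq Φ ⟨M, M₂, l, uM p u, t₀⟩ O) :
    Cl D Al W v Sl A A' Θ C₀ mq Φ ⟨M, p * M₂, l, u, .br p S t₁ t₀⟩ O := by
  obtain ⟨hp, hpp0, hpn, hdis, hX1, hX0, hν, -, e1, e0⟩ := tie_num H h
  obtain ⟨w1, w2, w3, w4⟩ := inv_le hp
  have c1 : LMv v.A q (1 - 1 / (p : ℝ)) ⟨M, p * M₂, l, u, .br p S t₁ t₀⟩ ⟨M, M₂, l, uP p u, t₁⟩ :=
    .fr1
  have c0 : LMv v.A q (1 / (p : ℝ)) ⟨M, p * M₂, l, u, .br p S t₁ t₀⟩ ⟨M, M₂, l, uM p u, t₀⟩ := .fr0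
  have k1 := c1.chd (Sl := Sl) H.hh H.hJ H.hq h
  have k0 := c0.chd (Sl := Sl) H.hh H.hJ H.hq h
  have i1 := ih₁ k1.ok (H.hJx _ _ _ c1 h hx) (hO.mono hpn.le k1.sub)
  have i0 := ih₀ k0.ok (H.hJx _ _ _ c0 h hx) (hO.mono hpn.le k0.sub)
  have hM₂ : 0 < M₂ := k1.ok.M0'
  have hE : En D v Sl A A' (Ro (D.rho l)) ⟨M, p * M₂, l, u, .br p S t₁ t₀⟩ =
      (1 - 1 / (p : ℝ)) * En D v Sl A A' (Ro (D.rho l)) ⟨M, M₂, l, uP p u, t₁⟩ +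
      1 / (p : ℝ) * En D v Sl A A' (Ro (D.rho l)) ⟨M, M₂, l, uM p u, t₀⟩ :=
    Q_free' h.y.S hM₂ A' (Ro (D.rho l)) (H.pbL h.M0)
  have hWM := WMF_free (D := D) (v := v) (Sl := Sl) (A' := A') hp.pos S t₁ t₀ A M M₂ l u
  have b1 := H.hΦ _ _ _ c1 h hx
  have b0 := H.hΦ _ _ _ c0 h hx
  have hS := sum_two (D := D) (Al := Al) (A' := A') hdis k1.sub k0.sub
    (F := fun r => (1 - 1 / (p : ℝ)) * Φ ⟨M, M₂, l, uP p u, t₁⟩ r)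
    (G := fun r => 1 / (p : ℝ) * Φ ⟨M, M₂, l, uM p u, t₀⟩ r)
    (H := fun r => Φ ⟨M, p * M₂, l, u, .br p S t₁ t₀⟩ r) (H.hΦ0 _ h hx)
    (fun r hr => b1 r hr) (fun r hr => b0 r hr)
  rw [← Finset.mul_sum, ← Finset.mul_sum] at hS
  have hK := H.K0 hO
  unfold Cl at i1 i0 ⊢
  refine (comb2 w2.le w1.le hE.le i1 i0 hS ?_).trans (add_le_add le_rfl hWM.ge)
  calc _ = Cf C₀ (∑ l ∈ O, 1 / (l : ℝ)) * Θ p *
        (mq * ((1 - 1 / (p : ℝ)) * nuL W ⟨M, M₂, l, uP p u, t₁⟩ +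
          1 / (p : ℝ) * nuL W ⟨M, M₂, l, uM p u, t₀⟩)) := by
        show (1 - 1 / (p : ℝ)) * (Cf C₀ (∑ l ∈ O, 1 / (l : ℝ)) * Θ p * (mq * _)) +
          1 / (p : ℝ) * (Cf C₀ (∑ l ∈ O, 1 / (l : ℝ)) * Θ p * (mq * _)) = _
        ring
    _ = Cf C₀ (∑ l ∈ O, 1 / (l : ℝ)) * Θ p *
        (mq * nuL W ⟨M, p * M₂, l, u, .br p S t₁ t₀⟩) := by rw [e1, e0, hν]
    _ ≤ _ := mul_le_mul_of_nonneg_right (mul_le_mul_of_nonneg_left (H.hΘm hpn.le) hK) (H.nu0 h)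

/-- energies at a tie which is not free -/
lemma LH.colE (H : LH D Al sp P W Qp Jp v Sl q A A' Θ C₀ mq Φ Jx Oy) {M M' l p : ℕ} {u : NS}
    {S : Finset ℕ} {t₁ t₀ : IT}
    (h : LOk D Al sp Qp Jp v q A' ⟨M, M', l, u, .br p S t₁ t₀⟩) (hd : ¬ p ∣ M') :
    En D v Sl A A' (Ro (D.rho l)) ⟨M, M', l, u, .br p S t₁ t₀⟩ ≤
      (1 - 1 / (p : ℝ)) * En D v Sl A A' (Ro (D.rho p)) ⟨p * M, M', p, uP p u, t₁⟩ +
      1 / (p : ℝ) * Q (Ro (D.rho p)) (D.uA (p * M) v.B v.A (.leaf Sl) A 1)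
        (D.uA M' (u.B * p) u.A t₀ A' 1) +
      os (orel κ) p (avg M' (rk A' (D.rho p) (GD D u.B u.A p t₁ t₀)))
        (sm (D.rho p) (D.uA M v.B v.A (.leaf Sl) A 1)) +
      Q (Ro (D.rho l) \ Ro (D.rho p)) (D.uA M v.B v.A (.leaf Sl) A 1)
        (D.uA M' u.B u.A (.br p S t₁ t₀) A' 1) := by
  have hMp : 0 < M := h.M0
  have hM'p : 0 < M' := h.M0'
  have hE0 : Q (Ro (D.rho l)) (D.uA M v.B v.A (.leaf Sl) A 1)
        (D.uA M' u.B u.A (.br p S t₁ t₀) A' 1) ≤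
      Q (Ro (D.rho p)) (D.uA M v.B v.A (.leaf Sl) A 1)
        (D.uA M' u.B u.A (.br p S t₁ t₀) A' 1) +
      Q (Ro (D.rho l) \ Ro (D.rho p)) (D.uA M v.B v.A (.leaf Sl) A 1)
        (D.uA M' u.B u.A (.br p S t₁ t₀) A' 1) :=
    Q_split (H.pbL hMp) (fun j => PB_uA hM'p h.y.S.hb h.y.S.hF h.y.S.hW (one_dvd _) j)
  have hE1 : Q (Ro (D.rho p)) (D.uA M v.B v.A (.leaf Sl) A 1)
        (D.uA M' u.B u.A (.br p S t₁ t₀) A' 1) =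
      (1 - 1 / (p : ℝ)) * Q (Ro (D.rho p)) (D.uA (p * M) v.B v.A (.leaf Sl) A 1)
        (D.uA M' u.B (u.A * p) t₁ A' 1) +
      1 / (p : ℝ) * Q (Ro (D.rho p)) (D.uA (p * M) v.B v.A (.leaf Sl) A 1)
        (D.uA M' (u.B * p) u.A t₀ A' 1) +
      os (orel κ) p (avg M' (rk A' (D.rho p) (GD D u.B u.A p t₁ t₀)))
        (sm (D.rho p) (D.uA M v.B v.A (.leaf Sl) A 1)) :=
    Q_col h.y.S hM'p hMp hd (F := rv A fun j => (D.toFT v.B v.A (.leaf Sl)).U 1 j)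
      (fun j => PB_rv (fun j => Crest.Agent.R4.Fam464.FT.pb H.hvB (D.toFT_Adm _ v.B v.A H.hvB H.hFl H.hWl)
        (one_dvd _) j) A j)
  exact hE0.trans (add_le_add hE1.le le_rfl)

set_option maxHeartbeats 400000 in
/-- **divisible tie** -/
lemma LH.dv (H : LH D Al sp P W Qp Jp v Sl q A A' Θ C₀ mq Φ Jx Oy) {M M' l p : ℕ} {u : NS}
    {S : Finset ℕ} {t₁ t₀ : IT} {O : Finset ℕ}
    (h : LOk D Al sp Qp Jp v q A' ⟨M, M', l, u, .br p S t₁ t₀⟩)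
    (hx : Jx ⟨M, M', l, u, .br p S t₁ t₀⟩)
    (hO : OSt D Al A' Oy ⟨M, M', l, u, .br p S t₁ t₀⟩ O) (hd : ¬ p ∣ M') (hu : p ∣ UI M v.A q)
    (ih₁ : LOk D Al sp Qp Jp v q A' ⟨p * M, M', p, uP p u, t₁⟩ → Jx ⟨p * M, M', p, uP p u, t₁⟩ →
      OSt D Al A' Oy ⟨p * M, M', p, uP p u, t₁⟩ O →
      Cl D Al W v Sl A A' Θ C₀ mq Φ ⟨p * M, M', p, uP p u, t₁⟩ O)
    (ih₀ : LOk D Al sp Qp Jp v q A' ⟨p * M, M', p, uM p u, t₀⟩ → Jx ⟨p * M, M', p, uM p u, t₀⟩ →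
      OSt D Al A' Oy ⟨p * M, M', p, uM p u, t₀⟩ O →
      Cl D Al W v Sl A A' Θ C₀ mq Φ ⟨p * M, M', p, uM p u, t₀⟩ O) :
    Cl D Al W v Sl A A' Θ C₀ mq Φ ⟨M, M', l, u, .br p S t₁ t₀⟩ O := by
  obtain ⟨hp, hpp0, hpn, hdis, hX1, hX0, hν, hsh, e1, e0⟩ := tie_num H h
  obtain ⟨w1, w2, w3, w4⟩ := inv_le hp
  have c1 : LMv v.A q (1 - 1 / (p : ℝ)) ⟨M, M', l, u, .br p S t₁ t₀⟩ ⟨p * M, M', p, uP p u, t₁⟩ :=
    .dv1 hd hu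
  have c0 : LMv v.A q (1 / (p : ℝ) * (1 + 1 / ((p : ℝ) - 1))) ⟨M, M', l, u, .br p S t₁ t₀⟩
    ⟨p * M, M', p, uM p u, t₀⟩ := .dv0 hd hu
  have k1 := c1.chd (Sl := Sl) H.hh H.hJ H.hq h
  have k0 := c0.chd (Sl := Sl) H.hh H.hJ H.hq h
  have i1 := ih₁ k1.ok (H.hJx _ _ _ c1 h hx) (hO.mono hpn.le k1.sub)
  have i0 := ih₀ k0.ok (H.hJx _ _ _ c0 h hx) (hO.mono hpn.le k0.sub)
  obtain ⟨Ψ, hdv, hΨ⟩ := H.hdiv _ p S t₁ t₀ rfl h hx hd hu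
  have hE := H.colE h hd
  have hfil : (A.filter fun j => p ∣ UI M v.A (D.it j)) = A :=
    Finset.filter_true_of_mem fun j hj => by rw [H.hA j hj]; exact hu
  have hWM := WMF_br (D := D) (v := v) (Sl := Sl) (A' := A') (M := M) (l := l) (u := u) (S := S)
    (t₁ := t₁) (t₀ := t₀) hd A
  rw [hfil] at hWM
  have b1 := H.hΦ _ _ _ c1 h hx
  have b0 := H.hΦ _ _ _ c0 h hx
  have hS := sum_two (D := D) (Al := Al) (A' := A') hdis k1.sub k0.sub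
    (F := fun r => (1 - 1 / (p : ℝ)) * Φ ⟨p * M, M', p, uP p u, t₁⟩ r)
    (G := fun r => 1 / (p : ℝ) * (1 + 1 / ((p : ℝ) - 1)) *
      Φ ⟨p * M, M', p, uM p u, t₀⟩ r + Ψ r)
    (H := fun r => Φ ⟨M, M', l, u, .br p S t₁ t₀⟩ r) (H.hΦ0 _ h hx)
    (fun r hr => b1 r hr) (fun r hr => hΨ r hr)
  rw [← Finset.mul_sum, Finset.sum_add_distrib, ← Finset.mul_sum, ← add_assoc] at hS
  have hK := H.K0 hO
  have hp1 : (1:ℝ) < p := by exact_mod_cast hp.one_lt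
  have hpm : (0:ℝ) < p - 1 := by linarith
  unfold Cl at i1 i0 ⊢
  set Z := Q (Ro (D.rho p)) (D.uA (p * M) v.B v.A (.leaf Sl) A 1) (D.uA M' (u.B * p) u.A t₀ A' 1)
    with hZ
  set δ : ℝ := C₀ * (Θ (p + 1) - Θ p * (1 + 2 * P.sg p / ((p : ℝ) - 1))) with hδ
  have hE2 : En D v Sl A A' (Ro (D.rho l)) ⟨M, M', l, u, .br p S t₁ t₀⟩ -
      Q (Ro (D.rho l) \ Ro (D.rho p)) (D.uA M v.B v.A (.leaf Sl) A 1)
        (D.uA M' u.B u.A (.br p S t₁ t₀) A' 1) -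
      δ * (mq * nuL W ⟨M, M', l, u, .br p S t₁ t₀⟩) - ∑ r ∈ Qi D Al t₀ A', Ψ r ≤
      (1 - 1 / (p : ℝ)) * En D v Sl A A' (Ro (D.rho p)) ⟨p * M, M', p, uP p u, t₁⟩ +
      1 / (p : ℝ) * (1 + 1 / ((p : ℝ) - 1)) *
        En D v Sl A A' (Ro (D.rho p)) ⟨p * M, M', p, uM p u, t₀⟩ := by
    have hEn0 : En D v Sl A A' (Ro (D.rho p)) ⟨p * M, M', p, uM p u, t₀⟩ = Z := rfl
    have : 1 / (p : ℝ) * (1 + 1 / ((p : ℝ) - 1)) * Z =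
      1 / (p : ℝ) * Z + 1 / ((p : ℝ) - 1) * (1 / (p : ℝ) * Z) := by ring
    rw [hEn0, this]
    simp only at hdv
    linarith
  have key := comb2 (G := Cf C₀ (∑ l ∈ O, 1 / (l : ℝ)) * Θ u.n *
    (mq * nuL W ⟨M, M', l, u, .br p S t₁ t₀⟩) -
    δ * (mq * nuL W ⟨M, M', l, u, .br p S t₁ t₀⟩)) w2.le (w_nn hp) hE2 i1 i0
    (S := ∑ r ∈ Qi D Al (.br p S t₁ t₀) A', Φ ⟨M, M', l, u, .br p S t₁ t₀⟩ r -
      ∑ r ∈ Qi D Al t₀ A', Ψ r) (by simp only at hS ⊢; linarith) ?_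
  · show En D v Sl A A' (Ro (D.rho l)) ⟨M, M', l, u, .br p S t₁ t₀⟩ ≤
      Cf C₀ (∑ l ∈ O, 1 / (l : ℝ)) * Θ u.n * (mq * nuL W ⟨M, M', l, u, .br p S t₁ t₀⟩) +
      ∑ r ∈ Qi D Al (.br p S t₁ t₀) A', Φ ⟨M, M', l, u, .br p S t₁ t₀⟩ r +
      WMF D v Sl A' (.br p S t₁ t₀) A M M' l u
    rw [hWM]
    simp only at key
    linarith
  · set X1 := u.c * Ws W t₁.items
    set X0 := u.c * Ws W t₀.items
    have hx2 : 1 / ((p : ℝ) - 1) * X0 ≤ 2 * P.sg p / ((p : ℝ) - 1) * (X1 + X0) := by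
      calc 1 / ((p : ℝ) - 1) * X0 ≤ 1 / ((p : ℝ) - 1) * (2 * P.sg p * (X1 + X0)) :=
            mul_le_mul_of_nonneg_left hsh (by positivity)
        _ = _ := by ring
    calc _ = Cf C₀ (∑ l ∈ O, 1 / (l : ℝ)) * Θ p *
          (mq * ((1 - 1 / (p : ℝ)) * nuL W ⟨p * M, M', p, uP p u, t₁⟩ +
            (1 + 1 / ((p : ℝ) - 1)) * (1 / (p : ℝ) * nuL W ⟨p * M, M', p, uM p u, t₀⟩))) := by
          show (1 - 1 / (p : ℝ)) * (Cf C₀ (∑ l ∈ O, 1 / (l : ℝ)) * Θ p * (mq * _)) +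
            1 / (p : ℝ) * (1 + 1 / ((p : ℝ) - 1)) *
              (Cf C₀ (∑ l ∈ O, 1 / (l : ℝ)) * Θ p * (mq * _)) = _
          ring
      _ = Cf C₀ (∑ l ∈ O, 1 / (l : ℝ)) * Θ p *
          (mq * (X1 + (1 + 1 / ((p : ℝ) - 1)) * X0)) := by rw [e1, e0]
      _ ≤ Cf C₀ (∑ l ∈ O, 1 / (l : ℝ)) * Θ p *
          (mq * ((1 + 2 * P.sg p / ((p : ℝ) - 1)) * (X1 + X0))) := by
          refine mul_le_mul_of_nonneg_left (mul_le_mul_of_nonneg_left ?_ H.hmq)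
            (mul_nonneg hK (zero_le_one.trans (H.hΘ1 p)))
          linarith
      _ = Cf C₀ (∑ l ∈ O, 1 / (l : ℝ)) * (Θ p * (1 + 2 * P.sg p / ((p : ℝ) - 1))) *
          (mq * (X1 + X0)) := by ring
      _ ≤ _ := by
          have hs := H.hΘs p hp hpp0
          have hm : Θ (p + 1) ≤ Θ u.n := H.hΘm (by omega)
          have hC : C₀ ≤ Cf C₀ (∑ l ∈ O, 1 / (l : ℝ)) := Cf_ge (sum0 O) hO.le
          have h3 : δ ≤ Cf C₀ (∑ l ∈ O, 1 / (l : ℝ)) *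
              (Θ (p + 1) - Θ p * (1 + 2 * P.sg p / ((p : ℝ) - 1))) :=
            mul_le_mul_of_nonneg_right hC (by linarith)
          have h4 := mul_le_mul_of_nonneg_left hm hK
          rw [hν, ← sub_mul]
          refine mul_le_mul_of_nonneg_right ?_ (mul_nonneg H.hmq (add_nonneg hX1 hX0))
          nlinarith [h3, h4]

lemma p8 {p : ℕ} (hp : 8 < p) : (p : ℝ) ^ (-(1/3) : ℝ) + 1 / (p : ℝ) ≤ 1 := by
  have h8 : (8:ℝ) ≤ p := by exact_mod_cast hp.le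
  have h1 : (p : ℝ) ^ (-(1/3) : ℝ) ≤ 1 / 2 := by
    calc (p : ℝ) ^ (-(1/3) : ℝ) ≤ (8:ℝ) ^ (-(1/3) : ℝ) :=
          Real.rpow_le_rpow_of_nonpos (by norm_num) h8 (by norm_num)
      _ = 1 / 2 := by
          rw [show (8:ℝ) = 2 ^ (3:ℝ) by norm_num, ← Real.rpow_mul (by norm_num)]
          norm_num
  have h2 : 1 / (p : ℝ) ≤ 1 / 2 := one_div_le_one_div_of_le (by norm_num) (by linarith)
  linarith

set_option maxHeartbeats 400000 in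
/-- **tie whose prime does not divide the rest of the item** -/
lemma LH.ndv (H : LH D Al sp P W Qp Jp v Sl q A A' Θ C₀ mq Φ Jx Oy) {M M' l p : ℕ} {u : NS}
    {S : Finset ℕ} {t₁ t₀ : IT} {O : Finset ℕ}
    (h : LOk D Al sp Qp Jp v q A' ⟨M, M', l, u, .br p S t₁ t₀⟩)
    (hx : Jx ⟨M, M', l, u, .br p S t₁ t₀⟩)
    (hO : OSt D Al A' Oy ⟨M, M', l, u, .br p S t₁ t₀⟩ O) (hd : ¬ p ∣ M')
    (hu : ¬ p ∣ UI M v.A q) (hst : ∑ l ∈ O, 1 / (l : ℝ) < (p : ℝ) ^ (-(1/3) : ℝ))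
    (ih₁ : LOk D Al sp Qp Jp v q A' ⟨p * M, M', p, uP p u, t₁⟩ → Jx ⟨p * M, M', p, uP p u, t₁⟩ →
      OSt D Al A' Oy ⟨p * M, M', p, uP p u, t₁⟩ (insert p O) →
      Cl D Al W v Sl A A' Θ C₀ mq Φ ⟨p * M, M', p, uP p u, t₁⟩ (insert p O)) :
    Cl D Al W v Sl A A' Θ C₀ mq Φ ⟨M, M', l, u, .br p S t₁ t₀⟩ O := by
  obtain ⟨hp, hpp0, hpn, hdis, hX1, hX0, hν, hsh, e1, e0⟩ := tie_num H h
  obtain ⟨w1, w2, w3, w4⟩ := inv_le hp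
  have c1 : LMv v.A q (1 - 1 / (p : ℝ)) ⟨M, M', l, u, .br p S t₁ t₀⟩ ⟨p * M, M', p, uP p u, t₁⟩ :=
    .nd1 hd hu
  have k1 := c1.chd (Sl := Sl) H.hh H.hJ H.hq h
  have hpO : p ∉ O := fun hpO => by
    have : u.n ≤ p := (hO.h p hpO).2.1
    omega
  have hsO : ∑ l ∈ insert p O, 1 / (l : ℝ) = ∑ l ∈ O, 1 / (l : ℝ) + 1 / (p : ℝ) := by
    rw [Finset.sum_insert hpO]; ring
  have h81 := p8 (p := p) (by have := H.hp8; omega)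
  have hO1 : OSt D Al A' Oy ⟨p * M, M', p, uP p u, t₁⟩ (insert p O) := by
    refine ⟨fun l hl => ?_, ?_⟩
    · rcases Finset.mem_insert.1 hl with rfl | hl
      · exact ⟨hp, le_rfl, fun r hr => H.hOy _ _ S t₁ t₀ rfl h hx hd hu r hr⟩
      · exact ⟨(hO.h l hl).1, hpn.le.trans (hO.h l hl).2.1,
          fun r hr => (hO.h l hl).2.2 r (k1.sub hr)⟩
    · rw [hsO]; linarith
  have i1 := ih₁ k1.ok (H.hJx _ _ _ c1 h hx) hO1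
  have hex := H.hexit _ p S t₁ t₀ rfl h hx hd hu
  have hE := H.colE h hd
  have hWM := WMF_br (D := D) (v := v) (Sl := Sl) (A' := A') (M := M) (l := l) (u := u) (S := S)
    (t₁ := t₁) (t₀ := t₀) hd A
  have hfil0 : 0 ≤ WMF D v Sl A' t₀ (A.filter fun j => p ∣ UI M v.A (D.it j)) (p * M) M' p
      (uM p u) :=
    WMF_nonneg (sp := sp) H.hvB H.hFl H.hWl t₀ _ _ _ _ (uM p u) _ (Nat.mul_pos hp.pos h.M0) h.M0'
      h.y.S.br₀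
  have hfil1 := mul_nonneg (w_nn hp) hfil0
  have hsub0 : Qi D Al t₀ A' ⊆ Qi D Al (.br p S t₁ t₀) A' :=
    Qi_sub Finset.subset_union_right subset_rfl
  have b1 := H.hΦ _ _ _ c1 h hx
  have hS := sum_two (D := D) (Al := Al) (A' := A') hdis k1.sub hsub0
    (F := fun r => (1 - 1 / (p : ℝ)) * Φ ⟨p * M, M', p, uP p u, t₁⟩ r)
    (G := fun r => Φ ⟨M, M', l, u, .br p S t₁ t₀⟩ r)
    (H := fun r => Φ ⟨M, M', l, u, .br p S t₁ t₀⟩ r) (H.hΦ0 _ h hx)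
    (fun r hr => b1 r hr) (fun _ _ => le_rfl)
  rw [← Finset.mul_sum] at hS
  have hstep := Cf_step (C₀ := C₀) (x := ∑ l ∈ O, 1 / (l : ℝ)) (p := (p : ℝ))
    (by exact_mod_cast hp.one_lt.le) (sum0 O) hst.le
  unfold Cl at i1 ⊢
  rw [hsO] at i1
  have j1 := mul_le_mul_of_nonneg_left i1 w2.le
  set K1 := Cf C₀ (∑ l ∈ O, 1 / (l : ℝ) + 1 / (p : ℝ)) with hK1
  set K := Cf C₀ (∑ l ∈ O, 1 / (l : ℝ)) with hKd
  have hK10 : 0 ≤ K1 := by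
    refine H.hC0.trans (Cf_ge (add_nonneg (sum0 O) (by positivity)) ?_)
    linarith
  have hxp : 0 ≤ (p : ℝ) ^ (-(11/12) : ℝ) := by positivity
  have hprod : (1 - 1 / (p : ℝ)) * (K1 * Θ p * (mq * nuL W ⟨p * M, M', p, uP p u, t₁⟩)) +
      (p : ℝ) ^ (-(11/12) : ℝ) * (mq * nuL W ⟨M, M', l, u, .br p S t₁ t₀⟩) ≤
      K * Θ u.n * (mq * nuL W ⟨M, M', l, u, .br p S t₁ t₀⟩) := by
    have n0 := H.nu0 h
    have m1 : (1 - 1 / (p : ℝ)) * (K1 * Θ p * (mq * nuL W ⟨p * M, M', p, uP p u, t₁⟩)) ≤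
        K1 * Θ u.n * (mq * nuL W ⟨M, M', l, u, .br p S t₁ t₀⟩) := by
      calc _ = K1 * Θ p * (mq * ((1 - 1 / (p : ℝ)) * nuL W ⟨p * M, M', p, uP p u, t₁⟩)) := by ring
        _ ≤ K1 * Θ p * (mq * nuL W ⟨M, M', l, u, .br p S t₁ t₀⟩) := by
            refine mul_le_mul_of_nonneg_left (mul_le_mul_of_nonneg_left ?_ H.hmq)
              (mul_nonneg hK10 (zero_le_one.trans (H.hΘ1 p)))
            rw [e1, hν]; linarith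
        _ ≤ _ := mul_le_mul_of_nonneg_right (mul_le_mul_of_nonneg_left (H.hΘm hpn.le) hK10) n0
    have m2 : (p : ℝ) ^ (-(11/12) : ℝ) * (mq * nuL W ⟨M, M', l, u, .br p S t₁ t₀⟩) ≤
        (p : ℝ) ^ (-(11/12) : ℝ) * Θ u.n * (mq * nuL W ⟨M, M', l, u, .br p S t₁ t₀⟩) := by
      refine mul_le_mul_of_nonneg_right ?_ n0
      nlinarith [H.hΘ1 u.n]
    have m3 : (K1 + (p : ℝ) ^ (-(11/12) : ℝ)) * Θ u.n *
        (mq * nuL W ⟨M, M', l, u, .br p S t₁ t₀⟩) ≤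
        K * Θ u.n * (mq * nuL W ⟨M, M', l, u, .br p S t₁ t₀⟩) :=
      mul_le_mul_of_nonneg_right (mul_le_mul_of_nonneg_right hstep
        (zero_le_one.trans (H.hΘ1 _))) n0
    have m4 : (K1 + (p : ℝ) ^ (-(11/12) : ℝ)) * Θ u.n *
        (mq * nuL W ⟨M, M', l, u, .br p S t₁ t₀⟩) =
        K1 * Θ u.n * (mq * nuL W ⟨M, M', l, u, .br p S t₁ t₀⟩) +
        (p : ℝ) ^ (-(11/12) : ℝ) * Θ u.n * (mq * nuL W ⟨M, M', l, u, .br p S t₁ t₀⟩) := by ring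
    linarith
  have ej : (1 - 1 / (p : ℝ)) * (K1 * Θ p * (mq * nuL W ⟨p * M, M', p, uP p u, t₁⟩) +
      ∑ r ∈ Qi D Al t₁ A', Φ ⟨p * M, M', p, uP p u, t₁⟩ r +
      WMF D v Sl A' t₁ A (p * M) M' p (uP p u)) =
      (1 - 1 / (p : ℝ)) * (K1 * Θ p * (mq * nuL W ⟨p * M, M', p, uP p u, t₁⟩)) +
      (1 - 1 / (p : ℝ)) * ∑ r ∈ Qi D Al t₁ A', Φ ⟨p * M, M', p, uP p u, t₁⟩ r +
      (1 - 1 / (p : ℝ)) * WMF D v Sl A' t₁ A (p * M) M' p (uP p u) := by ring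
  simp only at j1 hex hS hE
  rw [ej] at j1
  show En D v Sl A A' (Ro (D.rho l)) ⟨M, M', l, u, .br p S t₁ t₀⟩ ≤
    K * Θ u.n * (mq * nuL W ⟨M, M', l, u, .br p S t₁ t₀⟩) +
    ∑ r ∈ Qi D Al (.br p S t₁ t₀) A', Φ ⟨M, M', l, u, .br p S t₁ t₀⟩ r +
    WMF D v Sl A' (.br p S t₁ t₀) A M M' l u
  rw [hWM]
  linarith

/-- **ONE LEAF ITEM AGAINST A TREE** -/
theorem item_bound (H : LH D Al sp P W Qp Jp v Sl q A A' Θ C₀ mq Φ Jx Oy) :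
    ∀ (t : IT) (M M' l : ℕ) (u : NS), LOk D Al sp Qp Jp v q A' ⟨M, M', l, u, t⟩ →
      Jx ⟨M, M', l, u, t⟩ → ∀ O : Finset ℕ, OSt D Al A' Oy ⟨M, M', l, u, t⟩ O →
      Cl D Al W v Sl A A' Θ C₀ mq Φ ⟨M, M', l, u, t⟩ O := by
  intro t
  induction t with
  | leaf S =>
    intro M M' l u h hx O hO
    have e := H.hleaf _ S rfl h hx
    have e2 := H.term h hO
    have e3 : WMF D v Sl A' (.leaf S) A M M' l u = 0 := WMF_leaf _ _ _ _ _ _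
    unfold Cl
    simp only at e e2 e3 ⊢
    linarith
  | br p S t₁ t₀ ih₁ ih₀ =>
    intro M M' l u h hx O hO
    by_cases hd : p ∣ M'
    · obtain ⟨M₂, rfl⟩ := hd
      exact H.free h hx hO (fun a b c => ih₁ _ _ _ _ a b _ c) (fun a b c => ih₀ _ _ _ _ a b _ c)
    · by_cases hst : (p : ℝ) ^ (-(1/3) : ℝ) ≤ ∑ l ∈ O, 1 / (l : ℝ)
      · have hpn : p < u.n := h.y.ok.2.1
        have e := H.hstop _ p S t₁ t₀ rfl h hx O (fun l hl => ⟨(hO.h l hl).1, by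
          have : u.n ≤ l := (hO.h l hl).2.1
          omega, (hO.h l hl).2.2⟩) hst
        have e2 := H.term h hO
        have e3 := WMF_nonneg (D := D) (sp := sp) (A' := A') H.hvB H.hFl H.hWl (.br p S t₁ t₀) A M
          M' l u _ h.M0 h.M0' h.y.S
        unfold Cl
        simp only at e e2 e3 ⊢
        linarith
      · by_cases hu : p ∣ UI M v.A q
        · exact H.dv h hx hO hd hu (fun a b c => ih₁ _ _ _ _ a b _ c)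
            (fun a b c => ih₀ _ _ _ _ a b _ c)
        · exact H.ndv h hx hO hd hu (not_le.1 hst) (fun a b c => ih₁ _ _ _ _ a b _ c)
  | add p t₁ t₀ ih₁ ih₀ =>
    intro M M' l u h hx O hO
    have hdis : Disjoint t₁.items t₀.items := h.y.ok.2.2.1
    have hpn : p < u.n := h.y.ok.2.1
    refine H.two h hx hO .ad1 .ad0 rfl rfl hpn hpn hdis
      (Q_addI h.y.S h.M0' A' _ (H.pbL h.M0)) ?_ (WMF_add _ _ _ _ _ _ _ _) (fun a b c => ih₁ _ _ _ _ a b _ c)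
      (fun a b c => ih₀ _ _ _ _ a b _ c)
    show u.c * Ws W t₁.items + u.c * Ws W t₀.items = u.c * Ws W (t₁.items ∪ t₀.items)
    rw [Ws_un hdis]; ring
  | up p S t ih =>
    intro M M' l u h hx O hO
    have hpn : p < u.n := h.y.ok.2.1
    exact H.one h hx hO .up rfl hpn.le rfl rfl (WMF_up _ _ _ _ _ _ _ _) (fun a b c => ih _ _ _ _ a b _ c)
  | pl p t ih =>
    intro M M' l u h hx O hO
    have hp : p.Prime := h.y.ok.1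
    have hpn : p < u.n := h.y.ok.2.1
    by_cases hd : p ∣ M'
    · obtain ⟨M₂, rfl⟩ := hd
      have hM₂ : 0 < M₂ := Nat.pos_of_mul_pos_left h.M0'
      refine H.one h hx hO .plf rfl hpn ?_ rfl ?_ (fun a b c => ih _ _ _ _ a b _ c)
      · unfold En
        rw [uA_pl_free h.y.S hM₂ A']
      · exact WMF_plf hp.pos t A M M₂ l u
    · refine H.one h hx hO (.pl hd) rfl hpn ?_ rfl ?_ (fun a b c => ih _ _ _ _ a b _ c)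
      · unfold En
        rw [Q_pl h.y.S h.M0' hd A' _ (H.pbL h.M0)]
        simp only
        rw [avg_uA hp.pos h.M0]
      · exact WMF_pl t A M M' l u hd
  | far p t₁ t₀ ih₁ ih₀ =>
    intro M M' l u h hx O hO
    have hdis : Disjoint t₁.items t₀.items := h.y.ok.2.2.1
    have hpn : p < u.n := h.y.ok.2.1
    refine H.two h hx hO .fa1 .fa0 rfl rfl hpn hpn hdis
      (Q_farI h.y.S h.M0' A' _ (H.pbL h.M0)) ?_ (WMF_far _ _ _ _ _ _ _ _) (fun a b c => ih₁ _ _ _ _ a b _ c)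
      (fun a b c => ih₀ _ _ _ _ a b _ c)
    show u.c * Ws W t₁.items + u.c * Ws W t₀.items = u.c * Ws W (t₁.items ∪ t₀.items)
    rw [Ws_un hdis]; ring

end cases
end
end Crest.Agent.R4P.LeafT27
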