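import Crest.Agent.R4P.LeafW_27
import Crest.Agent.R4P.ColT_32

/-!
R4P (S0004), helper27, module D, group [X]: **ONE LEAF ITEM AGAINST A TREE WITH EXCLUDED PAIRS**, induction.

The relation is `Ro (rho l) \ TR` for any set `TR` of pairs of pieces (helper32 #6364). At a tie whose prime does
not divide the rest of the item the present child is taken with weight one (`ColT32.Q_colN`); the loss is bounded
because the reciprocals of these primes have sum at most one along a path.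

* `LHT` : the local hypotheses (merges included: `lc` = payment of a pair at a column, `Υ` = its potential);
* `item_boundT` : `En (Ro (rho l) \ TR) ≤ (C₀ + 2 - 2 mass(O)^(3/4)) Θ m_q ν + (3 - 2 mass(O)^(3/4)) Σ_r Υ_r`;
* `item_leT` : the start.
-/

set_option autoImplicit false
set_option linter.unusedSectionVars false
set_option linter.unusedVariables false
open Finset

namespace Crest.Agent.R4P.LeafU27

open Crest.Agent.R4.HVW560 Crest.Agent.R4P.AvgItem710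
open Crest.Agent.R4.Tour104 Crest.Agent.R4.Tour758 Crest.Agent.R4.Avg758 Crest.Agent.R4.Clos758
open Crest.Agent.R4.ClosL758 Crest.Agent.R4.ClosG758 Crest.Agent.R4.ClosR758
open Crest.Agent.R4P.Cnt588 Crest.Agent.R4P.Walk560 Crest.Agent.R4P.Item758
open Crest.Agent.R4P.Bld532 (NS All NodeOk Bk dv nd mem_dv mem_nd)
open Crest.Agent.R4P.GSt927 Crest.Agent.R4P.WalkIT579 Crest.Agent.R4P.NMW710
open Crest.Agent.R4P.CrossLoc25 Crest.Agent.R4P.CrossLocC25 Crest.Agent.R4P.YI25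
open Crest.Agent.R4P.LeafCol27 Crest.Agent.R4P.LeafM27 Crest.Agent.R4P.LeafT27

variable {Λ κ : Type*} [Fintype Λ] [DecidableEq Λ] [Fintype κ] [DecidableEq κ] [WRel κ]

/-! ### relations -/

lemma Q_sub {R R' : Finset (Λ × Λ)} (h : R ⊆ R') {f g : Λ → ℝ → ℝ} (hf : ∀ j, PB (f j))
    (hg : ∀ j, PB (g j)) : Q R f g ≤ Q R' f g := by
  unfold Q
  exact Finset.sum_le_sum_of_subset_of_nonneg h fun e _ _ => I_nonneg ((hf e.1).mul (hg e.2)).nonneg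

/-- change of the relation with excluded pairs -/
lemma Q_splitT {R R' TR : Finset (Λ × Λ)} {f g : Λ → ℝ → ℝ} (hf : ∀ j, PB (f j))
    (hg : ∀ j, PB (g j)) : Q (R \ TR) f g ≤ Q (R' \ TR) f g + Q ((R \ R') \ TR) f g := by
  refine (Q_split (R' := R' \ TR) hf hg).trans (add_le_add le_rfl (Q_sub ?_ hf hg))
  intro e he
  simp only [Finset.mem_sdiff] at he ⊢
  exact ⟨⟨he.1.1, fun h => he.2 ⟨h, he.1.2⟩⟩, he.1.2⟩

/-- **the local hypotheses** of the leaf item walk with excluded pairs -/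
structure LHT (D : Par Λ κ) (Al : Finset ℕ) (sp : ℕ → Finset Λ) (P : Bld532.Par) (W : ℕ → ℝ)
    (Qp : NS → IT → Prop) (Jp : ℕ × ℝ → ℕ × ℝ → ℕ × ℕ → Prop) (v : NS) (Sl : Finset ℕ) (q : ℕ)
    (A A' : Finset Λ) (TR : Finset (Λ × Λ)) (Θ : ℕ → ℝ) (C₀ mq : ℝ) (lc Υ : LSt → ℕ → ℝ)
    (Jx : LSt → Prop) (Oy : ℕ → ℕ → Prop) : Prop where
  hh : YH D sp P W Qp
  hJ : ∀ (p : ℕ) (i i' : Bool) (a a' c c' : ℕ × ℝ) (e : ℕ × ℕ), p.Prime → Mv p i a c →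
      Mv p i' a' c' → (i = true ∨ i' = true) → Jp a a' e → Jp c c' e
  hvB : 0 < v.B
  hFl : Fit v.B v.A (.leaf Sl)
  hWl : D.Wts v.A (.leaf Sl)
  hq : 0 < q / v.A
  hW0 : ∀ q, 0 ≤ W q
  hΘ1 : ∀ n, 1 ≤ Θ n
  hΘm : Monotone Θ
  hΘs : ∀ p : ℕ, p.Prime → P.p0 < p → Θ p * (1 + 2 * P.sg p / ((p : ℝ) - 1)) ≤ Θ (p + 1)
  hp8 : 8 ≤ P.p0
  hC1 : 1 ≤ C₀
  hnum : ∀ p : ℕ, P.p0 < p → 2 * ((C₀ + 2) / ((p : ℝ) - 1)) ≤ (p : ℝ) ^ (-(11/12) : ℝ)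
  hmq : 0 ≤ mq
  hJx : ∀ w s s₂, LMv v.A q w s s₂ → LOk D Al sp Qp Jp v q A' s → Jx s → Jx s₂
  hl0 : ∀ s, LOk D Al sp Qp Jp v q A' s → Jx s → ∀ r ∈ Qi D Al s.t A', 0 ≤ lc s r
  hle : ∀ s, LOk D Al sp Qp Jp v q A' s → Jx s → ∀ r ∈ Qi D Al s.t A', lc s r ≤ Υ s r
  hΥ : ∀ w s s₂, LMv v.A q w s s₂ → LOk D Al sp Qp Jp v q A' s → Jx s →
      ∀ r ∈ Qi D Al s₂.t A', lc s r + w * Υ s₂ r ≤ Υ s r
  hOy : ∀ (s : LSt) (p : ℕ) (S : Finset ℕ) (t₁ t₀ : IT), s.t = .br p S t₁ t₀ →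
      LOk D Al sp Qp Jp v q A' s → Jx s → ¬ p ∣ s.M' → ¬ p ∣ UI s.M v.A q →
      ∀ r ∈ Qi D Al t₁ A', Oy p r
  hstop : ∀ (s : LSt) (p : ℕ) (S : Finset ℕ) (t₁ t₀ : IT), s.t = .br p S t₁ t₀ →
      LOk D Al sp Qp Jp v q A' s → Jx s → ∀ O : Finset ℕ,
      (∀ l ∈ O, l.Prime ∧ p < l ∧ ∀ r ∈ Qi D Al s.t A', Oy l r) →
      (p : ℝ) ^ (-(1/3) : ℝ) ≤ ∑ l ∈ O, 1 / (l : ℝ) →
      En D v Sl A A' (Ro (D.rho s.l) \ TR) s ≤ C₀ * (mq * nuL W s) + ∑ r ∈ Qi D Al s.t A', Υ s r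
  hleaf : ∀ (s : LSt) (S : Finset ℕ), s.t = .leaf S → LOk D Al sp Qp Jp v q A' s → Jx s →
      En D v Sl A A' (Ro (D.rho s.l) \ TR) s ≤ C₀ * (mq * nuL W s) + ∑ r ∈ Qi D Al s.t A', Υ s r
  hmg : ∀ (s : LSt) (p : ℕ) (S : Finset ℕ) (t₁ t₀ : IT), s.t = .br p S t₁ t₀ →
      LOk D Al sp Qp Jp v q A' s → Jx s → ¬ p ∣ s.M' →
      Q ((Ro (D.rho s.l) \ Ro (D.rho p)) \ TR) (D.uA s.M v.B v.A (.leaf Sl) A 1)
        (D.uA s.M' s.u.B s.u.A s.t A' 1) ≤ ∑ r ∈ Qi D Al s.t A', lc s r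
  hexit : ∀ (s : LSt) (p : ℕ) (S : Finset ℕ) (t₁ t₀ : IT), s.t = .br p S t₁ t₀ →
      LOk D Al sp Qp Jp v q A' s → Jx s → ¬ p ∣ s.M' → ¬ p ∣ UI s.M v.A q → ∃ Ψ : ℕ → ℝ,
      Q (Ro (D.rho p) \ TR) (D.uA s.M v.B v.A (.leaf Sl) A 1)
          (D.uA s.M' (s.u.B * p) s.u.A t₀ A' p) ≤
        1 / 2 * (p : ℝ) ^ (-(11/12) : ℝ) * (mq * nuL W s) + ∑ r ∈ Qi D Al t₀ A', Ψ r ∧
      ∀ r ∈ Qi D Al t₀ A', 0 ≤ Ψ r ∧ lc s r + Ψ r ≤ Υ s r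
  hdiv : ∀ (s : LSt) (p : ℕ) (S : Finset ℕ) (t₁ t₀ : IT), s.t = .br p S t₁ t₀ →
      LOk D Al sp Qp Jp v q A' s → Jx s → ¬ p ∣ s.M' → p ∣ UI s.M v.A q → ∃ Ψ : ℕ → ℝ,
      En D v Sl A A' (Ro (D.rho p) \ TR) s ≤
        (1 - 1 / (p : ℝ)) * En D v Sl A A' (Ro (D.rho p) \ TR) ⟨p * s.M, s.M', p, uP p s.u, t₁⟩ +
        1 / (p : ℝ) * (1 + 1 / ((p : ℝ) - 1)) *
          En D v Sl A A' (Ro (D.rho p) \ TR) ⟨p * s.M, s.M', p, uM p s.u, t₀⟩ +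
        C₀ * (Θ (p + 1) - Θ p * (1 + 2 * P.sg p / ((p : ℝ) - 1))) * (mq * nuL W s) +
        ∑ r ∈ Qi D Al t₀ A', Ψ r ∧
      ∀ r ∈ Qi D Al t₀ A', 0 ≤ Ψ r ∧ lc s r + (1 / (p : ℝ) * (1 + 1 / ((p : ℝ) - 1)) *
        Υ ⟨p * s.M, s.M', p, uM p s.u, t₀⟩ r + Ψ r) ≤ Υ s r

/-- the claim at a state -/
def ClT (D : Par Λ κ) (Al : Finset ℕ) (W : ℕ → ℝ) (v : NS) (Sl : Finset ℕ) (A A' : Finset Λ)
    (TR : Finset (Λ × Λ)) (Θ : ℕ → ℝ) (C₀ mq : ℝ) (Υ : LSt → ℕ → ℝ) (s : LSt) (O : Finset ℕ) :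
    Prop :=
  En D v Sl A A' (Ro (D.rho s.l) \ TR) s ≤
    Cf C₀ (∑ l ∈ O, 1 / (l : ℝ)) * Θ s.u.n * (mq * nuL W s) +
      Cf 1 (∑ l ∈ O, 1 / (l : ℝ)) * ∑ r ∈ Qi D Al s.t A', Υ s r

section
variable {D : Par Λ κ} {sp : ℕ → Finset Λ} {P : Bld532.Par} {W : ℕ → ℝ} {Qp : NS → IT → Prop}
  {Al : Finset ℕ} {Jp : ℕ × ℝ → ℕ × ℝ → ℕ × ℕ → Prop} {v : NS} {Sl : Finset ℕ} {q : ℕ}
  {A A' : Finset Λ} {TR : Finset (Λ × Λ)} {Θ : ℕ → ℝ} {C₀ mq : ℝ} {lc Υ : LSt → ℕ → ℝ}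
  {Jx : LSt → Prop} {Oy : ℕ → ℕ → Prop}

/-- sums over the items of two children -/
lemma sum_ch {t t₁ t₀ : IT} (hu : t.items = t₁.items ∪ t₀.items) (hd : Disjoint t₁.items t₀.items)
    (f : ℕ → ℝ) : ∑ r ∈ Qi D Al t A', f r = ∑ r ∈ Qi D Al t₁ A', f r + ∑ r ∈ Qi D Al t₀ A', f r := by
  classical
  have hdis : Disjoint (Qi D Al t₁ A') (Qi D Al t₀ A') :=
    Finset.disjoint_left.2 fun r h1 h0 =>
      Finset.disjoint_left.1 hd (mem_Qi.1 h1).1 (mem_Qi.1 h0).1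
  rw [← Finset.sum_union hdis]
  refine Finset.sum_congr ?_ fun _ _ => rfl
  ext r
  rw [Finset.mem_union, mem_Qi, mem_Qi, mem_Qi, hu, Finset.mem_union]
  exact or_and_right

lemma LHT.nu0 (H : LHT D Al sp P W Qp Jp v Sl q A A' TR Θ C₀ mq lc Υ Jx Oy) {s : LSt}
    (h : LOk D Al sp Qp Jp v q A' s) : 0 ≤ mq * nuL W s :=
  mul_nonneg H.hmq (mul_nonneg h.c0 (Ws_nn H.hW0 _))

lemma LHT.Υ0 (H : LHT D Al sp P W Qp Jp v Sl q A A' TR Θ C₀ mq lc Υ Jx Oy) {s : LSt}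
    (h : LOk D Al sp Qp Jp v q A' s) (hx : Jx s) : ∀ r ∈ Qi D Al s.t A', 0 ≤ Υ s r :=
  fun r hr => (H.hl0 s h hx r hr).trans (H.hle s h hx r hr)

lemma LHT.S0 (H : LHT D Al sp P W Qp Jp v Sl q A A' TR Θ C₀ mq lc Υ Jx Oy) {s : LSt}
    (h : LOk D Al sp Qp Jp v q A' s) (hx : Jx s) : 0 ≤ ∑ r ∈ Qi D Al s.t A', Υ s r :=
  Finset.sum_nonneg (H.Υ0 h hx)

lemma LHT.K0 (H : LHT D Al sp P W Qp Jp v Sl q A A' TR Θ C₀ mq lc Υ Jx Oy) {s : LSt}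
    {O : Finset ℕ} (hO : OSt D Al A' Oy s O) : C₀ ≤ Cf C₀ (∑ l ∈ O, 1 / (l : ℝ)) :=
  Cf_ge (sum0 O) hO.le

lemma F1 {s : LSt} {O : Finset ℕ} (hO : OSt D Al A' Oy s O) :
    1 ≤ Cf 1 (∑ l ∈ O, 1 / (l : ℝ)) := Cf_ge (sum0 O) hO.le

lemma LHT.pbL (H : LHT D Al sp P W Qp Jp v Sl q A A' TR Θ C₀ mq lc Υ Jx Oy) {M : ℕ} (hM : 0 < M)
    (j : Λ) : PB (D.uA M v.B v.A (.leaf Sl) A 1 j) := PB_uA hM H.hvB H.hFl H.hWl (one_dvd _) j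

/-- a state where the bound holds with constant `C₀` -/
lemma LHT.term (H : LHT D Al sp P W Qp Jp v Sl q A A' TR Θ C₀ mq lc Υ Jx Oy) {s : LSt}
    {O : Finset ℕ} (h : LOk D Al sp Qp Jp v q A' s) (hx : Jx s) (hO : OSt D Al A' Oy s O)
    (hb : En D v Sl A A' (Ro (D.rho s.l) \ TR) s ≤
      C₀ * (mq * nuL W s) + ∑ r ∈ Qi D Al s.t A', Υ s r) :
    ClT D Al W v Sl A A' TR Θ C₀ mq Υ s O := by
  have n0 := H.nu0 h
  have k0 := H.K0 hO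
  have hC := H.hC1
  have hΘ := H.hΘ1 s.u.n
  have h1 : C₀ ≤ Cf C₀ (∑ l ∈ O, 1 / (l : ℝ)) * Θ s.u.n := by nlinarith
  have h2 := mul_le_mul_of_nonneg_right h1 n0
  have h3 := le_mul_of_one_le_left (H.S0 h hx) (F1 hO)
  unfold ClT
  linarith

/-- a state with one child of weight one -/
lemma LHT.one (H : LHT D Al sp P W Qp Jp v Sl q A A' TR Θ C₀ mq lc Υ Jx Oy) {s s₂ : LSt}
    {O : Finset ℕ} (h : LOk D Al sp Qp Jp v q A' s) (hx : Jx s) (hO : OSt D Al A' Oy s O)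
    (c : LMv v.A q 1 s s₂) (hl : s₂.l = s.l) (hn : s₂.u.n ≤ s.u.n)
    (hE : En D v Sl A A' (Ro (D.rho s.l) \ TR) s = En D v Sl A A' (Ro (D.rho s.l) \ TR) s₂)
    (hν : nuL W s₂ = nuL W s)
    (ih : LOk D Al sp Qp Jp v q A' s₂ → Jx s₂ → OSt D Al A' Oy s₂ O →
      ClT D Al W v Sl A A' TR Θ C₀ mq Υ s₂ O) : ClT D Al W v Sl A A' TR Θ C₀ mq Υ s O := by
  have k := c.chd (Sl := Sl) H.hh H.hJ H.hq h
  have i := ih k.ok (H.hJx _ _ _ c h hx) (hO.mono hn k.sub)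
  unfold ClT at i ⊢
  rw [hl, hν] at i
  have hS : ∑ r ∈ Qi D Al s₂.t A', Υ s₂ r ≤ ∑ r ∈ Qi D Al s.t A', Υ s r :=
    sum_one k.sub (H.Υ0 h hx) fun r hr => by
      have := H.hΥ _ _ _ c h hx r hr
      have h0 := H.hl0 s h hx r (k.sub hr)
      rw [one_mul] at this
      linarith
  have n0 := H.nu0 h
  have k0 := H.K0 hO
  have hC := H.hC1
  have t1 := mul_le_mul_of_nonneg_right (mul_le_mul_of_nonneg_left (H.hΘm hn)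
    (by linarith : 0 ≤ Cf C₀ (∑ l ∈ O, 1 / (l : ℝ)))) n0
  have t2 := mul_le_mul_of_nonneg_left hS (by linarith [F1 hO] : 0 ≤ Cf 1 (∑ l ∈ O, 1 / (l : ℝ)))
  rw [hE]
  linarith

/-- a state with two children of weight one -/
lemma LHT.two (H : LHT D Al sp P W Qp Jp v Sl q A A' TR Θ C₀ mq lc Υ Jx Oy) {s s₁ s₀ : LSt}
    {O : Finset ℕ} (h : LOk D Al sp Qp Jp v q A' s) (hx : Jx s) (hO : OSt D Al A' Oy s O)
    (c₁ : LMv v.A q 1 s s₁) (c₀ : LMv v.A q 1 s s₀) (hl₁ : s₁.l = s.l) (hl₀ : s₀.l = s.l)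
    (hn₁ : s₁.u.n ≤ s.u.n) (hn₀ : s₀.u.n ≤ s.u.n) (hd : Disjoint s₁.t.items s₀.t.items)
    (hE : En D v Sl A A' (Ro (D.rho s.l) \ TR) s = En D v Sl A A' (Ro (D.rho s.l) \ TR) s₁ +
      En D v Sl A A' (Ro (D.rho s.l) \ TR) s₀)
    (hν : nuL W s₁ + nuL W s₀ = nuL W s)
    (ih₁ : LOk D Al sp Qp Jp v q A' s₁ → Jx s₁ → OSt D Al A' Oy s₁ O →
      ClT D Al W v Sl A A' TR Θ C₀ mq Υ s₁ O)
    (ih₀ : LOk D Al sp Qp Jp v q A' s₀ → Jx s₀ → OSt D Al A' Oy s₀ O →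
      ClT D Al W v Sl A A' TR Θ C₀ mq Υ s₀ O) : ClT D Al W v Sl A A' TR Θ C₀ mq Υ s O := by
  have k1 := c₁.chd (Sl := Sl) H.hh H.hJ H.hq h
  have k0 := c₀.chd (Sl := Sl) H.hh H.hJ H.hq h
  have i1 := ih₁ k1.ok (H.hJx _ _ _ c₁ h hx) (hO.mono hn₁ k1.sub)
  have i0 := ih₀ k0.ok (H.hJx _ _ _ c₀ h hx) (hO.mono hn₀ k0.sub)
  unfold ClT at i1 i0 ⊢
  rw [hl₁] at i1
  rw [hl₀] at i0
  have hS := sum_two (D := D) (Al := Al) (A' := A') hd k1.sub k0.sub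
    (F := fun r => Υ s₁ r) (G := fun r => Υ s₀ r) (H := fun r => Υ s r) (H.Υ0 h hx)
    (fun r hr => by
      have := H.hΥ _ _ _ c₁ h hx r hr
      have h0 := H.hl0 s h hx r (k1.sub hr)
      rw [one_mul] at this
      linarith)
    (fun r hr => by
      have := H.hΥ _ _ _ c₀ h hx r hr
      have h0 := H.hl0 s h hx r (k0.sub hr)
      rw [one_mul] at this
      linarith)
  have n1 := H.nu0 k1.ok
  have n0 := H.nu0 k0.ok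
  have hK := H.K0 hO
  have hC := H.hC1
  have hK0 : 0 ≤ Cf C₀ (∑ l ∈ O, 1 / (l : ℝ)) := by linarith
  have t1 := mul_le_mul_of_nonneg_right (mul_le_mul_of_nonneg_left (H.hΘm hn₁) hK0) n1
  have t0 := mul_le_mul_of_nonneg_right (mul_le_mul_of_nonneg_left (H.hΘm hn₀) hK0) n0
  have t2 := mul_le_mul_of_nonneg_left hS (by linarith [F1 hO] : 0 ≤ Cf 1 (∑ l ∈ O, 1 / (l : ℝ)))
  have hG : Cf C₀ (∑ l ∈ O, 1 / (l : ℝ)) * Θ s.u.n * (mq * nuL W s) =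
      Cf C₀ (∑ l ∈ O, 1 / (l : ℝ)) * Θ s.u.n * (mq * nuL W s₁) +
      Cf C₀ (∑ l ∈ O, 1 / (l : ℝ)) * Θ s.u.n * (mq * nuL W s₀) := by rw [← hν]; ring
  rw [hE, hG]
  rw [mul_add] at t2
  linarith

/-- numbers at a tie -/
lemma tie_numT (hh : YH D sp P W Qp) (hW0 : ∀ q, 0 ≤ W q) {M M' l p : ℕ} {u : NS}
    {S : Finset ℕ} {t₁ t₀ : IT} (h : LOk D Al sp Qp Jp v q A' ⟨M, M', l, u, .br p S t₁ t₀⟩) :
    p.Prime ∧ P.p0 < p ∧ p < u.n ∧ Disjoint t₁.items t₀.items ∧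
    0 ≤ u.c * Ws W t₁.items ∧ 0 ≤ u.c * Ws W t₀.items ∧
    nuL W ⟨M, M', l, u, .br p S t₁ t₀⟩ = u.c * Ws W t₁.items + u.c * Ws W t₀.items ∧
    u.c * Ws W t₀.items ≤ 2 * P.sg p * (u.c * Ws W t₁.items + u.c * Ws W t₀.items) ∧
    (∀ N N' n : ℕ, (1 - 1 / (p : ℝ)) * nuL W ⟨N, N', n, uP p u, t₁⟩ = u.c * Ws W t₁.items) ∧
    (∀ N N' n : ℕ, 1 / (p : ℝ) * nuL W ⟨N, N', n, uM p u, t₀⟩ = u.c * Ws W t₀.items) := by
  have hp : p.Prime := h.y.S.hF.1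
  have hdis : Disjoint t₁.items t₀.items := h.y.ok.2.2.1
  have hN := hh.nd _ _ h.y.q.self
  obtain ⟨w1, w2, w3, w4⟩ := inv_le hp
  have hp0 : (0:ℝ) < p := by exact_mod_cast hp.pos
  refine ⟨hp, hN.2.2.1, h.y.ok.2.1, hdis, mul_nonneg h.c0 (Ws_nn hW0 _),
    mul_nonneg h.c0 (Ws_nn hW0 _), ?_, ?_, fun N N' n => ?_, fun N N' n => ?_⟩
  · show u.c * Ws W (t₁.items ∪ t₀.items) = _
    rw [Ws_un hdis]; ring
  · have k := hN.2.2.2.2.2.2.2.2.2.2.2.1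
    rw [Ws_un hdis] at k
    calc u.c * Ws W t₀.items ≤ u.c * (2 * P.sg p * (Ws W t₁.items + Ws W t₀.items)) :=
          mul_le_mul_of_nonneg_left k h.c0
      _ = _ := by ring
  · show (1 - 1 / (p : ℝ)) * (u.c / (1 - 1 / (p : ℝ)) * Ws W t₁.items) = _
    rw [← mul_assoc, mul_div_cancel₀ _ w2.ne']
  · show 1 / (p : ℝ) * (u.c * p * Ws W t₀.items) = _
    field_simp

set_option maxHeartbeats 400000 in
/-- **free tie** -/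
lemma LHT.free (H : LHT D Al sp P W Qp Jp v Sl q A A' TR Θ C₀ mq lc Υ Jx Oy) {M M₂ l p : ℕ}
    {u : NS} {S : Finset ℕ} {t₁ t₀ : IT} {O : Finset ℕ}
    (h : LOk D Al sp Qp Jp v q A' ⟨M, p * M₂, l, u, .br p S t₁ t₀⟩)
    (hx : Jx ⟨M, p * M₂, l, u, .br p S t₁ t₀⟩)
    (hO : OSt D Al A' Oy ⟨M, p * M₂, l, u, .br p S t₁ t₀⟩ O)
    (ih₁ : LOk D Al sp Qp Jp v q A' ⟨M, M₂, l, uP p u, t₁⟩ → Jx ⟨M, M₂, l, uP p u, t₁⟩ →
      OSt D Al A' Oy ⟨M, M₂, l, uP p u, t₁⟩ O →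
      ClT D Al W v Sl A A' TR Θ C₀ mq Υ ⟨M, M₂, l, uP p u, t₁⟩ O)
    (ih₀ : LOk D Al sp Qp Jp v q A' ⟨M, M₂, l, uM p u, t₀⟩ → Jx ⟨M, M₂, l, uM p u, t₀⟩ →
      OSt D Al A' Oy ⟨M, M₂, l, uM p u, t₀⟩ O →
      ClT D Al W v Sl A A' TR Θ C₀ mq Υ ⟨M, M₂, l, uM p u, t₀⟩ O) :
    ClT D Al W v Sl A A' TR Θ C₀ mq Υ ⟨M, p * M₂, l, u, .br p S t₁ t₀⟩ O := by
  obtain ⟨hp, hpp0, hpn, hdis, hX1, hX0, hν, -, e1, e0⟩ := tie_numT H.hh H.hW0 h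
  obtain ⟨w1, w2, w3, w4⟩ := inv_le hp
  have c1 : LMv v.A q (1 - 1 / (p : ℝ)) ⟨M, p * M₂, l, u, .br p S t₁ t₀⟩ ⟨M, M₂, l, uP p u, t₁⟩ :=
    .fr1
  have c0 : LMv v.A q (1 / (p : ℝ)) ⟨M, p * M₂, l, u, .br p S t₁ t₀⟩ ⟨M, M₂, l, uM p u, t₀⟩ := .fr0
  have k1 := c1.chd (Sl := Sl) H.hh H.hJ H.hq h
  have k0 := c0.chd (Sl := Sl) H.hh H.hJ H.hq h
  have i1 := ih₁ k1.ok (H.hJx _ _ _ c1 h hx) (hO.mono hpn.le k1.sub)
  have i0 := ih₀ k0.ok (H.hJx _ _ _ c0 h hx) (hO.mono hpn.le k0.sub)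
  have hM₂ : 0 < M₂ := k1.ok.M0'
  have hE : En D v Sl A A' (Ro (D.rho l) \ TR) ⟨M, p * M₂, l, u, .br p S t₁ t₀⟩ =
      (1 - 1 / (p : ℝ)) * En D v Sl A A' (Ro (D.rho l) \ TR) ⟨M, M₂, l, uP p u, t₁⟩ +
      1 / (p : ℝ) * En D v Sl A A' (Ro (D.rho l) \ TR) ⟨M, M₂, l, uM p u, t₀⟩ :=
    Q_free' h.y.S hM₂ A' (Ro (D.rho l) \ TR) (H.pbL h.M0)
  have b1 : ∀ r ∈ Qi D Al t₁ A', (1 - 1 / (p : ℝ)) * Υ ⟨M, M₂, l, uP p u, t₁⟩ r ≤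
      Υ ⟨M, p * M₂, l, u, .br p S t₁ t₀⟩ r := fun r hr => by
    have := H.hΥ _ _ _ c1 h hx r hr
    have h0 := H.hl0 _ h hx r (k1.sub hr)
    linarith
  have b0 : ∀ r ∈ Qi D Al t₀ A', 1 / (p : ℝ) * Υ ⟨M, M₂, l, uM p u, t₀⟩ r ≤
      Υ ⟨M, p * M₂, l, u, .br p S t₁ t₀⟩ r := fun r hr => by
    have := H.hΥ _ _ _ c0 h hx r hr
    have h0 := H.hl0 _ h hx r (k0.sub hr)
    linarith
  have hS := sum_two (D := D) (Al := Al) (A' := A') hdis k1.sub k0.sub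
    (F := fun r => (1 - 1 / (p : ℝ)) * Υ ⟨M, M₂, l, uP p u, t₁⟩ r)
    (G := fun r => 1 / (p : ℝ) * Υ ⟨M, M₂, l, uM p u, t₀⟩ r)
    (H := fun r => Υ ⟨M, p * M₂, l, u, .br p S t₁ t₀⟩ r) (H.Υ0 h hx) b1 b0
  rw [← Finset.mul_sum, ← Finset.mul_sum] at hS
  have hK := H.K0 hO
  have hC := H.hC1
  have hK0 : 0 ≤ Cf C₀ (∑ l ∈ O, 1 / (l : ℝ)) := by linarith
  have hF1 := F1 hO
  unfold ClT at i1 i0 ⊢
  simp only at i1 i0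
  have j1 := mul_le_mul_of_nonneg_left i1 w2.le
  have j0 := mul_le_mul_of_nonneg_left i0 w1.le
  have hS2 := mul_le_mul_of_nonneg_left hS (by linarith : 0 ≤ Cf 1 (∑ l ∈ O, 1 / (l : ℝ)))
  have main : (1 - 1 / (p : ℝ)) * (Cf C₀ (∑ l ∈ O, 1 / (l : ℝ)) * Θ p *
        (mq * nuL W ⟨M, M₂, l, uP p u, t₁⟩)) +
      1 / (p : ℝ) * (Cf C₀ (∑ l ∈ O, 1 / (l : ℝ)) * Θ p *
        (mq * nuL W ⟨M, M₂, l, uM p u, t₀⟩)) ≤
      Cf C₀ (∑ l ∈ O, 1 / (l : ℝ)) * Θ u.n *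
        (mq * nuL W ⟨M, p * M₂, l, u, .br p S t₁ t₀⟩) := by
    calc _ = Cf C₀ (∑ l ∈ O, 1 / (l : ℝ)) * Θ p *
          (mq * ((1 - 1 / (p : ℝ)) * nuL W ⟨M, M₂, l, uP p u, t₁⟩ +
            1 / (p : ℝ) * nuL W ⟨M, M₂, l, uM p u, t₀⟩)) := by ring
      _ = Cf C₀ (∑ l ∈ O, 1 / (l : ℝ)) * Θ p *
          (mq * nuL W ⟨M, p * M₂, l, u, .br p S t₁ t₀⟩) := by rw [e1, e0, hν]
      _ ≤ _ := mul_le_mul_of_nonneg_right (mul_le_mul_of_nonneg_left (H.hΘm hpn.le) hK0)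
          (H.nu0 h)
  simp only
  rw [hE]
  set a1 := ∑ r ∈ Qi D Al t₁ A', Υ ⟨M, M₂, l, uP p u, t₁⟩ r
  set a0 := ∑ r ∈ Qi D Al t₀ A', Υ ⟨M, M₂, l, uM p u, t₀⟩ r
  set F := Cf 1 (∑ l ∈ O, 1 / (l : ℝ))
  rw [mul_add] at j1 j0 hS2
  have f1 : F * ((1 - 1 / (p : ℝ)) * a1) = (1 - 1 / (p : ℝ)) * (F * a1) := by ring
  have f0 : F * (1 / (p : ℝ) * a0) = 1 / (p : ℝ) * (F * a0) := by ring
  rw [f1, f0] at hS2
  linarith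

/-- energies: the change of the relation -/
lemma LHT.rel (H : LHT D Al sp P W Qp Jp v Sl q A A' TR Θ C₀ mq lc Υ Jx Oy) {M M' l p : ℕ}
    {u : NS} {S : Finset ℕ} {t₁ t₀ : IT}
    (h : LOk D Al sp Qp Jp v q A' ⟨M, M', l, u, .br p S t₁ t₀⟩)
    (hx : Jx ⟨M, M', l, u, .br p S t₁ t₀⟩) (hd : ¬ p ∣ M') :
    En D v Sl A A' (Ro (D.rho l) \ TR) ⟨M, M', l, u, .br p S t₁ t₀⟩ ≤
      En D v Sl A A' (Ro (D.rho p) \ TR) ⟨M, M', l, u, .br p S t₁ t₀⟩ +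
      ∑ r ∈ Qi D Al (.br p S t₁ t₀) A', lc ⟨M, M', l, u, .br p S t₁ t₀⟩ r := by
  have hMp : 0 < M := h.M0
  have hM'p : 0 < M' := h.M0'
  have k := H.hmg _ p S t₁ t₀ rfl h hx hd
  have k2 : En D v Sl A A' (Ro (D.rho l) \ TR) ⟨M, M', l, u, .br p S t₁ t₀⟩ ≤
      En D v Sl A A' (Ro (D.rho p) \ TR) ⟨M, M', l, u, .br p S t₁ t₀⟩ +
      Q ((Ro (D.rho l) \ Ro (D.rho p)) \ TR) (D.uA M v.B v.A (.leaf Sl) A 1)
        (D.uA M' u.B u.A (.br p S t₁ t₀) A' 1) :=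
    Q_splitT (H.pbL hMp) (fun j => PB_uA hM'p h.y.S.hb h.y.S.hF h.y.S.hW (one_dvd _) j)
  exact k2.trans (add_le_add le_rfl k)

set_option maxHeartbeats 1000000 in
/-- **divisible tie** -/
lemma LHT.dv (H : LHT D Al sp P W Qp Jp v Sl q A A' TR Θ C₀ mq lc Υ Jx Oy) {M M' l p : ℕ}
    {u : NS} {S : Finset ℕ} {t₁ t₀ : IT} {O : Finset ℕ}
    (h : LOk D Al sp Qp Jp v q A' ⟨M, M', l, u, .br p S t₁ t₀⟩)
    (hx : Jx ⟨M, M', l, u, .br p S t₁ t₀⟩)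
    (hO : OSt D Al A' Oy ⟨M, M', l, u, .br p S t₁ t₀⟩ O) (hd : ¬ p ∣ M') (hu : p ∣ UI M v.A q)
    (ih₁ : LOk D Al sp Qp Jp v q A' ⟨p * M, M', p, uP p u, t₁⟩ → Jx ⟨p * M, M', p, uP p u, t₁⟩ →
      OSt D Al A' Oy ⟨p * M, M', p, uP p u, t₁⟩ O →
      ClT D Al W v Sl A A' TR Θ C₀ mq Υ ⟨p * M, M', p, uP p u, t₁⟩ O)
    (ih₀ : LOk D Al sp Qp Jp v q A' ⟨p * M, M', p, uM p u, t₀⟩ → Jx ⟨p * M, M', p, uM p u, t₀⟩ →
      OSt D Al A' Oy ⟨p * M, M', p, uM p u, t₀⟩ O →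
      ClT D Al W v Sl A A' TR Θ C₀ mq Υ ⟨p * M, M', p, uM p u, t₀⟩ O) :
    ClT D Al W v Sl A A' TR Θ C₀ mq Υ ⟨M, M', l, u, .br p S t₁ t₀⟩ O := by
  obtain ⟨hp, hpp0, hpn, hdis, hX1, hX0, hν, hsh, e1, e0⟩ := tie_numT H.hh H.hW0 h
  obtain ⟨w1, w2, w3, w4⟩ := inv_le hp
  have c1 : LMv v.A q (1 - 1 / (p : ℝ)) ⟨M, M', l, u, .br p S t₁ t₀⟩ ⟨p * M, M', p, uP p u, t₁⟩ :=
    .dv1 hd hu
  have c0 : LMv v.A q (1 / (p : ℝ) * (1 + 1 / ((p : ℝ) - 1))) ⟨M, M', l, u, .br p S t₁ t₀⟩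
    ⟨p * M, M', p, uM p u, t₀⟩ := .dv0 hd hu
  have k1 := c1.chd (Sl := Sl) H.hh H.hJ H.hq h
  have k0 := c0.chd (Sl := Sl) H.hh H.hJ H.hq h
  have i1 := ih₁ k1.ok (H.hJx _ _ _ c1 h hx) (hO.mono hpn.le k1.sub)
  have i0 := ih₀ k0.ok (H.hJx _ _ _ c0 h hx) (hO.mono hpn.le k0.sub)
  obtain ⟨Ψ, hdv, hΨ⟩ := H.hdiv _ p S t₁ t₀ rfl h hx hd hu
  have hrel := H.rel h hx hd
  have hK := H.K0 hO
  have hC := H.hC1
  have hK0 : 0 ≤ Cf C₀ (∑ l ∈ O, 1 / (l : ℝ)) := by linarith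
  have hF1 := F1 hO
  have hp1 : (1:ℝ) < p := by exact_mod_cast hp.one_lt
  have hpm : (0:ℝ) < p - 1 := by linarith
  have hw0 := w_nn hp
  set w₀ : ℝ := 1 / (p : ℝ) * (1 + 1 / ((p : ℝ) - 1)) with hw₀
  set δ : ℝ := C₀ * (Θ (p + 1) - Θ p * (1 + 2 * P.sg p / ((p : ℝ) - 1))) with hδ
  set ls : LSt := ⟨M, M', l, u, .br p S t₁ t₀⟩ with hls
  set s1 : LSt := ⟨p * M, M', p, uP p u, t₁⟩ with hs1
  set s0 : LSt := ⟨p * M, M', p, uM p u, t₀⟩ with hs0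
  set K := Cf C₀ (∑ l ∈ O, 1 / (l : ℝ)) with hKd
  set F := Cf 1 (∑ l ∈ O, 1 / (l : ℝ)) with hFd
  have b1 := H.hΥ _ _ _ c1 h hx
  -- the pairs
  have eS : ∑ r ∈ Qi D Al ls.t A', Υ ls r = ∑ r ∈ Qi D Al t₁ A', Υ ls r +
      ∑ r ∈ Qi D Al t₀ A', Υ ls r := sum_ch (t := .br p S t₁ t₀) rfl hdis _
  have eL : ∑ r ∈ Qi D Al (.br p S t₁ t₀) A', lc ls r = ∑ r ∈ Qi D Al t₁ A', lc ls r +
      ∑ r ∈ Qi D Al t₀ A', lc ls r := sum_ch (t := .br p S t₁ t₀) rfl hdis _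
  have m1 : ∑ r ∈ Qi D Al t₁ A', lc ls r + (1 - 1 / (p : ℝ)) * ∑ r ∈ Qi D Al t₁ A', Υ s1 r ≤
      ∑ r ∈ Qi D Al t₁ A', Υ ls r := by
    rw [Finset.mul_sum, ← Finset.sum_add_distrib]
    exact Finset.sum_le_sum fun r hr => b1 r hr
  have m0 : ∑ r ∈ Qi D Al t₀ A', lc ls r + (w₀ * ∑ r ∈ Qi D Al t₀ A', Υ s0 r +
      ∑ r ∈ Qi D Al t₀ A', Ψ r) ≤ ∑ r ∈ Qi D Al t₀ A', Υ ls r := by
    rw [Finset.mul_sum, ← Finset.sum_add_distrib, ← Finset.sum_add_distrib]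
    exact Finset.sum_le_sum fun r hr => (hΨ r hr).2
  have hsub1 : Qi D Al t₁ A' ⊆ Qi D Al ls.t A' := k1.sub
  have hsub0 : Qi D Al t₀ A' ⊆ Qi D Al ls.t A' := k0.sub
  have z1 : 0 ≤ ∑ r ∈ Qi D Al t₁ A', lc ls r :=
    Finset.sum_nonneg fun r hr => H.hl0 _ h hx r (hsub1 hr)
  have z0 : 0 ≤ ∑ r ∈ Qi D Al t₀ A', lc ls r :=
    Finset.sum_nonneg fun r hr => H.hl0 _ h hx r (hsub0 hr)
  have zΨ : 0 ≤ ∑ r ∈ Qi D Al t₀ A', Ψ r := Finset.sum_nonneg fun r hr => (hΨ r hr).1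
  set a1 := ∑ r ∈ Qi D Al t₁ A', Υ s1 r with ha1
  set a0 := ∑ r ∈ Qi D Al t₀ A', Υ s0 r with ha0
  set L1 := ∑ r ∈ Qi D Al t₁ A', lc ls r
  set L0 := ∑ r ∈ Qi D Al t₀ A', lc ls r
  set PS := ∑ r ∈ Qi D Al t₀ A', Ψ r
  set U1 := ∑ r ∈ Qi D Al t₁ A', Υ ls r
  set U0 := ∑ r ∈ Qi D Al t₀ A', Υ ls r
  have pairs : (1 - 1 / (p : ℝ)) * (F * a1) + w₀ * (F * a0) + PS + (L1 + L0) ≤ F * (U1 + U0) := by
    have q1 := mul_le_mul_of_nonneg_left (add_le_add m1 m0) (by linarith : (0:ℝ) ≤ F)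
    have q2 : L1 + (L0 + PS) ≤ F * (L1 + (L0 + PS)) :=
      le_mul_of_one_le_left (by linarith) hF1
    calc _ = F * ((1 - 1 / (p : ℝ)) * a1 + w₀ * a0) + (L1 + (L0 + PS)) := by ring
      _ ≤ F * ((1 - 1 / (p : ℝ)) * a1 + w₀ * a0) + F * (L1 + (L0 + PS)) := by linarith
      _ = F * (L1 + (1 - 1 / (p : ℝ)) * a1 + (L0 + (w₀ * a0 + PS))) := by ring
      _ ≤ _ := q1
  -- the products
  set X1 := u.c * Ws W t₁.items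
  set X0 := u.c * Ws W t₀.items
  have prods : (1 - 1 / (p : ℝ)) * (K * Θ p * (mq * nuL W s1)) +
      w₀ * (K * Θ p * (mq * nuL W s0)) + δ * (mq * nuL W ls) ≤ K * Θ u.n * (mq * nuL W ls) := by
    have hx2 : 1 / ((p : ℝ) - 1) * X0 ≤ 2 * P.sg p / ((p : ℝ) - 1) * (X1 + X0) := by
      calc 1 / ((p : ℝ) - 1) * X0 ≤ 1 / ((p : ℝ) - 1) * (2 * P.sg p * (X1 + X0)) :=
            mul_le_mul_of_nonneg_left hsh (by positivity)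
        _ = _ := by ring
    have g1 : (1 - 1 / (p : ℝ)) * (K * Θ p * (mq * nuL W s1)) +
        w₀ * (K * Θ p * (mq * nuL W s0)) = K * Θ p *
          (mq * (X1 + (1 + 1 / ((p : ℝ) - 1)) * X0)) := by
      have := e1 (p * M) M' p
      have := e0 (p * M) M' p
      calc _ = K * Θ p * (mq * ((1 - 1 / (p : ℝ)) * nuL W s1 +
            (1 + 1 / ((p : ℝ) - 1)) * (1 / (p : ℝ) * nuL W s0))) := by rw [hw₀]; ring
        _ = _ := by rw [e1, e0]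
    have g2 : K * Θ p * (mq * (X1 + (1 + 1 / ((p : ℝ) - 1)) * X0)) ≤
        K * (Θ p * (1 + 2 * P.sg p / ((p : ℝ) - 1))) * (mq * (X1 + X0)) := by
      calc _ ≤ K * Θ p * (mq * ((1 + 2 * P.sg p / ((p : ℝ) - 1)) * (X1 + X0))) := by
            refine mul_le_mul_of_nonneg_left (mul_le_mul_of_nonneg_left ?_ H.hmq)
              (mul_nonneg hK0 (zero_le_one.trans (H.hΘ1 p)))
            linarith
        _ = _ := by ring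
    have hs := H.hΘs p hp hpp0
    have hm : Θ (p + 1) ≤ Θ u.n := H.hΘm (by omega)
    have h3 : δ ≤ K * (Θ (p + 1) - Θ p * (1 + 2 * P.sg p / ((p : ℝ) - 1))) :=
      mul_le_mul_of_nonneg_right hK (by linarith)
    have h4 := mul_le_mul_of_nonneg_left hm hK0
    have hmX : 0 ≤ mq * (X1 + X0) := mul_nonneg H.hmq (add_nonneg hX1 hX0)
    rw [g1]
    have hν' : nuL W ls = X1 + X0 := hν
    rw [hν']
    have h5 := mul_le_mul_of_nonneg_right h3 hmX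
    have h6 := mul_le_mul_of_nonneg_right h4 hmX
    linarith
  unfold ClT at i1 i0 ⊢
  have i1' : En D v Sl A A' (Ro (D.rho p) \ TR) s1 ≤ K * Θ p * (mq * nuL W s1) + F * a1 := i1
  have i0' : En D v Sl A A' (Ro (D.rho p) \ TR) s0 ≤ K * Θ p * (mq * nuL W s0) + F * a0 := i0
  have hdv' : En D v Sl A A' (Ro (D.rho p) \ TR) ls ≤
      (1 - 1 / (p : ℝ)) * En D v Sl A A' (Ro (D.rho p) \ TR) s1 +
        w₀ * En D v Sl A A' (Ro (D.rho p) \ TR) s0 + δ * (mq * nuL W ls) + PS := hdv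
  have j1 := mul_le_mul_of_nonneg_left i1' w2.le
  have j0 := mul_le_mul_of_nonneg_left i0' hw0
  show En D v Sl A A' (Ro (D.rho l) \ TR) ls ≤ K * Θ u.n * (mq * nuL W ls) +
    F * ∑ r ∈ Qi D Al ls.t A', Υ ls r
  rw [eS]
  rw [eL] at hrel
  rw [mul_add] at j1 j0
  linarith

set_option maxHeartbeats 1000000 in
/-- **tie whose prime does not divide the rest of the item** -/
lemma LHT.ndv (H : LHT D Al sp P W Qp Jp v Sl q A A' TR Θ C₀ mq lc Υ Jx Oy) {M M' l p : ℕ}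
    {u : NS} {S : Finset ℕ} {t₁ t₀ : IT} {O : Finset ℕ}
    (h : LOk D Al sp Qp Jp v q A' ⟨M, M', l, u, .br p S t₁ t₀⟩)
    (hx : Jx ⟨M, M', l, u, .br p S t₁ t₀⟩)
    (hO : OSt D Al A' Oy ⟨M, M', l, u, .br p S t₁ t₀⟩ O) (hd : ¬ p ∣ M')
    (hu : ¬ p ∣ UI M v.A q) (hst : ∑ l ∈ O, 1 / (l : ℝ) < (p : ℝ) ^ (-(1/3) : ℝ))
    (ih₁ : LOk D Al sp Qp Jp v q A' ⟨p * M, M', p, uP p u, t₁⟩ → Jx ⟨p * M, M', p, uP p u, t₁⟩ →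
      OSt D Al A' Oy ⟨p * M, M', p, uP p u, t₁⟩ (insert p O) →
      ClT D Al W v Sl A A' TR Θ C₀ mq Υ ⟨p * M, M', p, uP p u, t₁⟩ (insert p O)) :
    ClT D Al W v Sl A A' TR Θ C₀ mq Υ ⟨M, M', l, u, .br p S t₁ t₀⟩ O := by
  obtain ⟨hp, hpp0, hpn, hdis, hX1, hX0, hν, hsh, e1, e0⟩ := tie_numT H.hh H.hW0 h
  obtain ⟨w1, w2, w3, w4⟩ := inv_le hp
  have c1 : LMv v.A q (1 - 1 / (p : ℝ)) ⟨M, M', l, u, .br p S t₁ t₀⟩ ⟨p * M, M', p, uP p u, t₁⟩ :=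
    .nd1 hd hu
  have k1 := c1.chd (Sl := Sl) H.hh H.hJ H.hq h
  have hpO : p ∉ O := fun hpO => by
    have : u.n ≤ p := (hO.h p hpO).2.1
    omega
  have hsO : ∑ l ∈ insert p O, 1 / (l : ℝ) = ∑ l ∈ O, 1 / (l : ℝ) + 1 / (p : ℝ) := by
    rw [Finset.sum_insert hpO]; ring
  have h81 := p8 (p := p) (by have := H.hp8; omega)
  have hO1 : OSt D Al A' Oy ⟨p * M, M', p, uP p u, t₁⟩ (insert p O) := by
    refine ⟨fun l hl => ?_, ?_⟩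
    · rcases Finset.mem_insert.1 hl with rfl | hl
      · exact ⟨hp, le_rfl, fun r hr => H.hOy _ _ S t₁ t₀ rfl h hx hd hu r hr⟩
      · exact ⟨(hO.h l hl).1, hpn.le.trans (hO.h l hl).2.1,
          fun r hr => (hO.h l hl).2.2 r (k1.sub hr)⟩
    · rw [hsO]; linarith
  have i1 := ih₁ k1.ok (H.hJx _ _ _ c1 h hx) hO1
  obtain ⟨Ψ, hex, hΨ⟩ := H.hexit _ p S t₁ t₀ rfl h hx hd hu
  have hrel := H.rel h hx hd
  have hC := H.hC1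
  have hF1 := F1 hO
  have hp1 : (1:ℝ) < p := by exact_mod_cast hp.one_lt
  have hpm : (0:ℝ) < p - 1 := by linarith
  have hnum := H.hnum p hpp0
  have sO0 := sum0 O
  have s1O : 0 ≤ ∑ l ∈ O, 1 / (l : ℝ) + 1 / (p : ℝ) := by positivity
  have s1O1 : ∑ l ∈ O, 1 / (l : ℝ) + 1 / (p : ℝ) ≤ 1 := by linarith
  have stepC := Cf_step (C₀ := C₀) (x := ∑ l ∈ O, 1 / (l : ℝ)) (p := (p : ℝ)) hp1.le sO0 hst.le
  have stepF := Cf_step (C₀ := 1) (x := ∑ l ∈ O, 1 / (l : ℝ)) (p := (p : ℝ)) hp1.le sO0 hst.le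
  unfold ClT at i1 ⊢
  rw [hsO] at i1
  set ls : LSt := ⟨M, M', l, u, .br p S t₁ t₀⟩ with hls
  set s1 : LSt := ⟨p * M, M', p, uP p u, t₁⟩ with hs1
  set K1 := Cf C₀ (∑ l ∈ O, 1 / (l : ℝ) + 1 / (p : ℝ)) with hK1
  set F' := Cf 1 (∑ l ∈ O, 1 / (l : ℝ) + 1 / (p : ℝ)) with hF'
  set K := Cf C₀ (∑ l ∈ O, 1 / (l : ℝ)) with hKd
  set F := Cf 1 (∑ l ∈ O, 1 / (l : ℝ)) with hFd
  set ε : ℝ := (p : ℝ) ^ (-(11/12) : ℝ) with hε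
  have hK1C : C₀ ≤ K1 := Cf_ge s1O s1O1
  have hF'1 : 1 ≤ F' := Cf_ge s1O s1O1
  have up : ∀ C : ℝ, Cf C (∑ l ∈ O, 1 / (l : ℝ) + 1 / (p : ℝ)) ≤ C + 2 := by
    intro C
    unfold Cf
    have : 0 ≤ (∑ l ∈ O, 1 / (l : ℝ) + 1 / (p : ℝ)) ^ (3/4 : ℝ) := by positivity
    linarith
  have hK1u : K1 ≤ C₀ + 2 := up C₀
  have hF'u : F' ≤ 1 + 2 := up 1
  -- the energy of the column
  have hcol : En D v Sl A A' (Ro (D.rho p) \ TR) ls ≤ En D v Sl A A' (Ro (D.rho p) \ TR) s1 +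
      Q (Ro (D.rho p) \ TR) (D.uA M v.B v.A (.leaf Sl) A 1)
        (D.uA M' (u.B * p) u.A t₀ A' p) :=
    ColT32.Q_colN h.y.S h.M0' h.M0 hd (F := rv A fun j => (D.toFT v.B v.A (.leaf Sl)).U 1 j)
      (fun j => PB_rv (fun j => Crest.Agent.R4.Fam464.FT.pb H.hvB
        (D.toFT_Adm _ v.B v.A H.hvB H.hFl H.hWl) (one_dvd _) j) A j) (Ro (D.rho p) \ TR)
  -- inverse weights
  have hinv : (1 - 1 / (p : ℝ))⁻¹ = 1 + 1 / ((p : ℝ) - 1) := by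
    have hp0 : (0:ℝ) < p := by linarith
    have : (1 : ℝ) - 1 / p = (p - 1) / p := by field_simp
    rw [this, inv_div]
    field_simp
    ring
  have hg0 : 0 < 1 / ((p : ℝ) - 1) := by positivity
  have hdivC : (C₀ + 2) / ((p : ℝ) - 1) = (C₀ + 2) * (1 / ((p : ℝ) - 1)) := by ring
  rw [hdivC] at hnum
  have hε0 : 0 ≤ ε := by positivity
  -- products
  have prods : K1 * Θ p * (mq * nuL W s1) + 1 / 2 * ε * (mq * nuL W ls) ≤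
      K * Θ u.n * (mq * nuL W ls) := by
    have n0 := H.nu0 h
    have e1' := e1 (p * M) M' p
    have hn1 : nuL W s1 = (1 + 1 / ((p : ℝ) - 1)) * (u.c * Ws W t₁.items) := by
      rw [← hinv, ← e1', ← mul_assoc, inv_mul_cancel₀ w2.ne', one_mul]
    have hX1ν : u.c * Ws W t₁.items ≤ nuL W ls := by
      have : nuL W ls = u.c * Ws W t₁.items + u.c * Ws W t₀.items := hν
      linarith
    have k1 : K1 * (1 + 1 / ((p : ℝ) - 1)) ≤ K1 + 1 / 2 * ε := by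
      have : K1 * (1 / ((p : ℝ) - 1)) ≤ (C₀ + 2) * (1 / ((p : ℝ) - 1)) :=
        mul_le_mul_of_nonneg_right hK1u hg0.le
      linarith
    have hK10 : 0 ≤ K1 := by linarith
    have hΘp := H.hΘ1 p
    have hΘn := H.hΘ1 u.n
    have hmon := H.hΘm hpn.le
    have hmX1 : 0 ≤ mq * (u.c * Ws W t₁.items) := mul_nonneg H.hmq hX1
    have hmle : mq * (u.c * Ws W t₁.items) ≤ mq * nuL W ls :=
      mul_le_mul_of_nonneg_left hX1ν H.hmq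
    calc K1 * Θ p * (mq * nuL W s1) + 1 / 2 * ε * (mq * nuL W ls)
        = (K1 * (1 + 1 / ((p : ℝ) - 1))) * Θ p * (mq * (u.c * Ws W t₁.items)) +
          1 / 2 * ε * (mq * nuL W ls) := by rw [hn1]; ring
      _ ≤ (K1 + 1 / 2 * ε) * Θ u.n * (mq * nuL W ls) + 1 / 2 * ε * Θ u.n * (mq * nuL W ls) := by
          refine add_le_add ?_ ?_
          · refine mul_le_mul (mul_le_mul k1 hmon (by linarith) (by linarith)) hmle hmX1 ?_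
            exact mul_nonneg (by linarith) (by linarith)
          · refine mul_le_mul_of_nonneg_right ?_ n0
            have : 0 ≤ 1 / 2 * ε := by linarith
            exact le_mul_of_one_le_right this hΘn
      _ = (K1 + ε) * Θ u.n * (mq * nuL W ls) := by ring
      _ ≤ _ := mul_le_mul_of_nonneg_right (mul_le_mul_of_nonneg_right stepC (by linarith)) n0
  -- pairs
  have b1 := H.hΥ _ _ _ c1 h hx
  have eS : ∑ r ∈ Qi D Al ls.t A', Υ ls r = ∑ r ∈ Qi D Al t₁ A', Υ ls r +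
      ∑ r ∈ Qi D Al t₀ A', Υ ls r := sum_ch (t := .br p S t₁ t₀) rfl hdis _
  have eL : ∑ r ∈ Qi D Al (.br p S t₁ t₀) A', lc ls r = ∑ r ∈ Qi D Al t₁ A', lc ls r +
      ∑ r ∈ Qi D Al t₀ A', lc ls r := sum_ch (t := .br p S t₁ t₀) rfl hdis _
  have m1 : ∑ r ∈ Qi D Al t₁ A', lc ls r + (1 - 1 / (p : ℝ)) * ∑ r ∈ Qi D Al t₁ A', Υ s1 r ≤
      ∑ r ∈ Qi D Al t₁ A', Υ ls r := by
    rw [Finset.mul_sum, ← Finset.sum_add_distrib]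
    exact Finset.sum_le_sum fun r hr => b1 r hr
  have m0 : ∑ r ∈ Qi D Al t₀ A', lc ls r + ∑ r ∈ Qi D Al t₀ A', Ψ r ≤
      ∑ r ∈ Qi D Al t₀ A', Υ ls r := by
    rw [← Finset.sum_add_distrib]
    exact Finset.sum_le_sum fun r hr => (hΨ r hr).2
  have hsub1 : Qi D Al t₁ A' ⊆ Qi D Al ls.t A' := k1.sub
  have hsub0 : Qi D Al t₀ A' ⊆ Qi D Al ls.t A' :=
    fun r hr => mem_Qi.2 ⟨Finset.mem_union_right _ (mem_Qi.1 hr).1, (mem_Qi.1 hr).2⟩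
  have z1 : 0 ≤ ∑ r ∈ Qi D Al t₁ A', lc ls r :=
    Finset.sum_nonneg fun r hr => H.hl0 _ h hx r (hsub1 hr)
  have z0 : 0 ≤ ∑ r ∈ Qi D Al t₀ A', lc ls r :=
    Finset.sum_nonneg fun r hr => H.hl0 _ h hx r (hsub0 hr)
  have zΨ : 0 ≤ ∑ r ∈ Qi D Al t₀ A', Ψ r := Finset.sum_nonneg fun r hr => (hΨ r hr).1
  have za : 0 ≤ ∑ r ∈ Qi D Al t₁ A', Υ s1 r := H.S0 k1.ok (H.hJx _ _ _ c1 h hx)
  set a1 := ∑ r ∈ Qi D Al t₁ A', Υ s1 r with ha1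
  set L1 := ∑ r ∈ Qi D Al t₁ A', lc ls r
  set L0 := ∑ r ∈ Qi D Al t₀ A', lc ls r
  set PS := ∑ r ∈ Qi D Al t₀ A', Ψ r
  set U1 := ∑ r ∈ Qi D Al t₁ A', Υ ls r
  set U0 := ∑ r ∈ Qi D Al t₀ A', Υ ls r
  have kF : F' * (1 + 1 / ((p : ℝ) - 1)) ≤ F := by
    have q1 : F' * (1 / ((p : ℝ) - 1)) ≤ (1 + 2) * (1 / ((p : ℝ) - 1)) :=
      mul_le_mul_of_nonneg_right hF'u hg0.le
    have q2 : (1 + 2 : ℝ) * (1 / ((p : ℝ) - 1)) ≤ (C₀ + 2) * (1 / ((p : ℝ) - 1)) :=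
      mul_le_mul_of_nonneg_right (by linarith) hg0.le
    linarith
  have pairs : F' * a1 + PS + (L1 + L0) ≤ F * (U1 + U0) := by
    have q0 : F' * a1 = F' * (1 + 1 / ((p : ℝ) - 1)) * ((1 - 1 / (p : ℝ)) * a1) := by
      rw [← hinv]
      have hne : (1 - 1 / (p : ℝ)) ≠ 0 := w2.ne'
      field_simp
    have q1 : F' * (1 + 1 / ((p : ℝ) - 1)) * ((1 - 1 / (p : ℝ)) * a1) ≤
        F * ((1 - 1 / (p : ℝ)) * a1) :=
      mul_le_mul_of_nonneg_right kF (mul_nonneg w2.le za)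
    have q2 : L1 + (L0 + PS) ≤ F * (L1 + (L0 + PS)) :=
      le_mul_of_one_le_left (by linarith) hF1
    have q3 := mul_le_mul_of_nonneg_left (add_le_add m1 m0) (by linarith : (0:ℝ) ≤ F)
    calc F' * a1 + PS + (L1 + L0) ≤ F * ((1 - 1 / (p : ℝ)) * a1) + F * (L1 + (L0 + PS)) := by
          rw [q0]; linarith
      _ = F * (L1 + (1 - 1 / (p : ℝ)) * a1 + (L0 + PS)) := by ring
      _ ≤ _ := q3
  have i1' : En D v Sl A A' (Ro (D.rho p) \ TR) s1 ≤ K1 * Θ p * (mq * nuL W s1) + F' * a1 := i1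
  have hex' : Q (Ro (D.rho p) \ TR) (D.uA M v.B v.A (.leaf Sl) A 1)
      (D.uA M' (u.B * p) u.A t₀ A' p) ≤ 1 / 2 * ε * (mq * nuL W ls) + PS := hex
  show En D v Sl A A' (Ro (D.rho l) \ TR) ls ≤ K * Θ u.n * (mq * nuL W ls) +
    F * ∑ r ∈ Qi D Al ls.t A', Υ ls r
  rw [eS]
  rw [eL] at hrel
  linarith

/-- **ONE LEAF ITEM AGAINST A TREE**, excluded pairs -/
theorem item_boundT (H : LHT D Al sp P W Qp Jp v Sl q A A' TR Θ C₀ mq lc Υ Jx Oy) :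
    ∀ (t : IT) (M M' l : ℕ) (u : NS), LOk D Al sp Qp Jp v q A' ⟨M, M', l, u, t⟩ →
      Jx ⟨M, M', l, u, t⟩ → ∀ O : Finset ℕ, OSt D Al A' Oy ⟨M, M', l, u, t⟩ O →
      ClT D Al W v Sl A A' TR Θ C₀ mq Υ ⟨M, M', l, u, t⟩ O := by
  intro t
  induction t with
  | leaf S =>
    intro M M' l u h hx O hO
    exact H.term h hx hO (H.hleaf _ S rfl h hx)
  | br p S t₁ t₀ ih₁ ih₀ =>
    intro M M' l u h hx O hO
    by_cases hd : p ∣ M'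
    · obtain ⟨M₂, rfl⟩ := hd
      exact H.free h hx hO (fun a b c => ih₁ _ _ _ _ a b _ c) (fun a b c => ih₀ _ _ _ _ a b _ c)
    · by_cases hst : (p : ℝ) ^ (-(1/3) : ℝ) ≤ ∑ l ∈ O, 1 / (l : ℝ)
      · have hpn : p < u.n := h.y.ok.2.1
        exact H.term h hx hO (H.hstop _ p S t₁ t₀ rfl h hx O (fun l hl => ⟨(hO.h l hl).1, by
          have : u.n ≤ l := (hO.h l hl).2.1
          omega, (hO.h l hl).2.2⟩) hst)
      · by_cases hu : p ∣ UI M v.A q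
        · exact H.dv h hx hO hd hu (fun a b c => ih₁ _ _ _ _ a b _ c)
            (fun a b c => ih₀ _ _ _ _ a b _ c)
        · exact H.ndv h hx hO hd hu (not_le.1 hst) (fun a b c => ih₁ _ _ _ _ a b _ c)
  | add p t₁ t₀ ih₁ ih₀ =>
    intro M M' l u h hx O hO
    have hdis : Disjoint t₁.items t₀.items := h.y.ok.2.2.1
    have hpn : p < u.n := h.y.ok.2.1
    refine H.two h hx hO .ad1 .ad0 rfl rfl hpn hpn hdis
      (Q_addI h.y.S h.M0' A' _ (H.pbL h.M0)) ?_ (fun a b c => ih₁ _ _ _ _ a b _ c)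
      (fun a b c => ih₀ _ _ _ _ a b _ c)
    show u.c * Ws W t₁.items + u.c * Ws W t₀.items = u.c * Ws W (t₁.items ∪ t₀.items)
    rw [Ws_un hdis]; ring
  | up p S t ih =>
    intro M M' l u h hx O hO
    have hpn : p < u.n := h.y.ok.2.1
    exact H.one h hx hO .up rfl hpn.le rfl rfl (fun a b c => ih _ _ _ _ a b _ c)
  | pl p t ih =>
    intro M M' l u h hx O hO
    have hp : p.Prime := h.y.ok.1
    have hpn : p < u.n := h.y.ok.2.1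
    by_cases hd : p ∣ M'
    · obtain ⟨M₂, rfl⟩ := hd
      have hM₂ : 0 < M₂ := Nat.pos_of_mul_pos_left h.M0'
      refine H.one h hx hO .plf rfl hpn ?_ rfl (fun a b c => ih _ _ _ _ a b _ c)
      unfold En
      rw [uA_pl_free h.y.S hM₂ A']
    · refine H.one h hx hO (.pl hd) rfl hpn ?_ rfl (fun a b c => ih _ _ _ _ a b _ c)
      unfold En
      rw [Q_pl h.y.S h.M0' hd A' _ (H.pbL h.M0)]
      simp only
      rw [avg_uA hp.pos h.M0]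
  | far p t₁ t₀ ih₁ ih₀ =>
    intro M M' l u h hx O hO
    have hdis : Disjoint t₁.items t₀.items := h.y.ok.2.2.1
    have hpn : p < u.n := h.y.ok.2.1
    refine H.two h hx hO .fa1 .fa0 rfl rfl hpn hpn hdis
      (Q_farI h.y.S h.M0' A' _ (H.pbL h.M0)) ?_ (fun a b c => ih₁ _ _ _ _ a b _ c)
      (fun a b c => ih₀ _ _ _ _ a b _ c)
    show u.c * Ws W t₁.items + u.c * Ws W t₀.items = u.c * Ws W (t₁.items ∪ t₀.items)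
    rw [Ws_un hdis]; ring

/-- **the start** -/
theorem item_leT (H : LHT D Al sp P W Qp Jp v Sl q A A' TR Θ C₀ mq lc Υ Jx Oy)
    (hΘ2 : ∀ n, Θ n ≤ 2) {s : LSt} (h : LOk D Al sp Qp Jp v q A' s) (hx : Jx s) :
    En D v Sl A A' (Ro (D.rho s.l) \ TR) s ≤ 2 * (C₀ + 2) * (mq * nuL W s) +
      3 * ∑ r ∈ Qi D Al s.t A', Υ s r := by
  have hO : OSt D Al A' Oy s ∅ := ⟨fun l hl => absurd hl (Finset.notMem_empty l), by simp⟩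
  have key := item_boundT H s.t s.M s.M' s.l s.u h hx ∅ hO
  unfold ClT at key
  have e : ∀ C : ℝ, Cf C (∑ l ∈ (∅ : Finset ℕ), 1 / (l : ℝ)) = C + 2 := by
    intro C
    unfold Cf
    rw [Finset.sum_empty, Real.zero_rpow (by norm_num)]
    ring
  rw [e, e] at key
  have hC := H.hC1
  have t1 : (C₀ + 2) * Θ s.u.n * (mq * nuL W s) ≤ 2 * (C₀ + 2) * (mq * nuL W s) := by
    refine mul_le_mul_of_nonneg_right ?_ (H.nu0 h)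
    have := hΘ2 s.u.n
    nlinarith
  have key' : En D v Sl A A' (Ro (D.rho s.l) \ TR) s ≤
      (C₀ + 2) * Θ s.u.n * (mq * nuL W s) + (1 + 2) * ∑ r ∈ Qi D Al s.t A', Υ s r := key
  linarith

end
end Crest.Agent.R4P.LeafU27
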