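import Crest.Agent.R4P.LeafU_27
import Crest.Agent.R4P.LeafX_27
import Crest.Agent.R4P.ColU_32
import Crest.Agent.R4P.WmfL_25

/-!
R4P (S0004), helper27, module D, group [X]: **the local bounds of the leaf item walk with excluded pairs**.

* `miss_leafR`, `EL.missR` : near misses of one leaf item, any relation;
* `EL.hexitT`, `EL.hdivT` : exits and divisible ties with excluded pairs (fields of `LeafU27.LHT`);
* `mg_locT` : merges, excluded pairs.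
-/

set_option autoImplicit false
set_option linter.unusedSectionVars false
set_option linter.unusedVariables false
open Finset hiding dens

namespace Crest.Agent.R4P.LeafV27

open Crest.Agent.R4.HVW560 Crest.Agent.R4P.AvgItem710
open Crest.Agent.R4.Ovl560 (dens dens_pos CM)
open Crest.Agent.R4.Tour104 Crest.Agent.R4.Tour758 Crest.Agent.R4.Avg758 Crest.Agent.R4.Clos758
open Crest.Agent.R4.ClosL758 Crest.Agent.R4.ClosG758 Crest.Agent.R4.ClosR758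
open Crest.Agent.R4.Fam464 Crest.Agent.R4P.Cnt588 Crest.Agent.R4P.Walk560 Crest.Agent.R4.Piece464
open Crest.Agent.R4P.GInst194 Crest.Agent.R4P.WalkIT579 Crest.Agent.R4P.Item758
open Crest.Agent.R4P.Bld532 (NS All NodeOk Bk dv nd mem_dv mem_nd)
open Crest.Agent.R4P.NMW710 Crest.Agent.R4P.CrossLoc25 Crest.Agent.R4P.CrossLocC25
open Crest.Agent.R4P.YI25 Crest.Agent.R4P.GSt927
open Crest.Agent.R4P.LeafFam28 Crest.Agent.R4P.LeafSide28 Crest.Agent.R4P.CofMono28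
open Crest.Agent.R4P.TBLeaf28
open Crest.Agent.R4P.LeafCol27 Crest.Agent.R4P.LeafM27 Crest.Agent.R4P.LeafT27
open Crest.Agent.R4P.LeafLoc28
open Crest.Agent.R4P.LeafTie28 (Nc)
open Crest.Agent.R4P.ColU32 (TRel PhT)
open Crest.Agent.R4P.ShrW34 (IX)
open Crest.Agent.R4P.LeafMg30

variable {Λ κ : Type*} [Fintype Λ] [DecidableEq Λ] [Fintype κ] [DecidableEq κ]
variable {D : Par Λ κ} {ρ : ℕ → ℝ} {Al : Finset ℕ}
variable {Lo : ℝ × ℝ → ℕ × ℕ → Prop} {x0 y0 : ℕ × ℕ → ℕ}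
variable [WRel κ] {sp : ℕ → Finset Λ} {p : ℕ}

open Classical in
/-- **near miss of a right tie against a sieved side**, any relation -/
theorem miss_leafR {C : ℝ} (hC : PairO C) (hC0 : 0 ≤ C) (hL : LoX Lo ρ x0 y0) (hR : D.Rad ρ)
    (hdead : ∀ j, D.it j ∉ Al → ∀ a, D.om j a = 0)
    {M M' b pr b' pr' : ℕ} {S' : Finset ℕ} {t₁' t₀' σ : IT} {A' A₂ : Finset Λ} {d' : DT Λ κ}
    (h' : SideI D sp b' pr' (.br p S' t₁' t₀') A' d') (hb : 0 < b) (hF : Fit b pr σ)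
    (hW : D.Wts pr σ) (hM : 0 < M) (hM' : 0 < M')
    {K : ℝ} {P : ℕ → Finset ℕ} {v : ℕ → ℕ → ℤ → ℝ} (ho : OmW D b pr σ K P v)
    (hJ : ∀ e ∈ Qi D Al σ A₂ ×ˢ Qi D Al t₀' A', JC x0 y0 M pr M' pr' e)
    {V : ℝ × ℝ → ℕ × ℕ → ℝ} (h0 : ∀ s e, 0 ≤ V s e) (R : Finset (Λ × Λ))
    (hV : ∀ e ∈ D.PE R (D.uA M b pr σ A₂ 1) (D.uA M' (b' * p) pr' t₀' A' p),
      e ∈ Qi D Al σ A₂ ×ˢ Qi D Al t₀' A' →
      FL Lo ρ D.γ (SE M b pr M' b' pr' e) e ≤ V (SE M b pr M' b' pr' e) e) :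
    Q R (D.uA M b pr σ A₂ 1) (D.uA M' (b' * p) pr' t₀' A' p) ≤
      C * K * Real.exp 2 * ((∑ q ∈ Qi D Al σ A₂, (b : ℝ) * ρ q * dens (P q)) *
        SR ρ b' (Qi D Al t₀' A')) +
      ∑ e ∈ Qi D Al σ A₂ ×ˢ Qi D Al t₀' A', (b:ℝ) * b' * V (SE M b pr M' b' pr' e) e := by
  have hpp : p.Prime := h'.hF.1
  have hp0 : 0 < p := hpp.pos
  have hpR : (0:ℝ) < p := by exact_mod_cast hp0
  have hbp : ((b' * p : ℕ) : ℝ) / p = b' := by push_cast; field_simp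
  have hb1 : (b : ℝ) / (1 : ℕ) = b := by simp
  have e0 : ∀ e : ℕ × ℕ, D.pb ρ M b pr 1 e.1 M' (b' * p) pr' p e.2 =
      vE D.γ ρ M b pr M' b' pr' e := by
    intro e
    rw [← pb_one (D := D)]
    unfold Par.pb
    have h : ((b' * p : ℕ):ℝ) / p = (b':ℝ) / (1:ℕ) := by
      push_cast
      field_simp
    rw [h]
  have key := side_block' hC hC0 hR hdead hM hM' hb h'.br₀.hb hF h'.br₀.hF hW h'.br₀.hW
    (one_dvd _) (Dvd.intro_left b' rfl) ho R A₂ A'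
    (Pw := fun e => e ∈ D.PE R (D.uA M b pr σ A₂ 1) (D.uA M' (b' * p) pr' t₀' A' p))
    (Lo := fun e => Lo (SE M b pr M' b' pr' e) e) (Real.exp_pos 2).le (fun _ h => h)
    (fun e he _ hn => good_pair hL hb1 hbp rfl hn (hJ e he))
  refine key.trans (add_le_add (le_of_eq ?_) ?_)
  · unfold SR
    rw [hbp, hb1]
  · refine sum_lo_le (fun e => mul_nonneg (by positivity) (h0 _ _)) fun e he h1 h2 => ?_
    rw [e0]
    exact vE_le_FL h2 (hV e h1 he)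

section item
variable {Qp : NS → IT → Prop} {P : Bld532.Par} {W : ℕ → ℝ}
  {Jp : ℕ × ℝ → ℕ × ℝ → ℕ × ℕ → Prop} {v : NS} {Sl : Finset ℕ} {q : ℕ} {A A' : Finset Λ}
  {mq : ℝ} {s : LSt} {S : Finset ℕ} {t₁ t₀ : IT}

/-- **near misses of one leaf item** at a column, any relation -/
theorem EL.missR (H : EL D Al sp P W Qp ρ Lo x0 y0 v Sl q mq) (hA : ∀ j ∈ A, D.it j = q)
    (e : s.t = .br p S t₁ t₀) (h : LOk D Al sp Qp Jp v q A' s)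
    (hJ : ∀ r ∈ Qi D Al s.t A', JC x0 y0 s.M v.A s.M' s.u.A (q, r))
    {V : ℝ × ℝ → ℕ × ℕ → ℝ} (h0 : ∀ s e, 0 ≤ V s e) (R : Finset (Λ × Λ))
    (hV : ∀ r ∈ Qi D Al t₀ A', (q, r) ∈ D.PE R
        (D.uA s.M v.B v.A (.leaf Sl) A 1) (D.uA s.M' (s.u.B * p) s.u.A t₀ A' p) →
      FL Lo ρ D.γ (SE s.M v.B v.A s.M' s.u.B s.u.A (q, r)) (q, r) ≤
        V (SE s.M v.B v.A s.M' s.u.B s.u.A (q, r)) (q, r)) :
    Q R (D.uA s.M v.B v.A (.leaf Sl) A 1) (D.uA s.M' (s.u.B * p) s.u.A t₀ A' p) ≤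
      1 / 2 * (p : ℝ) ^ (-(11/12) : ℝ) * (mq * nuL W s) +
      ∑ r ∈ Qi D Al t₀ A', (v.B : ℝ) * s.u.B * V (SE s.M v.B v.A s.M' s.u.B s.u.A (q, r)) (q, r) := by
  obtain ⟨M, M', l, u, t⟩ := s
  simp only at e hJ hV ⊢
  subst e
  obtain ⟨C, K, Pf, w, hC, hC0, ho, hm, hm0, hS⟩ := H.pr
  have hsub : ∀ r ∈ Qi D Al t₀ A', r ∈ Qi D Al (.br p S t₁ t₀) A' := fun r hr =>
    Qi_sub Finset.subset_union_right subset_rfl hr
  have key := miss_leafR hC hC0 H.hL H.hR H.dead (A' := A') h.y.S H.b0 H.F H.Wt h.M0 h.M0' ho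
    (fun e he => by
      obtain ⟨a1, a2⟩ := Finset.mem_product.1 he
      have e1 : e.1 = q := Finset.mem_singleton.1 (Qi_one hA _ a1)
      have := hJ e.2 (hsub _ a2)
      rwa [← e1] at this) h0 R (fun e he1 he => by
      obtain ⟨a1, a2⟩ := Finset.mem_product.1 he
      have e1 : e.1 = q := Finset.mem_singleton.1 (Qi_one hA _ a1)
      have e2 : e = (q, e.2) := by rw [← e1]
      rw [e2] at he1 ⊢
      exact hV e.2 a2 he1)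
  refine key.trans (add_le_add ?_ ?_)
  · have k1 : ∑ r ∈ Qi D Al (.leaf Sl) A, (v.B : ℝ) * ρ r * dens (Pf r) ≤ mq :=
      (sum_one_le (f := fun r => (v.B : ℝ) * ρ r * dens (Pf r)) hA _ hm0).trans hm
    have k2 := hS u p S t₁ t₀ A' h.y.q.self
    have k3 : 0 ≤ SR ρ u.B (Qi D Al t₀ A') := SR_nonneg H.hR.pos _ _
    have k4 : 0 ≤ C * K * Real.exp 2 := by
      have := ho.K0
      positivity
    calc _ = (∑ r ∈ Qi D Al (.leaf Sl) A, (v.B : ℝ) * ρ r * dens (Pf r)) *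
          (C * K * Real.exp 2 * SR ρ u.B (Qi D Al t₀ A')) := by ring
      _ ≤ mq * (C * K * Real.exp 2 * SR ρ u.B (Qi D Al t₀ A')) :=
          mul_le_mul_of_nonneg_right k1 (mul_nonneg k4 k3)
      _ ≤ mq * (1 / 2 * (p : ℝ) ^ (-(11/12) : ℝ) * (u.c * Ws W (t₁.items ∪ t₀.items))) :=
          mul_le_mul_of_nonneg_left k2 H.hmq
      _ = _ := by unfold nuL; simp only [IT.items]; ring
  · exact sum_pair_le (F := fun e => (v.B : ℝ) * u.B * V (SE M v.B v.A M' u.B u.A e) e) hA _ _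
      fun r => mul_nonneg (by positivity) (h0 _ _)

variable {Vs : ℝ × ℝ → ℕ × ℕ → ℝ} {Vc Vx : ℕ → ℝ × ℝ → ℕ × ℕ → ℝ}

/-- near miss value against the potential -/
lemma PhiL_near (h0 : ∀ s e, 0 ≤ Vs s e) (h1 : ∀ l s e, 0 ≤ Vc l s e)
    (h2 : ∀ l s e, 0 ≤ Vx l s e) {K : ℝ} (hK : 1 ≤ K) (e : s.t = .br p S t₁ t₀)
    (h : LOk D Al sp Qp Jp v q A' s) {r : ℕ} (hr : r ∈ Qi D Al t₀ A') :
    (v.B : ℝ) * s.u.B * Vc p (SE s.M v.B v.A s.M' s.u.B s.u.A (q, r)) (q, r) ≤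
      PhiL K Vs Vc Vx v Sl q s r := by
  have i2 : r ∈ t₀.items := (mem_Qi.1 hr).1
  have hm : p ∈ s.t.mt r := by rw [e]; exact mt_mem i2
  have k1 := lcC_one (M := s.M) (b := v.B) (pr := v.A) (M' := s.M') (b' := s.u.B) (pr' := s.u.A)
    (τ := .leaf Sl) (τ' := s.t) (e := (q, r)) h1 h2 (Finset.mem_union_right _ hm)
  have k2 := lcC_le_pot h0 h1 h2 p s.M v.B v.A s.M' s.u.B s.u.A (.leaf Sl) s.t (q, r)
  have k3 := pot_nonneg h0 h1 h2 s.M v.B v.A s.M' s.u.B s.u.A (.leaf Sl) s.t (q, r)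
  have k4 := lam_one h.y.ok r
  refine (k1.trans k2).trans ?_
  unfold PhiL
  have k5 : pot Vs Vc Vx s.M v.B v.A s.M' s.u.B s.u.A (.leaf Sl) s.t (q, r) ≤
      lam s.t r * pot Vs Vc Vx s.M v.B v.A s.M' s.u.B s.u.A (.leaf Sl) s.t (q, r) :=
    le_mul_of_one_le_left k3 k4
  exact k5.trans (le_mul_of_one_le_left (k3.trans k5) hK)

open Classical in
/-- what an excluded pair keeps -/
noncomputable def TT (TW : ℕ × ℕ → Prop) (q : ℕ) (mu : ℝ) (s : LSt) (r : ℕ) : ℝ :=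
  if TW (q, r) then PhT mu s r else 0

/-- **the potential of a pair** with excluded pairs -/
noncomputable def UpT (D : Par Λ κ) (mtt : ℕ → Finset ℕ) (rg : ℕ → ℕ) (W : ℕ → ℝ) (v : NS)
    (Sl : Finset ℕ) (q : ℕ) (mq mu : ℝ) (H : ℕ → ℝ) (Vs : ℝ × ℝ → ℕ × ℕ → ℝ)
    (Vc Vx : ℕ → ℝ × ℝ → ℕ × ℕ → ℝ) (TW : ℕ × ℕ → Prop) (s : LSt) (r : ℕ) : ℝ :=
  PhiL 1 Vs Vc Vx v Sl q s r + PhL D mtt rg W v q mq H (fun _ => Vs) s r + TT TW q mu s r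

lemma T_nonneg {TW : ℕ × ℕ → Prop} {mu : ℝ} (hmu : 0 ≤ mu) (s : LSt) (r : ℕ) :
    0 ≤ TT TW q mu s r := by
  unfold TT
  split_ifs
  · exact ColU32.PhT_nonneg hmu s r
  · exact le_rfl

lemma PhiL_nonneg (h0 : ∀ s e, 0 ≤ Vs s e) (h1 : ∀ l s e, 0 ≤ Vc l s e)
    (h2 : ∀ l s e, 0 ≤ Vx l s e) (h : LOk D Al sp Qp Jp v q A' s) (r : ℕ) :
    0 ≤ PhiL 1 Vs Vc Vx v Sl q s r :=
  mul_nonneg (by norm_num) (mul_nonneg (by have := lam_one h.y.ok r; linarith)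
    (pot_nonneg h0 h1 h2 _ _ _ _ _ _ _ _ _))

variable {mtt : ℕ → Finset ℕ} {rg : ℕ → ℕ} {mu : ℝ} {Hf : ℕ → ℝ} {TW : ℕ × ℕ → Prop}

/-- the payment at a column is below the potential -/
lemma lL_le_UpT (hW : ∀ r, 0 ≤ W r) (hm : 0 ≤ mq) (hmu : 0 ≤ mu) (hH : ∀ k, 0 ≤ Hf k)
    (h0 : ∀ s e, 0 ≤ Vs s e) (h1 : ∀ l s e, 0 ≤ Vc l s e) (h2 : ∀ l s e, 0 ≤ Vx l s e)
    (h : LOk D Al sp Qp Jp v q A' s) (r : ℕ) :
    lL D rg W v q mq Hf (fun _ => Vs) s r ≤ UpT D mtt rg W v Sl q mq mu Hf Vs Vc Vx TW s r := by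
  have k1 := lL_le_PhL (mtt := mtt) (rg := rg) (V := fun _ => Vs) hW hm hH (fun _ => h0) h r
  have k2 := PhiL_nonneg (Sl := Sl) h0 h1 h2 h r
  have k3 := T_nonneg (TW := TW) (q := q) hmu s r
  unfold UpT
  linarith

/-- **supersolution** -/
lemma UpT_chd (hx : IX D mtt rg) (hW : ∀ r, 0 ≤ W r) (hm : 0 ≤ mq) (hmu : 0 ≤ mu)
    (hH : ∀ k, 0 ≤ Hf k)
    (h0 : ∀ s e, 0 ≤ Vs s e) (h1 : ∀ l s e, 0 ≤ Vc l s e) (h2 : ∀ l s e, 0 ≤ Vx l s e)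
    (hh : YH D sp P W Qp)
    (hJ : ∀ (p : ℕ) (i i' : Bool) (a a' c c' : ℕ × ℝ) (e : ℕ × ℕ), p.Prime → Mv p i a c →
      Mv p i' a' c' → (i = true ∨ i' = true) → Jp a a' e → Jp c c' e) (hq : 0 < q / v.A)
    {w : ℝ} {s s₂ : LSt} (hmv : LMv v.A q w s s₂) (h : LOk D Al sp Qp Jp v q A' s) {r : ℕ}
    (hr : r ∈ Qi D Al s₂.t A') :
    lL D rg W v q mq Hf (fun _ => Vs) s r +
      w * UpT D mtt rg W v Sl q mq mu Hf Vs Vc Vx TW s₂ r ≤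
      UpT D mtt rg W v Sl q mq mu Hf Vs Vc Vx TW s r := by
  have k := hmv.chd (Sl := Sl) hh hJ hq h
  have k1 := PhL_chd (V := fun _ => Vs) hx hW hm hH (fun _ => h0) hh hmv h k hr
  have k2 := pot_chd (Vs := Vs) (Vc := Vc) (Vx := Vx) h0 h1 h2 h k r hr
  have k3 := ColU32.PhT_mv hh hmu hmv h hr
  have k4 : w * TT TW q mu s₂ r ≤ TT TW q mu s r := by
    unfold TT
    split_ifs
    · exact k3
    · rw [mul_zero]
  have k5 : w * PhiL 1 Vs Vc Vx v Sl q s₂ r ≤ PhiL 1 Vs Vc Vx v Sl q s r := by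
    unfold PhiL
    rw [one_mul, one_mul]
    exact k2
  unfold UpT
  rw [mul_add, mul_add]
  linarith

/-! ### exits and divisible ties -/

/-- **FIELD `hexit`** with excluded pairs -/
theorem EL.hexitT (H : EL D Al sp P W Qp ρ Lo x0 y0 v Sl q mq) (hA : ∀ j ∈ A, D.it j = q)
    (hmu : 0 ≤ mu) (hH : ∀ k, 0 ≤ Hf k)
    (h0 : ∀ s e, 0 ≤ Vs s e) (h1 : ∀ l s e, 0 ≤ Vc l s e) (h2 : ∀ l s e, 0 ≤ Vx l s e)
    (e : s.t = .br p S t₁ t₀) (h : LOk D Al sp Qp Jp v q A' s)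
    (hJ : ∀ r ∈ Qi D Al s.t A', JC x0 y0 s.M v.A s.M' s.u.A (q, r)) (TR : Finset (Λ × Λ))
    (hVc : ∀ r ∈ Qi D Al t₀ A', (q, r) ∈ D.PE (Ro (D.rho p) \ TR)
        (D.uA s.M v.B v.A (.leaf Sl) A 1) (D.uA s.M' (s.u.B * p) s.u.A t₀ A' p) →
      FL Lo ρ D.γ (SE s.M v.B v.A s.M' s.u.B s.u.A (q, r)) (q, r) ≤
        Vc p (SE s.M v.B v.A s.M' s.u.B s.u.A (q, r)) (q, r)) :
    ∃ Ψ : ℕ → ℝ,
      Q (Ro (D.rho p) \ TR) (D.uA s.M v.B v.A (.leaf Sl) A 1)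
          (D.uA s.M' (s.u.B * p) s.u.A t₀ A' p) ≤
        1 / 2 * (p : ℝ) ^ (-(11/12) : ℝ) * (mq * nuL W s) + ∑ r ∈ Qi D Al t₀ A', Ψ r ∧
      ∀ r ∈ Qi D Al t₀ A', 0 ≤ Ψ r ∧ lL D rg W v q mq Hf (fun _ => Vs) s r + Ψ r ≤
        UpT D mtt rg W v Sl q mq mu Hf Vs Vc Vx TW s r := by
  refine ⟨fun r => (v.B : ℝ) * s.u.B * Vc p (SE s.M v.B v.A s.M' s.u.B s.u.A (q, r)) (q, r),
    EL.missR H hA e h hJ (h1 p) _ hVc, fun r hr => ⟨mul_nonneg (by positivity) (h1 _ _ _), ?_⟩⟩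
  have k1 := lL_le_PhL (mtt := mtt) (rg := rg) (V := fun _ => Vs) H.W0 H.hmq hH (fun _ => h0) h r
  have k2 := PhiL_near (Sl := Sl) h0 h1 h2 (K := 1) le_rfl e h hr
  have k3 := T_nonneg (TW := TW) (q := q) hmu s r
  unfold UpT
  linarith

end item

section div
variable {Qp : NS → IT → Prop} {P : Bld532.Par} {W : ℕ → ℝ}
  {v : NS} {Sl : Finset ℕ} {q : ℕ} {A A' : Finset Λ}
  {mq : ℝ} {s : LSt} {S : Finset ℕ} {t₁ t₀ : IT} {s₀ : ℕ × ℕ → ℝ × ℝ}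
  {Vs : ℝ × ℝ → ℕ × ℕ → ℝ} {Vc Vx : ℕ → ℝ × ℝ → ℕ × ℕ → ℝ}
  {mtt : ℕ → Finset ℕ} {rg : ℕ → ℕ} {mu : ℝ} {Hf : ℕ → ℝ} {TW : ℕ × ℕ → Prop}
open Crest.Agent.R4P.LeafX27 (JpZ JpZ_mv)

/-- **FIELD `hdiv`** with excluded pairs -/
theorem EL.hdivT (H : EL D Al sp P W Qp ρ Lo x0 y0 v Sl q mq) (hq : 0 < q / v.A)
    (hA : ∀ j ∈ A, D.it j = q) (hx : IX D mtt rg)
    (hmu : mU D v.B v.A 1 (.leaf Sl) A q ≤ mu) (hmu0 : 0 ≤ mu) (hH : ∀ k, 0 ≤ Hf k)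
    (h0 : ∀ s e, 0 ≤ Vs s e) (h1 : ∀ l s e, 0 ≤ Vc l s e) (h2 : ∀ l s e, 0 ≤ Vx l s e)
    (hT : ∀ r, TW (q, r) → Crest.Agent.R4.CrossLoc709.Dsc (ρ q) (ρ r) (s₀ (q, r)) ≤ 1 / 2)
    (e : s.t = .br p S t₁ t₀) (h : LOk D Al sp Qp (JpZ s₀ x0 y0) v q A' s) (hM' : ¬ p ∣ s.M')
    (hu : p ∣ UI s.M v.A q) (hp3 : 3 ≤ p)
    (hJ : ∀ r ∈ Qi D Al s.t A', JC x0 y0 s.M v.A s.M' s.u.A (q, r))
    (hVc : ∀ r ∈ Qi D Al t₀ A', (q, r) ∈ D.PE (Ro (D.rho p) \ TRel D TW)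
        (D.uA s.M v.B v.A (.leaf Sl) A 1) (D.uA s.M' (s.u.B * p) s.u.A t₀ A' p) →
      FL Lo ρ D.γ (SE s.M v.B v.A s.M' s.u.B s.u.A (q, r)) (q, r) ≤
        Vc p (SE s.M v.B v.A s.M' s.u.B s.u.A (q, r)) (q, r))
    {Θ : ℕ → ℝ} {C₀ : ℝ} (hC₀ : 1 ≤ C₀)
    (hΘ0 : Θ p * (1 + 2 * P.sg p / ((p : ℝ) - 1)) ≤ Θ (p + 1))
    (hΘ1 : v.n ≤ p → 1 / 2 ≤ Θ (p + 1) - Θ p * (1 + 2 * P.sg p / ((p : ℝ) - 1))) :
    ∃ Ψ : ℕ → ℝ,
      En D v Sl A A' (Ro (D.rho p) \ TRel D TW) s ≤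
        (1 - 1 / (p : ℝ)) * En D v Sl A A' (Ro (D.rho p) \ TRel D TW)
          ⟨p * s.M, s.M', p, uP p s.u, t₁⟩ +
        1 / (p : ℝ) * (1 + 1 / ((p : ℝ) - 1)) *
          En D v Sl A A' (Ro (D.rho p) \ TRel D TW) ⟨p * s.M, s.M', p, uM p s.u, t₀⟩ +
        C₀ * (Θ (p + 1) - Θ p * (1 + 2 * P.sg p / ((p : ℝ) - 1))) * (mq * nuL W s) +
        ∑ r ∈ Qi D Al t₀ A', Ψ r ∧
      ∀ r ∈ Qi D Al t₀ A', 0 ≤ Ψ r ∧ lL D rg W v q mq Hf (fun _ => Vs) s r +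
        (1 / (p : ℝ) * (1 + 1 / ((p : ℝ) - 1)) *
          UpT D mtt rg W v Sl q mq mu Hf Vs Vc Vx TW ⟨p * s.M, s.M', p, uM p s.u, t₀⟩ r + Ψ r) ≤
        UpT D mtt rg W v Sl q mq mu Hf Vs Vc Vx TW s r := by
  classical
  have hph : ∀ r ∈ Qi D Al t₀ A', _ := fun r hr =>
    PhiL_miss (Sl := Sl) (Vs := Vs) (Vc := Vc) (Vx := Vx) H.hh JpZ_mv hq (K := 1) le_rfl
      h0 h1 h2 e h hM' hu hr
  obtain ⟨M, M', l, u, t⟩ := s
  simp only at e hM' hu hJ hVc hph ⊢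
  subst e
  have hν := nuL_nn H.W0 h
  have hmν : 0 ≤ mq * nuL W ⟨M, M', l, u, .br p S t₁ t₀⟩ := mul_nonneg H.hmq hν
  have hpp : p.Prime := h.y.S.hF.1
  have hp1 : (1 : ℝ) < p := by exact_mod_cast hpp.one_lt
  have hpm : (0 : ℝ) < p - 1 := by linarith
  have hδ : 0 ≤ Θ (p + 1) - Θ p * (1 + 2 * P.sg p / ((p : ℝ) - 1)) := by linarith
  have hM2 : 0 < p * M := Nat.mul_pos hpp.pos h.M0
  have h1p : (0:ℝ) ≤ 1 / (p : ℝ) := by positivity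
  -- the families
  have hFb : ∀ j, PB (rv A (fun j => (D.toFT v.B v.A (.leaf Sl)).U 1 j) j) := fun j =>
    PB_rv (fun j => Crest.Agent.R4.Fam464.FT.pb H.b0
        (D.toFT_Adm _ v.B v.A H.b0 H.F H.Wt) (one_dvd _) j) A j
  -- excluded pairs
  have hTm := ColU32.miss_T (A := A) (A' := A') H.hR H.dead H.b0 H.F H.Wt hq hA H.hh h hM' hu hT
    (Ro (D.rho p))
  have hTs : 1 / (p : ℝ) * Q (Ro (D.rho p) ∩ TRel D TW) (D.uA (p * M) v.B v.A (.leaf Sl) A 1)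
        (D.uA M' (u.B * p) u.A t₀ A' 1) ≤
      ∑ r ∈ Qi D Al t₀ A', (if TW (q, r) then 1 / (p : ℝ) * (1 / (rf (r / u.A) M' : ℝ) * mu)
        else 0) := by
    refine hTm.trans ?_
    rw [Finset.sum_filter]
    refine Finset.sum_le_sum fun r _ => ?_
    split_ifs
    · exact mul_le_mul_of_nonneg_left (mul_le_mul_of_nonneg_left hmu (by positivity)) h1p
    · exact le_rfl
  have hT0 : ∀ r, 0 ≤ (if TW (q, r) then 1 / (p : ℝ) * (1 / (rf (r / u.A) M' : ℝ) * mu)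
        else 0) := by
    intro r
    split_ifs
    · positivity
    · exact le_rfl
  -- the pairs
  have hdv0 : LMv v.A q (1 / (p : ℝ) * (1 + 1 / ((p : ℝ) - 1))) ⟨M, M', l, u, .br p S t₁ t₀⟩
    ⟨p * M, M', p, uM p u, t₀⟩ := .dv0 hM' hu
  have kch := hdv0.chd (Sl := Sl) H.hh JpZ_mv hq h
  have hpair : ∀ r ∈ Qi D Al t₀ A', lL D rg W v q mq Hf (fun _ => Vs)
        ⟨M, M', l, u, .br p S t₁ t₀⟩ r +
      (1 / (p : ℝ) * (1 + 1 / ((p : ℝ) - 1)) *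
        UpT D mtt rg W v Sl q mq mu Hf Vs Vc Vx TW ⟨p * M, M', p, uM p u, t₀⟩ r +
        ((v.B : ℝ) * u.B * Vc p (SE M v.B v.A M' u.B u.A (q, r)) (q, r) +
          (if TW (q, r) then 1 / (p : ℝ) * (1 / (rf (r / u.A) M' : ℝ) * mu) else 0))) ≤
      UpT D mtt rg W v Sl q mq mu Hf Vs Vc Vx TW ⟨M, M', l, u, .br p S t₁ t₀⟩ r := by
    intro r hr
    have k1 := PhL_chd (V := fun _ => Vs) (mtt := mtt) (rg := rg) (H := Hf) hx H.W0 H.hmq hH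
      (fun _ => h0) H.hh hdv0 h kch hr
    have k2 := hph r hr
    have k3 : 1 / (p : ℝ) * (1 + 1 / ((p : ℝ) - 1)) * TT TW q mu ⟨p * M, M', p, uM p u, t₀⟩ r +
        (if TW (q, r) then 1 / (p : ℝ) * (1 / (rf (r / u.A) M' : ℝ) * mu) else 0) ≤
        TT TW q mu ⟨M, M', l, u, .br p S t₁ t₀⟩ r := by
      unfold TT
      split_ifs
      · exact ColU32.PhT_miss hmu0 hp3 r _
      · rw [mul_zero, add_zero]
    unfold UpT
    rw [mul_add, mul_add]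
    linarith
  have eE : ∀ R, En D v Sl A A' R ⟨M, M', l, u, .br p S t₁ t₀⟩ =
      Q R (avg M (rv A (fun j => (D.toFT v.B v.A (.leaf Sl)).U 1 j)))
        (D.uA M' u.B u.A (.br p S t₁ t₀) A' 1) := fun R => rfl
  have eM : ∀ R, En D v Sl A A' R ⟨p * M, M', p, uM p u, t₀⟩ =
      Q R (avg (p * M) (rv A (fun j => (D.toFT v.B v.A (.leaf Sl)).U 1 j)))
        (D.uA M' (u.B * p) u.A t₀ A' 1) := fun R => rfl
  have eP : ∀ R, En D v Sl A A' R ⟨p * M, M', p, uP p u, t₁⟩ =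
      Q R (avg (p * M) (rv A (fun j => (D.toFT v.B v.A (.leaf Sl)).U 1 j)))
        (D.uA M' u.B (u.A * p) t₁ A' 1) := fun R => rfl
  have hc : (1 - 1 / (p : ℝ))⁻¹ = 1 + 1 / ((p : ℝ) - 1) := by
    have : (1 : ℝ) - 1 / p = (p - 1) / p := by field_simp
    rw [this, inv_div]
    field_simp
    ring
  have hg0 : 0 ≤ 1 / ((p : ℝ) - 1) := by positivity
  have hC2 : 0 ≤ C₀ * (Θ (p + 1) - Θ p * (1 + 2 * P.sg p / ((p : ℝ) - 1))) *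
      (mq * nuL W ⟨M, M', l, u, .br p S t₁ t₀⟩) :=
    mul_nonneg (mul_nonneg (by linarith) hδ) hmν
  rcases lt_or_ge p v.n with hlt | hge
  · refine ⟨fun r => (if TW (q, r) then 1 / (p : ℝ) * (1 / (rf (r / u.A) M' : ℝ) * mu) else 0),
      ?_, fun r hr => ⟨hT0 r, ?_⟩⟩
    · have hN : ∀ j, Nc p (1 - 1 / (p : ℝ))⁻¹
          (avg M (rv A (fun j => (D.toFT v.B v.A (.leaf Sl)).U 1 j)) j) := fun j =>
        LeafTie28.Nc_uA' hpp.pos h.M0 (fun j hj => H.nc p M j hpp hlt h.M0 fun _ => by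
          rw [hA j hj]; exact hu) j
      have key := ColT32.Q_colD h.y.S h.M0' h.M0 hM' hFb (c := (1 - 1 / (p : ℝ))⁻¹)
        (by rw [hc]; linarith) hN (TRel D TW)
      rw [hc] at key
      have hTs' : 1 / (p : ℝ) * Q (Ro (D.rho p) ∩ TRel D TW)
          (avg (p * M) (rv A (fun j => (D.toFT v.B v.A (.leaf Sl)).U 1 j)))
          (D.uA M' (u.B * p) u.A t₀ A' 1) ≤ _ := hTs
      rw [eE, eM, eP]
      linarith
    · have k := hpair r hr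
      have k2 : 0 ≤ (v.B : ℝ) * u.B * Vc p (SE M v.B v.A M' u.B u.A (q, r)) (q, r) :=
        mul_nonneg (by positivity) (h1 _ _ _)
      show _ ≤ _
      linarith
  · refine ⟨fun r => (v.B : ℝ) * u.B * Vc p (SE M v.B v.A M' u.B u.A (q, r)) (q, r) +
      (if TW (q, r) then 1 / (p : ℝ) * (1 / (rf (r / u.A) M' : ℝ) * mu) else 0),
      ?_, fun r hr => ⟨add_nonneg (mul_nonneg (by positivity) (h1 _ _ _)) (hT0 r), hpair r hr⟩⟩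
    have k1 := EL.missR (A := A) (A' := A') H hA (s := ⟨M, M', l, u, .br p S t₁ t₀⟩) rfl h hJ
      (h1 p) (Ro (D.rho p) \ TRel D TW) hVc
    have k2 : 1 / 2 * (p : ℝ) ^ (-(11/12) : ℝ) ≤
        C₀ * (Θ (p + 1) - Θ p * (1 + 2 * P.sg p / ((p : ℝ) - 1))) := by
      have a1 : (p : ℝ) ^ (-(11/12) : ℝ) ≤ 1 :=
        Real.rpow_le_one_of_one_le_of_nonpos hp1.le (by norm_num)
      have a2 := hΘ1 hge
      nlinarith
    have k3 := mul_le_mul_of_nonneg_right k2 hmν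
    have key := ColT32.Q_colM h.y.S h.M0' h.M0 hM' hFb (TRel D TW)
    have hTs' : 1 / (p : ℝ) * Q (Ro (D.rho p) ∩ TRel D TW)
        (avg (p * M) (rv A (fun j => (D.toFT v.B v.A (.leaf Sl)).U 1 j)))
        (D.uA M' (u.B * p) u.A t₀ A' 1) ≤ _ := hTs
    have k1' : Q (Ro (D.rho p) \ TRel D TW)
        (avg M (rv A (fun j => (D.toFT v.B v.A (.leaf Sl)).U 1 j)))
        (D.uA M' (u.B * p) u.A t₀ A' p) ≤ _ := k1
    have k4 : 0 ≤ Q (Ro (D.rho p) \ TRel D TW)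
        (avg (p * M) (rv A (fun j => (D.toFT v.B v.A (.leaf Sl)).U 1 j)))
        (D.uA M' (u.B * p) u.A t₀ A' 1) :=
      Q_uA_nonneg hM2 h.M0' H.b0 h.y.S.br₀.hb H.F h.y.S.br₀.hF H.Wt h.y.S.br₀.hW (one_dvd _)
        (one_dvd _) _
    have k5 : 0 ≤ 1 / (p : ℝ) * (1 / ((p : ℝ) - 1)) * Q (Ro (D.rho p) \ TRel D TW)
        (avg (p * M) (rv A (fun j => (D.toFT v.B v.A (.leaf Sl)).U 1 j)))
        (D.uA M' (u.B * p) u.A t₀ A' 1) := by positivity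
    rw [Finset.sum_add_distrib, eE, eM, eP]
    have e3 : 1 / (p : ℝ) * (1 + 1 / ((p : ℝ) - 1)) * Q (Ro (D.rho p) \ TRel D TW)
        (avg (p * M) (rv A (fun j => (D.toFT v.B v.A (.leaf Sl)).U 1 j)))
        (D.uA M' (u.B * p) u.A t₀ A' 1) = 1 / (p : ℝ) * Q (Ro (D.rho p) \ TRel D TW)
        (avg (p * M) (rv A (fun j => (D.toFT v.B v.A (.leaf Sl)).U 1 j)))
        (D.uA M' (u.B * p) u.A t₀ A' 1) +
        1 / (p : ℝ) * (1 / ((p : ℝ) - 1)) * Q (Ro (D.rho p) \ TRel D TW)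
        (avg (p * M) (rv A (fun j => (D.toFT v.B v.A (.leaf Sl)).U 1 j)))
        (D.uA M' (u.B * p) u.A t₀ A' 1) := by ring
    rw [e3]
    linarith

/-! ### merges -/

/-- **the merges at a column**, excluded pairs -/
theorem mg_locT {Jp : ℕ × ℝ → ℕ × ℝ → ℕ × ℕ → Prop}
    (hdead : ∀ j, D.it j ∉ Al → ∀ a, D.om j a = 0) (hW : ∀ r, 0 ≤ W r) (hm : 0 ≤ mq)
    (hH : ∀ k, 0 ≤ Hf k) {V : ℕ → ℝ × ℝ → ℕ × ℕ → ℝ} (hV : ∀ k s e, 0 ≤ V k s e)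
    {A₀ : Finset Λ} {d : DT Λ κ}
    (hl : SideI D sp v.B v.A (.leaf Sl) A₀ d) (hA : Qi D Al (.leaf Sl) A ⊆ {q}) {s : LSt}
    (h : LOk D Al sp Qp Jp v q A' s) (hc : Colm s) (TR : Finset (Λ × Λ))
    (hpair : ∀ r ∈ Qi D Al s.t A', q ∈ Qi D Al (.leaf Sl) A →
      (q, r) ∈ D.PE ((Ro (D.rho s.l) \ Ro (D.rho (tp s.t))) \ TR)
        (D.uA s.M v.B v.A (.leaf Sl) A 1) (D.uA s.M' s.u.B s.u.A s.t A' 1) →
      D.iF (Ro (D.rho s.l) \ Ro (D.rho (tp s.t))) (D.uA s.M v.B v.A (.leaf Sl) A 1)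
        (D.uA s.M' s.u.B s.u.A s.t A' 1) (q, r) ≤ XL W v q mq Hf V s r (rg (tp s.t))) :
    Q ((Ro (D.rho s.l) \ Ro (D.rho (tp s.t))) \ TR) (D.uA s.M v.B v.A (.leaf Sl) A 1)
        (D.uA s.M' s.u.B s.u.A s.t A' 1) ≤
      ∑ r ∈ Qi D Al s.t A', lL D rg W v q mq Hf V s r := by
  classical
  have hsub := PE_sub hdead h.M0 h.M0' hl.hb h.y.S.hb hl.hF h.y.S.hF hl.hW h.y.S.hW
    (one_dvd _) (one_dvd _) ((Ro (D.rho s.l) \ Ro (D.rho (tp s.t))) \ TR) A A'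
  rw [D.Q_eq]
  have e1 : ∑ r ∈ Qi D Al s.t A', lL D rg W v q mq Hf V s r =
      ∑ e ∈ ({q} : Finset ℕ) ×ˢ Qi D Al s.t A', lL D rg W v q mq Hf V s e.2 := by
    rw [Finset.sum_product, Finset.sum_singleton]
  rw [e1]
  have hsub2 : D.PE ((Ro (D.rho s.l) \ Ro (D.rho (tp s.t))) \ TR)
      (D.uA s.M v.B v.A (.leaf Sl) A 1)
      (D.uA s.M' s.u.B s.u.A s.t A' 1) ⊆ ({q} : Finset ℕ) ×ˢ Qi D Al s.t A' := by
    intro e he
    obtain ⟨a1, a2⟩ := Finset.mem_product.1 (hsub he)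
    exact Finset.mem_product.2 ⟨hA a1, a2⟩
  refine le_trans (Finset.sum_le_sum fun e he => ?_)
    (Finset.sum_le_sum_of_subset_of_nonneg hsub2 fun e _ _ => lL_nonneg hW hm hH hV h.c0 _)
  obtain ⟨a1, a2⟩ := Finset.mem_product.1 (hsub he)
  have hq : e.1 = q := Finset.mem_singleton.1 (hA a1)
  have he' : e = (q, e.2) := Prod.ext hq rfl
  rw [hq] at a1
  rw [he'] at he ⊢
  have h1 := hpair e.2 a2 a1 he
  have hcf : fl D (Ro (D.rho s.l)) (tp s.t) (q, e.2) = 1 := by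
    unfold fl
    rw [if_neg]
    intro hcl
    obtain ⟨j, j', hR, -, -, hj, hj', -⟩ := Par.PE_ex h.M0 h.M0' he
    rw [Finset.mem_sdiff, Finset.mem_sdiff] at hR
    exact hR.1.2 (hcl j j' hj hj' hR.1.1)
  unfold lL
  rw [if_pos hc, hcf, one_mul]
  refine le_trans ?_ h1
  unfold Par.iF
  refine Finset.sum_le_sum_of_subset_of_nonneg
    (Finset.filter_subset_filter _ Finset.sdiff_subset) fun x _ _ => ?_
  exact I_nonneg ((PB_uA h.M0 hl.hb hl.hF hl.hW (one_dvd _) x.1).mul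
    (PB_uA h.M0' h.y.S.hb h.y.S.hF h.y.S.hW (one_dvd _) x.2)).nonneg

end div
end Crest.Agent.R4P.LeafV27
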