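import Crest.Agent.R4P.LeafV_27
import Crest.Agent.R4P.LeafS_27
import Crest.Agent.R4P.LTT_25
import Crest.Agent.R4P.ColV_32

/-!
R4P (S0004), helper27, module D, group [X]: **the (leaf, tree) states with excluded pairs**.

* `stop_ctxR`, `leaf_ctxR` : stops and leaf ends of the leaf walk, any relation;
* `item_ctxT` : one leaf item of a context, excluded pairs;
* `ctx_LTT`, `exists_LTT` : **the bound `LTT` of LTT_25**.
-/

set_option autoImplicit false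
set_option linter.unusedSectionVars false
set_option linter.unusedVariables false
open Finset hiding dens

namespace Crest.Agent.R4P.LeafY27

open Crest.Agent.R4.HVW560 Crest.Agent.R4P.AvgItem710
open Crest.Agent.R4.Tour104 Crest.Agent.R4.Tour758 Crest.Agent.R4.Avg758 Crest.Agent.R4.Clos758
open Crest.Agent.R4.ClosL758 Crest.Agent.R4.ClosG758 Crest.Agent.R4.ClosR758
open Crest.Agent.R4P.Cnt588 Crest.Agent.R4P.Walk560 Crest.Agent.R4P.Item758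
open Crest.Agent.R4P.Bld532 (NS All NodeOk Bk dv nd mem_dv mem_nd)
open Crest.Agent.R4P.GSt927 Crest.Agent.R4P.WalkIT579 Crest.Agent.R4P.NMW710
open Crest.Agent.R4P.CrossLoc25 Crest.Agent.R4P.CrossLocC25 Crest.Agent.R4P.YI25
open Crest.Agent.R4P.LeafCol27 Crest.Agent.R4P.LeafM27 Crest.Agent.R4P.LeafT27
open Crest.Agent.R4P.LeafW27 Crest.Agent.R4P.LeafX27

section ends
open Crest.Agent.R4.Ovl560 (dens dens_pos CM)
open Crest.Agent.R4P.Skel189 (Ctx top)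
open Crest.Agent.R4.Soft104 (w)
open Crest.Agent.R4P.Frame758 (wt)
open Crest.Agent.R4P.LLCtx30 Crest.Agent.R4P.LLPair30 Crest.Agent.R4P.LeafOs30
open Crest.Agent.R4P.TBLeaf28 (JC LoX)
open Crest.Agent.R4P.StopLeaf28 Crest.Agent.R4P.StopCtx9 Crest.Agent.R4P.CofMono28 Crest.Agent.R4P.GInst194
open Crest.Agent.R4P.EndP25 Crest.Agent.R4P.XStop25
open Crest.Agent.R4P.Step588 (NDt CT CT_pos)
open Crest.Agent.R4P.LeafFam28 (OmW)
open Crest.Agent.R4P.Data758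
open Crest.Agent.R4P.WmfL25 (mL)
open Crest.Agent.R4P

variable {N : Skel189.Num} {γ : ℝ} {p0 P₀ : ℕ} {X : Ctx N γ p0 P₀} {j₀ : X.c.Lam}
  {Qp : NS → IT → Prop} {v : NS} {Sl : Finset ℕ} {q : ℕ} {A A' : Finset X.c.Lam} {Ch T x : ℝ}
  {s₀ : ℕ × ℕ → ℝ × ℝ} {x0 y0 : ℕ × ℕ → ℕ} {Vs : ℝ × ℝ → ℕ × ℕ → ℝ}
  {Vc Vx : ℕ → ℝ × ℝ → ℕ × ℕ → ℝ}

open Classical in
/-- **stops of the leaf walk**, any relation -/
theorem stop_ctxR (C : LXC X j₀ Ch T x Qp) (hv : Qp v (.leaf Sl)) {d : DT X.c.Lam (Lb (WL X.c.Lam) X.Y)}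
    {A₀ : Finset X.c.Lam} (hL : SideI (X.c.D.par X.Y) (fun _ => ∅) v.B v.A (.leaf Sl) A₀ d)
    (hA : ∀ j ∈ A, (X.c.D.par X.Y).it j = q) {s : LSt} {p : ℕ} {S : Finset ℕ} {t₁ t₀ : IT}
    (ht : s.t = .br p S t₁ t₀)
    (h : LOk (X.c.D.par X.Y) X.S' (fun _ => ∅) Qp (JpZ s₀ x0 y0) v q A' s) {O : Finset ℕ}
    (hO : ∀ l ∈ O, l.Prime ∧ p < l ∧ ∀ r ∈ Qi (X.c.D.par X.Y) X.S' s.t A', l ∣ y0 (q, r))
    (hs : (p : ℝ) ^ (-(1 / 3) : ℝ) ≤ ∑ l ∈ O, 1 / (l : ℝ)) (h0 : ∀ s e, 0 ≤ Vs s e)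
    (R : Finset (X.c.Lam × X.c.Lam))
    (hVs : ∀ e ∈ (X.c.D.par X.Y).PE R
      ((X.c.D.par X.Y).uA s.M v.B v.A (.leaf Sl) A 1)
      ((X.c.D.par X.Y).uA s.M' s.u.B s.u.A s.t A' 1),
      e ∈ Qi (X.c.D.par X.Y) X.S' (.leaf Sl) A ×ˢ Qi (X.c.D.par X.Y) X.S' s.t A' →
      FL (LoSt T p0 X.c.rr x0 y0) X.c.rr (X.c.D.par X.Y).γ (SE s.M v.B v.A s.M' s.u.B s.u.A e) e ≤
        Vs (SE s.M v.B v.A s.M' s.u.B s.u.A e) e) :
    En (X.c.D.par X.Y) v Sl A A' R s ≤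
      CS₀ Ch * (mL X v q * nuL (w X.ψ) s) + ∑ r ∈ Qi (X.c.D.par X.Y) X.S' s.t A',
        (v.B : ℝ) * s.u.B * Vs (SE s.M v.B v.A s.M' s.u.B s.u.A (q, r)) (q, r) := by
  have hnl : ¬ isL s.t := by rw [ht]; simp [isL]
  have htp : WalkIT579.tp s.t = p := by rw [ht]; rfl
  have hQs := h.y.q.self
  have hN := C.nd _ _ hQs
  rw [ht] at hN
  have hpp0 : p0 < p := hN.2.2.1
  have hR' := h.y.S
  have okR : ((X.c.D.par X.Y).toDT (fun _ => ∅) s.u.B s.u.A s.t).g.Ok := SideI.okg hR'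
  have hqp : ∀ e ∈ Qi (X.c.D.par X.Y) X.S' (.leaf Sl) A ×ˢ Qi (X.c.D.par X.Y) X.S' s.t A',
      e.1 = q ∧ e.2 ∈ Qi (X.c.D.par X.Y) X.S' s.t A' := by
    intro e he
    obtain ⟨h1, h2⟩ := Finset.mem_product.1 he
    exact ⟨Finset.mem_singleton.1 (Qi_one hA h1), h2⟩
  have hJ : ∀ e ∈ Qi (X.c.D.par X.Y) X.S' (.leaf Sl) A ×ˢ Qi (X.c.D.par X.Y) X.S' s.t A',
      JC x0 y0 s.M v.A s.M' s.u.A e := by
    intro e he
    obtain ⟨h1, h2⟩ := hqp e he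
    have := jc_of h h2
    rwa [← h1] at this
  have hLo : ∀ e ∈ Qi (X.c.D.par X.Y) X.S' (.leaf Sl) A ×ˢ Qi (X.c.D.par X.Y) X.S' s.t A',
      ¬ LoSt T p0 X.c.rr x0 y0 (SE s.M v.B v.A s.M' s.u.B s.u.A e) e →
      Tn (WalkIT579.tp s.t) ≤ Dsc (X.c.rr e.1) (X.c.rr e.2) (SE s.M v.B v.A s.M' s.u.B s.u.A e) ∧
      SD (x0 e) (y0 e) (Real.sqrt (Dsc (X.c.rr e.1) (X.c.rr e.2)
        (SE s.M v.B v.A s.M' s.u.B s.u.A e))) ≤ 1 := by
    intro e he hn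
    obtain ⟨h1, h2⟩ := hqp e he
    have hj := hJ e he
    rw [htp]
    refine LoSt_stop hpp0.le ?_ hn
    have h3 : ∑ l ∈ O, (1 : ℝ) / l ≤ SD (x0 e) (y0 e) p := by
      refine SD_of_list hj.px hj.py fun l hl => ⟨(hO l hl).1, by exact_mod_cast (hO l hl).2.1, ?_⟩
      have h4 := (hO l hl).2.2 _ h2
      have h5 : e = (q, e.2) := Prod.ext h1 rfl
      rw [h5]
      exact Dvd.dvd.mul_left h4 _
    have h6 : (0:ℝ) ≤ (p : ℝ) ^ (-(1 / 3) : ℝ) := by positivity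
    linarith
  have hab := C.cs.ab
  have key := HLsb_P' (x0 := x0) (y0 := y0) (Lo := LoSt T p0 X.c.rr x0 y0) (Vs := Vs)
    PairO28.pairO (by have := CV_ge; linarith) C.cs.rad C.cs.dead h.M0 h.M0' hL hR'
    (C.qs _ _ hQs).1 hnl hab C.cs.c0 C.cs.full h.y.il
    (fun j => CStop25.mnn_ok okR j) C.cs.CL0 (by rw [htp]; omega) C.cs.Ch0
    (by rw [htp]; exact C.hln p hpp0.le)
    (SameIx30.LfA.omw (C.dt _ _ hv) (C.lf _ _ hv)) R hJ hLo h0 hVs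
  unfold En
  refine key.trans (add_le_add ?_ ?_)
  · have m1 := sum_one_item (v := v) (Sl := Sl) C hA
    have m2 := mI_le_nu C hQs h.c0 hR'
    have m0 : 0 ≤ ∑ j ∈ A', mI ((X.c.D.par X.Y).toDT (fun _ => ∅) s.u.B s.u.A s.t) j :=
      Finset.sum_nonneg fun j _ => CStop25.mnn_ok okR j
    have m3 := mul_le_mul m1 m2 m0 (LeafX27.mL_nonneg C v q)
    have hcv : 0 ≤ CV * 2 * Real.exp 2 / 2 * (Ch + 1 / (1 / 2)) := by
      have := CV_ge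
      have := C.cs.Ch0
      have := Real.exp_pos 2
      positivity
    calc _ ≤ CV * 2 * Real.exp 2 / 2 * (Ch + 1 / (1 / 2)) *
          (mL X v q * (4 * (s.u.c * Ws (w X.ψ) s.t.items))) :=
          mul_le_mul_of_nonneg_left m3 hcv
      _ = _ := by unfold CS₀ nuL; ring
  · exact sum_one_pair (F := fun e => (v.B : ℝ) * s.u.B * Vs (SE s.M v.B v.A s.M' s.u.B s.u.A e) e)
      C hA (fun e => mul_nonneg (by positivity) (h0 _ _)) _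

open Classical in
/-- **(leaf item, leaf')**, any relation -/
theorem leaf_ctxR (C : LXC X j₀ Ch T x Qp) (hv : Qp v (.leaf Sl))
    {d : DT X.c.Lam (Lb (WL X.c.Lam) X.Y)}
    {A₀ : Finset X.c.Lam} (hL : SideI (X.c.D.par X.Y) (fun _ => ∅) v.B v.A (.leaf Sl) A₀ d)
    (hA : ∀ j ∈ A, (X.c.D.par X.Y).it j = q) {s : LSt} {S : Finset ℕ} (ht : s.t = .leaf S)
    (h : LOk (X.c.D.par X.Y) X.S' (fun _ => ∅) Qp (JpZ s₀ x0 y0) v q A' s)
    (hX : ∀ l : ℕ, l.Prime → l < v.n → (l : ℝ) ≤ x)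
    (hX' : ∀ l : ℕ, l.Prime → l < s.u.n → (l : ℝ) ≤ x) (h0 : ∀ s e, 0 ≤ Vs s e)
    (R : Finset (X.c.Lam × X.c.Lam))
    (hVs : ∀ e ∈ (X.c.D.par X.Y).PE R
      ((X.c.D.par X.Y).uA s.M v.B v.A (.leaf Sl) A 1)
      ((X.c.D.par X.Y).uA s.M' s.u.B s.u.A s.t A' 1),
      e ∈ Qi (X.c.D.par X.Y) X.S' (.leaf Sl) A ×ˢ Qi (X.c.D.par X.Y) X.S' s.t A' →
      FL (LoSt T p0 X.c.rr x0 y0) X.c.rr (X.c.D.par X.Y).γ (SE s.M v.B v.A s.M' s.u.B s.u.A e) e ≤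
        Vs (SE s.M v.B v.A s.M' s.u.B s.u.A e) e) :
    En (X.c.D.par X.Y) v Sl A A' R s ≤
      CL₀ * (mL X v q * nuL (w X.ψ) s) + ∑ r ∈ Qi (X.c.D.par X.Y) X.S' s.t A',
        (v.B : ℝ) * s.u.B * Vs (SE s.M v.B v.A s.M' s.u.B s.u.A (q, r)) (q, r) := by
  have hQs := h.y.q.self
  have hlf := C.lf _ _ hv
  have hlf' : LfA X X.Y s.u S := C.lf _ _ (by rw [← ht]; exact hQs)
  have hR' := h.y.S
  have hqp : ∀ e ∈ Qi (X.c.D.par X.Y) X.S' (.leaf Sl) A ×ˢ Qi (X.c.D.par X.Y) X.S' s.t A',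
      e.1 = q ∧ e.2 ∈ Qi (X.c.D.par X.Y) X.S' s.t A' := by
    intro e he
    obtain ⟨h1, h2⟩ := Finset.mem_product.1 he
    exact ⟨Finset.mem_singleton.1 (Qi_one hA h1), h2⟩
  have hJ : ∀ e ∈ Qi (X.c.D.par X.Y) X.S' (.leaf Sl) A ×ˢ Qi (X.c.D.par X.Y) X.S' s.t A',
      JC x0 y0 s.M v.A s.M' s.u.A e := by
    intro e he
    obtain ⟨h1, h2⟩ := hqp e he
    have := jc_of h h2
    rwa [← h1] at this
  have hlog : 0 < Real.log x := Real.log_pos (by linarith [C.x2])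
  have hCM : 0 < CM := Crest.Agent.R4.Ovl560.CM_pos
  have hpd : ∀ v : ℕ, 0 < dens v.primeFactors := fun v =>
    dens_pos fun l hl => Nat.prime_of_mem_primeFactors hl
  have hT0 : 0 ≤ T := by linarith [C.T2]
  have hd : ∀ e ∈ Qi (X.c.D.par X.Y) X.S' (.leaf Sl) A ×ˢ Qi (X.c.D.par X.Y) X.S' s.t A',
      1 ≤ (4 * CM ^ 2) * (T * (dens (e.1 / v.A).primeFactors * dens (e.2 / s.u.A).primeFactors)) := by
    intro e he
    obtain ⟨h1, h2⟩ := Finset.mem_product.1 he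
    obtain ⟨a1, a2⟩ := mem_Qi_leaf h1
    rw [ht] at h2
    obtain ⟨b1, b2⟩ := mem_Qi_leaf h2
    have k1 := hlf.ds _ a1 a2 x C.x2 hX
    have k2 := hlf'.ds _ b1 b2 x C.x2 hX'
    have p1 := hpd (e.1 / v.A)
    have p2 := hpd (e.2 / s.u.A)
    have k3 : 1 ≤ (2 * (CM * Real.log x) * dens (e.1 / v.A).primeFactors) *
        (2 * (CM * Real.log x) * dens (e.2 / s.u.A).primeFactors) := by
      calc (1:ℝ) = 1 * 1 := by ring
        _ ≤ _ := mul_le_mul k1 k2 (by norm_num) (by linarith)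
    calc (1:ℝ) ≤ _ := k3
      _ = 4 * CM ^ 2 * (Real.log x ^ 2 *
          (dens (e.1 / v.A).primeFactors * dens (e.2 / s.u.A).primeFactors)) := by ring
      _ ≤ _ := by
          refine mul_le_mul_of_nonneg_left ?_ (by positivity)
          exact mul_le_mul_of_nonneg_right C.Tx (mul_nonneg p1.le p2.le)
  have key := LL_P (x0 := x0) (y0 := y0) (Lo := LoSt T p0 X.c.rr x0 y0) (Vs := Vs)
    (LoX_LoSt C.T2) (T₁ := T) (fun s e hn => LoSt_T s e hn) C.cs.rad C.cs.dead h.M0 h.M0' hL.hb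
    hR'.hb hL.hF hR'.hF hL.hW hR'.hW R A A' (K := 2) (K' := 2)
    (by norm_num) (by norm_num)
    (P := fun q => (q / v.A).primeFactors) (P' := fun q => (q / s.u.A).primeFactors)
    (φ := phC X) (φ' := phC X) (lab := labC X) (lab' := labC X)
    (fun q hq => ⟨rfl, hlf.om q (mem_Qi_leaf hq).1 (mem_Qi_leaf hq).2⟩)
    (fun q hq => by
      rw [ht] at hq ⊢
      exact ⟨rfl, hlf'.om q (mem_Qi_leaf hq).1 (mem_Qi_leaf hq).2⟩)
    hJ (T₂ := 4 * CM ^ 2) (by positivity) hd h0 hVs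
  unfold En
  refine key.trans (add_le_add ?_ ?_)
  · have m1 := sum_one_item (v := v) (Sl := Sl) C hA
    have m2 : ∑ r ∈ Qi (X.c.D.par X.Y) X.S' s.t A', (s.u.B : ℝ) * X.c.rr r *
        dens (r / s.u.A).primeFactors ≤ nuL (w X.ψ) s := by
      unfold nuL Ws
      rw [Finset.mul_sum]
      refine (Finset.sum_le_sum fun r hr => ?_).trans (Finset.sum_le_sum_of_subset_of_nonneg
        (fun r hr => (mem_Qi.1 hr).1) fun r _ _ => mul_nonneg h.c0 (X.hW r))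
      rw [ht] at hr
      exact hlf'.ms r (mem_Qi_leaf hr).1 (mem_Qi_leaf hr).2
    have m0 : 0 ≤ ∑ r ∈ Qi (X.c.D.par X.Y) X.S' s.t A', (s.u.B : ℝ) * X.c.rr r *
        dens (r / s.u.A).primeFactors := Finset.sum_nonneg fun r _ => by
      have := (rr_pos C r).le
      have := (hpd (r / s.u.A)).le
      positivity
    have m3 := mul_le_mul m1 m2 m0 (LeafX27.mL_nonneg C v q)
    exact mul_le_mul_of_nonneg_left m3 (by
      have := Real.exp_pos 2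
      have := CLL_ge
      positivity)
  · exact sum_one_pair (F := fun e => (v.B : ℝ) * s.u.B * Vs (SE s.M v.B v.A s.M' s.u.B s.u.A e) e)
      C hA (fun e => mul_nonneg (by positivity) (h0 _ _)) _

end ends

open Crest.Agent.R4.Fam464
open Crest.Agent.R4P.LeafLoc28
open Crest.Agent.R4P.LeafMg30 Crest.Agent.R4P.WmfL25 Crest.Agent.R4P.LeafIx29
open Crest.Agent.R4P.BlksP29 Crest.Agent.R4P.IvX29
open Crest.Agent.R4P.ShrG28 (HG HG_nonneg c_nonneg_of_nd)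
open Crest.Agent.R4P.Data758 Crest.Agent.R4.Piece464
open Crest.Agent.R4P.TBLeaf28 (JC LoX)
open Crest.Agent.R4P.Skel189 (Ctx top Kc)
open Crest.Agent.R4P.Step588 (NDt ND1 CT CT_pos)
open Crest.Agent.R4P.OSFin710 (OB)
open Crest.Agent.R4P.LLCtx30 (LfA TmN lf_mass)
open Crest.Agent.R4.Soft104 (w)
open Crest.Agent.R4P.StopLeaf28 (LoSt LoX_LoSt LoS_LoSt LoSt_stop LoSt_T HLN exists_HLN)
open Crest.Agent.R4P.SameIx30 (VU Vm VU_nonneg Vm_nonneg)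
open Crest.Agent.R4P.VNum34 (US mem_US stp2)
open Crest.Agent.R4P.Frame758 (wt)
open Crest.Agent.R4.Ovl560 (CM dens dens_pos)
open Crest.Agent.R4.DeepSt579 (tq)
open Crest.Agent.R4P.CStop25
open Crest.Agent.R4P.LocX25
open Crest.Agent.R4P.LeafU27 Crest.Agent.R4P.LeafV27
open Crest.Agent.R4P.ColU32 (TRel mem_TRel PE_sdiff PhT PhT_nonneg)
open Crest.Agent.R4P.LeafS27 (NumL C₀L C₀L_one LXC.of tm_side)
open Crest.Agent.R4P.GInst194 (mU)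
open Crest.Agent.R4P

variable {N : Skel189.Num} {γ : ℝ} {p0 P₀ : ℕ} {X : Ctx N γ p0 P₀} {j₀ : X.c.Lam} {b : ℕ}
  {Ch T : ℝ} {Qp : NS → IT → Prop}

/-- numbers of the leaf walk with excluded pairs -/
structure NumT (N : Skel189.Num) (Ch : ℝ) (p0 : ℕ) : Prop extends NumL N Ch p0 where
  hnum : ∀ p : ℕ, p0 < p → 2 * ((C₀L Ch + 2) / ((p : ℝ) - 1)) ≤ (p : ℝ) ^ (-(11/12) : ℝ)

lemma exists_hnum (C : ℝ) (hC : 0 ≤ C) : ∃ p₁ : ℕ, ∀ p : ℕ, p₁ ≤ p →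
    2 * (C / ((p : ℝ) - 1)) ≤ (p : ℝ) ^ (-(11/12) : ℝ) := by
  obtain ⟨n, hn⟩ := log_small (4 * C) 0 (δ := 1 / 12) (by norm_num)
  refine ⟨n + 2, fun p hp => ?_⟩
  have h := hn p (by omega)
  rw [Real.rpow_zero, mul_one] at h
  have hp2 : (2 : ℝ) ≤ p := by exact_mod_cast (by omega : 2 ≤ p)
  have hp0 : (0 : ℝ) < p := by linarith
  have hp1 : (0 : ℝ) < p - 1 := by linarith
  have h1 : 2 * (C / ((p : ℝ) - 1)) ≤ 4 * C * (p : ℝ)⁻¹ := by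
    rw [← div_eq_mul_inv, ← mul_div_assoc, div_le_div_iff₀ hp1 hp0]
    nlinarith
  have h2 : 4 * C * (p : ℝ)⁻¹ ≤ (p : ℝ) ^ (1 / 12 : ℝ) * (p : ℝ)⁻¹ :=
    mul_le_mul_of_nonneg_right h (by positivity)
  have h3 : (p : ℝ) ^ (1 / 12 : ℝ) * (p : ℝ)⁻¹ = (p : ℝ) ^ (-(11/12) : ℝ) := by
    rw [← Real.rpow_neg_one (p : ℝ), ← Real.rpow_add hp0]
    norm_num
  linarith

theorem exists_NumT (N : Skel189.Num) (Ch : ℝ) : ∃ p₁ : ℕ, ∀ p0 ≥ p₁, NumT N Ch p0 := by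
  obtain ⟨a1, h1⟩ := LeafS27.exists_NumL N Ch
  obtain ⟨a2, h2⟩ := exists_hnum (C₀L Ch + 2) (by have := C₀L_one (Ch := Ch); linarith)
  exact ⟨a1 + a2, fun p0 hp0 => ⟨h1 p0 (by omega), fun p hp => h2 p (by omega)⟩⟩

/-! ### one item -/

section item
variable {v : NS} {Sl : Finset ℕ} {q : ℕ} {A₀ A' : Finset X.c.Lam} {x0 y0 : ℕ × ℕ → ℕ}
  {s₀ : ℕ × ℕ → ℝ × ℝ} {PV TW : ℕ × ℕ → Prop} {Pc : ℕ → ℕ × ℕ → Prop}

/-- pairs which count and are not excluded -/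
def PVt (TW PV : ℕ × ℕ → Prop) (e : ℕ × ℕ) : Prop := PV e ∧ ¬ TW e

def Pct (TW : ℕ × ℕ → Prop) (Pc : ℕ → ℕ × ℕ → Prop) (l : ℕ) (e : ℕ × ℕ) : Prop := Pc l e ∧ ¬ TW e

open Classical in
/-- **ONE LEAF ITEM OF A CONTEXT** against a tree, excluded pairs -/
theorem item_ctxT (hH : HC X Ch) (hQ : QH X j₀ b Ch Qp) (hN : NumT N Ch p0) (hb : 2 ≤ b)
    (hT : TX b ≤ T) (hP : PrT X Qp b s₀ TW PV Pc) {d : DT X.c.Lam (Lb (WL X.c.Lam) X.Y)}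
    (hv : SY (X.c.D.par X.Y) (fun _ => ∅) Qp v (.leaf Sl) A₀ d)
    (hq : q ∈ Qi (X.c.D.par X.Y) X.S' (.leaf Sl) A₀) {s : LSt}
    (h : LOk (X.c.D.par X.Y) X.S' (fun _ => ∅) Qp (JpZ s₀ x0 y0) v q A' s) (hx : JX p0 v b s) :
    En (X.c.D.par X.Y) v Sl (A₀.filter fun j => (X.c.D.par X.Y).it j = q) A'
        (Ro ((X.c.D.par X.Y).rho s.l) \ TRel (X.c.D.par X.Y) TW) s ≤
      2 * (C₀L Ch + 2) * (mL X v q * nuL (w X.ψ) s) +
      3 * ∑ r ∈ Qi (X.c.D.par X.Y) X.S' s.t A',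
        UpT (X.c.D.par X.Y) X.c.t.mt ParF5.rg (w X.ψ) v Sl q (mL X v q) (4 * (v.c * w X.ψ q))
          (HG KL (1 / 4)) (VsX X (PVt TW PV) x0 y0 T) (VcX X (Pct TW Pc) x0 y0 T)
          (fun _ _ _ => 0) TW s r := by
  obtain ⟨hqS, hqa, -⟩ := mem_Qi.1 hq
  have hqS' : q ∈ Sl := hqS
  have C := LXC.of hH hQ hN.toNumL hb hT
  have hrr := (X.ok.rad X.Y).pos
  have hvq : Qp v (.leaf Sl) := hv.q.self
  have hA : ∀ j ∈ A₀.filter (fun j => (X.c.D.par X.Y).it j = q), (X.c.D.par X.Y).it j = q :=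
    fun j hj => (Finset.mem_filter.1 hj).2
  have hl : LD (X.c.D.par X.Y) Qp v Sl := ⟨hv.S.hb, hv.S.hF, hv.S.hW, hv.q, hv.ok⟩
  have hV0 : ∀ s e, 0 ≤ VsX X (PVt TW PV) x0 y0 T s e := fun s e => VU_nonneg hrr _ _ _ s e
  have hVc0 : ∀ l s e, 0 ≤ VcX X (Pct TW Pc) x0 y0 T l s e := fun _ _ _ => VcL_nonneg hrr _ _ _
  have hVx0 : ∀ (l : ℕ) (s : ℝ × ℝ) (e : ℕ × ℕ), (0:ℝ) ≤ (fun _ _ _ => 0 :
    ℕ → ℝ × ℝ → ℕ × ℕ → ℝ) l s e := fun _ _ _ => le_rfl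
  have hW0 : ∀ q, 0 ≤ w X.ψ q := fun q => Crest.Agent.R4.Soft104.w_nonneg X.sys.nonneg q
  have T2 := C.T2
  have hmL : 0 ≤ mL X v q := LeafX27.mL_nonneg C v q
  have hcv : 0 ≤ v.c := c_nonneg_of_nd (hQ.nd _ _ hvq).self.node
  have hmu0 : 0 ≤ 4 * (v.c * w X.ψ q) := by have := hW0 q; positivity
  have hHG : ∀ k, 0 ≤ HG KL (1 / 4) k := fun k => HG_nonneg KL_nonneg _ k
  have hsubS : (IT.leaf Sl).items ⊆ X.S := by
    have h := (hQ.nd _ _ hvq).self.sub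
    rwa [X.items] at h
  have hmu : mU (X.c.D.par X.Y) v.B v.A 1 (.leaf Sl)
      (A₀.filter fun j => (X.c.D.par X.Y).it j = q) q ≤ 4 * (v.c * w X.ψ q) :=
    ColU32.mU_le (hQ.qx _ _ hvq) hcv hv.S.hb hv.S.hF hv.S.hW hsubS hqS _
  -- the pairs which count
  have hPV : ∀ s, LOk (X.c.D.par X.Y) X.S' (fun _ => ∅) Qp (JpZ s₀ x0 y0) v q A' s → JX p0 v b s →
      ∀ r ∈ Qi (X.c.D.par X.Y) X.S' s.t A', ∀ R ⊆ Ro ((X.c.D.par X.Y).rho s.l),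
      (q, r) ∈ (X.c.D.par X.Y).PE (R \ TRel (X.c.D.par X.Y) TW)
        ((X.c.D.par X.Y).uA s.M v.B v.A (.leaf Sl)
          (A₀.filter fun j => (X.c.D.par X.Y).it j = q) 1)
        ((X.c.D.par X.Y).uA s.M' s.u.B s.u.A s.t A' 1) → PVt TW PV (q, r) := by
    intro s hk hx r hr R hR he
    obtain ⟨k1, k2⟩ := PE_sdiff he
    have k := hx.lc.lkg hl hk hR k2
    rw [se_of hk hr] at k
    exact ⟨hP.pv s.l (q, r) k1 hx.lc.1 hx.l0 hx.lb k, k1⟩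
  have hVs : ∀ s, LOk (X.c.D.par X.Y) X.S' (fun _ => ∅) Qp (JpZ s₀ x0 y0) v q A' s → JX p0 v b s →
      ∀ e ∈ (X.c.D.par X.Y).PE (Ro ((X.c.D.par X.Y).rho s.l) \ TRel (X.c.D.par X.Y) TW)
      ((X.c.D.par X.Y).uA s.M v.B v.A (.leaf Sl)
        (A₀.filter fun j => (X.c.D.par X.Y).it j = q) 1)
      ((X.c.D.par X.Y).uA s.M' s.u.B s.u.A s.t A' 1),
      e ∈ Qi (X.c.D.par X.Y) X.S' (.leaf Sl) (A₀.filter fun j => (X.c.D.par X.Y).it j = q) ×ˢ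
        Qi (X.c.D.par X.Y) X.S' s.t A' →
      FL (LoSt T p0 X.c.rr x0 y0) X.c.rr (X.c.D.par X.Y).γ (SE s.M v.B v.A s.M' s.u.B s.u.A e) e ≤
        VsX X (PVt TW PV) x0 y0 T (SE s.M v.B v.A s.M' s.u.B s.u.A e) e := by
    intro s hk hx e he he'
    obtain ⟨h1, h2⟩ := Finset.mem_product.1 he'
    have e1 : e.1 = q := Finset.mem_singleton.1 (LeafX27.Qi_one hA h1)
    have e2 : e = (q, e.2) := Prod.ext e1 rfl
    have k : PVt TW PV e := by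
      rw [e2] at he ⊢
      exact hPV s hk hx e.2 h2 _ Finset.Subset.rfl he
    show _ ≤ VU (PVt TW PV) (LoSt T p0 X.c.rr x0 y0) X.c.rr X.c.γ _ _
    unfold SameIx30.VU
    rw [if_pos k]
    exact le_add_of_nonneg_right (Vm_nonneg hrr _ _ _)
  have hsub0 : ∀ {p : ℕ} {S : Finset ℕ} {t₁ t₀ : IT} {s : LSt}, s.t = .br p S t₁ t₀ →
      Qi (X.c.D.par X.Y) X.S' t₀ A' ⊆ Qi (X.c.D.par X.Y) X.S' s.t A' := by
    intro p S t₁ t₀ s ht r hr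
    obtain ⟨a1, a2, a3⟩ := mem_Qi.1 hr
    refine mem_Qi.2 ⟨?_, a2, a3⟩
    rw [ht]
    exact Finset.mem_union_right _ a1
  have hVcm : ∀ (s : LSt) (p : ℕ) (S : Finset ℕ) (t₁ t₀ : IT), s.t = .br p S t₁ t₀ →
      LOk (X.c.D.par X.Y) X.S' (fun _ => ∅) Qp (JpZ s₀ x0 y0) v q A' s →
      ∀ r ∈ Qi (X.c.D.par X.Y) X.S' t₀ A',
      (q, r) ∈ (X.c.D.par X.Y).PE (Ro ((X.c.D.par X.Y).rho p) \ TRel (X.c.D.par X.Y) TW)
        ((X.c.D.par X.Y).uA s.M v.B v.A (.leaf Sl)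
          (A₀.filter fun j => (X.c.D.par X.Y).it j = q) 1)
        ((X.c.D.par X.Y).uA s.M' (s.u.B * p) s.u.A t₀ A' p) →
      FL (LoSt T p0 X.c.rr x0 y0) X.c.rr (X.c.D.par X.Y).γ
          (SE s.M v.B v.A s.M' s.u.B s.u.A (q, r)) (q, r) ≤
        VcX X (Pct TW Pc) x0 y0 T p (SE s.M v.B v.A s.M' s.u.B s.u.A (q, r)) (q, r) := by
    rintro ⟨M, M', l, u, t⟩ p S t₁ t₀ ht hk r hr he
    have ht' : t = .br p S t₁ t₀ := ht
    subst ht'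
    obtain ⟨g1, g2⟩ := PE_sdiff he
    have k := LCL.miss hl hk g2
    have k2 := se_of hk (hsub0 rfl hr)
    have k3 : SE M v.B v.A M' u.B u.A (q, r) = s₀ (q, r) := k2
    rw [k3] at k
    have k4 : Pct TW Pc p (q, r) := ⟨hP.pc p (q, r) g1 k, g1⟩
    show _ ≤ VcL (Pct TW Pc) X.c.γ X.c.rr (LoSt T p0 X.c.rr x0 y0) p _ _
    unfold CrossLoc25.VcL
    rw [if_pos k4]
    exact le_rfl
  have hEL := ctx_EL hN.prn (X := X) (Y := X.Y) hQ.yh (fun u τ hq => (hQ.qx u τ hq).ob)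
    (fun q hq => rr_le hq) (hQ.nd _ _ hvq) (C.lf _ _ hvq)
    (LoX_LoSt (x0 := x0) (y0 := y0) (p0 := p0) (ρ := X.c.rr) T2) q
  have hqv : 0 < q / v.A := by
    obtain ⟨a1, a2, -⟩ := hl.F.item q hqS
    exact Nat.div_pos (Nat.le_of_dvd a1 a2) (Nat.pos_of_dvd_of_pos a2 a1)
  have hpar : X.par.p0 = p0 := hH.pp0
  have hC1 : CS₀ Ch ≤ C₀L Ch := (le_max_left _ _).trans (le_max_right _ _)
  have hC2 : CL₀ ≤ C₀L Ch := (le_max_right _ _).trans (le_max_right _ _)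
  have hC3 : 1 ≤ C₀L Ch := C₀L_one
  have hsg : ∀ p : ℕ, X.par.sg p = Real.log p ^ N.B / p := fun p => rfl
  have hTh : ∀ p : ℕ, p0 < p → Th v.n p * (1 + 2 * X.par.sg p / ((p : ℝ) - 1)) ≤
      Th v.n (p + 1) ∧ (p.Prime → v.n ≤ p → (∀ l : ℕ, l.Prime → l < p → l < v.n) →
        1 / 2 ≤ Th v.n (p + 1) - Th v.n p * (1 + 2 * X.par.sg p / ((p : ℝ) - 1))) := by
    intro p hp
    rw [hsg]
    exact Th_step (hN.th p hp.le).1 (hN.th p hp.le).2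
  have hnu : ∀ s, LOk (X.c.D.par X.Y) X.S' (fun _ => ∅) Qp (JpZ s₀ x0 y0) v q A' s →
      0 ≤ mL X v q * nuL (w X.ψ) s := fun s hk => mul_nonneg hmL (mul_nonneg hk.c0 (Ws_nn X.hW _))
  have hUp : ∀ s, LOk (X.c.D.par X.Y) X.S' (fun _ => ∅) Qp (JpZ s₀ x0 y0) v q A' s → ∀ r,
      (v.B : ℝ) * s.u.B * VsX X (PVt TW PV) x0 y0 T (SE s.M v.B v.A s.M' s.u.B s.u.A (q, r)) (q, r) ≤
      UpT (X.c.D.par X.Y) X.c.t.mt ParF5.rg (w X.ψ) v Sl q (mL X v q) (4 * (v.c * w X.ψ q))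
          (HG KL (1 / 4)) (VsX X (PVt TW PV) x0 y0 T) (VcX X (Pct TW Pc) x0 y0 T)
          (fun _ _ _ => 0) TW s r := by
    intro s hk r
    have k1 := Vs_le_PhiL (v := v) (Sl := Sl) (q := q) hV0 hVc0 hVx0 (K := 1) le_rfl hk.y.ok r
    have k2 := PhL_nonneg (mtt := X.c.t.mt) (rg := ParF5.rg) hW0 hmL hHG
      (V := fun _ => VsX X (PVt TW PV) x0 y0 T) (fun _ => hV0) hk r
    have k3 := T_nonneg (TW := TW) (q := q) hmu0 s r
    unfold UpT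
    linarith
  have H : LHT (X.c.D.par X.Y) X.S' (fun _ => ∅) X.par (w X.ψ) Qp (JpZ s₀ x0 y0) v Sl q
      (A₀.filter fun j => (X.c.D.par X.Y).it j = q) A' (TRel (X.c.D.par X.Y) TW) (Th v.n)
      (C₀L Ch) (mL X v q)
      (lL (X.c.D.par X.Y) ParF5.rg (w X.ψ) v q (mL X v q) (HG KL (1 / 4))
        (fun _ => VsX X (PVt TW PV) x0 y0 T))
      (UpT (X.c.D.par X.Y) X.c.t.mt ParF5.rg (w X.ψ) v Sl q (mL X v q) (4 * (v.c * w X.ψ q))
          (HG KL (1 / 4)) (VsX X (PVt TW PV) x0 y0 T) (VcX X (Pct TW Pc) x0 y0 T)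
          (fun _ _ _ => 0) TW) (JX p0 v b) (fun l r => l ∣ y0 (q, r)) :=
    { hh := YH.strip C.nd
      hJ := JpZ_mv
      hvB := hv.S.hb
      hFl := hv.S.hF
      hWl := hv.S.hW
      hq := hqv
      hW0 := X.hW
      hΘ1 := Th_one v.n
      hΘm := Th_mono v.n
      hΘs := fun p hp hpp => (hTh p (by rw [← hpar]; exact hpp)).1
      hp8 := by rw [hpar]; exact hN.p8
      hC1 := hC3
      hnum := fun p hp => hN.hnum p (by rw [← hpar]; exact hp)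
      hmq := hmL
      hJx := fun w s s₂ hm hk hx => hx.next (YH.strip C.nd) hQ.lb le_rfl hm hk
      hl0 := fun s hk hx r hr => lL_nonneg hW0 hmL hHG (fun _ => hV0) hk.c0 r
      hle := fun s hk hx r hr => lL_le_UpT hW0 hmL hmu0 hHG hV0 hVc0 hVx0 hk r
      hΥ := fun w s s₂ hm hk hx r hr =>
        UpT_chd hH.ix hW0 hmL hmu0 hHG hV0 hVc0 hVx0 (YH.strip C.nd) JpZ_mv hqv hm hk hr
      hOy := fun s p S t₁ t₀ ht hk hx hd hu r hr => by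
        have hN := C.nd _ _ hk.y.q.self
        rw [ht] at hN
        have hr1 := (mem_Qi.1 hr).1
        have hrs : r ∈ Qi (X.c.D.par X.Y) X.S' s.t A' := by
          obtain ⟨a1, a2, a3⟩ := mem_Qi.1 hr
          refine mem_Qi.2 ⟨?_, a2, a3⟩
          rw [ht]
          exact Finset.mem_union_left _ a1
        have h3 := t1_dvd hN hr1
        have hF := hk.y.S.hF
        obtain ⟨b1, b2, -⟩ := hF.item r (mem_Qi.1 hrs).1
        exact StopLeaf28.tie_dvd2 hN.1 (jc_of hk hrs) h3 hd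
          (Nat.div_pos (Nat.le_of_dvd b1 b2) (Nat.pos_of_dvd_of_pos b2 b1)) hk.M0' hu
      hstop := fun s p S t₁ t₀ ht hk hx O hO hs => by
        have key := stop_ctxR (Vs := VsX X (PVt TW PV) x0 y0 T) C hvq hv.S hA ht hk hO hs hV0 _
          (hVs s hk hx)
        exact key.trans (add_le_add (mul_le_mul_of_nonneg_right hC1 (hnu s hk))
          (Finset.sum_le_sum fun r _ => hUp s hk r))
      hleaf := fun s S ht hk hx => by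
        have key := leaf_ctxR (Vs := VsX X (PVt TW PV) x0 y0 T) C hvq hv.S hA ht hk
          (fun l hl hlt => by exact_mod_cast hQ.lb _ _ hvq l hl hlt)
          (fun l hl hlt => by exact_mod_cast hQ.lb _ _ hk.y.q.self l hl hlt)
          hV0 _ (hVs s hk hx)
        exact key.trans (add_le_add (mul_le_mul_of_nonneg_right hC2 (hnu s hk))
          (Finset.sum_le_sum fun r _ => hUp s hk r))
      hmg := fun s p S t₁ t₀ ht hk hx hd => by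
        have etp : WalkIT579.tp s.t = p := by rw [ht]; rfl
        have hcol : Colm s := ⟨S, t₁, t₀, by rw [etp]; exact ht, by rw [etp]; exact hd⟩
        have key := mg_locT (rg := ParF5.rg) (Hf := HG KL (1 / 4)) (mq := mL X v q)
          (V := fun _ => VsX X (PVt TW PV) x0 y0 T)
          (fun j hj a => X.om_zero hj _ a) hW0 hmL hHG (fun _ => hV0) hv.S
          (LeafX27.Qi_one hA) hk hcol (TRel (X.c.D.par X.Y) TW)
          (fun r hr hq2 he => by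
            have hPVr : PVt TW PV (q, r) := hPV s hk hx r hr _ Finset.sdiff_subset he
            exact ctx_XL (x := (b : ℝ)) (x0 := x0) (y0 := y0) (T := T) hQ.nd
              (fun u τ hq => (hQ.qx u τ hq).ob) hQ.lv hH.p03 hH.pp0 (fun q hq => rr_le hq) hH.lam
              hH.eta hH.dep (hQ.nd _ _ hvq) ((hQ.qx _ _ hvq).lf Sl rfl) (by exact_mod_cast hb)
              (fun l hl hlt => by exact_mod_cast hQ.lb _ _ hvq l hl hlt)
              (LoS_LoSt (T := T) (p0 := p0) (ρ := X.c.rr) (x0 := x0) (y0 := y0))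
              ((TX4 b).trans hT) ((TXc b).trans hT) hqS hqa hk hcol hx.cop hr (jc_of hk hr) hPVr)
        rw [etp] at key
        exact key
      hexit := fun s p S t₁ t₀ ht hk hx hd hu =>
        EL.hexitT hEL hA hmu0 hHG hV0 hVc0 hVx0 ht hk (fun r hr => jc_of hk hr) _
          (hVcm s p S t₁ t₀ ht hk)
      hdiv := fun s p S t₁ t₀ ht hk hx hd hu => by
        have hN1 := hQ.ok _ _ hk.y.q.self
        rw [ht] at hN1
        have hpp0 : p0 < p := by rw [← hpar]; exact hN1.2.2.1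
        have htp : WalkIT579.tp s.t = p := by rw [ht]; rfl
        have hlv := hx.lv
        rw [htp] at hlv
        have hp8 := hN.p8
        exact EL.hdivT hEL hqv hA hH.ix hmu hmu0 hHG hV0 hVc0 hVx0 (fun r hr => hP.tw (q, r) hr)
          ht hk hd hu (by omega) (fun r hr => jc_of hk hr) (hVcm s p S t₁ t₀ ht hk) hC3
          (hTh p hpp0).1 (fun hn => (hTh p hpp0).2 hN1.1 hn hlv) }
  exact item_leT H (Th_two v.n) h hx

end item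

/-! ### the states -/

section vals
variable {TW PV : ℕ × ℕ → Prop} {Pc : ℕ → ℕ × ℕ → Prop} {x0 y0 : ℕ × ℕ → ℕ} {e : ℕ × ℕ}

lemma VsX_not (h : ¬ TW e) (s : ℝ × ℝ) : VsX X (PVt TW PV) x0 y0 T s e = VsX X PV x0 y0 T s e := by
  show VU (PVt TW PV) (LoSt T p0 X.c.rr x0 y0) X.c.rr X.c.γ s e =
    VU PV (LoSt T p0 X.c.rr x0 y0) X.c.rr X.c.γ s e
  unfold SameIx30.VU SameIx30.Vm
  by_cases hp : PV e
  · have hp' : PVt TW PV e := ⟨hp, h⟩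
    rw [if_pos hp, if_pos hp']
    by_cases hs : 0 ≤ s.1
    · rw [if_pos (show PVt TW PV e ∧ 0 ≤ s.1 from ⟨hp', hs⟩),
        if_pos (show PV e ∧ 0 ≤ s.1 from ⟨hp, hs⟩)]
    · rw [if_neg (show ¬ (PVt TW PV e ∧ 0 ≤ s.1) from fun k => hs k.2),
        if_neg (show ¬ (PV e ∧ 0 ≤ s.1) from fun k => hs k.2)]
  · rw [if_neg hp, if_neg (fun k => hp k.1)]

lemma VsX_zero (h : TW e) (s : ℝ × ℝ) : VsX X (PVt TW PV) x0 y0 T s e = 0 := by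
  show VU (PVt TW PV) (LoSt T p0 X.c.rr x0 y0) X.c.rr X.c.γ s e = 0
  unfold SameIx30.VU
  exact if_neg fun h2 => h2.2 h

lemma VcX_not (h : ¬ TW e) (l : ℕ) (s : ℝ × ℝ) :
    VcX X (Pct TW Pc) x0 y0 T l s e = VcX X Pc x0 y0 T l s e := by
  show VcL (Pct TW Pc) X.c.γ X.c.rr (LoSt T p0 X.c.rr x0 y0) l s e =
    VcL Pc X.c.γ X.c.rr (LoSt T p0 X.c.rr x0 y0) l s e
  unfold CrossLoc25.VcL
  by_cases hp : Pc l e
  · rw [if_pos (show Pct TW Pc l e from ⟨hp, h⟩), if_pos hp]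
  · rw [if_neg hp, if_neg (fun k => hp k.1)]

lemma VcX_zero (h : TW e) (l : ℕ) (s : ℝ × ℝ) : VcX X (Pct TW Pc) x0 y0 T l s e = 0 := by
  show VcL (Pct TW Pc) X.c.γ X.c.rr (LoSt T p0 X.c.rr x0 y0) l s e = 0
  unfold CrossLoc25.VcL
  exact if_neg fun h2 => h2.2 h

/-- the potential depends on the values of the pair only -/
lemma pot_congr {Vs Vs' : ℝ × ℝ → ℕ × ℕ → ℝ} {Vc Vc' Vx Vx' : ℕ → ℝ × ℝ → ℕ × ℕ → ℝ}
    (h0 : ∀ s, Vs s e = Vs' s e) (h1 : ∀ l s, Vc l s e = Vc' l s e)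
    (h2 : ∀ l s, Vx l s e = Vx' l s e) (M b pr M' b' pr' : ℕ) (τ τ' : IT) :
    pot Vs Vc Vx M b pr M' b' pr' τ τ' e = pot Vs' Vc' Vx' M b pr M' b' pr' τ τ' e := by
  unfold pot cT
  simp only [h0, h1, h2]

lemma pot_zero {Vs : ℝ × ℝ → ℕ × ℕ → ℝ} {Vc Vx : ℕ → ℝ × ℝ → ℕ × ℕ → ℝ}
    (h0 : ∀ s, Vs s e = 0) (h1 : ∀ l s, Vc l s e = 0)
    (h2 : ∀ l s, Vx l s e = 0) (M b pr M' b' pr' : ℕ) (τ τ' : IT) :
    pot Vs Vc Vx M b pr M' b' pr' τ τ' e = 0 := by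
  unfold pot cT
  simp only [h0, h1, h2, mul_zero, ite_self, add_zero, Finset.sum_const_zero]

end vals

section st
variable {v : NS} {Sl : Finset ℕ} {q : ℕ}

/-- **the potential of the merges at the start of the leaf walk** against the one of the cross walk -/
theorem PhL_le_PhX' (hQ : QH X j₀ b Ch Qp) {KH : ℝ} (hKH : KL ≤ KH) {V : ℝ × ℝ → ℕ × ℕ → ℝ}
    (hV : ∀ s e, 0 ≤ V s e) {s : X.Sta} {u' : NS} {τ' : IT}
    (hyL : SY (X.c.D.par X.Y) (fun _ => ∅) Qp v (.leaf Sl) s.A s.t)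
    (hyR : SY (X.c.D.par X.Y) (fun _ => ∅) Qp u' τ' s.A' s.t') {l : ℕ}
    (hR : s.R = Ro ((X.c.D.par X.Y).rho l)) (hqS : q ∈ Sl) (hqa : q ∈ X.S') {r : ℕ}
    (hlam : lam τ' r ≤ 2) :
    PhL (X.c.D.par X.Y) X.c.t.mt ParF5.rg (w X.ψ) v q (mL X v q) (HG KL (1 / 4)) (fun _ => V)
      ⟨s.M, s.M', l, u', τ'⟩ r ≤ 2 * PhX X KH V s v u' (.leaf Sl) τ' (q, r) := by
  have hW : ∀ q, 0 ≤ w X.ψ q := fun q => Crest.Agent.R4.Soft104.w_nonneg X.sys.nonneg q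
  have hc : 0 ≤ v.c := c_nonneg_of_nd (hQ.nd _ _ hyL.q.self).self.node
  have hc' : 0 ≤ u'.c := c_nonneg_of_nd (hQ.nd _ _ hyR.q.self).self.node
  have hm : mL X v q ≤ v.c * w X.ψ q := ((hQ.qx _ _ hyL.q.self).lf Sl rfl).ms q hqS hqa
  have hp : s.p = tp τ' := by
    have e1 : s.t.top = tp (.leaf Sl) := by rw [hyL.S.eq]; exact WalkIT579.toDT_top _ _ _ _ _
    have e2 : s.t'.top = tp τ' := by rw [hyR.S.eq]; exact WalkIT579.toDT_top _ _ _ _ τ'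
    show max s.t.top s.t'.top = _
    rw [e1, e2]
    exact Nat.zero_max _
  have hcf : fl (X.c.D.par X.Y) (Ro ((X.c.D.par X.Y).rho l)) (tp τ') (q, r) =
      ShrW34.cf (X.c.D.par X.Y) s (q, r) := by
    unfold fl ShrW34.cf
    have e : ClnR (X.c.D.par X.Y) (Ro ((X.c.D.par X.Y).rho l)) (tp τ') (q, r) ↔
        ShrW34.Cln (X.c.D.par X.Y) s (q, r) := by
      unfold ClnR ShrW34.Cln
      rw [hp, hR]
    by_cases h : ShrW34.Cln (X.c.D.par X.Y) s (q, r)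
    · rw [if_pos h, if_pos (e.2 h)]
    · rw [if_neg h, if_neg (fun h2 => h (e.1 h2))]
  set P : ℝ := ShrG28.pm (w X.ψ) v u' (q, r) with hP
  have hP0 : 0 ≤ P := ShrG28.pm_nonneg hW hc hc' _
  set Z : ℝ := V (SE s.M v.B v.A s.M' u'.B u'.A (q, r)) (q, r) with hZ
  have hZ0 : 0 ≤ Z := hV _ _
  have hHG : ∀ k, HG KL (1 / 4) k ≤ HG KH (1 / 4) k := fun k =>
    HG_mono KL_nonneg hKH (le_refl _) k
  have hHG0 : ∀ k, 0 ≤ HG KL (1 / 4) k := fun k => HG_nonneg KL_nonneg _ k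
  have hX : ∀ k, XL (w X.ψ) v q (mL X v q) (HG KL (1 / 4)) (fun _ => V)
      ⟨s.M, s.M', l, u', τ'⟩ r k ≤ P * HG KH (1 / 4) k + (v.B : ℝ) * u'.B * Z := by
    intro k
    unfold XL
    refine add_le_add ?_ le_rfl
    have h1 : mL X v q * (u'.c * w X.ψ r) ≤ P :=
      mul_le_mul_of_nonneg_right hm (mul_nonneg hc' (hW r))
    exact mul_le_mul h1 (hHG k) (hHG0 k) hP0
  have hX0 : ∀ k, 0 ≤ XL (w X.ψ) v q (mL X v q) (HG KL (1 / 4)) (fun _ => V)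
      ⟨s.M, s.M', l, u', τ'⟩ r k := fun k =>
    XL_nonneg hW (LeafK28.mL_nonneg v q) hHG0 (fun _ => hV) hc' r k
  have hf : ShrW34.fut X.c.t.mt ParF5.rg (XL (w X.ψ) v q (mL X v q) (HG KL (1 / 4)) (fun _ => V)
      ⟨s.M, s.M', l, u', τ'⟩ r) (tp τ') (q, r) ≤
      P * ShrW34.fut X.c.t.mt ParF5.rg (HG KH (1 / 4)) (tp τ') (q, r) +
      (v.B : ℝ) * u'.B * ShrW34.fut X.c.t.mt ParF5.rg (fun _ => Z) (tp τ') (q, r) := by
    refine (fut_le hX _ _).trans (le_of_eq ?_)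
    rw [LeafK28.fut_add', fut_mul, fut_mul ((v.B : ℝ) * u'.B) (fun _ => Z)]
  have hcf0 := ShrW34.cf_nonneg (D := X.c.D.par X.Y) s (q, r)
  have hin : fl (X.c.D.par X.Y) (Ro ((X.c.D.par X.Y).rho l)) (tp τ') (q, r) *
        XL (w X.ψ) v q (mL X v q) (HG KL (1 / 4)) (fun _ => V)
          ⟨s.M, s.M', l, u', τ'⟩ r (ParF5.rg (tp τ')) +
      ShrW34.fut X.c.t.mt ParF5.rg (XL (w X.ψ) v q (mL X v q) (HG KL (1 / 4)) (fun _ => V)
        ⟨s.M, s.M', l, u', τ'⟩ r) (tp τ') (q, r) ≤ PhX X KH V s v u' (.leaf Sl) τ' (q, r) := by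
    rw [hcf]
    refine (add_le_add (mul_le_mul_of_nonneg_left (hX _) hcf0) hf).trans (le_of_eq ?_)
    unfold PhX ShrG28.PhiG ShrW34.PhiM
    rw [hp]
    ring
  have hin0 : 0 ≤ fl (X.c.D.par X.Y) (Ro ((X.c.D.par X.Y).rho l)) (tp τ') (q, r) *
        XL (w X.ψ) v q (mL X v q) (HG KL (1 / 4)) (fun _ => V)
          ⟨s.M, s.M', l, u', τ'⟩ r (ParF5.rg (tp τ')) +
      ShrW34.fut X.c.t.mt ParF5.rg (XL (w X.ψ) v q (mL X v q) (HG KL (1 / 4)) (fun _ => V)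
        ⟨s.M, s.M', l, u', τ'⟩ r) (tp τ') (q, r) :=
    add_nonneg (mul_nonneg (fl_nonneg _ _ _) (hX0 _)) (ShrW34.fut_nonneg hX0 _ _)
  unfold PhL
  simp only
  exact mul_le_mul hlam hin hin0 (by norm_num)

/-- the potential of the merges of a pair without values -/
lemma PhX_zero {KH : ℝ} {V : ℝ × ℝ → ℕ × ℕ → ℝ} {e : ℕ × ℕ} (h : ∀ s, V s e = 0) {s : X.Sta}
    {u u' : NS} {τ τ' : IT} : PhX X KH V s u u' τ τ' e =
      ShrG28.PhiG (X.c.D.par X.Y) (w X.ψ) X.c.t.mt ParF5.rg (HG KH (1 / 4)) s u u' τ τ' e := by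
  unfold PhX ShrW34.PhiM ShrW34.fut
  simp only [h, mul_zero, Finset.sum_const_zero, add_zero]

lemma PhX_congr {KH : ℝ} {V V' : ℝ × ℝ → ℕ × ℕ → ℝ} {e : ℕ × ℕ} (h : ∀ s, V s e = V' s e)
    {s : X.Sta} {u u' : NS} {τ τ' : IT} :
    PhX X KH V s u u' τ τ' e = PhX X KH V' s u u' τ τ' e := by
  unfold PhX ShrW34.PhiM ShrW34.fut
  simp only [h]

open Classical in
/-- **THE BOUND OF THE (LEAF, TREE) STATES**, excluded pairs -/
theorem ctx_LTT (hH : HC X Ch) (hQ : QH X j₀ b Ch Qp) (hN : NumT N Ch p0) (hb : 2 ≤ b)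
    (hlam : ∀ u τ, Qp u τ → ∀ r ∈ X.S', r ∈ τ.items → lam τ r ≤ 2) {B K Kf KH Kt : ℝ}
    (hB : 2 * (C₀L Ch + 2) ≤ B) (hK : 6 ≤ K) (hKf : 6 ≤ Kf) (hKH : KL ≤ KH) (hKt : 12 ≤ Kt) :
    LTT X j₀ Qp b B K Kf KH Kt := by
  intro x0 y0 s₀ PV Pc TW T s u u' S τ' hT hP hI hl
  obtain ⟨l, hR, hlp, hl0, hlb, htl⟩ := hI.lc
  have hrr := (X.ok.rad X.Y).pos
  have hV0 : ∀ s e, 0 ≤ VsX X PV x0 y0 T s e := fun s e => VU_nonneg hrr _ _ _ s e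
  have hV0t : ∀ s e, 0 ≤ VsX X (PVt TW PV) x0 y0 T s e := fun s e => VU_nonneg hrr _ _ _ s e
  have hVc0 : ∀ l s e, 0 ≤ VcX X Pc x0 y0 T l s e := fun _ _ _ => VcL_nonneg hrr _ _ _
  have hVx0 : ∀ (l : ℕ) (s : ℝ × ℝ) (e : ℕ × ℕ), (0:ℝ) ≤ (fun _ _ _ => 0 :
    ℕ → ℝ × ℝ → ℕ × ℕ → ℝ) l s e := fun _ _ _ => le_rfl
  have hqL : Qp u (.leaf S) := hI.L.q.self
  have hqR : Qp u' τ' := hI.R.q.self
  have hc0 : 0 ≤ u.c := c_nonneg_of_nd (hQ.nd _ _ hqL).self.node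
  have hc0' : 0 ≤ u'.c := c_nonneg_of_nd (hQ.nd _ _ hqR).self.node
  have hW : ∀ q, 0 ≤ w X.ψ q := fun q => Crest.Agent.R4.Soft104.w_nonneg X.sys.nonneg q
  have hx : JX p0 u b ⟨s.M, s.M', l, u', τ'⟩ := ⟨⟨hlp, htl⟩, hl0, hlb, hI.cop, hI.lv⟩
  have hSY : SY (X.c.D.par X.Y) (fun _ => ∅) Qp u' τ' s.A'
      ((X.c.D.par X.Y).toDT (fun _ => ∅) u'.B u'.A τ') := by
    rw [← hI.R.S.eq]; exact hI.R
  have hok : ∀ q ∈ Qi (X.c.D.par X.Y) X.S' (.leaf S) s.A,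
      LOk (X.c.D.par X.Y) X.S' (fun _ => ∅) Qp (JpZ s₀ x0 y0) u q s.A' ⟨s.M, s.M', l, u', τ'⟩ :=
    fun q hq => ⟨hSY, hI.M0, hI.M0', hc0', hI.circ, fun r hr =>
      jp_start (hI.jc (q, r) (Finset.mem_product.2 ⟨hq, hr⟩))
        (hI.sc (q, r) (Finset.mem_product.2 ⟨hq, hr⟩))⟩
  have hTRs : TRs (X.c.D.par X.Y) TW = TRel (X.c.D.par X.Y) TW := by
    ext x
    rw [mem_TRs, mem_TRel]
  -- the items
  have e1 : Q (s.R \ TRs (X.c.D.par X.Y) TW)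
        ((X.c.D.par X.Y).uA s.M u.B u.A (.leaf S) s.A 1)
        ((X.c.D.par X.Y).uA s.M' u'.B u'.A τ' s.A' 1) =
      ∑ q ∈ Qi (X.c.D.par X.Y) X.S' (.leaf S) s.A,
      En (X.c.D.par X.Y) u S (s.A.filter fun j => (X.c.D.par X.Y).it j = q) s.A'
        (Ro ((X.c.D.par X.Y).rho l) \ TRel (X.c.D.par X.Y) TW) ⟨s.M, s.M', l, u', τ'⟩ := by
    rw [hTRs, hR]
    exact Q_items (fun j hj a => X.om_zero hj _ a) hI.M0 hI.M0' hI.L.S.hb hI.R.S.hb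
      hI.L.S.hF hI.R.S.hF hI.L.S.hW hI.R.S.hW _
  have key : ∀ q ∈ Qi (X.c.D.par X.Y) X.S' (.leaf S) s.A,
      En (X.c.D.par X.Y) u S (s.A.filter fun j => (X.c.D.par X.Y).it j = q) s.A'
        (Ro ((X.c.D.par X.Y).rho l) \ TRel (X.c.D.par X.Y) TW) ⟨s.M, s.M', l, u', τ'⟩ ≤
      2 * (C₀L Ch + 2) * (mL X u q * nuL (w X.ψ) ⟨s.M, s.M', l, u', τ'⟩) +
      ∑ r ∈ Qi (X.c.D.par X.Y) X.S' τ' s.A',
        payT X K Kf KH Kt TW (VsX X PV x0 y0 T) (VcX X Pc x0 y0 T) s u u' (.leaf S) τ'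
          (q, r) := by
    intro q hq
    obtain ⟨hqS, hqa, -⟩ := mem_Qi.1 hq
    refine (item_ctxT hH hQ hN hb hT hP hI.L hq (hok q hq) hx).trans
      (add_le_add le_rfl ?_)
    rw [Finset.mul_sum]
    refine Finset.sum_le_sum fun r hr => ?_
    have hlm := hlam _ _ hqR r (mem_Qi.1 hr).2.1 (mem_Qi.1 hr).1
    have k1 := PhL_le_PhX' hQ hKH hV0t hI.L hI.R hR hqS hqa hlm
    by_cases ht : TW (q, r)
    · have k2 : PhX X KH (VsX X (PVt TW PV) x0 y0 T) s u u' (.leaf S) τ' (q, r) =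
          ShrG28.PhiG (X.c.D.par X.Y) (w X.ψ) X.c.t.mt ParF5.rg (HG KH (1 / 4)) s u u' (.leaf S) τ'
            (q, r) := PhX_zero fun s => VsX_zero ht s
      have k3 : PhiL 1 (VsX X (PVt TW PV) x0 y0 T) (VcX X (Pct TW Pc) x0 y0 T) (fun _ _ _ => 0)
          u S q ⟨s.M, s.M', l, u', τ'⟩ r = 0 := by
        unfold PhiL
        rw [pot_zero (fun s => VsX_zero ht s) (fun l s => VcX_zero ht l s) (fun _ _ => rfl)]
        ring
      have k4 := ShrG28.PhiG_nonneg (D := X.c.D.par X.Y) (mtt := X.c.t.mt) (rg := ParF5.rg)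
        (H := HG KH (1 / 4)) (fun k => HG_nonneg (KL_nonneg.trans hKH) _ k) hW s hc0 hc0'
        (.leaf S) τ' (q, r)
      have k5 : LeafV27.TT TW q (4 * (u.c * w X.ψ q)) ⟨s.M, s.M', l, u', τ'⟩ r =
          4 * (u.c * w X.ψ q / (rf (r / u'.A) s.M' : ℝ)) := by
        unfold LeafV27.TT
        rw [if_pos ht]
        unfold ColU32.PhT
        simp only
        ring
      have k6 : 0 ≤ u.c * w X.ψ q / (rf (r / u'.A) s.M' : ℝ) :=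
        div_nonneg (mul_nonneg hc0 (hW q)) (Nat.cast_nonneg _)
      unfold UpT payT
      rw [if_pos ht, k3, k5]
      rw [k2] at k1
      nlinarith
    · have k2 : PhX X KH (VsX X (PVt TW PV) x0 y0 T) s u u' (.leaf S) τ' (q, r) =
          PhX X KH (VsX X PV x0 y0 T) s u u' (.leaf S) τ' (q, r) :=
        PhX_congr fun s => VsX_not ht s
      have k3 : PhiL 1 (VsX X (PVt TW PV) x0 y0 T) (VcX X (Pct TW Pc) x0 y0 T) (fun _ _ _ => 0)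
          u S q ⟨s.M, s.M', l, u', τ'⟩ r ≤
          2 * potS (VsX X PV x0 y0 T) (VcX X Pc x0 y0 T) (fun _ _ _ => 0) s u u' (.leaf S) τ'
            (q, r) := by
        have e := pot_congr (e := (q, r)) (Vx := fun _ _ _ => 0) (Vx' := fun _ _ _ => 0)
          (fun s => VsX_not (X := X) (T := T) (PV := PV) (x0 := x0) (y0 := y0) ht s)
          (fun l s => VcX_not (X := X) (T := T) (Pc := Pc) (x0 := x0) (y0 := y0) ht l s)
          (fun _ _ => rfl) s.M u.B u.A s.M' u'.B u'.A (.leaf S) τ'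
        have hp := pot_nonneg hV0 hVc0 hVx0 s.M u.B u.A s.M' u'.B u'.A (.leaf S) τ' (q, r)
        unfold PhiL potS
        rw [one_mul]
        simp only
        rw [e]
        exact mul_le_mul_of_nonneg_right hlm hp
      have k4 : 0 ≤ potS (VsX X PV x0 y0 T) (VcX X Pc x0 y0 T) (fun _ _ _ => 0) s u u' (.leaf S) τ'
            (q, r) := potS_nonneg hV0 hVc0 hVx0 _ _ _ _ _ _
      have k5 : LeafV27.TT TW q (4 * (u.c * w X.ψ q)) ⟨s.M, s.M', l, u', τ'⟩ r = 0 := by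
        unfold LeafV27.TT
        rw [if_neg ht]
      have k6 : 0 ≤ PhX X KH (VsX X PV x0 y0 T) s u u' (.leaf S) τ' (q, r) :=
        add_nonneg (ShrG28.PhiG_nonneg (fun k => HG_nonneg (KL_nonneg.trans hKH) _ k) hW s hc0 hc0'
          (.leaf S) τ' (q, r)) (ShrW34.PhiM_nonneg (fun _ => hV0) s u u' _ _ _)
      unfold UpT payT
      rw [if_neg ht, k5]
      rw [k2] at k1
      nlinarith
  rw [e1]
  refine (Finset.sum_le_sum key).trans ?_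
  rw [Finset.sum_add_distrib, ← Finset.mul_sum, ← Finset.sum_mul]
  refine add_le_add ?_ (le_of_eq ?_)
  swap
  · unfold YI25.Ep
    rw [Finset.sum_product]
  -- the masses
  have m1 : ∑ q ∈ Qi (X.c.D.par X.Y) X.S' (.leaf S) s.A, mL X u q ≤ X.tm j₀ s.t.g s.A := by
    rw [tm_side hQ hqL hI.L.S]
    exact lf_mass ((hQ.qx _ _ hqL).lf S rfl) hI.L.il
  have hsub : τ'.items ⊆ X.S := by
    have h := (hQ.nd _ _ hqR).self.sub
    rwa [X.items] at h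
  have m2 : nuL (w X.ψ) ⟨s.M, s.M', l, u', τ'⟩ = X.tm j₀ s.t'.g s.A' := by
    rw [tm_side hQ hqR hI.R.S, hI.A', CtxX26.sum_wt_item X hsub]
    rfl
  have okL : s.t.g.Ok := SideI.okg hI.L.S
  have okR : s.t'.g.Ok := SideI.okg hI.R.S
  have hμ : 0 ≤ X.tm j₀ s.t.g s.A * X.tm j₀ s.t'.g s.A' :=
    mul_nonneg (Skel189.tM_nonneg X j₀ okL s.A) (Skel189.tM_nonneg X j₀ okR s.A')
  rw [← m2] at hμ ⊢
  have m3 := mul_le_mul_of_nonneg_right m1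
    (mul_nonneg hc0' (Ws_nn hW _) : 0 ≤ nuL (w X.ψ) ⟨s.M, s.M', l, u', τ'⟩)
  have hC1 := C₀L_one (Ch := Ch)
  calc _ ≤ 2 * (C₀L Ch + 2) * (X.tm j₀ s.t.g s.A * nuL (w X.ψ) ⟨s.M, s.M', l, u', τ'⟩) :=
        mul_le_mul_of_nonneg_left m3 (by linarith)
    _ ≤ _ := mul_le_mul_of_nonneg_right hB hμ

/-- **the context form** -/
theorem exists_LTT (N : Skel189.Num) (Ch : ℝ) : ∃ p₁ : ℕ, ∀ p0 ≥ p₁, ∀ (γ : ℝ) (P₀ : ℕ)
    (X : Ctx N γ p0 P₀) (j₀ : X.c.Lam) (b : ℕ) (Qp : NS → IT → Prop),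
    HC X Ch → QH X j₀ b Ch Qp → 2 ≤ b →
    ∀ B K Kf KH Kt : ℝ, 2 * (C₀L Ch + 2) ≤ B → 6 ≤ K → 6 ≤ Kf → KL ≤ KH → 12 ≤ Kt →
    LTT X j₀ Qp b B K Kf KH Kt := by
  obtain ⟨a1, h1⟩ := exists_NumT N Ch
  obtain ⟨a2, h2⟩ := LeafK28.lam_two N
  exact ⟨a1 + a2, fun p0 hp0 γ P₀ X j₀ b Qp hH hQ hb B K Kf KH Kt hB hK hKf hKH hKt =>
    ctx_LTT hH hQ (h1 p0 (by omega)) hb
      (fun u τ hq r hr hr2 => h2 p0 (by omega) γ P₀ X u τ (hQ.nd u τ hq) r hr hr2) hB hK hKf hKH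
      hKt⟩

end st
end Crest.Agent.R4P.LeafY27
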