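import Crest.Agent.R4P.LeafY_27
import Crest.Agent.R4P.LocG_25

/-!
R4P (S0004), helper27, module D, group [X]: `ExLTT N 6 6` of LocG_25 from `LeafY27.exists_LTT`.
-/

set_option autoImplicit false

namespace Crest.Agent.R4P.LeafZ27

open Crest.Agent.R4P.LocX25 Crest.Agent.R4P.LeafS27 Crest.Agent.R4P.WmfL25

/-- **the (leaf, tree) bound with excluded pairs** in the letters of LocG_25 -/
theorem exLTT (N : Crest.Agent.R4P.Skel189.Num) : ExLTT N 6 6 := by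
  intro Ch
  obtain ⟨p₁, h⟩ := LeafY27.exists_LTT N Ch
  have h1 : 1 ≤ C₀L Ch := C₀L_one
  exact ⟨2 * (C₀L Ch + 2), KL, 12, by linarith, KL_nonneg, by norm_num, p₁,
    fun p0 hp0 γ P₀ X j₀ b Qp hH hQ hb => h p0 hp0 γ P₀ X j₀ b Qp hH hQ hb _ _ _ _ _ le_rfl
      le_rfl le_rfl le_rfl le_rfl⟩

end Crest.Agent.R4P.LeafZ27
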