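import Crest.Agent.R4P.EKb_17

/-!
R4 (S0004), powers, helper244, TgtCrs (heights, leaves; helper19 #29024): **the energy of the pairs of
one index at all the nodes and at all their raw children, for the final numbers**.

* `EXle X K p u t` : `EX X p u t ≤ K c W` at the state `u`, `t`;
* `EKid X K u τ` : `EXle` at the column of `τ` for the node and for its raw children (shape of `RKid`);
* `tgtLK_fin` : `ForN thF SxF TgtLK`, `TgtLK` = `∃ K ≥ 0, Ev (CF X → All (EKid X K))`.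
-/

set_option autoImplicit false
set_option linter.unusedSectionVars false
set_option linter.unusedVariables false

open MeasureTheory Filter

namespace Crest.Agent.R4P.LfK244

open Crest.Agent.R4P.Cnt588 Crest.Agent.R4P.Item758 Crest.Agent.R4P.W363
open Crest.Agent.R4P.Data758 Crest.Agent.R4P.LfDat734
open Crest.Agent.R4P.Bld532 (NS All NodeOk Bk plk Ws_nonneg Ws_mono)
open Crest.Agent.R4P.Step588 (NDt ND1 ctx_NDt uq_lt All_All)
open Crest.Agent.R4P.WalkIT579 (tp isL nodeOk_hi top_of_nodeOk)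
open Crest.Agent.R4P.Skel189 Crest.Agent.R4P.RseSt23 Crest.Agent.R4P.DseCh23
open Crest.Agent.R4P.RseNd23 Crest.Agent.R4P.DseKid23
open Crest.Agent.R4P.Dse22 (chE LocOk dse_le dse_items)
open Crest.Agent.R4P.DseFin21 Crest.Agent.R4P.LeafIa21 Crest.Agent.R4P.DseInd21
open Crest.Agent.R4P.Frame758 (LeafAll LeafI wt tG tM tN CxOk leafIn_of tM_eq AdL_AdI)
open Crest.Agent.R4.Soft104 (w)
open Crest.Agent.R4.Item758 (IL AdI AdS AdI_all AdI_AdN AdI_univ IL_univ)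
open Crest.Agent.R4.ClosR758 (dseR din_leR LeafIn AdN MassOk rv Ro Ro_subset mem_Ro PB_rv)
open Crest.Agent.R4.ClosL758 (Rr Dr)
open Crest.Agent.R4.ClosG758 (Q_le_sdiff ic)
open Crest.Agent.R4.Tour104 (Q)

open Crest.Agent.R4P.EK17
open Crest.Agent.R4P.FinE26 (ForN)

section ctx
variable {N : Skel189.Num} {γ : ℝ} {p0 P₀ : ℕ} {X : Ctx N γ p0 P₀}

/-- the energy of the pairs of one index at a state, at most `K` times the mass -/
def EXle (X : Ctx N γ p0 P₀) (K : ℝ) (p : ℕ) (u : NS) (t : IT) : Prop :=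
  EX X p u t ≤ K * (u.c * Ws (w X.ψ) t.items)

/-- at the node and at its raw children -/
def EKid (X : Ctx N γ p0 P₀) (K : ℝ) (u : NS) : IT → Prop
  | .leaf _ => True
  | .br p Sp t₁ t₀ => EXle X K p u (.br p Sp t₁ t₀) ∧
      EXle X K p ⟨p, u.c / (1 - 1 / (p : ℝ)), u.A * p, u.B⟩ t₁ ∧
      EXle X K p ⟨p, u.c * p, u.A, u.B * p⟩ t₀
  | .add b t₁ t₀ => EXle X K b u (.add b t₁ t₀) ∧
      EXle X K b ⟨b + 1, u.c, u.A, u.B⟩ t₁ ∧ EXle X K b ⟨b + 1, u.c, u.A, u.B⟩ t₀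
  | .up b Sp t => EXle X K b u (.up b Sp t) ∧ EXle X K b ⟨b, u.c, u.A, u.B⟩ t
  | .pl b t => EXle X K b u (.pl b t) ∧ EXle X K b ⟨b + 1, u.c, u.A * b, u.B⟩ t
  | .far b t₁ t₀ => EXle X K b u (.far b t₁ t₀) ∧
      EXle X K b ⟨b + 1, u.c, u.A, u.B⟩ t₁ ∧ EXle X K b ⟨b + 1, u.c, u.A, u.B⟩ t₀

lemma exle_node {Ki K κ Ke : ℝ} (hKi : 0 ≤ Ki) (hKe : 0 ≤ Ke) (hG : GE X K κ Ke) {u : NS} {τ : IT}
    (h : All (NE X Ki) u τ) (hl : ¬ isL τ) : EXle X (Ki + Ke + 1) (tp τ) u τ :=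
  ek_node hKi hKe hG h hl

lemma exle_kid {Ki K κ Ke : ℝ} (hKi : 0 ≤ Ki) (hKe : 0 ≤ Ke) (hG : GE X K κ Ke) {v : NS} {V : IT}
    {u : NS} {t : IT} (hv : NE X Ki v V) (hl : ¬ isL V) (h : All (NE X Ki) u t)
    (hsub : t.items ⊆ V.items) (hB : u.B = v.B ∨ u.B = v.B * tp V) (hn : tp V ≤ u.n)
    (hn' : u.n ≤ tp V + 1) : EXle X (Ki + Ke + 1) (tp V) u t :=
  ek_kid hKi hKe hG hv hl h hsub hB hn hn'

lemma EXle.mono {K K' : ℝ} (hK : K ≤ K') {p : ℕ} {u : NS} {t : IT} (hc : 0 ≤ u.c)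
    (h : EXle X K p u t) : EXle X K' p u t :=
  h.trans (mul_le_mul_of_nonneg_right hK (mul_nonneg hc (Ws_nonneg X.hW _)))

/-- **from the facts to all the nodes and raw children** -/
theorem ekid_all {Ki K κ Ke : ℝ} (hKi : 0 ≤ Ki) (hKe : 0 ≤ Ke) (hG : GE X K κ Ke) (t : IT) :
    ∀ u : NS, All (NE X Ki) u t → All (EKid X (Ki + Ke + 1)) u t := by
  induction t with
  | leaf S => intro u _; exact trivial
  | br p Sp t₁ t₀ ih₁ ih₀ =>
    intro u h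
    have hl : ¬ isL (.br p Sp t₁ t₀) := fun hh => hh
    have a0 := exle_node (X := X) (u := u) (τ := .br p Sp t₁ t₀) hKi hKe hG h hl
    have a1 : EXle X (Ki + Ke + 1) p ⟨p, u.c / (1 - 1 / (p : ℝ)), u.A * p, u.B⟩ t₁ :=
      exle_kid (u := ⟨p, u.c / (1 - 1 / (p : ℝ)), u.A * p, u.B⟩) (t := t₁)
        (V := .br p Sp t₁ t₀) hKi hKe hG h.1 hl h.2.1 Finset.subset_union_left
        (Or.inl rfl) (le_refl p) (Nat.le_succ p)
    have a2 : EXle X (Ki + Ke + 1) p ⟨p, u.c * p, u.A, u.B * p⟩ t₀ :=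
      exle_kid (u := ⟨p, u.c * p, u.A, u.B * p⟩) (t := t₀)
        (V := .br p Sp t₁ t₀) hKi hKe hG h.1 hl h.2.2 Finset.subset_union_right
        (Or.inr rfl) (le_refl p) (Nat.le_succ p)
    exact ⟨⟨a0, a1, a2⟩, ih₁ _ h.2.1, ih₀ _ h.2.2⟩
  | add b t₁ t₀ ih₁ ih₀ =>
    intro u h
    have hl : ¬ isL (.add b t₁ t₀) := fun hh => hh
    have a0 := exle_node (X := X) (u := u) (τ := .add b t₁ t₀) hKi hKe hG h hl
    have a1 : EXle X (Ki + Ke + 1) b ⟨b + 1, u.c, u.A, u.B⟩ t₁ :=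
      exle_kid (u := ⟨b + 1, u.c, u.A, u.B⟩) (t := t₁)
        (V := .add b t₁ t₀) hKi hKe hG h.1 hl h.2.1 Finset.subset_union_left
        (Or.inl rfl) (Nat.le_succ b) le_rfl
    have a2 : EXle X (Ki + Ke + 1) b ⟨b + 1, u.c, u.A, u.B⟩ t₀ :=
      exle_kid (u := ⟨b + 1, u.c, u.A, u.B⟩) (t := t₀)
        (V := .add b t₁ t₀) hKi hKe hG h.1 hl h.2.2 Finset.subset_union_right
        (Or.inl rfl) (Nat.le_succ b) le_rfl
    exact ⟨⟨a0, a1, a2⟩, ih₁ _ h.2.1, ih₀ _ h.2.2⟩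
  | up b Sp t ih =>
    intro u h
    have hl : ¬ isL (.up b Sp t) := fun hh => hh
    have a0 := exle_node (X := X) (u := u) (τ := .up b Sp t) hKi hKe hG h hl
    have a1 : EXle X (Ki + Ke + 1) b ⟨b, u.c, u.A, u.B⟩ t :=
      exle_kid (u := ⟨b, u.c, u.A, u.B⟩) (t := t) (V := .up b Sp t) hKi hKe hG h.1 hl
        h.2 (Finset.Subset.refl _) (Or.inl rfl) (le_refl b) (Nat.le_succ b)
    exact ⟨⟨a0, a1⟩, ih _ h.2⟩
  | pl b t ih =>
    intro u h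
    have hl : ¬ isL (.pl b t) := fun hh => hh
    have a0 := exle_node (X := X) (u := u) (τ := .pl b t) hKi hKe hG h hl
    have a1 : EXle X (Ki + Ke + 1) b ⟨b + 1, u.c, u.A * b, u.B⟩ t :=
      exle_kid (u := ⟨b + 1, u.c, u.A * b, u.B⟩) (t := t) (V := .pl b t) hKi hKe hG h.1 hl
        h.2 (Finset.Subset.refl _) (Or.inl rfl) (Nat.le_succ b) le_rfl
    exact ⟨⟨a0, a1⟩, ih _ h.2⟩
  | far b t₁ t₀ ih₁ ih₀ =>
    intro u h
    have hl : ¬ isL (.far b t₁ t₀) := fun hh => hh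
    have a0 := exle_node (X := X) (u := u) (τ := .far b t₁ t₀) hKi hKe hG h hl
    have a1 : EXle X (Ki + Ke + 1) b ⟨b + 1, u.c, u.A, u.B⟩ t₁ :=
      exle_kid (u := ⟨b + 1, u.c, u.A, u.B⟩) (t := t₁)
        (V := .far b t₁ t₀) hKi hKe hG h.1 hl h.2.1 Finset.subset_union_left
        (Or.inl rfl) (Nat.le_succ b) le_rfl
    have a2 : EXle X (Ki + Ke + 1) b ⟨b + 1, u.c, u.A, u.B⟩ t₀ :=
      exle_kid (u := ⟨b + 1, u.c, u.A, u.B⟩) (t := t₀)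
        (V := .far b t₁ t₀) hKi hKe hG h.1 hl h.2.2 Finset.subset_union_right
        (Or.inl rfl) (Nat.le_succ b) le_rfl
    exact ⟨⟨a0, a1, a2⟩, ih₁ _ h.2.1, ih₀ _ h.2.2⟩

/-- no index: trivial -/
theorem ekid_empty (hE : IsEmpty X.c.Lam) {K : ℝ} (hK : 0 ≤ K) (t : IT) : ∀ u : NS,
    All (KB X) u t → All (EKid X K) u t := by
  have h0 : ∀ b u τ, EX X b u τ = 0 := by
    intro b u τ
    unfold EX Q
    exact Finset.sum_eq_zero fun e _ => hE.elim e.1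
  have key : ∀ {b : ℕ} {u : NS} {τ : IT}, KB X u τ → EXle X K b u τ := by
    intro b u τ h
    unfold EXle
    rw [h0]
    exact mul_nonneg hK (mul_nonneg h.nf.c0.le (Ws_nonneg X.hW _))
  induction t with
  | leaf S => intro u _; exact trivial
  | br p Sp t₁ t₀ ih₁ ih₀ =>
    intro u h
    exact ⟨⟨key h.1, key h.2.1.self, key h.2.2.self⟩, ih₁ _ h.2.1, ih₀ _ h.2.2⟩
  | add b t₁ t₀ ih₁ ih₀ =>
    intro u h
    exact ⟨⟨key h.1, key h.2.1.self, key h.2.2.self⟩, ih₁ _ h.2.1, ih₀ _ h.2.2⟩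
  | up b Sp t ih => intro u h; exact ⟨⟨key h.1, key h.2.self⟩, ih _ h.2⟩
  | pl b t ih => intro u h; exact ⟨⟨key h.1, key h.2.self⟩, ih _ h.2⟩
  | far b t₁ t₀ ih₁ ih₀ =>
    intro u h
    exact ⟨⟨key h.1, key h.2.1.self, key h.2.2.self⟩, ih₁ _ h.2.1, ih₀ _ h.2.2⟩

end ctx

open Crest.Agent.R4P.PruneAcc17 (NoAcc NoAcc.of SxA)
open Crest.Agent.R4P.PruneBad17 (NoBad NoBad.of SxB)
open Crest.Agent.R4P.DseKid23 (DH kid_KQ KQ)
open Crest.Agent.R4P.DseTk23 (ctx_DH)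
open Crest.Agent.R4P.RseRI17 (rs_kid)
open Crest.Agent.R4P.AddPay7 (zA zA_nonneg eZ cr_add path_add)
open Crest.Agent.R4P.ParF5 Crest.Agent.R4P.NumX34 Crest.Agent.R4P.ParT21
open Crest.Agent.R4P.FinAll26 (TgtD NumFin Ev_P2)
open Crest.Agent.R4P.Fin5 (CF)
open Crest.Agent.R4P.NumG23
open Crest.Agent.R4P.FinD21 (TChK TFar kidsP_of_kid ctx_ZA zT)


/-- **the nodes and the raw children of the contexts** from the children (`TChK`) and the far nodes (`TFar`) -/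
theorem lk_of : ∃ c : ℝ, ∀ (N : Skel189.Num) (Ct C₀ : ℝ)
    (Sx : ℕ → (ℕ → ℝ) → Finset ℕ → Finset ℕ), NumOK N (thF Ct) Ct C₀ Sx →
    NumFin N (thF Ct) Ct c → NumG N → ∀ (γ K κ A' : ℝ), N.B + 2 ≤ K → N.C1 + N.c2 + 2 ≤ κ → κ ≤ K →
      0 ≤ A' → (∀ p0 ψ S, Sx p0 ψ S ⊆ SxA γ A' N.B N.C1 N.c2 p0 ψ S) →
      (∀ p0 ψ S, Sx p0 ψ S ⊆ SxB γ N.B N.C1 N.c2 p0 ψ S) →
      TChK N γ K κ → TFar N γ →
      ∃ Ke : ℝ, 0 ≤ Ke ∧ Ev N γ fun p0 P₀ X => CF X → All (EKid X Ke) ⟨top X.S, 1, 1, 1⟩ X.c.t := by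
  obtain ⟨c0, CI, hc0, hCI, HI⟩ := leafIa_ctx
  obtain ⟨κ₀, hκ₀, HA⟩ := cr_add
  have hi0 : 0 < 1 / c0 := by positivity
  refine ⟨1 / c0 + 10 * κ₀ + 100,
    fun N Ct C₀ Sx h hN hG γ K κ A' hK hk hkK hA' hSA hSB hCh hFar => ?_⟩
  obtain ⟨z, hz, hFar⟩ := hFar
  have c1 := hN.C1
  have c2 := hN.c2
  have cB := hN.B
  have cA := hN.A
  have ca' := hN.a'
  have ca := hN.a
  have cCt := hN.Ct
  have hB := N.hB
  have hC1 := N.hC1
  have hc2 := N.hc2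
  have hCt : 0 ≤ Ct := h.Ct0
  obtain ⟨p₂, hL⟩ := h.lnum
  set Kc : ℝ := CI + (1 + 12 + (z + 1)) + (1 + 12) with hKc
  have hKc0 : 0 ≤ Kc := by linarith
  -- the leaves
  obtain ⟨q1, H1⟩ := HI N _ _ _ _ p₂ h.c20 (by linarith) (by linarith) le_rfl hL
  -- the add nodes
  have e1 : Crest.Agent.R4.ClsS.eps1 = 1 / 1000 := rfl
  obtain ⟨q2, H2⟩ := HA N Ct (N.a' + 1) Kc hCt hKc0 (by linarith) le_rfl (by linarith)
    (by rw [ca', ca, cCt, e1]; linarith) (by rw [ca', ca, cCt, c2]; linarith)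
  obtain ⟨q3, H3⟩ := path_add N
  obtain ⟨q4, H4⟩ := ctx_dseA N hK hk hkK
  obtain ⟨q5, H5⟩ := ctx_KB N
  obtain ⟨q6, H6⟩ := ctx_NF N
  -- smallness of the path sums of the add nodes
  obtain ⟨q7, H7⟩ : ∃ q7 : ℕ, ∀ p0 ≥ q7,
      2 * Real.log p0 ^ (-N.A) + 4 * (p0:ℝ) ^ (-(1/100):ℝ) ≤ 1 := by
    have t1 : Filter.Tendsto (fun p0 : ℕ => 2 * Real.log p0 ^ (-N.A)) Filter.atTop (nhds (2 * 0)) :=
      (((tendsto_rpow_neg_atTop (by linarith : 0 < N.A)).comp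
        (Real.tendsto_log_atTop.comp tendsto_natCast_atTop_atTop))).const_mul 2
    have t2 : Filter.Tendsto (fun p0 : ℕ => 4 * (p0:ℝ) ^ (-(1/100):ℝ)) Filter.atTop (nhds (4 * 0)) :=
      ((tendsto_rpow_neg_atTop (by norm_num : (0:ℝ) < 1/100)).comp
        tendsto_natCast_atTop_atTop).const_mul 4
    have t3 := t1.add t2
    rw [mul_zero, mul_zero, add_zero] at t3
    obtain ⟨q, hq⟩ := Filter.eventually_atTop.1 (t3.eventually (gt_mem_nhds one_pos))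
    exact ⟨q, fun p0 hp => (hq p0 hp).le⟩
  obtain ⟨q8, H8⟩ := h.thlo
  obtain ⟨q9, H9⟩ := hCh
  obtain ⟨q10, H10⟩ := hFar Kc hKc0
  obtain ⟨q11, H11⟩ := Phi_le N hK hk
  obtain ⟨q12, H12⟩ := rs_kid N (κ := 1) (A' := A') one_pos hA'
  obtain ⟨q13, H13⟩ := rse_node N (κ := 1) one_pos
  obtain ⟨q14, H14⟩ := ctx_DH h hG (by linarith) (by linarith) (by linarith)
  obtain ⟨q15, H15⟩ := kid_KQ N A'
  set Ki : ℝ := CI + (1 + 12 + (z + 1)) with hKi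
  have hKi0 : 0 ≤ Ki := by linarith
  refine ⟨Ki + (1 + 12) + 1, by linarith,
    q1 + q2 + q3 + q4 + q5 + q6 + q7 + q8 + q9 + q10 + q11 + q12 + q13 + q14 + q15 + 3,
    fun p0 hp0 => ?_⟩
  obtain ⟨Q9, H9⟩ := H9 p0 (by omega)
  obtain ⟨Q10, H10⟩ := H10 p0 (by omega)
  refine ⟨Q9 + Q10 + 2, fun P₀ hP X hC => ?_⟩
  have hP2 : 2 ≤ P₀ := by omega
  have hCh := H9 P₀ (by omega) X hC
  obtain ⟨ζF, hF⟩ := H10 P₀ (by omega) X hC
  have hRG := ctx_RG h X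
  have hthr : ∀ p, p0 < p → Real.log p ^ (-Ct) ≤ X.c.wp.thr p := by
    intro p hp
    rw [NumX34.thr_eq h X]
    exact H8 p0 (by omega) p hp.le
  have hadd : All (fun u τ => ∀ b t₁ t₀, τ = .add b t₁ t₀ → ∀ A : Finset X.c.Lam,
      IL X.c.D.it A →
      ED X X.Y A b u t₁ ≤ Kc * (u.c * ∑ q ∈ al X t₁ A, w X.ψ q) →
      ED X X.Y A b u t₀ ≤ Kc * (u.c * ∑ q ∈ al X t₀ A, w X.ψ q) →
      CrOk X X.Y A (wt X.c.D) (fun b u t₁ t₀ j => zA X b u t₁ t₀ j.1.1) b u t₁ t₀)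
      ⟨top X.S, 1, 1, 1⟩ X.c.t := by
    refine All.mono (fun u τ hn b t₁ t₀ e A hA h1 h0 => ?_) (H6 p0 (by omega) γ P₀ hP2 X)
    subst e
    exact H2 p0 (by omega) γ P₀ hP2 X hC.rse hC.d1 hthr X.Y u b t₁ t₀ hn A hA h1 h0
  obtain ⟨hZ1, hZ2⟩ := ctx_ZA hz zero_le_one hKc0 hF
    (fun j hj => (H3 p0 (by omega) γ P₀ hP2 X hC.rse j hj).trans (H7 p0 (by omega))) hadd
  have hKB := H5 p0 (by omega) γ P₀ hP2 X
  have hD := H14 p0 (by omega) γ P₀ X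
  -- no index: trivial
  rcases isEmpty_or_nonempty X.c.Lam with hE | ⟨⟨j₀⟩⟩
  · exact ekid_empty hE (by linarith) _ _ hKB
  have key := H4 p0 (by omega) γ P₀ X hRG CI 1 (z + 1) zero_le_one (by linarith) (by linarith)
    (H1 p0 (by omega) γ P₀ hP2 X) j₀ (zT X ζF) hZ1 hZ2
    (fun A hA => kidsP_of_kid (hCh A hA) X.c.t _ hKB)
  have hin := in_le (X := X) (by linarith : 0 ≤ CI) (H1 p0 (by omega) γ P₀ hP2 X) j₀
  have hNE : All (NE X Ki) ⟨top X.S, 1, 1, 1⟩ X.c.t := by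
    refine All.mono (fun u τ hh => ?_) ((hKB.and (ctx_PF X)).and (key.and hin))
    obtain ⟨⟨g1, g2⟩, ⟨g3, g4⟩, g5⟩ := hh
    refine ⟨g1, g2, ?_⟩
    have m1 := g3 Finset.univ (AdI_univ _ _)
    have m2 := g5 Finset.univ (AdI_univ _ _)
    rw [hKi, add_mul]
    linarith
  have hGE : GE X K κ (1 + 12) := by
    refine
      { ch := fun v V u τ hk => hCh Finset.univ (IL_univ _) v V u τ hk
        el := fun p hpp hp u t h1 h2 h3 => el_of (by linarith) (by linarith) hkK zero_le_one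
          (by omega) hRG (H11 p0 (by omega) γ P₀ X 1) p hpp hp u t h1 h2 h3
        rs := fun v V u τ hk => ?_
        rn := fun u τ hn hl => H13 p0 (by omega) γ P₀ hP2 X hD.rse X.Y u τ hn hl Finset.univ }
    have hS : N.S2 p0 X.ψ X.S ⊆ Sx p0 X.ψ X.S := by rw [h.S2]; exact Finset.inter_subset_right
    have hγ : X.c.γ = γ := X.hγ
    refine H12 p0 (by omega) γ P₀ X hD X.Y v V u τ hk
      (H15 p0 (by omega) γ P₀ hP2 X hD ?_ ?_ v V u τ hk) Finset.univ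
    · intro q hq
      rw [hγ]
      exact NoAcc.of X (hS.trans (hSA _ _ _)) hq
    · intro q hq
      rw [hγ]
      exact NoBad.of X (hS.trans (hSB _ _ _)) hq
  exact ekid_all hKi0 (by norm_num) hGE X.c.t _ hNE

/-- **the nodes and the raw children for the final numbers** -/
theorem lk_fin : ∃ c : ℝ, ∀ (N : Skel189.Num) (Ct C₀ γ : ℝ),
    NumOK N (thF Ct) Ct C₀ (SxF γ N.C1) → NumFin N (thF Ct) Ct c → NumG N →
      ∃ Ke : ℝ, 0 ≤ Ke ∧ Ev N γ fun p0 P₀ X => CF X →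
        All (EKid X Ke) ⟨top X.S, 1, 1, 1⟩ X.c.t := by
  obtain ⟨c1, h1⟩ := DseTk23.tchk_of DseW7.wL
  obtain ⟨c2, h2⟩ := lk_of
  refine ⟨max (max c1 c2) 10, fun N Ct C₀ γ h hN hG => ?_⟩
  have n1 : NumFin N (thF Ct) Ct c1 :=
    EndD23.NumFin.weaken hN ((le_max_left _ _).trans (le_max_left _ _))
  have n2 : NumFin N (thF Ct) Ct c2 :=
    EndD23.NumFin.weaken hN ((le_max_right _ _).trans (le_max_left _ _))
  have e1 : 10 ≤ N.C1 := (le_max_right _ _).trans hN.C1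
  have eB := hN.B
  have ec := hN.c2
  have hA' : 0 ≤ aAcc N.C1 := by unfold aAcc; linarith
  have s1 : ∀ p0 ψ S, SxF γ N.C1 p0 ψ S ⊆ SxA γ (aAcc N.C1) N.B N.C1 N.c2 p0 ψ S := by
    intro p0 ψ S
    rw [eB, ec]
    exact Finset.inter_subset_left
  have s2 : ∀ p0 ψ S, SxF γ N.C1 p0 ψ S ⊆ SxB γ N.B N.C1 N.c2 p0 ψ S := by
    intro p0 ψ S
    rw [eB, ec]
    exact Finset.inter_subset_right
  have k1 : TChK N γ (N.B + 2) (N.C1 + 3) := h1 N Ct C₀ _ h n1 hG γ (aAcc N.C1) hA' s1 s2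
  exact h2 N Ct C₀ _ h n2 hG γ (N.B + 2) (N.C1 + 3) (aAcc N.C1) le_rfl (by rw [ec]; linarith)
    (by rw [eB]; linarith) hA' s1 s2 k1 (FarPay7.tfar h γ)

/-- **the target**: at all the nodes and raw children -/
def TgtLK (N : Skel189.Num) (γ : ℝ) : Prop :=
  ∃ K : ℝ, 0 ≤ K ∧ Ev N γ fun p0 P₀ X => CF X → All (EKid X K) ⟨top X.S, 1, 1, 1⟩ X.c.t

/-- **energies of the pairs of one index, all the nodes and all the raw children, final numbers** -/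
theorem tgtLK_fin : ForN ParT21.thF NumG23.SxF TgtLK := by
  obtain ⟨c, h⟩ := lk_fin
  exact ⟨c, fun N Ct C₀ γ h1 h2 h3 => h N Ct C₀ γ h1 h2 h3⟩

end Crest.Agent.R4P.LfK244
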