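import Crest.Agent.R4P.LeafCol_27
import Crest.Agent.R4P.StepDataB189
import Crest.Agent.R4P.OmData532

/-!
R4P (S0004), helper9, group [X], `LiftX` point (3): **the column `b` of the rich side is pulled first**.

* `I_pull` / `Q_pull` : pulling the right functions by `b ^ i` = larger average on the left / smaller
  average on the right;
* `Red` / `red_ex` : for a node with all the columns `≤ b` and a valuation `v` the node reached by the
  column-`b` nodes which contain the items of valuation `v`;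
* `Q_red` : the cross energy with the population of valuation `v` is at most the cross energy at the
  reduced node;
* `Q_vleaf` : unpulled leaf items with a weight constant modulo `b` = pulled virtual leaf.
-/

set_option autoImplicit false
set_option linter.unusedSectionVars false
set_option linter.unusedVariables false
open MeasureTheory Filter

namespace Crest.Agent.R4P.LiftP9

open Crest.Agent.R4.HVW560 Crest.Agent.R4P.AvgItem710
open Crest.Agent.R4.Tour104 Crest.Agent.R4.Tour758 Crest.Agent.R4.Avg758 Crest.Agent.R4.Clos758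
open Crest.Agent.R4.ClosL758 Crest.Agent.R4.ClosG758 Crest.Agent.R4.ClosR758
open Crest.Agent.R4.Lam368 (mult lamF DW BW fW Nested Dat FW lamF_eq_mult Ep_FW mult_nonneg
  mult_le_one PB_mult Ep_mult)
open Crest.Agent.R4.Fam464 Crest.Agent.R4P.Cnt588 Crest.Agent.R4P.Walk560 Crest.Agent.R4.Piece464
open Crest.Agent.R4P.Item758 Crest.Agent.R4P.CrossLoc25 Crest.Agent.R4P.LeafCol27
open Crest.Agent.R4P.Bld532 (NS All NodeOk Bk)
open Crest.Agent.R4P.Step588 (NDt ND1)
open Crest.Agent.R4P.Data758 (rt)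

/-! ### pulls of the right side -/

lemma Ep_pull_self {b : ℕ} (hb : 0 < b) {g : ℝ → ℝ} (hg : ∀ x, g (x + 1) = g x) (y : ℝ) :
    Ep b (fun x => g (b * x)) y = g y := by
  have k := Ep_pull_mul hb (a := g) (f := fun _ => (1 : ℝ)) hg y
  rw [Ep_const hb] at k
  simpa using k

/-- one pull -/
lemma I_pull1 {b M M' : ℕ} (hb : b.Prime) (hM : 0 < M) (hM' : 0 < M') {f g : ℝ → ℝ} (hf : PB f)
    (hg : PB g) :
    I (fun x => Ep M f x * Ep M' (fun x => g (b * x)) x) =
      if b ∣ M' then I (fun x => Ep M f x * Ep (M' / b) g x)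
      else I (fun x => Ep (b * M) f x * Ep M' g x) := by
  have hb0 := hb.pos
  split_ifs with h
  · obtain ⟨N, rfl⟩ := h
    have hN : 0 < N := Nat.pos_of_mul_pos_right hM' |> fun h => by
      rcases Nat.eq_zero_or_pos N with h0 | h0
      · rw [h0, mul_zero] at hM'; omega
      · exact h0
    rw [Nat.mul_div_cancel_left _ hb0]
    congr 1
    funext x
    rw [mul_comm b N, ← Ep_mul hN hb0]
    congr 2
    funext z
    exact Ep_pull_self hb0 hg.per z
  · have hco : Nat.Coprime b M' := (Nat.Prime.coprime_iff_not_dvd hb).2 h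
    have k := col_push hb0 hM' hM hco hg hf
    have e1 : (fun x => Ep M f x * Ep M' (fun x => g (b * x)) x) =
        fun x => Ep M' (fun x => g (b * x)) x * Ep M f x := by funext x; ring
    rw [e1, k]
    congr 1
    funext x
    ring

/-- **pulls** : moduli after `i` pulls of the right side -/
theorem I_pull {b : ℕ} (hb : b.Prime) : ∀ (i : ℕ) {M M' : ℕ}, 0 < M → 0 < M' →
    ∃ x y : ℕ, x + y = i ∧ b ^ y ∣ M' ∧ (0 < x → ¬ b ∣ M' / b ^ y) ∧
      ∀ f g : ℝ → ℝ, PB f → PB g →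
        I (fun z => Ep M f z * Ep M' (fun z => g ((b ^ i : ℕ) * z)) z) =
          I (fun z => Ep (b ^ x * M) f z * Ep (M' / b ^ y) g z) := by
  intro i
  induction i with
  | zero =>
    intro M M' hM hM'
    refine ⟨0, 0, rfl, by simp, fun h => absurd h (lt_irrefl _), fun f g hf hg => ?_⟩
    simp
  | succ i ih =>
    intro M M' hM hM'
    have key : ∀ g : ℝ → ℝ, (fun z => g ((b ^ (i + 1) : ℕ) * z)) =
        fun z => (fun w => g ((b ^ i : ℕ) * w)) (b * z) := by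
      intro g; funext z
      show g _ = g _
      congr 1
      rw [pow_succ]; push_cast; ring
    by_cases h : b ∣ M'
    · obtain ⟨N, rfl⟩ := h
      have hN : 0 < N := by
        rcases Nat.eq_zero_or_pos N with h0 | h0
        · rw [h0, mul_zero] at hM'; omega
        · exact h0
      obtain ⟨x, y, h1, h2, h3, h4⟩ := ih hM hN
      have e : b * N / b ^ (y + 1) = N / b ^ y := by
        rw [pow_succ, mul_comm (b ^ y) b, Nat.mul_div_mul_left _ _ hb.pos]
      refine ⟨x, y + 1, by omega, ?_, fun hx => ?_, fun f g hf hg => ?_⟩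
      · rw [pow_succ, mul_comm]; exact mul_dvd_mul_left b h2
      · rw [e]; exact h3 hx
      · rw [e, ← h4 f g hf hg, key g]
        have k := I_pull1 (M := M) (M' := b * N) hb hM hM' hf (hg.pull (b ^ i))
        rw [if_pos (Dvd.intro _ rfl), Nat.mul_div_cancel_left _ hb.pos] at k
        exact k
    · obtain ⟨x, y, h1, h2, h3, h4⟩ := ih (M := b * M) (Nat.mul_pos hb.pos hM) hM'
      have hy : y = 0 := by
        rcases Nat.eq_zero_or_pos y with h0 | h0
        · exact h0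
        · exact absurd ((dvd_pow_self b h0.ne').trans h2) h
      subst hy
      refine ⟨x + 1, 0, by omega, by simp, fun _ => ?_, fun f g hf hg => ?_⟩
      · simpa using h
      · have h5 := h4 f g hf hg
        have k := I_pull1 (M := M) (M' := M') hb hM hM' hf (hg.pull (b ^ i))
        rw [if_neg h] at k
        rw [key g]
        refine k.trans (h5.trans ?_)
        rw [pow_succ, mul_assoc]

variable {Λ κ : Type*} [Fintype Λ] [DecidableEq Λ] [Fintype κ] [DecidableEq κ]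

/-- the same for families -/
theorem Q_pull {b : ℕ} (hb : b.Prime) (i : ℕ) {M M' : ℕ} (hM : 0 < M) (hM' : 0 < M') :
    ∃ x y : ℕ, x + y = i ∧ b ^ y ∣ M' ∧ (0 < x → ¬ b ∣ M' / b ^ y) ∧
      ∀ (R : Finset (Λ × Λ)) (f g g' : Λ → ℝ → ℝ), (∀ j, PB (f j)) → (∀ j, PB (g j)) →
        (∀ j, PB (g' j)) → (∀ j z, g' j z ≤ g j ((b ^ i : ℕ) * z)) →
        Q R (avg M f) (avg M' g') ≤ Q R (avg (b ^ x * M) f) (avg (M' / b ^ y) g) := by
  obtain ⟨x, y, h1, h2, h3, h4⟩ := I_pull hb i hM hM'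
  refine ⟨x, y, h1, h2, h3, fun R f g g' hf hg hg' hle => ?_⟩
  unfold Q
  refine Finset.sum_le_sum fun e _ => ?_
  have h5 := h4 (f e.1) (g e.2) (hf _) (hg _)
  refine le_trans ?_ h5.le
  refine I_mono (((hf _).Ep hM).mul ((hg' _).Ep hM')).integrableOn
    (((hf _).Ep hM).mul (((hg _).pull (b ^ i)).Ep hM')).integrableOn fun z => ?_
  exact mul_le_mul_of_nonneg_left (Ep_mono (hle e.2) z) (((hf _).Ep hM).nonneg z)


/-! ### the reduced node -/

/-- the exponent of `b` in the rest of `q` at a node with pulled part `A` -/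
def vb (b A q : ℕ) : ℕ := (q / A).factorization b

lemma le_vb {b A q k : ℕ} (hb : b.Prime) (hq : 0 < q) (hA : A ∣ q) : b ^ k ∣ q / A ↔ k ≤ vb b A q := by
  have h0 : q / A ≠ 0 := by
    have := Nat.div_pos (Nat.le_of_dvd hq hA) (Nat.pos_of_dvd_of_pos hA hq)
    omega
  exact hb.pow_dvd_iff_le_factorization h0

lemma vb_mul {b A q : ℕ} (hb : b.Prime) (hq : 0 < q) (h : A * b ∣ q) :
    vb b A q = vb b (A * b) q + 1 := by
  unfold vb
  rw [div_step hq h]
  have h0 : q / (A * b) ≠ 0 := by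
    have := Nat.div_pos (Nat.le_of_dvd hq h) (Nat.pos_of_dvd_of_pos h hq)
    omega
  rw [Nat.factorization_mul hb.ne_zero h0, Finsupp.add_apply, hb.factorization_self, add_comm]

/-- **the reduced node** `(u'', t'')` of `(u, t)` for the valuation `v`, after `i` pulls -/
structure Red (D : Par Λ κ) (P : Bld532.Par) (W : ℕ → ℝ) (T : IT) (b v : ℕ) (u : NS) (t : IT) (i : ℕ)
    (u'' : NS) (t'' : IT) : Prop where
  le : i ≤ v
  nd : All (ND1 P W T) u'' t''
  eB : u''.B = u.B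
  eA : u''.A = u.A * b ^ i
  lv : u''.n ≤ b + 1
  fit : Fit u''.B u''.A t''
  wts : D.Wts u''.A t''
  sub : t''.items ⊆ t.items
  mem : ∀ q ∈ t.items, vb b u.A q = v → q ∈ t''.items
  /-- `v - i` is the exponent which is left -/
  vl : ∀ q ∈ t.items, vb b u.A q = v → vb b u''.A q = v - i
  mp : ∀ q ∈ t.items, vb b u.A q = v → mp t q = mp t'' q
  ptw : ∀ c, c ∣ u.B → ∀ j, D.it j ∈ t.items → vb b u.A (D.it j) = v → ∀ x,
    (D.toFT u.B u.A t).U c j x ≤ (D.toFT u''.B u''.A t'').U c j ((b ^ i : ℕ) * x)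
  mass : ∀ c, c ∣ u.B → ∀ j, D.it j ∈ t.items → vb b u.A (D.it j) = v →
    (1 - 1 / (b : ℝ)) * I ((D.toFT u''.B u''.A t'').U c j) ≤ I ((D.toFT u.B u.A t).U c j)
  /-- nothing is left, or a leaf, or the rest is retained -/
  fin : v = i ∨ (∃ S, t'' = .leaf S) ∨ ∀ q ∈ t''.items, b ∣ q / u''.A → b ∈ rt T q

section
variable {D : Par Λ κ} {P : Bld532.Par} {W : ℕ → ℝ} {T : IT} {b v : ℕ}

/-- nothing to do -/
lemma Red.refl {u : NS} {t : IT} (hb : b.Prime) (hB : 0 < u.B) (h : All (ND1 P W T) u t)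
    (hn : u.n ≤ b + 1) (hF : Fit u.B u.A t) (hW : D.Wts u.A t)
    (hfin : v = 0 ∨ (∃ S, t = .leaf S) ∨ ∀ q ∈ t.items, b ∣ q / u.A → b ∈ rt T q) :
    Red D P W T b v u t 0 u t where
  le := Nat.zero_le _
  nd := h
  eB := rfl
  eA := by rw [pow_zero, mul_one]
  lv := hn
  fit := hF
  wts := hW
  sub := Finset.Subset.refl _
  mem := fun q hq _ => hq
  vl := fun q hq hv => by rw [hv]; omega
  mp := fun q hq hv => rfl
  ptw := fun c hc j hj hv x => by rw [pow_zero, Nat.cast_one, one_mul]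
  mass := fun c hc j hj hv => by
    have h1 := I_nonneg (FT.pb hB (D.toFT_Adm t u.B u.A hB hF hW) hc j).nonneg
    have h2 : 0 ≤ 1 / (b : ℝ) := by positivity
    nlinarith
  fin := hfin

lemma lvl {u : NS} {b' : ℕ} (hb : b.Prime) (hn : ¬ u.n ≤ b) (hn1 : u.n ≤ b + 1) (h1 : b' < u.n)
    (h2 : ∀ r, r.Prime → r < u.n → r ≤ b') : b' = b := by
  have := h2 b hb (by omega)
  omega

/-- through an `add` node, present child -/
lemma Red.add₁ {n m : ℕ} {cc : ℝ} {i : ℕ} {u u'' : NS} {t₁ t₀ t'' : IT}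
    (hd : Disjoint t₁.items t₀.items)
    (hmem : ∀ q ∈ (IT.add n t₁ t₀).items, vb b u.A q = v → q ∈ t₁.items)
    (k : Red D P W T b v ⟨m, cc, u.A, u.B⟩ t₁ i u'' t'') :
    Red D P W T b v u (.add n t₁ t₀) i u'' t'' where
  le := k.le
  nd := k.nd
  eB := k.eB
  eA := k.eA
  lv := k.lv
  fit := k.fit
  wts := k.wts
  sub := k.sub.trans Finset.subset_union_left
  mem := fun q hq hv => k.mem q (hmem q hq hv) hv
  vl := fun q hq hv => k.vl q (hmem q hq hv) hv
  mp := fun q hq hv => by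
    have h1 := hmem q hq hv
    have h0 : q ∉ t₀.items := Finset.disjoint_left.1 hd h1
    rw [← k.mp q h1 hv]
    exact if_neg h0
  ptw := fun c hc j hj hv x => by
    have h1 := hmem _ hj hv
    have h0 : D.it j ∉ t₀.items := Finset.disjoint_left.1 hd h1
    show (D.toFT u.B u.A t₁).U c j x + (D.toFT u.B u.A t₀).U c j x ≤ _
    rw [D.U_zero t₀ _ _ _ j h0, add_zero]
    exact k.ptw c hc j h1 hv x
  mass := fun c hc j hj hv => by
    have h1 := hmem _ hj hv
    have h0 : D.it j ∉ t₀.items := Finset.disjoint_left.1 hd h1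
    have e : (D.toFT u.B u.A (.add n t₁ t₀)).U c j = (D.toFT u.B u.A t₁).U c j := by
      funext x
      show (D.toFT u.B u.A t₁).U c j x + (D.toFT u.B u.A t₀).U c j x = _
      rw [D.U_zero t₀ _ _ _ j h0, add_zero]
    rw [e]
    exact k.mass c hc j h1 hv
  fin := k.fin

/-- through an `add` node, missing child -/
lemma Red.add₀ {n m : ℕ} {cc : ℝ} {i : ℕ} {u u'' : NS} {t₁ t₀ t'' : IT}
    (hd : Disjoint t₁.items t₀.items)
    (hmem : ∀ q ∈ (IT.add n t₁ t₀).items, vb b u.A q = v → q ∈ t₀.items)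
    (k : Red D P W T b v ⟨m, cc, u.A, u.B⟩ t₀ i u'' t'') :
    Red D P W T b v u (.add n t₁ t₀) i u'' t'' where
  le := k.le
  nd := k.nd
  eB := k.eB
  eA := k.eA
  lv := k.lv
  fit := k.fit
  wts := k.wts
  sub := k.sub.trans Finset.subset_union_right
  mem := fun q hq hv => k.mem q (hmem q hq hv) hv
  vl := fun q hq hv => k.vl q (hmem q hq hv) hv
  mp := fun q hq hv => by
    have h1 := hmem q hq hv
    rw [← k.mp q h1 hv]
    exact if_pos h1
  ptw := fun c hc j hj hv x => by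
    have h1 := hmem _ hj hv
    have h0 : D.it j ∉ t₁.items := Finset.disjoint_right.1 hd h1
    show (D.toFT u.B u.A t₁).U c j x + (D.toFT u.B u.A t₀).U c j x ≤ _
    rw [D.U_zero t₁ _ _ _ j h0, zero_add]
    exact k.ptw c hc j h1 hv x
  mass := fun c hc j hj hv => by
    have h1 := hmem _ hj hv
    have h0 : D.it j ∉ t₁.items := Finset.disjoint_right.1 hd h1
    have e : (D.toFT u.B u.A (.add n t₁ t₀)).U c j = (D.toFT u.B u.A t₀).U c j := by
      funext x
      show (D.toFT u.B u.A t₁).U c j x + (D.toFT u.B u.A t₀).U c j x = _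
      rw [D.U_zero t₁ _ _ _ j h0, zero_add]
    rw [e]
    exact k.mass c hc j h1 hv
  fin := k.fin

/-- `far` = `add` -/
lemma Red.far {n : ℕ} {i : ℕ} {u u'' : NS} {t₁ t₀ t'' : IT}
    (k : Red D P W T b v u (.add n t₁ t₀) i u'' t'') :
    Red D P W T b v u (.far n t₁ t₀) i u'' t'' :=
  ⟨k.le, k.nd, k.eB, k.eA, k.lv, k.fit, k.wts, k.sub, k.mem, k.vl, k.mp, k.ptw, k.mass, k.fin⟩

/-- mass of a pulled piece -/
lemma I_pl {b pr p c : ℕ} {t : IT} (hb : 0 < b) (hF : Fit b pr (.pl p t)) (hW : D.Wts pr (.pl p t))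
    (hc : c ∣ b) {j : Λ} :
    I ((D.toFT b pr (.pl p t)).U c j) = I ((D.toFT b (pr * p) t).U c j) := by
  obtain ⟨hp, hpb, h1⟩ := hF
  have hA : (D.toFT b (pr * p) t).Adm b := D.toFT_Adm _ b (pr * p) hb h1 hW.pl
  have hUpb : PB ((D.toFT b (pr * p) t).U c j) := FT.pb hb hA hc j
  have eU : (D.toFT b pr (.pl p t)).U c j = fun x => (D.toFT b (pr * p) t).U c j (p * x) * 1 := by
    funext x
    show (D.toFT b (pr * p) t).U c j (p * x) = _
    rw [mul_one]
  have hone : PB (fun _ : ℝ => (1 : ℝ)) := PB.const zero_le_one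
  rw [eU, push_left hp.pos hUpb hone]
  congr 1
  funext y
  rw [Ep_const hp.pos, mul_one]

/-- through a pull -/
lemma Red.pl {m : ℕ} {cc : ℝ} {i : ℕ} {u u'' : NS} {t t'' : IT} (hb : b.Prime) (hB : 0 < u.B)
    (hF : Fit u.B u.A (.pl b t)) (hW : D.Wts u.A (.pl b t)) (hv0 : 0 < v)
    (k : Red D P W T b (v - 1) ⟨m, cc, u.A * b, u.B⟩ t i u'' t'') :
    Red D P W T b v u (.pl b t) (i + 1) u'' t'' := by
  have hv1 : ∀ q ∈ (IT.pl b t).items, vb b u.A q = v →
      vb b (u.A * b) q = v - 1 := by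
    intro q hq hv
    obtain ⟨a1, a2, a3⟩ := hF.2.2.item q hq
    have := vb_mul hb a1 a2
    omega
  exact
    { le := by have := k.le; omega
      nd := k.nd
      eB := k.eB
      eA := by rw [k.eA]; show u.A * b * b ^ i = _; rw [pow_succ]; ring
      lv := k.lv
      fit := k.fit
      wts := k.wts
      sub := k.sub
      mem := fun q hq hv => k.mem q hq (hv1 q hq hv)
      vl := fun q hq hv => by rw [k.vl q hq (hv1 q hq hv)]; omega
      mp := fun q hq hv => by rw [← k.mp q hq (hv1 q hq hv)]; rfl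
      ptw := fun c hc j hj hv x => by
        have h := k.ptw c hc j hj (hv1 _ hj hv) (b * x)
        show (D.toFT u.B (u.A * b) t).U c j (b * x) ≤ _
        refine h.trans (le_of_eq ?_)
        congr 1
        rw [pow_succ]; push_cast; ring
      mass := fun c hc j hj hv => by
        rw [I_pl hB hF hW hc]
        exact k.mass c hc j hj (hv1 _ hj hv)
      fin := by
        rcases k.fin with h | h | h
        · left; omega
        · right; left; exact h
        · right; right; exact h }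

/-- mass of a present piece at a tie -/
lemma I_br1 {b pr p c : ℕ} {Sp : Finset ℕ} {t₁ t₀ : IT} (hb : 0 < b)
    (hF : Fit b pr (.br p Sp t₁ t₀)) (hW : D.Wts pr (.br p Sp t₁ t₀)) (hc : c ∣ b) {j : Λ}
    (hj0 : D.it j ∉ t₀.items) :
    I ((D.toFT b pr (.br p Sp t₁ t₀)).U c j) =
      (1 - 1 / (p : ℝ)) * I ((D.toFT b (pr * p) t₁).U c j) := by
  have hA : (D.toFT b pr (.br p Sp t₁ t₀)).Adm b := D.toFT_Adm _ b pr hb hF hW
  have hdat := FT.dat hb hA
  obtain ⟨hp, hpb, hd, h1, h0⟩ := hF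
  set M := mult p (fun j => (D.toFT b (pr * p) t₁).U 1 j)
    (fun j => (D.toFT (b * p) pr t₀).U p j) (fun j => (D.toFT (b * p) pr t₀).U 1 j)
    (fun _ => D.rho p) (0 + 1) j with hM
  have hMpb : PB M := PB_mult hdat j
  have hUpb : PB ((D.toFT b (pr * p) t₁).U c j) := FT.pb hb hA.2.2.2.1 hc j
  have eU : (D.toFT b pr (.br p Sp t₁ t₀)).U c j = fun x =>
      (D.toFT b (pr * p) t₁).U c j (p * x) * M (c * x) := by
    funext x
    show M (c * x) * (D.toFT b (pr * p) t₁).U c j (p * x) +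
      (D.toFT (b * p) pr t₀).U (c * p) j x = _
    rw [D.U_zero t₀ _ _ _ j hj0, add_zero, mul_comm]
  have hcp : Nat.Coprime c p := (hpb.coprime_dvd_right hc).symm
  have hEM : ∀ y, Ep p (fun x => M (c * x)) y = 1 - 1 / (p : ℝ) := by
    intro y
    have h3 := Ep_mult (c := fun _ => D.rho p) (n := 0 + 1) hdat j (c * y)
    rw [← h3]
    unfold Ep
    rw [← hM]
    congr 1
    exact sum_push_coprime hp.pos hcp hMpb.per y
  rw [eU, push_left hp.pos hUpb (hMpb.pull c)]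
  have e3 : (fun y => (D.toFT b (pr * p) t₁).U c j y * Ep p (fun x => M (c * x)) y) =
      fun y => (1 - 1 / (p : ℝ)) * (D.toFT b (pr * p) t₁).U c j y := by
    funext y; rw [hEM]; ring
  rw [e3, I_smul]

/-- **existence of the reduced node** -/
theorem red_ex (hb : b.Prime) : ∀ (t : IT) (u : NS) (v : ℕ), All (ND1 P W T) u t → u.n ≤ b + 1 →
    0 < u.B → Fit u.B u.A t → D.Wts u.A t → ∃ i u'' t'', Red D P W T b v u t i u'' t'' := by
  intro t
  induction t with
  | leaf S =>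
    intro u v h hn hB hF hW
    exact ⟨0, u, _, Red.refl hb hB h hn hF hW (Or.inr (Or.inl ⟨S, rfl⟩))⟩
  | br p Sp t₁ t₀ ih₁ ih₀ =>
    intro u v h hn hB hF hW
    by_cases hnb : u.n ≤ b
    · exact ⟨0, u, _, Red.refl hb hB h hn hF hW (Or.inr (Or.inr fun q hq hd =>
        h.self.ge q hq b hb hnb hd))⟩
    obtain ⟨hp, hpn, -, hall, hBk, h1, h0, hSp, h3, -⟩ := h.self.node
    obtain rfl : p = b := lvl hb hnb hn hpn hall
    rcases Nat.eq_zero_or_pos v with hv0 | hv0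
    · exact ⟨0, u, _, Red.refl hb hB h hn hF hW (Or.inl hv0)⟩
    have hitem := hF.item
    obtain ⟨-, hpB, hdj, hF1, hF0⟩ := hF
    have hW1 := hW.br₁ hdj
    have ha : All (ND1 P W T) ⟨p, u.c / (1 - 1 / (p : ℝ)), u.A * p, u.B⟩ t₁ := h.2.1
    have hvp : ∀ q ∈ (IT.br p Sp t₁ t₀).items, vb p u.A q = v → q ∈ t₁.items := by
      intro q hq hv
      obtain ⟨a1, a2, a3⟩ := hitem q hq
      have h5 : p ∣ q / u.A := by
        have := (le_vb (k := 1) hb a1 a2).2 (by omega)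
        simpa using this
      rw [h1]
      exact Bld532.mem_dv.2 ⟨hq, h5⟩
    refine ⟨1, ⟨p, u.c / (1 - 1 / (p : ℝ)), u.A * p, u.B⟩, t₁, ?_⟩
    exact
      { le := hv0
        nd := ha
        eB := rfl
        eA := by rw [pow_one]
        lv := Nat.le_succ _
        fit := hF1
        wts := hW1
        sub := Finset.subset_union_left
        mem := hvp
        vl := fun q hq hv => by
          have hq1 := hvp q hq hv
          obtain ⟨a1, a2, a3⟩ := hF1.item q hq1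
          have := vb_mul hb a1 a2
          show vb p (u.A * p) q = v - 1
          omega
        mp := fun q hq hv => by
          have hq1 := hvp q hq hv
          have hq0 : q ∉ t₀.items := Finset.disjoint_left.1 hdj hq1
          exact if_neg hq0
        ptw := fun c hc j hj hv x => by
          have hq1 := hvp _ hj hv
          have hq0 : D.it j ∉ t₀.items := Finset.disjoint_left.1 hdj hq1
          have hA : (D.toFT u.B u.A (.br p Sp t₁ t₀)).Adm u.B :=
            D.toFT_Adm _ u.B u.A hB ⟨hp, hpB, hdj, hF1, hF0⟩ hW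
          have hdat := FT.dat hB hA
          show mult p _ _ _ _ _ j (c * x) * (D.toFT u.B (u.A * p) t₁).U c j (p * x) +
            (D.toFT (u.B * p) u.A t₀).U (c * p) j x ≤ _
          rw [D.U_zero t₀ _ _ _ j hq0, add_zero, pow_one]
          have hU := (FT.pb hB hA.2.2.2.1 hc j).nonneg (p * x)
          have hm := mult_bounds (c := fun _ => D.rho p) (n := 1) hdat j (c * x)
          exact mul_le_of_le_one_left hU hm.2
        mass := fun c hc j hj hv => by
          have hq1 := hvp _ hj hv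
          have hq0 : D.it j ∉ t₀.items := Finset.disjoint_left.1 hdj hq1
          exact (I_br1 hB ⟨hp, hpB, hdj, hF1, hF0⟩ hW hc hq0).ge
        fin := Or.inr (Or.inr fun q hq hd => ha.self.ge q hq p hb le_rfl hd) }
  | add b' t₁ t₀ ih₁ ih₀ =>
    intro u v h hn hB hF hW
    by_cases hnb : u.n ≤ b
    · exact ⟨0, u, _, Red.refl hb hB h hn hF hW (Or.inr (Or.inr fun q hq hd =>
        h.self.ge q hq b hb hnb hd))⟩
    obtain ⟨hp, hpn, -, hall, hBk, ⟨j, t', hj, -, h1, h0, -⟩, -⟩ := h.self.node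
    obtain rfl : b' = b := lvl hb hnb hn hpn hall
    have hitem := hF.item
    have hWa := hW
    obtain ⟨hdj, hF1, hF0⟩ := hF
    by_cases hjv : j ≤ v
    · have hmem : ∀ q ∈ (IT.add b' t₁ t₀).items, vb b' u.A q = v → q ∈ t₁.items := by
        intro q hq hv
        obtain ⟨a1, a2, a3⟩ := hitem q hq
        rw [h1]
        exact Bld532.mem_dv.2 ⟨hq, (le_vb hb a1 a2).2 (by omega)⟩
      obtain ⟨i, u'', t'', k⟩ := ih₁ ⟨b' + 1, u.c, u.A, u.B⟩ v h.2.1 le_rfl hB hF1 (hWa.add₁ hdj)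
      exact ⟨i, u'', t'', k.add₁ hdj hmem⟩
    · have hmem : ∀ q ∈ (IT.add b' t₁ t₀).items, vb b' u.A q = v → q ∈ t₀.items := by
        intro q hq hv
        obtain ⟨a1, a2, a3⟩ := hitem q hq
        rw [h0]
        exact Bld532.mem_nd.2 ⟨hq, fun h5 => hjv (by
          have := (le_vb hb a1 a2).1 h5
          omega)⟩
      obtain ⟨i, u'', t'', k⟩ := ih₀ ⟨b' + 1, u.c, u.A, u.B⟩ v h.2.2 le_rfl hB hF0 hWa.add₀
      exact ⟨i, u'', t'', k.add₀ hdj hmem⟩
  | up b' Sp t ih =>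
    intro u v h hn hB hF hW
    by_cases hnb : u.n ≤ b
    · exact ⟨0, u, _, Red.refl hb hB h hn hF hW (Or.inr (Or.inr fun q hq hd =>
        h.self.ge q hq b hb hnb hd))⟩
    have hnd := h.self
    obtain ⟨hp, hpn, -, hall, hBk, hSp, -⟩ := h.self.node
    obtain rfl : b' = b := lvl hb hnb hn hpn hall
    refine ⟨0, u, _, Red.refl hb hB h hn hF hW (Or.inr (Or.inr fun q hq hd => ?_))⟩
    have h2 : q ∈ Sp := by rw [hSp]; exact Bld532.mem_dv.2 ⟨hq, hd⟩
    have h3 : b' ∈ (IT.up b' Sp t).uq q := by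
      show b' ∈ if q ∈ Sp then insert b' (t.uq q) else t.uq q
      rw [if_pos h2]
      exact Finset.mem_insert_self _ _
    exact (hnd.lo q hq b' hpn).2 h3
  | pl p t ih =>
    intro u v h hn hB hF hW
    by_cases hnb : u.n ≤ b
    · exact ⟨0, u, _, Red.refl hb hB h hn hF hW (Or.inr (Or.inr fun q hq hd =>
        h.self.ge q hq b hb hnb hd))⟩
    obtain ⟨hp, hpn, -, hall, hBk, hdv, -⟩ := h.self.node
    obtain rfl : p = b := lvl hb hnb hn hpn hall
    have hitem := hF.item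
    have hFa := hF
    obtain ⟨-, hpB, hF1⟩ := hF
    rcases Nat.eq_zero_or_pos v with hv0 | hv0
    · exact ⟨0, u, _, Red.refl hb hB h hn hFa hW (Or.inl hv0)⟩
    obtain ⟨i, u'', t'', k⟩ := ih ⟨p + 1, u.c, u.A * p, u.B⟩ (v - 1) h.2 le_rfl hB hF1 hW.pl
    exact ⟨i + 1, u'', t'', k.pl hb hB hFa hW hv0⟩
  | far b' t₁ t₀ ih₁ ih₀ =>
    intro u v h hn hB hF hW
    by_cases hnb : u.n ≤ b
    · exact ⟨0, u, _, Red.refl hb hB h hn hF hW (Or.inr (Or.inr fun q hq hd =>
        h.self.ge q hq b hb hnb hd))⟩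
    obtain ⟨hp, hpn, -, hall, hBk, ⟨K, h1, h0, -⟩, -⟩ := h.self.node
    obtain rfl : b' = b := lvl hb hnb hn hpn hall
    have hitem := hF.item
    have hWa := hW
    obtain ⟨hdj, hF1, hF0⟩ := hF
    have h1' : t₁.items = Bld532.farS b' u.A K (t₁.items ∪ t₀.items) := by
      conv_lhs => rw [h1]
      rfl
    by_cases hjv : K + 2 ≤ v ∨ ¬ K - 1 ≤ v
    · have hmem : ∀ q ∈ (IT.add b' t₁ t₀).items, vb b' u.A q = v → q ∈ t₁.items := by
        intro q hq hv
        obtain ⟨a1, a2, a3⟩ := hitem q hq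
        rw [h1']
        refine Bld532.mem_farS.2 ⟨hq, ?_⟩
        rw [le_vb hb a1 a2, le_vb hb a1 a2, hv]
        exact hjv
      obtain ⟨i, u'', t'', k⟩ := ih₁ ⟨b' + 1, u.c, u.A, u.B⟩ v h.2.1 le_rfl hB hF1 (hWa.far₁ hdj)
      exact ⟨i, u'', t'', (k.add₁ (n := b') hdj hmem).far⟩
    · have hmem : ∀ q ∈ (IT.add b' t₁ t₀).items, vb b' u.A q = v → q ∈ t₀.items := by
        intro q hq hv
        obtain ⟨a1, a2, a3⟩ := hitem q hq
        rw [h0]
        refine Bld532.mem_nearS.2 ⟨hq, ?_⟩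
        rw [le_vb hb a1 a2, le_vb hb a1 a2, hv]
        push Not at hjv
        exact ⟨by omega, by omega⟩
      obtain ⟨i, u'', t'', k⟩ := ih₀ ⟨b' + 1, u.c, u.A, u.B⟩ v h.2.2 le_rfl hB hF0 hWa.far₀
      exact ⟨i, u'', t'', (k.add₀ (n := b') hdj hmem).far⟩

end

/-! ### cross energies -/

section
variable {D : Par Λ κ} {P : Bld532.Par} {W : ℕ → ℝ} {T : IT} {b v : ℕ}

/-- **the column `b` of the rich side is pulled**: population `A` of exact valuation `v` -/
theorem Red.Q_le {u u'' : NS} {t t'' : IT} {i : ℕ} (k : Red D P W T b v u t i u'' t'')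
    (hb : b.Prime) (hB : 0 < u.B) (hF : Fit u.B u.A t) (hW : D.Wts u.A t) {A : Finset Λ}
    (hA : ∀ j ∈ A, D.it j ∈ t.items → vb b u.A (D.it j) = v) {M M' : ℕ} (hM : 0 < M)
    (hM' : 0 < M') :
    ∃ x y : ℕ, x + y = i ∧ b ^ y ∣ M' ∧ (0 < x → ¬ b ∣ M' / b ^ y) ∧
      ∀ (R : Finset (Λ × Λ)) (f : Λ → ℝ → ℝ), (∀ j, PB (f j)) →
        Q R (avg M f) (D.uA M' u.B u.A t A 1) ≤
          Q R (avg (b ^ x * M) f) (D.uA (M' / b ^ y) u''.B u''.A t'' A 1) := by
  obtain ⟨x, y, h1, h2, h3, h4⟩ := Q_pull (Λ := Λ) hb i hM hM'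
  refine ⟨x, y, h1, h2, h3, fun R f hf => ?_⟩
  have hB'' : 0 < u''.B := by rw [k.eB]; exact hB
  refine h4 R f (rv A fun j => (D.toFT u''.B u''.A t'').U 1 j)
    (rv A fun j => (D.toFT u.B u.A t).U 1 j) hf
    (PB_rv (fun j => FT.pb hB'' (D.toFT_Adm t'' _ _ hB'' k.fit k.wts) (one_dvd _) j) A)
    (PB_rv (fun j => FT.pb hB (D.toFT_Adm t _ _ hB hF hW) (one_dvd _) j) A) fun j z => ?_
  have hp := (FT.pb hB'' (D.toFT_Adm t'' _ _ hB'' k.fit k.wts) (one_dvd _) j).nonneg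
  unfold rv
  split_ifs with hj
  · show (D.toFT u.B u.A t).U 1 j z ≤ (D.toFT u''.B u''.A t'').U 1 j ((b ^ i : ℕ) * z)
    by_cases hi : D.it j ∈ t.items
    · exact k.ptw 1 (one_dvd _) j hi (hA j hj hi) z
    · rw [D.U_zero t _ _ _ j hi]; exact hp _
  · exact le_rfl

/-- the same with an averaged population on the left -/
theorem Red.Q_uA {u u'' : NS} {t t'' : IT} {i : ℕ} (k : Red D P W T b v u t i u'' t'')
    (hb : b.Prime) (hB : 0 < u.B) (hF : Fit u.B u.A t) (hW : D.Wts u.A t) {A : Finset Λ}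
    (hA : ∀ j ∈ A, D.it j ∈ t.items → vb b u.A (D.it j) = v) {M M' : ℕ} (hM : 0 < M)
    (hM' : 0 < M') :
    ∃ x y : ℕ, x + y = i ∧ b ^ y ∣ M' ∧ (0 < x → ¬ b ∣ M' / b ^ y) ∧
      ∀ (R : Finset (Λ × Λ)) (b₁ pr₁ : ℕ) (t₁ : IT) (A₁ : Finset Λ), 0 < b₁ → Fit b₁ pr₁ t₁ →
        D.Wts pr₁ t₁ →
        Q R (D.uA M b₁ pr₁ t₁ A₁ 1) (D.uA M' u.B u.A t A 1) ≤
          Q R (D.uA (b ^ x * M) b₁ pr₁ t₁ A₁ 1) (D.uA (M' / b ^ y) u''.B u''.A t'' A 1) := by
  obtain ⟨x, y, h1, h2, h3, h4⟩ := k.Q_le hb hB hF hW hA hM hM'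
  refine ⟨x, y, h1, h2, h3, fun R b₁ pr₁ t₁ A₁ hb₁ hF₁ hW₁ => ?_⟩
  exact h4 R _ (PB_rv (fun j => FT.pb hb₁ (D.toFT_Adm t₁ _ _ hb₁ hF₁ hW₁) (one_dvd _) j) A₁)

/-! ### the virtual leaf -/

/-- an unpulled leaf function = pulled function of the virtual leaf with the pulled part `pr * N` -/
lemma L_pull {b pr N c : ℕ} {S : Finset ℕ} (hN : 0 < N) {j : Λ} (hj : D.it j ∈ S)
    (hpos : 0 < D.it j) (hd : pr * N ∣ D.it j) (x : ℝ) :
    (D.toFT b pr (.leaf S)).U c j x = (D.toFT b (pr * N) (.leaf S)).U c j (N * x) := by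
  show D.L b pr S c j x = D.L b (pr * N) S c j (N * x)
  unfold Par.L
  rw [if_pos hj, if_pos hj]
  unfold Par.pcs
  rw [← pc_push]
  congr 1
  obtain ⟨k, hk⟩ := hd
  have hpr : 0 < pr * N := Nat.pos_of_dvd_of_pos ⟨k, hk⟩ hpos
  have hpr0 : 0 < pr := Nat.pos_of_mul_pos_right hpr
  rw [hk, Nat.mul_div_cancel_left k hpr, mul_assoc pr N k, Nat.mul_div_cancel_left _ hpr0]

/-- **unpulled leaf items with a weight which is constant modulo the `b`-part** (`hW'` : the weights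
are periodic modulo the rest `q / (pr * N)`, `N` = the `b`-part) -/
theorem Q_vleaf {b pr w bB : ℕ} {S S' : Finset ℕ} (hb : b.Prime) (hB : 0 < bB)
    (hF : Fit bB pr (.leaf S)) (hW : D.Wts pr (.leaf S)) (hS : S' ⊆ S)
    (hF' : Fit bB (pr * b ^ w) (.leaf S')) (hW' : D.Wts (pr * b ^ w) (.leaf S')) {A : Finset Λ}
    (hA : ∀ j ∈ A, D.it j ∈ S → D.it j ∈ S') {M M' : ℕ} (hM : 0 < M) (hM' : 0 < M') :
    ∃ x y : ℕ, x + y = w ∧ b ^ y ∣ M' ∧ (0 < x → ¬ b ∣ M' / b ^ y) ∧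
      ∀ (R : Finset (Λ × Λ)) (f : Λ → ℝ → ℝ), (∀ j, PB (f j)) →
        Q R (avg M f) (D.uA M' bB pr (.leaf S) A 1) ≤
          Q R (avg (b ^ x * M) f) (D.uA (M' / b ^ y) bB (pr * b ^ w) (.leaf S') A 1) := by
  obtain ⟨x, y, h1, h2, h3, h4⟩ := Q_pull (Λ := Λ) hb w hM hM'
  refine ⟨x, y, h1, h2, h3, fun R f hf => ?_⟩
  refine h4 R f (rv A fun j => (D.toFT bB (pr * b ^ w) (.leaf S')).U 1 j)
    (rv A fun j => (D.toFT bB pr (.leaf S)).U 1 j) hf
    (PB_rv (fun j => FT.pb hB (D.toFT_Adm _ _ _ hB hF' hW') (one_dvd _) j) A)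
    (PB_rv (fun j => FT.pb hB (D.toFT_Adm _ _ _ hB hF hW) (one_dvd _) j) A) fun j z => ?_
  have hp := (FT.pb hB (D.toFT_Adm _ _ _ hB hF' hW') (one_dvd _) j).nonneg
  unfold rv
  split_ifs with hj
  · show (D.toFT bB pr (.leaf S)).U 1 j z ≤
      (D.toFT bB (pr * b ^ w) (.leaf S')).U 1 j ((b ^ w : ℕ) * z)
    by_cases hi : D.it j ∈ S
    · have hi' := hA j hj hi
      obtain ⟨a1, a2, a3⟩ := hF'.item _ hi'
      have e1 : (D.toFT bB (pr * b ^ w) (.leaf S')).U 1 j =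
          (D.toFT bB (pr * b ^ w) (.leaf S)).U 1 j := by
        funext x
        show D.L bB (pr * b ^ w) S' 1 j x = D.L bB (pr * b ^ w) S 1 j x
        unfold Par.L
        rw [if_pos hi, if_pos hi']
      rw [e1]
      exact (L_pull (pow_pos hb.pos w) hi a1 a2 z).le
    · rw [D.U_zero (.leaf S) _ _ _ j hi]; exact hp _
  · exact le_rfl

/-- mass of a piece of the virtual leaf -/
lemma I_vleaf {b pr w bB c : ℕ} {S S' : Finset ℕ} (hb : b.Prime) (hB : 0 < bB)
    (hF' : Fit bB (pr * b ^ w) (.leaf S')) (hW' : D.Wts (pr * b ^ w) (.leaf S')) (hc : c ∣ bB)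
    {j : Λ} (hj : D.it j ∈ S) (hj' : D.it j ∈ S') :
    I ((D.toFT bB (pr * b ^ w) (.leaf S')).U c j) = I ((D.toFT bB pr (.leaf S)).U c j) := by
  obtain ⟨a1, a2, a3⟩ := hF'.item _ hj'
  have e : (D.toFT bB pr (.leaf S)).U c j =
      fun x => (D.toFT bB (pr * b ^ w) (.leaf S')).U c j ((b ^ w : ℕ) * x) * 1 := by
    funext x
    rw [mul_one, L_pull (pow_pos hb.pos w) hj a1 a2]
    show D.L bB (pr * b ^ w) S c j _ = D.L bB (pr * b ^ w) S' c j _
    unfold Par.L
    rw [if_pos hj, if_pos hj']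
  have hN : 0 < b ^ w := pow_pos hb.pos w
  have hone : PB (fun _ : ℝ => (1 : ℝ)) := PB.const zero_le_one
  rw [e, push_left hN (FT.pb hB (D.toFT_Adm _ _ _ hB hF' hW') hc j) hone]
  congr 1
  funext y
  rw [Ep_const hN, mul_one]

end

/-! ### the weights -/

section wts
open Crest.Agent.R4.Ovl560 (nw LW nw_nonneg)
open Crest.Agent.R4P.Om532 Crest.Agent.R4.Om532 Crest.Agent.R4P.OmData532 Crest.Agent.R4.LF363

/-- a product weight whose factor at `b` is constant does not see the `b`-part of the modulus -/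
lemma Wt_nw_const {b w v : ℕ} {F : Finset ℕ} {u : ℕ → ℤ → ℝ} (hb : b.Prime) (hu : LW F u)
    (hF : ∀ l ∈ F, l.Prime ∧ l ∣ w) (hv : b ^ v ∣ w) (hc : b ∈ F → ∀ a, u b a = u b 0) :
    Wt (w / b ^ v) (nw F u) := by
  refine ⟨fun a => nw_nonneg hu a, fun a => ?_⟩
  unfold nw
  refine Finset.prod_congr rfl fun l hl => ?_
  by_cases hlb : l = b
  · subst hlb
    rw [hc hl, hc hl a]
  · obtain ⟨hlp, hlw⟩ := hF l hl
    have hco : Nat.Coprime l (b ^ v) :=
      Nat.Coprime.pow_right _ ((Nat.coprime_primes hlp hb).2 hlb)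
    have hd : l ∣ w / b ^ v := by
      obtain ⟨k, rfl⟩ := hv
      rw [Nat.mul_div_cancel_left _ (pow_pos hb.pos v)]
      exact hco.dvd_of_dvd_mul_left hlw
    obtain ⟨s, hs⟩ := hd
    rw [hs]
    have := hu.add_mul hl a s
    push_cast
    exact this

/-- the excluded classes, retained prime -/
lemma omT_cls {t : IT} {S' : Finset ℕ} {T : ℕ → ℕ → Finset ℚ} {th ph : ℕ → ℝ}
    {lab : ℕ → Option ℚ} {q b : ℕ} {a : ℤ} {ρ : ℚ} (h : omT t S' T th ph lab q a ≠ 0)
    (hb : b ∈ (q / pp t q).primeFactors) (hr : b ∈ rt t q) (hρ : ρ ∈ T q b) :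
    ¬ (b : ℤ) ∣ ρ.den * a + ρ.num := by
  intro hd
  apply h
  unfold omT omw
  split_ifs
  · unfold nw
    refine Finset.prod_eq_zero hb ?_
    unfold locw
    rw [if_pos hr]
    exact cls_eq_zero hρ hd
  · rfl

/-- the excluded class, active leaf prime -/
lemma omT_act {t : IT} {S' : Finset ℕ} {T : ℕ → ℕ → Finset ℚ} {th ph : ℕ → ℝ}
    {lab : ℕ → Option ℚ} {q b : ℕ} {a : ℤ} {ρ : ℚ} (h : omT t S' T th ph lab q a ≠ 0)
    (hb : b ∈ (q / pp t q).primeFactors) (hr : b ∉ rt t q) (hρ : lab q = some ρ)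
    (hA : Act (th q) (ph q) ρ b) : ¬ (b : ℤ) ∣ ρ.den * a + ρ.num := by
  intro hd
  apply h
  unfold omT omw
  split_ifs
  · unfold nw
    refine Finset.prod_eq_zero hb ?_
    unfold locw
    rw [if_neg hr, hρ, uw_act hA, if_pos hd]
  · rfl

/-- the weight of an item at a leaf prime `b` which is not active: constant modulo `b` -/
lemma omT_Wt {t : IT} {S' : Finset ℕ} {T : ℕ → ℕ → Finset ℚ} {th ph : ℕ → ℝ}
    {lab : ℕ → Option ℚ} {q b v : ℕ} (hb : b.Prime) (hr : b ∉ rt t q)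
    (hA : ∀ ρ, lab q = some ρ → ¬ Act (th q) (ph q) ρ b) (hv : b ^ v ∣ q / pp t q) :
    Wt (q / pp t q / b ^ v) (omT t S' T th ph lab q) := by
  unfold omT omw
  by_cases hg : q ∈ S'
  · simp only [hg, if_true]
    refine Wt_nw_const hb (LW_locw (LW_uw _ _ _ _)) (fun l hl =>
      ⟨Nat.prime_of_mem_primeFactors hl, Nat.dvd_of_mem_primeFactors hl⟩) hv fun _ a => ?_
    unfold locw
    rw [if_neg hr, if_neg hr]
    cases hl : lab q with
    | none => rw [uw_none, uw_none]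
    | some ρ => rw [uw_not_act (hA ρ hl), uw_not_act (hA ρ hl)]
  · simp only [hg, if_false]
    exact ⟨fun _ => le_rfl, fun _ => rfl⟩

/-- a numerator outside the class of `ρ` : `a + ρ` is prime to `b` -/
lemma val_zero {b : ℕ} (hb : b.Prime) {a : ℤ} {ρ : ℚ} (h1 : ¬ b ∣ ρ.den)
    (h : ¬ (b : ℤ) ∣ ρ.den * a + ρ.num) :
    (a : ℚ) + ρ ≠ 0 ∧ padicValRat b ((a : ℚ) + ρ) = 0 := by
  have := Fact.mk hb
  have hden : (ρ.den : ℚ) ≠ 0 := by exact_mod_cast ρ.den_nz
  have e : (a : ℚ) + ρ = ((ρ.den * a + ρ.num : ℤ) : ℚ) / ((ρ.den : ℤ) : ℚ) := by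
    push_cast
    rw [eq_div_iff hden, add_mul, Rat.mul_den_eq_num]
    ring
  have hn0 : (ρ.den * a + ρ.num : ℤ) ≠ 0 := fun h0 => h (by rw [h0]; exact dvd_zero _)
  have hn : padicValInt b (ρ.den * a + ρ.num) = 0 := padicValInt.eq_zero_of_not_dvd h
  have hd : padicValInt b (ρ.den : ℤ) = 0 :=
    padicValInt.eq_zero_of_not_dvd (by exact_mod_cast h1)
  have hd0 : ((ρ.den : ℤ) : ℚ) ≠ 0 := by push_cast; exact hden
  have hn0' : ((ρ.den * a + ρ.num : ℤ) : ℚ) ≠ 0 := by exact_mod_cast hn0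
  refine ⟨by rw [e]; exact div_ne_zero hn0' hd0, ?_⟩
  rw [e, padicValRat.div hn0' hd0, padicValRat.of_int, padicValRat.of_int, hn, hd]
  norm_num

/-- **the exact centre of a piece outside the class**: `a` = numerator at the node, `m` = missing
ties below, `B` = missing ties above, leaf numerator `m * a`, leaf label `(B * m) * σ` -/
lemma cen_val {b : ℕ} (hb : b.Prime) {a : ℤ} {m B : ℕ} (hm : 0 < m) {σ : ℚ}
    (h1 : ¬ b ∣ (((B * m : ℕ) : ℚ) * σ).den)
    (h : ¬ (b : ℤ) ∣ (((B * m : ℕ) : ℚ) * σ).den * (((m : ℕ) : ℤ) * a) + (((B * m : ℕ) : ℚ) * σ).num) :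
    (a : ℚ) + B * σ ≠ 0 ∧ padicValRat b ((a : ℚ) + B * σ) ≤ 0 := by
  have := Fact.mk hb
  obtain ⟨h2, h3⟩ := val_zero hb h1 h
  have hm0 : (m : ℚ) ≠ 0 := by exact_mod_cast hm.ne'
  have e : (((((m : ℕ) : ℤ) * a : ℤ) : ℚ) + ((B * m : ℕ) : ℚ) * σ) = (m : ℚ) * ((a : ℚ) + B * σ) := by
    push_cast; ring
  rw [e] at h2 h3
  have h4 : (a : ℚ) + B * σ ≠ 0 := right_ne_zero_of_mul h2
  refine ⟨h4, ?_⟩
  rw [padicValRat.mul hm0 h4, padicValRat.of_nat] at h3
  have : (0 : ℤ) ≤ (padicValNat b m : ℤ) := by positivity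
  linarith

end wts

end Crest.Agent.R4P.LiftP9
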