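import Crest.Agent.R4P.LiftX_35
import Crest.Agent.R4P.Bld532

/-!
R4P (S0004), helper35, group [X]: **lifts for one exponent class** (rich side not yet pulled).

* `Q_pull` : a pull on the right side as a change of the moduli;
* `Dn`, `descend` : the items of a population with the same exponent of `s` follow one path through the
  nodes of the column `s`; its end: everything pulled, or a leaf, or a node below `s`;
* `lift_class` : same-index labelled pairs of a class pair.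
-/

set_option autoImplicit false
set_option linter.unusedSectionVars false
set_option linter.unusedVariables false
open MeasureTheory Filter

namespace Crest.Agent.R4P.LiftX35

open Crest.Agent.R4.Tour104 Crest.Agent.R4.Tour758 Crest.Agent.R4.Avg758 Crest.Agent.R4.Clos758
open Crest.Agent.R4.ClosL758 Crest.Agent.R4.ClosG758 Crest.Agent.R4.ClosR758
open Crest.Agent.R4.Lam368 (mult lamF DW BW fW Nested Dat)
open Crest.Agent.R4.Fam464 Crest.Agent.R4P.Cnt588 Crest.Agent.R4P.Walk560 Crest.Agent.R4P.Item758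
open Crest.Agent.R4.Piece464 Crest.Agent.R4P.W363 Crest.Agent.R4P.AvgItem710
open Crest.Agent.R4P.Data758
open Crest.Agent.R4P.Bld532 (NS All NodeOk Bk dv nd mem_dv mem_nd farS nearS mem_farS mem_nearS)

/-! ### pulls -/

/-- moduli after a pull by `s` on the right side -/
def pm (s : ℕ) (m : ℕ × ℕ) : ℕ × ℕ := if s ∣ m.2 then (m.1, m.2 / s) else (s * m.1, m.2)

/-- moduli after `d` pulls -/
def pmk (s d : ℕ) (m : ℕ × ℕ) : ℕ × ℕ := (pm s)^[d] m

lemma pm_pos {s : ℕ} (hs : s.Prime) {m : ℕ × ℕ} (h : 0 < m.1 ∧ 0 < m.2) :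
    0 < (pm s m).1 ∧ 0 < (pm s m).2 := by
  unfold pm
  split_ifs with hd
  · exact ⟨h.1, Nat.div_pos (Nat.le_of_dvd h.2 hd) hs.pos⟩
  · exact ⟨Nat.mul_pos hs.pos h.1, h.2⟩

/-- a pull on the right side -/
theorem Q_pull {Λ : Type*} {s M M' : ℕ} (hs : s.Prime) (hM : 0 < M) (hM' : 0 < M')
    {f g : Λ → ℝ → ℝ} (pf : ∀ j, PB (f j)) (pg : ∀ j, PB (g j)) (R : Finset (Λ × Λ)) :
    Q R (avg M f) (avg M' fun j x => g j (s * x)) =
      Q R (avg (pm s (M, M')).1 f) (avg (pm s (M, M')).2 g) := by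
  unfold Q pm
  refine Finset.sum_congr rfl fun e _ => ?_
  by_cases hd : s ∣ M'
  · simp only [hd, if_true]
    obtain ⟨N, rfl⟩ := hd
    have hN : 0 < N := Nat.pos_of_mul_pos_left hM'
    rw [Nat.mul_div_cancel_left N hs.pos]
    congr 1
    funext x
    unfold avg
    have h1 : Ep (s * N) (fun x => g e.2 (s * x)) x = Ep N (g e.2) x := by
      rw [mul_comm, ← Ep_mul hN hs.pos]
      congr 1
      funext y
      have h2 := Ep_pull_mul hs.pos (a := g e.2) (f := fun _ => (1 : ℝ)) (pg e.2).per y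
      rw [Ep_const hs.pos, mul_one] at h2
      rw [← h2]
      congr 1
      funext z; ring
    rw [h1]
  · simp only [hd, if_false]
    have hc : Nat.Coprime s M' := (Nat.Prime.coprime_iff_not_dvd hs).2 hd
    have h1 := col_push hs.pos hM' hM hc (pg e.2) (pf e.1)
    have e1 : I (fun x => avg M f e.1 x * avg M' (fun j x => g j (s * x)) e.2 x) =
        I (fun x => Ep M' (fun x => g e.2 (s * x)) x * Ep M (f e.1) x) := by
      unfold avg; congr 1; funext x; ring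
    rw [e1, h1]
    unfold avg
    congr 1; funext x; ring

lemma pmk_zero (s : ℕ) (m : ℕ × ℕ) : pmk s 0 m = m := rfl

lemma pmk_succ (s d : ℕ) (m : ℕ × ℕ) : pmk s (d + 1) m = pmk s d (pm s m) :=
  Function.iterate_succ_apply _ _ _

lemma pmk_pos {s : ℕ} (hs : s.Prime) : ∀ (d : ℕ) {m : ℕ × ℕ}, 0 < m.1 ∧ 0 < m.2 →
    0 < (pmk s d m).1 ∧ 0 < (pmk s d m).2
  | 0, m, h => h
  | d + 1, m, h => by rw [pmk_succ]; exact pmk_pos hs d (pm_pos hs h)

/-- pulls on the right side -/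
theorem Q_pulls {Λ : Type*} {s : ℕ} (hs : s.Prime) {f : Λ → ℝ → ℝ} (pf : ∀ j, PB (f j))
    (R : Finset (Λ × Λ)) : ∀ (d : ℕ) {m : ℕ × ℕ} {g : Λ → ℝ → ℝ}, 0 < m.1 → 0 < m.2 →
      (∀ j, PB (g j)) →
      Q R (avg m.1 f) (avg m.2 fun j x => g j ((s : ℝ) ^ d * x)) =
      Q R (avg (pmk s d m).1 f) (avg (pmk s d m).2 g)
  | 0, m, g, h1, h2, pg => by
      rw [pmk_zero]; congr 2; funext j x; rw [pow_zero, one_mul]
  | d + 1, m, g, h1, h2, pg => by
      rw [pmk_succ]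
      have ph : ∀ j, PB (fun x => g j ((s : ℝ) ^ d * x)) := fun j => by
        have := (pg j).pull (s ^ d)
        simpa using this
      have e : (fun (j : Λ) (x : ℝ) => g j ((s : ℝ) ^ (d + 1) * x)) =
          fun j x => (fun j x => g j ((s : ℝ) ^ d * x)) j (s * x) := by
        funext j x
        show g j ((s : ℝ) ^ (d + 1) * x) = g j ((s : ℝ) ^ d * (s * x))
        rw [pow_succ, mul_assoc]
      have hp := pm_pos hs (m := m) ⟨h1, h2⟩
      rw [e, Q_pull hs h1 h2 pf ph R]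
      exact Q_pulls hs pf R d hp.1 hp.2 pg

/-- circumference after the pulls -/
lemma pmk_circ {s B B' : ℕ} (hs : s.Prime) : ∀ (d : ℕ) {m : ℕ × ℕ} {pr pr' : ℕ}, 
    pr * m.1 * B = pr' * m.2 * B' →
    pr * (pmk s d m).1 * B = (pr' * s ^ d) * (pmk s d m).2 * B'
  | 0, m, pr, pr', h => by rw [pmk_zero, pow_zero, mul_one]; exact h
  | d + 1, m, pr, pr', h => by
      rw [pmk_succ]
      have h1 : pr * (pm s m).1 * B = (pr' * s) * (pm s m).2 * B' := by
        unfold pm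
        split_ifs with hd
        · obtain ⟨N, hN⟩ := hd
          show pr * m.1 * B = pr' * s * (m.2 / s) * B'
          rw [h, hN, Nat.mul_div_cancel_left N hs.pos]
          ring
        · show pr * (s * m.1) * B = pr' * s * m.2 * B'
          calc pr * (s * m.1) * B = s * (pr * m.1 * B) := by ring
            _ = s * (pr' * m.2 * B') := by rw [h]
            _ = _ := by ring
      have h2 := pmk_circ hs d h1
      rw [h2]
      congr 2
      rw [pow_succ]; ring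

/-- left modulus after the pulls -/
lemma pmk_le {s : ℕ} (hs : s.Prime) : ∀ (d : ℕ) (m : ℕ × ℕ), (pmk s d m).1 ≤ s ^ d * m.1
  | 0, m => by rw [pmk_zero, pow_zero, one_mul]
  | d + 1, m => by
      rw [pmk_succ]
      refine (pmk_le hs d (pm s m)).trans ?_
      have h1 : (pm s m).1 ≤ s * m.1 := by
        unfold pm
        split_ifs with hd
        · exact Nat.le_mul_of_pos_left _ hs.pos
        · exact le_rfl
      calc s ^ d * (pm s m).1 ≤ s ^ d * (s * m.1) := Nat.mul_le_mul_left _ h1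
        _ = s ^ (d + 1) * m.1 := by rw [pow_succ]; ring

/-- exponents of the moduli after the pulls -/
lemma pmk_val {s : ℕ} (hs : s.Prime) : ∀ (d : ℕ) {m : ℕ × ℕ}, 0 < m.1 → 0 < m.2 →
    ¬ (s ∣ m.1 ∧ s ∣ m.2) →
    ¬ (s ∣ (pmk s d m).1 ∧ s ∣ (pmk s d m).2) ∧
      (pmk s d m).1.factorization s + m.2.factorization s =
        m.1.factorization s + d + (pmk s d m).2.factorization s
  | 0, m, h1, h2, h => ⟨h, by rw [pmk_zero, add_zero]⟩
  | d + 1, m, h1, h2, h => by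
      rw [pmk_succ]
      have hp := pm_pos hs (m := m) ⟨h1, h2⟩
      have h3 : ¬ (s ∣ (pm s m).1 ∧ s ∣ (pm s m).2) ∧
          (pm s m).1.factorization s + m.2.factorization s =
            m.1.factorization s + 1 + (pm s m).2.factorization s := by
        unfold pm
        split_ifs with hd
        · have hM : ¬ s ∣ m.1 := fun hM => h ⟨hM, hd⟩
          refine ⟨fun hc => hM hc.1, ?_⟩
          have h4 : m.2.factorization s = (m.2 / s).factorization s + 1 := by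
            obtain ⟨N, hN⟩ := hd
            have hN0 : 0 < N := Nat.pos_of_ne_zero fun h0 => by rw [h0] at hN; omega
            rw [hN, Nat.mul_div_cancel_left N hs.pos, Nat.factorization_mul hs.ne_zero hN0.ne']
            simp [hs.factorization_self, add_comm]
          show m.1.factorization s + m.2.factorization s =
            m.1.factorization s + 1 + (m.2 / s).factorization s
          omega
        · refine ⟨fun hc => hd hc.2, ?_⟩
          have h4 : (s * m.1).factorization s = m.1.factorization s + 1 := by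
            rw [Nat.factorization_mul hs.ne_zero h1.ne']
            simp [hs.factorization_self, add_comm]
          show (s * m.1).factorization s + m.2.factorization s =
            m.1.factorization s + 1 + m.2.factorization s
          omega
      obtain ⟨h5, h6⟩ := pmk_val hs d hp.1 hp.2 h3.1
      refine ⟨h5, ?_⟩
      omega

/-- **the gain condition after the pulls** -/
lemma pmk_gain {s : ℕ} (hs : s.Prime) {d k x : ℕ} {m : ℕ × ℕ} (h1 : 0 < m.1) (h2 : 0 < m.2)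
    (h : ¬ (s ∣ m.1 ∧ s ∣ m.2)) (hk : 0 < k)
    (hg : x + k + m.2.factorization s ≤ m.1.factorization s + d) :
    x + k ≤ (pmk s d m).1.factorization s := by
  obtain ⟨h3, h4⟩ := pmk_val hs d h1 h2 h
  obtain ⟨p1, p2⟩ := pmk_pos hs d (m := m) ⟨h1, h2⟩
  by_cases h5 : s ∣ (pmk s d m).2
  · have h6 : ¬ s ∣ (pmk s d m).1 := fun h6 => h3 ⟨h6, h5⟩
    rw [Nat.factorization_eq_zero_of_not_dvd h6] at h4 ⊢
    omega
  · rw [Nat.factorization_eq_zero_of_not_dvd h5] at h4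
    omega

/-! ### the path of an exponent class -/

section desc
variable {Λ κ : Type*} [Fintype Λ] [DecidableEq Λ] [Fintype κ] [DecidableEq κ] {D : Par Λ κ}
  {s : ℕ} {A' : Finset Λ}

/-- **the node `(v, ν)` lies below `(u, t)`**, `d` pulls by `s`, all the items of the population `A'`
go there -/
structure Dn (D : Par Λ κ) (s : ℕ) (A' : Finset Λ) (u : NS) (t : IT) (v : NS) (ν : IT)
    (d : ℕ) : Prop where
  inh : ∀ F : NS → IT → Prop, All F u t → All F v ν
  B : v.B = u.B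
  A : v.A = u.A * s ^ d
  c : v.c = u.c ∨ v.c = u.c / (1 - 1 / (s:ℝ))
  n : v.n ≤ u.n
  hF : Fit v.B v.A ν
  hW : D.Wts v.A ν
  sub : ν.items ⊆ t.items
  it : ∀ j ∈ A', D.it j ∈ t.items → D.it j ∈ ν.items
  U : ∀ j ∈ A', ∀ c, c ∣ u.B → ∀ x, (D.toFT u.B u.A t).U c j x ≤
    (D.toFT v.B v.A ν).U c j ((s : ℝ) ^ d * x)

lemma Dn.refl {u : NS} {t : IT} (hF : Fit u.B u.A t) (hW : D.Wts u.A t) : Dn D s A' u t u t 0 where
  inh := fun _ h => h
  B := rfl
  A := by rw [pow_zero, mul_one]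
  c := Or.inl rfl
  n := le_rfl
  hF := hF
  hW := hW
  sub := Finset.Subset.refl _
  it := fun _ _ h => h
  U := fun j _ c _ x => by rw [pow_zero, one_mul]

lemma Dn.cons {u v₁ v : NS} {t t₁ ν : IT} {d₁ d₂ : ℕ} (h : Dn D s A' u t v₁ t₁ d₁)
    (hc : v₁.c = u.c) (h' : Dn D s A' v₁ t₁ v ν d₂) : Dn D s A' u t v ν (d₁ + d₂) where
  inh := fun F hF => h'.inh F (h.inh F hF)
  B := h'.B.trans h.B
  A := by rw [h'.A, h.A, pow_add, mul_assoc]
  c := by rw [← hc]; exact h'.c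
  n := h'.n.trans h.n
  hF := h'.hF
  hW := h'.hW
  sub := h'.sub.trans h.sub
  it := fun j hj hi => h'.it j hj (h.it j hj hi)
  U := fun j hj c hcB x => by
    refine (h.U j hj c hcB x).trans ((h'.U j hj c (by rw [h.B]; exact hcB) _).trans (le_of_eq ?_))
    congr 1
    rw [pow_add]; ring

/-- values of a node are nonnegative -/
lemma U_nonneg {b pr c : ℕ} {t : IT} (hb : 0 < b) (hF : Fit b pr t) (hW : D.Wts pr t) (hc : c ∣ b)
    (j : Λ) (x : ℝ) : 0 ≤ (D.toFT b pr t).U c j x :=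
  (FT.pb hb (D.toFT_Adm t b pr hb hF hW) hc j).nonneg x

lemma step_pl {u : NS} {t : IT} (hs : s < u.n) (hF : Fit u.B u.A (.pl s t))
    (hW : D.Wts u.A (.pl s t)) : Dn D s A' u (.pl s t) ⟨s + 1, u.c, u.A * s, u.B⟩ t 1 where
  inh := fun _ h => h.2
  B := rfl
  A := by rw [pow_one]
  c := Or.inl rfl
  n := hs
  hF := hF.2.2
  hW := hW.pl
  sub := Finset.Subset.refl _
  it := fun _ _ h => h
  U := fun j _ c _ x => by rw [pow_one]; exact le_rfl

lemma step_up {u : NS} {Sp : Finset ℕ} {t : IT} (hs : s < u.n) (hF : Fit u.B u.A (.up s Sp t))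
    (hW : D.Wts u.A (.up s Sp t)) : Dn D s A' u (.up s Sp t) ⟨s, u.c, u.A, u.B⟩ t 0 where
  inh := fun _ h => h.2
  B := rfl
  A := by rw [pow_zero, mul_one]
  c := Or.inl rfl
  n := hs.le
  hF := hF
  hW := hW
  sub := Finset.Subset.refl _
  it := fun _ _ h => h
  U := fun j _ c _ x => by rw [pow_zero, one_mul]; exact le_rfl

lemma step_add₁ {u : NS} {t₁ t₀ : IT} (hs : s < u.n) (hb : 0 < u.B)
    (hF : Fit u.B u.A (.add s t₁ t₀)) (hW : D.Wts u.A (.add s t₁ t₀))
    (hi : ∀ j ∈ A', D.it j ∈ (IT.add s t₁ t₀).items → D.it j ∈ t₁.items) :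
    Dn D s A' u (.add s t₁ t₀) ⟨s + 1, u.c, u.A, u.B⟩ t₁ 0 where
  inh := fun _ h => h.2.1
  B := rfl
  A := by rw [pow_zero, mul_one]
  c := Or.inl rfl
  n := hs
  hF := hF.2.1
  hW := hW.add₁ hF.1
  sub := Finset.subset_union_left
  it := hi
  U := fun j hj c _ x => by
    rw [pow_zero, one_mul]
    show (D.toFT u.B u.A t₁).U c j x + (D.toFT u.B u.A t₀).U c j x ≤ _
    have h0 : D.it j ∉ t₀.items := fun h0 =>
      Finset.disjoint_right.1 hF.1 h0 (hi j hj (Finset.mem_union_right _ h0))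
    rw [D.U_zero t₀ _ _ _ j h0, add_zero]

lemma step_add₀ {u : NS} {t₁ t₀ : IT} (hs : s < u.n) (hb : 0 < u.B)
    (hF : Fit u.B u.A (.add s t₁ t₀)) (hW : D.Wts u.A (.add s t₁ t₀))
    (hi : ∀ j ∈ A', D.it j ∈ (IT.add s t₁ t₀).items → D.it j ∈ t₀.items) :
    Dn D s A' u (.add s t₁ t₀) ⟨s + 1, u.c, u.A, u.B⟩ t₀ 0 where
  inh := fun _ h => h.2.2
  B := rfl
  A := by rw [pow_zero, mul_one]
  c := Or.inl rfl
  n := hs
  hF := hF.2.2
  hW := hW.add₀
  sub := Finset.subset_union_right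
  it := hi
  U := fun j hj c _ x => by
    rw [pow_zero, one_mul]
    show (D.toFT u.B u.A t₁).U c j x + (D.toFT u.B u.A t₀).U c j x ≤ _
    have h0 : D.it j ∉ t₁.items := fun h0 =>
      Finset.disjoint_left.1 hF.1 h0 (hi j hj (Finset.mem_union_left _ h0))
    rw [D.U_zero t₁ _ _ _ j h0, zero_add]

lemma step_far₁ {u : NS} {t₁ t₀ : IT} (hs : s < u.n) (hb : 0 < u.B)
    (hF : Fit u.B u.A (.far s t₁ t₀)) (hW : D.Wts u.A (.far s t₁ t₀))
    (hi : ∀ j ∈ A', D.it j ∈ (IT.far s t₁ t₀).items → D.it j ∈ t₁.items) :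
    Dn D s A' u (.far s t₁ t₀) ⟨s + 1, u.c, u.A, u.B⟩ t₁ 0 where
  inh := fun _ h => h.2.1
  B := rfl
  A := by rw [pow_zero, mul_one]
  c := Or.inl rfl
  n := hs
  hF := hF.2.1
  hW := hW.far₁ hF.1
  sub := Finset.subset_union_left
  it := hi
  U := fun j hj c _ x => by
    rw [pow_zero, one_mul]
    show (D.toFT u.B u.A t₁).U c j x + (D.toFT u.B u.A t₀).U c j x ≤ _
    have h0 : D.it j ∉ t₀.items := fun h0 =>
      Finset.disjoint_right.1 hF.1 h0 (hi j hj (Finset.mem_union_right _ h0))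
    rw [D.U_zero t₀ _ _ _ j h0, add_zero]

lemma step_far₀ {u : NS} {t₁ t₀ : IT} (hs : s < u.n) (hb : 0 < u.B)
    (hF : Fit u.B u.A (.far s t₁ t₀)) (hW : D.Wts u.A (.far s t₁ t₀))
    (hi : ∀ j ∈ A', D.it j ∈ (IT.far s t₁ t₀).items → D.it j ∈ t₀.items) :
    Dn D s A' u (.far s t₁ t₀) ⟨s + 1, u.c, u.A, u.B⟩ t₀ 0 where
  inh := fun _ h => h.2.2
  B := rfl
  A := by rw [pow_zero, mul_one]
  c := Or.inl rfl
  n := hs
  hF := hF.2.2
  hW := hW.far₀
  sub := Finset.subset_union_right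
  it := hi
  U := fun j hj c _ x => by
    rw [pow_zero, one_mul]
    show (D.toFT u.B u.A t₁).U c j x + (D.toFT u.B u.A t₀).U c j x ≤ _
    have h0 : D.it j ∉ t₁.items := fun h0 =>
      Finset.disjoint_left.1 hF.1 h0 (hi j hj (Finset.mem_union_left _ h0))
    rw [D.U_zero t₁ _ _ _ j h0, zero_add]

lemma step_br₁ {u : NS} {Sp : Finset ℕ} {t₁ t₀ : IT} (hs : s < u.n) (hb : 0 < u.B)
    (hF : Fit u.B u.A (.br s Sp t₁ t₀)) (hW : D.Wts u.A (.br s Sp t₁ t₀))
    (hi : ∀ j ∈ A', D.it j ∈ (IT.br s Sp t₁ t₀).items → D.it j ∈ t₁.items) :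
    Dn D s A' u (.br s Sp t₁ t₀) ⟨s, u.c / (1 - 1 / (s : ℝ)), u.A * s, u.B⟩ t₁ 1 where
  inh := fun _ h => h.2.1
  B := rfl
  A := by rw [pow_one]
  c := Or.inr rfl
  n := hs.le
  hF := hF.2.2.2.1
  hW := hW.br₁ hF.2.2.1
  sub := Finset.subset_union_left
  it := hi
  U := fun j hj c hc x => by
    rw [pow_one]
    have hA : (D.toFT u.B u.A (.br s Sp t₁ t₀)).Adm u.B := D.toFT_Adm _ _ _ hb hF hW
    have hdat := FT.dat hb hA
    show mult s _ _ _ _ _ j (c * x) * (D.toFT u.B (u.A * s) t₁).U c j (s * x) +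
      (D.toFT (u.B * s) u.A t₀).U (c * s) j x ≤ _
    have h0 : D.it j ∉ t₀.items := fun h0 =>
      Finset.disjoint_right.1 hF.2.2.1 h0 (hi j hj (Finset.mem_union_right _ h0))
    rw [D.U_zero t₀ _ _ _ j h0, add_zero]
    have hU := (FT.pb hb hA.2.2.2.1 hc j).nonneg (s * x)
    have hm := mult_bounds (c := fun _ => D.rho s) (n := 1) hdat j (c * x)
    exact mul_le_of_le_one_left hU hm.2

/-- **THE PATH OF AN EXPONENT CLASS** through the nodes of the column `s` : its end has everything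
pulled, or is a leaf, or lies below the column -/
theorem descend (hs : s.Prime) {P : Bld532.Par} {W : ℕ → ℝ} : ∀ (t : IT) (u : NS),
    All (NodeOk P W) u t → (∀ l : ℕ, l.Prime → l < u.n → l ≤ s) → 0 < u.B → Fit u.B u.A t →
    D.Wts u.A t → ∀ e : ℕ, (∃ j ∈ A', D.it j ∈ t.items) →
    (∀ j ∈ A', D.it j ∈ t.items → (D.it j / u.A).factorization s = e) →
    ∃ (v : NS) (ν : IT) (d : ℕ), Dn D s A' u t v ν d ∧ d ≤ e ∧
      (d ≠ e → (∃ S, ν = .leaf S) ∨ v.n ≤ s) := by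
  intro t
  induction t with
  | leaf S =>
    intro u _ _ _ hF hW e _ _
    exact ⟨u, _, 0, Dn.refl hF hW, Nat.zero_le _, fun _ => Or.inl ⟨S, rfl⟩⟩
  | br p Sp t₁ t₀ ih₁ ih₀ =>
    intro u hN hn hb hF hW e hex he
    by_cases hsn : s < u.n
    swap
    · exact ⟨u, _, 0, Dn.refl hF hW, Nat.zero_le _, fun _ => Or.inr (not_lt.1 hsn)⟩
    obtain ⟨hp, hpn, -, hall, hBk, e1, e0, -⟩ := hN.1
    have hps : p = s := le_antisymm (hn p hp hpn) (hall s hs hsn)
    subst hps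
    by_cases he0 : e = 0
    · exact ⟨u, _, 0, Dn.refl hF hW, Nat.zero_le _, fun h => absurd he0.symm h⟩
    · have hi : ∀ j ∈ A', D.it j ∈ (IT.br p Sp t₁ t₀).items → D.it j ∈ t₁.items := by
        intro j hj hi
        rw [e1, mem_dv]
        refine ⟨hi, Nat.dvd_of_factorization_pos ?_⟩
        rw [he j hj hi]; exact he0
      exact ⟨_, _, 1, step_br₁ hsn hb hF hW hi, Nat.one_le_iff_ne_zero.2 he0,
        fun _ => Or.inr le_rfl⟩
  | add p t₁ t₀ ih₁ ih₀ =>
    intro u hN hn hb hF hW e hex he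
    by_cases hsn : s < u.n
    swap
    · exact ⟨u, _, 0, Dn.refl hF hW, Nat.zero_le _, fun _ => Or.inr (not_lt.1 hsn)⟩
    obtain ⟨hp, hpn, -, hall, hBk, ⟨k, t', hk1, -, e1, e0, -⟩, -⟩ := hN.1
    have hps : p = s := le_antisymm (hn p hp hpn) (hall s hs hsn)
    subst hps
    have q0 : ∀ q ∈ (IT.add p t₁ t₀).items, q / u.A ≠ 0 := fun q hq =>
      (Nat.div_pos (Nat.le_of_dvd (hBk.pos q hq) (hBk.dvd q hq)) hBk.Apos).ne'
    by_cases hke : k ≤ e
    · have hi : ∀ j ∈ A', D.it j ∈ (IT.add p t₁ t₀).items → D.it j ∈ t₁.items := by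
        intro j hj hi
        rw [e1, mem_dv]
        refine ⟨hi, (hs.pow_dvd_iff_le_factorization (q0 _ hi)).2 ?_⟩
        rw [he j hj hi]; exact hke
      have hst := step_add₁ hsn hb hF hW hi
      obtain ⟨j, hj, hj2⟩ := hex
      obtain ⟨v, ν, d, h1, h2, h3⟩ := ih₁ ⟨p + 1, u.c, u.A, u.B⟩ hN.2.1
        (fun l _ hl => Nat.lt_succ_iff.1 hl) hb hst.hF hst.hW e ⟨j, hj, hi j hj hj2⟩
        (fun j hj hji => he j hj (Finset.mem_union_left _ hji))
      exact ⟨v, ν, 0 + d, hst.cons rfl h1, by omega, fun h => h3 (by omega)⟩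
    · have hi : ∀ j ∈ A', D.it j ∈ (IT.add p t₁ t₀).items → D.it j ∈ t₀.items := by
        intro j hj hi
        rw [e0, mem_nd]
        refine ⟨hi, fun hd => hke ?_⟩
        rw [← he j hj hi]
        exact (hs.pow_dvd_iff_le_factorization (q0 _ hi)).1 hd
      have hst := step_add₀ hsn hb hF hW hi
      obtain ⟨j, hj, hj2⟩ := hex
      obtain ⟨v, ν, d, h1, h2, h3⟩ := ih₀ ⟨p + 1, u.c, u.A, u.B⟩ hN.2.2
        (fun l _ hl => Nat.lt_succ_iff.1 hl) hb hst.hF hst.hW e ⟨j, hj, hi j hj hj2⟩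
        (fun j hj hji => he j hj (Finset.mem_union_right _ hji))
      exact ⟨v, ν, 0 + d, hst.cons rfl h1, by omega, fun h => h3 (by omega)⟩
  | up p Sp t ih =>
    intro u hN hn hb hF hW e hex he
    by_cases hsn : s < u.n
    swap
    · exact ⟨u, _, 0, Dn.refl hF hW, Nat.zero_le _, fun _ => Or.inr (not_lt.1 hsn)⟩
    obtain ⟨hp, hpn, -, hall, -⟩ := hN.1
    have hps : p = s := le_antisymm (hn p hp hpn) (hall s hs hsn)
    subst hps
    exact ⟨_, _, 0, step_up hsn hF hW, Nat.zero_le _, fun _ => Or.inr le_rfl⟩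
  | pl p t ih =>
    intro u hN hn hb hF hW e hex he
    by_cases hsn : s < u.n
    swap
    · exact ⟨u, _, 0, Dn.refl hF hW, Nat.zero_le _, fun _ => Or.inr (not_lt.1 hsn)⟩
    obtain ⟨hp, hpn, -, hall, hBk, hdv, -⟩ := hN.1
    have hps : p = s := le_antisymm (hn p hp hpn) (hall s hs hsn)
    subst hps
    have hst := step_pl (D := D) (A' := A') hsn hF hW
    have q0 : ∀ q ∈ (IT.pl p t).items, q / u.A ≠ 0 := fun q hq =>
      (Nat.div_pos (Nat.le_of_dvd (hBk.pos q hq) (hBk.dvd q hq)) hBk.Apos).ne'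
    obtain ⟨j, hj, hj2⟩ := hex
    have e1 : 1 ≤ e := by
      rw [← he j hj hj2]
      exact hs.factorization_pos_of_dvd (q0 _ hj2) (hdv _ hj2)
    obtain ⟨v, ν, d, h1, h2, h3⟩ := ih ⟨p + 1, u.c, u.A * p, u.B⟩ hN.2
        (fun l _ hl => Nat.lt_succ_iff.1 hl) hb hst.hF hst.hW (e - 1) ⟨j, hj, hj2⟩
        (fun j hj hji => by
          have h4 := he j hj hji
          have h5 : D.it j / (u.A * p) = D.it j / u.A / p := (Nat.div_div_eq_div_mul _ _ _).symm
          show (D.it j / (u.A * p)).factorization p = e - 1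
          rw [h5]
          obtain ⟨N, hN⟩ := hdv _ hji
          have hN0 : N ≠ 0 := fun h0 => q0 _ hji (by rw [hN, h0, mul_zero])
          rw [hN, Nat.mul_div_cancel_left N hs.pos]
          rw [hN, Nat.factorization_mul hs.ne_zero hN0] at h4
          simp only [Finsupp.coe_add, Pi.add_apply, hs.factorization_self] at h4
          omega)
    exact ⟨v, ν, 1 + d, hst.cons rfl h1, by omega, fun h => h3 (by omega)⟩
  | far p t₁ t₀ ih₁ ih₀ =>
    intro u hN hn hb hF hW e hex he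
    by_cases hsn : s < u.n
    swap
    · exact ⟨u, _, 0, Dn.refl hF hW, Nat.zero_le _, fun _ => Or.inr (not_lt.1 hsn)⟩
    obtain ⟨hp, hpn, -, hall, hBk, ⟨k, e1, e0, -⟩, -⟩ := hN.1
    have hps : p = s := le_antisymm (hn p hp hpn) (hall s hs hsn)
    subst hps
    have q0 : ∀ q ∈ (IT.far p t₁ t₀).items, q / u.A ≠ 0 := fun q hq =>
      (Nat.div_pos (Nat.le_of_dvd (hBk.pos q hq) (hBk.dvd q hq)) hBk.Apos).ne'
    have hv : ∀ j ∈ A', D.it j ∈ (IT.far p t₁ t₀).items → ∀ i : ℕ,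
        (p ^ i ∣ D.it j / u.A ↔ i ≤ e) := by
      intro j hj hi i
      rw [hs.pow_dvd_iff_le_factorization (q0 _ hi), he j hj hi]
    by_cases hke : k + 2 ≤ e ∨ ¬ k - 1 ≤ e
    · have hi : ∀ j ∈ A', D.it j ∈ (IT.far p t₁ t₀).items → D.it j ∈ t₁.items := by
        intro j hj hi
        rw [e1]
        show D.it j ∈ farS p u.A k (t₁.items ∪ t₀.items)
        rw [mem_farS, hv j hj hi, hv j hj hi]
        exact ⟨hi, hke⟩
      have hst := step_far₁ hsn hb hF hW hi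
      obtain ⟨j, hj, hj2⟩ := hex
      obtain ⟨v, ν, d, h1, h2, h3⟩ := ih₁ ⟨p + 1, u.c, u.A, u.B⟩ hN.2.1
        (fun l _ hl => Nat.lt_succ_iff.1 hl) hb hst.hF hst.hW e ⟨j, hj, hi j hj hj2⟩
        (fun j hj hji => he j hj (Finset.mem_union_left _ hji))
      exact ⟨v, ν, 0 + d, hst.cons rfl h1, by omega, fun h => h3 (by omega)⟩
    · have hi : ∀ j ∈ A', D.it j ∈ (IT.far p t₁ t₀).items → D.it j ∈ t₀.items := by
        intro j hj hi
        rw [e0, mem_nearS, hv j hj hi, hv j hj hi]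
        push Not at hke
        exact ⟨hi, not_le.2 hke.1, hke.2⟩
      have hst := step_far₀ hsn hb hF hW hi
      obtain ⟨j, hj, hj2⟩ := hex
      obtain ⟨v, ν, d, h1, h2, h3⟩ := ih₀ ⟨p + 1, u.c, u.A, u.B⟩ hN.2.2
        (fun l _ hl => Nat.lt_succ_iff.1 hl) hb hst.hF hst.hW e ⟨j, hj, hi j hj hj2⟩
        (fun j hj hji => he j hj (Finset.mem_union_right _ hji))
      exact ⟨v, ν, 0 + d, hst.cons rfl h1, by omega, fun h => h3 (by omega)⟩

end desc

/-! ### lifts for one exponent class -/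

section lc
variable {Λ κ κ' : Type*} [Fintype Λ] [DecidableEq Λ] [Fintype κ] [DecidableEq κ] [Fintype κ']
  [DecidableEq κ'] {D : Par Λ κ} {L : Finset Λ} {r : Λ → κ'} {lab : Λ → ℚ} {K : ℕ}
  {s : ℕ} {A' : Finset Λ}

/-- the energy of a node against any functions, after the pulls of its path -/
theorem Q_desc {u v : NS} {t ν : IT} {d M M' c : ℕ} (h : Dn D s A' u t v ν d) (hs : s.Prime)
    (hM : 0 < M) (hM' : 0 < M') (hb : 0 < u.B) (hF : Fit u.B u.A t) (hW : D.Wts u.A t)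
    (hc : c ∣ u.B) {f : Λ → ℝ → ℝ} (pf : ∀ j, PB (f j)) (R : Finset (Λ × Λ)) :
    Q R (avg M f) (D.uA M' u.B u.A t A' c) ≤
      Q R (avg (pmk s d (M, M')).1 f) (avg (pmk s d (M, M')).2 (UV D v.B v.A ν A' c)) := by
  have hb' : 0 < v.B := by rw [h.B]; exact hb
  have hc' : c ∣ v.B := by rw [h.B]; exact hc
  have pg := PB_UV (A := A') hb' h.hF h.hW hc'
  have pg' : ∀ j, PB (fun x => UV D v.B v.A ν A' c j ((s : ℝ) ^ d * x)) := fun j => by
    have := (pg j).pull (s ^ d)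
    simpa using this
  have e := Q_pulls hs pf R d (m := (M, M')) (g := UV D v.B v.A ν A' c) hM hM' pg
  rw [← e]
  refine Q_mono_fun (PB_avg hM pf) (PB_avg hM pf) (fun j => PB_uA hM' hb hF hW hc j)
    (PB_avg hM' pg') (fun _ _ => le_rfl) (fun j x => ?_)
  unfold Par.uA avg
  refine Ep_mono (fun x => ?_) x
  by_cases hj : j ∈ A'
  · have e1 : rv A' (fun j => (D.toFT u.B u.A t).U c j) j = (D.toFT u.B u.A t).U c j :=
      rv_of_mem hj
    have e2 : UV D v.B v.A ν A' c j = (D.toFT v.B v.A ν).U c j := rv_of_mem hj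
    rw [e1]
    show _ ≤ UV D v.B v.A ν A' c j ((s : ℝ) ^ d * x)
    rw [e2]
    exact h.U j hj c hc x
  · have e1 : rv A' (fun j => (D.toFT u.B u.A t).U c j) j x = 0 := by rw [rv_of_not_mem hj]
    rw [e1]
    exact (pg j).nonneg _

/-- **LIFTS FOR A POPULATION WITH ONE PATH**, right side rich: `d` pulls,
`v_s (w) + k + v_s (M') ≤ v_s (M) + d` -/
theorem lift_path {u' v : NS} {t' ν : IT} {d : ℕ} (h : Dn D s A' u' t' v ν d)
    (hL : LbX D L r lab K) (hs : s.Prime) {pr M M' b c c' k : ℕ} {t : IT} {A : Finset Λ}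
    (hM : 0 < M) (hM' : 0 < M') (hMM : ¬ (s ∣ M ∧ s ∣ M')) (hb : 0 < b)
    (hb' : 0 < u'.B) (hpr : 0 < pr) (hpr' : 0 < u'.A) (hF : Fit b pr t) (hF' : Fit u'.B u'.A t')
    (hW : D.Wts pr t) (hW' : D.Wts u'.A t') (hc : c ∣ b) (hc' : c' ∣ u'.B)
    (hcirc : pr * M * (b / c) = u'.A * M' * (u'.B / c')) (hK : s ^ d * M * (b / c) ≤ K)
    (hk : 0 < k) {R : Finset (Λ × Λ)} (hR : ∀ e ∈ R, e.1 ∈ L ∧ e.2 ∈ L ∧ r e.1 = r e.2)
    (hv : ∀ e ∈ R, e.1 ∈ A → e.2 ∈ A' → D.it e.1 ∈ t.items → D.it e.2 ∈ t'.items →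
      (D.it e.1 / pr).factorization s + k + M'.factorization s ≤ M.factorization s + d ∧
      (s ∣ (lab e.1).den → (lab e.1).den.factorization s = (lab e.2).den.factorization s ∧
        (D.it e.1).factorization s + k ≤ (D.it e.2).factorization s)) :
    Q R (D.uA M b pr t A c) (D.uA M' u'.B u'.A t' A' c') ≤
      Real.sqrt (1 / (s : ℝ) ^ k * Ein D b pr t A c r * Ein D v.B v.A ν A' c' r) := by
  have pf := PB_UV (A := A) hb hF hW hc
  have c0 : 0 < c := Nat.pos_of_dvd_of_pos hc hb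
  have c0' : 0 < c' := Nat.pos_of_dvd_of_pos hc' hb'
  have hvB : 0 < v.B := by rw [h.B]; exact hb'
  have hcv : c' ∣ v.B := by rw [h.B]; exact hc'
  have hvA : 0 < v.A := by rw [h.A]; exact Nat.mul_pos hpr' (pow_pos hs.pos d)
  obtain ⟨m1, m2⟩ := pmk_pos hs d (m := (M, M')) ⟨hM, hM'⟩
  have hcirc' : pr * (pmk s d (M, M')).1 * (b / c) = v.A * (pmk s d (M, M')).2 * (v.B / c') := by
    rw [h.A, h.B]
    exact pmk_circ hs d (m := (M, M')) hcirc
  refine (Q_desc h hs hM hM' hb' hF' hW' hc' (f := UV D b pr t A c) pf R).trans ?_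
  refine lift_gen hL hs m1 m2 hpr hvA (Nat.div_pos (Nat.le_of_dvd hb hc) c0)
    (Nat.div_pos (Nat.le_of_dvd hvB hcv) c0') pf (PB_UV hvB h.hF h.hW hcv)
    (Pts_UV hb hF hW hc) (Pts_UV hvB h.hF h.hW hcv) hcirc' ?_ hk hR
    (fun e he ⟨x, hx⟩ ⟨x', hx'⟩ => ?_)
  · refine le_trans (Nat.mul_le_mul_right _ ?_) hK
    exact pmk_le hs d (M, M')
  · obtain ⟨h1, h2⟩ := UV_ne hx
    obtain ⟨h1', h2'⟩ := UV_ne hx'
    obtain ⟨h3, h4⟩ := hv e he h1 h1' h2 (h.sub h2')
    exact ⟨pmk_gain hs (m := (M, M')) hM hM' hMM hk h3, h4⟩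

end lc

end Crest.Agent.R4P.LiftX35
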