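import Crest.Agent.R4P.LinkZ_33
import Crest.Agent.R4P.IvX_29
import Crest.Agent.R4P.CrsFacts_26

/-!
R4P (S0004), helper33, group [X]: **the link at a crossing state of a context.**

`ctx_link` : the pairs with helper29's predicate `LkG .. (SE z) l` at a column `l ≤ b`, class `[F]` at `z` : `FLow` with
`a₀ = aL l b ..` (`1`, or `b` if `l = b` and a side has missed `b`); `ctx_linkX` : exits at `l` (letters `B * l`), `a₀ * l`.
Second components: the exceptional pairs (`dex = 0`).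
-/

set_option autoImplicit false
set_option linter.unusedSectionVars false
set_option linter.unusedVariables false

namespace Crest.Agent.R4P.LinkC33

open Crest.Agent.R4.Tour104 Crest.Agent.R4.Tour758 Crest.Agent.R4.Avg758 Crest.Agent.R4.Clos758
open Crest.Agent.R4.ClosL758 Crest.Agent.R4.ClosG758 Crest.Agent.R4.ClosR758
open Crest.Agent.R4.Fam464 Crest.Agent.R4P.Cnt588 Crest.Agent.R4P.Walk560 Crest.Agent.R4.Piece464
open Crest.Agent.R4P.Item758 Crest.Agent.R4P.AvgItem710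
open Crest.Agent.R4P.Data758 Crest.Agent.R4P.WalkIT579
open Crest.Agent.R4P.Bld532 (NS All NodeOk Bk)
open Crest.Agent.R4P.Skel189 (Ctx top Part PartW)
open Crest.Agent.R4.LF363 (Lab)
open Crest.Agent.R4P.Link758 (MF Bl not_Ac_zero cast_div')
open Crest.Agent.R4P.LinkX11 (XR LkP)
open Crest.Agent.R4P.IvX29 (GS LkG)
open Crest.Agent.R4.CrossInv709 (sc sd)
open Crest.Agent.R4.CrossLoc709 (SE)
open Crest.Agent.R4P.StripP33 Crest.Agent.R4P.BrP33 Crest.Agent.R4P.ShotP33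
open Crest.Agent.R4P.ShotTot33 (fe)
open Crest.Agent.R4.NMW710 (Dq)
open Crest.Agent.R4P.CrsFacts26

/-- small labelled items are thin: their label is used -/
theorem XR_of_thin {c : Cf} {T : ℝ} {l q : ℕ} (hT : T ≤ c.wp.thr l) (hlam : c.lam l = 0) : XR c T l q :=
  fun _ hσ hr => Crest.Agent.R4P.LinkW758.st_of_lab' (hr.trans hT) hσ (not_Ac_zero hlam)

/-- `FLow` grows with `a₀` -/
theorem FLow.mono_a {s ex a₀ a₁ r₀ r₀' : ℕ} {θ₁ D : ℝ} (h : FLow s ex a₀ r₀ r₀' θ₁ D) (ha : a₀ ≤ a₁)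
    (hD : 0 ≤ D) : FLow s ex a₁ r₀ r₀' θ₁ D := by
  have mono : ∀ {m m' : ℕ}, m ≤ m' → 1 < 2 * (m : ℝ) ^ 10 * D → 1 < 2 * (m' : ℝ) ^ 10 * D := by
    intro m m' hmm h1
    refine lt_of_lt_of_le h1 ?_
    have : (m : ℝ) ≤ m' := by exact_mod_cast hmm
    gcongr
  rcases h with h | ⟨h1, h2⟩
  · exact Or.inl (mono (by gcongr) h)
  · exact Or.inr ⟨mono (by gcongr) h1, h2⟩

/-- **the product of the missing ties above `l`** is a multiple of the missing product of the node -/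
theorem B_dvd {T σ : IT} {v : NS} {q l b : ℕ} (h : MF T v σ) (hq : q ∈ σ.items) (hl : l.Prime) (hlb : l ≤ b)
    (hdn : ∀ p : ℕ, p.Prime → p < b → p < v.n) :
    v.B ∣ (if l = b ∧ b ∣ v.B then b else 1) * ∏ s ∈ (T.mt q).filter (l < ·), s := by
  obtain ⟨h1, h2, h3⟩ := Crest.Agent.R4P.IvX29.MF.split h hq
  set F := T.mt q \ σ.mt q with hF
  have hsub : F.filter (l < ·) ⊆ (T.mt q).filter (l < ·) :=
    Finset.filter_subset_filter _ Finset.sdiff_subset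
  have hd : ∏ s ∈ F.filter (l < ·), s ∣ ∏ s ∈ (T.mt q).filter (l < ·), s :=
    Finset.prod_dvd_prod_of_subset _ _ _ hsub
  have hge : ∀ s ∈ F, b ≤ s := fun s hs => by
    by_contra hc
    have h5 := (h2 s hs).2
    have := hdn s (h2 s hs).1 (not_le.1 hc)
    omega
  by_cases hlF : l ∈ F
  · have hlb' : l = b := le_antisymm hlb (hge l hlF)
    have hbd : b ∣ v.B := by
      rw [← h1, ← hlb']; exact Finset.dvd_prod_of_mem _ hlF
    rw [if_pos ⟨hlb', hbd⟩]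
    have e : F.erase l = F.filter (l < ·) := by
      ext s
      rw [Finset.mem_erase, Finset.mem_filter]
      constructor
      · rintro ⟨h5, h6⟩
        exact ⟨h6, lt_of_le_of_ne (hlb.trans (hge s h6)) (Ne.symm h5)⟩
      · rintro ⟨h5, h6⟩
        exact ⟨h6.ne', h5⟩
    rw [← h1, ← Finset.mul_prod_erase F (fun s => s) hlF, e, hlb']
    rw [hlb'] at hd
    exact Nat.mul_dvd_mul_left b hd
  · have e : F = F.filter (l < ·) := by
      ext s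
      rw [Finset.mem_filter]
      exact ⟨fun h5 => ⟨h5, lt_of_le_of_ne (hlb.trans (hge s h5)) fun h6 => hlF (h6 ▸ h5)⟩, fun h5 => h5.1⟩
    rw [← h1]
    conv_lhs => rw [e]
    exact hd.trans (dvd_mul_left _ _)

/-- helper29's predicate gives helper11's -/
theorem lkp_of_lkg {c : Cf} {Y : Finset (ℕ × ℕ × Finset ℕ)} {Qp : NS → IT → Prop} (hQ : ∀ u τ, Qp u τ → MF c.t u τ)
    {M b pr M' b' pr' l : ℕ} {e : ℕ × ℕ} (hl : l.Prime)
    (h : LkG (c.D.par Y) Qp (SE M b pr M' b' pr' e) l e) : LkP c Y M b pr M' b' pr' l e := by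
  obtain ⟨M₁, v, t, A, c₁, M₁', v', t', A', c₁', h1, h2, h3, h4, h5⟩ := h
  refine ⟨M₁, M₁', v.B, v.A, c₁, v'.B, v'.A, c₁', t, t', A, A', h1.M0, h2.M0, h1.b0, h2.b0, h1.F, h2.F, h1.W, h2.W,
    h1.dvd, h2.dvd, h5, ?_, ?_, h1.Bl (hQ _ _ h1.all.self) hl, h2.Bl (hQ _ _ h2.all.self) hl⟩
  · calc v.A * M₁ * (v.B / c₁) = v.A * (v.B / c₁) * M₁ := by ring
      _ = v'.A * (v'.B / c₁') * M₁' := h3
      _ = _ := by ring
  · unfold SE at h4
    rw [cast_div' h1.dvd h1.b0, cast_div' h2.dvd h2.b0] at h4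
    exact h4

section ctx
variable {N : Skel189.Num} {γ : ℝ} {p0 P₀ : ℕ} {X : Ctx N γ p0 P₀} {j₀ : X.c.Lam} {Q' : NS → IT → Prop}
  {b : ℕ} {z : X.Sta} {v v' : NS} {σ σ' : IT} {l : ℕ} {e : ℕ × ℕ} {Qp : NS → IT → Prop}

/-- the factor of the column `l` -/
def aL (l b B B' : ℕ) : ℕ := if l = b ∧ (b ∣ B ∨ b ∣ B') then b else 1

lemma aL_pos {l b B B' : ℕ} (hb : 0 < b) : 0 < aL l b B B' := by unfold aL; split_ifs <;> omega

lemma aL_lt {l b B B' : ℕ} (h : l < b) : aL l b B B' = 1 := by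
  unfold aL; rw [if_neg (fun h1 => h.ne h1.1)]

lemma aL_le {l b B B' : ℕ} (hb : 0 < b) : aL l b B B' ≤ (if b ∣ B ∨ b ∣ B' then b else 1) := by
  unfold aL
  by_cases h : b ∣ B ∨ b ∣ B'
  · rw [if_pos h]; split_ifs <;> omega
  · rw [if_neg h, if_neg (fun h1 => h h1.2)]

lemma CZ.aL (h : CZ X j₀ Q' b z v v' σ σ') (hl : l.Prime) (hlb : l ≤ b) (he : e.1 ∈ σ.items)
    (he' : e.2 ∈ σ'.items) : v.B ∣ LinkC33.aL l b v.B v'.B * Bl X.c l e.1 ∧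
      v'.B ∣ LinkC33.aL l b v.B v'.B * Bl X.c l e.2 := by
  have h1 := B_dvd h.L.q.self.mf he hl hlb h.L.ll
  have h2 := B_dvd h.R.q.self.mf he' hl hlb h.R.ll
  have k : ∀ {B B' B₀ : ℕ} {Q : ℕ}, (b ∣ B₀ → b ∣ B ∨ b ∣ B') → B₀ ∣ (if l = b ∧ b ∣ B₀ then b else 1) * Q →
      B₀ ∣ LinkC33.aL l b B B' * Q := fun {B B' B₀ Q} hi hd => by
    unfold LinkC33.aL
    by_cases h5 : l = b ∧ b ∣ B₀
    · rw [if_pos h5] at hd
      rwa [if_pos ⟨h5.1, hi h5.2⟩]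
    · rw [if_neg h5, one_mul] at hd
      exact hd.trans (dvd_mul_left _ _)
  unfold Bl
  rw [Crest.Agent.R4.W363.lst_prod, Crest.Agent.R4.W363.lst_prod]
  exact ⟨k Or.inl h1, k Or.inr h2⟩

/-- **the link at the columns and ends** -/
theorem ctx_link (h : CZ X j₀ Q' b z v v' σ σ') (hQ : ∀ u τ, Qp u τ → MF X.c.t u τ)
    (hl : l.Prime) (hlb : l ≤ b) (hbt : b ≤ top X.S) (he : e.1 ∈ σ.items) (he' : e.2 ∈ σ'.items)
    (hLk : LkG (X.c.D.par X.Y) Qp (SE z.M v.B v.A z.M' v'.B v'.A e) l e)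
    {K : ℕ} (hK : 4 ≤ K) {T : ℝ} (hT : 1 / (2:ℝ) ^ K ≤ T) (hthr : T ≤ X.c.wp.thr l) (hlam : X.c.lam l = 0)
    (hFS : FSs b X.c.γ X.c.rr K z.M v.B v.A 1 z.M' v'.B v'.A 1 ((e.1 / v.A).factorization b)
      ((e.2 / v'.A).factorization b) e) :
    (fe b z.M' v.A e.1 ≠ fe b z.M v'.A e.2 →
      FLow b (dex ((e.1 / v.A).factorization b) (z.M.factorization b) ((e.2 / v'.A).factorization b)
        (z.M'.factorization b)) (aL l b v.B v'.B) (rf (itm b v.A e.1) (st b z.M)) (rf (itm b v'.A e.2) (st b z.M'))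
      (if fe b z.M' v.A e.1 < fe b z.M v'.A e.2 then (v.B : ℝ) / (1 : ℕ) * X.c.γ else (v'.B : ℝ) / (1 : ℕ) * X.c.γ)
      (Dq X.c.rr z.M v.B v.A 1 z.M' v'.B v'.A 1 e)) ∧
    (dex ((e.1 / v.A).factorization b) (z.M.factorization b) ((e.2 / v'.A).factorization b)
        (z.M'.factorization b) = 0 →
      1 < 2 * ((aL l b v.B v'.B * rf (itm b v.A e.1) (st b z.M) * rf (itm b v'.A e.2) (st b z.M') : ℕ) : ℝ) ^ 10 *
        Dq X.c.rr z.M v.B v.A 1 z.M' v'.B v'.A 1 e) := by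
  obtain ⟨d1, d2⟩ := CZ.aL h hl hlb he he'
  exact LinkZ33.link_z X.ok (hlb.trans hbt) (lkp_of_lkg hQ hl hLk) h.mL.pos h.mR.pos h.L.I.hb h.R.I.hb
    (h.L.I.hF.item _ he).2.1 (h.R.I.hF.item _ he').2.1 h.bp (aL_pos h.bp.pos) d1 d2 hK hT
    (XR_of_thin hthr hlam) (XR_of_thin hthr hlam) hFS

/-- **the link at the exits** of the column `l` (letters `B * l`) -/
theorem ctx_linkX (h : CZ X j₀ Q' b z v v' σ σ') (hQ : ∀ u τ, Qp u τ → MF X.c.t u τ)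
    (hl : l.Prime) (hlb : l ≤ b) (hbt : b ≤ top X.S) (he : e.1 ∈ σ.items) (he' : e.2 ∈ σ'.items)
    (hLk : LkG (X.c.D.par X.Y) Qp (l * (SE z.M v.B v.A z.M' v'.B v'.A e).1, l * (SE z.M v.B v.A z.M' v'.B v'.A e).2) l e)
    {K : ℕ} (hK : 4 ≤ K) {T : ℝ} (hT : 1 / (2:ℝ) ^ K ≤ T) (hthr : T ≤ X.c.wp.thr l) (hlam : X.c.lam l = 0)
    (hFS : FSs b X.c.γ X.c.rr K z.M (v.B * l) v.A 1 z.M' (v'.B * l) v'.A 1 ((e.1 / v.A).factorization b)
      ((e.2 / v'.A).factorization b) e) :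
    (fe b z.M' v.A e.1 ≠ fe b z.M v'.A e.2 →
      FLow b (dex ((e.1 / v.A).factorization b) (z.M.factorization b) ((e.2 / v'.A).factorization b)
        (z.M'.factorization b)) (aL l b v.B v'.B * l) (rf (itm b v.A e.1) (st b z.M)) (rf (itm b v'.A e.2) (st b z.M'))
      (if fe b z.M' v.A e.1 < fe b z.M v'.A e.2 then ((v.B * l : ℕ) : ℝ) / (1 : ℕ) * X.c.γ
        else ((v'.B * l : ℕ) : ℝ) / (1 : ℕ) * X.c.γ)
      (Dq X.c.rr z.M (v.B * l) v.A 1 z.M' (v'.B * l) v'.A 1 e)) ∧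
    (dex ((e.1 / v.A).factorization b) (z.M.factorization b) ((e.2 / v'.A).factorization b)
        (z.M'.factorization b) = 0 →
      1 < 2 * ((aL l b v.B v'.B * l * rf (itm b v.A e.1) (st b z.M) * rf (itm b v'.A e.2) (st b z.M') : ℕ) : ℝ) ^ 10 *
        Dq X.c.rr z.M (v.B * l) v.A 1 z.M' (v'.B * l) v'.A 1 e) := by
  obtain ⟨d1, d2⟩ := CZ.aL h hl hlb he he'
  rw [← Crest.Agent.R4P.NumTot33.SE_mul] at hLk
  have d : ∀ {B a Q : ℕ}, B ∣ a * Q → B * l ∣ a * l * Q := fun {B a Q} hd => by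
    calc B * l ∣ (a * Q) * l := Nat.mul_dvd_mul_right hd l
      _ = _ := by ring
  exact LinkZ33.link_z X.ok (hlb.trans hbt) (lkp_of_lkg hQ hl hLk) h.mL.pos h.mR.pos
    (Nat.mul_pos h.L.I.hb hl.pos) (Nat.mul_pos h.R.I.hb hl.pos)
    (h.L.I.hF.item _ he).2.1 (h.R.I.hF.item _ he').2.1 h.bp (Nat.mul_pos (aL_pos h.bp.pos) hl.pos) (d d1) (d d2)
    hK hT (XR_of_thin hthr hlam) (XR_of_thin hthr hlam) hFS

/-- the relation from helper29's predicate, any letters -/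
theorem rel_of_lkg {c : Cf} {N₀ : ℕ} (hc : c.Ok N₀) {Y : Finset (ℕ × ℕ × Finset ℕ)} {M b pr M' b' pr' l : ℕ}
    {e : ℕ × ℕ} (hM : 0 < M) (h0 : 0 < e.1 / pr)
    (h : LkG (c.D.par Y) Qp (SE M b pr M' b' pr' e) l e) :
    RelI c.γ c.rr M b pr 1 M' b' pr' 1 e := by
  obtain ⟨M₁, v, t, A, c₁, M₁', v', t', A', c₁', h1, h2, h3, h4, h5⟩ := h
  have hsc : sc (sd (e.1 / v.A) M₁ ((v.B:ℝ)/c₁)) (sd (e.2 / v'.A) M₁' ((v'.B:ℝ)/c₁')) =
      sc (sd (e.1 / pr) M ((b:ℝ)/(1:ℕ))) (sd (e.2 / pr') M' ((b':ℝ)/(1:ℕ))) := by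
    unfold SE at h4
    rw [cast_div' h1.dvd h1.b0, cast_div' h2.dvd h2.b0] at h4
    rw [h4, Nat.cast_one, div_one, div_one]
  exact Crest.Agent.R4P.NumTot33.rel_of_PE (D := c.D.par Y) (hc.rad Y) h1.M0 h2.M0 h1.b0 h2.b0 h1.F h2.F h1.W h2.W
    h1.dvd h2.dvd h5 hM h0 hsc

/-- the relation of the pairs of a column -/
theorem ctx_rel (h : CZ X j₀ Q' b z v v' σ σ') (he : e.1 ∈ σ.items)
    (hLk : LkG (X.c.D.par X.Y) Qp (SE z.M v.B v.A z.M' v'.B v'.A e) l e) :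
    RelI X.c.γ X.c.rr z.M v.B v.A 1 z.M' v'.B v'.A 1 e := by
  have h1 := h.L.I.hF.item _ he
  have q0 : 0 < e.1 := h1.1
  exact rel_of_lkg X.ok h.mL.pos (Nat.div_pos (Nat.le_of_dvd q0 h1.2.1) (Nat.pos_of_dvd_of_pos h1.2.1 q0)) hLk

/-- the relation of the pairs of an exit -/
theorem ctx_relX (h : CZ X j₀ Q' b z v v' σ σ') (he : e.1 ∈ σ.items)
    (hLk : LkG (X.c.D.par X.Y) Qp (l * (SE z.M v.B v.A z.M' v'.B v'.A e).1, l * (SE z.M v.B v.A z.M' v'.B v'.A e).2) l e) :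
    RelI X.c.γ X.c.rr z.M (v.B * l) v.A 1 z.M' (v'.B * l) v'.A 1 e := by
  have h1 := h.L.I.hF.item _ he
  have q0 : 0 < e.1 := h1.1
  rw [← Crest.Agent.R4P.NumTot33.SE_mul] at hLk
  exact rel_of_lkg X.ok h.mL.pos (Nat.div_pos (Nat.le_of_dvd q0 h1.2.1) (Nat.pos_of_dvd_of_pos h1.2.1 q0)) hLk

end ctx

end Crest.Agent.R4P.LinkC33
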