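import Crest.Agent.R4P.LinkC_33
import Crest.Agent.R4P.ShotEq_32
import Crest.Agent.R4P.ShotBig_33

/-!
R4P (S0004), helper33, group [X]: **the mixed link at the exits**: `LkP` at the letters `b k`, `b' k` of an exit,
class `[F]` at the letters `b`, `b'` of the crossing state (equal effective exponents).

* `same_xE`, `PE_coreE`, `link_e` : then `1 < 2 (a₀ r₀ r₀')^10 D` at the letters of the state;
* `fs_of_es` : an `[E]` pair at the exit letters, related and not `[E]` at the state, is `[F]` at the state;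
* `ctx_linkE`, `ctx_esX` : in a context.
-/

set_option autoImplicit false
set_option linter.unusedSectionVars false
set_option linter.unusedVariables false
open MeasureTheory Filter

namespace Crest.Agent.R4P.LinkE33

open Crest.Agent.R4.Tour104 Crest.Agent.R4.Tour758 Crest.Agent.R4.Avg758 Crest.Agent.R4.Clos758
open Crest.Agent.R4.ClosL758 Crest.Agent.R4.ClosG758 Crest.Agent.R4.ClosR758
open Crest.Agent.R4.Fam464 Crest.Agent.R4P.Cnt588 Crest.Agent.R4P.Walk560 Crest.Agent.R4P.Item758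
open Crest.Agent.R4.Piece464 Crest.Agent.R4P.W363 Crest.Agent.R4P.AvgItem710
open Crest.Agent.R4P.Data758
open Crest.Agent.R4.LF363 (Lab lab_unique)
open Crest.Agent.R4.Dich579 (FF Alt Small)
open Crest.Agent.R4P.Link758
open Crest.Agent.R4.Bad223
open Crest.Agent.R4.LinkG223 (lab_good)
open Crest.Agent.R4P.LinkZ33

open Crest.Agent.R4P.LinkX11 (XR LkP)
open Crest.Agent.R4.CrossInv709 (sc sd)
open Crest.Agent.R4P.StripP33 Crest.Agent.R4P.BrP33 Crest.Agent.R4P.ShotP33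
open Crest.Agent.R4P.ShotTot33 (fe)
open Crest.Agent.R4P.ShotEq32 (ESs)
open Crest.Agent.R4.NMW710 (Dq)
open Crest.Agent.R4.HVW560 (cof)

variable {c : Cf} {n : ℕ}

/-- **`[F]` pairs of the crossing state have the same index at every lower circle whose scale pair is `k` times the
scale pair of the state** -/
theorem same_xE (h : c.Ok n) {l : ℕ} (hl : l ≤ n) {j j' : c.Lam} {B w M B' w' M' : ℕ}
    {κ κ' : ℤ → ℝ} {u z z' : ℝ} {i a i' a' : ℤ}
    (hP : Pt c.γ (c.D.al j) (c.D.be j) B w M κ u i a z)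
    (hP' : Pt c.γ (c.D.al j') (c.D.be j') B' w' M' κ' u i' a' z')
    (hM : 0 < M) (hM' : 0 < M') (hB : 0 < B) (hB' : 0 < B') (hw : 0 < w) (hw' : 0 < w')
    {x₁ y₁ pr pr' : ℕ} (hx₁ : 0 < x₁) (hy₁ : 0 < y₁) (hpr : 0 < pr) (hpr' : 0 < pr') (hq : j.1.1 = pr * w)
    (hq' : j'.1.1 = pr' * w') (hcirc : pr * M * B = pr' * M' * B')
    (hxy : (w / M.gcd w) * y₁ = (w' / M'.gcd w') * x₁)
    {x y G G' k : ℕ} (hG : 0 < G) (hG' : 0 < G')
    (hsL : y₁ * (rf w M * B) = k * (y * G)) (hsR : x₁ * (rf w' M' * B') = k * (x * G'))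
    {ρ ρ' : ℚ} (hst : c.st l j.1.1 = some (ρ / G)) (hst' : c.st l j'.1.1 = some (ρ' / G'))
    {D : ℝ} (hyr : (y : ℝ) * (G * c.r j.1.1) ≤ D) (hxr : (x : ℝ) * (G' * c.r j'.1.1) ≤ D)
    {m m' : ℤ} (hrel : |(m + G * c.γ) * y - (m' + G' * c.γ) * x| ≤ 2 * D)
    (hex : ((m : ℝ) + ρ) * y = (m' + ρ') * x) (hk : 4 * k * D < 1) :
    (j, j') ∉ Ro (c.D.rho l) := by
  intro hR
  rw [h.Ro_iff hl j j' hP.z1 hP.z2 hP'.z1 hP'.z2, hst, hst'] at hR
  apply hR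
  apply WP.ix_same_some
  refine off_eq_of_exact hP hP' hM hM' hB hw hw' hx₁ hy₁ hpr hpr' hq hq' hcirc hxy ?_
  have hz : |z| ≤ c.r j.1.1 := by
    rw [abs_le]
    exact ⟨(h.bp_ge j _).trans hP.z1, (hP.z2.le).trans (h.bp_le j (Cf.k_lt j))⟩
  have hz' : |z'| ≤ c.r j'.1.1 := by
    rw [abs_le]
    exact ⟨(h.bp_ge j' _).trans hP'.z1, (hP'.z2.le).trans (h.bp_le j' (Cf.k_lt j'))⟩
  have hrel₁ := rel_pts hP hP' hM hM' hw hw' hxy
  set N : ℤ := num w M i a * y₁ - num w' M' i' a' * x₁ with hN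
  have s1 : (y₁ : ℝ) * (rf w M * B) = k * (y * G) := by exact_mod_cast hsL
  have s2 : (x₁ : ℝ) * (rf w' M' * B') = k * (x * G') := by exact_mod_cast hsR
  have hNc : (N : ℝ) = num w M i a * y₁ - num w' M' i' a' * x₁ := by rw [hN]; push_cast; ring
  -- the relation of the exit circle
  have r1 : |(N : ℝ) + k * (y * (G * c.γ) - x * (G' * c.γ))| ≤ 2 * (k * D) := by
    have e : (N : ℝ) + k * (y * (G * c.γ) - x * (G' * c.γ)) =
        (num w M i a + rf w M * (B * c.γ)) * y₁ - (num w' M' i' a' + rf w' M' * (B' * c.γ)) * x₁ := by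
      linear_combination hNc - c.γ * s1 + c.γ * s2
    rw [e]
    refine hrel₁.trans ?_
    have u1 : (y₁ : ℝ) * (rf w M * (B * |z|)) ≤ k * D := by
      calc (y₁ : ℝ) * (rf w M * (B * |z|)) = (y₁ * (rf w M * B)) * |z| := by ring
        _ = k * (y * (G * |z|)) := by rw [s1]; ring
        _ ≤ k * (y * (G * c.r j.1.1)) := by gcongr
        _ ≤ _ := by gcongr
    have u2 : (x₁ : ℝ) * (rf w' M' * (B' * |z'|)) ≤ k * D := by
      calc (x₁ : ℝ) * (rf w' M' * (B' * |z'|)) = (x₁ * (rf w' M' * B')) * |z'| := by ring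
        _ = k * (x * (G' * |z'|)) := by rw [s2]; ring
        _ ≤ k * (x * (G' * c.r j'.1.1)) := by gcongr
        _ ≤ _ := by gcongr
    calc _ ≤ k * D + k * D := add_le_add u1 u2
      _ = _ := by ring
  have kr : (0 : ℝ) ≤ k := Nat.cast_nonneg k
  have key : N = k * (m * y - m' * x) := by
    have h1 : |((N - k * (m * y - m' * x) : ℤ) : ℝ)| < 1 := by
      have e : ((N - k * (m * y - m' * x) : ℤ) : ℝ) =
          ((N : ℝ) + k * (y * (G * c.γ) - x * (G' * c.γ))) -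
            k * ((m + G * c.γ) * y - (m' + G' * c.γ) * x) := by push_cast; ring
      rw [e]
      calc _ ≤ |(N : ℝ) + k * (y * (G * c.γ) - x * (G' * c.γ))| +
            |k * ((m + G * c.γ) * y - (m' + G' * c.γ) * x)| := abs_sub _ _
        _ ≤ 2 * (k * D) + k * (2 * D) := by
            rw [abs_mul, abs_of_nonneg kr]
            gcongr
        _ = 4 * k * D := by ring
        _ < 1 := hk
    have h2 : |N - k * (m * y - m' * x)| < 1 := by exact_mod_cast h1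
    have := Int.abs_lt_one_iff.1 h2
    linarith
  have keyr : (N : ℝ) = k * (m * y - m' * x) := by rw [key]; push_cast; ring
  have G0 : (G : ℝ) ≠ 0 := by exact_mod_cast hG.ne'
  have G0' : (G' : ℝ) ≠ 0 := by exact_mod_cast hG'.ne'
  have v1 : (rf w M * (B * ((ρ / G : ℚ) : ℝ))) * y₁ = k * (y * ρ) := by
    push_cast
    have : (rf w M * (B * ((ρ : ℝ) / G))) * y₁ = (y₁ * (rf w M * B)) * (ρ / G) := by ring
    rw [this, s1]; field_simp
  have v2 : (rf w' M' * (B' * ((ρ' / G' : ℚ) : ℝ))) * x₁ = k * (x * ρ') := by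
    push_cast
    have : (rf w' M' * (B' * ((ρ' : ℝ) / G'))) * x₁ = (x₁ * (rf w' M' * B')) * (ρ' / G') := by ring
    rw [this, s2]; field_simp
  linear_combination k * hex - hNc + keyr + v1 - v2

open Crest.Agent.R4.StopAsm709 (FS ES AltS classify_num)

/-- **core of the mixed link** -/
theorem PE_coreE (h : c.Ok n) {l : ℕ} (hl : l ≤ n) (X : Finset (ℕ × ℕ × Finset ℕ))
    {M M' b pr c₁ b' pr' c₁' : ℕ} {t t' : IT} {A A' : Finset c.Lam}
    (hM : 0 < M) (hM' : 0 < M') (hb : 0 < b) (hb' : 0 < b') (hF : Fit b pr t)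
    (hF' : Fit b' pr' t') (hW : (c.D.par X).Wts pr t) (hW' : (c.D.par X).Wts pr' t')
    (hc : c₁ ∣ b) (hc' : c₁' ∣ b') {R : Finset (c.Lam × c.Lam)} (hR : R ⊆ Ro (c.D.rho l))
    {e : ℕ × ℕ}
    (he : e ∈ (c.D.par X).PE R ((c.D.par X).uA M b pr t A c₁) ((c.D.par X).uA M' b' pr' t' A' c₁'))
    (hcirc : pr * M * (b / c₁) = pr' * M' * (b' / c₁'))
    {x₁ y₁ : ℕ} (hx₁ : 0 < x₁) (hy₁ : 0 < y₁)
    (hxy : (e.1 / pr / M.gcd (e.1 / pr)) * y₁ = (e.2 / pr' / M'.gcd (e.2 / pr')) * x₁)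
    {x y P P' G G' k : ℕ} (hx : 0 < x) (hy : 0 < y) (hP : 0 < P) (hP' : 0 < P') (hG : 0 < G) (hG' : 0 < G')
    (hsL : y₁ * (rf (e.1 / pr) M * (b / c₁)) = k * (y * (P * G)))
    (hsR : x₁ * (rf (e.2 / pr') M' * (b' / c₁')) = k * (x * (P' * G')))
    (d1 : Bl c l e.1 ∣ y * (P * G)) (d2 : Bl c l e.2 ∣ x * (P' * G'))
    {T : ℝ} (hX : XR c T l e.1) (hX' : XR c T l e.2)
    {F F' : ℕ} (hF0 : 0 < F) (hF0' : 0 < F') (hFd : G ∣ F * Bl c l e.1) (hFd' : G' ∣ F' * Bl c l e.2)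
    {N : ℕ} (hN : 4 ≤ N) (hT : 1 / (2:ℝ) ^ N ≤ T)
    (hk : 4 * k * max ((y : ℝ) * (((P * G : ℕ) : ℝ) * c.rr e.1)) ((x : ℝ) * (((P' * G' : ℕ) : ℝ) * c.rr e.2)) < 1)
    (hFS : FS N (((P * G : ℕ) : ℝ) * c.γ) (((P' * G' : ℕ) : ℝ) * c.γ) x y
      (((P * G : ℕ) : ℝ) * c.rr e.1) (((P' * G' : ℕ) : ℝ) * c.rr e.2)) :
    ∃ (t : ℝ) (ρ ρ' : ℚ), (2:ℝ) ^ N ≤ t ∧
      1 / (2 * t) < max ((y : ℝ) * (((P * G : ℕ) : ℝ) * c.rr e.1)) ((x : ℝ) * (((P' * G' : ℕ) : ℝ) * c.rr e.2)) ∧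
      max ((y : ℝ) * (((P * G : ℕ) : ℝ) * c.rr e.1)) ((x : ℝ) * (((P' * G' : ℕ) : ℝ) * c.rr e.2)) ≤ 1 / t ∧
      FF (((P * G : ℕ) : ℝ) * c.γ) (((P' * G' : ℕ) : ℝ) * c.γ) t
        (((P * G : ℕ) : ℝ) * c.rr e.1) (((P' * G' : ℕ) : ℝ) * c.rr e.2) x y ρ ρ' ∧
      1 < 2 * ((max (if (P : ℤ) ∣ ρ.num then F else P * F) (if (P' : ℤ) ∣ ρ'.num then F' else P' * F') : ℕ) : ℝ) ^ 10 *
      max ((y : ℝ) * (((P * G : ℕ) : ℝ) * c.rr e.1)) ((x : ℝ) * (((P' * G' : ℕ) : ℝ) * c.rr e.2)) := by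
  obtain ⟨t, m, m', ρ, ρ', h1, h2, h3, h4, hFF, h6⟩ := hFS
  have ht10 : 10 ≤ t := by
    have : (2:ℝ)^4 ≤ (2:ℝ)^N := pow_le_pow_right₀ (by norm_num) hN
    linarith
  have ht0 : 0 < t := by linarith
  refine ⟨t, ρ, ρ', h1, h2, h3, hFF, ?_⟩
  set mx : ℕ := max (if (P : ℤ) ∣ ρ.num then F else P * F) (if (P' : ℤ) ∣ ρ'.num then F' else P' * F') with hmx
  set Dm := max ((y : ℝ) * (((P * G : ℕ) : ℝ) * c.rr e.1)) ((x : ℝ) * (((P' * G' : ℕ) : ℝ) * c.rr e.2)) with hDm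
  by_contra hcon
  push Not at hcon
  have h7 : ((mx : ℕ) : ℝ) ^ 10 ≤ t := by
    have a1 : ((mx : ℕ) : ℝ) ^ 10 / t ≤ 1 := by
      calc ((mx : ℕ) : ℝ) ^ 10 / t = 2 * ((mx : ℕ) : ℝ) ^ 10 * (1 / (2 * t)) := by
            field_simp
        _ ≤ 2 * ((mx : ℕ) : ℝ) ^ 10 * Dm := mul_le_mul_of_nonneg_left h2.le (by positivity)
        _ ≤ 1 := hcon
    rwa [div_le_one ht0] at a1
  have h8 : ((mx : ℕ) : ℝ) ≤ t ^ (1/10 : ℝ) := by
    have a2 : (((mx : ℕ) : ℝ) ^ 10) ^ (1/10 : ℝ) ≤ t ^ (1/10 : ℝ) :=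
      Real.rpow_le_rpow (by positivity) h7 (by norm_num)
    have a3 : (((mx : ℕ) : ℝ) ^ 10) ^ (1/10 : ℝ) = ((mx : ℕ) : ℝ) := by
      rw [← Real.rpow_natCast, ← Real.rpow_mul (Nat.cast_nonneg _)]
      norm_num
    rwa [a3] at a2
  obtain ⟨j, j', hj, hA, hA', e1, e2, i1, i2, u, i, a, i', a', z, z', hPt, hPt'⟩ :=
    PE_pts hM hM' hb hb' hF hF' hW hW' hc hc' he
  have e1' : j.1.1 = e.1 := e1
  have e2' : j'.1.1 = e.2 := e2
  have hpr : pr ∣ e.1 := (hF.item _ i1).2.1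
  have hpr' : pr' ∣ e.2 := (hF'.item _ i2).2.1
  have q0 : 0 < e.1 := by rw [← e1']; exact h.pos _ (Cf.mem_S j)
  have q0' : 0 < e.2 := by rw [← e2']; exact h.pos _ (Cf.mem_S j')
  have p0 : 0 < pr := Nat.pos_of_dvd_of_pos hpr q0
  have p0' : 0 < pr' := Nat.pos_of_dvd_of_pos hpr' q0'
  have c0 : 0 < c₁ := Nat.pos_of_dvd_of_pos hc hb
  have c0' : 0 < c₁' := Nat.pos_of_dvd_of_pos hc' hb'
  have B0 : 0 < b / c₁ := Nat.div_pos (Nat.le_of_dvd hb hc) c0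
  have B0' : 0 < b' / c₁' := Nat.div_pos (Nat.le_of_dvd hb' hc') c0'
  have w0 : 0 < e.1 / pr := Nat.div_pos (Nat.le_of_dvd q0 hpr) p0
  have w0' : 0 < e.2 / pr' := Nat.div_pos (Nat.le_of_dvd q0' hpr') p0'
  have r1 : c.rr e.1 = c.r e.1 := by rw [← e1']; exact Cf.rr_eq j
  have r2 : c.rr e.2 = c.r e.2 := by rw [← e2']; exact Cf.rr_eq j'
  have bl0 : 0 < Bl c l e.1 := Nat.pos_of_dvd_of_pos d1 (Nat.mul_pos hy (Nat.mul_pos hP hG))
  have bl0' : 0 < Bl c l e.2 := Nat.pos_of_dvd_of_pos d2 (Nat.mul_pos hx (Nat.mul_pos hP' hG'))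
  rw [r1, r2] at hFF
  have yr : (y : ℝ) * (((P * G : ℕ) : ℝ) * c.r e.1) ≤ Dm := by
    rw [← r1]; exact (le_max_left _ _)
  have xr : (x : ℝ) * (((P' * G' : ℕ) : ℝ) * c.r e.2) ≤ Dm := by
    rw [← r2]; exact (le_max_right _ _)
  have htT : 1 / t ≤ T := (one_div_le_one_div_of_le (by positivity) h1).trans hT
  have small : ∀ {v y E q : ℕ}, 0 < v → v ∣ y * E → 0 < y * E → (y : ℝ) * ((E : ℝ) * c.r q) ≤ Dm → 0 < c.r q →
      (v : ℝ) * c.r q ≤ T := fun {v y E q} v0 hv h0 hyr hr => by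
    have h5 : (v : ℝ) ≤ ((y * E : ℕ) : ℝ) := by exact_mod_cast Nat.le_of_dvd h0 hv
    calc (v : ℝ) * c.r q ≤ ((y * E : ℕ) : ℝ) * c.r q := mul_le_mul_of_nonneg_right h5 hr.le
      _ = y * (E * c.r q) := by push_cast; ring
      _ ≤ _ := hyr.trans (h3.trans htT)
  have rp : 0 < c.r e.1 := pos_of_mul_pos_right hFF.lab.pos (Nat.cast_nonneg _)
  have rp' : 0 < c.r e.2 := pos_of_mul_pos_right hFF.lab'.pos (Nat.cast_nonneg _)
  have hst : ∀ σ : ℚ, Lab (Bl c l e.1 * c.γ) (Bl c l e.1 * c.r e.1) σ → c.st l e.1 = some (σ / Bl c l e.1) :=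
    fun σ hσ => hX σ hσ (small bl0 d1 (Nat.mul_pos hy (Nat.mul_pos hP hG)) yr rp)
  have hst' : ∀ σ : ℚ, Lab (Bl c l e.2 * c.γ) (Bl c l e.2 * c.r e.2) σ → c.st l e.2 = some (σ / Bl c l e.2) :=
    fun σ hσ => hX' σ hσ (small bl0' d2 (Nat.mul_pos hx (Nat.mul_pos hP' hG')) xr rp')
  have s1 := side_x hP hG hy bl0 hF0 ht10 d1 hFd (le_trans (by exact_mod_cast le_max_left _ _) h8) hFF.lab
    hFF.den hFF.near (yr.trans h3) hst
  have s2 := side_x hP' hG' hx bl0' hF0' ht10 d2 hFd' (le_trans (by exact_mod_cast le_max_right _ _) h8) hFF.lab'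
    hFF.den' hFF.near' (xr.trans h3) hst'
  rw [← e1'] at hPt s1 yr
  rw [← e2'] at hPt' s2 xr
  refine same_xE h hl hPt hPt' hM hM' B0 B0' (by rw [e1']; exact w0) (by rw [e2']; exact w0') hx₁ hy₁ p0 p0' ?_ ?_
    hcirc (by rw [e1', e2']; exact hxy) (Nat.mul_pos hP hG) (Nat.mul_pos hP' hG')
    (by rw [e1']; exact hsL) (by rw [e2']; exact hsR) s1 s2 yr xr h4 h6 hk (hR hj)
  · rw [e1']; exact (Nat.mul_div_cancel' hpr).symm
  · rw [e2']; exact (Nat.mul_div_cancel' hpr').symm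

set_option maxHeartbeats 1000000 in
/-- **the mixed link**: linked at the letters `b k`, `b' k`, class `[F]` at the letters `b`, `b'`, `dex = 0` -/
theorem link_e {N₀ : ℕ} (h : c.Ok N₀) {l : ℕ} (hl : l ≤ N₀) {X : Finset (ℕ × ℕ × Finset ℕ)}
    {M b pr M' b' pr' k : ℕ} {e : ℕ × ℕ} (hLk : LkP c X M (b * k) pr M' (b' * k) pr' l e)
    (hM : 0 < M) (hM' : 0 < M') (hb : 0 < b) (hb' : 0 < b') (hpr : pr ∣ e.1) (hpr' : pr' ∣ e.2)
    {s : ℕ} (hs : s.Prime) {a₀ : ℕ} (ha₀ : 0 < a₀) (hk : b ∣ a₀ * Bl c l e.1) (hk' : b' ∣ a₀ * Bl c l e.2)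
    (hco : Nat.Coprime (Bl c l e.1) k) (hco' : Nat.Coprime (Bl c l e.2) k)
    {N : ℕ} (hN : 4 ≤ N) {T : ℝ} (hT : 1 / (2:ℝ) ^ N ≤ T) (hX : XR c T l e.1) (hX' : XR c T l e.2)
    (hFS : FSs s c.γ c.rr N M b pr 1 M' b' pr' 1 ((e.1 / pr).factorization s)
      ((e.2 / pr').factorization s) e)
    (hsm : 4 * k * Dq c.rr M b pr 1 M' b' pr' 1 e < 1)
    (h0 : dex ((e.1 / pr).factorization s) (M.factorization s) ((e.2 / pr').factorization s)
        (M'.factorization s) = 0) :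
    1 < 2 * ((a₀ * rf (itm s pr e.1) (st s M) * rf (itm s pr' e.2) (st s M') : ℕ) : ℝ) ^ 10 *
      Dq c.rr M b pr 1 M' b' pr' 1 e := by
  obtain ⟨M₁, M₁', b₁, pr₁, c₁, b₁', pr₁', c₁', t₁, t₁', A, A', hM₁, hM₁', hb₁, hb₁', hF, hF', hW, hW', hc, hc',
    he, hcirc, hsc, ⟨k₁, hkB⟩, ⟨k₁', hkB'⟩⟩ := hLk
  -- positivity
  obtain ⟨j, j', -, -, -, e1, e2, i1, i2, -⟩ := PE_pts hM₁ hM₁' hb₁ hb₁' hF hF' hW hW' hc hc' he
  have q0 : 0 < e.1 := by
    have : j.1.1 = e.1 := e1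
    rw [← this]; exact h.pos _ (Cf.mem_S j)
  have q0' : 0 < e.2 := by
    have : j'.1.1 = e.2 := e2
    rw [← this]; exact h.pos _ (Cf.mem_S j')
  have w0 : 0 < e.1 / pr := Nat.div_pos (Nat.le_of_dvd q0 hpr) (Nat.pos_of_dvd_of_pos hpr q0)
  have w0' : 0 < e.2 / pr' := Nat.div_pos (Nat.le_of_dvd q0' hpr') (Nat.pos_of_dvd_of_pos hpr' q0')
  have hpr₁ : pr₁ ∣ e.1 := (hF.item _ i1).2.1
  have hpr₁' : pr₁' ∣ e.2 := (hF'.item _ i2).2.1
  have w1 : 0 < e.1 / pr₁ := Nat.div_pos (Nat.le_of_dvd q0 hpr₁) (Nat.pos_of_dvd_of_pos hpr₁ q0)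
  have w1' : 0 < e.2 / pr₁' := Nat.div_pos (Nat.le_of_dvd q0' hpr₁') (Nat.pos_of_dvd_of_pos hpr₁' q0')
  set a := (e.1 / pr).factorization s with ha
  set a' := (e.2 / pr').factorization s with ha'
  set m := M.factorization s with hm
  set m' := M'.factorization s with hm'
  set r₀ := rf (itm s pr e.1) (st s M) with hr₀
  set r₀' := rf (itm s pr' e.2) (st s M') with hr₀'
  set P := PL s a m a' m' with hPd
  set P' := PL s a' m' a m with hPd'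
  set U := e.1 / pr / M.gcd (e.1 / pr) with hU
  set U' := e.2 / pr' / M'.gcd (e.2 / pr') with hU'
  set U₁ := e.1 / pr₁ / M₁.gcd (e.1 / pr₁) with hU₁
  set U₁' := e.2 / pr₁' / M₁'.gcd (e.2 / pr₁') with hU₁'
  set x := cof (ui s M pr e.1) (ui s M' pr' e.2) with hx
  set y := cof (ui s M' pr' e.2) (ui s M pr e.1) with hy
  have ui0 : 0 < ui s M pr e.1 := div_pos' (st_pos w0) (st_pos hM)
  have ui0' : 0 < ui s M' pr' e.2 := div_pos' (st_pos w0') (st_pos hM')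
  have x0 : 0 < x := Crest.Agent.R4.HVW560.cof_pos ui0
  have y0 : 0 < y := Crest.Agent.R4.HVW560.cof_pos ui0'
  have P0 : 0 < P := PL_pos hs.pos
  have P0' : 0 < P' := PL_pos hs.pos
  have r00 : 0 < r₀ := rf_pos (st_pos hM)
  have r00' : 0 < r₀' := rf_pos (st_pos hM')
  have fL : bL s a m a' m' * rf (e.1 / pr) M = P * r₀ := bL_rf hs w0 hM a' m'
  have fR : bL s a' m' a m * rf (e.2 / pr') M' = P' * r₀' := bL_rf hs w0' hM' a m
  have cR : cof U U' = bL s a' m' a m * x := cof_st hs w0 hM w0' hM'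
  have cL : cof U' U = bL s a m a' m' * y := cof_st hs w0' hM' w0 hM
  -- the scale pair
  have B1 : ((b₁ : ℝ) / c₁) = ((b₁ / c₁ : ℕ) : ℝ) := (cast_div' hc hb₁).symm
  have B2 : ((b₁' : ℝ) / c₁') = ((b₁' / c₁' : ℕ) : ℝ) := (cast_div' hc' hb₁').symm
  unfold sc sd at hsc
  rw [Prod.mk.injEq, B1, B2] at hsc
  simp only at hsc
  have hsL : cof U₁' U₁ * (rf (e.1 / pr₁) M₁ * (b₁ / c₁)) = k * (y * (P * (r₀ * b))) := by
    have h1 : cof U₁' U₁ * (rf (e.1 / pr₁) M₁ * (b₁ / c₁)) = cof U' U * (rf (e.1 / pr) M * (b * k)) := by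
      exact_mod_cast hsc.1
    rw [h1, cL]
    calc bL s a m a' m' * y * (rf (e.1 / pr) M * (b * k)) =
          k * (y * ((bL s a m a' m' * rf (e.1 / pr) M) * b)) := by ring
      _ = _ := by rw [fL]; ring
  have hsR : cof U₁ U₁' * (rf (e.2 / pr₁') M₁' * (b₁' / c₁')) = k * (x * (P' * (r₀' * b'))) := by
    have h1 : cof U₁ U₁' * (rf (e.2 / pr₁') M₁' * (b₁' / c₁')) = cof U U' * (rf (e.2 / pr') M' * (b' * k)) := by
      exact_mod_cast hsc.2
    rw [h1, cR]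
    calc bL s a' m' a m * x * (rf (e.2 / pr') M' * (b' * k)) =
          k * (x * ((bL s a' m' a m * rf (e.2 / pr') M') * b')) := by ring
      _ = _ := by rw [fR]; ring
  have d1 : Bl c l e.1 ∣ y * (P * (r₀ * b)) := by
    have h1 : Bl c l e.1 ∣ k * (y * (P * (r₀ * b))) := by
      rw [← hsL, hkB]
      exact ((dvd_mul_left _ _).trans (dvd_mul_left _ _)).trans (dvd_mul_left _ _)
    exact hco.dvd_of_dvd_mul_left h1
  have d2 : Bl c l e.2 ∣ x * (P' * (r₀' * b')) := by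
    have h1 : Bl c l e.2 ∣ k * (x * (P' * (r₀' * b'))) := by
      rw [← hsR, hkB']
      exact ((dvd_mul_left _ _).trans (dvd_mul_left _ _)).trans (dvd_mul_left _ _)
    exact hco'.dvd_of_dvd_mul_left h1
  have g1 : ∀ v : ℝ, (bL s a m a' m' : ℝ) * (rf (e.1 / pr) M * ((b : ℝ) / (1 : ℕ) * v)) =
      ((P * (r₀ * b) : ℕ) : ℝ) * v := fun v => by
    have h1 : ((bL s a m a' m' * rf (e.1 / pr) M : ℕ) : ℝ) = ((P * r₀ : ℕ) : ℝ) := by rw [fL]
    push_cast at h1 ⊢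
    linear_combination (b * v) * h1
  have g2 : ∀ v : ℝ, (bL s a' m' a m : ℝ) * (rf (e.2 / pr') M' * ((b' : ℝ) / (1 : ℕ) * v)) =
      ((P' * (r₀' * b') : ℕ) : ℝ) * v := fun v => by
    have h1 : ((bL s a' m' a m * rf (e.2 / pr') M' : ℕ) : ℝ) = ((P' * r₀' : ℕ) : ℝ) := by rw [fR]
    push_cast at h1 ⊢
    linear_combination (b' * v) * h1
  have hDq : Dq c.rr M b pr 1 M' b' pr' 1 e = max ((y : ℝ) * (((P * (r₀ * b) : ℕ) : ℝ) * c.rr e.1))
      ((x : ℝ) * (((P' * (r₀' * b') : ℕ) : ℝ) * c.rr e.2)) := by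
    have h1 := Da_bt hs w0 hM w0' hM' ((b : ℝ) / (1 : ℕ) * c.rr e.1) ((b' : ℝ) / (1 : ℕ) * c.rr e.2)
    rw [← ha, ← ha', ← hm, ← hm', g1, g2] at h1
    exact h1
  unfold FSs at hFS
  rw [g1, g2, g1, g2] at hFS
  rw [hDq] at hsm
  obtain ⟨t, ρ, ρ', h1, h2, h3, hFF, h5⟩ := PE_coreE h hl X hM₁ hM₁' hb₁ hb₁' hF hF' hW hW' hc hc'
    (Finset.Subset.refl _) he hcirc (x₁ := cof U₁ U₁') (y₁ := cof U₁' U₁)
    (Crest.Agent.R4.HVW560.cof_pos (div_pos' w1 hM₁)) (Crest.Agent.R4.HVW560.cof_pos (div_pos' w1' hM₁'))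
    (Crest.Agent.R4P.NumTot33.cof_cross_eq U₁ U₁') (x := x) (y := y) (P := P) (P' := P') (G := r₀ * b)
    (G' := r₀' * b') x0 y0 P0 P0' (Nat.mul_pos r00 hb) (Nat.mul_pos r00' hb') hsL hsR d1 d2 hX hX'
    (F := r₀ * a₀) (F' := r₀' * a₀) (Nat.mul_pos r00 ha₀) (Nat.mul_pos r00' ha₀)
    (by rw [mul_assoc]; exact Nat.mul_dvd_mul_left r₀ hk) (by rw [mul_assoc]; exact Nat.mul_dvd_mul_left r₀' hk')
    hN hT hsm hFS
  rw [← hDq] at h2 h3 h5
  set D := Dq c.rr M b pr 1 M' b' pr' 1 e with hD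
  have ht : 1 ≤ t := le_trans (one_le_pow₀ (by norm_num)) h1
  have ht0 : 0 < t := lt_of_lt_of_le one_pos ht
  have D0 : 0 < D := lt_trans (by positivity) h2
  have mono : ∀ {m m' : ℕ}, m ≤ m' → 1 < 2 * (m : ℝ) ^ 10 * D → 1 < 2 * (m' : ℝ) ^ 10 * D := by
    intro m m' hmm h1
    refine lt_of_lt_of_le h1 ?_
    have : (m : ℝ) ≤ m' := by exact_mod_cast hmm
    gcongr
  have hPP : P * P' = s ^ dex a m a' m' := PL_mul s a m a' m'
  rw [h0, pow_zero] at hPP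
  have p1 : P = 1 := Nat.eq_one_of_mul_eq_one_right hPP
  have p1' : P' = 1 := Nat.eq_one_of_mul_eq_one_left hPP
  rw [if_pos (by rw [p1]; simp), if_pos (by rw [p1']; simp)] at h5
  refine mono ?_ h5
  apply max_le
  · calc r₀ * a₀ ≤ r₀ * a₀ * r₀' := Nat.le_mul_of_pos_right _ r00'
      _ = a₀ * r₀ * r₀' := by ring
  · calc r₀' * a₀ ≤ r₀' * a₀ * r₀ := Nat.le_mul_of_pos_right _ r00
      _ = a₀ * r₀ * r₀' := by ring

/-! ### `[E]` pairs of the exit letters -/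

/-- scaling of `Dq` -/
lemma Dq_mul {ρ : ℕ → ℝ} {M b pr c M' b' pr' c' k : ℕ} {e : ℕ × ℕ} :
    Dq ρ M (b * k) pr c M' (b' * k) pr' c' e = k * Dq ρ M b pr c M' b' pr' c' e := by
  unfold Dq Crest.Agent.R4.AvgItem710.Da Crest.Agent.R4.AvgItem710.Dp Crest.Agent.R4.DeepSt579.rd
  rw [mul_max_of_nonneg _ _ (Nat.cast_nonneg k)]
  push_cast
  congr 1 <;> ring

/-- **an `[E]` pair of the exit letters, related and not `[E]` at the state, is `[F]` at the state** -/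
theorem fs_of_es {s : ℕ} (hs : s.Prime) {γ : ℝ} {ρ : ℕ → ℝ} (hρ : ∀ q, 0 < ρ q) {M b pr c M' b' pr' c' : ℕ}
    {e : ℕ × ℕ} (hb : 0 < b) (hc : 0 < c) (hb' : 0 < b') (hc' : 0 < c') (hM : 0 < M) (hM' : 0 < M')
    (w0 : 0 < e.1 / pr) (w0' : 0 < e.2 / pr') {k : ℕ} (hk : 0 < k) {N : ℕ} (hN : 400 ≤ N)
    (hD : Dq ρ M b pr c M' b' pr' c' e ≤ 1/2^N) (hrel : RelI γ ρ M b pr c M' b' pr' c' e)
    (hes : ESs s γ ρ M (b*k) pr c M' (b'*k) pr' c' ((e.1 / pr).factorization s) ((e.2 / pr').factorization s) e)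
    (hne : ¬ ESs s γ ρ M b pr c M' b' pr' c' ((e.1 / pr).factorization s) ((e.2 / pr').factorization s) e) :
    FSs s γ ρ N M b pr c M' b' pr' c' ((e.1 / pr).factorization s) ((e.2 / pr').factorization s) e := by
  set a := (e.1 / pr).factorization s with ha
  set a' := (e.2 / pr').factorization s with ha'
  set m := M.factorization s with hm
  set m' := M'.factorization s with hm'
  set x := cof (ui s M pr e.1) (ui s M' pr' e.2) with hx
  set y := cof (ui s M' pr' e.2) (ui s M pr e.1) with hy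
  have ui0 : 0 < ui s M pr e.1 := div_pos' (st_pos w0) (st_pos hM)
  have ui0' : 0 < ui s M' pr' e.2 := div_pos' (st_pos w0') (st_pos hM')
  have x0 : 0 < x := Crest.Agent.R4.HVW560.cof_pos ui0
  have y0 : 0 < y := Crest.Agent.R4.HVW560.cof_pos ui0'
  have cR : cof (e.1 / pr / M.gcd (e.1 / pr)) (e.2 / pr' / M'.gcd (e.2 / pr')) = bL s a' m' a m * x :=
    cof_st hs w0 hM w0' hM'
  have cL : cof (e.2 / pr' / M'.gcd (e.2 / pr')) (e.1 / pr / M.gcd (e.1 / pr)) = bL s a m a' m' * y :=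
    cof_st hs w0' hM' w0 hM
  unfold ESs at hes hne
  unfold FSs
  rw [← ha, ← ha', ← hm, ← hm', ← hx, ← hy] at *
  set B := bL s a m a' m' with hB
  set B' := bL s a' m' a m with hB'
  set θ : ℝ := B * (rf (e.1 / pr) M * ((b : ℝ) / c * γ)) with hθ
  set θ' : ℝ := B' * (rf (e.2 / pr') M' * ((b' : ℝ) / c' * γ)) with hθ'
  set r : ℝ := B * (rf (e.1 / pr) M * ((b : ℝ) / c * ρ e.1)) with hr
  set r' : ℝ := B' * (rf (e.2 / pr') M' * ((b' : ℝ) / c' * ρ e.2)) with hr'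
  have hDq : Dq ρ M b pr c M' b' pr' c' e = max ((y : ℝ) * r) ((x : ℝ) * r') :=
    Da_bt hs w0 hM w0' hM' ((b : ℝ) / c * ρ e.1) ((b' : ℝ) / c' * ρ e.2)
  have B0 : 0 < B := Nat.pow_pos hs.pos
  have B0' : 0 < B' := Nat.pow_pos hs.pos
  have r0 : 0 < r := by
    have h1 : (0:ℝ) < B := by exact_mod_cast B0
    have h2 : (0:ℝ) < rf (e.1 / pr) M := by exact_mod_cast rf_pos hM
    have h3 : (0:ℝ) < b := by exact_mod_cast hb
    have h4 : (0:ℝ) < c := by exact_mod_cast hc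
    have := hρ e.1
    rw [hr]; positivity
  have r0' : 0 < r' := by
    have h1 : (0:ℝ) < B' := by exact_mod_cast B0'
    have h2 : (0:ℝ) < rf (e.2 / pr') M' := by exact_mod_cast rf_pos hM'
    have h3 : (0:ℝ) < b' := by exact_mod_cast hb'
    have h4 : (0:ℝ) < c' := by exact_mod_cast hc'
    have := hρ e.2
    rw [hr']; positivity
  -- the relation
  obtain ⟨j, j', hj⟩ := hrel
  have hj' : |((B * j : ℤ) + θ) * y - ((B' * j' : ℤ) + θ') * x| ≤ 2 * max ((y : ℝ) * r) ((x : ℝ) * r') := by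
    rw [← hDq]
    refine le_trans (le_of_eq ?_) hj
    rw [cR, cL, hθ, hθ']
    congr 1
    push_cast
    ring
  rcases classify_num hN x0 y0 r0 r0' hj' with h1 | h1 | h1
  · exfalso
    obtain ⟨t₁, n, n', hS, -⟩ := hes
    have hD0 : 0 < max ((y : ℝ) * r) ((x : ℝ) * r') := lt_max_of_lt_left (by positivity)
    set D := max ((y : ℝ) * r) ((x : ℝ) * r') with hDd
    rw [hDq] at hD
    set t := 1 / D with ht
    have ht0 : 0 < t := by positivity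
    have hDt : D = 1 / t := by rw [ht, one_div_one_div]
    have ht2 : (2:ℝ)^N ≤ t := by
      rw [ht, le_div_iff₀ hD0]
      calc (2:ℝ)^N * D ≤ 2^N * (1/2^N) := by gcongr
        _ = 1 := by field_simp
    have ht1 : 1 ≤ t := (one_le_pow₀ (by norm_num)).trans ht2
    have kr : (1:ℝ) ≤ k := by exact_mod_cast hk
    have kr0 : (0:ℝ) < k := by linarith
    -- the letters of the exit
    have er : (B:ℝ) * (rf (e.1 / pr) M * (((b * k : ℕ) : ℝ) / c * ρ e.1)) = k * r := by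
      rw [hr]; push_cast; ring
    have er' : (B':ℝ) * (rf (e.2 / pr') M' * (((b' * k : ℕ) : ℝ) / c' * ρ e.2)) = k * r' := by
      rw [hr']; push_cast; ring
    rw [er, er'] at hS
    have t10 : 0 < t₁ := lt_of_lt_of_le (by positivity) hS.ht
    have t11 : 1 ≤ t₁ := (one_le_pow₀ (by norm_num)).trans hS.ht
    have hkt : k * t₁ ≤ t := by
      rw [ht, le_div_iff₀ hD0]
      have h2 : (k:ℝ) * D ≤ 1 / t₁ := by
        rw [hDd, mul_max_of_nonneg _ _ kr0.le]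
        refine max_le ?_ ?_
        · calc (k:ℝ) * (y * r) = y * (k * r) := by ring
            _ ≤ _ := hS.hyr
        · calc (k:ℝ) * (x * r') = x * (k * r') := by ring
            _ ≤ _ := hS.hxr
      calc k * t₁ * D = t₁ * (k * D) := by ring
        _ ≤ t₁ * (1/t₁) := by gcongr
        _ = 1 := by field_simp
    have htt : t₁ ≤ t := le_trans (le_mul_of_one_le_left t10.le kr) hkt
    have hN' : t₁^(1/20:ℝ) ≤ t^(1/20:ℝ) := Real.rpow_le_rpow t10.le htt (by norm_num)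
    have hbal : ∀ v : ℝ, t₁^(-(51/50):ℝ) < k * v → t^(-(51/50):ℝ) < v := fun v hv => by
      have h2 : (k * t₁)^(51/50:ℝ) ≤ t^(51/50:ℝ) := Real.rpow_le_rpow (by positivity) hkt (by norm_num)
      have h3 : k * t₁^(51/50:ℝ) ≤ (k * t₁)^(51/50:ℝ) := by
        rw [Real.mul_rpow kr0.le t10.le]
        have : (k:ℝ) ≤ (k:ℝ)^(51/50:ℝ) := by
          calc (k:ℝ) = (k:ℝ)^(1:ℝ) := (Real.rpow_one _).symm
            _ ≤ _ := Real.rpow_le_rpow_of_exponent_le kr (by norm_num)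
        gcongr
      have h4 : t^(-(51/50):ℝ) ≤ (k * t₁^(51/50:ℝ))⁻¹ := by
        rw [Real.rpow_neg ht0.le]
        exact inv_anti₀ (by positivity) (h3.trans h2)
      rw [mul_inv] at h4
      rw [Real.rpow_neg t10.le] at hv
      have h5 : (k:ℝ)⁻¹ * (t₁^(51/50:ℝ))⁻¹ < (k:ℝ)⁻¹ * (k * v) := mul_lt_mul_of_pos_left hv (by positivity)
      have h6 : (k:ℝ)⁻¹ * (k * v) = v := by field_simp
      rw [h6] at h5
      exact lt_of_le_of_lt h4 h5
    have hlt : 1/(2*t) < D := by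
      have h2 : 1/(2*t) < 1/t := one_div_lt_one_div_of_lt ht0 (by linarith)
      exact h2.trans_eq hDt.symm
    have hA := h1 t ht2 hlt hDt.le
    rcases hA with (hA | hA) | hA | hA
    · have := hbal _ (by
        have := hS.bal'
        calc t₁^(-(51/50):ℝ) < x * (k * r') := this
          _ = k * (x * r') := by ring)
      linarith
    · have := hbal _ (by
        have := hS.bal
        calc t₁^(-(51/50):ℝ) < y * (k * r) := this
          _ = k * (y * r) := by ring)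
      linarith
    · exact absurd hA.1 (not_lt.2 (hS.hyN.trans hN'))
    · exact absurd hA.1 (not_lt.2 (hS.hxN.trans hN'))
  · exact absurd h1 hne
  · exact h1

/-- for `dex = 0` the letters of `ESs` are the plain ones -/
theorem ESs_iff {s : ℕ} (hs : s.Prime) {γ : ℝ} {ρ : ℕ → ℝ} {M b pr c M' b' pr' c' : ℕ}
    {e : ℕ × ℕ} (hM : 0 < M) (hM' : 0 < M') (w0 : 0 < e.1 / pr) (w0' : 0 < e.2 / pr')
    (h0 : dex ((e.1 / pr).factorization s) (M.factorization s) ((e.2 / pr').factorization s)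
        (M'.factorization s) = 0) :
    ESs s γ ρ M b pr c M' b' pr' c' ((e.1 / pr).factorization s) ((e.2 / pr').factorization s) e ↔
      Crest.Agent.R4.NMW710.ESI γ ρ M b pr c M' b' pr' c' e := by
  set a := (e.1 / pr).factorization s with ha
  set a' := (e.2 / pr').factorization s with ha'
  set m := M.factorization s with hm
  set m' := M'.factorization s with hm'
  have cR : cof (e.1 / pr / M.gcd (e.1 / pr)) (e.2 / pr' / M'.gcd (e.2 / pr')) =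
      bL s a' m' a m * cof (ui s M pr e.1) (ui s M' pr' e.2) := cof_st hs w0 hM w0' hM'
  have cL : cof (e.2 / pr' / M'.gcd (e.2 / pr')) (e.1 / pr / M.gcd (e.1 / pr)) =
      bL s a m a' m' * cof (ui s M' pr' e.2) (ui s M pr e.1) := cof_st hs w0' hM' w0 hM
  have b1 : bL s a m a' m' = 1 := by
    have : (a' - m') - (a - m) = 0 := by unfold dex at h0; omega
    show s ^ ((a' - m') - (a - m)) = 1
    rw [this, pow_zero]
  have b2 : bL s a' m' a m = 1 := by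
    have : (a - m) - (a' - m') = 0 := by unfold dex at h0; omega
    show s ^ ((a - m) - (a' - m')) = 1
    rw [this, pow_zero]
  unfold ESs Crest.Agent.R4.NMW710.ESI Crest.Agent.R4.DeepSt579.rd
  rw [cR, cL, ← hm, ← hm', b1, b2]
  simp only [Nat.cast_one, one_mul]

/-- the missing ties above a column are prime to the column -/
theorem Bl_coprime {N₀ : ℕ} (h : c.Ok N₀) {l q : ℕ} (hl : l.Prime) : Nat.Coprime (Bl c l q) l := by
  unfold Bl
  rw [Crest.Agent.R4.W363.lst_prod]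
  refine Nat.Coprime.prod_left fun s hs => ?_
  obtain ⟨h1, h2⟩ := Finset.mem_filter.1 hs
  have h3 := (Crest.Agent.R4P.Step588.mt_prime_lt c.t h.tOk h1).1
  exact (Nat.coprime_primes h3 hl).2 h2.ne'

open Crest.Agent.R4P.Bld532 (NS All NodeOk Bk)
open Crest.Agent.R4P.Skel189 (Ctx top Part PartW)
open Crest.Agent.R4P.IvX29 (GS LkG)
open Crest.Agent.R4.CrossLoc709 (SE)
open Crest.Agent.R4P.CrsFacts26
open Crest.Agent.R4P.LinkC33

section ctx
variable {Nn : Skel189.Num} {γ : ℝ} {p0 P₀ : ℕ} {X : Ctx Nn γ p0 P₀} {j₀ : X.c.Lam} {Q' : NS → IT → Prop}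
  {b : ℕ} {z : X.Sta} {v v' : NS} {σ σ' : IT} {l : ℕ} {e : ℕ × ℕ} {Qp : NS → IT → Prop}

/-- **the mixed link at the exits of a crossing state** -/
theorem ctx_linkE (h : CZ X j₀ Q' b z v v' σ σ') (hQ : ∀ u τ, Qp u τ → MF X.c.t u τ)
    (hl : l.Prime) (hlb : l ≤ b) (hbt : b ≤ top X.S) (he : e.1 ∈ σ.items) (he' : e.2 ∈ σ'.items)
    (hLk : LkG (X.c.D.par X.Y) Qp (l * (SE z.M v.B v.A z.M' v'.B v'.A e).1, l * (SE z.M v.B v.A z.M' v'.B v'.A e).2) l e)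
    {K : ℕ} (hK : 4 ≤ K) {T : ℝ} (hT : 1 / (2:ℝ) ^ K ≤ T) (hthr : T ≤ X.c.wp.thr l) (hlam : X.c.lam l = 0)
    (hFS : FSs b X.c.γ X.c.rr K z.M v.B v.A 1 z.M' v'.B v'.A 1 ((e.1 / v.A).factorization b)
      ((e.2 / v'.A).factorization b) e)
    (hsm : 4 * l * Dq X.c.rr z.M v.B v.A 1 z.M' v'.B v'.A 1 e < 1)
    (h0 : dex ((e.1 / v.A).factorization b) (z.M.factorization b) ((e.2 / v'.A).factorization b)
        (z.M'.factorization b) = 0) :
    1 < 2 * ((aL l b v.B v'.B * rf (itm b v.A e.1) (st b z.M) * rf (itm b v'.A e.2) (st b z.M') : ℕ) : ℝ) ^ 10 *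
      Dq X.c.rr z.M v.B v.A 1 z.M' v'.B v'.A 1 e := by
  obtain ⟨d1, d2⟩ := CZ.aL h hl hlb he he'
  rw [← Crest.Agent.R4P.NumTot33.SE_mul] at hLk
  exact link_e X.ok (hlb.trans hbt) (lkp_of_lkg hQ hl hLk) h.mL.pos h.mR.pos h.L.I.hb h.R.I.hb
    (h.L.I.hF.item _ he).2.1 (h.R.I.hF.item _ he').2.1 h.bp (aL_pos h.bp.pos) d1 d2
    (Bl_coprime X.ok hl) (Bl_coprime X.ok hl) hK hT (XR_of_thin hthr hlam) (XR_of_thin hthr hlam) hFS hsm h0

/-- **field `es` at the exits** (`EqNum32.FE`): `[E]` pairs of the exit letters which are related and not `[E]` at the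
crossing state -/
theorem ctx_esX (h : CZ X j₀ Q' b z v v' σ σ') (hQ : ∀ u τ, Qp u τ → MF X.c.t u τ) (hρ : ∀ q, 0 < X.c.rr q)
    (hl : l.Prime) (hlb : l ≤ b) (hbt : b ≤ top X.S) (he : e.1 ∈ σ.items) (he' : e.2 ∈ σ'.items)
    (hLk : LkG (X.c.D.par X.Y) Qp (l * (SE z.M v.B v.A z.M' v'.B v'.A e).1, l * (SE z.M v.B v.A z.M' v'.B v'.A e).2) l e)
    {K : ℕ} (hK : 400 ≤ K) {T : ℝ} (hT : 1 / (2:ℝ) ^ K ≤ T) (hthr : T ≤ X.c.wp.thr l) (hlam : X.c.lam l = 0)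
    (hrel : RelI X.c.γ X.c.rr z.M v.B v.A 1 z.M' v'.B v'.A 1 e)
    (hnE : ¬ Crest.Agent.R4.NMW710.ESI X.c.γ X.c.rr z.M v.B v.A 1 z.M' v'.B v'.A 1 e)
    (hD : Dq X.c.rr z.M (v.B * l) v.A 1 z.M' (v'.B * l) v'.A 1 e ≤ 1 / 2 ^ K)
    (hes : ESs b X.c.γ X.c.rr z.M (v.B * l) v.A 1 z.M' (v'.B * l) v'.A 1 ((e.1 / v.A).factorization b)
      ((e.2 / v'.A).factorization b) e)
    (h0 : dex ((e.1 / v.A).factorization b) (z.M.factorization b) ((e.2 / v'.A).factorization b)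
        (z.M'.factorization b) = 0) {a₀ : ℕ} (ha₀ : aL l b v.B v'.B ≤ a₀) :
    1 < 2 * ((a₀ * rf (itm b v.A e.1) (st b z.M) * rf (itm b v'.A e.2) (st b z.M') : ℕ) : ℝ) ^ 10 *
      Dq X.c.rr z.M (v.B * l) v.A 1 z.M' (v'.B * l) v'.A 1 e := by
  have h1 := h.L.I.hF.item _ he
  have h1' := h.R.I.hF.item _ he'
  have w0 : 0 < e.1 / v.A := Nat.div_pos (Nat.le_of_dvd h1.1 h1.2.1) (Nat.pos_of_dvd_of_pos h1.2.1 h1.1)
  have w0' : 0 < e.2 / v'.A := Nat.div_pos (Nat.le_of_dvd h1'.1 h1'.2.1) (Nat.pos_of_dvd_of_pos h1'.2.1 h1'.1)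
  rw [Dq_mul] at hD ⊢
  have lr : (1:ℝ) ≤ l := by exact_mod_cast hl.one_le
  have D0 : 0 < Dq X.c.rr z.M v.B v.A 1 z.M' v'.B v'.A 1 e :=
    Crest.Agent.R4P.ShotBig33.Dq_pos hρ h.L.I.hb one_pos h.mL.pos h.mR.pos w0 w0'
  set D := Dq X.c.rr z.M v.B v.A 1 z.M' v'.B v'.A 1 e with hDd
  have hD1 : D ≤ 1 / 2 ^ K := le_trans (le_mul_of_one_le_left D0.le lr) hD
  have hsm : 4 * l * D < 1 := by
    have h2 : (8:ℝ) ≤ 2 ^ K := by
      calc (8:ℝ) = 2 ^ 3 := by norm_num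
        _ ≤ 2 ^ K := pow_le_pow_right₀ (by norm_num) (by omega)
    have h3 : 1 / (2:ℝ) ^ K ≤ 1 / 8 := one_div_le_one_div_of_le (by norm_num) h2
    have : 4 * (l * D) ≤ 4 * (1/8) := by
      have := hD.trans h3
      linarith
    linarith
  have hFS := fs_of_es h.bp (γ := X.c.γ) hρ h.L.I.hb one_pos h.R.I.hb one_pos h.mL.pos h.mR.pos w0 w0' hl.pos hK hD1
    hrel hes (fun h2 => hnE ((ESs_iff h.bp h.mL.pos h.mR.pos w0 w0' h0).1 h2))
  have key := ctx_linkE h hQ hl hlb hbt he he' hLk (by omega) hT hthr hlam hFS hsm h0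
  rw [← hDd] at key
  refine lt_of_lt_of_le key ?_
  have h4 : ((aL l b v.B v'.B * rf (itm b v.A e.1) (st b z.M) * rf (itm b v'.A e.2) (st b z.M') : ℕ) : ℝ) ≤
      ((a₀ * rf (itm b v.A e.1) (st b z.M) * rf (itm b v'.A e.2) (st b z.M') : ℕ) : ℝ) := by
    have : aL l b v.B v'.B * rf (itm b v.A e.1) (st b z.M) * rf (itm b v'.A e.2) (st b z.M') ≤
      a₀ * rf (itm b v.A e.1) (st b z.M) * rf (itm b v'.A e.2) (st b z.M') := by gcongr
    exact_mod_cast this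
  have h5 : D ≤ l * D := le_mul_of_one_le_left D0.le lr
  gcongr

end ctx

end Crest.Agent.R4P.LinkE33
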