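import Crest.Agent.R4P.Link758

/-!
R4 (S0004), powers pass: port of helper223's `R4/LinkX223` to the tree with powers (helper17).
Module D: **[F] pairs of a crossing level have the same index at every level
below, unless `1 < 2 m^10 D`**, `m` = the larger raising factor *times the crossing factor*
(`β₁` on the left, `β₂` on the right; a crossing at `b` with `b` on the left items: `β₁ = 1`, `β₂ = b`).
The proofs are those of helper758 (`same_of_FF`, `FS_lower`, `PE_FS_lower`) with the two factors inserted.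
-/

set_option autoImplicit false
set_option linter.unusedSectionVars false
set_option linter.unusedVariables false
open MeasureTheory Filter

namespace Crest.Agent.R4P.LinkX223

open Crest.Agent.R4.Tour104 Crest.Agent.R4.Tour758 Crest.Agent.R4.Avg758 Crest.Agent.R4.Clos758
open Crest.Agent.R4.ClosL758 Crest.Agent.R4.ClosG758 Crest.Agent.R4.ClosR758
open Crest.Agent.R4.Fam464 Crest.Agent.R4P.Cnt588 Crest.Agent.R4P.Walk560 Crest.Agent.R4P.Item758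
open Crest.Agent.R4.Piece464 Crest.Agent.R4P.W363 Crest.Agent.R4P.AvgItem710
open Crest.Agent.R4P.Data758
open Crest.Agent.R4.LF363 (Lab lab_unique)
open Crest.Agent.R4.Dich579 (FF)
open Crest.Agent.R4P.Link758

variable {c : Cf} {n : ℕ}

/-- **[F] pairs of a crossing level have the same index below.** -/
theorem same_of_FX (h : c.Ok n) {l : ℕ} (hl : l ≤ n) {j j' : c.Lam} {B w M B' w' M' : ℕ}
    {κ κ' : ℤ → ℝ} {y z z' : ℝ} {i a i' a' : ℤ}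
    (hP : Pt c.γ (c.D.al j) (c.D.be j) B w M κ y i a z)
    (hP' : Pt c.γ (c.D.al j') (c.D.be j') B' w' M' κ' y i' a' z')
    (hM : 0 < M) (hM' : 0 < M') (hB : 0 < B) (hB' : 0 < B') (hw : 0 < w) (hw' : 0 < w')
    {x y₁ pr pr' β₁ β₂ : ℕ} (hβ₁ : 0 < β₁) (hβ₂ : 0 < β₂)
    (hx : 0 < x) (hy : 0 < y₁) (hpr : 0 < pr) (hpr' : 0 < pr') (hq : j.1.1 = pr * w)
    (hq' : j'.1.1 = pr' * w') (hcirc : pr * M * B = pr' * M' * B')
    (hxy : (w / M.gcd w) * (β₁ * y₁) = (w' / M'.gcd w') * (β₂ * x))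
    {k₀ k₀' : ℕ} (hk : B = k₀ * Bl c l j.1.1) (hk' : B' = k₀' * Bl c l j'.1.1)
    (hthin : (Bl c l j.1.1 : ℝ) * c.r j.1.1 ≤ c.wp.thr l)
    (hthin' : (Bl c l j'.1.1 : ℝ) * c.r j'.1.1 ≤ c.wp.thr l)
    (hac : ¬ Ac c l j.1.1) (hac' : ¬ Ac c l j'.1.1)
    {t : ℝ} (ht : 1 ≤ t) (hm : ((β₁ * rf w M * k₀ : ℕ) : ℝ) ≤ t ^ (1/10 : ℝ))
    (hm' : ((β₂ * rf w' M' * k₀' : ℕ) : ℝ) ≤ t ^ (1/10 : ℝ))
    (hyr : (y₁ : ℝ) * (β₁ * (rf w M * (B * c.r j.1.1))) ≤ 1 / t)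
    (hxr : (x : ℝ) * (β₂ * (rf w' M' * (B' * c.r j'.1.1))) ≤ 1 / t) {ρ ρ' : ℚ}
    (hFF : FF (β₁ * (rf w M * (B * c.γ))) (β₂ * (rf w' M' * (B' * c.γ))) t
      (β₁ * (rf w M * (B * c.r j.1.1))) (β₂ * (rf w' M' * (B' * c.r j'.1.1))) x y₁ ρ ρ') :
    (j, j') ∉ Ro (c.D.rho l) := by
  have hb0 : 0 < Bl c l j.1.1 := Nat.pos_of_ne_zero fun h0 => by rw [hk, h0] at hB; simp at hB
  have hb0' : 0 < Bl c l j'.1.1 := Nat.pos_of_ne_zero fun h0 => by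
    rw [hk', h0] at hB'; simp at hB'
  have hk0 : 0 < k₀ := Nat.pos_of_ne_zero fun h0 => by rw [hk, h0] at hB; simp at hB
  have hk0' : 0 < k₀' := Nat.pos_of_ne_zero fun h0 => by rw [hk', h0] at hB'; simp at hB'
  have hr0 := rf_pos (w := w) hM
  have hr0' := rf_pos (w := w') hM'
  have ht0 : 0 < t := lt_of_lt_of_le one_pos ht
  -- one side
  have key : ∀ {q B w M k₀ y₁ β : ℕ} {ρ : ℚ}, 0 < Bl c l q → 0 < k₀ → 0 < rf w M → 0 < y₁ → 0 < β →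
      B = k₀ * Bl c l q → ((β * rf w M * k₀ : ℕ) : ℝ) ≤ t ^ (1/10 : ℝ) →
      (y₁ : ℝ) * (β * (rf w M * (B * c.r q))) ≤ 1 / t →
      Lab (β * (rf w M * (B * c.γ))) (β * (rf w M * (B * c.r q))) ρ →
      (ρ.den : ℝ) ≤ t ^ (21/200 : ℝ) →
      |β * (rf w M * (B * c.γ)) - ρ| ≤ t ^ (39/200 : ℝ) * (β * (rf w M * (B * c.r q))) →
      (Bl c l q : ℝ) * c.r q ≤ c.wp.thr l →
      ∃ σ : ℚ, c.wp.st c.γ c.r c.t l q = some σ ∧ (β : ℝ) * ((rf w M : ℝ) * (B * σ)) = ρ := by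
    intro q B w M k₀ y₁ β ρ b0 k0 r0 y0 β0 hB hm hyr hL hd hn hth
    have e1 : (β : ℝ) * ((rf w M : ℝ) * (B * c.γ)) = ((β * rf w M * k₀ : ℕ) : ℝ) * (Bl c l q * c.γ) := by
      rw [hB]; push_cast; ring
    have e2 : (β : ℝ) * ((rf w M : ℝ) * (B * c.r q)) =
        ((β * rf w M * k₀ : ℕ) : ℝ) * (Bl c l q * c.r q) := by
      rw [hB]; push_cast; ring
    rw [e1, e2] at hL hn
    rw [e2] at hyr
    have hpos := hL.pos
    have hy1 : (1 : ℝ) ≤ y₁ := by exact_mod_cast y0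
    have hr1 : ((β * rf w M * k₀ : ℕ) : ℝ) * (Bl c l q * c.r q) ≤ 1 / t :=
      (le_mul_of_one_le_left hpos.le hy1).trans hyr
    have hlab := lab_div (Nat.mul_pos (Nat.mul_pos β0 r0) k0) ht hm hL hd hn hr1
    refine ⟨_, st_of_lab hth hlab, ?_⟩
    have b0' : (Bl c l q : ℝ) ≠ 0 := by exact_mod_cast b0.ne'
    have k0' : (k₀ : ℝ) ≠ 0 := by exact_mod_cast k0.ne'
    have r0' : (rf w M : ℝ) ≠ 0 := by exact_mod_cast r0.ne'
    have β0' : (β : ℝ) ≠ 0 := by exact_mod_cast β0.ne'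
    rw [hB]
    push_cast
    field_simp
  obtain ⟨σ, s1, s2⟩ := key hb0 hk0 hr0 hy hβ₁ hk hm hyr hFF.lab hFF.den hFF.near hthin
  obtain ⟨τ, s1', s2'⟩ := key hb0' hk0' hr0' hx hβ₂ hk' hm' hxr hFF.lab' hFF.den' hFF.near' hthin'
  intro hR
  rw [h.Ro_iff hl j j' hP.z1 hP.z2 hP'.z1 hP'.z2, st_of_not_Ac hac s1,
    st_of_not_Ac hac' s1'] at hR
  apply hR
  apply WP.ix_same_some
  refine off_eq_of_exact hP hP' hM hM' hB hw hw' (Nat.mul_pos hβ₂ hx) (Nat.mul_pos hβ₁ hy)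
    hpr hpr' hq hq' hcirc hxy ?_
  have hz : |z| ≤ c.r j.1.1 := by
    rw [abs_le]
    exact ⟨(h.bp_ge j _).trans hP.z1, (hP.z2.le).trans (h.bp_le j (Cf.k_lt j))⟩
  have hz' : |z'| ≤ c.r j'.1.1 := by
    rw [abs_le]
    exact ⟨(h.bp_ge j' _).trans hP'.z1, (hP'.z2.le).trans (h.bp_le j' (Cf.k_lt j'))⟩
  have hrel := rel_pts hP hP' hM hM' hw hw' hxy
  have hex := hFF.exact ((β₁ : ℤ) * num w M i a) ((β₂ : ℤ) * num w' M' i' a') (by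
    have u1 : ((β₁ * y₁ : ℕ) : ℝ) * (rf w M * (B * |z|)) ≤
        y₁ * (β₁ * (rf w M * (B * c.r j.1.1))) := by
      push_cast
      calc (β₁ : ℝ) * y₁ * (rf w M * (B * |z|)) ≤ (β₁ : ℝ) * y₁ * (rf w M * (B * c.r j.1.1)) := by gcongr
        _ = _ := by ring
    have u2 : ((β₂ * x : ℕ) : ℝ) * (rf w' M' * (B' * |z'|)) ≤
        x * (β₂ * (rf w' M' * (B' * c.r j'.1.1))) := by
      push_cast
      calc (β₂ : ℝ) * x * (rf w' M' * (B' * |z'|)) ≤ (β₂ : ℝ) * x * (rf w' M' * (B' * c.r j'.1.1)) := by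
            gcongr
        _ = _ := by ring
    have e : ((((β₁ : ℤ) * num w M i a : ℤ) : ℝ) + β₁ * (rf w M * (B * c.γ))) * y₁ -
        ((((β₂ : ℤ) * num w' M' i' a' : ℤ) : ℝ) + β₂ * (rf w' M' * (B' * c.γ))) * x =
        (num w M i a + rf w M * (B * c.γ)) * ((β₁ * y₁ : ℕ) : ℝ) -
        (num w' M' i' a' + rf w' M' * (B' * c.γ)) * ((β₂ * x : ℕ) : ℝ) := by
      push_cast; ring
    rw [e]
    calc _ ≤ 1 / t + 1 / t := hrel.trans (add_le_add (u1.trans hyr) (u2.trans hxr))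
      _ = 2 / t := by ring)
  rw [← s2, ← s2'] at hex
  push_cast at hex ⊢
  linear_combination hex

open Crest.Agent.R4.StopAsm709 (FS)

/-- **[F] pairs of a crossing level which are related below have large factors**: `1 < 2 m^10 D` -/
theorem FX_lower (h : c.Ok n) {l : ℕ} (hl : l ≤ n) {j j' : c.Lam} {B w M B' w' M' : ℕ}
    {κ κ' : ℤ → ℝ} {y z z' : ℝ} {i a i' a' : ℤ}
    (hP : Pt c.γ (c.D.al j) (c.D.be j) B w M κ y i a z)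
    (hP' : Pt c.γ (c.D.al j') (c.D.be j') B' w' M' κ' y i' a' z')
    (hM : 0 < M) (hM' : 0 < M') (hB : 0 < B) (hB' : 0 < B') (hw : 0 < w) (hw' : 0 < w')
    {x y₁ pr pr' β₁ β₂ : ℕ} (hβ₁ : 0 < β₁) (hβ₂ : 0 < β₂)
    (hx : 0 < x) (hy : 0 < y₁) (hpr : 0 < pr) (hpr' : 0 < pr') (hq : j.1.1 = pr * w)
    (hq' : j'.1.1 = pr' * w') (hcirc : pr * M * B = pr' * M' * B')
    (hxy : (w / M.gcd w) * (β₁ * y₁) = (w' / M'.gcd w') * (β₂ * x))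
    {k₀ k₀' : ℕ} (hk : B = k₀ * Bl c l j.1.1) (hk' : B' = k₀' * Bl c l j'.1.1)
    (hthin : (Bl c l j.1.1 : ℝ) * c.r j.1.1 ≤ c.wp.thr l)
    (hthin' : (Bl c l j'.1.1 : ℝ) * c.r j'.1.1 ≤ c.wp.thr l)
    (hac : ¬ Ac c l j.1.1) (hac' : ¬ Ac c l j'.1.1)
    (hR : (j, j') ∈ Ro (c.D.rho l)) {N : ℕ}
    (hFS : FS N (β₁ * (rf w M * (B * c.γ))) (β₂ * (rf w' M' * (B' * c.γ))) x y₁
      (β₁ * (rf w M * (B * c.r j.1.1))) (β₂ * (rf w' M' * (B' * c.r j'.1.1)))) :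
    1 < 2 * ((max (β₁ * rf w M * k₀) (β₂ * rf w' M' * k₀') : ℕ) : ℝ) ^ 10 *
      max ((y₁ : ℝ) * (β₁ * (rf w M * (B * c.r j.1.1))))
        ((x : ℝ) * (β₂ * (rf w' M' * (B' * c.r j'.1.1)))) := by
  obtain ⟨t, m, m', ρ, ρ', h1, h2, h3, h4, h5, h6⟩ := hFS
  have ht : 1 ≤ t := le_trans (one_le_pow₀ (by norm_num)) h1
  have ht0 : 0 < t := lt_of_lt_of_le one_pos ht
  set mx : ℕ := max (β₁ * rf w M * k₀) (β₂ * rf w' M' * k₀') with hmx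
  set Dm := max ((y₁ : ℝ) * (β₁ * (rf w M * (B * c.r j.1.1))))
    ((x : ℝ) * (β₂ * (rf w' M' * (B' * c.r j'.1.1)))) with hDm
  by_contra hcon
  push Not at hcon
  have h7 : ((mx : ℕ) : ℝ) ^ 10 ≤ t := by
    have a1 : ((mx : ℕ) : ℝ) ^ 10 / t ≤ 1 := by
      calc ((mx : ℕ) : ℝ) ^ 10 / t = 2 * ((mx : ℕ) : ℝ) ^ 10 * (1 / (2 * t)) := by
            field_simp
        _ ≤ 2 * ((mx : ℕ) : ℝ) ^ 10 * Dm := mul_le_mul_of_nonneg_left h2.le (by positivity)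
        _ ≤ 1 := hcon
    rwa [div_le_one ht0] at a1
  have h8 : ((mx : ℕ) : ℝ) ≤ t ^ (1/10 : ℝ) := by
    have a2 : (((mx : ℕ) : ℝ) ^ 10) ^ (1/10 : ℝ) ≤ t ^ (1/10 : ℝ) :=
      Real.rpow_le_rpow (by positivity) h7 (by norm_num)
    have a3 : (((mx : ℕ) : ℝ) ^ 10) ^ (1/10 : ℝ) = ((mx : ℕ) : ℝ) := by
      rw [← Real.rpow_natCast, ← Real.rpow_mul (Nat.cast_nonneg _)]
      norm_num
    rwa [a3] at a2
  refine same_of_FX h hl hP hP' hM hM' hB hB' hw hw' hβ₁ hβ₂ hx hy hpr hpr' hq hq' hcirc hxy hk hk' hthin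
    hthin' hac hac' ht (le_trans ?_ h8) (le_trans ?_ h8) ((le_max_left _ _).trans h3)
    ((le_max_right _ _).trans h3) h5 hR
  · exact_mod_cast le_max_left _ _
  · exact_mod_cast le_max_right _ _

/-- **for item pairs of a state** -/
theorem PE_FX_lower (h : c.Ok n) {l : ℕ} (hl : l ≤ n) (X : Finset (ℕ × ℕ × Finset ℕ))
    {M M' b pr c₁ b' pr' c₁' : ℕ} {t t' : IT} {A A' : Finset c.Lam}
    (hM : 0 < M) (hM' : 0 < M') (hb : 0 < b) (hb' : 0 < b') (hF : Fit b pr t)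
    (hF' : Fit b' pr' t') (hW : (c.D.par X).Wts pr t) (hW' : (c.D.par X).Wts pr' t')
    (hc : c₁ ∣ b) (hc' : c₁' ∣ b') {R : Finset (c.Lam × c.Lam)} (hR : R ⊆ Ro (c.D.rho l))
    {e : ℕ × ℕ}
    (he : e ∈ (c.D.par X).PE R ((c.D.par X).uA M b pr t A c₁) ((c.D.par X).uA M' b' pr' t' A' c₁'))
    (hcirc : pr * M * (b / c₁) = pr' * M' * (b' / c₁')) {x y₁ β₁ β₂ : ℕ} (hβ₁ : 0 < β₁) (hβ₂ : 0 < β₂)
    (hx : 0 < x) (hy : 0 < y₁)
    (hxy : (e.1 / pr / M.gcd (e.1 / pr)) * (β₁ * y₁) = (e.2 / pr' / M'.gcd (e.2 / pr')) * (β₂ * x))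
    {k₀ k₀' : ℕ} (hk : b / c₁ = k₀ * Bl c l e.1) (hk' : b' / c₁' = k₀' * Bl c l e.2)
    (hthin : (Bl c l e.1 : ℝ) * c.r e.1 ≤ c.wp.thr l)
    (hthin' : (Bl c l e.2 : ℝ) * c.r e.2 ≤ c.wp.thr l)
    (hac : ¬ Ac c l e.1) (hac' : ¬ Ac c l e.2) {N : ℕ}
    (hFS : FS N (β₁ * (rf (e.1 / pr) M * ((b : ℝ) / c₁ * c.γ)))
      (β₂ * (rf (e.2 / pr') M' * ((b' : ℝ) / c₁' * c.γ)))
      x y₁ (β₁ * (rf (e.1 / pr) M * ((b : ℝ) / c₁ * c.rr e.1)))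
      (β₂ * (rf (e.2 / pr') M' * ((b' : ℝ) / c₁' * c.rr e.2)))) :
    1 < 2 * ((max (β₁ * rf (e.1 / pr) M * k₀) (β₂ * rf (e.2 / pr') M' * k₀') : ℕ) : ℝ) ^ 10 *
      max ((y₁ : ℝ) * (β₁ * (rf (e.1 / pr) M * ((b : ℝ) / c₁ * c.rr e.1))))
        ((x : ℝ) * (β₂ * (rf (e.2 / pr') M' * ((b' : ℝ) / c₁' * c.rr e.2)))) := by
  obtain ⟨j, j', hj, hA, hA', e1, e2, i1, i2, y, i, a, i', a', z, z', hP, hP'⟩ :=
    PE_pts hM hM' hb hb' hF hF' hW hW' hc hc' he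
  have e1' : j.1.1 = e.1 := e1
  have e2' : j'.1.1 = e.2 := e2
  have hpr : pr ∣ e.1 := (hF.item _ i1).2.1
  have hpr' : pr' ∣ e.2 := (hF'.item _ i2).2.1
  have q0 : 0 < e.1 := by rw [← e1']; exact h.pos _ (Cf.mem_S j)
  have q0' : 0 < e.2 := by rw [← e2']; exact h.pos _ (Cf.mem_S j')
  have p0 : 0 < pr := Nat.pos_of_dvd_of_pos hpr q0
  have p0' : 0 < pr' := Nat.pos_of_dvd_of_pos hpr' q0'
  have c0 : 0 < c₁ := Nat.pos_of_dvd_of_pos hc hb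
  have c0' : 0 < c₁' := Nat.pos_of_dvd_of_pos hc' hb'
  have r1 : c.rr e.1 = c.r e.1 := by rw [← e1']; exact Cf.rr_eq j
  have r2 : c.rr e.2 = c.r e.2 := by rw [← e2']; exact Cf.rr_eq j'
  have B1 : ((b : ℝ) / c₁) = ((b / c₁ : ℕ) : ℝ) := (cast_div' hc hb).symm
  have B2 : ((b' : ℝ) / c₁') = ((b' / c₁' : ℕ) : ℝ) := (cast_div' hc' hb').symm
  rw [B1, B2, r1, r2, ← e1', ← e2'] at hFS ⊢
  rw [← e1'] at hk hthin hac
  rw [← e2'] at hk' hthin' hac'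
  rw [← e1', ← e2'] at hxy
  rw [← e1'] at hP
  rw [← e2'] at hP'
  refine FX_lower h hl hP hP' hM hM' (Nat.div_pos (Nat.le_of_dvd hb hc) c0)
    (Nat.div_pos (Nat.le_of_dvd hb' hc') c0')
    (Nat.div_pos (Nat.le_of_dvd (by rw [e1']; exact q0) (by rw [e1']; exact hpr)) p0)
    (Nat.div_pos (Nat.le_of_dvd (by rw [e2']; exact q0') (by rw [e2']; exact hpr')) p0') hβ₁ hβ₂ hx hy
    p0 p0' ?_ ?_ hcirc hxy hk hk' hthin hthin' hac hac' (hR hj) hFS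
  · exact (Nat.mul_div_cancel' (by rw [e1']; exact hpr)).symm
  · exact (Nat.mul_div_cancel' (by rw [e2']; exact hpr')).symm

end Crest.Agent.R4P.LinkX223
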