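import Crest.Agent.R4P.LinkF_35
import Crest.Agent.R4P.ShotTot_33
import Crest.Agent.R4.CrossInv709

/-!
R4P (S0004), helper11, group [X]: **link of the `[F]` pairs of a crossing state with a LOWER state of its cross walk.**

The labels are taken in the letters of the crossing state (total factors `E = β * rf * B` of the two sides);
at any lower state the scale pair of the pair of items is the crossing one, the product of the missing ties above the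
column is `Bl`, `n₁ * E = f * g * Bl`. Nothing is divided by the last missing tie.

* `lab_mk`, `side_x` : the label of `Bl c l q * γ`;
* `exact_x` : an exact pair at the crossing scale is exact at every circle below;
* `same_of_FX` : related in `Ro (rho l)` and overlapping at a lower state is impossible if both labels are valid;
* `link_x` : the disjunction `FLow` of `ShotP_33`.
-/

set_option autoImplicit false
set_option linter.unusedSectionVars false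
set_option linter.unusedVariables false
open MeasureTheory Filter

namespace Crest.Agent.R4P.LinkX11

open Crest.Agent.R4.Tour104 Crest.Agent.R4.Tour758 Crest.Agent.R4.Avg758 Crest.Agent.R4.Clos758
open Crest.Agent.R4.ClosL758 Crest.Agent.R4.ClosG758 Crest.Agent.R4.ClosR758
open Crest.Agent.R4.Fam464 Crest.Agent.R4P.Cnt588 Crest.Agent.R4P.Walk560 Crest.Agent.R4P.Item758
open Crest.Agent.R4.Piece464 Crest.Agent.R4P.W363 Crest.Agent.R4P.AvgItem710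
open Crest.Agent.R4P.Data758
open Crest.Agent.R4.LF363 (Lab lab_unique)
open Crest.Agent.R4.Dich579 (FF)
open Crest.Agent.R4P.Link758
open Crest.Agent.R4.Bad223
open Crest.Agent.R4P.StripP33 Crest.Agent.R4P.BrP33 Crest.Agent.R4P.ShotP33
open Crest.Agent.R4.CrossInv709 (sd sc)
open Crest.Agent.R4.HVW560 (cof)
open Crest.Agent.R4.AvgItem710 (cof_coprime cof_pos mul_cof mul_cof' Da Dp)

/-! ### labels -/

lemma lab_mk {θ r t : ℝ} {ρ : ℚ} (ht : 10 ≤ t) (hr : 0 < r) (hrt : r ≤ 1 / t)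
    (hd : (ρ.den : ℝ) ≤ t ^ (21/200 : ℝ)) (hn : |θ - ρ| ≤ t ^ (39/200 : ℝ) * r) : Lab θ r ρ := by
  have ht0 : 0 < t := by linarith
  have ht1 : 1 ≤ t := by linarith
  have hrt' : r * t ≤ 1 := by rwa [le_div_iff₀ ht0] at hrt
  refine ⟨hr, hrt.trans ?_, ?_, ?_⟩
  · exact one_div_le_one_div_of_le (by norm_num) ht
  · have h1 : (ρ.den : ℝ)^5 ≤ t := by
      calc (ρ.den : ℝ)^5 ≤ (t ^ (21/200 : ℝ))^5 := pow_le_pow_left₀ (Nat.cast_nonneg _) hd 5
        _ = t ^ (105/200 : ℝ) := by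
            rw [← Real.rpow_natCast, ← Real.rpow_mul ht0.le]; norm_num
        _ ≤ t ^ (1:ℝ) := Real.rpow_le_rpow_of_exponent_le ht1 (by norm_num)
        _ = t := Real.rpow_one _
    calc (ρ.den : ℝ)^5 * r ≤ t * r := mul_le_mul_of_nonneg_right h1 hr.le
      _ = r * t := mul_comm _ _
      _ ≤ 1 := hrt'
  · have h1 : (t ^ (39/200 : ℝ))^5 ≤ t := by
      calc (t ^ (39/200 : ℝ))^5 = t ^ (195/200 : ℝ) := by
            rw [← Real.rpow_natCast, ← Real.rpow_mul ht0.le]; norm_num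
        _ ≤ t ^ (1:ℝ) := Real.rpow_le_rpow_of_exponent_le ht1 (by norm_num)
        _ = t := Real.rpow_one _
    calc |θ - ρ|^5 ≤ (t ^ (39/200 : ℝ) * r)^5 := pow_le_pow_left₀ (abs_nonneg _) hn 5
      _ = (t ^ (39/200 : ℝ))^5 * r * r^4 := by ring
      _ ≤ t * r * r^4 := by gcongr
      _ = (r * t) * r^4 := by ring
      _ ≤ 1 * r^4 := by gcongr
      _ = r^4 := one_mul _

lemma den_mul_le (n : ℕ) (ρ : ℚ) : ((n * ρ : ℚ).den : ℝ) ≤ ρ.den := by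
  have h1 : (n * ρ : ℚ).den ∣ ρ.den := by
    have := Rat.mul_den_dvd (n : ℚ) ρ
    rwa [Rat.den_natCast, one_mul] at this
  exact_mod_cast Nat.le_of_dvd ρ.den_pos h1

lemma num_mul_dvd {f : ℤ} (n : ℕ) (ρ : ℚ) (h : f ∣ ρ.num) : f ∣ (n * ρ : ℚ).num := by
  have h1 : (n * ρ : ℚ).den ∣ ρ.den := by
    have := Rat.mul_den_dvd (n : ℚ) ρ
    rwa [Rat.den_natCast, one_mul] at this
  obtain ⟨k, hk⟩ := h1
  have h2 : (n * ρ : ℚ).num * k = n * ρ.num := by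
    have e1 : ((n * ρ : ℚ).num : ℚ) = (n * ρ : ℚ) * ((n * ρ : ℚ).den : ℚ) := (Rat.mul_den_eq_num _).symm
    have e2 : (ρ.num : ℚ) = ρ * (ρ.den : ℚ) := (Rat.mul_den_eq_num _).symm
    have : (((n * ρ : ℚ).num * k : ℤ) : ℚ) = ((n * ρ.num : ℤ) : ℚ) := by
      push_cast
      rw [e1, e2, hk]
      push_cast
      ring
    exact_mod_cast this
  have h3 : f ∣ (n * ρ : ℚ).num * k := by rw [h2]; exact Dvd.dvd.mul_left h _
  have h4 : IsCoprime f (k : ℤ) := by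
    have c1 : IsCoprime ρ.num (ρ.den : ℤ) := by
      rw [Int.isCoprime_iff_gcd_eq_one]
      have := ρ.reduced
      rwa [Int.gcd_def, Int.natAbs_natCast]
    have c2 : IsCoprime ρ.num (k : ℤ) := by
      rw [hk] at c1
      push_cast at c1
      exact c1.of_mul_right_right
    exact c2.of_isCoprime_of_dvd_left h
  exact h4.dvd_of_dvd_mul_right h3

/-- **the label of the level of the column from the label of the crossing** -/
lemma side_x {γ r t : ℝ} (ht : 10 ≤ t) {E Bq n₁ f g : ℕ} {ρ : ℚ} (E0 : 0 < E) (n0 : 0 < n₁)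
    (f0 : 0 < f) (g0 : 0 < g) (B0 : 0 < Bq) (hE : n₁ * E = f * g * Bq)
    (hm : ((if (f : ℤ) ∣ ρ.num then g else f * g : ℕ) : ℝ) ≤ t ^ (1/10 : ℝ))
    (hr : 0 < r) (hyr : (n₁ : ℝ) * (E * r) ≤ 1 / t)
    (hd : (ρ.den : ℝ) ≤ t ^ (21/200 : ℝ)) (hn : |E * γ - ρ| ≤ t ^ (39/200 : ℝ) * (E * r)) :
    ∃ σ : ℚ, Lab (Bq * γ) (Bq * r) σ ∧ σ / Bq = ρ / E := by
  have ht1 : 1 ≤ t := by linarith
  have E0' : (0:ℝ) < E := by exact_mod_cast E0
  have n0' : (0:ℝ) < n₁ := by exact_mod_cast n0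
  have hER : (n₁ : ℝ) * E = f * g * Bq := by exact_mod_cast hE
  have hEQ : (n₁ : ℚ) * E = f * g * Bq := by exact_mod_cast hE
  have E0q : (E : ℚ) ≠ 0 := by exact_mod_cast E0.ne'
  have B0q : (Bq : ℚ) ≠ 0 := by exact_mod_cast B0.ne'
  have f0q : (f : ℚ) ≠ 0 := by exact_mod_cast f0.ne'
  have g0q : (g : ℚ) ≠ 0 := by exact_mod_cast g0.ne'
  have hd1 := (den_mul_le n₁ ρ).trans hd
  have hn1 : |n₁ * (E * γ) - ((n₁ * ρ : ℚ) : ℝ)| ≤ t ^ (39/200 : ℝ) * (n₁ * (E * r)) := by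
    have e : n₁ * (E * γ) - ((n₁ * ρ : ℚ) : ℝ) = n₁ * (E * γ - ρ) := by push_cast; ring
    rw [e, abs_mul, abs_of_pos n0']
    calc (n₁ : ℝ) * |E * γ - ρ| ≤ n₁ * (t ^ (39/200 : ℝ) * (E * r)) :=
          mul_le_mul_of_nonneg_left hn n0'.le
      _ = _ := by ring
  have hr1 : 0 < n₁ * (E * r) := by positivity
  have L1 := lab_mk ht hr1 hyr hd1 hn1
  by_cases hf : (f : ℤ) ∣ ρ.num
  · rw [if_pos hf] at hm
    have hf1 := num_mul_dvd n₁ ρ hf
    have c1 : (n₁ : ℝ) * (E * γ) = f * ((g * Bq : ℕ) * γ) := by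
      push_cast; linear_combination γ * hER
    have c2 : (n₁ : ℝ) * (E * r) = f * ((g * Bq : ℕ) * r) := by
      push_cast; linear_combination r * hER
    rw [c1, c2] at L1 hn1
    rw [c2] at hyr hr1
    obtain ⟨l1, l2, l3⟩ := Crest.Agent.R4.LinkG223.lab_good (t := t) f0 hf1 L1 hd1 hn1
    have c3 : ∀ z : ℝ, ((g * Bq : ℕ) : ℝ) * z = g * (Bq * z) := fun z => by push_cast; ring
    have hgr : (g : ℝ) * (Bq * r) ≤ 1 / t := by
      rw [← c3]
      refine le_trans ?_ hyr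
      have : 0 < ((g * Bq : ℕ) : ℝ) * r := by positivity
      exact le_mul_of_one_le_left this.le (by exact_mod_cast f0)
    rw [c3, c3] at l1 l3
    refine ⟨_, lab_div g0 ht1 hm l1 l2 l3 hgr, ?_⟩
    push_cast
    rw [div_div, div_div, div_eq_div_iff (by positivity) E0q]
    linear_combination ρ * hEQ
  · rw [if_neg hf] at hm
    have c3 : ∀ z : ℝ, (n₁ : ℝ) * (E * z) = ((f * g : ℕ) : ℝ) * (Bq * z) := fun z => by
      push_cast; linear_combination z * hER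
    rw [c3, c3] at L1 hn1
    rw [c3] at hyr
    refine ⟨_, lab_div (Nat.mul_pos f0 g0) ht1 hm L1 hd1 hn1 hyr, ?_⟩
    push_cast
    rw [div_div, div_eq_div_iff (by positivity) E0q]
    linear_combination ρ * hEQ

/-! ### exactness -/

/-- **an exact pair of the crossing scale is exact at every circle with the same scale pair** -/
lemma exact_x {θ θ' t r r' : ℝ} {x₀ y₀ : ℕ} {ρ ρ' : ℚ} (hFF : FF θ θ' t r r' x₀ y₀ ρ ρ')
    (hco : Nat.Coprime x₀ y₀) {N : ℤ} (h : |N + θ * y₀ - θ' * x₀| ≤ 2 / t) :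
    (N : ℝ) + ρ * y₀ - ρ' * x₀ = 0 := by
  have hc : IsCoprime (y₀ : ℤ) (x₀ : ℤ) := by
    rw [Nat.isCoprime_iff_coprime]; exact hco.symm
  obtain ⟨u, v, huv⟩ := hc
  have e1 : (N * u : ℤ) * (y₀ : ℤ) - (-(N * v) : ℤ) * (x₀ : ℤ) = N := by
    linear_combination N * huv
  have e2 : ((N * u : ℤ) : ℝ) * (y₀ : ℝ) - ((-(N * v) : ℤ) : ℝ) * (x₀ : ℝ) = N := by exact_mod_cast e1
  have key := hFF.exact (N * u) (-(N * v)) (by
    have : (((N * u : ℤ) : ℝ) + θ) * y₀ - (((-(N * v) : ℤ) : ℝ) + θ') * x₀ = N + θ * y₀ - θ' * x₀ := by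
      linear_combination e2
    rw [this]; exact h)
  linear_combination key - e2

variable {c : Cf} {n : ℕ}

/-- **pieces of a lower state which are related at the level `l` cannot have the crossing labels** -/
theorem same_of_FX (h : c.Ok n) {l : ℕ} (hl : l ≤ n) {j j' : c.Lam} {B w M B' w' M' : ℕ}
    {κ κ' : ℤ → ℝ} {y z z' : ℝ} {i a i' a' : ℤ}
    (hP : Pt c.γ (c.D.al j) (c.D.be j) B w M κ y i a z)
    (hP' : Pt c.γ (c.D.al j') (c.D.be j') B' w' M' κ' y i' a' z')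
    (hM : 0 < M) (hM' : 0 < M') (hB : 0 < B) (hB' : 0 < B') (hw : 0 < w) (hw' : 0 < w')
    {x y₁ pr pr' : ℕ} (hx : 0 < x) (hy : 0 < y₁) (hpr : 0 < pr) (hpr' : 0 < pr')
    (hq : j.1.1 = pr * w) (hq' : j'.1.1 = pr' * w') (hcirc : pr * M * B = pr' * M' * B')
    (hxy : (w / M.gcd w) * y₁ = (w' / M'.gcd w') * x)
    {E E' x₀ y₀ : ℕ} (hE0 : 0 < E) (hE0' : 0 < E') (hco : Nat.Coprime x₀ y₀)
    (hyE : y₁ * (rf w M * B) = y₀ * E) (hxE : x * (rf w' M' * B') = x₀ * E')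
    {t : ℝ} {ρ ρ' : ℚ} (hyr : (y₀ : ℝ) * (E * c.r j.1.1) ≤ 1 / t)
    (hxr : (x₀ : ℝ) * (E' * c.r j'.1.1) ≤ 1 / t)
    (hFF : FF (E * c.γ) (E' * c.γ) t (E * c.r j.1.1) (E' * c.r j'.1.1) x₀ y₀ ρ ρ')
    (hs : c.st l j.1.1 = some (ρ / E)) (hs' : c.st l j'.1.1 = some (ρ' / E')) :
    (j, j') ∉ Ro (c.D.rho l) := by
  intro hR
  rw [h.Ro_iff hl j j' hP.z1 hP.z2 hP'.z1 hP'.z2, hs, hs'] at hR
  apply hR
  apply WP.ix_same_some
  refine off_eq_of_exact hP hP' hM hM' hB hw hw' hx hy hpr hpr' hq hq' hcirc hxy ?_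
  have hyE' : (y₁ : ℝ) * (rf w M * B) = y₀ * E := by exact_mod_cast hyE
  have hxE' : (x : ℝ) * (rf w' M' * B') = x₀ * E' := by exact_mod_cast hxE
  have hz : |z| ≤ c.r j.1.1 := by
    rw [abs_le]
    exact ⟨(h.bp_ge j _).trans hP.z1, (hP.z2.le).trans (h.bp_le j (Cf.k_lt j))⟩
  have hz' : |z'| ≤ c.r j'.1.1 := by
    rw [abs_le]
    exact ⟨(h.bp_ge j' _).trans hP'.z1, (hP'.z2.le).trans (h.bp_le j' (Cf.k_lt j'))⟩
  have hrel := rel_pts hP hP' hM hM' hw hw' hxy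
  have u1 : (y₁ : ℝ) * (rf w M * (B * |z|)) ≤ 1 / t := by
    calc (y₁ : ℝ) * (rf w M * (B * |z|)) = (y₁ * (rf w M * B)) * |z| := by ring
      _ = (y₀ * E) * |z| := by rw [hyE']
      _ ≤ (y₀ * E) * c.r j.1.1 := by gcongr
      _ = (y₀ : ℝ) * (E * c.r j.1.1) := by ring
      _ ≤ _ := hyr
  have u2 : (x : ℝ) * (rf w' M' * (B' * |z'|)) ≤ 1 / t := by
    calc (x : ℝ) * (rf w' M' * (B' * |z'|)) = (x * (rf w' M' * B')) * |z'| := by ring
      _ = (x₀ * E') * |z'| := by rw [hxE']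
      _ ≤ (x₀ * E') * c.r j'.1.1 := by gcongr
      _ = (x₀ : ℝ) * (E' * c.r j'.1.1) := by ring
      _ ≤ _ := hxr
  have key := exact_x hFF hco (N := num w M i a * y₁ - num w' M' i' a' * x) (by
    have e : ((num w M i a * y₁ - num w' M' i' a' * x : ℤ) : ℝ) + E * c.γ * y₀ - E' * c.γ * x₀ =
        (num w M i a + rf w M * (B * c.γ)) * y₁ - (num w' M' i' a' + rf w' M' * (B' * c.γ)) * x := by
      push_cast
      linear_combination (-c.γ) * hyE' + c.γ * hxE'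
    rw [e]
    calc _ ≤ 1 / t + 1 / t := hrel.trans (add_le_add u1 u2)
      _ = 2 / t := by ring)
  have E0 : (E : ℝ) ≠ 0 := by exact_mod_cast hE0.ne'
  have E0' : (E' : ℝ) ≠ 0 := by exact_mod_cast hE0'.ne'
  push_cast at key ⊢
  have a1 : (rf w M * (B * ((ρ : ℝ) / E))) * y₁ = ρ * y₀ := by
    have : (rf w M * (B * ((ρ : ℝ) / E))) * y₁ = (y₁ * (rf w M * B)) * (ρ / E) := by ring
    rw [this, hyE']; field_simp
  have a2 : (rf w' M' * (B' * ((ρ' : ℝ) / E'))) * x = ρ' * x₀ := by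
    have : (rf w' M' * (B' * ((ρ' : ℝ) / E'))) * x = (x * (rf w' M' * B')) * (ρ' / E') := by ring
    rw [this, hxE']; field_simp
  linear_combination key + a1 - a2

/-! ### arithmetic of one side -/

lemma side_ar {s P e r₀ k₀ y₀ y₁ rf₁ k n b Bq B₁ E : ℕ} (hs : s.Prime) (hP : P = s ^ e)
    (hE : E = P * r₀ * b) (b0 : 0 < b) (k0 : 0 < k₀) (n0 : 0 < n) (y0 : 0 < y₀) (hB : k₀ * Bq = b * n)
    (hB₁ : B₁ = k * Bq) (hyE : y₁ * (rf₁ * B₁) = y₀ * E) (hn : ∀ p : ℕ, p.Prime → p ∣ n → ¬ p ∣ k₀)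
    (hnr : ∀ p : ℕ, p.Prime → p ∣ n → ¬ p ∣ r₀) (hsy : ¬ s ∣ y₀) :
    ∃ n₁ f : ℕ, 0 < n₁ ∧ 0 < f ∧ n₁ ≤ y₀ ∧ f ∣ P ∧ n₁ * E = f * (r₀ * k₀) * Bq := by
  have c1 : Nat.Coprime n k₀ := Nat.Coprime.symm <| Nat.coprime_of_dvd fun p hp h1 h2 => hn p hp h2 h1
  have c2 : Nat.Coprime n r₀ := Nat.Coprime.symm <| Nat.coprime_of_dvd fun p hp h1 h2 => hnr p hp h2 h1
  have e1 : b * (k₀ * (r₀ * (y₀ * P))) = b * ((y₁ * rf₁ * k) * n) := by
    calc b * (k₀ * (r₀ * (y₀ * P))) = k₀ * (y₀ * (P * r₀ * b)) := by ring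
      _ = k₀ * (y₁ * (rf₁ * (k * Bq))) := by rw [← hE, ← hyE, hB₁]
      _ = (y₁ * rf₁ * k) * (k₀ * Bq) := by ring
      _ = (y₁ * rf₁ * k) * (b * n) := by rw [hB]
      _ = _ := by ring
  have e2 := Nat.eq_of_mul_eq_mul_left b0 e1
  have d1 : n ∣ k₀ * (r₀ * (y₀ * P)) := by rw [e2]; exact Dvd.intro_left _ rfl
  have d2 : n ∣ y₀ * P := c2.dvd_of_dvd_mul_left (c1.dvd_of_dvd_mul_left d1)
  set i := n.factorization s with hi
  set n' := st s n with hn'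
  have en : s ^ i * n' = n := st_mul s n
  have n'0 : 0 < n' := st_pos n0
  have hsn' : ¬ s ∣ n' := st_ndvd hs n0
  have cs : Nat.Coprime s n' := (Nat.Prime.coprime_iff_not_dvd hs).2 hsn'
  have cy : Nat.Coprime s y₀ := (Nat.Prime.coprime_iff_not_dvd hs).2 hsy
  have d3 : n' ∣ y₀ := by
    have : n' ∣ y₀ * P := (Dvd.intro_left _ en).trans d2
    have c3 : Nat.Coprime n' P := by rw [hP]; exact (Nat.Coprime.pow_left e cs).symm
    exact c3.dvd_of_dvd_mul_right this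
  have d4 : s ^ i ∣ P := by
    have : s ^ i ∣ y₀ * P := (Dvd.intro _ en).trans d2
    exact (Nat.Coprime.pow_left i cy).dvd_of_dvd_mul_left this
  obtain ⟨f, hf⟩ := d4
  have P0 : 0 < P := by rw [hP]; exact pow_pos hs.pos _
  have f0 : 0 < f := Nat.pos_of_ne_zero fun h => by rw [h, mul_zero] at hf; omega
  refine ⟨n', f, n'0, f0, Nat.le_of_dvd y0 d3, ⟨s ^ i, by rw [hf]; ring⟩, ?_⟩
  calc n' * E = n' * ((s ^ i * f) * r₀ * b) := by rw [hE, hf]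
    _ = f * r₀ * (b * (s ^ i * n')) := by ring
    _ = f * r₀ * (k₀ * Bq) := by rw [en, ← hB]
    _ = _ := by ring

/-! ### the predicate of the pairs -/

/-- labels of items which are small at the level `l` are used there -/
def XR (c : Cf) (T : ℝ) (l q : ℕ) : Prop :=
  ∀ σ : ℚ, Lab (Bl c l q * c.γ) (Bl c l q * c.r q) σ → (Bl c l q : ℝ) * c.r q ≤ T →
    c.st l q = some (σ / Bl c l q)

/-- **an item pair which has pieces related in `Ro (rho l)` and overlapping at some state with the scale pair of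
`(M, b, pr), (M', b', pr')`** (the crossing state; for an exit at `l` read `b * l`, `b' * l`) -/
def LkP (c : Cf) (X : Finset (ℕ × ℕ × Finset ℕ)) (M b pr M' b' pr' l : ℕ) (e : ℕ × ℕ) : Prop :=
  ∃ (M₁ M₁' b₁ pr₁ c₁ b₁' pr₁' c₁' : ℕ) (t t' : IT) (A A' : Finset c.Lam),
    0 < M₁ ∧ 0 < M₁' ∧ 0 < b₁ ∧ 0 < b₁' ∧ Fit b₁ pr₁ t ∧ Fit b₁' pr₁' t' ∧ (c.D.par X).Wts pr₁ t ∧
    (c.D.par X).Wts pr₁' t' ∧ c₁ ∣ b₁ ∧ c₁' ∣ b₁' ∧
    e ∈ (c.D.par X).PE (Ro (c.D.rho l)) ((c.D.par X).uA M₁ b₁ pr₁ t A c₁)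
      ((c.D.par X).uA M₁' b₁' pr₁' t' A' c₁') ∧
    pr₁ * M₁ * (b₁ / c₁) = pr₁' * M₁' * (b₁' / c₁') ∧
    sc (sd (e.1 / pr₁) M₁ ((b₁:ℝ) / c₁)) (sd (e.2 / pr₁') M₁' ((b₁':ℝ) / c₁')) =
      sc (sd (e.1 / pr) M (b:ℝ)) (sd (e.2 / pr') M' (b':ℝ)) ∧
    (∃ k : ℕ, b₁ / c₁ = k * Bl c l e.1) ∧ (∃ k : ℕ, b₁' / c₁' = k * Bl c l e.2)

open Crest.Agent.R4.StopAsm709 (FS)
open Crest.Agent.R4.NMW710 (Dq)

/-- `BadS` from one side -/
lemma bad_x {s E b y₀ : ℕ} {γ r D t : ℝ} {ρ : ℚ} (ht : 1 ≤ t) (hE : E = s * b) (y0 : 0 < y₀)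
    (hr : 0 < (E : ℝ) * r) (hnd : ¬ (s : ℤ) ∣ ρ.num)
    (hd : (ρ.den : ℝ) ≤ t ^ (21/200 : ℝ)) (hn : |(E : ℝ) * γ - ρ| ≤ t ^ (39/200 : ℝ) * (E * r))
    (hD : (y₀ : ℝ) * (E * r) ≤ D) (hDt : D ≤ 1 / t) : BadS s (b * γ) t := by
  have hy1 : (1 : ℝ) ≤ y₀ := by exact_mod_cast y0
  have e1 : (E : ℝ) * γ = s * (b * γ) := by rw [hE]; push_cast; ring
  rw [e1] at hn
  exact BadS.of_label ht hnd hd hn (((le_mul_of_one_le_left hr.le hy1).trans hD).trans hDt)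

set_option maxHeartbeats 1000000 in
/-- **THE LINK.** An item pair of class `[F]` at the crossing prime `s` (letters of the crossing state), with pieces
which are related at a level `l` and overlap at a lower state: its scale is not small, or `s` is accidental for the
target. `k₀ * Bl c l q = b * n`: `k₀ = 1` at the columns and ends below the crossing, `k₀ = l` for exits (there
`b := b * l`), `k₀ = s` for the relation `Ro (rho s)` if the side has missed `s`. -/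
theorem link_x {N₀ : ℕ} (h : c.Ok N₀) {l : ℕ} (hl : l ≤ N₀) {X : Finset (ℕ × ℕ × Finset ℕ)}
    {M b pr M' b' pr' : ℕ} {e : ℕ × ℕ} (hLk : LkP c X M b pr M' b' pr' l e)
    (hM : 0 < M) (hM' : 0 < M') (hb : 0 < b) (hb' : 0 < b') (hpr : pr ∣ e.1) (hpr' : pr' ∣ e.2)
    {s : ℕ} (hs : s.Prime) (hMs : ∀ p : ℕ, p.Prime → p ∣ M → p ≠ s → s ≤ p)
    (hMs' : ∀ p : ℕ, p.Prime → p ∣ M' → p ≠ s → s ≤ p)
    {k₀ k₀' n n' a₀ : ℕ} (hk : k₀ * Bl c l e.1 = b * n) (hk' : k₀' * Bl c l e.2 = b' * n')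
    (k0 : 0 < k₀) (k0' : 0 < k₀') (hka : k₀ ≤ a₀) (hka' : k₀' ≤ a₀)
    (hn : ∀ p : ℕ, p.Prime → p ∣ n → p ≤ s ∧ ¬ p ∣ k₀)
    (hn' : ∀ p : ℕ, p.Prime → p ∣ n' → p ≤ s ∧ ¬ p ∣ k₀')
    {N : ℕ} (hN : 400 ≤ N) {T : ℝ} (hT : 1 / (2:ℝ) ^ N ≤ T) (hX : XR c T l e.1) (hX' : XR c T l e.2)
    (hne : (e.1 / pr).factorization s + M'.factorization s ≠
      (e.2 / pr').factorization s + M.factorization s)
    (hFS : FSs s c.γ c.rr N M b pr 1 M' b' pr' 1 ((e.1 / pr).factorization s)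
      ((e.2 / pr').factorization s) e) :
    FLow s (dex ((e.1 / pr).factorization s) (M.factorization s) ((e.2 / pr').factorization s)
        (M'.factorization s)) a₀ (rf (itm s pr e.1) (st s M)) (rf (itm s pr' e.2) (st s M'))
      (if (e.1 / pr).factorization s + M'.factorization s <
          (e.2 / pr').factorization s + M.factorization s then b * c.γ else b' * c.γ)
      (Dq c.rr M b pr 1 M' b' pr' 1 e) := by
  obtain ⟨M₁, M₁', b₁, pr₁, c₁, b₁', pr₁', c₁', t₁, t₁', A, A', hM₁, hM₁', hb₁, hb₁', hF, hF', hW, hW', hc, hc',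
    he, hcirc, hsc, ⟨k, hkB⟩, ⟨k', hkB'⟩⟩ := hLk
  obtain ⟨j, j', hj, hA, hA', e1, e2, i1, i2, y, i, a, i', a', z, z', hP, hP'⟩ :=
    PE_pts hM₁ hM₁' hb₁ hb₁' hF hF' hW hW' hc hc' he
  have hpr₁ : pr₁ ∣ e.1 := (hF.item _ i1).2.1
  have hpr₁' : pr₁' ∣ e.2 := (hF'.item _ i2).2.1
  have ee : e = (j.1.1, j'.1.1) := Prod.ext e1.symm e2.symm
  clear e1 e2
  subst ee
  have q0 : 0 < j.1.1 := h.pos _ (Cf.mem_S j)
  have q0' : 0 < j'.1.1 := h.pos _ (Cf.mem_S j')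
  have r1 : c.rr j.1.1 = c.r j.1.1 := Cf.rr_eq j
  have r2 : c.rr j'.1.1 = c.r j'.1.1 := Cf.rr_eq j'
  dsimp only at *
  have w0 : 0 < j.1.1 / pr := Nat.div_pos (Nat.le_of_dvd q0 hpr) (Nat.pos_of_dvd_of_pos hpr q0)
  have w0' : 0 < j'.1.1 / pr' := Nat.div_pos (Nat.le_of_dvd q0' hpr') (Nat.pos_of_dvd_of_pos hpr' q0')
  have w1 : 0 < j.1.1 / pr₁ := Nat.div_pos (Nat.le_of_dvd q0 hpr₁) (Nat.pos_of_dvd_of_pos hpr₁ q0)
  have w1' : 0 < j'.1.1 / pr₁' := Nat.div_pos (Nat.le_of_dvd q0' hpr₁') (Nat.pos_of_dvd_of_pos hpr₁' q0')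
  have cc0 : 0 < c₁ := Nat.pos_of_dvd_of_pos hc hb₁
  have cc0' : 0 < c₁' := Nat.pos_of_dvd_of_pos hc' hb₁'
  have B0 : 0 < b₁ / c₁ := Nat.div_pos (Nat.le_of_dvd hb₁ hc) cc0
  have B0' : 0 < b₁' / c₁' := Nat.div_pos (Nat.le_of_dvd hb₁' hc') cc0'
  have Bl0 : 0 < Bl c l j.1.1 := Nat.pos_of_ne_zero fun h0 => by rw [hkB, h0, mul_zero] at B0; omega
  have Bl0' : 0 < Bl c l j'.1.1 := Nat.pos_of_ne_zero fun h0 => by rw [hkB', h0, mul_zero] at B0'; omega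
  have n0 : 0 < n := Nat.pos_of_ne_zero fun h0 => by
    rw [h0, mul_zero] at hk
    have := Nat.mul_pos k0 Bl0; omega
  have n0' : 0 < n' := Nat.pos_of_ne_zero fun h0 => by
    rw [h0, mul_zero] at hk'
    have := Nat.mul_pos k0' Bl0'; omega
  have B1 : ((b₁ : ℝ) / c₁) = ((b₁ / c₁ : ℕ) : ℝ) := (cast_div' hc hb₁).symm
  have B2 : ((b₁' : ℝ) / c₁') = ((b₁' / c₁' : ℕ) : ℝ) := (cast_div' hc' hb₁').symm
  -- the letters of the crossing
  set av := (j.1.1 / pr).factorization s with hav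
  set av' := (j'.1.1 / pr').factorization s with hav'
  set m := M.factorization s with hm
  set m' := M'.factorization s with hm'
  set r₀ := rf (itm s pr j.1.1) (st s M) with hr₀
  set r₀' := rf (itm s pr' j'.1.1) (st s M') with hr₀'
  set P := PL s av m av' m' with hPd
  set P' := PL s av' m' av m with hPd'
  set x₀ := cof (ui s M pr j.1.1) (ui s M' pr' j'.1.1) with hx₀
  set y₀ := cof (ui s M' pr' j'.1.1) (ui s M pr j.1.1) with hy₀
  have hst := st_pos (s := s) hM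
  have hst' := st_pos (s := s) hM'
  have it0 : 0 < itm s pr j.1.1 := st_pos w0
  have it0' : 0 < itm s pr' j'.1.1 := st_pos w0'
  have ui0 : 0 < ui s M pr j.1.1 := div_pos' it0 hst
  have ui0' : 0 < ui s M' pr' j'.1.1 := div_pos' it0' hst'
  have x00 : 0 < x₀ := cof_pos ui0
  have y00 : 0 < y₀ := cof_pos ui0'
  have hco : Nat.Coprime x₀ y₀ := cof_coprime ui0
  have r00 : 0 < r₀ := rf_pos hst
  have r00' : 0 < r₀' := rf_pos hst'
  have P0 : 0 < P := PL_pos hs.pos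
  have P0' : 0 < P' := PL_pos hs.pos
  have hPP : P * P' = s ^ dex av m av' m' := PL_mul s av m av' m'
  have hex : 1 ≤ dex av m av' m' := dex_pos hne
  set E := P * r₀ * b with hE
  set E' := P' * r₀' * b' with hE'
  have E0 : 0 < E := Nat.mul_pos (Nat.mul_pos P0 r00) hb
  have E0' : 0 < E' := Nat.mul_pos (Nat.mul_pos P0' r00') hb'
  have bLr : bL s av m av' m' * rf (j.1.1 / pr) M = P * r₀ := bL_rf hs w0 hM av' m'
  have bLr' : bL s av' m' av m * rf (j'.1.1 / pr') M' = P' * r₀' := bL_rf hs w0' hM' av m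
  have cfy : cof (j'.1.1 / pr' / M'.gcd (j'.1.1 / pr')) (j.1.1 / pr / M.gcd (j.1.1 / pr)) = bL s av m av' m' * y₀ :=
    cof_st hs w0' hM' w0 hM
  have cfx : cof (j.1.1 / pr / M.gcd (j.1.1 / pr)) (j'.1.1 / pr' / M'.gcd (j'.1.1 / pr')) = bL s av' m' av m * x₀ :=
    cof_st hs w0 hM w0' hM'
  have yE : cof (j'.1.1 / pr' / M'.gcd (j'.1.1 / pr')) (j.1.1 / pr / M.gcd (j.1.1 / pr)) * (rf (j.1.1 / pr) M * b) =
      y₀ * E := by
    rw [cfy, hE, ← bLr]; ring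
  have xE : cof (j.1.1 / pr / M.gcd (j.1.1 / pr)) (j'.1.1 / pr' / M'.gcd (j'.1.1 / pr')) * (rf (j'.1.1 / pr') M' * b') =
      x₀ * E' := by
    rw [cfx, hE', ← bLr']; ring
  have sy : ¬ s ∣ y₀ := fun hd => by
    have h1 : y₀ ∣ ui s M' pr' j'.1.1 := Nat.div_dvd_of_dvd (Nat.gcd_dvd_left _ _)
    have h2 : ui s M' pr' j'.1.1 ∣ itm s pr' j'.1.1 := Nat.div_dvd_of_dvd (Nat.gcd_dvd_right _ _)
    exact st_ndvd hs w0' ((hd.trans h1).trans h2)
  have sx : ¬ s ∣ x₀ := fun hd => by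
    have h1 : x₀ ∣ ui s M pr j.1.1 := Nat.div_dvd_of_dvd (Nat.gcd_dvd_left _ _)
    have h2 : ui s M pr j.1.1 ∣ itm s pr j.1.1 := Nat.div_dvd_of_dvd (Nat.gcd_dvd_right _ _)
    exact st_ndvd hs w0 ((hd.trans h1).trans h2)
  have rdv : ∀ p : ℕ, p.Prime → p ∣ r₀ → s < p := fun p hp hd => by
    have h1 : p ∣ st s M := hd.trans (Nat.div_dvd_of_dvd (Nat.gcd_dvd_left _ _))
    have h2 : p ≠ s := by rintro rfl; exact st_ndvd hs hM h1
    exact lt_of_le_of_ne (hMs p hp (h1.trans (st_dvd s M)) h2) h2.symm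
  have rdv' : ∀ p : ℕ, p.Prime → p ∣ r₀' → s < p := fun p hp hd => by
    have h1 : p ∣ st s M' := hd.trans (Nat.div_dvd_of_dvd (Nat.gcd_dvd_left _ _))
    have h2 : p ≠ s := by rintro rfl; exact st_ndvd hs hM' h1
    exact lt_of_le_of_ne (hMs' p hp (h1.trans (st_dvd s M')) h2) h2.symm
  -- the lower cofactors
  set x₁ := cof (j.1.1 / pr₁ / M₁.gcd (j.1.1 / pr₁)) (j'.1.1 / pr₁' / M₁'.gcd (j'.1.1 / pr₁')) with hx₁
  set y₁ := cof (j'.1.1 / pr₁' / M₁'.gcd (j'.1.1 / pr₁')) (j.1.1 / pr₁ / M₁.gcd (j.1.1 / pr₁)) with hy₁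
  have u1 : 0 < j.1.1 / pr₁ / M₁.gcd (j.1.1 / pr₁) := div_pos' w1 hM₁
  have u1' : 0 < j'.1.1 / pr₁' / M₁'.gcd (j'.1.1 / pr₁') := div_pos' w1' hM₁'
  have x10 : 0 < x₁ := cof_pos u1
  have y10 : 0 < y₁ := cof_pos u1'
  have hxy : (j.1.1 / pr₁ / M₁.gcd (j.1.1 / pr₁)) * y₁ = (j'.1.1 / pr₁' / M₁'.gcd (j'.1.1 / pr₁')) * x₁ := by
    rw [hx₁, hy₁]
    have h1 := mul_cof (w := j.1.1 / pr₁ / M₁.gcd (j.1.1 / pr₁)) (w' := j'.1.1 / pr₁' / M₁'.gcd (j'.1.1 / pr₁'))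
    have h2 := mul_cof' (w := j.1.1 / pr₁ / M₁.gcd (j.1.1 / pr₁)) (w' := j'.1.1 / pr₁' / M₁'.gcd (j'.1.1 / pr₁'))
    set u := j.1.1 / pr₁ / M₁.gcd (j.1.1 / pr₁)
    set u' := j'.1.1 / pr₁' / M₁'.gcd (j'.1.1 / pr₁')
    calc u * cof u' u = (u.gcd u' * cof u u') * cof u' u := by rw [h1]
      _ = (u.gcd u' * cof u' u) * cof u u' := by ring
      _ = u' * cof u u' := by rw [h2]
  have hyE : y₁ * (rf (j.1.1 / pr₁) M₁ * (b₁ / c₁)) = y₀ * E := by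
    rw [← yE]
    have h1 := congrArg Prod.fst hsc
    simp only [sc, sd] at h1
    rw [B1] at h1
    exact_mod_cast h1
  have hxE : x₁ * (rf (j'.1.1 / pr₁') M₁' * (b₁' / c₁')) = x₀ * E' := by
    rw [← xE]
    have h1 := congrArg Prod.snd hsc
    simp only [sc, sd] at h1
    rw [B2] at h1
    exact_mod_cast h1
  obtain ⟨n₁, f, n10, f0, n1y, fP, hnE⟩ := side_ar (y₁ := y₁) hs hPd hE hb k0 n0 y00 hk hkB hyE
    (fun p hp hd => (hn p hp hd).2) (fun p hp hd hr => absurd (hn p hp hd).1 (not_le.2 (rdv p hp hr))) sy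
  obtain ⟨n₁', f', n10', f0', n1y', fP', hnE'⟩ := side_ar (y₁ := x₁) hs hPd' hE' hb' k0' n0' x00 hk' hkB' hxE
    (fun p hp hd => (hn' p hp hd).2) (fun p hp hd hr => absurd (hn' p hp hd).1 (not_le.2 (rdv' p hp hr))) sx
  -- the class
  obtain ⟨t, mm, mm', ρ, ρ', h1, h2, h3, h4, hFF, h6⟩ := hFS
  have cE : ∀ v : ℝ, (bL s av m av' m' : ℝ) * (rf (j.1.1 / pr) M * (((b : ℕ) : ℝ) / (1 : ℕ) * v)) = E * v := by
    intro v
    have : ((bL s av m av' m' : ℕ) : ℝ) * (rf (j.1.1 / pr) M : ℕ) = P * r₀ := by exact_mod_cast bLr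
    rw [hE, Nat.cast_one, div_one]
    push_cast
    linear_combination ((b : ℝ) * v) * this
  have cE' : ∀ v : ℝ, (bL s av' m' av m : ℝ) * (rf (j'.1.1 / pr') M' * (((b' : ℕ) : ℝ) / (1 : ℕ) * v)) = E' * v := by
    intro v
    have : ((bL s av' m' av m : ℕ) : ℝ) * (rf (j'.1.1 / pr') M' : ℕ) = P' * r₀' := by exact_mod_cast bLr'
    rw [hE', Nat.cast_one, div_one]
    push_cast
    linear_combination ((b' : ℝ) * v) * this
  rw [cE, cE, cE', cE'] at hFF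
  rw [cE, cE'] at h2 h3
  rw [r1, r2] at hFF h2 h3
  set D := Dq c.rr M b pr 1 M' b' pr' 1 (j.1.1, j'.1.1) with hD
  have hDe : D = max ((y₀ : ℝ) * (E * c.r j.1.1)) ((x₀ : ℝ) * (E' * c.r j'.1.1)) := by
    have h5 : D = Da (j.1.1 / pr) M (j'.1.1 / pr') M' ((b : ℝ) / (1:ℕ) * c.rr j.1.1) ((b' : ℝ) / (1:ℕ) * c.rr j'.1.1) := rfl
    rw [h5, Da_bt hs w0 hM w0' hM']
    rw [r1, r2]
    congr 1
    · rw [← cE]; rfl
    · rw [← cE']; rfl
  rw [← hDe] at h2 h3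
  have tN : (2:ℝ)^400 ≤ t := le_trans (pow_le_pow_right₀ (by norm_num) hN) h1
  have t10 : (10:ℝ) ≤ t := le_trans (le_trans (by norm_num : (10:ℝ) ≤ 2 ^ 4)
    (pow_le_pow_right₀ (by norm_num) (by norm_num))) tN
  have t1 : 1 ≤ t := le_trans (by norm_num) t10
  have t0 : 0 < t := lt_of_lt_of_le one_pos t1
  have rpos : 0 < (E : ℝ) * c.r j.1.1 := hFF.lab.pos
  have rpos' : 0 < (E' : ℝ) * c.r j'.1.1 := hFF.lab'.pos
  have hE0 : (0:ℝ) < E := by exact_mod_cast E0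
  have hE0' : (0:ℝ) < E' := by exact_mod_cast E0'
  have rr0 : 0 < c.r j.1.1 := pos_of_mul_pos_right rpos hE0.le
  have rr0' : 0 < c.r j'.1.1 := pos_of_mul_pos_right rpos' hE0'.le
  have hyr : (y₀ : ℝ) * (E * c.r j.1.1) ≤ 1 / t := by
    refine le_trans ?_ h3; rw [hDe]; exact le_max_left _ _
  have hxr : (x₀ : ℝ) * (E' * c.r j'.1.1) ≤ 1 / t := by
    refine le_trans ?_ h3; rw [hDe]; exact le_max_right _ _
  have D0 : 0 < D := lt_trans (by positivity) h2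
  -- the main alternative
  set mx : ℕ := max (if (P : ℤ) ∣ ρ.num then r₀ * k₀ else P * r₀ * k₀)
    (if (P' : ℤ) ∣ ρ'.num then r₀' * k₀' else P' * r₀' * k₀') with hmx
  have main : 1 < 2 * (mx : ℝ) ^ 10 * D := by
    by_contra hcon
    push Not at hcon
    have h7 : (mx : ℝ) ^ 10 ≤ t := by
      have a1 : (mx : ℝ) ^ 10 / t ≤ 1 := by
        calc (mx : ℝ) ^ 10 / t = 2 * (mx : ℝ) ^ 10 * (1 / (2 * t)) := by field_simp
          _ ≤ 2 * (mx : ℝ) ^ 10 * D := mul_le_mul_of_nonneg_left h2.le (by positivity)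
          _ ≤ 1 := hcon
      rwa [div_le_one t0] at a1
    have h8 : (mx : ℝ) ≤ t ^ (1/10 : ℝ) := by
      have a2 : ((mx : ℝ) ^ 10) ^ (1/10 : ℝ) ≤ t ^ (1/10 : ℝ) :=
        Real.rpow_le_rpow (by positivity) h7 (by norm_num)
      have a3 : ((mx : ℝ) ^ 10) ^ (1/10 : ℝ) = (mx : ℝ) := by
        rw [← Real.rpow_natCast, ← Real.rpow_mul (Nat.cast_nonneg _)]
        norm_num
      rwa [a3] at a2
    have fit : ∀ {P₁ f₁ g₁ : ℕ} {τ : ℚ}, f₁ ∣ P₁ → 0 < P₁ →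
        (if (f₁ : ℤ) ∣ τ.num then g₁ else f₁ * g₁) ≤ (if (P₁ : ℤ) ∣ τ.num then g₁ else P₁ * g₁) := by
      intro P₁ f₁ g₁ τ hd hP₁
      by_cases h9 : (P₁ : ℤ) ∣ τ.num
      · have : (f₁ : ℤ) ∣ τ.num := (Int.natCast_dvd_natCast.2 hd).trans h9
        rw [if_pos this, if_pos h9]
      · rw [if_neg h9]
        split_ifs
        · exact Nat.le_mul_of_pos_left _ hP₁
        · exact Nat.mul_le_mul_right _ (Nat.le_of_dvd hP₁ hd)
    have mono : ∀ {n₂ y₂ F₂ : ℕ} {r₂ : ℝ}, n₂ ≤ y₂ → 0 < (F₂ : ℝ) * r₂ → (y₂ : ℝ) * (F₂ * r₂) ≤ 1 / t →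
        (n₂ : ℝ) * (F₂ * r₂) ≤ 1 / t := by
      intro n₂ y₂ F₂ r₂ hny hpos hle
      refine le_trans ?_ hle
      have : (n₂ : ℝ) ≤ y₂ := by exact_mod_cast hny
      exact mul_le_mul_of_nonneg_right this hpos.le
    have rad : ∀ {n₂ F₂ g₂ Bq : ℕ} {r₂ : ℝ}, n₂ * F₂ = g₂ * Bq → 0 < g₂ → 0 < r₂ →
        (n₂ : ℝ) * (F₂ * r₂) ≤ 1 / t → (Bq : ℝ) * r₂ ≤ T := by
      intro n₂ F₂ g₂ Bq r₂ heq hg hr₂ hle
      have h10 : (n₂ : ℝ) * F₂ = g₂ * Bq := by exact_mod_cast heq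
      have h11 : (n₂ : ℝ) * (F₂ * r₂) = g₂ * (Bq * r₂) := by linear_combination r₂ * h10
      rw [h11] at hle
      have h12 : (1:ℝ) ≤ g₂ := by exact_mod_cast hg
      have h13 : (0:ℝ) ≤ Bq * r₂ := by positivity
      have h14 : 1 / t ≤ T := le_trans (one_div_le_one_div_of_le (by positivity) h1) hT
      exact ((le_mul_of_one_le_left h13 h12).trans hle).trans h14
    obtain ⟨σ, l1, l2⟩ := side_x (γ := c.γ) (r := c.r j.1.1) t10 E0 n10 f0 (Nat.mul_pos r00 k0) Bl0 hnE (by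
        refine le_trans ?_ h8
        have := fit (g₁ := r₀ * k₀) (τ := ρ) fP P0
        rw [← mul_assoc P] at this
        exact_mod_cast this.trans (le_max_left _ _)) rr0 (mono n1y rpos hyr) hFF.den hFF.near
    obtain ⟨σ', l1', l2'⟩ := side_x (γ := c.γ) (r := c.r j'.1.1) t10 E0' n10' f0' (Nat.mul_pos r00' k0') Bl0' hnE' (by
        refine le_trans ?_ h8
        have := fit (g₁ := r₀' * k₀') (τ := ρ') fP' P0'
        rw [← mul_assoc P'] at this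
        exact_mod_cast this.trans (le_max_right _ _)) rr0' (mono n1y' rpos' hxr) hFF.den' hFF.near'
    have s1 := hX σ l1 (rad hnE (Nat.mul_pos f0 (Nat.mul_pos r00 k0)) rr0 (mono n1y rpos hyr))
    have s2 := hX' σ' l1' (rad hnE' (Nat.mul_pos f0' (Nat.mul_pos r00' k0')) rr0' (mono n1y' rpos' hxr))
    rw [l2] at s1
    rw [l2'] at s2
    exact same_of_FX h hl hP hP' hM₁ hM₁' B0 B0' w1 w1' x10 y10 (Nat.pos_of_dvd_of_pos hpr₁ q0)
      (Nat.pos_of_dvd_of_pos hpr₁' q0') (Nat.mul_div_cancel' hpr₁).symm (Nat.mul_div_cancel' hpr₁').symm hcirc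
      hxy E0 E0' hco hyE hxE hyr hxr hFF s1 s2 hj
  have up : ∀ {m₁ m₂ : ℕ}, m₁ ≤ m₂ → 1 < 2 * (m₁ : ℝ) ^ 10 * D → 1 < 2 * (m₂ : ℝ) ^ 10 * D := by
    intro m₁ m₂ hmm h9
    refine lt_of_lt_of_le h9 ?_
    have : (m₁ : ℝ) ≤ m₂ := by exact_mod_cast hmm
    gcongr
  by_cases hd : (P : ℤ) ∣ ρ.num ∧ (P' : ℤ) ∣ ρ'.num
  · left
    refine up ?_ main
    rw [hmx, if_pos hd.1, if_pos hd.2]
    apply max_le
    · calc r₀ * k₀ ≤ r₀ * a₀ := Nat.mul_le_mul_left _ hka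
        _ ≤ r₀ * a₀ * r₀' := Nat.le_mul_of_pos_right _ r00'
        _ = a₀ * r₀ * r₀' := by ring
    · calc r₀' * k₀' ≤ r₀' * a₀ := Nat.mul_le_mul_left _ hka'
        _ ≤ r₀' * a₀ * r₀ := Nat.le_mul_of_pos_right _ r00
        _ = a₀ * r₀ * r₀' := by ring
  · right
    refine ⟨up ?_ main, ?_⟩
    · rw [hmx]
      have c1 : (if (P : ℤ) ∣ ρ.num then r₀ * k₀ else P * r₀ * k₀) ≤ P * r₀ * k₀ := by
        split_ifs
        · rw [mul_assoc]; exact Nat.le_mul_of_pos_left _ P0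
        · exact le_rfl
      have c2 : (if (P' : ℤ) ∣ ρ'.num then r₀' * k₀' else P' * r₀' * k₀') ≤ P' * r₀' * k₀' := by
        split_ifs
        · rw [mul_assoc]; exact Nat.le_mul_of_pos_left _ P0'
        · exact le_rfl
      apply max_le
      · calc _ ≤ P * r₀ * k₀ := c1
          _ ≤ P * r₀ * a₀ := Nat.mul_le_mul_left _ hka
          _ ≤ (P * r₀) * a₀ * (P' * r₀') := Nat.le_mul_of_pos_right _ (Nat.mul_pos P0' r00')
          _ = (P * P') * a₀ * r₀ * r₀' := by ring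
          _ = _ := by rw [hPP]
      · calc _ ≤ P' * r₀' * k₀' := c2
          _ ≤ P' * r₀' * a₀ := Nat.mul_le_mul_left _ hka'
          _ ≤ (P' * r₀') * a₀ * (P * r₀) := Nat.le_mul_of_pos_right _ (Nat.mul_pos P0 r00)
          _ = (P * P') * a₀ * r₀ * r₀' := by ring
          _ = _ := by rw [hPP]
    · intro hex1 hrr
      refine ⟨t, t0, h2, h3, ?_⟩
      have hPP1 : P * P' = s := by rw [hPP, hex1, pow_one]
      have q1 : r₀ = 1 := Nat.eq_one_of_mul_eq_one_right hrr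
      have q1' : r₀' = 1 := Nat.eq_one_of_mul_eq_one_left hrr
      have cases : (P = s ∧ P' = 1) ∨ (P = 1 ∧ P' = s) := by
        rcases (Nat.dvd_prime hs).1 (Dvd.intro _ hPP1) with h9 | h9
        · right; rw [h9, one_mul] at hPP1; exact ⟨h9, hPP1⟩
        · left
          rw [h9] at hPP1
          exact ⟨h9, Nat.eq_of_mul_eq_mul_left hs.pos (by rw [mul_one]; exact hPP1)⟩
      have ex0 : ∀ k₁ : ℕ, s ^ k₁ = 1 → k₁ = 0 := fun k₁ h9 => by
        by_contra hk1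
        have := Nat.one_lt_pow hk1 hs.one_lt
        omega
      have ex1 : ∀ k₁ : ℕ, s ^ k₁ = s → k₁ = 1 := fun k₁ h9 => by
        have : s ^ k₁ = s ^ 1 := by rw [h9, pow_one]
        exact Nat.pow_right_injective hs.two_le this
      rcases cases with ⟨z1, z2⟩ | ⟨z1, z2⟩
      · have o1 := ex1 _ (show s ^ (((av' - m') - (av - m)) + (m - av)) = s from z1)
        have o2 := ex0 _ (show s ^ (((av - m) - (av' - m')) + (m' - av')) = 1 from z2)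
        have olt : av + m' < av' + m := by omega
        rw [if_pos olt]
        have hnd : ¬ (s : ℤ) ∣ ρ.num := by
          intro hh
          apply hd
          rw [z1, z2]
          exact ⟨hh, by simp⟩
        exact bad_x (y₀ := y₀) t1 (by rw [hE, z1, q1, mul_one]) y00 rpos hnd hFF.den hFF.near
          (by rw [hDe]; exact le_max_left _ _) h3
      · have o1 := ex0 _ (show s ^ (((av' - m') - (av - m)) + (m - av)) = 1 from z1)
        have o2 := ex1 _ (show s ^ (((av - m) - (av' - m')) + (m' - av')) = s from z2)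
        have onlt : ¬ av + m' < av' + m := by omega
        rw [if_neg onlt]
        have hnd : ¬ (s : ℤ) ∣ ρ'.num := by
          intro hh
          apply hd
          rw [z1, z2]
          exact ⟨by simp, hh⟩
        exact bad_x (y₀ := x₀) t1 (by rw [hE', z2, q1', mul_one]) x00 rpos' hnd hFF.den' hFF.near'
          (by rw [hDe]; exact le_max_right _ _) h3

end Crest.Agent.R4P.LinkX11
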