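import Crest.Agent.R4P.LinkX_11
import Crest.Agent.R4P.NumTot_33

/-!
R4P (S0004), helper33, group [X]: **link of the `[F]` pairs of a crossing state `z` with the relation at any lower
column `l`**, labels in CROSSING letters.

`G = P r₀ B_z` (natural), scale pair of `z` = `(y G, x G')`, `x, y` coprime. At the lower state only
`Bl c l q ∣ y G` (scale pair invariant) and `G₁ ∣ F * Bl c l q` (`G = P G₁`) are used: `ρ Bl / G` is a label of
`Bl γ` at `Bl r_q`, so the state of the item at `l` is `ρ / G`, the same for all `l` (`lab_cross`, `side_x`). The pair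
is exact at the lower circle: `same_x`. `PE_core`, `flow_of_link`, `low_of_link`.

`(XR)` abstract: `hst : ∀ σ, Lab (Bl γ) (Bl r) σ → c.st l q = some (σ / Bl)` (`st_of_lab'` for thin radii).
-/

set_option autoImplicit false
set_option linter.unusedSectionVars false
set_option linter.unusedVariables false
open MeasureTheory Filter

namespace Crest.Agent.R4P.LinkZ33

open Crest.Agent.R4.Tour104 Crest.Agent.R4.Tour758 Crest.Agent.R4.Avg758 Crest.Agent.R4.Clos758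
open Crest.Agent.R4.ClosL758 Crest.Agent.R4.ClosG758 Crest.Agent.R4.ClosR758
open Crest.Agent.R4.Fam464 Crest.Agent.R4P.Cnt588 Crest.Agent.R4P.Walk560 Crest.Agent.R4P.Item758
open Crest.Agent.R4.Piece464 Crest.Agent.R4P.W363 Crest.Agent.R4P.AvgItem710
open Crest.Agent.R4P.Data758
open Crest.Agent.R4.LF363 (Lab lab_unique)
open Crest.Agent.R4.Dich579 (FF)
open Crest.Agent.R4P.Link758
open Crest.Agent.R4.Bad223
open Crest.Agent.R4.LinkG223 (lab_good)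

open Crest.Agent.R4P.LinkX11 (XR LkP)
open Crest.Agent.R4.CrossInv709 (sc sd)
open Crest.Agent.R4P.StripP33 Crest.Agent.R4P.BrP33 Crest.Agent.R4P.ShotP33
open Crest.Agent.R4P.ShotTot33 (fe)
open Crest.Agent.R4.NMW710 (Dq)
open Crest.Agent.R4.HVW560 (cof)

variable {c : Cf} {n : ℕ}

/-- **the label of `Bl θ` from a label of `G θ`** -/
theorem lab_cross {θ R t : ℝ} {G y Bl F : ℕ} {ρ : ℚ} (hG : 0 < G) (hy : 0 < y) (hB : 0 < Bl) (hF0 : 0 < F)
    (ht : 10 ≤ t) (hd : Bl ∣ y * G) (hF : G ∣ F * Bl) (hFt : (F : ℝ) ≤ t ^ (1/10 : ℝ))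
    (hL : Lab (G * θ) (G * R) ρ) (hden : (ρ.den : ℝ) ≤ t ^ (21/200 : ℝ))
    (hn : |G * θ - ρ| ≤ t ^ (39/200 : ℝ) * (G * R)) (hyr : (y : ℝ) * (G * R) ≤ 1 / t) :
    Lab (Bl * θ) (Bl * R) (ρ * Bl / G) := by
  have ht0 : 0 < t := by linarith
  have ht1 : 1 ≤ t := by linarith
  obtain ⟨a, m, hcop, ha, hm⟩ := Nat.exists_coprime Bl G
  set g := Nat.gcd Bl G with hg
  have g0 : 0 < g := Nat.gcd_pos_of_pos_left _ hB
  have a0 : 0 < a := Nat.pos_of_ne_zero fun h => by rw [h, zero_mul] at ha; omega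
  have m0 : 0 < m := Nat.pos_of_ne_zero fun h => by rw [h, zero_mul] at hm; omega
  have hay : a ∣ y := by
    rw [ha, hm, ← mul_assoc] at hd
    exact hcop.dvd_of_dvd_mul_right (Nat.dvd_of_mul_dvd_mul_right g0 hd)
  have hmF : m ∣ F := by
    rw [ha, hm, ← mul_assoc] at hF
    exact hcop.symm.dvd_of_dvd_mul_right (Nat.dvd_of_mul_dvd_mul_right g0 hF)
  have hay' : (a : ℝ) ≤ y := by exact_mod_cast Nat.le_of_dvd hy hay
  have hmF' : (m : ℝ) ≤ F := by exact_mod_cast Nat.le_of_dvd hF0 hmF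
  have ar : (0 : ℝ) < a := by exact_mod_cast a0
  have a1 : (1 : ℝ) ≤ a := by exact_mod_cast a0
  have mr : (0 : ℝ) < m := by exact_mod_cast m0
  have gr : (0 : ℝ) < g := by exact_mod_cast g0
  have eq1 : (m : ℝ) * Bl = a * G := by
    have : m * Bl = a * G := by rw [ha, hm]; ring
    exact_mod_cast this
  set r := (G : ℝ) * R with hr
  have r0 : 0 < r := hL.pos
  have hay2 : a * r ≤ 1 / t := (mul_le_mul_of_nonneg_right hay' r0.le).trans hyr
  have ar0 : 0 < a * r := by positivity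
  have e1 : (m : ℝ) * (Bl * θ) = a * (G * θ) := by rw [← mul_assoc, eq1, mul_assoc]
  have e2 : (m : ℝ) * (Bl * R) = a * r := by rw [← mul_assoc, eq1, mul_assoc]
  have htr : t * (a * r) ≤ 1 := by
    have := mul_le_mul_of_nonneg_left hay2 ht0.le
    rwa [mul_one_div_cancel ht0.ne'] at this
  have hden' : (((a : ℚ) * ρ).den : ℝ) ≤ t ^ (21/200 : ℝ) := by
    refine le_trans ?_ hden
    have h1 := Rat.mul_den_dvd (a : ℚ) ρ
    rw [Rat.den_natCast, one_mul] at h1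
    exact_mod_cast Nat.le_of_dvd ρ.den_pos h1
  have ecast : (((a : ℚ) * ρ : ℚ) : ℝ) = a * ρ := by push_cast; ring
  have hn' : |m * (Bl * θ) - (((a : ℚ) * ρ : ℚ) : ℝ)| ≤ t ^ (39/200 : ℝ) * (m * (Bl * R)) := by
    rw [e1, e2, ecast, ← mul_sub, abs_mul, abs_of_pos ar]
    calc (a : ℝ) * |G * θ - ρ| ≤ a * (t ^ (39/200 : ℝ) * r) := mul_le_mul_of_nonneg_left hn ar.le
      _ = _ := by ring
  have hL' : Lab (m * (Bl * θ)) (m * (Bl * R)) ((a : ℚ) * ρ) := by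
    refine ⟨?_, ?_, ?_, ?_⟩
    · rw [e2]; exact ar0
    · rw [e2]
      refine hay2.trans ?_
      rw [div_le_div_iff₀ ht0 (by norm_num)]; linarith
    · rw [e2]
      calc (((a : ℚ) * ρ).den : ℝ) ^ 5 * (a * r) ≤ (t ^ (21/200 : ℝ)) ^ 5 * (a * r) := by gcongr
        _ = t ^ (-(19/40) : ℝ) * (t * (a * r)) := by
          have e3 : (t ^ (21/200 : ℝ)) ^ 5 = t ^ (-(19/40) : ℝ) * t := by
            rw [← Real.rpow_natCast, ← Real.rpow_mul ht0.le]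
            nth_rewrite 3 [← Real.rpow_one t]
            rw [← Real.rpow_add ht0]
            norm_num
          rw [e3]; ring
        _ ≤ 1 * 1 := by
          refine mul_le_mul ?_ htr (by positivity) zero_le_one
          exact Real.rpow_le_one_of_one_le_of_nonpos ht1 (by norm_num)
        _ = 1 := by norm_num
    · refine (pow_le_pow_left₀ (abs_nonneg _) hn' 5).trans ?_
      rw [e2]
      calc (t ^ (39/200 : ℝ) * (a * r)) ^ 5 = (t ^ (39/200 : ℝ)) ^ 5 * (a * r) * (a * r) ^ 4 := by ring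
        _ = (t ^ (-(1/40) : ℝ) * (t * (a * r))) * (a * r) ^ 4 := by
          have e3 : (t ^ (39/200 : ℝ)) ^ 5 = t ^ (-(1/40) : ℝ) * t := by
            rw [← Real.rpow_natCast, ← Real.rpow_mul ht0.le]
            nth_rewrite 3 [← Real.rpow_one t]
            rw [← Real.rpow_add ht0]
            norm_num
          rw [e3]; ring
        _ ≤ 1 * (a * r) ^ 4 := by
          refine mul_le_mul_of_nonneg_right ?_ (by positivity)
          calc t ^ (-(1/40) : ℝ) * (t * (a * r)) ≤ 1 * 1 := by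
                refine mul_le_mul ?_ htr (by positivity) zero_le_one
                exact Real.rpow_le_one_of_one_le_of_nonpos ht1 (by norm_num)
            _ = 1 := by norm_num
        _ = _ := one_mul _
  have hfin := lab_div m0 ht1 (hmF'.trans hFt) hL' hden' hn' (by rw [e2]; exact hay2)
  have eqσ : ((a : ℚ) * ρ) / m = ρ * Bl / G := by
    have h1 : (m : ℚ) * Bl = a * G := by exact_mod_cast eq1
    have m0' : (m : ℚ) ≠ 0 := by exact_mod_cast m0.ne'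
    have G0' : (G : ℚ) ≠ 0 := by exact_mod_cast hG.ne'
    rw [div_eq_div_iff m0' G0']
    linear_combination (-ρ) * h1
  rwa [eqσ] at hfin

/-- **the state of one side at `l`** is `ρ / (P G₁)` -/
theorem side_x {l q : ℕ} {t : ℝ} {P G y F : ℕ} {ρ : ℚ} (hP : 0 < P) (hG : 0 < G) (hy : 0 < y) (hB : 0 < Bl c l q)
    (hF0 : 0 < F) (ht : 10 ≤ t) (hd : Bl c l q ∣ y * (P * G)) (hF : G ∣ F * Bl c l q)
    (hFt : ((if (P : ℤ) ∣ ρ.num then F else P * F : ℕ) : ℝ) ≤ t ^ (1/10 : ℝ))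
    (hL : Lab (((P * G : ℕ) : ℝ) * c.γ) (((P * G : ℕ) : ℝ) * c.r q) ρ) (hden : (ρ.den : ℝ) ≤ t ^ (21/200 : ℝ))
    (hn : |((P * G : ℕ) : ℝ) * c.γ - ρ| ≤ t ^ (39/200 : ℝ) * (((P * G : ℕ) : ℝ) * c.r q))
    (hyr : (y : ℝ) * (((P * G : ℕ) : ℝ) * c.r q) ≤ 1 / t)
    (hst : ∀ σ : ℚ, Lab (Bl c l q * c.γ) (Bl c l q * c.r q) σ → c.st l q = some (σ / Bl c l q)) :
    c.st l q = some (ρ / ((P * G : ℕ) : ℚ)) := by
  have hB' : (Bl c l q : ℚ) ≠ 0 := by exact_mod_cast hB.ne'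
  have hG' : (G : ℚ) ≠ 0 := by exact_mod_cast hG.ne'
  have hP' : (P : ℚ) ≠ 0 := by exact_mod_cast hP.ne'
  by_cases hdv : (P : ℤ) ∣ ρ.num
  · rw [if_pos hdv] at hFt
    have c1 : ∀ z : ℝ, ((P * G : ℕ) : ℝ) * z = P * (G * z) := by intro z; push_cast; ring
    rw [c1, c1] at hL hn
    rw [c1] at hyr
    obtain ⟨l1, l2, l3⟩ := lab_good (t := t) hP hdv hL hden hn
    have h := lab_cross hG (Nat.mul_pos hy hP) hB hF0 ht (by rwa [mul_assoc]) hF hFt l1 l2 l3 (by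
      push_cast
      rw [mul_assoc]; exact hyr)
    rw [hst _ h]
    congr 1
    push_cast
    field_simp
  · rw [if_neg hdv] at hFt
    have h := lab_cross (Nat.mul_pos hP hG) hy hB (Nat.mul_pos hP hF0) ht hd
      (by rw [mul_assoc]; exact Nat.mul_dvd_mul_left P hF) hFt hL hden hn hyr
    rw [hst _ h]
    congr 1
    push_cast
    field_simp

/-- **`[F]` pairs have the same index at every lower circle with the same scale pair.** -/
theorem same_x (h : c.Ok n) {l : ℕ} (hl : l ≤ n) {j j' : c.Lam} {B w M B' w' M' : ℕ}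
    {κ κ' : ℤ → ℝ} {u z z' : ℝ} {i a i' a' : ℤ}
    (hP : Pt c.γ (c.D.al j) (c.D.be j) B w M κ u i a z)
    (hP' : Pt c.γ (c.D.al j') (c.D.be j') B' w' M' κ' u i' a' z')
    (hM : 0 < M) (hM' : 0 < M') (hB : 0 < B) (hB' : 0 < B') (hw : 0 < w) (hw' : 0 < w')
    {x₁ y₁ pr pr' : ℕ} (hx₁ : 0 < x₁) (hy₁ : 0 < y₁) (hpr : 0 < pr) (hpr' : 0 < pr') (hq : j.1.1 = pr * w)
    (hq' : j'.1.1 = pr' * w') (hcirc : pr * M * B = pr' * M' * B')
    (hxy : (w / M.gcd w) * y₁ = (w' / M'.gcd w') * x₁)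
    {x y G G' : ℕ} (hcop : Nat.Coprime x y) (hG : 0 < G) (hG' : 0 < G')
    (hsL : y₁ * (rf w M * B) = y * G) (hsR : x₁ * (rf w' M' * B') = x * G')
    {t : ℝ} (ht : 0 < t) {ρ ρ' : ℚ} (hst : c.st l j.1.1 = some (ρ / G)) (hst' : c.st l j'.1.1 = some (ρ' / G'))
    (hyr : (y : ℝ) * (G * c.r j.1.1) ≤ 1 / t) (hxr : (x : ℝ) * (G' * c.r j'.1.1) ≤ 1 / t)
    (hex : ∀ n n' : ℤ, |(n + G * c.γ) * y - (n' + G' * c.γ) * x| ≤ 2 / t →
      ((n : ℝ) + ρ) * y = (n' + ρ') * x) :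
    (j, j') ∉ Ro (c.D.rho l) := by
  intro hR
  rw [h.Ro_iff hl j j' hP.z1 hP.z2 hP'.z1 hP'.z2, hst, hst'] at hR
  apply hR
  apply WP.ix_same_some
  refine off_eq_of_exact hP hP' hM hM' hB hw hw' hx₁ hy₁ hpr hpr' hq hq' hcirc hxy ?_
  have hz : |z| ≤ c.r j.1.1 := by
    rw [abs_le]
    exact ⟨(h.bp_ge j _).trans hP.z1, (hP.z2.le).trans (h.bp_le j (Cf.k_lt j))⟩
  have hz' : |z'| ≤ c.r j'.1.1 := by
    rw [abs_le]
    exact ⟨(h.bp_ge j' _).trans hP'.z1, (hP'.z2.le).trans (h.bp_le j' (Cf.k_lt j'))⟩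
  have hrel := rel_pts hP hP' hM hM' hw hw' hxy
  obtain ⟨k, k', hkk⟩ : ∃ k k' : ℤ, k * y - k' * x = num w M i a * y₁ - num w' M' i' a' * x₁ := by
    have hb := Nat.gcd_eq_gcd_ab y x
    rw [hcop.symm] at hb
    set N : ℤ := num w M i a * y₁ - num w' M' i' a' * x₁ with hN
    refine ⟨N * y.gcdA x, -(N * y.gcdB x), ?_⟩
    have : (1:ℤ) = y * y.gcdA x + x * y.gcdB x := by exact_mod_cast hb
    linear_combination (-N) * this
  have hkk' : (k : ℝ) * y - k' * x = num w M i a * y₁ - num w' M' i' a' * x₁ := by exact_mod_cast hkk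
  have s1 : (y₁ : ℝ) * (rf w M * B) = y * G := by exact_mod_cast hsL
  have s2 : (x₁ : ℝ) * (rf w' M' * B') = x * G' := by exact_mod_cast hsR
  have hex1 := hex k k' (by
    have e : (k + G * c.γ) * y - (k' + G' * c.γ) * x =
        (num w M i a + rf w M * (B * c.γ)) * y₁ - (num w' M' i' a' + rf w' M' * (B' * c.γ)) * x₁ := by
      linear_combination hkk' - c.γ * s1 + c.γ * s2
    rw [e]
    refine hrel.trans ?_
    have u1 : (y₁ : ℝ) * (rf w M * (B * |z|)) ≤ 1 / t := by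
      refine le_trans ?_ hyr
      calc (y₁ : ℝ) * (rf w M * (B * |z|)) = (y₁ * (rf w M * B)) * |z| := by ring
        _ = y * (G * |z|) := by rw [s1]; ring
        _ ≤ _ := by gcongr
    have u2 : (x₁ : ℝ) * (rf w' M' * (B' * |z'|)) ≤ 1 / t := by
      refine le_trans ?_ hxr
      calc (x₁ : ℝ) * (rf w' M' * (B' * |z'|)) = (x₁ * (rf w' M' * B')) * |z'| := by ring
        _ = x * (G' * |z'|) := by rw [s2]; ring
        _ ≤ _ := by gcongr
    calc _ ≤ 1 / t + 1 / t := add_le_add u1 u2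
      _ = 2 / t := by ring)
  have G0 : (G : ℝ) ≠ 0 := by exact_mod_cast hG.ne'
  have G0' : (G' : ℝ) ≠ 0 := by exact_mod_cast hG'.ne'
  have v1 : (rf w M * (B * ((ρ / G : ℚ) : ℝ))) * y₁ = y * ρ := by
    push_cast
    have : (rf w M * (B * ((ρ : ℝ) / G))) * y₁ = (y₁ * (rf w M * B)) * (ρ / G) := by ring
    rw [this, s1]; field_simp
  have v2 : (rf w' M' * (B' * ((ρ' / G' : ℚ) : ℝ))) * x₁ = x * ρ' := by
    push_cast
    have : (rf w' M' * (B' * ((ρ' : ℝ) / G'))) * x₁ = (x₁ * (rf w' M' * B')) * (ρ' / G') := by ring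
    rw [this, s2]; field_simp
  linear_combination hex1 - hkk' + v1 - v2

open Crest.Agent.R4.StopAsm709 (FS)

/-- **core of the link**: an `[F]` pair of the crossing letters which is related at a lower column with the same
scale pair has large factors -/
theorem PE_core (h : c.Ok n) {l : ℕ} (hl : l ≤ n) (X : Finset (ℕ × ℕ × Finset ℕ))
    {M M' b pr c₁ b' pr' c₁' : ℕ} {t t' : IT} {A A' : Finset c.Lam}
    (hM : 0 < M) (hM' : 0 < M') (hb : 0 < b) (hb' : 0 < b') (hF : Fit b pr t)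
    (hF' : Fit b' pr' t') (hW : (c.D.par X).Wts pr t) (hW' : (c.D.par X).Wts pr' t')
    (hc : c₁ ∣ b) (hc' : c₁' ∣ b') {R : Finset (c.Lam × c.Lam)} (hR : R ⊆ Ro (c.D.rho l))
    {e : ℕ × ℕ}
    (he : e ∈ (c.D.par X).PE R ((c.D.par X).uA M b pr t A c₁) ((c.D.par X).uA M' b' pr' t' A' c₁'))
    (hcirc : pr * M * (b / c₁) = pr' * M' * (b' / c₁'))
    {x₁ y₁ : ℕ} (hx₁ : 0 < x₁) (hy₁ : 0 < y₁)
    (hxy : (e.1 / pr / M.gcd (e.1 / pr)) * y₁ = (e.2 / pr' / M'.gcd (e.2 / pr')) * x₁)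
    {x y P P' G G' : ℕ} (hx : 0 < x) (hy : 0 < y) (hP : 0 < P) (hP' : 0 < P') (hG : 0 < G) (hG' : 0 < G')
    (hcop : Nat.Coprime x y)
    (hsL : y₁ * (rf (e.1 / pr) M * (b / c₁)) = y * (P * G))
    (hsR : x₁ * (rf (e.2 / pr') M' * (b' / c₁')) = x * (P' * G'))
    (hk : Bl c l e.1 ∣ b / c₁) (hk' : Bl c l e.2 ∣ b' / c₁')
    {T : ℝ} (hX : XR c T l e.1) (hX' : XR c T l e.2)
    {F F' : ℕ} (hF0 : 0 < F) (hF0' : 0 < F') (hFd : G ∣ F * Bl c l e.1) (hFd' : G' ∣ F' * Bl c l e.2)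
    {N : ℕ} (hN : 4 ≤ N) (hT : 1 / (2:ℝ) ^ N ≤ T)
    (hFS : FS N (((P * G : ℕ) : ℝ) * c.γ) (((P' * G' : ℕ) : ℝ) * c.γ) x y
      (((P * G : ℕ) : ℝ) * c.rr e.1) (((P' * G' : ℕ) : ℝ) * c.rr e.2)) :
    ∃ (t : ℝ) (ρ ρ' : ℚ), (2:ℝ) ^ N ≤ t ∧
      1 / (2 * t) < max ((y : ℝ) * (((P * G : ℕ) : ℝ) * c.rr e.1)) ((x : ℝ) * (((P' * G' : ℕ) : ℝ) * c.rr e.2)) ∧
      max ((y : ℝ) * (((P * G : ℕ) : ℝ) * c.rr e.1)) ((x : ℝ) * (((P' * G' : ℕ) : ℝ) * c.rr e.2)) ≤ 1 / t ∧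
      FF (((P * G : ℕ) : ℝ) * c.γ) (((P' * G' : ℕ) : ℝ) * c.γ) t
        (((P * G : ℕ) : ℝ) * c.rr e.1) (((P' * G' : ℕ) : ℝ) * c.rr e.2) x y ρ ρ' ∧
      1 < 2 * ((max (if (P : ℤ) ∣ ρ.num then F else P * F) (if (P' : ℤ) ∣ ρ'.num then F' else P' * F') : ℕ) : ℝ) ^ 10 *
      max ((y : ℝ) * (((P * G : ℕ) : ℝ) * c.rr e.1)) ((x : ℝ) * (((P' * G' : ℕ) : ℝ) * c.rr e.2)) := by
  obtain ⟨t, m, m', ρ, ρ', h1, h2, h3, h4, hFF, h6⟩ := hFS
  have ht10 : 10 ≤ t := by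
    have : (2:ℝ)^4 ≤ (2:ℝ)^N := pow_le_pow_right₀ (by norm_num) hN
    linarith
  have ht0 : 0 < t := by linarith
  refine ⟨t, ρ, ρ', h1, h2, h3, hFF, ?_⟩
  set mx : ℕ := max (if (P : ℤ) ∣ ρ.num then F else P * F) (if (P' : ℤ) ∣ ρ'.num then F' else P' * F') with hmx
  set Dm := max ((y : ℝ) * (((P * G : ℕ) : ℝ) * c.rr e.1)) ((x : ℝ) * (((P' * G' : ℕ) : ℝ) * c.rr e.2)) with hDm
  by_contra hcon
  push Not at hcon
  have h7 : ((mx : ℕ) : ℝ) ^ 10 ≤ t := by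
    have a1 : ((mx : ℕ) : ℝ) ^ 10 / t ≤ 1 := by
      calc ((mx : ℕ) : ℝ) ^ 10 / t = 2 * ((mx : ℕ) : ℝ) ^ 10 * (1 / (2 * t)) := by
            field_simp
        _ ≤ 2 * ((mx : ℕ) : ℝ) ^ 10 * Dm := mul_le_mul_of_nonneg_left h2.le (by positivity)
        _ ≤ 1 := hcon
    rwa [div_le_one ht0] at a1
  have h8 : ((mx : ℕ) : ℝ) ≤ t ^ (1/10 : ℝ) := by
    have a2 : (((mx : ℕ) : ℝ) ^ 10) ^ (1/10 : ℝ) ≤ t ^ (1/10 : ℝ) :=
      Real.rpow_le_rpow (by positivity) h7 (by norm_num)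
    have a3 : (((mx : ℕ) : ℝ) ^ 10) ^ (1/10 : ℝ) = ((mx : ℕ) : ℝ) := by
      rw [← Real.rpow_natCast, ← Real.rpow_mul (Nat.cast_nonneg _)]
      norm_num
    rwa [a3] at a2
  obtain ⟨j, j', hj, hA, hA', e1, e2, i1, i2, u, i, a, i', a', z, z', hPt, hPt'⟩ :=
    PE_pts hM hM' hb hb' hF hF' hW hW' hc hc' he
  have e1' : j.1.1 = e.1 := e1
  have e2' : j'.1.1 = e.2 := e2
  have hpr : pr ∣ e.1 := (hF.item _ i1).2.1
  have hpr' : pr' ∣ e.2 := (hF'.item _ i2).2.1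
  have q0 : 0 < e.1 := by rw [← e1']; exact h.pos _ (Cf.mem_S j)
  have q0' : 0 < e.2 := by rw [← e2']; exact h.pos _ (Cf.mem_S j')
  have p0 : 0 < pr := Nat.pos_of_dvd_of_pos hpr q0
  have p0' : 0 < pr' := Nat.pos_of_dvd_of_pos hpr' q0'
  have c0 : 0 < c₁ := Nat.pos_of_dvd_of_pos hc hb
  have c0' : 0 < c₁' := Nat.pos_of_dvd_of_pos hc' hb'
  have B0 : 0 < b / c₁ := Nat.div_pos (Nat.le_of_dvd hb hc) c0
  have B0' : 0 < b' / c₁' := Nat.div_pos (Nat.le_of_dvd hb' hc') c0'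
  have w0 : 0 < e.1 / pr := Nat.div_pos (Nat.le_of_dvd q0 hpr) p0
  have w0' : 0 < e.2 / pr' := Nat.div_pos (Nat.le_of_dvd q0' hpr') p0'
  have r1 : c.rr e.1 = c.r e.1 := by rw [← e1']; exact Cf.rr_eq j
  have r2 : c.rr e.2 = c.r e.2 := by rw [← e2']; exact Cf.rr_eq j'
  have bl0 : 0 < Bl c l e.1 := Nat.pos_of_dvd_of_pos hk B0
  have bl0' : 0 < Bl c l e.2 := Nat.pos_of_dvd_of_pos hk' B0'
  rw [r1, r2] at hFF
  have yr : (y : ℝ) * (((P * G : ℕ) : ℝ) * c.r e.1) ≤ 1 / t := by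
    rw [← r1]; exact (le_max_left _ _).trans h3
  have xr : (x : ℝ) * (((P' * G' : ℕ) : ℝ) * c.r e.2) ≤ 1 / t := by
    rw [← r2]; exact (le_max_right _ _).trans h3
  have d1 : Bl c l e.1 ∣ y * (P * G) := by
    rw [← hsL]; exact (hk.trans (dvd_mul_left _ _)).trans (dvd_mul_left _ _)
  have d2 : Bl c l e.2 ∣ x * (P' * G') := by
    rw [← hsR]; exact (hk'.trans (dvd_mul_left _ _)).trans (dvd_mul_left _ _)
  have htT : 1 / t ≤ T := (one_div_le_one_div_of_le (by positivity) h1).trans hT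
  have small : ∀ {v y E q : ℕ}, 0 < v → v ∣ y * E → 0 < y * E → (y : ℝ) * ((E : ℝ) * c.r q) ≤ 1 / t → 0 < c.r q →
      (v : ℝ) * c.r q ≤ T := fun {v y E q} v0 hv h0 hyr hr => by
    have h5 : (v : ℝ) ≤ ((y * E : ℕ) : ℝ) := by exact_mod_cast Nat.le_of_dvd h0 hv
    calc (v : ℝ) * c.r q ≤ ((y * E : ℕ) : ℝ) * c.r q := mul_le_mul_of_nonneg_right h5 hr.le
      _ = y * (E * c.r q) := by push_cast; ring
      _ ≤ _ := hyr.trans htT
  have rp : 0 < c.r e.1 := pos_of_mul_pos_right hFF.lab.pos (Nat.cast_nonneg _)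
  have rp' : 0 < c.r e.2 := pos_of_mul_pos_right hFF.lab'.pos (Nat.cast_nonneg _)
  have hst : ∀ σ : ℚ, Lab (Bl c l e.1 * c.γ) (Bl c l e.1 * c.r e.1) σ → c.st l e.1 = some (σ / Bl c l e.1) :=
    fun σ hσ => hX σ hσ (small bl0 d1 (Nat.mul_pos hy (Nat.mul_pos hP hG)) yr rp)
  have hst' : ∀ σ : ℚ, Lab (Bl c l e.2 * c.γ) (Bl c l e.2 * c.r e.2) σ → c.st l e.2 = some (σ / Bl c l e.2) :=
    fun σ hσ => hX' σ hσ (small bl0' d2 (Nat.mul_pos hx (Nat.mul_pos hP' hG')) xr rp')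
  have s1 := side_x hP hG hy bl0 hF0 ht10 d1 hFd (le_trans (by exact_mod_cast le_max_left _ _) h8) hFF.lab
    hFF.den hFF.near yr hst
  have s2 := side_x hP' hG' hx bl0' hF0' ht10 d2 hFd' (le_trans (by exact_mod_cast le_max_right _ _) h8) hFF.lab'
    hFF.den' hFF.near' xr hst'
  rw [← e1'] at hPt s1 yr
  rw [← e2'] at hPt' s2 xr
  refine same_x h hl hPt hPt' hM hM' B0 B0' (by rw [e1']; exact w0) (by rw [e2']; exact w0') hx₁ hy₁ p0 p0' ?_ ?_
    hcirc (by rw [e1', e2']; exact hxy) hcop (Nat.mul_pos hP hG) (Nat.mul_pos hP' hG')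
    (by rw [e1']; exact hsL) (by rw [e2']; exact hsR) ht0 s1 s2 yr xr hFF.exact (hR hj)
  · rw [e1']; exact (Nat.mul_div_cancel' hpr).symm
  · rw [e2']; exact (Nat.mul_div_cancel' hpr').symm

set_option maxHeartbeats 1000000 in
/-- **the link**: `b ∣ a₀ * Bl c l q` on both sides; different effective exponents: `FLow`; `dex = 0` : the scale is
not small -/
theorem link_z {N₀ : ℕ} (h : c.Ok N₀) {l : ℕ} (hl : l ≤ N₀) {X : Finset (ℕ × ℕ × Finset ℕ)}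
    {M b pr M' b' pr' : ℕ} {e : ℕ × ℕ} (hLk : LkP c X M b pr M' b' pr' l e)
    (hM : 0 < M) (hM' : 0 < M') (hb : 0 < b) (hb' : 0 < b') (hpr : pr ∣ e.1) (hpr' : pr' ∣ e.2)
    {s : ℕ} (hs : s.Prime) {a₀ : ℕ} (ha₀ : 0 < a₀) (hk : b ∣ a₀ * Bl c l e.1) (hk' : b' ∣ a₀ * Bl c l e.2)
    {N : ℕ} (hN : 4 ≤ N) {T : ℝ} (hT : 1 / (2:ℝ) ^ N ≤ T) (hX : XR c T l e.1) (hX' : XR c T l e.2)
    (hFS : FSs s c.γ c.rr N M b pr 1 M' b' pr' 1 ((e.1 / pr).factorization s)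
      ((e.2 / pr').factorization s) e) :
    (fe s M' pr e.1 ≠ fe s M pr' e.2 →
      FLow s (dex ((e.1 / pr).factorization s) (M.factorization s) ((e.2 / pr').factorization s)
        (M'.factorization s)) a₀ (rf (itm s pr e.1) (st s M)) (rf (itm s pr' e.2) (st s M'))
      (if fe s M' pr e.1 < fe s M pr' e.2 then (b : ℝ) / (1 : ℕ) * c.γ else (b' : ℝ) / (1 : ℕ) * c.γ)
      (Dq c.rr M b pr 1 M' b' pr' 1 e)) ∧
    (dex ((e.1 / pr).factorization s) (M.factorization s) ((e.2 / pr').factorization s)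
        (M'.factorization s) = 0 →
      1 < 2 * ((a₀ * rf (itm s pr e.1) (st s M) * rf (itm s pr' e.2) (st s M') : ℕ) : ℝ) ^ 10 *
        Dq c.rr M b pr 1 M' b' pr' 1 e) := by
  obtain ⟨M₁, M₁', b₁, pr₁, c₁, b₁', pr₁', c₁', t₁, t₁', A, A', hM₁, hM₁', hb₁, hb₁', hF, hF', hW, hW', hc, hc',
    he, hcirc, hsc, ⟨k, hkB⟩, ⟨k', hkB'⟩⟩ := hLk
  -- positivity
  obtain ⟨j, j', -, -, -, e1, e2, i1, i2, -⟩ := PE_pts hM₁ hM₁' hb₁ hb₁' hF hF' hW hW' hc hc' he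
  have q0 : 0 < e.1 := by
    have : j.1.1 = e.1 := e1
    rw [← this]; exact h.pos _ (Cf.mem_S j)
  have q0' : 0 < e.2 := by
    have : j'.1.1 = e.2 := e2
    rw [← this]; exact h.pos _ (Cf.mem_S j')
  have w0 : 0 < e.1 / pr := Nat.div_pos (Nat.le_of_dvd q0 hpr) (Nat.pos_of_dvd_of_pos hpr q0)
  have w0' : 0 < e.2 / pr' := Nat.div_pos (Nat.le_of_dvd q0' hpr') (Nat.pos_of_dvd_of_pos hpr' q0')
  have hpr₁ : pr₁ ∣ e.1 := (hF.item _ i1).2.1
  have hpr₁' : pr₁' ∣ e.2 := (hF'.item _ i2).2.1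
  have w1 : 0 < e.1 / pr₁ := Nat.div_pos (Nat.le_of_dvd q0 hpr₁) (Nat.pos_of_dvd_of_pos hpr₁ q0)
  have w1' : 0 < e.2 / pr₁' := Nat.div_pos (Nat.le_of_dvd q0' hpr₁') (Nat.pos_of_dvd_of_pos hpr₁' q0')
  set a := (e.1 / pr).factorization s with ha
  set a' := (e.2 / pr').factorization s with ha'
  set m := M.factorization s with hm
  set m' := M'.factorization s with hm'
  set r₀ := rf (itm s pr e.1) (st s M) with hr₀
  set r₀' := rf (itm s pr' e.2) (st s M') with hr₀'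
  set P := PL s a m a' m' with hPd
  set P' := PL s a' m' a m with hPd'
  set U := e.1 / pr / M.gcd (e.1 / pr) with hU
  set U' := e.2 / pr' / M'.gcd (e.2 / pr') with hU'
  set U₁ := e.1 / pr₁ / M₁.gcd (e.1 / pr₁) with hU₁
  set U₁' := e.2 / pr₁' / M₁'.gcd (e.2 / pr₁') with hU₁'
  set x := cof (ui s M pr e.1) (ui s M' pr' e.2) with hx
  set y := cof (ui s M' pr' e.2) (ui s M pr e.1) with hy
  have ui0 : 0 < ui s M pr e.1 := div_pos' (st_pos w0) (st_pos hM)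
  have ui0' : 0 < ui s M' pr' e.2 := div_pos' (st_pos w0') (st_pos hM')
  have x0 : 0 < x := Crest.Agent.R4.HVW560.cof_pos ui0
  have y0 : 0 < y := Crest.Agent.R4.HVW560.cof_pos ui0'
  have P0 : 0 < P := PL_pos hs.pos
  have P0' : 0 < P' := PL_pos hs.pos
  have r00 : 0 < r₀ := rf_pos (st_pos hM)
  have r00' : 0 < r₀' := rf_pos (st_pos hM')
  have hcop : Nat.Coprime x y := Crest.Agent.R4.AvgItem710.cof_coprime ui0
  have fL : bL s a m a' m' * rf (e.1 / pr) M = P * r₀ := bL_rf hs w0 hM a' m'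
  have fR : bL s a' m' a m * rf (e.2 / pr') M' = P' * r₀' := bL_rf hs w0' hM' a m
  have cR : cof U U' = bL s a' m' a m * x := cof_st hs w0 hM w0' hM'
  have cL : cof U' U = bL s a m a' m' * y := cof_st hs w0' hM' w0 hM
  -- the scale pair
  have B1 : ((b₁ : ℝ) / c₁) = ((b₁ / c₁ : ℕ) : ℝ) := (cast_div' hc hb₁).symm
  have B2 : ((b₁' : ℝ) / c₁') = ((b₁' / c₁' : ℕ) : ℝ) := (cast_div' hc' hb₁').symm
  unfold sc sd at hsc
  rw [Prod.mk.injEq, B1, B2] at hsc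
  simp only at hsc
  have hsL : cof U₁' U₁ * (rf (e.1 / pr₁) M₁ * (b₁ / c₁)) = y * (P * (r₀ * b)) := by
    have h1 : cof U₁' U₁ * (rf (e.1 / pr₁) M₁ * (b₁ / c₁)) = cof U' U * (rf (e.1 / pr) M * b) := by
      exact_mod_cast hsc.1
    rw [h1, cL]
    calc bL s a m a' m' * y * (rf (e.1 / pr) M * b) = y * ((bL s a m a' m' * rf (e.1 / pr) M) * b) := by ring
      _ = _ := by rw [fL]; ring
  have hsR : cof U₁ U₁' * (rf (e.2 / pr₁') M₁' * (b₁' / c₁')) = x * (P' * (r₀' * b')) := by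
    have h1 : cof U₁ U₁' * (rf (e.2 / pr₁') M₁' * (b₁' / c₁')) = cof U U' * (rf (e.2 / pr') M' * b') := by
      exact_mod_cast hsc.2
    rw [h1, cR]
    calc bL s a' m' a m * x * (rf (e.2 / pr') M' * b') = x * ((bL s a' m' a m * rf (e.2 / pr') M') * b') := by ring
      _ = _ := by rw [fR]; ring
  have g1 : ∀ v : ℝ, (bL s a m a' m' : ℝ) * (rf (e.1 / pr) M * ((b : ℝ) / (1 : ℕ) * v)) =
      ((P * (r₀ * b) : ℕ) : ℝ) * v := fun v => by
    have h1 : ((bL s a m a' m' * rf (e.1 / pr) M : ℕ) : ℝ) = ((P * r₀ : ℕ) : ℝ) := by rw [fL]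
    push_cast at h1 ⊢
    linear_combination (b * v) * h1
  have g2 : ∀ v : ℝ, (bL s a' m' a m : ℝ) * (rf (e.2 / pr') M' * ((b' : ℝ) / (1 : ℕ) * v)) =
      ((P' * (r₀' * b') : ℕ) : ℝ) * v := fun v => by
    have h1 : ((bL s a' m' a m * rf (e.2 / pr') M' : ℕ) : ℝ) = ((P' * r₀' : ℕ) : ℝ) := by rw [fR]
    push_cast at h1 ⊢
    linear_combination (b' * v) * h1
  have hDq : Dq c.rr M b pr 1 M' b' pr' 1 e = max ((y : ℝ) * (((P * (r₀ * b) : ℕ) : ℝ) * c.rr e.1))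
      ((x : ℝ) * (((P' * (r₀' * b') : ℕ) : ℝ) * c.rr e.2)) := by
    have h1 := Da_bt hs w0 hM w0' hM' ((b : ℝ) / (1 : ℕ) * c.rr e.1) ((b' : ℝ) / (1 : ℕ) * c.rr e.2)
    rw [← ha, ← ha', ← hm, ← hm', g1, g2] at h1
    exact h1
  unfold FSs at hFS
  rw [g1, g2, g1, g2] at hFS
  obtain ⟨t, ρ, ρ', h1, h2, h3, hFF, h5⟩ := PE_core h hl X hM₁ hM₁' hb₁ hb₁' hF hF' hW hW' hc hc'
    (Finset.Subset.refl _) he hcirc (x₁ := cof U₁ U₁') (y₁ := cof U₁' U₁)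
    (Crest.Agent.R4.HVW560.cof_pos (div_pos' w1 hM₁)) (Crest.Agent.R4.HVW560.cof_pos (div_pos' w1' hM₁'))
    (Crest.Agent.R4P.NumTot33.cof_cross_eq U₁ U₁') (x := x) (y := y) (P := P) (P' := P') (G := r₀ * b)
    (G' := r₀' * b') x0 y0 P0 P0' (Nat.mul_pos r00 hb) (Nat.mul_pos r00' hb') hcop hsL hsR
    (by rw [hkB]; exact dvd_mul_left _ _) (by rw [hkB']; exact dvd_mul_left _ _) hX hX'
    (F := r₀ * a₀) (F' := r₀' * a₀) (Nat.mul_pos r00 ha₀) (Nat.mul_pos r00' ha₀)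
    (by rw [mul_assoc]; exact Nat.mul_dvd_mul_left r₀ hk) (by rw [mul_assoc]; exact Nat.mul_dvd_mul_left r₀' hk')
    hN hT hFS
  rw [← hDq] at h2 h3 h5
  set D := Dq c.rr M b pr 1 M' b' pr' 1 e with hD
  have ht : 1 ≤ t := le_trans (one_le_pow₀ (by norm_num)) h1
  have ht0 : 0 < t := lt_of_lt_of_le one_pos ht
  have D0 : 0 < D := lt_trans (by positivity) h2
  have mono : ∀ {m m' : ℕ}, m ≤ m' → 1 < 2 * (m : ℝ) ^ 10 * D → 1 < 2 * (m' : ℝ) ^ 10 * D := by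
    intro m m' hmm h1
    refine lt_of_lt_of_le h1 ?_
    have : (m : ℝ) ≤ m' := by exact_mod_cast hmm
    gcongr
  have hPP : P * P' = s ^ dex a m a' m' := PL_mul s a m a' m'
  have left : (P : ℤ) ∣ ρ.num → (P' : ℤ) ∣ ρ'.num → 1 < 2 * ((a₀ * r₀ * r₀' : ℕ) : ℝ) ^ 10 * D := by
    intro d1 d2
    rw [if_pos d1, if_pos d2] at h5
    refine mono ?_ h5
    apply max_le
    · calc r₀ * a₀ ≤ r₀ * a₀ * r₀' := Nat.le_mul_of_pos_right _ r00'
        _ = a₀ * r₀ * r₀' := by ring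
    · calc r₀' * a₀ ≤ r₀' * a₀ * r₀ := Nat.le_mul_of_pos_right _ r00
        _ = a₀ * r₀ * r₀' := by ring
  constructor
  · intro hne
    by_cases hd : (P : ℤ) ∣ ρ.num ∧ (P' : ℤ) ∣ ρ'.num
    · exact Or.inl (left hd.1 hd.2)
    right
    refine ⟨mono ?_ h5, ?_⟩
    · have c1 : (if (P : ℤ) ∣ ρ.num then r₀ * a₀ else P * (r₀ * a₀)) ≤ P * (r₀ * a₀) := by
        split_ifs
        · exact Nat.le_mul_of_pos_left _ P0
        · exact le_rfl
      have c2 : (if (P' : ℤ) ∣ ρ'.num then r₀' * a₀ else P' * (r₀' * a₀)) ≤ P' * (r₀' * a₀) := by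
        split_ifs
        · exact Nat.le_mul_of_pos_left _ P0'
        · exact le_rfl
      apply max_le
      · refine c1.trans ?_
        calc P * (r₀ * a₀) ≤ (P * (r₀ * a₀)) * (P' * r₀') := Nat.le_mul_of_pos_right _ (Nat.mul_pos P0' r00')
          _ = (P * P') * a₀ * r₀ * r₀' := by ring
          _ = _ := by rw [hPP]
      · refine c2.trans ?_
        calc P' * (r₀' * a₀) ≤ (P' * (r₀' * a₀)) * (P * r₀) := Nat.le_mul_of_pos_right _ (Nat.mul_pos P0 r00)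
          _ = (P * P') * a₀ * r₀ * r₀' := by ring
          _ = _ := by rw [hPP]
    · intro hex1 hrr
      refine ⟨t, ht0, h2, h3, ?_⟩
      have r1 : r₀ = 1 := Nat.eq_one_of_mul_eq_one_right hrr
      have r1' : r₀' = 1 := Nat.eq_one_of_mul_eq_one_left hrr
      have hs1 := hs.one_lt
      -- which side carries the prime
      have case : ((((a' - m') - (a - m)) + (m - a) = 1 ∧ ((a - m) - (a' - m')) + (m' - a') = 0) ∨
          (((a' - m') - (a - m)) + (m - a) = 0 ∧ ((a - m) - (a' - m')) + (m' - a') = 1)) := by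
        have : (((a' - m') - (a - m)) + (m - a)) + (((a - m) - (a' - m')) + (m' - a')) = 1 := hex1
        omega
      rcases case with ⟨c1, c2⟩ | ⟨c1, c2⟩
      · have hP1 : P = s := by rw [hPd]; unfold PL; rw [c1, pow_one]
        have hP1' : P' = 1 := by rw [hPd']; unfold PL; rw [c2, pow_zero]
        have hlt : fe s M' pr e.1 < fe s M pr' e.2 := by
          show a + m' < a' + m
          omega
        rw [if_pos hlt]
        have hnd : ¬ (s : ℤ) ∣ ρ.num := fun h6 => hd ⟨by rw [hP1]; exact h6, by rw [hP1']; simp⟩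
        have e5 : (b : ℝ) / (1 : ℕ) * c.γ = b * c.γ := by push_cast; ring
        rw [e5]
        refine Crest.Agent.R4P.LinkX11.bad_x (E := P * (r₀ * b)) ht (by rw [hP1, r1, one_mul]) y0
          hFF.lab.pos hnd hFF.den hFF.near ?_ h3
        rw [hDq]; exact le_max_left _ _
      · have hP1 : P = 1 := by rw [hPd]; unfold PL; rw [c1, pow_zero]
        have hP1' : P' = s := by rw [hPd']; unfold PL; rw [c2, pow_one]
        have hlt : ¬ fe s M' pr e.1 < fe s M pr' e.2 := by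
          show ¬ a + m' < a' + m
          omega
        rw [if_neg hlt]
        have hnd : ¬ (s : ℤ) ∣ ρ'.num := fun h6 => hd ⟨by rw [hP1]; simp, by rw [hP1']; exact h6⟩
        have e5 : (b' : ℝ) / (1 : ℕ) * c.γ = b' * c.γ := by push_cast; ring
        rw [e5]
        refine Crest.Agent.R4P.LinkX11.bad_x (E := P' * (r₀' * b')) ht (by rw [hP1', r1', one_mul]) x0
          hFF.lab'.pos hnd hFF.den' hFF.near' ?_ h3
        rw [hDq]; exact le_max_right _ _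
  · intro h0
    rw [h0, pow_zero] at hPP
    have p1 : P = 1 := Nat.eq_one_of_mul_eq_one_right hPP
    have p1' : P' = 1 := Nat.eq_one_of_mul_eq_one_left hPP
    exact left (by rw [p1]; simp) (by rw [p1']; simp)

end Crest.Agent.R4P.LinkZ33
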