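import Crest.Agent.R4P.YI_25

/-!
R4P (S0004), helper25, module D: **LOCAL COST OF THE CROSS WALK AT A STATE**: `loc_C`
(`eNMC + eONEC + eXITC ≤ cyC + Σ_e lcS e`) from the bounds of the blocks `TT`, `TB`, `TB'`.
-/

set_option autoImplicit false
set_option linter.unusedSectionVars false
set_option linter.unusedVariables false
set_option linter.unusedSimpArgs false
open Finset

namespace Crest.Agent.R4P.YI25

open Crest.Agent.R4.HVW560 Crest.Agent.R4P.AvgItem710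
open Crest.Agent.R4.Tour104 Crest.Agent.R4.Tour758 Crest.Agent.R4.Avg758 Crest.Agent.R4.Clos758
open Crest.Agent.R4.ClosL758 Crest.Agent.R4.ClosG758 Crest.Agent.R4.ClosR758
open Crest.Agent.R4P.Cnt588 Crest.Agent.R4P.Walk560 Crest.Agent.R4P.Item758
open Crest.Agent.R4P.Bld532 (NS All NodeOk Bk dv nd mem_dv mem_nd)
open Crest.Agent.R4P.GSt927 Crest.Agent.R4P.WalkIT579 Crest.Agent.R4P.NMW710
open Crest.Agent.R4P.CrossLoc25 Crest.Agent.R4P.CrossLocC25 Crest.Agent.R4P.WalkC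
open Crest.Agent.R4P.CyC25

variable {Λ κ : Type*} [Fintype Λ] [DecidableEq Λ] [Fintype κ] [DecidableEq κ] [WRel κ]
  {D : Par Λ κ} {sp : ℕ → Finset Λ} {P : Bld532.Par} {W : ℕ → ℝ} {Qp : NS → IT → Prop}
  {Al : Finset ℕ} {RP : Finset (Λ × Λ) → Prop}

/-- `σ` = the tree of a side after an `up` / absent column `p` -/
def Cn (p : ℕ) (τ σ : IT) : Prop :=
  (∃ S, τ = .up p S σ) ∨ (σ = τ ∧ (isL τ ∨ WalkIT579.tp τ ≠ p))

lemma uA_empty {M b pr c : ℕ} {t : IT} (hM : 0 < M) (j : Λ) (y : ℝ) :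
    D.uA M b pr t (∅ : Finset Λ) c j y = 0 :=
  uA_zero hM (fun h => absurd h.1 (Finset.notMem_empty j)) y

section empties
variable {Vc Vx : ℕ → ℝ × ℝ → ℕ × ℕ → ℝ}

/-- empty population on the right -/
lemma TB_empty {p M b pr : ℕ} {t₀ : IT} {A : Finset Λ} {M' b' pr' : ℕ} {σ' : IT} (hp : 0 < p)
    (hM' : 0 < M') : TB D Al Vc Vx 0 p M b pr t₀ A M' b' pr' σ' ∅ := by
  constructor
  · rw [Q_Ro_swap, Q_zero_left (fun j x => uA_empty hM' j x), Qi_empty]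
    simp
  · rw [Q_Ro_swap, Q_zero_left (fun j x => uA_empty (Nat.mul_pos hp hM') j x), Qi_empty]
    simp

/-- empty population on the left -/
lemma TB'_empty {p M b pr : ℕ} {σ : IT} {M' b' pr' : ℕ} {t₀' : IT} {A' : Finset Λ} (hp : 0 < p)
    (hM : 0 < M) : TB' D Al Vc Vx 0 p M b pr σ ∅ M' b' pr' t₀' A' := by
  constructor
  · rw [Q_zero_left (fun j x => uA_empty hM j x), Qi_empty]
    simp
  · rw [Q_zero_left (fun j x => uA_empty (Nat.mul_pos hp hM) j x), Qi_empty]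
    simp

end empties

/-- **bounds of the blocks at a state** (see `TT`, `TB`, `TB'`) -/
structure Blks (D : Par Λ κ) (Al : Finset ℕ) (sp : ℕ → Finset Λ) (Vc Vx : ℕ → ℝ × ℝ → ℕ × ℕ → ℝ)
    (a : ℕ → ℝ) (me : TrG Λ κ → Finset Λ → ℝ) (s : St Λ κ) (b pr : ℕ) (τ : IT) (b' pr' : ℕ)
    (τ' : IT) : Prop where
  tt : ∀ S t₁ t₀ S' t₁' t₀', τ = .br s.p S t₁ t₀ → τ' = .br s.p S' t₁' t₀' →
    ∃ g, TT D Al Vc Vx g s.p s.M b pr t₀ s.A s.M' b' pr' t₀' s.A' ∧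
      2 * g ≤ a s.p * (1 / (s.p:ℝ) * me (D.toDT sp (b * s.p) pr t₀).g s.A) *
        (1 / (s.p:ℝ) * me (D.toDT sp (b' * s.p) pr' t₀').g s.A')
  tb : ∀ S t₁ t₀ σ' A₂, τ = .br s.p S t₁ t₀ → Cn s.p τ' σ' → A₂ ⊆ s.A' → IL D.it A₂ →
    SideI D sp b' pr' σ' A₂ (D.toDT sp b' pr' σ') →
    ∃ g, 0 ≤ g ∧ TB D Al Vc Vx g s.p s.M b pr t₀ s.A s.M' b' pr' σ' A₂ ∧
      2 * g ≤ a s.p * (1 / (s.p:ℝ) * me (D.toDT sp (b * s.p) pr t₀).g s.A) *
        me (D.toDT sp b' pr' σ').g A₂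
  tb' : ∀ S t₁ t₀ σ A₂, τ' = .br s.p S t₁ t₀ → Cn s.p τ σ → A₂ ⊆ s.A → IL D.it A₂ →
    SideI D sp b pr σ A₂ (D.toDT sp b pr σ) →
    ∃ g, 0 ≤ g ∧ TB' D Al Vc Vx g s.p s.M b pr σ A₂ s.M' b' pr' t₀ s.A' ∧
      2 * g ≤ a s.p * me (D.toDT sp b pr σ).g A₂ *
        (1 / (s.p:ℝ) * me (D.toDT sp (b' * s.p) pr' t₀).g s.A')

/-- side data of an `up` view -/
lemma vwup_item (hh : YH D sp P W Qp) {u : NS} {τ : IT} {A : Finset Λ} {d : DT Λ κ}
    (h : SY D sp Qp u τ A d) {p : ℕ} (ht : d.top ≤ p) {Sp : Finset Λ} {e : DT Λ κ}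
    (hv : vw p d = .up Sp e) :
    ∃ σ, e = D.toDT sp u.B u.A σ ∧ Cn p τ σ ∧ Qi D Al σ A ⊆ Qi D Al τ A ∧
      SideI D sp u.B u.A σ A e ∧ SideI D sp u.B u.A σ (A ∩ Sp) e ∧ SideI D sp u.B u.A σ (A \ Sp) e ∧
      IL D.it (A ∩ Sp) ∧ IL D.it (A \ Sp) ∧ Disjoint (Qi D Al σ (A ∩ Sp)) (Qi D Al σ (A \ Sp)) ∧
      (Sp = ∅ ∨ IL D.it Sp) := by
  rcases vw_up hv with h1 | ⟨rfl, rfl, h2⟩
  · obtain ⟨S, τ₁, rfl, rfl, rfl⟩ := toDT_up (h.S.eq.symm.trans h1)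
    exact ⟨τ₁, rfl, Or.inl ⟨S, rfl⟩, Qi_sub (Finset.Subset.refl _) (Finset.Subset.refl _), h.S.up,
      (h.S.spl hh.spok).1, (h.S.spl hh.spok).2, IL_inter h.il (hh.il _), IL_sdiff h.il (hh.il _),
      Qi_disj_sp (hh.il _), Or.inr (hh.il _)⟩
  · simp only [Finset.inter_empty, Finset.sdiff_empty]
    refine ⟨τ, h.S.eq, Or.inr ⟨rfl, ?_⟩, Finset.Subset.refl _, h.S, h.S.pop (AdS_empty _), h.S, ?_,
      h.il, ?_, Or.inl trivial⟩
    · have h4 : e.top = WalkIT579.tp τ := by rw [h.S.eq]; exact WalkIT579.toDT_top D sp _ _ τ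
      rcases h2 with h2 | h2
      · left
        rw [h.S.eq] at h2
        exact (WalkIT579.toDT_leaf D sp _ _ τ).1 h2
      · right; rw [← h4]; exact h2
    · intro j j' _; simp
    · rw [Qi_empty]; exact Finset.disjoint_empty_left _

set_option maxHeartbeats 2000000 in
open Classical in
/-- **LOCAL COST OF THE CROSS WALK AT A STATE** -/
theorem loc_C (hh : YH D sp P W Qp) {Vs : ℝ × ℝ → ℕ × ℕ → ℝ} {Vc Vx : ℕ → ℝ × ℝ → ℕ × ℕ → ℝ}
    (h0 : ∀ s e, 0 ≤ Vs s e) (h1 : ∀ l s e, 0 ≤ Vc l s e) (h2 : ∀ l s e, 0 ≤ Vx l s e)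
    {μ me : TrG Λ κ → Finset Λ → ℝ} {B : ℝ} (hB : 0 ≤ B) (hμ : ∀ t : TrG Λ κ, t.Ok → ∀ A, 0 ≤ μ t A)
    (hme : ∀ t A, 0 ≤ me t A) (hun : ∀ t A S, me t (A ∩ S) + me t (A \ S) ≤ me t A)
    {a : ℕ → ℝ} (ha : ∀ p, 0 ≤ a p) {stp : St Λ κ → Prop} {s : St Λ κ} {u u' : NS} {τ τ' : IT}
    (h : YI D sp Qp RP s u u' τ τ')
    (hb : Gen stp s → Blks D Al sp Vc Vx a me s u.B u.A τ u'.B u'.A τ') :
    eNMC stp s + eONEC stp s + eXITC stp μ B s ≤
      cyC stp a me s + ∑ e ∈ Ep D Al s τ τ', lcS stp Vs Vc Vx s u u' τ τ' e := by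
  have hsum : 0 ≤ ∑ e ∈ Ep D Al s τ τ', lcS stp Vs Vc Vx s u u' τ τ' e :=
    Finset.sum_nonneg fun e _ => lcS_nonneg h0 h1 h2 _ _ _ _ _ _ _
  by_cases hG : Gen stp s
  swap
  · unfold eNMC eONEC eXITC cyC
    rw [if_neg hG, if_neg hG, if_neg hG, if_neg hG]
    simpa using hsum
  obtain ⟨hl, hs, hPL, hPR⟩ := id hG
  obtain ⟨hpp, -, -⟩ := h.lev hh hl
  have hst : ¬ ((s.t.isLeaf ∧ s.t'.isLeaf) ∨ stp s) := by rw [not_or]; exact ⟨hl, hs⟩
  have M0 := h.mL.pos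
  have M0' := h.mR.pos
  have topL : s.t.top ≤ s.p := le_max_left _ _
  have topR : s.t'.top ≤ s.p := le_max_right _ _
  have bl := hb hG
  have hw0' : (0:ℝ) ≤ 1 / (s.p:ℝ) := by positivity
  have lcA : Act stp s → ∀ e, lcS stp Vs Vc Vx s u u' τ τ' e =
      lcC Vc Vx s.p s.M u.B u.A s.M' u'.B u'.A τ τ' e := by
    intro hA e
    unfold lcS
    rw [if_neg hst, if_pos hA]
  unfold eNMC eONEC eXITC cyC
  rw [if_pos hG, if_pos hG, if_pos hG, if_pos hG]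
  rcases hv : vw s.p s.t with ⟨w, r, t₁, t₀, v, B₁, G⟩ | ⟨r, t₁, t₀⟩ | ⟨Sp, d⟩ <;>
  rcases hv' : vw s.p s.t' with ⟨w', r', t₁', t₀', v', B₁', G'⟩ | ⟨r', t₁', t₀'⟩ | ⟨Sp', d'⟩ <;>
  simp only [add_zero, zero_add]
  · -- br, br
    have hM := St.not_isPL_br hPL hv hv'
    have hM' := St.not_isPR_br hPR hv hv'
    have sL := h.L
    rw [vw_br hv] at sL
    have sR := h.R
    rw [vw_br hv'] at sR
    rcases toDT_br sL.S.eq.symm with ⟨S, τ₁, τ₀, rfl, rfl, rfl, rfl, rfl, rfl⟩ | ⟨τ₁, rfl, rfl, rfl, -, rfl, rfl⟩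
    · rcases toDT_br sR.S.eq.symm with ⟨S', τ₁', τ₀', rfl, rfl, rfl, rfl, rfl, rfl⟩ | ⟨τ₁', rfl, rfl, rfl, -, rfl, rfl⟩
      · -- tie, tie
        have hA : Act stp s := by
          refine ⟨hG, ?_⟩
          simp only [hv, hv']
          have : (0:ℝ) < 1 / (s.p:ℝ) := (wt_pos hpp).1
          exact ⟨this.ne', this.ne'⟩
        obtain ⟨g, hT, hg⟩ := bl.tt _ _ _ _ _ _ rfl rfl
        have key := case_tt (D := D) (Al := Al) h1 h2 (μ := μ) hB hμ (s := s) sL.S sR.S M0 M0' hM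
          (fun q hq => br_ndvd hh sL hq) (fun q hq => br_ndvd hh sR hq) hT
        rw [Finset.sum_congr rfl fun e _ => lcA hA e]
        unfold GD at key
        linarith
      · -- tie, pull
        rw [Q_zero_right (avg_rk_zero M0' _ _)]
        simpa using hsum
    · -- pull, any
      rw [Q_zero_left (avg_rk_zero M0 _ _)]
      simpa using hsum
  · -- br, add
    exact hsum
  · -- br, up
    have hM := (St.not_isPL_up hPL hv hv').1
    have hw0 := (St.not_isPL_up hPL hv hv').2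
    have hA : Act stp s := by
      refine ⟨hG, ?_⟩
      simp only [hv, hv']
    have sL := h.L
    rw [vw_br hv] at sL
    rcases toDT_br sL.S.eq.symm with ⟨S, τ₁, τ₀, rfl, rfl, rfl, rfl, rfl, rfl⟩ | ⟨τ₁, rfl, rfl, rfl, -, rfl, rfl⟩
    swap
    · exact absurd rfl hw0
    obtain ⟨σ, hσ, hC, sub, S0, Si, Sd, ili, ild, dj, hSp⟩ := vwup_item (Al := Al) hh h.R topR hv'
    have eg : s.t'.g = (D.toDT sp u'.B u'.A σ).g := by rw [← vw_up_g hv', hσ]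
    have hX : 0 ≤ a s.p * (1 / (s.p:ℝ) * me (D.toDT sp (u.B * s.p) u.A τ₀).g s.A) :=
      mul_nonneg (ha _) (mul_nonneg hw0' (hme _ _))
    rw [Finset.sum_congr rfl fun e _ => lcA hA e]
    by_cases hd : s.p ∣ s.M'
    · rw [if_pos hd, if_pos hd]
      obtain ⟨g, hg0, hT, hg⟩ := bl.tb _ _ _ σ s.A' rfl hC subset_rfl h.R.il (hσ ▸ S0)
      have key := case_t1 (D := D) (Al := Al) h1 h2 (μ := μ) hB hμ (s := s) sL.S S0 M0 M0' hM sub hT
        (insert s.p s.O)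
      unfold GD at key
      rw [eg]
      linarith
    · rw [if_neg hd, if_neg hd]
      have hk : ∀ A₂ : Finset Λ, (A₂ = s.A' ∩ Sp' ∨ A₂ = s.A' \ Sp') → ∃ g, 0 ≤ g ∧
          TB D Al Vc Vx g s.p s.M u.B u.A τ₀ s.A s.M' u'.B u'.A σ A₂ ∧
          2 * g ≤ a s.p * (1 / (s.p:ℝ) * me (D.toDT sp (u.B * s.p) u.A τ₀).g s.A) *
            me (D.toDT sp u'.B u'.A σ).g A₂ := by
        intro A₂ hA₂
        by_cases he : A₂ = ∅
        · rw [he]
          exact ⟨0, le_rfl, TB_empty hpp.pos M0', by rw [mul_zero]; exact mul_nonneg hX (hme _ _)⟩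
        · rcases hA₂ with rfl | rfl
          · exact bl.tb _ _ _ σ _ rfl hC Finset.inter_subset_left ili (hσ ▸ Si)
          · exact bl.tb _ _ _ σ _ rfl hC Finset.sdiff_subset ild (hσ ▸ Sd)
      obtain ⟨g₁, n1, T1, G1⟩ := hk _ (Or.inl rfl)
      obtain ⟨g₀, n0, T0, G0⟩ := hk _ (Or.inr rfl)
      have key := case_t2 (D := D) (Al := Al) h1 h2 (μ := μ) hB hμ (s := s) sL.S Si Sd M0 M0' hM
        ((Qi_sub (Finset.Subset.refl _) Finset.inter_subset_left).trans sub)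
        ((Qi_sub (Finset.Subset.refl _) Finset.sdiff_subset).trans sub) dj T1 T0 (insert s.p s.O)
      unfold GD at key
      rw [eg]
      have hu := mul_le_mul_of_nonneg_left (hun (D.toDT sp u'.B u'.A σ).g s.A' Sp') hX
      linarith
  · exact hsum
  · exact hsum
  · exact hsum
  · -- up, br
    have hM := (St.not_isPR_up hPR hv hv').1
    have hw0 := (St.not_isPR_up hPR hv hv').2
    have hA : Act stp s := by
      refine ⟨hG, ?_⟩
      simp only [hv, hv']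
    have sR := h.R
    rw [vw_br hv'] at sR
    rcases toDT_br sR.S.eq.symm with ⟨S, τ₁, τ₀, rfl, rfl, rfl, rfl, rfl, rfl⟩ | ⟨τ₁, rfl, rfl, rfl, -, rfl, rfl⟩
    swap
    · exact absurd rfl hw0
    obtain ⟨σ, hσ, hC, sub, S0, Si, Sd, ili, ild, dj, hSp⟩ := vwup_item (Al := Al) hh h.L topL hv
    have eg : s.t.g = (D.toDT sp u.B u.A σ).g := by rw [← vw_up_g hv, hσ]
    have hX : 0 ≤ 1 / (s.p:ℝ) * me (D.toDT sp (u'.B * s.p) u'.A τ₀).g s.A' :=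
      mul_nonneg hw0' (hme _ _)
    rw [Finset.sum_congr rfl fun e _ => lcA hA e]
    by_cases hd : s.p ∣ s.M
    · rw [if_pos hd, if_pos hd]
      obtain ⟨g, hg0, hT, hg⟩ := bl.tb' _ _ _ σ s.A rfl hC subset_rfl h.L.il (hσ ▸ S0)
      have key := case_1t (D := D) (Al := Al) h1 h2 (μ := μ) hB hμ (s := s) sR.S S0 M0 M0' hM sub hT
        (insert s.p s.O')
      unfold GD at key
      rw [eg]
      linarith
    · rw [if_neg hd, if_neg hd]
      have hk : ∀ A₂ : Finset Λ, (A₂ = s.A ∩ Sp ∨ A₂ = s.A \ Sp) → ∃ g, 0 ≤ g ∧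
          TB' D Al Vc Vx g s.p s.M u.B u.A σ A₂ s.M' u'.B u'.A τ₀ s.A' ∧
          2 * g ≤ a s.p * me (D.toDT sp u.B u.A σ).g A₂ *
            (1 / (s.p:ℝ) * me (D.toDT sp (u'.B * s.p) u'.A τ₀).g s.A') := by
        intro A₂ hA₂
        by_cases he : A₂ = ∅
        · rw [he]
          exact ⟨0, le_rfl, TB'_empty hpp.pos M0, by
            rw [mul_zero]; exact mul_nonneg (mul_nonneg (ha _) (hme _ _)) hX⟩
        · rcases hA₂ with rfl | rfl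
          · exact bl.tb' _ _ _ σ _ rfl hC Finset.inter_subset_left ili (hσ ▸ Si)
          · exact bl.tb' _ _ _ σ _ rfl hC Finset.sdiff_subset ild (hσ ▸ Sd)
      obtain ⟨g₁, n1, T1, G1⟩ := hk _ (Or.inl rfl)
      obtain ⟨g₀, n0, T0, G0⟩ := hk _ (Or.inr rfl)
      have key := case_2t (D := D) (Al := Al) h1 h2 (μ := μ) hB hμ (s := s) sR.S Si Sd M0 M0' hM
        ((Qi_sub (Finset.Subset.refl _) Finset.inter_subset_left).trans sub)
        ((Qi_sub (Finset.Subset.refl _) Finset.sdiff_subset).trans sub) dj T1 T0 (insert s.p s.O')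
      unfold GD at key
      rw [eg]
      have hu := mul_le_mul_of_nonneg_right (mul_le_mul_of_nonneg_left
        (hun (D.toDT sp u.B u.A σ).g s.A Sp) (ha s.p)) hX
      linarith
  · exact hsum
  · exact hsum

end Crest.Agent.R4P.YI25
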