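import Crest.Agent.R4P.SwapX_25
import Crest.Agent.R4P.WmfL_25
import Crest.Agent.R4P.ShrE_28
import Crest.Agent.R4P.XStop_25
import Crest.Agent.R4P.NumX_34

/-!
R4P (S0004), helper25, module D, group [X]: **assembly of the local costs of the cross walk of a crossing state**.

* `lE`, `PSup_lE`, `locH_of` : `LocH` from a pair supersolution which pays everything at the ends.
* `JC_next` : the cofactors along the walk; `IvX` : invariants of the walk; `IvX.next`, `IvX.start`.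
-/

set_option autoImplicit false
set_option linter.unusedSectionVars false
set_option linter.unusedVariables false
open Finset

namespace Crest.Agent.R4P.LocX25

open Crest.Agent.R4.HVW560 Crest.Agent.R4P.AvgItem710
open Crest.Agent.R4.Tour104 Crest.Agent.R4.Tour758 Crest.Agent.R4.Avg758 Crest.Agent.R4.Clos758
open Crest.Agent.R4.ClosL758 Crest.Agent.R4.ClosG758 Crest.Agent.R4.ClosR758
open Crest.Agent.R4.Fam464 Crest.Agent.R4P.Cnt588 Crest.Agent.R4P.Walk560 Crest.Agent.R4P.Item758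
open Crest.Agent.R4P.Bld532 (NS All NodeOk Bk dv nd mem_dv mem_nd)
open Crest.Agent.R4P.GSt927 Crest.Agent.R4P.WalkIT579 Crest.Agent.R4P.NMW710
open Crest.Agent.R4P.CrossLoc25 Crest.Agent.R4P.CrossLocC25 Crest.Agent.R4P.WalkC
open Crest.Agent.R4P.CyC25 Crest.Agent.R4P.YI25
open Crest.Agent.R4P.Data758 Crest.Agent.R4.Piece464
open Crest.Agent.R4P.BlksP29 Crest.Agent.R4P.GlueP29 Crest.Agent.R4P.Glue29 Crest.Agent.R4P.IvX29
open Crest.Agent.R4P.ShrW34 Crest.Agent.R4P.ShrG28 Crest.Agent.R4P.CStop25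
open Crest.Agent.R4P.TBLeaf28 (JC)
open Crest.Agent.R4P.CopM34 (Cop)

section gen
variable {Λ κ : Type*} [Fintype Λ] [DecidableEq Λ] [Fintype κ] [DecidableEq κ] [WRel κ]
  {D : Par Λ κ} {sp : ℕ → Finset Λ} {P : Bld532.Par} {W : ℕ → ℝ} {Qp : NS → IT → Prop}
  {Al : Finset ℕ} {RP : Finset (Λ × Λ) → Prop} {ρ : ℕ → ℝ}
  {stp : St Λ κ → Prop} {Iv : St Λ κ → NS → NS → IT → IT → Prop}
  {l Φ : St Λ κ → NS → NS → IT → IT → ℕ × ℕ → ℝ}

open Classical in
/-- what a pair pays at a state: `l` at the live states, the whole potential at the ends -/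
noncomputable def lE (stp : St Λ κ → Prop) (l Φ : St Λ κ → NS → NS → IT → IT → ℕ × ℕ → ℝ)
    (s : St Λ κ) (u u' : NS) (τ τ' : IT) (e : ℕ × ℕ) : ℝ :=
  max 0 (if End stp s then Φ s u u' τ τ' e else l s u u' τ τ' e)

lemma lE_nonneg (s : St Λ κ) (u u' : NS) (τ τ' : IT) (e : ℕ × ℕ) :
    0 ≤ lE stp l Φ s u u' τ τ' e := le_max_left _ _

lemma le_lE_end {s : St Λ κ} (hE : End stp s) (u u' : NS) (τ τ' : IT) (e : ℕ × ℕ) :
    Φ s u u' τ τ' e ≤ lE stp l Φ s u u' τ τ' e := by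
  unfold lE
  rw [if_pos hE]
  exact le_max_right _ _

lemma le_lE_live {s : St Λ κ} (hE : ¬ End stp s) (u u' : NS) (τ τ' : IT) (e : ℕ × ℕ) :
    l s u u' τ τ' e ≤ lE stp l Φ s u u' τ τ' e := by
  unfold lE
  rw [if_neg hE]
  exact le_max_right _ _

/-- **the whole potential is paid at the ends** -/
theorem PSup_lE (hS : PSup D Al sp Qp RP stp Iv l Φ)
    (hl : ∀ s u u' τ τ', YI D sp Qp RP s u u' τ τ' → ∀ e, 0 ≤ l s u u' τ τ' e)
    (hΦ : ∀ s u u' τ τ', YI D sp Qp RP s u u' τ τ' → ∀ e, 0 ≤ Φ s u u' τ τ' e) :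
    PSup D Al sp Qp RP stp Iv (lE stp l Φ) Φ where
  le := by
    intro s u u' τ τ' hI h e he
    unfold lE
    refine max_le (hΦ _ _ _ _ _ h e) ?_
    split_ifs
    · exact le_rfl
    · exact hS.le s u u' τ τ' hI h e he
  step := by
    intro s u u' τ τ' hI h hpp hs c hc hch hact e he
    have e1 : lE stp l Φ s u u' τ τ' e = l s u u' τ τ' e := by
      unfold lE
      rw [if_neg (show ¬ End stp s from hs)]
      exact max_eq_right (hl _ _ _ _ _ h e)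
    rw [e1]
    exact hS.step s u u' τ τ' hI h hpp hs c hc hch hact e he

/-- **local hypotheses of the cross walk** -/
theorem locH_of {Vs : ℝ × ℝ → ℕ × ℕ → ℝ} {Vc Vx : ℕ → ℝ × ℝ → ℕ × ℕ → ℝ} {K : ℝ}
    {μ : TrG Λ κ → Finset Λ → ℝ} {B : ℝ} (hK : 0 ≤ K)
    (hIv : ∀ s u u' τ τ', Iv s u u' τ τ' → YI D sp Qp RP s u u' τ τ' → ∀ c : CR Λ κ,
      (c.w, c.s) ∈ nxtC stp s → Chd D Al sp Qp RP s.p s u u' τ τ' c → Iv c.s c.v c.v' c.σ c.σ')
    (hsh : ∀ s u u' τ τ', Iv s u u' τ τ' → YI D sp Qp RP s u u' τ τ' → ¬ End stp s →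
      eSHRC stp s ≤ ∑ e ∈ Ep D Al s τ τ', l s u u' τ τ' e)
    (hen : ∀ s u u' τ τ', Iv s u u' τ τ' → YI D sp Qp RP s u u' τ τ' → End stp s →
      Xs μ B s ≤ ∑ e ∈ Ep D Al s τ τ', (K * potS Vs Vc Vx s u u' τ τ' e + Φ s u u' τ τ' e)) :
    LocH D Al sp Qp RP stp Iv (lE stp l Φ) Vs Vc Vx K (fun _ => 0) (fun _ => 0) μ B where
  iv := hIv
  K0 := hK
  l0 := fun s u u' τ τ' e => lE_nonneg s u u' τ τ' e
  s0 := fun _ => le_rfl
  t0 := fun _ => le_rfl
  sh := by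
    intro s u u' τ τ' hI h hE
    rw [zero_add]
    exact (hsh s u u' τ τ' hI h hE).trans
      (Finset.sum_le_sum fun e _ => le_lE_live hE u u' τ τ' e)
  en := by
    intro s u u' τ τ' hI h hE
    rw [zero_add]
    refine (hen s u u' τ τ' hI h hE).trans (Finset.sum_le_sum fun e _ => ?_)
    have := le_lE_end (l := l) (Φ := Φ) hE u u' τ τ' e
    linarith

/-! ### the cofactors along the walk -/

/-- **the present cofactors still divide the ones of the crossing state** -/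
theorem JC_next {x0 y0 : ℕ × ℕ → ℕ} {p M A B M' A' B' : ℕ} {τ τ' : IT}
    {M₂ A₂ B₂ M₂' A₂' B₂' : ℕ} {σ σ' : IT} {e : ℕ × ℕ} (hp : p.Prime)
    (hJ : JC x0 y0 M A M' A' e)
    (h : Lk p M A B M' A' B' τ τ' M₂ A₂ B₂ M₂' A₂' B₂' σ σ' e) :
    JC x0 y0 M₂ A₂ M₂' A₂' e := by
  obtain ⟨⟨T, T', ht, k1, k2⟩, -, -, -, -⟩ := h
  have m1 := Kd.mv k1
  have m2 := Kd.mv k2
  have key : ∀ {i i' : Bool},
      Crest.Agent.R4.CrossInv709.Mv p i (UI M A e.1, (FI M A e.1 : ℝ) * B) (UI M₂ A₂ e.1, (FI M₂ A₂ e.1 : ℝ) * B₂) →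
      Crest.Agent.R4.CrossInv709.Mv p i' (UI M' A' e.2, (FI M' A' e.2 : ℝ) * B')
        (UI M₂' A₂' e.2, (FI M₂' A₂' e.2 : ℝ) * B₂') → JC x0 y0 M₂ A₂ M₂' A₂' e := by
    intro i i' a a'
    obtain ⟨h1, h2⟩ := CofMono28.cof_mv hp a a'
    exact ⟨hJ.px, hJ.py, h1.trans hJ.x, h2.trans hJ.y⟩
  cases T <;> cases T' <;> first | exact ht.elim | skip
  · have e1 : UI M₂ A₂ e.1 = UI M A e.1 := congrArg Prod.fst (m1.1 rfl)
    have e2 : UI M₂' A₂' e.2 = UI M' A' e.2 := congrArg Prod.fst (m2.1 rfl)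
    exact ⟨hJ.px, hJ.py, by rw [e1, e2]; exact hJ.x, by rw [e1, e2]; exact hJ.y⟩
  · exact key (m1.2.1 rfl) (m2.2.1 rfl)
  · exact key (m1.2.1 rfl) (m2.2.2 rfl)
  · exact key (m1.2.2 rfl) (m2.2.1 rfl)

/-! ### the last column -/

/-- the pairs which count at a state, the column of the relation given -/
theorem lkg_at {s : St Λ κ} {u u' : NS} {τ τ' : IT} {l : ℕ} (h1 : s.R = Ro (D.rho l))
    (h3 : s.p ≤ l) (hy : YI D sp Qp RP s u u' τ τ') {e : ℕ × ℕ} (he : e ∈ Ep D Al s τ τ')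
    {R : Finset (Λ × Λ)} (hR : R ⊆ s.R)
    (hPE : e ∈ D.PE R (D.uA s.M u.B u.A τ s.A 1) (D.uA s.M' u'.B u'.A τ' s.A' 1)) :
    LkG D Qp (SE s.M u.B u.A s.M' u'.B u'.A e) l e := by
  obtain ⟨he1, he2⟩ := Finset.mem_product.1 he
  obtain ⟨t1, t2⟩ := tp_le_p hy
  refine ⟨s.M, u, τ, s.A, 1, s.M', u', τ', s.A', 1,
    ⟨hy.mL.pos, hy.L.S.hb, hy.L.S.hF, hy.L.S.hW, Or.inl rfl, hy.L.q, hy.L.ok, Qi_items he1,
      fun l' hl' => ((mt_le_tp hy.L.ok hl').trans t1).trans h3⟩,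
    ⟨hy.mR.pos, hy.R.S.hb, hy.R.S.hF, hy.R.S.hW, Or.inl rfl, hy.R.q, hy.R.ok, Qi_items he2,
      fun l' hl' => ((mt_le_tp hy.R.ok hl').trans t2).trans h3⟩, ?_, ?_, ?_⟩
  · simp only [Nat.div_one]
    exact hy.circ
  · simp only [Nat.div_one]
  · rw [← h1]
    obtain ⟨j, j', g1, g2, g3, g4⟩ := Par.mem_PE.1 hPE
    exact Par.mem_PE.2 ⟨j, j', hR g1, g2, g3, g4⟩

/-- last column of a state, at most `b` -/
def LCb (D : Par Λ κ) (b : ℕ) (s : St Λ κ) : Prop :=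
  ∃ l : ℕ, s.R = Ro (D.rho l) ∧ l.Prime ∧ s.p ≤ l ∧ l ≤ b

lemma LCb.lc {b : ℕ} {s : St Λ κ} (h : LCb D b s) : LC D s := by
  obtain ⟨l, h1, h2, h3, -⟩ := h
  exact ⟨l, h1, h2, h3⟩

theorem LCb.next {b : ℕ} {s : St Λ κ} {u u' : NS} {τ τ' : IT} (hpp : s.p.Prime) (hpb : s.p ≤ b)
    (h : LCb D b s) {c : CR Λ κ} (hc : Chd D Al sp Qp RP s.p s u u' τ τ' c) : LCb D b c.s := by
  obtain ⟨l, h1, h2, h3, h4⟩ := h
  rcases hc.rl with hr | ⟨hr, -, -⟩
  · exact ⟨s.p, hr, hpp, hc.ple, hpb⟩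
  · exact ⟨l, hr.trans h1, h2, hc.ple.trans h3, h4⟩

/-- last column of a state, between `n₀` and `b` -/
def LCp (D : Par Λ κ) (n₀ b : ℕ) (s : St Λ κ) : Prop :=
  ∃ l : ℕ, s.R = Ro (D.rho l) ∧ l.Prime ∧ s.p ≤ l ∧ l ≤ b ∧ n₀ < l

theorem LCp.next {n₀ b : ℕ} {s : St Λ κ} {u u' : NS} {τ τ' : IT} (hpp : s.p.Prime)
    (hn : n₀ < s.p) (hpb : s.p ≤ b) (h : LCp D n₀ b s) {c : CR Λ κ}
    (hc : Chd D Al sp Qp RP s.p s u u' τ τ' c) : LCp D n₀ b c.s := by
  obtain ⟨l, h1, h2, h3, h4, h5⟩ := h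
  rcases hc.rl with hr | ⟨hr, -, -⟩
  · exact ⟨s.p, hr, hpp, hc.ple, hpb, hn⟩
  · exact ⟨l, hr.trans h1, h2, hc.ple.trans h3, h4, h5⟩

/-- the columns of the live states are `> P.p0` -/
lemma live_p0 (hh : YH D sp P W Qp) {s : St Λ κ} {u u' : NS} {τ τ' : IT}
    (h : YI D sp Qp RP s u u' τ τ') (hl : ¬ (s.t.isLeaf ∧ s.t'.isLeaf)) : P.p0 < s.p := by
  by_cases h1 : s.t.isLeaf
  · have h2 : ¬ s.t'.isLeaf := fun k => hl ⟨h1, k⟩
    have n2 := (WalkIT579.nodeOk_hi (hh.nd _ _ h.R.q.self) (RawB25.not_isL_R h h2)).2.1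
    have e2 : s.t'.top = WalkIT579.tp τ' := by rw [h.R.S.eq]; exact WalkIT579.toDT_top _ _ _ _ τ'
    exact lt_of_lt_of_le n2 (by rw [← e2]; exact le_max_right _ _)
  · have n1 := (WalkIT579.nodeOk_hi (hh.nd _ _ h.L.q.self) (RawB25.not_isL_L h h1)).2.1
    have e1 : s.t.top = WalkIT579.tp τ := by rw [h.L.S.eq]; exact WalkIT579.toDT_top _ _ _ _ τ
    exact lt_of_lt_of_le n1 (by rw [← e1]; exact le_max_left _ _)

/-! ### the populations -/

/-- the retained populations of the stripped trees are void -/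
lemma vw_up_empty {b pr p : ℕ} {τ : IT} {S : Finset Λ} {u : DT Λ κ}
    (h : vw p (D.toDT (fun _ => ∅) b pr τ) = .up S u) : S = ∅ := by
  cases τ with
  | leaf T =>
    simp only [Par.toDT, vw] at h
    injection h with h1 h2
    exact h1.symm
  | br q T t₁ t₀ =>
    simp only [Par.toDT, vw] at h
    split_ifs at h
    injection h with h1 h2
    exact h1.symm
  | add q t₁ t₀ =>
    simp only [Par.toDT, vw] at h
    split_ifs at h
    injection h with h1 h2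
    exact h1.symm
  | up q T t =>
    simp only [Par.toDT, vw] at h
    split_ifs at h
    · injection h with h1 h2
      exact h1.symm
    · injection h with h1 h2
      exact h1.symm
  | pl q t =>
    simp only [Par.toDT, vw] at h
    split_ifs at h
    injection h with h1 h2
    exact h1.symm
  | far q t₁ t₀ =>
    simp only [Par.toDT, vw] at h
    split_ifs at h
    injection h with h1 h2
    exact h1.symm

set_option maxHeartbeats 1000000 in
/-- populations of the cross walk on stripped trees -/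
theorem pop_nxt0C {stp : St Λ κ → Prop} {s : St Λ κ}
    (hL : ∀ (S : Finset Λ) (u : DT Λ κ), vw s.p s.t = .up S u → S = ∅)
    (hR : ∀ (S : Finset Λ) (u : DT Λ κ), vw s.p s.t' = .up S u → S = ∅) :
    ∀ q ∈ nxt0C stp s, (q.2.A = s.A ∨ q.2.A = ∅) ∧ (q.2.A' = s.A' ∨ q.2.A' = ∅) := by
  intro q hq
  unfold nxt0C at hq
  by_cases h1 : s.t.isLeaf ∧ s.t'.isLeaf
  · simp [h1] at hq
  by_cases h2 : stp s
  · simp [h1, h2] at hq
  rw [if_neg h1, if_neg h2] at hq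
  by_cases hPL : s.isPL
  · rw [if_pos hPL] at hq
    obtain ⟨w, r, t₁, t₀, v, B, G, hv, et, ⟨hd, e⟩ | ⟨hd, -, e⟩⟩ := St.isPL_cases hPL <;>
    · rw [e] at hq
      simp only [List.mem_cons, List.not_mem_nil, or_false] at hq
      rcases hq with rfl | rfl <;> exact ⟨Or.inl rfl, Or.inl rfl⟩
  by_cases hPR : s.isPR
  · rw [if_neg hPL, if_pos hPR] at hq
    obtain ⟨w, r, t₁, t₀, v, B, G, hv, et, ⟨hd, e⟩ | ⟨hd, -, e⟩⟩ := St.isPR_cases hPR <;>
    · rw [e] at hq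
      simp only [List.mem_cons, List.not_mem_nil, or_false] at hq
      rcases hq with rfl | rfl <;> exact ⟨Or.inl rfl, Or.inl rfl⟩
  rw [if_neg hPL, if_neg hPR] at hq
  rcases hv : vw s.p s.t with ⟨w, r, t₁, t₀, v, B, G⟩ | ⟨r, t₁, t₀⟩ | ⟨Sp, u⟩ <;>
  rcases hv' : vw s.p s.t' with ⟨w', r', t₁', t₀', v', B', G'⟩ | ⟨r', t₁', t₀'⟩ | ⟨Sp', u'⟩ <;>
  simp only [hv, hv'] at hq
  · simp only [List.mem_cons, List.not_mem_nil, or_false] at hq
    rcases hq with rfl | rfl | rfl <;> exact ⟨Or.inl rfl, Or.inl rfl⟩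
  · simp only [List.mem_cons, List.not_mem_nil, or_false] at hq
    rcases hq with rfl | rfl <;> exact ⟨Or.inl rfl, Or.inl rfl⟩
  · obtain rfl := hR _ _ hv'
    simp only [Finset.inter_empty, Finset.sdiff_empty] at hq
    split_ifs at hq <;> simp only [List.mem_cons, List.not_mem_nil, or_false] at hq
    · subst hq; exact ⟨Or.inl rfl, Or.inl rfl⟩
    · rcases hq with rfl | rfl | rfl
      · exact ⟨Or.inl rfl, Or.inr rfl⟩
      · exact ⟨Or.inl rfl, Or.inr rfl⟩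
      · exact ⟨Or.inl rfl, Or.inl rfl⟩
  · simp only [List.mem_cons, List.not_mem_nil, or_false] at hq
    rcases hq with rfl | rfl <;> exact ⟨Or.inl rfl, Or.inl rfl⟩
  · simp only [List.mem_cons, List.not_mem_nil, or_false] at hq
    rcases hq with rfl | rfl <;> exact ⟨Or.inl rfl, Or.inl rfl⟩
  · simp only [List.mem_cons, List.not_mem_nil, or_false] at hq
    rcases hq with rfl | rfl <;> exact ⟨Or.inl rfl, Or.inl rfl⟩
  · obtain rfl := hL _ _ hv
    simp only [Finset.inter_empty, Finset.sdiff_empty] at hq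
    split_ifs at hq <;> simp only [List.mem_cons, List.not_mem_nil, or_false] at hq
    · subst hq; exact ⟨Or.inl rfl, Or.inl rfl⟩
    · rcases hq with rfl | rfl | rfl
      · exact ⟨Or.inr rfl, Or.inl rfl⟩
      · exact ⟨Or.inr rfl, Or.inl rfl⟩
      · exact ⟨Or.inl rfl, Or.inl rfl⟩
  · simp only [List.mem_cons, List.not_mem_nil, or_false] at hq
    rcases hq with rfl | rfl <;> exact ⟨Or.inl rfl, Or.inl rfl⟩
  · simp only [List.mem_cons, List.not_mem_nil, or_false] at hq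
    subst hq; exact ⟨Or.inl rfl, Or.inl rfl⟩

/-- full or void populations -/
def Pop (s : St Λ κ) : Prop :=
  (s.A = Finset.univ ∨ s.A = ∅) ∧ (s.A' = Finset.univ ∨ s.A' = ∅)

/-- **the populations stay full or void** (stripped trees) -/
theorem Pop.next {stp : St Λ κ → Prop} {s : St Λ κ} {u u' : NS} {τ τ' : IT}
    (hy : YI D (fun _ => ∅) Qp RP s u u' τ τ') (h : Pop s) {q : ℝ × St Λ κ} (hq : q ∈ nxtC stp s) :
    Pop q.2 := by
  obtain ⟨h1, h2⟩ := pop_nxt0C (s := s)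
    (fun S u hv => by rw [hy.L.S.eq] at hv; exact vw_up_empty hv)
    (fun S u hv => by rw [hy.R.S.eq] at hv; exact vw_up_empty hv) q (mem_nxtC.1 hq).1
  refine ⟨?_, ?_⟩
  · rcases h1 with e | e
    · rw [e]; exact h.1
    · exact Or.inr e
  · rcases h2 with e | e
    · rw [e]; exact h.2
    · exact Or.inr e

/-! ### the invariants -/

/-- **invariants of the cross walk** -/
structure IvX (D : Par Λ κ) (Al : Finset ℕ) (b Mz Mz' : ℕ) (x0 y0 g g' : ℕ × ℕ → ℕ)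
    (s₀ : ℕ × ℕ → ℝ × ℝ) (s : St Λ κ) (u u' : NS) (τ τ' : IT) : Prop where
  fz : FZ D Al b Mz Mz' x0 y0 g g' s u u' τ τ'
  sc : IvS D Al s₀ s u u' τ τ'
  lc : LCb D b s
  co : Cop s
  jc : ∀ e ∈ Ep D Al s τ τ', JC x0 y0 s.M u.A s.M' u'.A e
  pop : Pop s

section iv
variable {b Mz Mz' : ℕ} {x0 y0 g g' : ℕ × ℕ → ℕ} {s₀ : ℕ × ℕ → ℝ × ℝ}

/-- **the invariants are kept** (stripped trees) -/
theorem IvX.next (hh : YH D (fun _ => ∅) P W Qp) {s : St Λ κ} {u u' : NS} {τ τ' : IT}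
    (hI : IvX D Al b Mz Mz' x0 y0 g g' s₀ s u u' τ τ') (h : YI D (fun _ => ∅) Qp RP s u u' τ τ')
    {c : CR Λ κ} (hc : (c.w, c.s) ∈ nxtC stp s)
    (hch : Chd D Al (fun _ => ∅) Qp RP s.p s u u' τ τ' c) :
    IvX D Al b Mz Mz' x0 y0 g g' s₀ c.s c.v c.v' c.σ c.σ' := by
  have hpp : s.p.Prime := (h.lev hh (CopM34.nxt0C_live (mem_nxtC.1 hc).1)).1
  exact
    { fz := hI.fz.next hpp hI.fz.pb hch
      sc := IvS.next hpp hI.sc hch
      lc := hI.lc.next hpp hI.fz.pb hch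
      co := CopM34.cop_nxtC hh h hI.co _ hc
      jc := fun e he => JC_next hpp (hI.jc e (hch.sub he)) (hch.lk e he)
      pop := hI.pop.next h hc }

end iv

end gen

end Crest.Agent.R4P.LocX25
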