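import Mathlib

/-!
# Log_51 : the functional `phi H t = H t log(1 + t/H)` (row 4, helper26 #24209 (B))

Pure real analysis, Mathlib only.

* `phi_nonneg`, `phi_zero`, `phi_mono`, `phi_mono_H`, `phi_convexOn`;
* `join_ge`   : `(2/3) min (ab) (min (Ha) (Hb)) <= phi H (a+b) - phi H a - phi H b`;
* `cross_le`  : `Σ_z x_z y_z <= min (ab) (min (Ha) (Hb))` when all `x_z, y_z <= H`;
* `join_cross`: the two together;
* `jensen_avg`, `jensen_tie`: Jensen with subnormalised weights, and at a tie;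
* `phi_le_eps`: `phi H t <= eps t^2 + H L(eps) t`.
-/

namespace Crest.Agent.R4P.Log51

open Finset

/-- the functional `H t log(1+t/H)`. -/
noncomputable def phi (H t : ℝ) : ℝ := H * t * Real.log (1 + t / H)

theorem phi_zero (H : ℝ) : phi H 0 = 0 := by simp [phi]

theorem phi_nonneg {H t : ℝ} (hH : 0 < H) (ht : 0 ≤ t) : 0 ≤ phi H t := by
  unfold phi
  have h1 : 0 ≤ t / H := by positivity
  have h2 : 0 ≤ Real.log (1 + t / H) := Real.log_nonneg (by linarith)
  positivity

theorem phi_mono {H s t : ℝ} (hH : 0 < H) (hs : 0 ≤ s) (hst : s ≤ t) :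
    phi H s ≤ phi H t := by
  unfold phi
  have h1 : 0 ≤ s / H := by positivity
  have h2 : s / H ≤ t / H := by gcongr
  have h3 : Real.log (1 + s / H) ≤ Real.log (1 + t / H) :=
    Real.log_le_log (by linarith) (by linarith)
  have h4 : 0 ≤ Real.log (1 + s / H) := Real.log_nonneg (by linarith)
  have h5 : H * s ≤ H * t := by gcongr
  exact mul_le_mul h5 h3 h4 (by nlinarith)

/-- `phi H t = H^2 ((1+t/H) log (1+t/H) - log (1+t/H))`. -/
theorem phi_eq {H : ℝ} (hH : 0 < H) (t : ℝ) :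
    phi H t = H ^ 2 * ((1 + t / H) * Real.log (1 + t / H) - Real.log (1 + t / H)) := by
  unfold phi
  field_simp
  ring

theorem phi_mono_H {H K t : ℝ} (hH : 0 < H) (hHK : H ≤ K) (ht : 0 ≤ t) :
    phi H t ≤ phi K t := by
  have hK : 0 < K := lt_of_lt_of_le hH hHK
  unfold phi
  -- log (1 + l u) >= l log (1+u), l = H/K, u = t/H
  have hl0 : 0 ≤ H / K := by positivity
  have hl1 : H / K ≤ 1 := (div_le_one hK).2 hHK
  have hu : 0 ≤ t / H := by positivity
  have hc := strictConcaveOn_log_Ioi.concaveOn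
  have m1 : (1:ℝ) ∈ Set.Ioi (0:ℝ) := by
    show (0:ℝ) < 1
    norm_num
  have m2 : (1:ℝ) + t / H ∈ Set.Ioi (0:ℝ) := by
    show (0:ℝ) < 1 + t / H
    linarith
  have h := hc.2 m1 m2 (show (0:ℝ) ≤ 1 - H / K by linarith) hl0 (by ring)
  simp only [smul_eq_mul, Real.log_one, mul_zero, zero_add, mul_one] at h
  have e : 1 - H / K + H / K * (1 + t / H) = 1 + t / K := by
    field_simp
    ring
  rw [e] at h
  have h2 : H * Real.log (1 + t / H) ≤ K * Real.log (1 + t / K) := by
    have h3 := mul_le_mul_of_nonneg_left h hK.le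
    have e2 : K * (H / K * Real.log (1 + t / H)) = H * Real.log (1 + t / H) := by
      field_simp
    rw [e2] at h3
    exact h3
  calc H * t * Real.log (1 + t / H) = t * (H * Real.log (1 + t / H)) := by ring
    _ ≤ t * (K * Real.log (1 + t / K)) := mul_le_mul_of_nonneg_left h2 ht
    _ = K * t * Real.log (1 + t / K) := by ring

theorem phi_convexOn {H : ℝ} (hH : 0 < H) : ConvexOn ℝ (Set.Ici 0) (phi H) := by
  have hc1 : ConvexOn ℝ (Set.Ioi (0:ℝ)) (fun x : ℝ => x * Real.log x - Real.log x) := by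
    have a1 : ConvexOn ℝ (Set.Ioi (0:ℝ)) (fun x : ℝ => x * Real.log x) :=
      Real.convexOn_mul_log.subset (fun x hx => Set.mem_Ici.2 (le_of_lt hx)) (convex_Ioi 0)
    exact a1.sub strictConcaveOn_log_Ioi.concaveOn
  refine ⟨convex_Ici 0, ?_⟩
  intro x hx y hy a b ha hb hab
  have hx' : 0 ≤ x := hx
  have hy' : 0 ≤ y := hy
  have h1 : (1:ℝ) + x / H ∈ Set.Ioi (0:ℝ) := by
    have : 0 ≤ x / H := by positivity
    show 0 < 1 + x / H
    linarith
  have h2 : (1:ℝ) + y / H ∈ Set.Ioi (0:ℝ) := by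
    have : 0 ≤ y / H := by positivity
    show 0 < 1 + y / H
    linarith
  have h := hc1.2 h1 h2 ha hb hab
  simp only [smul_eq_mul] at h ⊢
  have e : a * (1 + x / H) + b * (1 + y / H) = 1 + (a * x + b * y) / H := by
    have : a * (1 + x / H) + b * (1 + y / H) = (a + b) + (a * x + b * y) / H := by ring
    rw [this, hab]
  rw [e] at h
  rw [phi_eq hH, phi_eq hH, phi_eq hH]
  have h3 := mul_le_mul_of_nonneg_left h (sq_nonneg H)
  calc _ ≤ _ := h3
    _ = _ := by ring

/-- **join**: `(2/3) min (ab) (min (Ha) (Hb)) <= phi(a+b) - phi(a) - phi(b)`. -/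
theorem join_ge {H a b : ℝ} (hH : 0 < H) (ha : 0 ≤ a) (hb : 0 ≤ b) :
    (2 / 3 : ℝ) * min (a * b) (min (H * a) (H * b)) ≤
      phi H (a + b) - phi H a - phi H b := by
  have hS : 0 < H + a + b := by linarith
  have hA : 0 < H + a := by linarith
  have hB : 0 < H + b := by linarith
  -- two log increments
  have l1 : b / (H + a + b) ≤ Real.log (1 + (a + b) / H) - Real.log (1 + a / H) := by
    have e1 : Real.log (1 + (a + b) / H) - Real.log (1 + a / H) =
        Real.log ((H + a + b) / (H + a)) := by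
      rw [← Real.log_div]
      · congr 1
        field_simp
        ring
      · have : 0 < 1 + (a + b) / H := by positivity
        exact this.ne'
      · have : 0 < 1 + a / H := by positivity
        exact this.ne'
    rw [e1]
    have h := Real.one_sub_inv_le_log_of_pos (x := (H + a + b) / (H + a)) (by positivity)
    have e2 : 1 - ((H + a + b) / (H + a))⁻¹ = b / (H + a + b) := by
      field_simp
      ring
    rw [e2] at h
    exact h
  have l2 : a / (H + a + b) ≤ Real.log (1 + (a + b) / H) - Real.log (1 + b / H) := by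
    have e1 : Real.log (1 + (a + b) / H) - Real.log (1 + b / H) =
        Real.log ((H + a + b) / (H + b)) := by
      rw [← Real.log_div]
      · congr 1
        field_simp
        ring
      · have : 0 < 1 + (a + b) / H := by positivity
        exact this.ne'
      · have : 0 < 1 + b / H := by positivity
        exact this.ne'
    rw [e1]
    have h := Real.one_sub_inv_le_log_of_pos (x := (H + a + b) / (H + b)) (by positivity)
    have e2 : 1 - ((H + a + b) / (H + b))⁻¹ = a / (H + a + b) := by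
      field_simp
      ring
    rw [e2] at h
    exact h
  have key : phi H (a + b) - phi H a - phi H b =
      H * a * (Real.log (1 + (a + b) / H) - Real.log (1 + a / H)) +
      H * b * (Real.log (1 + (a + b) / H) - Real.log (1 + b / H)) := by
    unfold phi; ring
  have h3 : H * a * (b / (H + a + b)) + H * b * (a / (H + a + b)) ≤
      phi H (a + b) - phi H a - phi H b := by
    rw [key]
    have q1 := mul_le_mul_of_nonneg_left l1 (mul_nonneg hH.le ha)
    have q2 := mul_le_mul_of_nonneg_left l2 (mul_nonneg hH.le hb)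
    linarith
  refine le_trans ?_ h3
  set m := min (a * b) (min (H * a) (H * b)) with hm
  have m1 : m ≤ a * b := min_le_left _ _
  have m2 : m ≤ H * a := (min_le_right _ _).trans (min_le_left _ _)
  have m3 : m ≤ H * b := (min_le_right _ _).trans (min_le_right _ _)
  have e3 : H * a * (b / (H + a + b)) + H * b * (a / (H + a + b)) =
      2 * (H * (a * b)) / (H + a + b) := by
    field_simp
    ring
  rw [e3, le_div_iff₀ hS]
  -- m (H + a + b) <= 3 H a b
  have t1 : m * H ≤ a * b * H := mul_le_mul_of_nonneg_right m1 hH.le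
  have t2 : m * a ≤ H * b * a := mul_le_mul_of_nonneg_right m3 ha
  have t3 : m * b ≤ H * a * b := mul_le_mul_of_nonneg_right m2 hb
  nlinarith

/-- raw crossing energy of two families of nonneg class heights `<= H`. -/
theorem cross_le {ι : Type*} (S : Finset ι) {x y : ι → ℝ} {H a b : ℝ}
    (hx0 : ∀ z ∈ S, 0 ≤ x z) (hy0 : ∀ z ∈ S, 0 ≤ y z)
    (hx : ∀ z ∈ S, x z ≤ H) (hy : ∀ z ∈ S, y z ≤ H)
    (ha : ∑ z ∈ S, x z ≤ a) (hb : ∑ z ∈ S, y z ≤ b) (hH : 0 ≤ H) :
    ∑ z ∈ S, x z * y z ≤ min (a * b) (min (H * a) (H * b)) := by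
  have hxs : 0 ≤ ∑ z ∈ S, x z := sum_nonneg hx0
  have hys : 0 ≤ ∑ z ∈ S, y z := sum_nonneg hy0
  refine le_min ?_ (le_min ?_ ?_)
  · calc ∑ z ∈ S, x z * y z ≤ ∑ z ∈ S, x z * (∑ z' ∈ S, y z') := by
          refine sum_le_sum fun z hz => ?_
          exact mul_le_mul_of_nonneg_left (single_le_sum hy0 hz) (hx0 z hz)
      _ = (∑ z ∈ S, x z) * ∑ z' ∈ S, y z' := by rw [sum_mul]
      _ ≤ a * b := mul_le_mul ha hb hys (hxs.trans ha)
  · calc ∑ z ∈ S, x z * y z ≤ ∑ z ∈ S, H * x z := by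
          refine sum_le_sum fun z hz => ?_
          have := mul_le_mul_of_nonneg_left (hy z hz) (hx0 z hz)
          linarith
      _ = H * ∑ z ∈ S, x z := by rw [mul_sum]
      _ ≤ H * a := mul_le_mul_of_nonneg_left ha hH
  · calc ∑ z ∈ S, x z * y z ≤ ∑ z ∈ S, H * y z := by
          refine sum_le_sum fun z hz => ?_
          exact mul_le_mul_of_nonneg_right (hx z hz) (hy0 z hz)
      _ = H * ∑ z ∈ S, y z := by rw [mul_sum]
      _ ≤ H * b := mul_le_mul_of_nonneg_left hb hH

/-- **join pays the raw crossing energy.** -/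
theorem join_cross {ι : Type*} (S : Finset ι) {x y : ι → ℝ} {H a b : ℝ} (hH : 0 < H)
    (hx0 : ∀ z ∈ S, 0 ≤ x z) (hy0 : ∀ z ∈ S, 0 ≤ y z)
    (hx : ∀ z ∈ S, x z ≤ H) (hy : ∀ z ∈ S, y z ≤ H)
    (ha : ∑ z ∈ S, x z ≤ a) (hb : ∑ z ∈ S, y z ≤ b) :
    (2 / 3 : ℝ) * ∑ z ∈ S, x z * y z ≤ phi H (a + b) - phi H a - phi H b := by
  have h0 := cross_le S hx0 hy0 hx hy ha hb hH.le
  have ha0 : 0 ≤ a := (sum_nonneg hx0).trans ha
  have hb0 : 0 ≤ b := (sum_nonneg hy0).trans hb
  have h1 := join_ge hH ha0 hb0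
  linarith

/-- superadditivity. -/
theorem phi_add_ge {H a b : ℝ} (hH : 0 < H) (ha : 0 ≤ a) (hb : 0 ≤ b) :
    phi H a + phi H b ≤ phi H (a + b) := by
  have h := join_ge hH ha hb
  have h2 : 0 ≤ min (a * b) (min (H * a) (H * b)) :=
    le_min (mul_nonneg ha hb) (le_min (mul_nonneg hH.le ha) (mul_nonneg hH.le hb))
  linarith

/-- Jensen with subnormalised weights. -/
theorem jensen_avg {ι : Type*} (S : Finset ι) {w s : ι → ℝ} {H : ℝ} (hH : 0 < H)
    (hw : ∀ j ∈ S, 0 ≤ w j) (hw1 : ∑ j ∈ S, w j ≤ 1) (hs : ∀ j ∈ S, 0 ≤ s j) :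
    phi H (∑ j ∈ S, w j * s j) ≤ ∑ j ∈ S, w j * phi H (s j) := by
  classical
  have hc := phi_convexOn hH
  -- add the missing weight at 0
  have h := hc.map_add_sum_le (t := S) (w := w) (p := s) (v := 1 - ∑ j ∈ S, w j) (q := 0)
    hw (by ring) hs (by linarith) (by simp)
  simpa [smul_eq_mul, phi_zero] using h

/-- Jensen at a tie: average over the `p` lifts. -/
theorem jensen_tie {p : ℕ} (hp : 0 < p) {s : ℕ → ℝ} {H : ℝ} (hH : 0 < H)
    (hs : ∀ j < p, 0 ≤ s j) :
    phi H ((∑ j ∈ range p, s j) / p) ≤ (∑ j ∈ range p, phi H (s j)) / p := by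
  have hp' : (0:ℝ) < p := by exact_mod_cast hp
  have h := jensen_avg (range p) (w := fun _ => (1:ℝ) / p) (s := s) hH
    (fun _ _ => by positivity) (by simp; rw [mul_inv_cancel₀ hp'.ne'])
    (fun j hj => hs j (mem_range.1 hj))
  rw [← mul_sum, ← mul_sum] at h
  calc phi H ((∑ j ∈ range p, s j) / p) = phi H (1 / p * ∑ j ∈ range p, s j) := by
        congr 1; ring
    _ ≤ 1 / p * ∑ j ∈ range p, phi H (s j) := h
    _ = _ := by ring

/-- two-point Jensen: present / missing children of a tie. -/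
theorem jensen_two {H w x y : ℝ} (hH : 0 < H) (hw0 : 0 ≤ w) (hw1 : w ≤ 1)
    (hx : 0 ≤ x) (hy : 0 ≤ y) :
    phi H ((1 - w) * x + w * y) ≤ (1 - w) * phi H x + w * phi H y := by
  have h := (phi_convexOn hH).2 (Set.mem_Ici.2 hx) (Set.mem_Ici.2 hy)
    (show (0:ℝ) ≤ 1 - w by linarith) hw0 (by ring)
  simpa [smul_eq_mul] using h

/-- the constant of `phi_le_eps`. -/
noncomputable def Lc (ε : ℝ) : ℝ := ε - 1 - Real.log ε

theorem Lc_nonneg {ε : ℝ} (hε : 0 < ε) : 0 ≤ Lc ε := by
  unfold Lc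
  have := Real.log_le_sub_one_of_pos hε
  linarith

theorem log_le_eps {ε u : ℝ} (hε : 0 < ε) (hu : 0 ≤ u) :
    Real.log (1 + u) ≤ ε * u + Lc ε := by
  unfold Lc
  have h := Real.log_le_sub_one_of_pos (x := ε * (1 + u)) (by positivity)
  rw [Real.log_mul hε.ne' (by linarith : (1 + u) ≠ 0)] at h
  linarith

/-- **root**: `phi H t <= eps t^2 + (H L(eps)) t`. -/
theorem phi_le_eps {H t ε : ℝ} (hH : 0 < H) (ht : 0 ≤ t) (hε : 0 < ε) :
    phi H t ≤ ε * t ^ 2 + H * Lc ε * t := by
  unfold phi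
  have h := log_le_eps hε (show 0 ≤ t / H by positivity)
  have h2 := mul_le_mul_of_nonneg_left h (mul_nonneg hH.le ht)
  calc H * t * Real.log (1 + t / H) ≤ H * t * (ε * (t / H) + Lc ε) := h2
    _ = ε * t ^ 2 + H * Lc ε * t := by
        field_simp

end Crest.Agent.R4P.Log51
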