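import Crest.Agent.R4P.Grp_36
import Crest.Agent.R4P.Log_51

/-!
R4 (S0004) with powers, helper51: **the log functional on the group walk** (helper26 #24209 (B)).

* `gtot g` : total content of a group; `ht kd H0 g x` : max of `H0` and the class heights at `x`.
* `Hg kd H0 n p g` : adaptive height = the largest class height (at least `H0`) over the point `x`
  in the whole sub-walk.
* `XW kd n p g` : the sum over the walk of the crossing energies
  `I (Σ_z cval (kd p) (gB p g) z * cval (kd p) (gR p g) z)` (tie part against the other part).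
* `XW_le_of`, `XW_le` : **`XW kd n p g ≤ (3/2) * I (phi (Hg kd H0 n p g x) (gtot g x))`**.
* `XW_le_eps` : `XW ≤ eps-part of I tot^2 + C_eps (H0 I tot + I (Hg - H0)^2)`.
-/

set_option autoImplicit false
set_option linter.unusedSectionVars false
set_option linter.unusedVariables false
open MeasureTheory Filter Set

namespace Crest.Agent.R4P.LogG51

open Crest.Agent.R4.Tour104 Crest.Agent.R4.Tour758 Crest.Agent.R4.Avg758 Crest.Agent.R4.Clos758
open Crest.Agent.R4P.Walk560 Crest.Agent.R4P.Grp36 Crest.Agent.R4P.Log51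

/-! ### `phi` of bounded functions -/

lemma phi_le_sq {H t : ℝ} (hH : 0 < H) (ht : 0 ≤ t) : phi H t ≤ t ^ 2 := by
  unfold phi
  have h1 : 0 ≤ t / H := by positivity
  have h2 : Real.log (1 + t / H) ≤ t / H := by
    have := Real.log_le_sub_one_of_pos (show (0:ℝ) < 1 + t / H by positivity)
    linarith
  calc H * t * Real.log (1 + t / H) ≤ H * t * (t / H) :=
        mul_le_mul_of_nonneg_left h2 (mul_nonneg hH.le ht)
    _ = t ^ 2 := by field_simp

lemma PB_phi {H t : ℝ → ℝ} (pH : PB H) (hH : ∀ x, 0 < H x) (pt : PB t) :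
    PB fun x => phi (H x) (t x) := by
  obtain ⟨B, hB⟩ := pt.bdd
  refine ⟨?_, fun x => phi_nonneg (hH x) (pt.nonneg x), ⟨B ^ 2, fun x => ?_⟩, fun x => ?_⟩
  · unfold phi
    exact (pH.meas.mul pt.meas).mul
      (Real.measurable_log.comp (measurable_const.add (pt.meas.div pH.meas)))
  · refine (phi_le_sq (hH x) (pt.nonneg x)).trans ?_
    exact pow_le_pow_left₀ (pt.nonneg x) (hB x) 2
  · show phi (H (x + 1)) (t (x + 1)) = _
    rw [pH.per, pt.per]

lemma PB_max {f g : ℝ → ℝ} (hf : PB f) (hg : PB g) : PB fun x => max (f x) (g x) := by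
  obtain ⟨A, hA⟩ := hf.bdd
  obtain ⟨B, hB⟩ := hg.bdd
  refine ⟨hf.meas.max hg.meas, fun x => (hf.nonneg x).trans (le_max_left _ _),
    ⟨max A B, fun x => max_le_max (hA x) (hB x)⟩, fun x => ?_⟩
  show max (f (x + 1)) (g (x + 1)) = _
  rw [hf.per, hg.per]

/-- Jensen on the circle: the mean over the `p` lifts -/
lemma I_phi_Ep {p : ℕ} (hp : 0 < p) {H t : ℝ → ℝ} (pH : PB H) (hH : ∀ x, 0 < H x) (pt : PB t) :
    I (fun y => phi (H y) (Ep p t y)) ≤ I (fun x => phi (H (p * x)) (t x)) := by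
  have pP : PB fun x => phi (H (p * x)) (t x) := PB_phi (pH.pull p) (fun x => hH _) pt
  rw [← I_Ep hp pP.integrableOn]
  refine I_mono (PB_phi pH hH (pt.Ep hp)).integrableOn (pP.Ep hp).integrableOn fun y => ?_
  have e : Ep p (fun x => phi (H (p * x)) (t x)) y =
      (∑ i ∈ Finset.range p, phi (H y) (t ((y + i) / p))) / p := by
    unfold Ep
    congr 1
    refine Finset.sum_congr rfl fun i _ => ?_
    show phi (H (p * ((y + i) / p))) (t ((y + i) / p)) = _
    rw [pull_fibre hp pH.per y i]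
  rw [e]
  exact jensen_tie hp (hH y) fun i _ => pt.nonneg _

variable {Λ κ : Type*} [Fintype Λ] {δ : Type*} [Fintype δ] [DecidableEq δ]

/-! ### totals and class heights -/

/-- total content of a group -/
noncomputable def gtot (g : Gp Λ κ) (x : ℝ) : ℝ := ∑ j, gval g j x

lemma PB_gtot {g : Gp Λ κ} (h : GOk g) : PB (gtot g) := PB.sum _ fun j _ => PB_gval h j

lemma gtot_split (p : ℕ) (g : Gp Λ κ) (x : ℝ) :
    gtot g x = gtot (gB p g) x + gtot (gR p g) x := by
  unfold gtot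
  rw [← Finset.sum_add_distrib]
  exact Finset.sum_congr rfl fun j _ => gval_split p g j x

lemma Ep_gtot {p : ℕ} {g : Gp Λ κ} (h : GOk g) (y : ℝ) :
    Ep p (gtot (gB p g)) y = gtot (gC p g) y := by
  show Ep p (fun x => ∑ j, gval (gB p g) j x) y = _
  rw [Ep_sum']
  exact Finset.sum_congr rfl fun j _ => Ep_gB h j y

lemma gtot_cval (kd : Λ → δ) (g : Gp Λ κ) (x : ℝ) : ∑ d, cval kd g d x = gtot g x := by
  unfold cval gtot
  exact Finset.sum_fiberwise_of_maps_to (fun j _ => Finset.mem_univ _) _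

/-- the largest class height of a group, at least `H0` -/
noncomputable def ht (kd : Λ → δ) (H0 : ℝ) (g : Gp Λ κ) (x : ℝ) : ℝ :=
  (Finset.univ : Finset δ).fold max H0 (fun d => cval kd g d x)

lemma base_le_ht (kd : Λ → δ) (H0 : ℝ) (g : Gp Λ κ) (x : ℝ) : H0 ≤ ht kd H0 g x :=
  (Finset.le_fold_max _).2 (Or.inl le_rfl)

lemma cval_le_ht (kd : Λ → δ) (H0 : ℝ) (g : Gp Λ κ) (d : δ) (x : ℝ) :
    cval kd g d x ≤ ht kd H0 g x :=
  (Finset.le_fold_max _).2 (Or.inr ⟨d, Finset.mem_univ _, le_rfl⟩)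

lemma ht_le {kd : Λ → δ} {H0 : ℝ} {g : Gp Λ κ} {x c : ℝ} (h2 : H0 ≤ c)
    (h : ∀ d, cval kd g d x ≤ c) : ht kd H0 g x ≤ c :=
  (Finset.fold_max_le _).2 ⟨h2, fun d _ => h d⟩

lemma PB_fold {ι : Type*} [DecidableEq ι] {H0 : ℝ} (h0 : 0 ≤ H0) (s : Finset ι) {f : ι → ℝ → ℝ}
    (hf : ∀ i, PB (f i)) : PB fun x => s.fold max H0 (fun i => f i x) := by
  induction s using Finset.induction_on with
  | empty => exact PB.const h0
  | insert a s ha ih =>
    have e : (fun x => (insert a s).fold max H0 (fun i => f i x)) =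
        fun x => max (f a x) (s.fold max H0 (fun i => f i x)) := by
      funext x
      rw [Finset.fold_insert ha]
    rw [e]
    exact PB_max (hf a) ih

lemma PB_ht (kd : Λ → δ) {H0 : ℝ} (h0 : 0 ≤ H0) {g : Gp Λ κ} (h : GOk g) : PB (ht kd H0 g) :=
  PB_fold h0 (Finset.univ : Finset δ) (fun d => PB_cval kd h d)

/-- **the adaptive height** of the sub-walk over a point -/
noncomputable def Hg (kd : ℕ → Λ → δ) (H0 : ℝ) : ℕ → ℕ → Gp Λ κ → ℝ → ℝ
  | 0, _, _ => fun _ => H0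
  | n + 1, p, g => fun x => if p = 0 then H0 else
      max (ht (kd p) H0 g x) (max (Hg kd H0 n p (gC p g) (p * x)) (Hg kd H0 n (p - 1) (gR p g) x))

lemma Hg_zero (kd : ℕ → Λ → δ) (H0 : ℝ) (p : ℕ) (g : Gp Λ κ) (x : ℝ) : Hg kd H0 0 p g x = H0 := rfl

lemma Hg_succ0 (kd : ℕ → Λ → δ) (H0 : ℝ) (n : ℕ) (g : Gp Λ κ) (x : ℝ) :
    Hg kd H0 (n + 1) 0 g x = H0 := by
  simp [Hg]

/-- unfolding -/
lemma Hg_succ (kd : ℕ → Λ → δ) (H0 : ℝ) (n : ℕ) {p : ℕ} (hp : p ≠ 0) (g : Gp Λ κ) (x : ℝ) :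
    Hg kd H0 (n + 1) p g x = max (ht (kd p) H0 g x)
      (max (Hg kd H0 n p (gC p g) (p * x)) (Hg kd H0 n (p - 1) (gR p g) x)) := by
  show (if p = 0 then H0 else _) = _
  rw [if_neg hp]

lemma base_le_Hg (kd : ℕ → Λ → δ) (H0 : ℝ) (n p : ℕ) (g : Gp Λ κ) (x : ℝ) :
    H0 ≤ Hg kd H0 n p g x := by
  cases n with
  | zero => exact le_rfl
  | succ n =>
    unfold Hg
    by_cases hp : p = 0
    · simp [hp]
    · simp only [if_neg hp]
      exact (base_le_ht _ _ _ _).trans (le_max_left _ _)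

lemma Hg_pos (kd : ℕ → Λ → δ) {H0 : ℝ} (h0 : 0 < H0) (n p : ℕ) (g : Gp Λ κ) (x : ℝ) :
    0 < Hg kd H0 n p g x := lt_of_lt_of_le h0 (base_le_Hg kd H0 n p g x)

lemma PB_Hg (kd : ℕ → Λ → δ) {H0 : ℝ} (h0 : 0 ≤ H0) : ∀ (n p : ℕ) {g : Gp Λ κ}, GOk g →
    PB (Hg kd H0 n p g) := by
  intro n
  induction n with
  | zero => intro p g _; exact PB.const h0
  | succ n ih =>
    intro p g hg
    unfold Hg
    by_cases hp : p = 0
    · simp only [if_pos hp]
      exact PB.const h0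
    · simp only [if_neg hp]
      exact PB_max (PB_ht _ h0 hg) (PB_max ((ih p hg.gC).pull p) (ih (p - 1) hg.gR))

/-- **the crossing energies** of the group walk -/
noncomputable def XW (kd : ℕ → Λ → δ) : ℕ → ℕ → Gp Λ κ → ℝ
  | 0, _, _ => 0
  | n + 1, p, g => if p = 0 then 0 else
      I (fun x => ∑ d, cval (kd p) (gB p g) d x * cval (kd p) (gR p g) d x) +
        XW kd n p (gC p g) + XW kd n (p - 1) (gR p g)

lemma I_phi_nonneg {H t : ℝ → ℝ} (hH : ∀ x, 0 < H x) (pt : PB t) :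
    0 ≤ I (fun x => phi (H x) (t x)) := I_nonneg fun x => phi_nonneg (hH x) (pt.nonneg x)

lemma PB_cross (kd : Λ → δ) {g h : Gp Λ κ} (hg : GOk g) (hh : GOk h) :
    PB fun x => ∑ d, cval kd g d x * cval kd h d x :=
  PB.sum _ fun d _ => (PB_cval kd hg d).mul (PB_cval kd hh d)

/-- admissible height functions for the walk -/
structure HOk (kd : ℕ → Λ → δ) (H : ℕ → ℕ → Gp Λ κ → ℝ → ℝ) : Prop where
  pb : ∀ (n p : ℕ) {g : Gp Λ κ}, GOk g → PB (H n p g)
  pos : ∀ (n p : ℕ) (g : Gp Λ κ) (x : ℝ), 0 < H n p g x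
  cB : ∀ (n p : ℕ) {g : Gp Λ κ}, GOk g → p ≠ 0 → ∀ d x, cval (kd p) (gB p g) d x ≤ H (n + 1) p g x
  cR : ∀ (n p : ℕ) {g : Gp Λ κ}, GOk g → p ≠ 0 → ∀ d x, cval (kd p) (gR p g) d x ≤ H (n + 1) p g x
  C : ∀ (n p : ℕ) {g : Gp Λ κ}, GOk g → p ≠ 0 → ∀ x, H n p (gC p g) (p * x) ≤ H (n + 1) p g x
  R : ∀ (n p : ℕ) {g : Gp Λ κ}, GOk g → p ≠ 0 → ∀ x, H n (p - 1) (gR p g) x ≤ H (n + 1) p g x

/-- **the theorem**, for any admissible height functions -/
theorem XW_le_of {kd : ℕ → Λ → δ} {H : ℕ → ℕ → Gp Λ κ → ℝ → ℝ} (hk : HOk kd H) :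
    ∀ (n p : ℕ) (g : Gp Λ κ), GOk g →
    XW kd n p g ≤ (3 / 2) * I (fun x => phi (H n p g x) (gtot g x)) := by
  intro n
  induction n with
  | zero =>
    intro p g hg
    exact mul_nonneg (by norm_num) (I_phi_nonneg (hk.pos 0 p g) (PB_gtot hg))
  | succ n ih =>
    intro p g hg
    by_cases hp : p = 0
    · have e : XW kd (n + 1) p g = 0 := by simp [XW, hp]
      rw [e]
      exact mul_nonneg (by norm_num) (I_phi_nonneg (hk.pos (n + 1) p g) (PB_gtot hg))
    have hp0 : 0 < p := Nat.pos_of_ne_zero hp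
    have e : XW kd (n + 1) p g =
        I (fun x => ∑ d, cval (kd p) (gB p g) d x * cval (kd p) (gR p g) d x) +
        XW kd n p (gC p g) + XW kd n (p - 1) (gR p g) := by simp [XW, hp]
    have i1 := ih p _ (hg.gC (p := p))
    have i2 := ih (p - 1) _ (hg.gR (p := p))
    have pB := PB_gtot (hg.gB (p := p))
    have pR := PB_gtot (hg.gR (p := p))
    have pT := PB_gtot hg
    -- Jensen
    have j1 : I (fun y => phi (H n p (gC p g) y) (gtot (gC p g) y)) ≤
        I (fun x => phi (H n p (gC p g) (p * x)) (gtot (gB p g) x)) := by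
      have h := I_phi_Ep hp0 (hk.pb n p (hg.gC (p := p))) (hk.pos n p (gC p g)) pB
      have e2 : (fun y => phi (H n p (gC p g) y) (Ep p (gtot (gB p g)) y)) =
          fun y => phi (H n p (gC p g) y) (gtot (gC p g) y) := by
        funext y
        rw [Ep_gtot hg]
      rw [e2] at h
      exact h
    have q0 := (PB_cross (kd p) (hg.gB (p := p)) (hg.gR (p := p)))
    have q1 : PB (fun x => phi (H n p (gC p g) (p * x)) (gtot (gB p g) x)) :=
      PB_phi ((hk.pb n p (hg.gC (p := p))).pull p) (fun x => hk.pos n p _ _) pB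
    have q2 : PB (fun x => phi (H n (p - 1) (gR p g) x) (gtot (gR p g) x)) :=
      PB_phi (hk.pb n (p - 1) (hg.gR (p := p))) (hk.pos n (p - 1) _) pR
    have q3 : PB (fun x => phi (H (n + 1) p g x) (gtot g x)) :=
      PB_phi (hk.pb (n + 1) p hg) (hk.pos (n + 1) p _) pT
    -- pointwise
    have key : I (fun x => (2 / 3) * (∑ d, cval (kd p) (gB p g) d x * cval (kd p) (gR p g) d x) +
        (phi (H n p (gC p g) (p * x)) (gtot (gB p g) x) +
          phi (H n (p - 1) (gR p g) x) (gtot (gR p g) x))) ≤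
        I (fun x => phi (H (n + 1) p g x) (gtot g x)) := by
      refine I_mono ((q0.smul (by norm_num)).add (q1.add q2)).integrableOn q3.integrableOn
        fun x => ?_
      have c0 := fun d => (PB_cval (kd p) (hg.gB (p := p)) d).nonneg x
      have c1 := fun d => (PB_cval (kd p) (hg.gR (p := p)) d).nonneg x
      have h := join_cross (Finset.univ : Finset δ) (hk.pos (n + 1) p g x) (fun d _ => c0 d)
        (fun d _ => c1 d) (fun d _ => hk.cB n p hg hp d x) (fun d _ => hk.cR n p hg hp d x)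
        (le_of_eq (gtot_cval (kd p) (gB p g) x)) (le_of_eq (gtot_cval (kd p) (gR p g) x))
      have m1 : phi (H n p (gC p g) (p * x)) (gtot (gB p g) x) ≤
          phi (H (n + 1) p g x) (gtot (gB p g) x) :=
        phi_mono_H (hk.pos n p _ _) (hk.C n p hg hp x) (pB.nonneg x)
      have m2 : phi (H n (p - 1) (gR p g) x) (gtot (gR p g) x) ≤
          phi (H (n + 1) p g x) (gtot (gR p g) x) :=
        phi_mono_H (hk.pos n (p - 1) _ _) (hk.R n p hg hp x) (pR.nonneg x)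
      rw [gtot_split p g x]
      linarith
    rw [I_add (q0.smul (by norm_num)).integrableOn (q1.add q2).integrableOn,
      I_add q1.integrableOn q2.integrableOn, I_smul] at key
    rw [e]
    linarith

lemma Hg_ok (kd : ℕ → Λ → δ) {H0 : ℝ} (h0 : 0 < H0) :
    HOk kd (fun n p (g : Gp Λ κ) => Hg kd H0 n p g) := by
  refine ⟨fun n p g hg => PB_Hg kd h0.le n p hg, Hg_pos kd h0, ?_, ?_, ?_, ?_⟩
  · intro n p g hg hp d x
    have h1 := cval_split (kd p) p g d x
    have h2 := (PB_cval (kd p) (hg.gR (p := p)) d).nonneg x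
    have h3 := cval_le_ht (kd p) H0 g d x
    rw [Hg_succ kd H0 n hp]
    exact (by linarith : cval (kd p) (gB p g) d x ≤ ht (kd p) H0 g x).trans (le_max_left _ _)
  · intro n p g hg hp d x
    have h1 := cval_split (kd p) p g d x
    have h2 := (PB_cval (kd p) (hg.gB (p := p)) d).nonneg x
    have h3 := cval_le_ht (kd p) H0 g d x
    rw [Hg_succ kd H0 n hp]
    exact (by linarith : cval (kd p) (gR p g) d x ≤ ht (kd p) H0 g x).trans (le_max_left _ _)
  · intro n p g hg hp x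
    rw [Hg_succ kd H0 n hp]
    exact (le_max_left _ _).trans (le_max_right _ _)
  · intro n p g hg hp x
    rw [Hg_succ kd H0 n hp]
    exact (le_max_right _ _).trans (le_max_right _ _)

/-- **the theorem** for the adaptive height -/
theorem XW_le (kd : ℕ → Λ → δ) {H0 : ℝ} (h0 : 0 < H0) (n p : ℕ) (g : Gp Λ κ) (hg : GOk g) :
    XW kd n p g ≤ (3 / 2) * I (fun x => phi (Hg kd H0 n p g x) (gtot g x)) :=
  XW_le_of (Hg_ok kd h0) n p g hg

/-- the root inequality: `phi` against `eps I tot^2` -/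
theorem I_phi_le_eps {H0 : ℝ} (h0 : 0 < H0) {H t : ℝ → ℝ} (pH : PB H) (h2 : ∀ x, H0 ≤ H x)
    (pT : PB t) {ε ε₂ : ℝ} (hε : 0 < ε) (hε₂ : 0 < ε₂) :
    I (fun x => phi (H x) (t x)) ≤ (ε + Lc ε * ε₂) * I (fun x => t x ^ 2) +
      Lc ε * (H0 * I t) + Lc ε * ((1 / (4 * ε₂)) * I (fun x => (H x - H0) ^ 2)) := by
  have hL := Lc_nonneg hε
  obtain ⟨B, hB⟩ := pH.bdd
  have pH2 : PB fun x => (H x - H0) ^ 2 := by
    refine ⟨(pH.meas.sub measurable_const).pow_const 2, fun x => sq_nonneg _,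
      ⟨B ^ 2, fun x => ?_⟩, fun x => ?_⟩
    · have h3 := hB x
      have h4 := h2 x
      exact pow_le_pow_left₀ (by linarith) (by linarith) 2
    · show (H (x + 1) - H0) ^ 2 = _
      rw [pH.per]
  have q1a := ((PBsq pT).smul (show 0 ≤ ε + Lc ε * ε₂ by positivity))
  have q1b := ((pT.smul h0.le).smul hL)
  have q1 := q1a.add q1b
  have q2 := (pH2.smul (show 0 ≤ 1 / (4 * ε₂) by positivity)).smul hL
  have hpos : ∀ x, 0 < H x := fun x => lt_of_lt_of_le h0 (h2 x)
  have key : I (fun x => phi (H x) (t x)) ≤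
      I (fun x => ((ε + Lc ε * ε₂) * t x ^ 2 + Lc ε * (H0 * t x)) +
        Lc ε * (1 / (4 * ε₂) * (H x - H0) ^ 2)) := by
    refine I_mono (PB_phi pH hpos pT).integrableOn (q1.add q2).integrableOn fun x => ?_
    have t0 := pT.nonneg x
    have h1 := phi_le_eps (hpos x) t0 hε
    have h2 : (H x - H0) * t x ≤ ε₂ * t x ^ 2 + 1 / (4 * ε₂) * (H x - H0) ^ 2 := by
      have h4 : ε₂ * t x ^ 2 + 1 / (4 * ε₂) * (H x - H0) ^ 2 - (H x - H0) * t x =
          (1 / (4 * ε₂)) * (2 * ε₂ * t x - (H x - H0)) ^ 2 := by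
        field_simp
        ring
      have h5 : 0 ≤ (1 / (4 * ε₂)) * (2 * ε₂ * t x - (H x - H0)) ^ 2 := by positivity
      linarith
    have h3 := mul_le_mul_of_nonneg_left h2 hL
    have h4 : H x * Lc ε * t x = Lc ε * (H0 * t x) + Lc ε * ((H x - H0) * t x) := by ring
    rw [h4] at h1
    have h5 : (ε + Lc ε * ε₂) * t x ^ 2 = ε * t x ^ 2 + Lc ε * (ε₂ * t x ^ 2) := by ring
    have h6 : Lc ε * (ε₂ * t x ^ 2 + 1 / (4 * ε₂) * (H x - H0) ^ 2) =
      Lc ε * (ε₂ * t x ^ 2) + Lc ε * (1 / (4 * ε₂) * (H x - H0) ^ 2) := by ring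
    rw [h5]
    linarith
  rw [I_add q1.integrableOn q2.integrableOn, I_add q1a.integrableOn q1b.integrableOn, I_smul,
    I_smul, I_smul, I_smul, I_smul] at key
  exact key

/-- the form with `eps`: `L = Lc eps` -/
theorem XW_le_eps (kd : ℕ → Λ → δ) {H0 : ℝ} (h0 : 0 < H0) (n p : ℕ) {g : Gp Λ κ} (hg : GOk g)
    {ε ε₂ : ℝ} (hε : 0 < ε) (hε₂ : 0 < ε₂) :
    XW kd n p g ≤ (3 / 2) * ((ε + Lc ε * ε₂) * I (fun x => gtot g x ^ 2) +
      Lc ε * (H0 * I (gtot g)) +
      Lc ε * ((1 / (4 * ε₂)) * I (fun x => (Hg kd H0 n p g x - H0) ^ 2))) :=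
  (XW_le kd h0 n p g hg).trans (mul_le_mul_of_nonneg_left
    (I_phi_le_eps h0 (PB_Hg kd h0.le n p hg) (base_le_Hg kd H0 n p g) (PB_gtot hg) hε hε₂)
    (by norm_num))

end Crest.Agent.R4P.LogG51
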