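import Crest.Agent.R4P.MSi_343
import Crest.Agent.R4P.GWg_343
import Crest.Agent.R4P.HgR_9

/-!
R4 (S0004) with powers, T3 (heights > 1), helper343: **the bundles of decorated trees are a row system
with budgets**.

* `GD wr kg Inv` : game data: tie classes `wr p`, game classes `kg p : Λ → Option δ` (`none` = outside
  the game), at the ties a game class is a full real class (`cl`, `ct`, `inj`); classes may merge and
  items may enter the game going down (`phi`, `nest`).
* `GD.rx : RX (List (DT Λ κ)) δ`, `GD.rb : RB H.rx`, `GD.rg : RG H.rb` (no class change error).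
-/

set_option autoImplicit false
set_option linter.unusedSectionVars false
set_option linter.unusedVariables false
open MeasureTheory Filter Set

namespace Crest.Agent.R4P.MSd343

open Crest.Agent.R4.Tour104 Crest.Agent.R4.Tour758 Crest.Agent.R4.Avg758 Crest.Agent.R4.Clos758
open Crest.Agent.R4.ClosL758 Crest.Agent.R4.ClosG758 Crest.Agent.R4.ClosR758
open Crest.Agent.R4P.ClosR442 Crest.Agent.R4P.Grp36
open Crest.Agent.R4P.Xfer36 Crest.Agent.R4P.TopC36 Crest.Agent.R4P.PN36
open Crest.Agent.R4P.GMer27 Crest.Agent.R4P.GCol27 Crest.Agent.R4P.GWa343 Crest.Agent.R4P.GWb343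
open Crest.Agent.R4P.GWc343 Crest.Agent.R4P.GWd343 Crest.Agent.R4P.GWe343 Crest.Agent.R4P.GWf343
open Crest.Agent.R4P.RSys343 Crest.Agent.R4P.TrR343 Crest.Agent.R4P.RXs343
open Crest.Agent.R4P.RXj343 Crest.Agent.R4P.MSi343
open Crest.Agent.R4P.ModeP940 (PP SS SS_nonneg SS_add)
open Crest.Agent.R4P.LogL51 (isLf)
open Crest.Agent.R4P.Walk560 (DT)

/-- optional content -/
noncomputable def oc {κ : Type} (o : Option κ) (f : κ → ℝ → ℝ) (x : ℝ) : ℝ :=
  match o with
  | some c => f c x
  | none => 0

section oc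
variable {κ δ : Type} [Fintype κ] [DecidableEq κ] [Fintype δ]

lemma oc_none (f : κ → ℝ → ℝ) : oc (none : Option κ) f = fun _ => 0 := rfl
lemma oc_some (c : κ) (f : κ → ℝ → ℝ) : oc (some c) f = f c := rfl

lemma PB_oc {o : Option κ} {f : κ → ℝ → ℝ} (hf : ∀ c, PB (f c)) : PB (oc o f) := by
  cases o with
  | none => exact PB.const le_rfl
  | some c => exact hf c

open Classical in
/-- an injective partial choice of classes -/
lemma sum_oc {cl : δ → Option κ} (inj : ∀ z z' c, cl z = some c → cl z' = some c → z = z')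
    (f : κ → ℝ → ℝ) (x : ℝ) : ∑ z, oc (cl z) f x = ∑ c, if ∃ z, cl z = some c then f c x else 0 := by
  have e1 : ∀ z, oc (cl z) f x = ∑ c, if cl z = some c then f c x else 0 := by
    intro z
    rcases h : cl z with _ | c
    · simp [oc]
    · rw [Finset.sum_eq_single c]
      · simp [oc]
      · intro b _ hb
        rw [if_neg]
        intro h2
        exact hb (Option.some.inj h2).symm
      · intro h2
        exact absurd (Finset.mem_univ c) h2
  rw [Finset.sum_congr rfl fun z _ => e1 z, Finset.sum_comm]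
  refine Finset.sum_congr rfl fun c _ => ?_
  by_cases h : ∃ z, cl z = some c
  · obtain ⟨z, hz⟩ := h
    rw [if_pos ⟨z, hz⟩, Finset.sum_eq_single z]
    · rw [if_pos hz]
    · intro b _ hb
      rw [if_neg]
      intro h2
      exact hb (inj _ _ c h2 hz)
    · intro h2
      exact absurd (Finset.mem_univ z) h2
  · rw [if_neg h]
    refine Finset.sum_eq_zero fun z _ => if_neg fun h2 => h ⟨z, h2⟩

lemma ER_zero {p : ℕ} (hp : 0 < p) : ER p (fun _ => 0) (fun _ => 0) (fun _ => 0) (fun _ => 0) where
  pa := PB.const le_rfl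
  pb := PB.const le_rfl
  pB := PB.const le_rfl
  pg := PB.const le_rfl
  row := fun y => by
    have hp' : (0 : ℝ) < p := by exact_mod_cast hp
    refine ⟨⟨fun _ => 1 / (p : ℝ), fun i => ⟨by positivity, ?_⟩, ?_, fun i => ?_⟩, ?_⟩
    · rw [div_le_one hp']
      exact_mod_cast hp
    · rw [Finset.sum_const, Finset.card_univ, Fintype.card_fin, nsmul_eq_mul]
      field_simp
    · simp [D]
    · simp [Bs, D]

end oc

section st
variable {Λ κ : Type} [Fintype Λ] [DecidableEq Λ] [Fintype κ] [DecidableEq κ]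
  {δ : Type} [Fintype δ] [DecidableEq δ]

/-- all node functions are fine -/
def PBA (L : List (DT Λ κ)) : Prop := ∀ t ∈ L, t.All fun t => ∀ j, PB (t.g.val j)

lemma PBA.self {L : List (DT Λ κ)} (h : PBA L) : PBL L := fun t ht => (h t ht).self

lemma PBA.flat {L : List (DT Λ κ)} (h : PBA L) (p : ℕ) : PBA (L.flatMap (rs p)) := by
  intro t ht
  obtain ⟨u, hu, ht⟩ := List.mem_flatMap.1 ht
  exact rs_all p (h u hu) t ht

lemma PBA.bB {L : List (DT Λ κ)} (h : PBA L) (p : ℕ) : PBA (bB p L) :=
  fun t ht => h.flat p t (List.mem_filter.1 ht).1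
lemma PBA.bL {L : List (DT Λ κ)} (h : PBA L) (p : ℕ) : PBA (bL p L) :=
  fun t ht => h.flat p t (List.mem_filter.1 (List.mem_filter.1 ht).1).1
lemma PBA.bN {L : List (DT Λ κ)} (h : PBA L) (p : ℕ) : PBA (bN p L) :=
  fun t ht => h.flat p t (List.mem_filter.1 (List.mem_filter.1 ht).1).1

lemma PBA.chP {L : List (DT Λ κ)} (h : PBA L) (p : ℕ) : PBA ((GWa343.bB p L).map chP) := by
  intro t ht
  obtain ⟨u, hu, rfl⟩ := List.mem_map.1 ht
  exact chP_all (h.bB p u hu) (isB_of_bB hu)
lemma PBA.chN {L : List (DT Λ κ)} (h : PBA L) (p : ℕ) : PBA ((GWa343.bB p L).map chN) := by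
  intro t ht
  obtain ⟨u, hu, rfl⟩ := List.mem_map.1 ht
  exact chN_all (h.bB p u hu) (isB_of_bB hu)

/-- **game data** -/
structure GD (wr : ℕ → Λ → κ) (kg : ℕ → Λ → Option δ) (Inv : ℕ → List (DT Λ κ) → Prop) where
  pb : ∀ {p L}, Inv p L → PBA L
  bok : ∀ {p L}, Inv p L → p ≠ 0 → BOk (wr p) p (bB p L)
  toP : ∀ {p L}, Inv p L → p ≠ 0 → Inv p ((bB p L).map chP)
  toN : ∀ {p L}, Inv p L → p ≠ 0 → Inv p ((bB p L).map chN)
  toR : ∀ {p L}, Inv p L → p ≠ 0 → Inv (p - 1) (bN p L)
  no1 : ∀ {L}, Inv 1 L → bB 1 L = []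
  /-- the real class of a game class at a bundle of ties -/
  cl : ℕ → List (DT Λ κ) → δ → Option κ
  ct : ∀ {p L}, Inv p L → p ≠ 0 → ∀ X : List (DT Λ κ),
    (X = bB p L ∨ X = (bB p L).map chP ∨ X = (bB p L).map chN) →
    ∀ z, bc (kg p) X (some z) = oc (cl p L z) (fun c => bc (wr p) X c)
  inj : ∀ {p L}, Inv p L → p ≠ 0 → ∀ z z' c, cl p L z = some c → cl p L z' = some c → z = z'
  /-- going down, classes may merge and items may enter the game -/
  phi : ℕ → δ → δ
  nest : ∀ {p L}, Inv p L → p ≠ 0 → ∀ t ∈ bN p L, ∀ j, (t.g.val j ≠ fun _ => 0) → ∀ z,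
    kg p j = some z → kg (p - 1) j = some (phi p z)
  /-- a uniform bound -/
  B0 : ℝ
  bd : ∀ {p L}, Inv p L → ∀ x, bt L x ≤ B0

variable {wr : ℕ → Λ → κ} {kg : ℕ → Λ → Option δ} {Inv : ℕ → List (DT Λ κ) → Prop}

/-- total of a bundle -/
lemma total_eq (k : Λ → Option δ) (L : List (DT Λ κ)) (x : ℝ) :
    ∑ z, bc k L (some z) x + bc k L none x = bt L x := by
  rw [← sum_bc k L x, Fintype.sum_option]
  ring

/-- **the row system** -/
noncomputable def GD.rx (H : GD wr kg Inv) : RX (List (DT Λ κ)) δ where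
  cP := fun p L => (bB p L).map chP
  cN := fun p L => (bB p L).map chN
  rN := fun p L => bN p L
  ok := Inv
  okP := H.toP
  okN := H.toN
  okR := H.toR
  h := fun p L z => bc (kg p) L (some z)
  hL := fun p L z => bc (kg p) (bL p L) (some z)
  hN := fun p L z => bc (kg p) (bN p L) (some z)
  Bc := fun p L z => oc (H.cl p L z) fun c => bb (bB p L) c
  gc := fun p L z => oc (H.cl p L z) fun c => gb (bB p L) c
  ph := fun ht z => PB_bc (H.pb ht).self _
  pL := fun {p L} ht _ z => PB_bc ((H.pb ht).bL p).self _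
  pN := fun {p L} ht _ z => PB_bc ((H.pb ht).bN p).self _
  sp := fun {p L} ht hp z x => by
    have e1 := bc_split3 (kg p) p L (some z) x
    have e2 := congrFun (H.ct ht hp (bB p L) (Or.inl rfl) z) x
    rw [e1, e2]
    rcases H.cl p L z with _ | c
    · simp [oc]
    · simp only [oc]
      rw [bc_dec (H.bok ht hp) c x]
  row := fun {p L} ht hp z => by
    rw [H.ct ht hp _ (Or.inr (Or.inl rfl)) z, H.ct ht hp _ (Or.inr (Or.inr rfl)) z]
    rcases H.cl p L z with _ | c
    · exact ER_zero (Nat.pos_of_ne_zero hp)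
    · exact ER_bundle (Nat.pos_of_ne_zero hp) (H.bok ht hp) ((H.pb ht).chP p).self
        ((H.pb ht).chN p).self c
  no1 := fun {L} ht z x => by
    have h := H.no1 ht
    constructor
    · show bc (kg 1) ((bB 1 L).map chP) (some z) x = 0
      rw [h]; rfl
    · show bc (kg 1) ((bB 1 L).map chN) (some z) x = 0
      rw [h]; rfl

open Classical in
/-- contents outside of the game -/
lemma none_eq (H : GD wr kg Inv) {p : ℕ} {L : List (DT Λ κ)} (ht : Inv p L) (hp : p ≠ 0)
    {X : List (DT Λ κ)} (hX : X = bB p L ∨ X = (bB p L).map chP ∨ X = (bB p L).map chN) (x : ℝ) :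
    bc (kg p) X none x = ∑ c, if ∃ z, H.cl p L z = some c then 0 else bc (wr p) X c x := by
  have h1 := total_eq (kg p) X x
  have h2 := sum_bc (wr p) X x
  have h3 : ∑ z, bc (kg p) X (some z) x = ∑ c, if ∃ z, H.cl p L z = some c then
      bc (wr p) X c x else 0 := by
    rw [← sum_oc (H.inj ht hp) (fun c => bc (wr p) X c) x]
    exact Finset.sum_congr rfl fun z _ => congrFun (H.ct ht hp X hX z) x
  have h4 : ∑ c, bc (wr p) X c x = (∑ c, if ∃ z, H.cl p L z = some c then
      bc (wr p) X c x else 0) + ∑ c, if ∃ z, H.cl p L z = some c then 0 else bc (wr p) X c x := by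
    rw [← Finset.sum_add_distrib]
    refine Finset.sum_congr rfl fun c _ => ?_
    split_ifs <;> ring
  linarith

open Classical in
/-- **the budgets** -/
noncomputable def GD.rb (H : GD wr kg Inv) : RB H.rx where
  tt := bt
  u := fun p L => bc (kg p) L none
  uL := fun p L => bc (kg p) (bL p L) none
  uN := fun p L => bc (kg p) (bN p L) none
  bU := fun p L y => ∑ c, if ∃ z, H.cl p L z = some c then 0 else bb (bB p L) c y
  gU := fun p L x => ∑ c, if ∃ z, H.cl p L z = some c then 0 else gb (bB p L) c x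
  pu := fun ht => PB_bc (H.pb ht).self _
  puL := fun {p L} ht _ => PB_bc ((H.pb ht).bL p).self _
  puN := fun {p L} ht _ => PB_bc ((H.pb ht).bN p).self _
  pbU := fun {p L} ht _ => PB.sum _ fun c _ => by
    split_ifs
    · exact PB.const le_rfl
    · exact PB_bb _ _
  pgU := fun {p L} ht _ => PB.sum _ fun c _ => by
    split_ifs
    · exact PB.const le_rfl
    · exact PB_gb _ _
  sh := fun {p L} ht x => total_eq (kg p) L x
  sN := fun {p L} ht hp x => total_eq (kg p) (bN p L) x
  us := fun {p L} ht hp x => by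
    have e1 := bc_split3 (kg p) p L none x
    have e2 := none_eq H ht hp (Or.inl rfl) x
    rw [e1, e2, ← Finset.sum_add_distrib]
    congr 1
    congr 1
    refine Finset.sum_congr rfl fun c _ => ?_
    split_ifs
    · ring
    · exact bc_dec (H.bok ht hp) c x
  um := fun {p L} ht hp y => by
    have hp0 := Nat.pos_of_ne_zero hp
    have e2 := none_eq H ht hp (Or.inr (Or.inl rfl)) y
    have e3 := none_eq H ht hp (Or.inr (Or.inr rfl)) y
    show (∑ c, if ∃ z, H.cl p L z = some c then 0 else bb (bB p L) c y) +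
      Ep p (fun x => ∑ c, if ∃ z, H.cl p L z = some c then 0 else gb (bB p L) c x) y =
      (1 - 1 / (p : ℝ)) * bc (kg p) ((bB p L).map chP) none y +
        1 / (p : ℝ) * bc (kg p) ((bB p L).map chN) none y
    rw [e2, e3, Ep_sum', Finset.mul_sum, Finset.mul_sum, ← Finset.sum_add_distrib,
      ← Finset.sum_add_distrib]
    refine Finset.sum_congr rfl fun c _ => ?_
    by_cases h : ∃ z, H.cl p L z = some c
    · simp only [if_pos h]
      unfold Ep
      simp
    · simp only [if_neg h]
      exact ER_mean (ER_bundle hp0 (H.bok ht hp) ((H.pb ht).chP p).self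
        ((H.pb ht).chN p).self c) hp0 y
  un := fun {L} ht x => by
    have h := H.no1 ht
    constructor
    · show bc (kg 1) ((bB 1 L).map chP) none x = 0
      rw [h]; rfl
    · show bc (kg 1) ((bB 1 L).map chN) none x = 0
      rw [h]; rfl
  B0 := H.B0
  bd := H.bd

/-! ### class changes -/

lemma bc_mono_eq (L : List (DT Λ κ)) (k k' : Λ → Option δ) (φ : δ → δ)
    (hn : ∀ t ∈ L, ∀ j, (t.g.val j ≠ fun _ => 0) → ∀ z, k j = some z → k' j = some (φ z))
    (hP : PBL L) (z' : δ) (x : ℝ) :
    ∑ z ∈ Finset.univ.filter (fun z => φ z = z'), bc k L (some z) x ≤ bc k' L (some z') x := by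
  induction L with
  | nil => simp
  | cons t L ih =>
    have i := ih (fun s hs => hn s (List.mem_cons_of_mem _ hs))
      (fun s hs => hP s (List.mem_cons_of_mem _ hs))
    simp only [bc_cons]
    rw [Finset.sum_add_distrib]
    refine add_le_add ?_ i
    unfold GWb343.cf sm
    rw [← Finset.sum_biUnion]
    · have e : ∀ A B : Finset Λ, (∀ j ∈ A, j ∉ B → t.g.val j x = 0) →
          (∀ j ∈ B, 0 ≤ t.g.val j x) → ∑ j ∈ A, t.g.val j x ≤ ∑ j ∈ B, t.g.val j x := by
        intro A B h1 h2
        have e1 : ∑ j ∈ A, t.g.val j x = ∑ j ∈ A.filter (fun j => j ∈ B), t.g.val j x := by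
          rw [Finset.sum_filter]
          refine Finset.sum_congr rfl fun j hj => ?_
          by_cases h : j ∈ B
          · rw [if_pos h]
          · rw [if_neg h, h1 j hj h]
        rw [e1]
        refine Finset.sum_le_sum_of_subset_of_nonneg (fun j hj => (Finset.mem_filter.1 hj).2) ?_
        intro j hj _
        exact h2 j hj
      refine e _ _ (fun j hj hj2 => ?_) fun j hj => (hP t (by simp) j).nonneg x
      obtain ⟨z, hz, hjz⟩ := Finset.mem_biUnion.1 hj
      have h1 := (Finset.mem_filter.1 hz).2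
      have h2 := (Finset.mem_filter.1 hjz).2
      by_contra hne
      have h3 : t.g.val j ≠ fun _ => 0 := fun h => hne (by rw [h])
      have h4 := hn t (by simp) j h3 z h2
      rw [h1] at h4
      exact hj2 (Finset.mem_filter.2 ⟨Finset.mem_univ _, h4⟩)
    · intro a _ b _ hab
      refine Finset.disjoint_left.2 fun j ha hb => ?_
      have h1 := (Finset.mem_filter.1 ha).2
      have h2 := (Finset.mem_filter.1 hb).2
      rw [h1] at h2
      exact hab (Option.some.inj h2)

end st

end Crest.Agent.R4P.MSd343
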