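import Crest.Agent.R4P.ModeJ_16

/-!
R4 (S0004) with powers, helper16: **the walk induction with adaptive scales** (T3: heights > 1).

* `MS σ` : abstract walk with short parts `A k` at the scales `2^k`;
* `sc n p t x` : scale index of the point, `hv` : heavy, `scB, hvB` : the same for the tie part;
* `Phi`, `Pd` : value and potential of a point; `I_fibre`, `I_join`; `K`, `E`; **`main`**.
-/

set_option autoImplicit false
set_option linter.unusedSectionVars false
set_option linter.unusedVariables false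
open MeasureTheory Filter Set

namespace Crest.Agent.R4P.ModeS16

open Crest.Agent.R4.Tour104 Crest.Agent.R4.Clos758
open Crest.Agent.R4P.LogG51 (PB_max)
open Crest.Agent.R4P.Mode940 Crest.Agent.R4P.ModeG51 Crest.Agent.R4P.ModeR16

/-- **abstract walk with scales** -/
structure MS (σ : Type*) where
  del : ℝ
  Km : ℕ
  C : ℕ → σ → σ
  N : ℕ → σ → σ
  ok : ℕ → σ → Prop
  T : σ → ℝ → ℝ
  TL : ℕ → σ → ℝ → ℝ
  TB : ℕ → σ → ℝ → ℝ
  bT : ℕ → σ → ℝ → ℝ
  GT : ℕ → σ → ℝ → ℝ
  cost : ℕ → σ → ℝ → ℝ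
  jn : ℕ → σ → ℝ → ℝ
  jB : ℕ → σ → ℝ → ℝ
  A : ℕ → σ → ℝ → ℝ
  AL : ℕ → ℕ → σ → ℝ → ℝ
  AB : ℕ → ℕ → σ → ℝ → ℝ
  AR : ℕ → ℕ → σ → ℝ → ℝ
  be : ℕ → ℕ → σ → ℝ → ℝ
  G : ℕ → ℕ → σ → ℝ → ℝ
  bt : ℕ → ℕ → σ → ℝ → ℝ
  ls : ℕ → ℕ → σ → ℝ → ℝ
  cS : ℕ → ℕ → σ → ℝ → ℝ
  cT : ℕ → ℕ → σ → ℝ → ℝ
  ex : ℕ → ℕ → σ → ℝ → ℝ
  br : ℕ → ℕ → σ → ℝ → ℝ
  Pt : ℕ → ℕ → σ → ℝ → ℝ
  PR : ℕ → ℕ → σ → ℝ → ℝ
  PtB : ℕ → ℕ → σ → ℝ → ℝ
  del0 : 0 < del
  del1 : del ≤ 1
  okC : ∀ {p t}, ok p t → p ≠ 0 → ok p (C p t)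
  okN : ∀ {p t}, ok p t → p ≠ 0 → ok (p - 1) (N p t)
  pT : ∀ {p t}, ok p t → PB (T t)
  pTL : ∀ {p t}, ok p t → p ≠ 0 → PB (TL p t)
  pTB : ∀ {p t}, ok p t → p ≠ 0 → PB (TB p t)
  pGT : ∀ {p t}, ok p t → p ≠ 0 → PB (GT p t)
  pcost : ∀ {p t}, ok p t → p ≠ 0 → PB (cost p t)
  pjn : ∀ {p t}, ok p t → p ≠ 0 → PB (jn p t)
  pjB : ∀ {p t}, ok p t → p ≠ 0 → PB (jB p t)
  pA : ∀ {k p t}, ok p t → PB (A k t)
  pAL : ∀ {k p t}, ok p t → p ≠ 0 → PB (AL k p t)
  pAB : ∀ {k p t}, ok p t → p ≠ 0 → PB (AB k p t)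
  pAR : ∀ {k p t}, ok p t → p ≠ 0 → PB (AR k p t)
  pG : ∀ {k p t}, ok p t → p ≠ 0 → PB (G k p t)
  pbt : ∀ {k p t}, ok p t → p ≠ 0 → PB (bt k p t)
  pex : ∀ {k p t}, ok p t → p ≠ 0 → PB (ex k p t)
  pbr : ∀ {k p t}, ok p t → p ≠ 0 → PB (br k p t)
  pPt : ∀ {k p t}, ok p t → PB (Pt k p t)
  pPtB : ∀ {k p t}, ok p t → p ≠ 0 → PB (PtB k p t)
  mbe : ∀ {k p t}, ok p t → p ≠ 0 → Measurable (be k p t)
  bper : ∀ {k p t}, ok p t → p ≠ 0 → ∀ x, be k p t (x + 1) = be k p t x
  bTper : ∀ {p t}, ok p t → p ≠ 0 → ∀ x, bT p t (x + 1) = bT p t x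
  cS0 : ∀ {k p t}, ok p t → p ≠ 0 → ∀ x, 0 ≤ cS k p t x
  PR0 : ∀ {k p t}, ok p t → p ≠ 0 → ∀ x, 0 ≤ PR k p t x
  ls0 : ∀ {k p t}, ok p t → p ≠ 0 → ∀ x, 0 ≤ ls k p t x
  bd : ∀ {p t}, ok p t → ∀ x, del * T t x ≤ 2 ^ Km
  spl : ∀ {p t}, ok p t → p ≠ 0 → ∀ x, T t x = TL p t x + TB p t x + T (N p t) x
  mean : ∀ {p t}, ok p t → p ≠ 0 → ∀ y, Ep p (TB p t) y = T (C p t) y
  dec : ∀ {p t}, ok p t → p ≠ 0 → ∀ x, TB p t x = bT p t (p * x) + GT p t x
  AT : ∀ {k p t}, ok p t → ∀ x, A k t x ≤ T t x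
  ABT : ∀ {k p t}, ok p t → p ≠ 0 → ∀ x, AB k p t x ≤ TB p t x
  ALT : ∀ {k p t}, ok p t → p ≠ 0 → ∀ x, AL k p t x ≤ TL p t x
  decA : ∀ {k p t}, ok p t → p ≠ 0 → ∀ x,
    AB k p t x = be k p t (p * x) + G k p t x + bt k p t x - ls k p t x
  decR : ∀ {k p t}, ok p t → p ≠ 0 → ∀ x, 0 ≤ be k p t (p * x) + G k p t x
  decB : ∀ {k p t}, ok p t → p ≠ 0 → ∀ x, be k p t (p * x) + G k p t x + bt k p t x ≤ TB p t x
  meanA : ∀ {k p t}, ok p t → p ≠ 0 → ∀ y, be k p t y + Ep p (G k p t) y = A k (C p t) y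
  GG : ∀ {k p t}, ok p t → p ≠ 0 → ∀ x, G k p t x ≤ GT p t x
  lsJ : ∀ {p t}, ok p t → p ≠ 0 → ∀ x,
    ∑ l ∈ Finset.range (Km + 1), 2 ^ l * ls l p t x ≤ jB p t x
  cc : ∀ {k p t}, ok p t → p ≠ 0 → ∀ x, cost p t x ≤ 2 * cS k p t x + 2 * cT k p t x
  c1 : ∀ {k p t}, ok p t → p ≠ 0 → ∀ x, cS k p t x ≤ G k p t x ^ 2
  c2 : ∀ {k p t}, ok p t → p ≠ 0 → ∀ x,
    cS k p t x ≤ 2 ^ k * (be k p t (p * x) + G k p t x)
  c4 : ∀ {k p t}, ok p t → p ≠ 0 → ∀ x, cT k p t x ≤ (GT p t x - G k p t x) ^ 2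
  c3 : ∀ {k p t}, ok p t → p ≠ 0 → ∀ x,
    cost p t x ≤ 2 * (2 ^ k * AB k p t x) + 2 * (TB p t x - AB k p t x) ^ 2
  col : ∀ {k p t}, ok p t → p ≠ 0 → ∀ y,
    Ep p (fun x => cS k p t x + PR k p t x) y ≤ Pt k p (C p t) y + Ep p (ex k p t) y
  bR : ∀ {k p t}, ok p t → p ≠ 0 → ∀ x,
    PR k p t x ≤ 14 * (2 ^ k * (be k p t (p * x) + G k p t x))
  PB1 : ∀ {k p t}, ok p t → p ≠ 0 → ∀ x, PtB k p t x ≤ PR k p t x + 14 * (2 ^ k * bt k p t x)
  PB2 : ∀ {k p t}, ok p t → p ≠ 0 → ∀ x, PtB k p t x ≤ 14 * (2 ^ k * AB k p t x)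
  born : ∀ {k p t}, ok p t → ∀ x, Pt k p t x ≤ 14 * (2 ^ k * A k t x)
  arN : ∀ {k p t}, ok p t → p ≠ 0 → ∀ x, A k (N p t) x ≤ AR k p t x
  ART : ∀ {k p t}, ok p t → p ≠ 0 → ∀ x, AR k p t x ≤ T (N p t) x
  lam : ∀ {k p t}, ok p t → p ≠ 0 → ∀ x, A k t x ≤ AB k p t x + AR k p t x + AL k p t x
  lamJ : ∀ {p t}, ok p t → p ≠ 0 → ∀ x, ∑ l ∈ Finset.range (Km + 1),
    2 ^ l * (AB l p t x + AR l p t x + AL l p t x - A l t x) ≤ jn p t x
  joH : ∀ {k p t}, ok p t → p ≠ 0 → ∀ x, Pt k p t x ≤ PtB k p t x + Pt k (p - 1) (N p t) x +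
    14 * (2 ^ k * (AR k p t x - A k (N p t) x)) +
    14 * (2 ^ k * min (AB k p t x) (AR k p t x)) + 14 * (2 ^ k * AL k p t x) + br k p t x
  joB : ∀ {k p t}, ok p t → p ≠ 0 → ∀ x, Pt k p t x ≤ PtB k p t x +
    14 * (2 ^ k * (AR k p t x + AL k p t x)) + br k p t x
  joN : ∀ {k p t}, ok p t → p ≠ 0 → ∀ x, Pt k p t x ≤ Pt k (p - 1) (N p t) x +
    14 * (2 ^ k * (AR k p t x - A k (N p t) x)) +
    14 * (2 ^ k * (AB k p t x + AL k p t x)) + br k p t x

/-! ### selection by a measurable index -/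

lemma PB_sel {F : ℕ → ℝ → ℝ} {s : ℝ → ℕ} {K : ℕ} (hF : ∀ k, PB (F k)) (hs : Measurable s)
    (hper : ∀ x, s (x + 1) = s x) (hK : ∀ x, s x ≤ K) : PB fun x => F (s x) x := by
  classical
  have e : (fun x => F (s x) x) =
      fun x => ∑ k ∈ Finset.range (K + 1), (if s x = k then F k x else 0) := by
    funext x
    rw [Finset.sum_ite_eq]
    simp [hK x]
  rw [e]
  refine PB.sum _ fun k _ => PB_ite (P := fun x => s x = k) (hs (measurableSet_singleton k))
    (fun x => by rw [hper]) (hF k) (PB.const le_rfl)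

lemma meas_sel {P : ℕ → ℝ → Prop} {s : ℝ → ℕ} (hP : ∀ k, MeasurableSet {x | P k x})
    (hs : Measurable s) : MeasurableSet {x | P (s x) x} := by
  have e : {x | P (s x) x} = ⋃ k, (s ⁻¹' {k} ∩ {x | P k x}) := by
    ext x
    simp
  rw [e]
  exact MeasurableSet.iUnion fun k => (hs (measurableSet_singleton k)).inter (hP k)

lemma PB_sub {f g : ℝ → ℝ} (hf : PB f) (hg : PB g) (h : ∀ x, g x ≤ f x) :
    PB fun x => f x - g x := by
  obtain ⟨B, hB⟩ := hf.bdd
  refine ⟨hf.meas.sub hg.meas, fun x => sub_nonneg.2 (h x), ⟨B, fun x => ?_⟩,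
    fun x => by rw [hf.per, hg.per]⟩
  have := hg.nonneg x
  linarith [hB x]

lemma s_per_nat {s : ℝ → ℕ} (h : ∀ x, s (x + 1) = s x) (n : ℕ) (x : ℝ) : s (x + n) = s x := by
  induction n with
  | zero => simp
  | succ n ih =>
    have e : x + ((n + 1 : ℕ) : ℝ) = (x + n) + 1 := by push_cast; ring
    rw [e, h, ih]

/-! ### the dyadic scale -/

open Classical in
/-- least `k` with `s ≤ 2^k` -/
noncomputable def dy (s : ℝ) : ℕ :=
  Nat.find (p := fun k : ℕ => s ≤ (2:ℝ) ^ k) (pow_unbounded_of_one_lt s one_lt_two |>.imp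
    fun _ h => le_of_lt h)

lemma le_dy (s : ℝ) : s ≤ (2:ℝ) ^ dy s := by
  classical
  exact Nat.find_spec (p := fun k : ℕ => s ≤ (2:ℝ) ^ k) _

lemma dy_le {s : ℝ} {k : ℕ} (h : s ≤ (2:ℝ) ^ k) : dy s ≤ k := by
  classical
  exact Nat.find_min' (p := fun k : ℕ => s ≤ (2:ℝ) ^ k) _ h

lemma dy_mono : Monotone dy := fun _ _ h => dy_le (h.trans (le_dy _))

lemma dy_two {s : ℝ} (hs : 0 ≤ s) : (2:ℝ) ^ dy s ≤ 1 + 2 * s := by
  by_contra h
  push Not at h
  have hk : dy s ≠ 0 := by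
    intro h0
    rw [h0] at h
    norm_num at h
    linarith
  obtain ⟨k, hk'⟩ := Nat.exists_eq_succ_of_ne_zero hk
  have h1 : dy s ≤ k := dy_le (by
    rw [hk', pow_succ] at h
    linarith)
  omega

section walk
variable {σ : Type*} (w : MS σ)

/-- scale index of a point -/
noncomputable def sc : ℕ → ℕ → σ → ℝ → ℕ
  | 0, _, t => fun x => dy (w.del * w.T t x)
  | n + 1, p, t => fun x => if p = 0 then dy (w.del * w.T t x) else
      max (dy (w.del * w.T t x)) (max (sc n p (w.C p t) (p * x)) (sc n (p - 1) (w.N p t) x))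

/-- scale index of the tie part -/
noncomputable def scB (n p : ℕ) (t : σ) (x : ℝ) : ℕ :=
  max (dy (w.del * w.TB p t x)) (sc w n p (w.C p t) (p * x))

lemma sc_succ (n : ℕ) {p : ℕ} (hp : p ≠ 0) (t : σ) (x : ℝ) : sc w (n + 1) p t x =
    max (dy (w.del * w.T t x)) (max (sc w n p (w.C p t) (p * x)) (sc w n (p - 1) (w.N p t) x)) := by
  show (if p = 0 then _ else _) = _
  rw [if_neg hp]

lemma sc_succ0 (n : ℕ) (t : σ) (x : ℝ) : sc w (n + 1) 0 t x = dy (w.del * w.T t x) := rfl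

lemma TB_le {p : ℕ} {t : σ} (ht : w.ok p t) (hp : p ≠ 0) (x : ℝ) : w.TB p t x ≤ w.T t x := by
  have h1 := w.spl ht hp x
  have h2 := (w.pTL ht hp).nonneg x
  have h3 := (w.pT (w.okN ht hp)).nonneg x
  linarith

lemma dT_le (n p : ℕ) (t : σ) (x : ℝ) : w.del * w.T t x ≤ (2:ℝ) ^ sc w n p t x := by
  have h := le_dy (w.del * w.T t x)
  refine h.trans (pow_le_pow_right₀ (by norm_num) ?_)
  cases n with
  | zero => exact le_rfl
  | succ n =>
    by_cases hp : p = 0
    · subst hp; exact le_rfl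
    · rw [sc_succ w n hp]; exact le_max_left _ _

lemma sc_le : ∀ (n p : ℕ) (t : σ), w.ok p t → ∀ x, sc w n p t x ≤ w.Km := by
  intro n
  induction n with
  | zero => intro p t ht x; exact dy_le (w.bd ht x)
  | succ n ih =>
    intro p t ht x
    by_cases hp : p = 0
    · subst hp; exact dy_le (w.bd ht x)
    · rw [sc_succ w n hp]
      exact max_le (dy_le (w.bd ht x)) (max_le (ih p _ (w.okC ht hp) _) (ih _ _ (w.okN ht hp) _))

lemma dTB_le (n p : ℕ) (t : σ) (x : ℝ) : w.del * w.TB p t x ≤ (2:ℝ) ^ scB w n p t x :=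
  (le_dy _).trans (pow_le_pow_right₀ (by norm_num) (le_max_left _ _))

lemma scB_le_sc (n : ℕ) {p : ℕ} {t : σ} (ht : w.ok p t) (hp : p ≠ 0) (x : ℝ) :
    scB w n p t x ≤ sc w (n + 1) p t x := by
  rw [sc_succ w n hp]
  refine max_le ((dy_mono ?_).trans (le_max_left _ _)) ((le_max_left _ _).trans (le_max_right _ _))
  exact mul_le_mul_of_nonneg_left (TB_le w ht hp x) w.del0.le

lemma scN_le_sc (n : ℕ) {p : ℕ} {t : σ} (hp : p ≠ 0) (x : ℝ) :
    sc w n (p - 1) (w.N p t) x ≤ sc w (n + 1) p t x := by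
  rw [sc_succ w n hp]
  exact (le_max_right _ _).trans (le_max_right _ _)

lemma scC_le_scB (n p : ℕ) (t : σ) (x : ℝ) : sc w n p (w.C p t) (p * x) ≤ scB w n p t x :=
  le_max_right _ _

lemma scB_le (n : ℕ) {p : ℕ} {t : σ} (ht : w.ok p t) (hp : p ≠ 0) (x : ℝ) :
    scB w n p t x ≤ w.Km := (scB_le_sc w n ht hp x).trans (sc_le w _ _ _ ht x)

lemma meas_dy {f : ℝ → ℝ} (hf : Measurable f) : Measurable fun x => dy (f x) :=
  dy_mono.measurable.comp hf

lemma sc_facts : ∀ (n p : ℕ) (t : σ), w.ok p t →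
    Measurable (sc w n p t) ∧ ∀ x, sc w n p t (x + 1) = sc w n p t x := by
  intro n
  induction n with
  | zero =>
    intro p t ht
    refine ⟨meas_dy ((w.pT ht).meas.const_mul _), fun x => ?_⟩
    show dy (w.del * w.T t (x + 1)) = dy (w.del * w.T t x)
    rw [(w.pT ht).per]
  | succ n ih =>
    intro p t ht
    by_cases hp : p = 0
    · subst hp
      refine ⟨?_, fun x => ?_⟩
      · have e : sc w (n + 1) 0 t = fun x => dy (w.del * w.T t x) := rfl
        rw [e]
        exact meas_dy ((w.pT ht).meas.const_mul _)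
      · rw [sc_succ0, sc_succ0, (w.pT ht).per]
    · obtain ⟨mC, pC⟩ := ih p _ (w.okC ht hp)
      obtain ⟨mN, pN⟩ := ih (p - 1) _ (w.okN ht hp)
      refine ⟨?_, fun x => ?_⟩
      · have e : sc w (n + 1) p t = fun x => max (dy (w.del * w.T t x))
            (max (sc w n p (w.C p t) (p * x)) (sc w n (p - 1) (w.N p t) x)) := by
          funext x; exact sc_succ w n hp t x
        rw [e]
        exact (meas_dy ((w.pT ht).meas.const_mul _)).max
          ((mC.comp (measurable_const.mul measurable_id)).max mN)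
      · rw [sc_succ w n hp, sc_succ w n hp]
        have e : (p:ℝ) * (x + 1) = p * x + p := by ring
        rw [(w.pT ht).per, e, s_per_nat pC p, pN]

lemma scB_facts (n : ℕ) {p : ℕ} {t : σ} (ht : w.ok p t) (hp : p ≠ 0) :
    Measurable (scB w n p t) ∧ ∀ x, scB w n p t (x + 1) = scB w n p t x := by
  obtain ⟨mC, pC⟩ := sc_facts w n p _ (w.okC ht hp)
  refine ⟨(meas_dy ((w.pTB ht hp).meas.const_mul _)).max
    (mC.comp (measurable_const.mul measurable_id)), fun x => ?_⟩
  unfold scB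
  have e : (p:ℝ) * (x + 1) = p * x + p := by ring
  rw [(w.pTB ht hp).per, e, s_per_nat pC p]

/-! ### heavy points -/

/-- heavy for the tie part, `h` = the point below is heavy -/
def hB (n p : ℕ) (t : σ) (h : ℝ → Prop) (x : ℝ) : Prop :=
  (scB w n p t x = sc w n p (w.C p t) (p * x) ∧
    (2:ℝ) ^ scB w n p t x ≤ w.AB (scB w n p t x) p t x ∧
    (2 * (2:ℝ) ^ scB w n p t x ≤ w.be (scB w n p t x) p t (p * x) + w.G (scB w n p t x) p t x +
        w.bt (scB w n p t x) p t x ∨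
      (2 * (2:ℝ) ^ scB w n p t x ≤ w.be (scB w n p t x) p t (p * x) + w.G (scB w n p t x) p t x ∨
      ((2:ℝ) ^ scB w n p t x ≤ w.be (scB w n p t x) p t (p * x) + w.G (scB w n p t x) p t x ∧
        h (p * x))))) ∨
  (scB w n p t x ≠ sc w n p (w.C p t) (p * x) ∧
    2 * (2:ℝ) ^ scB w n p t x ≤ w.AB (scB w n p t x) p t x)

/-- heavy points -/
def hv : ℕ → ℕ → σ → ℝ → Prop
  | 0, p, t => fun x => 2 * (2:ℝ) ^ sc w 0 p t x ≤ w.A (sc w 0 p t x) t x
  | n + 1, p, t => fun x =>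
    (p = 0 ∧ 2 * (2:ℝ) ^ sc w (n + 1) p t x ≤ w.A (sc w (n + 1) p t x) t x) ∨
    (p ≠ 0 ∧ (2:ℝ) ^ sc w (n + 1) p t x ≤ w.A (sc w (n + 1) p t x) t x ∧
      (2 * (2:ℝ) ^ sc w (n + 1) p t x ≤ w.AB (sc w (n + 1) p t x) p t x +
          w.AR (sc w (n + 1) p t x) p t x + w.AL (sc w (n + 1) p t x) p t x ∨
        (sc w (n + 1) p t x = scB w n p t x ∧ hB w n p t (hv n p (w.C p t)) x) ∨
        (sc w (n + 1) p t x = sc w n (p - 1) (w.N p t) x ∧ hv n (p - 1) (w.N p t) x)))

/-- heavy for the tie part -/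
def hvB (n p : ℕ) (t : σ) (x : ℝ) : Prop := hB w n p t (hv w n p (w.C p t)) x

lemma hv_succ (n : ℕ) {p : ℕ} (hp : p ≠ 0) (t : σ) (x : ℝ) :
    hv w (n + 1) p t x ↔ ((2:ℝ) ^ sc w (n + 1) p t x ≤ w.A (sc w (n + 1) p t x) t x ∧
      (2 * (2:ℝ) ^ sc w (n + 1) p t x ≤ w.AB (sc w (n + 1) p t x) p t x +
          w.AR (sc w (n + 1) p t x) p t x + w.AL (sc w (n + 1) p t x) p t x ∨
        (sc w (n + 1) p t x = scB w n p t x ∧ hvB w n p t x) ∨
        (sc w (n + 1) p t x = sc w n (p - 1) (w.N p t) x ∧ hv w n (p - 1) (w.N p t) x))) := by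
  constructor
  · rintro (⟨h, -⟩ | ⟨-, h⟩)
    · exact absurd h hp
    · exact h
  · intro h
    exact Or.inr ⟨hp, h⟩

lemma hv_succ0 (n : ℕ) (t : σ) (x : ℝ) :
    hv w (n + 1) 0 t x ↔ 2 * (2:ℝ) ^ sc w (n + 1) 0 t x ≤ w.A (sc w (n + 1) 0 t x) t x := by
  constructor
  · rintro (⟨-, h⟩ | ⟨h, -⟩)
    · exact h
    · exact absurd rfl h
  · intro h
    exact Or.inl ⟨rfl, h⟩

lemma two_pow_pos (k : ℕ) : (0:ℝ) < 2 ^ k := by positivity

lemma hv_lo (n p : ℕ) (t : σ) (ht : w.ok p t) (x : ℝ) (h : hv w n p t x) :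
    (2:ℝ) ^ sc w n p t x ≤ w.A (sc w n p t x) t x := by
  cases n with
  | zero =>
    have := two_pow_pos (sc w 0 p t x)
    have h' : 2 * (2:ℝ) ^ sc w 0 p t x ≤ w.A (sc w 0 p t x) t x := h
    linarith
  | succ n =>
    by_cases hp : p = 0
    · subst hp
      have := two_pow_pos (sc w (n + 1) 0 t x)
      have h' := (hv_succ0 w n t x).1 h
      linarith
    · exact ((hv_succ w n hp t x).1 h).1

lemma hv_hi (n p : ℕ) (t : σ) (ht : w.ok p t) (x : ℝ) (h : ¬ hv w n p t x) :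
    w.A (sc w n p t x) t x < 2 * (2:ℝ) ^ sc w n p t x := by
  cases n with
  | zero => exact not_le.1 h
  | succ n =>
    by_cases hp : p = 0
    · subst hp
      rw [hv_succ0] at h
      exact not_le.1 h
    · rw [hv_succ w n hp] at h
      have := two_pow_pos (sc w (n + 1) p t x)
      by_contra h2
      push Not at h2
      apply h
      refine ⟨by linarith, Or.inl (h2.trans (w.lam ht hp x))⟩

lemma hvB_lo (n : ℕ) {p : ℕ} {t : σ} (ht : w.ok p t) (hp : p ≠ 0) (x : ℝ) (h : hvB w n p t x) :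
    (2:ℝ) ^ scB w n p t x ≤ w.AB (scB w n p t x) p t x := by
  rcases h with ⟨_, h, _⟩ | ⟨_, h⟩
  · exact h
  · have := two_pow_pos (scB w n p t x)
    linarith

lemma hvB_hi (n : ℕ) {p : ℕ} {t : σ} (ht : w.ok p t) (hp : p ≠ 0) (x : ℝ)
    (h : ¬ hvB w n p t x) : w.AB (scB w n p t x) p t x < 2 * (2:ℝ) ^ scB w n p t x := by
  by_contra h2
  push Not at h2
  apply h
  by_cases e : scB w n p t x = sc w n p (w.C p t) (p * x)
  · have e2 := w.decA (k := scB w n p t x) ht hp x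
    have e3 := w.ls0 (k := scB w n p t x) ht hp x
    have := two_pow_pos (scB w n p t x)
    exact Or.inl ⟨e, by linarith, Or.inl (by linarith)⟩
  · exact Or.inr ⟨e, h2⟩

lemma hB_facts (n : ℕ) {p : ℕ} {t : σ} (ht : w.ok p t) (hp : p ≠ 0) {h : ℝ → Prop}
    (mh : MeasurableSet {x | h x}) (ph : ∀ x, h (x + 1) ↔ h x) :
    MeasurableSet {x | hB w n p t h x} ∧ ∀ x, hB w n p t h (x + 1) ↔ hB w n p t h x := by
  obtain ⟨mB, pB⟩ := scB_facts w n ht hp
  obtain ⟨mC, pC⟩ := sc_facts w n p _ (w.okC ht hp)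
  have mc : Measurable fun x : ℝ => (p:ℝ) * x := measurable_const.mul measurable_id
  refine ⟨?_, fun x => ?_⟩
  · have m1 : MeasurableSet {x | scB w n p t x = sc w n p (w.C p t) (p * x)} :=
      measurableSet_eq_fun mB (mC.comp mc)
    have m2 := meas_sel (P := fun k x => (2:ℝ) ^ k ≤ w.AB k p t x) (s := scB w n p t)
      (fun k => measurableSet_le measurable_const (w.pAB ht hp).meas) mB
    have m3 := meas_sel (P := fun k x => 2 * (2:ℝ) ^ k ≤ w.be k p t (p * x) + w.G k p t x +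
        w.bt k p t x) (s := scB w n p t)
      (fun k => measurableSet_le measurable_const
        ((((w.mbe ht hp).comp mc).add (w.pG ht hp).meas).add (w.pbt ht hp).meas)) mB
    have m4 := meas_sel (P := fun k x => 2 * (2:ℝ) ^ k ≤ w.be k p t (p * x) + w.G k p t x)
      (s := scB w n p t)
      (fun k => measurableSet_le measurable_const
        (((w.mbe ht hp).comp mc).add (w.pG ht hp).meas)) mB
    have m5 := meas_sel (P := fun k x => (2:ℝ) ^ k ≤ w.be k p t (p * x) + w.G k p t x)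
      (s := scB w n p t)
      (fun k => measurableSet_le measurable_const
        (((w.mbe ht hp).comp mc).add (w.pG ht hp).meas)) mB
    have m6 : MeasurableSet {x : ℝ | h (p * x)} := mc mh
    have m7 := meas_sel (P := fun k x => 2 * (2:ℝ) ^ k ≤ w.AB k p t x) (s := scB w n p t)
      (fun k => measurableSet_le measurable_const (w.pAB ht hp).meas) mB
    exact (m1.inter (m2.inter (m3.union (m4.union (m5.inter m6))))).union (m1.compl.inter m7)
  · unfold hB
    have e : (p:ℝ) * (x + 1) = p * x + p := by ring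
    have e1 : ∀ k, w.be k p t (p * x + p) = w.be k p t (p * x) := by
      intro k
      have := w.bper (k := k) ht hp
      have h2 : ∀ m : ℕ, w.be k p t (p * x + m) = w.be k p t (p * x) := by
        intro m
        induction m with
        | zero => simp
        | succ m ih =>
          have e : (p:ℝ) * x + ((m + 1 : ℕ) : ℝ) = (p * x + m) + 1 := by push_cast; ring
          rw [e, this, ih]
      exact h2 p
    rw [pB, e, s_per_nat pC p, (w.pAB ht hp).per, (w.pG ht hp).per, (w.pbt ht hp).per, e1,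
      per_nat ph p]

lemma hv_facts : ∀ (n p : ℕ) (t : σ), w.ok p t →
    MeasurableSet {x | hv w n p t x} ∧ ∀ x, hv w n p t (x + 1) ↔ hv w n p t x := by
  intro n
  induction n with
  | zero =>
    intro p t ht
    obtain ⟨m, pr⟩ := sc_facts w 0 p t ht
    refine ⟨meas_sel (P := fun k x => 2 * (2:ℝ) ^ k ≤ w.A k t x) (s := sc w 0 p t)
      (fun k => measurableSet_le measurable_const (w.pA ht).meas) m, fun x => ?_⟩
    show 2 * (2:ℝ) ^ sc w 0 p t (x + 1) ≤ w.A (sc w 0 p t (x + 1)) t (x + 1) ↔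
      2 * (2:ℝ) ^ sc w 0 p t x ≤ w.A (sc w 0 p t x) t x
    rw [pr, (w.pA ht).per]
  | succ n ih =>
    intro p t ht
    obtain ⟨m, pr⟩ := sc_facts w (n + 1) p t ht
    by_cases hp : p = 0
    · subst hp
      refine ⟨?_, fun x => ?_⟩
      · have e : {x | hv w (n + 1) 0 t x} =
            {x | 2 * (2:ℝ) ^ sc w (n + 1) 0 t x ≤ w.A (sc w (n + 1) 0 t x) t x} := by
          ext x; exact hv_succ0 w n t x
        rw [e]
        exact meas_sel (P := fun k x => 2 * (2:ℝ) ^ k ≤ w.A k t x) (s := sc w (n + 1) 0 t)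
          (fun k => measurableSet_le measurable_const (w.pA ht).meas) m
      · rw [hv_succ0, hv_succ0, pr, (w.pA ht).per]
    · obtain ⟨mC, pC⟩ := ih p _ (w.okC ht hp)
      obtain ⟨mN, pN⟩ := ih (p - 1) _ (w.okN ht hp)
      obtain ⟨mB, pB⟩ := hB_facts w n ht hp mC pC
      obtain ⟨sB, qB⟩ := scB_facts w n ht hp
      obtain ⟨sN, qN⟩ := sc_facts w n (p - 1) _ (w.okN ht hp)
      have oN := w.okN ht hp
      have m1 := meas_sel (P := fun k x => (2:ℝ) ^ k ≤ w.A k t x) (s := sc w (n + 1) p t)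
        (fun k => measurableSet_le measurable_const (w.pA ht).meas) m
      have m2 := meas_sel (P := fun k x => 2 * (2:ℝ) ^ k ≤ w.AB k p t x + w.AR k p t x +
          w.AL k p t x) (s := sc w (n + 1) p t)
        (fun k => measurableSet_le measurable_const
          (((w.pAB ht hp).meas.add (w.pAR ht hp).meas).add (w.pAL ht hp).meas)) m
      have m3 : MeasurableSet {x | sc w (n + 1) p t x = scB w n p t x} :=
        measurableSet_eq_fun m sB
      have m4 : MeasurableSet {x | sc w (n + 1) p t x = sc w n (p - 1) (w.N p t) x} :=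
        measurableSet_eq_fun m sN
      refine ⟨?_, fun x => ?_⟩
      · have e : {x | hv w (n + 1) p t x} =
            {x | (2:ℝ) ^ sc w (n + 1) p t x ≤ w.A (sc w (n + 1) p t x) t x} ∩
            ({x | 2 * (2:ℝ) ^ sc w (n + 1) p t x ≤ w.AB (sc w (n + 1) p t x) p t x +
              w.AR (sc w (n + 1) p t x) p t x + w.AL (sc w (n + 1) p t x) p t x} ∪
            (({x | sc w (n + 1) p t x = scB w n p t x} ∩ {x | hvB w n p t x}) ∪
              ({x | sc w (n + 1) p t x = sc w n (p - 1) (w.N p t) x} ∩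
                {x | hv w n (p - 1) (w.N p t) x}))) := by
          ext x; exact hv_succ w n hp t x
        rw [e]
        exact m1.inter (m2.union ((m3.inter mB).union (m4.inter mN)))
      · rw [hv_succ w n hp, hv_succ w n hp]
        unfold hvB
        rw [pr, (w.pA ht).per, (w.pAB ht hp).per, (w.pAR ht hp).per, (w.pAL ht hp).per, qB, qN, pB,
          pN]

lemma hvB_facts (n : ℕ) {p : ℕ} {t : σ} (ht : w.ok p t) (hp : p ≠ 0) :
    MeasurableSet {x | hvB w n p t x} ∧ ∀ x, hvB w n p t (x + 1) ↔ hvB w n p t x := by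
  obtain ⟨mC, pC⟩ := hv_facts w n p _ (w.okC ht hp)
  exact hB_facts w n ht hp mC pC

/-! ### member energies -/

/-- member energy of the state, its tie part, its leaf part, its rest by the new classes -/
noncomputable def D (k : ℕ) (t : σ) (x : ℝ) : ℝ :=
  ∑ l ∈ Finset.Ico k (w.Km + 1), 2 ^ l * (w.T t x - w.A l t x)

noncomputable def DB (k p : ℕ) (t : σ) (x : ℝ) : ℝ :=
  ∑ l ∈ Finset.Ico k (w.Km + 1), 2 ^ l * (w.TB p t x - w.AB l p t x)

noncomputable def DL (k p : ℕ) (t : σ) (x : ℝ) : ℝ :=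
  ∑ l ∈ Finset.Ico k (w.Km + 1), 2 ^ l * (w.TL p t x - w.AL l p t x)

noncomputable def DR (k p : ℕ) (t : σ) (x : ℝ) : ℝ :=
  ∑ l ∈ Finset.Ico k (w.Km + 1), 2 ^ l * (w.T (w.N p t) x - w.AR l p t x)

lemma sum_drop {f : ℕ → ℝ} (hf : ∀ l, 0 ≤ f l) {k k' K : ℕ} (h : k < k') (hK : k ≤ K) :
    ∑ l ∈ Finset.Ico k' (K + 1), f l + f k ≤ ∑ l ∈ Finset.Ico k (K + 1), f l := by
  have hk : k ∉ Finset.Ico k' (K + 1) := by simp; omega
  rw [add_comm, ← Finset.sum_insert hk]
  refine Finset.sum_le_sum_of_subset_of_nonneg ?_ fun l _ _ => hf l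
  intro l hl
  simp only [Finset.mem_insert, Finset.mem_Ico] at hl ⊢
  omega

lemma sum_single {f : ℕ → ℝ} (hf : ∀ l, 0 ≤ f l) {k K : ℕ} (hK : k ≤ K) :
    f k ≤ ∑ l ∈ Finset.range (K + 1), f l :=
  Finset.single_le_sum (f := f) (fun l _ => hf l) (Finset.mem_range.2 (by omega))

lemma Ico_le_range {f : ℕ → ℝ} (hf : ∀ l, 0 ≤ f l) (k K : ℕ) :
    ∑ l ∈ Finset.Ico k (K + 1), f l ≤ ∑ l ∈ Finset.range (K + 1), f l := by
  refine Finset.sum_le_sum_of_subset_of_nonneg ?_ fun l _ _ => hf l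
  intro l hl
  simp only [Finset.mem_Ico, Finset.mem_range] at hl ⊢
  omega

lemma PB_D {p : ℕ} {t : σ} (ht : w.ok p t) (k : ℕ) : PB (D w k t) := by
  unfold D
  exact PB.sum _ fun l _ => (PB_sub (w.pT ht) (w.pA ht) (w.AT ht)).smul (by positivity)

lemma PB_DB {p : ℕ} {t : σ} (ht : w.ok p t) (hp : p ≠ 0) (k : ℕ) : PB (DB w k p t) := by
  unfold DB
  exact PB.sum _ fun l _ => (PB_sub (w.pTB ht hp) (w.pAB ht hp) (w.ABT ht hp)).smul (by positivity)

lemma PB_DL {p : ℕ} {t : σ} (ht : w.ok p t) (hp : p ≠ 0) (k : ℕ) : PB (DL w k p t) := by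
  unfold DL
  exact PB.sum _ fun l _ => (PB_sub (w.pTL ht hp) (w.pAL ht hp) (w.ALT ht hp)).smul (by positivity)

/-! ### value and potential -/

/-- value of a point -/
noncomputable def Phi (n p : ℕ) (t : σ) (x : ℝ) : ℝ :=
  Vp w.del (2 ^ sc w n p t x) (hv w n p t x) (w.A (sc w n p t x) t x) (w.T t x)

/-- value of a point, tie part -/
noncomputable def PhiB (n p : ℕ) (t : σ) (x : ℝ) : ℝ :=
  Vp w.del (2 ^ scB w n p t x) (hvB w n p t x) (w.AB (scB w n p t x) p t x) (w.TB p t x)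

/-- potential of a point -/
noncomputable def Pd (n p : ℕ) (t : σ) (x : ℝ) : ℝ :=
  2 * on (hv w n p t x) (w.Pt (sc w n p t x) p t x) + 8 / w.del * D w (sc w n p t x) t x

/-- potential of a point, tie part -/
noncomputable def PdB (n p : ℕ) (t : σ) (x : ℝ) : ℝ :=
  2 * on (hvB w n p t x) (w.PtB (scB w n p t x) p t x) + 8 / w.del * DB w (scB w n p t x) p t x

lemma PB_Vp {δ : ℝ} (hδ : 0 < δ) {s : ℝ → ℕ} {K : ℕ} {h : ℝ → Prop} {A : ℕ → ℝ → ℝ} {T : ℝ → ℝ}
    (ms : Measurable s) (ps : ∀ x, s (x + 1) = s x) (hK : ∀ x, s x ≤ K)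
    (mh : MeasurableSet {x | h x}) (ph : ∀ x, h (x + 1) ↔ h x)
    (hA : ∀ k, PB (A k)) (hT : PB T) (hAT : ∀ k x, A k x ≤ T x) :
    PB fun x => Vp δ (2 ^ s x) (h x) (A (s x) x) (T x) := by
  have L0 := Ld_pos hδ
  have F : ∀ k : ℕ, PB fun x => Vp δ (2 ^ k) (h x) (A k x) (T x) := by
    intro k
    unfold Vp
    have a1 : PB fun x => A k x / 2 ^ k := by
      have := (hA k).smul (show (0:ℝ) ≤ 1 / 2 ^ k by positivity)
      have e : (fun x => A k x / 2 ^ k) = fun x => (1 / 2 ^ k) * A k x := by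
        funext x; ring
      rw [e]; exact this
    exact ((((PB_U mh ph a1).smul (by positivity)).smul (by norm_num)).add
      ((PBsq (PB_sub hT (hA k) (hAT k))).smul (by norm_num))).add
      (hT.smul (by positivity))
  exact PB_sel F ms ps hK

variable {w}

lemma PB_Phi (n : ℕ) {p : ℕ} {t : σ} (ht : w.ok p t) : PB (Phi w n p t) := by
  obtain ⟨ms, ps⟩ := sc_facts w n p t ht
  obtain ⟨mh, ph⟩ := hv_facts w n p t ht
  exact PB_Vp (A := fun k => w.A k t) w.del0 ms ps (sc_le w n p t ht) mh ph (fun k => w.pA ht)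
    (w.pT ht) (fun k => w.AT ht)

lemma PB_PhiB (n : ℕ) {p : ℕ} {t : σ} (ht : w.ok p t) (hp : p ≠ 0) : PB (PhiB w n p t) := by
  obtain ⟨ms, ps⟩ := scB_facts w n ht hp
  obtain ⟨mh, ph⟩ := hvB_facts w n ht hp
  exact PB_Vp (A := fun k => w.AB k p t) w.del0 ms ps (scB_le w n ht hp) mh ph
    (fun k => w.pAB ht hp) (w.pTB ht hp) (fun k => w.ABT ht hp)

lemma PB_Pd (n : ℕ) {p : ℕ} {t : σ} (ht : w.ok p t) : PB (Pd w n p t) := by
  obtain ⟨ms, ps⟩ := sc_facts w n p t ht
  obtain ⟨mh, ph⟩ := hv_facts w n p t ht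
  have hd := w.del0
  have a1 := PB_sel (F := fun k => w.Pt k p t) (fun k => w.pPt ht) ms ps (sc_le w n p t ht)
  have a2 := PB_sel (F := fun k => D w k t) (fun k => PB_D w ht k) ms ps (sc_le w n p t ht)
  exact ((PB_on mh ph a1).smul (by norm_num)).add (a2.smul (by positivity))

lemma PB_PdB (n : ℕ) {p : ℕ} {t : σ} (ht : w.ok p t) (hp : p ≠ 0) : PB (PdB w n p t) := by
  obtain ⟨ms, ps⟩ := scB_facts w n ht hp
  obtain ⟨mh, ph⟩ := hvB_facts w n ht hp
  have hd := w.del0
  have a1 := PB_sel (F := fun k => w.PtB k p t) (fun k => w.pPtB ht hp) ms ps (scB_le w n ht hp)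
  have a2 := PB_sel (F := fun k => DB w k p t) (fun k => PB_DB w ht hp k) ms ps (scB_le w n ht hp)
  exact ((PB_on mh ph a1).smul (by norm_num)).add (a2.smul (by positivity))

/-- births of the column at heavy points below -/
noncomputable def exh (w : MS σ) (n p : ℕ) (t : σ) (y : ℝ) : ℝ :=
  on (hv w n p (w.C p t) y) (Ep p (w.ex (sc w n p (w.C p t) y) p t) y)

/-- births of the class change at heavy points -/
noncomputable def brh (w : MS σ) (n p : ℕ) (t : σ) (x : ℝ) : ℝ :=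
  on (hv w (n + 1) p t x) (w.br (sc w (n + 1) p t x) p t x)

lemma PB_exh (n : ℕ) {p : ℕ} {t : σ} (ht : w.ok p t) (hp : p ≠ 0) : PB (exh w n p t) := by
  obtain ⟨ms, ps⟩ := sc_facts w n p _ (w.okC ht hp)
  obtain ⟨mh, ph⟩ := hv_facts w n p _ (w.okC ht hp)
  have hp0 : 0 < p := Nat.pos_of_ne_zero hp
  exact PB_on mh ph (PB_sel (F := fun k => Ep p (w.ex k p t)) (fun k => (w.pex ht hp).Ep hp0) ms ps
    (sc_le w n p _ (w.okC ht hp)))

lemma PB_brh (n : ℕ) {p : ℕ} {t : σ} (ht : w.ok p t) (hp : p ≠ 0) : PB (brh w n p t) := by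
  obtain ⟨ms, ps⟩ := sc_facts w (n + 1) p _ ht
  obtain ⟨mh, ph⟩ := hv_facts w (n + 1) p _ ht
  exact PB_on mh ph (PB_sel (F := fun k => w.br k p t) (fun k => w.pbr ht hp) ms ps
    (sc_le w (n + 1) p _ ht))

/-- the integrated column -/
lemma I_fibre (n : ℕ) {p : ℕ} {t : σ} (ht : w.ok p t) (hp : p ≠ 0) :
    I (w.cost p t) + I (PdB w n p t) + I (Phi w n p (w.C p t)) ≤
    I (Pd w n p (w.C p t)) + I (PhiB w n p t) + 2 * I (exh w n p t) +
      8 * I (fun y => Ep p (w.GT p t) y ^ 2) + (8 / w.del + Ld w.del) * I (w.jB p t) := by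
  have hp0 : 0 < p := Nat.pos_of_ne_zero hp
  have oC := w.okC ht hp
  have hd := w.del0
  have L0 := Ld_pos hd
  have a1 := w.pcost ht hp
  have a2 := PB_PdB n ht hp
  have a3 := PB_Phi (w := w) n oC
  have a4 := PB_Pd (w := w) n oC
  have a5 := PB_PhiB n ht hp
  have a6 := PB_exh n ht hp
  have a7 := PBsq ((w.pGT ht hp).Ep hp0)
  have a8 := (w.pjB ht hp)
  have cJ : 0 ≤ 8 / w.del + Ld w.del := by positivity
  have l1 : I (w.cost p t) + I (PdB w n p t) =
      I (Ep p fun x => w.cost p t x + PdB w n p t x) := by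
    rw [I_Ep hp0 (a1.add a2).integrableOn, I_add a1.integrableOn a2.integrableOn]
  have l2 : I (PhiB w n p t) = I (Ep p (PhiB w n p t)) := (I_Ep hp0 a5.integrableOn).symm
  have l3 : I (w.jB p t) = I (Ep p (w.jB p t)) := (I_Ep hp0 a8.integrableOn).symm
  rw [l1, l2, l3, ← I_smul, ← I_smul, ← I_smul, ← I_add ((a1.add a2).Ep hp0).integrableOn
      a3.integrableOn, ← I_add a4.integrableOn (a5.Ep hp0).integrableOn,
    ← I_add (a4.add (a5.Ep hp0)).integrableOn (a6.smul (by norm_num)).integrableOn,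
    ← I_add ((a4.add (a5.Ep hp0)).add (a6.smul (by norm_num))).integrableOn
      (a7.smul (by norm_num)).integrableOn,
    ← I_add (((a4.add (a5.Ep hp0)).add (a6.smul (by norm_num))).add
      (a7.smul (by norm_num))).integrableOn ((a8.Ep hp0).smul cJ).integrableOn]
  refine I_mono (((a1.add a2).Ep hp0).add a3).integrableOn
    (((((a4.add (a5.Ep hp0)).add (a6.smul (by norm_num))).add (a7.smul (by norm_num))).add
      ((a8.Ep hp0).smul cJ))).integrableOn fun y => ?_
  have hp' : (0:ℝ) < p := by exact_mod_cast hp0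
  obtain ⟨mC, pC⟩ := hv_facts w n p _ oC
  obtain ⟨sC, qC⟩ := sc_facts w n p _ oC
  -- sums over `Fin p`
  have eE : ∀ f : ℝ → ℝ, Ep p f y = ∑ i : Fin p, (1 / (p:ℝ)) * f ((y + (i:ℕ)) / p) := by
    intro f
    unfold Ep
    rw [Finset.sum_range, Finset.sum_div]
    exact Finset.sum_congr rfl fun i _ => by ring
  have hx : ∀ i : ℕ, (p:ℝ) * ((y + i) / p) = y + i := fun i => by field_simp
  have hC : ∀ i : ℕ, hv w n p (w.C p t) (p * ((y + i) / p)) = hv w n p (w.C p t) y := fun i => by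
    rw [hx i]; exact propext (per_nat pC i y)
  have kC : ∀ i : ℕ, sc w n p (w.C p t) (p * ((y + i) / p)) = sc w n p (w.C p t) y := fun i => by
    rw [hx i]; exact s_per_nat qC i y
  set k := sc w n p (w.C p t) y with hk
  have kK : k ≤ w.Km := sc_le w n p _ oC y
  have bper : ∀ i : ℕ, w.be k p t (p * ((y + i) / p)) = w.be k p t y := fun i =>
    pull_fibre hp0 (w.bper ht hp) y i
  have bTper : ∀ i : ℕ, w.bT p t (p * ((y + i) / p)) = w.bT p t y := fun i =>
    pull_fibre hp0 (w.bTper ht hp) y i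
  set X : Fin p → ℝ := fun i => (y + (i:ℕ)) / p with hX
  have u1 : ∑ _i : Fin p, (1 / (p:ℝ)) = 1 := by
    rw [Finset.sum_const, Finset.card_univ, Fintype.card_fin, nsmul_eq_mul]; field_simp
  have TBn : ∀ x l, 0 ≤ w.TB p t x - w.AB l p t x := fun x l => sub_nonneg.2 (w.ABT ht hp x)
  have key := fibreS (ι := Fin p) (u := fun _ => 1 / (p:ℝ)) (T := fun i => w.TB p t (X i))
    (R := fun i => w.be k p t (p * X i) + w.G k p t (X i)) (G := fun i => w.G k p t (X i))
    (GT := fun i => w.GT p t (X i)) (bt := fun i => w.bt k p t (X i))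
    (ls := fun i => w.ls k p t (X i)) (jB := fun i => w.jB p t (X i))
    (A' := fun i => w.AB (scB w n p t (X i)) p t (X i)) (D := fun i => DB w k p t (X i))
    (D' := fun i => DB w (scB w n p t (X i)) p t (X i)) (cost := fun i => w.cost p t (X i))
    (cS := fun i => w.cS k p t (X i)) (cT := fun i => w.cT k p t (X i))
    (PR := fun i => w.PR k p t (X i)) (PB' := fun i => w.PtB (scB w n p t (X i)) p t (X i))
    (s := fun i => 2 ^ scB w n p t (X i)) (δ := w.del) (σ := 2 ^ k) (β := w.be k p t y)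
    (bT := w.bT p t y) (mT := w.T (w.C p t) y) (mA := w.A k (w.C p t) y)
    (PC := w.Pt k p (w.C p t) y) (DC := D w k (w.C p t) y) (e := Ep p (w.ex k p t) y)
    (hC := hv w n p (w.C p t) y) (hB := fun i => hvB w n p t (X i))
    w.del0 w.del1 (by positivity) (fun _ => by positivity) u1
    (fun i => w.decR ht hp _) (fun i => (w.pG ht hp).nonneg _) (fun i => (w.pbt ht hp).nonneg _)
    (fun i => w.ls0 ht hp _) (fun i => w.decB ht hp _)
    (fun i => by show w.be k p t (p * ((y + (i:ℕ)) / p)) + _ = _; rw [bper i])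
    (fun i => by
      show w.TB p t ((y + (i:ℕ)) / p) = _
      rw [w.dec ht hp, bTper i])
    (by rw [← w.mean ht hp y, eE])
    (by
      have h1 := w.meanA (k := k) ht hp y
      rw [eE] at h1
      rw [← h1]
      have : ∀ i : Fin p, (1 / (p:ℝ)) * (w.be k p t (p * X i) + w.G k p t (X i)) =
          w.be k p t y * (1 / (p:ℝ)) + (1 / (p:ℝ)) * w.G k p t (X i) := fun i => by
        show (1 / (p:ℝ)) * (w.be k p t (p * ((y + (i:ℕ)) / p)) + w.G k p t (X i)) = _
        rw [bper i]; ring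
      rw [Finset.sum_congr rfl fun i _ => this i, Finset.sum_add_distrib, ← Finset.mul_sum, u1,
        mul_one])
    (dT_le w n p _ y)
    (fun i => w.PR0 ht hp _) ((w.pPt oC).nonneg _) (((w.pex ht hp).Ep hp0).nonneg _)
    (hv_hi w n p _ oC y)
    (fun i => w.cc ht hp _) (fun i => w.cS0 ht hp _) (fun i => w.c1 ht hp _)
    (fun i => w.c2 ht hp _) (fun i => w.c4 ht hp _) (fun i => w.bR ht hp _)
    (by have := w.col (k := k) ht hp y; rw [eE] at this; exact this)
    (fun i => by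
      have h1 := w.lsJ ht hp (X i)
      have h2 := sum_single (f := fun l => 2 ^ l * w.ls l p t (X i))
        (fun l => mul_nonneg (by positivity) (w.ls0 ht hp _)) kK
      exact h2.trans h1)
    (by
      -- member energy
      have h1 : ∀ i : Fin p, DB w k p t (X i) + 2 ^ k * w.bt k p t (X i) ≤
          ∑ l ∈ Finset.Ico k (w.Km + 1), 2 ^ l * (w.TB p t (X i) -
            (w.be l p t y + w.G l p t (X i))) + w.jB p t (X i) := by
        intro i
        have e1 : DB w k p t (X i) = ∑ l ∈ Finset.Ico k (w.Km + 1),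
            2 ^ l * (w.TB p t (X i) - (w.be l p t y + w.G l p t (X i))) -
            ∑ l ∈ Finset.Ico k (w.Km + 1), 2 ^ l * w.bt l p t (X i) +
            ∑ l ∈ Finset.Ico k (w.Km + 1), 2 ^ l * w.ls l p t (X i) := by
          unfold DB
          rw [← Finset.sum_sub_distrib, ← Finset.sum_add_distrib]
          refine Finset.sum_congr rfl fun l _ => ?_
          have h2 := w.decA (k := l) ht hp (X i)
          have h3 : w.be l p t (p * X i) = w.be l p t y :=
            pull_fibre hp0 (w.bper ht hp) y i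
          rw [h2, h3]; ring
        have e2 : 2 ^ k * w.bt k p t (X i) ≤
            ∑ l ∈ Finset.Ico k (w.Km + 1), 2 ^ l * w.bt l p t (X i) :=
          Finset.single_le_sum (f := fun l => 2 ^ l * w.bt l p t (X i))
            (fun l _ => mul_nonneg (by positivity) ((w.pbt ht hp).nonneg _))
            (Finset.mem_Ico.2 ⟨le_rfl, by omega⟩)
        have e3 : ∑ l ∈ Finset.Ico k (w.Km + 1), 2 ^ l * w.ls l p t (X i) ≤ w.jB p t (X i) :=
          (Ico_le_range (fun l => mul_nonneg (by positivity) (w.ls0 ht hp _)) k w.Km).trans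
            (w.lsJ ht hp (X i))
        linarith
      have h2 := Finset.sum_le_sum fun i (_ : i ∈ Finset.univ) =>
        mul_le_mul_of_nonneg_left (h1 i) (show (0:ℝ) ≤ 1 / (p:ℝ) by positivity)
      refine h2.trans (le_of_eq ?_)
      have e4 : ∀ i : Fin p, (1 / (p:ℝ)) * (∑ l ∈ Finset.Ico k (w.Km + 1),
          2 ^ l * (w.TB p t (X i) - (w.be l p t y + w.G l p t (X i))) + w.jB p t (X i)) =
          ∑ l ∈ Finset.Ico k (w.Km + 1), (2 ^ l * ((1 / (p:ℝ)) * w.TB p t (X i)) -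
            (2 ^ l * w.be l p t y) * (1 / (p:ℝ)) - 2 ^ l * ((1 / (p:ℝ)) * w.G l p t (X i))) +
          (1 / (p:ℝ)) * w.jB p t (X i) := by
        intro i
        rw [mul_add, Finset.mul_sum]
        congr 1
        exact Finset.sum_congr rfl fun l _ => by ring
      rw [Finset.sum_congr rfl fun i _ => e4 i, Finset.sum_add_distrib, Finset.sum_comm]
      congr 1
      unfold D
      refine Finset.sum_congr rfl fun l _ => ?_
      have m1 := w.mean ht hp y
      have m2 := w.meanA (k := l) ht hp y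
      rw [eE] at m1 m2
      have s2 : ∑ _i : Fin p, (2 ^ l * w.be l p t y) * (1 / (p:ℝ)) = 2 ^ l * w.be l p t y := by
        rw [← Finset.mul_sum, u1, mul_one]
      rw [Finset.sum_sub_distrib, Finset.sum_sub_distrib, s2, ← m1, ← m2, mul_sub, mul_add,
        Finset.mul_sum, Finset.mul_sum]
      ring)
    (fun i => by
      have hkk := scC_le_scB w n p t (X i)
      have ekC : sc w n p (w.C p t) (p * X i) = k := kC i
      rw [ekC] at hkk
      have dT := dTB_le w n p t (X i)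
      rcases hkk.eq_or_lt with h | h
      · left
        have e1 : scB w n p t (X i) = k := h.symm
        refine ⟨by rw [e1], ?_, ?_, ?_, ?_, ?_, ?_, ?_, ?_⟩
        · rw [e1]; exact w.decA ht hp _
        · exact (w.pAB ht hp).nonneg _
        · rw [e1]
        · rw [e1] at dT; exact dT
        · show hvB w n p t (X i) ↔ _
          unfold hvB hB
          rw [e1, ekC]
          have hh : hv w n p (w.C p t) (p * X i) = hv w n p (w.C p t) y := hC i
          rw [hh]
          constructor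
          · rintro (⟨_, h2, h3⟩ | ⟨h2, _⟩)
            · exact ⟨h2, h3⟩
            · exact absurd rfl h2
          · rintro ⟨h2, h3⟩
            exact Or.inl ⟨rfl, h2, h3⟩
        · rw [e1]; exact w.PB1 ht hp _
        · rw [e1]; exact w.PB2 ht hp _
        · exact (w.pPtB ht hp).nonneg _
      · right
        have hp2 : 2 * (2:ℝ) ^ k ≤ 2 ^ scB w n p t (X i) := by
          rw [← pow_succ']
          exact pow_le_pow_right₀ (by norm_num) h
        refine ⟨hp2, (w.pAB ht hp).nonneg _, w.ABT ht hp _, ?_, dT, ?_, w.PB2 ht hp _,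
          w.c3 ht hp _⟩
        · have h1 := w.decA (k := k) ht hp (X i)
          have h2 : w.TB p t (X i) - (w.be k p t (p * X i) + w.G k p t (X i) +
              w.bt k p t (X i) - w.ls k p t (X i)) = w.TB p t (X i) - w.AB k p t (X i) := by
            rw [h1]
          show DB w (scB w n p t (X i)) p t (X i) + 2 ^ k * (w.TB p t (X i) -
            (w.be k p t (p * X i) + w.G k p t (X i) + w.bt k p t (X i) - w.ls k p t (X i))) ≤ _
          rw [h2]
          exact sum_drop (f := fun l => 2 ^ l * (w.TB p t (X i) - w.AB l p t (X i)))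
            (fun l => mul_nonneg (by positivity) (TBn _ l)) h kK
        · intro hh
          rcases hh with ⟨h2, _⟩ | ⟨_, h2⟩
          · rw [ekC] at h2; omega
          · exact h2)
  -- the errors
  have g1 : (∑ i : Fin p, 1 / (p:ℝ) * w.G k p t (X i)) ^ 2 ≤ Ep p (w.GT p t) y ^ 2 := by
    rw [eE]
    refine pow_le_pow_left₀ (Finset.sum_nonneg fun i _ => mul_nonneg (by positivity)
      ((w.pG ht hp).nonneg _)) (Finset.sum_le_sum fun i _ => mul_le_mul_of_nonneg_left
        (w.GG ht hp _) (by positivity)) 2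
  have g2 : (∑ i : Fin p, 1 / (p:ℝ) * (w.GT p t (X i) - w.G k p t (X i))) ^ 2 ≤
      Ep p (w.GT p t) y ^ 2 := by
    rw [eE]
    refine pow_le_pow_left₀ (Finset.sum_nonneg fun i _ => mul_nonneg (by positivity)
      (sub_nonneg.2 (w.GG ht hp _))) (Finset.sum_le_sum fun i _ => mul_le_mul_of_nonneg_left
        (by have := (w.pG (k := k) ht hp).nonneg (X i); show _ ≤ w.GT p t (X i); linarith)
        (by positivity)) 2
  show Ep p (fun x => w.cost p t x + PdB w n p t x) y + Phi w n p (w.C p t) y ≤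
    Pd w n p (w.C p t) y + Ep p (PhiB w n p t) y + 2 * exh w n p t y +
      8 * Ep p (w.GT p t) y ^ 2 + (8 / w.del + Ld w.del) * Ep p (w.jB p t) y
  rw [eE, eE (PhiB w n p t), eE (w.jB p t)]
  unfold PdB PhiB Phi Pd exh Vp
  simp only [← hk]
  have e5 : ∑ i : Fin p, 1 / (p:ℝ) * (w.cost p t (X i) +
      2 * on (hvB w n p t (X i)) (w.PtB (scB w n p t (X i)) p t (X i)) +
      8 / w.del * DB w (scB w n p t (X i)) p t (X i)) =
      ∑ i : Fin p, 1 / (p:ℝ) * (w.cost p t ((y + (i:ℕ)) / p) +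
      (2 * on (hvB w n p t ((y + (i:ℕ)) / p)) (w.PtB (scB w n p t ((y + (i:ℕ)) / p)) p t
        ((y + (i:ℕ)) / p)) +
      8 / w.del * DB w (scB w n p t ((y + (i:ℕ)) / p)) p t ((y + (i:ℕ)) / p))) :=
    Finset.sum_congr rfl fun i _ => by rw [add_assoc]
  rw [e5] at key
  linarith

/-- the integrated join -/
lemma I_join (n : ℕ) {p : ℕ} {t : σ} (ht : w.ok p t) (hp : p ≠ 0) :
    I (Pd w (n + 1) p t) + I (PhiB w n p t) + I (Phi w n (p - 1) (w.N p t)) ≤
    I (PdB w n p t) + I (Pd w n (p - 1) (w.N p t)) + I (Phi w (n + 1) p t) +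
      2 * I (brh w n p t) + (8 / w.del + Ld w.del) * I (w.jn p t) +
      8 / w.del * I (DL w 0 p t) := by
  have oN := w.okN ht hp
  have hd := w.del0
  have L0 := Ld_pos hd
  have cJ : 0 ≤ 8 / w.del + Ld w.del := by positivity
  have cD : 0 ≤ 8 / w.del := by positivity
  have a1 := PB_Pd (w := w) (n + 1) ht
  have a2 := PB_PhiB n ht hp
  have a3 := PB_Phi (w := w) n oN
  have a4 := PB_PdB n ht hp
  have a5 := PB_Pd (w := w) n oN
  have a6 := PB_Phi (w := w) (n + 1) ht
  have a7 := PB_brh n ht hp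
  have a8 := w.pjn ht hp
  have a9 := PB_DL w ht hp 0
  have b7 := a7.smul (show (0:ℝ) ≤ 2 by norm_num)
  have b8 := a8.smul cJ
  have b9 := a9.smul cD
  rw [← I_smul, ← I_smul, ← I_smul, ← I_add a1.integrableOn a2.integrableOn,
    ← I_add (a1.add a2).integrableOn a3.integrableOn,
    ← I_add a4.integrableOn a5.integrableOn, ← I_add (a4.add a5).integrableOn a6.integrableOn,
    ← I_add ((a4.add a5).add a6).integrableOn b7.integrableOn,
    ← I_add (((a4.add a5).add a6).add b7).integrableOn b8.integrableOn,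
    ← I_add ((((a4.add a5).add a6).add b7).add b8).integrableOn b9.integrableOn]
  refine I_mono ((a1.add a2).add a3).integrableOn
    (((((a4.add a5).add a6).add b7).add b8).add b9).integrableOn fun x => ?_
  set k := sc w (n + 1) p t x with hk
  set k₁ := scB w n p t x with hk1
  set k₂ := sc w n (p - 1) (w.N p t) x with hk2
  have h1k : k₁ ≤ k := scB_le_sc w n ht hp x
  have h2k : k₂ ≤ k := scN_le_sc w n hp x
  have hK : k ≤ w.Km := sc_le w (n + 1) p t ht x
  have pw : ∀ {a b : ℕ}, a < b → 2 * (2:ℝ) ^ a ≤ 2 ^ b := fun {a b} h => by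
    rw [← pow_succ']
    exact pow_le_pow_right₀ (by norm_num) h
  have inj : ∀ {a b : ℕ}, ((2:ℝ) ^ a = 2 ^ b) ↔ a = b := fun {a b} => by
    constructor
    · intro h
      exact pow_right_injective₀ (by norm_num) (by norm_num) h
    · intro h; rw [h]
  have sp := w.spl ht hp x
  have fT : ∀ l, 0 ≤ w.T t x - w.A l t x := fun l => sub_nonneg.2 (w.AT ht x)
  have fB : ∀ l, 0 ≤ w.TB p t x - w.AB l p t x := fun l => sub_nonneg.2 (w.ABT ht hp x)
  have fL : ∀ l, 0 ≤ w.TL p t x - w.AL l p t x := fun l => sub_nonneg.2 (w.ALT ht hp x)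
  have fN : ∀ l, 0 ≤ w.T (w.N p t) x - w.A l (w.N p t) x := fun l => sub_nonneg.2 (w.AT oN x)
  have fR : ∀ l, 0 ≤ w.T (w.N p t) x - w.AR l p t x := fun l => sub_nonneg.2 (w.ART ht hp x)
  have lamn : ∀ l, 0 ≤ w.AB l p t x + w.AR l p t x + w.AL l p t x - w.A l t x := fun l =>
    sub_nonneg.2 (w.lam ht hp x)
  have key := joinS (δ := w.del) (σ := 2 ^ k) (σ₁ := 2 ^ k₁) (σ₂ := 2 ^ k₂)
    (A₁ := w.AB k₁ p t x) (A₂ := w.A k₂ (w.N p t) x) (A₁' := w.AB k p t x)
    (A₂' := w.A k (w.N p t) x) (A₃ := w.AR k p t x) (AL := w.AL k p t x) (A := w.A k t x)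
    (T₁ := w.TB p t x) (T₂ := w.T (w.N p t) x) (TL := w.TL p t x)
    (D₁ := DB w k₁ p t x) (D₂ := D w k₂ (w.N p t) x) (D₁' := DB w k p t x)
    (D₂' := D w k (w.N p t) x) (D₃ := DR w k p t x) (DL := DL w 0 p t x) (D := D w k t x)
    (P₁ := w.PtB k₁ p t x) (P₂ := w.Pt k₂ (p - 1) (w.N p t) x) (Q₁ := w.PtB k p t x)
    (Q₂ := w.Pt k (p - 1) (w.N p t) x) (P := w.Pt k p t x) (br := w.br k p t x)
    (jn := w.jn p t x) (h₁ := hvB w n p t x) (h₂ := hv w n (p - 1) (w.N p t) x)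
    (hv := hv w (n + 1) p t x)
    w.del0 (by positivity) (by positivity) (by positivity)
    ((w.pAB ht hp).nonneg x) (w.ABT ht hp x) ((w.pAB ht hp).nonneg x) (w.ABT ht hp x)
    ((w.pA oN).nonneg x) (w.AT oN x) ((w.pA oN).nonneg x) (w.AT oN x)
    ((w.pAL ht hp).nonneg x) (w.ALT ht hp x) ((w.pA ht).nonneg x)
    (dTB_le w n p t x) (dT_le w n (p - 1) (w.N p t) x)
    (by rw [← sp]; exact dT_le w (n + 1) p t x)
    ((w.pPtB ht hp).nonneg x) ((w.pPt oN).nonneg x) ((w.pPt ht).nonneg x)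
    ((w.pPtB ht hp).nonneg x) ((w.pPt oN).nonneg x)
    (w.PB2 ht hp x) (w.born oN x) ((w.pbr ht hp).nonneg x) ((w.pjn ht hp).nonneg x)
    (hvB_lo w n ht hp x) (hvB_hi w n ht hp x) (hv_lo w n (p - 1) _ oN x) (hv_hi w n (p - 1) _ oN x)
    (by
      rcases h1k.eq_or_lt with h | h
      · left; rw [h]; exact ⟨rfl, rfl, rfl, rfl⟩
      · right
        exact ⟨pw h, sum_drop (f := fun l => 2 ^ l * (w.TB p t x - w.AB l p t x))
          (fun l => mul_nonneg (by positivity) (fB l)) h (h1k.trans hK)⟩)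
    (by
      rcases h2k.eq_or_lt with h | h
      · left; rw [h]; exact ⟨rfl, rfl, rfl, rfl⟩
      · right
        exact ⟨pw h, sum_drop (f := fun l => 2 ^ l * (w.T (w.N p t) x - w.A l (w.N p t) x))
          (fun l => mul_nonneg (by positivity) (fN l)) h (h2k.trans hK)⟩)
    (w.arN ht hp x) (w.ART ht hp x)
    (by
      have e1 : D w k (w.N p t) x = DR w k p t x +
          ∑ l ∈ Finset.Ico k (w.Km + 1), 2 ^ l * (w.AR l p t x - w.A l (w.N p t) x) := by
        unfold D DR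
        rw [← Finset.sum_add_distrib]
        exact Finset.sum_congr rfl fun l _ => by ring
      have e2 : 2 ^ k * (w.AR k p t x - w.A k (w.N p t) x) ≤
          ∑ l ∈ Finset.Ico k (w.Km + 1), 2 ^ l * (w.AR l p t x - w.A l (w.N p t) x) :=
        Finset.single_le_sum (f := fun l => 2 ^ l * (w.AR l p t x - w.A l (w.N p t) x))
          (fun l _ => mul_nonneg (by positivity) (sub_nonneg.2 (w.arN ht hp x)))
          (Finset.mem_Ico.2 ⟨le_rfl, by omega⟩)
      linarith)
    (w.lam ht hp x)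
    ((sum_single (f := fun l => 2 ^ l * (w.AB l p t x + w.AR l p t x + w.AL l p t x -
      w.A l t x)) (fun l => mul_nonneg (by positivity) (lamn l)) hK).trans (w.lamJ ht hp x))
    (by
      have e1 : D w k t x = DB w k p t x + DR w k p t x + DL w k p t x +
          ∑ l ∈ Finset.Ico k (w.Km + 1), 2 ^ l * (w.AB l p t x + w.AR l p t x + w.AL l p t x -
            w.A l t x) := by
        unfold D DB DR DL
        rw [← Finset.sum_add_distrib, ← Finset.sum_add_distrib, ← Finset.sum_add_distrib]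
        exact Finset.sum_congr rfl fun l _ => by rw [sp]; ring
      have e2 : DL w k p t x ≤ DL w 0 p t x := by
        unfold DL
        refine Finset.sum_le_sum_of_subset_of_nonneg ?_ fun l _ _ =>
          mul_nonneg (by positivity) (fL l)
        exact Finset.Ico_subset_Ico (Nat.zero_le _) le_rfl
      have e3 := (Ico_le_range (f := fun l => 2 ^ l * (w.AB l p t x + w.AR l p t x +
        w.AL l p t x - w.A l t x)) (fun l => mul_nonneg (by positivity) (lamn l)) k w.Km).trans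
        (w.lamJ ht hp x)
      linarith)
    (by
      rw [hv_succ w n hp, ← hk, ← hk1, ← hk2, inj, inj])
    (w.joH ht hp x) (w.joB ht hp x) (w.joN ht hp x) (w.born ht x)
  rw [← sp] at key
  show Pd w (n + 1) p t x + PhiB w n p t x + Phi w n (p - 1) (w.N p t) x ≤
    PdB w n p t x + Pd w n (p - 1) (w.N p t) x + Phi w (n + 1) p t x + 2 * brh w n p t x +
      (8 / w.del + Ld w.del) * w.jn p t x + 8 / w.del * DL w 0 p t x
  unfold Pd PdB PhiB Phi brh
  rw [← hk, ← hk1, ← hk2]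
  have e9 : 8 / w.del * (DB w k₁ p t x + D w k₂ (w.N p t) x) =
    8 / w.del * DB w k₁ p t x + 8 / w.del * D w k₂ (w.N p t) x := by ring
  rw [e9] at key
  linarith

variable (w)

/-- walk sum of the costs -/
noncomputable def K : ℕ → ℕ → σ → ℝ
  | 0, _, _ => 0
  | n + 1, p, t => if p = 0 then 0 else I (w.cost p t) + K n p (w.C p t) + K n (p - 1) (w.N p t)

lemma K_succ (n : ℕ) {p : ℕ} (hp : p ≠ 0) (t : σ) :
    K w (n + 1) p t = I (w.cost p t) + K w n p (w.C p t) + K w n (p - 1) (w.N p t) := by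
  show (if p = 0 then 0 else _) = _
  rw [if_neg hp]

/-- local error -/
noncomputable def el (n p : ℕ) (t : σ) : ℝ :=
  8 * I (fun y => Ep p (w.GT p t) y ^ 2) + 2 * I (exh w n p t) + 2 * I (brh w n p t) +
    (8 / w.del + Ld w.del) * (I (w.jn p t) + I (w.jB p t)) + 8 / w.del * I (DL w 0 p t)

/-- walk sum of the errors -/
noncomputable def E : ℕ → ℕ → σ → ℝ
  | 0, _, t => 8 / w.del * I (D w 0 t)
  | n + 1, p, t => if p = 0 then 8 / w.del * I (D w 0 t) else
      el w n p t + E n p (w.C p t) + E n (p - 1) (w.N p t)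

lemma E_succ (n : ℕ) {p : ℕ} (hp : p ≠ 0) (t : σ) :
    E w (n + 1) p t = el w n p t + E w n p (w.C p t) + E w n (p - 1) (w.N p t) := by
  show (if p = 0 then _ else _) = _
  rw [if_neg hp]

variable {w}

lemma base_case {n p : ℕ} {t : σ} (ht : w.ok p t)
    (hP : ∀ x, hv w n p t x ↔ 2 * (2:ℝ) ^ sc w n p t x ≤ w.A (sc w n p t x) t x) :
    I (Pd w n p t) ≤ I (Phi w n p t) + 8 / w.del * I (D w 0 t) := by
  have hd := w.del0
  have L0 := Ld_pos hd
  have a1 := PB_Pd (w := w) n ht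
  have a2 := PB_Phi (w := w) n ht
  have a3 := (PB_D w ht 0).smul (show (0:ℝ) ≤ 8 / w.del by positivity)
  rw [← I_smul, ← I_add a2.integrableOn a3.integrableOn]
  refine I_mono a1.integrableOn (a2.add a3).integrableOn fun x => ?_
  set k := sc w n p t x with hk
  have b := born1S (σ := (2:ℝ) ^ k) (h := hv w n p t x) (s := w.A k t x) (P := w.Pt k p t x)
    (by positivity) ((w.pA ht).nonneg x) (hP x).1 (w.born ht x)
  have e2 : D w k t x ≤ D w 0 t x := by
    unfold D
    refine Finset.sum_le_sum_of_subset_of_nonneg ?_ fun l _ _ =>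
      mul_nonneg (by positivity) (sub_nonneg.2 (w.AT ht x))
    exact Finset.Ico_subset_Ico (Nat.zero_le _) le_rfl
  have e3 := mul_le_mul_of_nonneg_left e2 (show (0:ℝ) ≤ 8 / w.del by positivity)
  have e4 : 0 ≤ 4 * (w.T t x - w.A k t x) ^ 2 := by positivity
  have t0 := (w.pT ht).nonneg x
  have e5 : 0 ≤ Ld w.del * 2 ^ k * w.T t x := by positivity
  show Pd w n p t x ≤ Phi w n p t x + 8 / w.del * D w 0 t x
  unfold Pd Phi Vp
  rw [← hk]
  linarith

/-- **the theorem** -/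
theorem main : ∀ (n p : ℕ) (t : σ), w.ok p t →
    K w n p t + I (Pd w n p t) ≤ I (Phi w n p t) + E w n p t := by
  intro n
  induction n with
  | zero =>
    intro p t ht
    have h := base_case (n := 0) ht (fun x => Iff.rfl)
    have e1 : K w 0 p t = 0 := rfl
    have e2 : E w 0 p t = 8 / w.del * I (D w 0 t) := rfl
    rw [e1, e2]
    linarith
  | succ n ih =>
    intro p t ht
    by_cases hp : p = 0
    · subst hp
      have h := base_case (n := n + 1) ht (fun x => hv_succ0 w n t x)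
      have e1 : K w (n + 1) 0 t = 0 := by simp [K]
      have e2 : E w (n + 1) 0 t = 8 / w.del * I (D w 0 t) := by simp [E]
      rw [e1, e2]
      linarith
    · have i1 := ih p _ (w.okC ht hp)
      have i2 := ih (p - 1) _ (w.okN ht hp)
      have f := I_fibre n ht hp
      have j := I_join n ht hp
      rw [K_succ w n hp, E_succ w n hp]
      unfold el
      have e : (8 / w.del + Ld w.del) * (I (w.jn p t) + I (w.jB p t)) =
        (8 / w.del + Ld w.del) * I (w.jn p t) + (8 / w.del + Ld w.del) * I (w.jB p t) := by ring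
      rw [e]
      linarith

/-! ### the top -/

variable (w)

/-- running maximum of the total -/
noncomputable def Mx : ℕ → ℕ → σ → ℝ → ℝ
  | 0, _, t => w.T t
  | n + 1, p, t => if p = 0 then w.T t else
      fun x => max (w.T t x) (max (Mx n p (w.C p t) (p * x)) (Mx n (p - 1) (w.N p t) x))

lemma Mx_succ (n : ℕ) {p : ℕ} (hp : p ≠ 0) (t : σ) (x : ℝ) : Mx w (n + 1) p t x =
    max (w.T t x) (max (Mx w n p (w.C p t) (p * x)) (Mx w n (p - 1) (w.N p t) x)) := by
  show (if p = 0 then _ else _ : ℝ → ℝ) x = _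
  rw [if_neg hp]

variable {w}

lemma PB_Mx : ∀ (n p : ℕ) (t : σ), w.ok p t → PB (Mx w n p t) := by
  intro n
  induction n with
  | zero => intro p t ht; exact w.pT ht
  | succ n ih =>
    intro p t ht
    by_cases hp : p = 0
    · subst hp; exact w.pT ht
    · have e : Mx w (n + 1) p t = fun x => max (w.T t x)
          (max (Mx w n p (w.C p t) (p * x)) (Mx w n (p - 1) (w.N p t) x)) := by
        funext x; exact Mx_succ w n hp t x
      rw [e]
      exact PB_max (w.pT ht) (PB_max ((ih p _ (w.okC ht hp)).pull p) (ih _ _ (w.okN ht hp)))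

lemma T_le_Mx (n p : ℕ) (t : σ) (x : ℝ) : w.T t x ≤ Mx w n p t x := by
  cases n with
  | zero => exact le_rfl
  | succ n =>
    by_cases hp : p = 0
    · subst hp; exact le_rfl
    · rw [Mx_succ w n hp]; exact le_max_left _ _

lemma sc_Mx : ∀ (n p : ℕ) (t : σ), w.ok p t → ∀ x,
    (2:ℝ) ^ sc w n p t x ≤ 1 + 2 * (w.del * Mx w n p t x) := by
  have hd := w.del0
  intro n
  induction n with
  | zero =>
    intro p t ht x
    exact dy_two (mul_nonneg hd.le ((w.pT ht).nonneg x))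
  | succ n ih =>
    intro p t ht x
    by_cases hp : p = 0
    · subst hp
      exact dy_two (mul_nonneg hd.le ((w.pT ht).nonneg x))
    · rw [sc_succ w n hp, Mx_succ w n hp]
      set a := w.T t x
      set b := Mx w n p (w.C p t) (p * x)
      set c := Mx w n (p - 1) (w.N p t) x
      have h1 : (2:ℝ) ^ dy (w.del * a) ≤ 1 + 2 * (w.del * max a (max b c)) :=
        (dy_two (mul_nonneg hd.le ((w.pT ht).nonneg x))).trans (by
          have := mul_le_mul_of_nonneg_left (le_max_left a (max b c)) hd.le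
          linarith)
      have h2 : (2:ℝ) ^ sc w n p (w.C p t) (p * x) ≤ 1 + 2 * (w.del * max a (max b c)) :=
        (ih p _ (w.okC ht hp) _).trans (by
          have := mul_le_mul_of_nonneg_left ((le_max_left b c).trans (le_max_right a _)) hd.le
          linarith)
      have h3 : (2:ℝ) ^ sc w n (p - 1) (w.N p t) x ≤ 1 + 2 * (w.del * max a (max b c)) :=
        (ih _ _ (w.okN ht hp) _).trans (by
          have := mul_le_mul_of_nonneg_left ((le_max_right b c).trans (le_max_right a _)) hd.le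
          linarith)
      rcases max_choice (dy (w.del * a)) (max (sc w n p (w.C p t) (p * x))
        (sc w n (p - 1) (w.N p t) x)) with h | h
      · rw [h]; exact h1
      · rw [h]
        rcases max_choice (sc w n p (w.C p t) (p * x)) (sc w n (p - 1) (w.N p t) x) with h | h
        · rw [h]; exact h2
        · rw [h]; exact h3

lemma doob_pt {M₁ M₂ S₁ S₂ SL T : ℝ} (h1 : 0 ≤ S₁) (h2 : 0 ≤ S₂) (h3 : 0 ≤ SL) (m1 : 0 ≤ M₁)
    (m2 : 0 ≤ M₂) (hM2 : S₂ ≤ M₂) (hT : T = SL + S₁ + S₂) :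
    max T (max M₁ M₂) ^ 2 + 2 * (M₁ * S₁) + 2 * (M₂ * S₂) ≤
      M₁ ^ 2 + M₂ ^ 2 + 2 * (max T (max M₁ M₂) * T) := by
  rcases max_choice T (max M₁ M₂) with h | h
  · rw [h, hT]
    nlinarith [sq_nonneg (M₁ - S₁), sq_nonneg (M₂ - S₂), mul_nonneg h1 h2, mul_nonneg h1 h3,
      mul_nonneg h2 h3, sq_nonneg SL]
  · rw [h]
    rcases max_choice M₁ M₂ with h' | h'
    · rw [h']
      have hm : M₂ ≤ M₁ := by rw [← h']; exact le_max_right _ _
      rw [hT]
      nlinarith [mul_nonneg (sub_nonneg.2 hm) h2, mul_nonneg m1 h3, sq_nonneg M₂]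
    · rw [h']
      have hm : M₁ ≤ M₂ := by rw [← h']; exact le_max_left _ _
      rw [hT]
      nlinarith [mul_nonneg (sub_nonneg.2 hm) h1, mul_nonneg m2 h3, sq_nonneg M₁]

/-- **Doob** -/
lemma doob1 : ∀ (n p : ℕ) (t : σ), w.ok p t →
    I (fun x => Mx w n p t x ^ 2) ≤ 2 * I (fun x => Mx w n p t x * w.T t x) := by
  intro n
  have base : ∀ t p, w.ok p t → I (fun x => w.T t x ^ 2) ≤ 2 * I (fun x => w.T t x * w.T t x) := by
    intro t p ht
    have e : (fun x => w.T t x * w.T t x) = fun x => w.T t x ^ 2 := by funext x; ring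
    rw [e]
    have : 0 ≤ I (fun x => w.T t x ^ 2) := I_nonneg fun x => by positivity
    linarith
  induction n with
  | zero => intro p t ht; exact base t p ht
  | succ n ih =>
    intro p t ht
    by_cases hp : p = 0
    · subst hp; exact base t 0 ht
    · have hp0 : 0 < p := Nat.pos_of_ne_zero hp
      have oC := w.okC ht hp
      have oN := w.okN ht hp
      have i1 := ih p _ oC
      have i2 := ih (p - 1) _ oN
      have PC := PB_Mx n p _ oC
      have PN := PB_Mx n (p - 1) _ oN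
      have PM := PB_Mx (w := w) (n + 1) p t ht
      have PT := w.pT ht
      -- the column
      have c1 : I (fun x => Mx w n p (w.C p t) (p * x) ^ 2) =
          I (fun y => Mx w n p (w.C p t) y ^ 2) := by
        have h := PBsq PC
        rw [← I_Ep hp0 (h.pull p).integrableOn]
        congr 1
        funext y
        have := Ep_pull_mul hp0 (a := fun y => Mx w n p (w.C p t) y ^ 2) (f := fun _ => (1:ℝ))
          h.per y
        simp only [mul_one] at this
        rw [this, Ep_const hp0, mul_one]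
      have c2 : I (fun x => Mx w n p (w.C p t) (p * x) * w.TB p t x) =
          I (fun y => Mx w n p (w.C p t) y * w.T (w.C p t) y) := by
        rw [← I_Ep hp0 ((PC.pull p).mul (w.pTB ht hp)).integrableOn]
        congr 1
        funext y
        rw [Ep_pull_mul hp0 PC.per, w.mean ht hp]
      have q1 := PBsq PM
      have q2 := ((PC.pull p).mul (w.pTB ht hp)).smul (show (0:ℝ) ≤ 2 by norm_num)
      have q3 := (PN.mul (w.pT oN)).smul (show (0:ℝ) ≤ 2 by norm_num)
      have q4 := PBsq (PC.pull p)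
      have q5 := PBsq PN
      have q6 := (PM.mul PT).smul (show (0:ℝ) ≤ 2 by norm_num)
      have J : I (fun x => Mx w (n + 1) p t x ^ 2) +
          2 * I (fun x => Mx w n p (w.C p t) (p * x) * w.TB p t x) +
          2 * I (fun x => Mx w n (p - 1) (w.N p t) x * w.T (w.N p t) x) ≤
          I (fun x => Mx w n p (w.C p t) (p * x) ^ 2) + I (fun x => Mx w n (p - 1) (w.N p t) x ^ 2) +
          2 * I (fun x => Mx w (n + 1) p t x * w.T t x) := by
        rw [← I_smul, ← I_smul, ← I_smul, ← I_add q1.integrableOn q2.integrableOn,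
          ← I_add (q1.add q2).integrableOn q3.integrableOn,
          ← I_add q4.integrableOn q5.integrableOn, ← I_add (q4.add q5).integrableOn q6.integrableOn]
        refine I_mono ((q1.add q2).add q3).integrableOn ((q4.add q5).add q6).integrableOn
          fun x => ?_
        show Mx w (n + 1) p t x ^ 2 + 2 * (Mx w n p (w.C p t) (p * x) * w.TB p t x) +
          2 * (Mx w n (p - 1) (w.N p t) x * w.T (w.N p t) x) ≤
          Mx w n p (w.C p t) (p * x) ^ 2 + Mx w n (p - 1) (w.N p t) x ^ 2 +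
          2 * (Mx w (n + 1) p t x * w.T t x)
        rw [Mx_succ w n hp]
        exact doob_pt ((w.pTB ht hp).nonneg x) ((w.pT oN).nonneg x) ((w.pTL ht hp).nonneg x)
          (PC.nonneg _) (PN.nonneg x) (T_le_Mx n (p - 1) _ x) (w.spl ht hp x)
      rw [c1, c2] at J
      linarith

lemma doob (n p : ℕ) (t : σ) (ht : w.ok p t) :
    I (fun x => Mx w n p t x * w.T t x) ≤ 2 * I (fun x => w.T t x ^ 2) := by
  have h1 := doob1 n p t ht
  have PM := PB_Mx (w := w) n p t ht
  have PT := w.pT ht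
  have q1 := (PBsq PM).smul (show (0:ℝ) ≤ 1 / 4 by norm_num)
  have q2 := PBsq PT
  have h2 : I (fun x => Mx w n p t x * w.T t x) ≤
      1 / 4 * I (fun x => Mx w n p t x ^ 2) + I (fun x => w.T t x ^ 2) := by
    rw [← I_smul, ← I_add q1.integrableOn q2.integrableOn]
    refine I_mono (PM.mul PT).integrableOn (q1.add q2).integrableOn fun x => ?_
    show Mx w n p t x * w.T t x ≤ 1 / 4 * Mx w n p t x ^ 2 + w.T t x ^ 2
    nlinarith [sq_nonneg (Mx w n p t x / 2 - w.T t x)]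
  linarith

/-- **the form with the root** -/
theorem main_root (n p : ℕ) (t : σ) (ht : w.ok p t) :
    K w n p t ≤ 8 * (w.del * Ld w.del) * I (fun x => w.T t x ^ 2) + 2 * Ld w.del * I (w.T t) +
      E w n p t := by
  have hd := w.del0
  have L0 := Ld_pos hd
  have h := main n p t ht
  have a1 := PB_Pd (w := w) n ht
  have a2 := PB_Phi (w := w) n ht
  have PM := PB_Mx (w := w) n p t ht
  have PT := w.pT ht
  have b1 := PT.smul (show (0:ℝ) ≤ 2 * Ld w.del by positivity)
  have b2 := (PM.mul PT).smul (show (0:ℝ) ≤ 4 * (w.del * Ld w.del) by positivity)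
  have key : I (Phi w n p t) ≤ 2 * Ld w.del * I (w.T t) +
      4 * (w.del * Ld w.del) * I (fun x => Mx w n p t x * w.T t x) + I (Pd w n p t) := by
    rw [← I_smul, ← I_smul, ← I_add b1.integrableOn b2.integrableOn,
      ← I_add (b1.add b2).integrableOn a1.integrableOn]
    refine I_mono a2.integrableOn ((b1.add b2).add a1).integrableOn fun x => ?_
    set k := sc w n p t x with hk
    have dT := dT_le w n p t x
    rw [← hk] at dT
    have A0 := (w.pA (k := k) ht).nonneg x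
    have AT := w.AT (k := k) ht x
    have t0 := PT.nonneg x
    have kp : (0:ℝ) < 2 ^ k := by positivity
    have k1 := U_keep (h := hv w n p t x) hd kp A0 AT dT
    have k2 : 4 * (w.T t x - w.A k t x) ^ 2 ≤ 8 / w.del * D w k t x := by
      have e1 : 2 ^ k * (w.T t x - w.A k t x) ≤ D w k t x := by
        unfold D
        refine Finset.single_le_sum (f := fun l => 2 ^ l * (w.T t x - w.A l t x))
          (fun l _ => mul_nonneg (by positivity) (sub_nonneg.2 (w.AT ht x)))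
          (Finset.mem_Ico.2 ⟨le_rfl, ?_⟩)
        have := sc_le w n p t ht x
        omega
      have y0 : 0 ≤ w.T t x - w.A k t x := sub_nonneg.2 AT
      have e2 : w.T t x - w.A k t x ≤ 2 ^ k / w.del := by
        rw [le_div_iff₀ hd]
        nlinarith [mul_nonneg hd.le A0]
      have e3 := mul_le_mul_of_nonneg_right e2 y0
      have e4 := mul_le_mul_of_nonneg_left e1 (show (0:ℝ) ≤ 8 / w.del by positivity)
      have e5 : 8 / w.del * (2 ^ k * (w.T t x - w.A k t x)) =
        8 * (2 ^ k / w.del * (w.T t x - w.A k t x)) := by ring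
      rw [e5] at e4
      have e6 : (w.T t x - w.A k t x) ^ 2 = (w.T t x - w.A k t x) * (w.T t x - w.A k t x) := by ring
      rw [e6]
      have e7 := mul_nonneg y0 y0
      linarith
    have k3 := sc_Mx (w := w) n p t ht x
    rw [← hk] at k3
    have k4 : Ld w.del * 2 ^ k * w.T t x ≤ Ld w.del * (1 + 2 * (w.del * Mx w n p t x)) * w.T t x :=
      mul_le_mul_of_nonneg_right (mul_le_mul_of_nonneg_left k3 (by linarith)) t0
    have k5 : 0 ≤ 2 * on (hv w n p t x) (w.Pt k p t x) :=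
      mul_nonneg (by norm_num) (on_nonneg ((w.pPt ht).nonneg x))
    have e8 : Ld w.del * (1 + 2 * (w.del * Mx w n p t x)) * w.T t x =
      Ld w.del * w.T t x + 2 * (w.del * Ld w.del) * (Mx w n p t x * w.T t x) := by ring
    rw [e8] at k4
    show Phi w n p t x ≤ 2 * Ld w.del * w.T t x + 4 * (w.del * Ld w.del) *
      (Mx w n p t x * w.T t x) + Pd w n p t x
    unfold Phi Pd Vp
    rw [← hk]
    linarith
  have d := doob n p t ht
  have d2 := mul_le_mul_of_nonneg_left d (show (0:ℝ) ≤ 4 * (w.del * Ld w.del) by positivity)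
  linarith

end walk

/-- small `δ` -/
lemma exists_del {ε : ℝ} (hε : 0 < ε) : ∃ δ : ℝ, 0 < δ ∧ δ ≤ 1 ∧ 8 * (δ * Ld δ) ≤ ε := by
  set s : ℝ := min 1 (ε / 20000) with hs
  have s0 : 0 < s := lt_min one_pos (by positivity)
  have s1 : s ≤ 1 := min_le_left _ _
  have s2 : s ≤ ε / 20000 := min_le_right _ _
  refine ⟨s ^ 2, by positivity, by nlinarith, ?_⟩
  -- log (1 + 1/s²) ≤ 2 log (1 + 1/s) ≤ 2/s
  have h1 : Real.log (1 + 1 / s ^ 2) ≤ 2 / s := by
    have e1 : 1 + 1 / s ^ 2 ≤ (1 + 1 / s) ^ 2 := by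
      have : (1 + 1 / s) ^ 2 = 1 + 1 / s ^ 2 + 2 / s := by field_simp; ring
      rw [this]
      have : 0 < 2 / s := by positivity
      linarith
    have e2 := Real.log_le_log (by positivity) e1
    rw [Real.log_pow] at e2
    have e3 := Real.log_le_sub_one_of_pos (show 0 < 1 + 1 / s by positivity)
    push_cast at e2
    have e4 : 2 / s = 2 * (1 / s) := by ring
    rw [e4]
    linarith
  unfold Ld
  have h2 : s ^ 2 * (200 * Real.log (1 + 1 / s ^ 2) + 600) ≤ 1000 * s := by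
    have e1 : s ^ 2 * Real.log (1 + 1 / s ^ 2) ≤ s ^ 2 * (2 / s) :=
      mul_le_mul_of_nonneg_left h1 (by positivity)
    have e2 : s ^ 2 * (2 / s) = 2 * s := by field_simp
    rw [e2] at e1
    nlinarith
  linarith

end Crest.Agent.R4P.ModeS16
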