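import Crest.Agent.R4P.RXj_343
import Crest.Agent.R4P.ModeS_16

/-!
R4 (S0004) with powers, T3 (heights > 1), helper343: **row systems are instances of the scaled mode
game `ModeS16.MS`**.

* `RB R` : budgets of a row system: total `tt` of ALL the contents, `u` = contents outside the game.
* `RG U` : group data: invariant, class changes (`arN`, `ref`, error `br`).
* `RG.ms : MS (ℕ × Gs β)` : **the instance** (state = column and group state), so `main_root` applies.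
* `ms_main` : `K ≤ ε I tot² + C_ε I tot + E`.
-/

set_option autoImplicit false
set_option linter.unusedSectionVars false
set_option linter.unusedVariables false
open MeasureTheory Filter Set

namespace Crest.Agent.R4P.MSi343

open Crest.Agent.R4.Tour104 Crest.Agent.R4.Clos758
open Crest.Agent.R4P.GMer27 Crest.Agent.R4P.GCol27 Crest.Agent.R4P.RSys343 Crest.Agent.R4P.TrR343
open Crest.Agent.R4P.RXs343 Crest.Agent.R4P.RXj343 Crest.Agent.R4P.RXj343.RX
open Crest.Agent.R4P.ModeP940 (PP SS SS_nonneg SS_add)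
open Crest.Agent.R4P.ModeS16 (MS)

/-- sum over the members -/
noncomputable def su {β : Type} (s : Gs β) (f : β → ℝ → ℝ) (x : ℝ) : ℝ := M s.c fun j => f (s.L j) x

section
variable {β δ : Type} [Fintype δ]

/-- **budgets of a row system** : `tt` = total of all the contents, `u` = contents outside the game -/
structure RB (R : RX β δ) where
  tt : β → ℝ → ℝ
  u : ℕ → β → ℝ → ℝ
  uL : ℕ → β → ℝ → ℝ
  uN : ℕ → β → ℝ → ℝ
  bU : ℕ → β → ℝ → ℝ
  gU : ℕ → β → ℝ → ℝ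
  pu : ∀ {p b}, R.ok p b → PB (u p b)
  puL : ∀ {p b}, R.ok p b → p ≠ 0 → PB (uL p b)
  puN : ∀ {p b}, R.ok p b → p ≠ 0 → PB (uN p b)
  pbU : ∀ {p b}, R.ok p b → p ≠ 0 → PB (bU p b)
  pgU : ∀ {p b}, R.ok p b → p ≠ 0 → PB (gU p b)
  sh : ∀ {p b}, R.ok p b → ∀ x, ∑ z, R.h p b z x + u p b x = tt b x
  sN : ∀ {p b}, R.ok p b → p ≠ 0 → ∀ x, ∑ z, R.hN p b z x + uN p b x = tt (R.rN p b) x
  us : ∀ {p b}, R.ok p b → p ≠ 0 → ∀ x,
    u p b x = uL p b x + (bU p b (p * x) + gU p b x) + uN p b x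
  um : ∀ {p b}, R.ok p b → p ≠ 0 → ∀ y, bU p b y + Ep p (gU p b) y =
    (1 - 1 / (p : ℝ)) * u p (R.cP p b) y + 1 / (p : ℝ) * u p (R.cN p b) y
  un : ∀ {b}, R.ok 1 b → ∀ x, u 1 (R.cP 1 b) x = 0 ∧ u 1 (R.cN 1 b) x = 0
  /-- a uniform bound -/
  B0 : ℝ
  bd : ∀ {p b}, R.ok p b → ∀ x, tt b x ≤ B0

variable {R : RX β δ} {p : ℕ} {s : Gs β} {σ : ℝ}

lemma PB_su (hs : R.gok p s) {f : β → ℝ → ℝ} (hf : ∀ j, PB (f (s.L j))) : PB (su s f) :=
  PB_M hs.1.c0 (f := fun x j => f (s.L j) x) hf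

lemma su_add (f g : β → ℝ → ℝ) (x : ℝ) : su s (fun b x => f b x + g b x) x = su s f x + su s g x := by
  unfold su
  rw [← M_add]

/-- the mean of the outside contents -/
lemma mean_su (hs : R.gok p s) (hp : p ≠ 0) {F B g : β → ℝ → ℝ}
    (h : ∀ j y, B (s.L j) y + Ep p (g (s.L j)) y =
      (1 - 1 / (p : ℝ)) * F (R.cP p (s.L j)) y + 1 / (p : ℝ) * F (R.cN p (s.L j)) y)
    (h1 : p = 1 → ∀ j y, F (R.cP p (s.L j)) y = 0 ∧ F (R.cN p (s.L j)) y = 0)
    (y : ℝ) : su s B y + Ep p (su s g) y = su (R.C p s) F y := by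
  have e0 : Ep p (su s g) y = M s.c fun j => Ep p (g (s.L j)) y := by
    unfold su M Ep
    rw [Finset.sum_comm, Finset.sum_div]
    refine Finset.sum_congr rfl fun j _ => ?_
    rw [← Finset.mul_sum, mul_div_assoc]
  have e1 : su s B y + Ep p (su s g) y = M s.c fun j =>
      (1 - 1 / (p : ℝ)) * F (R.cP p (s.L j)) y + 1 / (p : ℝ) * F (R.cN p (s.L j)) y := by
    rw [e0]
    unfold su
    rw [← M_add]
    congr 1
    funext j
    exact h j y
  rw [e1]
  by_cases h2 : 2 ≤ p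
  · rw [RX.C_pos R h2]
    show _ = M (cT (1 - 1 / (p : ℝ)) s.c) fun (x : s.J × Bool) =>
      F (if x.2 = true then R.cP p (s.L x.1) else R.cN p (s.L x.1)) y
    rw [M_cT]
    congr 1
    funext j
    unfold av
    simp
    ring
  · have hp1 : p = 1 := by omega
    rw [RX.C_neg R h2]
    show _ = M s.c fun j => F (R.cP p (s.L j)) y
    congr 1
    funext j
    rw [(h1 hp1 j y).1, (h1 hp1 j y).2]
    ring

namespace RB
variable (U : RB R)

/-- all the short content -/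
noncomputable def A (σ : ℝ) (p : ℕ) (s : Gs β) (x : ℝ) : ℝ := R.A σ p s x + su s (U.u p) x
noncomputable def AR (σ : ℝ) (p : ℕ) (s : Gs β) (x : ℝ) : ℝ := R.AR σ p s x + su s (U.uN p) x

lemma T_eq (hs : R.gok p s) (x : ℝ) : R.T p s x + su s (U.u p) x = su s U.tt x := by
  unfold RX.T sm2 SS su
  rw [← M_sum, ← M_add]
  congr 1
  funext j
  exact U.sh (hs.2 j) x

lemma TN_eq (hs : R.gok p s) (hp : p ≠ 0) (x : ℝ) :
    R.TN p s x + su s (U.uN p) x = su (R.N p s) U.tt x := by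
  show _ = M s.c fun j => U.tt (R.rN p (s.L j)) x
  unfold RX.TN sm2 SS su
  rw [← M_sum, ← M_add]
  congr 1
  funext j
  exact U.sN (hs.2 j) hp x

lemma us' (hs : R.gok p s) (hp : p ≠ 0) (x : ℝ) : su s (U.u p) x =
    su s (U.uL p) x + (su s (U.bU p) (p * x) + su s (U.gU p) x) + su s (U.uN p) x := by
  unfold su
  rw [← M_add, ← M_add, ← M_add]
  congr 1
  funext j
  exact U.us (hs.2 j) hp x

lemma um' (hs : R.gok p s) (hp : p ≠ 0) (y : ℝ) :
    su s (U.bU p) y + Ep p (su s (U.gU p)) y = su (R.C p s) (U.u p) y :=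
  mean_su (F := U.u p) hs hp (fun j y => U.um (hs.2 j) hp y)
    (fun h1 j y => by subst h1; exact U.un (hs.2 j) y) y

lemma PB_tt (hs : R.gok p s) : PB (su s U.tt) := by
  have e : su s U.tt = fun x => R.T p s x + su s (U.u p) x := funext fun x => (U.T_eq hs x).symm
  rw [e]
  exact (RX.PB_T hs).add (PB_su hs fun j => U.pu (hs.2 j))

lemma bd' (hs : R.gok p s) (x : ℝ) : su s U.tt x ≤ U.B0 := by
  unfold su
  rw [← M_const hs.1.c1 U.B0]
  exact M_mono hs.1.c0 fun j => U.bd (hs.2 j) x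

end RB

/-- **group data** -/
structure RG (U : RB R) where
  /-- good group states -/
  ok : ℕ → Gs β → Prop
  gk : ∀ {p s}, ok p s → R.gok p s
  okC : ∀ {p s}, ok p s → p ≠ 0 → ok p (R.C p s)
  okN : ∀ {p s}, ok p s → p ≠ 0 → ok (p - 1) (R.N p s)
  /-- error of the class change -/
  br : ℝ → ℕ → Gs β → ℝ → ℝ
  pbr : ∀ {σ p s}, 0 < σ → ok p s → p ≠ 0 → PB (br σ p s)
  arN : ∀ {σ p s}, 0 < σ → ok p s → p ≠ 0 → ∀ x, U.A σ (p - 1) (R.N p s) x ≤ U.AR σ p s x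
  ref : ∀ {σ p s}, 0 < σ → ok p s → p ≠ 0 → ∀ x, R.PtR σ p s x ≤ R.Pt σ (p - 1) (R.N p s) x +
    14 * (σ * (U.AR σ p s x - U.A σ (p - 1) (R.N p s) x)) + br σ p s x

lemma two_pos' (k : ℕ) : (0 : ℝ) < 2 ^ k := by positivity

lemma G_le (hσ : 0 < σ) (hs : R.gok p s) (hp : p ≠ 0) (x : ℝ) : R.G σ p s x ≤ R.GT p s x := by
  unfold RX.G RX.GT
  refine sm2_mono hs fun j z => ?_
  have h1 := tg_eq hσ hs hp j z x
  have h2 := (PB_tgk hσ hs hp j z).nonneg x
  linarith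

section inst
variable {U : RB R}

/-- **the instance** -/
noncomputable def RG.ms (D : RG U) {del : ℝ} {Km : ℕ} (h0 : 0 < del) (h1 : del ≤ 1)
    (hK : del * U.B0 ≤ 2 ^ Km) : MS (ℕ × Gs β) where
  del := del
  Km := Km
  C := fun p t => (p, R.C p t.2)
  N := fun p t => (p - 1, R.N p t.2)
  ok := fun p t => t.1 = p ∧ D.ok p t.2
  T := fun t => su t.2 U.tt
  TL := fun p t x => R.TL p t.2 x + su t.2 (U.uL p) x
  TB := fun p t x => R.TB p t.2 x + (su t.2 (U.bU p) (p * x) + su t.2 (U.gU p) x)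
  bT := fun p t x => R.bT p t.2 x + su t.2 (U.bU p) x
  GT := fun p t x => R.GT p t.2 x + su t.2 (U.gU p) x
  cost := fun p t => R.cost p t.2
  jn := fun p t => R.jn p t.2
  jB := fun _ _ _ => 0
  A := fun k t => U.A (2 ^ k) t.1 t.2
  AL := fun k p t x => R.AL (2 ^ k) p t.2 x + su t.2 (U.uL p) x
  AB := fun k p t x => R.AB (2 ^ k) p t.2 x + (su t.2 (U.bU p) (p * x) + su t.2 (U.gU p) x)
  AR := fun k p t => U.AR (2 ^ k) p t.2
  be := fun k p t x => R.be (2 ^ k) p t.2 x + su t.2 (U.bU p) x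
  G := fun k p t x => R.G (2 ^ k) p t.2 x + su t.2 (U.gU p) x
  bt := fun k p t => R.bt (2 ^ k) p t.2
  ls := fun _ _ _ _ => 0
  cS := fun k p t => R.cS (2 ^ k) p t.2
  cT := fun k p t => R.cTk (2 ^ k) p t.2
  ex := fun k p t => R.ex (2 ^ k) p t.2
  br := fun k p t => D.br (2 ^ k) p t.2
  Pt := fun k p t => R.Pt (2 ^ k) p t.2
  PR := fun k p t => R.PR (2 ^ k) p t.2
  PtB := fun k p t => R.PtB (2 ^ k) p t.2
  del0 := h0
  del1 := h1
  okC := fun ht hp => ⟨rfl, D.okC ht.2 hp⟩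
  okN := fun ht hp => ⟨rfl, D.okN ht.2 hp⟩
  pT := fun ht => U.PB_tt (D.gk ht.2)
  pTL := fun ht hp => (RX.PB_TL (D.gk ht.2) hp).add (PB_su (D.gk ht.2) fun j => U.puL ((D.gk ht.2).2 j) hp)
  pTB := fun ht hp => (RX.PB_TB (D.gk ht.2) hp).add
    (((PB_su (D.gk ht.2) fun j => U.pbU ((D.gk ht.2).2 j) hp).pull _).add
      (PB_su (D.gk ht.2) fun j => U.pgU ((D.gk ht.2).2 j) hp))
  pGT := fun ht hp => (RX.PB_GT (D.gk ht.2) hp).add
    (PB_su (D.gk ht.2) fun j => U.pgU ((D.gk ht.2).2 j) hp)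
  pcost := fun ht hp => RX.PB_cost (D.gk ht.2) hp
  pjn := fun ht hp => RX.PB_jn (D.gk ht.2) hp
  pjB := fun _ _ => PB.const le_rfl
  pA := fun {k p t} ht => by
    have h := ht.1
    subst h
    exact (RX.PB_A (two_pos' _) (D.gk ht.2)).add (PB_su (D.gk ht.2) fun j => U.pu ((D.gk ht.2).2 j))
  pAL := fun ht hp => (RX.PB_AL (two_pos' _) (D.gk ht.2) hp).add
    (PB_su (D.gk ht.2) fun j => U.puL ((D.gk ht.2).2 j) hp)
  pAB := fun ht hp => (RX.PB_AB (two_pos' _) (D.gk ht.2) hp).add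
    (((PB_su (D.gk ht.2) fun j => U.pbU ((D.gk ht.2).2 j) hp).pull _).add
      (PB_su (D.gk ht.2) fun j => U.pgU ((D.gk ht.2).2 j) hp))
  pAR := fun ht hp => (RX.PB_AR (two_pos' _) (D.gk ht.2) hp).add
    (PB_su (D.gk ht.2) fun j => U.puN ((D.gk ht.2).2 j) hp)
  pG := fun ht hp => (RX.PB_G (two_pos' _) (D.gk ht.2) hp).add
    (PB_su (D.gk ht.2) fun j => U.pgU ((D.gk ht.2).2 j) hp)
  pbt := fun ht hp => RX.PB_bt (two_pos' _) (D.gk ht.2) hp
  pex := fun ht hp => RX.PB_ex (two_pos' _) (D.gk ht.2) hp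
  pbr := fun ht hp => D.pbr (two_pos' _) ht.2 hp
  pPt := fun ht => RX.PB_Pt (two_pos' _) (D.gk ht.2)
  pPtB := fun ht hp => RX.PB_PtB (two_pos' _) (D.gk ht.2) hp
  mbe := fun ht hp => ((RX.PB_be (two_pos' _) (D.gk ht.2) hp).add
    (PB_su (D.gk ht.2) fun j => U.pbU ((D.gk ht.2).2 j) hp)).meas
  bper := fun ht hp => ((RX.PB_be (two_pos' _) (D.gk ht.2) hp).add
    (PB_su (D.gk ht.2) fun j => U.pbU ((D.gk ht.2).2 j) hp)).per
  bTper := fun ht hp => ((RX.PB_bT (D.gk ht.2) hp).add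
    (PB_su (D.gk ht.2) fun j => U.pbU ((D.gk ht.2).2 j) hp)).per
  cS0 := fun _ _ x => q2_nonneg _ x
  PR0 := fun ht hp x => (RX.PB_PR (two_pos' _) (D.gk ht.2) hp).nonneg x
  ls0 := fun _ _ _ => le_rfl
  bd := fun ht x => by
    have h := U.bd' (D.gk ht.2) x
    exact (mul_le_mul_of_nonneg_left h h0.le).trans hK
  spl := fun {p t} ht hp x => by
    have e1 := RX.spl (D.gk ht.2) hp x
    have e2 := U.us' (D.gk ht.2) hp x
    have e3 := U.T_eq (D.gk ht.2) x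
    have e4 := U.TN_eq (D.gk ht.2) hp x
    show su t.2 U.tt x = (R.TL p t.2 x + su t.2 (U.uL p) x) + (R.TB p t.2 x +
      (su t.2 (U.bU p) (p * x) + su t.2 (U.gU p) x)) + su (R.N p t.2) U.tt x
    linarith
  mean := fun {p t} ht hp y => by
    have hs := D.gk ht.2
    have hp0 : 0 < p := Nat.pos_of_ne_zero hp
    have hp' : (p : ℝ) ≠ 0 := by exact_mod_cast hp
    have e1 := RX.mean hs hp y
    have e2 := U.um' hs hp y
    have e3 := U.T_eq (RX.gok_C hs hp) y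
    have pb := PB_su hs fun j => U.pbU (hs.2 j) hp
    have e4 : Ep p (fun x => R.TB p t.2 x + (su t.2 (U.bU p) (p * x) + su t.2 (U.gU p) x)) y =
        Ep p (R.TB p t.2) y + (su t.2 (U.bU p) y + Ep p (su t.2 (U.gU p)) y) := by
      unfold Ep
      have e5 : ∀ i ∈ Finset.range p, (R.TB p t.2 ((y + (i : ℝ)) / p) +
          (su t.2 (U.bU p) (p * ((y + (i : ℝ)) / p)) + su t.2 (U.gU p) ((y + (i : ℝ)) / p))) =
          R.TB p t.2 ((y + (i : ℝ)) / p) + (su t.2 (U.bU p) y +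
            su t.2 (U.gU p) ((y + (i : ℝ)) / p)) := fun i _ => by
        rw [pull_fibre hp0 pb.per y i]
      rw [Finset.sum_congr rfl e5, Finset.sum_add_distrib, Finset.sum_add_distrib,
        Finset.sum_const, Finset.card_range, nsmul_eq_mul, add_div, add_div,
        mul_div_cancel_left₀ _ hp']
    show Ep p (fun x => R.TB p t.2 x + (su t.2 (U.bU p) (p * x) + su t.2 (U.gU p) x)) y =
      su (R.C p t.2) U.tt y
    rw [e4]
    linarith
  dec := fun {p t} ht hp x => by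
    have e1 := RX.dec' (R := R) (p := p) (s := t.2) x
    show R.TB p t.2 x + (su t.2 (U.bU p) (p * x) + su t.2 (U.gU p) x) =
      (R.bT p t.2 (p * x) + su t.2 (U.bU p) (p * x)) + (R.GT p t.2 x + su t.2 (U.gU p) x)
    linarith
  AT := fun {k p t} ht x => by
    have h := ht.1
    subst h
    have e1 := U.T_eq (D.gk ht.2) x
    have e2 := RX.A_le (two_pos' k) (D.gk ht.2) x
    show R.A (2 ^ k) t.1 t.2 x + su t.2 (U.u t.1) x ≤ su t.2 U.tt x
    linarith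
  ABT := fun ht hp x => add_le_add_left (RX.AB_le (two_pos' _) (D.gk ht.2) hp x) _
  ALT := fun ht hp x => add_le_add_left (RX.AL_le (two_pos' _) (D.gk ht.2) hp x) _
  decA := fun {k p t} ht hp x => by
    have e1 := RX.decA (two_pos' k) (D.gk ht.2) hp x
    show R.AB (2 ^ k) p t.2 x + (su t.2 (U.bU p) (p * x) + su t.2 (U.gU p) x) =
      (R.be (2 ^ k) p t.2 (p * x) + su t.2 (U.bU p) (p * x)) +
      (R.G (2 ^ k) p t.2 x + su t.2 (U.gU p) x) + R.bt (2 ^ k) p t.2 x - 0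
    linarith
  decR := fun {k p t} ht hp x => by
    have a1 := (RX.PB_be (two_pos' k) (D.gk ht.2) hp).nonneg (p * x)
    have a2 := (RX.PB_G (two_pos' k) (D.gk ht.2) hp).nonneg x
    have a3 := (PB_su (D.gk ht.2) fun j => U.pbU ((D.gk ht.2).2 j) hp).nonneg (p * x)
    have a4 := (PB_su (D.gk ht.2) fun j => U.pgU ((D.gk ht.2).2 j) hp).nonneg x
    show 0 ≤ (R.be (2 ^ k) p t.2 (p * x) + su t.2 (U.bU p) (p * x)) +
      (R.G (2 ^ k) p t.2 x + su t.2 (U.gU p) x)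
    linarith
  decB := fun {k p t} ht hp x => by
    have e1 := RX.decB (two_pos' k) (D.gk ht.2) hp x
    show (R.be (2 ^ k) p t.2 (p * x) + su t.2 (U.bU p) (p * x)) +
      (R.G (2 ^ k) p t.2 x + su t.2 (U.gU p) x) + R.bt (2 ^ k) p t.2 x ≤
      R.TB p t.2 x + (su t.2 (U.bU p) (p * x) + su t.2 (U.gU p) x)
    linarith
  meanA := fun {k p t} ht hp y => by
    have e1 := RX.meanA (two_pos' k) (D.gk ht.2) hp y
    have e2 := U.um' (D.gk ht.2) hp y
    have e3 : Ep p (fun x => R.G (2 ^ k) p t.2 x + su t.2 (U.gU p) x) y =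
        Ep p (R.G (2 ^ k) p t.2) y + Ep p (su t.2 (U.gU p)) y := by
      unfold Ep
      rw [Finset.sum_add_distrib, add_div]
    show (R.be (2 ^ k) p t.2 y + su t.2 (U.bU p) y) +
      Ep p (fun x => R.G (2 ^ k) p t.2 x + su t.2 (U.gU p) x) y =
      R.A (2 ^ k) p (R.C p t.2) y + su (R.C p t.2) (U.u p) y
    rw [e3]
    linarith
  GG := fun ht hp x => add_le_add_left (G_le (two_pos' _) (D.gk ht.2) hp x) _
  lsJ := fun _ _ _ => by simp
  cc := fun ht hp x => RX.cc (two_pos' _) (D.gk ht.2) hp x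
  c1 := fun {k p t} ht hp x => by
    have a1 := (RX.PB_G (two_pos' k) (D.gk ht.2) hp).nonneg x
    have a4 := (PB_su (D.gk ht.2) fun j => U.pgU ((D.gk ht.2).2 j) hp).nonneg x
    refine (RX.c1 (two_pos' k) (D.gk ht.2) hp x).trans ?_
    exact pow_le_pow_left₀ a1 (by linarith) 2
  c2 := fun {k p t} ht hp x => by
    have a3 := (PB_su (D.gk ht.2) fun j => U.pbU ((D.gk ht.2).2 j) hp).nonneg (p * x)
    have a4 := (PB_su (D.gk ht.2) fun j => U.pgU ((D.gk ht.2).2 j) hp).nonneg x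
    refine (RX.c2 (two_pos' k) (D.gk ht.2) hp x).trans ?_
    exact mul_le_mul_of_nonneg_left (by linarith) (two_pos' k).le
  c3 := fun {k p t} ht hp x => by
    have a3 := (PB_su (D.gk ht.2) fun j => U.pbU ((D.gk ht.2).2 j) hp).nonneg (p * x)
    have a4 := (PB_su (D.gk ht.2) fun j => U.pgU ((D.gk ht.2).2 j) hp).nonneg x
    have h := RX.c3 (two_pos' k) (D.gk ht.2) hp x
    show R.cost p t.2 x ≤ 2 * (2 ^ k * (R.AB (2 ^ k) p t.2 x +
      (su t.2 (U.bU p) (p * x) + su t.2 (U.gU p) x))) + 2 * ((R.TB p t.2 x +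
      (su t.2 (U.bU p) (p * x) + su t.2 (U.gU p) x)) - (R.AB (2 ^ k) p t.2 x +
      (su t.2 (U.bU p) (p * x) + su t.2 (U.gU p) x))) ^ 2
    have e : (R.TB p t.2 x + (su t.2 (U.bU p) (p * x) + su t.2 (U.gU p) x)) -
      (R.AB (2 ^ k) p t.2 x + (su t.2 (U.bU p) (p * x) + su t.2 (U.gU p) x)) =
      R.TB p t.2 x - R.AB (2 ^ k) p t.2 x := by ring
    rw [e]
    have h5 : (2:ℝ) ^ k * R.AB (2 ^ k) p t.2 x ≤ 2 ^ k * (R.AB (2 ^ k) p t.2 x +
      (su t.2 (U.bU p) (p * x) + su t.2 (U.gU p) x)) :=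
      mul_le_mul_of_nonneg_left (by linarith) (two_pos' k).le
    linarith
  c4 := fun {k p t} ht hp x => by
    have h := RX.c4 (two_pos' k) (D.gk ht.2) hp x
    show R.cTk (2 ^ k) p t.2 x ≤ ((R.GT p t.2 x + su t.2 (U.gU p) x) -
      (R.G (2 ^ k) p t.2 x + su t.2 (U.gU p) x)) ^ 2
    have e : (R.GT p t.2 x + su t.2 (U.gU p) x) - (R.G (2 ^ k) p t.2 x + su t.2 (U.gU p) x) =
      R.GT p t.2 x - R.G (2 ^ k) p t.2 x := by ring
    rw [e]
    exact h
  col := fun ht hp y => RX.col (two_pos' _) (D.gk ht.2) hp y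
  bR := fun {k p t} ht hp x => by
    have a3 := (PB_su (D.gk ht.2) fun j => U.pbU ((D.gk ht.2).2 j) hp).nonneg (p * x)
    have a4 := (PB_su (D.gk ht.2) fun j => U.pgU ((D.gk ht.2).2 j) hp).nonneg x
    refine (RX.bR (two_pos' k) (D.gk ht.2) hp x).trans ?_
    exact mul_le_mul_of_nonneg_left (mul_le_mul_of_nonneg_left (by linarith) (two_pos' k).le)
      (by norm_num)
  PB1 := fun ht hp x => RX.PB1 (two_pos' _) (D.gk ht.2) hp x
  PB2 := fun {k p t} ht hp x => by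
    have a3 := (PB_su (D.gk ht.2) fun j => U.pbU ((D.gk ht.2).2 j) hp).nonneg (p * x)
    have a4 := (PB_su (D.gk ht.2) fun j => U.pgU ((D.gk ht.2).2 j) hp).nonneg x
    refine (RX.PB2 (two_pos' k) (D.gk ht.2) hp x).trans ?_
    exact mul_le_mul_of_nonneg_left (mul_le_mul_of_nonneg_left (by linarith) (two_pos' k).le)
      (by norm_num)
  born := fun {k p t} ht x => by
    have h := ht.1
    subst h
    have a3 := (PB_su (D.gk ht.2) fun j => U.pu ((D.gk ht.2).2 j)).nonneg x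
    refine (RX.born (two_pos' k) (D.gk ht.2) x).trans ?_
    exact mul_le_mul_of_nonneg_left (mul_le_mul_of_nonneg_left
      (show R.A (2 ^ k) t.1 t.2 x ≤ R.A (2 ^ k) t.1 t.2 x + su t.2 (U.u t.1) x by linarith)
      (two_pos' k).le) (by norm_num)
  arN := fun ht hp x => D.arN (two_pos' _) ht.2 hp x
  ART := fun {k p t} ht hp x => by
    have e1 := RX.AR_le (two_pos' k) (D.gk ht.2) hp x
    have e2 := U.TN_eq (D.gk ht.2) hp x
    show R.AR (2 ^ k) p t.2 x + su t.2 (U.uN p) x ≤ su (R.N p t.2) U.tt x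
    linarith
  lam := fun {k p t} ht hp x => by
    have h := ht.1
    subst h
    have e1 := RX.lam (two_pos' k) (D.gk ht.2) hp x
    have e2 := U.us' (D.gk ht.2) hp x
    show R.A (2 ^ k) t.1 t.2 x + su t.2 (U.u t.1) x ≤ (R.AB (2 ^ k) t.1 t.2 x +
      (su t.2 (U.bU t.1) (t.1 * x) + su t.2 (U.gU t.1) x)) +
      (R.AR (2 ^ k) t.1 t.2 x + su t.2 (U.uN t.1) x) +
      (R.AL (2 ^ k) t.1 t.2 x + su t.2 (U.uL t.1) x)
    linarith
  lamJ := fun {p t} ht hp x => by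
    have h := ht.1
    subst h
    have e2 := U.us' (D.gk ht.2) hp x
    refine le_trans (le_of_eq ?_) (RX.lamJ (D.gk ht.2) hp (Km + 1) x)
    refine Finset.sum_congr rfl fun l _ => ?_
    show 2 ^ l * ((R.AB (2 ^ l) t.1 t.2 x +
      (su t.2 (U.bU t.1) (t.1 * x) + su t.2 (U.gU t.1) x)) +
      (R.AR (2 ^ l) t.1 t.2 x + su t.2 (U.uN t.1) x) +
      (R.AL (2 ^ l) t.1 t.2 x + su t.2 (U.uL t.1) x) -
      (R.A (2 ^ l) t.1 t.2 x + su t.2 (U.u t.1) x)) = _
    rw [e2]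
    ring
  joH := fun {k p t} ht hp x => by
    have hs := D.gk ht.2
    have h1 := (RX.joins (two_pos' k) hs hp x).1
    have h2 := D.ref (two_pos' k) ht.2 hp x
    have a1 := (PB_su hs fun j => U.pbU (hs.2 j) hp).nonneg (p * x)
    have a2 := (PB_su hs fun j => U.pgU (hs.2 j) hp).nonneg x
    have a3 := (PB_su hs fun j => U.puN (hs.2 j) hp).nonneg x
    have a4 := (PB_su hs fun j => U.puL (hs.2 j) hp).nonneg x
    have h3 : min (R.AB (2 ^ k) p t.2 x) (R.AR (2 ^ k) p t.2 x) ≤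
      min (R.AB (2 ^ k) p t.2 x + (su t.2 (U.bU p) (p * x) + su t.2 (U.gU p) x))
        (R.AR (2 ^ k) p t.2 x + su t.2 (U.uN p) x) := min_le_min (by linarith) (by linarith)
    have h4 := mul_le_mul_of_nonneg_left h3 (two_pos' k).le
    have h5 := mul_le_mul_of_nonneg_left
      (show R.AL (2 ^ k) p t.2 x ≤ R.AL (2 ^ k) p t.2 x + su t.2 (U.uL p) x by linarith)
      (two_pos' k).le
    show R.Pt (2 ^ k) p t.2 x ≤ R.PtB (2 ^ k) p t.2 x + R.Pt (2 ^ k) (p - 1) (R.N p t.2) x +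
      14 * (2 ^ k * (U.AR (2 ^ k) p t.2 x - U.A (2 ^ k) (p - 1) (R.N p t.2) x)) +
      14 * (2 ^ k * min (R.AB (2 ^ k) p t.2 x + (su t.2 (U.bU p) (p * x) + su t.2 (U.gU p) x))
        (R.AR (2 ^ k) p t.2 x + su t.2 (U.uN p) x)) +
      14 * (2 ^ k * (R.AL (2 ^ k) p t.2 x + su t.2 (U.uL p) x)) + D.br (2 ^ k) p t.2 x
    linarith
  joB := fun {k p t} ht hp x => by
    have hs := D.gk ht.2
    have h1 := (RX.joins (two_pos' k) hs hp x).2.1
    have h2 := (D.pbr (two_pos' k) ht.2 hp).nonneg x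
    have a3 := (PB_su hs fun j => U.puN (hs.2 j) hp).nonneg x
    have a4 := (PB_su hs fun j => U.puL (hs.2 j) hp).nonneg x
    have h5 := mul_le_mul_of_nonneg_left
      (show R.AR (2 ^ k) p t.2 x + R.AL (2 ^ k) p t.2 x ≤
        (R.AR (2 ^ k) p t.2 x + su t.2 (U.uN p) x) +
        (R.AL (2 ^ k) p t.2 x + su t.2 (U.uL p) x) by linarith) (two_pos' k).le
    show R.Pt (2 ^ k) p t.2 x ≤ R.PtB (2 ^ k) p t.2 x +
      14 * (2 ^ k * ((R.AR (2 ^ k) p t.2 x + su t.2 (U.uN p) x) +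
        (R.AL (2 ^ k) p t.2 x + su t.2 (U.uL p) x))) + D.br (2 ^ k) p t.2 x
    linarith
  joN := fun {k p t} ht hp x => by
    have hs := D.gk ht.2
    have h1 := (RX.joins (two_pos' k) hs hp x).2.2
    have h2 := D.ref (two_pos' k) ht.2 hp x
    have a1 := (PB_su hs fun j => U.pbU (hs.2 j) hp).nonneg (p * x)
    have a2 := (PB_su hs fun j => U.pgU (hs.2 j) hp).nonneg x
    have a4 := (PB_su hs fun j => U.puL (hs.2 j) hp).nonneg x
    have h5 := mul_le_mul_of_nonneg_left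
      (show R.AB (2 ^ k) p t.2 x + R.AL (2 ^ k) p t.2 x ≤
        (R.AB (2 ^ k) p t.2 x + (su t.2 (U.bU p) (p * x) + su t.2 (U.gU p) x)) +
        (R.AL (2 ^ k) p t.2 x + su t.2 (U.uL p) x) by linarith) (two_pos' k).le
    show R.Pt (2 ^ k) p t.2 x ≤ R.Pt (2 ^ k) (p - 1) (R.N p t.2) x +
      14 * (2 ^ k * (U.AR (2 ^ k) p t.2 x - U.A (2 ^ k) (p - 1) (R.N p t.2) x)) +
      14 * (2 ^ k * ((R.AB (2 ^ k) p t.2 x + (su t.2 (U.bU p) (p * x) + su t.2 (U.gU p) x)) +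
        (R.AL (2 ^ k) p t.2 x + su t.2 (U.uL p) x))) + D.br (2 ^ k) p t.2 x
    linarith

end inst

end

end Crest.Agent.R4P.MSi343
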