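import Crest.Agent.R4P.Mode_940
import Crest.Agent.R4P.LogG_51

/-!
R4 (S0004) with powers, helper51: **the walk induction of the mode by the total** (helper940 #26810).

* `MW σ` : abstract walk (states `σ`, children `C`, rest `N`) with total `S`, leaf part `SL`, tie part
  `SB`, cost, potential `Pt` of a state and `PtB` of its tie part.
* `K n p t` : walk sum of the costs; `hv n p t x` : the point `x` is heavy, `hvB` : heavy for the tie
  part; `E n p t` : walk sum of the errors.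
* `main` : **`K + I (1_hv Pt) ≤ I (if hv then ThH S else ThL S) + E`**; `main_eps`.
-/

set_option autoImplicit false
set_option linter.unusedSectionVars false
set_option linter.unusedVariables false
open MeasureTheory Filter Set

namespace Crest.Agent.R4P.ModeG51

open Crest.Agent.R4.Tour104 Crest.Agent.R4.Clos758
open Crest.Agent.R4P.LogG51 (PB_max)
open Crest.Agent.R4P.Mode940

/-- **abstract walk** -/
structure MW (σ : Type*) where
  C : ℕ → σ → σ
  N : ℕ → σ → σ
  ok : ℕ → σ → Prop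
  S : σ → ℝ → ℝ
  SL : ℕ → σ → ℝ → ℝ
  SB : ℕ → σ → ℝ → ℝ
  be : ℕ → σ → ℝ → ℝ
  G : ℕ → σ → ℝ → ℝ
  cost : ℕ → σ → ℝ → ℝ
  ex : ℕ → σ → ℝ → ℝ
  br : ℕ → σ → ℝ → ℝ
  Pt : ℕ → σ → ℝ → ℝ
  PtB : ℕ → σ → ℝ → ℝ
  okC : ∀ {p t}, ok p t → p ≠ 0 → ok p (C p t)
  okN : ∀ {p t}, ok p t → p ≠ 0 → ok (p - 1) (N p t)
  pS : ∀ {p t}, ok p t → PB (S t)
  pSL : ∀ {p t}, ok p t → p ≠ 0 → PB (SL p t)
  pSB : ∀ {p t}, ok p t → p ≠ 0 → PB (SB p t)
  pG : ∀ {p t}, ok p t → p ≠ 0 → PB (G p t)
  pcost : ∀ {p t}, ok p t → p ≠ 0 → PB (cost p t)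
  pex : ∀ {p t}, ok p t → p ≠ 0 → PB (ex p t)
  pbr : ∀ {p t}, ok p t → p ≠ 0 → PB (br p t)
  pPt : ∀ {p t}, ok p t → PB (Pt p t)
  pPtB : ∀ {p t}, ok p t → p ≠ 0 → PB (PtB p t)
  spl : ∀ {p t}, ok p t → p ≠ 0 → ∀ x, S t x = SL p t x + SB p t x + S (N p t) x
  mean : ∀ {p t}, ok p t → p ≠ 0 → ∀ y, Ep p (SB p t) y = S (C p t) y
  dec : ∀ {p t}, ok p t → p ≠ 0 → ∀ x, SB p t x = be p t (p * x) + G p t x
  bper : ∀ {p t}, ok p t → p ≠ 0 → ∀ x, be p t (x + 1) = be p t x
  c1 : ∀ {p t}, ok p t → p ≠ 0 → ∀ x, cost p t x ≤ G p t x ^ 2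
  c2 : ∀ {p t}, ok p t → p ≠ 0 → ∀ x, cost p t x ≤ SB p t x
  col : ∀ {p t}, ok p t → p ≠ 0 → ∀ y,
    Ep p (fun x => cost p t x + PtB p t x) y ≤ Pt p (C p t) y + Ep p (ex p t) y
  born : ∀ {p t}, ok p t → ∀ x, Pt p t x ≤ 14 * S t x
  bornB : ∀ {p t}, ok p t → p ≠ 0 → ∀ x, PtB p t x ≤ 14 * SB p t x
  joH : ∀ {p t}, ok p t → p ≠ 0 → ∀ x, Pt p t x ≤ PtB p t x + Pt (p - 1) (N p t) x +
    14 * min (SB p t x) (S (N p t) x) + 14 * SL p t x + br p t x
  joB : ∀ {p t}, ok p t → p ≠ 0 → ∀ x, Pt p t x ≤ PtB p t x + 14 * (S (N p t) x + SL p t x) +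
    br p t x
  joN : ∀ {p t}, ok p t → p ≠ 0 → ∀ x, Pt p t x ≤ Pt (p - 1) (N p t) x +
    14 * (SB p t x + SL p t x) + br p t x

/-! ### the pointwise join of two parts -/

open Classical in
/-- budget of a part with total `a`, heavy iff `h` -/
noncomputable def U (h : Prop) (a : ℝ) : ℝ := if h then ThH a else ThL a

open Classical in
/-- `P` on the heavy part -/
noncomputable def on (h : Prop) (P : ℝ) : ℝ := if h then P else 0

lemma U_nonneg {h : Prop} {a : ℝ} (ha : 0 ≤ a) : 0 ≤ U h a := by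
  unfold U
  split_ifs
  · exact ThH_nonneg ha
  · exact ThL_nonneg ha

lemma on_nonneg {h : Prop} {P : ℝ} (hP : 0 ≤ P) : 0 ≤ on h P := by
  unfold on
  split_ifs
  · exact hP
  · exact le_rfl

lemma on_le {h : Prop} {P : ℝ} (hP : 0 ≤ P) : on h P ≤ P := by
  unfold on
  split_ifs
  · exact le_rfl
  · exact hP

/-- **join of two parts**: `e` = births -/
lemma join2 {ha hb : Prop} {a b Pa Pb P e : ℝ} (a0 : 0 ≤ a) (b0 : 0 ≤ b) (e0 : 0 ≤ e)
    (ha1 : ha → 1 ≤ a) (hb1 : hb → 1 ≤ b) (ha2 : ¬ ha → a < 2) (hb2 : ¬ hb → b < 2)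
    (P0a : 0 ≤ Pa) (P0b : 0 ≤ Pb) (P0 : 0 ≤ P)
    (f1 : P ≤ Pa + Pb + 14 * min a b + e) (f2 : P ≤ Pa + 14 * b + e) (f3 : P ≤ Pb + 14 * a + e)
    (f4 : P ≤ 14 * (a + b) + e) :
    on (2 ≤ a + b ∨ ha ∨ hb) P + U ha a + U hb b ≤
      on ha Pa + on hb Pb + U (2 ≤ a + b ∨ ha ∨ hb) (a + b) + on (2 ≤ a + b ∨ ha ∨ hb) e := by
  by_cases h1 : ha
  · have hh : (2 ≤ a + b ∨ ha ∨ hb) := Or.inr (Or.inl h1)
    by_cases h2 : hb
    · have j := join_HH (ha1 h1) (hb1 h2)
      simp only [on, U, h1, h2, if_true, or_true, true_or]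
      linarith
    · have j := join_HL (ha1 h1) b0 (hb2 h2).le
      simp only [on, U, h1, h2, if_true, if_false, or_true, true_or]
      linarith
  · by_cases h2 : hb
    · have j := join_HL (hb1 h2) a0 (ha2 h1).le
      rw [add_comm b a] at j
      simp only [on, U, h1, h2, if_true, if_false, or_true]
      linarith
    · by_cases h3 : 2 ≤ a + b
      · have j := join_LLH a0 b0 h3
        simp only [on, U, h1, h2, h3, if_true, if_false, true_or]
        linarith
      · have j := join_LL a0 b0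
        simp only [on, U, h1, h2, h3, if_false, or_self]
        linarith

/-! ### the pointwise fibre inequality -/

/-- **the fibre**: `S i = β + G i`, `u` = weights with sum 1, `m = Σ u S` the mean, `hC` = the point
below is heavy -/
lemma fibre {ι : Type*} [Fintype ι] {u S G co PB' : ι → ℝ} {β m PC e : ℝ} {hC : Prop}
    (hu : ∀ i, 0 ≤ u i) (hu1 : ∑ i, u i = 1) (hS : ∀ i, 0 ≤ S i) (hG : ∀ i, 0 ≤ G i)
    (hd : ∀ i, S i = β + G i) (hm : ∑ i, u i * S i = m) (hP : ∀ i, 0 ≤ PB' i)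
    (hPC : 0 ≤ PC) (he : 0 ≤ e)
    (c1 : ∀ i, co i ≤ G i ^ 2) (c2 : ∀ i, co i ≤ S i)
    (hl : ¬ hC → m < 2)
    (bB : ∀ i, PB' i ≤ 14 * S i)
    (col : ∑ i, u i * (co i + PB' i) ≤ PC + e) :
    ∑ i, u i * (co i + on (2 ≤ S i ∨ (1 ≤ S i ∧ hC)) (PB' i)) + U hC m ≤
      on hC PC + ∑ i, u i * U (2 ≤ S i ∨ (1 ≤ S i ∧ hC)) (S i) + on hC e +
        2 * (∑ i, u i * G i) ^ 2 := by
  have sq0 : 0 ≤ (∑ i, u i * G i) ^ 2 := sq_nonneg _
  by_cases h : hC
  · -- heavy
    have t1 : ∑ i, u i * (co i + on (2 ≤ S i ∨ (1 ≤ S i ∧ hC)) (PB' i)) ≤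
        ∑ i, u i * (co i + PB' i) :=
      Finset.sum_le_sum fun i _ => mul_le_mul_of_nonneg_left
        (by have := on_le (h := (2 ≤ S i ∨ (1 ≤ S i ∧ hC))) (hP i); linarith) (hu i)
    have t2 : ThH m ≤ ∑ i, u i * ThH (S i) := by
      rw [← hm]
      exact jensen ThH_convex hu hu1 hS
    have t3 : ∑ i, u i * ThH (S i) ≤ ∑ i, u i * U (2 ≤ S i ∨ (1 ≤ S i ∧ hC)) (S i) := by
      refine Finset.sum_le_sum fun i _ => mul_le_mul_of_nonneg_left ?_ (hu i)
      by_cases h1 : 1 ≤ S i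
      · have : (2 ≤ S i ∨ (1 ≤ S i ∧ hC)) := Or.inr ⟨h1, h⟩
        simp only [U, this, if_true, le_refl]
      · have h2 : ¬ (2 ≤ S i ∨ (1 ≤ S i ∧ hC)) := by
          rintro (h3 | h3)
          · exact h1 (by linarith)
          · exact h1 h3.1
        simp only [U, h2, if_false]
        exact ThH_low (hS i) (not_le.1 h1).le
    have e1 : on hC PC = PC := by simp [on, h]
    have e2 : on hC e = e := by simp [on, h]
    have e3 : U hC m = ThH m := by simp [U, h]
    rw [e1, e2, e3]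
    linarith
  · -- light
    have hm2 := hl h
    have e1 : on hC PC = 0 := by simp [on, h]
    have e2 : on hC e = 0 := by simp [on, h]
    have e3 : U hC m = ThL m := by simp [U, h]
    rw [e1, e2, e3]
    have hmode : ∀ i, (2 ≤ S i ∨ (1 ≤ S i ∧ hC)) ↔ 2 ≤ S i := fun i =>
      ⟨fun h3 => h3.elim id fun h4 => absurd h4.2 h, Or.inl⟩
    have br := psi_breg hu hu1 hS (by rw [hm]; exact hm2.le)
    rw [hm] at br
    set g := ∑ i, u i * G i with hg
    -- m = β + g
    have em : m = β + g := by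
      rw [← hm, hg]
      have : ∀ i, u i * S i = β * u i + u i * G i := fun i => by rw [hd i]; ring
      rw [Finset.sum_congr rfl fun i _ => this i, Finset.sum_add_distrib, ← Finset.mul_sum, hu1,
        mul_one]
    -- pointwise
    have key : ∀ i, u i * (co i + on (2 ≤ S i ∨ (1 ≤ S i ∧ hC)) (PB' i)) ≤
        u i * (U (2 ≤ S i ∨ (1 ≤ S i ∧ hC)) (S i) - ThL (S i) +
          2 * (if S i ≤ 2 then (S i - m) ^ 2 else 0) + 2 * g ^ 2) := by
      intro i
      refine mul_le_mul_of_nonneg_left ?_ (hu i)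
      have q0 : 0 ≤ (if S i ≤ 2 then (S i - m) ^ 2 else 0) := by split_ifs <;> positivity
      by_cases h2 : 2 ≤ S i
      · have h3 : (2 ≤ S i ∨ (1 ≤ S i ∧ hC)) := Or.inl h2
        have h4 := born h2
        have h5 := c2 i
        have h6 := bB i
        simp only [on, U, h3, if_true]
        nlinarith [sq_nonneg g]
      · have h3 : ¬ (2 ≤ S i ∨ (1 ≤ S i ∧ hC)) := fun h4 => h2 ((hmode i).1 h4)
        have h4 : S i ≤ 2 := (not_le.1 h2).le
        have h5 := c1 i
        simp only [on, U, h3, if_false, h4, if_true]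
        have h6 : S i - m = G i - g := by rw [hd i, em]; ring
        rw [h6]
        nlinarith [sq_nonneg (G i - 2 * g)]
    have s1 := Finset.sum_le_sum fun i (_ : i ∈ Finset.univ) => key i
    have s2 : ∑ i, u i * (U (2 ≤ S i ∨ (1 ≤ S i ∧ hC)) (S i) - ThL (S i) +
          2 * (if S i ≤ 2 then (S i - m) ^ 2 else 0) + 2 * g ^ 2) =
        ∑ i, u i * U (2 ≤ S i ∨ (1 ≤ S i ∧ hC)) (S i) - ∑ i, u i * ThL (S i) +
          2 * ∑ i, u i * (if S i ≤ 2 then (S i - m) ^ 2 else 0) + 2 * g ^ 2 := by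
      have : ∀ i, u i * (U (2 ≤ S i ∨ (1 ≤ S i ∧ hC)) (S i) - ThL (S i) +
          2 * (if S i ≤ 2 then (S i - m) ^ 2 else 0) + 2 * g ^ 2) =
          ((u i * U (2 ≤ S i ∨ (1 ≤ S i ∧ hC)) (S i) - u i * ThL (S i)) +
            2 * (u i * (if S i ≤ 2 then (S i - m) ^ 2 else 0))) + (2 * g ^ 2) * u i :=
        fun i => by ring
      rw [Finset.sum_congr rfl fun i _ => this i, Finset.sum_add_distrib, Finset.sum_add_distrib,
        Finset.sum_sub_distrib, ← Finset.mul_sum, ← Finset.mul_sum, hu1, mul_one]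
    -- ThL
    have s3 : ThL m + 4 * ∑ i, u i * (if S i ≤ 2 then (S i - m) ^ 2 else 0) ≤
        ∑ i, u i * ThL (S i) := by
      unfold ThL
      have : ∀ i, u i * (100 * Real.log 2 * S i + 4 * psi (S i)) =
          100 * Real.log 2 * (u i * S i) + 4 * (u i * psi (S i)) := fun i => by ring
      rw [Finset.sum_congr rfl fun i _ => this i, Finset.sum_add_distrib, ← Finset.mul_sum,
        ← Finset.mul_sum, hm]
      linarith
    have s4 : 0 ≤ ∑ i, u i * (if S i ≤ 2 then (S i - m) ^ 2 else 0) :=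
      Finset.sum_nonneg fun i _ => mul_nonneg (hu i) (by split_ifs <;> positivity)
    rw [s2] at s1
    linarith

/-! ### measurability -/

lemma PB_ite {P : ℝ → Prop} [DecidablePred P] (hP : MeasurableSet {x | P x})
    (hper : ∀ x, P (x + 1) ↔ P x) {f g : ℝ → ℝ} (hf : PB f) (hg : PB g) :
    PB fun x => if P x then f x else g x := by
  obtain ⟨A, hA⟩ := hf.bdd
  obtain ⟨B, hB⟩ := hg.bdd
  refine ⟨Measurable.ite hP hf.meas hg.meas, fun x => ?_, ⟨max A B, fun x => ?_⟩, fun x => ?_⟩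
  · split_ifs
    · exact hf.nonneg x
    · exact hg.nonneg x
  · split_ifs
    · exact (hA x).trans (le_max_left _ _)
    · exact (hB x).trans (le_max_right _ _)
  · show (if P (x + 1) then f (x + 1) else g (x + 1)) = _
    by_cases h : P x
    · rw [if_pos h, if_pos ((hper x).2 h), hf.per]
    · rw [if_neg h, if_neg (fun h2 => h ((hper x).1 h2)), hg.per]

lemma PB_ThH {f : ℝ → ℝ} (hf : PB f) : PB fun x => ThH (f x) := by
  have h := (LogG51.PB_phi (H := fun _ => (1:ℝ)) (PB.const zero_le_one) (fun _ => one_pos) hf).smul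
    (show (0:ℝ) ≤ 100 by norm_num)
  have e : (fun x => ThH (f x)) = fun x => 100 * Log51.phi 1 (f x) := by
    funext x
    rw [ThH_phi]
  rw [e]
  exact h

lemma PB_ThL {f : ℝ → ℝ} (hf : PB f) : PB fun x => ThL (f x) := by
  obtain ⟨B, hB⟩ := hf.bdd
  refine ⟨?_, fun x => ThL_nonneg (hf.nonneg x), ⟨86 * B, fun x => ?_⟩, fun x => ?_⟩
  · unfold ThL
    refine (hf.meas.const_mul _).add (Measurable.const_mul ?_ 4)
    unfold psi
    exact Measurable.ite (measurableSet_le hf.meas measurable_const) (hf.meas.pow_const 2)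
      ((hf.meas.const_mul 4).sub_const 4)
  · refine (ThL_le (hf.nonneg x)).trans ?_
    exact mul_le_mul_of_nonneg_left (hB x) (by norm_num)
  · show ThL (f (x + 1)) = _
    rw [hf.per]

lemma PB_U {P : ℝ → Prop} (hP : MeasurableSet {x | P x})
    (hper : ∀ x, P (x + 1) ↔ P x) {f : ℝ → ℝ} (hf : PB f) : PB fun x => U (P x) (f x) := by
  classical
  have := PB_ite hP hper (PB_ThH hf) (PB_ThL hf)
  have e : (fun x => U (P x) (f x)) = fun x => if P x then ThH (f x) else ThL (f x) := by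
    funext x
    unfold U
    congr
  rw [e]
  exact this

lemma PB_on {P : ℝ → Prop} (hP : MeasurableSet {x | P x})
    (hper : ∀ x, P (x + 1) ↔ P x) {f : ℝ → ℝ} (hf : PB f) : PB fun x => on (P x) (f x) := by
  classical
  have := PB_ite hP hper hf (PB.const le_rfl)
  have e : (fun x => on (P x) (f x)) = fun x => if P x then f x else 0 := by
    funext x
    unfold on
    congr
  rw [e]
  exact this

/-! ### the walk -/

section walk
variable {σ : Type*} (w : MW σ)

/-- **heavy points** -/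
def hv : ℕ → ℕ → σ → ℝ → Prop
  | 0, _, t => fun x => 2 ≤ w.S t x
  | n + 1, p, t => fun x => 2 ≤ w.S t x ∨ (p ≠ 0 ∧
      ((2 ≤ w.SB p t x ∨ (1 ≤ w.SB p t x ∧ hv n p (w.C p t) (p * x))) ∨ hv n (p - 1) (w.N p t) x))

/-- heavy points of the tie part -/
def hvB (n p : ℕ) (t : σ) (x : ℝ) : Prop :=
  2 ≤ w.SB p t x ∨ (1 ≤ w.SB p t x ∧ hv w n p (w.C p t) (p * x))

lemma hv_zero (p : ℕ) (t : σ) (x : ℝ) : hv w 0 p t x ↔ 2 ≤ w.S t x := Iff.rfl

lemma hv_succ0 (n : ℕ) (t : σ) (x : ℝ) : hv w (n + 1) 0 t x ↔ 2 ≤ w.S t x := by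
  constructor
  · rintro (h | ⟨h, -⟩)
    · exact h
    · exact absurd rfl h
  · exact Or.inl

lemma hv_succ (n : ℕ) {p : ℕ} (hp : p ≠ 0) (t : σ) (x : ℝ) :
    hv w (n + 1) p t x ↔ 2 ≤ w.S t x ∨ hvB w n p t x ∨ hv w n (p - 1) (w.N p t) x := by
  constructor
  · rintro (h | ⟨-, h⟩)
    · exact Or.inl h
    · exact Or.inr h
  · rintro (h | h)
    · exact Or.inl h
    · exact Or.inr ⟨hp, h⟩

/-- a heavy point has total at least 1 -/
lemma hv_one : ∀ (n p : ℕ) (t : σ), w.ok p t → ∀ x, hv w n p t x → 1 ≤ w.S t x := by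
  intro n
  induction n with
  | zero => intro p t _ x h; exact le_trans (by norm_num) (show 2 ≤ w.S t x from h)
  | succ n ih =>
    intro p t ht x h
    by_cases hp : p = 0
    · subst hp
      exact le_trans (by norm_num) ((hv_succ0 w n t x).1 h)
    · have e := w.spl ht hp x
      have n1 := (w.pSL ht hp).nonneg x
      have n2 := (w.pSB ht hp).nonneg x
      have n3 := (w.pS (w.okN ht hp)).nonneg x
      rcases (hv_succ w n hp t x).1 h with h | (h | h) | h
      · linarith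
      · linarith
      · linarith [h.1]
      · have := ih (p - 1) _ (w.okN ht hp) x h
        linarith

lemma not_hv_two (n p : ℕ) (t : σ) (x : ℝ) (h : ¬ hv w n p t x) : w.S t x < 2 := by
  by_contra h2
  push Not at h2
  apply h
  cases n with
  | zero => exact h2
  | succ n => exact Or.inl h2

lemma per_nat {P : ℝ → Prop} (h : ∀ x, P (x + 1) ↔ P x) (n : ℕ) (x : ℝ) : P (x + n) ↔ P x := by
  induction n with
  | zero => simp
  | succ n ih =>
    have e : x + ((n + 1 : ℕ) : ℝ) = (x + n) + 1 := by push_cast; ring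
    rw [e, h, ih]

lemma hv_facts : ∀ (n p : ℕ) (t : σ), w.ok p t →
    MeasurableSet {x | hv w n p t x} ∧ ∀ x, hv w n p t (x + 1) ↔ hv w n p t x := by
  intro n
  induction n with
  | zero =>
    intro p t ht
    refine ⟨measurableSet_le measurable_const (w.pS ht).meas, fun x => ?_⟩
    show 2 ≤ w.S t (x + 1) ↔ 2 ≤ w.S t x
    rw [(w.pS ht).per]
  | succ n ih =>
    intro p t ht
    by_cases hp : p = 0
    · subst hp
      refine ⟨?_, fun x => ?_⟩
      · have e : {x | hv w (n + 1) 0 t x} = {x | 2 ≤ w.S t x} := by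
          ext x; exact hv_succ0 w n t x
        rw [e]
        exact measurableSet_le measurable_const (w.pS ht).meas
      · rw [hv_succ0, hv_succ0, (w.pS ht).per]
    · obtain ⟨mC, pC⟩ := ih p _ (w.okC ht hp)
      obtain ⟨mN, pN⟩ := ih (p - 1) _ (w.okN ht hp)
      have mS : MeasurableSet {x | 2 ≤ w.S t x} :=
        measurableSet_le measurable_const (w.pS ht).meas
      have m2 : MeasurableSet {x | 2 ≤ w.SB p t x} :=
        measurableSet_le measurable_const (w.pSB ht hp).meas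
      have m1 : MeasurableSet {x | 1 ≤ w.SB p t x} :=
        measurableSet_le measurable_const (w.pSB ht hp).meas
      have mc : MeasurableSet {x : ℝ | hv w n p (w.C p t) (p * x)} :=
        (measurable_const.mul measurable_id) mC
      refine ⟨?_, fun x => ?_⟩
      · have e : {x | hv w (n + 1) p t x} = {x | 2 ≤ w.S t x} ∪
            (({x | 2 ≤ w.SB p t x} ∪ ({x | 1 ≤ w.SB p t x} ∩
              {x : ℝ | hv w n p (w.C p t) (p * x)})) ∪ {x | hv w n (p - 1) (w.N p t) x}) := by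
          ext x; exact hv_succ w n hp t x
        rw [e]
        exact mS.union ((m2.union (m1.inter mc)).union mN)
      · rw [hv_succ w n hp, hv_succ w n hp]
        unfold hvB
        have e : (p:ℝ) * (x + 1) = p * x + p := by ring
        rw [(w.pS ht).per, (w.pSB ht hp).per, e, per_nat pC p, pN]

lemma hvB_facts (n : ℕ) {p : ℕ} {t : σ} (ht : w.ok p t) (hp : p ≠ 0) :
    MeasurableSet {x | hvB w n p t x} ∧ ∀ x, hvB w n p t (x + 1) ↔ hvB w n p t x := by
  obtain ⟨mC, pC⟩ := hv_facts w n p _ (w.okC ht hp)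
  have m2 : MeasurableSet {x | 2 ≤ w.SB p t x} :=
    measurableSet_le measurable_const (w.pSB ht hp).meas
  have m1 : MeasurableSet {x | 1 ≤ w.SB p t x} :=
    measurableSet_le measurable_const (w.pSB ht hp).meas
  have mc : MeasurableSet {x : ℝ | hv w n p (w.C p t) (p * x)} :=
    (measurable_const.mul measurable_id) mC
  refine ⟨m2.union (m1.inter mc), fun x => ?_⟩
  unfold hvB
  have e : (p:ℝ) * (x + 1) = p * x + p := by ring
  rw [(w.pSB ht hp).per, e, per_nat pC p]

/-- walk sum of the costs -/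
noncomputable def K : ℕ → ℕ → σ → ℝ
  | 0, _, _ => 0
  | n + 1, p, t => if p = 0 then 0 else I (w.cost p t) + K n p (w.C p t) + K n (p - 1) (w.N p t)

lemma K_succ (n : ℕ) {p : ℕ} (hp : p ≠ 0) (t : σ) :
    K w (n + 1) p t = I (w.cost p t) + K w n p (w.C p t) + K w n (p - 1) (w.N p t) := by
  show (if p = 0 then 0 else _) = _
  rw [if_neg hp]

/-- walk sum of the errors -/
noncomputable def E : ℕ → ℕ → σ → ℝ
  | 0, _, _ => 0
  | n + 1, p, t => if p = 0 then 0 else
      2 * I (fun y => Ep p (w.G p t) y ^ 2) +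
      I (fun y => on (hv w n p (w.C p t) y) (Ep p (w.ex p t) y)) +
      I (fun x => on (hv w (n + 1) p t x) (w.br p t x)) +
      E n p (w.C p t) + E n (p - 1) (w.N p t)

lemma E_succ (n : ℕ) {p : ℕ} (hp : p ≠ 0) (t : σ) :
    E w (n + 1) p t = 2 * I (fun y => Ep p (w.G p t) y ^ 2) +
      I (fun y => on (hv w n p (w.C p t) y) (Ep p (w.ex p t) y)) +
      I (fun x => on (hv w (n + 1) p t x) (w.br p t x)) +
      E w n p (w.C p t) + E w n (p - 1) (w.N p t) := by
  show (if p = 0 then 0 else _) = _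
  rw [if_neg hp]

variable {w}

lemma base_case {p : ℕ} {t : σ} (ht : w.ok p t) {P : ℝ → Prop} (hP : ∀ x, P x ↔ 2 ≤ w.S t x) :
    I (fun x => on (P x) (w.Pt p t x)) ≤ I (fun x => U (P x) (w.S t x)) := by
  have e : P = fun x => 2 ≤ w.S t x := by
    funext x; exact propext (hP x)
  subst e
  have m : MeasurableSet {x | 2 ≤ w.S t x} := measurableSet_le measurable_const (w.pS ht).meas
  have pr : ∀ x, (2 ≤ w.S t (x + 1)) ↔ (2 ≤ w.S t x) := fun x => by rw [(w.pS ht).per]
  refine I_mono (PB_on (P := fun x => 2 ≤ w.S t x) m pr (w.pPt ht)).integrableOn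
    (PB_U (P := fun x => 2 ≤ w.S t x) m pr (w.pS ht)).integrableOn fun x => ?_
  have s0 := (w.pS ht).nonneg x
  by_cases h : 2 ≤ w.S t x
  · have h1 := Mode940.born h
    have h2 := w.born ht x
    have h3 := ThL_nonneg s0
    simp only [on, U, h, if_true]
    linarith
  · simp only [on, U, h, if_false]
    exact ThL_nonneg s0

/-- the integrated fibre inequality -/
lemma I_fibre (n : ℕ) {p : ℕ} {t : σ} (ht : w.ok p t) (hp : p ≠ 0) :
    I (w.cost p t) + I (fun x => on (hvB w n p t x) (w.PtB p t x)) +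
      I (fun y => U (hv w n p (w.C p t) y) (w.S (w.C p t) y)) ≤
    I (fun y => on (hv w n p (w.C p t) y) (w.Pt p (w.C p t) y)) +
      I (fun x => U (hvB w n p t x) (w.SB p t x)) +
      I (fun y => on (hv w n p (w.C p t) y) (Ep p (w.ex p t) y)) +
      2 * I (fun y => Ep p (w.G p t) y ^ 2) := by
  have hp0 : 0 < p := Nat.pos_of_ne_zero hp
  obtain ⟨mC, pC⟩ := hv_facts w n p _ (w.okC ht hp)
  obtain ⟨mB, pB⟩ := hvB_facts w n ht hp
  have oC := w.okC ht hp
  have a1 := w.pcost ht hp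
  have a2 := PB_on mB pB (w.pPtB ht hp)
  have a3 := PB_U mC pC (w.pS oC)
  have a4 := PB_on mC pC (w.pPt oC)
  have a5 := PB_U mB pB (w.pSB ht hp)
  have a6 := PB_on mC pC ((w.pex ht hp).Ep hp0)
  have a7 := PBsq ((w.pG ht hp).Ep hp0)
  have l1 : I (w.cost p t) + I (fun x => on (hvB w n p t x) (w.PtB p t x)) =
      I (Ep p fun x => w.cost p t x + on (hvB w n p t x) (w.PtB p t x)) := by
    rw [I_Ep hp0 (a1.add a2).integrableOn, I_add a1.integrableOn a2.integrableOn]
  have l2 : I (fun x => U (hvB w n p t x) (w.SB p t x)) =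
      I (Ep p fun x => U (hvB w n p t x) (w.SB p t x)) := (I_Ep hp0 a5.integrableOn).symm
  rw [l1, l2, ← I_smul, ← I_add ((a1.add a2).Ep hp0).integrableOn a3.integrableOn,
    ← I_add a4.integrableOn (a5.Ep hp0).integrableOn,
    ← I_add (a4.add (a5.Ep hp0)).integrableOn a6.integrableOn,
    ← I_add ((a4.add (a5.Ep hp0)).add a6).integrableOn (a7.smul (by norm_num)).integrableOn]
  refine I_mono (((a1.add a2).Ep hp0).add a3).integrableOn
    ((((a4.add (a5.Ep hp0)).add a6)).add (a7.smul (by norm_num))).integrableOn fun y => ?_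
  have hp' : (0:ℝ) < p := by exact_mod_cast hp0
  -- sums over `Fin p`
  have eE : ∀ f : ℝ → ℝ, Ep p f y = ∑ i : Fin p, (1 / (p:ℝ)) * f ((y + (i:ℕ)) / p) := by
    intro f
    unfold Ep
    rw [Finset.sum_range, Finset.sum_div]
    exact Finset.sum_congr rfl fun i _ => by ring
  have hx : ∀ i : ℕ, (p:ℝ) * ((y + i) / p) = y + i := fun i => by field_simp
  have hC : ∀ i : ℕ, hv w n p (w.C p t) (p * ((y + i) / p)) ↔ hv w n p (w.C p t) y := fun i => by
    rw [hx i]; exact per_nat pC i y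
  have bper : ∀ i : ℕ, w.be p t (p * ((y + i) / p)) = w.be p t y := by
    intro i
    rw [hx i]
    induction i with
    | zero => simp
    | succ i ih =>
      have e : y + ((i + 1 : ℕ) : ℝ) = (y + i) + 1 := by push_cast; ring
      rw [e, w.bper ht hp, ih]
  have hB : ∀ i : ℕ, hvB w n p t ((y + i) / p) ↔ (2 ≤ w.SB p t ((y + i) / p) ∨
      (1 ≤ w.SB p t ((y + i) / p) ∧ hv w n p (w.C p t) y)) := fun i => by
    unfold hvB
    rw [hC i]
  have e1 : Ep p (fun x => w.cost p t x + on (hvB w n p t x) (w.PtB p t x)) y =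
      ∑ i : Fin p, (1 / (p:ℝ)) * (w.cost p t ((y + (i:ℕ)) / p) +
        on (2 ≤ w.SB p t ((y + (i:ℕ)) / p) ∨
          (1 ≤ w.SB p t ((y + (i:ℕ)) / p) ∧ hv w n p (w.C p t) y))
          (w.PtB p t ((y + (i:ℕ)) / p))) := by
    rw [eE]
    refine Finset.sum_congr rfl fun i _ => ?_
    show (1 / (p:ℝ)) * (w.cost p t ((y + (i:ℕ)) / p) +
      on (hvB w n p t ((y + (i:ℕ)) / p)) (w.PtB p t ((y + (i:ℕ)) / p))) = _
    rw [show (hvB w n p t ((y + (i:ℕ)) / p)) = _ from propext (hB i)]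
  have e2 : Ep p (fun x => U (hvB w n p t x) (w.SB p t x)) y =
      ∑ i : Fin p, (1 / (p:ℝ)) * U (2 ≤ w.SB p t ((y + (i:ℕ)) / p) ∨
          (1 ≤ w.SB p t ((y + (i:ℕ)) / p) ∧ hv w n p (w.C p t) y))
          (w.SB p t ((y + (i:ℕ)) / p)) := by
    rw [eE]
    refine Finset.sum_congr rfl fun i _ => ?_
    show (1 / (p:ℝ)) * U (hvB w n p t ((y + (i:ℕ)) / p)) (w.SB p t ((y + (i:ℕ)) / p)) = _
    rw [show (hvB w n p t ((y + (i:ℕ)) / p)) = _ from propext (hB i)]
  have key := fibre (ι := Fin p) (u := fun _ => 1 / (p:ℝ))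
    (S := fun i => w.SB p t ((y + (i:ℕ)) / p)) (G := fun i => w.G p t ((y + (i:ℕ)) / p))
    (co := fun i => w.cost p t ((y + (i:ℕ)) / p)) (PB' := fun i => w.PtB p t ((y + (i:ℕ)) / p))
    (β := w.be p t y) (m := w.S (w.C p t) y) (PC := w.Pt p (w.C p t) y) (e := Ep p (w.ex p t) y)
    (hC := hv w n p (w.C p t) y)
    (fun _ => by positivity)
    (by rw [Finset.sum_const, Finset.card_univ, Fintype.card_fin, nsmul_eq_mul]; field_simp)
    (fun i => (w.pSB ht hp).nonneg _) (fun i => (w.pG ht hp).nonneg _)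
    (fun i => by rw [w.dec ht hp, bper i])
    (by rw [← w.mean ht hp y, eE])
    (fun i => (w.pPtB ht hp).nonneg _) ((w.pPt oC).nonneg _) (((w.pex ht hp).Ep hp0).nonneg _)
    (fun i => w.c1 ht hp _) (fun i => w.c2 ht hp _)
    (not_hv_two w n p _ y) (fun i => w.bornB ht hp _)
    (by have := w.col ht hp y; rw [eE] at this; exact this)
  rw [← eE (w.G p t)] at key
  show Ep p (fun x => w.cost p t x + on (hvB w n p t x) (w.PtB p t x)) y +
      U (hv w n p (w.C p t) y) (w.S (w.C p t) y) ≤ on (hv w n p (w.C p t) y) (w.Pt p (w.C p t) y) +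
      Ep p (fun x => U (hvB w n p t x) (w.SB p t x)) y +
      on (hv w n p (w.C p t) y) (Ep p (w.ex p t) y) + 2 * Ep p (w.G p t) y ^ 2
  rw [e1, e2]
  exact key

/-- the integrated join -/
lemma I_join (n : ℕ) {p : ℕ} {t : σ} (ht : w.ok p t) (hp : p ≠ 0) :
    I (fun x => on (hv w (n + 1) p t x) (w.Pt p t x)) +
      I (fun x => U (hvB w n p t x) (w.SB p t x)) +
      I (fun x => U (hv w n (p - 1) (w.N p t) x) (w.S (w.N p t) x)) ≤
    I (fun x => on (hvB w n p t x) (w.PtB p t x)) +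
      I (fun x => on (hv w n (p - 1) (w.N p t) x) (w.Pt (p - 1) (w.N p t) x)) +
      I (fun x => U (hv w (n + 1) p t x) (w.S t x)) +
      I (fun x => on (hv w (n + 1) p t x) (w.br p t x)) := by
  obtain ⟨mH, pH⟩ := hv_facts w (n + 1) p _ ht
  obtain ⟨mB, pB⟩ := hvB_facts w n ht hp
  have oN := w.okN ht hp
  obtain ⟨mN, pN⟩ := hv_facts w n (p - 1) _ oN
  have a1 := PB_on mH pH (w.pPt ht)
  have a2 := PB_U mB pB (w.pSB ht hp)
  have a3 := PB_U mN pN (w.pS oN)
  have a4 := PB_on mB pB (w.pPtB ht hp)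
  have a5 := PB_on mN pN (w.pPt oN)
  have a6 := PB_U mH pH (w.pS ht)
  have a7 := PB_on mH pH (w.pbr ht hp)
  rw [← I_add a1.integrableOn a2.integrableOn, ← I_add (a1.add a2).integrableOn a3.integrableOn,
    ← I_add a4.integrableOn a5.integrableOn, ← I_add (a4.add a5).integrableOn a6.integrableOn,
    ← I_add ((a4.add a5).add a6).integrableOn a7.integrableOn]
  refine I_mono ((a1.add a2).add a3).integrableOn (((a4.add a5).add a6).add a7).integrableOn
    fun x => ?_
  have b0 := (w.pSB ht hp).nonneg x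
  have n0 := (w.pS oN).nonneg x
  have l0 := (w.pSL ht hp).nonneg x
  have q0 := (w.pPtB ht hp).nonneg x
  have q1 := (w.pPt oN).nonneg x
  have q2 := (w.pPt ht).nonneg x
  have r0 := (w.pbr ht hp).nonneg x
  have f1 := w.joH ht hp x
  have f2 := w.joB ht hp x
  have f3 := w.joN ht hp x
  have f4 := w.born ht x
  have sp := w.spl ht hp x
  have hB1 : hvB w n p t x → 1 ≤ w.SB p t x := fun h => h.elim (fun h => by linarith) fun h => h.1
  have hB2 : ¬ hvB w n p t x → w.SB p t x < 2 := fun h => by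
    by_contra h2
    exact h (Or.inl (not_lt.1 h2))
  have hN1 := hv_one w n (p - 1) _ oN x
  have hN2 := not_hv_two w n (p - 1) (w.N p t) x
  -- the union of the tie part and the rest
  obtain ⟨P', hP', g1, g2, g3, g4, g5, g6⟩ : ∃ P' : ℝ, 0 ≤ P' ∧
      P' ≤ w.PtB p t x + w.Pt (p - 1) (w.N p t) x + 14 * min (w.SB p t x) (w.S (w.N p t) x) ∧
      P' ≤ w.PtB p t x + 14 * w.S (w.N p t) x ∧ P' ≤ w.Pt (p - 1) (w.N p t) x + 14 * w.SB p t x ∧
      P' ≤ 14 * (w.SB p t x + w.S (w.N p t) x) ∧ 0 ≤ P' ∧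
      w.Pt p t x ≤ P' + 14 * w.SL p t x + w.br p t x := by
    refine ⟨min (min (w.PtB p t x + w.Pt (p - 1) (w.N p t) x +
        14 * min (w.SB p t x) (w.S (w.N p t) x)) (w.PtB p t x + 14 * w.S (w.N p t) x))
        (min (w.Pt (p - 1) (w.N p t) x + 14 * w.SB p t x)
          (14 * (w.SB p t x + w.S (w.N p t) x))), ?_, ?_, ?_, ?_, ?_, ?_, ?_⟩
    · have := le_min b0 n0
      exact le_min (le_min (by positivity) (by positivity)) (le_min (by positivity) (by positivity))
    · exact (min_le_left _ _).trans (min_le_left _ _)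
    · exact (min_le_left _ _).trans (min_le_right _ _)
    · exact (min_le_right _ _).trans (min_le_left _ _)
    · exact (min_le_right _ _).trans (min_le_right _ _)
    · have := le_min b0 n0
      exact le_min (le_min (by positivity) (by positivity)) (le_min (by positivity) (by positivity))
    · have h1 : w.Pt p t x - 14 * w.SL p t x - w.br p t x ≤
          min (min (w.PtB p t x + w.Pt (p - 1) (w.N p t) x +
        14 * min (w.SB p t x) (w.S (w.N p t) x)) (w.PtB p t x + 14 * w.S (w.N p t) x))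
        (min (w.Pt (p - 1) (w.N p t) x + 14 * w.SB p t x)
          (14 * (w.SB p t x + w.S (w.N p t) x))) := by
        refine le_min (le_min ?_ ?_) (le_min ?_ ?_)
        · linarith
        · linarith
        · linarith
        · linarith
      linarith
  have j1 := join2 (e := 0) b0 n0 le_rfl hB1 hN1 hB2 hN2 q0 q1 hP' (by linarith) (by linarith)
    (by linarith) (by linarith)
  have z0 : on (2 ≤ w.SB p t x + w.S (w.N p t) x ∨ hvB w n p t x ∨ hv w n (p - 1) (w.N p t) x)
      (0:ℝ) = 0 := by unfold on; split_ifs <;> rfl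
  rw [z0, add_zero] at j1
  have s0 : 0 ≤ w.SB p t x + w.S (w.N p t) x := add_nonneg b0 n0
  have j2 := join2 (ha := (2 ≤ w.SB p t x + w.S (w.N p t) x ∨ hvB w n p t x ∨
      hv w n (p - 1) (w.N p t) x)) (hb := 2 ≤ w.SL p t x) (Pa := P') (Pb := 14 * w.SL p t x)
      (P := w.Pt p t x) (e := w.br p t x) s0 l0 r0
      (fun h => by
        rcases h with h | h | h
        · linarith
        · linarith [hB1 h]
        · linarith [hN1 h])
      (fun h => by linarith)
      (fun h => by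
        by_contra h2
        exact h (Or.inl (not_lt.1 h2)))
      (fun h => not_le.1 h) hP' (by positivity) q2
      (by
        have := le_min s0 l0
        linarith) (by linarith) (by linarith) (by linarith)
  have e3 : (2 ≤ w.SB p t x + w.S (w.N p t) x + w.SL p t x ∨
      (2 ≤ w.SB p t x + w.S (w.N p t) x ∨ hvB w n p t x ∨ hv w n (p - 1) (w.N p t) x) ∨
      2 ≤ w.SL p t x) = hv w (n + 1) p t x := by
    apply propext
    rw [hv_succ w n hp]
    have e4 : w.SB p t x + w.S (w.N p t) x + w.SL p t x = w.S t x := by rw [sp]; ring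
    rw [e4]
    constructor
    · rintro (h | (h | h) | h)
      · exact Or.inl h
      · exact Or.inl (by linarith)
      · exact Or.inr h
      · exact Or.inl (by linarith)
    · rintro (h | h)
      · exact Or.inl h
      · exact Or.inr (Or.inl (Or.inr h))
  have e5 : w.SB p t x + w.S (w.N p t) x + w.SL p t x = w.S t x := by rw [sp]; ring
  rw [e3, e5] at j2
  -- the leaf part pays itself
  have j3 : on (2 ≤ w.SL p t x) (14 * w.SL p t x) ≤ U (2 ≤ w.SL p t x) (w.SL p t x) := by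
    by_cases h : 2 ≤ w.SL p t x
    · have h1 := Mode940.born h
      have h3 := ThL_nonneg l0
      simp only [on, U, h, if_true]
      linarith
    · simp only [on, U, h, if_false]
      exact ThL_nonneg l0
  linarith

/-- **the theorem** -/
theorem main : ∀ (n p : ℕ) (t : σ), w.ok p t →
    K w n p t + I (fun x => on (hv w n p t x) (w.Pt p t x)) ≤
      I (fun x => U (hv w n p t x) (w.S t x)) + E w n p t := by
  intro n
  induction n with
  | zero =>
    intro p t ht
    have h := base_case ht (P := hv w 0 p t) (fun x => Iff.rfl)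
    have e1 : K w 0 p t = 0 := rfl
    have e2 : E w 0 p t = 0 := rfl
    rw [e1, e2]
    linarith
  | succ n ih =>
    intro p t ht
    by_cases hp : p = 0
    · subst hp
      have h := base_case ht (P := hv w (n + 1) 0 t) (fun x => hv_succ0 w n t x)
      have e1 : K w (n + 1) 0 t = 0 := by simp [K]
      have e2 : E w (n + 1) 0 t = 0 := by simp [E]
      rw [e1, e2]
      linarith
    · have i1 := ih p _ (w.okC ht hp)
      have i2 := ih (p - 1) _ (w.okN ht hp)
      have f := I_fibre n ht hp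
      have j := I_join n ht hp
      rw [K_succ w n hp, E_succ w n hp]
      linarith

/-- **the form with `eps`** -/
theorem main_eps (n p : ℕ) (t : σ) (ht : w.ok p t) {ε : ℝ} (hε : 0 < ε) :
    K w n p t ≤ ε * I (fun x => w.S t x ^ 2) + (86 + 100 * Log51.Lc (ε / 100)) * I (w.S t) +
      E w n p t := by
  have h := main n p t ht
  obtain ⟨mH, pH⟩ := hv_facts w n p _ ht
  have pS := w.pS ht
  have n1 : 0 ≤ I (fun x => on (hv w n p t x) (w.Pt p t x)) :=
    I_nonneg fun x => on_nonneg ((w.pPt ht).nonneg x)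
  have hL := Log51.Lc_nonneg (show 0 < ε / 100 by positivity)
  have c0 : 0 ≤ 86 + 100 * Log51.Lc (ε / 100) := by positivity
  have k : I (fun x => U (hv w n p t x) (w.S t x)) ≤
      I (fun x => ε * w.S t x ^ 2 + (86 + 100 * Log51.Lc (ε / 100)) * w.S t x) := by
    refine I_mono (PB_U mH pH pS).integrableOn
      (((PBsq pS).smul hε.le).add (pS.smul c0)).integrableOn fun x => ?_
    have s0 := pS.nonneg x
    have m0 : 0 ≤ Log51.Lc (ε / 100) * w.S t x := mul_nonneg hL s0
    unfold U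
    split_ifs
    · have := ThH_eps hε s0
      nlinarith
    · have h1 := ThL_le s0
      have h2 : 0 ≤ ε * w.S t x ^ 2 := by positivity
      nlinarith
  rw [I_add ((PBsq pS).smul hε.le).integrableOn (pS.smul c0).integrableOn, I_smul, I_smul] at k
  linarith

end walk

end Crest.Agent.R4P.ModeG51
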