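import Crest.Agent.R4P.RXi_343
import Crest.Agent.R4P.ModeG_51

/-!
R4 (S0004) with powers, T3 / T6, helper2: **the main layer `min h 1` over a row system with arbitrary
heights** (`RXi343.RX`).

* `RD R` : good group states + the error `br` of the class changes at the scale 1
  (`PtR 1 ≤ Pt 1 (p-1) (N) + 14 dr + br`, `dr = (AR 1 - A 1 (N))⁺` = self-paid part).
* `RD.mw : MW (Gs β)` : the plain mode game (scale 1), births `bt 1` (Jensen gap) go to `ex`.
* `W_le` : **the births and splits telescope**: `W + I X ≤ JN + MG + I T`.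
* `main_layer` : `Σ I (cS 1) ≤ ε I T² + C_ε I T + 3 SO + 14 (JN + MG + I T) + BR`, `BR` only at heavy
  points, price independent of the crowd.
* `RD.nested` : nested class maps (`br = 0`, `MG = 0`).
-/

set_option autoImplicit false
set_option linter.unusedSectionVars false
set_option linter.unusedVariables false
open MeasureTheory Filter Set

namespace Crest.Agent.R4P.Main2

open Crest.Agent.R4.Tour104 Crest.Agent.R4.Clos758
open Crest.Agent.R4P.GMer27 Crest.Agent.R4P.GCol27 Crest.Agent.R4P.RSys343 Crest.Agent.R4P.TrR343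
open Crest.Agent.R4P.RXs343 Crest.Agent.R4P.RXi343
open Crest.Agent.R4P.ModeP940 (PP SS SS_nonneg SS_add)
open Crest.Agent.R4P.ModeG51 (MW K E hv on K_succ E_succ main_eps)

section rx
variable {β δ : Type} [Fintype δ]

/-- lower part of a split of the classes: `(AR 1 - A 1 (N))⁺` -/
noncomputable def dr (R : RX β δ) (p : ℕ) (s : Gs β) (x : ℝ) : ℝ :=
  max (R.AR 1 p s x - R.A 1 (p - 1) (R.N p s) x) 0

/-- upper part: classes which merge -/
noncomputable def mg (R : RX β δ) (p : ℕ) (s : Gs β) (x : ℝ) : ℝ :=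
  max (R.A 1 (p - 1) (R.N p s) x - R.AR 1 p s x) 0

/-- **data of the main layer** -/
structure RD (R : RX β δ) where
  /-- good states -/
  ok : ℕ → Gs β → Prop
  gk : ∀ {p s}, ok p s → R.gok p s
  okC : ∀ {p s}, ok p s → p ≠ 0 → ok p (R.C p s)
  okN : ∀ {p s}, ok p s → p ≠ 0 → ok (p - 1) (R.N p s)
  /-- error of the class changes -/
  br : ℕ → Gs β → ℝ → ℝ
  pbr : ∀ {p s}, ok p s → p ≠ 0 → PB (br p s)
  ref : ∀ {p s}, ok p s → p ≠ 0 → ∀ x,
    R.PtR 1 p s x ≤ R.Pt 1 (p - 1) (R.N p s) x + 14 * dr R p s x + br p s x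

variable {R : RX β δ}

lemma z1 : (0 : ℝ) < 1 := one_pos

lemma dm (p : ℕ) (s : Gs β) (x : ℝ) :
    dr R p s x - mg R p s x = R.AR 1 p s x - R.A 1 (p - 1) (R.N p s) x := by
  unfold dr mg
  rcases le_total (R.AR 1 p s x) (R.A 1 (p - 1) (R.N p s) x) with h | h
  · rw [max_eq_right (by linarith), max_eq_left (by linarith)]; ring
  · rw [max_eq_left (by linarith), max_eq_right (by linarith)]; ring

lemma PB_dr {p : ℕ} {s : Gs β} (hs : R.gok p s) (hp : p ≠ 0) : PB (dr R p s) :=
  PB_D (RX.PB_A z1 (RX.gok_N hs hp)) (RX.PB_AR z1 hs hp)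

lemma PB_mg {p : ℕ} {s : Gs β} (hs : R.gok p s) (hp : p ≠ 0) : PB (mg R p s) :=
  PB_D (RX.PB_AR z1 hs hp) (RX.PB_A z1 (RX.gok_N hs hp))

lemma G_le {p : ℕ} {s : Gs β} (hs : R.gok p s) (hp : p ≠ 0) (x : ℝ) :
    R.G 1 p s x ≤ R.GT p s x := by
  unfold RX.G RX.GT
  refine RX.sm2_mono hs fun j z => ?_
  have h1 := RX.tg_eq z1 hs hp j z x
  have h2 := (RX.PB_tgk z1 hs hp j z).nonneg x
  linarith

/-- **the plain mode game of the main layer** -/
noncomputable def RD.mw (D : RD R) : MW (Gs β) where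
  C := R.C
  N := R.N
  ok := D.ok
  S := R.T
  SL := R.TL
  SB := R.TB
  be := R.bT
  G := R.GT
  cost := R.cS 1
  ex := fun p s x => R.ex 1 p s x + 14 * R.bt 1 p s x
  br := fun p s x => 14 * dr R p s x + D.br p s x
  Pt := R.Pt 1
  PtB := R.PtB 1
  okC := D.okC
  okN := D.okN
  pS := fun ht => RX.PB_T (D.gk ht)
  pSL := fun ht hp => RX.PB_TL (D.gk ht) hp
  pSB := fun ht hp => RX.PB_TB (D.gk ht) hp
  pG := fun ht hp => RX.PB_GT (D.gk ht) hp
  pcost := fun ht hp => RX.PB_cS z1 (D.gk ht) hp
  pex := fun ht hp => (RX.PB_ex z1 (D.gk ht) hp).add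
    ((RX.PB_bt z1 (D.gk ht) hp).smul (by norm_num))
  pbr := fun ht hp => ((PB_dr (D.gk ht) hp).smul (by norm_num)).add (D.pbr ht hp)
  pPt := fun ht => RX.PB_Pt z1 (D.gk ht)
  pPtB := fun ht hp => RX.PB_PtB z1 (D.gk ht) hp
  spl := fun ht hp x => RX.spl (D.gk ht) hp x
  mean := fun ht hp y => RX.mean (D.gk ht) hp y
  dec := fun _ _ x => RX.dec' x
  bper := fun ht hp x => (RX.PB_bT (D.gk ht) hp).per x
  c1 := fun {p t} ht hp x => by
    have h1 := RX.c1 z1 (D.gk ht) hp x
    have h2 := G_le (D.gk ht) hp x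
    have h3 := (RX.PB_G z1 (D.gk ht) hp).nonneg x
    have h4 := pow_le_pow_left₀ h3 h2 2
    linarith
  c2 := fun {p t} ht hp x => by
    have h1 := RX.c2 z1 (D.gk ht) hp x
    have h2 := RX.decB z1 (D.gk ht) hp x
    have h3 := (RX.PB_bt z1 (D.gk ht) hp).nonneg x
    rw [one_mul] at h1
    linarith
  col := fun {p t} ht hp y => by
    have h := RX.col z1 (D.gk ht) hp y
    have hp0 : 0 < p := Nat.pos_of_ne_zero hp
    have h1 : Ep p (fun x => R.cS 1 p t x + R.PtB 1 p t x) y ≤
        Ep p (fun x => (R.cS 1 p t x + R.PR 1 p t x) + 14 * R.bt 1 p t x) y := by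
      refine Ep_mono (fun x => ?_) y
      have h2 := RX.PB1 z1 (D.gk ht) hp x
      linarith
    have h3 : Ep p (fun x => (R.cS 1 p t x + R.PR 1 p t x) + 14 * R.bt 1 p t x) y =
        Ep p (fun x => R.cS 1 p t x + R.PR 1 p t x) y + Ep p (fun x => 14 * R.bt 1 p t x) y :=
      Ep_add _ _ _ _
    have h4 : Ep p (fun x => R.ex 1 p t x + 14 * R.bt 1 p t x) y =
        Ep p (R.ex 1 p t) y + Ep p (fun x => 14 * R.bt 1 p t x) y := Ep_add _ _ _ _
    linarith
  born := fun {p t} ht x => by
    have h1 := RX.born z1 (D.gk ht) x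
    have h2 := RX.A_le z1 (D.gk ht) x
    rw [one_mul] at h1
    linarith
  bornB := fun {p t} ht hp x => by
    have h1 := RX.PB2 z1 (D.gk ht) hp x
    have h2 := RX.AB_le z1 (D.gk ht) hp x
    rw [one_mul] at h1
    linarith
  joH := fun {p t} ht hp x => by
    have h1 := (RX.joins z1 (D.gk ht) hp x).1
    have h2 := D.ref ht hp x
    have h3 := min_le_min (RX.AB_le z1 (D.gk ht) hp x) (RX.AR_le z1 (D.gk ht) hp x)
    have h4 := RX.AL_le z1 (D.gk ht) hp x
    rw [one_mul, one_mul] at h1
    linarith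
  joB := fun {p t} ht hp x => by
    have h1 := (RX.joins z1 (D.gk ht) hp x).2.1
    have h3 := RX.AR_le z1 (D.gk ht) hp x
    have h4 := RX.AL_le z1 (D.gk ht) hp x
    have h5 := (PB_dr (D.gk ht) hp).nonneg x
    have h6 := (D.pbr ht hp).nonneg x
    rw [one_mul] at h1
    linarith
  joN := fun {p t} ht hp x => by
    have h1 := (RX.joins z1 (D.gk ht) hp x).2.2
    have h2 := D.ref ht hp x
    have h3 := RX.AB_le z1 (D.gk ht) hp x
    have h4 := RX.AL_le z1 (D.gk ht) hp x
    rw [one_mul] at h1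
    linarith

/-! ### walk sums -/

/-- walk sum of a local functional -/
noncomputable def WS (R : RX β δ) (f : ℕ → Gs β → ℝ) : ℕ → ℕ → Gs β → ℝ
  | 0, _, _ => 0
  | n + 1, p, s => if p = 0 then 0 else f p s + WS R f n p (R.C p s) + WS R f n (p - 1) (R.N p s)

lemma WS_zero (f : ℕ → Gs β → ℝ) (p : ℕ) (s : Gs β) : WS R f 0 p s = 0 := rfl
lemma WS_p0 (f : ℕ → Gs β → ℝ) (n : ℕ) (s : Gs β) : WS R f (n + 1) 0 s = 0 := by simp [WS]
lemma WS_succ (f : ℕ → Gs β → ℝ) (n : ℕ) {p : ℕ} (hp : p ≠ 0) (s : Gs β) :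
    WS R f (n + 1) p s = f p s + WS R f n p (R.C p s) + WS R f n (p - 1) (R.N p s) := by
  show (if p = 0 then 0 else _) = _
  rw [if_neg hp]

/-- **second order** -/
noncomputable def SO (R : RX β δ) : ℕ → ℕ → Gs β → ℝ :=
  WS R fun p s => I (fun y => Ep p (R.GT p s) y ^ 2)

/-- births and splits -/
noncomputable def Wb (R : RX β δ) : ℕ → ℕ → Gs β → ℝ :=
  WS R fun p s => I (R.bt 1 p s) + I (dr R p s)

/-- join energy -/
noncomputable def JN (R : RX β δ) : ℕ → ℕ → Gs β → ℝ := WS R fun p s => I (R.jn p s)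

/-- merges -/
noncomputable def MG (R : RX β δ) : ℕ → ℕ → Gs β → ℝ := WS R fun p s => I (mg R p s)

/-- cost of the main layer -/
noncomputable def KS (R : RX β δ) : ℕ → ℕ → Gs β → ℝ := WS R fun p s => I (R.cS 1 p s)

/-- class changes at heavy points -/
noncomputable def BR (D : RD R) : ℕ → ℕ → Gs β → ℝ
  | 0, _, _ => 0
  | n + 1, p, s => if p = 0 then 0 else
      I (fun x => on (hv D.mw (n + 1) p s x) (D.br p s x)) +
      BR D n p (R.C p s) + BR D n (p - 1) (R.N p s)

lemma BR_p0 (D : RD R) (n : ℕ) (s : Gs β) : BR D (n + 1) 0 s = 0 := by simp [BR]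
lemma BR_succ (D : RD R) (n : ℕ) {p : ℕ} (hp : p ≠ 0) (s : Gs β) : BR D (n + 1) p s =
    I (fun x => on (hv D.mw (n + 1) p s x) (D.br p s x)) +
      BR D n p (R.C p s) + BR D n (p - 1) (R.N p s) := by
  show (if p = 0 then 0 else _) = _
  rw [if_neg hp]

lemma K_eq (D : RD R) : ∀ (n p : ℕ) (s : Gs β), K D.mw n p s = KS R n p s := by
  intro n
  induction n with
  | zero => intro p s; rfl
  | succ n ih =>
    intro p s
    by_cases hp : p = 0
    · subst hp
      have e1 : K D.mw (n + 1) 0 s = 0 := by simp [K]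
      rw [e1]
      exact (WS_p0 _ n s).symm
    · rw [K_succ _ n hp]
      show I (R.cS 1 p s) + K D.mw n p (R.C p s) + K D.mw n (p - 1) (R.N p s) = _
      rw [ih, ih]
      exact (WS_succ (R := R) (fun p s => I (R.cS 1 p s)) n hp s).symm

/-- total excess over 1 -/
noncomputable def X (R : RX β δ) (p : ℕ) (s : Gs β) (x : ℝ) : ℝ := R.T s x - R.A 1 p s x

lemma I_sub' {f g : ℝ → ℝ} (hf : PB f) (hg : PB g) : I (fun x => f x - g x) = I f - I g :=
  I_sub hf.integrableOn hg.integrableOn

/-- **the births and splits telescope** -/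
theorem W_le (D : RD R) : ∀ (n p : ℕ) (s : Gs β), D.ok p s →
    Wb R n p s + I (X R p s) ≤ JN R n p s + MG R n p s + I (R.T s) := by
  have base : ∀ (p : ℕ) (s : Gs β), D.ok p s → I (X R p s) ≤ I (R.T s) := by
    intro p s hs
    have h := D.gk hs
    have h1 : I (X R p s) = I (R.T s) - I (R.A 1 p s) := I_sub' (RX.PB_T h) (RX.PB_A z1 h)
    have h2 : 0 ≤ I (R.A 1 p s) := I_nonneg fun x => (RX.PB_A z1 h).nonneg x
    linarith
  intro n
  induction n with
  | zero =>
    intro p s hs
    have h := base p s hs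
    show 0 + _ ≤ 0 + 0 + _
    linarith
  | succ n ih =>
    intro p s hs
    by_cases hp : p = 0
    · subst hp
      have h := base 0 s hs
      have e1 : Wb R (n + 1) 0 s = 0 := WS_p0 _ n s
      have e2 : JN R (n + 1) 0 s = 0 := WS_p0 _ n s
      have e3 : MG R (n + 1) 0 s = 0 := WS_p0 _ n s
      rw [e1, e2, e3]
      linarith
    · have hp0 : 0 < p := Nat.pos_of_ne_zero hp
      have i1 := ih p _ (D.okC hs hp)
      have i2 := ih (p - 1) _ (D.okN hs hp)
      have g := D.gk hs
      have gC := D.gk (D.okC hs hp)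
      have gN := D.gk (D.okN hs hp)
      have e1 : Wb R (n + 1) p s = (I (R.bt 1 p s) + I (dr R p s)) + Wb R n p (R.C p s) +
        Wb R n (p - 1) (R.N p s) := WS_succ _ n hp s
      have e2 : JN R (n + 1) p s = I (R.jn p s) + JN R n p (R.C p s) +
        JN R n (p - 1) (R.N p s) := WS_succ _ n hp s
      have e3 : MG R (n + 1) p s = I (mg R p s) + MG R n p (R.C p s) +
        MG R n (p - 1) (R.N p s) := WS_succ _ n hp s
      rw [e1, e2, e3]
      -- integrals
      have pT := RX.PB_T g
      have pA := RX.PB_A z1 g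
      have pTC := RX.PB_T gC
      have pAC := RX.PB_A z1 gC
      have pTN := RX.PB_T gN
      have pAN := RX.PB_A z1 gN
      have pTL := RX.PB_TL g hp
      have pTB := RX.PB_TB g hp
      have pAL := RX.PB_AL z1 g hp
      have pAB := RX.PB_AB z1 g hp
      have pAR := RX.PB_AR z1 g hp
      have pbt := RX.PB_bt z1 g hp
      have pdr := PB_dr g hp
      have pmg := PB_mg g hp
      have pjn := RX.PB_jn g hp
      have x1 : I (X R p s) = I (R.T s) - I (R.A 1 p s) := I_sub' pT pA
      have x2 : I (X R p (R.C p s)) = I (R.T (R.C p s)) - I (R.A 1 p (R.C p s)) := I_sub' pTC pAC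
      have x3 : I (X R (p - 1) (R.N p s)) = I (R.T (R.N p s)) - I (R.A 1 (p - 1) (R.N p s)) :=
        I_sub' pTN pAN
      -- total
      have t1 : I (R.T s) = I (R.TL p s) + I (R.TB p s) + I (R.T (R.N p s)) := by
        rw [← I_add pTL.integrableOn pTB.integrableOn,
          ← I_add (pTL.add pTB).integrableOn pTN.integrableOn]
        congr 1
        funext x
        exact RX.spl g hp x
      have t2 : I (R.TB p s) = I (R.T (R.C p s)) := by
        rw [← I_Ep hp0 pTB.integrableOn]
        congr 1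
        funext y
        exact RX.mean g hp y
      -- short totals
      have a1 : I (R.AB 1 p s) = I (R.A 1 p (R.C p s)) + I (R.bt 1 p s) := by
        have pbe := RX.PB_be z1 g hp
        have pG := RX.PB_G z1 g hp
        have h1 : I (R.A 1 p (R.C p s)) = I (R.be 1 p s) + I (R.G 1 p s) := by
          rw [← I_Ep hp0 pG.integrableOn, ← I_add pbe.integrableOn (pG.Ep hp0).integrableOn]
          congr 1
          funext y
          exact (RX.meanA z1 g hp y).symm
        have h2 : I (fun x => R.be 1 p s (p * x)) = I (R.be 1 p s) := by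
          rw [← I_Ep hp0 (pbe.pull p).integrableOn]
          congr 1
          funext y
          have h := Ep_pull_mul hp0 (a := R.be 1 p s) (f := fun _ => (1 : ℝ)) pbe.per y
          rw [Ep_const hp0] at h
          simp only [mul_one] at h
          exact h
        have h3 : I (R.AB 1 p s) = I (fun x => R.be 1 p s (p * x)) + I (R.G 1 p s) +
            I (R.bt 1 p s) := by
          rw [← I_add (pbe.pull p).integrableOn pG.integrableOn,
            ← I_add ((pbe.pull p).add pG).integrableOn pbt.integrableOn]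
          congr 1
          funext x
          exact RX.decA z1 g hp x
        linarith
      have a2 : I (dr R p s) - I (mg R p s) = I (R.AR 1 p s) - I (R.A 1 (p - 1) (R.N p s)) := by
        rw [← I_sub' pdr pmg, ← I_sub' pAR pAN]
        congr 1
        funext x
        exact dm p s x
      have a3 : I (R.AB 1 p s) + I (R.AR 1 p s) + I (R.AL 1 p s) ≤
          I (R.A 1 p s) + I (R.jn p s) := by
        rw [← I_add pAB.integrableOn pAR.integrableOn,
          ← I_add (pAB.add pAR).integrableOn pAL.integrableOn,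
          ← I_add pA.integrableOn pjn.integrableOn]
        refine I_mono ((pAB.add pAR).add pAL).integrableOn (pA.add pjn).integrableOn fun x => ?_
        have h := RX.lamJ g hp 1 x
        simp only [Finset.range_one, Finset.sum_singleton, pow_zero, one_mul] at h
        linarith
      have a4 : 0 ≤ I (R.AL 1 p s) := I_nonneg fun x => pAL.nonneg x
      linarith

/-- **the errors** -/
theorem E_le (D : RD R) : ∀ (n p : ℕ) (s : Gs β), D.ok p s →
    E D.mw n p s ≤ 3 * SO R n p s + 14 * Wb R n p s + BR D n p s := by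
  intro n
  induction n with
  | zero =>
    intro p s _
    show (0 : ℝ) ≤ 3 * 0 + 14 * 0 + 0
    norm_num
  | succ n ih =>
    intro p s hs
    by_cases hp : p = 0
    · subst hp
      have e1 : Wb R (n + 1) 0 s = 0 := WS_p0 _ n s
      have e2 : SO R (n + 1) 0 s = 0 := WS_p0 _ n s
      rw [e1, e2, BR_p0]
      simp [E]
    · have hp0 : 0 < p := Nat.pos_of_ne_zero hp
      have g := D.gk hs
      have i1 := ih p _ (D.okC hs hp)
      have i2 := ih (p - 1) _ (D.okN hs hp)
      have e1 : Wb R (n + 1) p s = (I (R.bt 1 p s) + I (dr R p s)) + Wb R n p (R.C p s) +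
        Wb R n (p - 1) (R.N p s) := WS_succ _ n hp s
      have e2 : SO R (n + 1) p s = I (fun y => Ep p (R.GT p s) y ^ 2) + SO R n p (R.C p s) +
        SO R n (p - 1) (R.N p s) := WS_succ _ n hp s
      rw [E_succ _ n hp, e1, e2, BR_succ D n hp]
      have pbt := RX.PB_bt z1 g hp
      have pex := RX.PB_ex z1 g hp
      have pdr := PB_dr g hp
      have pG := PBsq ((RX.PB_GT g hp).Ep hp0)
      obtain ⟨mC, pC⟩ := ModeG51.hv_facts D.mw n p _
        (show D.mw.ok p (R.C p s) from D.okC hs hp)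
      obtain ⟨mH, pH⟩ := ModeG51.hv_facts D.mw (n + 1) p s (show D.mw.ok p s from hs)
      have k1 : I (fun y => on (hv D.mw n p (R.C p s) y)
          (Ep p (fun x => R.ex 1 p s x + 14 * R.bt 1 p s x) y)) ≤
          I (fun y => Ep p (R.GT p s) y ^ 2) + 14 * I (R.bt 1 p s) := by
        have p1 := (pex.add (pbt.smul (show (0:ℝ) ≤ 14 by norm_num))).Ep hp0
        have h1 : I (fun y => on (hv D.mw n p (R.C p s) y)
            (Ep p (fun x => R.ex 1 p s x + 14 * R.bt 1 p s x) y)) ≤
            I (fun y => Ep p (R.GT p s) y ^ 2 + 14 * Ep p (R.bt 1 p s) y) := by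
          refine I_mono (ModeG51.PB_on mC pC p1).integrableOn
            (pG.add ((pbt.Ep hp0).smul (by norm_num))).integrableOn fun y => ?_
          refine (ModeG51.on_le (p1.nonneg y)).trans ?_
          have h2 : Ep p (fun x => R.ex 1 p s x + 14 * R.bt 1 p s x) y =
            Ep p (R.ex 1 p s) y + Ep p (fun x => 14 * R.bt 1 p s x) y := Ep_add _ _ _ _
          have h3 : Ep p (fun x => 14 * R.bt 1 p s x) y = 14 * Ep p (R.bt 1 p s) y :=
            Ep_smul _ _ _ _
          have h4 := RX.ex_le z1 g hp y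
          rw [h2, h3]
          linarith
        have h5 : I (fun y => Ep p (R.GT p s) y ^ 2 + 14 * Ep p (R.bt 1 p s) y) =
            I (fun y => Ep p (R.GT p s) y ^ 2) + 14 * I (R.bt 1 p s) := by
          rw [I_add pG.integrableOn ((pbt.Ep hp0).smul (by norm_num)).integrableOn, I_smul,
            I_Ep hp0 pbt.integrableOn]
        linarith
      have k2 : I (fun x => on (hv D.mw (n + 1) p s x) (14 * dr R p s x + D.br p s x)) ≤
          14 * I (dr R p s) + I (fun x => on (hv D.mw (n + 1) p s x) (D.br p s x)) := by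
        have pd := pdr.smul (show (0:ℝ) ≤ 14 by norm_num)
        have pb := ModeG51.PB_on mH pH (D.pbr hs hp)
        rw [← I_smul, ← I_add pd.integrableOn pb.integrableOn]
        refine I_mono (ModeG51.PB_on mH pH (pd.add (D.pbr hs hp))).integrableOn
          (pd.add pb).integrableOn fun x => ?_
        have h1 := pdr.nonneg x
        have h2 := (D.pbr hs hp).nonneg x
        by_cases h : hv D.mw (n + 1) p s x
        · simp only [on, h, if_true]
          exact le_rfl
        · simp only [on, h, if_false]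
          positivity
      show 2 * I (fun y => Ep p (R.GT p s) y ^ 2) +
        I (fun y => on (hv D.mw n p (R.C p s) y)
          (Ep p (fun x => R.ex 1 p s x + 14 * R.bt 1 p s x) y)) +
        I (fun x => on (hv D.mw (n + 1) p s x) (14 * dr R p s x + D.br p s x)) +
        E D.mw n p (R.C p s) + E D.mw n (p - 1) (R.N p s) ≤ _
      linarith

/-- **THE MAIN LAYER** : contents of arbitrary height, price of a birth independent of the crowd -/
theorem main_layer (D : RD R) (n p : ℕ) (s : Gs β) (hs : D.ok p s) {ε : ℝ} (hε : 0 < ε) :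
    KS R n p s ≤ ε * I (fun x => R.T s x ^ 2) +
      (100 + 100 * Log51.Lc (ε / 100)) * I (R.T s) + 3 * SO R n p s +
      14 * (JN R n p s + MG R n p s) + BR D n p s := by
  have h1 := main_eps (w := D.mw) n p s hs hε
  rw [K_eq] at h1
  have h2 := E_le D n p s hs
  have h3 := W_le D n p s hs
  have g := D.gk hs
  have h4 : 0 ≤ I (X R p s) := I_nonneg fun x => by
    have := RX.A_le z1 g x
    show 0 ≤ R.T s x - R.A 1 p s x
    linarith
  have h5 : KS R n p s ≤ ε * I (fun x => R.T s x ^ 2) +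
      (86 + 100 * Log51.Lc (ε / 100)) * I (R.T s) + E D.mw n p s := h1
  linarith

/-! ### nested class maps -/

section nst
variable [DecidableEq δ]

/-- **nested class maps**: the classes of `p - 1` are unions of classes of `p` -/
structure Nst (R : RX β δ) where
  /-- the coarser class -/
  r : ℕ → δ → δ
  hs : ∀ {p b}, R.ok p b → p ≠ 0 → ∀ z' x,
    ∑ z ∈ Finset.univ.filter (fun z => r p z = z'), R.hN p b z x = R.h (p - 1) (R.rN p b) z' x

variable (Z : Nst R)

include Z in
/-- the refinement at any scale -/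
theorem Nst.ref {σ : ℝ} (hσ : 0 < σ) {p : ℕ} {s : Gs β} (hs : R.gok p s) (hp : p ≠ 0) (x : ℝ) :
    R.PtR σ p s x ≤ R.Pt σ (p - 1) (R.N p s) x +
      14 * (σ * (R.AR σ p s x - R.A σ (p - 1) (R.N p s) x)) :=
  PS_split hs.1 hσ (Z.r p) (h := fun z j => R.hN p (s.L j) z x)
    (g := fun z j => R.h (p - 1) (R.rN p (s.L j)) z x)
    (fun z j => (R.pN (hs.2 j) hp z).nonneg x) fun z' j => Z.hs (hs.2 j) hp z' x

include Z in
theorem Nst.arN {σ : ℝ} (hσ : 0 < σ) {p : ℕ} {s : Gs β} (hs : R.gok p s) (hp : p ≠ 0) (x : ℝ) :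
    R.A σ (p - 1) (R.N p s) x ≤ R.AR σ p s x :=
  SS_split hs.1.c0 hσ (Z.r p) (h := fun z j => R.hN p (s.L j) z x)
    (g := fun z j => R.h (p - 1) (R.rN p (s.L j)) z x)
    (fun z j => (R.pN (hs.2 j) hp z).nonneg x) fun z' j => Z.hs (hs.2 j) hp z' x

/-- the data of nested class maps -/
noncomputable def Nst.rd : RD R where
  ok := R.gok
  gk := fun h => h
  okC := RX.gok_C
  okN := RX.gok_N
  br := fun _ _ _ => 0
  pbr := fun _ _ => PB.const le_rfl
  ref := fun {p s} hs hp x => by
    have h := Z.ref z1 hs hp x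
    have h2 : R.AR 1 p s x - R.A 1 (p - 1) (R.N p s) x ≤ dr R p s x := le_max_left _ _
    rw [one_mul] at h
    linarith

lemma WS_eq0 {f : ℕ → Gs β → ℝ} (h : ∀ {p s}, R.gok p s → p ≠ 0 → f p s = 0) :
    ∀ (n p : ℕ) (s : Gs β), R.gok p s → WS R f n p s = 0 := by
  intro n
  induction n with
  | zero => intro p s _; rfl
  | succ n ih =>
    intro p s hs
    by_cases hp : p = 0
    · subst hp; exact WS_p0 f n s
    · rw [WS_succ f n hp, h hs hp, ih p _ (RX.gok_C hs hp), ih (p - 1) _ (RX.gok_N hs hp)]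
      norm_num

include Z in
lemma Nst.MG0 (n p : ℕ) (s : Gs β) (hs : R.gok p s) : MG R n p s = 0 := by
  refine WS_eq0 (fun {p s} hs hp => ?_) n p s hs
  have e : mg R p s = fun _ => 0 := by
    funext x
    exact max_eq_right (by have := Z.arN z1 hs hp x; linarith)
  rw [e]
  simp [I]

lemma Nst.BR0 : ∀ (n p : ℕ) (s : Gs β), BR Z.rd n p s = 0 := by
  intro n
  induction n with
  | zero => intro p s; rfl
  | succ n ih =>
    intro p s
    by_cases hp : p = 0
    · subst hp; exact BR_p0 _ n s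
    · rw [BR_succ _ n hp, ih, ih]
      have e : (fun x => on (hv Z.rd.mw (n + 1) p s x) (Z.rd.br p s x)) = fun _ => (0 : ℝ) := by
        funext x
        show on _ (0 : ℝ) = 0
        unfold ModeG51.on
        split_ifs <;> rfl
      rw [e]
      simp [I]

include Z in
/-- **the main layer, nested class maps** -/
theorem Nst.main (n p : ℕ) (s : Gs β) (hs : R.gok p s) {ε : ℝ} (hε : 0 < ε) :
    KS R n p s ≤ ε * I (fun x => R.T s x ^ 2) +
      (100 + 100 * Log51.Lc (ε / 100)) * I (R.T s) + 3 * SO R n p s + 14 * JN R n p s := by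
  have h := main_layer Z.rd n p s hs hε
  rw [Z.MG0 n p s hs, Z.BR0] at h
  linarith

end nst

end rx

end Crest.Agent.R4P.Main2
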