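import Crest.Agent.R4P.IxRange_34
import Crest.Agent.R4P.Blks_29

/-!
R4 (S0004) with powers, module D, helper34: **merges inside the cross walk, product part with the integral
masses of the items** (no loss of logarithms).

* `Wv`, `nxt0C_wv` : weighted moves of the two sides of the cross walk;
* `im D t A q` : integral mass of the item `q` (pieces in `A`); `Wv.im_le`;
* `lX`, `PhX`, `PSup_X` : `[column] cf η(rg p) m m'` has the potential
  `(cf η(rg p) + ∑_{l missed} η(rg l) + ∑_{k < rg p} η k) m m'`;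
* `mg_loc2`, `shr_bound2` : merges at one state / of the walk;
* `RB_im` : radius and integral mass of one item at a node.
-/

set_option autoImplicit false
set_option linter.unusedSectionVars false
set_option linter.unusedVariables false
open Finset

namespace Crest.Agent.R4P.MgMass34

open Crest.Agent.R4.HVW560 Crest.Agent.R4P.AvgItem710
open Crest.Agent.R4.Tour104 Crest.Agent.R4.Tour758 Crest.Agent.R4.Avg758 Crest.Agent.R4.Clos758
open Crest.Agent.R4.ClosL758 Crest.Agent.R4.ClosG758 Crest.Agent.R4.ClosR758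
open Crest.Agent.R4P.Cnt588 Crest.Agent.R4P.Walk560 Crest.Agent.R4P.Item758
open Crest.Agent.R4P.Bld532 (NS All NodeOk Bk dv nd mem_dv mem_nd)
open Crest.Agent.R4P.GSt927 Crest.Agent.R4P.WalkIT579 Crest.Agent.R4P.NMW710
open Crest.Agent.R4P.CrossLoc25 Crest.Agent.R4P.CrossLocC25 Crest.Agent.R4P.WalkC
open Crest.Agent.R4P.YI25 Crest.Agent.R4P.ShrW34 Crest.Agent.R4P.Blks29
open Crest.Agent.R4P.GInst194 (mI)
open Crest.Agent.R4P.OSFin710 (OB)
open Crest.Agent.R4P.VItem34 (meI meI_eq MX_meI)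
open Crest.Agent.R4P.Res927 (IM WN)
open Crest.Agent.R4.DeepSt579 (tq tq_nonneg tq_le_one rd)

/-! ### weighted moves -/

section mv
variable {Λ κ : Type*}

/-- **weighted moves of one side** -/
inductive Wv (p : ℕ) (t : DT Λ κ) : ℝ → DT Λ κ → Prop
  | stay : Wv p t 1 t
  | br1 {w : ℝ} {r : Λ → κ} {t₁ t₀ : DT Λ κ} {v : Λ → ℝ → ℝ} {B G : κ → ℝ → ℝ}
      (h : vw p t = .br w r t₁ t₀ v B G) : Wv p t (1 - w) t₁
  | br0 {w : ℝ} {r : Λ → κ} {t₁ t₀ : DT Λ κ} {v : Λ → ℝ → ℝ} {B G : κ → ℝ → ℝ}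
      (h : vw p t = .br w r t₁ t₀ v B G) : Wv p t w t₀
  | ad1 {r : Λ → κ} {t₁ t₀ : DT Λ κ} (h : vw p t = .add r t₁ t₀) : Wv p t 1 t₁
  | ad0 {r : Λ → κ} {t₁ t₀ : DT Λ κ} (h : vw p t = .add r t₁ t₀) : Wv p t 1 t₀
  | up {Sp : Finset Λ} {u : DT Λ κ} (h : vw p t = .up Sp u) : Wv p t 1 u

variable [Fintype Λ] [DecidableEq Λ] [DecidableEq κ] [WRel κ]

set_option maxHeartbeats 1000000 in
/-- **the moves of the cross walk with their weights** -/
theorem nxt0C_wv {stp : St Λ κ → Prop} (s : St Λ κ) : ∀ q ∈ nxt0C stp s,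
    ∃ a a' : ℝ, q.1 = a * a' ∧ Wv s.p s.t a q.2.t ∧ Wv s.p s.t' a' q.2.t' ∧ q.2.A ⊆ s.A ∧
      q.2.A' ⊆ s.A' := by
  intro q hq
  unfold nxt0C at hq
  by_cases h1 : s.t.isLeaf ∧ s.t'.isLeaf
  · simp [h1] at hq
  by_cases h2 : stp s
  · simp [h1, h2] at hq
  rw [if_neg h1, if_neg h2] at hq
  by_cases hPL : s.isPL
  · rw [if_pos hPL] at hq
    obtain ⟨w, r, t₁, t₀, v, B, G, hv, et, ⟨-, e⟩ | ⟨-, -, e⟩⟩ := St.isPL_cases hPL <;>
    · rw [e] at hq
      simp only [List.mem_cons, List.not_mem_nil, or_false] at hq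
      rcases hq with rfl | rfl
      · exact ⟨1 - w, 1, (mul_one _).symm, .br1 hv, .stay, subset_rfl, subset_rfl⟩
      · exact ⟨w, 1, (mul_one _).symm, .br0 hv, .stay, subset_rfl, subset_rfl⟩
  by_cases hPR : s.isPR
  · rw [if_neg hPL, if_pos hPR] at hq
    obtain ⟨w, r, t₁, t₀, v, B, G, hv, et, ⟨-, e⟩ | ⟨-, -, e⟩⟩ := St.isPR_cases hPR <;>
    · rw [e] at hq
      simp only [List.mem_cons, List.not_mem_nil, or_false] at hq
      rcases hq with rfl | rfl
      · exact ⟨1, 1 - w, (one_mul _).symm, .stay, .br1 hv, subset_rfl, subset_rfl⟩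
      · exact ⟨1, w, (one_mul _).symm, .stay, .br0 hv, subset_rfl, subset_rfl⟩
  rw [if_neg hPL, if_neg hPR] at hq
  rcases hv : vw s.p s.t with ⟨w, r, t₁, t₀, v, B, G⟩ | ⟨r, t₁, t₀⟩ | ⟨Sp, u⟩ <;>
  rcases hv' : vw s.p s.t' with ⟨w', r', t₁', t₀', v', B', G'⟩ | ⟨r', t₁', t₀'⟩ | ⟨Sp', u'⟩ <;>
  simp only [hv, hv'] at hq
  · simp only [List.mem_cons, List.not_mem_nil, or_false] at hq
    rcases hq with rfl | rfl | rfl
    · exact ⟨_, _, rfl, .br1 hv, .br1 hv', subset_rfl, subset_rfl⟩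
    · exact ⟨_, _, rfl, .br1 hv, .br0 hv', subset_rfl, subset_rfl⟩
    · exact ⟨_, _, rfl, .br0 hv, .br1 hv', subset_rfl, subset_rfl⟩
  · simp only [List.mem_cons, List.not_mem_nil, or_false] at hq
    rcases hq with rfl | rfl
    · exact ⟨1, 1, (one_mul _).symm, .stay, .ad1 hv', subset_rfl, subset_rfl⟩
    · exact ⟨1, 1, (one_mul _).symm, .stay, .ad0 hv', subset_rfl, subset_rfl⟩
  · split_ifs at hq <;> simp only [List.mem_cons, List.not_mem_nil, or_false] at hq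
    · subst hq
      exact ⟨1 - w, 1, (mul_one _).symm, .br1 hv, .up hv', subset_rfl, subset_rfl⟩
    · rcases hq with rfl | rfl | rfl
      · exact ⟨1 - w, 1, (mul_one _).symm, .br1 hv, .up hv', subset_rfl, Finset.inter_subset_left⟩
      · exact ⟨w, 1, (mul_one _).symm, .br0 hv, .up hv', subset_rfl, Finset.inter_subset_left⟩
      · exact ⟨1 - w, 1, (mul_one _).symm, .br1 hv, .up hv', subset_rfl, Finset.sdiff_subset⟩
  · simp only [List.mem_cons, List.not_mem_nil, or_false] at hq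
    rcases hq with rfl | rfl
    · exact ⟨1, 1, (one_mul _).symm, .ad1 hv, .stay, subset_rfl, subset_rfl⟩
    · exact ⟨1, 1, (one_mul _).symm, .ad0 hv, .stay, subset_rfl, subset_rfl⟩
  · simp only [List.mem_cons, List.not_mem_nil, or_false] at hq
    rcases hq with rfl | rfl
    · exact ⟨1, 1, (one_mul _).symm, .ad1 hv, .stay, subset_rfl, subset_rfl⟩
    · exact ⟨1, 1, (one_mul _).symm, .ad0 hv, .stay, subset_rfl, subset_rfl⟩
  · simp only [List.mem_cons, List.not_mem_nil, or_false] at hq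
    rcases hq with rfl | rfl
    · exact ⟨1, 1, (one_mul _).symm, .ad1 hv, .stay, subset_rfl, subset_rfl⟩
    · exact ⟨1, 1, (one_mul _).symm, .ad0 hv, .stay, subset_rfl, subset_rfl⟩
  · split_ifs at hq <;> simp only [List.mem_cons, List.not_mem_nil, or_false] at hq
    · subst hq
      exact ⟨1, 1 - w', (one_mul _).symm, .up hv, .br1 hv', subset_rfl, subset_rfl⟩
    · rcases hq with rfl | rfl | rfl
      · exact ⟨1, 1 - w', (one_mul _).symm, .up hv, .br1 hv', Finset.inter_subset_left, subset_rfl⟩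
      · exact ⟨1, w', (one_mul _).symm, .up hv, .br0 hv', Finset.inter_subset_left, subset_rfl⟩
      · exact ⟨1, 1 - w', (one_mul _).symm, .up hv, .br1 hv', Finset.sdiff_subset, subset_rfl⟩
  · simp only [List.mem_cons, List.not_mem_nil, or_false] at hq
    rcases hq with rfl | rfl
    · exact ⟨1, 1, (one_mul _).symm, .stay, .ad1 hv', subset_rfl, subset_rfl⟩
    · exact ⟨1, 1, (one_mul _).symm, .stay, .ad0 hv', subset_rfl, subset_rfl⟩
  · simp only [List.mem_cons, List.not_mem_nil, or_false] at hq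
    subst hq
    exact ⟨1, 1, (one_mul _).symm, .up hv, .up hv', subset_rfl, subset_rfl⟩

end mv

/-! ### item masses along a move -/

variable {Λ κ : Type*} [Fintype Λ] [DecidableEq Λ] [Fintype κ] [DecidableEq κ] [WRel κ]
  {D : Par Λ κ} {sp : ℕ → Finset Λ} {P : Bld532.Par} {W : ℕ → ℝ} {Qp : NS → IT → Prop}
  {Al : Finset ℕ} {RP : Finset (Λ × Λ) → Prop}

/-- the masses of the pieces along a weighted move -/
lemma Wv.mass {dv : DT Λ κ → Λ → Prop} {p : ℕ} {t c : DT Λ κ} {a : ℝ} (h : Wv p t a c)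
    (ht : t.All (IM dv mI)) : 0 ≤ a ∧ (∀ j, a * mI c j ≤ mI t j) ∧ c.All (IM dv mI) := by
  cases h with
  | stay => exact ⟨zero_le_one, fun j => (one_mul _).le, ht⟩
  | br1 h =>
    rename_i w r t₀ v B G
    have e := vw_br h
    subst e
    have hs := ht.1
    have hw : w = 0 ∨ (0 < w ∧ w < 1 ∧ w ≤ 1 / (p : ℝ)) := hs.wn
    have hw1 : 0 ≤ 1 - w := by rcases hw with h | ⟨h1, h2, -⟩ <;> linarith
    refine ⟨hw1, fun j => ?_, ht.2.1⟩
    by_cases hd : dv (.br p w r c t₀ v B G) j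
    · exact ((hs.st j).1 hd).2
    · rw [((hs.st j).2 hd).1, mul_zero]
      exact hs.nn j
  | br0 h =>
    rename_i r t₁ v B G
    have e := vw_br h
    subst e
    have hs := ht.1
    have hw : a = 0 ∨ (0 < a ∧ a < 1 ∧ a ≤ 1 / (p : ℝ)) := hs.wn
    have hw0 : 0 ≤ a := by rcases hw with h | ⟨h1, h2, -⟩ <;> linarith
    refine ⟨hw0, fun j => ?_, ht.2.2⟩
    by_cases hd : dv (.br p a r t₁ c v B G) j
    · rw [((hs.st j).1 hd).1, mul_zero]
      exact hs.nn j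
    · exact ((hs.st j).2 hd).2
  | ad1 h =>
    rename_i r t₀
    have e := vw_add h
    subst e
    have hs := ht.1
    refine ⟨zero_le_one, fun j => ?_, ht.2.1⟩
    rw [one_mul]
    by_cases hd : dv (.add p r c t₀) j
    · exact ((hs.st j).1 hd).2
    · rw [((hs.st j).2 hd).1]
      exact hs.nn j
  | ad0 h =>
    rename_i r t₁
    have e := vw_add h
    subst e
    have hs := ht.1
    refine ⟨zero_le_one, fun j => ?_, ht.2.2⟩
    rw [one_mul]
    by_cases hd : dv (.add p r t₁ c) j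
    · rw [((hs.st j).1 hd).1]
      exact hs.nn j
    · exact ((hs.st j).2 hd).2
  | up h =>
    refine ⟨zero_le_one, fun j => ?_, ?_⟩
    · rw [one_mul]
      exact Res927.vw_up_m h ht.self j
    · rcases vw_up h with rfl | ⟨-, rfl, -⟩
      · exact ht.2
      · exact ht

open Classical in
/-- **integral mass of an item** -/
noncomputable def im (D : Par Λ κ) (t : DT Λ κ) (A : Finset Λ) (q : ℕ) : ℝ :=
  ∑ j ∈ A.filter (fun j => D.it j = q), mI t j

lemma im_nonneg {t : DT Λ κ} (h : ∀ j, 0 ≤ mI t j) (A : Finset Λ) (q : ℕ) : 0 ≤ im D t A q :=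
  Finset.sum_nonneg fun j _ => h j

/-- **item masses along a weighted move** -/
lemma Wv.im_le {dv : DT Λ κ → Λ → Prop} {p : ℕ} {t c : DT Λ κ} {a : ℝ} (h : Wv p t a c)
    (ht : t.All (IM dv mI)) {A A₁ : Finset Λ} (hA : A₁ ⊆ A) (q : ℕ) :
    a * im D c A₁ q ≤ im D t A q := by
  obtain ⟨h0, h1, h2⟩ := h.mass ht
  unfold im
  rw [Finset.mul_sum]
  exact (Finset.sum_le_sum fun j _ => h1 j).trans
    (Finset.sum_le_sum_of_subset_of_nonneg (Finset.filter_subset_filter _ hA)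
      fun j _ _ => ht.self.nn j)

/-- the sum of the item masses -/
lemma sum_im_le {t : DT Λ κ} (h : ∀ j, 0 ≤ mI t j) (A : Finset Λ) (V : Finset ℕ) :
    ∑ q ∈ V, im D t A q ≤ ∑ j ∈ A, mI t j := by
  classical
  unfold im
  have h2 := Finset.sum_fiberwise_of_maps_to (s := A.filter fun j => D.it j ∈ V)
    (t := V) (g := D.it) (fun j hj => (Finset.mem_filter.1 hj).2) (f := fun j => mI t j)
  have h3 : ∑ q ∈ V, ∑ j ∈ A.filter (fun j => D.it j = q), mI t j =
      ∑ q ∈ V, ∑ j ∈ (A.filter fun j => D.it j ∈ V).filter (fun j => D.it j = q), mI t j := by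
    refine Finset.sum_congr rfl fun q hq => ?_
    rw [Finset.filter_filter]
    refine Finset.sum_congr ?_ fun _ _ => rfl
    refine Finset.filter_congr fun j _ => ?_
    constructor
    · rintro rfl; exact ⟨hq, rfl⟩
    · exact fun h => h.2
  rw [h3, h2]
  exact Finset.sum_le_sum_of_subset_of_nonneg (Finset.filter_subset _ _) fun j _ _ => h j

/-- the trees of a state have item masses -/
lemma sy_im {u : NS} {τ : IT} {A : Finset Λ} {d : DT Λ κ} (hab : ∀ j, D.al j ≤ D.be j)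
    (h : SY D sp Qp u τ A d) : d.All (IM (IMI194.dvM mI) mI) := by
  rw [h.S.eq]
  exact IMI194.IM_toDT hab τ u.B u.A u.n h.S.hb h.ok h.S.hF h.S.hW

/-- product of the item masses of a pair at a state -/
noncomputable def mm (D : Par Λ κ) (s : St Λ κ) (e : ℕ × ℕ) : ℝ :=
  im D s.t s.A e.1 * im D s.t' s.A' e.2

lemma mm_nonneg (hab : ∀ j, D.al j ≤ D.be j) {s : St Λ κ} {u u' : NS} {τ τ' : IT}
    (h : YI D sp Qp RP s u u' τ τ') (e : ℕ × ℕ) : 0 ≤ mm D s e :=
  mul_nonneg (im_nonneg (sy_im hab h.L).self.nn _ _) (im_nonneg (sy_im hab h.R).self.nn _ _)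

/-- the products of the item masses along a step -/
lemma mm_step (hab : ∀ j, D.al j ≤ D.be j) {stp : St Λ κ → Prop} {s : St Λ κ} {u u' : NS}
    {τ τ' : IT} (h : YI D sp Qp RP s u u' τ τ') {q : ℝ × St Λ κ} (hq : q ∈ nxt0C stp s)
    (e : ℕ × ℕ) : q.1 * mm D q.2 e ≤ mm D s e := by
  obtain ⟨a, a', e1, w1, w2, hA, hA'⟩ := nxt0C_wv s q hq
  have iL := sy_im hab h.L
  have iR := sy_im hab h.R
  obtain ⟨a0, -, c1⟩ := w1.mass iL
  obtain ⟨a0', -, c2⟩ := w2.mass iR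
  have k1 := w1.im_le (D := D) iL hA e.1
  have k2 := w2.im_le (D := D) iR hA' e.2
  unfold mm
  rw [e1]
  calc a * a' * (im D q.2.t q.2.A e.1 * im D q.2.t' q.2.A' e.2) =
      (a * im D q.2.t q.2.A e.1) * (a' * im D q.2.t' q.2.A' e.2) := by ring
    _ ≤ _ := mul_le_mul k1 k2 (mul_nonneg a0' (im_nonneg c2.self.nn _ _))
        (im_nonneg iL.self.nn _ _)

/-! ### the product part of the merges -/

open Classical in
/-- product part of what a pair of items pays for its merges at a state -/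
noncomputable def lX (D : Par Λ κ) (rg : ℕ → ℕ) (η : ℕ → ℝ) (stp : St Λ κ → Prop)
    (s : St Λ κ) (u u' : NS) (τ τ' : IT) (e : ℕ × ℕ) : ℝ :=
  if BrV stp s then cf D s e * η (rg s.p) * mm D s e else 0

/-- potential of the product part -/
noncomputable def PhX (D : Par Λ κ) (mtt : ℕ → Finset ℕ) (rg : ℕ → ℕ) (η : ℕ → ℝ)
    (s : St Λ κ) (u u' : NS) (τ τ' : IT) (e : ℕ × ℕ) : ℝ :=
  (cf D s e * η (rg s.p) + fut mtt rg η s.p e) * mm D s e

/-- **the product part: the pair supersolution** -/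
theorem PSup_X (hab : ∀ j, D.al j ≤ D.be j) (hh : YH D sp P W Qp) {mtt : ℕ → Finset ℕ}
    {rg : ℕ → ℕ} (hx : IX D mtt rg)
    {η : ℕ → ℝ} (hη : ∀ k, 0 ≤ η k) (stp : St Λ κ → Prop)
    (Iv : St Λ κ → NS → NS → IT → IT → Prop) :
    PSup D Al sp Qp RP stp Iv (lX D rg η stp) (PhX D mtt rg η) where
  le := by
    intro s u u' τ τ' _ h e _
    have hm := mm_nonneg hab h e
    have hf := fut_nonneg (mtt := mtt) (rg := rg) hη s.p e
    have hc := mul_nonneg (cf_nonneg (D := D) s e) (hη (rg s.p))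
    unfold lX PhX
    split_ifs
    · exact mul_le_mul_of_nonneg_right (by linarith) hm
    · exact mul_nonneg (by linarith) hm
  step := by
    intro s u u' τ τ' hI h hpp hs c hc hch hact e he
    have hc0 := (mem_nxtC.1 hc).1
    have hp := child_p_le h hpp hc0
    obtain ⟨k1, k2⟩ := cf_step hx hη hp e
    have hX : 0 ≤ cf D c.s e * η (rg c.s.p) + fut mtt rg η c.s.p e :=
      add_nonneg (mul_nonneg (cf_nonneg _ _) (hη _)) (fut_nonneg hη _ _)
    have hw : c.w * mm D c.s e ≤ mm D s e := mm_step hab h hc0 e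
    have hw' := mul_le_mul_of_nonneg_left hw hX
    have hm := mm_nonneg hab h e
    unfold PhX lX
    split_ifs with hb
    · have hR := (brv_rho hh h hb).2 _ hc0
      have := mul_le_mul_of_nonneg_right (k1 hR) hm
      simp only at hw' this ⊢
      nlinarith
    · have hR := (not_brv hb).2 _ hc0
      have := mul_le_mul_of_nonneg_right (k2 hR) hm
      simp only at hw' this ⊢
      nlinarith

/-- **merges at one state**: product part and pair part -/
theorem mg_loc2 (hab : ∀ j, D.al j ≤ D.be j) (hh : YH D sp P W Qp)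
    (hdead : ∀ j, D.it j ∉ Al → ∀ a, D.om j a = 0)
    {rg : ℕ → ℕ} {η : ℕ → ℝ} (hη : ∀ k, 0 ≤ η k) {V : ℝ × ℝ → ℕ × ℕ → ℝ} (hV : ∀ s e, 0 ≤ V s e)
    {stp : St Λ κ → Prop} {s : St Λ κ} {u u' : NS} {τ τ' : IT} (h : YI D sp Qp RP s u u' τ τ')
    (hpair : BrV stp s → ∀ e ∈ Ep D Al s τ τ',
      e ∈ D.PE (s.R \ Ro (D.rho s.p)) (D.uA s.M u.B u.A τ s.A 1) (D.uA s.M' u'.B u'.A τ' s.A' 1) →
      D.iF (s.R \ Ro (D.rho s.p)) (D.uA s.M u.B u.A τ s.A 1) (D.uA s.M' u'.B u'.A τ' s.A' 1) e ≤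
        η (rg s.p) * mm D s e + ((u.B : ℝ) * u'.B) * V (SE s.M u.B u.A s.M' u'.B u'.A e) e) :
    eSHRC stp s ≤ ∑ e ∈ Ep D Al s τ τ', (lX D rg η stp s u u' τ τ' e +
      lM D rg (fun _ => V) stp s u u' τ τ' e) := by
  have hnn : ∀ e, 0 ≤ lX D rg η stp s u u' τ τ' e + lM D rg (fun _ => V) stp s u u' τ τ' e := by
    intro e
    refine add_nonneg ?_ (lM_nonneg (fun _ => hV) stp s u u' τ τ' e)
    unfold lX
    split_ifs
    · exact mul_nonneg (mul_nonneg (cf_nonneg _ _) (hη _)) (mm_nonneg hab h e)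
    · exact le_rfl
  by_cases hb : BrV stp s
  swap
  · rw [(not_brv hb).1]
    exact Finset.sum_nonneg fun e _ => hnn e
  rw [(brv_rho hh h hb).1]
  have hst := h.st
  have e1 : Qs { s with R := s.R \ Ro (D.rho s.p) } =
      Q (s.R \ Ro (D.rho s.p)) (D.uA s.M u.B u.A τ s.A 1) (D.uA s.M' u'.B u'.A τ' s.A' 1) :=
    Qs_Q (s := { s with R := s.R \ Ro (D.rho s.p) }) ⟨hst.L, hst.R, hst.M0, hst.M0'⟩
  rw [e1, D.Q_eq]
  have hsub := PE_sub hdead h.mL.pos h.mR.pos h.L.S.hb h.R.S.hb h.L.S.hF h.R.S.hF h.L.S.hW h.R.S.hW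
    (one_dvd _) (one_dvd _) (s.R \ Ro (D.rho s.p)) s.A s.A'
  refine le_trans (Finset.sum_le_sum fun e he => ?_)
    (Finset.sum_le_sum_of_subset_of_nonneg hsub fun e _ _ => hnn e)
  have h1 := hpair hb e (hsub he) he
  have hcf : ShrW34.cf D s e = 1 := by
    unfold ShrW34.cf
    rw [if_neg]
    intro hcl
    obtain ⟨j, j', hR, -, -, hj, hj', -⟩ := Par.PE_ex h.mL.pos h.mR.pos he
    rw [Finset.mem_sdiff] at hR
    exact hR.2 (hcl j j' hj hj' hR.1)
  unfold lX lM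
  rw [if_pos hb, if_pos hb, hcf, one_mul, one_mul]
  exact h1

/-- **merges of a cross walk** -/
theorem shr_bound2 (hab : ∀ j, D.al j ≤ D.be j) (hh : YH D sp P W Qp) (hRP : ∀ l, RP (Ro (D.rho l)))
    (hdead : ∀ j, D.it j ∉ Al → ∀ a, D.om j a = 0)
    {mtt : ℕ → Finset ℕ} {rg : ℕ → ℕ} (hx : IX D mtt rg)
    {η : ℕ → ℝ} (hη : ∀ k, 0 ≤ η k) {V : ℝ × ℝ → ℕ × ℕ → ℝ} (hV : ∀ s e, 0 ≤ V s e)
    {stp : St Λ κ → Prop} {Iv : St Λ κ → NS → NS → IT → IT → Prop}
    (hIv : ∀ s u u' τ τ', Iv s u u' τ τ' → YI D sp Qp RP s u u' τ τ' → ∀ c : CR Λ κ,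
      (c.w, c.s) ∈ nxtC stp s → Chd D Al sp Qp RP s.p s u u' τ τ' c → Iv c.s c.v c.v' c.σ c.σ')
    (hpair : ∀ s u u' τ τ', Iv s u u' τ τ' → YI D sp Qp RP s u u' τ τ' → BrV stp s →
      ∀ e ∈ Ep D Al s τ τ',
      e ∈ D.PE (s.R \ Ro (D.rho s.p)) (D.uA s.M u.B u.A τ s.A 1) (D.uA s.M' u'.B u'.A τ' s.A' 1) →
      D.iF (s.R \ Ro (D.rho s.p)) (D.uA s.M u.B u.A τ s.A 1) (D.uA s.M' u'.B u'.A τ' s.A' 1) e ≤
        η (rg s.p) * mm D s e + ((u.B : ℝ) * u'.B) * V (SE s.M u.B u.A s.M' u'.B u'.A e) e)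
    {s : St Λ κ} {u u' : NS} {τ τ' : IT} (hI : Iv s u u' τ τ') (h : YI D sp Qp RP s u u' τ τ') :
    WC stp (eSHRC stp) s ≤ ∑ e ∈ Ep D Al s τ τ', (PhX D mtt rg η s u u' τ τ' e +
      PhiM D mtt rg (fun _ => V) s u u' τ τ' e) := by
  have hS := (PSup_X (RP := RP) (Al := Al) hab hh hx hη stp Iv).add
    (PSup_mg hh hx (U := fun _ => V) (fun _ => hV) stp Iv)
  have := pair_bound (loc := eSHRC stp) (G := fun _ => 0) hh hRP hIv hS
    (fun s u u' τ τ' hI h => by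
      rw [zero_add]
      exact mg_loc2 hab hh hdead hη hV h (hpair s u u' τ τ' hI h)) hI h
  rw [WC_zero, zero_add] at this
  exact this

/-- **the value of the product part at a state** -/
theorem sum_PhX_le (hab : ∀ j, D.al j ≤ D.be j) {mtt : ℕ → Finset ℕ} {rg : ℕ → ℕ} {η : ℕ → ℝ}
    (hη : ∀ k, 0 ≤ η k) {E : ℝ} (hE : 0 ≤ E) {s : St Λ κ} {u u' : NS} {τ τ' : IT}
    (h : YI D sp Qp RP s u u' τ τ')
    (h1 : ∀ e ∈ Ep D Al s τ τ', η (rg s.p) + ∑ l ∈ mb mtt s.p e.1, η (rg l) +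
      ∑ l ∈ mb mtt s.p e.2, η (rg l) + ∑ k ∈ Finset.range (rg s.p), η k ≤ E) :
    ∑ e ∈ Ep D Al s τ τ', PhX D mtt rg η s u u' τ τ' e ≤
      E * ((∑ j ∈ s.A, mI s.t j) * ∑ j ∈ s.A', mI s.t' j) := by
  have iL := (sy_im hab h.L).self.nn
  have iR := (sy_im hab h.R).self.nn
  have k1 : ∀ e ∈ Ep D Al s τ τ', PhX D mtt rg η s u u' τ τ' e ≤ E * mm D s e := by
    intro e he
    unfold PhX
    refine mul_le_mul_of_nonneg_right ?_ (mm_nonneg hab h e)
    have c1 := mul_le_mul_of_nonneg_right (cf_le_one (D := D) s e) (hη (rg s.p))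
    have := h1 e he
    unfold fut
    linarith
  refine (Finset.sum_le_sum k1).trans ?_
  rw [← Finset.mul_sum]
  refine mul_le_mul_of_nonneg_left ?_ hE
  have e1 : ∑ e ∈ Ep D Al s τ τ', mm D s e =
      (∑ q ∈ Qi D Al τ s.A, im D s.t s.A q) * ∑ r ∈ Qi D Al τ' s.A', im D s.t' s.A' r := by
    rw [Finset.sum_mul_sum, Finset.sum_product]
    rfl
  rw [e1]
  exact mul_le_mul (sum_im_le iL _ _) (sum_im_le iR _ _)
    (Finset.sum_nonneg fun r _ => im_nonneg iR _ _) (Finset.sum_nonneg fun j _ => iL j)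

/-- the value of the pair part at a state -/
theorem sum_PhiM_V {mtt : ℕ → Finset ℕ} {rg : ℕ → ℕ} {V : ℝ × ℝ → ℕ × ℕ → ℝ}
    (hV : ∀ s e, 0 ≤ V s e) {N : ℝ} {s : St Λ κ} {u u' : NS} {τ τ' : IT}
    (h2 : ∀ e ∈ Ep D Al s τ τ',
      1 + ((mb mtt s.p e.1).card : ℝ) + (mb mtt s.p e.2).card + rg s.p ≤ N) :
    ∑ e ∈ Ep D Al s τ τ', PhiM D mtt rg (fun _ => V) s u u' τ τ' e ≤
      N * ∑ e ∈ Ep D Al s τ τ', ((u.B : ℝ) * u'.B) * V (SE s.M u.B u.A s.M' u'.B u'.A e) e := by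
  rw [Finset.mul_sum]
  refine Finset.sum_le_sum fun e he => ?_
  have hb : (0:ℝ) ≤ (u.B : ℝ) * u'.B := by positivity
  have hv := hV (SE s.M u.B u.A s.M' u'.B u'.A e) e
  have c1 := mul_le_mul_of_nonneg_right (cf_le_one (D := D) s e) hv
  have e3 := mul_le_mul_of_nonneg_right (h2 e he) hv
  unfold PhiM fut
  simp only [Finset.sum_const, Finset.card_range, nsmul_eq_mul]
  have key : cf D s e * V (SE s.M u.B u.A s.M' u'.B u'.A e) e +
      (((mb mtt s.p e.1).card : ℝ) * V (SE s.M u.B u.A s.M' u'.B u'.A e) e +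
        ((mb mtt s.p e.2).card : ℝ) * V (SE s.M u.B u.A s.M' u'.B u'.A e) e +
        (rg s.p : ℝ) * V (SE s.M u.B u.A s.M' u'.B u'.A e) e) ≤
      N * V (SE s.M u.B u.A s.M' u'.B u'.A e) e := by linarith
  have := mul_le_mul_of_nonneg_left key hb
  calc _ ≤ _ := this
    _ = _ := by ring

/-! ### radius and integral mass of one item -/

variable {ρ : ℕ → ℝ} {U : ℕ → Finset ℕ} {CL c₀ : ℝ} {p0 : ℕ}

/-- **radius and integral mass of an item at a node** -/
theorem RB_im (hI : IH D ρ Al CL c₀) {u : NS} {τ : IT} {A : Finset Λ} {d : DT Λ κ}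
    (hO : OB D Al P W U CL c₀ p0 u τ) (h : SideI D sp u.B u.A τ A d) (hil : IL D.it A) {p : ℕ}
    (hp0 : p0 ≤ p) (hp : ∀ r : ℕ, r.Prime → r < u.n → r ≤ p) {q : ℕ} (hq : q ∈ Qi D Al τ A) :
    (u.B : ℝ) * ρ q ≤ CL * Real.log p / c₀ * im D d A q := by
  classical
  have hlog : 0 ≤ CL * Real.log p := mul_nonneg hI.CL0 (Real.log_natCast_nonneg p)
  have hρ := hI.rad.pos
  have key := ColW710.mass_node (f := fun r => if r = q then 1 else 0) hI.ab h hI.c0 hO.ph hO.mean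
    hI.full hil (ColW710.mI_nn h) (fun r => by split_ifs <;> norm_num)
  have e1 : ∑ r ∈ Qi D Al τ A, (if r = q then (1:ℝ) else 0) * (rd u.B 1 ρ r * tq (r / u.A)) =
      rd u.B 1 ρ q * tq (q / u.A) := by
    rw [Finset.sum_eq_single q]
    · rw [if_pos rfl, one_mul]
    · intro r _ hr; rw [if_neg hr, zero_mul]
    · intro h; exact absurd hq h
  have e2 : ∑ j ∈ A.filter (fun j => D.it j ∈ τ.items), (if D.it j = q then (1:ℝ) else 0) * mI d j ≤
      im D d A q := by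
    have h1 : ∀ j ∈ A.filter (fun j => D.it j ∈ τ.items),
        (if D.it j = q then (1:ℝ) else 0) * mI d j = if D.it j = q then mI d j else 0 := by
      intro j _
      split_ifs <;> simp
    rw [Finset.sum_congr rfl h1, ← Finset.sum_filter]
    unfold im
    refine Finset.sum_le_sum_of_subset_of_nonneg ?_ fun j _ _ => ColW710.mI_nn h j
    intro j hj
    rw [Finset.mem_filter, Finset.mem_filter] at hj
    exact Finset.mem_filter.2 ⟨hj.1.1, hj.2⟩
  rw [e1] at key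
  obtain ⟨h2, h3, -⟩ := mem_Qi.1 hq
  have h4 := mul_le_mul_of_nonneg_left (hO.lg p hp0 hp q h3 h2)
    (mul_nonneg (Nat.cast_nonneg u.B : (0 : ℝ) ≤ u.B) (hρ q).le)
  rw [ColW710.rd_one] at key
  have h5 : 1 / c₀ * ∑ j ∈ A.filter (fun j => D.it j ∈ τ.items),
      (if D.it j = q then (1:ℝ) else 0) * mI d j ≤ 1 / c₀ * im D d A q :=
    mul_le_mul_of_nonneg_left e2 (one_div_nonneg.2 hI.c0.le)
  have h6 := mul_le_mul_of_nonneg_left (key.trans h5) hlog
  calc (u.B : ℝ) * ρ q ≤ CL * Real.log p * ((u.B : ℝ) * ρ q * tq (q / u.A)) := by linarith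
    _ ≤ CL * Real.log p * (1 / c₀ * im D d A q) := h6
    _ = _ := by ring

end Crest.Agent.R4P.MgMass34
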