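import Mathlib

/-!
R4 (S0004) with powers, group [W-eSHR], helper16: **the gain of the truncated min-kernel controls the
missing parts at one dyadic height** (helper34 #18636 (2), helper51 #19376).

* `gk c a b a' b' = max 0 (min (b, b', c)² - max (a, a')²)`: closed form of
  `∫₀ᶜ 2t 1[a < t ≤ b] 1[a' < t ≤ b'] dt`.
* `gs_int`: for finitely many weighted pairs `∫₀ᶜ 2t (Σ mᵢ 1[aᵢ < t ≤ bᵢ])² dt = Σᵢ Σⱼ mᵢ mⱼ gk c ..`.
* `win_le`: `(Σ mᵢ (bᵢ - aᵢ)⁺ 1[v ≤ bᵢ < 2v])² ≤ 13 Σᵢ Σⱼ mᵢ mⱼ gk (2v) ..`.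
-/

set_option autoImplicit false
open MeasureTheory Set intervalIntegral

namespace Crest.Agent.R4P.Mink16

/-- indicator of `(a, b]` -/
noncomputable def ind (a b t : ℝ) : ℝ := (Ioc a b).indicator (fun _ => (1 : ℝ)) t

/-- closed form of `∫₀ᶜ 2t 1[a < t ≤ b] 1[a' < t ≤ b'] dt` for nonnegative `a`, `a'` -/
noncomputable def gk (c a b a' b' : ℝ) : ℝ := max 0 (min (min b b') c ^ 2 - max a a' ^ 2)

lemma ind_nonneg (a b t : ℝ) : 0 ≤ ind a b t := by
  unfold ind; exact indicator_nonneg (fun _ _ => zero_le_one) t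

lemma ind_le_one (a b t : ℝ) : ind a b t ≤ 1 := by
  unfold ind; exact indicator_le_self' (fun _ _ => zero_le_one) t |>.trans le_rfl

lemma ind_eq (a b t : ℝ) : ind a b t = if a < t ∧ t ≤ b then 1 else 0 := by
  unfold ind; simp only [indicator, mem_Ioc]

lemma ind_one {a b t : ℝ} (h1 : a < t) (h2 : t ≤ b) : ind a b t = 1 := by
  rw [ind_eq, if_pos ⟨h1, h2⟩]

lemma ind_mul (a b a' b' t : ℝ) : ind a b t * ind a' b' t = ind (max a a') (min b b') t := by
  simp only [ind_eq, max_lt_iff, le_min_iff]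
  by_cases h1 : a < t <;> by_cases h2 : t ≤ b <;> by_cases h3 : a' < t <;> by_cases h4 : t ≤ b' <;>
    simp [h1, h2, h3, h4]

lemma ind_meas (a b : ℝ) : Measurable (ind a b) := by
  unfold ind; exact measurable_const.indicator measurableSet_Ioc

/-- a bounded measurable function is interval integrable -/
lemma ii_of_bdd {f : ℝ → ℝ} (hm : Measurable f) {C : ℝ} {u w : ℝ}
    (hC : ∀ t ∈ uIoc u w, |f t| ≤ C) : IntervalIntegrable f volume u w := by
  rw [intervalIntegrable_iff]
  refine Measure.integrableOn_of_bounded (M := C) ?_ hm.aestronglyMeasurable ?_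
  · exact measure_Ioc_lt_top.ne
  · exact (ae_restrict_iff' measurableSet_uIoc).2 (Filter.Eventually.of_forall fun t ht => hC t ht)

/-- the integral of `2t` over a strip -/
lemma int_ind {a b c : ℝ} (ha : 0 ≤ a) (hb : 0 ≤ b) (hc : 0 ≤ c) :
    ∫ t in (0 : ℝ)..c, 2 * t * ind a b t = max 0 (min b c ^ 2 - a ^ 2) := by
  rw [integral_of_le hc]
  have e1 : (fun t => 2 * t * ind a b t) = (Ioc a b).indicator fun t => 2 * t := by
    funext t
    unfold ind
    by_cases h : t ∈ Ioc a b <;> simp [h]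
  rw [e1, setIntegral_indicator measurableSet_Ioc]
  rcases le_or_gt a (min b c) with h | h
  · have e2 : Ioc 0 c ∩ Ioc a b = Ioc a (min b c) := by
      rw [Ioc_inter_Ioc, sup_eq_right.2 ha]
      show Ioc a (min c b) = _
      rw [min_comm]
    have hm : 0 ≤ min b c := le_min hb hc
    rw [e2, ← integral_of_le h, max_eq_right (by nlinarith)]
    rw [intervalIntegral.integral_const_mul, integral_id]
    ring
  · have e2 : Ioc 0 c ∩ Ioc a b = ∅ := by
      rw [Ioc_inter_Ioc]
      refine Ioc_eq_empty ?_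
      show ¬ (max 0 a < min c b)
      rw [min_comm]
      intro h3
      exact absurd ((le_max_right 0 a).trans_lt h3) (not_lt.2 h.le)
    have hm : 0 ≤ min b c := le_min hb hc
    rw [e2, Measure.restrict_empty, integral_zero_measure, max_eq_left (by nlinarith)]

lemma gk_int {a b a' b' c : ℝ} (ha : 0 ≤ a) (hb : 0 ≤ b) (hb' : 0 ≤ b') (hc : 0 ≤ c) :
    ∫ t in (0 : ℝ)..c, 2 * t * (ind a b t * ind a' b' t) = gk c a b a' b' := by
  simp only [ind_mul]
  rw [int_ind (ha.trans (le_max_left _ _)) (le_min hb hb') hc]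
  rfl

lemma gk_nonneg (c a b a' b' : ℝ) : 0 ≤ gk c a b a' b' := le_max_left _ _

lemma gk_comm (c a b a' b' : ℝ) : gk c a b a' b' = gk c a' b' a b := by
  unfold gk; rw [min_comm b b', max_comm a a']

section list
variable {ι : Type*}

/-- the mass function of a weighted family of strips -/
noncomputable def gs (l : List ι) (m a b : ι → ℝ) (t : ℝ) : ℝ :=
  (l.map fun i => m i * ind (a i) (b i) t).sum

lemma gs_cons (i : ι) (l : List ι) (m a b : ι → ℝ) (t : ℝ) :
    gs (i :: l) m a b t = m i * ind (a i) (b i) t + gs l m a b t := by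
  simp [gs]

lemma gs_meas (l : List ι) (m a b : ι → ℝ) : Measurable (gs l m a b) := by
  induction l with
  | nil => show Measurable fun t => gs [] m a b t; simp [gs]
  | cons i l ih =>
    have e : gs (i :: l) m a b = fun t => m i * ind (a i) (b i) t + gs l m a b t :=
      funext fun t => gs_cons i l m a b t
    rw [e]
    exact (measurable_const.mul (ind_meas _ _)).add ih

lemma gs_nonneg {l : List ι} {m a b : ι → ℝ} (hm : ∀ i ∈ l, 0 ≤ m i) (t : ℝ) : 0 ≤ gs l m a b t := by
  unfold gs
  refine List.sum_nonneg fun x hx => ?_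
  obtain ⟨i, hi, rfl⟩ := List.mem_map.1 hx
  exact mul_nonneg (hm i hi) (ind_nonneg _ _ _)

lemma gs_bdd (l : List ι) (m a b : ι → ℝ) (t : ℝ) : |gs l m a b t| ≤ (l.map fun i => |m i|).sum := by
  induction l with
  | nil => simp [gs]
  | cons i l ih =>
    rw [gs_cons, List.map_cons, List.sum_cons]
    refine (abs_add_le _ _).trans (add_le_add ?_ ih)
    rw [abs_mul, abs_of_nonneg (ind_nonneg (a i) (b i) t)]
    exact mul_le_of_le_one_right (abs_nonneg _) (ind_le_one _ _ _)

lemma gs_ii (l : List ι) (m a b : ι → ℝ) (u w : ℝ) : IntervalIntegrable (gs l m a b) volume u w :=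
  ii_of_bdd (gs_meas l m a b) fun t _ => gs_bdd l m a b t

lemma gs2_ii (l : List ι) (m a b : ι → ℝ) (u w : ℝ) :
    IntervalIntegrable (fun t => 2 * t * gs l m a b t ^ 2) volume u w := by
  refine ii_of_bdd (C := 2 * max |u| |w| * (l.map fun i => |m i|).sum ^ 2)
    ((measurable_const.mul measurable_id).mul ((gs_meas l m a b).pow_const 2)) fun t ht => ?_
  have h1 : |t| ≤ max |u| |w| := by
    rcases mem_uIoc.1 ht with ⟨h1, h2⟩ | ⟨h1, h2⟩
    · rw [abs_le]
      constructor
      · have := neg_abs_le u; have := le_max_left |u| |w|; linarith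
      · exact h2.trans ((le_abs_self w).trans (le_max_right _ _))
    · rw [abs_le]
      constructor
      · have := neg_abs_le w; have := le_max_right |u| |w|; linarith
      · exact h2.trans ((le_abs_self u).trans (le_max_left _ _))
  show |2 * t * gs l m a b t ^ 2| ≤ _
  rw [abs_mul, abs_mul, abs_of_pos (by norm_num : (0 : ℝ) < 2), abs_pow]
  have h2 := gs_bdd l m a b t
  gcongr

/-- double sums -/
noncomputable def dsum (l : List ι) (m : ι → ℝ) (k : ι → ι → ℝ) : ℝ :=
  (l.map fun i => (l.map fun j => m i * m j * k i j).sum).sum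

lemma gs_gs (l l' : List ι) {m a b : ι → ℝ} (ha : ∀ i ∈ l, 0 ≤ a i) (hb : ∀ i ∈ l, 0 ≤ b i)
    (hb' : ∀ i ∈ l', 0 ≤ b i) {c : ℝ} (hc : 0 ≤ c) :
    ∫ t in (0 : ℝ)..c, 2 * t * (gs l m a b t * gs l' m a b t) =
      (l.map fun i => (l'.map fun j => m i * m j * gk c (a i) (b i) (a j) (b j)).sum).sum := by
  have hkey : ∀ (L : List ι) (f : ι → ℝ → ℝ), (∀ i ∈ L, IntervalIntegrable (f i) volume 0 c) →
      ∫ t in (0 : ℝ)..c, (L.map fun i => f i t).sum = (L.map fun i => ∫ t in (0 : ℝ)..c, f i t).sum ∧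
        IntervalIntegrable (fun t => (L.map fun i => f i t).sum) volume 0 c := by
    intro L f
    induction L with
    | nil => intro _; simp
    | cons i L ih =>
      intro h
      obtain ⟨h1, h2⟩ := ih fun j hj => h j (List.mem_cons_of_mem _ hj)
      simp only [List.map_cons, List.sum_cons]
      refine ⟨?_, (h i (by simp)).add h2⟩
      rw [intervalIntegral.integral_add (h i (by simp)) h2, h1]
  have hone : ∀ i j, IntervalIntegrable
      (fun t => m i * m j * (2 * t * (ind (a i) (b i) t * ind (a j) (b j) t))) volume 0 c := by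
    intro i j
    refine ii_of_bdd (C := |m i * m j| * (2 * c)) ((measurable_const.mul
      ((measurable_const.mul measurable_id).mul ((ind_meas _ _).mul (ind_meas _ _))))) fun t ht => ?_
    rw [uIoc_of_le hc] at ht
    show |m i * m j * (2 * t * (ind (a i) (b i) t * ind (a j) (b j) t))| ≤ _
    rw [abs_mul, abs_mul (2 * t), abs_mul 2, abs_of_pos (by norm_num : (0 : ℝ) < 2), abs_of_pos ht.1,
      abs_of_nonneg (mul_nonneg (ind_nonneg (a i) (b i) t) (ind_nonneg (a j) (b j) t))]
    have h1 : ind (a i) (b i) t * ind (a j) (b j) t ≤ 1 :=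
      mul_le_one₀ (ind_le_one _ _ _) (ind_nonneg _ _ _) (ind_le_one _ _ _)
    have h2 : 2 * t * (ind (a i) (b i) t * ind (a j) (b j) t) ≤ 2 * c := by
      calc 2 * t * (ind (a i) (b i) t * ind (a j) (b j) t) ≤ 2 * t * 1 :=
            mul_le_mul_of_nonneg_left h1 (by linarith [ht.1])
        _ ≤ 2 * c := by linarith [ht.2]
    exact mul_le_mul_of_nonneg_left h2 (abs_nonneg _)
  have e : (fun t => 2 * t * (gs l m a b t * gs l' m a b t)) = fun t =>
      (l.map fun i => (l'.map fun j =>
        m i * m j * (2 * t * (ind (a i) (b i) t * ind (a j) (b j) t))).sum).sum := by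
    funext t
    unfold gs
    induction l with
    | nil => simp
    | cons i l ih =>
      simp only [List.map_cons, List.sum_cons]
      rw [← ih (fun j hj => ha j (List.mem_cons_of_mem _ hj))
        (fun j hj => hb j (List.mem_cons_of_mem _ hj)), add_mul, mul_add]
      congr 1
      clear ih
      induction l' with
      | nil => simp
      | cons j l' ih =>
        simp only [List.map_cons, List.sum_cons]
        rw [← ih fun k hk => hb' k (List.mem_cons_of_mem _ hk)]
        ring
  rw [e]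
  rw [(hkey l _ fun i _ => (hkey l' (fun j t =>
    m i * m j * (2 * t * (ind (a i) (b i) t * ind (a j) (b j) t))) fun j _ => hone i j).2).1]
  congr 1
  refine List.map_congr_left fun i hi => ?_
  rw [(hkey l' (fun j t =>
    m i * m j * (2 * t * (ind (a i) (b i) t * ind (a j) (b j) t))) fun j _ => hone i j).1]
  congr 1
  refine List.map_congr_left fun j hj => ?_
  rw [intervalIntegral.integral_const_mul, gk_int (ha i hi) (hb i hi) (hb' j hj) hc]

/-- **the quadratic form of the truncated gain kernel** -/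
lemma gs_int (l : List ι) {m a b : ι → ℝ} (ha : ∀ i ∈ l, 0 ≤ a i) (hb : ∀ i ∈ l, 0 ≤ b i)
    {c : ℝ} (hc : 0 ≤ c) :
    ∫ t in (0 : ℝ)..c, 2 * t * gs l m a b t ^ 2 =
      dsum l m fun i j => gk c (a i) (b i) (a j) (b j) := by
  rw [dsum, ← gs_gs l l ha hb hb hc]
  simp only [pow_two]

/-- the missing part in the window `[v, 2v)` -/
noncomputable def win (v a b : ℝ) : ℝ := if v ≤ b ∧ b < 2 * v then max 0 (b - a) else 0

lemma win_nonneg (v a b : ℝ) : 0 ≤ win v a b := by
  unfold win; split_ifs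
  · exact le_max_left _ _
  · exact le_rfl

lemma int_ind_one {a b u w : ℝ} (hu : u ≤ a) (hw : b ≤ w) (huw : u ≤ w) :
    ∫ t in u..w, ind a b t = max 0 (b - a) := by
  rw [integral_of_le huw]
  have e1 : (fun t => ind a b t) = (Ioc a b).indicator fun _ => (1 : ℝ) := rfl
  rw [e1, setIntegral_indicator measurableSet_Ioc, inter_eq_right.2 (Ioc_subset_Ioc hu hw)]
  simp [max_comm]

/-- **the gain controls the missing parts at one dyadic height** -/
theorem win_sq_le (l : List ι) {m a b : ι → ℝ} (hm : ∀ i ∈ l, 0 ≤ m i) (ha : ∀ i ∈ l, 0 ≤ a i)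
    {v : ℝ} (hv : 0 < v) :
    (l.map fun i => m i * win v (a i) (b i)).sum ^ 2 ≤
      13 * ∫ t in (0 : ℝ)..(2 * v), 2 * t * gs l m a b t ^ 2 := by
  set Q := ∫ t in (0 : ℝ)..(2 * v), 2 * t * gs l m a b t ^ 2 with hQ
  set g := gs l m a b with hg
  -- the part with low start
  set P₁ := (l.map fun i => m i * if a i < v / 2 ∧ v ≤ b i ∧ b i < 2 * v then (1 : ℝ) else 0).sum
    with hP₁
  set A := (l.map fun i => m i * if a i < v / 2 then win v (a i) (b i) else 0).sum with hA
  set B := (l.map fun i => m i * if a i < v / 2 then 0 else win v (a i) (b i)).sum with hB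
  have hAB : (l.map fun i => m i * win v (a i) (b i)).sum = A + B := by
    rw [hA, hB, ← List.sum_map_add]
    congr 1
    refine List.map_congr_left fun i _ => ?_
    split_ifs <;> ring
  have hsum : ∀ (f f' : ι → ℝ), (∀ i ∈ l, f i ≤ f' i) → (l.map f).sum ≤ (l.map f').sum :=
    fun f f' h => List.sum_le_sum h
  have hP0 : 0 ≤ P₁ := by
    refine List.sum_nonneg fun x hx => ?_
    obtain ⟨i, hi, rfl⟩ := List.mem_map.1 hx
    refine mul_nonneg (hm i hi) ?_
    split_ifs <;> norm_num
  have hA0 : 0 ≤ A := by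
    refine List.sum_nonneg fun x hx => ?_
    obtain ⟨i, hi, rfl⟩ := List.mem_map.1 hx
    refine mul_nonneg (hm i hi) ?_
    split_ifs
    · exact win_nonneg _ _ _
    · exact le_rfl
  have hB0 : 0 ≤ B := by
    refine List.sum_nonneg fun x hx => ?_
    obtain ⟨i, hi, rfl⟩ := List.mem_map.1 hx
    refine mul_nonneg (hm i hi) ?_
    split_ifs
    · exact le_rfl
    · exact win_nonneg _ _ _
  have hAP : A ≤ 2 * v * P₁ := by
    rw [hP₁, ← List.sum_map_mul_left]
    refine hsum _ _ fun i hi => ?_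
    have h0 := ha i hi
    have hmi := hm i hi
    unfold win
    by_cases h1 : a i < v / 2
    · by_cases h2 : v ≤ b i ∧ b i < 2 * v
      · rw [if_pos h1, if_pos h2, if_pos ⟨h1, h2⟩]
        have : max 0 (b i - a i) ≤ 2 * v := max_le (by linarith) (by linarith [h2.2])
        nlinarith
      · rw [if_pos h1, if_neg h2, if_neg fun h => h2 h.2]; simp
    · rw [if_neg h1, if_neg fun h => h1 h.1]; simp
  have hPg : ∀ t ∈ Ioc (v / 2) v, P₁ ≤ g t := by
    intro t ht
    rw [hP₁, hg]
    refine hsum _ _ fun i hi => ?_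
    refine mul_le_mul_of_nonneg_left ?_ (hm i hi)
    split_ifs with h
    · rw [ind_one (h.1.trans ht.1) (ht.2.trans h.2.1)]
    · exact ind_nonneg _ _ _
  have hg2 : ∀ u w, IntervalIntegrable (fun t => 2 * t * g t ^ 2) volume u w := gs2_ii l m a b
  have hpos : ∀ t, 0 ≤ t → 0 ≤ 2 * t * g t ^ 2 := fun t ht => by positivity
  -- first part
  have h1 : (3 / 4) * v ^ 2 * P₁ ^ 2 ≤ Q := by
    have e1 : Q = (∫ t in (0 : ℝ)..(v / 2), 2 * t * g t ^ 2) + (∫ t in (v / 2)..v, 2 * t * g t ^ 2) +
        ∫ t in v..(2 * v), 2 * t * g t ^ 2 := by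
      rw [intervalIntegral.integral_add_adjacent_intervals (hg2 _ _) (hg2 _ _),
        intervalIntegral.integral_add_adjacent_intervals (hg2 _ _) (hg2 _ _)]
    have e2 : 0 ≤ ∫ t in (0 : ℝ)..(v / 2), 2 * t * g t ^ 2 :=
      intervalIntegral.integral_nonneg (by linarith) fun t ht => hpos t ht.1
    have e3 : 0 ≤ ∫ t in v..(2 * v), 2 * t * g t ^ 2 :=
      intervalIntegral.integral_nonneg (by linarith) fun t ht => hpos t (by linarith [ht.1])
    have e4 : ∫ t in (v / 2)..v, 2 * t * P₁ ^ 2 ≤ ∫ t in (v / 2)..v, 2 * t * g t ^ 2 := by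
      rw [integral_of_le (by linarith : v / 2 ≤ v), integral_of_le (by linarith : v / 2 ≤ v)]
      refine setIntegral_mono_on ?_ ((intervalIntegrable_iff_integrableOn_Ioc_of_le
        (by linarith)).1 (hg2 _ _)) measurableSet_Ioc fun t ht => ?_
      · refine (intervalIntegrable_iff_integrableOn_Ioc_of_le (by linarith)).1 ?_
        exact (Continuous.intervalIntegrable (by fun_prop) _ _)
      · have := hPg t ht
        have ht0 : 0 < t := by linarith [ht.1]
        have : P₁ ^ 2 ≤ g t ^ 2 := pow_le_pow_left₀ hP0 this 2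
        exact mul_le_mul_of_nonneg_left this (by linarith)
    have e5 : ∫ t in (v / 2)..v, 2 * t * P₁ ^ 2 = (3 / 4) * v ^ 2 * P₁ ^ 2 := by
      rw [intervalIntegral.integral_mul_const, intervalIntegral.integral_const_mul, integral_id]
      ring
    linarith
  -- second part
  set J := ∫ t in (v / 2)..(2 * v), g t with hJ
  have hBJ : B ≤ J := by
    have hii : ∀ i, IntervalIntegrable (fun t => m i * ind (a i) (b i) t) volume (v / 2) (2 * v) :=
      fun i => ii_of_bdd (C := |m i|) (measurable_const.mul (ind_meas _ _)) fun t _ => by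
        show |m i * ind (a i) (b i) t| ≤ _
        rw [abs_mul, abs_of_nonneg (ind_nonneg (a i) (b i) t)]
        exact mul_le_of_le_one_right (abs_nonneg _) (ind_le_one _ _ _)
    have e1 : J = (l.map fun i => ∫ t in (v / 2)..(2 * v), m i * ind (a i) (b i) t).sum := by
      rw [hJ, hg]
      clear_value Q g P₁ A B J
      clear hQ hg hP₁ hA hB hAB hsum hP0 hA0 hB0 hAP hPg hg2 hpos h1 hJ hm ha
      unfold gs
      induction l with
      | nil => simp
      | cons i l ih =>
        simp only [List.map_cons, List.sum_cons]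
        rw [← ih]
        exact intervalIntegral.integral_add (hii i) (gs_ii l m a b _ _)
    rw [e1, hB]
    refine hsum _ _ fun i hi => ?_
    rw [intervalIntegral.integral_const_mul]
    refine mul_le_mul_of_nonneg_left ?_ (hm i hi)
    have h0 : 0 ≤ ∫ t in (v / 2)..(2 * v), ind (a i) (b i) t :=
      intervalIntegral.integral_nonneg (by linarith) fun t _ => ind_nonneg _ _ _
    split_ifs with h
    · exact h0
    · unfold win
      split_ifs with h2
      · rw [int_ind_one (by linarith) h2.2.le (by linarith)]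
      · exact h0
  have h2 : J ^ 2 ≤ 3 / 2 * Q := by
    -- Cauchy-Schwarz
    set c := J / (3 / 2 * v) with hc
    have e1 : 0 ≤ ∫ t in (v / 2)..(2 * v), (g t - c) ^ 2 :=
      intervalIntegral.integral_nonneg (by linarith) fun t _ => sq_nonneg _
    have hgg : IntervalIntegrable (fun t => g t ^ 2) volume (v / 2) (2 * v) :=
      ii_of_bdd (C := (l.map fun i => |m i|).sum ^ 2) ((gs_meas l m a b).pow_const 2) fun t _ => by
        rw [abs_pow]
        exact pow_le_pow_left₀ (abs_nonneg _) (gs_bdd l m a b t) 2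
    have hg1 : IntervalIntegrable g volume (v / 2) (2 * v) := gs_ii l m a b _ _
    have e2 : ∫ t in (v / 2)..(2 * v), (g t - c) ^ 2 =
        (∫ t in (v / 2)..(2 * v), g t ^ 2) - 2 * c * J + c ^ 2 * (2 * v - v / 2) := by
      have e : (fun t => (g t - c) ^ 2) = fun t => (g t ^ 2 - (2 * c) * g t) + c ^ 2 := by
        funext t; ring
      rw [e, intervalIntegral.integral_add (hgg.sub (hg1.const_mul _)) (by simp),
        intervalIntegral.integral_sub hgg (hg1.const_mul _), intervalIntegral.integral_const_mul,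
        intervalIntegral.integral_const, ← hJ]
      simp only [smul_eq_mul]
      ring
    have hcJ : c * (3 / 2 * v) = J := by rw [hc]; field_simp
    have e3 : v * ∫ t in (v / 2)..(2 * v), g t ^ 2 ≤ ∫ t in (v / 2)..(2 * v), 2 * t * g t ^ 2 := by
      rw [← intervalIntegral.integral_const_mul]
      refine intervalIntegral.integral_mono_on (by linarith) (hgg.const_mul _) (hg2 _ _) fun t ht => ?_
      exact mul_le_mul_of_nonneg_right (by linarith [ht.1]) (sq_nonneg _)
    have e4 : (∫ t in (v / 2)..(2 * v), 2 * t * g t ^ 2) ≤ Q := by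
      have e5 : Q = (∫ t in (0 : ℝ)..(v / 2), 2 * t * g t ^ 2) +
          ∫ t in (v / 2)..(2 * v), 2 * t * g t ^ 2 := by
        rw [intervalIntegral.integral_add_adjacent_intervals (hg2 _ _) (hg2 _ _)]
      have e6 : 0 ≤ ∫ t in (0 : ℝ)..(v / 2), 2 * t * g t ^ 2 :=
        intervalIntegral.integral_nonneg (by linarith) fun t ht => hpos t ht.1
      linarith
    set S := ∫ t in (v / 2)..(2 * v), g t ^ 2 with hS
    rw [e2] at e1
    -- S ≥ c J
    have e7 : c * J ≤ S := by
      have : c ^ 2 * (2 * v - v / 2) = c * J := by rw [← hcJ]; ring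
      linarith
    have e8 : J ^ 2 = (3 / 2 * v) * (c * J) := by rw [pow_two]; nth_rewrite 1 [← hcJ]; ring
    rw [e8]
    nlinarith [mul_le_mul_of_nonneg_left e7 hv.le]
  -- together
  rw [hAB]
  have h3 : A ^ 2 ≤ 16 / 3 * Q := by
    have : A ^ 2 ≤ (2 * v * P₁) ^ 2 := pow_le_pow_left₀ hA0 hAP 2
    nlinarith
  have h4 : B ^ 2 ≤ 3 / 2 * Q := (pow_le_pow_left₀ hB0 hBJ 2).trans h2
  have hQ0 : 0 ≤ Q := (by positivity : (0 : ℝ) ≤ (3 / 4) * v ^ 2 * P₁ ^ 2).trans h1
  nlinarith [sq_nonneg (A - 2 * B)]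

/-- the same with the kernel -/
theorem win_le (l : List ι) {m a b : ι → ℝ} (hm : ∀ i ∈ l, 0 ≤ m i) (ha : ∀ i ∈ l, 0 ≤ a i)
    (hb : ∀ i ∈ l, 0 ≤ b i) {v : ℝ} (hv : 0 < v) :
    (l.map fun i => m i * win v (a i) (b i)).sum ^ 2 ≤
      13 * dsum l m fun i j => gk (2 * v) (a i) (b i) (a j) (b j) := by
  rw [← gs_int l ha hb (by linarith : (0 : ℝ) ≤ 2 * v)]
  exact win_sq_le l hm ha hv

end list

end Crest.Agent.R4P.Mink16
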