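import Crest.Agent.R4P.Xfer_36
import Crest.Agent.R4P.MinkR_16

/-!
R4 (S0004) with powers, group [W-eSHR], helper16: **Minkowski over the dyadic heights** on the group
walk (`Grp_36`).

`a p t z y`, `b p t z y`: heights of the content `z` of the child `miss` / `hit` of the tie `t` of the
column `p` at the point `y`.  Local terms of a group of ties
* `lG ω a b p g = ω p * I (Σ_z (E_g (b - a)⁺)²)` (the energy of the missing parts),
* `lT ω a b c p g = ω p * I (Σ_z Σ_{m, m'} m m' gk c (a, b) (a', b'))` (gain of the truncated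
  min-kernel at the height `c`).

`GS_mink`: `GS (lT (2^(j+1))) ≤ A j` for all `j : ℤ`, `Σ r ≤ R`, `Σ A / r ≤ S` imply
`GS lG ≤ 26 R S`.
-/

set_option autoImplicit false
set_option linter.unusedSectionVars false
open MeasureTheory Filter Set Topology

namespace Crest.Agent.R4P.MinkG16

open Crest.Agent.R4.Tour104 Crest.Agent.R4.Tour758 Crest.Agent.R4.Avg758 Crest.Agent.R4.Clos758
open Crest.Agent.R4.ClosL758 Crest.Agent.R4.ClosG758 Crest.Agent.R4.ClosR758
open Crest.Agent.R4P.ClosR442 Crest.Agent.R4P.Walk560 Crest.Agent.R4P.Grp36 Crest.Agent.R4P.Xfer36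
open Crest.Agent.R4P.Mink16

variable {Λ κ δ : Type*} [Fintype δ]

/-! ### lists of bounded periodic functions -/

lemma PB_list {ι : Type*} (L : List ι) {F : ι → ℝ → ℝ} (h : ∀ i ∈ L, PB (F i)) :
    PB fun y => (L.map fun i => F i y).sum := by
  induction L with
  | nil => simpa using PB.const (le_refl (0 : ℝ))
  | cons i L ih =>
    simp only [List.map_cons, List.sum_cons]
    exact (h i (by simp)).add (ih fun j hj => h j (List.mem_cons_of_mem _ hj))

lemma I_list {ι : Type*} (L : List ι) {F : ι → ℝ → ℝ} (h : ∀ i ∈ L, PB (F i)) :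
    I (fun y => (L.map fun i => F i y).sum) = (L.map fun i => I (F i)).sum := by
  induction L with
  | nil => simp [I]
  | cons i L ih =>
    simp only [List.map_cons, List.sum_cons]
    rw [I_add (h i (by simp)).integrableOn
      (PB_list L fun j hj => h j (List.mem_cons_of_mem _ hj)).integrableOn,
      ih fun j hj => h j (List.mem_cons_of_mem _ hj)]

lemma PB_pos {a b : ℝ → ℝ} (ha : PB a) (hb : PB b) : PB fun y => max 0 (b y - a y) := by
  obtain ⟨B, hB⟩ := hb.bdd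
  refine ⟨measurable_const.max (hb.meas.sub ha.meas), fun y => le_max_left _ _, ⟨max 0 B, fun y => ?_⟩,
    fun y => by rw [hb.per, ha.per]⟩
  exact max_le_max le_rfl (by linarith [hB y, ha.nonneg y])

lemma PB_win {a b : ℝ → ℝ} (ha : PB a) (hb : PB b) (v : ℝ) : PB fun y => win v (a y) (b y) := by
  obtain ⟨B, hB⟩ := (PB_pos ha hb).bdd
  refine ⟨?_, fun y => win_nonneg _ _ _, ⟨max 0 B, fun y => ?_⟩,
    fun y => by rw [hb.per, ha.per]⟩
  · unfold win
    refine Measurable.ite ?_ (PB_pos ha hb).meas measurable_const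
    exact (measurableSet_le measurable_const hb.meas).inter
      (measurableSet_lt hb.meas measurable_const)
  · unfold win
    split_ifs
    · exact (hB y).trans (le_max_right _ _)
    · exact le_max_left _ _

lemma PB_gk {a b a' b' : ℝ → ℝ} (ha : PB a) (hb : PB b) (ha' : PB a') (hb' : PB b') {c : ℝ}
    (hc : 0 ≤ c) : PB fun y => gk c (a y) (b y) (a' y) (b' y) := by
  refine ⟨?_, fun y => gk_nonneg _ _ _ _ _, ⟨c ^ 2, fun y => ?_⟩,
    fun y => by rw [hb.per, ha.per, hb'.per, ha'.per]⟩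
  · unfold gk
    exact measurable_const.max ((((hb.meas.min hb'.meas).min measurable_const).pow_const 2).sub
      ((ha.meas.max ha'.meas).pow_const 2))
  · unfold gk
    have h0 : 0 ≤ min (min (b y) (b' y)) c := le_min (le_min (hb.nonneg y) (hb'.nonneg y)) hc
    have h1 : min (min (b y) (b' y)) c ^ 2 ≤ c ^ 2 := pow_le_pow_left₀ h0 (min_le_right _ _) 2
    exact max_le (sq_nonneg c) (by linarith [sq_nonneg (max (a y) (a' y))])

/-! ### the local terms -/

/-- sum over the members -/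
noncomputable def gm (g : Gp Λ κ) (F : DT Λ κ → ℝ) : ℝ := (g.map fun m => m.1 * F m.2).sum

/-- energy of the missing parts -/
noncomputable def lG (ω : ℕ → ℝ) (a b : ℕ → DT Λ κ → δ → ℝ → ℝ) (p : ℕ) (g : Gp Λ κ) : ℝ :=
  ω p * I fun y => ∑ z, gm g (fun t => max 0 (b p t z y - a p t z y)) ^ 2

/-- gain of the truncated min-kernel -/
noncomputable def lT (ω : ℕ → ℝ) (a b : ℕ → DT Λ κ → δ → ℝ → ℝ) (c : ℝ) (p : ℕ) (g : Gp Λ κ) : ℝ :=
  ω p * I fun y => ∑ z, dsum g (fun m => m.1) fun m m' =>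
    gk c (a p m.2 z y) (b p m.2 z y) (a p m'.2 z y) (b p m'.2 z y)

/-- the part outside of the windows -/
noncomputable def rst (J : ℕ) (a b : ℝ) : ℝ :=
  if (2 : ℝ) ^ (-(J : ℤ)) ≤ b ∧ b < 2 ^ (J : ℤ) then 0 else max 0 (b - a)

noncomputable def lR (ω : ℕ → ℝ) (a b : ℕ → DT Λ κ → δ → ℝ → ℝ) (J p : ℕ) (g : Gp Λ κ) : ℝ :=
  ω p * I fun y => ∑ z, gm g (fun t => rst J (a p t z y) (b p t z y)) ^ 2

lemma rst_nonneg (J : ℕ) (a b : ℝ) : 0 ≤ rst J a b := by
  unfold rst; split_ifs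
  · exact le_rfl
  · exact le_max_left _ _

lemma PB_rst {a b : ℝ → ℝ} (ha : PB a) (hb : PB b) (J : ℕ) : PB fun y => rst J (a y) (b y) := by
  obtain ⟨B, hB⟩ := (PB_pos ha hb).bdd
  refine ⟨?_, fun y => rst_nonneg _ _ _, ⟨max 0 B, fun y => ?_⟩,
    fun y => by rw [hb.per, ha.per]⟩
  · unfold rst
    refine Measurable.ite ?_ measurable_const (PB_pos ha hb).meas
    exact (measurableSet_le measurable_const hb.meas).inter
      (measurableSet_lt hb.meas measurable_const)
  · unfold rst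
    split_ifs
    · exact le_max_left _ _
    · exact (hB y).trans (le_max_right _ _)

/-- the windows cover -/
lemma pos_le_win (J : ℕ) (a : ℝ) (b : ℝ) :
    max 0 (b - a) ≤ (∑ j ∈ Finset.Ico (-(J : ℤ)) J, win ((2 : ℝ) ^ j) a b) + rst J a b := by
  have hs : ∀ s : Finset ℤ, 0 ≤ ∑ j ∈ s, win ((2 : ℝ) ^ j) a b :=
    fun s => Finset.sum_nonneg fun j _ => win_nonneg _ _ _
  by_cases h : (2 : ℝ) ^ (-(J : ℤ)) ≤ b ∧ b < 2 ^ (J : ℤ)
  · have hb : 0 < b := (zpow_pos (by norm_num) _).trans_le h.1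
    set j := Int.log 2 b with hj
    have h1 : (2 : ℝ) ^ j ≤ b := by
      have := Int.zpow_log_le_self (b := 2) (by norm_num) hb
      exact_mod_cast this
    have h2 : b < (2 : ℝ) ^ (j + 1) := by
      have := Int.lt_zpow_succ_log_self (b := 2) (by norm_num) b
      exact_mod_cast this
    have h3 : -(J : ℤ) ≤ j := by
      by_contra hc
      have : j + 1 ≤ -(J : ℤ) := by omega
      have h4 : (2 : ℝ) ^ (j + 1) ≤ 2 ^ (-(J : ℤ)) := zpow_le_zpow_right₀ (by norm_num) this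
      linarith [h.1]
    have h4 : j < (J : ℤ) := by
      by_contra hc
      have : (J : ℤ) ≤ j := by omega
      have h4 : (2 : ℝ) ^ (J : ℤ) ≤ 2 ^ j := zpow_le_zpow_right₀ (by norm_num) this
      linarith [h.2]
    have h5 : win ((2 : ℝ) ^ j) a b = max 0 (b - a) := by
      unfold win
      rw [if_pos]
      refine ⟨h1, ?_⟩
      rw [zpow_add_one₀ (by norm_num : (2 : ℝ) ≠ 0)] at h2
      linarith
    have h6 : win ((2 : ℝ) ^ j) a b ≤ ∑ j ∈ Finset.Ico (-(J : ℤ)) J, win ((2 : ℝ) ^ j) a b :=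
      Finset.single_le_sum (f := fun j : ℤ => win ((2 : ℝ) ^ j) a b) (fun j _ => win_nonneg _ _ _)
        (Finset.mem_Ico.2 ⟨h3, h4⟩)
    rw [h5] at h6
    exact h6.trans (le_add_of_nonneg_right (rst_nonneg _ _ _))
  · have : rst J a b = max 0 (b - a) := by unfold rst; rw [if_neg h]
    rw [this]
    exact le_add_of_nonneg_left (hs _)

/-- good height functions of a group -/
def ABOk (a b : ℕ → DT Λ κ → δ → ℝ → ℝ) (p : ℕ) (g : Gp Λ κ) : Prop :=
  ∀ m ∈ g, ∀ z, PB (a p m.2 z) ∧ PB (b p m.2 z)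

section loc
variable {ω : ℕ → ℝ} {a b : ℕ → DT Λ κ → δ → ℝ → ℝ} {p : ℕ} {g : Gp Λ κ}

lemma gm_nonneg {F : DT Λ κ → ℝ} (h : ∀ m ∈ g, 0 ≤ m.1) (hF : ∀ m ∈ g, 0 ≤ F m.2) : 0 ≤ gm g F := by
  refine List.sum_nonneg fun x hx => ?_
  obtain ⟨m, hm, rfl⟩ := List.mem_map.1 hx
  exact mul_nonneg (h m hm) (hF m hm)

lemma gm_mono {F F' : DT Λ κ → ℝ} (h : ∀ m ∈ g, 0 ≤ m.1) (hF : ∀ m ∈ g, F m.2 ≤ F' m.2) :
    gm g F ≤ gm g F' :=
  List.sum_le_sum fun m hm => mul_le_mul_of_nonneg_left (hF m hm) (h m hm)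

lemma gm_add (F F' : DT Λ κ → ℝ) : gm g (fun t => F t + F' t) = gm g F + gm g F' := by
  unfold gm
  rw [← List.sum_map_add]
  congr 1
  exact List.map_congr_left fun m _ => mul_add _ _ _

lemma gm_sum {ι : Type*} (s : Finset ι) (F : ι → DT Λ κ → ℝ) :
    gm g (fun t => ∑ j ∈ s, F j t) = ∑ j ∈ s, gm g (F j) := by
  classical
  induction s using Finset.induction_on with
  | empty => simp [gm]
  | insert j s hj ih => simp only [Finset.sum_insert hj, gm_add, ih]

lemma PB_gm (h : ∀ m ∈ g, 0 ≤ m.1) {F : DT Λ κ → ℝ → ℝ} (hF : ∀ m ∈ g, PB (F m.2)) :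
    PB fun y => gm g fun t => F t y :=
  PB_list g (F := fun m y => m.1 * F m.2 y) fun m hm => (hF m hm).smul (h m hm)

lemma PB_dsum (h : ∀ m ∈ g, 0 ≤ m.1) (hab : ABOk a b p g) {c : ℝ} (hc : 0 ≤ c) (z : δ) :
    PB fun y => dsum g (fun m => m.1) fun m m' =>
      gk c (a p m.2 z y) (b p m.2 z y) (a p m'.2 z y) (b p m'.2 z y) := by
  unfold dsum
  refine PB_list g (F := fun m y => (g.map fun m' => m.1 * m'.1 *
    gk c (a p m.2 z y) (b p m.2 z y) (a p m'.2 z y) (b p m'.2 z y)).sum) fun m hm => ?_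
  refine PB_list g (F := fun m' y => m.1 * m'.1 *
    gk c (a p m.2 z y) (b p m.2 z y) (a p m'.2 z y) (b p m'.2 z y)) fun m' hm' => ?_
  exact (PB_gk (hab m hm z).1 (hab m hm z).2 (hab m' hm' z).1 (hab m' hm' z).2 hc).smul
    (mul_nonneg (h m hm) (h m' hm'))

/-- **the pointwise Minkowski step** -/
lemma lG_le (hω : 0 ≤ ω p) (h : ∀ m ∈ g, 0 ≤ m.1) (hab : ABOk a b p g) {r : ℤ → ℝ}
    (hr : ∀ j, 0 < r j) (J : ℕ) :
    lG ω a b p g ≤ 26 * (∑ j ∈ Finset.Ico (-(J : ℤ)) J, r j) *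
      (∑ j ∈ Finset.Ico (-(J : ℤ)) J, lT ω a b (2 ^ (j + 1)) p g / r j) + 2 * lR ω a b J p g := by
  set s := Finset.Ico (-(J : ℤ)) J with hs
  set Rs := ∑ j ∈ s, r j with hRs
  have hRs0 : 0 ≤ Rs := Finset.sum_nonneg fun j _ => (hr j).le
  -- pointwise
  have hpt : ∀ z y, gm g (fun t => max 0 (b p t z y - a p t z y)) ^ 2 ≤
      26 * Rs * (∑ j ∈ s, dsum g (fun m => m.1) (fun m m' =>
        gk (2 ^ (j + 1)) (a p m.2 z y) (b p m.2 z y) (a p m'.2 z y) (b p m'.2 z y)) / r j) +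
      2 * gm g (fun t => rst J (a p t z y) (b p t z y)) ^ 2 := by
    intro z y
    set x : ℤ → ℝ := fun j => gm g fun t => win ((2 : ℝ) ^ j) (a p t z y) (b p t z y) with hx
    set ρ := gm g (fun t => rst J (a p t z y) (b p t z y)) with hρ
    have h0 : 0 ≤ gm g (fun t => max 0 (b p t z y - a p t z y)) :=
      gm_nonneg h fun m _ => le_max_left _ _
    have h1 : gm g (fun t => max 0 (b p t z y - a p t z y)) ≤ (∑ j ∈ s, x j) + ρ := by
      have : (∑ j ∈ s, x j) + ρ = gm g (fun t => (∑ j ∈ s, win ((2 : ℝ) ^ j) (a p t z y) (b p t z y)) +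
          rst J (a p t z y) (b p t z y)) := by
        rw [gm_add, gm_sum]
      rw [this]
      exact gm_mono h fun m _ => pos_le_win J _ _
    have h2 : ∀ j, x j ^ 2 ≤ 13 * dsum g (fun m => m.1) (fun m m' =>
        gk (2 ^ (j + 1)) (a p m.2 z y) (b p m.2 z y) (a p m'.2 z y) (b p m'.2 z y)) := by
      intro j
      have h3 := win_le g (m := fun m => m.1) (a := fun m => a p m.2 z y) (b := fun m => b p m.2 z y)
        h (fun m hm => (hab m hm z).1.nonneg y) (fun m hm => (hab m hm z).2.nonneg y)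
        (v := (2 : ℝ) ^ j) (zpow_pos (by norm_num) _)
      have e : 2 * (2 : ℝ) ^ j = 2 ^ (j + 1) := by
        rw [zpow_add_one₀ (by norm_num : (2 : ℝ) ≠ 0)]; ring
      rw [e] at h3
      exact h3
    have h3 : (∑ j ∈ s, x j) ^ 2 ≤ Rs * ∑ j ∈ s, x j ^ 2 / r j := by
      refine Finset.sum_sq_le_sum_mul_sum_of_sq_le_mul s (fun j _ => (hr j).le)
        (fun j _ => div_nonneg (sq_nonneg _) (hr j).le) fun j _ => ?_
      rw [mul_div_cancel₀ _ (hr j).ne']
    have h4 : ∑ j ∈ s, x j ^ 2 / r j ≤ 13 * ∑ j ∈ s, dsum g (fun m => m.1) (fun m m' =>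
        gk (2 ^ (j + 1)) (a p m.2 z y) (b p m.2 z y) (a p m'.2 z y) (b p m'.2 z y)) / r j := by
      rw [Finset.mul_sum]
      refine Finset.sum_le_sum fun j _ => ?_
      rw [← mul_div_assoc]
      exact div_le_div_of_nonneg_right (h2 j) (hr j).le
    have h5 : gm g (fun t => max 0 (b p t z y - a p t z y)) ^ 2 ≤ ((∑ j ∈ s, x j) + ρ) ^ 2 :=
      pow_le_pow_left₀ h0 h1 2
    have h6 := mul_le_mul_of_nonneg_left h4 hRs0
    nlinarith [sq_nonneg ((∑ j ∈ s, x j) - ρ)]
  have pT : ∀ (j : ℤ) (z : δ), PB fun y => dsum g (fun m => m.1) fun m m' =>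
      gk (2 ^ (j + 1)) (a p m.2 z y) (b p m.2 z y) (a p m'.2 z y) (b p m'.2 z y) :=
    fun j z => PB_dsum h hab (zpow_pos (by norm_num) _).le z
  have pR : ∀ z, PB fun y => gm g (fun t => rst J (a p t z y) (b p t z y)) ^ 2 := fun z =>
    PBsq (PB_gm h (F := fun t y => rst J (a p t z y) (b p t z y)) fun m hm =>
      PB_rst (hab m hm z).1 (hab m hm z).2 J)
  have pG : ∀ z, PB fun y => gm g (fun t => max 0 (b p t z y - a p t z y)) ^ 2 := fun z =>
    PBsq (PB_gm h (F := fun t y => max 0 (b p t z y - a p t z y)) fun m hm =>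
      PB_pos (hab m hm z).1 (hab m hm z).2)
  have hI : I (fun y => ∑ z, gm g (fun t => max 0 (b p t z y - a p t z y)) ^ 2) ≤
      26 * Rs * (∑ j ∈ s, I (fun y => ∑ z, dsum g (fun m => m.1) (fun m m' =>
        gk (2 ^ (j + 1)) (a p m.2 z y) (b p m.2 z y) (a p m'.2 z y) (b p m'.2 z y))) / r j) +
      2 * I (fun y => ∑ z, gm g (fun t => rst J (a p t z y) (b p t z y)) ^ 2) := by
    have e1 : 26 * Rs * (∑ j ∈ s, I (fun y => ∑ z, dsum g (fun m => m.1) (fun m m' =>
        gk (2 ^ (j + 1)) (a p m.2 z y) (b p m.2 z y) (a p m'.2 z y) (b p m'.2 z y))) / r j) +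
        2 * I (fun y => ∑ z, gm g (fun t => rst J (a p t z y) (b p t z y)) ^ 2) =
        I (fun y => 26 * Rs * (∑ j ∈ s, (r j)⁻¹ * ∑ z, dsum g (fun m => m.1) (fun m m' =>
          gk (2 ^ (j + 1)) (a p m.2 z y) (b p m.2 z y) (a p m'.2 z y) (b p m'.2 z y))) +
          2 * ∑ z, gm g (fun t => rst J (a p t z y) (b p t z y)) ^ 2) := by
      have q1 : PB fun y => ∑ j ∈ s, (r j)⁻¹ * ∑ z, dsum g (fun m => m.1) (fun m m' =>
          gk (2 ^ (j + 1)) (a p m.2 z y) (b p m.2 z y) (a p m'.2 z y) (b p m'.2 z y)) :=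
        PB.sum s fun j _ => (PB.sum Finset.univ fun z _ => pT j z).smul (inv_nonneg.2 (hr j).le)
      have q2 : PB fun y => ∑ z, gm g (fun t => rst J (a p t z y) (b p t z y)) ^ 2 :=
        PB.sum Finset.univ fun z _ => pR z
      rw [I_add (q1.smul (by positivity)).integrableOn (q2.smul (by norm_num)).integrableOn,
        I_smul, I_smul, I_sum s fun j _ =>
          ((PB.sum Finset.univ fun z _ => pT j z).smul (inv_nonneg.2 (hr j).le)).integrableOn]
      congr 2
      refine Finset.sum_congr rfl fun j _ => ?_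
      rw [I_smul, div_eq_inv_mul]
    rw [e1]
    refine I_mono (PB.sum Finset.univ fun z _ => pG z).integrableOn ?_ fun y => ?_
    · have q1 : PB fun y => ∑ j ∈ s, (r j)⁻¹ * ∑ z, dsum g (fun m => m.1) (fun m m' =>
          gk (2 ^ (j + 1)) (a p m.2 z y) (b p m.2 z y) (a p m'.2 z y) (b p m'.2 z y)) :=
        PB.sum s fun j _ => (PB.sum Finset.univ fun z _ => pT j z).smul (inv_nonneg.2 (hr j).le)
      have q2 : PB fun y => ∑ z, gm g (fun t => rst J (a p t z y) (b p t z y)) ^ 2 :=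
        PB.sum Finset.univ fun z _ => pR z
      exact ((q1.smul (by positivity)).add (q2.smul (by norm_num))).integrableOn
    · have e2 : 26 * Rs * (∑ j ∈ s, (r j)⁻¹ * ∑ z, dsum g (fun m => m.1) (fun m m' =>
          gk (2 ^ (j + 1)) (a p m.2 z y) (b p m.2 z y) (a p m'.2 z y) (b p m'.2 z y))) +
          2 * ∑ z, gm g (fun t => rst J (a p t z y) (b p t z y)) ^ 2 =
          ∑ z, (26 * Rs * (∑ j ∈ s, dsum g (fun m => m.1) (fun m m' =>
            gk (2 ^ (j + 1)) (a p m.2 z y) (b p m.2 z y) (a p m'.2 z y) (b p m'.2 z y)) / r j) +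
          2 * gm g (fun t => rst J (a p t z y) (b p t z y)) ^ 2) := by
        rw [Finset.sum_add_distrib, ← Finset.mul_sum, ← Finset.mul_sum]
        congr 2
        rw [Finset.sum_comm]
        refine Finset.sum_congr rfl fun j _ => ?_
        rw [Finset.mul_sum]
        exact Finset.sum_congr rfl fun z _ => (div_eq_inv_mul _ _).symm
      rw [e2]
      exact Finset.sum_le_sum fun z _ => hpt z y
  unfold lG
  refine (mul_le_mul_of_nonneg_left hI hω).trans (le_of_eq ?_)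
  have e3 : (∑ j ∈ s, lT ω a b (2 ^ (j + 1)) p g / r j) = ω p *
      (∑ j ∈ s, I (fun y => ∑ z, dsum g (fun m => m.1) (fun m m' =>
        gk (2 ^ (j + 1)) (a p m.2 z y) (b p m.2 z y) (a p m'.2 z y) (b p m'.2 z y))) / r j) := by
    rw [Finset.mul_sum]
    refine Finset.sum_congr rfl fun j _ => ?_
    unfold lT
    rw [mul_div_assoc]
  rw [e3]
  unfold lR
  ring

/-- the remainder is eventually small -/
lemma lR_tendsto (h : ∀ m ∈ g, 0 ≤ m.1) (hab : ABOk a b p g) :
    Tendsto (fun J : ℕ => lR ω a b J p g) atTop (𝓝 0) := by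
  -- a bound for all the heights
  obtain ⟨B, hB⟩ : ∃ B : ℝ, ∀ m ∈ g, ∀ z y, b p m.2 z y ≤ B := by
    clear h
    induction g with
    | nil => exact ⟨0, by simp⟩
    | cons m g ih =>
      obtain ⟨B, hB⟩ := ih fun m' hm' => hab m' (List.mem_cons_of_mem _ hm')
      have hb : ∀ z, ∃ C, ∀ y, b p m.2 z y ≤ C := fun z => (hab m (by simp) z).2.bdd
      choose C hC using hb
      refine ⟨max B (∑ z, |C z|), fun m' hm' z y => ?_⟩
      rcases List.mem_cons.1 hm' with rfl | hm'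
      · exact ((hC z y).trans (le_abs_self _)).trans ((Finset.single_le_sum (f := fun z => |C z|)
          (fun z _ => abs_nonneg _) (Finset.mem_univ z)).trans (le_max_right _ _))
      · exact (hB m' hm' z y).trans (le_max_left _ _)
  set W := gm g (fun _ => 1) with hW
  have hW0 : 0 ≤ W := gm_nonneg h fun _ _ => zero_le_one
  have hbound : ∀ᶠ J : ℕ in atTop, |lR ω a b J p g| ≤
      |ω p| * (Fintype.card δ * (W * (1 / 2 : ℝ) ^ J) ^ 2) := by
    have hev : ∀ᶠ J : ℕ in atTop, B < (2 : ℝ) ^ J :=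
      (tendsto_pow_atTop_atTop_of_one_lt (by norm_num : (1 : ℝ) < 2)).eventually_gt_atTop B
    filter_upwards [hev] with J hJ
    have hr : ∀ m ∈ g, ∀ z y, rst J (a p m.2 z y) (b p m.2 z y) ≤ (1 / 2 : ℝ) ^ J := by
      intro m hm z y
      have hp : (0 : ℝ) < (1 / 2 : ℝ) ^ J := by positivity
      unfold rst
      split_ifs with hc
      · exact hp.le
      · have h1 : b p m.2 z y < (2 : ℝ) ^ (J : ℤ) := by
          rw [zpow_natCast]; exact (hB m hm z y).trans_lt hJ
        have h2 : b p m.2 z y < (2 : ℝ) ^ (-(J : ℤ)) := by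
          by_contra h3
          exact hc ⟨not_lt.1 h3, h1⟩
        rw [zpow_neg, zpow_natCast] at h2
        have h4 : ((2 : ℝ) ^ J)⁻¹ = (1 / 2 : ℝ) ^ J := by rw [one_div, inv_pow]
        rw [h4] at h2
        exact max_le hp.le (by linarith [(hab m hm z).1.nonneg y])
    have hg : ∀ z y, gm g (fun t => rst J (a p t z y) (b p t z y)) ^ 2 ≤ (W * (1 / 2 : ℝ) ^ J) ^ 2 := by
      intro z y
      refine pow_le_pow_left₀ (gm_nonneg h fun m _ => rst_nonneg _ _ _) ?_ 2
      have e : W * (1 / 2 : ℝ) ^ J = gm g fun _ => (1 / 2 : ℝ) ^ J := by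
        rw [hW]; unfold gm
        rw [← List.sum_map_mul_right]
        congr 1
        exact List.map_congr_left fun m _ => by ring
      rw [e]
      exact gm_mono h fun m hm => hr m hm z y
    unfold lR
    rw [abs_mul]
    refine mul_le_mul_of_nonneg_left ?_ (abs_nonneg _)
    have pR : ∀ z, PB fun y => gm g (fun t => rst J (a p t z y) (b p t z y)) ^ 2 := fun z =>
      PBsq (PB_gm h (F := fun t y => rst J (a p t z y) (b p t z y)) fun m hm =>
        PB_rst (hab m hm z).1 (hab m hm z).2 J)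
    have h0 : 0 ≤ I (fun y => ∑ z, gm g (fun t => rst J (a p t z y) (b p t z y)) ^ 2) :=
      I_nonneg fun y => Finset.sum_nonneg fun z _ => sq_nonneg _
    rw [abs_of_nonneg h0]
    have h5 : I (fun y => ∑ z, gm g (fun t => rst J (a p t z y) (b p t z y)) ^ 2) ≤
        I (fun _ => Fintype.card δ * (W * (1 / 2 : ℝ) ^ J) ^ 2) := by
      refine I_mono (PB.sum Finset.univ fun z _ => pR z).integrableOn
        (PB.const (by positivity)).integrableOn fun y => ?_
      refine (Finset.sum_le_sum fun z _ => hg z y).trans (le_of_eq ?_)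
      rw [Finset.sum_const, Finset.card_univ, nsmul_eq_mul]
    refine h5.trans (le_of_eq ?_)
    simp [I]
  have hlim : Tendsto (fun J : ℕ => |ω p| * (Fintype.card δ * (W * (1 / 2 : ℝ) ^ J) ^ 2)) atTop
      (𝓝 0) := by
    have h1 : Tendsto (fun J : ℕ => (1 / 2 : ℝ) ^ J) atTop (𝓝 0) :=
      tendsto_pow_atTop_nhds_zero_of_lt_one (by norm_num) (by norm_num)
    have h2 := (((h1.const_mul W).pow 2).const_mul (Fintype.card δ : ℝ)).const_mul |ω p|
    simpa using h2
  exact squeeze_zero_norm' hbound hlim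

end loc

/-! ### the group walk -/

lemma GS_tendsto {loc : ℕ → ℕ → Gp Λ κ → ℝ} (h : ∀ p g, GOk g → (∀ m ∈ g, isB p m.2 = true) →
    Tendsto (fun J => loc J p g) atTop (𝓝 0)) (n p : ℕ) (g : Gp Λ κ) (hg : GOk g) :
    Tendsto (fun J => GS (loc J) n p g) atTop (𝓝 0) := by
  induction n generalizing p g with
  | zero => simp only [GS]; exact tendsto_const_nhds
  | succ n ih =>
    unfold GS
    by_cases hp : p = 0
    · simp only [if_pos hp]; exact tendsto_const_nhds
    · simp only [if_neg hp]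
      have h1 := h p (gB p g) hg.gB fun m hm => (mem_gB hm).2
      have h2 := ih p (gC p g) hg.gC
      have h3 := ih (p - 1) (gR p g) hg.gR
      have := (h1.add h2).add h3
      simpa using this

lemma GS_sum {ι : Type*} (s : Finset ι) (loc : ι → ℕ → Gp Λ κ → ℝ) (n p : ℕ) (g : Gp Λ κ) :
    GS (fun p g => ∑ j ∈ s, loc j p g) n p g = ∑ j ∈ s, GS (loc j) n p g := by
  classical
  induction s using Finset.induction_on with
  | empty =>
    simp only [Finset.sum_empty]
    have := GS_smul (0 : ℝ) (fun (_ : ℕ) (_ : Gp Λ κ) => (0 : ℝ)) n p g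
    simpa using this
  | insert j s hj ih =>
    simp only [Finset.sum_insert hj]
    rw [GS_add, ih]

/-- **Minkowski over the dyadic heights** -/
theorem GS_mink {ω : ℕ → ℝ} (hω : ∀ p, 0 ≤ ω p) {a b : ℕ → DT Λ κ → δ → ℝ → ℝ}
    (hab : ∀ p g, GOk g → (∀ m ∈ g, isB p m.2 = true) → ABOk a b p g)
    {r A : ℤ → ℝ} (hr : ∀ j, 0 < r j) {R S : ℝ} (hR : ∀ s : Finset ℤ, ∑ j ∈ s, r j ≤ R)
    (hS : ∀ s : Finset ℤ, ∑ j ∈ s, A j / r j ≤ S) {n p : ℕ} {g : Gp Λ κ} (hg : GOk g)
    (hA : ∀ j : ℤ, GS (lT ω a b (2 ^ (j + 1))) n p g ≤ A j) :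
    GS (lG ω a b) n p g ≤ 26 * R * S := by
  have hstep : ∀ J : ℕ, GS (lG ω a b) n p g ≤ 26 * R * S + 2 * GS (lR ω a b J) n p g := by
    intro J
    set s := Finset.Ico (-(J : ℤ)) J with hs
    have h1 : GS (lG ω a b) n p g ≤ GS (fun p g => 26 * (∑ j ∈ s, r j) *
        (∑ j ∈ s, lT ω a b (2 ^ (j + 1)) p g / r j) + 2 * lR ω a b J p g) n p g :=
      GS_mono (fun p g hg hb => lG_le (hω p) hg.c (hab p g hg hb) hr J) n p g hg
    refine h1.trans ?_
    rw [GS_add, GS_smul, GS_smul, GS_sum]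
    have e : ∀ j ∈ s, GS (fun p g => lT ω a b (2 ^ (j + 1)) p g / r j) n p g =
        GS (lT ω a b (2 ^ (j + 1))) n p g / r j := by
      intro j _
      have := GS_smul (r j)⁻¹ (lT ω a b (2 ^ (j + 1))) n p g
      rw [div_eq_inv_mul, ← this]
      congr 1
      funext p g
      rw [div_eq_inv_mul]
    rw [Finset.sum_congr rfl e]
    refine add_le_add ?_ le_rfl
    have hRs0 : 0 ≤ ∑ j ∈ s, r j := Finset.sum_nonneg fun j _ => (hr j).le
    have hT0 : ∀ j : ℤ, 0 ≤ GS (lT ω a b (2 ^ (j + 1))) n p g := fun j =>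
      GS_nonneg (fun p g hg hb => mul_nonneg (hω p) (I_nonneg fun y => Finset.sum_nonneg fun z _ =>
        (PB_dsum hg.c (hab p g hg hb) (zpow_pos (by norm_num) _).le z).nonneg y)) n p g hg
    have h2 : ∑ j ∈ s, GS (lT ω a b (2 ^ (j + 1))) n p g / r j ≤ S :=
      (Finset.sum_le_sum fun j _ => div_le_div_of_nonneg_right (hA j) (hr j).le).trans (hS s)
    have h3 : 0 ≤ ∑ j ∈ s, GS (lT ω a b (2 ^ (j + 1))) n p g / r j :=
      Finset.sum_nonneg fun j _ => div_nonneg (hT0 j) (hr j).le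
    have h4 : (∑ j ∈ s, r j) * (∑ j ∈ s, GS (lT ω a b (2 ^ (j + 1))) n p g / r j) ≤ R * S :=
      mul_le_mul (hR s) h2 h3 (hRs0.trans (hR s))
    rw [mul_assoc, mul_assoc]
    exact mul_le_mul_of_nonneg_left h4 (by norm_num)
  have hlim : Tendsto (fun J : ℕ => 26 * R * S + 2 * GS (lR ω a b J) n p g) atTop
      (𝓝 (26 * R * S + 2 * 0)) :=
    ((GS_tendsto (fun p g hg hb => lR_tendsto hg.c (hab p g hg hb)) n p g hg).const_mul 2).const_add _
  rw [mul_zero, add_zero] at hlim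
  exact ge_of_tendsto' hlim hstep

/-! ### kernels -/

lemma I_dsum {g : Gp Λ κ} (hc : ∀ m ∈ g, 0 ≤ m.1) {F : ℝ × DT Λ κ → ℝ × DT Λ κ → ℝ → ℝ}
    (hF : ∀ m ∈ g, ∀ m' ∈ g, PB (F m m')) :
    I (fun y => dsum g (fun m => m.1) fun m m' => F m m' y) =
      (g.map fun m => (g.map fun m' => m.1 * m'.1 * I (F m m')).sum).sum := by
  unfold dsum
  rw [I_list g (F := fun m y => (g.map fun m' => m.1 * m'.1 * F m m' y).sum) fun m hm =>
    PB_list g (F := fun m' y => m.1 * m'.1 * F m m' y) fun m' hm' =>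
      (hF m hm m' hm').smul (mul_nonneg (hc m hm) (hc m' hm'))]
  congr 1
  refine List.map_congr_left fun m hm => ?_
  rw [I_list g (F := fun m' y => m.1 * m'.1 * F m m' y) fun m' hm' =>
      (hF m hm m' hm').smul (mul_nonneg (hc m hm) (hc m' hm'))]
  congr 1
  exact List.map_congr_left fun m' hm' => I_smul _ _

lemma list_sum_comm {ι α : Type*} (L : List ι) (s : Finset α) (f : α → ι → ℝ) :
    (L.map fun i => ∑ z ∈ s, f z i).sum = ∑ z ∈ s, (L.map (f z)).sum := by
  induction L with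
  | nil => simp
  | cons i L ih => simp only [List.map_cons, List.sum_cons]; rw [ih, Finset.sum_add_distrib]

lemma dsum_sum (g : Gp Λ κ) (F : δ → ℝ × DT Λ κ → ℝ × DT Λ κ → ℝ) :
    ∑ z, dsum g (fun m => m.1) (F z) = dsum g (fun m => m.1) fun m m' => ∑ z, F z m m' := by
  unfold dsum
  rw [← list_sum_comm]
  congr 1
  refine List.map_congr_left fun m _ => ?_
  rw [← list_sum_comm]
  congr 1
  exact List.map_congr_left fun m' _ => (Finset.mul_sum _ _ _).symm

lemma ker_smul (ω : ℕ → ℝ) (k : ℕ → DT Λ κ → DT Λ κ → ℝ) (p : ℕ) (g : Gp Λ κ) :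
    ker (fun p t t' => ω p * k p t t') p g g = ω p * ker k p g g := by
  unfold Xfer36.ker
  rw [← List.sum_map_mul_left]
  congr 1
  refine List.map_congr_left fun m _ => ?_
  rw [← List.sum_map_mul_left]
  congr 1
  exact List.map_congr_left fun m' _ => by ring

/-- the local term `lT` is the form of a kernel -/
lemma lT_eq_ker {ω : ℕ → ℝ} {a b : ℕ → DT Λ κ → δ → ℝ → ℝ} {p : ℕ} {g : Gp Λ κ}
    (hc : ∀ m ∈ g, 0 ≤ m.1) (hab : ABOk a b p g) {c : ℝ} (hc0 : 0 ≤ c) :
    lT ω a b c p g = ker (fun p t t' => ω p * I fun y => ∑ z,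
      gk c (a p t z y) (b p t z y) (a p t' z y) (b p t' z y)) p g g := by
  rw [ker_smul ω (fun p t t' => I fun y => ∑ z,
      gk c (a p t z y) (b p t z y) (a p t' z y) (b p t' z y))]
  unfold lT
  congr 1
  have e : (fun y => ∑ z, dsum g (fun m => m.1) fun m m' =>
      gk c (a p m.2 z y) (b p m.2 z y) (a p m'.2 z y) (b p m'.2 z y)) =
      fun y => dsum g (fun m => m.1) fun m m' => ∑ z,
        gk c (a p m.2 z y) (b p m.2 z y) (a p m'.2 z y) (b p m'.2 z y) := by
    funext y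
    exact dsum_sum g fun z m m' =>
      gk c (a p m.2 z y) (b p m.2 z y) (a p m'.2 z y) (b p m'.2 z y)
  rw [e, I_dsum hc (F := fun m m' y => ∑ z,
    gk c (a p m.2 z y) (b p m.2 z y) (a p m'.2 z y) (b p m'.2 z y)) fun m hm m' hm' =>
    PB.sum Finset.univ fun z _ => PB_gk (hab m hm z).1 (hab m hm z).2 (hab m' hm' z).1
      (hab m' hm' z).2 hc0]
  rfl

lemma gm_sq (g : Gp Λ κ) (F : DT Λ κ → ℝ) :
    gm g F ^ 2 = dsum g (fun m => m.1) fun m m' => F m.2 * F m'.2 := by
  unfold gm dsum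
  rw [pow_two, ← List.sum_map_mul_right]
  congr 1
  refine List.map_congr_left fun m _ => ?_
  rw [← List.sum_map_mul_left]
  congr 1
  exact List.map_congr_left fun m' _ => by ring

/-- the local term `lG` is the form of a kernel -/
lemma lG_eq_ker {ω : ℕ → ℝ} {a b : ℕ → DT Λ κ → δ → ℝ → ℝ} {p : ℕ} {g : Gp Λ κ}
    (hc : ∀ m ∈ g, 0 ≤ m.1) (hab : ABOk a b p g) :
    lG ω a b p g = ker (fun p t t' => ω p * I fun y => ∑ z,
      max 0 (b p t z y - a p t z y) * max 0 (b p t' z y - a p t' z y)) p g g := by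
  rw [ker_smul ω (fun p t t' => I fun y => ∑ z,
      max 0 (b p t z y - a p t z y) * max 0 (b p t' z y - a p t' z y))]
  unfold lG
  congr 1
  have e : (fun y => ∑ z, gm g (fun t => max 0 (b p t z y - a p t z y)) ^ 2) =
      fun y => dsum g (fun m => m.1) fun m m' => ∑ z,
        max 0 (b p m.2 z y - a p m.2 z y) * max 0 (b p m'.2 z y - a p m'.2 z y) := by
    funext y
    rw [← dsum_sum g fun z m m' =>
      max 0 (b p m.2 z y - a p m.2 z y) * max 0 (b p m'.2 z y - a p m'.2 z y)]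
    exact Finset.sum_congr rfl fun z _ => gm_sq g _
  rw [e, I_dsum hc (F := fun m m' y => ∑ z,
    max 0 (b p m.2 z y - a p m.2 z y) * max 0 (b p m'.2 z y - a p m'.2 z y)) fun m hm m' hm' =>
    PB.sum Finset.univ fun z _ => (PB_pos (hab m hm z).1 (hab m hm z).2).mul
      (PB_pos (hab m' hm' z).1 (hab m' hm' z).2)]
  rfl

end Crest.Agent.R4P.MinkG16
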