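import Crest.Agent.R4P.ModeR_16

/-!
R4 (S0004) with powers, helper16: **the join with adaptive scales** (T3).

* `Vp` : value of a part; `liftP` : a part is lifted to the scale `σ`; `joinS` : the join.
-/

set_option autoImplicit false
set_option linter.unusedVariables false
set_option linter.unusedSectionVars false

namespace Crest.Agent.R4P.ModeR16

open Crest.Agent.R4P.Mode940 Crest.Agent.R4P.ModeG51

/-- value of a part : scale, mode, short part, total -/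
noncomputable def Vp (δ σ : ℝ) (h : Prop) (A T : ℝ) : ℝ :=
  2 * (σ ^ 2 * U h (A / σ)) + 4 * (T - A) ^ 2 + Ld δ * σ * T

/-- a part is lifted to the scale `σ` -/
lemma liftP {δ σ₁ σ A₁ A T D₁ D P₁ Q : ℝ} {h₁ : Prop} (hδ : 0 < δ) (hσ₁ : 0 < σ₁)
    (hA₁ : 0 ≤ A₁) (hA₁T : A₁ ≤ T) (hA : 0 ≤ A) (hAT : A ≤ T) (hT : δ * T ≤ σ₁) (hP : 0 ≤ P₁)
    (hQ0 : 0 ≤ Q) (hQ : Q ≤ 14 * (σ * A))
    (c : (σ = σ₁ ∧ A = A₁ ∧ D = D₁ ∧ Q = P₁) ∨ (2 * σ₁ ≤ σ ∧ D + σ₁ * (T - A₁) ≤ D₁)) :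
    Vp δ σ₁ h₁ A₁ T + 2 * on ((σ = σ₁ ∧ h₁) ∨ (σ ≠ σ₁ ∧ 2 * σ ≤ A)) Q + 8 / δ * D ≤
      Vp δ σ ((σ = σ₁ ∧ h₁) ∨ (σ ≠ σ₁ ∧ 2 * σ ≤ A)) A T + 2 * on h₁ P₁ + 8 / δ * D₁ := by
  rcases c with ⟨e1, e2, e3, e4⟩ | ⟨c1, c2⟩
  · subst e1; subst e2; subst e3; subst e4
    have : ((σ = σ ∧ h₁) ∨ (σ ≠ σ ∧ 2 * σ ≤ A)) = h₁ := by
      apply propext; simp
    rw [this]
  · have hσ : 0 < σ := by linarith
    have ne : σ ≠ σ₁ := by linarith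
    have eh : ((σ = σ₁ ∧ h₁) ∨ (σ ≠ σ₁ ∧ 2 * σ ≤ A)) = (2 * σ ≤ A) := by
      apply propext; simp [ne]
    rw [eh]
    have b := born1S (σ := σ) (h := 2 * σ ≤ A) hσ hA id hQ
    have k := U_keep (h := h₁) hδ hσ₁ hA₁ hA₁T hT
    have L0 := Ld_pos hδ
    have t0 : 0 ≤ T := hA.trans hAT
    have q1 : Ld δ * σ₁ * T + Ld δ * σ₁ * T ≤ Ld δ * σ * T := by
      have : 0 ≤ Ld δ * T := mul_nonneg (by linarith) t0
      nlinarith
    have Y0 : 0 ≤ T - A₁ := by linarith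
    have q2 : 4 * (T - A₁) ^ 2 ≤ 4 / δ * (σ₁ * (T - A₁)) := by
      have h1 : T - A₁ ≤ σ₁ / δ := by
        rw [le_div_iff₀ hδ]
        nlinarith [mul_nonneg hδ.le hA₁]
      have h2 := mul_le_mul_of_nonneg_right h1 Y0
      have e : 4 / δ * (σ₁ * (T - A₁)) = 4 * (σ₁ / δ * (T - A₁)) := by ring
      rw [e]
      nlinarith
    have q3 : 0 ≤ σ₁ * (T - A₁) := mul_nonneg hσ₁.le Y0
    have q4 : 4 / δ * (σ₁ * (T - A₁)) ≤ 8 / δ * (D₁ - D) := by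
      have h1 : σ₁ * (T - A₁) ≤ D₁ - D := by linarith
      have h2 : 4 / δ ≤ 8 / δ := div_le_div_of_nonneg_right (by norm_num) hδ.le
      have h3 : 0 ≤ 8 / δ := by positivity
      calc 4 / δ * (σ₁ * (T - A₁)) ≤ 8 / δ * (σ₁ * (T - A₁)) := mul_le_mul_of_nonneg_right h2 q3
        _ ≤ _ := mul_le_mul_of_nonneg_left h1 h3
    have q5 : 8 / δ * (D₁ - D) = 8 / δ * D₁ - 8 / δ * D := by ring
    have q6 := on_nonneg (h := h₁) hP
    have q7 := sq_nonneg (T - A)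
    unfold Vp
    linarith

/-- the classes of a part become finer at the scale `σ` : short total `A → A' ≥ A` -/
lemma refineP {δ σ A A' T D D' P Q : ℝ} {h : Prop} (hδ : 0 < δ) (hσ : 0 < σ) (hA : 0 ≤ A)
    (hAA : A ≤ A') (hA'T : A' ≤ T) (hT : δ * T ≤ σ) (hP : 0 ≤ P) (hQ0 : 0 ≤ Q)
    (m1 : h → σ ≤ A) (m2 : ¬ h → A < 2 * σ)
    (hQ : Q ≤ P + 14 * (σ * (A' - A))) (hQ' : Q ≤ 14 * (σ * A'))
    (hD : D' + σ * (A' - A) ≤ D) :
    Vp δ σ h A T + 2 * on (2 * σ ≤ A' ∨ h) Q + 8 / δ * D' ≤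
      Vp δ σ (2 * σ ≤ A' ∨ h) A' T + 2 * on h P + 8 / δ * D := by
  have e : A + (A' - A) = A' := by ring
  have b := birthS (σ := σ) (ha := h) (a := A) (b := A' - A) (Pa := P) (P := Q) hσ hA
    (by linarith) m1 m2 hP hQ0 hQ (by rw [e]; exact hQ')
  rw [e] at b
  have q1 : 4 * (T - A) ^ 2 ≤ 4 * (T - A') ^ 2 + 8 / δ * (σ * (A' - A)) := by
    have h1 : T - A ≤ σ / δ := by
      rw [le_div_iff₀ hδ]
      nlinarith [mul_nonneg hδ.le hA]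
    have h0 : 0 ≤ A' - A := by linarith
    have h2 := mul_le_mul_of_nonneg_right h1 h0
    have e1 : 8 / δ * (σ * (A' - A)) = 8 * (σ / δ * (A' - A)) := by ring
    rw [e1]
    nlinarith [sq_nonneg (A' - A)]
  have q2 : 8 / δ * (D' + σ * (A' - A)) ≤ 8 / δ * D := mul_le_mul_of_nonneg_left hD (by positivity)
  have q3 : 8 / δ * (D' + σ * (A' - A)) = 8 / δ * D' + 8 / δ * (σ * (A' - A)) := by ring
  unfold Vp
  linarith

/-- **the join** -/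
lemma joinS {δ σ σ₁ σ₂ A₁ A₂ A₁' A₂' A₃ AL A T₁ T₂ TL D₁ D₂ D₁' D₂' D₃ DL D P₁ P₂ Q₁ Q₂ P br
    jn : ℝ}
    {h₁ h₂ hv : Prop} (hδ : 0 < δ) (hσ₁ : 0 < σ₁) (hσ₂ : 0 < σ₂) (hσ : 0 < σ)
    (a1 : 0 ≤ A₁) (a1T : A₁ ≤ T₁) (a1' : 0 ≤ A₁') (a1T' : A₁' ≤ T₁)
    (a2 : 0 ≤ A₂) (a2T : A₂ ≤ T₂) (a2' : 0 ≤ A₂') (a2T' : A₂' ≤ T₂)
    (aL : 0 ≤ AL) (aLT : AL ≤ TL) (a0 : 0 ≤ A) (hT₁ : δ * T₁ ≤ σ₁) (hT₂ : δ * T₂ ≤ σ₂)
    (hT : δ * (TL + T₁ + T₂) ≤ σ)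
    (p1 : 0 ≤ P₁) (p2 : 0 ≤ P₂) (p0 : 0 ≤ P) (q1 : 0 ≤ Q₁) (q2 : 0 ≤ Q₂)
    (q1' : Q₁ ≤ 14 * (σ * A₁')) (q2' : Q₂ ≤ 14 * (σ * A₂')) (b0 : 0 ≤ br) (jn0 : 0 ≤ jn)
    (m1 : h₁ → σ₁ ≤ A₁) (m1' : ¬ h₁ → A₁ < 2 * σ₁) (m2 : h₂ → σ₂ ≤ A₂) (m2' : ¬ h₂ → A₂ < 2 * σ₂)
    (c1 : (σ = σ₁ ∧ A₁' = A₁ ∧ D₁' = D₁ ∧ Q₁ = P₁) ∨ (2 * σ₁ ≤ σ ∧ D₁' + σ₁ * (T₁ - A₁) ≤ D₁))
    (c2 : (σ = σ₂ ∧ A₂' = A₂ ∧ D₂' = D₂ ∧ Q₂ = P₂) ∨ (2 * σ₂ ≤ σ ∧ D₂' + σ₂ * (T₂ - A₂) ≤ D₂))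
    (a3 : A₂' ≤ A₃) (a3T : A₃ ≤ T₂) (hD3 : D₃ + σ * (A₃ - A₂') ≤ D₂')
    (hS : A ≤ A₁' + A₃ + AL) (hloss : σ * (A₁' + A₃ + AL - A) ≤ jn)
    (hD : D ≤ D₁' + D₃ + DL + jn)
    (hhv : hv ↔ (σ ≤ A ∧ (2 * σ ≤ A₁' + A₃ + AL ∨ (σ = σ₁ ∧ h₁) ∨ (σ = σ₂ ∧ h₂))))
    (f1 : P ≤ Q₁ + Q₂ + 14 * (σ * (A₃ - A₂')) + 14 * (σ * min A₁' A₃) + 14 * (σ * AL) + br)
    (f2 : P ≤ Q₁ + 14 * (σ * (A₃ + AL)) + br)
    (f3 : P ≤ Q₂ + 14 * (σ * (A₃ - A₂')) + 14 * (σ * (A₁' + AL)) + br)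
    (f4 : P ≤ 14 * (σ * A)) :
    2 * on hv P + 8 / δ * D + Vp δ σ₁ h₁ A₁ T₁ + Vp δ σ₂ h₂ A₂ T₂ ≤
      2 * on h₁ P₁ + 2 * on h₂ P₂ + 8 / δ * (D₁ + D₂) + Vp δ σ hv A (TL + T₁ + T₂) +
        2 * on hv br + (8 / δ + Ld δ) * jn + 8 / δ * DL := by
  have s2 : 0 < σ ^ 2 := by positivity
  have l1 := liftP (h₁ := h₁) hδ hσ₁ a1 a1T a1' a1T' hT₁ p1 q1 q1' c1
  have l2 := liftP (h₁ := h₂) hδ hσ₂ a2 a2T a2' a2T' hT₂ p2 q2 q2' c2
  set ha : Prop := (σ = σ₁ ∧ h₁) ∨ (σ ≠ σ₁ ∧ 2 * σ ≤ A₁') with hha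
  set hb : Prop := (σ = σ₂ ∧ h₂) ∨ (σ ≠ σ₂ ∧ 2 * σ ≤ A₂') with hhb
  have ha1 : ha → σ ≤ A₁' := by
    rintro (⟨e, h⟩ | ⟨_, h⟩)
    · rcases c1 with ⟨_, e2, _⟩ | ⟨c, _⟩
      · rw [e2, e]; exact m1 h
      · linarith
    · linarith
  have ha2 : ¬ ha → A₁' < 2 * σ := by
    intro h
    by_cases e : σ = σ₁
    · rcases c1 with ⟨_, e2, _⟩ | ⟨c, _⟩
      · rw [e2, e]; exact m1' fun h' => h (Or.inl ⟨e, h'⟩)
      · linarith
    · by_contra h3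
      exact h (Or.inr ⟨e, not_lt.1 h3⟩)
  have hb1 : hb → σ ≤ A₂' := by
    rintro (⟨e, h⟩ | ⟨_, h⟩)
    · rcases c2 with ⟨_, e2, _⟩ | ⟨c, _⟩
      · rw [e2, e]; exact m2 h
      · linarith
    · linarith
  have hb2 : ¬ hb → A₂' < 2 * σ := by
    intro h
    by_cases e : σ = σ₂
    · rcases c2 with ⟨_, e2, _⟩ | ⟨c, _⟩
      · rw [e2, e]; exact m2' fun h' => h (Or.inl ⟨e, h'⟩)
      · linarith
    · by_contra h3
      exact h (Or.inr ⟨e, not_lt.1 h3⟩)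
  -- refinement of the second part
  have a30 : 0 ≤ A₃ := a2'.trans a3
  set Q₃ := min (Q₂ + 14 * (σ * (A₃ - A₂'))) (14 * (σ * A₃)) with hQ3
  have x3 : 0 ≤ σ * (A₃ - A₂') := mul_nonneg hσ.le (by linarith)
  have x4 : 0 ≤ σ * A₃ := mul_nonneg hσ.le a30
  have q3 : 0 ≤ Q₃ := le_min (by linarith) (by linarith)
  have hT2' : δ * T₂ ≤ σ := by
    rcases c2 with ⟨e, _⟩ | ⟨c, _⟩
    · rw [e]; exact hT₂
    · linarith
  have l3 := refineP (h := hb) (P := Q₂) (Q := Q₃) (T := T₂) hδ hσ a2' a3 a3T hT2' q2 q3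
    hb1 hb2 (min_le_left _ _) (min_le_right _ _) hD3
  set hb' : Prop := 2 * σ ≤ A₃ ∨ hb with hhb'
  have hb1' : hb' → σ ≤ A₃ := by
    rintro (h | h)
    · linarith
    · exact (hb1 h).trans a3
  have hb2' : ¬ hb' → A₃ < 2 * σ := fun h => by
    by_contra h2
    exact h (Or.inl (not_lt.1 h2))
  set S' := A₁' + A₃ + AL with hS'
  set M : Prop := 2 * σ ≤ S' ∨ ha ∨ hb' with hM
  -- the join at the scale σ
  have o : ∀ (h : Prop) (Q : ℝ), on h (Q / σ ^ 2) = on h Q / σ ^ 2 := by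
    intro h Q
    unfold on
    split_ifs
    · rfl
    · simp
  have on0 : ∀ (h : Prop) (Q : ℝ), 0 ≤ Q → 0 ≤ on h Q := fun h Q hQ => on_nonneg hQ
  have mn : min (A₁' / σ) (A₃ / σ) = min A₁' A₃ / σ := by
    rcases le_total A₁' A₃ with h | h
    · rw [min_eq_left h, min_eq_left (div_le_div_of_nonneg_right h hσ.le)]
    · rw [min_eq_right h, min_eq_right (div_le_div_of_nonneg_right h hσ.le)]
  have mn0 := le_min a1' a30
  have y1 : 0 ≤ σ * min A₁' A₃ := mul_nonneg hσ.le mn0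
  have y2 : 0 ≤ σ * AL := mul_nonneg hσ.le aL
  have y3 : 0 ≤ σ * A₁' := mul_nonneg hσ.le a1'
  have g1 : on hv P ≤ Q₁ + Q₃ + 14 * (σ * min A₁' A₃) + 14 * (σ * AL) + on hv br := by
    unfold on
    split_ifs
    · have h1 : P - Q₁ - 14 * (σ * min A₁' A₃) - 14 * (σ * AL) - br ≤ Q₃ := by
        refine le_min (by linarith) ?_
        have : σ * (A₃ + AL) = σ * A₃ + σ * AL := by ring
        rw [this] at f2
        linarith
      linarith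
    · linarith
  have g2 : on hv P ≤ Q₁ + 14 * (σ * (A₃ + AL)) + on hv br := by
    have : σ * (A₃ + AL) = σ * A₃ + σ * AL := by ring
    unfold on
    split_ifs
    · exact f2
    · rw [this]; linarith
  have g3 : on hv P ≤ Q₃ + 14 * (σ * (A₁' + AL)) + on hv br := by
    have e : σ * (A₁' + AL) = σ * A₁' + σ * AL := by ring
    unfold on
    split_ifs
    · have h1 : P - 14 * (σ * (A₁' + AL)) - br ≤ Q₃ := by
        refine le_min (by linarith) ?_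
        have h2 : σ * A ≤ σ * S' := mul_le_mul_of_nonneg_left hS hσ.le
        have h3 : σ * S' = σ * A₁' + σ * A₃ + σ * AL := by rw [hS']; ring
        rw [e]
        linarith
      linarith
    · rw [e]; linarith
  have J := join3 (ha := ha) (hb := hb') (a := A₁' / σ) (b := A₃ / σ) (l := AL / σ)
    (Pa := Q₁ / σ ^ 2) (Pb := Q₃ / σ ^ 2) (P := on hv P / σ ^ 2) (e := on hv br / σ ^ 2)
    (by positivity) (by positivity) (by positivity) (div_nonneg (on0 _ _ b0) s2.le)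
    (fun h => by rw [le_div_iff₀ hσ, one_mul]; exact ha1 h)
    (fun h => by rw [le_div_iff₀ hσ, one_mul]; exact hb1' h)
    (fun h => by rw [div_lt_iff₀ hσ]; exact ha2 h)
    (fun h => by rw [div_lt_iff₀ hσ]; exact hb2' h)
    (by positivity) (by positivity) (div_nonneg (on0 _ _ p0) s2.le)
    (by
      rw [mn, div_le_iff₀ s2]
      have e : (Q₁ / σ ^ 2 + Q₃ / σ ^ 2 + 14 * (min A₁' A₃ / σ) + 14 * (AL / σ) +
          on hv br / σ ^ 2) * σ ^ 2 = Q₁ + Q₃ + 14 * (σ * min A₁' A₃) + 14 * (σ * AL) +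
          on hv br := by field_simp
      rw [e]
      exact g1)
    (by
      rw [div_le_iff₀ s2]
      have e : (Q₁ / σ ^ 2 + 14 * (A₃ / σ + AL / σ) + on hv br / σ ^ 2) * σ ^ 2 =
          Q₁ + 14 * (σ * (A₃ + AL)) + on hv br := by field_simp
      rw [e]
      exact g2)
    (by
      rw [div_le_iff₀ s2]
      have e : (Q₃ / σ ^ 2 + 14 * (A₁' / σ + AL / σ) + on hv br / σ ^ 2) * σ ^ 2 =
          Q₃ + 14 * (σ * (A₁' + AL)) + on hv br := by field_simp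
      rw [e]
      exact g3)
    (by
      rw [div_le_iff₀ s2]
      have e : (14 * (A₁' / σ + A₃ / σ + AL / σ) + on hv br / σ ^ 2) * σ ^ 2 =
          14 * (σ * S') + on hv br := by rw [hS']; field_simp
      rw [e]
      have h1 : σ * A ≤ σ * S' := mul_le_mul_of_nonneg_left hS hσ.le
      have h2 : 0 ≤ σ * A := by positivity
      have h3 := on0 hv br b0
      unfold on at h3 ⊢
      split_ifs at h3 ⊢
      · linarith
      · linarith)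
  have eS : A₁' / σ + A₃ / σ + AL / σ = S' / σ := by rw [hS']; ring
  have eM : (2 ≤ S' / σ ∨ ha ∨ hb') = M := by rw [hM, le_div_iff₀ hσ]
  rw [eS, eM] at J
  have J' := mul_le_mul_of_nonneg_left J s2.le
  have e1 : σ ^ 2 * (on M (on hv P / σ ^ 2) + U ha (A₁' / σ) + U hb' (A₃ / σ)) =
      on M (on hv P) + σ ^ 2 * U ha (A₁' / σ) + σ ^ 2 * U hb' (A₃ / σ) := by
    rw [o]; field_simp
  have e2 : σ ^ 2 * (on ha (Q₁ / σ ^ 2) + on hb' (Q₃ / σ ^ 2) + U M (S' / σ) +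
      on M (on hv br / σ ^ 2)) = on ha Q₁ + on hb' Q₃ + σ ^ 2 * U M (S' / σ) +
      on M (on hv br) := by
    rw [o, o, o]; field_simp
  rw [e1, e2] at J'
  -- the mode
  have hvM : hv → M := by
    intro h
    rcases (hhv.1 h).2 with h | h | h
    · exact Or.inl h
    · exact Or.inr (Or.inl (Or.inl h))
    · exact Or.inr (Or.inr (Or.inr (Or.inl h)))
  have Mhv : M → ¬ hv → A < σ := by
    intro h hn
    by_contra h3
    apply hn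
    rw [hhv]
    refine ⟨not_lt.1 h3, ?_⟩
    rcases h with h | (h | ⟨_, h⟩) | h | (h | ⟨_, h⟩)
    · exact Or.inl h
    · exact Or.inr (Or.inl h)
    · exact Or.inl (by rw [hS']; linarith)
    · exact Or.inl (by rw [hS']; linarith)
    · exact Or.inr (Or.inr h)
    · exact Or.inl (by rw [hS']; linarith)
  have hST : S' ≤ TL + T₁ + T₂ := by rw [hS']; linarith
  have hAS : A / σ ≤ S' / σ := div_le_div_of_nonneg_right hS hσ.le
  have hSδ : S' / σ ≤ 1 / δ := by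
    rw [div_le_div_iff₀ hσ hδ, one_mul, mul_comm]
    exact (mul_le_mul_of_nonneg_left hST hδ.le).trans hT
  have lo := lossU (M := M) (h := hv) hAS (by positivity) hSδ hvM
    (fun h h' => by rw [div_lt_iff₀ hσ, one_mul]; exact Mhv h h')
  have lo' := mul_le_mul_of_nonneg_left lo s2.le
  have e3 : σ ^ 2 * (U hv (A / σ) + (100 * Real.log (1 + 1 / δ) + 200) * (S' / σ - A / σ)) =
      σ ^ 2 * U hv (A / σ) + (100 * Real.log (1 + 1 / δ) + 200) * (σ * (S' - A)) := by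
    field_simp
  rw [e3] at lo'
  have hl := logd_nonneg hδ
  have lo2 : (100 * Real.log (1 + 1 / δ) + 200) * (σ * (S' - A)) ≤
      (100 * Real.log (1 + 1 / δ) + 200) * jn := mul_le_mul_of_nonneg_left hloss (by positivity)
  -- monotone modes
  have o1 : on M (on hv P) = on hv P := by
    by_cases h : hv
    · have := hvM h
      simp [on, h, this]
    · simp [on, h]
  have o2 : on M (on hv br) = on hv br := by
    by_cases h : hv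
    · have := hvM h
      simp [on, h, this]
    · simp [on, h]
  rw [o1, o2] at J'
  -- squares
  have y1 : 0 ≤ T₁ - A₁' := by linarith
  have y2 : 0 ≤ T₂ - A₃ := by linarith
  have y3 : 0 ≤ (TL - AL) + (S' - A) := by linarith
  have sq : 4 * (T₁ - A₁') ^ 2 + 4 * (T₂ - A₃) ^ 2 ≤ 4 * (TL + T₁ + T₂ - A) ^ 2 := by
    have e : TL + T₁ + T₂ - A = (T₁ - A₁') + (T₂ - A₃) + ((TL - AL) + (S' - A)) := by
      rw [hS']; ring
    rw [e]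
    have g1 := mul_nonneg y1 y2
    have g2 := mul_nonneg y1 y3
    have g3 := mul_nonneg y2 y3
    have g4 := sq_nonneg ((TL - AL) + (S' - A))
    have e9 : 4 * ((T₁ - A₁') + (T₂ - A₃) + ((TL - AL) + (S' - A))) ^ 2 =
      4 * (T₁ - A₁') ^ 2 + 4 * (T₂ - A₃) ^ 2 + (8 * ((T₁ - A₁') * (T₂ - A₃)) +
        8 * ((T₁ - A₁') * ((TL - AL) + (S' - A))) + 8 * ((T₂ - A₃) * ((TL - AL) + (S' - A))) +
        4 * ((TL - AL) + (S' - A)) ^ 2) := by ring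
    rw [e9]
    linarith
  -- totals
  have L0 := Ld_pos hδ
  have tl : 0 ≤ Ld δ * σ * TL := mul_nonneg (mul_nonneg (by linarith) hσ.le) (aL.trans aLT)
  have hD' : 8 / δ * D ≤ 8 / δ * (D₁' + D₃ + DL + jn) := mul_le_mul_of_nonneg_left hD (by positivity)
  have eD : 8 / δ * (D₁' + D₃ + DL + jn) = 8 / δ * D₁' + 8 / δ * D₃ + 8 / δ * DL + 8 / δ * jn := by
    ring
  have eD2 : 8 / δ * (D₁ + D₂) = 8 / δ * D₁ + 8 / δ * D₂ := by ring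
  have eT : Ld δ * σ * (TL + T₁ + T₂) = Ld δ * σ * TL + Ld δ * σ * T₁ + Ld δ * σ * T₂ := by ring
  have eJ : (8 / δ + Ld δ) * jn = 8 / δ * jn + (200 * Real.log (1 + 1 / δ) + 600) * jn := by
    unfold Ld; ring
  have jl : 0 ≤ Real.log (1 + 1 / δ) * jn := mul_nonneg hl jn0
  rw [eD2, eJ]
  have eL : (100 * Real.log (1 + 1 / δ) + 200) * jn = 100 * (Real.log (1 + 1 / δ) * jn) +
    200 * jn := by ring
  have eL2 : (200 * Real.log (1 + 1 / δ) + 600) * jn = 200 * (Real.log (1 + 1 / δ) * jn) +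
    600 * jn := by ring
  rw [eL] at lo2
  rw [eL2]
  unfold Vp at l1 l2 l3 ⊢
  rw [eT]
  linarith

end Crest.Agent.R4P.ModeR16
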