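import Crest.Agent.R4P.ModeG_51

/-!
R4 (S0004) with powers, helper16: **the mode of a point with an adaptive scale** (T3: heights > 1),
the real inequalities.

A point has a total `T`, a scale `σ = 2^k` with `δ T ≤ σ`; the short part `A` (contents truncated at
`σ`) plays the mode game at the scale `σ`, the tall part `T - A` is paid by its raw square, `D` is
the member energy which pays the transfer tall → short.

* `Ld δ` : the constant of the linear term; `U_le`, `U_lift` : budgets of a part which leaves a scale.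
* `born1` : a part which is born pays itself; `birth` : birth of `b` into a part.
* `fibreS` : the column; `liftS`, `joinS` : the join.
-/

set_option autoImplicit false
set_option linter.unusedVariables false
set_option linter.unusedSectionVars false

namespace Crest.Agent.R4P.ModeR16

open Crest.Agent.R4P.Mode940 Crest.Agent.R4P.ModeG51

/-- the constant of the linear term -/
noncomputable def Ld (δ : ℝ) : ℝ := 200 * Real.log (1 + 1 / δ) + 600

lemma logd_nonneg {δ : ℝ} (hδ : 0 < δ) : 0 ≤ Real.log (1 + 1 / δ) := by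
  apply Real.log_nonneg
  have : 0 < 1 / δ := by positivity
  linarith

lemma Ld_pos {δ : ℝ} (hδ : 0 < δ) : 600 ≤ Ld δ := by
  unfold Ld
  have := logd_nonneg hδ
  linarith

lemma U_le {h : Prop} {s R : ℝ} (hs : 0 ≤ s) (hR : s ≤ R) :
    U h s ≤ (100 * Real.log (1 + R) + 86) * s := by
  have hl : 0 ≤ Real.log (1 + R) := Real.log_nonneg (by linarith)
  unfold U
  split_ifs
  · unfold ThH
    have h2 : Real.log (1 + s) ≤ Real.log (1 + R) := Real.log_le_log (by linarith) (by linarith)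
    have h3 := mul_le_mul_of_nonneg_left h2 hs
    nlinarith
  · have h1 := ThL_le hs
    have : 0 ≤ Real.log (1 + R) * s := mul_nonneg hl hs
    nlinarith

/-- a part keeps its scale : `2 σ² U(A/σ) ≤ L σ T` -/
lemma U_keep {δ σ A T : ℝ} {h : Prop} (hδ : 0 < δ) (hσ : 0 < σ) (hA : 0 ≤ A) (hAT : A ≤ T)
    (hT : δ * T ≤ σ) : 2 * (σ ^ 2 * U h (A / σ)) ≤ Ld δ * σ * T := by
  have hs : 0 ≤ A / σ := by positivity
  have h1 : A / σ ≤ 1 / δ := by
    rw [div_le_div_iff₀ hσ hδ]
    nlinarith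
  have h2 := U_le (h := h) hs h1
  have h3 := mul_le_mul_of_nonneg_left h2 (sq_nonneg σ)
  have e : σ ^ 2 * ((100 * Real.log (1 + 1 / δ) + 86) * (A / σ)) =
      (100 * Real.log (1 + 1 / δ) + 86) * (σ * A) := by field_simp
  rw [e] at h3
  have hl : 0 ≤ Real.log (1 + 1 / δ) := logd_nonneg hδ
  have h4 : σ * A ≤ σ * T := mul_le_mul_of_nonneg_left hAT hσ.le
  have h5 := mul_le_mul_of_nonneg_left h4 hl
  have h6 : 0 ≤ σ * T := mul_nonneg hσ.le (hA.trans hAT)
  unfold Ld
  nlinarith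

/-- a part leaves the scale `σ` for `σ' ≥ 2 σ`, the total may exceed `σ / δ` but not `σ' / δ` -/
lemma U_lift {δ σ σ' A T : ℝ} {h : Prop} (hδ : 0 < δ) (hδ1 : δ ≤ 1) (hσ : 0 < σ)
    (hσ' : 2 * σ ≤ σ') (hA : 0 ≤ A) (hAT : A ≤ T) (hT : δ * T ≤ σ') :
    2 * (σ ^ 2 * U h (A / σ)) + Ld δ * σ * T + 2 * (σ' * T) ≤ Ld δ * σ' * T := by
  have hT0 : 0 ≤ T := hA.trans hAT
  have hs : 0 ≤ A / σ := by positivity
  have hσ'0 : 0 < σ' := by linarith
  set r := σ' / σ with hr
  have hr2 : 2 ≤ r := by rw [hr, le_div_iff₀ hσ]; linarith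
  have h1 : A / σ ≤ r / δ := by
    rw [hr, div_div, div_le_div_iff₀ hσ (by positivity)]
    nlinarith [mul_le_mul_of_nonneg_left hAT hδ.le]
  have h2 := U_le (h := h) hs h1
  have hl : 0 ≤ Real.log (1 + 1 / δ) := logd_nonneg hδ
  have hlog : Real.log (1 + r / δ) ≤ Real.log (1 + 1 / δ) + r := by
    have e1 : 1 + r / δ ≤ (1 + 1 / δ) * Real.exp r := by
      have e2 : 1 + r ≤ Real.exp r := by linarith [Real.add_one_le_exp r]
      have e3 : (0:ℝ) ≤ 1 + 1 / δ := by positivity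
      have e4 : 1 + r / δ ≤ (1 + 1 / δ) * (1 + r) := by
        have : (1 + 1 / δ) * (1 + r) = 1 + r + 1 / δ + r / δ := by ring
        rw [this]
        have : 0 < 1 / δ := by positivity
        linarith
      exact e4.trans (mul_le_mul_of_nonneg_left e2 e3)
    have e5 := Real.log_le_log (by positivity) e1
    rwa [Real.log_mul (by positivity) (Real.exp_pos r).ne', Real.log_exp] at e5
  have h3 := mul_le_mul_of_nonneg_left h2 (sq_nonneg σ)
  have e : σ ^ 2 * ((100 * Real.log (1 + r / δ) + 86) * (A / σ)) =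
      (100 * Real.log (1 + r / δ) + 86) * (σ * A) := by field_simp
  rw [e] at h3
  have hσA : 0 ≤ σ * A := by positivity
  have h4 : (100 * Real.log (1 + r / δ) + 86) * (σ * A) ≤
      (100 * (Real.log (1 + 1 / δ) + r) + 86) * (σ * A) :=
    mul_le_mul_of_nonneg_right (by linarith) hσA
  have h5 : (100 * (Real.log (1 + 1 / δ) + r) + 86) * (σ * A) ≤
      (100 * (Real.log (1 + 1 / δ) + r) + 86) * (σ * T) :=
    mul_le_mul_of_nonneg_left (mul_le_mul_of_nonneg_left hAT hσ.le) (by positivity)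
  have es : σ' = r * σ := by rw [hr]; field_simp
  rw [es]
  have hσT : 0 ≤ σ * T := by positivity
  have h6 : 0 ≤ (r - 2) * (σ * T) := mul_nonneg (by linarith) hσT
  have h7 : 0 ≤ Real.log (1 + 1 / δ) * ((r - 2) * (σ * T)) := mul_nonneg hl h6
  unfold Ld
  nlinarith

/-- everything which is born pays itself -/
lemma born1 {h : Prop} {s : ℝ} (hs : 0 ≤ s) (h2 : h → 2 ≤ s) : on h (14 * s) ≤ U h s := by
  by_cases hh : h
  · have h1 := Mode940.born (h2 hh)
    have h3 := ThL_nonneg hs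
    simp only [on, U, hh, if_true]
    linarith
  · simp only [on, U, hh, if_false]
    exact ThL_nonneg hs

/-- birth of `b` into a part with total `a` -/
lemma birth {ha : Prop} {a b Pa P : ℝ} (a0 : 0 ≤ a) (b0 : 0 ≤ b) (ha1 : ha → 1 ≤ a)
    (ha2 : ¬ ha → a < 2) (P0a : 0 ≤ Pa) (P0 : 0 ≤ P) (f2 : P ≤ Pa + 14 * b)
    (f4 : P ≤ 14 * (a + b)) :
    on (2 ≤ a + b ∨ ha) P + U ha a ≤ on ha Pa + U (2 ≤ a + b ∨ ha) (a + b) := by
  have j := join2 (ha := ha) (hb := 2 ≤ b) (Pa := Pa) (Pb := 14 * b) (P := P) (e := 0) a0 b0 le_rfl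
    ha1 (fun h => by linarith) ha2 (fun h => not_le.1 h) P0a (by positivity) P0
    (by have := le_min a0 b0; linarith) (by linarith) (by linarith) (by linarith)
  have z0 : on (2 ≤ a + b ∨ ha ∨ 2 ≤ b) (0:ℝ) = 0 := by unfold on; split_ifs <;> rfl
  rw [z0, add_zero] at j
  have e : (2 ≤ a + b ∨ ha ∨ 2 ≤ b) = (2 ≤ a + b ∨ ha) := by
    apply propext
    constructor
    · rintro (h | h | h)
      · exact Or.inl h
      · exact Or.inr h
      · exact Or.inl (by linarith)
    · rintro (h | h)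
      · exact Or.inl h
      · exact Or.inr (Or.inl h)
  rw [e] at j
  have b1 := born1 (h := 2 ≤ b) b0 id
  linarith

/-- scaled versions -/
lemma birthS {σ : ℝ} {ha : Prop} {a b Pa P : ℝ} (hσ : 0 < σ) (a0 : 0 ≤ a) (b0 : 0 ≤ b)
    (ha1 : ha → σ ≤ a) (ha2 : ¬ ha → a < 2 * σ) (P0a : 0 ≤ Pa) (P0 : 0 ≤ P)
    (f2 : P ≤ Pa + 14 * (σ * b)) (f4 : P ≤ 14 * (σ * (a + b))) :
    on (2 * σ ≤ a + b ∨ ha) P + σ ^ 2 * U ha (a / σ) ≤
      on ha Pa + σ ^ 2 * U (2 * σ ≤ a + b ∨ ha) ((a + b) / σ) := by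
  have hs2 : 0 < σ ^ 2 := by positivity
  have j := birth (ha := ha) (a := a / σ) (b := b / σ) (Pa := Pa / σ ^ 2) (P := P / σ ^ 2)
    (by positivity) (by positivity) (fun h => by rw [le_div_iff₀ hσ, one_mul]; exact ha1 h)
    (fun h => by rw [div_lt_iff₀ hσ]; exact ha2 h) (by positivity) (by positivity)
    (by
      rw [div_le_iff₀ hs2]
      have : (Pa / σ ^ 2 + 14 * (b / σ)) * σ ^ 2 = Pa + 14 * (σ * b) := by field_simp
      rw [this]; exact f2)
    (by
      rw [div_le_iff₀ hs2]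
      have : 14 * (a / σ + b / σ) * σ ^ 2 = 14 * (σ * (a + b)) := by field_simp
      rw [this]; exact f4)
  have e1 : a / σ + b / σ = (a + b) / σ := by ring
  have e2 : (2 ≤ (a + b) / σ) = (2 * σ ≤ a + b) := propext (le_div_iff₀ hσ)
  rw [e1, e2] at j
  have k := mul_le_mul_of_nonneg_left j hs2.le
  have o : ∀ (h : Prop) (Q : ℝ), σ ^ 2 * on h (Q / σ ^ 2) = on h Q := by
    intro h Q
    unfold on
    split_ifs
    · field_simp
    · simp
  rw [mul_add, mul_add, o, o] at k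
  linarith

lemma born1S {σ : ℝ} {h : Prop} {s P : ℝ} (hσ : 0 < σ) (hs : 0 ≤ s) (h2 : h → 2 * σ ≤ s)
    (hP : P ≤ 14 * (σ * s)) : on h P ≤ σ ^ 2 * U h (s / σ) := by
  have b := born1 (h := h) (s := s / σ) (by positivity) (fun hh => by
    rw [le_div_iff₀ hσ]; exact h2 hh)
  have k := mul_le_mul_of_nonneg_left b (sq_nonneg σ)
  refine le_trans ?_ k
  unfold on
  split_ifs
  · have e : σ ^ 2 * (14 * (s / σ)) = 14 * (σ * s) := by field_simp
    rw [e]; exact hP
  · simp

/-- the fibre at the scale `σ` -/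
lemma fibreσ {ι : Type*} [Fintype ι] {u R G co PR : ι → ℝ} {β m PC e σ : ℝ} {hC : Prop}
    (hσ : 0 < σ) (hu : ∀ i, 0 ≤ u i) (hu1 : ∑ i, u i = 1) (hR : ∀ i, 0 ≤ R i) (hG : ∀ i, 0 ≤ G i)
    (hd : ∀ i, R i = β + G i) (hm : ∑ i, u i * R i = m) (hP : ∀ i, 0 ≤ PR i)
    (hPC : 0 ≤ PC) (he : 0 ≤ e) (c1 : ∀ i, co i ≤ G i ^ 2) (c2 : ∀ i, co i ≤ σ * R i)
    (hl : ¬ hC → m < 2 * σ) (bB : ∀ i, PR i ≤ 14 * (σ * R i))
    (col : ∑ i, u i * (co i + PR i) ≤ PC + e) :
    ∑ i, u i * (co i + on (2 * σ ≤ R i ∨ (σ ≤ R i ∧ hC)) (PR i)) + σ ^ 2 * U hC (m / σ) ≤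
      on hC PC + ∑ i, u i * (σ ^ 2 * U (2 * σ ≤ R i ∨ (σ ≤ R i ∧ hC)) (R i / σ)) + on hC e +
        2 * (∑ i, u i * G i) ^ 2 := by
  have s2 : 0 < σ ^ 2 := by positivity
  have o : ∀ (h : Prop) (Q : ℝ), on h (Q / σ ^ 2) = on h Q / σ ^ 2 := by
    intro h Q
    unfold on
    split_ifs
    · rfl
    · simp
  have md : ∀ i, (2 ≤ R i / σ ∨ (1 ≤ R i / σ ∧ hC)) = (2 * σ ≤ R i ∨ (σ ≤ R i ∧ hC)) := fun i => by
    rw [le_div_iff₀ hσ, le_div_iff₀ hσ, one_mul]
  have key := fibre (u := u) (S := fun i => R i / σ) (G := fun i => G i / σ)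
    (co := fun i => co i / σ ^ 2) (PB' := fun i => PR i / σ ^ 2) (β := β / σ) (m := m / σ)
    (PC := PC / σ ^ 2) (e := e / σ ^ 2) (hC := hC) hu hu1 (fun i => div_nonneg (hR i) hσ.le)
    (fun i => div_nonneg (hG i) hσ.le) (fun i => by rw [hd i, add_div])
    (by rw [← hm, Finset.sum_div]; exact Finset.sum_congr rfl fun i _ => by ring)
    (fun i => div_nonneg (hP i) s2.le) (by positivity) (by positivity)
    (fun i => by rw [div_pow]; exact div_le_div_of_nonneg_right (c1 i) s2.le)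
    (fun i => by
      rw [div_le_div_iff₀ s2 hσ]
      nlinarith [mul_le_mul_of_nonneg_right (c2 i) hσ.le])
    (fun h => by rw [div_lt_iff₀ hσ]; exact hl h)
    (fun i => by
      rw [div_le_iff₀ s2]
      have : 14 * (R i / σ) * σ ^ 2 = 14 * (σ * R i) := by field_simp
      rw [this]; exact bB i)
    (by
      have e1 : ∑ i, u i * (co i / σ ^ 2 + PR i / σ ^ 2) = (∑ i, u i * (co i + PR i)) / σ ^ 2 := by
        rw [Finset.sum_div]
        exact Finset.sum_congr rfl fun i _ => by ring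
      rw [e1, ← add_div]
      exact div_le_div_of_nonneg_right col s2.le)
  have k := mul_le_mul_of_nonneg_left key s2.le
  have e1 : σ ^ 2 * (∑ i, u i * (co i / σ ^ 2 + on (2 ≤ R i / σ ∨ (1 ≤ R i / σ ∧ hC))
      (PR i / σ ^ 2)) + U hC (m / σ)) =
      ∑ i, u i * (co i + on (2 * σ ≤ R i ∨ (σ ≤ R i ∧ hC)) (PR i)) + σ ^ 2 * U hC (m / σ) := by
    rw [mul_add, Finset.mul_sum]
    congr 1
    refine Finset.sum_congr rfl fun i _ => ?_
    rw [o, md]
    field_simp
  have e2 : σ ^ 2 * (on hC (PC / σ ^ 2) + ∑ i, u i * U (2 ≤ R i / σ ∨ (1 ≤ R i / σ ∧ hC))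
      (R i / σ) + on hC (e / σ ^ 2) + 2 * (∑ i, u i * (G i / σ)) ^ 2) =
      on hC PC + ∑ i, u i * (σ ^ 2 * U (2 * σ ≤ R i ∨ (σ ≤ R i ∧ hC)) (R i / σ)) + on hC e +
        2 * (∑ i, u i * G i) ^ 2 := by
    have e3 : ∑ i, u i * (G i / σ) = (∑ i, u i * G i) / σ := by
      rw [Finset.sum_div]
      exact Finset.sum_congr rfl fun i _ => by ring
    rw [e3, o, o]
    have e4 : ∑ i, u i * (σ ^ 2 * U (2 * σ ≤ R i ∨ (σ ≤ R i ∧ hC)) (R i / σ)) =
        σ ^ 2 * ∑ i, u i * U (2 ≤ R i / σ ∨ (1 ≤ R i / σ ∧ hC)) (R i / σ) := by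
      rw [Finset.mul_sum]
      refine Finset.sum_congr rfl fun i _ => ?_
      rw [md]
      ring
    rw [e4]
    field_simp
  rw [e1, e2] at k
  exact k

/-- join of two parts and a fresh part -/
lemma join3 {ha hb : Prop} {a b l Pa Pb P e : ℝ} (a0 : 0 ≤ a) (b0 : 0 ≤ b) (l0 : 0 ≤ l)
    (e0 : 0 ≤ e) (ha1 : ha → 1 ≤ a) (hb1 : hb → 1 ≤ b) (ha2 : ¬ ha → a < 2) (hb2 : ¬ hb → b < 2)
    (P0a : 0 ≤ Pa) (P0b : 0 ≤ Pb) (P0 : 0 ≤ P)
    (f1 : P ≤ Pa + Pb + 14 * min a b + 14 * l + e) (f2 : P ≤ Pa + 14 * (b + l) + e)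
    (f3 : P ≤ Pb + 14 * (a + l) + e) (f4 : P ≤ 14 * (a + b + l) + e) :
    on (2 ≤ a + b + l ∨ ha ∨ hb) P + U ha a + U hb b ≤
      on ha Pa + on hb Pb + U (2 ≤ a + b + l ∨ ha ∨ hb) (a + b + l) +
        on (2 ≤ a + b + l ∨ ha ∨ hb) e := by
  obtain ⟨P', hP', g1, g2, g3, g4, g6⟩ : ∃ P' : ℝ, 0 ≤ P' ∧
      P' ≤ Pa + Pb + 14 * min a b ∧ P' ≤ Pa + 14 * b ∧ P' ≤ Pb + 14 * a ∧
      P' ≤ 14 * (a + b) ∧ P ≤ P' + 14 * l + e := by
    have hm := le_min a0 b0
    refine ⟨min (min (Pa + Pb + 14 * min a b) (Pa + 14 * b)) (min (Pb + 14 * a) (14 * (a + b))),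
      ?_, ?_, ?_, ?_, ?_, ?_⟩
    · exact le_min (le_min (by positivity) (by positivity)) (le_min (by positivity) (by positivity))
    · exact (min_le_left _ _).trans (min_le_left _ _)
    · exact (min_le_left _ _).trans (min_le_right _ _)
    · exact (min_le_right _ _).trans (min_le_left _ _)
    · exact (min_le_right _ _).trans (min_le_right _ _)
    · have h1 : P - 14 * l - e ≤
          min (min (Pa + Pb + 14 * min a b) (Pa + 14 * b)) (min (Pb + 14 * a) (14 * (a + b))) := by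
        refine le_min (le_min ?_ ?_) (le_min ?_ ?_) <;> linarith
      linarith
  have j1 := join2 (e := 0) a0 b0 le_rfl ha1 hb1 ha2 hb2 P0a P0b hP' (by linarith) (by linarith)
    (by linarith) (by linarith)
  have z0 : on (2 ≤ a + b ∨ ha ∨ hb) (0:ℝ) = 0 := by unfold on; split_ifs <;> rfl
  rw [z0, add_zero] at j1
  have s0 : 0 ≤ a + b := add_nonneg a0 b0
  have j2 := join2 (ha := (2 ≤ a + b ∨ ha ∨ hb)) (hb := 2 ≤ l) (Pa := P') (Pb := 14 * l)
      (P := P) (e := e) s0 l0 e0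
      (fun h => by
        rcases h with h | h | h
        · linarith
        · linarith [ha1 h]
        · linarith [hb1 h])
      (fun h => by linarith)
      (fun h => by
        by_contra h2
        exact h (Or.inl (not_lt.1 h2)))
      (fun h => not_le.1 h) hP' (by positivity) P0
      (by
        have := le_min s0 l0
        linarith) (by linarith) (by linarith) (by linarith)
  have e3 : (2 ≤ a + b + l ∨ (2 ≤ a + b ∨ ha ∨ hb) ∨ 2 ≤ l) = (2 ≤ a + b + l ∨ ha ∨ hb) := by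
    apply propext
    constructor
    · rintro (h | (h | h) | h)
      · exact Or.inl h
      · exact Or.inl (by linarith)
      · exact Or.inr h
      · exact Or.inl (by linarith)
    · rintro (h | h)
      · exact Or.inl h
      · exact Or.inr (Or.inl (Or.inr h))
  rw [e3] at j2
  have j3 := born1 (h := 2 ≤ l) l0 id
  linarith

lemma psi_lip {s s' : ℝ} (h : s ≤ s') (h0 : 0 ≤ s) : psi s' ≤ psi s + 4 * (s' - s) := by
  unfold psi
  split_ifs with h1 h2 h2
  · nlinarith
  · push Not at h2; linarith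
  · push Not at h1
    nlinarith [sq_nonneg (s - 2)]
  · linarith

/-- mass leaves a part -/
lemma lossU {M h : Prop} {s s' R : ℝ} (hs : s ≤ s') (h0 : 0 ≤ s) (hR : s' ≤ R)
    (hM : h → M) (h1 : M → ¬ h → s < 1) :
    U M s' ≤ U h s + (100 * Real.log (1 + R) + 200) * (s' - s) := by
  have hl : 0 ≤ Real.log (1 + R) := Real.log_nonneg (by linarith)
  have d0 : 0 ≤ s' - s := by linarith
  have hH : ThH s' ≤ ThH s + (100 * Real.log (1 + R) + 100) * (s' - s) := by
    unfold ThH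
    have l1 : Real.log (1 + s') ≤ Real.log (1 + R) := Real.log_le_log (by linarith) (by linarith)
    have l2 : Real.log (1 + s') ≤ Real.log (1 + s) + (s' - s) / (1 + s) := by
      have z1 : 0 < 1 + s' := by linarith
      have z2 : 0 < 1 + s := by linarith
      have h := Real.log_le_sub_one_of_pos (x := (1 + s') / (1 + s)) (div_pos z1 z2)
      rw [Real.log_div z1.ne' z2.ne'] at h
      have e : (1 + s') / (1 + s) - 1 = (s' - s) / (1 + s) := by field_simp; ring
      rw [e] at h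
      linarith
    have l3 : s * ((s' - s) / (1 + s)) ≤ s' - s := by
      rw [← mul_div_assoc, div_le_iff₀ (by linarith)]
      nlinarith
    have l4 := mul_le_mul_of_nonneg_left l2 h0
    have l5 := mul_le_mul_of_nonneg_left l1 d0
    nlinarith
  have m0 : 0 ≤ Real.log (1 + R) * (s' - s) := mul_nonneg hl d0
  by_cases hm : M
  · by_cases hh : h
    · simp only [U, hm, hh, if_true]
      nlinarith
    · have := ThH_low h0 (h1 hm hh).le
      simp only [U, hm, hh, if_true, if_false]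
      nlinarith
  · have hh : ¬ h := fun h => hm (hM h)
    simp only [U, hm, hh, if_false]
    unfold ThL
    have := psi_lip hs h0
    have l2 : Real.log 2 ≤ 7 / 10 := by
      have := Real.log_two_lt_d9
      linarith
    have := mul_le_mul_of_nonneg_right l2 d0
    nlinarith

/-- mass leaves a part, scaled -/
lemma lossσ {M h : Prop} {A A' σ δ : ℝ} (hδ : 0 < δ) (hσ : 0 < σ) (hs : A' ≤ A) (h0 : 0 ≤ A')
    (hR : δ * A ≤ σ) (hM : h → M) (h1 : M → ¬ h → A' < σ) :
    2 * (σ ^ 2 * U M (A / σ)) ≤ 2 * (σ ^ 2 * U h (A' / σ)) + Ld δ * (σ * (A - A')) := by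
  have s2 : 0 < σ ^ 2 := by positivity
  have hA : A' / σ ≤ A / σ := div_le_div_of_nonneg_right hs hσ.le
  have hSδ : A / σ ≤ 1 / δ := by
    rw [div_le_div_iff₀ hσ hδ, one_mul, mul_comm]
    exact hR
  have lo := lossU (M := M) (h := h) hA (by positivity) hSδ hM
    (fun h h' => by rw [div_lt_iff₀ hσ, one_mul]; exact h1 h h')
  have lo' := mul_le_mul_of_nonneg_left lo s2.le
  have e3 : σ ^ 2 * (U h (A' / σ) + (100 * Real.log (1 + 1 / δ) + 200) * (A / σ - A' / σ)) =
      σ ^ 2 * U h (A' / σ) + (100 * Real.log (1 + 1 / δ) + 200) * (σ * (A - A')) := by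
    field_simp
  rw [e3] at lo'
  have hl := logd_nonneg hδ
  have x0 : 0 ≤ σ * (A - A') := mul_nonneg hσ.le (by linarith)
  have e4 : Ld δ * (σ * (A - A')) = 2 * ((100 * Real.log (1 + 1 / δ) + 200) * (σ * (A - A'))) +
      200 * (σ * (A - A')) := by
    unfold Ld; ring
  rw [e4]
  linarith

/-- **the column with adaptive scales**: `σ` = scale of the point below, `s i` = scales of the lifts;
`T, R, A = R + bt - ls` total, short row, short part at the scale `σ`; `A'` short part at the scale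
`s i`; `D, D'` member energies -/
lemma fibreS {ι : Type*} [Fintype ι] {u T R G GT bt ls jB A' D D' cost cS cT PR PB' s : ι → ℝ}
    {δ σ β bT mT mA PC DC e : ℝ} {hC : Prop} {hB : ι → Prop}
    (hδ : 0 < δ) (hδ1 : δ ≤ 1) (hσ : 0 < σ)
    (hu : ∀ i, 0 ≤ u i) (hu1 : ∑ i, u i = 1) (hR : ∀ i, 0 ≤ R i) (hG : ∀ i, 0 ≤ G i)
    (hbt : ∀ i, 0 ≤ bt i) (hls : ∀ i, 0 ≤ ls i) (hRT : ∀ i, R i + bt i ≤ T i)
    (hd : ∀ i, R i = β + G i) (hdT : ∀ i, T i = bT + GT i)
    (hmT : ∑ i, u i * T i = mT) (hmA : ∑ i, u i * R i = mA) (hmT' : δ * mT ≤ σ)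
    (hP : ∀ i, 0 ≤ PR i) (hPC : 0 ≤ PC) (he : 0 ≤ e)
    (hl : ¬ hC → mA < 2 * σ)
    (cc : ∀ i, cost i ≤ 2 * cS i + 2 * cT i) (cS0 : ∀ i, 0 ≤ cS i)
    (c1 : ∀ i, cS i ≤ G i ^ 2) (c2 : ∀ i, cS i ≤ σ * R i)
    (c4 : ∀ i, cT i ≤ (GT i - G i) ^ 2)
    (bB : ∀ i, PR i ≤ 14 * (σ * R i))
    (col : ∑ i, u i * (cS i + PR i) ≤ PC + e)
    (hjB : ∀ i, σ * ls i ≤ jB i)
    (hD : ∑ i, u i * (D i + σ * bt i) ≤ DC + ∑ i, u i * jB i)
    -- the lifts
    (lift : ∀ i, (s i = σ ∧ A' i = R i + bt i - ls i ∧ 0 ≤ A' i ∧ D' i = D i ∧ δ * T i ≤ σ ∧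
        (hB i ↔ (σ ≤ A' i ∧ (2 * σ ≤ R i + bt i ∨ (2 * σ ≤ R i ∨ (σ ≤ R i ∧ hC))))) ∧
        PB' i ≤ PR i + 14 * (σ * bt i) ∧ PB' i ≤ 14 * (σ * A' i) ∧ 0 ≤ PB' i) ∨
      (2 * σ ≤ s i ∧ 0 ≤ A' i ∧ A' i ≤ T i ∧ D' i + σ * (T i - (R i + bt i - ls i)) ≤ D i ∧
        δ * T i ≤ s i ∧ (hB i → 2 * s i ≤ A' i) ∧ PB' i ≤ 14 * (s i * A' i) ∧
        cost i ≤ 2 * (s i * A' i) + 2 * (T i - A' i) ^ 2)) :
    ∑ i, u i * (cost i + 2 * on (hB i) (PB' i) + 8 / δ * D' i) +
        (2 * (σ ^ 2 * U hC (mA / σ)) + 4 * (mT - mA) ^ 2 + Ld δ * σ * mT) ≤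
      2 * on hC PC + 8 / δ * DC +
        ∑ i, u i * (2 * (s i ^ 2 * U (hB i) (A' i / s i)) + 4 * (T i - A' i) ^ 2 +
          Ld δ * s i * T i) + 2 * on hC e + 4 * (∑ i, u i * G i) ^ 2 +
        4 * (∑ i, u i * (GT i - G i)) ^ 2 + (8 / δ + Ld δ) * ∑ i, u i * jB i := by
  classical
  have hT0 : ∀ i, 0 ≤ T i := fun i => by linarith [hR i, hbt i, hRT i]
  have hcD : 0 < 8 / δ := by positivity
  have hL0 := Ld_pos hδ
  set co : ι → ℝ := fun i => if s i = σ then cS i else 0 with hco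
  have co_le : ∀ i, co i ≤ cS i := fun i => by
    simp only [hco]; split_ifs
    · exact le_rfl
    · exact cS0 i
  have F := fibreσ (u := u) (R := R) (G := G) (co := co) (PR := PR) (β := β) (m := mA) (PC := PC)
    (e := e) (hC := hC) hσ hu hu1 hR hG hd hmA hP hPC he
    (fun i => (co_le i).trans (c1 i)) (fun i => (co_le i).trans (c2 i)) hl bB
    (le_trans (Finset.sum_le_sum fun i _ => mul_le_mul_of_nonneg_left
      (by have := co_le i; linarith) (hu i)) col)
  set mY := mT - mA with hmY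
  set Z : ι → ℝ := fun i => T i - R i with hZ
  have hZ0 : ∀ i, 0 ≤ Z i := fun i => by simp only [hZ]; linarith [hRT i, hbt i]
  have hmZ : ∑ i, u i * Z i = mY := by
    have : ∀ i, u i * Z i = u i * T i - u i * R i := fun i => by simp only [hZ]; ring
    rw [Finset.sum_congr rfl fun i _ => this i, Finset.sum_sub_distrib, hmT, hmA]
  have hmY0 : 0 ≤ mY := by
    rw [← hmZ]; exact Finset.sum_nonneg fun i _ => mul_nonneg (hu i) (hZ0 i)
  have hmA0 : 0 ≤ mA := by rw [← hmA]; exact Finset.sum_nonneg fun i _ => mul_nonneg (hu i) (hR i)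
  have hmYs : δ * mY ≤ σ := by
    have : δ * mY ≤ δ * mT := mul_le_mul_of_nonneg_left (by rw [hmY]; linarith) hδ.le
    linarith
  set g' := ∑ i, u i * (GT i - G i) with hg'
  -- Z i - mY = G' i - g'
  have hZg : ∀ i, Z i - mY = (GT i - G i) - g' := by
    have e1 : mY = (bT - β) + g' := by
      rw [← hmZ, hg']
      have : ∀ i, u i * Z i = (bT - β) * u i + u i * (GT i - G i) := fun i => by
        simp only [hZ]; rw [hd i, hdT i]; ring
      rw [Finset.sum_congr rfl fun i _ => this i, Finset.sum_add_distrib, ← Finset.mul_sum, hu1,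
        mul_one]
    intro i
    have e2 : Z i = (bT - β) + (GT i - G i) := by simp only [hZ]; rw [hd i, hdT i]; ring
    rw [e1, e2]; ring
  set md : ι → Prop := fun i => (2 * σ ≤ R i ∨ (σ ≤ R i ∧ hC)) with hmd
  -- the pointwise inequality
  have key : ∀ i, cost i + 2 * on (hB i) (PB' i) + 8 / δ * D' i +
      2 * (σ ^ 2 * U (md i) (R i / σ)) + (8 * mY * Z i - 4 * mY ^ 2) + Ld δ * σ * T i ≤
      (2 * (s i ^ 2 * U (hB i) (A' i / s i)) + 4 * (T i - A' i) ^ 2 + Ld δ * s i * T i) +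
      2 * (co i + on (md i) (PR i)) + 8 / δ * (D i + σ * bt i) + 4 * g' ^ 2 + Ld δ * jB i := by
    intro i
    rcases lift i with ⟨l1, l2, l0, l3, l4, l5, l6, l7, l8⟩ | ⟨l1, l2, l3, l4, l5, l6, l7, l8⟩
    · -- the same scale
      have ec : co i = cS i := by simp only [hco, l1, if_true]
      have hA'R : A' i ≤ R i + bt i := by rw [l2]; linarith [hls i]
      have md1 : md i → σ ≤ R i := fun h => h.elim (fun h => by linarith) fun h => h.1
      have b := birthS (σ := σ) (ha := md i) (a := R i) (b := bt i) (Pa := PR i)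
        (P := on (hB i) (PB' i)) hσ
        (hR i) (hbt i) md1
        (fun h => by
          by_contra h2
          exact h (Or.inl (not_lt.1 h2))) (hP i) (on_nonneg l8)
        (by
          have q0 : 0 ≤ PR i + 14 * (σ * bt i) := by
            have := mul_nonneg hσ.le (hbt i)
            have := hP i
            linarith
          unfold on
          split_ifs
          · exact l6
          · exact q0)
        (by
          have q0 : 0 ≤ σ * (R i + bt i) := mul_nonneg hσ.le (add_nonneg (hR i) (hbt i))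
          have q1 : σ * A' i ≤ σ * (R i + bt i) := mul_le_mul_of_nonneg_left hA'R hσ.le
          unfold on
          split_ifs
          · linarith
          · linarith)
      have hBM : hB i → (2 * σ ≤ R i + bt i ∨ md i) := fun h => (l5.1 h).2
      have o1 : on (2 * σ ≤ R i + bt i ∨ md i) (on (hB i) (PB' i)) = on (hB i) (PB' i) := by
        by_cases h : hB i
        · have := hBM h
          simp only [on, h, this, if_true]
        · simp only [on, h, if_false, ite_self]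
      rw [o1] at b
      have lo := lossσ (M := (2 * σ ≤ R i + bt i ∨ md i)) (h := hB i) (A := R i + bt i)
        (A' := A' i) hδ hσ hA'R l0
        ((mul_le_mul_of_nonneg_left (hRT i) hδ.le).trans l4) hBM
        (fun h h' => by
          by_contra h3
          exact h' (l5.2 ⟨not_lt.1 h3, h⟩))
      have e9 : σ * (R i + bt i - A' i) = σ * ls i := by rw [l2]; ring
      rw [e9] at lo
      have lo2 : Ld δ * (σ * ls i) ≤ Ld δ * jB i :=
        mul_le_mul_of_nonneg_left (hjB i) (by linarith)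
      rw [l1, l3, ec]
      have q1 := c4 i
      have q2 := cc i
      have q3 : (GT i - G i) ^ 2 ≤ 2 * (Z i - mY) ^ 2 + 2 * g' ^ 2 := by
        rw [hZg i]
        have := sq_nonneg ((GT i - G i) - 2 * g')
        have e9 : 2 * ((GT i - G i) - g') ^ 2 + 2 * g' ^ 2 - (GT i - G i) ^ 2 =
          ((GT i - G i) - 2 * g') ^ 2 := by ring
        linarith
      -- the square of the tall part
      have q4 : Z i * bt i ≤ σ / δ * bt i := by
        refine mul_le_mul_of_nonneg_right ?_ (hbt i)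
        rw [le_div_iff₀ hδ]
        have h1 : Z i ≤ T i := by simp only [hZ]; linarith [hR i]
        have h2 := mul_le_mul_of_nonneg_left h1 hδ.le
        linarith
      have y0 : 0 ≤ Z i - bt i := by simp only [hZ]; linarith [hRT i]
      have q9 : 4 * (Z i - bt i) ^ 2 ≤ 4 * (T i - A' i) ^ 2 := by
        have e1 : T i - A' i = (Z i - bt i) + ls i := by rw [l2]; simp only [hZ]; ring
        rw [e1]
        have h1 := hls i
        have h2 := mul_nonneg y0 h1
        have e2 : 4 * ((Z i - bt i) + ls i) ^ 2 = 4 * (Z i - bt i) ^ 2 +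
          8 * ((Z i - bt i) * ls i) + 4 * ls i ^ 2 := by ring
        rw [e2]
        have := sq_nonneg (ls i)
        linarith
      have q5 : 8 / δ * (D i + σ * bt i) = 8 / δ * D i + 8 * (σ / δ * bt i) := by
        field_simp
      rw [q5]
      have q6 : 4 * (Z i - bt i) ^ 2 = 4 * Z i ^ 2 - 8 * (Z i * bt i) + 4 * bt i ^ 2 := by ring
      have q7 : 4 * (Z i - mY) ^ 2 + (8 * mY * Z i - 4 * mY ^ 2) = 4 * Z i ^ 2 := by ring
      have q8 := sq_nonneg (bt i)
      linarith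
    · -- the scale changes
      have hs : 0 < s i := by linarith
      have ne : s i ≠ σ := by linarith
      have ec : co i = 0 := by simp only [hco, ne, if_false]
      have b := born1S (σ := s i) (h := hB i) (s := A' i) (P := PB' i) hs l2 l6 l7
      have L := U_lift (h := md i) hδ hδ1 hσ l1 (hR i)
        (show R i ≤ T i by linarith [hRT i, hbt i]) l5
      have q1 : s i * A' i ≤ s i * T i := mul_le_mul_of_nonneg_left l3 hs.le
      have q2 : mY * Z i ≤ σ / δ * Z i := by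
        refine mul_le_mul_of_nonneg_right ?_ (hZ0 i)
        rw [le_div_iff₀ hδ]
        linarith
      have q10 : 0 ≤ σ * ls i := mul_nonneg hσ.le (hls i)
      have q3 : σ / δ * Z i ≤ 1 / δ * (D i - D' i) + 1 / δ * (σ * bt i) := by
        have e1 : σ / δ * Z i = 1 / δ * (σ * (T i - (R i + bt i))) + 1 / δ * (σ * bt i) := by
          simp only [hZ]; ring
        rw [e1]
        have e2 : σ * (T i - (R i + bt i - ls i)) = σ * (T i - (R i + bt i)) + σ * ls i := by ring
        have : 1 / δ * (σ * (T i - (R i + bt i))) ≤ 1 / δ * (D i - D' i) :=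
          mul_le_mul_of_nonneg_left (by linarith) (by positivity)
        linarith
      have q4 : 8 / δ * (D i + σ * bt i) = 8 * (1 / δ * (D i - D' i) + 1 / δ * (σ * bt i)) +
          8 / δ * D' i := by ring
      have q5 := on_nonneg (h := md i) (hP i)
      have q11 : 0 ≤ Ld δ * jB i := mul_nonneg (by linarith) (q10.trans (hjB i))
      rw [ec, q4]
      have q6 := sq_nonneg mY
      have q7 := sq_nonneg g'
      have q8 := sq_nonneg (T i - A' i)
      have q9 : 8 * mY * Z i = 8 * (mY * Z i) := by ring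
      linarith
  have K := Finset.sum_le_sum fun i (_ : i ∈ Finset.univ) => mul_le_mul_of_nonneg_left (key i) (hu i)
  have e1 : ∑ i, u i * (cost i + 2 * on (hB i) (PB' i) + 8 / δ * D' i +
      2 * (σ ^ 2 * U (md i) (R i / σ)) + (8 * mY * Z i - 4 * mY ^ 2) + Ld δ * σ * T i) =
      ∑ i, u i * (cost i + 2 * on (hB i) (PB' i) + 8 / δ * D' i) +
      2 * ∑ i, u i * (σ ^ 2 * U (md i) (R i / σ)) + 4 * mY ^ 2 + Ld δ * σ * mT := by
    have : ∀ i, u i * (cost i + 2 * on (hB i) (PB' i) + 8 / δ * D' i +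
      2 * (σ ^ 2 * U (md i) (R i / σ)) + (8 * mY * Z i - 4 * mY ^ 2) + Ld δ * σ * T i) =
      u i * (cost i + 2 * on (hB i) (PB' i) + 8 / δ * D' i) +
      2 * (u i * (σ ^ 2 * U (md i) (R i / σ))) + 8 * mY * (u i * Z i) - 4 * mY ^ 2 * u i +
      Ld δ * σ * (u i * T i) := fun i => by ring
    rw [Finset.sum_congr rfl fun i _ => this i, Finset.sum_add_distrib, Finset.sum_sub_distrib,
      Finset.sum_add_distrib, Finset.sum_add_distrib, ← Finset.mul_sum, ← Finset.mul_sum,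
      ← Finset.mul_sum, ← Finset.mul_sum, hmZ, hmT, hu1]
    ring
  have e2 : ∑ i, u i * ((2 * (s i ^ 2 * U (hB i) (A' i / s i)) + 4 * (T i - A' i) ^ 2 +
      Ld δ * s i * T i) + 2 * (co i + on (md i) (PR i)) + 8 / δ * (D i + σ * bt i) +
      4 * g' ^ 2 + Ld δ * jB i) =
      ∑ i, u i * (2 * (s i ^ 2 * U (hB i) (A' i / s i)) + 4 * (T i - A' i) ^ 2 +
      Ld δ * s i * T i) + 2 * ∑ i, u i * (co i + on (md i) (PR i)) +
      8 / δ * ∑ i, u i * (D i + σ * bt i) + 4 * g' ^ 2 + Ld δ * ∑ i, u i * jB i := by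
    have : ∀ i, u i * ((2 * (s i ^ 2 * U (hB i) (A' i / s i)) + 4 * (T i - A' i) ^ 2 +
      Ld δ * s i * T i) + 2 * (co i + on (md i) (PR i)) + 8 / δ * (D i + σ * bt i) +
      4 * g' ^ 2 + Ld δ * jB i) =
      u i * (2 * (s i ^ 2 * U (hB i) (A' i / s i)) + 4 * (T i - A' i) ^ 2 +
      Ld δ * s i * T i) + 2 * (u i * (co i + on (md i) (PR i))) +
      8 / δ * (u i * (D i + σ * bt i)) + 4 * g' ^ 2 * u i + Ld δ * (u i * jB i) :=
      fun i => by ring
    rw [Finset.sum_congr rfl fun i _ => this i, Finset.sum_add_distrib, Finset.sum_add_distrib,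
      Finset.sum_add_distrib, Finset.sum_add_distrib, ← Finset.mul_sum, ← Finset.mul_sum,
      ← Finset.mul_sum, ← Finset.mul_sum, hu1, mul_one]
  rw [e1, e2] at K
  have hD' : 8 / δ * ∑ i, u i * (D i + σ * bt i) ≤ 8 / δ * (DC + ∑ i, u i * jB i) :=
    mul_le_mul_of_nonneg_left hD hcD.le
  have eD : 8 / δ * (DC + ∑ i, u i * jB i) = 8 / δ * DC + 8 / δ * ∑ i, u i * jB i := by ring
  rw [eD] at hD'
  have eJ : (8 / δ + Ld δ) * ∑ i, u i * jB i = 8 / δ * ∑ i, u i * jB i +
    Ld δ * ∑ i, u i * jB i := by ring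
  rw [eJ]
  linarith

end Crest.Agent.R4P.ModeR16
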