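import Crest.Agent.R4P.ModeJ_16

/-!
R4 (S0004) with powers, helper51: **adaptive scales of the mode walk** (T3, for ModeS_16): the
exponent `dy`, the scale recursion `sc`, measurability of what depends on the scale, Doob, root.

* `dy z` : smallest `k` with `z ≤ 2^k`.
* `SW σ` : children `C`, rest `N`, total `T` of a walk; `sc δ n p t x` : exponent of the scale of the
  point `x`; `mx n p t x` : the maximal total; `two_sc_le` : `2^sc ≤ 1 + 2 δ mx`.
* `sc_meas, sc_per, sc_le, PB_at` : measurability; `PB_at` for `x ↦ F (sc x) x`.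
* `doob` : `I (mx²) ≤ 4 I (T²)`; `I_sc_T` : `I (2^sc T) ≤ I T + 4 δ I (T²)`.
* `exists_del` : `8 δ Ld δ ≤ ε`.
-/

set_option autoImplicit false
set_option linter.unusedSectionVars false
set_option linter.unusedVariables false
open MeasureTheory Filter Set

namespace Crest.Agent.R4P.ModeSa51

open Crest.Agent.R4.Tour104 Crest.Agent.R4.Clos758
open Crest.Agent.R4P.LogG51 (PB_max)
open Crest.Agent.R4P.Mode940 Crest.Agent.R4P.ModeG51 Crest.Agent.R4P.ModeR16

/-! ### the dyadic exponent -/

lemma exists_dy (z : ℝ) : ∃ k : ℕ, z ≤ 2 ^ k := by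
  obtain ⟨k, hk⟩ := pow_unbounded_of_one_lt z (one_lt_two : (1:ℝ) < 2)
  exact ⟨k, hk.le⟩

open Classical in
/-- smallest exponent with `z ≤ 2^k` -/
noncomputable def dy (z : ℝ) : ℕ := Nat.find (exists_dy z)

lemma le_dy (z : ℝ) : z ≤ 2 ^ dy z := by
  classical
  exact Nat.find_spec (exists_dy z)

lemma dy_le {k : ℕ} {z : ℝ} (h : z ≤ 2 ^ k) : dy z ≤ k := by
  classical
  exact Nat.find_min' (exists_dy z) h

lemma lt_of_lt_dy {k : ℕ} {z : ℝ} (h : k < dy z) : (2:ℝ) ^ k < z := by
  by_contra h2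
  push Not at h2
  exact absurd (dy_le h2) (not_le.2 h)

lemma dy_mono : Monotone dy := fun z z' h => dy_le (h.trans (le_dy z'))

lemma dy_meas : Measurable dy := dy_mono.measurable

lemma two_dy_le (z : ℝ) : (2:ℝ) ^ dy z ≤ max 1 (2 * z) := by
  rcases Nat.eq_zero_or_pos (dy z) with h | h
  · rw [h, pow_zero]; exact le_max_left _ _
  · refine le_trans ?_ (le_max_right _ _)
    obtain ⟨k, hk⟩ := Nat.exists_eq_succ_of_ne_zero h.ne'
    have h1 : (2:ℝ) ^ k < z := lt_of_lt_dy (by omega)
    rw [hk, pow_succ]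
    linarith

/-! ### the scale of a point -/

/-- walk data -/
structure SW (σ : Type*) where
  C : ℕ → σ → σ
  N : ℕ → σ → σ
  ok : ℕ → σ → Prop
  T : σ → ℝ → ℝ
  TL : ℕ → σ → ℝ → ℝ
  TB : ℕ → σ → ℝ → ℝ
  okC : ∀ {p t}, ok p t → p ≠ 0 → ok p (C p t)
  okN : ∀ {p t}, ok p t → p ≠ 0 → ok (p - 1) (N p t)
  pT : ∀ {p t}, ok p t → PB (T t)
  pTL : ∀ {p t}, ok p t → p ≠ 0 → PB (TL p t)
  pTB : ∀ {p t}, ok p t → p ≠ 0 → PB (TB p t)
  spl : ∀ {p t}, ok p t → p ≠ 0 → ∀ x, T t x = TL p t x + TB p t x + T (N p t) x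
  mean : ∀ {p t}, ok p t → p ≠ 0 → ∀ y, Ep p (TB p t) y = T (C p t) y

variable {σ : Type*} (w : SW σ) (δ : ℝ)

/-- exponent of the scale of the point `x` -/
noncomputable def sc : ℕ → ℕ → σ → ℝ → ℕ
  | 0, _, t => fun x => dy (δ * w.T t x)
  | n + 1, p, t => fun x => max (dy (δ * w.T t x))
      (if p = 0 then 0 else max (sc n p (w.C p t) (p * x)) (sc n (p - 1) (w.N p t) x))

/-- maximal total of the point `x` -/
noncomputable def mx : ℕ → ℕ → σ → ℝ → ℝ
  | 0, _, t => fun x => w.T t x
  | n + 1, p, t => fun x => max (w.T t x)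
      (if p = 0 then 0 else max (mx n p (w.C p t) (p * x)) (mx n (p - 1) (w.N p t) x))

lemma sc_zero (p : ℕ) (t : σ) (x : ℝ) : sc w δ 0 p t x = dy (δ * w.T t x) := rfl

lemma sc_succ0 (n : ℕ) (t : σ) (x : ℝ) : sc w δ (n + 1) 0 t x = dy (δ * w.T t x) := by
  show max (dy (δ * w.T t x)) (if (0:ℕ) = 0 then 0 else _) = _
  rw [if_pos rfl]; simp

lemma sc_succ (n : ℕ) {p : ℕ} (hp : p ≠ 0) (t : σ) (x : ℝ) : sc w δ (n + 1) p t x =
    max (dy (δ * w.T t x)) (max (sc w δ n p (w.C p t) (p * x)) (sc w δ n (p - 1) (w.N p t) x)) := by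
  show max (dy (δ * w.T t x)) (if p = 0 then 0 else _) = _
  rw [if_neg hp]

lemma mx_zero (p : ℕ) (t : σ) (x : ℝ) : mx w 0 p t x = w.T t x := rfl

lemma mx_succ (n : ℕ) {p : ℕ} (hp : p ≠ 0) (t : σ) (x : ℝ) : mx w (n + 1) p t x =
    max (w.T t x) (max (mx w n p (w.C p t) (p * x)) (mx w n (p - 1) (w.N p t) x)) := by
  show max (w.T t x) (if p = 0 then 0 else _) = _
  rw [if_neg hp]

lemma dy_le_sc (n p : ℕ) (t : σ) (x : ℝ) : dy (δ * w.T t x) ≤ sc w δ n p t x := by
  cases n with
  | zero => exact le_rfl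
  | succ n => exact le_max_left _ _

/-- the scale is at least `δ T` -/
lemma le_sc (n p : ℕ) (t : σ) (x : ℝ) : δ * w.T t x ≤ 2 ^ sc w δ n p t x :=
  (le_dy _).trans (pow_le_pow_right₀ (by norm_num) (dy_le_sc w δ n p t x))

lemma T_le_mx {n p : ℕ} {t : σ} (x : ℝ) : w.T t x ≤ mx w n p t x := by
  cases n with
  | zero => exact le_rfl
  | succ n => exact le_max_left _ _

variable {w δ}

/-- `2^sc ≤ 1 + 2 δ mx` -/
lemma two_sc_le (hδ : 0 ≤ δ) : ∀ (n p : ℕ) (t : σ), w.ok p t → ∀ x,
    (2:ℝ) ^ sc w δ n p t x ≤ 1 + 2 * δ * mx w n p t x := by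
  have base : ∀ (n p : ℕ) (t : σ), w.ok p t → ∀ x,
      (2:ℝ) ^ dy (δ * w.T t x) ≤ 1 + 2 * δ * mx w n p t x := by
    intro n p t ht x
    have h1 := two_dy_le (δ * w.T t x)
    have h2 := T_le_mx w (n := n) (p := p) (t := t) x
    have h3 := (w.pT ht).nonneg x
    have h4 := mul_le_mul_of_nonneg_left h2 hδ
    have h5 : 0 ≤ δ * w.T t x := mul_nonneg hδ h3
    have h6 : max 1 (2 * (δ * w.T t x)) ≤ 1 + 2 * (δ * w.T t x) :=
      max_le (by linarith) (by linarith)
    calc _ ≤ _ := h1
      _ ≤ _ := h6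
      _ ≤ _ := by linarith
  intro n
  induction n with
  | zero => intro p t ht x; exact base 0 p t ht x
  | succ n ih =>
    intro p t ht x
    by_cases hp : p = 0
    · subst hp
      rw [sc_succ0]
      exact base (n + 1) 0 t ht x
    · have hb := base (n + 1) p t ht x
      have h1 := ih p _ (w.okC ht hp) (p * x)
      have h2 := ih (p - 1) _ (w.okN ht hp) x
      have m1 : mx w n p (w.C p t) (p * x) ≤ mx w (n + 1) p t x := by
        rw [mx_succ w n hp]
        exact (le_max_left _ _).trans (le_max_right _ _)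
      have m2 : mx w n (p - 1) (w.N p t) x ≤ mx w (n + 1) p t x := by
        rw [mx_succ w n hp]
        exact (le_max_right _ _).trans (le_max_right _ _)
      have m1' := mul_le_mul_of_nonneg_left m1 hδ
      have m2' := mul_le_mul_of_nonneg_left m2 hδ
      rw [sc_succ w δ n hp]
      rcases max_choice (dy (δ * w.T t x))
        (max (sc w δ n p (w.C p t) (p * x)) (sc w δ n (p - 1) (w.N p t) x)) with e | e <;> rw [e]
      · exact hb
      · rcases max_choice (sc w δ n p (w.C p t) (p * x)) (sc w δ n (p - 1) (w.N p t) x)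
          with e | e <;> rw [e]
        · linarith
        · linarith

lemma per_nat_nat {f : ℝ → ℕ} (h : ∀ x, f (x + 1) = f x) (n : ℕ) (x : ℝ) : f (x + n) = f x := by
  induction n with
  | zero => simp
  | succ n ih =>
    have e : x + ((n + 1 : ℕ) : ℝ) = (x + n) + 1 := by push_cast; ring
    rw [e, h, ih]

/-- the scale is measurable and periodic -/
lemma sc_facts : ∀ (n p : ℕ) (t : σ), w.ok p t →
    Measurable (sc w δ n p t) ∧ ∀ x, sc w δ n p t (x + 1) = sc w δ n p t x := by
  intro n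
  induction n with
  | zero =>
    intro p t ht
    have hT := w.pT ht
    refine ⟨dy_meas.comp (hT.meas.const_mul δ), fun x => ?_⟩
    show dy (δ * w.T t (x + 1)) = dy (δ * w.T t x)
    rw [hT.per]
  | succ n ih =>
    intro p t ht
    have hT := w.pT ht
    have mT : Measurable fun x => dy (δ * w.T t x) := dy_meas.comp (hT.meas.const_mul δ)
    by_cases hp : p = 0
    · subst hp
      have e : sc w δ (n + 1) 0 t = fun x => dy (δ * w.T t x) := funext fun x => sc_succ0 w δ n t x
      rw [e]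
      refine ⟨mT, fun x => ?_⟩
      show dy (δ * w.T t (x + 1)) = dy (δ * w.T t x)
      rw [hT.per]
    · obtain ⟨mC, pC⟩ := ih p _ (w.okC ht hp)
      obtain ⟨mN, pN⟩ := ih (p - 1) _ (w.okN ht hp)
      have e : sc w δ (n + 1) p t = fun x => max (dy (δ * w.T t x))
          (max (sc w δ n p (w.C p t) (p * x)) (sc w δ n (p - 1) (w.N p t) x)) :=
        funext fun x => sc_succ w δ n hp t x
      rw [e]
      refine ⟨mT.max ((mC.comp (measurable_const.mul measurable_id)).max mN), fun x => ?_⟩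
      show max (dy (δ * w.T t (x + 1))) (max (sc w δ n p (w.C p t) (p * (x + 1)))
        (sc w δ n (p - 1) (w.N p t) (x + 1))) = max (dy (δ * w.T t x))
          (max (sc w δ n p (w.C p t) (p * x)) (sc w δ n (p - 1) (w.N p t) x))
      have e2 : (p:ℝ) * (x + 1) = p * x + p := by ring
      rw [hT.per, e2, per_nat_nat pC p, pN]

/-- the scale is bounded -/
lemma sc_le {Km : ℕ} (bd : ∀ {p t}, w.ok p t → ∀ x, δ * w.T t x ≤ 2 ^ Km) :
    ∀ (n p : ℕ) (t : σ), w.ok p t → ∀ x, sc w δ n p t x ≤ Km := by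
  intro n
  induction n with
  | zero => intro p t ht x; exact dy_le (bd ht x)
  | succ n ih =>
    intro p t ht x
    by_cases hp : p = 0
    · subst hp
      rw [sc_succ0]
      exact dy_le (bd ht x)
    · rw [sc_succ w δ n hp]
      exact max_le (dy_le (bd ht x)) (max_le (ih p _ (w.okC ht hp) _)
        (ih (p - 1) _ (w.okN ht hp) _))

/-- a family of functions at the scale of the point -/
lemma PB_at' {f : ℝ → ℕ} {Km : ℕ} (hm : Measurable f) (hp : ∀ x, f (x + 1) = f x)
    (hK : ∀ x, f x ≤ Km) {F : ℕ → ℝ → ℝ} (hF : ∀ k ≤ Km, PB (F k)) : PB fun x => F (f x) x := by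
  classical
  have e : (fun x => F (f x) x) = fun x => ∑ k ∈ Finset.range (Km + 1),
      (if f x = k then F k x else 0) := by
    funext x
    rw [Finset.sum_ite_eq]
    rw [if_pos (Finset.mem_range.2 (Nat.lt_succ_of_le (hK x)))]
  rw [e]
  refine PB.sum _ fun k hk => ?_
  have hk' : k ≤ Km := Nat.lt_succ_iff.1 (Finset.mem_range.1 hk)
  exact PB_ite (P := fun x => f x = k) (hm (measurableSet_singleton k)) (fun x => by rw [hp x])
    (hF k hk') (PB.const le_rfl)

lemma PB_at {Km : ℕ} (bd : ∀ {p t}, w.ok p t → ∀ x, δ * w.T t x ≤ 2 ^ Km) {n p : ℕ} {t : σ}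
    (ht : w.ok p t) {F : ℕ → ℝ → ℝ} (hF : ∀ k ≤ Km, PB (F k)) :
    PB fun x => F (sc w δ n p t x) x :=
  PB_at' (sc_facts n p t ht).1 (sc_facts n p t ht).2 (sc_le bd n p t ht) hF

/-- a family of sets at the scale of the point -/
lemma meas_at' {f : ℝ → ℕ} (hm : Measurable f) {P : ℕ → ℝ → Prop}
    (hP : ∀ k, MeasurableSet {x | P k x}) : MeasurableSet {x | P (f x) x} := by
  have e : {x | P (f x) x} = ⋃ k : ℕ, ({x | f x = k} ∩ {x | P k x}) := by
    ext x
    simp only [mem_ofPred_eq, mem_iUnion, mem_inter_iff, exists_eq_left']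
  rw [e]
  exact MeasurableSet.iUnion fun k => (hm (measurableSet_singleton k)).inter (hP k)

/-! ### Doob -/

lemma PB_mx : ∀ (n p : ℕ) (t : σ), w.ok p t → PB (mx w n p t) := by
  intro n
  induction n with
  | zero => intro p t ht; exact w.pT ht
  | succ n ih =>
    intro p t ht
    by_cases hp : p = 0
    · subst hp
      have e : mx w (n + 1) 0 t = fun x => max (w.T t x) 0 := by
        funext x
        show max (w.T t x) (if (0:ℕ) = 0 then 0 else _) = _
        rw [if_pos rfl]
      rw [e]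
      exact PB_max (w.pT ht) (PB.const le_rfl)
    · have e : mx w (n + 1) p t = fun x => max (w.T t x)
          (max (mx w n p (w.C p t) (p * x)) (mx w n (p - 1) (w.N p t) x)) :=
        funext fun x => mx_succ w n hp t x
      rw [e]
      exact PB_max (w.pT ht) (PB_max ((ih p _ (w.okC ht hp)).pull p) (ih (p - 1) _ (w.okN ht hp)))

/-- the join of two parts -/
lemma doob_join {M1 M2 S1 S2 L S M : ℝ} (h1 : 0 ≤ S1) (h2 : 0 ≤ S2) (hL : 0 ≤ L) (k1 : 0 ≤ M1)
    (k2 : 0 ≤ M2) (hS : S = L + S1 + S2) (hM : M = max S (max M1 M2)) :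
    M ^ 2 - 2 * (M * S) ≤ (M1 ^ 2 - 2 * (M1 * S1)) + (M2 ^ 2 - 2 * (M2 * S2)) := by
  have hSS : S1 + S2 ≤ S := by linarith
  have q : (S1 + S2) ^ 2 ≤ S ^ 2 := pow_le_pow_left₀ (by linarith) hSS 2
  rcases max_choice S (max M1 M2) with e | e
  · rw [hM, e]
    nlinarith [sq_nonneg (M1 - S1), sq_nonneg (M2 - S2), mul_nonneg h1 h2]
  · have hle : S ≤ max M1 M2 := by rw [← e]; exact le_max_left _ _
    rw [hM, e]
    rcases le_total M1 M2 with h | h
    · rw [max_eq_right h]
      have g1 : M1 * S1 ≤ M2 * S1 := mul_le_mul_of_nonneg_right h h1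
      have g2 : 0 ≤ M2 * L := mul_nonneg k2 hL
      rw [hS]
      nlinarith [sq_nonneg M1]
    · rw [max_eq_left h]
      have g1 : M2 * S2 ≤ M1 * S2 := mul_le_mul_of_nonneg_right h h2
      have g2 : 0 ≤ M1 * L := mul_nonneg k1 hL
      rw [hS]
      nlinarith [sq_nonneg M2]

lemma PB_sq {f : ℝ → ℝ} (hf : PB f) : PB fun x => f x ^ 2 := by
  have e : (fun x => f x ^ 2) = fun x => f x * f x := funext fun x => sq _
  rw [e]
  exact hf.mul hf

lemma I_cst {f : ℝ → ℝ} (c : ℝ) : I (fun x => c * f x) = c * I f := by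
  unfold I
  exact integral_const_mul c _

/-- **Doob, one sided form** -/
theorem doob1 : ∀ (n p : ℕ) (t : σ), w.ok p t →
    I (fun x => mx w n p t x ^ 2) ≤ 2 * I (fun x => mx w n p t x * w.T t x) := by
  intro n
  induction n with
  | zero =>
    intro p t ht
    have e : (fun x => mx w 0 p t x ^ 2) = fun x => mx w 0 p t x * w.T t x :=
      funext fun x => by rw [mx_zero, sq]
    rw [e]
    have : 0 ≤ I (fun x => mx w 0 p t x * w.T t x) :=
      I_nonneg fun x => mul_nonneg ((w.pT ht).nonneg x) ((w.pT ht).nonneg x)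
    linarith
  | succ n ih =>
    intro p t ht
    have pM := PB_mx (n + 1) p t ht
    have pT := w.pT ht
    by_cases hp : p = 0
    · subst hp
      have e0 : ∀ x, mx w (n + 1) 0 t x = w.T t x := by
        intro x
        show max (w.T t x) (if (0:ℕ) = 0 then 0 else _) = _
        rw [if_pos rfl]
        exact max_eq_left (pT.nonneg x)
      have e : (fun x => mx w (n + 1) 0 t x ^ 2) = fun x => mx w (n + 1) 0 t x * w.T t x :=
        funext fun x => by rw [e0, sq]
      rw [e]
      have : 0 ≤ I (fun x => mx w (n + 1) 0 t x * w.T t x) :=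
        I_nonneg fun x => mul_nonneg (pM.nonneg x) (pT.nonneg x)
      linarith
    · have hp0 : 0 < p := Nat.pos_of_ne_zero hp
      have oC := w.okC ht hp
      have oN := w.okN ht hp
      have hC := ih p _ oC
      have hN := ih (p - 1) _ oN
      have pMC := PB_mx n p _ oC
      have pMN := PB_mx n (p - 1) _ oN
      have pTB := w.pTB ht hp
      have pTL := w.pTL ht hp
      have pTC := w.pT oC
      have pTN := w.pT oN
      -- pointwise
      have key : ∀ x, mx w (n + 1) p t x ^ 2 + (2 * (mx w n p (w.C p t) (p * x) * w.TB p t x) +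
          2 * (mx w n (p - 1) (w.N p t) x * w.T (w.N p t) x)) ≤
          2 * (mx w (n + 1) p t x * w.T t x) + (mx w n p (w.C p t) (p * x) ^ 2 +
            mx w n (p - 1) (w.N p t) x ^ 2) := by
        intro x
        have := doob_join (pTB.nonneg x) (pTN.nonneg x) (pTL.nonneg x) (pMC.nonneg (p * x))
          (pMN.nonneg x) (w.spl ht hp x) (mx_succ w n hp t x)
        linarith
      -- the columns
      have eC1 : I (fun x => mx w n p (w.C p t) (p * x) * w.TB p t x) =
          I (fun y => mx w n p (w.C p t) y * w.T (w.C p t) y) := by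
        rw [← I_Ep hp0 ((pMC.pull p).mul pTB).integrableOn]
        congr 1
        funext y
        have : Ep p (fun x => mx w n p (w.C p t) (p * x) * w.TB p t x) y =
            mx w n p (w.C p t) y * Ep p (w.TB p t) y := by
          have hp' : (p:ℝ) ≠ 0 := by exact_mod_cast hp
          unfold Ep
          have e1 : ∀ k ∈ Finset.range p, mx w n p (w.C p t) (p * ((y + k) / p)) *
              w.TB p t ((y + k) / p) = mx w n p (w.C p t) y * w.TB p t ((y + k) / p) := by
            intro k _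
            rw [mul_div_cancel₀ _ hp', pMC.per_nat]
          rw [Finset.sum_congr rfl e1, ← Finset.mul_sum, mul_div_assoc]
        rw [this, w.mean ht hp]
      have eC2 : I (fun x => mx w n p (w.C p t) (p * x) ^ 2) =
          I (fun y => mx w n p (w.C p t) y ^ 2) := by
        have := I_Ep hp0 (PB_sq (pMC.pull p)).integrableOn
        rw [← this]
        congr 1
        funext y
        have hp' : (p:ℝ) ≠ 0 := by exact_mod_cast hp
        unfold Ep
        have e1 : ∀ k ∈ Finset.range p, mx w n p (w.C p t) (p * ((y + k) / p)) ^ 2 =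
            mx w n p (w.C p t) y ^ 2 := by
          intro k _
          rw [mul_div_cancel₀ _ hp', pMC.per_nat]
        rw [Finset.sum_congr rfl e1, Finset.sum_const, Finset.card_range, nsmul_eq_mul,
          mul_div_cancel_left₀ _ hp']
      have i1 := PB_sq pM
      have i2 := ((pMC.pull p).mul pTB).smul (c := 2) (by norm_num)
      have i3 := (pMN.mul pTN).smul (c := 2) (by norm_num)
      have i4 := (pM.mul pT).smul (c := 2) (by norm_num)
      have i5 := PB_sq (pMC.pull p)
      have i6 := PB_sq pMN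
      have hI := I_mono (i1.add (i2.add i3)).integrableOn (i4.add (i5.add i6)).integrableOn key
      rw [I_add i1.integrableOn (i2.add i3).integrableOn, I_add i2.integrableOn i3.integrableOn,
        I_add i4.integrableOn (i5.add i6).integrableOn, I_add i5.integrableOn i6.integrableOn] at hI
      rw [I_cst, I_cst, I_cst, eC1, eC2] at hI
      linarith

/-- **Doob** -/
theorem doob (n p : ℕ) (t : σ) (ht : w.ok p t) :
    I (fun x => mx w n p t x ^ 2) ≤ 4 * I (fun x => w.T t x ^ 2) := by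
  have h1 := doob1 n p t ht
  have pM := PB_mx n p t ht
  have pT := w.pT ht
  have key : ∀ x, 2 * (mx w n p t x * w.T t x) ≤
      (1 / 2) * mx w n p t x ^ 2 + 2 * w.T t x ^ 2 := fun x => by
    nlinarith [sq_nonneg (mx w n p t x - 2 * w.T t x)]
  have i1 := (pM.mul pT).smul (c := 2) (by norm_num)
  have i2 := (PB_sq pM).smul (c := 1 / 2) (by norm_num)
  have i3 := (PB_sq pT).smul (c := 2) (by norm_num)
  have hI := I_mono i1.integrableOn (i2.add i3).integrableOn key
  rw [I_add i2.integrableOn i3.integrableOn, I_cst, I_cst, I_cst] at hI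
  linarith

/-- **the linear term at the root** -/
theorem I_sc_T {Km : ℕ} (hδ : 0 ≤ δ) (bd : ∀ {p t}, w.ok p t → ∀ x, δ * w.T t x ≤ 2 ^ Km)
    (n p : ℕ) (t : σ) (ht : w.ok p t) :
    I (fun x => (2:ℝ) ^ sc w δ n p t x * w.T t x) ≤
      I (w.T t) + 5 * δ * I (fun x => w.T t x ^ 2) := by
  have h1 := doob n p t ht
  have pM := PB_mx n p t ht
  have pT := w.pT ht
  have pS : PB fun x => (2:ℝ) ^ sc w δ n p t x * w.T t x :=
    (PB_at (n := n) bd ht (F := fun k _ => (2:ℝ) ^ k) fun k _ => PB.const (by positivity)).mul pT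
  have key : ∀ x, (2:ℝ) ^ sc w δ n p t x * w.T t x ≤
      w.T t x + (δ * mx w n p t x ^ 2 + δ * w.T t x ^ 2) := fun x => by
    have h2 := two_sc_le hδ n p t ht x
    have h3 := mul_le_mul_of_nonneg_right h2 (pT.nonneg x)
    have h4 := mul_nonneg hδ (sq_nonneg (mx w n p t x - w.T t x))
    nlinarith
  have i2 := (PB_sq pM).smul (c := δ) hδ
  have i3 := (PB_sq pT).smul (c := δ) hδ
  have hI := I_mono pS.integrableOn (pT.add (i2.add i3)).integrableOn key
  rw [I_add pT.integrableOn (i2.add i3).integrableOn, I_add i2.integrableOn i3.integrableOn,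
    I_cst, I_cst] at hI
  have h5 := mul_le_mul_of_nonneg_left h1 hδ
  have e : I (fun x => w.T t x) = I (w.T t) := rfl
  rw [e] at hI
  linarith

/-! ### the choice of `δ` -/

lemma log_le_sqrt {z : ℝ} (hz : 0 ≤ z) : Real.log (1 + z) ≤ 2 * Real.sqrt z := by
  have h1 : (1 + z) ≤ (1 + Real.sqrt z) ^ 2 := by
    have := Real.sq_sqrt hz
    have h2 := Real.sqrt_nonneg z
    nlinarith
  have h2 : Real.log (1 + z) ≤ Real.log ((1 + Real.sqrt z) ^ 2) :=
    Real.log_le_log (by linarith) h1
  have h0 := Real.sqrt_nonneg z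
  have h3 : Real.log ((1 + Real.sqrt z) ^ 2) = 2 * Real.log (1 + Real.sqrt z) := by
    rw [Real.log_pow]; norm_num
  have h4 : Real.log (1 + Real.sqrt z) ≤ Real.sqrt z := by
    have := Real.log_le_sub_one_of_pos (x := 1 + Real.sqrt z) (by linarith)
    linarith
  linarith

/-- `δ Ld δ` is as small as we want -/
theorem exists_del {ε : ℝ} (hε : 0 < ε) : ∃ δ : ℝ, 0 < δ ∧ δ ≤ 1 ∧ 10 * (δ * Ld δ) ≤ ε := by
  set s := min 1 (ε / 10000) with hs
  have s0 : 0 < s := lt_min one_pos (by positivity)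
  have s1 : s ≤ 1 := min_le_left _ _
  have s2 : s ≤ ε / 10000 := min_le_right _ _
  refine ⟨s ^ 2, by positivity, by nlinarith, ?_⟩
  unfold Ld
  have h1 := log_le_sqrt (z := 1 / s ^ 2) (by positivity)
  have e : Real.sqrt (1 / s ^ 2) = 1 / s := by
    rw [Real.sqrt_eq_iff_mul_self_eq (by positivity) (by positivity)]
    field_simp
  rw [e] at h1
  have h2 : s ^ 2 * (200 * Real.log (1 + 1 / s ^ 2) + 600) ≤
      s ^ 2 * (200 * (2 * (1 / s)) + 600) :=
    mul_le_mul_of_nonneg_left (by linarith) (by positivity)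
  have h3 : s ^ 2 * (200 * (2 * (1 / s)) + 600) = 400 * s + 600 * s ^ 2 := by
    field_simp
    ring
  have h4 : s ^ 2 ≤ s := by nlinarith
  linarith

end Crest.Agent.R4P.ModeSa51
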