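import Crest.Agent.R4P.GMer_27
import Crest.Agent.R4P.Log_51

/-!
R4 (S0004) with powers, group game, helper940: **the mode of a point by the class-blind total**.

`ThH S = 100 S log (1 + S)` (heavy points, `1 ≤ S`), `ThL S = 100 (log 2) S + 4 psi S` (light points,
`S ≤ 2`), `psi` = Huber function.

* `ThH_low` : heavy → light (`S ≤ 1`), `born` : light → heavy (`2 ≤ S`),
* `join_HH`, `join_HL`, `join_LL` : the joins,
* `jensen_H`, `jensen_L` : ties, `psi_breg` : the cost of the light lifts,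
* `ThH_eps`, `ThL_le` : the top.
-/

set_option autoImplicit false
set_option linter.unusedVariables false
set_option linter.unusedSectionVars false

namespace Crest.Agent.R4P.Mode940

open Finset

/-- budget of the heavy points -/
noncomputable def ThH (S : ℝ) : ℝ := 100 * (S * Real.log (1 + S))

/-- Huber function -/
noncomputable def psi (S : ℝ) : ℝ := if S ≤ 2 then S ^ 2 else 4 * S - 4

/-- budget of the light points -/
noncomputable def ThL (S : ℝ) : ℝ := 100 * Real.log 2 * S + 4 * psi S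

lemma ThH_phi (S : ℝ) : ThH S = 100 * Log51.phi 1 S := by
  unfold ThH Log51.phi
  rw [div_one, one_mul]

lemma ThH_zero : ThH 0 = 0 := by simp [ThH]

lemma psi_zero : psi 0 = 0 := by norm_num [psi]

lemma ThL_zero : ThL 0 = 0 := by simp [ThL, psi_zero]

lemma ThH_nonneg {S : ℝ} (h : 0 ≤ S) : 0 ≤ ThH S := by
  unfold ThH
  have := Real.log_nonneg (show (1 : ℝ) ≤ 1 + S by linarith)
  positivity

/-- `psi` dominates its tangents; at `S ≤ 2` with the full square -/
lemma psi_tan {S T : ℝ} (hT0 : 0 ≤ T) (hT : T ≤ 2) :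
    psi T + 2 * T * (S - T) + (if S ≤ 2 then (S - T) ^ 2 else 0) ≤ psi S := by
  unfold psi
  rw [if_pos hT]
  split_ifs with h
  · nlinarith
  · push Not at h
    nlinarith [mul_nonneg (show (0:ℝ) ≤ 2 - T by linarith) (show (0:ℝ) ≤ S - 2 by linarith),
      sq_nonneg (T - 2)]

lemma psi_nonneg {S : ℝ} (h : 0 ≤ S) : 0 ≤ psi S := by
  unfold psi
  split_ifs with h2
  · positivity
  · push Not at h2; linarith

lemma psi_le {S : ℝ} (h : 0 ≤ S) : psi S ≤ 4 * S := by
  unfold psi
  split_ifs with h2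
  · nlinarith
  · linarith

lemma psi_le_two {S : ℝ} (h : 0 ≤ S) (h2 : S ≤ 2) : psi S ≤ 2 * S := by
  unfold psi
  rw [if_pos h2]
  nlinarith

lemma psi_mono {S T : ℝ} (h : 0 ≤ S) (hST : S ≤ T) : psi S ≤ psi T := by
  unfold psi
  split_ifs with h1 h2 h2
  · nlinarith
  · push Not at h2; nlinarith
  · linarith
  · linarith

lemma psi_convex : ConvexOn ℝ (Set.Ici 0) psi := by
  refine ⟨convex_Ici 0, ?_⟩
  intro x hx y hy a b ha hb hab
  have hx' : (0:ℝ) ≤ x := hx
  have hy' : (0:ℝ) ≤ y := hy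
  simp only [smul_eq_mul]
  have hb' : b = 1 - a := by linarith
  subst hb'
  set m := a * x + (1 - a) * y with hm
  have hm0 : 0 ≤ m := by positivity
  by_cases h : m ≤ 2
  · have t1 := psi_tan (S := x) hm0 h
    have t2 := psi_tan (S := y) hm0 h
    have p1 : 0 ≤ (if x ≤ 2 then (x - m) ^ 2 else 0) := by split_ifs <;> positivity
    have p2 : 0 ≤ (if y ≤ 2 then (y - m) ^ 2 else 0) := by split_ifs <;> positivity
    have q1 : psi m + 2 * m * (x - m) ≤ psi x := by linarith
    have q2 : psi m + 2 * m * (y - m) ≤ psi y := by linarith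
    have r1 := mul_le_mul_of_nonneg_left q1 ha
    have r2 := mul_le_mul_of_nonneg_left q2 hb
    have e : a * (psi m + 2 * m * (x - m)) + (1 - a) * (psi m + 2 * m * (y - m)) =
        psi m + 2 * m * (a * x + (1 - a) * y - m) := by ring
    rw [← hm, sub_self, mul_zero, add_zero] at e
    linarith
  · push Not at h
    have e : psi m = 4 * m - 4 := by unfold psi; rw [if_neg (not_le.2 h)]
    have l : ∀ s : ℝ, 4 * s - 4 ≤ psi s := by
      intro s
      unfold psi
      split_ifs with h2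
      · nlinarith [sq_nonneg (s - 2)]
      · exact le_rfl
    have r1 := mul_le_mul_of_nonneg_left (l x) ha
    have r2 := mul_le_mul_of_nonneg_left (l y) hb
    rw [e]
    have e2 : a * (4 * x - 4) + (1 - a) * (4 * y - 4) = 4 * m - 4 := by rw [hm]; ring
    linarith

/-- `psi` is superadditive -/
lemma psi_super {A B : ℝ} (hA : 0 ≤ A) (hB : 0 ≤ B) : psi A + psi B ≤ psi (A + B) := by
  unfold psi
  split_ifs with h1 h2 h3 h3 h2 h3 h3 <;> (try push Not at *) <;> nlinarith [mul_nonneg hA hB]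

lemma ThL_nonneg {S : ℝ} (h : 0 ≤ S) : 0 ≤ ThL S := by
  unfold ThL
  have := psi_nonneg h
  have := Real.log_pos (show (1:ℝ) < 2 by norm_num)
  positivity

/-- heavy → light -/
lemma ThH_low {S : ℝ} (h : 0 ≤ S) (h1 : S ≤ 1) : ThH S ≤ ThL S := by
  unfold ThH ThL
  have h2 : Real.log (1 + S) ≤ Real.log 2 := Real.log_le_log (by linarith) (by linarith)
  have h3 := mul_le_mul_of_nonneg_left h2 h
  have := psi_nonneg h
  nlinarith

lemma log_three_half : (2 / 5 : ℝ) ≤ Real.log (3 / 2) := by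
  rw [Real.le_log_iff_exp_le (by norm_num)]
  have h := Real.exp_bound' (show (0:ℝ) ≤ 2 / 5 by norm_num) (show (2:ℝ) / 5 ≤ 1 by norm_num)
    (n := 5) (by norm_num)
  refine h.trans ?_
  norm_num [Finset.sum_range_succ, Nat.factorial]

/-- light → heavy: everything is born -/
lemma born {S : ℝ} (h : 2 ≤ S) : ThL S + 15 * S ≤ ThH S := by
  unfold ThH ThL
  have h0 : 0 ≤ S := by linarith
  have h1 : Real.log 3 ≤ Real.log (1 + S) := Real.log_le_log (by norm_num) (by linarith)
  have h2 : Real.log 3 = Real.log 2 + Real.log (3 / 2) := by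
    rw [← Real.log_mul (by norm_num) (by norm_num)]; norm_num
  have h3 := log_three_half
  have h4 := psi_le h0
  have h5 : Real.log 2 + 2 / 5 ≤ Real.log (1 + S) := by linarith
  have h6 := mul_le_mul_of_nonneg_left h5 h0
  nlinarith

/-- **join, both heavy** -/
lemma join_HH {A B : ℝ} (hA : 1 ≤ A) (hB : 1 ≤ B) :
    ThH A + ThH B + 14 * min A B ≤ ThH (A + B) := by
  have h := Log51.join_ge (H := 1) (a := A) (b := B) one_pos (by linarith) (by linarith)
  rw [ThH_phi, ThH_phi, ThH_phi]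
  rw [one_mul, one_mul] at h
  have h2 : min A B ≤ A * B := by
    rcases le_total A B with h3 | h3
    · rw [min_eq_left h3]; nlinarith
    · rw [min_eq_right h3]; nlinarith
  have h3 : min (A * B) (min A B) = min A B := min_eq_right h2
  rw [h3] at h
  have h4 : 0 ≤ min A B := le_min (by linarith) (by linarith)
  linarith

/-- **join, heavy and light** -/
lemma join_HL {A B : ℝ} (hA : 1 ≤ A) (hB : 0 ≤ B) (hB2 : B ≤ 2) :
    ThH A + ThL B + 14 * B ≤ ThH (A + B) := by
  unfold ThH ThL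
  have p1 := psi_le_two hB hB2
  have h1 : Real.log (1 + A) + B / (1 + A + B) ≤ Real.log (1 + (A + B)) := by
    have h := Real.one_sub_inv_le_log_of_pos (x := (1 + A + B) / (1 + A)) (by positivity)
    rw [Real.log_div (by positivity) (by positivity)] at h
    have e : 1 - ((1 + A + B) / (1 + A))⁻¹ = B / (1 + A + B) := by
      field_simp
      ring
    rw [e] at h
    have e2 : 1 + (A + B) = 1 + A + B := by ring
    rw [e2]
    linarith
  have h2 : Real.log 2 ≤ Real.log (1 + (A + B)) := Real.log_le_log (by norm_num) (by linarith)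
  have h3 := mul_le_mul_of_nonneg_left h1 (show 0 ≤ A by linarith)
  have h4 := mul_le_mul_of_nonneg_left h2 hB
  have h5 : B / 4 ≤ A * (B / (1 + A + B)) := by
    rw [← mul_div_assoc, div_le_div_iff₀ (by norm_num) (by linarith)]
    nlinarith [mul_nonneg hB (show 0 ≤ A - 1 by linarith), mul_nonneg hB (show 0 ≤ 2 - B by linarith)]
  nlinarith

/-- **join, both light, the result light** -/
lemma join_LL {A B : ℝ} (hA : 0 ≤ A) (hB : 0 ≤ B) : ThL A + ThL B ≤ ThL (A + B) := by
  unfold ThL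
  have := psi_super hA hB
  nlinarith

/-- **join, both light, the result heavy** -/
lemma join_LLH {A B : ℝ} (hA : 0 ≤ A) (hB : 0 ≤ B) (h : 2 ≤ A + B) :
    ThL A + ThL B + 15 * (A + B) ≤ ThH (A + B) := by
  have h1 := join_LL hA hB
  have h2 := born h
  linarith

lemma ThH_convex : ConvexOn ℝ (Set.Ici 0) ThH := by
  have h := (Log51.phi_convexOn (H := 1) one_pos).smul (show (0:ℝ) ≤ 100 by norm_num)
  refine h.congr fun x _ => ?_
  rw [ThH_phi]
  rfl

lemma ThL_convex : ConvexOn ℝ (Set.Ici 0) ThL := by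
  have h1 := psi_convex.smul (show (0:ℝ) ≤ 4 by norm_num)
  have h2 : ConvexOn ℝ (Set.Ici (0:ℝ)) fun x : ℝ => 100 * Real.log 2 * x := by
    refine ⟨convex_Ici 0, fun x _ y _ a b _ _ _ => le_of_eq ?_⟩
    simp only [smul_eq_mul]
    ring
  exact h2.add h1

section fibre
variable {ι : Type*} [Fintype ι] {u : ι → ℝ} {S : ι → ℝ}

/-- Jensen on the fibre -/
lemma jensen {F : ℝ → ℝ} (hF : ConvexOn ℝ (Set.Ici 0) F) (hu : ∀ i, 0 ≤ u i)
    (hu1 : ∑ i, u i = 1) (hS : ∀ i, 0 ≤ S i) : F (∑ i, u i * S i) ≤ ∑ i, u i * F (S i) := by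
  have h := hF.map_sum_le (t := Finset.univ) (w := u) (p := S) (fun i _ => hu i) hu1
    (fun i _ => hS i)
  simpa only [smul_eq_mul] using h

/-- **the cost of the light lifts of a light point**: `S i = β + G i`, `Σ u i * S i ≤ 2` -/
lemma psi_breg (hu : ∀ i, 0 ≤ u i) (hu1 : ∑ i, u i = 1) (hS : ∀ i, 0 ≤ S i)
    (h2 : ∑ i, u i * S i ≤ 2) :
    psi (∑ i, u i * S i) + ∑ i, u i * (if S i ≤ 2 then (S i - ∑ i, u i * S i) ^ 2 else 0) ≤
      ∑ i, u i * psi (S i) := by
  set m := ∑ i, u i * S i with hm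
  have hm0 : 0 ≤ m := Finset.sum_nonneg fun i _ => mul_nonneg (hu i) (hS i)
  have key : ∀ i, u i * (psi m + 2 * m * (S i - m) + (if S i ≤ 2 then (S i - m) ^ 2 else 0)) ≤
      u i * psi (S i) := fun i => mul_le_mul_of_nonneg_left (psi_tan hm0 h2) (hu i)
  have h := Finset.sum_le_sum fun i (_ : i ∈ Finset.univ) => key i
  have e : ∑ i, u i * (psi m + 2 * m * (S i - m) + (if S i ≤ 2 then (S i - m) ^ 2 else 0)) =
      psi m + ∑ i, u i * (if S i ≤ 2 then (S i - m) ^ 2 else 0) := by
    have e1 : ∀ i, u i * (psi m + 2 * m * (S i - m) + (if S i ≤ 2 then (S i - m) ^ 2 else 0)) =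
        u i * (psi m - 2 * m * m) + 2 * m * (u i * S i) +
          u i * (if S i ≤ 2 then (S i - m) ^ 2 else 0) := fun i => by ring
    rw [Finset.sum_congr rfl fun i _ => e1 i, Finset.sum_add_distrib, Finset.sum_add_distrib,
      ← Finset.sum_mul, ← Finset.mul_sum, hu1, ← hm]
    ring
  rw [e] at h
  exact h

end fibre

/-- top: light -/
lemma ThL_le {S : ℝ} (h : 0 ≤ S) : ThL S ≤ 86 * S := by
  unfold ThL
  have h1 := psi_le h
  have h2 : Real.log 2 ≤ 7 / 10 := by
    have := Real.log_two_lt_d9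
    linarith
  nlinarith

/-- top: heavy -/
lemma ThH_eps {ε S : ℝ} (hε : 0 < ε) (h : 0 ≤ S) :
    ThH S ≤ ε * S ^ 2 + 100 * Log51.Lc (ε / 100) * S := by
  have h1 := Log51.phi_le_eps (H := 1) (ε := ε / 100) (t := S) one_pos h (by positivity)
  rw [ThH_phi]
  have h2 : ε * S ^ 2 + 100 * Log51.Lc (ε / 100) * S =
      100 * (ε / 100 * S ^ 2 + 1 * Log51.Lc (ε / 100) * S) := by ring
  rw [h2]
  linarith

end Crest.Agent.R4P.Mode940
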