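import Crest.Agent.R4P.VWalkM_36
import Crest.Agent.R4P.WalkS560
import Crest.Agent.R4P.ExcSplit_32

/-!
R4 (S0004) with powers, module D, helper35, group [X] (helper11 #3182): **the merged pairs are dominated
by the born pairs**.

Letters of the pair walk `R4P/Walk560`.  A piece pair is *pending* at a state `s` if it is related in `s.R`
but not in the worlds of the column, `Ro (wr s.p)`.

* `pend wr stp s`  : the energy of the pending pairs of a state (`0` at the leaf states and the stops);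
* `eNew wr stp s`  : the energy of the pairs which become pending at the step from `s` : at the
  continuing states `q`, the pairs of `q.R ∩ Ro (wr s.p)` which are not in `Ro (wr q.p)`;
* `eMX wr stp s`   : the pending pairs at the crossing states of `s`;
* `step3` : a state is terminal, or a column (`eSHR = pend`, the next states have `R = Ro (wr s.p)`),
  or an add / up step: there the energy of any fixed set of piece pairs is additive over the
  continuing and the crossing states;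
* `pend_step` : `eSHR + eMX + Σ_{nxt} w pend ≤ pend + eNew`;
* `dom` : **(DOM)** `WS (eSHR + eMX) s ≤ pend s + WS eNew s`;
* `Xs_cutR`, `eX_cut` : the cut of the crossing errors by the worlds of the column, and
  `WS_eX_cut` : `WS eX + WS eSHR ≤ WS (eX with the relation Ro (wr s.p)) + pend + WS eNew`.
-/

set_option autoImplicit false
set_option linter.unusedSectionVars false
set_option linter.unusedVariables false
open MeasureTheory Filter Set

namespace Crest.Agent.R4P.Mrg35

open Crest.Agent.R4.Tour104 Crest.Agent.R4.Tour758 Crest.Agent.R4.Avg758 Crest.Agent.R4.Clos758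
open Crest.Agent.R4.ClosL758 Crest.Agent.R4.ClosG758 Crest.Agent.R4.ClosR758
open Crest.Agent.R4P.ClosR442 Crest.Agent.R4P.Walk560
open Crest.Agent.R4P.VWalk36 (crs eX_eq)
open Crest.Agent.R4P.ExcSplit32 (Qs_splitR Qs_splitL Qs_nonneg)

variable {Λ κ : Type*} [Fintype Λ] [DecidableEq Λ] [DecidableEq κ] [WRel κ] [Fintype κ]
  {wr : ℕ → Λ → κ} {Ad : TrG Λ κ → Finset Λ → Prop}
  {μ : TrG Λ κ → Finset Λ → ℝ} {ν : TrG Λ κ → ℝ} {n : ℕ}

open Classical in
/-- energy of the pending pairs -/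
noncomputable def pend (wr : ℕ → Λ → κ) (stp : Stp Λ κ) (s : St Λ κ) : ℝ :=
  if s.t.isLeaf ∨ s.t'.isLeaf then 0 else if stp s then 0 else
    Qs { s with R := s.R \ Ro (wr s.p) }

open Classical in
/-- energy of the pairs of a state `q` which become pending when one comes from the column `p` -/
noncomputable def bor (wr : ℕ → Λ → κ) (stp : Stp Λ κ) (p : ℕ) (q : St Λ κ) : ℝ :=
  if q.t.isLeaf ∨ q.t'.isLeaf then 0 else if stp q then 0 else
    Qs { q with R := (q.R ∩ Ro (wr p)) \ Ro (wr q.p) }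

/-- energy of the births at a step -/
noncomputable def eNew (wr : ℕ → Λ → κ) (stp : Stp Λ κ) (s : St Λ κ) : ℝ :=
  ((nxt0 stp s).map fun q => q.1 * bor wr stp s.p q.2).sum

/-- energy of the pending pairs at the crossing states -/
noncomputable def eMX (wr : ℕ → Λ → κ) (stp : Stp Λ κ) (s : St Λ κ) : ℝ :=
  ((crs stp s).map fun z => Qs { z with R := z.R \ Ro (wr s.p) }).sum

/-- the crossing errors, the relation cut to the worlds of the column -/
noncomputable def eXR (wr : ℕ → Λ → κ) (stp : Stp Λ κ) (μ : TrG Λ κ → Finset Λ → ℝ) (B : ℝ)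
    (s : St Λ κ) : ℝ :=
  ((crs stp s).map fun z => Xs μ B { z with R := Ro (wr s.p) }).sum

/-- over `nxt` -/
lemma eNew_nxt (wr : ℕ → Λ → κ) (stp : Stp Λ κ) (s : St Λ κ) :
    eNew wr stp s = ((nxt stp s).map fun q => q.1 * bor wr stp s.p q.2).sum :=
  (nxt_sum stp s _).symm

/-! ### energies as functions of the set of pairs -/

lemma Qs_mono {s : St Λ κ} (okL : s.t.g.Ok) (okR : s.t'.g.Ok) (hM : 0 < s.M) (hM' : 0 < s.M')
    {R R' : Finset (Λ × Λ)} (h : R ⊆ R') : Qs { s with R := R } ≤ Qs { s with R := R' } :=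
  Q_mono_set h (PB_avg hM (PB_rv (fun j => okL.pb j) s.A))
    (PB_avg hM' (PB_rv (fun j => okR.pb j) s.A'))

lemma Qs_union_le {s : St Λ κ} (okL : s.t.g.Ok) (okR : s.t'.g.Ok) (hM : 0 < s.M)
    (hM' : 0 < s.M') {R R₁ R₂ : Finset (Λ × Λ)} (h : R ⊆ R₁ ∪ R₂) :
    Qs { s with R := R } ≤ Qs { s with R := R₁ } + Qs { s with R := R₂ } := by
  have h1 : Qs { s with R := R } ≤ Qs { s with R := R₁ } + Qs { s with R := R \ R₁ } :=
    Q_le_sdiff R R₁ (PB_avg hM (PB_rv (fun j => okL.pb j) s.A))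
      (PB_avg hM' (PB_rv (fun j => okR.pb j) s.A'))
  have h2 : Qs { s with R := R \ R₁ } ≤ Qs { s with R := R₂ } :=
    Qs_mono okL okR hM hM' (fun e he => by
      rw [Finset.mem_sdiff] at he
      rcases Finset.mem_union.1 (h he.1) with h3 | h3
      · exact absurd h3 he.2
      · exact h3)
  linarith

/-- the left add node -/
lemma Qs_addL {s : St Λ κ} {p : ℕ} {r : Λ → κ} {t₁ t₀ : DT Λ κ} (hs : s.t = .add p r t₁ t₀)
    (okL : s.t.g.Ok) (okR : s.t'.g.Ok) (hM : 0 < s.M) (hM' : 0 < s.M') (T : Finset (Λ × Λ)) :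
    Qs { s with R := T } = Qs { s with R := T, t := t₁ } + Qs { s with R := T, t := t₀ } := by
  have ev : s.t.g.val = fun j x => t₁.g.val j x + t₀.g.val j x := by rw [hs]; rfl
  have ok2 : t₁.g.Ok ∧ t₀.g.Ok := by rw [hs] at okL; exact okL
  have p1 : ∀ j, PB (rv s.A t₁.g.val j) := PB_rv (fun j => ok2.1.pb j) _
  have p0 : ∀ j, PB (rv s.A t₀.g.val j) := PB_rv (fun j => ok2.2.pb j) _
  have pR : ∀ j, PB (rv s.A' s.t'.g.val j) := PB_rv (fun j => okR.pb j) _
  have spl := Q_add_left (R := T) (PB_avg hM p1) (PB_avg hM p0) (PB_avg hM' pR)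
  show Q T (avg s.M (rv s.A s.t.g.val)) (avg s.M' (rv s.A' s.t'.g.val)) = _
  rw [ev, rv_add, avg_add]
  exact spl

/-- the right add node -/
lemma Qs_addR {s : St Λ κ} {p : ℕ} {r : Λ → κ} {t₁ t₀ : DT Λ κ} (hs : s.t' = .add p r t₁ t₀)
    (okL : s.t.g.Ok) (okR : s.t'.g.Ok) (hM : 0 < s.M) (hM' : 0 < s.M') (T : Finset (Λ × Λ)) :
    Qs { s with R := T } = Qs { s with R := T, t' := t₁ } + Qs { s with R := T, t' := t₀ } := by
  have ev : s.t'.g.val = fun j x => t₁.g.val j x + t₀.g.val j x := by rw [hs]; rfl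
  have ok2 : t₁.g.Ok ∧ t₀.g.Ok := by rw [hs] at okR; exact okR
  have pL : ∀ j, PB (rv s.A s.t.g.val j) := PB_rv (fun j => okL.pb j) _
  have p1 : ∀ j, PB (rv s.A' t₁.g.val j) := PB_rv (fun j => ok2.1.pb j) _
  have p0 : ∀ j, PB (rv s.A' t₀.g.val j) := PB_rv (fun j => ok2.2.pb j) _
  have spl := Q_add_right (R := T) (PB_avg hM pL) (PB_avg hM' p1) (PB_avg hM' p0)
  show Q T (avg s.M (rv s.A s.t.g.val)) (avg s.M' (rv s.A' s.t'.g.val)) = _
  rw [ev, rv_add, avg_add]
  exact spl

/-- the energy depends on the plain trees only -/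
lemma Qs_congr {M M' : ℕ} {O O' O₂ O₂' : Finset ℕ} {T : Finset (Λ × Λ)} {t t' u u' : DT Λ κ}
    {A A' : Finset Λ} (h : u.g = t.g) (h' : u'.g = t'.g) :
    Qs ⟨M, M', O, O', T, u, A, u', A'⟩ = Qs ⟨M, M', O₂, O₂', T, t, A, t', A'⟩ := by
  simp only [Qs, h, h']

/-! ### the three kinds of steps -/

/-- kinds of steps -/
inductive St3 (wr : ℕ → Λ → κ) (stp : Stp Λ κ) (s : St Λ κ) : Prop
  /-- leaf states and stops -/
  | trm (hl : (s.t.isLeaf ∨ s.t'.isLeaf) ∨ stp s) (en : nxt0 stp s = []) (ec : crs stp s = [])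
      (es : eSHR stp s = 0)
  /-- columns: pre-steps and ties -/
  | col (hl : ¬ (s.t.isLeaf ∨ s.t'.isLeaf)) (hs : ¬ stp s) (ec : crs stp s = [])
      (es : eSHR stp s = Qs { s with R := s.R \ Ro (wr s.p) })
      (hR : ∀ q ∈ nxt0 stp s, q.2.R = Ro (wr s.p))
  /-- add and up steps, absent columns -/
  | add (hl : ¬ (s.t.isLeaf ∨ s.t'.isLeaf)) (hs : ¬ stp s)
      (es : eSHR stp s = 0) (hR : ∀ q ∈ nxt0 stp s, q.1 = 1 ∧ q.2.R = s.R)
      (hR' : ∀ z ∈ crs stp s, z.R = s.R)
      (hA : ∀ T : Finset (Λ × Λ),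
        ((nxt0 stp s).map fun q => q.1 * Qs { q.2 with R := T }).sum +
          ((crs stp s).map fun z => Qs { z with R := T }).sum = Qs { s with R := T })

set_option maxHeartbeats 4000000 in
theorem step3 {stp : Stp Λ κ} {s : St Λ κ} (h : Inv wr Ad μ ν n s) : St3 wr stp s := by
  by_cases h1 : s.t.isLeaf ∨ s.t'.isLeaf
  · exact .trm (Or.inl h1) (by simp [nxt0, h1]) (by simp [crs, h1]) (by simp [eSHR, h1])
  by_cases h2 : stp s
  · exact .trm (Or.inr h2) (by simp [nxt0, h1, h2]) (by simp [crs, h1, h2])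
      (by simp [eSHR, h1, h2])
  have h1n : ¬ s.t.isLeaf ∧ ¬ s.t'.isLeaf := not_or.1 h1
  obtain ⟨hpp, hpn⟩ := p_prime h h1n.1 h1n.2
  have hpL : s.t.top ≤ s.p := le_max_left _ _
  have hpR : s.t'.top ≤ s.p := le_max_right _ _
  have okL : s.t.g.Ok := h.L.ok
  have okR : s.t'.g.Ok := h.R.ok
  have hM : 0 < s.M := h.aL.M0
  have hM' : 0 < s.M' := h.aR.M0
  have hbr : ∀ {w : ℝ} {r : Λ → κ} {t₁ t₀ : DT Λ κ} {v : Λ → ℝ → ℝ} {B G : κ → ℝ → ℝ},
      vw s.p s.t = .br w r t₁ t₀ v B G → r = wr s.p := by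
    intro w r t₁ t₀ v B G hv
    have hL := h.L
    rw [vw_br hv] at hL
    exact hL.br.2.2.2.1
  have hbr' : ∀ {w : ℝ} {r : Λ → κ} {t₁ t₀ : DT Λ κ} {v : Λ → ℝ → ℝ} {B G : κ → ℝ → ℝ},
      vw s.p s.t' = .br w r t₁ t₀ v B G → r = wr s.p := by
    intro w r t₁ t₀ v B G hv
    have hL := h.R
    rw [vw_br hv] at hL
    exact hL.br.2.2.2.1
  by_cases hPL : s.isPL
  · obtain ⟨w, r, t₁, t₀, v, B, G, hv, et, h3⟩ := St.isPL_cases hPL
    have hr := hbr hv
    have ec : crs stp s = [] := by simp [crs, h1, h2, hPL]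
    have en : nxt0 stp s = s.stL := by simp [nxt0, h1, h2, hPL]
    refine .col h1 h2 ec ?_ ?_
    · rw [← hr]
      simp [eSHR, h1, h2, hPL, St.shr, hv]
    · rw [en, ← hr]
      rcases h3 with ⟨hd, e⟩ | ⟨hd, hw, e⟩ <;> rw [e] <;> simp [St.fL, St.pL]
  by_cases hPR : s.isPR
  · obtain ⟨w, r, t₁, t₀, v, B, G, hv, et, h3⟩ := St.isPR_cases hPR
    have hr := hbr' hv
    have ec : crs stp s = [] := by simp [crs, h1, h2, hPR]
    have en : nxt0 stp s = s.stR := by simp [nxt0, h1, h2, hPL, hPR]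
    refine .col h1 h2 ec ?_ ?_
    · rw [← hr]
      simp [eSHR, h1, h2, hPL, hPR, St.shr, hv]
    · rw [en, ← hr]
      rcases h3 with ⟨hd, e⟩ | ⟨hd, hw, e⟩ <;> rw [e] <;> simp [St.fR, St.pR]
  have cx : ∀ (T : Finset (Λ × Λ)) (t₁ t₀ : DT Λ κ),
      Qs { s with R := T, t := stp.c s t₁ t₀ } + Qs { s with R := T, t := stp.x s t₁ t₀ } =
        Qs { s with R := T, t := t₁ } + Qs { s with R := T, t := t₀ } := by
    intro T t₁ t₀
    rcases stp.c_or s t₁ t₀ with ⟨e1, e2⟩ | ⟨e1, e2⟩ <;> rw [e1, e2]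
    rw [add_comm]
  have cx' : ∀ (T : Finset (Λ × Λ)) (t₁ t₀ : DT Λ κ),
      Qs { s with R := T, t' := stp.c s t₁ t₀ } + Qs { s with R := T, t' := stp.x s t₁ t₀ } =
        Qs { s with R := T, t' := t₁ } + Qs { s with R := T, t' := t₀ } := by
    intro T t₁ t₀
    rcases stp.c_or s t₁ t₀ with ⟨e1, e2⟩ | ⟨e1, e2⟩ <;> rw [e1, e2]
    rw [add_comm]
  rcases hv : vw s.p s.t with ⟨w, r, t₁, t₀, v, B, G⟩ | ⟨r, t₁, t₀⟩ | ⟨Sp, u⟩ <;>
  rcases hv' : vw s.p s.t' with ⟨w', r', t₁', t₀', v', B', G'⟩ | ⟨r', t₁', t₀'⟩ | ⟨Sp', u'⟩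
  · -- br br
    have hr := hbr hv
    refine .col h1 h2 (by simp [crs, h1, h2, hPL, hPR, hv, hv']) ?_ ?_
    · rw [← hr]; simp [eSHR, h1, h2, hPL, hPR, hv, hv']
    · rw [← hr]; simp [nxt0, h1, h2, hPL, hPR, hv, hv']
  · -- br add
    have ec : crs stp s = [{ s with t' := stp.x s t₁' t₀' }] := by
      simp [crs, h1, h2, hPL, hPR, hv, hv']
    have en : nxt0 stp s = [(1, { s with t' := stp.c s t₁' t₀' })] := by
      simp [nxt0, h1, h2, hPL, hPR, hv, hv']
    refine .add h1 h2 (by simp [eSHR, h1, h2, hPL, hPR, hv, hv']) ?_ ?_ ?_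
    · rw [en]; simp
    · rw [ec]; simp
    · intro T
      rw [ec, en]
      simp only [List.map_cons, List.map_nil, List.sum_cons, List.sum_nil, one_mul, add_zero]
      rw [Qs_addR (vw_add hv') okL okR hM hM' T]
      exact cx' T t₁' t₀'
  · -- br up
    have hr := hbr hv
    refine .col h1 h2 (by simp [crs, h1, h2, hPL, hPR, hv, hv']) ?_ ?_
    · rw [← hr]; simp [eSHR, h1, h2, hPL, hPR, hv, hv']
    · rw [← hr]; simp [nxt0, h1, h2, hPL, hPR, hv, hv']
  · -- add br
    have ec : crs stp s = [{ s with t := stp.x s t₁ t₀ }] := by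
      simp [crs, h1, h2, hPL, hPR, hv, hv']
    have en : nxt0 stp s = [(1, { s with t := stp.c s t₁ t₀ })] := by
      simp [nxt0, h1, h2, hPL, hPR, hv, hv']
    refine .add h1 h2 (by simp [eSHR, h1, h2, hPL, hPR, hv, hv']) ?_ ?_ ?_
    · rw [en]; simp
    · rw [ec]; simp
    · intro T
      rw [ec, en]
      simp only [List.map_cons, List.map_nil, List.sum_cons, List.sum_nil, one_mul, add_zero]
      rw [Qs_addL (vw_add hv) okL okR hM hM' T]
      exact cx T t₁ t₀
  · -- add add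
    have et := vw_add hv
    have et' := vw_add hv'
    have okL2 : t₁.g.Ok ∧ t₀.g.Ok := by rw [et] at okL; exact okL
    by_cases hj : stp.jt s
    · have ec : crs stp s = [{ s with t := t₁, t' := t₀' }, { s with t := t₀, t' := t₁' }] := by
        simp [crs, h1, h2, hPL, hPR, hv, hv', hj]
      have en : nxt0 stp s =
          [(1, { s with t := t₁, t' := t₁' }), (1, { s with t := t₀, t' := t₀' })] := by
        simp [nxt0, h1, h2, hPL, hPR, hv, hv', hj]
      refine .add h1 h2 (by simp [eSHR, h1, h2, hPL, hPR, hv, hv']) ?_ ?_ ?_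
      · rw [en]; simp
      · rw [ec]; simp
      · intro T
        rw [ec, en]
        simp only [List.map_cons, List.map_nil, List.sum_cons, List.sum_nil, one_mul, add_zero]
        rw [Qs_addL et okL okR hM hM' T]
        have e1 := Qs_addR (s := { s with R := T, t := t₁ }) et' okL2.1 okR hM hM' T
        have e0 := Qs_addR (s := { s with R := T, t := t₀ }) et' okL2.2 okR hM hM' T
        simp only at e1 e0
        rw [e1, e0]
        ring
    · by_cases hl : stp.lf s
      · have ec : crs stp s = [{ s with t := stp.x s t₁ t₀ }] := by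
          simp [crs, h1, h2, hPL, hPR, hv, hv', hj, hl]
        have en : nxt0 stp s = [(1, { s with t := stp.c s t₁ t₀ })] := by
          simp [nxt0, h1, h2, hPL, hPR, hv, hv', hj, hl]
        refine .add h1 h2 (by simp [eSHR, h1, h2, hPL, hPR, hv, hv']) ?_ ?_ ?_
        · rw [en]; simp
        · rw [ec]; simp
        · intro T
          rw [ec, en]
          simp only [List.map_cons, List.map_nil, List.sum_cons, List.sum_nil, one_mul, add_zero]
          rw [Qs_addL et okL okR hM hM' T]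
          exact cx T t₁ t₀
      · have ec : crs stp s = [{ s with t' := stp.x s t₁' t₀' }] := by
          simp [crs, h1, h2, hPL, hPR, hv, hv', hj, hl]
        have en : nxt0 stp s = [(1, { s with t' := stp.c s t₁' t₀' })] := by
          simp [nxt0, h1, h2, hPL, hPR, hv, hv', hj, hl]
        refine .add h1 h2 (by simp [eSHR, h1, h2, hPL, hPR, hv, hv']) ?_ ?_ ?_
        · rw [en]; simp
        · rw [ec]; simp
        · intro T
          rw [ec, en]
          simp only [List.map_cons, List.map_nil, List.sum_cons, List.sum_nil, one_mul, add_zero]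
          rw [Qs_addR et' okL okR hM hM' T]
          exact cx' T t₁' t₀'
  · -- add up
    have et := vw_add hv
    have okL2 : t₁.g.Ok ∧ t₀.g.Ok := by rw [et] at okL; exact okL
    have eg := vw_up_g hv'
    by_cases hj : stp.jt s
    · have ec : crs stp s = [{ s with t := t₁, t' := u', A' := s.A' \ Sp' },
          { s with t := t₀, t' := u', A' := s.A' ∩ Sp' }] := by
        simp [crs, h1, h2, hPL, hPR, hv, hv', hj]
      have en : nxt0 stp s = [(1, { s with t := t₁, t' := u', A' := s.A' ∩ Sp' }),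
         (1, { s with t := t₀, t' := u', A' := s.A' \ Sp' })] := by
        simp [nxt0, h1, h2, hPL, hPR, hv, hv', hj]
      refine .add h1 h2 (by simp [eSHR, h1, h2, hPL, hPR, hv, hv']) ?_ ?_ ?_
      · rw [en]; simp
      · rw [ec]; simp
      · intro T
        rw [ec, en]
        simp only [List.map_cons, List.map_nil, List.sum_cons, List.sum_nil, one_mul, add_zero]
        rw [Qs_addL et okL okR hM hM' T]
        have e1 := Qs_splitR (s := { s with R := T, t := t₁ }) okL2.1 okR hM hM' Sp'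
        have e0 := Qs_splitR (s := { s with R := T, t := t₀ }) okL2.2 okR hM hM' Sp'
        simp only at e1 e0
        rw [e1, e0]
        simp only [Qs, eg]
        ring
    · have ec : crs stp s = [{ s with t := stp.x s t₁ t₀ }] := by
        simp [crs, h1, h2, hPL, hPR, hv, hv', hj]
      have en : nxt0 stp s = [(1, { s with t := stp.c s t₁ t₀ })] := by
        simp [nxt0, h1, h2, hPL, hPR, hv, hv', hj]
      refine .add h1 h2 (by simp [eSHR, h1, h2, hPL, hPR, hv, hv']) ?_ ?_ ?_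
      · rw [en]; simp
      · rw [ec]; simp
      · intro T
        rw [ec, en]
        simp only [List.map_cons, List.map_nil, List.sum_cons, List.sum_nil, one_mul, add_zero]
        rw [Qs_addL et okL okR hM hM' T]
        exact cx T t₁ t₀
  · -- up br
    have hr := hbr' hv'
    refine .col h1 h2 (by simp [crs, h1, h2, hPL, hPR, hv, hv']) ?_ ?_
    · rw [← hr]; simp [eSHR, h1, h2, hPL, hPR, hv, hv']
    · rw [← hr]; simp [nxt0, h1, h2, hPL, hPR, hv, hv']
  · -- up add
    have et' := vw_add hv'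
    have okR2 : t₁'.g.Ok ∧ t₀'.g.Ok := by rw [et'] at okR; exact okR
    have eg := vw_up_g hv
    by_cases hj : stp.jt s
    · have ec : crs stp s = [{ s with t := u, A := s.A ∩ Sp, t' := t₀' },
          { s with t := u, A := s.A \ Sp, t' := t₁' }] := by
        simp [crs, h1, h2, hPL, hPR, hv, hv', hj]
      have en : nxt0 stp s = [(1, { s with t := u, A := s.A ∩ Sp, t' := t₁' }),
         (1, { s with t := u, A := s.A \ Sp, t' := t₀' })] := by
        simp [nxt0, h1, h2, hPL, hPR, hv, hv', hj]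
      refine .add h1 h2 (by simp [eSHR, h1, h2, hPL, hPR, hv, hv']) ?_ ?_ ?_
      · rw [en]; simp
      · rw [ec]; simp
      · intro T
        rw [ec, en]
        simp only [List.map_cons, List.map_nil, List.sum_cons, List.sum_nil, one_mul, add_zero]
        rw [Qs_addR et' okL okR hM hM' T]
        have e1 := Qs_splitL (s := { s with R := T, t' := t₁' }) okL okR2.1 hM hM' Sp
        have e0 := Qs_splitL (s := { s with R := T, t' := t₀' }) okL okR2.2 hM hM' Sp
        simp only at e1 e0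
        rw [e1, e0]
        simp only [Qs, eg]
        ring
    · have ec : crs stp s = [{ s with t' := stp.x s t₁' t₀' }] := by
        simp [crs, h1, h2, hPL, hPR, hv, hv', hj]
      have en : nxt0 stp s = [(1, { s with t' := stp.c s t₁' t₀' })] := by
        simp [nxt0, h1, h2, hPL, hPR, hv, hv', hj]
      refine .add h1 h2 (by simp [eSHR, h1, h2, hPL, hPR, hv, hv']) ?_ ?_ ?_
      · rw [en]; simp
      · rw [ec]; simp
      · intro T
        rw [ec, en]
        simp only [List.map_cons, List.map_nil, List.sum_cons, List.sum_nil, one_mul, add_zero]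
        rw [Qs_addR et' okL okR hM hM' T]
        exact cx' T t₁' t₀'
  · -- up up
    have eg := vw_up_g hv
    have eg' := vw_up_g hv'
    have ec : crs stp s = [] := by simp [crs, h1, h2, hPL, hPR, hv, hv']
    have en : nxt0 stp s = [(1, { s with t := u, t' := u' })] := by
      simp [nxt0, h1, h2, hPL, hPR, hv, hv']
    refine .add h1 h2 (by simp [eSHR, h1, h2, hPL, hPR, hv, hv']) ?_ ?_ ?_
    · rw [en]; simp
    · rw [ec]; simp
    · intro T
      rw [ec, en]
      simp only [List.map_cons, List.map_nil, List.sum_cons, List.sum_nil, one_mul, add_zero]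
      simp only [Qs, eg, eg']

/-! ### the local inequality -/

lemma sum_map_le_add {α : Type*} (l : List α) (f g h : α → ℝ) (H : ∀ x ∈ l, f x ≤ g x + h x) :
    (l.map f).sum ≤ (l.map g).sum + (l.map h).sum := by
  induction l with
  | nil => simp
  | cons a l ih =>
    simp only [List.map_cons, List.sum_cons]
    have h1 := H a (List.mem_cons_self)
    have h2 := ih fun x hx => H x (List.mem_cons_of_mem _ hx)
    linarith

lemma pend_eq {stp : Stp Λ κ} {s : St Λ κ} (hl : ¬ (s.t.isLeaf ∨ s.t'.isLeaf)) (hs : ¬ stp s) :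
    pend wr stp s = Qs { s with R := s.R \ Ro (wr s.p) } := by
  unfold pend; rw [if_neg hl, if_neg hs]

lemma pend_trm {stp : Stp Λ κ} {s : St Λ κ} (h : (s.t.isLeaf ∨ s.t'.isLeaf) ∨ stp s) :
    pend wr stp s = 0 := by
  unfold pend
  rcases h with h | h
  · rw [if_pos h]
  · split_ifs <;> rfl

lemma bor_trm {stp : Stp Λ κ} {p : ℕ} {s : St Λ κ} (h : (s.t.isLeaf ∨ s.t'.isLeaf) ∨ stp s) :
    bor wr stp p s = 0 := by
  unfold bor
  rcases h with h | h
  · rw [if_pos h]
  · split_ifs <;> rfl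

lemma bor_eq {stp : Stp Λ κ} {p : ℕ} {s : St Λ κ} (hl : ¬ (s.t.isLeaf ∨ s.t'.isLeaf))
    (hs : ¬ stp s) : bor wr stp p s = Qs { s with R := (s.R ∩ Ro (wr p)) \ Ro (wr s.p) } := by
  unfold bor; rw [if_neg hl, if_neg hs]

lemma Qs_nn {s : St Λ κ} (h : Inv wr Ad μ ν n s) (T : Finset (Λ × Λ)) :
    0 ≤ Qs { s with R := T } :=
  Qs_nonneg (s := { s with R := T }) h.L.ok h.R.ok h.aL.M0 h.aR.M0

lemma pend_nn {stp : Stp Λ κ} {s : St Λ κ} (h : Inv wr Ad μ ν n s) : 0 ≤ pend wr stp s := by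
  unfold pend; split_ifs
  · exact le_rfl
  · exact le_rfl
  · exact Qs_nn h _

lemma bor_nn {stp : Stp Λ κ} {p : ℕ} {s : St Λ κ} (h : Inv wr Ad μ ν n s) :
    0 ≤ bor wr stp p s := by
  unfold bor; split_ifs
  · exact le_rfl
  · exact le_rfl
  · exact Qs_nn h _

lemma eNew_nn {stp : Stp Λ κ} {s : St Λ κ} (h : Inv wr Ad μ ν n s) : 0 ≤ eNew wr stp s := by
  refine List.sum_nonneg fun x hx => ?_
  obtain ⟨q, hq, rfl⟩ := List.mem_map.1 hx
  have := h.next0 q hq
  exact mul_nonneg this.2 (bor_nn this.1)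

/-- **what the pending pairs pay** (the local inequality) -/
theorem pend_step {stp : Stp Λ κ} {s : St Λ κ} (h : Inv wr Ad μ ν n s) :
    eSHR stp s + eMX wr stp s + ((nxt0 stp s).map fun q => q.1 * pend wr stp q.2).sum ≤
      pend wr stp s + eNew wr stp s := by
  rcases step3 (stp := stp) h with ⟨hl, en, ec, es⟩ | ⟨hl, hs, ec, es, hR⟩ |
    ⟨hl, hs, es, hR, hR', hA⟩
  · have e1 := eNew_nn (stp := stp) h
    have e2 := pend_nn (stp := stp) h
    unfold eMX
    rw [en, ec, es]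
    simp only [List.map_nil, List.sum_nil]
    linarith
  · unfold eMX eNew
    rw [ec, es, pend_eq hl hs]
    simp only [List.map_nil, List.sum_nil]
    have key : ((nxt0 stp s).map fun q => q.1 * pend wr stp q.2).sum ≤
        ((nxt0 stp s).map fun q => q.1 * bor wr stp s.p q.2).sum := by
      refine List.sum_le_sum fun q hq => ?_
      have hI := h.next0 q hq
      refine mul_le_mul_of_nonneg_left ?_ hI.2
      by_cases ht : (q.2.t.isLeaf ∨ q.2.t'.isLeaf) ∨ stp q.2
      · rw [pend_trm ht, bor_trm ht]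
      · rw [not_or] at ht
        rw [pend_eq ht.1 ht.2, bor_eq ht.1 ht.2, hR q hq, Finset.inter_self]
    linarith
  · unfold eMX eNew
    rw [es, pend_eq hl hs]
    have eT := hA (s.R \ Ro (wr s.p))
    have ez : ((crs stp s).map fun z => Qs { z with R := z.R \ Ro (wr s.p) }).sum =
        ((crs stp s).map fun z => Qs { z with R := s.R \ Ro (wr s.p) }).sum := by
      congr 1
      refine List.map_congr_left fun z hz => ?_
      rw [hR' z hz]
    have key : ((nxt0 stp s).map fun q => q.1 * pend wr stp q.2).sum ≤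
        ((nxt0 stp s).map fun q => q.1 * Qs { q.2 with R := s.R \ Ro (wr s.p) }).sum +
          ((nxt0 stp s).map fun q => q.1 * bor wr stp s.p q.2).sum := by
      refine sum_map_le_add _ _ _ _ fun q hq => ?_
      have hI := h.next0 q hq
      have hI2 := hI.2
      rw [← mul_add]
      refine mul_le_mul_of_nonneg_left ?_ hI.2
      by_cases ht : (q.2.t.isLeaf ∨ q.2.t'.isLeaf) ∨ stp q.2
      · rw [pend_trm ht, bor_trm ht, add_zero]
        exact Qs_nn hI.1 _
      · rw [not_or] at ht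
        rw [pend_eq ht.1 ht.2, bor_eq ht.1 ht.2, (hR q hq).2]
        refine Qs_union_le hI.1.L.ok hI.1.R.ok hI.1.aL.M0 hI.1.aR.M0 fun e he => ?_
        rw [Finset.mem_sdiff] at he
        by_cases h3 : e ∈ Ro (wr s.p)
        · exact Finset.mem_union_right _
            (Finset.mem_sdiff.2 ⟨Finset.mem_inter.2 ⟨he.1, h3⟩, he.2⟩)
        · exact Finset.mem_union_left _ (Finset.mem_sdiff.2 ⟨he.1, h3⟩)
    rw [ez]
    linarith

/-! ### the walk -/

/-- **(DOM)** the relation changes and the pending pairs of the crossing states are dominated by the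
births -/
theorem dom {stp : Stp Λ κ} {s : St Λ κ} (hs : InvE wr Ad μ ν s) :
    WS stp (fun s => eSHR stp s + eMX wr stp s) s ≤ pend wr stp s + WS stp (eNew wr stp) s := by
  refine WS_le_super (Φ := fun s => pend wr stp s + WS stp (eNew wr stp) s) (fun s hs => ?_) hs
  obtain ⟨n, h⟩ := hs
  have h1 := pend_step (stp := stp) h
  have h2 : ((nxt stp s).map fun q => q.1 * (pend wr stp q.2 + WS stp (eNew wr stp) q.2)).sum =
      ((nxt0 stp s).map fun q => q.1 * pend wr stp q.2).sum +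
        ((nxt stp s).map fun q => q.1 * WS stp (eNew wr stp) q.2).sum := by
    rw [← nxt_sum stp s (pend wr stp), ← List.sum_map_add]
    congr 1
    refine List.map_congr_left fun q _ => ?_
    ring
  rw [h2, WS_eq stp (eNew wr stp) s]
  linarith

/-- a state whose pairs are related in the worlds of the column has no pending pairs -/
lemma pend_sub {stp : Stp Λ κ} {s : St Λ κ} (hR : s.R ⊆ Ro (wr s.p)) : pend wr stp s = 0 := by
  unfold pend
  split_ifs
  · rfl
  · rfl
  · rw [Finset.sdiff_eq_empty_iff_subset.2 hR]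
    unfold Qs Q
    exact Finset.sum_empty

/-! ### the cut of the crossing errors -/

/-- the cut of one crossing error -/
theorem Xs_cutR {B : ℝ} {z : St Λ κ} (okL : z.t.g.Ok) (okR : z.t'.g.Ok) (hM : 0 < z.M)
    (hM' : 0 < z.M') (T : Finset (Λ × Λ)) :
    Xs μ B z ≤ Xs μ B { z with R := T } + Qs { z with R := z.R \ T } := by
  have h1 := Qs_union_le (s := z) okL okR hM hM' (R := z.R) (R₁ := T) (R₂ := z.R \ T)
    (fun e he => by
      by_cases h3 : e ∈ T
      · exact Finset.mem_union_left _ h3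
      · exact Finset.mem_union_right _ (Finset.mem_sdiff.2 ⟨he, h3⟩))
  have h2 : 0 ≤ Qs { z with R := z.R \ T } :=
    Qs_nonneg (s := { z with R := z.R \ T }) okL okR hM hM'
  have e : Qs { z with R := z.R } = Qs z := rfl
  rw [e] at h1
  unfold Xs
  have h3 := le_max_left 0 (Qs { z with R := T } - B * (μ z.t.g z.A * μ z.t'.g z.A'))
  have h4 := le_max_right 0 (Qs { z with R := T } - B * (μ z.t.g z.A * μ z.t'.g z.A'))
  refine max_le ?_ ?_
  · show (0 : ℝ) ≤ max 0 (Qs { z with R := T } - B * (μ z.t.g z.A * μ z.t'.g z.A')) + _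
    linarith
  · show _ ≤ max 0 (Qs { z with R := T } - B * (μ z.t.g z.A * μ z.t'.g z.A')) + _
    linarith

set_option maxHeartbeats 1000000 in
/-- the invariant at the crossing states -/
theorem crs_inv {stp : Stp Λ κ} {s : St Λ κ} (h : Inv wr Ad μ ν n s) :
    ∀ z ∈ crs stp s, Inv wr Ad μ ν s.p z ∧ z.R = s.R ∧ z.M = s.M ∧ z.M' = s.M' ∧
      z.O = s.O ∧ z.O' = s.O' := by
  intro q hq
  unfold crs at hq
  by_cases h1 : s.t.isLeaf ∨ s.t'.isLeaf
  · simp [h1] at hq
  by_cases h2 : stp s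
  · simp [h1, h2] at hq
  by_cases h3 : s.isPL ∨ s.isPR
  · simp [h1, h2, h3] at hq
  rw [if_neg h1, if_neg h2, if_neg h3] at hq
  rw [not_or] at h1
  obtain ⟨hpp, hpn⟩ := p_prime h h1.1 h1.2
  have hL := h.L
  have hR := h.R
  have hpL : s.t.top ≤ s.p := le_max_left _ _
  have hpR : s.t'.top ≤ s.p := le_max_right _ _
  have hLp := hL.down hpL
  have hRp := hR.down hpR
  have aLp := h.aL.down hpn
  have aRp := h.aR.down hpn
  have hL2 : ∀ {r : Λ → κ} {t₁ t₀ : DT Λ κ}, vw s.p s.t = .add r t₁ t₀ →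
      Side wr Ad μ ν s.p t₁ s.A ∧ Side wr Ad μ ν s.p t₀ s.A := by
    intro r t₁ t₀ hv
    rw [vw_add hv] at hL
    exact hL.add
  have hR2 : ∀ {r : Λ → κ} {t₁ t₀ : DT Λ κ}, vw s.p s.t' = .add r t₁ t₀ →
      Side wr Ad μ ν s.p t₁ s.A' ∧ Side wr Ad μ ν s.p t₀ s.A' := by
    intro r t₁ t₀ hv
    rw [vw_add hv] at hR
    exact hR.add
  have xL : ∀ {r : Λ → κ} {t₁ t₀ : DT Λ κ}, vw s.p s.t = .add r t₁ t₀ →
      Side wr Ad μ ν s.p (stp.x s t₁ t₀) s.A := by
    intro r t₁ t₀ hv
    rcases stp.c_or s t₁ t₀ with ⟨-, e⟩ | ⟨-, e⟩ <;> rw [e]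
    · exact (hL2 hv).2
    · exact (hL2 hv).1
  have xR : ∀ {r : Λ → κ} {t₁ t₀ : DT Λ κ}, vw s.p s.t' = .add r t₁ t₀ →
      Side wr Ad μ ν s.p (stp.x s t₁ t₀) s.A' := by
    intro r t₁ t₀ hv
    rcases stp.c_or s t₁ t₀ with ⟨-, e⟩ | ⟨-, e⟩ <;> rw [e]
    · exact (hR2 hv).2
    · exact (hR2 hv).1
  rcases hv : vw s.p s.t with ⟨w, r, t₁, t₀, v, B, G⟩ | ⟨r, t₁, t₀⟩ | ⟨Sp, u⟩ <;>
  rcases hv' : vw s.p s.t' with ⟨w', r', t₁', t₀', v', B', G'⟩ | ⟨r', t₁', t₀'⟩ | ⟨Sp', u'⟩ <;>
  simp only [hv, hv', List.not_mem_nil] at hq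
  · -- br add
    simp only [List.mem_cons, List.not_mem_nil, or_false] at hq
    subst hq
    exact ⟨⟨hLp, xR hv', aLp, aRp⟩, rfl, rfl, rfl, rfl, rfl⟩
  · -- add br
    simp only [List.mem_cons, List.not_mem_nil, or_false] at hq
    subst hq
    exact ⟨⟨xL hv, hRp, aLp, aRp⟩, rfl, rfl, rfl, rfl, rfl⟩
  · -- add add
    split_ifs at hq
    · simp only [List.mem_cons, List.not_mem_nil, or_false] at hq
      rcases hq with rfl | rfl
      · exact ⟨⟨(hL2 hv).1, (hR2 hv').2, aLp, aRp⟩, rfl, rfl, rfl, rfl, rfl⟩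
      · exact ⟨⟨(hL2 hv).2, (hR2 hv').1, aLp, aRp⟩, rfl, rfl, rfl, rfl, rfl⟩
    · simp only [List.mem_cons, List.not_mem_nil, or_false] at hq
      subst hq
      exact ⟨⟨xL hv, hRp, aLp, aRp⟩, rfl, rfl, rfl, rfl, rfl⟩
    · simp only [List.mem_cons, List.not_mem_nil, or_false] at hq
      subst hq
      exact ⟨⟨hLp, xR hv', aLp, aRp⟩, rfl, rfl, rfl, rfl, rfl⟩
  · -- add up
    obtain ⟨c, c1, c0⟩ := hR.vwup hv' hpR hpp.pos
    split_ifs at hq
    · simp only [List.mem_cons, List.not_mem_nil, or_false] at hq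
      rcases hq with rfl | rfl
      · exact ⟨⟨(hL2 hv).1, c0, aLp, aRp⟩, rfl, rfl, rfl, rfl, rfl⟩
      · exact ⟨⟨(hL2 hv).2, c1, aLp, aRp⟩, rfl, rfl, rfl, rfl, rfl⟩
    · simp only [List.mem_cons, List.not_mem_nil, or_false] at hq
      subst hq
      exact ⟨⟨xL hv, hRp, aLp, aRp⟩, rfl, rfl, rfl, rfl, rfl⟩
  · -- up add
    obtain ⟨c, c1, c0⟩ := hL.vwup hv hpL hpp.pos
    split_ifs at hq
    · simp only [List.mem_cons, List.not_mem_nil, or_false] at hq
      rcases hq with rfl | rfl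
      · exact ⟨⟨c1, (hR2 hv').2, aLp, aRp⟩, rfl, rfl, rfl, rfl, rfl⟩
      · exact ⟨⟨c0, (hR2 hv').1, aLp, aRp⟩, rfl, rfl, rfl, rfl, rfl⟩
    · simp only [List.mem_cons, List.not_mem_nil, or_false] at hq
      subst hq
      exact ⟨⟨hLp, xR hv', aLp, aRp⟩, rfl, rfl, rfl, rfl, rfl⟩

/-- **the cut at one state** -/
theorem eX_cut {stp : Stp Λ κ} {B : ℝ} {s : St Λ κ} (h : Inv wr Ad μ ν n s) :
    eX stp μ B s ≤ eXR wr stp μ B s + eMX wr stp s := by
  rw [eX_eq]
  unfold eXR eMX
  refine sum_map_le_add _ _ _ _ fun z hz => ?_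
  have hz' := (crs_inv h z hz).1
  exact Xs_cutR hz'.L.ok hz'.R.ok hz'.aL.M0 hz'.aR.M0 _

lemma eMX_nn {stp : Stp Λ κ} {s : St Λ κ} (h : Inv wr Ad μ ν n s) : 0 ≤ eMX wr stp s := by
  refine List.sum_nonneg fun x hx => ?_
  obtain ⟨z, hz, rfl⟩ := List.mem_map.1 hx
  exact Qs_nn (crs_inv h z hz).1 _

/-- **the cut of the walk sum of the crossing errors**: the merged pairs are dominated by the births
(`pend = 0` at the self states, `pend_sub`) -/
theorem WS_eX_cut {stp : Stp Λ κ} {B : ℝ} {s : St Λ κ} (hs : InvE wr Ad μ ν s) :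
    WS stp (eSHR stp) s + WS stp (eX stp μ B) s ≤
      WS stp (eXR wr stp μ B) s + (pend wr stp s + WS stp (eNew wr stp) s) := by
  have h1 := dom (stp := stp) hs
  have h2 : WS stp (eX stp μ B) s ≤ WS stp (fun s => eXR wr stp μ B s + eMX wr stp s) s :=
    WS_mono (fun s hs => by
      obtain ⟨n, h⟩ := hs
      exact eX_cut h) hs
  rw [WS_add] at h1 h2
  linarith

/-- the merged pairs alone -/
theorem WS_eMX_le {stp : Stp Λ κ} {s : St Λ κ} (hs : InvE wr Ad μ ν s) :
    WS stp (eMX wr stp) s ≤ pend wr stp s + WS stp (eNew wr stp) s := by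
  have h1 := dom (stp := stp) hs
  rw [WS_add] at h1
  have h2 : 0 ≤ WS stp (eSHR stp) s := WS_nonneg (fun s hs => by
    obtain ⟨n, h⟩ := hs
    rcases step3 (stp := stp) h with ⟨hl, en, ec, es⟩ | ⟨hl, hs, ec, es, hR⟩ |
      ⟨hl, hs, es, hR, hR', hA⟩
    · rw [es]
    · rw [es]; exact Qs_nn h _
    · rw [es]) hs
  linarith

/-- the relation changes alone -/
theorem WS_eSHR_le {stp : Stp Λ κ} {s : St Λ κ} (hs : InvE wr Ad μ ν s) :
    WS stp (eSHR stp) s ≤ pend wr stp s + WS stp (eNew wr stp) s := by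
  have h1 := dom (stp := stp) hs
  rw [WS_add] at h1
  have h2 : 0 ≤ WS stp (eMX wr stp) s := WS_nonneg (fun s hs => by
    obtain ⟨n, h⟩ := hs
    exact eMX_nn h) hs
  linarith

end Crest.Agent.R4P.Mrg35
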