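import Crest.Agent.R4P.NMCtx_10
import Crest.Agent.R4P.NMPart_10
import Crest.Agent.R4P.SkelF_29

/-!
# R4 powers pass (S0004), helper13: **near misses of the full missing functions** (`NM^g`)

`part_eNM` bounds the near misses of the challenger functions `G = DW` (class functions).  Its proof
only uses `G ≤ g` (`g` = lifted functions of the missing child).  Here the same bound is proved

* for **every** local cost `loc` which is at most the item-pair energy of the missing functions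
  (`NMLoc`) : `nm_loc` (context), `part_loc`;
* for `eNMg` : the pairs of pieces in related worlds, with the full missing functions `gm` read off a
  decorated tree (`gm d₁ v j = v j` if the piece is missing, `0` otherwise); `eNM_le_eNMg`,
  `part_eNMg`, `partF_eNMg`.
-/

set_option autoImplicit false
set_option linter.unusedSectionVars false
set_option linter.unusedVariables false
set_option linter.unusedSimpArgs false
open MeasureTheory Filter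

namespace Crest.Agent.R4P.NMg13

open Crest.Agent.R4.Tour104 Crest.Agent.R4.Tour758 Crest.Agent.R4.Avg758 Crest.Agent.R4.Clos758
open Crest.Agent.R4.ClosL758 Crest.Agent.R4.ClosG758 Crest.Agent.R4.ClosR758
open Crest.Agent.R4.Lam368 (mult lamF DW BW fW Nested Dat lamR lamR_le PB_lamR)
open Crest.Agent.R4.Fam464 Crest.Agent.R4P.Cnt588 Crest.Agent.R4P.Walk560 Crest.Agent.R4.Piece464
open Crest.Agent.R4P.Item758 Crest.Agent.R4P.AvgItem710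
open Crest.Agent.R4P.Bld532 (NS All NodeOk Bk)
open Crest.Agent.R4.AdvWin560 Crest.Agent.R4.AdvWin560.WT Crest.Agent.R4.Own927
open Crest.Agent.R4P.Res927 Crest.Agent.R4P.GInst194 Crest.Agent.R4P.WalkIT579
open Crest.Agent.R4P.GSt927 Crest.Agent.R4P.GFin927 Crest.Agent.R4P.NMW710
open Crest.Agent.R4P.Rad800
open Crest.Agent.R4P.ColW710 Crest.Agent.R4P.GSplit194 Crest.Agent.R4.GDef864
open Crest.Agent.R4.GAgain864 Crest.Agent.R4P.IMI194 Crest.Agent.R4P.GFinC927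
open Crest.Agent.R4P.GFinK927 Crest.Agent.R4.GKap812
open Crest.Agent.R4.OSCore709 (om om_nonneg om_le_one mm)

variable {Λ κ : Type*} [Fintype Λ] [DecidableEq Λ] [Fintype κ] [DecidableEq κ] [WRel κ]

/-! ### the full missing functions of a decorated tree -/

open Classical in
/-- the full missing functions: `v j` if the piece `j` is missing (zero in the present child) -/
noncomputable def gm (d₁ : DT Λ κ) (v : Λ → ℝ → ℝ) (j : Λ) : ℝ → ℝ :=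
  if ∀ y, d₁.g.val j y = 0 then v j else fun _ => 0

open Classical in
/-- **near misses of the full missing functions** -/
noncomputable def eNMg (stp : Stp Λ κ) (s : St Λ κ) : ℝ :=
  if s.t.isLeaf ∨ s.t'.isLeaf then 0 else if stp s then 0 else if s.isPL ∨ s.isPR then 0 else
  match vw s.p s.t, vw s.p s.t' with
  | .br _ r t₁ _ v _ _, .br _ _ t₁' _ v' _ _ =>
      Q (Ro r) (avg s.M (rv s.A (gm t₁ v))) (avg s.M' (rv s.A' (gm t₁' v')))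
  | _, _ => 0

section
variable {D : Par Λ κ} {sp : ℕ → Finset Λ} {s : St Λ κ} {b pr b' pr' p : ℕ} {t t' : IT}
  {A : Finset Λ} {d : DT Λ κ}

/-- **at a tie of an item tree**: `gm` = the lifted functions of the missing child -/
theorem gm_eq {Sp : Finset ℕ} {t₁ t₀ : IT} (h : SideI D sp b pr (.br p Sp t₁ t₀) A d) (j : Λ) :
    gm (D.toDT sp b (pr * p) t₁ : DT Λ κ)
      (fun j => lamF p (fun j => (D.toFT b (pr * p) t₁).U 1 j)
        (fun j => (D.toFT (b * p) pr t₀).U p j) (fun j => (D.toFT (b * p) pr t₀).U 1 j)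
        (fun _ => D.rho p) (0 + 1) j) j = (D.toFT (b * p) pr t₀).U p j := by
  classical
  have hv : (D.toDT sp b (pr * p) t₁ : DT Λ κ).g.val j = (D.toFT b (pr * p) t₁).U 1 j :=
    congrFun h.br₁.val j
  have hdat : Dat p (fun j => (D.toFT b (pr * p) t₁).U 1 j)
      (fun j => (D.toFT (b * p) pr t₀).U p j) (fun j => (D.toFT (b * p) pr t₀).U 1 j) :=
    FT.dat (p := p) (n := 0) (ch := fun _ => D.rho p) h.hb (D.toFT_Adm (.br p Sp t₁ t₀) b pr h.hb h.hF h.hW)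
  unfold gm
  split_ifs with hc
  · rw [hv] at hc
    funext x
    show lamF p _ _ _ _ _ j x = _
    have hR : ∀ y, lamR p (fun j => (D.toFT b (pr * p) t₁).U 1 j)
        (fun j => (D.toFT (b * p) pr t₀).U p j) (fun j => (D.toFT (b * p) pr t₀).U 1 j)
        (fun _ => D.rho p) (0 + 1) j y = 0 := fun y =>
      le_antisymm ((lamR_le hdat j y).trans (le_of_eq (hc _))) ((PB_lamR hdat j).nonneg y)
    have hE : Ep p (lamR p (fun j => (D.toFT b (pr * p) t₁).U 1 j)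
        (fun j => (D.toFT (b * p) pr t₀).U p j) (fun j => (D.toFT (b * p) pr t₀).U 1 j)
        (fun _ => D.rho p) (0 + 1) j) (p * x) = 0 := by
      rw [show lamR p (fun j => (D.toFT b (pr * p) t₁).U 1 j)
        (fun j => (D.toFT (b * p) pr t₀).U p j) (fun j => (D.toFT (b * p) pr t₀).U 1 j)
        (fun _ => D.rho p) (0 + 1) j = fun _ => 0 from funext hR, Ep_const h.hF.1.pos]
    have h1 : (D.toFT b (pr * p) t₁).U 1 j (p * x) = 0 := hc _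
    show (1 - 1 / (p : ℝ)) * (D.toFT b (pr * p) t₁).U 1 j (p * x) + (D.toFT (b * p) pr t₀).U p j x -
      lamR p (fun j => (D.toFT b (pr * p) t₁).U 1 j)
        (fun j => (D.toFT (b * p) pr t₀).U p j) (fun j => (D.toFT (b * p) pr t₀).U 1 j)
        (fun _ => D.rho p) (0 + 1) j x + Ep p (lamR p (fun j => (D.toFT b (pr * p) t₁).U 1 j)
        (fun j => (D.toFT (b * p) pr t₀).U p j) (fun j => (D.toFT (b * p) pr t₀).U 1 j)
        (fun _ => D.rho p) (0 + 1) j) (p * x) = _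
    rw [hE, h1, hR x]
    ring
  · push Not at hc
    obtain ⟨y, hy⟩ := hc
    rw [hv] at hy
    have hi : D.it j ∈ t₁.items := by
      by_contra hn
      exact hy (D.U_zero t₁ b (pr * p) 1 j hn y)
    obtain ⟨n, hO⟩ := h.ok
    have hn : D.it j ∉ t₀.items := fun h0 =>
      Finset.disjoint_left.1 hO.2.2.1 hi h0
    funext x
    exact (D.U_zero t₀ (b * p) pr p j hn x).symm


/-- at a pull nothing is missing -/
theorem gm_pl {t : IT} (h : SideI D sp b pr (.pl p t) A d) (j : Λ) (x : ℝ) :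
    gm (D.toDT sp b (pr * p) t : DT Λ κ)
      (fun j x => (D.toFT b (pr * p) t).U 1 j (p * x)) j x = 0 := by
  classical
  have hv : (D.toDT sp b (pr * p) t : DT Λ κ).g.val j = (D.toFT b (pr * p) t).U 1 j :=
    congrFun h.pl.val j
  unfold gm
  split_ifs with hc
  · rw [hv] at hc
    exact hc _
  · rfl

/-- the energy of the pairs of a column, as the item-pair energy -/
theorem eNMg_eq {Sq Sq' : Finset ℕ} {t₁ t₀ t₁' t₀' : IT}
    (h : StI D sp s b pr (.br p Sq t₁ t₀) b' pr' (.br p Sq' t₁' t₀')) {stp : Stp Λ κ}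
    (h2 : ¬ stp s) (h3 : ¬ (s.isPL ∨ s.isPR)) :
    eNMg stp s = ∑ e ∈ D.PE (Ro (D.rho p)) (D.uA s.M (b * p) pr t₀ s.A p)
        (D.uA s.M' (b' * p) pr' t₀' s.A' p),
      D.iF (Ro (D.rho p)) (D.uA s.M (b * p) pr t₀ s.A p) (D.uA s.M' (b' * p) pr' t₀' s.A' p) e := by
  classical
  have hl : ¬ s.t.isLeaf := by rw [h.L.eq]; exact id
  have hl' : ¬ s.t'.isLeaf := by rw [h.R.eq]; exact id
  have hp : s.p = p := by
    unfold St.p
    rw [h.L.eq, h.R.eq]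
    show max p p = p
    exact max_self p
  rw [← D.Q_eq]
  unfold eNMg
  rw [if_neg (not_or.2 ⟨hl, hl'⟩), if_neg h2, if_neg h3]
  rw [hp, h.L.eq, h.R.eq]
  simp only [Par.toDT, vw, if_true]
  have e1 : gm (D.toDT sp b (pr * p) t₁ : DT Λ κ)
      (fun j => lamF p (fun j => (D.toFT b (pr * p) t₁).U 1 j)
        (fun j => (D.toFT (b * p) pr t₀).U p j) (fun j => (D.toFT (b * p) pr t₀).U 1 j)
        (fun _ => D.rho p) (0 + 1) j) = fun j => (D.toFT (b * p) pr t₀).U p j :=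
    funext fun j => gm_eq h.L j
  have e2 : gm (D.toDT sp b' (pr' * p) t₁' : DT Λ κ)
      (fun j => lamF p (fun j => (D.toFT b' (pr' * p) t₁').U 1 j)
        (fun j => (D.toFT (b' * p) pr' t₀').U p j) (fun j => (D.toFT (b' * p) pr' t₀').U 1 j)
        (fun _ => D.rho p) (0 + 1) j) = fun j => (D.toFT (b' * p) pr' t₀').U p j :=
    funext fun j => gm_eq h.R j
  rw [e1, e2]
  rfl

end

/-- the near misses of the challengers are at most those of the missing functions -/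
theorem eNM_le_eNMg {D : Par Λ κ} {sp : ℕ → Finset Λ} {s : St Λ κ} {b pr b' pr' p : ℕ}
    {Sq Sq' : Finset ℕ} {t₁ t₀ t₁' t₀' : IT}
    (h : StI D sp s b pr (.br p Sq t₁ t₀) b' pr' (.br p Sq' t₁' t₀')) {stp : Stp Λ κ}
    (h2 : ¬ stp s) (h3 : ¬ (s.isPL ∨ s.isPR)) : eNM stp s ≤ eNMg stp s :=
  (eNM_le_iF h stp).trans (eNMg_eq h h2 h3).ge

/-! ### local costs below the item-pair energy of the missing functions -/

/-- a local cost which is at most the item-pair energy of the missing functions -/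
structure NMLoc (D : Par Λ κ) (sp : ℕ → Finset Λ) (stp : Stp Λ κ) (loc : St Λ κ → ℝ) : Prop where
  le : ∀ {s : St Λ κ} {b pr b' pr' p : ℕ} {Sq Sq' : Finset ℕ} {t₁ t₀ t₁' t₀' : IT},
    StI D sp s b pr (.br p Sq t₁ t₀) b' pr' (.br p Sq' t₁' t₀') → ¬ stp s →
    ¬ (s.isPL ∨ s.isPR) →
    loc s ≤ ∑ e ∈ D.PE (Ro (D.rho p)) (D.uA s.M (b * p) pr t₀ s.A p)
        (D.uA s.M' (b' * p) pr' t₀' s.A' p),
      D.iF (Ro (D.rho p)) (D.uA s.M (b * p) pr t₀ s.A p) (D.uA s.M' (b' * p) pr' t₀' s.A' p) e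
  z : ∀ {s : St Λ κ} {b pr b' pr' : ℕ} {t t' : IT}, StI D sp s b pr t b' pr' t' →
    ¬ (¬ stp s ∧ ¬ s.isPL ∧ ¬ s.isPR ∧ ∃ Sp t₁ t₀ Sp' t₁' t₀', t = .br s.p Sp t₁ t₀ ∧
      t' = .br s.p Sp' t₁' t₀') → loc s ≤ 0

/-- `eNMg` is such a cost -/
theorem nmLoc_eNMg (D : Par Λ κ) (sp : ℕ → Finset Λ) (stp : Stp Λ κ) :
    NMLoc D sp stp (eNMg stp) where
  le := fun h h2 h3 => (eNMg_eq h h2 h3).le
  z := by
    classical
    intro s b pr b' pr' t t' h hn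
    unfold eNMg
    split_ifs with k1 k2 k3
    · exact le_rfl
    · exact le_rfl
    · exact le_rfl
    · rcases hv : vw s.p s.t with ⟨w, r, t₁, t₀, v, B, G⟩ | ⟨r, t₁, t₀⟩ | ⟨Sp, u⟩ <;>
      rcases hv' : vw s.p s.t' with ⟨w', r', t₁', t₀', v', B', G'⟩ | ⟨r', t₁', t₀'⟩ | ⟨Sp', u'⟩ <;>
      try exact le_rfl
      have e1 := h.L.eq.symm.trans (vw_br hv)
      have e2 := h.R.eq.symm.trans (vw_br hv')
      have z0 : ∀ {M : ℕ} (hM : 0 < M) (A : Finset Λ) (φ : Λ → ℝ → ℝ), (∀ j x, φ j x = 0) →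
          ∀ j x, avg M (rv A φ) j x = 0 := by
        intro M hM A φ hφ j x
        have : φ = fun _ _ => 0 := funext fun j => funext fun x => hφ j x
        rw [this]
        exact avg_rv_zero hM A j x
      cases t with
      | leaf S => simp [Par.toDT] at e1
      | add p t₁ t₀ => simp [Par.toDT] at e1
      | up c Sp t => simp [Par.toDT] at e1
      | far p t₁ t₀ => simp [Par.toDT] at e1
      | pl p τ =>
        have e1' := e1
        simp only [Par.toDT] at e1'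
        injection e1' with a1 a2 a3 a4 a5 a6 a7 a8
        rw [← a4, ← a6]
        refine le_of_eq (Q_zero_left (z0 h.M0 s.A _ fun j x => ?_))
        exact gm_pl h.L j x
      | br p Sp τ₁ τ₀ =>
        cases t' with
        | leaf S => simp [Par.toDT] at e2
        | add p t₁ t₀ => simp [Par.toDT] at e2
        | up c Sp t => simp [Par.toDT] at e2
        | far p t₁ t₀ => simp [Par.toDT] at e2
        | pl p' τ' =>
          have e2' := e2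
          simp only [Par.toDT] at e2'
          injection e2' with a1 a2 a3 a4 a5 a6 a7 a8
          rw [← a4, ← a6]
          refine le_of_eq (Q_zero_right (z0 h.M0' s.A' _ fun j x => ?_))
          exact gm_pl h.R j x
        | br p' Sp' τ₁' τ₀' =>
          refine absurd ⟨k2, fun h0 => k3 (Or.inl h0), fun h0 => k3 (Or.inr h0), Sp, τ₁, τ₀, Sp',
            τ₁', τ₀', ?_, ?_⟩ hn
          · simp only [Par.toDT] at e1
            injection e1 with a1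
            rw [a1]
          · simp only [Par.toDT] at e2
            injection e2 with a1
            rw [a1]

section state
open Finset
open Crest.Agent.R4.HVW560 Crest.Agent.R4.Schur709 Crest.Agent.R4.StopHvw709
open Crest.Agent.R4.StopAsm709 Crest.Agent.R4.DeepSt579 Crest.Agent.R4.ClsS
variable {D : Par Λ κ} {ρ : ℕ → ℝ} {Al : Finset ℕ} {sp : ℕ → Finset Λ} {P : Bld532.Par}
  {W : ℕ → ℝ} {CL C1 c₀ : ℝ} {p₁ : ℕ} {s : St Λ κ}

open Classical in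
/-- **near misses of a state**: the item-pair energy of the missing functions -/
theorem nm_iF (hk : CKX CL C1 (1 / c₀) p₁) {p n G : ℕ} (hni : NI D ρ Al P W C1 c₀ p)
    {u u' : NS} {Sp Sp' : Finset ℕ} {t₁ t₀ t₁' t₀' : IT}
    (h : StI D sp s u.B u.A (.br p Sp t₁ t₀) u'.B u'.A (.br p Sp' t₁' t₀')) (hG : 0 < G)
    (hL : NSd D Al P W CL c₀ p G s.M u (.br p Sp t₁ t₀) s.A)
    (hR : NSd D Al P W CL c₀ p G s.M' u' (.br p Sp' t₁' t₀') s.A')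
    (hCL : 0 ≤ CL)
    (hp : p₁ ≤ p) (hn : n = ⌊1/4 * Real.log p / Real.log 2⌋₊)
    (hs : ∑ l ∈ s.M.primeFactors, (l:ℝ)^(-(11/12):ℝ) ≤ 1)
    (hs' : ∑ l ∈ s.M'.primeFactors, (l:ℝ)^(-(11/12):ℝ) ≤ 1)
    {Qf : ℕ × ℕ → Prop}
    (hFS : FSOk D ρ n p s.M (u.B * p) u.A p t₀ s.A s.M' (u'.B * p) u'.A p t₀' s.A' Qf) :
    ∑ e ∈ D.PE (Ro (D.rho p)) (D.uA s.M (u.B * p) u.A t₀ s.A p)
        (D.uA s.M' (u'.B * p) u'.A t₀' s.A' p),
      D.iF (Ro (D.rho p)) (D.uA s.M (u.B * p) u.A t₀ s.A p) (D.uA s.M' (u'.B * p) u'.A t₀' s.A' p) e ≤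
      (p:ℝ)^(-(1/7000):ℝ) *
        ((∑ j ∈ s.A.filter (fun j => D.it j ∈ t₀.items), mI s.t j) +
          ∑ j ∈ s.A'.filter (fun j => D.it j ∈ t₀'.items), mI s.t' j) +
      ∑ e ∈ KR D ρ Al n p s.M (u.B * p) u.A p t₀ s.A s.M' (u'.B * p) u'.A p t₀' s.A' Qf,
        D.iF (Ro (D.rho p)) (D.uA s.M (u.B * p) u.A t₀ s.A p)
          (D.uA s.M' (u'.B * p) u'.A t₀' s.A' p) e := by
  classical
  have hL0 := h.L.br₀
  have hR0 := h.R.br₀
  have hp0 : 0 < p := h.L.hF.1.pos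
  have hF0 : ∀ e, 0 ≤ D.iF (Ro (D.rho p)) (D.uA s.M (u.B * p) u.A t₀ s.A p)
      (D.uA s.M' (u'.B * p) u'.A t₀' s.A' p) e := fun e => D.iF_nonneg _
    (fun j y => (PB_uA h.M0 hL0.hb hL0.hF hL0.hW (Dvd.intro_left u.B rfl) j).nonneg y)
    (fun j y => (PB_uA h.M0' hR0.hb hR0.hF hR0.hW (Dvd.intro_left u'.B rfl) j).nonneg y) e
  have nΦ : 0 ≤ ∑ j ∈ s.A.filter (fun j => D.it j ∈ t₀.items), mI s.t j :=
    Finset.sum_nonneg fun j _ => mI_nn h.L j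
  have nΦ' : 0 ≤ ∑ j ∈ s.A'.filter (fun j => D.it j ∈ t₀'.items), mI s.t' j :=
    Finset.sum_nonneg fun j _ => mI_nn h.R j
  have hrest : 0 ≤ ∑ e ∈ KR D ρ Al n p s.M (u.B * p) u.A p t₀ s.A s.M' (u'.B * p) u'.A p t₀' s.A' Qf,
        D.iF (Ro (D.rho p)) (D.uA s.M (u.B * p) u.A t₀ s.A p)
          (D.uA s.M' (u'.B * p) u'.A t₀' s.A' p) e := Finset.sum_nonneg fun e _ => hF0 e
  have itR : ∀ q ∈ Qi D Al t₀' s.A', q ∈ (IT.br p Sp' t₁' t₀').items := fun q hq =>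
    Finset.mem_union_right _ (mem_Qi.1 hq).1
  have hp16 : 16 ≤ p := hk.big.trans hp
  have hp1 : (1:ℝ) ≤ p := by exact_mod_cast (by omega : 1 ≤ p)
  have hlog : 0 ≤ (Real.log p)^C1 := Real.rpow_nonneg (Real.log_nonneg hp1) _
  have omle : ∀ q, om s.M'.primeFactors q ≤ 1 := fun q =>
    om_le_one (fun l hl => (Nat.prime_of_mem_primeFactors hl).pos) q
  have mR' := mass_sum hni.ab h.R hni.c0 hR.ph hR.mean hni.full hR.il (mI_nn h.R)
  have key := col_node hk hni hCL hp hn h.L h.M0 hL hs hG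
    (τ' := t₀') (A' := s.A') (M' := s.M') (b' := u'.B * p) (pr' := u'.A) (c' := p)
    hR0.hb hR0.hF hR0.hW (Dvd.intro_left u'.B rfl) h.M0' hR.geM hs'
    (fun q hq => hR.once q (mem_Qi.1 hq).2.1 (itR q hq))
    (fun z hz q hq => by
      obtain ⟨h1, h2, j, hj, rfl⟩ := mem_Qi.1 hq
      exact hR.tame z hz j hj h2 (itR _ hq))
    (fun q hq => hR.lg q (mem_Qi.1 hq).2.1 (itR q hq))
    (((share_le hR.node hR.ms hni.rad.pos hni.W0 hni.Wρ hni.sg0 s.A').trans hni.sg).trans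
      (div_le_self hlog hp1))
    (Φ' := ∑ j ∈ s.A'.filter (fun j => D.it j ∈ t₀'.items), mI s.t' j)
    (Ψ' := ∑ j ∈ s.A'.filter (fun j => D.it j ∈ t₀'.items), mI s.t' j)
    mR'
    (le_trans (Finset.sum_le_sum fun q hq => mul_le_of_le_one_left (mul_nonneg
      (mul_nonneg (by positivity) (hni.rad.pos q).le) (tq_nonneg _)) (omle _)) mR')
    nΦ' nΦ' hFS
  refine key.trans (add_le_add ?_ le_rfl)
  have i1 : (p:ℝ)^(-(11/12):ℝ) ≤ (p:ℝ)^(-(1/6000):ℝ) :=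
    Real.rpow_le_rpow_of_exponent_le hp1 (by norm_num)
  have i2 := hk.n3 p hp
  have i3 : 0 ≤ (p:ℝ)^(-(1/6000):ℝ) := by positivity
  have i4 := mul_le_mul_of_nonneg_right i1 nΦ'
  have i5 := mul_le_mul_of_nonneg_right i2 (add_nonneg nΦ nΦ')
  nlinarith [mul_nonneg i3 nΦ]

end state

section gn
variable {D : Par Λ κ} {sp : ℕ → Finset Λ} {ρ : ℕ → ℝ} {Al : Finset ℕ} {P : Bld532.Par}
  {W : ℕ → ℝ} {U : ℕ → Finset ℕ} {CL C1 c₀ : ℝ} {p₁ : ℕ} {c : Crest.Agent.R4.GDef864.Par}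
  {ε : ℕ → ℝ} {dd : ℕ → ℕ} {stp : Stp Λ κ} {Ix : XSt Λ κ → Prop} {Qp : NS → IT → Prop}
  {loc : St Λ κ → ℝ}

/-- **the hypotheses of `GFinN_13`** for the near misses -/
theorem gn_loc (hloc : NMLoc D sp stp loc) (H : GNM D sp ρ Al P W U CL C1 c₀ p₁ c ε dd stp Ix)
    (hQ : ∀ u τ, Qp u τ → NB D Al P W U CL c₀ p₁ u τ) {B₀ : ℕ} {s₀ : St Λ κ}
    (hFS : ∀ x, GI (dvM mI) mI s₀ (HX D sp Qp (JJ Ix) B₀ B₀) x →
      Cl D sp Qp (JJ Ix) B₀ B₀ stp x → ∀ d, HD D sp Qp (JJ Ix) B₀ B₀ x d → FSx D ρ x d)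
    (hWH : ∀ x, GI (dvM mI) mI s₀ (HX D sp Qp (JJ Ix) B₀ B₀) x →
      Cl D sp Qp (JJ Ix) B₀ B₀ stp x → ∀ d,
      HD D sp Qp (JJ Ix) B₀ B₀ x d → ∀ e ∈ EB D ρ Al x d, R1 x d e → ∃ (ρ₀ : ℝ) (n₀ : ℕ), 0 < ρ₀ ∧
        WH D ρ (Ro (D.rho d.p)) x.s.M (d.u.B * d.p) d.u.A d.p x.s.M' (d.u'.B * d.p) d.u'.A d.p
          ρ₀ n₀ (dd d.p) e (FN D x d e)) :
    GN D sp Qp (JJ Ix) B₀ B₀ stp s₀ (fun t => t ^ (1 / 20 : ℝ)) ρ (fun x => loc x.s)
      (EB D ρ Al) (Ev c D ρ B₀) (Ev c D ρ B₀) (CrR c D ρ B₀) εC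
      (fun p => |gsC c ε CL c₀ p|) where
  εx0 := fun p => by
    unfold εC
    positivity
  gs0 := fun p => abs_nonneg _
  l0 := by
    intro x hx h
    obtain ⟨u, u', τ, τ', hi, hj⟩ := hx.i
    refine hloc.z hi.st fun hc => h ?_
    obtain ⟨k1, k2, k3, Sp, t₁, t₀, Sp', t₁', t₀', rfl, rfl⟩ := hc
    exact ⟨k1, k2, k3, ⟨⟨u, u', x.s.p, Sp, t₁, t₀, Sp', t₁', t₀'⟩, hi, hj⟩⟩
  sub := fun x hx hs d hd => EB_sub hd
  l1 := by
    classical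
    intro x hx hs d hd
    have nbL := hQ _ _ hd.1.qL.self
    have nbR := hQ _ _ hd.1.qR.self
    have hpb : p₁ ≤ d.p := nbL.big _ _ _ _ rfl
    have hp40 : 2 ^ 40 ≤ d.p := H.p2.trans hpb
    have hp1 : 1 ≤ d.p := le_trans (by norm_num) hp40
    have hp2 : (2 : ℝ) ^ 40 ≤ d.p := by exact_mod_cast hp40
    have e1 : x.s.p = d.p := hd.p_eq
    obtain ⟨g1, g2⟩ := Cl_ndvd hs
    obtain ⟨g3, g4⟩ := Cl_nmem hs
    have hO := (H.st x.s hs.1 g1 g2 g3 g4).1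
    have hO' := (H.st x.s hs.1 g1 g2 g3 g4).2
    rw [e1] at hO hO'
    have hp0 : (0 : ℝ) < d.p := by exact_mod_cast hp1
    have hle : (d.p : ℝ) ^ (-(1 / 3) : ℝ) ≤ 1 / 2 := by
      rw [Real.rpow_neg hp0.le, ← one_div]
      refine one_div_le_one_div_of_le (by norm_num) ?_
      have h5 : ((2 : ℝ) ^ 40) ^ (1 / 3 : ℝ) ≤ (d.p : ℝ) ^ (1 / 3 : ℝ) :=
        Real.rpow_le_rpow (by positivity) hp2 (by norm_num)
      refine le_trans ?_ h5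
      rw [← Real.rpow_natCast, ← Real.rpow_mul (by norm_num)]
      have h6 : (2 : ℝ) ^ (1 : ℝ) ≤ (2 : ℝ) ^ (((40 : ℕ) : ℝ) * (1 / 3)) :=
        Real.rpow_le_rpow_of_exponent_le (by norm_num) (by norm_num)
      rwa [Real.rpow_one] at h6
    have hl : ¬ x.s.t.isLeaf := by rw [hd.1.L.eq]; exact id
    have hl' : ¬ x.s.t'.isLeaf := by rw [hd.1.R.eq]; exact id
    have hpn : p₁ < x.n := lt_of_le_of_lt (hpb.trans e1.symm.le) hx.xi.n
    have hof := H.of x hd.2.2 hs.1 hpn g1 g2 g3 g4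
    have hIS := HD_is (fun u τ hq => (hQ u τ hq).nq) hd
    have sL : NSd D Al P W CL c₀ d.p 1 x.s.M d.u (.br d.p d.Sp d.t₁ d.t₀) x.s.A := by
      have := StopFF95.NSd_L (c₀ := c₀) (CL := CL) (Al := Al) hIS hl hl' g1
        (by rw [e1]; exact nbL.nf hd.1.ilL) (by rw [e1]; exact H.Ut d.p hpb)
      rwa [e1] at this
    have sR : NSd D Al P W CL c₀ d.p 1 x.s.M' d.u' (.br d.p d.Sp' d.t₁' d.t₀') x.s.A' := by
      have := StopFF95.NSd_R (c₀ := c₀) (CL := CL) (Al := Al) hIS hl hl' g2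
        (by rw [e1]; exact nbR.nf hd.1.ilR) (by rw [e1]; exact H.Ut d.p hpb)
      rwa [e1] at this
    have key := (hloc.le hd.1.st hs.1 (not_or.2 ⟨hs.2.1, hs.2.2.1⟩)).trans
      (nm_iF (n := nn d.p) H.cc (H.ni d.p hpb) hd.1.st one_pos sL sR
      H.CL0 hpb rfl (by rw [hd.1.mL.eq]; exact hof.2) (by rw [hd.1.mR.eq]; exact hof.1)
      (hFS x hx hs d hd))
    have x1 : GInst194.xs x.s.M' ≤ 2 * ∑ l ∈ x.s.O, 1 / (l : ℝ) := by
      have := GSt927.xs_le hd.1.mR.pos (by rw [hd.1.mR.eq]; exact hO.trans hle)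
      rwa [hd.1.mR.eq] at this
    have x2 : GInst194.xs x.s.M ≤ 2 * ∑ l ∈ x.s.O', 1 / (l : ℝ) := by
      have := GSt927.xs_le hd.1.mL.pos (by rw [hd.1.mL.eq]; exact hO'.trans hle)
      rwa [hd.1.mL.eq] at this
    refine ⟨(d.p : ℝ) ^ (-(1 / 7000) : ℝ), (d.p : ℝ) ^ (-(1 / 7000) : ℝ), ?_,
      by unfold εC; linarith, by unfold εC; linarith⟩
    have hsum : ∑ e ∈ KR D ρ Al (nn d.p) d.p x.s.M (d.u.B * d.p) d.u.A d.p d.t₀ x.s.A x.s.M'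
        (d.u'.B * d.p) d.u'.A d.p d.t₀' x.s.A' (fun _ => False),
        D.iF (Ro (D.rho d.p)) (D.uA x.s.M (d.u.B * d.p) d.u.A d.t₀ x.s.A d.p)
          (D.uA x.s.M' (d.u'.B * d.p) d.u'.A d.t₀' x.s.A' d.p) e ≤
        ∑ e ∈ EB D ρ Al x d, FN D x d e := by
      exact Finset.sum_le_sum_of_subset_of_nonneg (KR_EB fun _ => id)
        fun e he _ => (Finset.mem_filter.1 (Finset.mem_filter.1 he).1).2.1.le
    have key' := key.trans (add_le_add le_rfl hsum)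
    show loc x.s ≤ _
    linarith
  cls := by
    intro x hx hs d hd e he hr
    obtain ⟨ρ₀, n₀, h0, hw⟩ := hWH x hx hs d hd e he hr
    rcases cls_NM H hQ hd he hr h0 hw with h | h
    · exact Or.inl h
    · refine Or.inr (h.trans ?_)
      have nnL : 0 ≤ mq D x.s.t x.s.A e.1 := Finset.sum_nonneg fun j _ => hx.tc.L.self.nn j
      have nnR : 0 ≤ mq D x.s.t' x.s.A' e.2 := Finset.sum_nonneg fun j _ => hx.tc.R.self.nn j
      exact add_le_add (mul_le_mul_of_nonneg_right (le_abs_self _) nnL)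
        (mul_le_mul_of_nonneg_right (le_abs_self _) nnR)
  again := by
    intro x hx hs d hd e he hr P₁ r₁ h1 h2 h3 h4
    exact again_NM H hQ hx.xi hd P₁ r₁ h1 h2 h3 h4

/-- **NEAR MISSES OF A SELF STATE** -/
theorem loc_self (hloc : NMLoc D sp stp loc) (H : GNM D sp ρ Al P W U CL C1 c₀ p₁ c ε dd stp Ix)
    (hQ : ∀ u τ, Qp u τ → NB D Al P W U CL c₀ p₁ u τ) {u : NS} {τ : IT} {A : Finset Λ}
    (hs : SideI D sp u.B u.A τ A (D.toDT sp u.B u.A τ)) (hq : All Qp u τ)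
    (hilA : IL D.it A) (hO : τ.Ok u.n) (hn : 0 < u.n)
    (hix : Ix (XSt.st u.n (selfSt (D.toDT sp u.B u.A τ) A)))
    (hFS : ∀ x, GI (dvM mI) mI (selfSt (D.toDT sp u.B u.A τ) A) (HX D sp Qp (JJ Ix) u.B u.B) x →
      Cl D sp Qp (JJ Ix) u.B u.B stp x → ∀ d, HD D sp Qp (JJ Ix) u.B u.B x d → FSx D ρ x d)
    (hWH : ∀ x, GI (dvM mI) mI (selfSt (D.toDT sp u.B u.A τ) A) (HX D sp Qp (JJ Ix) u.B u.B) x →
      Cl D sp Qp (JJ Ix) u.B u.B stp x → ∀ d, HD D sp Qp (JJ Ix) u.B u.B x d →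
        ∀ e ∈ EB D ρ Al x d, R1 x d e →
        ∃ (ρ₀ : ℝ) (n₀ : ℕ), 0 < ρ₀ ∧
        WH D ρ (Ro (D.rho d.p)) x.s.M (d.u.B * d.p) d.u.A d.p x.s.M' (d.u'.B * d.p) d.u'.A d.p
          ρ₀ n₀ (dd d.p) e (FN D x d e))
    (hev : ∀ P : ℕ, p₁ ≤ P → ∀ (θ₀ ρ : ℝ) (F : Finset ℕ) (t : WT) (n : ℕ), t.Ok n →
      E (fun v => ind (EvN c θ₀ ρ P (v.filter (P < ·)) (F.filter (P < ·)))) t ∅ ≤
        ∑ x ∈ F.filter (P < ·), 1 / (x:ℝ) + 4 * (P:ℝ)^(-(c.c'/20000)))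
    {κ' : ℝ} (hK : ∀ j ∈ A, mI (D.toDT sp u.B u.A τ) j ≠ 0 →
      ∑ P ∈ mtD (dvM mI) j (D.toDT sp u.B u.A τ : DT Λ κ),
        (2 * (∑ x ∈ (mtD (dvM mI) j (D.toDT sp u.B u.A τ)).filter (P < ·), 1 / (x:ℝ) +
          4 * (P:ℝ)^(-(c.c'/20000))) + 2 * (εC P + |gsC c ε CL c₀ P|)) ≤ κ') :
    Crest.Agent.R4P.Walk560.W (nxH stp (dvM mI)) XSt.rank (fun x => loc x.s)
      (XSt.st u.n (selfSt (D.toDT sp u.B u.A τ) A)) ≤
      (1 + κ') * ∑ j ∈ A, mI (D.toDT sp u.B u.A τ) j := by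
  have hni := H.ni p₁ le_rfl
  have hN : ∀ u τ, Qp u τ → NodeOk P W u τ := fun u τ h => (hQ u τ h).nq.1
  have hJ : JNext D sp Qp (JJ Ix) stp u.B u.B := fun x hx u₁ u₁' τ₁ τ₁' h hj e he => by
    obtain ⟨v, v', σ, σ', h1, h2⟩ := HJ.next H.spo H.il hN hx h hj.1 e he
    exact ⟨v, v', σ, σ', h1, h2, H.ix x hx hj.2 e he⟩
  have hj : JJ Ix (XSt.st u.n (selfSt (D.toDT sp u.B u.A τ) A)) u u τ τ :=
    ⟨JS.self _ _ _, hix⟩
  refine gfin_NM_self hni.rad hni.ab H.spo H.il hN hs hq hilA hO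
    hn hj hJ (gn_loc hloc H hQ hFS hWH)
    (eL := fun P j => ∑ x ∈ (mtD (dvM mI) j (D.toDT sp u.B u.A τ)).filter (P < ·), 1 / (x:ℝ) +
      4 * (P:ℝ)^(-(c.c'/20000)))
    (eR := fun P j => ∑ x ∈ (mtD (dvM mI) j (D.toDT sp u.B u.A τ)).filter (P < ·), 1 / (x:ℝ) +
      4 * (P:ℝ)^(-(c.c'/20000)))
    (fun j _ P _ => by positivity) (fun j _ P _ => by positivity)
    (fun j _ P hP _ w hw => hev P (mtD_big hQ j τ hq P hP) _ _ _ w _ hw)
    (fun j _ P hP _ w hw => hev P (mtD_big hQ j τ hq P hP) _ _ _ w _ hw)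
    (fun j hj hm => le_trans (le_of_eq ?_) (hK j hj hm))
  refine Finset.sum_congr rfl fun P _ => ?_
  ring

end gn

section fin
variable {D : Par Λ κ} {sp : ℕ → Finset Λ} {ρ : ℕ → ℝ} {Al : Finset ℕ} {P : Bld532.Par}
  {W : ℕ → ℝ} {U : ℕ → Finset ℕ} {CL C1 c₀ Dc κ' : ℝ} {p0 : ℕ}
  {dd : ℕ → ℕ} {stp : Stp Λ κ} {Ix : XSt Λ κ → Prop} {Qp : NS → IT → Prop} {loc : St Λ κ → ℝ}

/-- **G-FINAL FOR THE NEAR MISSES**: `W (eNM) ≤ (1 + κ') ∑ mI` at a self state -/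
theorem loc_final (hloc : NMLoc D sp stp loc) (hN : NumG CL C1 c₀ Dc κ' p0) (hCL : 0 ≤ CL)
    (ni : ∀ p, p0 ≤ p → NI D ρ Al P W C1 c₀ p)
    (ut : ∀ p : ℕ, p0 ≤ p → ∀ q ∈ Al, ∀ z : ℝ, (p : ℝ) ≤ z →
      ∑ l ∈ (U q).filter (fun l : ℕ => z < (l : ℝ)), (1 : ℝ) / l ≤ z ^ (-(1 / 2 : ℝ)))
    (spo : D.SpOk sp) (il : ∀ b, IL D.it (sp b))
    (hdd : ∀ p : ℕ, p0 ≤ p → (2 : ℝ) ^ dd p ≤ Real.exp (rt (Real.log p)))
    (st : ∀ s : St Λ κ, ¬ stp s → ¬ s.p ∣ s.M → ¬ s.p ∣ s.M' → s.p ∉ s.O → s.p ∉ s.O' →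
      ∑ l ∈ s.O, 1 / (l : ℝ) ≤ (s.p : ℝ) ^ (-(1 / 3) : ℝ) ∧
      ∑ l ∈ s.O', 1 / (l : ℝ) ≤ (s.p : ℝ) ^ (-(1 / 3) : ℝ))
    (ix : ∀ x, XI x → Ix x → ∀ e ∈ steps stp (dvM mI) x, Ix e.y)
    (of : ∀ x, Ix x → ¬ stp x.s → p0 < x.n → ¬ x.s.p ∣ x.s.M → ¬ x.s.p ∣ x.s.M' →
      x.s.p ∉ x.s.O → x.s.p ∉ x.s.O' → ∑ l ∈ x.s.O, (l : ℝ) ^ (-(11 / 12) : ℝ) ≤ 1 ∧
      ∑ l ∈ x.s.O', (l : ℝ) ^ (-(11 / 12) : ℝ) ≤ 1)
    (hQ : ∀ u τ, Qp u τ → NB D Al P W U CL c₀ p0 u τ) {u : NS} {τ : IT} {A : Finset Λ}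
    (hs : SideI D sp u.B u.A τ A (D.toDT sp u.B u.A τ)) (hq : All Qp u τ)
    (hilA : IL D.it A) (hO : τ.Ok u.n) (hn : 0 < u.n)
    (hix : Ix (XSt.st u.n (selfSt (D.toDT sp u.B u.A τ) A)))
    (hw : Wld D sp ρ Al stp Qp Ix dd u.B (selfSt (D.toDT sp u.B u.A τ) A))
    (hcnt : ∀ j ∈ A, mI (D.toDT sp u.B u.A τ) j ≠ 0 →
      Cnt (mtD (dvM mI) j (D.toDT sp u.B u.A τ)) p0 Dc) :
    WS stp loc (selfSt (D.toDT sp u.B u.A τ) A) ≤
      (1 + κ') * ∑ j ∈ A, mI (D.toDT sp u.B u.A τ) j := by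
  have H := hN.gnm hCL ni ut spo il hdd st ix of
  rw [show selfSt (D.toDT sp u.B u.A τ) A =
    (XSt.st u.n (selfSt (D.toDT sp u.B u.A τ) A)).s from rfl, WS_eq_H stp (dvM mI)]
  refine loc_self hloc H hQ hs hq hilA hO hn hix hw.fs hw.wh hN.ev fun j hj hm => ?_
  exact hN.num _ (fun x hx => mtD_big hQ j τ hq x hx) (hcnt j hj hm)

end fin

section ctx
open Crest.Agent.R4P.PrunePar33 Crest.Agent.R4P.Data758 Crest.Agent.R4P.NMCtx927
open Crest.Agent.R4P.NMW710 Crest.Agent.R4P.NI927 Crest.Agent.R4P.Link758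
open Crest.Agent.R4.DeepSt579 (tq tq_nonneg tq_le_one rd)
open Crest.Agent.R4.HVW560 (cof)
open Crest.Agent.R4P.Step588 (NDt ND1 ctx_NDt CT CT_pos tot_ge ctx_rr All_All)
open Crest.Agent.R4P.Skel189 (Ctx top)
open Crest.Agent.R4P

/-- **NEAR MISSES OF A CONTEXT** -/
theorem nm_loc (N : Skel189.Num) {c₀ κ' : ℝ} (hc₀ : 0 < c₀) (hκ : 0 < κ') : ∃ p₁ : ℕ, ∀ p0 ≥ p₁,
    ∀ (γ : ℝ) (P₀ : ℕ) (X : Ctx N γ p0 P₀) (Y : Finset (ℕ × ℕ × Finset ℕ)), Mean X c₀ → WNM X →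
    ∀ stp : Stp X.c.Lam (Lb (WL X.c.Lam) Y), (∀ s : St X.c.Lam (Lb (WL X.c.Lam) Y), ¬ stp s →
      ¬ OSWS245.stpN s) → ∀ loc : St X.c.Lam (Lb (WL X.c.Lam) Y) → ℝ,
      NMLoc (X.c.D.par Y) X.c.sp stp loc →
    All (fun u τ => ∀ A, AdI (X.c.D.par Y).it ((X.c.D.par Y).toG u.B u.A τ) A →
      WS stp loc (selfSt ((X.c.D.par Y).toDT X.c.sp u.B u.A τ) A) ≤
        (1 + κ') * ∑ j ∈ A, mI ((X.c.D.par Y).toDT X.c.sp u.B u.A τ) j) ⟨top X.S, 1, 1, 1⟩ X.c.t := by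
  have hB1 := N.hB
  have hC1 := N.hC1
  have hc2 := N.hc2
  have hCL : (1 : ℝ) ≤ 2 * CT := by
    have h1 : (1 : ℝ) ≤ Real.exp (22 / Real.log 2) := Real.one_le_exp (by positivity)
    have h2 : Real.log 2 ≤ 1 := (Real.log_two_lt_d9.le).trans (by norm_num)
    have h3 : 0 < Real.log 2 := Real.log_pos one_lt_two
    unfold CT
    rw [← mul_div_assoc, le_div_iff₀ h3]
    nlinarith
  obtain ⟨a1, h1⟩ := exists_NumG (CL := 2 * CT) (C1 := N.B + N.c2 + 1) (c₀ := c₀)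
    (Dc := N.C1 + N.c2 + 1) (κ := κ') hCL hc₀ (by linarith) hκ
  obtain ⟨a2, h2⟩ := ctx_NI N hc₀
  obtain ⟨a3, h3⟩ := ctx_NB N (c₀ := c₀)
  obtain ⟨a4, h4⟩ := ctx_Ut N
  refine ⟨a1 + a2 + a3 + a4 + 2 ^ 40, fun p0 hp0 γ P₀ X Y hm hw stp hst loc hloc => ?_⟩
  have hN := h1 p0 (by omega)
  have hp1 : 1 ≤ p0 := by omega
  have hn0 : 0 < top X.S := Nat.succ_pos _
  have hlvl := All_lvl X.c.t ⟨top X.S, 1, 1, 1⟩ X.tOk le_rfl hn0
  have hQ : All (QX X Y c₀) ⟨top X.S, 1, 1, 1⟩ X.c.t := by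
    refine All.mono (fun u τ hh => ?_)
      (((h3 p0 (by omega) γ P₀ X Y hm).and (MF_root X.tOk 1)).and hlvl)
    exact ⟨hh.1.1, hh.1.2, hh.2.1⟩
  have hall := ((((ctx_NDt X).and X.all).and (ctx_mt X)).and
    ((All_All _ _ hQ).and (All_All _ _ X.nodes))).and hlvl
  refine All.mono (fun u τ hh A hA => ?_) hall
  obtain ⟨⟨⟨⟨hND, hNQ, hNG⟩, hmt⟩, hq, hno⟩, -, hun, hO⟩ := hh
  have hF : Fit u.B u.A τ := Bld532.Fit_of_NodeOk hno
  have hB : 0 < u.B := Nat.pos_of_ne_zero hND.bk.sfB.ne_zero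
  have hW : (X.c.D.par Y).Wts u.A τ := by
    intro j hj
    rw [← hND.self.pp _ hj]
    exact X.ok.wt _ (Cf.mem_S j) _
  have hs : SideI (X.c.D.par Y) X.c.sp u.B u.A τ A ((X.c.D.par Y).toDT X.c.sp u.B u.A τ) :=
    ⟨rfl, hB, hF, hW, hA.1, u.n, hO⟩
  refine loc_final hloc (Ix := OF927.OF p0) (Dc := N.C1 + N.c2 + 1) (dd := X.c.wp.dep) (Qp := QX X Y c₀)
    hN (by linarith) (fun p hp => h2 p0 (by omega) γ P₀ X Y p hp)
    (fun p hp => h4 p0 (by omega) γ P₀ X p hp) (X.ok.spok.spOk Y)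
    (fun b => X.c.IL_sp b) hw.dep (fun s hs _ _ h1 h2 => sum_le_third (hst s hs) h1 h2)
    (fun x hX hx => hx.next hp1 hst hX)
    (fun x hx _ hn _ _ h1 h2 => OF_le_one hx (by omega) h1 h2)
    (fun u τ h => h.1) hs hq hA.2 hO hun ?_ ?_ ?_
  · refine OF927.OF.start ⟨?_, ?_, ?_, ?_, ?_⟩ rfl rfl
    · intro q hq
      simp [XSt.st, selfSt] at hq
    · have e : OSWS245.mO (XSt.st u.n (selfSt ((X.c.D.par Y).toDT X.c.sp u.B u.A τ) A)).s = 0 := by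
        unfold OSWS245.mO
        simp [XSt.st, selfSt]
      rw [e]; positivity
    · exact topGe hno
    · exact topGe hno
    · intro hm
      simp [XSt.st, selfSt] at hm
  · exact
      { fs := fun x _ _ d hd => fs_ctx hw (colF hd)
        wh := fun x _ _ d hd e he hr => ⟨X.c.wp.ρ₀, X.c.wp.n₀, X.fine.ρ0,
          wh_ctx hw (by omega) (colF hd) he hr⟩ }
  · intro j hj hm0
    exact ctx_cnt X hO hmt hB hF hW hs hm0


open Crest.Agent.R4P.Skel189 Crest.Agent.R4P.OSWS245 in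
/-- **a cost below the energy of the missing functions is a part of the walk error** -/
theorem part_loc (N : Skel189.Num) {κ : ℝ} (hκ : 0 < κ) : ∃ p₁ : ℕ, ∀ p0 ≥ p₁, ∀ (γ : ℝ) (P₀ : ℕ),
    2 ≤ P₀ → ∀ X : Ctx N γ p0 P₀, WNM X → ∀ (j₀ : X.c.Lam) (Hb : NS → IT → Prop) (stp : X.STP),
    (∀ s : X.Sta, ¬ stp s → ¬ stpN s) → ∀ loc : X.Sta → ℝ,
    NMLoc (X.c.D.par X.Y) X.c.sp stp loc → PartW X j₀ Hb stp loc (4 * (1 + κ)) := by
  obtain ⟨a2, h2⟩ := nm_loc N (c₀ := 1 / 2) (κ' := κ) (by norm_num) hκ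
  obtain ⟨a3, h3⟩ := Skel189.ctx_mean N
  obtain ⟨a4, h4⟩ := Skel189.ctx_sum_mI N
  refine ⟨a2 + a3 + a4, fun p0 hp0 γ P₀ hP X hw j₀ Hb stp hst loc hloc => ?_⟩
  have hm : Mean X (1 / 2) := fun q hq z => (h3 p0 (by omega) γ P₀ hP X).1 q hq z
  have key := h2 p0 (by omega) γ P₀ X X.Y hm hw stp hst loc hloc
  exact Part.of_mI (by linarith) (h4 p0 (by omega) γ P₀ hP X j₀)
    (All.mono (fun u τ hh _ _ A hA _ => hh A hA) key)

open Crest.Agent.R4P.Skel189 Crest.Agent.R4P.OSWS245 in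
/-- **THE NEAR MISSES OF THE FULL MISSING FUNCTIONS ARE A PART OF THE WALK ERROR** -/
theorem part_eNMg (N : Skel189.Num) {κ : ℝ} (hκ : 0 < κ) : ∃ p₁ : ℕ, ∀ p0 ≥ p₁, ∀ (γ : ℝ) (P₀ : ℕ),
    2 ≤ P₀ → ∀ X : Ctx N γ p0 P₀, WNM X → ∀ (j₀ : X.c.Lam) (Hb : NS → IT → Prop) (stp : X.STP),
    (∀ s : X.Sta, ¬ stp s → ¬ stpN s) → PartW X j₀ Hb stp (eNMg stp) (4 * (1 + κ)) := by
  obtain ⟨p₁, h⟩ := part_loc N hκ
  exact ⟨p₁, fun p0 hp0 γ P₀ hP X hw j₀ Hb stp hst =>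
    h p0 hp0 γ P₀ hP X hw j₀ Hb stp hst _ (nmLoc_eNMg _ _ stp)⟩

open Crest.Agent.R4P.Skel189 Crest.Agent.R4P.OSWS245 Crest.Agent.R4P.SkelF29 in
/-- the same for the full population -/
theorem partF_eNMg (N : Skel189.Num) {κ : ℝ} (hκ : 0 < κ) : ∃ p₁ : ℕ, ∀ p0 ≥ p₁, ∀ (γ : ℝ) (P₀ : ℕ),
    2 ≤ P₀ → ∀ X : Ctx N γ p0 P₀, WNM X → ∀ (j₀ : X.c.Lam) (Hb : NS → IT → Prop) (stp : X.STP),
    (∀ s : X.Sta, ¬ stp s → ¬ stpN s) → PartWF X j₀ Hb stp (eNMg stp) (4 * (1 + κ)) := by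
  obtain ⟨p₁, h⟩ := part_eNMg N hκ
  exact ⟨p₁, fun p0 hp0 γ P₀ hP X hw j₀ Hb stp hst =>
    PartW.toF (h p0 hp0 γ P₀ hP X hw j₀ Hb stp hst)⟩

end ctx

end Crest.Agent.R4P.NMg13
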