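import Crest.Agent.R4P.Grp_36
import Crest.Agent.R4P.ItemDT758

/-!
R4 (S0004) with powers, group [W-eSHR], helper33: **the groups of nodes behind `Grp_36`**.

* `Nd` : a node `(s, t)` with its state, or the empty child of a pull; `NGp` : weighted lists.
* `im D sp G` : the group (`Grp36.Gp`) of a list of nodes.
* `rsN, gBN, gRN, gCN` : the steps of `Grp_36` on nodes; `gB_im, gR_im, gC_im`.
* `NG Q c0 T G` : every member satisfies `All Q`, weight times factor is `c0`, `A B = T`;
  preserved by the steps (`NG.gB, NG.gR, NG.gC`).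
* `GS2` : sums over the steps of the walk (both parts); `GS_im`, `GS2_im`.
* `tsum` : sums over the nodes of the tree; `GSN_lin` : linear local terms are sums over the tree.
-/

set_option autoImplicit false
set_option linter.unusedSectionVars false
set_option linter.unusedVariables false
open MeasureTheory Filter Set

namespace Crest.Agent.R4P.NodeG33

open Crest.Agent.R4.Tour104 Crest.Agent.R4.Tour758 Crest.Agent.R4.Avg758 Crest.Agent.R4.Clos758
open Crest.Agent.R4.ClosL758 Crest.Agent.R4.ClosG758 Crest.Agent.R4.ClosR758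
open Crest.Agent.R4P.Cnt588 Crest.Agent.R4P.Item758
open Crest.Agent.R4P.ClosR442 Crest.Agent.R4P.Walk560 Crest.Agent.R4P.Grp36
open Crest.Agent.R4P.Bld532 (NS All)

/-- a node with its state, or the empty child of a pull of the column `q` -/
abbrev Nd : Type := (NS × IT) ⊕ ℕ

/-- a group of nodes -/
abbrev NGp : Type := List (ℝ × Nd)

/-! ### the steps on nodes -/

/-- resolve the add, far and up nodes of the column `p` -/
def rsT (p : ℕ) : NS → IT → List (NS × IT)
  | s, .leaf S => [(s, .leaf S)]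
  | s, .br q Sp t₁ t₀ => [(s, .br q Sp t₁ t₀)]
  | s, .add q t₁ t₀ => if q = p then
      rsT p ⟨q + 1, s.c, s.A, s.B⟩ t₁ ++ rsT p ⟨q + 1, s.c, s.A, s.B⟩ t₀ else [(s, .add q t₁ t₀)]
  | s, .up q Sp t => if q = p then rsT p ⟨q, s.c, s.A, s.B⟩ t else [(s, .up q Sp t)]
  | s, .pl q t => [(s, .pl q t)]
  | s, .far q t₁ t₀ => if q = p then
      rsT p ⟨q + 1, s.c, s.A, s.B⟩ t₁ ++ rsT p ⟨q + 1, s.c, s.A, s.B⟩ t₀ else [(s, .far q t₁ t₀)]

/-- resolve a member -/
def rsN (p : ℕ) : Nd → List Nd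
  | .inl z => (rsT p z.1 z.2).map Sum.inl
  | .inr q => [.inr q]

/-- tie or pull of the column `p` -/
def isBN (p : ℕ) : Nd → Bool
  | .inl (_, .br q _ _ _) => decide (q = p)
  | .inl (_, .pl q _) => decide (q = p)
  | _ => false

/-- children of a tie or pull -/
noncomputable def chN : Nd → NGp
  | .inl (s, .br q _ t₁ t₀) =>
      [(1 - 1 / (q : ℝ), .inl (⟨q, s.c / (1 - 1 / (q : ℝ)), s.A * q, s.B⟩, t₁)),
        (1 / (q : ℝ), .inl (⟨q, s.c * q, s.A, s.B * q⟩, t₀))]
  | .inl (s, .pl q t) => [(1 - 0, .inl (⟨q + 1, s.c, s.A * q, s.B⟩, t)), (0, .inr q)]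
  | _ => []

/-- resolved group -/
def rsG' (p : ℕ) (G : NGp) : NGp := G.flatMap fun m => (rsN p m.2).map fun t => (m.1, t)

/-- the ties and pulls at `p` -/
def gBN (p : ℕ) (G : NGp) : NGp := (rsG' p G).filter fun m => isBN p m.2

/-- the other members -/
def gRN (p : ℕ) (G : NGp) : NGp := (rsG' p G).filter fun m => !isBN p m.2

/-- the children of the ties and pulls at `p` -/
noncomputable def gCN (p : ℕ) (G : NGp) : NGp :=
  (gBN p G).flatMap fun m => (chN m.2).map fun q => (m.1 * q.1, q.2)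

/-! ### the image -/

section im
variable {Λ κ : Type*} [Fintype Λ] [DecidableEq Λ] [Fintype κ] [DecidableEq κ]
variable (D : Par Λ κ) (sp : ℕ → Finset Λ)

/-- the decorated tree of a member -/
noncomputable def imN : Nd → DT Λ κ
  | .inl z => D.toDT sp z.1.B z.1.A z.2
  | .inr q => .leaf (D.rho q) fun _ _ => 0

/-- **the group of a list of nodes** -/
noncomputable def im (G : NGp) : Gp Λ κ := G.map fun m => (m.1, imN D sp m.2)

@[simp] lemma im_nil : im D sp [] = [] := rfl

@[simp] lemma im_cons (m : ℝ × Nd) (G : NGp) :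
    im D sp (m :: G) = (m.1, imN D sp m.2) :: im D sp G := rfl

lemma im_append (G H : NGp) : im D sp (G ++ H) = im D sp G ++ im D sp H := by
  simp [im]

lemma im_single (c : ℝ) (s : NS) (t : IT) :
    im D sp [(c, .inl (s, t))] = [(c, D.toDT sp s.B s.A t)] := rfl

lemma rs_toDT (p : ℕ) (t : IT) : ∀ s : NS, rs p (D.toDT sp s.B s.A t) =
    (rsT p s t).map fun z => D.toDT sp z.1.B z.1.A z.2 := by
  induction t with
  | leaf S => intro s; rfl
  | br q Sp t₁ t₀ ih₁ ih₀ => intro s; rfl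
  | add q t₁ t₀ ih₁ ih₀ =>
    intro s
    show (if q = p then _ else _) = _
    unfold rsT
    by_cases h : q = p
    · rw [if_pos h, if_pos h, List.map_append]
      exact congrArg₂ _ (ih₁ ⟨q + 1, s.c, s.A, s.B⟩) (ih₀ ⟨q + 1, s.c, s.A, s.B⟩)
    · rw [if_neg h, if_neg h]; rfl
  | up q Sp t ih =>
    intro s
    show (if q = p then _ else _) = _
    unfold rsT
    by_cases h : q = p
    · rw [if_pos h, if_pos h]
      exact ih ⟨q, s.c, s.A, s.B⟩
    · rw [if_neg h, if_neg h]; rfl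
  | pl q t ih => intro s; rfl
  | far q t₁ t₀ ih₁ ih₀ =>
    intro s
    show (if q = p then _ else _) = _
    unfold rsT
    by_cases h : q = p
    · rw [if_pos h, if_pos h, List.map_append]
      exact congrArg₂ _ (ih₁ ⟨q + 1, s.c, s.A, s.B⟩) (ih₀ ⟨q + 1, s.c, s.A, s.B⟩)
    · rw [if_neg h, if_neg h]; rfl

lemma rs_imN (p : ℕ) (x : Nd) : rs p (imN D sp x) = (rsN p x).map (imN D sp) := by
  rcases x with z | q
  · show rs p (D.toDT sp z.1.B z.1.A z.2) = ((rsT p z.1 z.2).map Sum.inl).map (imN D sp)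
    rw [rs_toDT, List.map_map]; rfl
  · rfl

lemma isB_imN (p : ℕ) (x : Nd) : isB p (imN D sp x) = isBN p x := by
  rcases x with ⟨s, t⟩ | q
  · cases t <;> rfl
  · rfl

lemma chd_imN (x : Nd) : chd (imN D sp x) = im D sp (chN x) := by
  rcases x with ⟨s, t⟩ | q
  · cases t <;> rfl
  · rfl

lemma rsG_im (p : ℕ) (G : NGp) : rsG p (im D sp G) = im D sp (rsG' p G) := by
  induction G with
  | nil => rfl
  | cons m G ih =>
    rw [im_cons, rsG_cons]
    show _ = im D sp (((rsN p m.2).map fun t => (m.1, t)) ++ rsG' p G)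
    rw [im_append, ih, rs_imN]
    congr 1
    simp [im, Function.comp_def]

lemma filter_im (F : DT Λ κ → Bool) (F' : Nd → Bool) (h : ∀ x, F (imN D sp x) = F' x) (G : NGp) :
    (im D sp G).filter (fun m => F m.2) = im D sp (G.filter fun m => F' m.2) := by
  induction G with
  | nil => rfl
  | cons m G ih =>
    by_cases hm : F' m.2 = true
    · rw [im_cons, List.filter_cons_of_pos (by simpa [h] using hm),
        List.filter_cons_of_pos (by simpa using hm), im_cons, ih]
    · rw [im_cons, List.filter_cons_of_neg (by simpa [h] using hm),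
        List.filter_cons_of_neg (by simpa using hm), ih]

lemma gB_im (p : ℕ) (G : NGp) : gB p (im D sp G) = im D sp (gBN p G) := by
  unfold gB gBN
  rw [rsG_im]
  exact filter_im D sp _ _ (isB_imN D sp p) _

lemma gR_im (p : ℕ) (G : NGp) : gR p (im D sp G) = im D sp (gRN p G) := by
  unfold gR gRN
  rw [rsG_im]
  exact filter_im D sp (fun t => !isB p t) (fun x => !isBN p x)
    (fun x => by rw [isB_imN]) _

lemma gC_im (p : ℕ) (G : NGp) : gC p (im D sp G) = im D sp (gCN p G) := by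
  unfold gC gCN
  rw [gB_im]
  induction gBN p G with
  | nil => rfl
  | cons m g ih =>
    rw [im_cons, List.flatMap_cons, ih, List.flatMap_cons, im_append]
    congr 1
    rw [chd_imN]
    simp [im, Function.comp_def]

end im

/-! ### sums over the steps of the walk -/

/-- sums of local terms of the steps, node version -/
noncomputable def GSN (loc : ℕ → NGp → NGp → ℝ) : ℕ → ℕ → NGp → ℝ
  | 0, _, _ => 0
  | n + 1, p, G => if p = 0 then 0 else
      loc p (gBN p G) (gRN p G) + GSN loc n p (gCN p G) + GSN loc n (p - 1) (gRN p G)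

/-- sums of local terms of the steps (both parts) -/
noncomputable def GS2 {Λ κ : Type*} (loc : ℕ → Gp Λ κ → Gp Λ κ → ℝ) : ℕ → ℕ → Gp Λ κ → ℝ
  | 0, _, _ => 0
  | n + 1, p, g => if p = 0 then 0 else
      loc p (gB p g) (gR p g) + GS2 loc n p (gC p g) + GS2 loc n (p - 1) (gR p g)

lemma GS_eq_GS2 {Λ κ : Type*} (loc : ℕ → Gp Λ κ → ℝ) (n p : ℕ) (g : Gp Λ κ) :
    GS loc n p g = GS2 (fun p g _ => loc p g) n p g := by
  induction n generalizing p g with
  | zero => rfl
  | succ n ih => unfold GS GS2; rw [ih, ih]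

section
variable {Λ κ : Type*} [Fintype Λ] [DecidableEq Λ] [Fintype κ] [DecidableEq κ]
variable (D : Par Λ κ) (sp : ℕ → Finset Λ)

theorem GS2_im (loc : ℕ → Gp Λ κ → Gp Λ κ → ℝ) (n p : ℕ) (G : NGp) :
    GS2 loc n p (im D sp G) = GSN (fun p B R => loc p (im D sp B) (im D sp R)) n p G := by
  induction n generalizing p G with
  | zero => rfl
  | succ n ih =>
    unfold GS2 GSN
    rw [gB_im, gR_im, gC_im, ih, ih]

theorem GS_im (loc : ℕ → Gp Λ κ → ℝ) (n p : ℕ) (G : NGp) :
    GS loc n p (im D sp G) = GSN (fun p B _ => loc p (im D sp B)) n p G := by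
  rw [GS_eq_GS2, GS2_im]

end

/-! ### the invariant -/

/-- a good member of a group on the circle `T` -/
def MOk (Q : NS → IT → Prop) (c0 : ℝ) (T : ℕ) (m : ℝ × Nd) : Prop :=
  match m.2 with
  | .inl z => All Q z.1 z.2 ∧ m.1 * z.1.c = c0 ∧ z.1.A * z.1.B = T ∧ 0 < m.1
  | .inr _ => m.1 = 0

/-- **the invariant of the groups** -/
def NG (Q : NS → IT → Prop) (c0 : ℝ) (T : ℕ) (G : NGp) : Prop := ∀ m ∈ G, MOk Q c0 T m

section inv
variable {Q : NS → IT → Prop} {c0 : ℝ} {T p : ℕ} {G : NGp}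

lemma NG.nil : NG Q c0 T [] := fun m hm => absurd hm (by simp)

lemma NG.start {s : NS} {t : IT} (h : All Q s t) :
    NG Q s.c (s.A * s.B) [((1 : ℝ), .inl (s, t))] := by
  intro m hm
  rw [List.mem_singleton.1 hm]
  exact ⟨h, one_mul _, rfl, one_pos⟩

lemma rsT_all (p : ℕ) : ∀ (t : IT) (s : NS), All Q s t → ∀ z ∈ rsT p s t,
    All Q z.1 z.2 ∧ z.1.c = s.c ∧ z.1.A = s.A ∧ z.1.B = s.B := by
  intro t
  induction t with
  | leaf S =>
    intro s h z hz
    simp only [rsT, List.mem_singleton] at hz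
    rw [hz]; exact ⟨h, rfl, rfl, rfl⟩
  | br q Sp t₁ t₀ ih₁ ih₀ =>
    intro s h z hz
    simp only [rsT, List.mem_singleton] at hz
    rw [hz]; exact ⟨h, rfl, rfl, rfl⟩
  | add q t₁ t₀ ih₁ ih₀ =>
    intro s h z hz
    unfold rsT at hz
    split_ifs at hz with hq
    · rcases List.mem_append.1 hz with hz | hz
      · exact ih₁ _ h.2.1 z hz
      · exact ih₀ _ h.2.2 z hz
    · rw [List.mem_singleton.1 hz]; exact ⟨h, rfl, rfl, rfl⟩
  | up q Sp t ih =>
    intro s h z hz
    unfold rsT at hz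
    split_ifs at hz with hq
    · exact ih _ h.2 z hz
    · rw [List.mem_singleton.1 hz]; exact ⟨h, rfl, rfl, rfl⟩
  | pl q t ih =>
    intro s h z hz
    simp only [rsT, List.mem_singleton] at hz
    rw [hz]; exact ⟨h, rfl, rfl, rfl⟩
  | far q t₁ t₀ ih₁ ih₀ =>
    intro s h z hz
    unfold rsT at hz
    split_ifs at hz with hq
    · rcases List.mem_append.1 hz with hz | hz
      · exact ih₁ _ h.2.1 z hz
      · exact ih₀ _ h.2.2 z hz
    · rw [List.mem_singleton.1 hz]; exact ⟨h, rfl, rfl, rfl⟩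

lemma mem_rsG' {m : ℝ × Nd} (h : m ∈ rsG' p G) : ∃ m' ∈ G, m.1 = m'.1 ∧ m.2 ∈ rsN p m'.2 := by
  obtain ⟨m', hm', h2⟩ := List.mem_flatMap.1 h
  obtain ⟨t, ht, rfl⟩ := List.mem_map.1 h2
  exact ⟨m', hm', rfl, ht⟩

lemma NG.rs (h : NG Q c0 T G) (p : ℕ) : NG Q c0 T (rsG' p G) := by
  rintro ⟨c, x⟩ hm
  obtain ⟨⟨c', x'⟩, h1, h2, h3⟩ := mem_rsG' hm
  have h4 := h _ h1
  simp only at h2 h3
  subst h2
  rcases x' with ⟨s, t⟩ | q
  · obtain ⟨z, hz, rfl⟩ := List.mem_map.1 h3
    obtain ⟨k1, k2, k3, k4⟩ := h4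
    obtain ⟨g1, g2, g3, g4⟩ := rsT_all p t s k1 z hz
    refine ⟨g1, ?_, ?_, k4⟩
    · show c * z.1.c = c0
      rw [g2]; exact k2
    · show z.1.A * z.1.B = T
      rw [g3, g4]; exact k3
  · have h5 : x = .inr q := by simpa [rsN] using h3
    rw [h5]; exact h4

lemma NG.gB (h : NG Q c0 T G) (p : ℕ) : NG Q c0 T (gBN p G) := fun m hm =>
  h.rs p m (List.mem_filter.1 hm).1

lemma NG.gR (h : NG Q c0 T G) (p : ℕ) : NG Q c0 T (gRN p G) := fun m hm =>
  h.rs p m (List.mem_filter.1 hm).1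

lemma isBN_cases {x : Nd} (h : isBN p x = true) :
    (∃ s Sp t₁ t₀, x = .inl (s, .br p Sp t₁ t₀)) ∨ ∃ s t, x = .inl (s, .pl p t) := by
  rcases x with ⟨s, t⟩ | q
  · cases t with
    | leaf S => simp [isBN] at h
    | br q Sp t₁ t₀ =>
      have hq : q = p := by simpa [isBN] using h
      exact Or.inl ⟨s, Sp, t₁, t₀, by rw [hq]⟩
    | add q t₁ t₀ => simp [isBN] at h
    | up q Sp t => simp [isBN] at h
    | pl q t =>
      have hq : q = p := by simpa [isBN] using h
      exact Or.inr ⟨s, t, by rw [hq]⟩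
    | far q t₁ t₀ => simp [isBN] at h
  · simp [isBN] at h

/-- the columns of the ties and pulls are at least `2` -/
def C2 (Q : NS → IT → Prop) : Prop :=
  (∀ s q Sp t₁ t₀, Q s (.br q Sp t₁ t₀) → 2 ≤ q)

lemma NG.gC (h : NG Q c0 T G) (hQ : C2 Q) (p : ℕ) : NG Q c0 (T * p) (gCN p G) := by
  rintro ⟨c, x⟩ hm
  obtain ⟨⟨c', x'⟩, h1, h2⟩ := List.mem_flatMap.1 hm
  obtain ⟨⟨q1, q2⟩, h3, h4⟩ := List.mem_map.1 h2
  have h5 := h.gB p _ h1
  have h6 : isBN p x' = true := (List.mem_filter.1 h1).2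
  simp only [Prod.mk.injEq] at h4
  obtain ⟨rfl, rfl⟩ := h4
  rcases isBN_cases h6 with ⟨s, Sp, t₁, t₀, rfl⟩ | ⟨s, t, rfl⟩
  · obtain ⟨k1, k2, k3, k4⟩ := h5
    simp only at k2 k3 k4
    have hp := hQ _ _ _ _ _ k1.self
    have hp' : (2 : ℝ) ≤ p := by exact_mod_cast hp
    have hp0 : (0 : ℝ) < p := by linarith
    have hp1 : 0 < 1 - 1 / (p : ℝ) := by
      rw [sub_pos, div_lt_one hp0]; linarith
    simp only [chN, List.mem_cons, Prod.mk.injEq, List.not_mem_nil, or_false] at h3
    rcases h3 with ⟨rfl, rfl⟩ | ⟨rfl, rfl⟩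
    · refine ⟨k1.2.1, ?_, ?_, mul_pos k4 hp1⟩
      · show c' * (1 - 1 / (p : ℝ)) * (s.c / (1 - 1 / (p : ℝ))) = c0
        rw [← k2, mul_assoc, mul_comm (1 - 1 / (p : ℝ)), div_mul_cancel₀ _ hp1.ne']
      · show s.A * p * s.B = T * p
        rw [← k3]; ring
    · refine ⟨k1.2.2, ?_, ?_, mul_pos k4 (by positivity)⟩
      · show c' * (1 / (p : ℝ)) * (s.c * p) = c0
        rw [← k2]; field_simp
      · show s.A * (s.B * p) = T * p
        rw [← k3]; ring
  · obtain ⟨k1, k2, k3, k4⟩ := h5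
    simp only at k2 k3 k4
    simp only [chN, List.mem_cons, Prod.mk.injEq, List.not_mem_nil, or_false] at h3
    rcases h3 with ⟨rfl, rfl⟩ | ⟨rfl, rfl⟩
    · refine ⟨k1.2, ?_, ?_, by simpa using k4⟩
      · show c' * (1 - 0) * s.c = c0
        rw [← k2]; ring
      · show s.A * p * s.B = T * p
        rw [← k3]; ring
    · show c' * 0 = 0
      ring

/-- **induction over the walk of a group**: comparison of local terms -/
theorem GSN_mono {loc loc' : ℕ → NGp → NGp → ℝ} (hQ : C2 Q)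
    (h : ∀ (p T : ℕ) (G : NGp), p ≠ 0 → NG Q c0 T G →
      loc p (gBN p G) (gRN p G) ≤ loc' p (gBN p G) (gRN p G)) :
    ∀ (n p T : ℕ) (G : NGp), NG Q c0 T G → GSN loc n p G ≤ GSN loc' n p G := by
  intro n
  induction n with
  | zero => intro p T G _; exact le_rfl
  | succ n ih =>
    intro p T G hG
    unfold GSN
    split_ifs with hp
    · exact le_rfl
    · exact add_le_add (add_le_add (h p T G hp hG) (ih p _ _ (hG.gC hQ p))) (ih _ _ _ (hG.gR p))

end inv

/-! ### linear local terms: sums over the nodes of the tree -/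

/-- sum over the ties and pulls of a tree, with relative weights -/
noncomputable def tsum (φ : NS → IT → ℝ) : NS → IT → ℝ
  | _, .leaf _ => 0
  | s, .br q Sp t₁ t₀ => φ s (.br q Sp t₁ t₀) +
      (1 - 1 / (q : ℝ)) * tsum φ ⟨q, s.c / (1 - 1 / (q : ℝ)), s.A * q, s.B⟩ t₁ +
      1 / (q : ℝ) * tsum φ ⟨q, s.c * q, s.A, s.B * q⟩ t₀
  | s, .add q t₁ t₀ => tsum φ ⟨q + 1, s.c, s.A, s.B⟩ t₁ + tsum φ ⟨q + 1, s.c, s.A, s.B⟩ t₀
  | s, .up q _ t => tsum φ ⟨q, s.c, s.A, s.B⟩ t
  | s, .pl q t => φ s (.pl q t) + tsum φ ⟨q + 1, s.c, s.A * q, s.B⟩ t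
  | s, .far q t₁ t₀ => tsum φ ⟨q + 1, s.c, s.A, s.B⟩ t₁ + tsum φ ⟨q + 1, s.c, s.A, s.B⟩ t₀

/-- value of a node function at a member -/
def phN (φ : NS → IT → ℝ) : Nd → ℝ
  | .inl z => φ z.1 z.2
  | .inr _ => 0

/-- weighted sum over a group -/
noncomputable def linN (φ : Nd → ℝ) (G : NGp) : ℝ := (G.map fun m => m.1 * φ m.2).sum

@[simp] lemma linN_nil (φ : Nd → ℝ) : linN φ [] = 0 := rfl

lemma linN_cons (φ : Nd → ℝ) (m : ℝ × Nd) (G : NGp) :
    linN φ (m :: G) = m.1 * φ m.2 + linN φ G := by simp [linN]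

lemma linN_append (φ : Nd → ℝ) (G H : NGp) : linN φ (G ++ H) = linN φ G + linN φ H := by
  simp [linN]

lemma linN_filter (φ : Nd → ℝ) (F : Nd → Bool) (G : NGp) :
    linN φ (G.filter fun m => F m.2) + linN φ (G.filter fun m => !F m.2) = linN φ G := by
  induction G with
  | nil => simp
  | cons m G ih =>
    by_cases h : F m.2 = true
    · rw [List.filter_cons_of_pos (by simpa using h), List.filter_cons_of_neg (by simp [h]),
        linN_cons, linN_cons]
      linarith
    · rw [List.filter_cons_of_neg (by simpa using h),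
        List.filter_cons_of_pos (by simpa using h), linN_cons, linN_cons]
      linarith

lemma linN_map {φ : Nd → ℝ} (c : ℝ) (l : List Nd) :
    linN φ (l.map fun t => (c, t)) = c * (l.map φ).sum := by
  induction l with
  | nil => simp
  | cons t l ih =>
    rw [List.map_cons, linN_cons, ih, List.map_cons, List.sum_cons]
    ring

lemma linN_smul {φ : Nd → ℝ} (c : ℝ) (G : NGp) :
    linN φ (G.map fun q => (c * q.1, q.2)) = c * linN φ G := by
  induction G with
  | nil => simp
  | cons t l ih =>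
    rw [List.map_cons, linN_cons, ih, linN_cons]
    ring

/-- additive functions do not see the resolution -/
lemma linN_rs {φ : Nd → ℝ} {p : ℕ} (h : ∀ x, ((rsN p x).map φ).sum = φ x) (G : NGp) :
    linN φ (rsG' p G) = linN φ G := by
  induction G with
  | nil => rfl
  | cons m G ih =>
    show linN φ (((rsN p m.2).map fun t => (m.1, t)) ++ rsG' p G) = _
    rw [linN_append, ih, linN_map, h, linN_cons]

lemma tsum_rs (φ : NS → IT → ℝ) (p : ℕ) (x : Nd) :
    ((rsN p x).map (phN (tsum φ))).sum = phN (tsum φ) x := by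
  rcases x with ⟨s, t⟩ | q
  · show (((rsT p s t).map Sum.inl).map (phN (tsum φ))).sum = tsum φ s t
    rw [List.map_map]
    have e : ((phN (tsum φ)) ∘ Sum.inl) = fun z : NS × IT => tsum φ z.1 z.2 := rfl
    rw [e]
    clear e
    induction t generalizing s with
    | leaf S => simp [rsT]
    | br q Sp t₁ t₀ ih₁ ih₀ => simp [rsT]
    | add q t₁ t₀ ih₁ ih₀ =>
      unfold rsT
      split_ifs with hq
      · rw [List.map_append, List.sum_append, ih₁, ih₀]; rfl
      · simp
    | up q Sp t ih =>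
      unfold rsT
      split_ifs with hq
      · rw [ih]; rfl
      · simp
    | pl q t ih => simp [rsT]
    | far q t₁ t₀ ih₁ ih₀ =>
      unfold rsT
      split_ifs with hq
      · rw [List.map_append, List.sum_append, ih₁, ih₀]; rfl
      · simp
  · simp [rsN, phN]

/-- the tree sum of a tie or pull -/
lemma tsum_ch (φ : NS → IT → ℝ) {p : ℕ} {x : Nd} (h : isBN p x = true) :
    phN (tsum φ) x = phN φ x + linN (phN (tsum φ)) (chN x) := by
  rcases isBN_cases h with ⟨s, Sp, t₁, t₀, rfl⟩ | ⟨s, t, rfl⟩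
  · show tsum φ s (.br p Sp t₁ t₀) = _
    rw [tsum]
    simp only [chN, linN_cons, linN_nil, phN]
    ring
  · show tsum φ s (.pl p t) = _
    rw [tsum]
    simp only [chN, linN_cons, linN_nil, phN]
    ring

lemma linN_gC (φ : NS → IT → ℝ) (p : ℕ) (G : NGp) :
    linN (phN (tsum φ)) (gBN p G) = linN (phN φ) (gBN p G) + linN (phN (tsum φ)) (gCN p G) := by
  unfold gCN
  have hb : ∀ m ∈ gBN p G, isBN p m.2 = true := fun m hm => (List.mem_filter.1 hm).2
  revert hb
  induction gBN p G with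
  | nil => intro _; simp
  | cons m g ih =>
    intro hb
    rw [List.flatMap_cons, linN_append, linN_cons, linN_cons, linN_smul,
      ih (fun a ha => hb a (List.mem_cons_of_mem _ ha)), tsum_ch φ (hb m (by simp))]
    ring

/-- **linear local terms**: the sum over the walk is at most the sum over the tree -/
theorem GSN_lin {φ : NS → IT → ℝ} (hφ : ∀ s t, 0 ≤ φ s t) {Q : NS → IT → Prop} {c0 : ℝ}
    (hQ : C2 Q) : ∀ (n p T : ℕ) (G : NGp), NG Q c0 T G →
      GSN (fun _ B _ => linN (phN φ) B) n p G ≤ linN (phN (tsum φ)) G := by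
  have ht0 : ∀ (t : IT) (s : NS), All Q s t → 0 ≤ tsum φ s t := by
    intro t
    induction t with
    | leaf S => intro s _; exact le_rfl
    | br q Sp t₁ t₀ ih₁ ih₀ =>
      intro s h
      have hp := hQ _ _ _ _ _ h.self
      have hp' : (2 : ℝ) ≤ q := by exact_mod_cast hp
      have hp0 : (0 : ℝ) < q := by linarith
      have hp1 : 0 < 1 - 1 / (q : ℝ) := by
        rw [sub_pos, div_lt_one hp0]; linarith
      have h1 := ih₁ _ h.2.1
      have h0 := ih₀ _ h.2.2
      have h2 := hφ s (.br q Sp t₁ t₀)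
      unfold tsum
      positivity
    | add q t₁ t₀ ih₁ ih₀ => intro s h; exact add_nonneg (ih₁ _ h.2.1) (ih₀ _ h.2.2)
    | up q Sp t ih => intro s h; exact ih _ h.2
    | pl q t ih => intro s h; exact add_nonneg (hφ _ _) (ih _ h.2)
    | far q t₁ t₀ ih₁ ih₀ => intro s h; exact add_nonneg (ih₁ _ h.2.1) (ih₀ _ h.2.2)
  have hl0 : ∀ {T : ℕ} {G : NGp}, NG Q c0 T G → 0 ≤ linN (phN (tsum φ)) G := by
    intro T G hG
    induction G with
    | nil => simp
    | cons m G ih =>
      rw [linN_cons]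
      refine add_nonneg ?_ (ih fun a ha => hG a (List.mem_cons_of_mem _ ha))
      have hm := hG m (by simp)
      rcases m with ⟨c, ⟨s, t⟩ | q⟩
      · exact mul_nonneg hm.2.2.2.le (ht0 _ _ hm.1)
      · show 0 ≤ c * 0
        simp
  intro n
  induction n with
  | zero => intro p T G hG; exact hl0 hG
  | succ n ih =>
    intro p T G hG
    unfold GSN
    split_ifs with hp
    · exact hl0 hG
    · have h1 := ih p _ _ (hG.gC hQ p)
      have h2 := ih (p - 1) _ _ (hG.gR p)
      have h3 := linN_gC φ p G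
      have h4 : linN (phN (tsum φ)) (gBN p G) + linN (phN (tsum φ)) (gRN p G) =
          linN (phN (tsum φ)) G := by
        rw [← linN_rs (tsum_rs φ p) G]
        exact linN_filter _ (fun x => isBN p x) _
      linarith

end Crest.Agent.R4P.NodeG33
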