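import Crest.Agent.R4P.ColCov_9
import Crest.Agent.R4P.ItemDT758

/-!
R4 (S0004), group [W-eSHR], helper9: **node-level inputs of the norm theorem** ([NODE-V]).

Abstract part (any finite family of functions `v : Λ → ℝ → ℝ`, any key `K : Λ → Option δ`, `none` =
not in the population `*`, any population `A`):
* `NVa K A v` = `Σ_z I ((Σ_{j ∈ A, K j = some z} v j)²)`;
* `NVa_mono`, `NVa_mono_A`, `NVa_split`, `NVa_add`, `NVa_push`, `NVa_eq_Q`, `Q_le_NVa`;
* `NVa_br` : `(1 - 1/p)² NVa f + NVa g ≤ NVa (lamF)`;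
* `NEa`, `NVa_raise` : `(1/p) NVa K₀ A G ≤ NVa K A g + (1/p) NEa`.

Tree part (`Par.toFT` of `R4P/Item758`): `NV D K b A pr τ`, `NY`, `NE` and
`NV_br`, `NV_t0`, `NV_add`, `NV_far`, `NV_up`, `NV_pl`, `NV_split`, `NV_mono_A`.
-/

set_option autoImplicit false
set_option linter.unusedSectionVars false
set_option linter.unusedVariables false
open MeasureTheory Filter Set

namespace Crest.Agent.R4P.NodeV9

open Crest.Agent.R4.Tour104 Crest.Agent.R4.Tour758 Crest.Agent.R4.Avg758 Crest.Agent.R4.Clos758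
open Crest.Agent.R4.ClosL758 Crest.Agent.R4.ClosG758 Crest.Agent.R4.ClosR758
open Crest.Agent.R4.Lam368 (mult lamF DW BW fW Nested Dat lamR)
open Crest.Agent.R4P.ColCov9 (I_sq_lamF_ge I_sq_ge_abs)

section abs
variable {Λ δ : Type*} [Fintype Λ] [DecidableEq Λ] [DecidableEq δ]

/-- the keys which occur -/
def kset (K : Λ → Option δ) : Finset (Option δ) := (Finset.univ.image K).erase none

/-- the members with key `z` -/
def kc (K : Λ → Option δ) (A : Finset Λ) (z : Option δ) : Finset Λ := A.filter fun j => K j = z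

/-- class function -/
noncomputable def kv (K : Λ → Option δ) (A : Finset Λ) (v : Λ → ℝ → ℝ) (z : Option δ) (x : ℝ) :
    ℝ := ∑ j ∈ kc K A z, v j x

/-- energy of the classes of the key -/
noncomputable def NVa (K : Λ → Option δ) (A : Finset Λ) (v : Λ → ℝ → ℝ) : ℝ :=
  ∑ z ∈ kset K, I (fun x => kv K A v z x ^ 2)

variable {K K' K₀ : Λ → Option δ} {A A' : Finset Λ} {v v' : Λ → ℝ → ℝ}

lemma PB_kv (hv : ∀ j, PB (v j)) (z : Option δ) : PB (kv K A v z) :=
  PB.sum _ fun j _ => hv j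

lemma PB_sq {u : ℝ → ℝ} (h : PB u) : PB fun x => u x ^ 2 := by
  simpa [pow_two] using h.mul h

lemma NVa_nonneg : 0 ≤ NVa K A v :=
  Finset.sum_nonneg fun z _ => I_nonneg fun x => sq_nonneg _

/-- monotone in the functions -/
lemma NVa_mono (hv : ∀ j, PB (v j)) (hv' : ∀ j, PB (v' j)) (h : ∀ j x, v j x ≤ v' j x) :
    NVa K A v ≤ NVa K A v' :=
  Finset.sum_le_sum fun z _ => I_mono (PB_sq (PB_kv hv z)).integrableOn
    (PB_sq (PB_kv hv' z)).integrableOn fun x =>
      pow_le_pow_left₀ ((PB_kv hv z).nonneg x) (Finset.sum_le_sum fun j _ => h j x) 2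

/-- monotone in the population -/
lemma NVa_mono_A (hv : ∀ j, PB (v j)) (h : A ⊆ A') : NVa K A v ≤ NVa K A' v :=
  Finset.sum_le_sum fun z _ => I_mono (PB_sq (PB_kv hv z)).integrableOn
    (PB_sq (PB_kv hv z)).integrableOn fun x =>
      pow_le_pow_left₀ ((PB_kv hv z).nonneg x) (Finset.sum_le_sum_of_subset_of_nonneg
        (Finset.filter_subset_filter _ h) fun j _ _ => (hv j).nonneg x) 2

lemma I_add_sq_ge {u u' : ℝ → ℝ} (h : PB u) (h' : PB u') :
    I (fun x => u x ^ 2) + I (fun x => u' x ^ 2) ≤ I (fun x => (u x + u' x) ^ 2) := by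
  rw [← I_add (PB_sq h).integrableOn (PB_sq h').integrableOn]
  exact I_mono ((PB_sq h).add (PB_sq h')).integrableOn (PB_sq (h.add h')).integrableOn fun x => by
    nlinarith [mul_nonneg (h.nonneg x) (h'.nonneg x)]

/-- superadditive in the population -/
lemma NVa_split (hv : ∀ j, PB (v j)) (h : Disjoint A A') :
    NVa K A v + NVa K A' v ≤ NVa K (A ∪ A') v := by
  unfold NVa
  rw [← Finset.sum_add_distrib]
  refine Finset.sum_le_sum fun z _ => ?_
  have e : ∀ x, kv K (A ∪ A') v z x = kv K A v z x + kv K A' v z x := fun x => by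
    unfold kv kc
    rw [Finset.filter_union, Finset.sum_union]
    exact Finset.disjoint_filter_filter h
  simp only [e]
  exact I_add_sq_ge (PB_kv hv z) (PB_kv hv z)

/-- superadditive in the functions -/
lemma NVa_add (hv : ∀ j, PB (v j)) (hv' : ∀ j, PB (v' j)) :
    NVa K A v + NVa K A v' ≤ NVa K A (fun j x => v j x + v' j x) := by
  unfold NVa
  rw [← Finset.sum_add_distrib]
  refine Finset.sum_le_sum fun z _ => ?_
  have e : ∀ x, kv K A (fun j x => v j x + v' j x) z x = kv K A v z x + kv K A v' z x := fun x => by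
    unfold kv; rw [Finset.sum_add_distrib]
  simp only [e]
  exact I_add_sq_ge (PB_kv hv z) (PB_kv hv' z)

/-- the functions of one part of the population only -/
lemma NVa_congr (h : ∀ j ∈ A, ∀ x, v j x = v' j x) : NVa K A v = NVa K A v' := by
  unfold NVa
  refine Finset.sum_congr rfl fun z _ => ?_
  congr 1
  funext x
  congr 1
  exact Finset.sum_congr rfl fun j hj => h j (Finset.mem_filter.1 hj).1 x

lemma NVa_rv : NVa K Finset.univ (rv A v) = NVa K A v := by
  unfold NVa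
  refine Finset.sum_congr rfl fun z _ => ?_
  congr 1
  funext x
  congr 1
  unfold kv
  have e : kc K A z = (kc K Finset.univ z).filter (· ∈ A) := by
    unfold kc; ext j; simp [and_comm]
  rw [e, Finset.sum_filter]
  refine Finset.sum_congr rfl fun j _ => ?_
  by_cases h : j ∈ A
  · rw [rv_of_mem h, if_pos h]
  · rw [rv_of_not_mem h, if_neg h]

/-- scaling -/
lemma NVa_smul (a : ℝ) : NVa K A (fun j x => a * v j x) = a ^ 2 * NVa K A v := by
  unfold NVa
  rw [Finset.mul_sum]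
  refine Finset.sum_congr rfl fun z _ => ?_
  rw [← I_smul]
  congr 1
  funext x
  have : kv K A (fun j x => a * v j x) z x = a * kv K A v z x := by
    unfold kv; rw [Finset.mul_sum]
  rw [this]; ring

/-- pushed functions -/
lemma NVa_push {n : ℕ} (hn : 0 < n) (hv : ∀ j, PB (v j)) :
    NVa K A (fun j x => v j (n * x)) = NVa K A v := by
  unfold NVa
  refine Finset.sum_congr rfl fun z _ => ?_
  exact Crest.Agent.R4.Tour104.I_pull hn (PB_sq (PB_kv (K := K) (A := A) hv z))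

/-- **the norm inequality at a lam column** -/
theorem NVa_br {κ : Type*} [DecidableEq κ] {p : ℕ} {f g G : Λ → ℝ → ℝ} {c : ℕ → Λ → κ} {n : ℕ}
    (hd : Dat p f g G) :
    (1 - 1 / (p : ℝ)) ^ 2 * NVa K A f + NVa K A g ≤ NVa K A (lamF p f g G c n) := by
  unfold NVa
  rw [Finset.mul_sum, ← Finset.sum_add_distrib]
  refine Finset.sum_le_sum fun z _ => ?_
  have h := I_sq_lamF_ge (c := c) (n := n) hd (kc K A z) (a := fun _ => 1) (fun _ => zero_le_one)
  simp only [one_mul] at h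
  exact h

/-! ### the energy as a sum over pairs -/

/-- same key -/
def krel (K : Λ → Option δ) (A : Finset Λ) : Finset (Λ × Λ) :=
  Finset.univ.filter fun q => q.1 ∈ A ∧ q.2 ∈ A ∧ K q.1 = K q.2 ∧ K q.1 ≠ none

lemma mem_krel {q : Λ × Λ} : q ∈ krel K A ↔ q.1 ∈ A ∧ q.2 ∈ A ∧ K q.1 = K q.2 ∧ K q.1 ≠ none := by
  simp [krel]

/-- two populations, two keys with the same values -/
def krel₂ (K K' : Λ → Option δ) (A A' : Finset Λ) : Finset (Λ × Λ) :=
  Finset.univ.filter fun q => q.1 ∈ A ∧ q.2 ∈ A' ∧ K q.1 = K' q.2 ∧ K q.1 ≠ none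

lemma mem_krel₂ {q : Λ × Λ} :
    q ∈ krel₂ K K' A A' ↔ q.1 ∈ A ∧ q.2 ∈ A' ∧ K q.1 = K' q.2 ∧ K q.1 ≠ none := by
  simp [krel₂]

/-- classes of a relation of pairs -/
lemma Q_krel₂ (hv : ∀ j, PB (v j)) (hv' : ∀ j, PB (v' j)) :
    Q (krel₂ K K' A A') v v' = ∑ z ∈ kset K, I (fun x => kv K A v z x * kv K' A' v' z x) := by
  have e1 : ∀ z ∈ kset K, I (fun x => kv K A v z x * kv K' A' v' z x) =
      ∑ q ∈ (kc K A z) ×ˢ (kc K' A' z), I (fun x => v q.1 x * v' q.2 x) := by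
    intro z _
    rw [← I_sum _ fun q _ => ((hv q.1).mul (hv' q.2)).integrableOn]
    congr 1
    funext x
    unfold kv
    rw [Finset.sum_mul_sum, Finset.sum_product]
  rw [Finset.sum_congr rfl e1]
  unfold Q
  symm
  rw [← Finset.sum_fiberwise_of_maps_to (s := krel₂ K K' A A') (t := kset K) (g := fun q => K q.1)]
  · refine Finset.sum_congr rfl fun z hz => ?_
    have e2 : (kc K A z) ×ˢ (kc K' A' z) = (krel₂ K K' A A').filter fun q => K q.1 = z := by
      ext q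
      simp only [Finset.mem_product, kc, Finset.mem_filter, mem_krel₂]
      have hz' : z ≠ none := by
        unfold kset at hz; exact (Finset.mem_erase.1 hz).1
      constructor
      · rintro ⟨⟨a1, a2⟩, a3, a4⟩
        exact ⟨⟨a1, a3, a2.trans a4.symm, by rw [a2]; exact hz'⟩, a2⟩
      · rintro ⟨⟨a1, a2, a3, a4⟩, a5⟩
        exact ⟨⟨a1, a5⟩, a2, a3.symm.trans a5⟩
    rw [e2]
  · intro q hq
    have h := mem_krel₂.1 hq
    unfold kset
    exact Finset.mem_erase.2 ⟨h.2.2.2, Finset.mem_image_of_mem _ (Finset.mem_univ _)⟩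

lemma krel_eq : krel K A = krel₂ K K A A := rfl

/-- **the energy as a sum over pairs** -/
lemma NVa_eq_Q (hv : ∀ j, PB (v j)) : NVa K A v = Q (krel K A) v v := by
  rw [krel_eq, Q_krel₂ hv hv]
  unfold NVa
  refine Finset.sum_congr rfl fun z _ => ?_
  congr 1
  funext x
  ring

lemma kv_zero_of_not_mem {z : Option δ} (h : z ∉ kset K) (hz : z ≠ none) (x : ℝ) :
    kv K A v z x = 0 := by
  unfold kv
  refine Finset.sum_eq_zero fun j hj => ?_
  exact absurd (Finset.mem_erase.2 ⟨hz, (Finset.mem_filter.1 hj).2 ▸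
    Finset.mem_image_of_mem K (Finset.mem_univ j)⟩) h

/-- Cauchy–Schwarz: pairs with the same key -/
theorem Q_le_NVa {T : Finset (Λ × Λ)} (hT : ∀ q ∈ T, q ∈ krel₂ K K' A A')
    (hv : ∀ j, PB (v j)) (hv' : ∀ j, PB (v' j)) :
    Q T v v' ≤ Real.sqrt (NVa K A v) * Real.sqrt (NVa K' A' v') := by
  have h1 : Q T v v' ≤ Q (krel₂ K K' A A') v v' :=
    Finset.sum_le_sum_of_subset_of_nonneg hT
      fun e _ _ => I_nonneg ((hv e.1).mul (hv' e.2)).nonneg
  refine h1.trans ?_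
  rw [Q_krel₂ hv hv']
  set S := kset K ∪ kset K' with hS
  have h2 : ∑ z ∈ kset K, I (fun x => kv K A v z x * kv K' A' v' z x) ≤
      ∑ z ∈ S, I (fun x => kv K A v z x * kv K' A' v' z x) :=
    Finset.sum_le_sum_of_subset_of_nonneg Finset.subset_union_left fun z _ _ =>
      I_nonneg ((PB_kv hv z).mul (PB_kv hv' z)).nonneg
  refine h2.trans ?_
  have hext : ∀ (K : Λ → Option δ) (A : Finset Λ) (v : Λ → ℝ → ℝ), kset K ⊆ S →
      ∑ z ∈ S, I (fun x => kv K A v z x ^ 2) = NVa K A v := by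
    intro K A v hK
    unfold NVa
    symm
    refine Finset.sum_subset hK fun z hz hz' => ?_
    have hz0 : z ≠ none := by
      rw [hS] at hz
      rcases Finset.mem_union.1 hz with h | h <;> exact (Finset.mem_erase.1 h).1
    have : (fun x => kv K A v z x ^ 2) = fun _ => 0 := by
      funext x; rw [kv_zero_of_not_mem hz' hz0]; ring
    rw [this]
    simp [I]
  calc ∑ z ∈ S, I (fun x => kv K A v z x * kv K' A' v' z x)
      ≤ ∑ z ∈ S, Real.sqrt (I fun x => kv K A v z x ^ 2) *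
          Real.sqrt (I fun x => kv K' A' v' z x ^ 2) :=
        Finset.sum_le_sum fun z _ => I_mul_le_sqrt (PB_kv hv z) (PB_kv hv' z)
    _ ≤ Real.sqrt (∑ z ∈ S, (Real.sqrt (I fun x => kv K A v z x ^ 2)) ^ 2) *
          Real.sqrt (∑ z ∈ S, (Real.sqrt (I fun x => kv K' A' v' z x ^ 2)) ^ 2) := by
        exact Real.sum_mul_le_sqrt_mul_sqrt _ _ _
    _ = _ := by
        have e : ∀ (K : Λ → Option δ) (A : Finset Λ) (v : Λ → ℝ → ℝ), kset K ⊆ S →
            ∑ z ∈ S, (Real.sqrt (I fun x => kv K A v z x ^ 2)) ^ 2 = NVa K A v := by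
          intro K A v hK
          rw [← hext K A v hK]
          exact Finset.sum_congr rfl fun z _ => Real.sq_sqrt (I_nonneg fun x => sq_nonneg _)
        rw [e K A v Finset.subset_union_left, e K' A' v' Finset.subset_union_right]

/-! ### the missing child -/

/-- the new part of the pair energy of the missing child: `g` on the `x`-circle, `G` the raised
functions, `K` the key before the miss, `K₀` the key after the miss.  Pairs of the same old key:
only the cross-lift part. -/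
noncomputable def NEa (K K₀ : Λ → Option δ) (A : Finset Λ) (p : ℕ) (g G : Λ → ℝ → ℝ) : ℝ :=
  ∑ q ∈ krel K₀ A, if K q.1 = K q.2 ∧ K q.1 ≠ none then
    I (fun y => G q.1 y * G q.2 y) - p * I (fun x => g q.1 x * g q.2 x)
    else I (fun y => G q.1 y * G q.2 y)

/-- same-lift part: `p I (g g') ≤ I (G G')` -/
lemma lift_mul_le {p : ℕ} (hp : 0 < p) {g G g' G' : ℝ → ℝ} (hg : PB g) (hg' : PB g') (hG : PB G)
    (hG' : PB G') (hl : Lift p G g) (hl' : Lift p G' g') :
    p * I (fun x => g x * g' x) ≤ I (fun y => G y * G' y) := by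
  have hp' : (0 : ℝ) < p := by exact_mod_cast hp
  have h1 : I (fun x => g x * g' x) = I (Ep p fun x => g x * g' x) :=
    (I_Ep hp (hg.mul hg').integrableOn).symm
  rw [h1, ← I_smul]
  refine I_mono ((((hg.mul hg').Ep hp).smul hp'.le).integrableOn) (hG.mul hG').integrableOn
    fun y => ?_
  rw [← hl y, ← hl' y, Finset.sum_mul_sum]
  unfold Ep
  rw [mul_div_cancel₀ _ hp'.ne']
  refine Finset.sum_le_sum fun i hi => ?_
  exact Finset.single_le_sum (f := fun k : ℕ => g ((y + i) / p) * g' ((y + k) / p))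
    (fun k _ => mul_nonneg (hg.nonneg _) (hg'.nonneg _)) hi

lemma NEa_nonneg {p : ℕ} {f g G : Λ → ℝ → ℝ} (hd : Dat p f g G) : 0 ≤ NEa K K₀ A p g G := by
  refine Finset.sum_nonneg fun q _ => ?_
  split_ifs
  · linarith [lift_mul_le hd.hp (hd.hg q.1) (hd.hg q.2) (hd.hG q.1) (hd.hG q.2) (hd.hl q.1)
      (hd.hl q.2)]
  · exact I_nonneg ((hd.hG q.1).mul (hd.hG q.2)).nonneg

/-- **the missing child** (H2) -/
theorem NVa_raise {p : ℕ} {f g G : Λ → ℝ → ℝ} (hd : Dat p f g G) :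
    1 / (p : ℝ) * NVa K₀ A G ≤ NVa K A g + 1 / (p : ℝ) * NEa K K₀ A p g G := by
  have hp' : (0 : ℝ) < p := by exact_mod_cast hd.hp
  rw [NVa_eq_Q hd.hG, NVa_eq_Q hd.hg]
  have h1 : Q (krel K₀ A) G G ≤ NEa K K₀ A p g G + p * Q (krel K A) g g := by
    have h2 : p * Q ((krel K₀ A).filter fun q => K q.1 = K q.2 ∧ K q.1 ≠ none) g g ≤
        p * Q (krel K A) g g := by
      refine mul_le_mul_of_nonneg_left ?_ hp'.le
      refine Finset.sum_le_sum_of_subset_of_nonneg ?_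
        fun e _ _ => I_nonneg ((hd.hg e.1).mul (hd.hg e.2)).nonneg
      intro q hq
      obtain ⟨a1, a2, a3⟩ := Finset.mem_filter.1 hq
      obtain ⟨b1, b2, -, -⟩ := mem_krel.1 a1
      exact mem_krel.2 ⟨b1, b2, a2, a3⟩
    refine le_trans (le_of_eq ?_) (add_le_add le_rfl h2)
    unfold Q NEa
    rw [Finset.sum_filter, Finset.mul_sum, ← Finset.sum_add_distrib]
    refine Finset.sum_congr rfl fun q _ => ?_
    split_ifs <;> ring
  calc 1 / (p : ℝ) * Q (krel K₀ A) G G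
      ≤ 1 / (p : ℝ) * (NEa K K₀ A p g G + p * Q (krel K A) g g) :=
        mul_le_mul_of_nonneg_left h1 (by positivity)
    _ = _ := by field_simp; ring

/-- the exact form: equality over the pairs -/
lemma NEa_eq {p : ℕ} {g G : Λ → ℝ → ℝ} : NEa K K₀ A p g G = Q (krel K₀ A) G G -
    p * Q ((krel K₀ A).filter fun q => K q.1 = K q.2 ∧ K q.1 ≠ none) g g := by
  unfold Q NEa
  rw [Finset.sum_filter, Finset.mul_sum, ← Finset.sum_sub_distrib]
  refine Finset.sum_congr rfl fun q _ => ?_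
  split_ifs <;> ring

/-! ### the exact balance -/

section bal
open Crest.Agent.R4P.ColCov9 (mp PB_mp lamF_eq_mp mp_eq apt PB_apt Ep_mul_cov Ep_sum Ep_mp)
open Crest.Agent.R4.Lam368 (PB_lamR)

variable {κ : Type*} [DecidableEq κ] {p : ℕ} {f g G : Λ → ℝ → ℝ} {c : ℕ → Λ → κ} {n : ℕ}

/-- fibre variance of the incumbents of the classes -/
noncomputable def VarR (K : Λ → Option δ) (A : Finset Λ) (p : ℕ) (f g G : Λ → ℝ → ℝ)
    (c : ℕ → Λ → κ) (n : ℕ) : ℝ :=
  NVa K A (mp p f g G c n) - (1 - 1 / (p : ℝ)) ^ 2 * NVa K A f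

/-- overlap of incumbents and challengers of one key (fine circle) -/
noncomputable def PN (K : Λ → Option δ) (A : Finset Λ) (p : ℕ) (f g G : Λ → ℝ → ℝ)
    (c : ℕ → Λ → κ) (n : ℕ) : ℝ :=
  ∑ z ∈ kset K, I (fun x => kv K A (mp p f g G c n) z x * kv K A g z x)

/-- **exact balance at a lam column**, any key, any population -/
theorem NVa_exact (hd : Dat p f g G) :
    NVa K A (lamF p f g G c n) = (1 - 1 / (p : ℝ)) ^ 2 * NVa K A f + NVa K A g +
      VarR K A p f g G c n + 2 * PN K A p f g G c n := by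
  have e : NVa K A (lamF p f g G c n) = NVa K A (mp p f g G c n) + NVa K A g +
      2 * PN K A p f g G c n := by
    unfold NVa PN
    rw [Finset.mul_sum, ← Finset.sum_add_distrib, ← Finset.sum_add_distrib]
    refine Finset.sum_congr rfl fun z _ => ?_
    have h1 : PB (kv K A (mp p f g G c n) z) := PB_kv (fun j => PB_mp hd j) z
    have h2 : PB (kv K A g z) := PB_kv hd.hg z
    have e1 : (fun x => kv K A (lamF p f g G c n) z x ^ 2) = fun x =>
        (kv K A (mp p f g G c n) z x ^ 2 + kv K A g z x ^ 2) +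
          2 * (kv K A (mp p f g G c n) z x * kv K A g z x) := by
      funext x
      have : kv K A (lamF p f g G c n) z x = kv K A (mp p f g G c n) z x + kv K A g z x := by
        unfold kv
        rw [← Finset.sum_add_distrib]
        exact Finset.sum_congr rfl fun j _ => lamF_eq_mp hd j x
      rw [this]; ring
    rw [e1, I_add ((PB_sq h1).add (PB_sq h2)).integrableOn
      ((h1.mul h2).smul (by norm_num : (0:ℝ) ≤ 2)).integrableOn,
      I_add (PB_sq h1).integrableOn (PB_sq h2).integrableOn, I_smul]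
  rw [e]; unfold VarR; ring

lemma PN_nonneg (hd : Dat p f g G) : 0 ≤ PN K A p f g G c n :=
  Finset.sum_nonneg fun z _ => I_nonneg
    ((PB_kv (fun j => PB_mp hd j) z).mul (PB_kv hd.hg z)).nonneg

/-- fibre means of the class of the incumbent parts -/
lemma Ep_kv_mp (hd : Dat p f g G) (z : Option δ) (y : ℝ) :
    Ep p (kv K A (mp p f g G c n) z) y = (1 - 1 / (p : ℝ)) * kv K A f z y := by
  have e : kv K A (mp p f g G c n) z = fun x => ∑ j ∈ kc K A z, mp p f g G c n j x := rfl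
  rw [e, Ep_sum]
  unfold kv
  rw [Finset.mul_sum]
  exact Finset.sum_congr rfl fun j _ => Ep_mp hd j y

/-- the fibre variance of the incumbents is at most the energy of the reductions -/
theorem VarR_le (hd : Dat p f g G) :
    VarR K A p f g G c n ≤ NVa K A (lamR p f g G c n) := by
  have hp := hd.hp
  unfold VarR NVa
  rw [Finset.mul_sum, ← Finset.sum_sub_distrib]
  refine Finset.sum_le_sum fun z _ => ?_
  set M := kv K A (mp p f g G c n) z with hM
  set R := kv K A (lamR p f g G c n) z with hR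
  have pM : PB M := PB_kv (fun j => PB_mp hd j) z
  have pR : PB R := PB_kv (fun j => PB_lamR hd j) z
  have pA : PB (kv K A (apt p f g G c n) z) := PB_kv (fun j => PB_apt hd j) z
  have eM : ∀ x, M x = kv K A (apt p f g G c n) z (p * x) + (-1) * R x := by
    intro x
    rw [hM, hR]
    unfold kv
    rw [Finset.mul_sum, ← Finset.sum_add_distrib]
    exact Finset.sum_congr rfl fun j _ => by rw [mp_eq hd]; ring
  have hm : ∀ y, kv K A (apt p f g G c n) z y + Ep p (fun x => (-1) * R x) y =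
      (1 - 1 / (p : ℝ)) * kv K A f z y := by
    intro y
    rw [← Ep_kv_mp (c := c) (n := n) hd z y, ← hM]
    have e : M = fun x => kv K A (apt p f g G c n) z (p * x) * 1 + (-1) * R x := by
      funext x; rw [eM, mul_one]
    rw [e, Ep_add, Ep_pull_mul hp pA.per, Ep_const hp, mul_one]
  have key : ∀ y, Ep p (fun x => M x ^ 2) y ≤ (1 - 1 / (p : ℝ)) ^ 2 * kv K A f z y ^ 2 +
      Ep p (fun x => R x ^ 2) y := by
    intro y
    have e : (fun x => M x ^ 2) = fun x => (kv K A (apt p f g G c n) z (p * x) + (-1) * R x) *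
        (kv K A (apt p f g G c n) z (p * x) + (-1) * R x) := by
      funext x; rw [eM]; ring
    rw [e, Ep_mul_cov (H := fun x => (-1) * R x) (H' := fun x => (-1) * R x) hp pA.per pA.per, hm]
    have e2 : (fun x => (-1 : ℝ) * R x * ((-1) * R x)) = fun x => R x ^ 2 := by funext x; ring
    rw [e2]
    nlinarith [mul_self_nonneg (Ep p (fun x => (-1) * R x) y)]
  have h1 : I (fun x => M x ^ 2) = I (Ep p fun x => M x ^ 2) :=
    (I_Ep hp (PB_sq pM).integrableOn).symm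
  have h2 : I (fun x => R x ^ 2) = I (Ep p fun x => R x ^ 2) :=
    (I_Ep hp (PB_sq pR).integrableOn).symm
  have pf : PB (kv K A f z) := PB_kv hd.hf z
  rw [h1, h2, ← I_smul, sub_le_iff_le_add]
  rw [← I_add ((PB_sq pR).Ep hp).integrableOn ((PB_sq pf).smul (sq_nonneg _)).integrableOn]
  exact I_mono ((PB_sq pM).Ep hp).integrableOn
    (((PB_sq pR).Ep hp).add ((PB_sq pf).smul (sq_nonneg _))).integrableOn fun y => by
      linarith [key y]

lemma VarR_nonneg (hd : Dat p f g G) : 0 ≤ VarR K A p f g G c n := by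
  have hp := hd.hp
  unfold VarR NVa
  rw [Finset.mul_sum, ← Finset.sum_sub_distrib]
  refine Finset.sum_nonneg fun z _ => ?_
  have pM : PB (kv K A (mp p f g G c n) z) := PB_kv (fun j => PB_mp hd j) z
  have pf : PB (kv K A f z) := PB_kv hd.hf z
  rw [sub_nonneg, ← I_smul, ← I_Ep hp (PB_sq pM).integrableOn]
  refine I_mono ((PB_sq pf).smul (sq_nonneg _)).integrableOn ((PB_sq pM).Ep hp).integrableOn
    fun y => ?_
  have h := Crest.Agent.R4P.ColCov9.Ep_sq_ge_sq hp (kv K A (mp p f g G c n) z) y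
  rw [Ep_kv_mp hd] at h
  calc (1 - 1 / (p : ℝ)) ^ 2 * kv K A f z y ^ 2 = ((1 - 1 / (p : ℝ)) * kv K A f z y) ^ 2 := by ring
    _ ≤ _ := h

/-- pairs of one old key which are separated by the miss -/
noncomputable def NSep (K K₀ : Λ → Option δ) (A : Finset Λ) (g : Λ → ℝ → ℝ) : ℝ :=
  Q ((krel K A).filter fun q => ¬ (K₀ q.1 = K₀ q.2 ∧ K₀ q.1 ≠ none)) g g

lemma NSep_nonneg (hg : ∀ j, PB (g j)) : 0 ≤ NSep K K₀ A g := Q_nonneg hg hg

/-- **exact balance of the missing child** -/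
theorem NVa_raise_eq (hd : Dat p f g G) :
    1 / (p : ℝ) * NVa K₀ A G =
      1 / (p : ℝ) * NEa K K₀ A p g G + NVa K A g - NSep K K₀ A g := by
  have hp' : (p : ℝ) ≠ 0 := by exact_mod_cast hd.hp.ne'
  rw [NEa_eq, NVa_eq_Q hd.hG, NVa_eq_Q hd.hg]
  have e1 : (krel K₀ A).filter (fun q => K q.1 = K q.2 ∧ K q.1 ≠ none) =
      (krel K A).filter fun q => K₀ q.1 = K₀ q.2 ∧ K₀ q.1 ≠ none := by
    ext q
    simp only [Finset.mem_filter, mem_krel]
    tauto
  have e2 : Q (krel K A) g g = Q ((krel K A).filter fun q => K₀ q.1 = K₀ q.2 ∧ K₀ q.1 ≠ none) g g +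
      NSep K K₀ A g := by
    unfold NSep Q
    exact (Finset.sum_filter_add_sum_filter_not _ _ _).symm
  rw [e1, e2]
  field_simp
  ring

/-- **the exact linear balance of a tie** (`w = 1/p`): energy below minus energy at the node;
`K` key before the miss, `K₀` key after the miss -/
theorem NVa_linear (hd : Dat p f g G) :
    (1 - 1 / (p : ℝ)) * NVa K A f + 1 / (p : ℝ) * NVa K₀ A G - NVa K A (lamF p f g G c n) =
      1 / (p : ℝ) * (1 - 1 / (p : ℝ)) * NVa K A f + 1 / (p : ℝ) * NEa K K₀ A p g G -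
        NSep K K₀ A g - VarR K A p f g G c n - 2 * PN K A p f g G c n := by
  rw [NVa_exact hd, NVa_raise_eq (K := K) (K₀ := K₀) (A := A) hd]
  ring

end bal

end abs

/-! ### the context trees -/

section tree
open Crest.Agent.R4.Fam464 Crest.Agent.R4P.Cnt588 Crest.Agent.R4P.Item758 Crest.Agent.R4P.Walk560

variable {Λ κ δ : Type*} [Fintype Λ] [DecidableEq Λ] [DecidableEq κ] [DecidableEq δ]

/-- class energy at the node `(b, pr, τ)` for the key `K b` -/
noncomputable def NV (D : Par Λ κ) (K : ℕ → Λ → Option δ) (A : Finset Λ) (b pr : ℕ) (τ : IT) : ℝ :=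
  NVa (K b) A ((D.toFT b pr τ).U 1)

/-- energy of the raised missing functions of a tie `p` on the circle of the node, key before the
miss; `τ₀` = missing child -/
noncomputable def NY (D : Par Λ κ) (K : ℕ → Λ → Option δ) (A : Finset Λ) (p b pr : ℕ) (τ₀ : IT) :
    ℝ := NVa (K b) A ((D.toFT (b * p) pr τ₀).U p)

/-- the new part -/
noncomputable def NE (D : Par Λ κ) (K : ℕ → Λ → Option δ) (A : Finset Λ) (p b pr : ℕ) (τ₀ : IT) :
    ℝ := NEa (K b) (K (b * p)) A p ((D.toFT (b * p) pr τ₀).U p) ((D.toFT (b * p) pr τ₀).U 1)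

/-- data of a node -/
structure Nd (D : Par Λ κ) (b pr : ℕ) (τ : IT) : Prop where
  hb : 0 < b
  hF : Fit b pr τ
  hW : D.Wts pr τ

variable {D : Par Λ κ} {K : ℕ → Λ → Option δ} {A A' : Finset Λ} {b pr p : ℕ} {Sp : Finset ℕ}
  {τ τ₁ τ₀ : IT}

lemma Nd.adm (h : Nd D b pr τ) : (D.toFT b pr τ).Adm b := D.toFT_Adm τ b pr h.hb h.hF h.hW

lemma Nd.pb (h : Nd D b pr τ) {c : ℕ} (hc : c ∣ b) (j : Λ) : PB ((D.toFT b pr τ).U c j) :=
  FT.pb h.hb h.adm hc j

lemma Nd.pb1 (h : Nd D b pr τ) (j : Λ) : PB ((D.toFT b pr τ).U 1 j) := h.pb (one_dvd _) j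

lemma Nd.br₁ (h : Nd D b pr (.br p Sp τ₁ τ₀)) : Nd D b (pr * p) τ₁ :=
  ⟨h.hb, h.hF.2.2.2.1, h.hW.br₁ h.hF.2.2.1⟩

lemma Nd.br₀ (h : Nd D b pr (.br p Sp τ₁ τ₀)) : Nd D (b * p) pr τ₀ :=
  ⟨Nat.mul_pos h.hb h.hF.1.pos, h.hF.2.2.2.2, h.hW.br₀⟩

lemma Nd.add₁ (h : Nd D b pr (.add p τ₁ τ₀)) : Nd D b pr τ₁ := ⟨h.hb, h.hF.2.1, h.hW.add₁ h.hF.1⟩
lemma Nd.add₀ (h : Nd D b pr (.add p τ₁ τ₀)) : Nd D b pr τ₀ := ⟨h.hb, h.hF.2.2, h.hW.add₀⟩
lemma Nd.far₁ (h : Nd D b pr (.far p τ₁ τ₀)) : Nd D b pr τ₁ := ⟨h.hb, h.hF.2.1, h.hW.far₁ h.hF.1⟩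
lemma Nd.far₀ (h : Nd D b pr (.far p τ₁ τ₀)) : Nd D b pr τ₀ := ⟨h.hb, h.hF.2.2, h.hW.far₀⟩
lemma Nd.up (h : Nd D b pr (.up p Sp τ)) : Nd D b pr τ := ⟨h.hb, h.hF, h.hW⟩
lemma Nd.pl (h : Nd D b pr (.pl p τ)) : Nd D b (pr * p) τ := ⟨h.hb, h.hF.2.2, h.hW.pl⟩

/-- the column of a tie -/
lemma Nd.dat (h : Nd D b pr (.br p Sp τ₁ τ₀)) :
    Dat p (fun j => (D.toFT b (pr * p) τ₁).U 1 j) (fun j => (D.toFT (b * p) pr τ₀).U p j)
      (fun j => (D.toFT (b * p) pr τ₀).U 1 j) :=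
  FT.dat (n := 0) (ch := fun _ => D.rho p) h.hb h.adm

/-- value of a tie node -/
lemma Nd.U_br (h : Nd D b pr (.br p Sp τ₁ τ₀)) (j : Λ) :
    (D.toFT b pr (.br p Sp τ₁ τ₀)).U 1 j =
      lamF p (fun j => (D.toFT b (pr * p) τ₁).U 1 j) (fun j => (D.toFT (b * p) pr τ₀).U p j)
        (fun j => (D.toFT (b * p) pr τ₀).U 1 j) (fun _ => D.rho p) (0 + 1) j :=
  FT.U_br_one (n := 0) (ch := fun _ => D.rho p) h.hb h.adm j

lemma NV_nonneg : 0 ≤ NV D K A b pr τ := NVa_nonneg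
lemma NY_nonneg : 0 ≤ NY D K A p b pr τ₀ := NVa_nonneg

lemma NE_nonneg (h : Nd D b pr (.br p Sp τ₁ τ₀)) : 0 ≤ NE D K A p b pr τ₀ := NEa_nonneg h.dat

/-- the energy in terms of the closure tree -/
lemma NV_val [Fintype κ] (h : Nd D b pr τ) :
    NV D K A b pr τ = NVa (K b) A (D.toG b pr τ).val := by
  unfold NV Par.toG
  rw [FT.toG_val _ b h.hb h.adm]

lemma NV_val_DT [Fintype κ] (h : Nd D b pr τ) (sp : ℕ → Finset Λ) :
    NV D K A b pr τ = NVa (K b) A (D.toDT sp b pr τ).g.val := by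
  rw [D.toDT_g, NV_val h]

/-- **(H1)** at a tie -/
theorem NV_br (h : Nd D b pr (.br p Sp τ₁ τ₀)) :
    (1 - 1 / (p : ℝ)) ^ 2 * NV D K A b (pr * p) τ₁ + NY D K A p b pr τ₀ ≤
      NV D K A b pr (.br p Sp τ₁ τ₀) := by
  have e : (D.toFT b pr (.br p Sp τ₁ τ₀)).U 1 = lamF p (fun j => (D.toFT b (pr * p) τ₁).U 1 j)
      (fun j => (D.toFT (b * p) pr τ₀).U p j) (fun j => (D.toFT (b * p) pr τ₀).U 1 j)
      (fun _ => D.rho p) (0 + 1) := by
    funext j; exact h.U_br j
  unfold NV NY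
  rw [e]
  exact NVa_br h.dat

/-- **(H2)** the missing child of a tie -/
theorem NV_t0 (h : Nd D b pr (.br p Sp τ₁ τ₀)) :
    1 / (p : ℝ) * NV D K A (b * p) pr τ₀ ≤
      NY D K A p b pr τ₀ + 1 / (p : ℝ) * NE D K A p b pr τ₀ :=
  NVa_raise h.dat

/-- the missing child of a tie without the raised functions -/
lemma NY_le (h : Nd D b pr (.br p Sp τ₁ τ₀)) :
    NY D K A p b pr τ₀ ≤ NV D K A b pr (.br p Sp τ₁ τ₀) := by
  have h1 := NV_br (K := K) (A := A) h
  have h2 : 0 ≤ (1 - 1 / (p : ℝ)) ^ 2 * NV D K A b (pr * p) τ₁ :=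
    mul_nonneg (sq_nonneg _) NV_nonneg
  linarith

/-- add nodes -/
theorem NV_add (h : Nd D b pr (.add p τ₁ τ₀)) :
    NV D K A b pr τ₁ + NV D K A b pr τ₀ ≤ NV D K A b pr (.add p τ₁ τ₀) :=
  NVa_add h.add₁.pb1 h.add₀.pb1

theorem NV_far (h : Nd D b pr (.far p τ₁ τ₀)) :
    NV D K A b pr τ₁ + NV D K A b pr τ₀ ≤ NV D K A b pr (.far p τ₁ τ₀) :=
  NVa_add h.far₁.pb1 h.far₀.pb1

@[simp] lemma NV_up : NV D K A b pr (.up p Sp τ) = NV D K A b pr τ := rfl

theorem NV_pl (h : Nd D b pr (.pl p τ)) : NV D K A b pr (.pl p τ) = NV D K A b (pr * p) τ := by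
  have hp : 0 < p := h.hF.1.pos
  exact NVa_push (v := (D.toFT b (pr * p) τ).U 1) hp h.pl.pb1

/-- populations -/
theorem NV_split (h : Nd D b pr τ) (hA : Disjoint A A') :
    NV D K A b pr τ + NV D K A' b pr τ ≤ NV D K (A ∪ A') b pr τ :=
  NVa_split h.pb1 hA

theorem NV_mono_A (h : Nd D b pr τ) (hA : A ⊆ A') : NV D K A b pr τ ≤ NV D K A' b pr τ :=
  NVa_mono_A h.pb1 hA

/-- add step against an `up`: `A` is split by `S` -/
theorem NV_inter_sdiff (h : Nd D b pr τ) (S : Finset Λ) :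
    NV D K (A ∩ S) b pr τ + NV D K (A \ S) b pr τ ≤ NV D K A b pr τ := by
  refine (NV_split h ?_).trans (NV_mono_A h ?_)
  · exact Finset.disjoint_left.2 fun j h1 h2 =>
      (Finset.mem_sdiff.1 h2).2 (Finset.mem_inter.1 h1).2
  · intro j hj
    rcases Finset.mem_union.1 hj with h1 | h1
    · exact (Finset.mem_inter.1 h1).1
    · exact (Finset.mem_sdiff.1 h1).1

/-- coarser bound: every class energy is at most the energy of a coarser relation -/
theorem NV_le_Q (h : Nd D b pr τ) {R : Finset (Λ × Λ)}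
    (hR : ∀ q ∈ krel (K b) A, q ∈ R) :
    NV D K A b pr τ ≤ Q R (rv A ((D.toFT b pr τ).U 1)) (rv A ((D.toFT b pr τ).U 1)) := by
  unfold NV
  rw [NVa_eq_Q h.pb1]
  have hpb := PB_rv (h.pb1) A
  calc Q (krel (K b) A) ((D.toFT b pr τ).U 1) ((D.toFT b pr τ).U 1)
      = Q (krel (K b) A) (rv A ((D.toFT b pr τ).U 1)) (rv A ((D.toFT b pr τ).U 1)) := by
        unfold Q
        refine Finset.sum_congr rfl fun q hq => ?_
        obtain ⟨a1, a2, -, -⟩ := mem_krel.1 hq
        rw [rv_of_mem a1, rv_of_mem a2]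
    _ ≤ _ := Finset.sum_le_sum_of_subset_of_nonneg hR
        fun e _ _ => I_nonneg ((hpb e.1).mul (hpb e.2)).nonneg

/-- the quantities of the linear balance at a tie -/
noncomputable def NVar (D : Par Λ κ) (K : ℕ → Λ → Option δ) (A : Finset Λ) (p b pr : ℕ)
    (τ₁ τ₀ : IT) : ℝ :=
  VarR (K b) A p (fun j => (D.toFT b (pr * p) τ₁).U 1 j) (fun j => (D.toFT (b * p) pr τ₀).U p j)
    (fun j => (D.toFT (b * p) pr τ₀).U 1 j) (fun _ => D.rho p) (0 + 1)

noncomputable def NPN (D : Par Λ κ) (K : ℕ → Λ → Option δ) (A : Finset Λ) (p b pr : ℕ)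
    (τ₁ τ₀ : IT) : ℝ :=
  PN (K b) A p (fun j => (D.toFT b (pr * p) τ₁).U 1 j) (fun j => (D.toFT (b * p) pr τ₀).U p j)
    (fun j => (D.toFT (b * p) pr τ₀).U 1 j) (fun _ => D.rho p) (0 + 1)

noncomputable def NSp (D : Par Λ κ) (K : ℕ → Λ → Option δ) (A : Finset Λ) (p b pr : ℕ)
    (τ₀ : IT) : ℝ := NSep (K b) (K (b * p)) A ((D.toFT (b * p) pr τ₀).U p)

/-- **the exact linear balance of a tie node** -/
theorem NV_linear (h : Nd D b pr (.br p Sp τ₁ τ₀)) :
    (1 - 1 / (p : ℝ)) * NV D K A b (pr * p) τ₁ + 1 / (p : ℝ) * NV D K A (b * p) pr τ₀ -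
        NV D K A b pr (.br p Sp τ₁ τ₀) =
      1 / (p : ℝ) * (1 - 1 / (p : ℝ)) * NV D K A b (pr * p) τ₁ +
        1 / (p : ℝ) * NE D K A p b pr τ₀ - NSp D K A p b pr τ₀ -
        NVar D K A p b pr τ₁ τ₀ - 2 * NPN D K A p b pr τ₁ τ₀ := by
  have e : (D.toFT b pr (.br p Sp τ₁ τ₀)).U 1 = lamF p (fun j => (D.toFT b (pr * p) τ₁).U 1 j)
      (fun j => (D.toFT (b * p) pr τ₀).U p j) (fun j => (D.toFT (b * p) pr τ₀).U 1 j)
      (fun _ => D.rho p) (0 + 1) := by
    funext j; exact h.U_br j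
  have hl := NVa_linear (K := K b) (K₀ := K (b * p)) (A := A) (c := fun _ => D.rho p)
    (n := 0 + 1) h.dat
  unfold NV NE NSp NVar NPN
  rw [e]
  exact hl

lemma NVar_nonneg (h : Nd D b pr (.br p Sp τ₁ τ₀)) : 0 ≤ NVar D K A p b pr τ₁ τ₀ :=
  VarR_nonneg h.dat

lemma NPN_nonneg (h : Nd D b pr (.br p Sp τ₁ τ₀)) : 0 ≤ NPN D K A p b pr τ₁ τ₀ :=
  PN_nonneg h.dat

lemma NSp_nonneg (h : Nd D b pr (.br p Sp τ₁ τ₀)) : 0 ≤ NSp D K A p b pr τ₀ :=
  NSep_nonneg h.dat.hg

/-- the variance is at most the energy of the reductions -/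
theorem NVar_le (h : Nd D b pr (.br p Sp τ₁ τ₀)) :
    NVar D K A p b pr τ₁ τ₀ ≤ NVa (K b) A (lamR p (fun j => (D.toFT b (pr * p) τ₁).U 1 j)
      (fun j => (D.toFT (b * p) pr τ₀).U p j) (fun j => (D.toFT (b * p) pr τ₀).U 1 j)
      (fun _ => D.rho p) (0 + 1)) := VarR_le h.dat

end tree

end Crest.Agent.R4P.NodeV9
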