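import Crest.Agent.R4P.Walk560

/-!
R4 (S0004), helper198: **one-sided columns of the walk on trees with powers** (state part).

* `osL s`, `osR s` : the column of `s` is a genuine tie of one side (own modulus prime to `p`), the other
  side is up or absent: the only states at which `eOS` pays; the step is closing.
* `St.sO`, `St.sO'` : the settled one-sided columns (`> s.p`): they only grow along the walk (the column
  `s.p` itself may enter and leave `O` in a chain).
* `OStep s q` : what a step does to `O`, `O'` and the column; `nxt_OStep`.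
* `mO s` : mass of the one-sided columns, `mS s` of the settled ones.
* `stpN` : the stop rule: `stpM` (large mass) at a fresh column (no stop inside a chain).
-/

set_option autoImplicit false
set_option linter.unusedSectionVars false
set_option linter.unusedVariables false
set_option linter.unusedSimpArgs false

namespace Crest.Agent.R4P.OSWS245

open Crest.Agent.R4.Tour104 Crest.Agent.R4.Tour758 Crest.Agent.R4.Avg758 Crest.Agent.R4.Clos758
open Crest.Agent.R4.ClosL758 Crest.Agent.R4.ClosG758 Crest.Agent.R4.ClosR758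
open Crest.Agent.R4P.ClosR442 Crest.Agent.R4P.Walk560

variable {Λ κ : Type*} [Fintype Λ] [DecidableEq Λ] [DecidableEq κ] [WRel κ]

/-- the column of `s` is a genuine tie of the left side, the right side is up or absent -/
def osL (s : St Λ κ) : Prop :=
  (∃ w r t₁ t₀ v B G, vw s.p s.t = .br w r t₁ t₀ v B G) ∧ (∃ Sp u, vw s.p s.t' = .up Sp u) ∧
    ¬ s.isPL

/-- the column of `s` is a genuine tie of the right side, the left side is up or absent -/
def osR (s : St Λ κ) : Prop :=
  (∃ w r t₁ t₀ v B G, vw s.p s.t' = .br w r t₁ t₀ v B G) ∧ (∃ Sp u, vw s.p s.t = .up Sp u) ∧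
    ¬ s.isPR

lemma osL.not_R {s : St Λ κ} (h : osL s) : ¬ osR s := by
  obtain ⟨⟨w, r, t₁, t₀, v, B, G, hv⟩, ⟨Sp, u, hv'⟩, -⟩ := h
  rintro ⟨⟨w', r', t₁', t₀', v', B', G', k⟩, -, -⟩
  rw [k] at hv'
  exact absurd hv' (by simp)

lemma osL.not_PR {s : St Λ κ} (h : osL s) : ¬ s.isPR := by
  obtain ⟨⟨w, r, t₁, t₀, v, B, G, hv⟩, ⟨Sp, u, hv'⟩, -⟩ := h
  unfold St.isPR
  simp only [hv, hv', not_false_eq_true]

lemma osR.not_PL {s : St Λ κ} (h : osR s) : ¬ s.isPL := by
  obtain ⟨⟨w, r, t₁, t₀, v, B, G, hv'⟩, ⟨Sp, u, hv⟩, -⟩ := h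
  unfold St.isPL
  simp only [hv, hv', not_false_eq_true]

/-- the settled one-sided columns -/
def sO (s : St Λ κ) : Finset ℕ := s.O.filter fun q => s.p < q
def sO' (s : St Λ κ) : Finset ℕ := s.O'.filter fun q => s.p < q

/-- what a step does to the one-sided columns -/
structure OStep (s q : St Λ κ) : Prop where
  pe : q.p ≤ s.p
  o : q.O = s.O ∨ q.O = insert s.p s.O ∨ q.O = s.O.erase s.p
  o' : q.O' = s.O' ∨ q.O' = insert s.p s.O' ∨ q.O' = s.O'.erase s.p
  L : osL s → q.O = insert s.p s.O ∧ q.O' = s.O' ∧ q.p < s.p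
  R : osR s → q.O' = insert s.p s.O' ∧ q.O = s.O ∧ q.p < s.p

lemma dwn_cases (p M : ℕ) (O : Finset ℕ) :
    dwn p M O = O ∨ dwn p M O = insert p O ∨ dwn p M O = O.erase p := by
  unfold dwn
  split_ifs
  · exact Or.inl rfl
  · exact Or.inr (Or.inr rfl)

/-- tops below a view -/
lemma vw_top {p : ℕ} (hp0 : 0 < p) {n : ℕ} {t : DT Λ κ} (hc : t.Col n) :
    (∀ {w r t₁ t₀ v B G}, vw p t = .br w r t₁ t₀ v B G →
      t₁.top ≤ p ∧ t₀.top ≤ p ∧ (w ≠ 0 → t₁.top < p ∧ t₀.top < p)) ∧
    (∀ {r t₁ t₀}, vw p t = .add r t₁ t₀ → t₁.top ≤ p ∧ t₀.top ≤ p) ∧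
    (t.top ≤ p → ∀ {Sp u}, vw p t = .up Sp u → u.top < p) := by
  refine ⟨fun {w r t₁ t₀ v B G} h => ?_, fun {r t₁ t₀} h => ?_, fun ht {Sp u} h => ?_⟩
  · rw [vw_br h] at hc
    exact ⟨hc.2.2.1.top_le, hc.2.2.2.1.top_le, fun hw =>
      ⟨(hc.2.2.2.2 hw).1.top_lt hp0, (hc.2.2.2.2 hw).2.top_lt hp0⟩⟩
  · rw [vw_add h] at hc
    exact ⟨hc.2.2.1.top_le, hc.2.2.2.top_le⟩
  · exact (vw_up_col h ht hp0 hc).top_lt hp0

lemma c_top {stp : Stp Λ κ} {s : St Λ κ} {t₁ t₀ : DT Λ κ} {p : ℕ} (h1 : t₁.top ≤ p)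
    (h0 : t₀.top ≤ p) : (stp.c s t₁ t₀).top ≤ p := by
  rcases stp.c_or s t₁ t₀ with ⟨hc, -⟩ | ⟨hc, -⟩ <;> rw [hc] <;> assumption

lemma col_pos {n : ℕ} {t : DT Λ κ} (hc : t.Col n) (hl : ¬ t.isLeaf) : 0 < t.top := by
  cases t with
  | leaf r f => exact absurd trivial hl
  | br p w r t₁ t₀ v B G => exact hc.1.pos
  | add b r t₁ t₀ => exact hc.1.pos
  | up b Sp t => exact hc.1.pos

/-- **the one-sided columns along a step** -/
theorem nxt0_OStep {stp : Stp Λ κ} {s : St Λ κ} {a b : ℕ} (hL : s.t.Col a) (hR : s.t'.Col b) :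
    ∀ q ∈ nxt0 stp s, OStep s q.2 := by
  intro q hq
  unfold nxt0 at hq
  by_cases h1 : s.t.isLeaf ∨ s.t'.isLeaf
  · simp [h1] at hq
  by_cases h2 : stp s
  · simp [h1, h2] at hq
  rw [if_neg h1, if_neg h2] at hq
  rw [not_or] at h1
  have hp0 : 0 < s.p := (col_pos hL h1.1).trans_le (le_max_left _ _)
  have tL : s.t.top ≤ s.p := le_max_left _ _
  have tR : s.t'.top ≤ s.p := le_max_right _ _
  by_cases hPL : s.isPL
  · have nL : ¬ osL s := fun k => k.2.2 hPL
    have nR : ¬ osR s := fun k => k.not_PL hPL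
    rw [if_pos hPL] at hq
    obtain ⟨w, r, t₁, t₀, v, B, G, hv, et, ⟨-, e⟩ | ⟨-, -, e⟩⟩ := St.isPL_cases hPL
    · obtain ⟨k1, k0, -⟩ := (vw_top hp0 hL).1 hv
      rw [e] at hq
      simp only [List.mem_cons, List.not_mem_nil, or_false] at hq
      rcases hq with rfl | rfl
      · exact ⟨max_le k1 tR, Or.inl rfl, dwn_cases _ _ _, fun k => absurd k nL,
          fun k => absurd k nR⟩
      · exact ⟨max_le k0 tR, Or.inl rfl, dwn_cases _ _ _, fun k => absurd k nL,
          fun k => absurd k nR⟩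
    · obtain ⟨k1, k0, -⟩ := (vw_top hp0 hL).1 hv
      rw [e] at hq
      simp only [List.mem_cons, List.not_mem_nil, or_false] at hq
      rcases hq with rfl | rfl
      · exact ⟨max_le k1 tR, Or.inr (Or.inl rfl), Or.inl rfl, fun k => absurd k nL,
          fun k => absurd k nR⟩
      · exact ⟨max_le k0 tR, Or.inr (Or.inl rfl), Or.inl rfl, fun k => absurd k nL,
          fun k => absurd k nR⟩
  by_cases hPR : s.isPR
  · have nL : ¬ osL s := fun k => k.not_PR hPR
    have nR : ¬ osR s := fun k => k.2.2 hPR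
    rw [if_neg hPL, if_pos hPR] at hq
    obtain ⟨w, r, t₁, t₀, v, B, G, hv, et, ⟨-, e⟩ | ⟨-, -, e⟩⟩ := St.isPR_cases hPR
    · obtain ⟨k1, k0, -⟩ := (vw_top hp0 hR).1 hv
      rw [e] at hq
      simp only [List.mem_cons, List.not_mem_nil, or_false] at hq
      rcases hq with rfl | rfl
      · exact ⟨max_le tL k1, dwn_cases _ _ _, Or.inl rfl, fun k => absurd k nL,
          fun k => absurd k nR⟩
      · exact ⟨max_le tL k0, dwn_cases _ _ _, Or.inl rfl, fun k => absurd k nL,
          fun k => absurd k nR⟩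
    · obtain ⟨k1, k0, -⟩ := (vw_top hp0 hR).1 hv
      rw [e] at hq
      simp only [List.mem_cons, List.not_mem_nil, or_false] at hq
      rcases hq with rfl | rfl
      · exact ⟨max_le tL k1, Or.inl rfl, Or.inr (Or.inl rfl), fun k => absurd k nL,
          fun k => absurd k nR⟩
      · exact ⟨max_le tL k0, Or.inl rfl, Or.inr (Or.inl rfl), fun k => absurd k nL,
          fun k => absurd k nR⟩
  rw [if_neg hPL, if_neg hPR] at hq
  rcases hv : vw s.p s.t with ⟨w, r, t₁, t₀, v, B, G⟩ | ⟨r, t₁, t₀⟩ | ⟨Sp, u⟩ <;>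
  rcases hv' : vw s.p s.t' with ⟨w', r', t₁', t₀', v', B', G'⟩ | ⟨r', t₁', t₀'⟩ | ⟨Sp', u'⟩ <;>
  simp only [hv, hv'] at hq
  · -- br br
    have nL : ¬ osL s := by rintro ⟨-, ⟨_, _, k⟩, -⟩; rw [hv'] at k; exact absurd k (by simp)
    have nR : ¬ osR s := by rintro ⟨-, ⟨_, _, k⟩, -⟩; rw [hv] at k; exact absurd k (by simp)
    obtain ⟨k1, k0, -⟩ := (vw_top hp0 hL).1 hv
    obtain ⟨l1, l0, -⟩ := (vw_top hp0 hR).1 hv'
    simp only [List.mem_cons, List.not_mem_nil, or_false] at hq
    rcases hq with rfl | rfl | rfl | rfl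
    · exact ⟨max_le k1 l1, Or.inl rfl, Or.inl rfl, fun k => absurd k nL, fun k => absurd k nR⟩
    · exact ⟨max_le k1 l0, Or.inl rfl, Or.inl rfl, fun k => absurd k nL, fun k => absurd k nR⟩
    · exact ⟨max_le k0 l1, Or.inl rfl, Or.inl rfl, fun k => absurd k nL, fun k => absurd k nR⟩
    · exact ⟨max_le k0 l0, Or.inl rfl, Or.inl rfl, fun k => absurd k nL, fun k => absurd k nR⟩
  · -- br add
    have nL : ¬ osL s := by rintro ⟨-, ⟨_, _, k⟩, -⟩; rw [hv'] at k; exact absurd k (by simp)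
    have nR : ¬ osR s := by rintro ⟨-, ⟨_, _, k⟩, -⟩; rw [hv] at k; exact absurd k (by simp)
    obtain ⟨l1, l0⟩ := (vw_top hp0 hR).2.1 hv'
    simp only [List.mem_cons, List.not_mem_nil, or_false] at hq
    subst hq
    exact ⟨max_le tL (c_top l1 l0), Or.inl rfl, Or.inl rfl, fun k => absurd k nL,
      fun k => absurd k nR⟩
  · -- br up
    have nR : ¬ osR s := by rintro ⟨-, ⟨_, _, k⟩, -⟩; rw [hv] at k; exact absurd k (by simp)
    obtain ⟨-, -, kk⟩ := (vw_top hp0 hL).1 hv
    obtain ⟨k1, k0⟩ := kk (St.not_isPL_up hPL hv hv').2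
    have l := (vw_top hp0 hR).2.2 tR hv'
    simp only [List.mem_cons, List.not_mem_nil, or_false] at hq
    rcases hq with rfl | rfl
    · exact ⟨max_le k1.le l.le, Or.inr (Or.inl rfl), Or.inl rfl,
        fun _ => ⟨rfl, rfl, max_lt k1 l⟩, fun k => absurd k nR⟩
    · exact ⟨max_le k0.le l.le, Or.inr (Or.inl rfl), Or.inl rfl,
        fun _ => ⟨rfl, rfl, max_lt k0 l⟩, fun k => absurd k nR⟩
  · -- add br
    have nL : ¬ osL s := by
      rintro ⟨⟨_, _, _, _, _, _, _, k⟩, -, -⟩; rw [hv] at k; exact absurd k (by simp)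
    have nR : ¬ osR s := by rintro ⟨-, ⟨_, _, k⟩, -⟩; rw [hv] at k; exact absurd k (by simp)
    obtain ⟨l1, l0⟩ := (vw_top hp0 hL).2.1 hv
    simp only [List.mem_cons, List.not_mem_nil, or_false] at hq
    subst hq
    exact ⟨max_le (c_top l1 l0) tR, Or.inl rfl, Or.inl rfl, fun k => absurd k nL,
      fun k => absurd k nR⟩
  · -- add add
    have nL : ¬ osL s := by rintro ⟨-, ⟨_, _, k⟩, -⟩; rw [hv'] at k; exact absurd k (by simp)
    have nR : ¬ osR s := by rintro ⟨-, ⟨_, _, k⟩, -⟩; rw [hv] at k; exact absurd k (by simp)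
    obtain ⟨k1, k0⟩ := (vw_top hp0 hL).2.1 hv
    obtain ⟨l1, l0⟩ := (vw_top hp0 hR).2.1 hv'
    split_ifs at hq with hj hl <;> simp only [List.mem_cons, List.not_mem_nil, or_false] at hq
    · rcases hq with rfl | rfl
      · exact ⟨max_le k1 l1, Or.inl rfl, Or.inl rfl, fun k => absurd k nL, fun k => absurd k nR⟩
      · exact ⟨max_le k0 l0, Or.inl rfl, Or.inl rfl, fun k => absurd k nL, fun k => absurd k nR⟩
    · subst hq
      exact ⟨max_le (c_top k1 k0) tR, Or.inl rfl, Or.inl rfl, fun k => absurd k nL,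
        fun k => absurd k nR⟩
    · subst hq
      exact ⟨max_le tL (c_top l1 l0), Or.inl rfl, Or.inl rfl, fun k => absurd k nL,
        fun k => absurd k nR⟩
  · -- add up
    have nL : ¬ osL s := by
      rintro ⟨⟨_, _, _, _, _, _, _, k⟩, -, -⟩; rw [hv] at k; exact absurd k (by simp)
    have nR : ¬ osR s := by
      rintro ⟨⟨_, _, _, _, _, _, _, k⟩, -, -⟩; rw [hv'] at k; exact absurd k (by simp)
    obtain ⟨k1, k0⟩ := (vw_top hp0 hL).2.1 hv
    have l := (vw_top hp0 hR).2.2 tR hv'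
    split_ifs at hq with hj <;> simp only [List.mem_cons, List.not_mem_nil, or_false] at hq
    · rcases hq with rfl | rfl
      · exact ⟨max_le k1 l.le, Or.inl rfl, Or.inl rfl, fun k => absurd k nL,
          fun k => absurd k nR⟩
      · exact ⟨max_le k0 l.le, Or.inl rfl, Or.inl rfl, fun k => absurd k nL,
          fun k => absurd k nR⟩
    · subst hq
      exact ⟨max_le (c_top k1 k0) tR, Or.inl rfl, Or.inl rfl, fun k => absurd k nL,
        fun k => absurd k nR⟩
  · -- up br
    have nL : ¬ osL s := by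
      rintro ⟨⟨_, _, _, _, _, _, _, k⟩, -, -⟩; rw [hv] at k; exact absurd k (by simp)
    obtain ⟨-, -, kk⟩ := (vw_top hp0 hR).1 hv'
    obtain ⟨k1, k0⟩ := kk (St.not_isPR_up hPR hv hv').2
    have l := (vw_top hp0 hL).2.2 tL hv
    simp only [List.mem_cons, List.not_mem_nil, or_false] at hq
    rcases hq with rfl | rfl
    · exact ⟨max_le l.le k1.le, Or.inl rfl, Or.inr (Or.inl rfl), fun k => absurd k nL,
        fun _ => ⟨rfl, rfl, max_lt l k1⟩⟩
    · exact ⟨max_le l.le k0.le, Or.inl rfl, Or.inr (Or.inl rfl), fun k => absurd k nL,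
        fun _ => ⟨rfl, rfl, max_lt l k0⟩⟩
  · -- up add
    have nL : ¬ osL s := by
      rintro ⟨⟨_, _, _, _, _, _, _, k⟩, -, -⟩; rw [hv] at k; exact absurd k (by simp)
    have nR : ¬ osR s := by
      rintro ⟨⟨_, _, _, _, _, _, _, k⟩, -, -⟩; rw [hv'] at k; exact absurd k (by simp)
    obtain ⟨k1, k0⟩ := (vw_top hp0 hR).2.1 hv'
    have l := (vw_top hp0 hL).2.2 tL hv
    split_ifs at hq with hj <;> simp only [List.mem_cons, List.not_mem_nil, or_false] at hq
    · rcases hq with rfl | rfl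
      · exact ⟨max_le l.le k1, Or.inl rfl, Or.inl rfl, fun k => absurd k nL,
          fun k => absurd k nR⟩
      · exact ⟨max_le l.le k0, Or.inl rfl, Or.inl rfl, fun k => absurd k nL,
          fun k => absurd k nR⟩
    · subst hq
      exact ⟨max_le tL (c_top k1 k0), Or.inl rfl, Or.inl rfl, fun k => absurd k nL,
        fun k => absurd k nR⟩
  · -- up up
    have nL : ¬ osL s := by
      rintro ⟨⟨_, _, _, _, _, _, _, k⟩, -, -⟩; rw [hv] at k; exact absurd k (by simp)
    have nR : ¬ osR s := by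
      rintro ⟨⟨_, _, _, _, _, _, _, k⟩, -, -⟩; rw [hv'] at k; exact absurd k (by simp)
    have k := (vw_top hp0 hL).2.2 tL hv
    have l := (vw_top hp0 hR).2.2 tR hv'
    simp only [List.mem_cons, List.not_mem_nil, or_false] at hq
    subst hq
    exact ⟨max_le k.le l.le, Or.inl rfl, Or.inl rfl, fun k => absurd k nL, fun k => absurd k nR⟩

theorem nxt_OStep {stp : Stp Λ κ} {s : St Λ κ} {a b : ℕ} (hL : s.t.Col a) (hR : s.t'.Col b) :
    ∀ q ∈ nxt stp s, OStep s q.2 :=
  fun q hq => nxt0_OStep hL hR q (mem_nxt.1 hq).1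

/-! ### settled columns -/

lemma flt_step {O O₁ : Finset ℕ} {p p₁ : ℕ} (hge : ∀ l ∈ O, p ≤ l) (hp : p₁ ≤ p)
    (h : O₁ = O ∨ O₁ = insert p O ∨ O₁ = O.erase p) :
    ((O₁.filter fun q => p₁ < q) = O.filter (fun q => p < q) ∨
      (O₁.filter fun q => p₁ < q) = insert p (O.filter fun q => p < q)) ∧
    (p ∈ O₁ → p₁ < p → (O₁.filter fun q => p₁ < q) = insert p (O.filter fun q => p < q)) ∧
    p ∉ O.filter (fun q => p < q) := by
  have h3 : p ∉ O.filter (fun q => p < q) := by simp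
  have hmem : ∀ q, q ≠ p → (q ∈ O₁ ↔ q ∈ O) := by
    intro q hq
    rcases h with h | h | h <;> rw [h] <;> simp [hq]
  have key : ∀ q, q ≠ p → (q ∈ O₁.filter (fun q => p₁ < q) ↔ q ∈ O.filter (fun q => p < q)) := by
    intro q hq
    rw [Finset.mem_filter, Finset.mem_filter, hmem q hq]
    constructor
    · rintro ⟨a1, -⟩
      exact ⟨a1, lt_of_le_of_ne (hge q a1) (Ne.symm hq)⟩
    · rintro ⟨a1, a2⟩
      exact ⟨a1, hp.trans_lt a2⟩
  have c1 : p ∉ O₁.filter (fun q => p₁ < q) →
      (O₁.filter fun q => p₁ < q) = O.filter (fun q => p < q) := by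
    intro hn
    ext q
    by_cases hq : q = p
    · subst hq; exact iff_of_false hn h3
    · exact key q hq
  have c2 : p ∈ O₁.filter (fun q => p₁ < q) →
      (O₁.filter fun q => p₁ < q) = insert p (O.filter fun q => p < q) := by
    intro hn
    ext q
    by_cases hq : q = p
    · subst hq; exact iff_of_true hn (Finset.mem_insert_self _ _)
    · rw [key q hq, Finset.mem_insert]; simp [hq]
  refine ⟨?_, fun h1 h2 => c2 (Finset.mem_filter.2 ⟨h1, h2⟩), h3⟩
  by_cases hm : p ∈ O₁.filter (fun q => p₁ < q)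
  · exact Or.inr (c2 hm)
  · exact Or.inl (c1 hm)

section settled
variable {s q : St Λ κ}

/-- the one-sided columns are `≥` the column of the state -/
def OGe (s : St Λ κ) : Prop := ∀ l ∈ s.O ∪ s.O', s.p ≤ l

lemma OGe.next (h : OGe s) (hs : OStep s q) : OGe q := by
  have key : ∀ {O O₁ : Finset ℕ}, (∀ l ∈ O, s.p ≤ l) →
      (O₁ = O ∨ O₁ = insert s.p O ∨ O₁ = O.erase s.p) → ∀ l ∈ O₁, q.p ≤ l := by
    intro O O₁ hO h1 l hl
    rcases h1 with rfl | rfl | rfl
    · exact hs.pe.trans (hO l hl)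
    · rcases Finset.mem_insert.1 hl with rfl | hl
      · exact hs.pe
      · exact hs.pe.trans (hO l hl)
    · exact hs.pe.trans (hO l (Finset.mem_of_mem_erase hl))
  intro l hl
  rcases Finset.mem_union.1 hl with hl | hl
  · exact key (fun l hl => h l (Finset.mem_union_left _ hl)) hs.o l hl
  · exact key (fun l hl => h l (Finset.mem_union_right _ hl)) hs.o' l hl

/-- the settled columns of the left side grow -/
lemma sO_step (h : OGe s) (hs : OStep s q) :
    (sO q = sO s ∨ sO q = insert s.p (sO s)) ∧ (osL s → sO q = insert s.p (sO s)) ∧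
      s.p ∉ sO s := by
  obtain ⟨h1, h2, h3⟩ := flt_step (fun l hl => h l (Finset.mem_union_left _ hl)) hs.pe hs.o
  refine ⟨h1, fun hL => h2 ?_ (hs.L hL).2.2, h3⟩
  rw [(hs.L hL).1]
  exact Finset.mem_insert_self _ _

lemma sO'_step (h : OGe s) (hs : OStep s q) :
    (sO' q = sO' s ∨ sO' q = insert s.p (sO' s)) ∧ (osR s → sO' q = insert s.p (sO' s)) ∧
      s.p ∉ sO' s := by
  obtain ⟨h1, h2, h3⟩ := flt_step (fun l hl => h l (Finset.mem_union_right _ hl)) hs.pe hs.o'
  refine ⟨h1, fun hL => h2 ?_ (hs.R hL).2.2, h3⟩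
  rw [(hs.R hL).1]
  exact Finset.mem_insert_self _ _

lemma sO_sub (s : St Λ κ) : sO s ⊆ s.O := Finset.filter_subset _ _
lemma sO'_sub (s : St Λ κ) : sO' s ⊆ s.O' := Finset.filter_subset _ _

/-- the settled columns are all columns except the current one -/
lemma sO_erase (h : OGe s) : sO s = s.O.erase s.p := by
  ext l
  unfold sO
  rw [Finset.mem_filter, Finset.mem_erase]
  constructor
  · rintro ⟨a, b⟩; exact ⟨b.ne', a⟩
  · rintro ⟨a, b⟩
    exact ⟨b, lt_of_le_of_ne (h l (Finset.mem_union_left _ b)) (Ne.symm a)⟩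

lemma sO'_erase (h : OGe s) : sO' s = s.O'.erase s.p := by
  ext l
  unfold sO'
  rw [Finset.mem_filter, Finset.mem_erase]
  constructor
  · rintro ⟨a, b⟩; exact ⟨b.ne', a⟩
  · rintro ⟨a, b⟩
    exact ⟨b, lt_of_le_of_ne (h l (Finset.mem_union_right _ b)) (Ne.symm a)⟩

/-- mass of the one-sided columns -/
noncomputable def mO (s : St Λ κ) : ℝ := ∑ q ∈ s.O ∪ s.O', 1 / (q : ℝ)

/-- mass of the settled one-sided columns -/
noncomputable def mS (s : St Λ κ) : ℝ := ∑ q ∈ sO s ∪ sO' s, 1 / (q : ℝ)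

lemma mO_nonneg (s : St Λ κ) : 0 ≤ mO s := Finset.sum_nonneg fun q _ => by positivity
lemma mS_nonneg (s : St Λ κ) : 0 ≤ mS s := Finset.sum_nonneg fun q _ => by positivity

lemma mS_le (s : St Λ κ) : mS s ≤ mO s :=
  Finset.sum_le_sum_of_subset_of_nonneg (Finset.union_subset_union (sO_sub s) (sO'_sub s))
    fun q _ _ => by positivity

lemma mO_next (hs : OStep s q) : mO q ≤ mO s + 1 / (s.p : ℝ) := by
  have h1 : q.O ∪ q.O' ⊆ insert s.p (s.O ∪ s.O') := by
    intro l hl
    rw [Finset.mem_insert, Finset.mem_union]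
    rcases Finset.mem_union.1 hl with hl | hl
    · rcases hs.o with h | h | h <;> rw [h] at hl
      · exact Or.inr (Or.inl hl)
      · rcases Finset.mem_insert.1 hl with h | h
        exacts [Or.inl h, Or.inr (Or.inl h)]
      · exact Or.inr (Or.inl (Finset.mem_of_mem_erase hl))
    · rcases hs.o' with h | h | h <;> rw [h] at hl
      · exact Or.inr (Or.inr hl)
      · rcases Finset.mem_insert.1 hl with h | h
        exacts [Or.inl h, Or.inr (Or.inr h)]
      · exact Or.inr (Or.inr (Finset.mem_of_mem_erase hl))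
  refine (Finset.sum_le_sum_of_subset_of_nonneg h1 fun q _ _ => by positivity).trans ?_
  by_cases hm : s.p ∈ s.O ∪ s.O'
  · rw [Finset.insert_eq_of_mem hm]
    have : 0 ≤ 1 / (s.p : ℝ) := by positivity
    show mO s ≤ mO s + _
    linarith
  · rw [Finset.sum_insert hm, add_comm]
    exact le_rfl

/-- the mass of the settled columns along a step -/
lemma mS_next (h : OGe s) (hs : OStep s q) :
    mS s ≤ mS q ∧ (osL s ∨ osR s → mS q = mS s + 1 / (s.p : ℝ)) := by
  obtain ⟨a1, a2, a3⟩ := sO_step h hs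
  obtain ⟨b1, b2, b3⟩ := sO'_step h hs
  have hn : s.p ∉ sO s ∪ sO' s := by
    rw [Finset.mem_union, not_or]; exact ⟨a3, b3⟩
  have hc : sO q ∪ sO' q = sO s ∪ sO' s ∨ sO q ∪ sO' q = insert s.p (sO s ∪ sO' s) := by
    rcases a1 with h | h <;> rcases b1 with h' | h' <;> rw [h, h']
    · exact Or.inl rfl
    · exact Or.inr (Finset.union_insert _ _ _)
    · exact Or.inr (Finset.insert_union _ _ _)
    · refine Or.inr ?_
      rw [Finset.insert_union, Finset.union_insert, Finset.insert_idem]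
  constructor
  · refine Finset.sum_le_sum_of_subset_of_nonneg ?_ fun q _ _ => by positivity
    rcases hc with h | h <;> rw [h]
    exact Finset.subset_insert _ _
  · intro ho
    have e : sO q ∪ sO' q = insert s.p (sO s ∪ sO' s) := by
      rcases ho with ho | ho
      · rcases hc with hc | hc
        · exfalso
          apply hn
          rw [← hc, a2 ho]
          exact Finset.mem_union_left _ (Finset.mem_insert_self _ _)
        · exact hc
      · rcases hc with hc | hc
        · exfalso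
          apply hn
          rw [← hc, b2 ho]
          exact Finset.mem_union_right _ (Finset.mem_insert_self _ _)
        · exact hc
    unfold mS
    rw [e, Finset.sum_insert hn, add_comm]

end settled

/-! ### the stop rule -/

/-- **the stop rule** -/
def stpM (s : St Λ κ) : Prop :=
  (s.O ∪ s.O').Nonempty ∧ (s.p : ℝ) ^ (-(1/3) : ℝ) ≤ mO s

lemma stpM_root (s : St Λ κ) (h : s.O = ∅) (h' : s.O' = ∅) : ¬ stpM s := by
  rintro ⟨⟨q, hq⟩, -⟩
  rw [h, h'] at hq
  simp at hq

lemma mO_le_of_not {s : St Λ κ} (h : ¬ stpM s) : mO s ≤ (s.p : ℝ) ^ (-(1/3) : ℝ) := by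
  by_cases h1 : (s.O ∪ s.O').Nonempty
  · by_contra h2
    exact h ⟨h1, (not_le.1 h2).le⟩
  · rw [Finset.not_nonempty_iff_eq_empty] at h1
    unfold mO
    rw [h1, Finset.sum_empty]
    positivity

/-- the settled columns do not change inside a column -/
lemma mS_same {s q : St Λ κ} (h : OGe s) (hs : OStep s q) (hpe : q.p = s.p) : mS q = mS s := by
  have e1 : sO q = sO s := by
    rcases (sO_step h hs).1 with e | e
    · exact e
    · exfalso
      have hm : s.p ∈ sO q := by rw [e]; exact Finset.mem_insert_self _ _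
      have := (Finset.mem_filter.1 hm).2
      omega
  have e2 : sO' q = sO' s := by
    rcases (sO'_step h hs).1 with e | e
    · exact e
    · exfalso
      have hm : s.p ∈ sO' q := by rw [e]; exact Finset.mem_insert_self _ _
      have := (Finset.mem_filter.1 hm).2
      omega
  unfold mS
  rw [e1, e2]

/-- the one-sided columns of the next state -/
lemma OStep.sub {s q : St Λ κ} (hs : OStep s q) : q.O ∪ q.O' ⊆ insert s.p (s.O ∪ s.O') := by
  intro l hl
  rw [Finset.mem_insert, Finset.mem_union]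
  rcases Finset.mem_union.1 hl with hl | hl
  · rcases hs.o with h | h | h <;> rw [h] at hl
    · exact Or.inr (Or.inl hl)
    · rcases Finset.mem_insert.1 hl with h | h
      exacts [Or.inl h, Or.inr (Or.inl h)]
    · exact Or.inr (Or.inl (Finset.mem_of_mem_erase hl))
  · rcases hs.o' with h | h | h <;> rw [h] at hl
    · exact Or.inr (Or.inr hl)
    · rcases Finset.mem_insert.1 hl with h | h
      exacts [Or.inl h, Or.inr (Or.inr h)]
    · exact Or.inr (Or.inr (Finset.mem_of_mem_erase hl))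

/-- the mass of the next state against the settled mass -/
lemma mO_next' {s q : St Λ κ} (h : OGe s) (hs : OStep s q) : mO q ≤ mS s + 1 / (s.p : ℝ) := by
  have h1 : q.O ∪ q.O' ⊆ insert s.p (sO s ∪ sO' s) := by
    intro l hl
    rw [sO_erase h, sO'_erase h]
    have h2 := hs.sub hl
    rw [Finset.mem_insert, Finset.mem_union] at h2
    rw [Finset.mem_insert, Finset.mem_union, Finset.mem_erase, Finset.mem_erase]
    by_cases hlp : l = s.p
    · exact Or.inl hlp
    · rcases h2 with h2 | h2 | h2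
      · exact Or.inl h2
      · exact Or.inr (Or.inl ⟨hlp, h2⟩)
      · exact Or.inr (Or.inr ⟨hlp, h2⟩)
  refine (Finset.sum_le_sum_of_subset_of_nonneg h1 fun q _ _ => by positivity).trans ?_
  have hn : s.p ∉ sO s ∪ sO' s := by
    rw [Finset.mem_union, not_or]; exact ⟨(sO_step h hs).2.2, (sO'_step h hs).2.2⟩
  rw [Finset.sum_insert hn, add_comm]
  exact le_rfl

/-- **the stop rule of the walk on trees with powers**: no stop inside a chain -/
def stpN (s : St Λ κ) : Prop := stpM s ∧ s.p ∉ s.O ∪ s.O'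

lemma stpN_root (s : St Λ κ) (h : s.O = ∅) (h' : s.O' = ∅) : ¬ stpN s :=
  fun k => stpM_root s h h' k.1

lemma stpN.M {s : St Λ κ} (h : stpN s) : stpM s := h.1

/-- at a fresh column -/
lemma mO_le_of_notN {s : St Λ κ} (h : ¬ stpN s) (hp : s.p ∉ s.O ∪ s.O') :
    mO s ≤ (s.p : ℝ) ^ (-(1/3) : ℝ) :=
  mO_le_of_not fun k => h ⟨k, hp⟩

lemma mO_lt_of_notN {s : St Λ κ} (h : ¬ stpN s) (hp : s.p ∉ s.O ∪ s.O') (h0 : 0 < s.p) :
    mO s < (s.p : ℝ) ^ (-(1/3) : ℝ) := by
  by_cases h1 : (s.O ∪ s.O').Nonempty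
  · by_contra h2
    exact h ⟨⟨h1, not_lt.1 h2⟩, hp⟩
  · rw [Finset.not_nonempty_iff_eq_empty] at h1
    unfold mO
    rw [h1, Finset.sum_empty]
    have : (0 : ℝ) < s.p := by exact_mod_cast h0
    positivity

end Crest.Agent.R4P.OSWS245
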