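import Crest.Agent.R4.OmSt532
import Crest.Agent.R4P.Om532
import Crest.Agent.R4P.World2_363
import Crest.Agent.R4P.PruneB153
import Crest.Agent.R4P.BldF542

/-!
R4 (S0004), powers pass, port of helper532's `R4/OmSt532`: classes of the **states** of an item.
Tree-free part exported from `R4.OmSt532`. Retained primes = `t.uq q` (nothing is retained at the SEP
primes).  `ret_pp` is false here (the tie prime of an item of `Sp` is retained and divides `pp`);
`uq_dvd`: retained primes divide the leaf modulus `q / pp t q`.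
-/

set_option autoImplicit false

namespace Crest.Agent.R4P.OmSt532

open Crest.Agent.R4P.W363 Crest.Agent.R4P.Om532 Crest.Agent.R4P.Item758
open Crest.Agent.R4P.Cnt588
open Crest.Agent.R4.Item464 Crest.Agent.R4.Piece464 Crest.Agent.R4.Ovl560

export Crest.Agent.R4.OmSt532 (lst_nil lst_cons lst_eq lst_canon tl XS card_XS sta_mem_XS
  dead_core dead_core_avg omw_zero om_sum_le exists_sqrt om_sqrt)

/-- **labels of all the states of `q` at the levels `≤ b`**, in leaf coordinates -/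
noncomputable def TB (P : WP) (γ : ℝ) (ψ : ℕ → ℝ) (t : IT) (q b : ℕ) : Finset ℚ :=
  (Finset.eraseNone (XS P.thr γ (ψ q) (t.mt q) b)).image fun σ => (mp t q : ℚ) * σ

/-- the label of the state at any level `p ≤ b` is in `TB` -/
theorem mem_TB {P : WP} {γ : ℝ} {ψ : ℕ → ℝ} {t : IT} {q b p : ℕ} (hp : p ≤ b) {σ : ℚ}
    (h : P.st γ ψ t p q = some σ) : (mp t q : ℚ) * σ ∈ TB P γ ψ t q b := by
  unfold TB
  refine Finset.mem_image.2 ⟨σ, ?_, rfl⟩
  rw [Finset.mem_eraseNone, ← h]
  exact sta_mem_XS _ _ _ _ _ (b - p) p hp le_rfl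

/-- the label of any stage at a level `p ≤ b` is in `XS` -/
lemma lab0_mem_XS (thr : ℕ → ℝ) (γ ψ : ℝ) (M : Finset ℕ) {b p : ℕ} (hp : p ≤ b) :
    lab0 γ ψ (W363.lst M p).prod ∈ XS thr γ ψ M b := by
  obtain ⟨p', hp', e'⟩ := lst_canon M p
  rw [e']
  refine Finset.mem_insert_of_mem (Finset.mem_image.2 ⟨p', ?_, rfl⟩)
  rcases Finset.mem_insert.1 hp' with rfl | h
  · exact Finset.mem_insert_self _ _
  · have h' := Finset.mem_filter.1 h
    exact Finset.mem_insert_of_mem (Finset.mem_filter.2 ⟨h'.1, h'.2.trans hp⟩)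

/-- the present label at any level `p ≤ b` is in `TB` -/
theorem lab0_mem_TB {P : WP} {γ : ℝ} {ψ : ℕ → ℝ} {t : IT} {q b p : ℕ} (hp : p ≤ b) {σ : ℚ}
    (h : lab0 γ (ψ q) (W363.lst (t.mt q) p).prod = some σ) :
    (mp t q : ℚ) * σ ∈ TB P γ ψ t q b := by
  unfold TB
  refine Finset.mem_image.2 ⟨σ, ?_, rfl⟩
  rw [Finset.mem_eraseNone, ← h]
  exact lab0_mem_XS _ _ _ _ hp

theorem card_TB (P : WP) (γ : ℝ) (ψ : ℕ → ℝ) (t : IT) (q b : ℕ) :
    (TB P γ ψ t q b).card ≤ 2 + ((t.mt q).filter (· ≤ b)).card := by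
  unfold TB
  refine Finset.card_image_le.trans ?_
  refine le_trans ?_ (card_XS P.thr γ (ψ q) (t.mt q) b)
  classical
  have h : (Finset.eraseNone (XS P.thr γ (ψ q) (t.mt q) b)).map Function.Embedding.some ⊆
      XS P.thr γ (ψ q) (t.mt q) b := by
    intro x hx
    obtain ⟨y, hy, rfl⟩ := Finset.mem_map.1 hx
    exact Finset.mem_eraseNone.1 hy
  have := Finset.card_le_card h
  rwa [Finset.card_map] at this

/-! ### the value at a point of a node -/

section
variable {Λ κ : Type*} [Fintype Λ] [DecidableEq κ]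

/-- **DEAD LEMMA**: if the value of the piece `j` at the point `x` of a node is not `0` then its centre
`a` is in no exact relation `(a + τ)/w = (a' + τ')/w'` with `l ∣ w`, `l ∤ w'`, `l ∤ den τ'`, `l` a
retained prime whose class set contains the label `c · mp · τ` (leaf coordinates). -/
theorem U_alive (D : Item758.Par Λ κ) {t : IT} {b pr c : ℕ} (hb : 0 < b) (hF : Item758.Fit b pr t)
    (hW : D.Wts pr t) (hc : c ∣ b) {j : Λ} {good : Prop} {ret : Finset ℕ} {T : ℕ → Finset ℚ}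
    {u : ℕ → ℤ → ℝ} {w : ℕ} (hom : D.om j = omw good ret T u w) {x : ℝ}
    (h : (D.toFT b pr t).U c j x ≠ 0) :
    good ∧ D.it j ∈ t.items ∧ ∃ a : ℤ,
      (b : ℝ) / c * D.al j ≤ ((D.it j / pr : ℕ) : ℝ) * x - (b : ℝ) / c * D.γ - a ∧
      ((D.it j / pr : ℕ) : ℝ) * x - (b : ℝ) / c * D.γ - a < (b : ℝ) / c * D.be j ∧
      ∀ l ∈ w.primeFactors, l ∈ ret → l ∣ D.it j / pr → ∀ τ τ' : ℚ,
        ((c * mp t (D.it j) : ℕ) : ℚ) * τ ∈ T l → ¬ l ∣ τ'.den →
        (∀ (a' : ℤ) (w' : ℕ), ¬ l ∣ w' →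
          ((a : ℝ) + τ) * w' ≠ ((a' : ℝ) + τ') * (D.it j / pr : ℕ)) ∧
        ∀ (M : ℕ) (i a' : ℤ) (w' : ℕ), ¬ l ∣ w' → ¬ l ∣ M →
          ((M * a - (D.it j / pr : ℕ) * i : ℤ) + (M : ℝ) * τ) * w' ≠
            ((a' : ℝ) + τ') * (D.it j / pr : ℕ) := by
  obtain ⟨hj, a, ha, h1, h2⟩ := D.supp hb hF hW hc h
  have hg : good := by
    by_contra hg
    apply ha
    rw [hom]; unfold Crest.Agent.R4.Om532.omw; rw [if_neg hg]
  refine ⟨hg, hj, a, h1, h2, fun l hl hr hlw τ τ' hT hτ' => ⟨fun a' w' hw' he => ?_,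
    fun M i a' w' hw' hM he => ?_⟩⟩
  · apply ha
    rw [hom]
    refine omw_zero hl hr hT ?_
    exact dead_core (Nat.prime_of_mem_primeFactors hl) hlw hw' hτ'
      (m := ((c * mp t (D.it j) : ℕ) : ℤ)) (by push_cast; ring) he
  · apply ha
    rw [hom]
    refine omw_zero hl hr hT ?_
    exact dead_core_avg (Nat.prime_of_mem_primeFactors hl) hlw hw' hM hτ'
      (m := ((c * mp t (D.it j) : ℕ) : ℤ)) (by push_cast; ring) he

end

/-! ### columns of the tree -/

theorem ret_lt : ∀ (t : IT) (n : ℕ), t.Ok n → ∀ q, ∀ b ∈ t.sp q ∪ t.uq q, b.Prime ∧ b < n := by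
  intro t
  induction t with
  | leaf S => intro n _ q b hb; simp [IT.sp, IT.uq] at hb
  | br r Sp t₁ t₀ ih1 ih0 =>
    intro n h q b hb
    obtain ⟨h1, h2, h3, -, h4, h5⟩ := h
    simp only [IT.sp, IT.uq] at hb
    split_ifs at hb with hq hS
    · exact ⟨(ih0 r h5 q b hb).1, (ih0 r h5 q b hb).2.trans h2⟩
    · rw [Finset.union_insert, Finset.mem_insert] at hb
      rcases hb with rfl | hb
      · exact ⟨h1, h2⟩
      · exact ⟨(ih1 r h4 q b hb).1, (ih1 r h4 q b hb).2.trans h2⟩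
    · exact ⟨(ih1 r h4 q b hb).1, (ih1 r h4 q b hb).2.trans h2⟩
  | add r t₁ t₀ ih1 ih0 =>
    intro n h q b hb
    obtain ⟨h1, h2, h3, h4, h5⟩ := h
    simp only [IT.sp, IT.uq] at hb
    split_ifs at hb with hq
    · rw [Finset.insert_union, Finset.mem_insert] at hb
      rcases hb with rfl | hb
      · exact ⟨h1, h2⟩
      · exact ⟨(ih0 _ h5 q b hb).1, (Nat.lt_succ_iff.1 (ih0 _ h5 q b hb).2).trans_lt h2⟩
    · rw [Finset.insert_union, Finset.mem_insert] at hb
      rcases hb with rfl | hb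
      · exact ⟨h1, h2⟩
      · exact ⟨(ih1 _ h4 q b hb).1, (Nat.lt_succ_iff.1 (ih1 _ h4 q b hb).2).trans_lt h2⟩
  | up r Sp t ih =>
    intro n h q b hb
    obtain ⟨h1, h2, h3, h4⟩ := h
    simp only [IT.sp, IT.uq] at hb
    split_ifs at hb with hq
    · rw [Finset.union_insert, Finset.mem_insert] at hb
      rcases hb with rfl | hb
      · exact ⟨h1, h2⟩
      · exact ⟨(ih r h4 q b hb).1, (ih r h4 q b hb).2.trans h2⟩
    · exact ⟨(ih r h4 q b hb).1, (ih r h4 q b hb).2.trans h2⟩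
  | pl r t ih =>
    intro n h q b hb
    obtain ⟨h1, h2, h4⟩ := h
    simp only [IT.sp, IT.uq] at hb
    exact ⟨(ih _ h4 q b hb).1, (Nat.lt_succ_iff.1 (ih _ h4 q b hb).2).trans_lt h2⟩
  | far r t₁ t₀ ih1 ih0 =>
    intro n h q b hb
    obtain ⟨h1, h2, h3, h4, h5⟩ := h
    simp only [IT.sp, IT.uq] at hb
    split_ifs at hb with hq
    · exact ⟨(ih0 _ h5 q b hb).1, (Nat.lt_succ_iff.1 (ih0 _ h5 q b hb).2).trans_lt h2⟩
    · exact ⟨(ih1 _ h4 q b hb).1, (Nat.lt_succ_iff.1 (ih1 _ h4 q b hb).2).trans_lt h2⟩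

theorem pp_lt : ∀ (t : IT) (n : ℕ), t.Ok n → ∀ q, ∀ l : ℕ, l.Prime → l ∣ pp t q → l < n := by
  intro t
  induction t with
  | leaf S =>
    intro n _ q l hl hd
    exact absurd (Nat.dvd_one.1 hd) hl.ne_one
  | br r Sp t₁ t₀ ih1 ih0 =>
    intro n h q l hl hd
    obtain ⟨h1, h2, h3, -, h4, h5⟩ := h
    simp only [pp] at hd
    split_ifs at hd with hq
    · exact (ih0 r h5 q l hl hd).trans h2
    · rcases (Nat.Prime.dvd_mul hl).1 hd with h6 | h6
      · rw [(Nat.prime_dvd_prime_iff_eq hl h1).1 h6]; exact h2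
      · exact (ih1 r h4 q l hl h6).trans h2
  | add r t₁ t₀ ih1 ih0 =>
    intro n h q l hl hd
    obtain ⟨h1, h2, h3, h4, h5⟩ := h
    simp only [pp] at hd
    split_ifs at hd with hq
    · exact (Nat.lt_succ_iff.1 (ih0 _ h5 q l hl hd)).trans_lt h2
    · exact (Nat.lt_succ_iff.1 (ih1 _ h4 q l hl hd)).trans_lt h2
  | up r Sp t ih =>
    intro n h q l hl hd
    obtain ⟨h1, h2, h3, h4⟩ := h
    exact (ih r h4 q l hl hd).trans h2
  | pl r t ih =>
    intro n h q l hl hd
    obtain ⟨h1, h2, h4⟩ := h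
    simp only [pp] at hd
    rcases (Nat.Prime.dvd_mul hl).1 hd with h6 | h6
    · rw [(Nat.prime_dvd_prime_iff_eq hl h1).1 h6]; exact h2
    · exact (Nat.lt_succ_iff.1 (ih _ h4 q l hl h6)).trans_lt h2
  | far r t₁ t₀ ih1 ih0 =>
    intro n h q l hl hd
    obtain ⟨h1, h2, h3, h4, h5⟩ := h
    simp only [pp] at hd
    split_ifs at hd with hq
    · exact (Nat.lt_succ_iff.1 (ih0 _ h5 q l hl hd)).trans_lt h2
    · exact (Nat.lt_succ_iff.1 (ih1 _ h4 q l hl hd)).trans_lt h2

/-- `b ∣ x`, `m ∣ x` with `m` prime to `b`: `b ∣ x / m` -/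
lemma dvd_div_of_cop {b m x : ℕ} (hb : b ∣ x) (hm : m ∣ x) (hm0 : 0 < m) (hc : Nat.Coprime b m) :
    b ∣ x / m := by
  obtain ⟨k, rfl⟩ := hm
  rw [Nat.mul_div_cancel_left k hm0]
  exact hc.dvd_of_dvd_mul_left hb

/-- **retained primes divide the leaf modulus** -/
theorem uq_dvd {P : Bld532.Par} {W : ℕ → ℝ} : ∀ (t : IT) (s : Bld532.NS),
    Bld532.All (Bld532.NodeOk P W) s t →
    ∀ q ∈ t.items, ∀ b ∈ t.uq q, b ∣ q / (s.A * pp t q) := by
  intro t
  induction t with
  | leaf S => intro s _ q _ b hb; simp [IT.uq] at hb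
  | br p Sp t₁ t₀ ih₁ ih₀ =>
    intro s hN q hq b hb
    have hFit := Bld532.Fit_of_NodeOk hN
    have hpd := (BldF542.pp_dvd _ _ _ hFit q hq)
    obtain ⟨⟨a1, a2, a3, a4, a5, a6, a7, a8, -⟩, hN1, hN0⟩ := hN
    simp only [IT.uq] at hb
    split_ifs at hb with h0 hS
    · have := ih₀ _ hN0 q h0 b hb
      simpa only [pp, if_pos h0] using this
    · have hq1 : q ∈ t₁.items := by
        rcases Finset.mem_union.1 hq with h | h
        · exact h
        · exact absurd h h0
      rcases Finset.mem_insert.1 hb with rfl | hb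
      · have h3 : b ^ 2 ∣ q / s.A := by
          rw [a8] at hS; exact (Bld532.mem_dv.1 hS).2
        have h4 : b ∣ q / s.A := (dvd_pow_self b two_ne_zero).trans h3
        have h5 : b ∣ q / (s.A * b) := by
          rw [Bld532.dvd_div_mul a1.pos h4, ← pow_two]; exact h3
        have hdv := hpd.2.1
        simp only [pp, if_neg h0] at hdv ⊢
        rw [← mul_assoc] at hdv ⊢
        have hO1 : t₁.Ok b := Bld532.Ok_of_All P W t₁ _ hN1
        have hpp0 : 0 < pp t₁ q := by
          rcases Nat.eq_zero_or_pos (pp t₁ q) with h | h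
          · exfalso
            rw [h, mul_zero] at hdv
            exact (hpd.1).ne' (Nat.eq_zero_of_zero_dvd hdv)
          · exact h
        have hc : Nat.Coprime b (pp t₁ q) := by
          rw [Nat.Prime.coprime_iff_not_dvd a1]
          intro hd
          exact lt_irrefl _ (pp_lt t₁ b hO1 q b a1 hd)
        have e : q / (s.A * b * pp t₁ q) = q / (s.A * b) / pp t₁ q :=
          (Nat.div_div_eq_div_mul q (s.A * b) (pp t₁ q)).symm
        rw [e]
        refine dvd_div_of_cop h5 ?_ hpp0 hc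
        exact Nat.dvd_div_of_mul_dvd hdv
      · have := ih₁ _ hN1 q hq1 b hb
        simp only [pp, if_neg h0]
        rw [← mul_assoc]; exact this
    · have hq1 : q ∈ t₁.items := by
        rcases Finset.mem_union.1 hq with h | h
        · exact h
        · exact absurd h h0
      have := ih₁ _ hN1 q hq1 b hb
      simp only [pp, if_neg h0]
      rw [← mul_assoc]; exact this
  | add p t₁ t₀ ih₁ ih₀ =>
    intro s hN q hq b hb
    obtain ⟨-, hN1, hN0⟩ := hN
    simp only [IT.uq] at hb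
    split_ifs at hb with h0
    · have := ih₀ _ hN0 q h0 b hb
      simpa only [pp, if_pos h0] using this
    · have hq1 : q ∈ t₁.items := by
        rcases Finset.mem_union.1 hq with h | h
        · exact h
        · exact absurd h h0
      have := ih₁ _ hN1 q hq1 b hb
      simpa only [pp, if_neg h0] using this
  | up p Sp t ih =>
    intro s hN q hq b hb
    have hFit := Bld532.Fit_of_NodeOk hN
    have hpd := (BldF542.pp_dvd _ _ _ hFit q hq)
    obtain ⟨⟨a1, a2, a3, a4, a5, a6, -⟩, hN1⟩ := hN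
    simp only [IT.uq] at hb
    split_ifs at hb with hS
    · rcases Finset.mem_insert.1 hb with rfl | hb
      · have h4 : b ∣ q / s.A := by rw [a6] at hS; exact (Bld532.mem_dv.1 hS).2
        have hdv := hpd.2.1
        simp only [pp] at hdv ⊢
        have hO1 : t.Ok b := Bld532.Ok_of_All P W t _ hN1
        have hpp0 : 0 < pp t q := by
          rcases Nat.eq_zero_or_pos (pp t q) with h | h
          · exfalso
            rw [h, mul_zero] at hdv
            exact (hpd.1).ne' (Nat.eq_zero_of_zero_dvd hdv)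
          · exact h
        have hc : Nat.Coprime b (pp t q) := by
          rw [Nat.Prime.coprime_iff_not_dvd a1]
          intro hd
          exact lt_irrefl _ (pp_lt t b hO1 q b a1 hd)
        have e : q / (s.A * pp t q) = q / s.A / pp t q :=
          (Nat.div_div_eq_div_mul q s.A (pp t q)).symm
        rw [e]
        refine dvd_div_of_cop h4 ?_ hpp0 hc
        exact Nat.dvd_div_of_mul_dvd hdv
      · exact ih _ hN1 q hq b hb
    · exact ih _ hN1 q hq b hb
  | pl p t ih =>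
    intro s hN q hq b hb
    obtain ⟨-, hN1⟩ := hN
    have := ih _ hN1 q hq b hb
    simp only [pp]
    rw [← mul_assoc]; exact this
  | far p t₁ t₀ ih₁ ih₀ =>
    intro s hN q hq b hb
    obtain ⟨-, hN1, hN0⟩ := hN
    simp only [IT.uq] at hb
    split_ifs at hb with h0
    · have := ih₀ _ hN0 q h0 b hb
      simpa only [pp, if_pos h0] using this
    · have hq1 : q ∈ t₁.items := by
        rcases Finset.mem_union.1 hq with h | h
        · exact h
        · exact absurd h h0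
      have := ih₁ _ hN1 q hq1 b hb
      simpa only [pp, if_neg h0] using this

/-- retained primes divide the leaf modulus (root) -/
theorem bld_ret_dvd {P : Bld532.Par} {W : ℕ → ℝ} {n : ℕ} {t : IT}
    (hN : Bld532.All (Bld532.NodeOk P W) ⟨n, 1, 1, 1⟩ t) {q : ℕ} (hq : q ∈ t.items)
    {b : ℕ} (hb : b ∈ t.uq q) : b ∣ q / pp t q := by
  have := uq_dvd t _ hN q hq b hb
  simpa using this

end Crest.Agent.R4P.OmSt532
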