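import Mathlib

/-! R4P (S0004), helper27: P and N of one real class below a tie `l` (#28199, #28452).
`θ` base point of the node, `σP`, `σN` the (real lifts of the) labels of `P` and `N`,
`wP`, `wN` the local moduli on the circle `y` below the tie, `RP`, `RN` the local radii. -/

set_option autoImplicit false

namespace Crest.Agent.R4P.PWin27

open Real

/-- `P` and `N` sit in one real class (same exact centre) and both cover `y` -/
structure PN (l : ℕ) (θ y : ℝ) (σP σN : ℚ) (aP aN : ℤ) (wP wN RP RN : ℝ) : Prop where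
  wP0 : 0 < wP
  wN0 : 0 < wN
  RP0 : 0 < RP
  RN0 : 0 < RN
  hc : (aP + (σP : ℝ)) / wP = (aN + (σN : ℝ)) / wN
  covP : |y - (aP + θ) / wP| ≤ RP / wP
  covN : |y - (aN + l * θ) / wN| ≤ RN / wN

variable {l : ℕ} {θ y : ℝ} {σP σN : ℚ} {aP aN : ℤ} {wP wN RP RN : ℝ}

/-- relative inaccuracy of a label -/
noncomputable def Ki (x R : ℝ) : ℝ := |x| / R

theorem Ki_nonneg {x R : ℝ} (hR : 0 < R) : 0 ≤ Ki x R := div_nonneg (abs_nonneg _) hR.le

/-- distance of the true centre of `N` from the exact centre -/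
theorem PN.devN (h : PN l θ y σP σN aP aN wP wN RP RN) :
    |(aN + l * θ) / wN - (aP + (σP : ℝ)) / wP| = Ki (l * θ - σN) RN * (RN / wN) := by
  have h1 := h.wN0
  have h2 := h.RN0
  rw [h.hc, Ki, ← sub_div, abs_div, abs_of_pos h1]
  rw [show (aN : ℝ) + l * θ - (aN + (σN : ℝ)) = l * θ - σN by ring]
  field_simp

theorem PN.devP (h : PN l θ y σP σN aP aN wP wN RP RN) :
    |(aP + θ) / wP - (aP + (σP : ℝ)) / wP| = Ki (θ - σP) RP * (RP / wP) := by
  have h1 := h.wP0
  have h2 := h.RP0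
  rw [Ki, ← sub_div, abs_div, abs_of_pos h1]
  rw [show (aP : ℝ) + θ - (aP + (σP : ℝ)) = θ - σP by ring]
  field_simp

/-- **the identity** `K_N * width_N = l t K_P * width_P` for one root label -/
theorem PN.ident (h : PN l θ y σP σN aP aN wP wN RP RN) (hs : (l : ℝ) * σP = σN) :
    Ki (l * θ - σN) RN * (RN / wN) = l * (wP / wN) * (Ki (θ - σP) RP * (RP / wP)) := by
  have h1 := h.wP0
  have h2 := h.RP0
  have h3 := h.wN0
  have h4 := h.RN0
  rw [Ki, Ki, ← hs, ← mul_sub, abs_mul, abs_of_nonneg (Nat.cast_nonneg l)]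
  field_simp

/-- **[W1] window**: same root label, `y` outside the `1/D`-near-centre part of `N`, `N` not
accurate: then `l t K_P` is in `[η ρ / 3, 2 D ρ]`, `ρ = |y - c| / width_P` -/
theorem PN.window (h : PN l θ y σP σN aP aN wP wN RP RN) (hs : (l : ℝ) * σP = σN)
    {D η : ℝ} (hD : 1 ≤ D) (hη0 : 0 ≤ η) (hη : η ≤ 2)
    (hnc : RN / wN ≤ D * |y - (aP + (σP : ℝ)) / wP|) (hK : η ≤ Ki (l * θ - σN) RN) :
    η / 3 * (|y - (aP + (σP : ℝ)) / wP| / (RP / wP)) ≤ l * (wP / wN) * Ki (θ - σP) RP ∧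
    l * (wP / wN) * Ki (θ - σP) RP ≤ 2 * D * (|y - (aP + (σP : ℝ)) / wP| / (RP / wP)) := by
  have h1 := h.wP0
  have h2 := h.RP0
  have h3 := h.wN0
  have h4 := h.RN0
  set c := (aP + (σP : ℝ)) / wP with hcc
  set WP := RP / wP with hWP
  set WN := RN / wN with hWN
  have hWP0 : 0 < WP := div_pos h2 h1
  have hWN0 : 0 < WN := div_pos h4 h3
  set KN := Ki (l * θ - σN) RN with hKN
  set KP := Ki (θ - σP) RP with hKP
  have hid : KN * WN = l * (wP / wN) * (KP * WP) := h.ident hs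
  have hdev : |(aN + l * θ) / wN - c| = KN * WN := h.devN
  have hcov : |y - (aN + l * θ) / wN| ≤ WN := h.covN
  have hup : |y - c| ≤ (1 + KN) * WN := by
    have := abs_sub_le y ((aN + l * θ) / wN) c
    rw [hdev] at this
    linarith
  have hlo : KN * WN - WN ≤ |y - c| := by
    have := abs_sub_le ((aN + l * θ) / wN) y c
    rw [hdev, abs_sub_comm ((aN + l * θ) / wN) y] at this
    linarith
  have e1 : l * (wP / wN) * KP = KN * WN / WP := by
    rw [hid]; field_simp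
  rw [e1]
  constructor
  · rw [← mul_div_assoc, div_le_div_iff_of_pos_right hWP0]
    rcases le_total KN 2 with h5 | h5
    · calc η / 3 * |y - c| ≤ η / 3 * ((1 + KN) * WN) := by gcongr
        _ ≤ η / 3 * (3 * WN) := by gcongr; linarith
        _ = η * WN := by ring
        _ ≤ KN * WN := by gcongr
    · calc η / 3 * |y - c| ≤ 2 / 3 * ((1 + KN) * WN) := by gcongr
        _ ≤ KN * WN := by nlinarith
  · rw [← mul_div_assoc (2 * D), div_le_div_iff_of_pos_right hWP0]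
    rcases le_total KN 2 with h5 | h5
    · calc KN * WN ≤ 2 * WN := by gcongr
        _ ≤ 2 * (D * |y - c|) := by gcongr
        _ = 2 * D * |y - c| := by ring
    · have h6 : KN * WN ≤ 2 * |y - c| := by nlinarith
      calc KN * WN ≤ 2 * |y - c| := h6
        _ ≤ 2 * D * |y - c| := by
          have := abs_nonneg (y - c)
          nlinarith

/-- position of `y` in the tooth of `P` -/
theorem PN.rho_le (h : PN l θ y σP σN aP aN wP wN RP RN) :
    |y - (aP + (σP : ℝ)) / wP| / (RP / wP) ≤ 1 + Ki (θ - σP) RP := by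
  have h1 := h.wP0
  have h2 := h.RP0
  have hWP0 : 0 < RP / wP := div_pos h2 h1
  rw [div_le_iff₀ hWP0]
  have := abs_sub_le y ((aP + θ) / wP) ((aP + (σP : ℝ)) / wP)
  rw [h.devP] at this
  linarith [h.covP]

/-- **corollary: inaccurate `P` is unmatched** (types and `l` with `l t > 2 D (1 + 1/η)`) -/
theorem PN.unmatched (h : PN l θ y σP σN aP aN wP wN RP RN) (hs : (l : ℝ) * σP = σN)
    {D η η' : ℝ} (hD : 1 ≤ D) (hη0 : 0 < η)
    (hnc : RN / wN ≤ D * |y - (aP + (σP : ℝ)) / wP|)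
    (hKP : η ≤ Ki (θ - σP) RP) (hη'0 : 0 ≤ η') (hη' : η' ≤ 2) (hK : η' ≤ Ki (l * θ - σN) RN) :
    l * (wP / wN) ≤ 2 * D * (1 + 1 / η) := by
  obtain ⟨-, h2⟩ := h.window hs hD hη'0 hη' hnc hK
  have h3 := h.rho_le
  have h4 : 0 < Ki (θ - σP) RP := lt_of_lt_of_le hη0 hKP
  have h5 : l * (wP / wN) * Ki (θ - σP) RP ≤ 2 * D * (1 + Ki (θ - σP) RP) :=
    h2.trans (by gcongr)
  have h6 : 2 * D * (1 + Ki (θ - σP) RP) ≤ 2 * D * (1 + 1 / η) * Ki (θ - σP) RP := by
    have : 1 ≤ 1 / η * Ki (θ - σP) RP := by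
      rw [one_div, inv_mul_eq_div, le_div_iff₀ hη0]; linarith
    nlinarith
  exact le_of_mul_le_mul_right (h5.trans h6) h4

/-- same statement without any hypothesis on the accuracy of `N` (`η' = 0`) -/
theorem PN.unmatched0 (h : PN l θ y σP σN aP aN wP wN RP RN) (hs : (l : ℝ) * σP = σN)
    {D η : ℝ} (hD : 1 ≤ D) (hη0 : 0 < η)
    (hnc : RN / wN ≤ D * |y - (aP + (σP : ℝ)) / wP|)
    (hKP : η ≤ Ki (θ - σP) RP) : l * (wP / wN) ≤ 2 * D * (1 + 1 / η) :=
  h.unmatched hs hD hη0 hnc hKP le_rfl (by norm_num) (Ki_nonneg h.RN0)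

/-- **accurate `N`**: `P` and `N` are relatively close as seen from `y` -/
theorem PN.close (h : PN l θ y σP σN aP aN wP wN RP RN) (hs : (l : ℝ) * σP = σN)
    {D η t : ℝ} (hη0 : 0 ≤ η) (ht : 0 < t) (htt : t ≤ l * (wP / wN))
    (hnc : RN / wN ≤ D * |y - (aP + (σP : ℝ)) / wP|) (hK : Ki (l * θ - σN) RN ≤ η) :
    |(aP + θ) / wP - (aP + (σP : ℝ)) / wP| ≤ η * D / t * |y - (aP + (σP : ℝ)) / wP| ∧
    |(aN + l * θ) / wN - (aP + (σP : ℝ)) / wP| ≤ η * D * |y - (aP + (σP : ℝ)) / wP| := by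
  have h1 := h.wP0
  have h2 := h.RP0
  have h3 := h.wN0
  have h4 := h.RN0
  have hid := h.ident hs
  have hWN0 : 0 < RN / wN := div_pos h4 h3
  have hWP0 : 0 < RP / wP := div_pos h2 h1
  have hKP0 := Ki_nonneg (x := θ - σP) h2
  have hKN0 := Ki_nonneg (x := l * θ - σN) h4
  have hb : Ki (l * θ - σN) RN * (RN / wN) ≤ η * D * |y - (aP + (σP : ℝ)) / wP| := by
    calc Ki (l * θ - σN) RN * (RN / wN) ≤ η * (RN / wN) := by gcongr
      _ ≤ η * (D * |y - (aP + (σP : ℝ)) / wP|) := by gcongr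
      _ = _ := by ring
  refine ⟨?_, by rw [h.devN]; exact hb⟩
  rw [h.devP, div_mul_eq_mul_div, le_div_iff₀ ht]
  calc Ki (θ - σP) RP * (RP / wP) * t
      ≤ Ki (θ - σP) RP * (RP / wP) * (l * (wP / wN)) := by gcongr
    _ = l * (wP / wN) * (Ki (θ - σP) RP * (RP / wP)) := by ring
    _ = _ := hid.symm
    _ ≤ _ := hb

/-- accidental prime `l` of the base point `θ` at the scale `R` (labels of radius `R`) -/
def Acci (θ R : ℝ) (l : ℕ) : Prop :=
  ∃ k : ℕ, 1 ≤ k ∧ (k : ℝ) ^ 5 * R ≤ 1 ∧ ∃ h : ℤ, ¬ (l : ℤ) ∣ h ∧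
    |(k : ℝ) * l * θ - h| ≤ k * R ^ (4 / 5 : ℝ)

/-- two distinct rationals are far apart -/
theorem rat_gap {a b : ℚ} (h : a ≠ b) {k m : ℝ} (ha : (a.den : ℝ) ≤ k) (hb : (b.den : ℝ) ≤ m) :
    1 / (k * m) ≤ |(a : ℝ) - b| := by
  have ha0 : (0 : ℝ) < a.den := by exact_mod_cast a.pos
  have hb0 : (0 : ℝ) < b.den := by exact_mod_cast b.pos
  have h1 : (a : ℝ) - b = (a.num * b.den - b.num * a.den) / (a.den * b.den) := by
    rw [Rat.cast_def a, Rat.cast_def b]; field_simp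
  have h2 : a.num * b.den - b.num * a.den ≠ 0 := by
    intro h3
    apply h
    rw [Rat.eq_iff_mul_eq_mul]
    linarith
  have h3 : (1 : ℝ) ≤ |(a.num : ℝ) * b.den - b.num * a.den| := by
    have := Int.one_le_abs h2
    exact_mod_cast this
  rw [h1, abs_div, abs_of_pos (mul_pos ha0 hb0)]
  rw [div_le_div_iff₀ (mul_pos (ha0.trans_le ha) (hb0.trans_le hb)) (mul_pos ha0 hb0)]
  have hk0 : 0 ≤ k := (ha0.trans_le ha).le
  have hm0 : 0 ≤ m := (hb0.trans_le hb).le
  calc 1 * ((a.den : ℝ) * b.den) ≤ 1 * (k * m) := by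
        have := mul_le_mul ha hb hb0.le hk0
        linarith
    _ ≤ _ := mul_le_mul_of_nonneg_right h3 (mul_nonneg hk0 hm0)

/-- the denominators of the two labels of one centre are comparable -/
theorem PN.den_le (h : PN l θ y σP σN aP aN wP wN RP RN) {u v : ℕ} (hv : 0 < v)
    (ht : (v : ℝ) * wP = u * wN) : σP.den ≤ v * σN.den := by
  have h1 := h.wP0
  have h2 := h.wN0
  have hc := h.hc
  rw [div_eq_div_iff h1.ne' h2.ne'] at hc
  have h3 : (v : ℝ) * (aP + σP) = u * (aN + σN) := by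
    have : (v : ℝ) * (aP + σP) * wN = u * (aN + σN) * wN := by
      calc (v : ℝ) * (aP + σP) * wN = v * ((aP + σP) * wN) := by ring
        _ = v * ((aN + σN) * wP) := by rw [hc]
        _ = (v * wP) * (aN + σN) := by ring
        _ = (u * wN) * (aN + σN) := by rw [ht]
        _ = _ := by ring
    exact mul_right_cancel₀ h2.ne' this
  have h4 : (v : ℚ) * (aP + σP) = u * (aN + σN) := by exact_mod_cast h3
  have hvq : (v : ℚ) ≠ 0 := by exact_mod_cast hv.ne'
  have hNq : (σN.den : ℚ) ≠ 0 := by exact_mod_cast σN.den_nz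
  have h5 : σP = (((u * (aN * σN.den + σN.num) - v * aP * σN.den : ℤ)) : ℚ) /
      ((v * σN.den : ℤ) : ℚ) := by
    have h6 : σP = u * (aN + σN) / v - aP := by
      rw [eq_sub_iff_add_eq, eq_div_iff hvq]; linarith
    rw [h6]
    have h7 : (σN : ℚ) = σN.num / σN.den := (Rat.num_div_den σN).symm
    push_cast
    rw [eq_div_iff (mul_ne_zero hvq hNq)]
    have h8 : σN * σN.den = σN.num := Rat.mul_den_eq_num σN
    field_simp
    linear_combination (u : ℚ) * h8
  have h9 : (σP.den : ℤ) ∣ (v * σN.den : ℤ) := by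
    rw [h5, ← Rat.divInt_eq_div]; exact Rat.den_dvd _ _
  have h10 : σP.den ∣ v * σN.den := by exact_mod_cast h9
  exact Nat.le_of_dvd (Nat.mul_pos hv σN.pos) h10

/-- **[W2]** different root labels: `l` is accidental for `θ`, or `y` is in the near-centre part
of `P` -/
theorem PN.diff (h : PN l θ y σP σN aP aN wP wN RP RN) (hl : 0 < l)
    (hs : (l : ℝ) * σP ≠ σN) {u v : ℕ} (hv : 0 < v) (ht : (v : ℝ) * wP = u * wN)
    {T : ℝ} (hT : 1 ≤ T) (hu : (u : ℝ) ≤ T) (hvT : (v : ℝ) ≤ T)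
    (hN1 : (σN.den : ℝ) ^ 5 * RN ≤ 1) (hN2 : |(l : ℝ) * θ - σN| ≤ RN ^ (4 / 5 : ℝ))
    (hRN : 6 * T ^ 2 * RN ^ (2 / 5 : ℝ) ≤ 1) :
    Acci θ RN l ∨
      |y - (aP + (σP : ℝ)) / wP| ≤ 4 * T ^ 2 * RN ^ (2 / 5 : ℝ) * (RP / wP) := by
  have h1 := h.wP0
  have h2 := h.wN0
  have hR := h.RN0
  have hRP := h.RP0
  have hl0 : (0 : ℝ) < l := by exact_mod_cast hl
  have hl1 : (1 : ℝ) ≤ l := by exact_mod_cast hl
  have hden0 : (0 : ℝ) < σN.den := by exact_mod_cast σN.pos
  by_cases hd : (l : ℤ) ∣ σN.num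
  swap
  · left
    refine ⟨σN.den, σN.pos, hN1, σN.num, hd, ?_⟩
    have h3 : (σN.den : ℝ) * l * θ - σN.num = σN.den * (l * θ - σN) := by
      have : (σN : ℝ) * σN.den = σN.num := by exact_mod_cast Rat.mul_den_eq_num σN
      linear_combination this
    rw [h3, abs_mul, abs_of_pos hden0]
    gcongr
  right
  obtain ⟨m, hm⟩ := hd
  -- the label of `N` comes from `σ'`
  set σ' : ℚ := (m : ℚ) / (σN.den : ℤ) with hσ'
  have hσN : (l : ℝ) * σ' = σN := by
    have h3 : (l : ℚ) * σ' = σN := by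
      have hNq : (σN.den : ℚ) ≠ 0 := by exact_mod_cast σN.den_nz
      rw [hσ']
      have h4 : (σN.num : ℚ) = l * m := by exact_mod_cast hm
      conv_rhs => rw [← Rat.num_div_den σN, h4]
      push_cast
      ring
    exact_mod_cast h3
  have hσd : (σ'.den : ℝ) ≤ σN.den := by
    have h4 : (σ'.den : ℤ) ∣ (σN.den : ℤ) := by
      have := Rat.den_dvd m (σN.den : ℤ)
      rwa [Rat.divInt_eq_div] at this
    have h5 : σ'.den ∣ σN.den := by exact_mod_cast h4
    exact_mod_cast Nat.le_of_dvd σN.pos h5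
  have hne : σP ≠ σ' := by
    intro h3
    exact hs (by rw [h3, hσN])
  have hdP : (σP.den : ℝ) ≤ T * σN.den := by
    have := h.den_le hv ht
    calc (σP.den : ℝ) ≤ v * σN.den := by exact_mod_cast this
      _ ≤ T * σN.den := by gcongr
  have hgap := rat_gap hne hdP hσd
  set a := RN ^ (2 / 5 : ℝ) with ha
  have ha0 : 0 < a := rpow_pos_of_pos hR _
  have haa : RN ^ (4 / 5 : ℝ) = a * a := by
    rw [ha, ← rpow_add hR]; norm_num
  have hT0 : 0 < T := by linarith
  -- `den^2 * a ≤ 1`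
  have hda : (σN.den : ℝ) ^ 2 * a ≤ 1 := by
    have h3 : ((σN.den : ℝ) ^ 2 * a) = ((σN.den : ℝ) ^ 5 * RN) ^ (2 / 5 : ℝ) := by
      rw [mul_rpow (by positivity) hR.le, ← rpow_natCast, ← rpow_natCast, ← rpow_mul hden0.le, ha]
      norm_num
    rw [h3]
    exact rpow_le_one (by positivity) hN1 (by norm_num)
  have hθ' : |θ - σ'| ≤ a * a := by
    have h3 : (l : ℝ) * θ - σN = l * (θ - σ') := by rw [← hσN]; ring
    rw [h3, abs_mul, abs_of_pos hl0, haa] at hN2
    have := abs_nonneg (θ - (σ' : ℝ))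
    nlinarith
  -- `y` is close to the centre
  have hyc : |y - (aP + (σP : ℝ)) / wP| ≤ 2 * (a * a) / wN := by
    rw [h.hc]
    have h3 := abs_sub_le y ((aN + l * θ) / wN) ((aN + (σN : ℝ)) / wN)
    have h4 : |(aN + l * θ) / wN - (aN + (σN : ℝ)) / wN| ≤ a * a / wN := by
      rw [← sub_div, abs_div, abs_of_pos h2, ← haa]
      gcongr
      rwa [show (aN : ℝ) + l * θ - (aN + (σN : ℝ)) = l * θ - σN by ring]
    have h5 : RN ≤ a * a := by
      have h6 : RN ≤ 1 := by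
        have h7 : (1 : ℝ) ≤ (σN.den : ℝ) ^ 5 := by
          apply one_le_pow₀
          exact_mod_cast σN.pos
        nlinarith
      rw [← haa]
      calc RN = RN ^ (1 : ℝ) := (rpow_one _).symm
        _ ≤ RN ^ (4 / 5 : ℝ) := rpow_le_rpow_of_exponent_ge hR h6 (by norm_num)
    have h6 : RN / wN ≤ a * a / wN := by gcongr
    calc _ ≤ _ := h3
      _ ≤ a * a / wN + a * a / wN := add_le_add (h.covN.trans h6) h4
      _ = _ := by ring
  have hwt : 1 / wN ≤ T / wP := by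
    rw [div_le_div_iff₀ h2 h1]
    have hv1 : (1 : ℝ) ≤ v := by exact_mod_cast hv
    calc 1 * wP ≤ v * wP := by gcongr
      _ = u * wN := ht
      _ ≤ T * wN := by gcongr
  have hyc2 : |y - (aP + (σP : ℝ)) / wP| ≤ 2 * T * (a * a) / wP := by
    calc _ ≤ 2 * (a * a) / wN := hyc
      _ = 2 * (a * a) * (1 / wN) := by ring
      _ ≤ 2 * (a * a) * (T / wP) := by gcongr
      _ = _ := by ring
  have hθP : |θ - σP| ≤ RP + 2 * T * (a * a) := by
    have h3 : |θ - σP| / wP ≤ RP / wP + 2 * T * (a * a) / wP := by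
      have h4 := abs_sub_le ((aP + θ) / wP) y ((aP + (σP : ℝ)) / wP)
      have h5 : |(aP + θ) / wP - (aP + (σP : ℝ)) / wP| = |θ - σP| / wP := by
        rw [← sub_div, abs_div, abs_of_pos h1,
          show (aP : ℝ) + θ - (aP + (σP : ℝ)) = θ - σP by ring]
      rw [h5, abs_sub_comm ((aP + θ) / wP) y] at h4
      exact h4.trans (add_le_add h.covP hyc2)
    rw [← add_div, div_le_div_iff_of_pos_right h1] at h3
    exact h3
  -- lower bound for `RP`
  have hlow : a / (2 * T) ≤ RP := by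
    have h3 : |(σP : ℝ) - σ'| ≤ RP + 3 * T * (a * a) := by
      have h4 := abs_sub_le (σP : ℝ) θ (σ' : ℝ)
      rw [abs_sub_comm (σP : ℝ) θ] at h4
      nlinarith [mul_pos ha0 ha0]
    have h4 : a / T ≤ 1 / (T * σN.den * σN.den) := by
      rw [div_le_div_iff₀ hT0 (by positivity)]
      nlinarith
    have h5 : a / T ≤ RP + 3 * T * (a * a) := h4.trans (hgap.trans h3)
    have h6 : 3 * T * (a * a) ≤ a / (2 * T) := by
      rw [le_div_iff₀ (by positivity)]
      calc 3 * T * (a * a) * (2 * T) = a * (6 * T ^ 2 * a) := by ring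
        _ ≤ a * 1 := by gcongr
        _ = a := mul_one a
    have h7 : a / T = a / (2 * T) + a / (2 * T) := by field_simp; ring
    linarith
  calc _ ≤ 2 * T * (a * a) / wP := hyc2
    _ = 4 * T ^ 2 * a * (a / (2 * T) / wP) := by field_simp; ring
    _ ≤ 4 * T ^ 2 * a * (RP / wP) := by gcongr

end Crest.Agent.R4P.PWin27
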