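import Crest.Agent.R4P.EqLeaf_26
import Crest.Agent.R4P.StratF_36
import Crest.Agent.R4P.HullCtx_26

/-!
R4 (S0004) with powers, module D (crossing pairs), helper26: **the kinds of crossing states in items**.

* `xm b W c B S i` : mass of the class of effective exponent `i`.
* `CBd` : bound of a crossing state by classes; `CBd.swap`.
* `KT` : the kind table of KindPay_36 at one column, `kt_ex`.
* `KT.low`, `KT.high`, `KT.far`, `KT.farD`, `KT.near`, `KT.lowJ`, `KT.highJ`, `KT.aliveJ`, `KT.farJ`.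
-/

set_option autoImplicit false
set_option linter.unusedSectionVars false
set_option linter.unusedVariables false
open Finset

namespace Crest.Agent.R4P.PayK26

open Crest.Agent.R4P.KindPay36 Crest.Agent.R4.HVW560 Crest.Agent.R4P.EqLeaf26
open Crest.Agent.R4P.StratN36 (ex CutN FarN DomE)
open Crest.Agent.R4P.HullCtx26 (cl mem_cl)
open Crest.Agent.R4P.Cnt588 (Ws)
open Crest.Agent.R4P.Bld532 (Ws_mono Ws_nonneg)
open Crest.Agent.R4P.Hull31 (ef)
open Crest.Agent.R4P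

/-- mass of the class of effective exponent `i` -/
noncomputable def xm (b : ℕ) (W : ℕ → ℝ) (c : ℝ) (B : ℕ) (S : Finset ℕ) (i : ℕ) : ℝ :=
  c * Ws W (cl b B i S)

section xm
variable {b : ℕ} {W : ℕ → ℝ} (hW : ∀ q, 0 ≤ W q) {c : ℝ} (hc : 0 ≤ c) {B : ℕ} {S : Finset ℕ}
include hW hc

lemma xm_nonneg (i : ℕ) : 0 ≤ xm b W c B S i := mul_nonneg hc (Ws_nonneg hW _)

/-- sum over classes -/
lemma sum_xm_le (E : ℕ → Prop) [DecidablePred E] (n : ℕ) :
    ∑ i ∈ range n, (if E i then xm b W c B S i else 0) ≤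
      c * Ws W (S.filter fun q => E (ex b q + ex b B)) := by
  unfold xm
  have e : ∀ i, (if E i then c * Ws W (cl b B i S) else 0) =
      c * (if E i then Ws W (cl b B i S) else 0) := fun i => by split_ifs <;> simp
  rw [Finset.sum_congr rfl fun i _ => e i, ← Finset.mul_sum, ← Finset.sum_filter]
  refine mul_le_mul_of_nonneg_left ?_ hc
  have hd : ((range n).filter E : Set ℕ).PairwiseDisjoint fun i => cl b B i S := by
    intro i _ j _ hij
    refine Finset.disjoint_left.2 fun q hq hq' => hij ?_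
    rw [← (mem_cl.1 hq).2, ← (mem_cl.1 hq').2]
  show ∑ i ∈ (range n).filter E, ∑ q ∈ cl b B i S, W q ≤ ∑ q ∈ _, W q
  rw [← Finset.sum_biUnion hd]
  refine Finset.sum_le_sum_of_subset_of_nonneg ?_ fun q _ _ => hW q
  intro q hq
  obtain ⟨i, hi, hq⟩ := Finset.mem_biUnion.1 hq
  obtain ⟨h1, h2⟩ := mem_cl.1 hq
  refine Finset.mem_filter.2 ⟨h1, ?_⟩
  have h3 : ex b q + ex b B = i := h2
  rw [h3]
  exact (Finset.mem_filter.1 hi).2

lemma sum_xm (n : ℕ) : ∑ i ∈ range n, xm b W c B S i ≤ c * Ws W S := by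
  have h := sum_xm_le hW hc (b := b) (B := B) (S := S) (fun _ => True) n
  simp only [if_true, Finset.filter_true] at h
  exact h

lemma xm_le (i : ℕ) : xm b W c B S i ≤ c * Ws W S :=
  mul_le_mul_of_nonneg_left (Ws_mono hW (Finset.filter_subset _ _)) hc

omit hW hc in
lemma xm_zero {i : ℕ} (h : ∀ q ∈ S, 0 < W q → ex b q + ex b B ≠ i) (hW : ∀ q, 0 ≤ W q) :
    xm b W c B S i = 0 := by
  unfold xm Ws
  rw [Finset.sum_eq_zero, mul_zero]
  intro q hq
  obtain ⟨h1, h2⟩ := mem_cl.1 hq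
  by_contra hne
  exact h q h1 (lt_of_le_of_ne (hW q) (Ne.symm hne)) h2

end xm

/-- **bound by classes** of a cost `F` at the column `b`; `D`, `D'` : the left / right side is dead and
the other one is alive; `C` = log exponent of the different classes, `Ce` of the equal classes (free) -/
def CBd (b : ℕ) (C Ce K₁ s₁ s₂ : ℝ) (al : ℕ → ℝ) (W : ℕ → ℝ) (D D' : Prop) (c : ℝ) (B : ℕ)
    (S : Finset ℕ) (c' : ℝ) (B' : ℕ) (S' : Finset ℕ) (F : ℝ) : Prop :=
  ∃ (n : ℕ) (φ : ℕ → ℕ → ℝ),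
    CO b C s₁ s₂ (fun i j => al (if i < j then B else B')) (xm b W c B S) (xm b W c' B' S') φ ∧
    CW b Ce s₁ s₂ (xm b W c B S) (xm b W c' B' S') φ ∧
    (D → ¬ b ∣ B → ¬ b ∣ B' → ∃ tw : ℕ → ℝ, CE2 b Ce K₁ s₁ s₂ tw (xm b W c B S) (xm b W c' B' S') φ) ∧
    (D' → ¬ b ∣ B' → ¬ b ∣ B → ∃ tw : ℕ → ℝ,
      CE2 b Ce K₁ s₁ s₂ tw (xm b W c' B' S') (xm b W c B S) (fun i j => φ j i)) ∧
    F ≤ offS n φ + eqS n φ

lemma CBd.swap {b : ℕ} {C Ce K₁ s₁ s₂ : ℝ} {al W : ℕ → ℝ} {D D' : Prop} {c : ℝ} {B : ℕ}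
    {S : Finset ℕ} {c' : ℝ} {B' : ℕ} {S' : Finset ℕ} {F : ℝ}
    (h : CBd b C Ce K₁ s₁ s₂ al W D D' c B S c' B' S' F) :
    CBd b C Ce K₁ s₁ s₂ al W D' D c' B' S' c B S F := by
  obtain ⟨n, φ, h1, h2, h3, h3', h4⟩ := h
  refine ⟨n, fun i j => φ j i, ?_, h2.swap, h3', h3, ?_⟩
  · have h5 := h1.swap
    refine ⟨h5.x0, h5.y0, fun i j => ?_, fun i j hij => ?_⟩
    · have a := h1.al0 0 1
      have b := h1.al0 0 0
      simp only [Nat.zero_lt_one, if_true, lt_self_iff_false, if_false] at a b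
      split_ifs
      · exact b
      · exact a
    · have h6 := h5.le i j hij
      have e : (if j < i then B else B') = if i < j then B' else B := by
        rcases lt_or_gt_of_ne hij with h | h
        · rw [if_neg (not_lt.2 h.le), if_pos h]
        · rw [if_pos h, if_neg (not_lt.2 h.le)]
      rw [e] at h6
      exact h6
  · rw [offS_swap]
    exact h4

/-- **the kind table at the column `b`** -/
structure KT (C Ce Cl Ch Bs K₁ s₁ s₂ a η : ℝ) (b : ℕ) : Prop where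
  off_leaf : ∀ (n : ℕ) (al : ℕ → ℕ → ℝ) (x y : ℕ → ℝ)
      (φ : ℕ → ℕ → ℝ) (t X Y : ℝ) (i₀ j₀ : ℕ) (E : ℕ → Prop) [DecidablePred E],
      CO b C s₁ s₂ al x y φ → (∀ i j, al i j ≤ (b:ℝ)^a) →
      ∑ i ∈ range n, x i ≤ X → ∑ j ∈ range n, y j ≤ Y → x i₀ ≤ X → y j₀ ≤ Y →
      (Real.log b)^(-Cl) ≤ t → (Real.log b)^Bs / b * t ≤ X → Y ≤ (Real.log b)^Ch →
      (∀ i j, dst i j = 1 → ¬ (i = i₀ ∧ j = j₀) → x i = 0 ∨ y j = 0 ∨ E j) →
      ∑ j ∈ range n, (if E j then y j else 0) ≤ 4 * ((Real.log b)^Bs / b) * Y →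
      offS n φ ≤ 56 * X + (Real.log b)^(CA C Ch s₂) * (al i₀ j₀)^(1/(1-s₂)) * (b:ℝ)^(-1:ℝ) * y j₀
  off_alive : ∀ (n : ℕ) (al : ℕ → ℕ → ℝ) (x y : ℕ → ℝ) (φ : ℕ → ℕ → ℝ) (X Y : ℝ),
      CO b C s₁ s₂ al x y φ → (∀ i j, al i j ≤ (b:ℝ)^a) →
      ∑ i ∈ range n, x i ≤ X → ∑ j ∈ range n, y j ≤ Y →
      (Real.log b)^(-Cl) ≤ X → (Real.log b)^(-Cl) ≤ Y → offS n φ ≤ η * (X * Y)
  off_tiny : ∀ (n : ℕ) (al : ℕ → ℕ → ℝ) (x y : ℕ → ℝ) (φ : ℕ → ℕ → ℝ) (X Y : ℝ),
      CO b C s₁ s₂ al x y φ → (∀ i j, al i j ≤ (b:ℝ)^a) →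
      ∑ i ∈ range n, x i ≤ X → ∑ j ∈ range n, y j ≤ Y →
      X ≤ 2 * ((Real.log b)^Bs / b) * (Real.log b)^Ch →
      (Real.log b)^(-Cl) ≤ Y → Y ≤ (Real.log b)^Ch → offS n φ ≤ η * Y
  off_far : ∀ (n : ℕ) (al : ℕ → ℕ → ℝ) (x y : ℕ → ℝ) (φ : ℕ → ℕ → ℝ) (t X Y : ℝ) (K : ℕ),
      CO b C s₁ s₂ al x y φ → (∀ i j, al i j ≤ (b:ℝ)^a) →
      ∑ i ∈ range n, x i ≤ X → ∑ j ∈ range n, y j ≤ Y →
      (Real.log b)^(-Cl) ≤ t → Y ≤ (Real.log b)^Ch →
      (∀ i, dst i K ≤ 1 → x i = 0) →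
      ∑ j ∈ range n, (if j ≠ K then y j else 0) ≤ 4 * ((Real.log b)^Bs / b) * Y →
      offS n φ ≤ 7 * (X + (b:ℝ)^(-(3/2):ℝ) * t)
  eq_leaf : ∀ (n : ℕ) (tw : ℕ → ℝ) (x y : ℕ → ℝ)
      (φ : ℕ → ℕ → ℝ) (t X Y : ℝ) (E : ℕ → Prop) [DecidablePred E],
      CE2 b Ce K₁ s₁ s₂ tw x y φ →
      ∑ i ∈ range n, x i ≤ X → ∑ j ∈ range n, y j ≤ Y →
      (Real.log b)^(-Cl) ≤ t → (Real.log b)^Bs / b * t ≤ X → Y ≤ (Real.log b)^Ch →
      (∀ i, x i = 0 ∨ E i) →
      ∑ j ∈ range n, (if E j then y j else 0) ≤ 4 * ((Real.log b)^Bs / b) * Y →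
      eqS n φ ≤ (3 + K₁) * X
  eq_alive : ∀ (n : ℕ) (x y : ℕ → ℝ)
      (φ : ℕ → ℕ → ℝ) (X Y : ℝ) (E F : ℕ → Prop) [DecidablePred E] [DecidablePred F],
      CW b Ce s₁ s₂ x y φ →
      ∑ i ∈ range n, x i ≤ X → ∑ j ∈ range n, y j ≤ Y →
      (Real.log b)^(-Cl) ≤ X → (Real.log b)^(-Cl) ≤ Y →
      (∀ i, F i ∨ E i) →
      ∑ j ∈ range n, (if F j then x j else 0) ≤ 4 * ((Real.log b)^Bs / b) * X →
      ∑ j ∈ range n, (if E j then y j else 0) ≤ 4 * ((Real.log b)^Bs / b) * Y →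
      eqS n φ ≤ η * (X * Y)
  eq_tiny : ∀ (n : ℕ) (x y : ℕ → ℝ) (φ : ℕ → ℕ → ℝ) (X Y : ℝ),
      CW b Ce s₁ s₂ x y φ →
      ∑ i ∈ range n, x i ≤ X → ∑ j ∈ range n, y j ≤ Y →
      X ≤ 2 * ((Real.log b)^Bs / b) * (Real.log b)^Ch →
      (Real.log b)^(-Cl) ≤ Y → Y ≤ (Real.log b)^Ch → eqS n φ ≤ η * Y

section
variable {C Cl Ch Bs K₁ δ s₁ s₂ a η : ℝ}

theorem kt_ex (hk : KOk C Cl Ch Bs K₁ δ s₁ s₂ a) (Ce : ℝ) (hη : 0 < η) :
    ∃ b₁ : ℕ, 16 ≤ b₁ ∧ ∀ b : ℕ, b₁ ≤ b → KT C Ce Cl Ch Bs K₁ s₁ s₂ a η b := by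
  obtain ⟨c1, -, h1⟩ := KindPay36.off_leaf C Cl Ch Bs K₁ δ s₁ s₂ a hk
  obtain ⟨c2, -, h2⟩ := KindPay36.off_alive C Cl Ch Bs K₁ δ s₁ s₂ a hk hη
  obtain ⟨c3, -, h3⟩ := KindPay36.off_tiny C Cl Ch Bs K₁ δ s₁ s₂ a hk hη
  obtain ⟨c4, -, h4⟩ := KindPay36.off_far C Cl Ch Bs K₁ δ s₁ s₂ a hk
  obtain ⟨c5, -, h5⟩ := EqLeaf26.eq_leaf2 (δ := δ) hk Ce
  obtain ⟨c6, -, h6⟩ := EqLeaf26.eq_aliveE hk Ce hη
  obtain ⟨c7, -, h7⟩ := EqLeaf26.eq_tinyE hk Ce hη
  refine ⟨16 + c1 + c2 + c3 + c4 + c5 + c6 + c7, by omega, fun b hb => ?_⟩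
  exact ⟨h1 b (by omega), h2 b (by omega), h3 b (by omega), h4 b (by omega), h5 b (by omega),
    h6 b (by omega), h7 b (by omega)⟩

end

/-! ### the kinds -/

section kinds
variable {C Ce Cl Ch Bs K₁ s₁ s₂ a η : ℝ} {b : ℕ} {P : Bld532.Par} {W : ℕ → ℝ}
  {c c' : ℝ} {B B' : ℕ} {T T₁ T₀ X Y : Finset ℕ} {F : ℝ} {al : ℕ → ℝ} {D D' : Prop}

/-- class masses of the lower part -/
lemma low_zero (hW : ∀ q, 0 ≤ W q) {J : ℕ} (hN : CutN P W b J T T₁ T₀) (hB : ex b B = 0) (i : ℕ)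
    (h : J ≤ i) : xm b W c B T₀ i = 0 :=
  xm_zero (fun q hq _ => by
    rw [hN.t0, Finset.mem_filter] at hq
    omega) hW

/-- class masses of the upper part -/
lemma high_zero (hW : ∀ q, 0 ≤ W q) {J : ℕ} (hN : CutN P W b J T T₁ T₀) (hB : ex b B = 0) (i : ℕ)
    (h : i < J) : xm b W c B T₁ i = 0 :=
  xm_zero (fun q hq _ => by
    rw [hN.t1, Finset.mem_filter] at hq
    omega) hW

section cut
variable (hK : KT C Ce Cl Ch Bs K₁ s₁ s₂ a η b) (hW : ∀ q, 0 ≤ W q) (hc : 0 < c) (hc' : 0 ≤ c')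
  (hsg : P.sg b = (Real.log b)^Bs / b) (hal : ∀ B, al B ≤ (b:ℝ)^a)
  {J : ℕ} (hN : CutN P W b J T T₁ T₀) (hB : ex b B = 0)
  (ht : (Real.log b)^(-Cl) ≤ c * Ws W T) (hy : c' * Ws W Y ≤ (Real.log b)^Ch)
include hK hW hc hc' hsg hal hN hB ht hy

/-- the part below the threshold leaves, different classes -/
theorem KT.low_off (hY : Ws W (Y.filter (fun q => ex b q + ex b B' < J)) ≤ 4 * P.sg b * Ws W Y)
    {n : ℕ} {φ : ℕ → ℕ → ℝ}
    (hO : CO b C s₁ s₂ (fun i j => al (if i < j then B else B')) (xm b W c B T₀)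
      (xm b W c' B' Y) φ) :
    offS n φ ≤ 56 * (c * Ws W T₀) + (Real.log b)^(CA C Ch s₂) * (al B)^(1/(1-s₂)) *
      (b:ℝ)^(-1:ℝ) * (c' * Ws W (cl b B' J Y)) := by
  have hJ := hN.pos
  have key := hK.off_leaf n (fun i j => al (if i < j then B else B')) _ _ φ (c * Ws W T)
    (c * Ws W T₀) (c' * Ws W Y) (J - 1) J (fun j => j < J) hO (fun i j => hal _)
    (sum_xm hW hc.le n) (sum_xm hW hc' n) (xm_le hW hc.le _) (xm_le hW hc' _) ht
    (by
      rw [← hsg]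
      have := mul_le_mul_of_nonneg_left hN.s0.le hc.le
      calc _ = c * (P.sg b * Ws W T) := by ring
        _ ≤ _ := this) hy
    (fun i j hij hne => ?_)
    ((sum_xm_le hW hc' (fun j => j < J) n).trans ?_)
  · rw [if_pos (by omega : J - 1 < J)] at key
    exact key
  · by_cases hi : J ≤ i
    · exact Or.inl (low_zero hW hN hB i hi)
    · right; right
      unfold dst at hij
      by_contra hj
      exact hne ⟨by omega, by omega⟩
  · rw [← hsg]
    have := mul_le_mul_of_nonneg_left hY hc'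
    calc _ ≤ _ := this
      _ = _ := by ring

omit hK hc hc' hsg hal ht hy in
/-- a partner of one class, the part below the threshold leaves -/
lemma low_one (hs8 : 8 * P.sg b < 1)
    (hY : Ws W (Y.filter (fun q => ex b q + ex b B' < J)) ≤ 4 * P.sg b * Ws W Y) {κ : ℕ}
    (hYB : ∀ q ∈ Y, ex b q + ex b B' = κ) (i : ℕ) : xm b W c B T₀ i = 0 ∨ xm b W c' B' Y i = 0 := by
  by_cases hi : J ≤ i
  · exact Or.inl (low_zero hW hN hB i hi)
  right
  by_cases hκ : κ < J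
  · have e : Y.filter (fun q => ex b q + ex b B' < J) = Y := by
      rw [Finset.filter_eq_self]
      intro q hq
      rw [hYB q hq]; exact hκ
    rw [e] at hY
    have h0 := Ws_nonneg hW Y
    have h1 : Ws W Y = 0 := by nlinarith
    have h2 : Ws W (cl b B' i Y) ≤ Ws W Y := Ws_mono hW (Finset.filter_subset _ _)
    have h3 := Ws_nonneg hW (cl b B' i Y)
    unfold xm
    rw [show Ws W (cl b B' i Y) = 0 by linarith, mul_zero]
  · refine xm_zero (fun q hq _ => ?_) hW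
    rw [hYB q hq]
    omega

omit hK hc hc' hsg hal ht hy in
/-- a partner of one class, the part above the threshold leaves -/
lemma high_one (hs8 : 8 * P.sg b < 1)
    (hY : Ws W (Y.filter (fun q => J ≤ ex b q + ex b B')) ≤ 4 * P.sg b * Ws W Y) {κ : ℕ}
    (hYB : ∀ q ∈ Y, ex b q + ex b B' = κ) (i : ℕ) : xm b W c B T₁ i = 0 ∨ xm b W c' B' Y i = 0 := by
  by_cases hi : i < J
  · exact Or.inl (high_zero hW hN hB i hi)
  right
  by_cases hκ : J ≤ κ
  · have e : Y.filter (fun q => J ≤ ex b q + ex b B') = Y := by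
      rw [Finset.filter_eq_self]
      intro q hq
      rw [hYB q hq]; exact hκ
    rw [e] at hY
    have h0 := Ws_nonneg hW Y
    have h1 : Ws W Y = 0 := by nlinarith
    have h2 : Ws W (cl b B' i Y) ≤ Ws W Y := Ws_mono hW (Finset.filter_subset _ _)
    have h3 := Ws_nonneg hW (cl b B' i Y)
    unfold xm
    rw [show Ws W (cl b B' i Y) = 0 by linarith, mul_zero]
  · refine xm_zero (fun q hq _ => ?_) hW
    rw [hYB q hq]
    omega

/-- the part below the threshold leaves -/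
theorem KT.low (hs : 0 < s₁) (hs' : 0 < s₂) (hs8 : 8 * P.sg b < 1) (hbB0 : ¬ b ∣ B)
    (hYB : b ∣ B' → ∃ κ, ∀ q ∈ Y, ex b q + ex b B' = κ)
    (hY : Ws W (Y.filter (fun q => ex b q + ex b B' < J)) ≤ 4 * P.sg b * Ws W Y)
    (hD : D) (hF : CBd b C Ce K₁ s₁ s₂ al W D D' c B T₀ c' B' Y F) :
    F ≤ (59 + max 0 K₁) * (c * Ws W T₀) +
      (Real.log b)^(CA C Ch s₂) * (al B)^(1/(1-s₂)) *
      (b:ℝ)^(-1:ℝ) * (c' * Ws W (cl b B' J Y)) := by
  obtain ⟨n, φ, h1, h2w, h3, -, h4⟩ := hF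
  have k1 := KT.low_off hK hW hc hc' hsg hal hN hB ht hy hY h1 (n := n)
  have kX : 0 ≤ c * Ws W T₀ := mul_nonneg hc.le (Ws_nonneg hW _)
  have kM := mul_le_mul_of_nonneg_right (le_max_right 0 K₁) kX
  have kM0 := mul_nonneg (le_max_left 0 K₁) kX
  by_cases hbB : b ∣ B'
  · obtain ⟨κ, hκ⟩ := hYB hbB
    have k2 := KindPay36.eq_noneW (n := n) hs hs' h2w fun i =>
      low_one (c := c) (c' := c') hW hN hB hs8 hY hκ i
    linarith
  obtain ⟨tw, h2⟩ := h3 hD hbB0 hbB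
  have k2 := hK.eq_leaf n tw _ _ φ (c * Ws W T) (c * Ws W T₀) (c' * Ws W Y) (fun j => j < J) h2
    (sum_xm hW hc.le n) (sum_xm hW hc' n) ht
    (by
      rw [← hsg]
      have := mul_le_mul_of_nonneg_left hN.s0.le hc.le
      calc _ = c * (P.sg b * Ws W T) := by ring
        _ ≤ _ := this) hy
    (fun i => by
      by_cases hi : J ≤ i
      · exact Or.inl (low_zero hW hN hB i hi)
      · exact Or.inr (not_le.1 hi))
    ((sum_xm_le hW hc' (fun j => j < J) n).trans (by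
      rw [← hsg]
      have := mul_le_mul_of_nonneg_left hY hc'
      calc _ ≤ _ := this
        _ = _ := by ring))
  linarith

/-- the part above the threshold leaves, different classes -/
theorem KT.high_off (hY : Ws W (Y.filter (fun q => J ≤ ex b q + ex b B')) ≤ 4 * P.sg b * Ws W Y)
    {n : ℕ} {φ : ℕ → ℕ → ℝ}
    (hO : CO b C s₁ s₂ (fun i j => al (if i < j then B else B')) (xm b W c B T₁)
      (xm b W c' B' Y) φ) :
    offS n φ ≤ 56 * (c * Ws W T₁) + (Real.log b)^(CA C Ch s₂) * (al B')^(1/(1-s₂)) *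
      (b:ℝ)^(-1:ℝ) * (c' * Ws W (cl b B' (J - 1) Y)) := by
  have hJ := hN.pos
  have key := hK.off_leaf n (fun i j => al (if i < j then B else B')) _ _ φ (c * Ws W T)
    (c * Ws W T₁) (c' * Ws W Y) J (J - 1) (fun j => J ≤ j) hO (fun i j => hal _)
    (sum_xm hW hc.le n) (sum_xm hW hc' n) (xm_le hW hc.le _) (xm_le hW hc' _) ht
    (by
      rw [← hsg]
      have := mul_le_mul_of_nonneg_left hN.s1.le hc.le
      calc _ = c * (P.sg b * Ws W T) := by ring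
        _ ≤ _ := this) hy
    (fun i j hij hne => ?_)
    ((sum_xm_le hW hc' (fun j => J ≤ j) n).trans ?_)
  · rw [if_neg (by omega : ¬ J < J - 1)] at key
    exact key
  · by_cases hi : i < J
    · exact Or.inl (high_zero hW hN hB i hi)
    · right; right
      unfold dst at hij
      by_contra hj
      exact hne ⟨by omega, by omega⟩
  · rw [← hsg]
    have := mul_le_mul_of_nonneg_left hY hc'
    calc _ ≤ _ := this
      _ = _ := by ring

/-- the part above the threshold leaves -/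
theorem KT.high (hs : 0 < s₁) (hs' : 0 < s₂) (hs8 : 8 * P.sg b < 1) (hbB0 : ¬ b ∣ B)
    (hYB : b ∣ B' → ∃ κ, ∀ q ∈ Y, ex b q + ex b B' = κ)
    (hY : Ws W (Y.filter (fun q => J ≤ ex b q + ex b B')) ≤ 4 * P.sg b * Ws W Y)
    (hD : D) (hF : CBd b C Ce K₁ s₁ s₂ al W D D' c B T₁ c' B' Y F) :
    F ≤ (59 + max 0 K₁) * (c * Ws W T₁) +
      (Real.log b)^(CA C Ch s₂) * (al B')^(1/(1-s₂)) *
      (b:ℝ)^(-1:ℝ) * (c' * Ws W (cl b B' (J - 1) Y)) := by
  obtain ⟨n, φ, h1, h2w, h3, -, h4⟩ := hF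
  have k1 := KT.high_off hK hW hc hc' hsg hal hN hB ht hy hY h1 (n := n)
  have kX : 0 ≤ c * Ws W T₁ := mul_nonneg hc.le (Ws_nonneg hW _)
  have kM := mul_le_mul_of_nonneg_right (le_max_right 0 K₁) kX
  have kM0 := mul_nonneg (le_max_left 0 K₁) kX
  by_cases hbB : b ∣ B'
  · obtain ⟨κ, hκ⟩ := hYB hbB
    have k2 := KindPay36.eq_noneW (n := n) hs hs' h2w fun i =>
      high_one (c := c) (c' := c') hW hN hB hs8 hY hκ i
    linarith
  obtain ⟨tw, h2⟩ := h3 hD hbB0 hbB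
  have k2 := hK.eq_leaf n tw _ _ φ (c * Ws W T) (c * Ws W T₁) (c' * Ws W Y) (fun j => J ≤ j) h2
    (sum_xm hW hc.le n) (sum_xm hW hc' n) ht
    (by
      rw [← hsg]
      have := mul_le_mul_of_nonneg_left hN.s1.le hc.le
      calc _ = c * (P.sg b * Ws W T) := by ring
        _ ≤ _ := this) hy
    (fun i => by
      by_cases hi : i < J
      · exact Or.inl (high_zero hW hN hB i hi)
      · exact Or.inr (not_lt.1 hi))
    ((sum_xm_le hW hc' (fun j => J ≤ j) n).trans (by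
      rw [← hsg]
      have := mul_le_mul_of_nonneg_left hY hc'
      calc _ ≤ _ := this
        _ = _ := by ring))
  linarith

end cut

/-- the part below the threshold leaves, both sides alive -/
theorem KT.lowA (hK : KT C Ce Cl Ch Bs K₁ s₁ s₂ a η b) (hW : ∀ q, 0 ≤ W q) (hc : 0 < c) (hc' : 0 ≤ c')
    (hsg : P.sg b = (Real.log b)^Bs / b) (hsg0 : 0 ≤ P.sg b) (hal : ∀ B, al B ≤ (b:ℝ)^a)
    {J : ℕ} (hN : CutN P W b J T T₁ T₀) (hB : ex b B = 0)
    (hY : Ws W (Y.filter (fun q => ex b q + ex b B' < J)) ≤ 4 * P.sg b * Ws W Y)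
    (hx : (Real.log b)^(-Cl) ≤ c * Ws W T₀) (hy : (Real.log b)^(-Cl) ≤ c' * Ws W Y)
    (hF : CBd b C Ce K₁ s₁ s₂ al W D D' c B T₀ c' B' Y F) :
    F ≤ 2 * η * ((c * Ws W T₀) * (c' * Ws W Y)) := by
  obtain ⟨n, φ, h1, h2, -, -, h4⟩ := hF
  have k1 := hK.off_alive n _ _ _ φ (c * Ws W T₀) (c' * Ws W Y) h1 (fun i j => hal _)
    (sum_xm hW hc.le n) (sum_xm hW hc' n) hx hy
  have k2 := hK.eq_alive n _ _ φ (c * Ws W T₀) (c' * Ws W Y) (fun j => j < J) (fun j => J ≤ j) h2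
    (sum_xm hW hc.le n) (sum_xm hW hc' n) hx hy (fun i => by
      rcases le_or_gt J i with h | h
      · exact Or.inl h
      · exact Or.inr h)
    ((le_of_eq (Finset.sum_eq_zero fun i _ => by
      split_ifs with h
      · exact low_zero hW hN hB i h
      · rfl)).trans (by
        rw [← hsg]
        exact mul_nonneg (by positivity) (mul_nonneg hc.le (Ws_nonneg hW _))))
    ((sum_xm_le hW hc' (fun j => j < J) n).trans (by
      rw [← hsg]
      have := mul_le_mul_of_nonneg_left hY hc'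
      calc _ ≤ _ := this
        _ = _ := by ring))
  linarith

/-- the part above the threshold leaves, both sides alive -/
theorem KT.highA (hK : KT C Ce Cl Ch Bs K₁ s₁ s₂ a η b) (hW : ∀ q, 0 ≤ W q) (hc : 0 < c)
    (hc' : 0 ≤ c') (hsg : P.sg b = (Real.log b)^Bs / b) (hsg0 : 0 ≤ P.sg b)
    (hal : ∀ B, al B ≤ (b:ℝ)^a) {J : ℕ} (hN : CutN P W b J T T₁ T₀) (hB : ex b B = 0)
    (hY : Ws W (Y.filter (fun q => J ≤ ex b q + ex b B')) ≤ 4 * P.sg b * Ws W Y)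
    (hx : (Real.log b)^(-Cl) ≤ c * Ws W T₁) (hy : (Real.log b)^(-Cl) ≤ c' * Ws W Y)
    (hF : CBd b C Ce K₁ s₁ s₂ al W D D' c B T₁ c' B' Y F) :
    F ≤ 2 * η * ((c * Ws W T₁) * (c' * Ws W Y)) := by
  obtain ⟨n, φ, h1, h2, -, -, h4⟩ := hF
  have k1 := hK.off_alive n _ _ _ φ (c * Ws W T₁) (c' * Ws W Y) h1 (fun i j => hal _)
    (sum_xm hW hc.le n) (sum_xm hW hc' n) hx hy
  have k2 := hK.eq_alive n _ _ φ (c * Ws W T₁) (c' * Ws W Y) (fun j => J ≤ j) (fun j => j < J) h2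
    (sum_xm hW hc.le n) (sum_xm hW hc' n) hx hy (fun i => by
      rcases le_or_gt J i with h | h
      · exact Or.inr h
      · exact Or.inl h)
    ((le_of_eq (Finset.sum_eq_zero fun i _ => by
      split_ifs with h
      · exact high_zero hW hN hB i h
      · rfl)).trans (by
        rw [← hsg]
        exact mul_nonneg (by positivity) (mul_nonneg hc.le (Ws_nonneg hW _))))
    ((sum_xm_le hW hc' (fun j => J ≤ j) n).trans (by
      rw [← hsg]
      have := mul_le_mul_of_nonneg_left hY hc'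
      calc _ ≤ _ := this
        _ = _ := by ring))
  linarith

/-- no equal classes -/
lemma eq_zero_of {n : ℕ} {x y : ℕ → ℝ} {φ : ℕ → ℕ → ℝ} (hs : 0 < s₁) (hs' : 0 < s₂)
    (h2 : CW b Ce s₁ s₂ x y φ) (hz : ∀ i, x i = 0 ∨ y i = 0) : eqS n φ ≤ 0 :=
  KindPay36.eq_noneW hs hs' h2 hz

section joint
variable (hK : KT C Ce Cl Ch Bs K₁ s₁ s₂ a η b) (hs : 0 < s₁) (hs' : 0 < s₂) (hW : ∀ q, 0 ≤ W q) (hc : 0 < c) (hc' : 0 ≤ c')
  (hsg : P.sg b = (Real.log b)^Bs / b) (hsg0 : 0 ≤ P.sg b) (hal : ∀ B, al B ≤ (b:ℝ)^a)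
  {J : ℕ} {T' T₁' T₀' : Finset ℕ} (hN : CutN P W b J T T₁ T₀) (hN' : CutN P W b J T' T₁' T₀')
  (hB : ex b B = 0) (hB' : ex b B' = 0)
include hK hs hs' hW hc hc' hsg hsg0 hal hN hN' hB hB'

/-- joint cut, the lower part of the left side against the upper part of the right side: the left part is
dead -/
theorem KT.lowJ (ht : (Real.log b)^(-Cl) ≤ c * Ws W T)
    (hy : c' * Ws W T₁' ≤ (Real.log b)^Ch)
    (hF : CBd b C Ce K₁ s₁ s₂ al W D D' c B T₀ c' B' T₁' F) :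
    F ≤ 56 * (c * Ws W T₀) + (Real.log b)^(CA C Ch s₂) * (al B)^(1/(1-s₂)) *
      (b:ℝ)^(-1:ℝ) * (c' * Ws W (cl b B' J T₁')) := by
  obtain ⟨n, φ, h1, h2, -, -, h4⟩ := hF
  have e : T₁'.filter (fun q => ex b q + ex b B' < J) = ∅ := by
    rw [Finset.filter_eq_empty_iff]
    intro q hq
    rw [hN'.t1, Finset.mem_filter] at hq
    omega
  have k1 := KT.low_off hK hW hc hc' hsg hal hN hB ht hy (Y := T₁') (by
    rw [e]
    have h5 := Ws_nonneg hW T₁'
    have : Ws W (∅ : Finset ℕ) = 0 := by unfold Ws; simp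
    rw [this]
    positivity) h1 (n := n)
  have k2 := eq_zero_of (n := n) hs hs' h2 fun i => by
    by_cases hi : J ≤ i
    · exact Or.inl (low_zero hW hN hB i hi)
    · exact Or.inr (high_zero hW hN' hB' i (not_le.1 hi))
  linarith

/-- joint cut, the upper part of the left side against the lower part of the right side: the left part is
dead -/
theorem KT.highJ (ht : (Real.log b)^(-Cl) ≤ c * Ws W T)
    (hy : c' * Ws W T₀' ≤ (Real.log b)^Ch)
    (hF : CBd b C Ce K₁ s₁ s₂ al W D D' c B T₁ c' B' T₀' F) :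
    F ≤ 56 * (c * Ws W T₁) + (Real.log b)^(CA C Ch s₂) * (al B')^(1/(1-s₂)) *
      (b:ℝ)^(-1:ℝ) * (c' * Ws W (cl b B' (J - 1) T₀')) := by
  obtain ⟨n, φ, h1, h2, -, -, h4⟩ := hF
  have e : T₀'.filter (fun q => J ≤ ex b q + ex b B') = ∅ := by
    rw [Finset.filter_eq_empty_iff]
    intro q hq
    rw [hN'.t0, Finset.mem_filter] at hq
    omega
  have k1 := KT.high_off hK hW hc hc' hsg hal hN hB ht hy (Y := T₀') (by
    rw [e]
    have h5 := Ws_nonneg hW T₀'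
    have : Ws W (∅ : Finset ℕ) = 0 := by unfold Ws; simp
    rw [this]
    positivity) h1 (n := n)
  have k2 := eq_zero_of (n := n) hs hs' h2 fun i => by
    by_cases hi : i < J
    · exact Or.inl (high_zero hW hN hB i hi)
    · exact Or.inr (low_zero hW hN' hB' i (not_lt.1 hi))
  linarith

/-- joint cut, both parts alive, upper against lower -/
theorem KT.aliveJ (hx : (Real.log b)^(-Cl) ≤ c * Ws W T₁) (hy : (Real.log b)^(-Cl) ≤ c' * Ws W T₀')
    (hF : CBd b C Ce K₁ s₁ s₂ al W D D' c B T₁ c' B' T₀' F) :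
    F ≤ η * ((c * Ws W T₁) * (c' * Ws W T₀')) := by
  obtain ⟨n, φ, h1, h2, -, -, h4⟩ := hF
  have k1 := hK.off_alive n _ _ _ φ (c * Ws W T₁) (c' * Ws W T₀') h1 (fun i j => hal _)
    (sum_xm hW hc.le n) (sum_xm hW hc' n) hx hy
  have k2 := eq_zero_of (n := n) hs hs' h2 fun i => by
    by_cases hi : i < J
    · exact Or.inl (high_zero hW hN hB i hi)
    · exact Or.inr (low_zero hW hN' hB' i (not_lt.1 hi))
  linarith

end joint

/-! ### far kinds -/

/-- the far part has distance at least two -/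
lemma far_zero (hW : ∀ q, 0 ≤ W q) {K : ℕ} (hN : FarN P W b K T T₁ T₀) (hB : ex b B = 0) (i : ℕ)
    (h : dst i K ≤ 1) : xm b W c B T₁ i = 0 :=
  xm_zero (fun q hq _ => by
    rw [hN.t1, Finset.mem_filter] at hq
    unfold dst at h
    omega) hW

/-- the near part has distance at most one -/
lemma near_zero (hW : ∀ q, 0 ≤ W q) {K : ℕ} (hN : FarN P W b K T T₁ T₀) (hB : ex b B = 0) (i : ℕ)
    (h : ¬ dst i K ≤ 1) : xm b W c B T₀ i = 0 :=
  xm_zero (fun q hq _ => by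
    rw [hN.t0, Finset.mem_filter] at hq
    unfold dst at h
    omega) hW

/-- mass of the far part -/
lemma far_small (hW : ∀ q, 0 ≤ W q) {K : ℕ} (hN : FarN P W b K T T₁ T₀) :
    Ws W T₁ ≤ 2 * P.sg b * Ws W T := by
  refine (Ws_mono hW ?_).trans (hN.tail hW)
  intro q hq
  rw [hN.t1, Finset.mem_filter] at hq
  exact Finset.mem_filter.2 ⟨hq.1, by omega⟩

/-- the near part is dominated by `K` -/
lemma near_tail (hW : ∀ q, 0 ≤ W q) (hsg0 : 0 ≤ P.sg b) (hs8 : 8 * P.sg b < 1) {K : ℕ}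
    (hN : FarN P W b K T T₁ T₀) :
    Ws W (T₀.filter (fun q => ex b q ≠ K)) ≤ 4 * P.sg b * Ws W T₀ := by
  have h1 : Ws W T = Ws W T₁ + Ws W T₀ := by
    have hd : Disjoint T₁ T₀ := by
      rw [Finset.disjoint_left]
      intro q hq hq'
      rw [hN.t1, Finset.mem_filter] at hq
      rw [hN.t0, Finset.mem_filter] at hq'
      omega
    have hu : T = T₁ ∪ T₀ := by
      ext q
      rw [Finset.mem_union, hN.t1, hN.t0, Finset.mem_filter, Finset.mem_filter]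
      constructor
      · intro hq
        by_cases h : ex b q + 2 ≤ K ∨ K + 2 ≤ ex b q
        · exact Or.inl ⟨hq, h⟩
        · exact Or.inr ⟨hq, by omega⟩
      · rintro (h | h)
        · exact h.1
        · exact h.1
    rw [hu]
    unfold Ws
    exact Finset.sum_union hd
  have h2 := far_small hW hN
  have h3 : Ws W (T₀.filter (fun q => ex b q ≠ K)) ≤ 2 * P.sg b * Ws W T := by
    refine (Ws_mono hW ?_).trans (hN.tail hW)
    intro q hq
    obtain ⟨hq, hne⟩ := Finset.mem_filter.1 hq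
    rw [hN.t0, Finset.mem_filter] at hq
    exact Finset.mem_filter.2 ⟨hq.1, hne⟩
  have h4 := Ws_nonneg hW T₀
  have h5 := Ws_nonneg hW T₁
  have h6 := Ws_nonneg hW T
  -- `Ws T ≤ 2 Ws T₀`
  have h7 : Ws W T ≤ 2 * Ws W T₀ := by nlinarith
  calc _ ≤ 2 * P.sg b * Ws W T := h3
    _ ≤ 2 * P.sg b * (2 * Ws W T₀) := mul_le_mul_of_nonneg_left h7 (by positivity)
    _ = _ := by ring

section far
variable (hK : KT C Ce Cl Ch Bs K₁ s₁ s₂ a η b) (hs : 0 < s₁) (hs' : 0 < s₂) (hW : ∀ q, 0 ≤ W q) (hc : 0 < c)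
  (hc' : 0 ≤ c') (hsg : P.sg b = (Real.log b)^Bs / b) (hsg0 : 0 ≤ P.sg b) (hs8 : 8 * P.sg b < 1)
  (hal : ∀ B, al B ≤ (b:ℝ)^a) {K : ℕ} (hN : FarN P W b K T T₁ T₀) (hB : ex b B = 0)
include hK hs hs' hW hc hc' hsg hsg0 hs8 hal hN hB

/-- the far leaf leaves, the partner is dominated by the same exponent -/
theorem KT.far (hD : DomE P W b (ex b B') K Y) (ht : (Real.log b)^(-Cl) ≤ c * Ws W T)
    (hy : c' * Ws W Y ≤ (Real.log b)^Ch)
    (hF : CBd b C Ce K₁ s₁ s₂ al W D D' c B T₁ c' B' Y F) :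
    F ≤ 7 * (c * Ws W T₁ + (b:ℝ)^(-(3/2):ℝ) * (c * Ws W T)) := by
  obtain ⟨n, φ, h1, h2, -, -, h4⟩ := hF
  have k1 := hK.off_far n _ _ _ φ (c * Ws W T) (c * Ws W T₁) (c' * Ws W Y) K h1 (fun i j => hal _)
    (sum_xm hW hc.le n) (sum_xm hW hc' n) ht hy (fun i hi => far_zero hW hN hB i hi)
    ((sum_xm_le hW hc' (fun j => j ≠ K) n).trans (by
      rw [← hsg]
      have := mul_le_mul_of_nonneg_left hD.tail hc'
      calc _ ≤ _ := this
        _ = _ := by ring))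
  have k2 := eq_zero_of (n := n) hs hs' h2 fun i => by
    by_cases hi : dst i K ≤ 1
    · exact Or.inl (far_zero hW hN hB i hi)
    · right
      refine xm_zero (fun q hq h0 he => hi ?_) hW
      have := hD.near q hq h0
      unfold dst
      omega
  linarith

/-- the far leaf leaves, the near child is dead, the partner is alive -/
theorem KT.farD (ht : c * Ws W T ≤ (Real.log b)^Ch) (hy : (Real.log b)^(-Cl) ≤ c' * Ws W Y)
    (hy' : c' * Ws W Y ≤ (Real.log b)^Ch)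
    (hF : CBd b C Ce K₁ s₁ s₂ al W D D' c B T₁ c' B' Y F) :
    F ≤ 2 * η * (c' * Ws W Y) := by
  obtain ⟨n, φ, h1, h2, -, -, h4⟩ := hF
  have hx : c * Ws W T₁ ≤ 2 * ((Real.log b)^Bs / b) * (Real.log b)^Ch := by
    rw [← hsg]
    calc c * Ws W T₁ ≤ c * (2 * P.sg b * Ws W T) := mul_le_mul_of_nonneg_left (far_small hW hN) hc.le
      _ = 2 * P.sg b * (c * Ws W T) := by ring
      _ ≤ _ := mul_le_mul_of_nonneg_left ht (by positivity)
  have k1 := hK.off_tiny n _ _ _ φ (c * Ws W T₁) (c' * Ws W Y) h1 (fun i j => hal _)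
    (sum_xm hW hc.le n) (sum_xm hW hc' n) hx hy hy'
  have k2 := hK.eq_tiny n _ _ φ (c * Ws W T₁) (c' * Ws W Y) h2
    (sum_xm hW hc.le n) (sum_xm hW hc' n) hx hy hy'
  linarith

/-- the near child leaves, alive; the partner is dominated by another exponent -/
theorem KT.near {K' : ℕ} (hne : K' ≠ K)
    (hY : Ws W (Y.filter (fun q => ex b q + ex b B' ≠ K')) ≤ 4 * P.sg b * Ws W Y)
    (hx : (Real.log b)^(-Cl) ≤ c * Ws W T₀) (hy : (Real.log b)^(-Cl) ≤ c' * Ws W Y)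
    (hF : CBd b C Ce K₁ s₁ s₂ al W D D' c B T₀ c' B' Y F) :
    F ≤ 2 * η * ((c * Ws W T₀) * (c' * Ws W Y)) := by
  obtain ⟨n, φ, h1, h2, -, -, h4⟩ := hF
  have k1 := hK.off_alive n _ _ _ φ (c * Ws W T₀) (c' * Ws W Y) h1 (fun i j => hal _)
    (sum_xm hW hc.le n) (sum_xm hW hc' n) hx hy
  have k2 := hK.eq_alive n _ _ φ (c * Ws W T₀) (c' * Ws W Y) (fun j => j ≠ K') (fun j => j ≠ K) h2
    (sum_xm hW hc.le n) (sum_xm hW hc' n) hx hy (fun i => by
      by_cases hi : i = K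
      · right
        rw [hi]
        exact Ne.symm hne
      · exact Or.inl hi)
    ((sum_xm_le hW hc.le (fun j => j ≠ K) n).trans (by
      rw [← hsg]
      have e : T₀.filter (fun q => ex b q + ex b B ≠ K) = T₀.filter (fun q => ex b q ≠ K) := by
        refine Finset.filter_congr fun q _ => ?_
        rw [hB, add_zero]
      rw [e]
      have := mul_le_mul_of_nonneg_left (near_tail hW hsg0 hs8 hN) hc.le
      calc _ ≤ _ := this
        _ = _ := by ring))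
    ((sum_xm_le hW hc' (fun j => j ≠ K') n).trans (by
      rw [← hsg]
      have := mul_le_mul_of_nonneg_left hY hc'
      calc _ ≤ _ := this
        _ = _ := by ring))
  linarith

/-- joint far node: the far leaf against the near child of the other side -/
theorem KT.farJ {T' T₁' T₀' : Finset ℕ} (hN' : FarN P W b K T' T₁' T₀') (hB' : ex b B' = 0)
    (ht : (Real.log b)^(-Cl) ≤ c * Ws W T) (hy : c' * Ws W T₀' ≤ (Real.log b)^Ch)
    (hF : CBd b C Ce K₁ s₁ s₂ al W D D' c B T₁ c' B' T₀' F) :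
    F ≤ 7 * (c * Ws W T₁ + (b:ℝ)^(-(3/2):ℝ) * (c * Ws W T)) := by
  refine KT.far hK hs hs' hW hc hc' hsg hsg0 hs8 hal hN hB (Y := T₀') ⟨fun q hq _ => ?_, ?_⟩ ht hy hF
  · rw [hN'.t0, Finset.mem_filter] at hq
    omega
  · have e : T₀'.filter (fun q => ex b q + ex b B' ≠ K) = T₀'.filter (fun q => ex b q ≠ K) := by
      refine Finset.filter_congr fun q _ => ?_
      rw [hB', add_zero]
    rw [e]
    exact near_tail hW hsg0 hs8 hN'

end far

/-- a cut node is not a far node -/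
lemma cut_not_far (hW : ∀ q, 0 ≤ W q) {J K : ℕ} {X₁ X₀ : Finset ℕ} (hN : CutN P W b J T T₁ T₀)
    (hF : FarN P W b K T X₁ X₀) : False := by
  rcases le_or_gt J K with hJ | hJ
  · have e : T₀ ⊆ T.filter (fun q => ex b q < K) := by
      intro q hq
      rw [hN.t0, Finset.mem_filter] at hq
      exact Finset.mem_filter.2 ⟨hq.1, by omega⟩
    have := (Ws_mono hW e).trans hF.lo
    linarith [hN.s0]
  · have e : T₁ ⊆ T.filter (fun q => K < ex b q) := by
      intro q hq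
      rw [hN.t1, Finset.mem_filter] at hq
      exact Finset.mem_filter.2 ⟨hq.1, by omega⟩
    have := (Ws_mono hW e).trans hF.hi
    linarith [hN.s1]

end kinds

end Crest.Agent.R4P.PayK26
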