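import Crest.Agent.R4P.AsmX_26
import Crest.Agent.R4P.VCtx_29

/-!
R4 (S0004) with powers, module D, helper29: **the `V`-part of the crossing states is paid by `VX`**.

* `PayV` : the payments `AsmX26.Pay` with `V` of the crossing states added on the right sides.
* `PayV.pay` : `PayV` with the potential `Acc` implies `Pay` with `VX + Acc`.
* `ctx_eX_V` : the part `eX` of a context from `PayV`.
-/

set_option autoImplicit false
set_option linter.unusedSectionVars false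
set_option linter.unusedVariables false

namespace Crest.Agent.R4P.PayV29

open Crest.Agent.R4.Tour104 Crest.Agent.R4.Tour758 Crest.Agent.R4.Avg758 Crest.Agent.R4.Clos758
open Crest.Agent.R4.ClosL758 Crest.Agent.R4.ClosG758 Crest.Agent.R4.ClosR758
open Crest.Agent.R4.Fam464 Crest.Agent.R4P.Cnt588 Crest.Agent.R4P.Walk560 Crest.Agent.R4.Piece464
open Crest.Agent.R4P.Item758 Crest.Agent.R4P.AvgItem710
open Crest.Agent.R4P.Data758 Crest.Agent.R4P.WalkIT579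
open Crest.Agent.R4P.Bld532 (NS All NodeOk Bk)
open Crest.Agent.R4P.Res927 Crest.Agent.R4P.GSt927 Crest.Agent.R4P.OSWS245
open Crest.Agent.R4P.StopCtx9 (OFP RI)
open Crest.Agent.R4P.Skel189 (Ctx top Part PartW)
open Crest.Agent.R4P.Frame758 (tM tN tG tD wt)
open Crest.Agent.R4P.ClosP542 (PulG)
open Crest.Agent.R4.Item758 (AdI AdI_univ)
open Crest.Agent.R4P.VWalk36 (crs V toZ)
open Crest.Agent.R4P.Strip29 (Blind NoSplit)
open Crest.Agent.R4.Soft104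
open Crest.Agent.R4P.CtxX26 Crest.Agent.R4P.CrossSum29
open Crest.Agent.R4P.StratX36 Crest.Agent.R4P.SkelF29 Crest.Agent.R4P.Dd26
open Crest.Agent.R4P.AsmX26 Crest.Agent.R4P.VCtx29
open Crest.Agent.R4P.VNum34 Crest.Agent.R4P.VItem34
open Crest.Agent.R4P

section oth
variable {Λ κ : Type*} [Fintype Λ] [DecidableEq Λ] [DecidableEq κ] [WRel κ] {stp : Stp Λ κ}
  {s : St Λ κ}

lemma vw_self_add {t : DT Λ κ} {p : ℕ} {r : Λ → κ} {t₁ t₀ : DT Λ κ} (h : t = .add p r t₁ t₀) :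
    vw p t = .add r t₁ t₀ := by
  subst h; simp [vw]

lemma oth_not_L {r : Λ → κ} {t₁ t₀ : DT Λ κ} (h : OneL stp s r t₁ t₀) (ho : Oth stp s) : False := by
  have hv := vw_self_add h.et
  cases ho with
  | fl h1 _ =>
    rcases h1 with (h1 | h1) | h1
    · exact h.prp.nl h1
    · exact h.prp.nl' h1
    · exact h.prp.ns h1
  | pl w r t₁ t₀ v B G q₁ q₀ et => rw [h.et] at et; simp at et
  | pr w r t₁ t₀ v B G q₁ q₀ et e => rw [h.nx] at e; simp at e
  | bb w r t₁ t₀ v B G w' r' t₁' t₀' v' B' G' et => rw [h.et] at et; simp at et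
  | bu w r t₁ t₀ v B G q₁ q₀ Sp u hu et => rw [h.et] at et; simp at et
  | ub w r t₁ t₀ v B G q₁ q₀ Sp u hu et => rw [hv] at hu; simp at hu
  | uu Sp u Sp' u' hu => rw [hv] at hu; simp at hu

lemma oth_not_R {r : Λ → κ} {t₁ t₀ : DT Λ κ} (h : OneR stp s r t₁ t₀) (ho : Oth stp s) : False := by
  have hv := vw_self_add h.et
  cases ho with
  | fl h1 _ =>
    rcases h1 with (h1 | h1) | h1
    · exact h.prp.nl h1
    · exact h.prp.nl' h1
    · exact h.prp.ns h1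
  | pl w r t₁ t₀ v B G q₁ q₀ et e => rw [h.nx] at e; simp at e
  | pr w r t₁ t₀ v B G q₁ q₀ et => rw [h.et] at et; simp at et
  | bb w r t₁ t₀ v B G w' r' t₁' t₀' v' B' G' et et' => rw [h.et] at et'; simp at et'
  | bu w r t₁ t₀ v B G q₁ q₀ Sp u hu et => rw [hv] at hu; simp at hu
  | ub w r t₁ t₀ v B G q₁ q₀ Sp u hu et => rw [h.et] at et; simp at et
  | uu Sp u Sp' u' _ hu => rw [hv] at hu; simp at hu

lemma oth_not_J {r : Λ → κ} {t₁ t₀ : DT Λ κ} {r' : Λ → κ} {t₁' t₀' : DT Λ κ}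
    (h : Jnt stp s r t₁ t₀ r' t₁' t₀') (ho : Oth stp s) : False := by
  have hv := vw_self_add h.et
  have hv' := vw_self_add h.et'
  cases ho with
  | fl h1 _ =>
    rcases h1 with (h1 | h1) | h1
    · exact h.prp.nl h1
    · exact h.prp.nl' h1
    · exact h.prp.ns h1
  | pl w r t₁ t₀ v B G q₁ q₀ et => rw [h.et] at et; simp at et
  | pr w r t₁ t₀ v B G q₁ q₀ et => rw [h.et'] at et; simp at et
  | bb w r t₁ t₀ v B G w' r' t₁' t₀' v' B' G' et => rw [h.et] at et; simp at et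
  | bu w r t₁ t₀ v B G q₁ q₀ Sp u hu et => rw [h.et] at et; simp at et
  | ub w r t₁ t₀ v B G q₁ q₀ Sp u hu et => rw [hv] at hu; simp at hu
  | uu Sp u Sp' u' hu => rw [hv] at hu; simp at hu

/-- no crossing states at the other steps -/
theorem crs_oth (hns : NoSplit stp) (ho : Oth stp s) : crs stp s = [] := by
  rcases step_cases hns s with ⟨r, t₁, t₀, h1⟩ | ⟨r, t₁, t₀, h1⟩ |
    ⟨r, t₁, t₀, r', t₁', t₀', h1⟩ | ⟨-, h1⟩
  · exact (oth_not_L h1 ho).elim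
  · exact (oth_not_R h1 ho).elim
  · exact (oth_not_J h1 ho).elim
  · exact h1

end oth

section ctx
variable {N : Skel189.Num} {γ : ℝ} {p0 P₀ : ℕ} {X : Ctx N γ p0 P₀} {j₀ : X.c.Lam}
  {Q' : NS → IT → Prop} {J : XSt X.c.Lam (Lb (WL X.c.Lam) X.Y) → NS → NS → IT → IT → Prop}

/-- the generic part of a crossing state -/
noncomputable def Vz (z : X.Sta) : ℝ := V stp2 aX meI (toZ z) z.A z.A'

/-- **payments at the steps without the generic parts** -/
structure PayV (stp : X.STP) (j₀ : X.c.Lam) (B K K₂ : ℝ) (gg : ℕ → ℝ)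
    (Acc : XSt X.c.Lam (Lb (WL X.c.Lam) X.Y) → ℝ) (x : XSt X.c.Lam (Lb (WL X.c.Lam) X.Y)) :
    Prop where
  oth : Oth stp x.s → stS stp Acc x ≤ Acc x
  oneL : ∀ r t₁ t₀, OneL stp x.s r t₁ t₀ →
    Xs (X.tm j₀) B { x.s with t := stp.x x.s t₁ t₀ } + stS stp Acc x ≤
      Vz { x.s with t := stp.x x.s t₁ t₀ } +
      K * (X.tn j₀ (stp.x x.s t₁ t₀).g + pm (fun d => X.tn j₀ d.g) (stp.c x.s t₁ t₀) x.s.t') +
      K₂ * (X.tn j₀ (stp.x x.s t₁ t₀).g * Real.sqrt (X.tn j₀ x.s.t'.g / X.tn j₀ x.s.t.g)) +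
      gF gg (fun d => X.tn j₀ d.g) x.s.t + Acc x
  oneR : ∀ r t₁ t₀, OneR stp x.s r t₁ t₀ →
    Xs (X.tm j₀) B { x.s with t' := stp.x x.s t₁ t₀ } + stS stp Acc x ≤
      Vz { x.s with t' := stp.x x.s t₁ t₀ } +
      K * (X.tn j₀ (stp.x x.s t₁ t₀).g + pm (fun d => X.tn j₀ d.g) x.s.t (stp.c x.s t₁ t₀)) +
      K₂ * (X.tn j₀ (stp.x x.s t₁ t₀).g * Real.sqrt (X.tn j₀ x.s.t.g / X.tn j₀ x.s.t'.g)) +
      gF gg (fun d => X.tn j₀ d.g) x.s.t' + Acc x
  jnt : ∀ r t₁ t₀ r' t₁' t₀', Jnt stp x.s r t₁ t₀ r' t₁' t₀' →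
    Xs (X.tm j₀) B { x.s with t := t₁, t' := t₀' } + Xs (X.tm j₀) B { x.s with t := t₀, t' := t₁' } +
      stS stp Acc x ≤
      (Vz { x.s with t := t₁, t' := t₀' } + Vz { x.s with t := t₀, t' := t₁' }) +
      K * (pm (fun d => X.tn j₀ d.g) t₁ t₁' + pm (fun d => X.tn j₀ d.g) t₀ t₀') +
      gF gg (fun d => X.tn j₀ d.g) x.s.t + gF gg (fun d => X.tn j₀ d.g) x.s.t' + Acc x

lemma stS_add (stp : X.STP) (F G : XSt X.c.Lam (Lb (WL X.c.Lam) X.Y) → ℝ)
    (x : XSt X.c.Lam (Lb (WL X.c.Lam) X.Y)) :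
    stS stp (fun x => F x + G x) x = stS stp F x + stS stp G x := by
  unfold stS
  induction steps stp (IMI194.dvM GInst194.mI) x with
  | nil => simp
  | cons e l ih =>
    simp only [List.map_cons, List.sum_cons]
    rw [ih]
    ring

/-- **the generic parts are paid by `VX`** -/
theorem PayV.pay {stp : X.STP} (hst : ∀ s : X.Sta, ¬ stp s → ¬ stpN s) (hns : NoSplit stp)
    {B K K₂ : ℝ} {gg : ℕ → ℝ} {Acc : XSt X.c.Lam (Lb (WL X.c.Lam) X.Y) → ℝ} {u₀ : NS}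
    {x : XSt X.c.Lam (Lb (WL X.c.Lam) X.Y)} {v v' : NS} {σ σ' : IT}
    (hx : WIX X j₀ Q' J u₀ x v v' σ σ') (h : PayV stp j₀ B K K₂ gg Acc x) :
    Pay stp j₀ B K K₂ gg (fun x => VX x + Acc x) x := by
  have key := VX_cross hst hx.oi hx.hi.mL hx.hi.mR (wix_inv hx) (IMI194.dvM GInst194.mI)
  have e1 : stS stp (fun x => VX x + Acc x) x = stS stp (fun x => VX x) x + stS stp Acc x :=
    stS_add stp _ _ x
  have key' : stS stp (fun x => VX x) x +
      ((crs stp x.s).map fun q => V stp2 aX meI (toZ q) q.A q.A').sum ≤ VX x := key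
  refine ⟨fun ho => ?_, fun r t₁ t₀ ho => ?_, fun r t₁ t₀ ho => ?_,
    fun r t₁ t₀ r' t₁' t₀' ho => ?_⟩
  · rw [crs_oth hns ho] at key'
    have h3 := h.oth ho
    simp only [List.map_nil, List.sum_nil, add_zero] at key'
    rw [e1]
    linarith
  · rw [ho.cr] at key'
    have h3 := h.oneL r t₁ t₀ ho
    simp only [List.map_cons, List.map_nil, List.sum_cons, List.sum_nil, add_zero] at key'
    unfold Vz at h3
    simp only at h3
    rw [e1]
    linarith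
  · rw [ho.cr] at key'
    have h3 := h.oneR r t₁ t₀ ho
    simp only [List.map_cons, List.map_nil, List.sum_cons, List.sum_nil, add_zero] at key'
    unfold Vz at h3
    simp only at h3
    rw [e1]
    linarith
  · rw [ho.cr] at key'
    have h3 := h.jnt r t₁ t₀ r' t₁' t₀' ho
    simp only [List.map_cons, List.map_nil, List.sum_cons, List.sum_nil, add_zero] at key'
    unfold Vz at h3
    simp only at h3
    rw [e1]
    linarith

/-- **THE PART `eX` OF A CONTEXT**, generic parts paid by `VX` -/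
theorem ctx_eX_V (hG : PG X.par (w X.ψ)) (hp0 : 1 ≤ p0) {stp : X.STP}
    (hst : ∀ s : X.Sta, ¬ stp s → ¬ stpN s) (hns : NoSplit stp)
    (hJ : Jn (X.c.D.par X.Y) X.c.sp (QE X j₀ Q') stp J)
    (hQ : All Q' ⟨top X.S, 1, 1, 1⟩ X.c.t)
    (hQV : ∀ u τ, Q' u τ → 0 < u.n →
      V stp2 aX meI ⟨1, 1, (X.c.D.par X.Y).toDT X.c.sp u.B u.A τ,
          (X.c.D.par X.Y).toDT X.c.sp u.B u.A τ⟩ Finset.univ Finset.univ ≤
        48 * (X.tn j₀ (X.g u τ) * X.tn j₀ (X.g u τ)))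
    (hJ0 : ∀ u τ, All (QE X j₀ Q') u τ → J (XSt.st u.n (X.self u τ Finset.univ)) u u τ τ)
    {B K K₂ Cg CA : ℝ} (hK : 0 ≤ K) (hK₂ : 0 ≤ K₂) {gg : ℕ → ℝ} (hgg : ∀ b, 0 ≤ gg b)
    (hCg : ∀ n, SG gg n ≤ Cg)
    {Acc : XSt X.c.Lam (Lb (WL X.c.Lam) X.Y) → ℝ}
    (hAcc : ∀ u τ, All (QE X j₀ Q') u τ → ¬ PulG (X.g u τ) →
      Acc (XSt.st u.n (X.self u τ Finset.univ)) ≤
        CA * (X.mu j₀ u τ Finset.univ + X.mu j₀ u τ Finset.univ * X.mu j₀ u τ Finset.univ))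
    (H : ∀ u₀ x v v' σ σ', WIX X j₀ Q' J u₀ x v v' σ σ' → PayV stp j₀ B K K₂ gg Acc x)
    (Hb : NS → IT → Prop) :
    PartWF X j₀ Hb stp (eX stp (X.tm j₀) B) (2 * K + 2 * K₂ + 2 * Cg + (48 + CA)) := by
  refine ctx_eX_of hG hp0 hst hns hJ hQ hJ0 hK hK₂ hgg hCg (Ψ := fun x => VX x + Acc x)
    (fun u τ hq hpu => ?_) (fun u₀ x v v' σ σ' hx => (H u₀ x v v' σ σ' hx).pay hst hns hx) Hb
  have h1 := hAcc u τ hq hpu
  have h2 : VX (XSt.st u.n (X.self u τ Finset.univ)) ≤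
      48 * (X.tn j₀ (X.g u τ) * X.tn j₀ (X.g u τ)) := hQV u τ hq.self.ext hq.self.n0
  have e : X.mu j₀ u τ Finset.univ = X.tn j₀ (X.g u τ) := rfl
  have hok : (X.g u τ).Ok := by
    have h3 := (wix_inv (wix_start hq (hJ0 u τ hq))).L.ok
    have hg : (X.self u τ Finset.univ).t.g = X.g u τ := (X.c.D.par X.Y).toDT_g X.c.sp τ u.B u.A
    rw [← hg]
    exact h3
  have hnn : 0 ≤ X.tn j₀ (X.g u τ) := Skel189.tM_nonneg X j₀ hok Finset.univ
  rw [e] at h1 ⊢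
  show VX (XSt.st u.n (X.self u τ Finset.univ)) + Acc (XSt.st u.n (X.self u τ Finset.univ)) ≤ _
  nlinarith [h1, h2, hnn]

end ctx

end Crest.Agent.R4P.PayV29
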