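import Mathlib

/-!
R4P (S0004), helper35, group [X]: **payments** (tree-free Young lemmas).  `ℓ = log b`, `b` = the crossing prime,
`x` = mass of the crossing child `X` (leaves the walk), `y` = mass of the partner, `t` = mass of the processed
node `T`; alive nodes: `ℓ^(-Cl) ≤ mass ≤ ℓ^Ch`; share of `X` in `T` at least `sg = ℓ^B / b`.
The numbers of a crossing are `ℓ^C b^(-e(1-s)) (x y)^s` with `1/2 ≤ s < 1` (`s = 1/2, 1/2+ε`).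

* `young`     : `u x^s ≤ x + u^(1/(1-s))`.
* `pay_leaf`  : `X` leaves (dead or alive), `x ≥ sg t` : number `≤ x`.
* `pay_alive` : `x, y ≥ ℓ^(-Cl)` : any `b^(-κ) (x y)^s` is `≤ η x y`.
* `pay_prod`  : `ℓ^C x (sg y) ≤ η x y`.
* `pay_tail`  : exceptional items of the partner, share `≤ κ₀ sg` : number without gain `≤ η x`.
* `pay_acc`   : number with a factor `α` (accidents, missed `b`) `≤ x + ℓ^C' α^(1/(1-s)) y / b`.
* `pay_far`, `pay_far_tail` : far leaf `X` (no lower bound for `x`), gap of the exponents `≥ 2` or tail of the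
  partner: number `≤ x + b^(-3/2) t`.
-/

set_option autoImplicit false

namespace Crest.Agent.R4P.Pay35
open Filter

/-- **Young** -/
lemma young {s u x : ℝ} (hs1 : s < 1) (hs0 : 0 ≤ s) (hu : 0 ≤ u) (hx : 0 ≤ x) :
    u * x^s ≤ x + u^(1/(1-s)) := by
  have h1 : 0 < 1 - s := by linarith
  rcases le_or_gt u (x^(1-s)) with h | h
  · have h2 : u * x^s ≤ x := by
      rcases hx.eq_or_lt with h0 | h0
      · rw [← h0] at h ⊢
        rw [Real.zero_rpow h1.ne'] at h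
        have : u = 0 := le_antisymm h hu
        rw [this, zero_mul]
      · calc u * x^s ≤ x^(1-s) * x^s := mul_le_mul_of_nonneg_right h (by positivity)
          _ = x := by rw [← Real.rpow_add h0, sub_add_cancel, Real.rpow_one]
    have h3 : 0 ≤ u^(1/(1-s)) := Real.rpow_nonneg hu _
    linarith
  · have hu0 : 0 < u := lt_of_le_of_lt (Real.rpow_nonneg hx _) h
    have h2 : x ≤ u^(1/(1-s)) := by
      have := Real.rpow_le_rpow (Real.rpow_nonneg hx _) h.le (by positivity : 0 ≤ 1/(1-s))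
      rwa [← Real.rpow_mul hx, mul_one_div_cancel h1.ne', Real.rpow_one] at this
    have h3 : u * x^s ≤ u^(1/(1-s)) := by
      calc u * x^s ≤ u^(1:ℝ) * (u^(1/(1-s)))^s := by
            rw [Real.rpow_one]
            exact mul_le_mul_of_nonneg_left (Real.rpow_le_rpow hx h2 hs0) hu
        _ = u^(1/(1-s)) := by
            rw [← Real.rpow_mul hu0.le, ← Real.rpow_add hu0]
            congr 1
            field_simp
            ring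
    linarith

/-- `ℓ^C ≤ b^κ` for large `b` -/
lemma log_pow_le (C : ℝ) {κ η : ℝ} (hκ : 0 < κ) (hη : 0 < η) : ∃ b₁ : ℕ, 3 ≤ b₁ ∧ ∀ b : ℕ, b₁ ≤ b →
    (Real.log b)^C ≤ η * (b:ℝ)^κ := by
  have h := (isLittleO_log_rpow_rpow_atTop C hκ).bound hη
  obtain ⟨B, hB⟩ := Filter.eventually_atTop.1 h
  refine ⟨max 3 ⌈B⌉₊, le_max_left _ _, fun b hb => ?_⟩
  have hbB : B ≤ (b:ℝ) := (Nat.le_ceil _).trans (by exact_mod_cast (le_max_right _ _).trans hb)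
  have h2 := hB b hbB
  have hl : 0 ≤ Real.log b := Real.log_natCast_nonneg b
  rw [Real.norm_of_nonneg (Real.rpow_nonneg hl _), Real.norm_of_nonneg (by positivity)] at h2
  exact h2

lemma log_ge_one {b : ℕ} (hb : 3 ≤ b) : 1 ≤ Real.log b := by
  have h3 : (3:ℝ) ≤ b := by exact_mod_cast hb
  rw [Real.le_log_iff_exp_le (by linarith)]
  have := Real.exp_one_lt_d9
  linarith

/-- **`X` leaves**, `x ≥ sg t`: the number is `≤ x` -/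
theorem pay_leaf {s C Cl Ch B : ℝ} (hs0 : 0 ≤ s) (hs1 : s < 1) (hB : Cl + (C + s*Ch)/(1-s) ≤ B)
    {b : ℕ} (hb : 3 ≤ b) {x y t : ℝ} (ht : (Real.log b)^(-Cl) ≤ t) (hx : (Real.log b)^B / b * t ≤ x)
    (hy0 : 0 ≤ y) (hy : y ≤ (Real.log b)^Ch) :
    (Real.log b)^C * ((b:ℝ)^(-(1-s)) * (x*y)^s) ≤ x := by
  have hl1 := log_ge_one hb
  set ℓ := Real.log b with hℓ
  have hl0 : 0 < ℓ := by linarith
  have hb0 : (0:ℝ) < b := by positivity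
  have h1s : 0 < 1 - s := by linarith
  have hx1 : ℓ^(B-Cl) / b ≤ x := by
    refine le_trans ?_ hx
    calc ℓ^(B-Cl)/b = ℓ^B / b * ℓ^(-Cl) := by
          rw [sub_eq_add_neg, Real.rpow_add hl0]; ring
      _ ≤ _ := mul_le_mul_of_nonneg_left ht (by positivity)
  have hx0 : 0 < x := lt_of_lt_of_le (by positivity) hx1
  have h2 : ℓ^(C + s*Ch) * (b:ℝ)^(-(1-s)) ≤ x^(1-s) := by
    have h3 : (ℓ^(B-Cl) / b)^(1-s) ≤ x^(1-s) := Real.rpow_le_rpow (by positivity) hx1 h1s.le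
    refine le_trans ?_ h3
    rw [Real.div_rpow (by positivity) hb0.le, ← Real.rpow_mul hl0.le, Real.rpow_neg hb0.le, div_eq_mul_inv]
    apply mul_le_mul_of_nonneg_right _ (by positivity)
    apply Real.rpow_le_rpow_of_exponent_le hl1
    have h4 : (C + s*Ch)/(1-s) ≤ B - Cl := by linarith
    rwa [div_le_iff₀ h1s] at h4
  have hys : y^s ≤ ℓ^(s*Ch) := by
    calc y^s ≤ (ℓ^Ch)^s := Real.rpow_le_rpow hy0 hy hs0
      _ = ℓ^(s*Ch) := by rw [← Real.rpow_mul hl0.le]; congr 1; ring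
  calc ℓ^C * ((b:ℝ)^(-(1-s)) * (x*y)^s) = ℓ^C * (b:ℝ)^(-(1-s)) * x^s * y^s := by
        rw [Real.mul_rpow hx0.le hy0]; ring
    _ ≤ ℓ^C * (b:ℝ)^(-(1-s)) * x^s * ℓ^(s*Ch) := mul_le_mul_of_nonneg_left hys (by positivity)
    _ = (ℓ^(C + s*Ch) * (b:ℝ)^(-(1-s))) * x^s := by rw [Real.rpow_add hl0]; ring
    _ ≤ x^(1-s) * x^s := mul_le_mul_of_nonneg_right h2 (by positivity)
    _ = x := by rw [← Real.rpow_add hx0, sub_add_cancel, Real.rpow_one]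

/-- **both alive**: any power gain is absorbed by a small product -/
theorem pay_alive (s C Cl : ℝ) (hs1 : s ≤ 1) {κ η : ℝ} (hκ : 0 < κ) (hη : 0 < η) :
    ∃ b₁ : ℕ, 3 ≤ b₁ ∧ ∀ b : ℕ, b₁ ≤ b → ∀ x y : ℝ, (Real.log b)^(-Cl) ≤ x → (Real.log b)^(-Cl) ≤ y →
      (Real.log b)^C * ((b:ℝ)^(-κ) * (x*y)^s) ≤ η * (x * y) := by
  obtain ⟨b₁, h3, h1⟩ := log_pow_le (C + 2*Cl*(1-s)) hκ hη
  refine ⟨b₁, h3, fun b hb x y hx hy => ?_⟩
  have hl1 := log_ge_one (h3.trans hb)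
  have h2 := h1 b hb
  set ℓ := Real.log b with hℓ
  have hl0 : 0 < ℓ := by linarith
  have hb0 : (0:ℝ) < b := by
    have : (0:ℕ) < b := by omega
    exact_mod_cast this
  have hx0 : 0 < x := lt_of_lt_of_le (by positivity) hx
  have hy0 : 0 < y := lt_of_lt_of_le (by positivity) hy
  have hxy : ℓ^(-(2*Cl)) ≤ x * y := by
    calc ℓ^(-(2*Cl)) = ℓ^(-Cl) * ℓ^(-Cl) := by rw [← Real.rpow_add hl0]; congr 1; ring
      _ ≤ x * y := mul_le_mul hx hy (by positivity) hx0.le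
  have h4 : (x*y)^s ≤ (x*y) * ℓ^(2*Cl*(1-s)) := by
    have h5 : (x*y)^s = (x*y) * (x*y)^(-(1-s)) := by
      rw [show s = 1 + (-(1-s)) by ring, Real.rpow_add (mul_pos hx0 hy0), Real.rpow_one]
      congr 2; ring
    rw [h5]
    apply mul_le_mul_of_nonneg_left _ (mul_pos hx0 hy0).le
    calc (x*y)^(-(1-s)) ≤ (ℓ^(-(2*Cl)))^(-(1-s)) :=
          Real.rpow_le_rpow_of_nonpos (by positivity) hxy (by linarith)
      _ = _ := by rw [← Real.rpow_mul hl0.le]; congr 1; ring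
  calc ℓ^C * ((b:ℝ)^(-κ) * (x*y)^s) ≤ ℓ^C * ((b:ℝ)^(-κ) * ((x*y) * ℓ^(2*Cl*(1-s)))) := by gcongr
    _ = (ℓ^(C + 2*Cl*(1-s)) * (b:ℝ)^(-κ)) * (x*y) := by rw [Real.rpow_add hl0]; ring
    _ ≤ ((η * (b:ℝ)^κ) * (b:ℝ)^(-κ)) * (x*y) := by gcongr
    _ = η * (x*y) := by
        rw [mul_assoc η, ← Real.rpow_add hb0, add_neg_cancel, Real.rpow_zero, mul_one]

/-- **products with a small share**: `ℓ^C x (κ₀ sg y) ≤ η x y` -/
theorem pay_prod (C B κ₀ : ℝ) {η : ℝ} (hκ₀ : 0 ≤ κ₀) (hη : 0 < η) :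
    ∃ b₁ : ℕ, 3 ≤ b₁ ∧ ∀ b : ℕ, b₁ ≤ b → ∀ x y : ℝ, 0 ≤ x → 0 ≤ y →
      (Real.log b)^C * (x * (κ₀ * ((Real.log b)^B / b) * y)) ≤ η * (x * y) := by
  obtain ⟨b₁, h3, h1⟩ := log_pow_le (C + B) one_pos (η := η / (κ₀ + 1)) (by positivity)
  refine ⟨b₁, h3, fun b hb x y hx hy => ?_⟩
  have hl1 := log_ge_one (h3.trans hb)
  have h2 := h1 b hb
  set ℓ := Real.log b with hℓ
  have hl0 : 0 < ℓ := by linarith
  have hb0 : (0:ℝ) < b := by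
    have : (0:ℕ) < b := by omega
    exact_mod_cast this
  rw [Real.rpow_one, Real.rpow_add hl0] at h2
  have h4 : ℓ^C * (κ₀ * (ℓ^B / b)) ≤ η := by
    calc ℓ^C * (κ₀ * (ℓ^B / b)) = κ₀ * (ℓ^C * ℓ^B) / b := by ring
      _ ≤ κ₀ * (η / (κ₀+1) * b) / b := by gcongr
      _ = η * (κ₀ / (κ₀+1)) := by field_simp
      _ ≤ η * 1 := by
          apply mul_le_mul_of_nonneg_left _ hη.le
          rw [div_le_one (by positivity)]; linarith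
      _ = η := mul_one _
  calc ℓ^C * (x * (κ₀ * (ℓ^B / b) * y)) = (ℓ^C * (κ₀ * (ℓ^B / b))) * (x*y) := by ring
    _ ≤ η * (x*y) := mul_le_mul_of_nonneg_right h4 (by positivity)

/-- **exceptional items of the partner** (share `≤ κ₀ sg`), no gain from the exponents, `x ≥ sg t` -/
theorem pay_tail {s C Cl Ch B κ₀ : ℝ} (hs : 1/2 < s) (hs1 : s < 1) (hκ₀ : 0 ≤ κ₀) {η : ℝ} (hη : 0 < η) :
    ∃ b₁ : ℕ, 3 ≤ b₁ ∧ ∀ b : ℕ, b₁ ≤ b → ∀ x y t : ℝ, (Real.log b)^(-Cl) ≤ t →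
      (Real.log b)^B / b * t ≤ x → 0 ≤ y → y ≤ (Real.log b)^Ch →
      (Real.log b)^C * (x * (κ₀ * ((Real.log b)^B / b) * y))^s ≤ η * x := by
  obtain ⟨b₁, h3, h1⟩ := log_pow_le (C + s*(B+Ch) - (B-Cl)*(1-s)) (κ := 2*s-1) (by linarith)
    (η := η / (κ₀^s + 1)) (by positivity)
  refine ⟨b₁, h3, fun b hb x y t ht hx hy0 hy => ?_⟩
  have hl1 := log_ge_one (h3.trans hb)
  have h2 := h1 b hb
  set ℓ := Real.log b with hℓ
  have hl0 : 0 < ℓ := by linarith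
  have hb0 : (0:ℝ) < b := by
    have : (0:ℕ) < b := by omega
    exact_mod_cast this
  have h1s : 0 < 1 - s := by linarith
  have hx1 : ℓ^(B-Cl) / b ≤ x := by
    refine le_trans ?_ hx
    calc ℓ^(B-Cl)/b = ℓ^B / b * ℓ^(-Cl) := by
          rw [sub_eq_add_neg, Real.rpow_add hl0]; ring
      _ ≤ _ := mul_le_mul_of_nonneg_left ht (by positivity)
  have hx0 : 0 < x := lt_of_lt_of_le (by positivity) hx1
  have hx2 : (ℓ^((B-Cl)*(1-s))) * (b:ℝ)^(-(1-s)) ≤ x^(1-s) := by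
    have h3 : (ℓ^(B-Cl) / b)^(1-s) ≤ x^(1-s) := Real.rpow_le_rpow (by positivity) hx1 h1s.le
    refine le_trans (le_of_eq ?_) h3
    rw [Real.div_rpow (by positivity) hb0.le, ← Real.rpow_mul hl0.le, Real.rpow_neg hb0.le, div_eq_mul_inv]
  have h5 : (κ₀ * (ℓ^B / b) * y)^s ≤ κ₀^s * ℓ^(s*(B+Ch)) * (b:ℝ)^(-s) := by
    calc (κ₀ * (ℓ^B / b) * y)^s ≤ (κ₀ * (ℓ^B / b) * ℓ^Ch)^s :=
          Real.rpow_le_rpow (by positivity) (by gcongr) (by linarith)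
      _ = κ₀^s * (ℓ^(B+Ch))^s * ((b:ℝ)⁻¹)^s := by
          rw [← Real.mul_rpow hκ₀ (by positivity), ← Real.mul_rpow (by positivity) (by positivity)]
          congr 1
          rw [Real.rpow_add hl0]; ring
      _ = _ := by
          rw [← Real.rpow_mul hl0.le, Real.inv_rpow hb0.le, Real.rpow_neg hb0.le]
          congr 3; ring
  have h6 : ℓ^C * (κ₀^s * ℓ^(s*(B+Ch)) * (b:ℝ)^(-s)) ≤ η * x^(1-s) := by
    have h7 : κ₀^s / (κ₀^s + 1) ≤ 1 := by rw [div_le_one (by positivity)]; linarith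
    have e1 : ℓ^(C + s*(B+Ch) - (B-Cl)*(1-s)) * ℓ^((B-Cl)*(1-s)) = ℓ^C * ℓ^(s*(B+Ch)) := by
      rw [← Real.rpow_add hl0, ← Real.rpow_add hl0]; congr 1; ring
    have e2 : (b:ℝ)^(2*s-1) * (b:ℝ)^(-s) = (b:ℝ)^(-(1-s)) := by
      rw [← Real.rpow_add hb0]; congr 1; ring
    calc ℓ^C * (κ₀^s * ℓ^(s*(B+Ch)) * (b:ℝ)^(-s))
        = κ₀^s * (ℓ^(C + s*(B+Ch) - (B-Cl)*(1-s)) * ℓ^((B-Cl)*(1-s))) * (b:ℝ)^(-s) := by rw [e1]; ring
      _ ≤ κ₀^s * ((η / (κ₀^s + 1) * (b:ℝ)^(2*s-1)) * ℓ^((B-Cl)*(1-s))) * (b:ℝ)^(-s) := by gcongr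
      _ = (κ₀^s / (κ₀^s + 1)) * (η * (ℓ^((B-Cl)*(1-s)) * ((b:ℝ)^(2*s-1) * (b:ℝ)^(-s)))) := by
          field_simp
      _ ≤ 1 * (η * (ℓ^((B-Cl)*(1-s)) * ((b:ℝ)^(2*s-1) * (b:ℝ)^(-s)))) :=
          mul_le_mul_of_nonneg_right h7 (by positivity)
      _ = η * (ℓ^((B-Cl)*(1-s)) * (b:ℝ)^(-(1-s))) := by rw [e2, one_mul]
      _ ≤ η * x^(1-s) := mul_le_mul_of_nonneg_left hx2 hη.le
  calc ℓ^C * (x * (κ₀ * (ℓ^B / b) * y))^s = ℓ^C * (x^s * (κ₀ * (ℓ^B / b) * y)^s) := by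
        rw [Real.mul_rpow hx0.le (by positivity)]
    _ ≤ ℓ^C * (x^s * (κ₀^s * ℓ^(s*(B+Ch)) * (b:ℝ)^(-s))) := by gcongr
    _ = (ℓ^C * (κ₀^s * ℓ^(s*(B+Ch)) * (b:ℝ)^(-s))) * x^s := by ring
    _ ≤ (η * x^(1-s)) * x^s := mul_le_mul_of_nonneg_right h6 (by positivity)
    _ = η * x := by rw [mul_assoc, ← Real.rpow_add hx0, sub_add_cancel, Real.rpow_one]

/-- `y^(s/(1-s)) ≤ ℓ^(..) y` for `y ≤ ℓ^Ch`, `s ≥ 1/2` -/
lemma y_pow {s Ch ℓ y : ℝ} (hs : 1/2 ≤ s) (hs1 : s < 1) (hl : 1 ≤ ℓ) (hy0 : 0 ≤ y) (hy : y ≤ ℓ^Ch) :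
    y^(s/(1-s)) ≤ ℓ^(Ch*((2*s-1)/(1-s))) * y := by
  have h1s : 0 < 1 - s := by linarith
  have hl0 : 0 < ℓ := by linarith
  rcases hy0.eq_or_lt with h0 | h0
  · rw [← h0, mul_zero, Real.zero_rpow]
    have : 0 < s/(1-s) := by positivity
    exact this.ne'
  · have e : s/(1-s) = (2*s-1)/(1-s) + 1 := by field_simp; ring
    rw [e, Real.rpow_add h0, Real.rpow_one]
    apply mul_le_mul_of_nonneg_right _ hy0
    calc y^((2*s-1)/(1-s)) ≤ (ℓ^Ch)^((2*s-1)/(1-s)) :=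
          Real.rpow_le_rpow hy0 hy (div_nonneg (by linarith) h1s.le)
      _ = _ := by rw [← Real.rpow_mul hl0.le]

/-- **Young for a number with the factor `α`** and gain `b^(-e(1-s))` -/
theorem pay_acc {s C Ch : ℝ} (hs : 1/2 ≤ s) (hs1 : s < 1) {b : ℕ} (hb : 3 ≤ b) (e : ℝ) {x y α : ℝ}
    (hx : 0 ≤ x) (hy0 : 0 ≤ y) (hy : y ≤ (Real.log b)^Ch) (hα : 0 ≤ α) :
    (Real.log b)^C * ((b:ℝ)^(-(e*(1-s))) * (α * (x*y)^s)) ≤
      x + (Real.log b)^((C + Ch*(2*s-1))/(1-s)) * α^(1/(1-s)) * (b:ℝ)^(-e) * y := by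
  have hl1 := log_ge_one hb
  set ℓ := Real.log b with hℓ
  have hl0 : 0 < ℓ := by linarith
  have hb0 : (0:ℝ) < b := by
    have : (0:ℕ) < b := by omega
    exact_mod_cast this
  have h1s : 0 < 1 - s := by linarith
  set u := ℓ^C * ((b:ℝ)^(-(e*(1-s))) * (α * y^s)) with hu
  have hu0 : 0 ≤ u := by positivity
  have h1 := young hs1 (by linarith : 0 ≤ s) hu0 hx
  have e1 : ℓ^C * ((b:ℝ)^(-(e*(1-s))) * (α * (x*y)^s)) = u * x^s := by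
    rw [hu, Real.mul_rpow hx hy0]; ring
  rw [e1]
  refine h1.trans (add_le_add le_rfl ?_)
  have e2 : u^(1/(1-s)) = ℓ^(C/(1-s)) * ((b:ℝ)^(-e) * (α^(1/(1-s)) * y^(s/(1-s)))) := by
    have f1 : C * (1/(1-s)) = C/(1-s) := by ring
    have f2 : -(e*(1-s)) * (1/(1-s)) = -e := by field_simp
    have f3 : s * (1/(1-s)) = s/(1-s) := by ring
    rw [hu, Real.mul_rpow (by positivity) (by positivity), Real.mul_rpow (by positivity) (by positivity),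
      Real.mul_rpow hα (by positivity), ← Real.rpow_mul hl0.le, ← Real.rpow_mul hb0.le, ← Real.rpow_mul hy0,
      f1, f2, f3]
  rw [e2]
  have h2 := y_pow hs hs1 hl1 hy0 hy
  have hα' : 0 ≤ α^(1/(1-s)) := Real.rpow_nonneg hα _
  calc ℓ^(C/(1-s)) * ((b:ℝ)^(-e) * (α^(1/(1-s)) * y^(s/(1-s))))
      ≤ ℓ^(C/(1-s)) * ((b:ℝ)^(-e) * (α^(1/(1-s)) * (ℓ^(Ch*((2*s-1)/(1-s))) * y))) := by gcongr
    _ = (ℓ^(C/(1-s)) * ℓ^(Ch*((2*s-1)/(1-s)))) * α^(1/(1-s)) * (b:ℝ)^(-e) * y := by ring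
    _ = _ := by
        rw [← Real.rpow_add hl0]
        congr 4
        field_simp

/-- **far leaf, gap of the exponents `≥ 2`** : no lower bound for `x`, paid by `x` and the static gap -/
theorem pay_far {s C Cl Ch : ℝ} (hs : 1/2 ≤ s) (hs1 : s < 1) :
    ∃ b₁ : ℕ, 3 ≤ b₁ ∧ ∀ b : ℕ, b₁ ≤ b → ∀ x y t : ℝ, (Real.log b)^(-Cl) ≤ t → 0 ≤ x → 0 ≤ y →
      y ≤ (Real.log b)^Ch →
      (Real.log b)^C * ((b:ℝ)^(-(2*(1-s))) * (x*y)^s) ≤ x + (b:ℝ)^(-(3/2):ℝ) * t := by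
  obtain ⟨b₁, h3, h1⟩ := log_pow_le ((C + Ch*(2*s-1))/(1-s) + Ch + Cl) (κ := 1/2) (by norm_num) one_pos
  refine ⟨b₁, h3, fun b hb x y t ht hx hy0 hy => ?_⟩
  have hb3 := h3.trans hb
  have hl1 := log_ge_one hb3
  have h2 := h1 b hb
  have key := pay_acc (C := C) (Ch := Ch) hs hs1 hb3 2 hx hy0 hy zero_le_one
  rw [one_mul, Real.one_rpow, mul_one] at key
  set ℓ := Real.log b with hℓ
  have hl0 : 0 < ℓ := by linarith
  have hb0 : (0:ℝ) < b := by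
    have : (0:ℕ) < b := by omega
    exact_mod_cast this
  refine key.trans (add_le_add le_rfl ?_)
  have h4 : ℓ^((C + Ch*(2*s-1))/(1-s)) * y ≤ (b:ℝ)^(1/2:ℝ) * t := by
    calc ℓ^((C + Ch*(2*s-1))/(1-s)) * y ≤ ℓ^((C + Ch*(2*s-1))/(1-s)) * ℓ^Ch := by gcongr
      _ = ℓ^((C + Ch*(2*s-1))/(1-s) + Ch + Cl) * ℓ^(-Cl) := by
          rw [← Real.rpow_add hl0, ← Real.rpow_add hl0]; congr 1; ring
      _ ≤ (1 * (b:ℝ)^(1/2:ℝ)) * t := mul_le_mul h2 ht (by positivity) (by positivity)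
      _ = _ := by rw [one_mul]
  calc ℓ^((C + Ch*(2*s-1))/(1-s)) * (b:ℝ)^(-(2:ℝ)) * y
      = (ℓ^((C + Ch*(2*s-1))/(1-s)) * y) * (b:ℝ)^(-(2:ℝ)) := by ring
    _ ≤ ((b:ℝ)^(1/2:ℝ) * t) * (b:ℝ)^(-(2:ℝ)) := by gcongr
    _ = ((b:ℝ)^(1/2:ℝ) * (b:ℝ)^(-(2:ℝ))) * t := by ring
    _ = (b:ℝ)^(-(3/2):ℝ) * t := by rw [← Real.rpow_add hb0]; norm_num

/-- **far leaf against the tail of the partner** (share `≤ κ₀ sg`, gain `b^(-(1-s))` of clean pairs):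
paid by `x` and the static gap -/
theorem pay_far_tail {s C Cl Ch B κ₀ : ℝ} (hs : 1/2 < s) (hs1 : s < 1) (hκ₀ : 0 ≤ κ₀) :
    ∃ b₁ : ℕ, 3 ≤ b₁ ∧ ∀ b : ℕ, b₁ ≤ b → ∀ x y t : ℝ, (Real.log b)^(-Cl) ≤ t → 0 ≤ x → 0 ≤ y →
      y ≤ (Real.log b)^Ch →
      (Real.log b)^C * ((b:ℝ)^(-(1-s)) * (x * (κ₀ * ((Real.log b)^B / b) * y))^s) ≤
        x + (b:ℝ)^(-(1 + 1/2):ℝ) * t := by
  obtain ⟨b₁, h3, h1⟩ := log_pow_le (C/(1-s) + (B+Ch) * (s/(1-s)) + Cl) (κ := 1/2) (by norm_num)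
    (η := 1 / (κ₀^(s/(1-s)) + 1)) (by positivity)
  refine ⟨b₁, h3, fun b hb x y t ht hx hy0 hy => ?_⟩
  have hb3 := h3.trans hb
  have hl1 := log_ge_one hb3
  have h2 := h1 b hb
  set ℓ := Real.log b with hℓ
  have hl0 : 0 < ℓ := by linarith
  have hb1 : (1:ℝ) ≤ b := by
    have : (1:ℕ) ≤ b := by omega
    exact_mod_cast this
  have hb0 : (0:ℝ) < b := by linarith
  have h1s : 0 < 1 - s := by linarith
  set z := κ₀ * (ℓ^B / b) * y with hz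
  have hz0 : 0 ≤ z := by positivity
  set u := ℓ^C * ((b:ℝ)^(-(1-s)) * z^s) with hu
  have hu0 : 0 ≤ u := by positivity
  have h4 := young hs1 (by linarith : 0 ≤ s) hu0 hx
  have e1 : ℓ^C * ((b:ℝ)^(-(1-s)) * (x*z)^s) = u * x^s := by
    rw [hu, Real.mul_rpow hx hz0]; ring
  rw [e1]
  refine h4.trans (add_le_add le_rfl ?_)
  have e2 : u^(1/(1-s)) = ℓ^(C/(1-s)) * ((b:ℝ)^(-(1:ℝ)) * z^(s/(1-s))) := by
    have f1 : C * (1/(1-s)) = C/(1-s) := by ring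
    have f2 : -(1-s) * (1/(1-s)) = -1 := by field_simp
    have f3 : s * (1/(1-s)) = s/(1-s) := by ring
    rw [hu, Real.mul_rpow (by positivity) (by positivity), Real.mul_rpow (by positivity) (by positivity),
      ← Real.rpow_mul hl0.le, ← Real.rpow_mul hb0.le, ← Real.rpow_mul hz0, f1, f2, f3]
  rw [e2]
  have hsr : 1 ≤ s/(1-s) := by rw [le_div_iff₀ h1s]; linarith
  have hz1 : z ≤ κ₀ * ℓ^(B+Ch) * (b:ℝ)⁻¹ := by
    calc z ≤ κ₀ * (ℓ^B / b) * ℓ^Ch := by rw [hz]; gcongr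
      _ = _ := by rw [Real.rpow_add hl0]; ring
  have hz2 : z^(s/(1-s)) ≤ κ₀^(s/(1-s)) * ℓ^((B+Ch) * (s/(1-s))) * (b:ℝ)^(-(1:ℝ)) := by
    calc z^(s/(1-s)) ≤ (κ₀ * ℓ^(B+Ch) * (b:ℝ)⁻¹)^(s/(1-s)) :=
          Real.rpow_le_rpow hz0 hz1 (by linarith)
      _ = κ₀^(s/(1-s)) * ℓ^((B+Ch) * (s/(1-s))) * ((b:ℝ)⁻¹)^(s/(1-s)) := by
          rw [Real.mul_rpow (by positivity) (by positivity), Real.mul_rpow hκ₀ (by positivity),
            ← Real.rpow_mul hl0.le]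
      _ ≤ κ₀^(s/(1-s)) * ℓ^((B+Ch) * (s/(1-s))) * ((b:ℝ)⁻¹)^(1:ℝ) := by
          apply mul_le_mul_of_nonneg_left _ (by positivity)
          exact Real.rpow_le_rpow_of_exponent_ge (by positivity) (inv_le_one_of_one_le₀ hb1) hsr
      _ = _ := by rw [Real.rpow_one, Real.rpow_neg_one]
  have hk : κ₀^(s/(1-s)) * (1 / (κ₀^(s/(1-s)) + 1)) ≤ 1 := by
    rw [mul_one_div, div_le_one (by positivity)]; linarith
  calc ℓ^(C/(1-s)) * ((b:ℝ)^(-(1:ℝ)) * z^(s/(1-s)))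
      ≤ ℓ^(C/(1-s)) * ((b:ℝ)^(-(1:ℝ)) *
          (κ₀^(s/(1-s)) * ℓ^((B+Ch) * (s/(1-s))) * (b:ℝ)^(-(1:ℝ)))) := by gcongr
    _ = κ₀^(s/(1-s)) * ((ℓ^(C/(1-s)) * ℓ^((B+Ch) * (s/(1-s)))) * 1) *
          ((b:ℝ)^(-(1:ℝ)) * (b:ℝ)^(-(1:ℝ))) := by ring
    _ = κ₀^(s/(1-s)) * (ℓ^(C/(1-s) + (B+Ch) * (s/(1-s)) + Cl) * ℓ^(-Cl)) * (b:ℝ)^(-(2:ℝ)) := by
          have g1 : (b:ℝ)^(-(1:ℝ)) * (b:ℝ)^(-(1:ℝ)) = (b:ℝ)^(-(2:ℝ)) := by
            rw [← Real.rpow_add hb0]; norm_num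
          have g2 : ℓ^(C/(1-s) + (B+Ch) * (s/(1-s)) + Cl) * ℓ^(-Cl) =
              ℓ^(C/(1-s)) * ℓ^((B+Ch) * (s/(1-s))) := by
            rw [← Real.rpow_add hl0, ← Real.rpow_add hl0]; congr 1; ring
          rw [g1, g2, mul_one]
    _ ≤ κ₀^(s/(1-s)) * ((1 / (κ₀^(s/(1-s)) + 1) * (b:ℝ)^(1/2:ℝ)) * t) * (b:ℝ)^(-(2:ℝ)) := by
          gcongr
    _ = (κ₀^(s/(1-s)) * (1 / (κ₀^(s/(1-s)) + 1))) * (((b:ℝ)^(1/2:ℝ) * (b:ℝ)^(-(2:ℝ))) * t) := by ring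
    _ ≤ 1 * (((b:ℝ)^(1/2:ℝ) * (b:ℝ)^(-(2:ℝ))) * t) := by
          apply mul_le_mul_of_nonneg_right hk
          have : 0 ≤ t := le_trans (by positivity) ht
          positivity
    _ = (b:ℝ)^(-(1 + 1/2):ℝ) * t := by rw [one_mul, ← Real.rpow_add hb0]; norm_num

end Crest.Agent.R4P.Pay35
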