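import Crest.Agent.R4P.RSys_343

/-!
R4 (S0004) with powers, [MB] T3, helper2: **the main layer `min h 1` of contents of unbounded height**.

* `tr v = min v 1`, `exs v = (v - 1)^+`.
* `RS0 β δ` : row system as `RSys343.RS`, heights arbitrary.
* `RC0 R` : group data; potentials of the truncated contents `tr h`; `RC0.mw : MW (Gs β)`, so that
  `ModeG51.main`, `main_eps` apply.
* `Row0` : exact rows with births `e` (`gc = s Δ`), `rho`, `g1`, `b1`, `e1` : the truncated row and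
  its births, `col_of_rows0`.
* `Ep_e1` : the births of the truncated row = excess of the children - excess of the parent + `e`.
-/

set_option autoImplicit false
set_option linter.unusedSectionVars false
set_option linter.unusedVariables false
open MeasureTheory Filter Set

namespace Crest.Agent.R4P.RT2

open Crest.Agent.R4.Tour104 Crest.Agent.R4.Clos758
open Crest.Agent.R4P.GMer27 Crest.Agent.R4P.GCol27
open Crest.Agent.R4P.ModeP940 (PP SS PP_col PP_join PP_drop PP_born PP_nonneg PP_col_birth SS_nonneg)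
open Crest.Agent.R4P.ModeG51 (MW)
open Crest.Agent.R4P.RSys343 (Gs)

/-- truncation -/
noncomputable def tr (v : ℝ) : ℝ := min v 1

/-- excess -/
noncomputable def exs (v : ℝ) : ℝ := max (v - 1) 0

lemma tr_add (v : ℝ) : tr v + exs v = v := by
  unfold tr exs
  rcases le_total v 1 with h | h
  · rw [min_eq_left h, max_eq_right (by linarith)]; ring
  · rw [min_eq_right h, max_eq_left (by linarith)]; ring

lemma tr_le (v : ℝ) : tr v ≤ v := min_le_left _ _
lemma tr_le1 (v : ℝ) : tr v ≤ 1 := min_le_right _ _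
lemma tr_nonneg {v : ℝ} (h : 0 ≤ v) : 0 ≤ tr v := le_min h zero_le_one
lemma exs_nonneg (v : ℝ) : 0 ≤ exs v := le_max_right _ _
lemma tr_mono {a b : ℝ} (h : a ≤ b) : tr a ≤ tr b := min_le_min_right _ h
lemma exs_mono {a b : ℝ} (h : a ≤ b) : exs a ≤ exs b := max_le_max_right _ (by linarith)

lemma tr_sub {a b : ℝ} (ha : 0 ≤ a) (hb : 0 ≤ b) : tr (a + b) ≤ tr a + tr b := by
  unfold tr
  rcases le_total a 1 with h | h <;> rcases le_total b 1 with h' | h' <;>
    rcases le_total (a + b) 1 with h'' | h'' <;>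
    simp only [h, h', h'', min_eq_left, min_eq_right] <;> linarith

lemma tr_conc {a b s t : ℝ} (hs : 0 ≤ s) (ht : 0 ≤ t) (h : s + t = 1) :
    s * tr a + t * tr b ≤ tr (s * a + t * b) := by
  refine le_min (add_le_add (mul_le_mul_of_nonneg_left (tr_le a) hs)
    (mul_le_mul_of_nonneg_left (tr_le b) ht)) ?_
  have h1 := mul_le_mul_of_nonneg_left (tr_le1 a) hs
  have h2 := mul_le_mul_of_nonneg_left (tr_le1 b) ht
  linarith

/-- the increments of the truncation are smaller -/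
lemma tr_diff (a b : ℝ) : max (tr b - tr a) 0 ≤ max (b - a) 0 := by
  rcases le_total a b with h | h
  · rw [max_eq_left (sub_nonneg.2 (tr_mono h)), max_eq_left (sub_nonneg.2 h)]
    have h1 := tr_add a
    have h2 := tr_add b
    have h3 := exs_mono h
    linarith
  · rw [max_eq_right (sub_nonpos.2 (tr_mono h))]
    exact le_max_right _ _

/-- **the truncated row is below the truncation of the row** -/
lemma row_tr {a b w s Δ r : ℝ} (hw0 : 0 < w) (hw1 : w < 1) (hs0 : 0 ≤ s) (hs1 : s ≤ 1)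
    (hΔ0 : 0 ≤ Δ) (hΔ : Δ ≤ max (b - a) 0) (hr : r * max (b - a) 0 = max (tr b - tr a) 0) :
    w * tr b + (1 - w) * tr a + (s - w) * (Δ * r) ≤ tr (w * b + (1 - w) * a + (s - w) * Δ) := by
  rcases le_or_gt b a with h | h
  · have e1 : max (b - a) 0 = 0 := max_eq_right (by linarith)
    rw [e1] at hΔ
    have e2 : Δ = 0 := le_antisymm hΔ hΔ0
    rw [e2, zero_mul, mul_zero, add_zero, add_zero]
    exact tr_conc hw0.le (by linarith) (by ring)
  · have e1 : max (b - a) 0 = b - a := max_eq_left (by linarith)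
    have e2 : max (tr b - tr a) 0 = tr b - tr a := max_eq_left (sub_nonneg.2 (tr_mono h.le))
    rw [e1] at hΔ hr
    rw [e2] at hr
    have hd : 0 < b - a := by linarith
    set θ := Δ / (b - a) with hθ
    have hθ0 : 0 ≤ θ := div_nonneg hΔ0 hd.le
    have hθ1 : θ ≤ 1 := (div_le_one hd).2 hΔ
    have e3 : Δ = θ * (b - a) := by rw [hθ]; field_simp
    have e4 : Δ * r = θ * (tr b - tr a) := by rw [e3, ← hr]; ring
    rw [e4, e3]
    set p := w * (1 - θ) + s * θ with hp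
    have hp0 : 0 ≤ p := add_nonneg (mul_nonneg hw0.le (by linarith)) (mul_nonneg hs0 hθ0)
    have hp1 : p ≤ 1 := by
      rw [hp]
      nlinarith [mul_nonneg (show 0 ≤ 1 - w by linarith) (show 0 ≤ 1 - θ by linarith),
        mul_nonneg (show 0 ≤ 1 - s by linarith) hθ0]
    have e5 : w * tr b + (1 - w) * tr a + (s - w) * (θ * (tr b - tr a)) =
        p * tr b + (1 - p) * tr a := by rw [hp]; ring
    have e6 : w * b + (1 - w) * a + (s - w) * (θ * (b - a)) = p * b + (1 - p) * a := by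
      rw [hp]; ring
    rw [e5, e6]
    exact tr_conc hp0 (by linarith) (by ring)

lemma PB_tr {f : ℝ → ℝ} (hf : PB f) : PB fun x => tr (f x) :=
  ⟨hf.meas.min measurable_const, fun x => tr_nonneg (hf.nonneg x), ⟨1, fun x => tr_le1 _⟩,
    fun x => by show tr (f (x + 1)) = _; rw [hf.per]⟩

lemma PB_exs {f : ℝ → ℝ} (hf : PB f) : PB fun x => exs (f x) := by
  obtain ⟨B, hB⟩ := hf.bdd
  refine ⟨(hf.meas.sub_const 1).max measurable_const, fun x => exs_nonneg _, ⟨B, fun x => ?_⟩,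
    fun x => by show exs (f (x + 1)) = _; rw [hf.per]⟩
  have h1 := tr_add (f x)
  have h2 := tr_nonneg (hf.nonneg x)
  have h3 := hB x
  show exs (f x) ≤ B
  linarith

/-- **row system** with arbitrary heights : bundles `β`, classes `δ` -/
structure RS0 (β δ : Type) [Fintype δ] where
  /-- children P -/
  cP : ℕ → β → β
  /-- children N -/
  cN : ℕ → β → β
  /-- the rest (without ties, pulls and leaves) -/
  rN : ℕ → β → β
  /-- invariant -/
  ok : ℕ → β → Prop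
  okP : ∀ {p b}, ok p b → p ≠ 0 → ok p (cP p b)
  okN : ∀ {p b}, ok p b → p ≠ 0 → ok p (cN p b)
  okR : ∀ {p b}, ok p b → p ≠ 0 → ok (p - 1) (rN p b)
  /-- total -/
  tt : β → ℝ → ℝ
  /-- total of the leaves and births -/
  tL : ℕ → β → ℝ → ℝ
  /-- total of the ties and pulls -/
  tB : ℕ → β → ℝ → ℝ
  /-- contents -/
  h : ℕ → β → δ → ℝ → ℝ
  /-- contents of leaves and births -/
  hL : ℕ → β → δ → ℝ → ℝ
  /-- contents of ties and pulls -/
  hB : ℕ → β → δ → ℝ → ℝ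
  /-- contents of the rest, by the classes of the column `p` -/
  hN : ℕ → β → δ → ℝ → ℝ
  pL : ∀ {p b}, ok p b → p ≠ 0 → ∀ z, PB (hL p b z)
  pB : ∀ {p b}, ok p b → p ≠ 0 → ∀ z, PB (hB p b z)
  pN : ∀ {p b}, ok p b → p ≠ 0 → ∀ z, PB (hN p b z)
  ph : ∀ {p b}, ok p b → ∀ z, PB (h p b z)
  sp : ∀ {p b}, ok p b → p ≠ 0 → ∀ z x, h p b z x = hL p b z x + hB p b z x + hN p b z x
  sh : ∀ {p b}, ok p b → ∀ x, ∑ z, h p b z x = tt b x
  sL : ∀ {p b}, ok p b → p ≠ 0 → ∀ x, ∑ z, hL p b z x = tL p b x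
  sB : ∀ {p b}, ok p b → p ≠ 0 → ∀ x, ∑ z, hB p b z x = tB p b x
  sN : ∀ {p b}, ok p b → p ≠ 0 → ∀ x, ∑ z, hN p b z x = tt (rN p b) x
  mean : ∀ {p b}, ok p b → 2 ≤ p → ∀ y,
    Ep p (tB p b) y = 1 / (p : ℝ) * tt (cN p b) y + (1 - 1 / (p : ℝ)) * tt (cP p b) y
  no1 : ∀ {b}, ok 1 b → ∀ x, tB 1 b x = 0 ∧ tt (cP 1 b) x = 0

/-- a bounded row system -/
def RS0.of {β δ : Type} [Fintype δ] (R : RSys343.RS β δ) : RS0 β δ :=
  { R with }

section rs
variable {β δ : Type} [Fintype δ] (R : RS0 β δ)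

namespace RS0

/-- the state of the children -/
noncomputable def C (p : ℕ) (s : Gs β) : Gs β :=
  if 2 ≤ p then ⟨s.J × Bool, inferInstance, cT (1 - 1 / (p : ℝ)) s.c,
    WT (1 - 1 / (p : ℝ)) s.W, fun x => if x.2 then R.cP p (s.L x.1) else R.cN p (s.L x.1)⟩
  else ⟨s.J, s.fJ, s.c, s.W, fun j => R.cP p (s.L j)⟩

/-- the state of the rest -/
def N (p : ℕ) (s : Gs β) : Gs β := ⟨s.J, s.fJ, s.c, s.W, fun j => R.rN p (s.L j)⟩

lemma C_pos {p : ℕ} (hp : 2 ≤ p) (s : Gs β) : R.C p s =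
    ⟨s.J × Bool, inferInstance, cT (1 - 1 / (p : ℝ)) s.c,
    WT (1 - 1 / (p : ℝ)) s.W, fun x => if x.2 then R.cP p (s.L x.1) else R.cN p (s.L x.1)⟩ :=
  if_pos hp

lemma C_neg {p : ℕ} (hp : ¬ 2 ≤ p) (s : Gs β) : R.C p s =
    ⟨s.J, s.fJ, s.c, s.W, fun j => R.cP p (s.L j)⟩ := if_neg hp

/-- total -/
noncomputable def S (s : Gs β) (x : ℝ) : ℝ := M s.c fun j => R.tt (s.L j) x
/-- total of leaves and births -/
noncomputable def SL (p : ℕ) (s : Gs β) (x : ℝ) : ℝ := M s.c fun j => R.tL p (s.L j) x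
/-- total of ties and pulls -/
noncomputable def SB (p : ℕ) (s : Gs β) (x : ℝ) : ℝ := M s.c fun j => R.tB p (s.L j) x
/-- potential of the truncated contents -/
noncomputable def Pt (p : ℕ) (s : Gs β) (x : ℝ) : ℝ :=
  PP s.c s.W fun z j => tr (R.h p (s.L j) z x)
/-- potential of the ties and pulls -/
noncomputable def PtB (p : ℕ) (s : Gs β) (x : ℝ) : ℝ :=
  PP s.c s.W fun z j => tr (R.hB p (s.L j) z x)
/-- potential of the rest, classes of the column `p` -/
noncomputable def PtR (p : ℕ) (s : Gs β) (x : ℝ) : ℝ :=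
  PP s.c s.W fun z j => tr (R.hN p (s.L j) z x)
/-- total excess -/
noncomputable def X (p : ℕ) (s : Gs β) (x : ℝ) : ℝ :=
  SS s.c fun z j => exs (R.h p (s.L j) z x)
/-- excess of the ties and pulls -/
noncomputable def XB (p : ℕ) (s : Gs β) (x : ℝ) : ℝ :=
  SS s.c fun z j => exs (R.hB p (s.L j) z x)
/-- excess of the rest by the classes of the column -/
noncomputable def XR (p : ℕ) (s : Gs β) (x : ℝ) : ℝ :=
  SS s.c fun z j => exs (R.hN p (s.L j) z x)

/-- good group states -/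
def gok (p : ℕ) (s : Gs β) : Prop := TC s.c s.W ∧ ∀ j, R.ok p (s.L j)

variable {R} {p : ℕ} {s : Gs β}

lemma gok_C (hs : R.gok p s) (hp : p ≠ 0) : R.gok p (R.C p s) := by
  by_cases h : 2 ≤ p
  · rw [C_pos R h]
    refine ⟨hs.1.tie (RSys343.RS.q_bd h), fun x => ?_⟩
    show R.ok p (if x.2 = true then R.cP p (s.L x.1) else R.cN p (s.L x.1))
    split_ifs
    · exact R.okP (hs.2 x.1) hp
    · exact R.okN (hs.2 x.1) hp
  · rw [C_neg R h]
    exact ⟨hs.1, fun j => R.okP (hs.2 j) hp⟩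

lemma gok_N (hs : R.gok p s) (hp : p ≠ 0) : R.gok (p - 1) (R.N p s) :=
  ⟨hs.1, fun j => R.okR (hs.2 j) hp⟩

lemma PB_sumδ {f : δ → ℝ → ℝ} {g : ℝ → ℝ} (hf : ∀ z, PB (f z)) (e : ∀ x, ∑ z, f z x = g x) :
    PB g := by
  have : g = fun x => ∑ z, f z x := funext fun x => (e x).symm
  rw [this]
  exact PB.sum _ fun z _ => hf z

lemma PB_MM {f : β → ℝ → ℝ} (hs : R.gok p s) (hf : ∀ j, PB (f (s.L j))) :
    PB fun x => M s.c fun j => f (s.L j) x :=
  PB_M hs.1.c0 (f := fun x j => f (s.L j) x) hf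

lemma PB_S (hs : R.gok p s) : PB (R.S s) :=
  PB_MM hs fun j => PB_sumδ (R.ph (hs.2 j)) (R.sh (hs.2 j))

lemma PB_SL (hs : R.gok p s) (hp : p ≠ 0) : PB (R.SL p s) :=
  PB_MM (f := R.tL p) hs fun j => PB_sumδ (R.pL (hs.2 j) hp) (R.sL (hs.2 j) hp)

lemma PB_SB (hs : R.gok p s) (hp : p ≠ 0) : PB (R.SB p s) :=
  PB_MM (f := R.tB p) hs fun j => PB_sumδ (R.pB (hs.2 j) hp) (R.sB (hs.2 j) hp)

lemma PB_SS {f : β → δ → ℝ → ℝ} (hs : R.gok p s) (hf : ∀ j z, PB (f (s.L j) z)) :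
    PB fun x => SS s.c fun z j => f (s.L j) z x := by
  unfold SS
  exact PB.sum _ fun z _ => PB_M hs.1.c0 (f := fun x j => f (s.L j) z x) fun j => hf j z

lemma PB_X (hs : R.gok p s) : PB (R.X p s) :=
  PB_SS (f := fun b z x => exs (R.h p b z x)) hs fun j z => PB_exs (R.ph (hs.2 j) z)

lemma PB_XB (hs : R.gok p s) (hp : p ≠ 0) : PB (R.XB p s) :=
  PB_SS (f := fun b z x => exs (R.hB p b z x)) hs fun j z => PB_exs (R.pB (hs.2 j) hp z)

lemma PB_XR (hs : R.gok p s) (hp : p ≠ 0) : PB (R.XR p s) :=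
  PB_SS (f := fun b z x => exs (R.hN p b z x)) hs fun j z => PB_exs (R.pN (hs.2 j) hp z)

lemma SS_swap {f : β → δ → ℝ → ℝ} {g : β → ℝ → ℝ} (x : ℝ) (e : ∀ j, ∑ z, f (s.L j) z x = g (s.L j) x) :
    SS s.c (fun z j => f (s.L j) z x) = M s.c fun j => g (s.L j) x := by
  unfold SS
  rw [← M_sum]
  congr 1
  funext j
  exact e j

lemma SS_mono (c0 : ∀ j, 0 ≤ s.c j) {f g : δ → s.J → ℝ} (h : ∀ z j, f z j ≤ g z j) :
    SS s.c f ≤ SS s.c g :=
  Finset.sum_le_sum fun z _ => M_mono c0 (h z)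

lemma SS_h (hs : R.gok p s) (x : ℝ) : SS s.c (fun z j => R.h p (s.L j) z x) = R.S s x :=
  SS_swap (f := R.h p) (g := R.tt) x fun j => R.sh (hs.2 j) x

lemma SS_hL (hs : R.gok p s) (hp : p ≠ 0) (x : ℝ) :
    SS s.c (fun z j => R.hL p (s.L j) z x) = R.SL p s x :=
  SS_swap (f := R.hL p) (g := R.tL p) x fun j => R.sL (hs.2 j) hp x

lemma SS_hB (hs : R.gok p s) (hp : p ≠ 0) (x : ℝ) :
    SS s.c (fun z j => R.hB p (s.L j) z x) = R.SB p s x :=
  SS_swap (f := R.hB p) (g := R.tB p) x fun j => R.sB (hs.2 j) hp x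

lemma SS_hN (hs : R.gok p s) (hp : p ≠ 0) (x : ℝ) :
    SS s.c (fun z j => R.hN p (s.L j) z x) = R.S (R.N p s) x := by
  unfold SS
  rw [← M_sum]
  show M s.c (fun j => ∑ z, R.hN p (s.L j) z x) = M s.c fun j => R.tt (R.rN p (s.L j)) x
  congr 1
  funext j
  exact R.sN (hs.2 j) hp x

/-- **the three parts of the total** -/
lemma spl (hs : R.gok p s) (hp : p ≠ 0) (x : ℝ) :
    R.S s x = R.SL p s x + R.SB p s x + R.S (R.N p s) x := by
  show M s.c (fun j => R.tt (s.L j) x) = M s.c (fun j => R.tL p (s.L j) x) +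
    M s.c (fun j => R.tB p (s.L j) x) + M s.c fun j => R.tt (R.rN p (s.L j)) x
  rw [← M_add, ← M_add]
  congr 1
  funext j
  rw [← R.sh (hs.2 j), ← R.sL (hs.2 j) hp, ← R.sB (hs.2 j) hp, ← R.sN (hs.2 j) hp,
    ← Finset.sum_add_distrib, ← Finset.sum_add_distrib]
  exact Finset.sum_congr rfl fun z _ => R.sp (hs.2 j) hp z x

/-- **the mean** -/
lemma mean' (hs : R.gok p s) (hp : p ≠ 0) (y : ℝ) : Ep p (R.SB p s) y = R.S (R.C p s) y := by
  have e1 : Ep p (R.SB p s) y = M s.c fun j => Ep p (R.tB p (s.L j)) y := by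
    unfold SB M Ep
    simp only [Finset.sum_div, Finset.mul_sum]
    rw [Finset.sum_comm]
    refine Finset.sum_congr rfl fun i _ => Finset.sum_congr rfl fun j _ => by ring
  rw [e1]
  by_cases h : 2 ≤ p
  · rw [C_pos R h]
    show _ = M (cT (1 - 1 / (p : ℝ)) s.c) fun x : s.J × Bool =>
      R.tt (if x.2 = true then R.cP p (s.L x.1) else R.cN p (s.L x.1)) y
    rw [M_cT]
    congr 1
    funext j
    rw [R.mean (hs.2 j) h]
    unfold av
    simp
  · rw [C_neg R h]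
    show _ = M s.c fun j => R.tt (R.cP p (s.L j)) y
    have hp1 : p = 1 := by omega
    subst hp1
    congr 1
    funext j
    have h1 := R.no1 (hs.2 j)
    rw [(h1 y).2]
    unfold Ep
    refine div_eq_zero_iff.2 (Or.inl (Finset.sum_eq_zero fun i _ => (h1 _).1))

lemma nnL (hs : R.gok p s) (hp : p ≠ 0) (x : ℝ) (z : δ) (j : s.J) : 0 ≤ R.hL p (s.L j) z x :=
  (R.pL (hs.2 j) hp z).nonneg x
lemma nnB (hs : R.gok p s) (hp : p ≠ 0) (x : ℝ) (z : δ) (j : s.J) : 0 ≤ R.hB p (s.L j) z x :=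
  (R.pB (hs.2 j) hp z).nonneg x
lemma nnN (hs : R.gok p s) (hp : p ≠ 0) (x : ℝ) (z : δ) (j : s.J) : 0 ≤ R.hN p (s.L j) z x :=
  (R.pN (hs.2 j) hp z).nonneg x
lemma nnh (hs : R.gok p s) (x : ℝ) (z : δ) (j : s.J) : 0 ≤ R.h p (s.L j) z x :=
  (R.ph (hs.2 j) z).nonneg x

lemma PB_PP {f : β → δ → ℝ → ℝ} (hs : R.gok p s) (hf : ∀ j z, PB (f (s.L j) z))
    (h1 : ∀ x z j, f (s.L j) z x ≤ 1) : PB fun x => PP s.c s.W fun z j => f (s.L j) z x :=
  PB.sum _ fun z _ => PB_Pot hs.1 (f := fun x j => f (s.L j) z x) (fun j => hf j z)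
    fun x j => h1 x z j

lemma PB_Pt (hs : R.gok p s) : PB (R.Pt p s) :=
  PB_PP (f := fun b z x => tr (R.h p b z x)) hs (fun j z => PB_tr (R.ph (hs.2 j) z))
    fun x z j => tr_le1 _

lemma PB_PtB (hs : R.gok p s) (hp : p ≠ 0) : PB (R.PtB p s) :=
  PB_PP (f := fun b z x => tr (R.hB p b z x)) hs (fun j z => PB_tr (R.pB (hs.2 j) hp z))
    fun x z j => tr_le1 _

lemma PB_PtR (hs : R.gok p s) (hp : p ≠ 0) : PB (R.PtR p s) :=
  PB_PP (f := fun b z x => tr (R.hN p b z x)) hs (fun j z => PB_tr (R.pN (hs.2 j) hp z))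
    fun x z j => tr_le1 _

lemma Pt_born (hs : R.gok p s) (x : ℝ) : R.Pt p s x ≤ 14 * R.S s x := by
  have h1 := PP_born hs.1 (h := fun z j => tr (R.h p (s.L j) z x)) fun z j => tr_nonneg (nnh hs x z j)
  have h2 : SS s.c (fun z j => tr (R.h p (s.L j) z x)) ≤ SS s.c (fun z j => R.h p (s.L j) z x) :=
    SS_mono hs.1.c0 fun z j => tr_le _
  rw [SS_h hs] at h2
  exact h1.trans (mul_le_mul_of_nonneg_left h2 (by norm_num))

lemma PtB_born (hs : R.gok p s) (hp : p ≠ 0) (x : ℝ) : R.PtB p s x ≤ 14 * R.SB p s x := by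
  have h1 := PP_born hs.1 (h := fun z j => tr (R.hB p (s.L j) z x))
    fun z j => tr_nonneg (nnB hs hp x z j)
  have h2 : SS s.c (fun z j => tr (R.hB p (s.L j) z x)) ≤ SS s.c (fun z j => R.hB p (s.L j) z x) :=
    SS_mono hs.1.c0 fun z j => tr_le _
  rw [SS_hB hs hp] at h2
  exact h1.trans (mul_le_mul_of_nonneg_left h2 (by norm_num))

/-- **the joins** -/
theorem joins (hs : R.gok p s) (hp : p ≠ 0) (x : ℝ) :
    R.Pt p s x ≤ R.PtB p s x + 14 * (R.S (R.N p s) x + R.SL p s x) ∧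
    R.Pt p s x ≤ R.PtR p s x + 14 * (R.SB p s x + R.SL p s x) := by
  have key : ∀ (f g : δ → s.J → ℝ), (∀ z j, 0 ≤ f z j) → (∀ z j, 0 ≤ g z j) →
      PP s.c s.W (fun z j => tr (f z j + g z j)) ≤ PP s.c s.W (fun z j => tr (f z j)) +
        14 * SS s.c g := by
    intro f g hf hg
    have h1 := PP_drop hs.1 (h := fun z j => tr (f z j))
      (h' := fun z j => tr (f z j + g z j) - tr (f z j))
      fun z j => sub_nonneg.2 (tr_mono (by have := hg z j; linarith))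
    have e : (fun z j => tr (f z j) + (tr (f z j + g z j) - tr (f z j))) =
        fun z j => tr (f z j + g z j) := by funext z j; ring
    rw [e] at h1
    have h2 : SS s.c (fun z j => tr (f z j + g z j) - tr (f z j)) ≤ SS s.c g :=
      SS_mono hs.1.c0 fun z j => by
        have h3 := tr_sub (hf z j) (hg z j)
        have h4 := tr_le (g z j)
        linarith
    linarith
  have eh : ∀ z j, R.h p (s.L j) z x = R.hL p (s.L j) z x + R.hB p (s.L j) z x +
      R.hN p (s.L j) z x := fun z j => R.sp (hs.2 j) hp z x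
  constructor
  · have h1 := key (fun z j => R.hB p (s.L j) z x)
      (fun z j => R.hN p (s.L j) z x + R.hL p (s.L j) z x) (nnB hs hp x)
      fun z j => add_nonneg (nnN hs hp x z j) (nnL hs hp x z j)
    have e : (fun (z : δ) (j : s.J) => tr (R.hB p (s.L j) z x +
        (R.hN p (s.L j) z x + R.hL p (s.L j) z x))) = fun z j => tr (R.h p (s.L j) z x) := by
      funext z j; rw [eh]; congr 1; ring
    rw [e, ModeP940.SS_add, SS_hN hs hp, SS_hL hs hp] at h1
    exact h1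
  · have h1 := key (fun z j => R.hN p (s.L j) z x)
      (fun z j => R.hB p (s.L j) z x + R.hL p (s.L j) z x) (nnN hs hp x)
      fun z j => add_nonneg (nnB hs hp x z j) (nnL hs hp x z j)
    have e : (fun (z : δ) (j : s.J) => tr (R.hN p (s.L j) z x +
        (R.hB p (s.L j) z x + R.hL p (s.L j) z x))) = fun z j => tr (R.h p (s.L j) z x) := by
      funext z j; rw [eh]; congr 1; ring
    rw [e, ModeP940.SS_add, SS_hB hs hp, SS_hL hs hp] at h1
    exact h1

end RS0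

/-- **group data over a row system** -/
structure RC0 where
  /-- good group states -/
  ok : ℕ → Gs β → Prop
  gk : ∀ {p s}, ok p s → R.gok p s
  okC : ∀ {p s}, ok p s → p ≠ 0 → ok p (R.C p s)
  okN : ∀ {p s}, ok p s → p ≠ 0 → ok (p - 1) (R.N p s)
  /-- constant part of the total of the ties -/
  be : ℕ → Gs β → ℝ → ℝ
  /-- lift part of the total of the ties -/
  G : ℕ → Gs β → ℝ → ℝ
  /-- cost -/
  cost : ℕ → Gs β → ℝ → ℝ
  /-- error of the column -/
  ex : ℕ → Gs β → ℝ → ℝ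
  /-- error of the class change -/
  br : ℕ → Gs β → ℝ → ℝ
  pG : ∀ {p s}, ok p s → p ≠ 0 → PB (G p s)
  pcost : ∀ {p s}, ok p s → p ≠ 0 → PB (cost p s)
  pex : ∀ {p s}, ok p s → p ≠ 0 → PB (ex p s)
  pbr : ∀ {p s}, ok p s → p ≠ 0 → PB (br p s)
  bper : ∀ {p s}, ok p s → p ≠ 0 → ∀ x, be p s (x + 1) = be p s x
  dec : ∀ {p s}, ok p s → p ≠ 0 → ∀ x, R.SB p s x = be p s (p * x) + G p s x
  c1 : ∀ {p s}, ok p s → p ≠ 0 → ∀ x, cost p s x ≤ G p s x ^ 2
  c2 : ∀ {p s}, ok p s → p ≠ 0 → ∀ x, cost p s x ≤ R.SB p s x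
  col : ∀ {p s}, ok p s → 2 ≤ p → ∀ y,
    Ep p (fun x => cost p s x + R.PtB p s x) y ≤ R.Pt p (R.C p s) y + Ep p (ex p s) y
  ref : ∀ {p s}, ok p s → p ≠ 0 → ∀ x, R.PtR p s x ≤ R.Pt (p - 1) (R.N p s) x + br p s x

variable {R}

/-- **the instance** -/
noncomputable def RC0.mw (D : RC0 R) : MW (Gs β) where
  C := R.C
  N := R.N
  ok := D.ok
  S := R.S
  SL := R.SL
  SB := R.SB
  be := D.be
  G := D.G
  cost := D.cost
  ex := D.ex
  br := D.br
  Pt := R.Pt
  PtB := R.PtB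
  okC := D.okC
  okN := D.okN
  pS := fun ht => RS0.PB_S (D.gk ht)
  pSL := fun ht hp => RS0.PB_SL (D.gk ht) hp
  pSB := fun ht hp => RS0.PB_SB (D.gk ht) hp
  pG := D.pG
  pcost := D.pcost
  pex := D.pex
  pbr := D.pbr
  pPt := fun ht => RS0.PB_Pt (D.gk ht)
  pPtB := fun ht hp => RS0.PB_PtB (D.gk ht) hp
  spl := fun ht hp x => RS0.spl (D.gk ht) hp x
  mean := fun ht hp y => RS0.mean' (D.gk ht) hp y
  dec := D.dec
  bper := D.bper
  c1 := D.c1
  c2 := D.c2
  col := fun {p t} ht hp y => by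
    by_cases h : 2 ≤ p
    · exact D.col ht h y
    · have hp1 : p = 1 := by omega
      subst hp1
      have hg := D.gk ht
      have e0 : ∀ x, R.SB 1 t x = 0 := fun x => by
        unfold RS0.SB M
        refine Finset.sum_eq_zero fun j _ => ?_
        show t.c j * R.tB 1 (t.L j) x = 0
        rw [(R.no1 (hg.2 j) x).1, mul_zero]
      have e1 : ∀ x, D.cost 1 t x + R.PtB 1 t x = 0 := fun x => by
        have h1 := D.c2 ht hp x
        have h2 := RS0.PtB_born hg hp x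
        have h3 := (D.pcost ht hp).nonneg x
        have h4 := (RS0.PB_PtB hg hp).nonneg x
        rw [e0] at h1 h2
        linarith
      have e2 : Ep 1 (fun x => D.cost 1 t x + R.PtB 1 t x) y = 0 := by
        unfold Ep
        refine div_eq_zero_iff.2 (Or.inl (Finset.sum_eq_zero fun i _ => e1 _))
      rw [e2]
      exact add_nonneg ((RS0.PB_Pt (RS0.gok_C hg hp)).nonneg y)
        (((D.pex ht hp).Ep one_pos).nonneg y)
  born := fun ht x => RS0.Pt_born (D.gk ht) x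
  bornB := fun ht hp x => RS0.PtB_born (D.gk ht) hp x
  joH := fun {p t} ht hp x => by
    have h1 := RS0.joins (D.gk ht) hp x
    have h2 := D.ref ht hp x
    have h3 := (RS0.PB_PtB (D.gk ht) hp).nonneg x
    have h4 := (RS0.PB_Pt (D.gk (D.okN ht hp))).nonneg x
    have h5 := (D.pbr ht hp).nonneg x
    have h6 := (RS0.PB_PtR (D.gk ht) hp).nonneg x
    rcases min_choice (R.SB p t x) (R.S (R.N p t) x) with e | e <;> rw [e]
    · linarith [h1.2]
    · linarith [h1.1]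
  joB := fun ht hp x => by
    have h1 := (RS0.joins (D.gk ht) hp x).1
    have h2 := (D.pbr ht hp).nonneg x
    linarith
  joN := fun ht hp x => by
    have h1 := (RS0.joins (D.gk ht) hp x).2
    have h2 := D.ref ht hp x
    linarith

end rs

/-! ### rows -/

section rows
variable {β δ : Type} [Fintype δ] {R : RS0 β δ} {p : ℕ} {b : β} {gc e : δ → ℝ → ℝ}

/-- **exact rows with births** : `hB = (w N + (1-w) P - Ep gc)(p x) + gc + e`, `gc = s Δ` -/
structure Row0 (R : RS0 β δ) (p : ℕ) (b : β) (gc e : δ → ℝ → ℝ) : Prop where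
  pg : ∀ z, PB (gc z)
  pe : ∀ z, PB (e z)
  pN : ∀ z, PB (R.h p (R.cN p b) z)
  pP : ∀ z, PB (R.h p (R.cP p b) z)
  pB : ∀ z, PB (R.hB p b z)
  cont : ∀ z x, R.hB p b z x = 1 / (p : ℝ) * R.h p (R.cN p b) z (p * x) +
    (1 - 1 / (p : ℝ)) * R.h p (R.cP p b) z (p * x) - Ep p (gc z) (p * x) + gc z x + e z x
  row : ∀ z y, ∃ (s : Fin p → ℝ) (Δ : ℝ), (∀ i, 0 ≤ s i ∧ s i ≤ 1) ∧
      ∑ i, 1 / (p : ℝ) * s i = 1 / (p : ℝ) ∧
      0 ≤ Δ ∧ Δ ≤ max (R.h p (R.cN p b) z y - R.h p (R.cP p b) z y) 0 ∧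
      ∀ i : Fin p, gc z ((y + (i : ℕ)) / p) = s i * Δ

/-- ratio of the increments -/
noncomputable def rho (R : RS0 β δ) (p : ℕ) (b : β) (z : δ) (y : ℝ) : ℝ :=
  max (tr (R.h p (R.cN p b) z y) - tr (R.h p (R.cP p b) z y)) 0 /
    max (R.h p (R.cN p b) z y - R.h p (R.cP p b) z y) 0

/-- lift part of the truncated row -/
noncomputable def g1 (R : RS0 β δ) (p : ℕ) (b : β) (gc : δ → ℝ → ℝ) (z : δ) (x : ℝ) : ℝ :=
  gc z x * rho R p b z (p * x)

/-- constant part of the truncated row -/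
noncomputable def b1 (R : RS0 β δ) (p : ℕ) (b : β) (gc : δ → ℝ → ℝ) (z : δ) (y : ℝ) : ℝ :=
  1 / (p : ℝ) * tr (R.h p (R.cN p b) z y) + (1 - 1 / (p : ℝ)) * tr (R.h p (R.cP p b) z y) -
    rho R p b z y * Ep p (gc z) y

/-- births of the truncated row -/
noncomputable def e1 (R : RS0 β δ) (p : ℕ) (b : β) (gc : δ → ℝ → ℝ) (z : δ) (x : ℝ) : ℝ :=
  tr (R.hB p b z x) - b1 R p b gc z (p * x) - g1 R p b gc z x

lemma rho_mul (z : δ) (y : ℝ) : rho R p b z y *
    max (R.h p (R.cN p b) z y - R.h p (R.cP p b) z y) 0 =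
    max (tr (R.h p (R.cN p b) z y) - tr (R.h p (R.cP p b) z y)) 0 := by
  unfold rho
  set u := R.h p (R.cN p b) z y
  set v := R.h p (R.cP p b) z y
  have h1 := tr_diff v u
  have h0 : 0 ≤ max (u - v) 0 := le_max_right _ _
  have h2 : 0 ≤ max (tr u - tr v) 0 := le_max_right _ _
  rcases eq_or_lt_of_le h0 with h | h
  · rw [← h] at h1 ⊢
    rw [mul_zero]
    exact le_antisymm h2 h1
  · field_simp

lemma rho_nonneg (z : δ) (y : ℝ) : 0 ≤ rho R p b z y :=
  div_nonneg (le_max_right _ _) (le_max_right _ _)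

lemma rho_le (z : δ) (y : ℝ) : rho R p b z y ≤ 1 := by
  unfold rho
  exact div_le_one_of_le₀ (tr_diff _ _) (le_max_right _ _)

section one
variable (H : Row0 R p b gc e)
include H

lemma PB_rho (z : δ) : PB (rho R p b z) := by
  refine ⟨?_, rho_nonneg z, ⟨1, rho_le z⟩, fun y => ?_⟩
  · exact (((PB_tr (H.pN z)).meas.sub (PB_tr (H.pP z)).meas).max measurable_const).div
      (((H.pN z).meas.sub (H.pP z).meas).max measurable_const)
  · unfold rho
    rw [(H.pN z).per, (H.pP z).per]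

lemma Ep_gc (hp : 0 < p) (z : δ) (y : ℝ) : ∃ (s : Fin p → ℝ) (Δ : ℝ), (∀ i, 0 ≤ s i ∧ s i ≤ 1) ∧
      ∑ i, 1 / (p : ℝ) * s i = 1 / (p : ℝ) ∧
      0 ≤ Δ ∧ Δ ≤ max (R.h p (R.cN p b) z y - R.h p (R.cP p b) z y) 0 ∧
      (∀ i : Fin p, gc z ((y + (i : ℕ)) / p) = s i * Δ) ∧ Ep p (gc z) y = 1 / (p : ℝ) * Δ := by
  obtain ⟨s, Δ, h1, h2, h3, h4, h5⟩ := H.row z y
  refine ⟨s, Δ, h1, h2, h3, h4, h5, ?_⟩
  rw [← h2, Finset.sum_mul]
  unfold Ep
  rw [Finset.sum_range, Finset.sum_div]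
  refine Finset.sum_congr rfl fun i _ => ?_
  rw [h5 i]
  ring

lemma b1_nonneg (hp : 2 ≤ p) (z : δ) (y : ℝ) : 0 ≤ b1 R p b gc z y := by
  have hp0 : 0 < p := by omega
  have hp' : (0 : ℝ) < p := by exact_mod_cast hp0
  obtain ⟨s, Δ, h1, h2, h3, h4, h5, h6⟩ := Ep_gc H hp0 z y
  have hq := RSys343.RS.q_bd hp
  unfold b1
  rw [h6]
  have h7 := rho_mul (R := R) (p := p) (b := b) z y
  have h8 := mul_le_mul_of_nonneg_left h4 (rho_nonneg (R := R) (p := p) (b := b) z y)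
  rw [h7] at h8
  set u := R.h p (R.cN p b) z y
  set v := R.h p (R.cP p b) z y
  have hu : 0 ≤ tr u := tr_nonneg ((H.pN z).nonneg y)
  have hv : 0 ≤ tr v := tr_nonneg ((H.pP z).nonneg y)
  have hw : 0 < 1 / (p : ℝ) := by positivity
  have h9 : max (tr u - tr v) 0 ≤ tr u := max_le (by linarith) hu
  have h10 := mul_le_mul_of_nonneg_left (h8.trans h9) hw.le
  have h11 := mul_nonneg hq.1.le hv
  have e1 : rho R p b z y * (1 / (p : ℝ) * Δ) = 1 / (p : ℝ) * (rho R p b z y * Δ) := by ring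
  rw [e1]
  linarith

lemma e1_nonneg (hp : 2 ≤ p) (z : δ) (x : ℝ) : 0 ≤ e1 R p b gc z x := by
  have hp0 : 0 < p := by omega
  have hp' : (0 : ℝ) < p := by exact_mod_cast hp0
  have hq := RSys343.RS.q_bd hp
  obtain ⟨s, Δ, h1, h2, h3, h4, h5, h6⟩ := Ep_gc H hp0 z ((p : ℝ) * x)
  have h7 := h5 ⟨0, hp0⟩
  have e0 : ((p : ℝ) * x + ((0 : ℕ) : ℝ)) / p = x := by
    rw [Nat.cast_zero, add_zero, mul_div_cancel_left₀ _ hp'.ne']
  have e0' : (((⟨0, hp0⟩ : Fin p) : ℕ) : ℝ) = ((0 : ℕ) : ℝ) := rfl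
  rw [e0', e0] at h7
  have h8 := row_tr (a := R.h p (R.cP p b) z (p * x)) (b := R.h p (R.cN p b) z (p * x))
    (w := 1 / (p : ℝ)) (s := s ⟨0, hp0⟩) (Δ := Δ) (r := rho R p b z (p * x))
    (by positivity) (by linarith [hq.1, hq.2]) (h1 _).1 (h1 _).2 h3 h4 (rho_mul z _)
  have h9 : 1 / (p : ℝ) * R.h p (R.cN p b) z (p * x) +
      (1 - 1 / (p : ℝ)) * R.h p (R.cP p b) z (p * x) + (s ⟨0, hp0⟩ - 1 / (p : ℝ)) * Δ ≤
      R.hB p b z x := by
    rw [H.cont z x, h6, h7]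
    have := (H.pe z).nonneg x
    nlinarith
  have h10 := tr_mono h9
  unfold e1 b1 g1
  rw [h6, h7]
  have e2 : 1 / (p : ℝ) * tr (R.h p (R.cN p b) z (p * x)) +
      (1 - 1 / (p : ℝ)) * tr (R.h p (R.cP p b) z (p * x)) -
      rho R p b z (p * x) * (1 / (p : ℝ) * Δ) + s ⟨0, hp0⟩ * Δ * rho R p b z (p * x) =
      1 / (p : ℝ) * tr (R.h p (R.cN p b) z (p * x)) +
      (1 - 1 / (p : ℝ)) * tr (R.h p (R.cP p b) z (p * x)) +
      (s ⟨0, hp0⟩ - 1 / (p : ℝ)) * (Δ * rho R p b z (p * x)) := by ring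
  linarith

lemma PB_g1 (z : δ) : PB (g1 R p b gc z) := (H.pg z).mul ((PB_rho H z).pull p)

lemma PB_b1 (hp : 2 ≤ p) (z : δ) : PB (b1 R p b gc z) := by
  have hp0 : 0 < p := by omega
  have q1 := PB_tr (H.pN z)
  have q2 := PB_tr (H.pP z)
  have q3 := (PB_rho H z).mul ((H.pg z).Ep hp0)
  have hq := RSys343.RS.q_bd hp
  have q4 := (q1.smul (show 0 ≤ 1 / (p : ℝ) by positivity)).add (q2.smul hq.1.le)
  obtain ⟨B, hB⟩ := q4.bdd
  refine ⟨q4.meas.sub q3.meas, b1_nonneg H hp z, ⟨B, fun y => ?_⟩, fun y => ?_⟩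
  · have h1 := hB y
    have h2 := q3.nonneg y
    unfold b1
    linarith
  · have h1 := q4.per y
    have h2 := q3.per y
    unfold b1
    linarith

lemma PB_e1 (hp : 2 ≤ p) (z : δ) : PB (e1 R p b gc z) := by
  have q1 := PB_tr (H.pB z)
  have q2 := (PB_b1 H hp z).pull p
  have q3 := PB_g1 H z
  refine ⟨(q1.meas.sub q2.meas).sub q3.meas, e1_nonneg H hp z, ⟨1, fun x => ?_⟩, fun x => ?_⟩
  · have h1 := tr_le1 (R.hB p b z x)
    have h2 := q2.nonneg x
    have h3 := q3.nonneg x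
    unfold e1
    linarith
  · have h1 := q1.per x
    have h2 := q2.per x
    have h3 := q3.per x
    unfold e1
    linarith

lemma tr_hB (z : δ) (x : ℝ) : tr (R.hB p b z x) =
    (b1 R p b gc z (p * x) + g1 R p b gc z x) + e1 R p b gc z x := by unfold e1; ring

lemma g1_le_tr (hp : 2 ≤ p) (z : δ) (x : ℝ) : g1 R p b gc z x ≤ tr (R.hB p b z x) := by
  have h1 := tr_hB H z x
  have h2 := b1_nonneg H hp z (p * x)
  have h3 := e1_nonneg H hp z x
  linarith

lemma g1_le (z : δ) (x : ℝ) : g1 R p b gc z x ≤ gc z x := by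
  unfold g1
  have := mul_le_mul_of_nonneg_left (rho_le (R := R) (p := p) (b := b) z (p * x))
    ((H.pg z).nonneg x)
  linarith

/-- **the births of the truncated row** -/
lemma Ep_e1 (hp : 2 ≤ p) (z : δ) (y : ℝ) : Ep p (e1 R p b gc z) y +
    Ep p (fun x => exs (R.hB p b z x)) y = 1 / (p : ℝ) * exs (R.h p (R.cN p b) z y) +
      (1 - 1 / (p : ℝ)) * exs (R.h p (R.cP p b) z y) + Ep p (e z) y := by
  have hp0 : 0 < p := by omega
  have e2 : ∀ x, e1 R p b gc z x + exs (R.hB p b z x) =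
      (fun y => 1 / (p : ℝ) * R.h p (R.cN p b) z y +
        (1 - 1 / (p : ℝ)) * R.h p (R.cP p b) z y - Ep p (gc z) y - b1 R p b gc z y) (p * x) +
      (gc z x - rho R p b z (p * x) * gc z x) + e z x := by
    intro x
    have h1 := tr_add (R.hB p b z x)
    have h2 := H.cont z x
    unfold e1 g1
    simp only
    linarith
  have h0 : Ep p (e1 R p b gc z) y + Ep p (fun x => exs (R.hB p b z x)) y =
      Ep p (fun x => e1 R p b gc z x + exs (R.hB p b z x)) y := by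
    rw [Ep_add]
  rw [h0, funext e2]
  have hper : ∀ y, (fun y => 1 / (p : ℝ) * R.h p (R.cN p b) z y +
        (1 - 1 / (p : ℝ)) * R.h p (R.cP p b) z y - Ep p (gc z) y - b1 R p b gc z y) (y + 1) =
      (fun y => 1 / (p : ℝ) * R.h p (R.cN p b) z y +
        (1 - 1 / (p : ℝ)) * R.h p (R.cP p b) z y - Ep p (gc z) y - b1 R p b gc z y) y := by
    intro y
    simp only
    rw [(H.pN z).per, (H.pP z).per, ((H.pg z).Ep hp0).per, (PB_b1 H hp z).per]
  rw [Ep_add p (fun x => (fun y => 1 / (p : ℝ) * R.h p (R.cN p b) z y +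
        (1 - 1 / (p : ℝ)) * R.h p (R.cP p b) z y - Ep p (gc z) y - b1 R p b gc z y) (p * x) +
      (gc z x - rho R p b z (p * x) * gc z x)) (e z),
    Ep_add p (fun x => (fun y => 1 / (p : ℝ) * R.h p (R.cN p b) z y +
        (1 - 1 / (p : ℝ)) * R.h p (R.cP p b) z y - Ep p (gc z) y - b1 R p b gc z y) (p * x))
      (fun x => gc z x - rho R p b z (p * x) * gc z x),
    Ep_sub p (gc z) (fun x => rho R p b z (p * x) * gc z x),
    Ep_pull_mul hp0 (a := rho R p b z) (f := gc z) (PB_rho H z).per y]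
  have e3 := Ep_pull_mul hp0 (a := fun y => 1 / (p : ℝ) * R.h p (R.cN p b) z y +
        (1 - 1 / (p : ℝ)) * R.h p (R.cP p b) z y - Ep p (gc z) y - b1 R p b gc z y)
        (f := fun _ => (1 : ℝ)) hper y
  rw [Ep_const hp0] at e3
  simp only [mul_one] at e3
  rw [e3]
  unfold b1
  have h1 := tr_add (R.h p (R.cN p b) z y)
  have h2 := tr_add (R.h p (R.cP p b) z y)
  linear_combination (1 / (p : ℝ)) * h1 * (-1) + (1 - 1 / (p : ℝ)) * h2 * (-1)

end one

variable {s : Gs β}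

/-- cost of the main layer -/
noncomputable def c1 (R : RS0 β δ) (p : ℕ) (gc : β → δ → ℝ → ℝ) (s : Gs β) (x : ℝ) : ℝ :=
  ∑ z, M s.c (fun j => g1 R p (s.L j) (gc (s.L j)) z x) ^ 2

/-- births of the main layer -/
noncomputable def ee (R : RS0 β δ) (p : ℕ) (gc : β → δ → ℝ → ℝ) (s : Gs β) (x : ℝ) : ℝ :=
  SS s.c fun z j => e1 R p (s.L j) (gc (s.L j)) z x

/-- error of the column -/
noncomputable def x1 (R : RS0 β δ) (p : ℕ) (gc : β → δ → ℝ → ℝ) (s : Gs β) (x : ℝ) : ℝ :=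
  ∑ z, Ep p (fun x => M s.c fun j => g1 R p (s.L j) (gc (s.L j)) z x) (p * x) ^ 2 +
    14 * ee R p gc s x

/-- **the column of the main layer** -/
theorem col_main (hp : 2 ≤ p) (hs : R.gok p s) {gc e : β → δ → ℝ → ℝ}
    (H : ∀ j, Row0 R p (s.L j) (gc (s.L j)) (e (s.L j))) (y : ℝ) :
    Ep p (fun x => c1 R p gc s x + R.PtB p s x) y ≤ R.Pt p (R.C p s) y + Ep p (x1 R p gc s) y := by
  have hp0 : 0 < p := by omega
  have hp' : (0 : ℝ) < p := by exact_mod_cast hp0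
  have hC := RS0.gok_C hs (show p ≠ 0 by omega)
  rw [RS0.C_pos R hp] at hC ⊢
  have u1 : ∑ _i : Fin p, 1 / (p : ℝ) = 1 := by
    rw [Finset.sum_const, Finset.card_univ, Fintype.card_fin, nsmul_eq_mul]
    field_simp
  have hh0 : ∀ (z : δ) (x : s.J × Bool),
      0 ≤ tr (R.h p (if x.2 = true then R.cP p (s.L x.1) else R.cN p (s.L x.1)) z y) :=
    fun z x => tr_nonneg ((R.ph (hC.2 x) z).nonneg y)
  have hh1 : ∀ (z : δ) (x : s.J × Bool),
      tr (R.h p (if x.2 = true then R.cP p (s.L x.1) else R.cN p (s.L x.1)) z y) ≤ 1 :=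
    fun z x => tr_le1 _
  have hx : ∀ i : ℕ, (p:ℝ) * ((y + i) / p) = y + i := fun i => by field_simp
  have hCol : ∀ z, Col (1 - 1 / (p : ℝ))
      (fun x : s.J × Bool =>
        tr (R.h p (if x.2 = true then R.cP p (s.L x.1) else R.cN p (s.L x.1)) z y))
      (fun _ : Fin p => 1 / (p : ℝ)) (fun i j => b1 R p (s.L j) (gc (s.L j)) z y +
        g1 R p (s.L j) (gc (s.L j)) z ((y + (i : ℕ)) / p)) := by
    intro z
    refine ⟨fun i => by positivity, u1, fun j => ?_⟩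
    obtain ⟨a, Δ, h1, h2, h3, h4, h5, h6⟩ := Ep_gc (H j) hp0 z y
    refine ⟨a, rho R p (s.L j) z y * Δ, h1, ?_, mul_nonneg (rho_nonneg z y) h3, ?_, fun i => ?_⟩
    · rw [h2]; ring
    · have h7 := mul_le_mul_of_nonneg_left h4 (rho_nonneg (R := R) (p := p) (b := s.L j) z y)
      rw [rho_mul] at h7
      simpa using h7
    · have e2 : rho R p (s.L j) z (p * ((y + (i : ℕ)) / p)) = rho R p (s.L j) z y := by
        rw [hx i, (PB_rho (H j) z).per_nat]
      unfold b1 g1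
      rw [e2, h5 i, h6]
      simp only [av]
      simp
      ring
  have key := PP_col_birth hs.1 (RSys343.RS.q_bd hp)
    (h := fun z (x : s.J × Bool) =>
      tr (R.h p (if x.2 = true then R.cP p (s.L x.1) else R.cN p (s.L x.1)) z y))
    (X := fun (i : Fin p) z j => b1 R p (s.L j) (gc (s.L j)) z y +
        g1 R p (s.L j) (gc (s.L j)) z ((y + (i : ℕ)) / p))
    (e := fun (i : Fin p) z j => e1 R p (s.L j) (gc (s.L j)) z ((y + (i : ℕ)) / p))
    hh0 hh1 (u := fun _ : Fin p => 1 / (p : ℝ)) (fun _ => by positivity) u1 hCol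
    (g := fun i z => M s.c fun j => g1 R p (s.L j) (gc (s.L j)) z ((y + (i : ℕ)) / p))
    (β := fun z => M s.c fun j => b1 R p (s.L j) (gc (s.L j)) z y)
    (fun i z => by rw [← M_add])
    (fun i z j => e1_nonneg (H j) hp z _)
  have eE : ∀ f : ℝ → ℝ, Ep p f y = ∑ i : Fin p, (1 / (p:ℝ)) * f ((y + (i:ℕ)) / p) := by
    intro f
    unfold Ep
    rw [Finset.sum_range, Finset.sum_div]
    exact Finset.sum_congr rfl fun i _ => by ring
  have pE : ∀ z, PB (Ep p fun x => M s.c fun j => g1 R p (s.L j) (gc (s.L j)) z x) := fun z =>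
    (PB_M hs.1.c0 (f := fun x j => g1 R p (s.L j) (gc (s.L j)) z x)
      fun j => PB_g1 (H j) z).Ep hp0
  have e1' : Ep p (fun x => c1 R p gc s x + R.PtB p s x) y =
      ∑ i : Fin p, 1 / (p : ℝ) * (∑ z, (M s.c fun j =>
        g1 R p (s.L j) (gc (s.L j)) z ((y + (i : ℕ)) / p)) ^ 2 +
        PP s.c s.W fun z j => (b1 R p (s.L j) (gc (s.L j)) z y +
          g1 R p (s.L j) (gc (s.L j)) z ((y + (i : ℕ)) / p)) +
          e1 R p (s.L j) (gc (s.L j)) z ((y + (i : ℕ)) / p)) := by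
    rw [eE]
    refine Finset.sum_congr rfl fun i _ => ?_
    congr 2
    show PP s.c s.W (fun z j => tr (R.hB p (s.L j) z ((y + (i : ℕ)) / p))) = _
    congr 1
    funext z j
    rw [tr_hB (H j), hx i, (PB_b1 (H j) hp z).per_nat]
  have e2 : Ep p (x1 R p gc s) y = ∑ z, (Ep p (fun x => M s.c fun j =>
      g1 R p (s.L j) (gc (s.L j)) z x) y) ^ 2 +
      14 * ∑ i : Fin p, 1 / (p : ℝ) * SS s.c (fun z j =>
        e1 R p (s.L j) (gc (s.L j)) z ((y + (i : ℕ)) / p)) := by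
    rw [eE]
    have e3 : ∀ i : Fin p, (1 / (p:ℝ)) * x1 R p gc s ((y + (i:ℕ)) / p) =
        (1 / (p:ℝ)) * (∑ z, (Ep p (fun x => M s.c fun j =>
          g1 R p (s.L j) (gc (s.L j)) z x) y) ^ 2) +
        14 * (1 / (p : ℝ) * SS s.c (fun z j =>
          e1 R p (s.L j) (gc (s.L j)) z ((y + (i : ℕ)) / p))) := by
      intro i
      unfold x1 ee
      have e4 : ∀ z, Ep p (fun x => M s.c fun j => g1 R p (s.L j) (gc (s.L j)) z x)
          (p * ((y + (i:ℕ)) / p)) =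
          Ep p (fun x => M s.c fun j => g1 R p (s.L j) (gc (s.L j)) z x) y := fun z => by
        rw [hx i, (pE z).per_nat]
      rw [Finset.sum_congr rfl fun z _ => by rw [e4 z]]
      ring
    rw [Finset.sum_congr rfl fun i _ => e3 i, Finset.sum_add_distrib, ← Finset.sum_mul, u1,
      one_mul, ← Finset.mul_sum]
  rw [e1', e2]
  have e6 : ∑ z, (∑ i : Fin p, 1 / (p : ℝ) *
      (M s.c fun j => g1 R p (s.L j) (gc (s.L j)) z ((y + (i : ℕ)) / p))) ^ 2 =
      ∑ z, (Ep p (fun x => M s.c fun j => g1 R p (s.L j) (gc (s.L j)) z x) y) ^ 2 :=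
    Finset.sum_congr rfl fun z _ => by rw [eE]
  rw [e6] at key
  refine key.trans (le_of_eq ?_)
  show _ = PP (cT (1 - 1 / (p : ℝ)) s.c) (WT (1 - 1 / (p : ℝ)) s.W) (fun z (x : s.J × Bool) =>
      tr (R.h p (if x.2 = true then R.cP p (s.L x.1) else R.cN p (s.L x.1)) z y)) + _
  ring

/-- **the ledger of the births** : births + excess of the parent = excess of the children + `e` -/
theorem ledger (hp : 2 ≤ p) (hs : R.gok p s) {gc e : β → δ → ℝ → ℝ}
    (H : ∀ j, Row0 R p (s.L j) (gc (s.L j)) (e (s.L j))) (y : ℝ) :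
    Ep p (ee R p gc s) y + Ep p (R.XB p s) y = R.X p (R.C p s) y +
      Ep p (fun x => SS s.c fun z j => e (s.L j) z x) y := by
  have hsw : ∀ F : δ → s.J → ℝ → ℝ, Ep p (fun x => SS s.c fun z j => F z j x) y =
      SS s.c fun z j => Ep p (F z j) y := by
    intro F
    unfold SS M Ep
    simp only [Finset.sum_div, Finset.mul_sum]
    rw [Finset.sum_comm]
    refine Finset.sum_congr rfl fun z _ => ?_
    rw [Finset.sum_comm]
    refine Finset.sum_congr rfl fun j _ => Finset.sum_congr rfl fun i _ => by ring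
  have h1 : Ep p (ee R p gc s) y = SS s.c fun z j =>
      Ep p (e1 R p (s.L j) (gc (s.L j)) z) y :=
    hsw fun z j => e1 R p (s.L j) (gc (s.L j)) z
  have h2 : Ep p (R.XB p s) y = SS s.c fun z j => Ep p (fun x => exs (R.hB p (s.L j) z x)) y :=
    hsw fun z j x => exs (R.hB p (s.L j) z x)
  have h3 : Ep p (fun x => SS s.c fun z j => e (s.L j) z x) y =
      SS s.c fun z j => Ep p (e (s.L j) z) y := hsw fun z j => e (s.L j) z
  rw [h1, h2, h3, RS0.C_pos R hp, ← ModeP940.SS_add]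
  have h4 : R.X p ⟨s.J × Bool, inferInstance, cT (1 - 1 / (p : ℝ)) s.c,
      WT (1 - 1 / (p : ℝ)) s.W, fun x => if x.2 then R.cP p (s.L x.1) else R.cN p (s.L x.1)⟩ y =
      SS s.c fun z j => 1 / (p : ℝ) * exs (R.h p (R.cN p (s.L j)) z y) +
        (1 - 1 / (p : ℝ)) * exs (R.h p (R.cP p (s.L j)) z y) := by
    unfold RS0.X SS
    refine Finset.sum_congr rfl fun z _ => ?_
    rw [M_cT]
    congr 1
    funext j
    unfold av
    simp
  rw [h4, ← ModeP940.SS_add]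
  unfold SS
  refine Finset.sum_congr rfl fun z _ => ?_
  congr 1
  funext j
  exact Ep_e1 (H j) hp z y

end rows

end Crest.Agent.R4P.RT2
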