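import Crest.Agent.R4P.RXs_343

/-!
R4 (S0004) with powers, T3 (heights > 1), helper343: **row systems with arbitrary heights**, all the
facts of the scaled mode game.

* `RX β δ` : bundles, contents of arbitrary height, exact rows `ER`.
* totals `T TL TB bT GT`, short totals `A AL AB AR`, parts `be G bt`, costs `cost cS cT`, potentials
  `Pt PR PtB` at the scale `2^k`, join energy `jn`.
-/

set_option autoImplicit false
set_option linter.unusedSectionVars false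
set_option linter.unusedVariables false
open MeasureTheory Filter Set

namespace Crest.Agent.R4P.RXi343

open Crest.Agent.R4.Tour104 Crest.Agent.R4.Clos758
open Crest.Agent.R4P.GMer27 Crest.Agent.R4P.GCol27 Crest.Agent.R4P.RSys343 Crest.Agent.R4P.TrR343
open Crest.Agent.R4P.RXs343
open Crest.Agent.R4P.ModeP940 (PP SS SS_nonneg SS_add)

/-- the mean of an exact row -/
lemma ER_mean {p : ℕ} {a b B g : ℝ → ℝ} (h : ER p a b B g) (hp : 0 < p) (y : ℝ) :
    B y + Ep p g y = (1 - 1 / (p : ℝ)) * a y + 1 / (p : ℝ) * b y := by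
  obtain ⟨⟨s, h1, h2, h3⟩, h4⟩ := h.row y
  have e : Ep p g y = 1 / (p : ℝ) * D (a y) (b y) := by
    unfold Ep
    rw [← Fin.sum_univ_eq_sum_range (fun i => g ((y + i) / p)) p, Finset.sum_div]
    have : ∀ i : Fin p, g ((y + ((i : ℕ) : ℝ)) / p) / p = (1 / (p : ℝ) * s i) * D (a y) (b y) :=
      fun i => by rw [h3 i]; ring
    rw [Finset.sum_congr rfl fun i _ => this i, ← Finset.sum_mul, h2]
  rw [e, h4]
  unfold Bs
  ring

/-- the row in the form of a column -/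
lemma ER_col {p : ℕ} {a b B g : ℝ → ℝ} (h : ER p a b B g) (hp : 0 < p) (y : ℝ) :
    ∃ (s : Fin p → ℝ) (Δ : ℝ), (∀ i, 0 ≤ s i ∧ s i ≤ 1) ∧
      ∑ i, 1 / (p : ℝ) * s i = 1 - (1 - 1 / (p : ℝ)) ∧ 0 ≤ Δ ∧ Δ ≤ max (b y - a y) 0 ∧
      ∀ i : Fin p, B y + g ((y + (i : ℕ)) / p) =
        ((1 - (1 - 1 / (p : ℝ))) * b y + (1 - 1 / (p : ℝ)) * a y) +
          (s i - (1 - (1 - 1 / (p : ℝ)))) * Δ := by
  obtain ⟨⟨s, h1, h2, h3⟩, h4⟩ := h.row y
  refine ⟨s, D (a y) (b y), h1, by rw [h2]; ring, D_nonneg _ _, le_rfl, fun i => ?_⟩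
  rw [h3 i, h4]
  unfold Bs
  ring

/-- **row system with arbitrary heights** -/
structure RX (β δ : Type) [Fintype δ] where
  /-- children P -/
  cP : ℕ → β → β
  /-- children N -/
  cN : ℕ → β → β
  /-- the rest -/
  rN : ℕ → β → β
  /-- invariant -/
  ok : ℕ → β → Prop
  okP : ∀ {p b}, ok p b → p ≠ 0 → ok p (cP p b)
  okN : ∀ {p b}, ok p b → p ≠ 0 → ok p (cN p b)
  okR : ∀ {p b}, ok p b → p ≠ 0 → ok (p - 1) (rN p b)
  /-- total -/
  tt : β → ℝ → ℝ
  /-- contents -/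
  h : ℕ → β → δ → ℝ → ℝ
  /-- contents of leaves and births -/
  hL : ℕ → β → δ → ℝ → ℝ
  /-- contents of the rest, by the classes of the column `p` -/
  hN : ℕ → β → δ → ℝ → ℝ
  /-- constant part of the contents of the ties -/
  Bc : ℕ → β → δ → ℝ → ℝ
  /-- lift part of the contents of the ties -/
  gc : ℕ → β → δ → ℝ → ℝ
  ph : ∀ {p b}, ok p b → ∀ z, PB (h p b z)
  pL : ∀ {p b}, ok p b → p ≠ 0 → ∀ z, PB (hL p b z)
  pN : ∀ {p b}, ok p b → p ≠ 0 → ∀ z, PB (hN p b z)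
  sp : ∀ {p b}, ok p b → p ≠ 0 → ∀ z x,
    h p b z x = hL p b z x + (Bc p b z (p * x) + gc p b z x) + hN p b z x
  sh : ∀ {p b}, ok p b → ∀ x, ∑ z, h p b z x = tt b x
  sN : ∀ {p b}, ok p b → p ≠ 0 → ∀ x, ∑ z, hN p b z x = tt (rN p b) x
  row : ∀ {p b}, ok p b → p ≠ 0 → ∀ z,
    ER p (h p (cP p b) z) (h p (cN p b) z) (Bc p b z) (gc p b z)
  no1 : ∀ {b}, ok 1 b → ∀ z x, h 1 (cP 1 b) z x = 0 ∧ h 1 (cN 1 b) z x = 0

section rx
variable {β δ : Type} [Fintype δ] (R : RX β δ)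

namespace RX

/-- content of the ties and pulls -/
def hB (p : ℕ) (b : β) (z : δ) (x : ℝ) : ℝ := R.Bc p b z (p * x) + R.gc p b z x

/-- the state of the children -/
noncomputable def C (p : ℕ) (s : Gs β) : Gs β :=
  if 2 ≤ p then ⟨s.J × Bool, inferInstance, cT (1 - 1 / (p : ℝ)) s.c,
    WT (1 - 1 / (p : ℝ)) s.W, fun x => if x.2 then R.cP p (s.L x.1) else R.cN p (s.L x.1)⟩
  else ⟨s.J, s.fJ, s.c, s.W, fun j => R.cP p (s.L j)⟩

/-- the state of the rest -/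
def N (p : ℕ) (s : Gs β) : Gs β := ⟨s.J, s.fJ, s.c, s.W, fun j => R.rN p (s.L j)⟩

lemma C_pos {p : ℕ} (hp : 2 ≤ p) (s : Gs β) : R.C p s =
    ⟨s.J × Bool, inferInstance, cT (1 - 1 / (p : ℝ)) s.c,
    WT (1 - 1 / (p : ℝ)) s.W, fun x => if x.2 then R.cP p (s.L x.1) else R.cN p (s.L x.1)⟩ :=
  if_pos hp

lemma C_neg {p : ℕ} (hp : ¬ 2 ≤ p) (s : Gs β) : R.C p s =
    ⟨s.J, s.fJ, s.c, s.W, fun j => R.cP p (s.L j)⟩ := if_neg hp

/-- good group states -/
def gok (p : ℕ) (s : Gs β) : Prop := TC s.c s.W ∧ ∀ j, R.ok p (s.L j)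

/-! data -/

/-- sum over the classes and members of a bundle functional -/
noncomputable def sm2 (s : Gs β) (f : β → δ → ℝ → ℝ) (x : ℝ) : ℝ := SS s.c fun z j => f (s.L j) z x

noncomputable def T (s : Gs β) (x : ℝ) : ℝ := M s.c fun j => R.tt (s.L j) x
noncomputable def TL (p : ℕ) (s : Gs β) : ℝ → ℝ := sm2 s (R.hL p)
noncomputable def TB (p : ℕ) (s : Gs β) : ℝ → ℝ := sm2 s (R.hB p)
noncomputable def bT (p : ℕ) (s : Gs β) : ℝ → ℝ := sm2 s (R.Bc p)
noncomputable def GT (p : ℕ) (s : Gs β) : ℝ → ℝ := sm2 s (R.gc p)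

/-- truncated contents -/
noncomputable def hk (σ : ℝ) (p : ℕ) (b : β) (z : δ) (x : ℝ) : ℝ := min (R.h p b z x) σ
noncomputable def hLk (σ : ℝ) (p : ℕ) (b : β) (z : δ) (x : ℝ) : ℝ := min (R.hL p b z x) σ
noncomputable def hBk (σ : ℝ) (p : ℕ) (b : β) (z : δ) (x : ℝ) : ℝ := min (R.hB p b z x) σ
noncomputable def hNk (σ : ℝ) (p : ℕ) (b : β) (z : δ) (x : ℝ) : ℝ := min (R.hN p b z x) σ
/-- parts of the truncated row -/
noncomputable def sBk (σ : ℝ) (p : ℕ) (b : β) (z : δ) : ℝ → ℝ :=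
  sB p σ (R.h p (R.cP p b) z) (R.h p (R.cN p b) z)
noncomputable def sgk (σ : ℝ) (p : ℕ) (b : β) (z : δ) : ℝ → ℝ :=
  sg p σ (R.h p (R.cP p b) z) (R.h p (R.cN p b) z) (R.gc p b z)
noncomputable def tgk (σ : ℝ) (p : ℕ) (b : β) (z : δ) : ℝ → ℝ :=
  tg p σ (R.h p (R.cP p b) z) (R.h p (R.cN p b) z) (R.gc p b z)
noncomputable def sEk (σ : ℝ) (p : ℕ) (b : β) (z : δ) : ℝ → ℝ :=
  sE p σ (R.h p (R.cP p b) z) (R.h p (R.cN p b) z) (R.Bc p b z) (R.gc p b z)
noncomputable def sXk (σ : ℝ) (p : ℕ) (b : β) (z : δ) (x : ℝ) : ℝ :=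
  R.sBk σ p b z (p * x) + R.sgk σ p b z x

noncomputable def A (σ : ℝ) (p : ℕ) (s : Gs β) : ℝ → ℝ := sm2 s (R.hk σ p)
noncomputable def AL (σ : ℝ) (p : ℕ) (s : Gs β) : ℝ → ℝ := sm2 s (R.hLk σ p)
noncomputable def AB (σ : ℝ) (p : ℕ) (s : Gs β) : ℝ → ℝ := sm2 s (R.hBk σ p)
noncomputable def AR (σ : ℝ) (p : ℕ) (s : Gs β) : ℝ → ℝ := sm2 s (R.hNk σ p)
noncomputable def be (σ : ℝ) (p : ℕ) (s : Gs β) : ℝ → ℝ := sm2 s (R.sBk σ p)
noncomputable def G (σ : ℝ) (p : ℕ) (s : Gs β) : ℝ → ℝ := sm2 s (R.sgk σ p)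
noncomputable def bt (σ : ℝ) (p : ℕ) (s : Gs β) : ℝ → ℝ := sm2 s (R.sEk σ p)

/-- squares of the class averages -/
noncomputable def q2 (s : Gs β) (f : β → δ → ℝ → ℝ) (x : ℝ) : ℝ :=
  ∑ z, M s.c (fun j => f (s.L j) z x) ^ 2

noncomputable def cost (p : ℕ) (s : Gs β) : ℝ → ℝ := q2 s (R.gc p)
noncomputable def cS (σ : ℝ) (p : ℕ) (s : Gs β) : ℝ → ℝ := q2 s (R.sgk σ p)
noncomputable def cTk (σ : ℝ) (p : ℕ) (s : Gs β) : ℝ → ℝ := q2 s (R.tgk σ p)

/-- potential of bundle functions -/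
noncomputable def pot (σ : ℝ) (s : Gs β) (f : β → δ → ℝ → ℝ) (x : ℝ) : ℝ :=
  PS σ s.c s.W fun z j => f (s.L j) z x

noncomputable def Pt (σ : ℝ) (p : ℕ) (s : Gs β) : ℝ → ℝ := pot σ s (R.hk σ p)
noncomputable def PtB (σ : ℝ) (p : ℕ) (s : Gs β) : ℝ → ℝ := pot σ s (R.hBk σ p)
noncomputable def PtR (σ : ℝ) (p : ℕ) (s : Gs β) : ℝ → ℝ := pot σ s (R.hNk σ p)
noncomputable def PR (σ : ℝ) (p : ℕ) (s : Gs β) : ℝ → ℝ := pot σ s (R.sXk σ p)

/-- column error -/
noncomputable def ex (σ : ℝ) (p : ℕ) (s : Gs β) (x : ℝ) : ℝ :=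
  ∑ z, Ep p (fun x => M s.c fun j => R.sgk σ p (s.L j) z x) (p * x) ^ 2

/-- **join energy of a bundle** -/
noncomputable def jb (p : ℕ) (b : β) (z : δ) (x : ℝ) : ℝ :=
  4 * (R.hL p b z x * R.hB p b z x + R.hL p b z x * R.hN p b z x + R.hB p b z x * R.hN p b z x)
noncomputable def jn (p : ℕ) (s : Gs β) : ℝ → ℝ := sm2 s (R.jb p)

variable {R} {p : ℕ} {s : Gs β} {σ : ℝ}

lemma gok_C (hs : R.gok p s) (hp : p ≠ 0) : R.gok p (R.C p s) := by
  by_cases h : 2 ≤ p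
  · rw [C_pos R h]
    refine ⟨hs.1.tie (RS.q_bd h), fun x => ?_⟩
    show R.ok p (if x.2 = true then R.cP p (s.L x.1) else R.cN p (s.L x.1))
    split_ifs
    · exact R.okP (hs.2 x.1) hp
    · exact R.okN (hs.2 x.1) hp
  · rw [C_neg R h]
    exact ⟨hs.1, fun j => R.okP (hs.2 j) hp⟩

lemma gok_N (hs : R.gok p s) (hp : p ≠ 0) : R.gok (p - 1) (R.N p s) :=
  ⟨hs.1, fun j => R.okR (hs.2 j) hp⟩

/-! general facts on `sm2`, `q2`, `pot` -/

lemma sm2_nonneg (hs : R.gok p s) {f : β → δ → ℝ → ℝ} {x : ℝ} (hf : ∀ j z, 0 ≤ f (s.L j) z x) :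
    0 ≤ sm2 s f x := SS_nonneg hs.1.c0 fun z j => hf j z

lemma sm2_mono (hs : R.gok p s) {f g : β → δ → ℝ → ℝ} {x : ℝ}
    (hf : ∀ j z, f (s.L j) z x ≤ g (s.L j) z x) : sm2 s f x ≤ sm2 s g x :=
  Finset.sum_le_sum fun z _ => M_mono hs.1.c0 fun j => hf j z

lemma sm2_congr {f g : β → δ → ℝ → ℝ} {x : ℝ} (hf : ∀ j z, f (s.L j) z x = g (s.L j) z x) :
    sm2 s f x = sm2 s g x := by
  unfold sm2
  congr 1
  funext z j
  exact hf j z

lemma sm2_add (f g : β → δ → ℝ → ℝ) (x : ℝ) :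
    sm2 s (fun b z x => f b z x + g b z x) x = sm2 s f x + sm2 s g x := SS_add _ _

lemma PB_sm2 (hs : R.gok p s) {f : β → δ → ℝ → ℝ} (hf : ∀ j z, PB (f (s.L j) z)) :
    PB (sm2 s f) :=
  PB.sum _ fun z _ => PB_M hs.1.c0 (f := fun x j => f (s.L j) z x) fun j => hf j z

lemma PB_q2 (hs : R.gok p s) {f : β → δ → ℝ → ℝ} (hf : ∀ j z, PB (f (s.L j) z)) :
    PB (q2 s f) :=
  PB.sum _ fun z _ => PBsq (PB_M hs.1.c0 (f := fun x j => f (s.L j) z x) fun j => hf j z)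

lemma PB_pot (hs : R.gok p s) (hσ : 0 < σ) {f : β → δ → ℝ → ℝ} (hf : ∀ j z, PB (f (s.L j) z))
    (h1 : ∀ j z x, f (s.L j) z x ≤ σ) : PB (pot σ s f) := by
  have key : PB fun x => PP s.c s.W fun z j => f (s.L j) z x / σ := by
    refine PB.sum _ fun z _ => PB_Pot hs.1 (f := fun x j => f (s.L j) z x / σ) (fun j => ?_)
      fun x j => (div_le_one hσ).2 (h1 j z x)
    have := (hf j z).smul (c := 1 / σ) (by positivity)
    have e : (fun x => f (s.L j) z x / σ) = fun x => 1 / σ * f (s.L j) z x :=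
      funext fun x => by ring
    rw [e]; exact this
  exact key.smul (sq_nonneg σ)

lemma q2_nonneg (f : β → δ → ℝ → ℝ) (x : ℝ) : 0 ≤ q2 s f x :=
  Finset.sum_nonneg fun z _ => sq_nonneg _

lemma q2_le_sq (hs : R.gok p s) {f : β → δ → ℝ → ℝ} {x : ℝ} (hf : ∀ j z, 0 ≤ f (s.L j) z x) :
    q2 s f x ≤ sm2 s f x ^ 2 :=
  PN36.sum_sq_le _ _ fun z _ => M_nonneg hs.1.c0 fun j => hf j z

lemma q2_le_mul (hs : R.gok p s) {f g : β → δ → ℝ → ℝ} {x : ℝ} (hf : ∀ j z, 0 ≤ f (s.L j) z x)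
    (hfg : ∀ j z, f (s.L j) z x ≤ g (s.L j) z x) (hg : ∀ j z, g (s.L j) z x ≤ σ) :
    q2 s f x ≤ σ * sm2 s g x := by
  unfold q2 sm2 SS
  rw [Finset.mul_sum]
  refine Finset.sum_le_sum fun z _ => ?_
  have h1 : M s.c (fun j => f (s.L j) z x) ≤ M s.c (fun j => g (s.L j) z x) :=
    M_mono hs.1.c0 fun j => hfg j z
  have h2 : M s.c (fun j => g (s.L j) z x) ≤ σ := by
    rw [← M_const hs.1.c1 σ]
    exact M_mono hs.1.c0 fun j => hg j z
  have h3 : 0 ≤ M s.c (fun j => f (s.L j) z x) := M_nonneg hs.1.c0 fun j => hf j z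
  nlinarith

/-! contents -/

lemma er (hs : R.gok p s) (hp : p ≠ 0) (j : s.J) (z : δ) :
    ER p (R.h p (R.cP p (s.L j)) z) (R.h p (R.cN p (s.L j)) z) (R.Bc p (s.L j) z)
      (R.gc p (s.L j) z) := R.row (hs.2 j) hp z

lemma pBb (hs : R.gok p s) (hp : p ≠ 0) (j : s.J) (z : δ) : PB (R.hB p (s.L j) z) :=
  ((er hs hp j z).pB.pull p).add (er hs hp j z).pg

lemma sp' (hs : R.gok p s) (hp : p ≠ 0) (j : s.J) (z : δ) (x : ℝ) :
    R.h p (s.L j) z x = R.hL p (s.L j) z x + R.hB p (s.L j) z x + R.hN p (s.L j) z x :=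
  R.sp (hs.2 j) hp z x

/-! totals -/

lemma T_eq (hs : R.gok p s) (x : ℝ) : R.T s x = sm2 s (R.h p) x := by
  unfold T sm2 SS
  rw [← M_sum]
  congr 1
  funext j
  exact (R.sh (hs.2 j) x).symm

lemma TN_eq (hs : R.gok p s) (hp : p ≠ 0) (x : ℝ) : R.T (R.N p s) x = sm2 s (R.hN p) x := by
  show M s.c (fun j => R.tt (R.rN p (s.L j)) x) = _
  unfold sm2 SS
  rw [← M_sum]
  congr 1
  funext j
  exact (R.sN (hs.2 j) hp x).symm

lemma PB_T (hs : R.gok p s) : PB (R.T s) := by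
  have e : R.T s = sm2 s (R.h p) := funext fun x => T_eq hs x
  rw [e]; exact PB_sm2 hs fun j z => R.ph (hs.2 j) z

lemma PB_TL (hs : R.gok p s) (hp : p ≠ 0) : PB (R.TL p s) := PB_sm2 hs fun j z => R.pL (hs.2 j) hp z
lemma PB_TB (hs : R.gok p s) (hp : p ≠ 0) : PB (R.TB p s) := PB_sm2 hs fun j z => pBb hs hp j z
lemma PB_bT (hs : R.gok p s) (hp : p ≠ 0) : PB (R.bT p s) := PB_sm2 hs fun j z => (er hs hp j z).pB
lemma PB_GT (hs : R.gok p s) (hp : p ≠ 0) : PB (R.GT p s) := PB_sm2 hs fun j z => (er hs hp j z).pg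

theorem spl (hs : R.gok p s) (hp : p ≠ 0) (x : ℝ) :
    R.T s x = R.TL p s x + R.TB p s x + R.T (R.N p s) x := by
  rw [T_eq hs, TN_eq hs hp]
  unfold TL TB
  rw [← sm2_add, ← sm2_add]
  exact sm2_congr fun j z => sp' hs hp j z x

theorem dec' (x : ℝ) : R.TB p s x = R.bT p s (p * x) + R.GT p s x := by
  unfold TB bT GT
  show sm2 s (fun b z x => R.hB p b z x) x = _
  unfold sm2
  rw [← SS_add]
  rfl

/-- the average over a fibre of the sum over the classes -/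
lemma Ep_sm2 (f : β → δ → ℝ → ℝ) (y : ℝ) :
    Ep p (sm2 s f) y = SS s.c fun z j => Ep p (f (s.L j) z) y := by
  unfold sm2 SS M Ep
  simp only [Finset.sum_div, Finset.mul_sum]
  rw [Finset.sum_comm]
  refine Finset.sum_congr rfl fun z _ => ?_
  rw [Finset.sum_comm]
  refine Finset.sum_congr rfl fun j _ => Finset.sum_congr rfl fun i _ => by ring

/-- **the mean of a family of exact rows** -/
lemma mean_gen (hs : R.gok p s) (hp : p ≠ 0) {F : β → δ → ℝ → ℝ} {B g : β → δ → ℝ → ℝ}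
    (h : ∀ j z, ER p (F (R.cP p (s.L j)) z) (F (R.cN p (s.L j)) z) (B (s.L j) z) (g (s.L j) z))
    (h1 : p = 1 → ∀ j z y, F (R.cP p (s.L j)) z y = 0 ∧ F (R.cN p (s.L j)) z y = 0)
    (y : ℝ) : sm2 s B y + Ep p (sm2 s g) y = sm2 (R.C p s) F y := by
  have hp0 : 0 < p := Nat.pos_of_ne_zero hp
  rw [Ep_sm2]
  have e1 : sm2 s B y + SS s.c (fun z j => Ep p (g (s.L j) z) y) =
      SS s.c fun z j => (1 - 1 / (p : ℝ)) * F (R.cP p (s.L j)) z y +
        1 / (p : ℝ) * F (R.cN p (s.L j)) z y := by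
    unfold sm2
    rw [← SS_add]
    congr 1
    funext z j
    exact ER_mean (h j z) hp0 y
  rw [e1]
  by_cases h2 : 2 ≤ p
  · rw [C_pos R h2]
    show _ = SS (cT (1 - 1 / (p : ℝ)) s.c) fun z (x : s.J × Bool) =>
      F (if x.2 = true then R.cP p (s.L x.1) else R.cN p (s.L x.1)) z y
    unfold SS
    refine Finset.sum_congr rfl fun z _ => ?_
    rw [M_cT]
    congr 1
    funext j
    unfold av
    simp
    ring
  · have hp1 : p = 1 := by omega
    rw [C_neg R h2]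
    show _ = SS s.c fun z j => F (R.cP p (s.L j)) z y
    congr 1
    funext z j
    rw [(h1 hp1 j z y).1, (h1 hp1 j z y).2]
    ring

theorem mean (hs : R.gok p s) (hp : p ≠ 0) (y : ℝ) : Ep p (R.TB p s) y = R.T (R.C p s) y := by
  have hp0 : 0 < p := Nat.pos_of_ne_zero hp
  have h := mean_gen (F := R.h p) hs hp (fun j z => er hs hp j z)
    (fun h1 j z y => by subst h1; exact R.no1 (hs.2 j) z y) y
  rw [T_eq (gok_C hs hp), ← h]
  have e : R.TB p s = fun x => R.bT p s (p * x) + R.GT p s x := funext fun x => dec' x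
  rw [e]
  have hp' : (p : ℝ) ≠ 0 := by exact_mod_cast hp
  unfold Ep
  have e2 : ∀ i ∈ Finset.range p, R.bT p s (p * ((y + (i : ℝ)) / p)) + R.GT p s ((y + (i : ℝ)) / p) =
      R.bT p s y + R.GT p s ((y + (i : ℝ)) / p) := fun i _ => by
    rw [pull_fibre hp0 (PB_bT hs hp).per y i]
  rw [Finset.sum_congr rfl e2, Finset.sum_add_distrib, Finset.sum_const, Finset.card_range,
    nsmul_eq_mul, add_div, mul_div_cancel_left₀ _ hp']
  rfl

/-! short totals -/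

section short
variable (hσ : 0 < σ)
include hσ

lemma erS (hs : R.gok p s) (hp : p ≠ 0) (j : s.J) (z : δ) :
    ER p (R.hk σ p (R.cP p (s.L j)) z) (R.hk σ p (R.cN p (s.L j)) z) (R.sBk σ p (s.L j) z)
      (R.sgk σ p (s.L j) z) := (er hs hp j z).short (Nat.pos_of_ne_zero hp) hσ.le

lemma PB_hk (hs : R.gok p s) (j : s.J) (z : δ) : PB (R.hk σ p (s.L j) z) :=
  PB_minc hσ.le (R.ph (hs.2 j) z)
lemma PB_hLk (hs : R.gok p s) (hp : p ≠ 0) (j : s.J) (z : δ) : PB (R.hLk σ p (s.L j) z) :=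
  PB_minc hσ.le (R.pL (hs.2 j) hp z)
lemma PB_hBk (hs : R.gok p s) (hp : p ≠ 0) (j : s.J) (z : δ) : PB (R.hBk σ p (s.L j) z) :=
  PB_minc hσ.le (pBb hs hp j z)
lemma PB_hNk (hs : R.gok p s) (hp : p ≠ 0) (j : s.J) (z : δ) : PB (R.hNk σ p (s.L j) z) :=
  PB_minc hσ.le (R.pN (hs.2 j) hp z)
lemma PB_sEk (hs : R.gok p s) (hp : p ≠ 0) (j : s.J) (z : δ) : PB (R.sEk σ p (s.L j) z) :=
  (er hs hp j z).PB_sE (Nat.pos_of_ne_zero hp) hσ.le
lemma PB_tgk (hs : R.gok p s) (hp : p ≠ 0) (j : s.J) (z : δ) : PB (R.tgk σ p (s.L j) z) :=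
  ((er hs hp j z).tall (Nat.pos_of_ne_zero hp) hσ.le).pg
lemma PB_sXk (hs : R.gok p s) (hp : p ≠ 0) (j : s.J) (z : δ) : PB (R.sXk σ p (s.L j) z) :=
  ((erS hσ hs hp j z).pB.pull p).add (erS hσ hs hp j z).pg

lemma PB_A (hs : R.gok p s) : PB (R.A σ p s) := PB_sm2 hs fun j z => PB_hk hσ hs j z
lemma PB_AL (hs : R.gok p s) (hp : p ≠ 0) : PB (R.AL σ p s) :=
  PB_sm2 hs fun j z => PB_hLk hσ hs hp j z
lemma PB_AB (hs : R.gok p s) (hp : p ≠ 0) : PB (R.AB σ p s) :=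
  PB_sm2 hs fun j z => PB_hBk hσ hs hp j z
lemma PB_AR (hs : R.gok p s) (hp : p ≠ 0) : PB (R.AR σ p s) :=
  PB_sm2 hs fun j z => PB_hNk hσ hs hp j z
lemma PB_be (hs : R.gok p s) (hp : p ≠ 0) : PB (R.be σ p s) :=
  PB_sm2 hs fun j z => (erS hσ hs hp j z).pB
lemma PB_G (hs : R.gok p s) (hp : p ≠ 0) : PB (R.G σ p s) :=
  PB_sm2 hs fun j z => (erS hσ hs hp j z).pg
lemma PB_bt (hs : R.gok p s) (hp : p ≠ 0) : PB (R.bt σ p s) :=
  PB_sm2 hs fun j z => PB_sEk hσ hs hp j z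

omit hσ in
lemma PB_cost (hs : R.gok p s) (hp : p ≠ 0) : PB (R.cost p s) := PB_q2 hs fun j z => (er hs hp j z).pg
lemma PB_cS (hs : R.gok p s) (hp : p ≠ 0) : PB (R.cS σ p s) :=
  PB_q2 hs fun j z => (erS hσ hs hp j z).pg

/-- the truncated content of the ties = truncated row + births -/
lemma hBk_eq (hs : R.gok p s) (hp : p ≠ 0) (j : s.J) (z : δ) (x : ℝ) :
    R.hBk σ p (s.L j) z x = R.sXk σ p (s.L j) z x + R.sEk σ p (s.L j) z x := min_row σ x

lemma sXk_nonneg (hs : R.gok p s) (hp : p ≠ 0) (j : s.J) (z : δ) (x : ℝ) :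
    0 ≤ R.sXk σ p (s.L j) z x := (PB_sXk hσ hs hp j z).nonneg x

lemma sEk_nonneg (hs : R.gok p s) (hp : p ≠ 0) (j : s.J) (z : δ) (x : ℝ) :
    0 ≤ R.sEk σ p (s.L j) z x := (PB_sEk hσ hs hp j z).nonneg x

lemma sXk_le (hs : R.gok p s) (hp : p ≠ 0) (j : s.J) (z : δ) (x : ℝ) :
    R.sXk σ p (s.L j) z x ≤ σ := by
  have h1 := hBk_eq hσ hs hp j z x
  have h2 := sEk_nonneg hσ hs hp j z x
  have h3 : R.hBk σ p (s.L j) z x ≤ σ := min_le_right _ _
  linarith

theorem decA (hs : R.gok p s) (hp : p ≠ 0) (x : ℝ) :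
    R.AB σ p s x = R.be σ p s (p * x) + R.G σ p s x + R.bt σ p s x := by
  unfold AB be G bt
  have e : sm2 s (R.hBk σ p) x = SS s.c fun z j =>
      (R.sBk σ p (s.L j) z (p * x) + R.sgk σ p (s.L j) z x) + R.sEk σ p (s.L j) z x := by
    unfold sm2
    congr 1
    funext z j
    exact hBk_eq hσ hs hp j z x
  rw [e, SS_add, SS_add]
  rfl

theorem AB_le (hs : R.gok p s) (hp : p ≠ 0) (x : ℝ) : R.AB σ p s x ≤ R.TB p s x :=
  sm2_mono hs fun j z => min_le_left _ _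

theorem AL_le (hs : R.gok p s) (hp : p ≠ 0) (x : ℝ) : R.AL σ p s x ≤ R.TL p s x :=
  sm2_mono hs fun j z => min_le_left _ _

theorem AR_le (hs : R.gok p s) (hp : p ≠ 0) (x : ℝ) : R.AR σ p s x ≤ R.T (R.N p s) x := by
  rw [TN_eq hs hp]
  exact sm2_mono hs fun j z => min_le_left _ _

theorem A_le (hs : R.gok p s) (x : ℝ) : R.A σ p s x ≤ R.T s x := by
  rw [T_eq hs]
  exact sm2_mono hs fun j z => min_le_left _ _

theorem decB (hs : R.gok p s) (hp : p ≠ 0) (x : ℝ) :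
    R.be σ p s (p * x) + R.G σ p s x + R.bt σ p s x ≤ R.TB p s x := by
  rw [← decA hσ hs hp]
  exact AB_le hσ hs hp x

theorem meanA (hs : R.gok p s) (hp : p ≠ 0) (y : ℝ) :
    R.be σ p s y + Ep p (R.G σ p s) y = R.A σ p (R.C p s) y :=
  mean_gen (F := R.hk σ p) hs hp (fun j z => erS hσ hs hp j z) (fun h1 j z y => by
    subst h1
    have h := R.no1 (hs.2 j) z y
    constructor
    · show min (R.h 1 (R.cP 1 (s.L j)) z y) σ = 0
      rw [h.1, min_eq_left hσ.le]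
    · show min (R.h 1 (R.cN 1 (s.L j)) z y) σ = 0
      rw [h.2, min_eq_left hσ.le]) y

/-! costs -/

theorem c1 (hs : R.gok p s) (hp : p ≠ 0) (x : ℝ) : R.cS σ p s x ≤ R.G σ p s x ^ 2 :=
  q2_le_sq hs fun j z => (erS hσ hs hp j z).pg.nonneg x

theorem c2 (hs : R.gok p s) (hp : p ≠ 0) (x : ℝ) :
    R.cS σ p s x ≤ σ * (R.be σ p s (p * x) + R.G σ p s x) := by
  have e : R.be σ p s (p * x) + R.G σ p s x = sm2 s (R.sXk σ p) x := by
    unfold be G
    show _ = SS s.c fun z j => R.sBk σ p (s.L j) z (p * x) + R.sgk σ p (s.L j) z x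
    rw [SS_add]
    rfl
  rw [e]
  refine q2_le_mul (σ := σ) hs (fun j z => (erS hσ hs hp j z).pg.nonneg x) (fun j z => ?_)
    fun j z => sXk_le hσ hs hp j z x
  have := (erS hσ hs hp j z).pB.nonneg (p * x)
  show R.sgk σ p (s.L j) z x ≤ R.sBk σ p (s.L j) z (p * x) + R.sgk σ p (s.L j) z x
  linarith

lemma tg_eq (hs : R.gok p s) (hp : p ≠ 0) (j : s.J) (z : δ) (x : ℝ) :
    R.sgk σ p (s.L j) z x + R.tgk σ p (s.L j) z x = R.gc p (s.L j) z x :=
  (er hs hp j z).lift_add (Nat.pos_of_ne_zero hp) σ x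

theorem c4 (hs : R.gok p s) (hp : p ≠ 0) (x : ℝ) :
    R.cTk σ p s x ≤ (R.GT p s x - R.G σ p s x) ^ 2 := by
  have e : R.GT p s x = R.G σ p s x + sm2 s (R.tgk σ p) x := by
    unfold GT G
    rw [← sm2_add]
    exact sm2_congr fun j z => (tg_eq hσ hs hp j z x).symm
  have h := q2_le_sq hs (f := R.tgk σ p) (x := x) fun j z => (PB_tgk hσ hs hp j z).nonneg x
  have e2 : R.GT p s x - R.G σ p s x = sm2 s (R.tgk σ p) x := by rw [e]; ring
  rw [e2]
  exact h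

theorem cc (hs : R.gok p s) (hp : p ≠ 0) (x : ℝ) :
    R.cost p s x ≤ 2 * R.cS σ p s x + 2 * R.cTk σ p s x := by
  unfold cost cS cTk q2
  rw [Finset.mul_sum, Finset.mul_sum, ← Finset.sum_add_distrib]
  refine Finset.sum_le_sum fun z _ => ?_
  have e : M s.c (fun j => R.gc p (s.L j) z x) = M s.c (fun j => R.sgk σ p (s.L j) z x) +
      M s.c (fun j => R.tgk σ p (s.L j) z x) := by
    rw [← M_add]
    congr 1
    funext j
    exact (tg_eq hσ hs hp j z x).symm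
  rw [e]
  nlinarith [sq_nonneg (M s.c (fun j => R.sgk σ p (s.L j) z x) -
    M s.c (fun j => R.tgk σ p (s.L j) z x))]

theorem c3 (hs : R.gok p s) (hp : p ≠ 0) (x : ℝ) :
    R.cost p s x ≤ 2 * (σ * R.AB σ p s x) + 2 * (R.TB p s x - R.AB σ p s x) ^ 2 := by
  have hx : ∀ j z, R.gc p (s.L j) z x ≤ R.hBk σ p (s.L j) z x + xs σ (R.hB p (s.L j) z x) := by
    intro j z
    have h1 : R.hBk σ p (s.L j) z x + xs σ (R.hB p (s.L j) z x) = R.hB p (s.L j) z x :=
      min_add_xs σ _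
    rw [h1]
    have := (er hs hp j z).pB.nonneg (p * x)
    show R.gc p (s.L j) z x ≤ R.Bc p (s.L j) z (p * x) + R.gc p (s.L j) z x
    linarith
  have e : R.TB p s x - R.AB σ p s x = sm2 s (fun b z x => xs σ (R.hB p b z x)) x := by
    have : R.TB p s x = R.AB σ p s x + sm2 s (fun b z x => xs σ (R.hB p b z x)) x := by
      unfold TB AB
      rw [← sm2_add]
      exact sm2_congr fun j z => (min_add_xs σ _).symm
    rw [this]; ring
  rw [e]
  have h2 := q2_le_sq hs (f := fun b z x => xs σ (R.hB p b z x)) (x := x)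
    fun j z => xs_nonneg _ _
  have h3 : q2 s (R.hBk σ p) x ≤ σ * R.AB σ p s x :=
    q2_le_mul (σ := σ) hs (fun j z => (PB_hBk hσ hs hp j z).nonneg x) (fun j z => le_rfl)
      fun j z => min_le_right _ _
  have h4 : R.cost p s x ≤ 2 * q2 s (R.hBk σ p) x +
      2 * q2 s (fun b z x => xs σ (R.hB p b z x)) x := by
    unfold cost q2
    rw [Finset.mul_sum, Finset.mul_sum, ← Finset.sum_add_distrib]
    refine Finset.sum_le_sum fun z _ => ?_
    have h5 : M s.c (fun j => R.gc p (s.L j) z x) ≤ M s.c (fun j => R.hBk σ p (s.L j) z x) +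
        M s.c (fun j => xs σ (R.hB p (s.L j) z x)) := by
      rw [← M_add]
      exact M_mono hs.1.c0 fun j => hx j z
    have h6 : 0 ≤ M s.c (fun j => R.gc p (s.L j) z x) :=
      M_nonneg hs.1.c0 fun j => (er hs hp j z).pg.nonneg x
    nlinarith [sq_nonneg (M s.c (fun j => R.hBk σ p (s.L j) z x) -
      M s.c (fun j => xs σ (R.hB p (s.L j) z x)))]
  linarith

/-! potentials -/

theorem PB_Pt (hs : R.gok p s) : PB (R.Pt σ p s) :=
  PB_pot hs hσ (fun j z => PB_hk hσ hs j z) fun j z x => min_le_right _ _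
theorem PB_PtB (hs : R.gok p s) (hp : p ≠ 0) : PB (R.PtB σ p s) :=
  PB_pot hs hσ (fun j z => PB_hBk hσ hs hp j z) fun j z x => min_le_right _ _
theorem PB_PtR (hs : R.gok p s) (hp : p ≠ 0) : PB (R.PtR σ p s) :=
  PB_pot hs hσ (fun j z => PB_hNk hσ hs hp j z) fun j z x => min_le_right _ _
theorem PB_PR (hs : R.gok p s) (hp : p ≠ 0) : PB (R.PR σ p s) :=
  PB_pot hs hσ (fun j z => PB_sXk hσ hs hp j z) fun j z x => sXk_le hσ hs hp j z x

theorem born (hs : R.gok p s) (x : ℝ) : R.Pt σ p s x ≤ 14 * (σ * R.A σ p s x) :=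
  PS_born hs.1 hσ fun z j => (PB_hk hσ hs j z).nonneg x

theorem bR (hs : R.gok p s) (hp : p ≠ 0) (x : ℝ) :
    R.PR σ p s x ≤ 14 * (σ * (R.be σ p s (p * x) + R.G σ p s x)) := by
  have e : R.be σ p s (p * x) + R.G σ p s x = sm2 s (R.sXk σ p) x := by
    unfold be G
    show _ = SS s.c fun z j => R.sBk σ p (s.L j) z (p * x) + R.sgk σ p (s.L j) z x
    rw [SS_add]
    rfl
  rw [e]
  exact PS_born hs.1 hσ fun z j => sXk_nonneg hσ hs hp j z x

theorem PB1 (hs : R.gok p s) (hp : p ≠ 0) (x : ℝ) :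
    R.PtB σ p s x ≤ R.PR σ p s x + 14 * (σ * R.bt σ p s x) := by
  have h := PS_drop hs.1 hσ (f := fun z j => R.sXk σ p (s.L j) z x)
    (g := fun z j => R.sEk σ p (s.L j) z x) fun z j => sEk_nonneg hσ hs hp j z x
  have e : R.PtB σ p s x = PS σ s.c s.W fun z j =>
      R.sXk σ p (s.L j) z x + R.sEk σ p (s.L j) z x :=
    PS_congr fun z j => hBk_eq hσ hs hp j z x
  rw [e]
  exact h

theorem PB2 (hs : R.gok p s) (hp : p ≠ 0) (x : ℝ) :
    R.PtB σ p s x ≤ 14 * (σ * R.AB σ p s x) :=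
  PS_born hs.1 hσ fun z j => (PB_hBk hσ hs hp j z).nonneg x

/-! joins -/

theorem lam (hs : R.gok p s) (hp : p ≠ 0) (x : ℝ) :
    R.A σ p s x ≤ R.AB σ p s x + R.AR σ p s x + R.AL σ p s x := by
  unfold A AB AR AL
  rw [← sm2_add, ← sm2_add]
  refine sm2_mono hs fun j z => ?_
  show min (R.h p (s.L j) z x) σ ≤ min (R.hB p (s.L j) z x) σ + min (R.hN p (s.L j) z x) σ +
    min (R.hL p (s.L j) z x) σ
  rw [sp' hs hp j z x]
  have h1 := (R.pL (hs.2 j) hp z).nonneg x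
  have h2 := (pBb hs hp j z).nonneg x
  have h3 := (R.pN (hs.2 j) hp z).nonneg x
  have t1 := tl_nonneg hσ.le h2 h3
  have t2 := tl_nonneg hσ.le (add_nonneg h2 h3) h1
  have e := tl3 σ (R.hB p (s.L j) z x) (R.hN p (s.L j) z x) (R.hL p (s.L j) z x)
  have e2 : R.hL p (s.L j) z x + R.hB p (s.L j) z x + R.hN p (s.L j) z x =
    R.hB p (s.L j) z x + R.hN p (s.L j) z x + R.hL p (s.L j) z x := by ring
  rw [e2]
  linarith

end short

/-- **the losses at all scales** -/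
theorem lamJ (hs : R.gok p s) (hp : p ≠ 0) (n : ℕ) (x : ℝ) :
    ∑ l ∈ Finset.range n, (2 : ℝ) ^ l * (R.AB (2 ^ l) p s x + R.AR (2 ^ l) p s x +
      R.AL (2 ^ l) p s x - R.A (2 ^ l) p s x) ≤ R.jn p s x := by
  have e1 : ∀ l : ℕ, (2 : ℝ) ^ l * (R.AB (2 ^ l) p s x + R.AR (2 ^ l) p s x +
      R.AL (2 ^ l) p s x - R.A (2 ^ l) p s x) = ∑ z, ∑ j, s.c j * ((2 : ℝ) ^ l *
        (min (R.hL p (s.L j) z x) (2 ^ l) + min (R.hB p (s.L j) z x) (2 ^ l) +
          min (R.hN p (s.L j) z x) (2 ^ l) -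
          min (R.hL p (s.L j) z x + R.hB p (s.L j) z x + R.hN p (s.L j) z x) (2 ^ l))) := by
    intro l
    unfold AB AR AL A sm2 SS M
    simp only [← Finset.sum_add_distrib, ← Finset.sum_sub_distrib, Finset.mul_sum]
    refine Finset.sum_congr rfl fun z _ => Finset.sum_congr rfl fun j _ => ?_
    rw [← sp' hs hp j z x]
    unfold hLk hBk hNk hk
    ring
  rw [Finset.sum_congr rfl fun l _ => e1 l, Finset.sum_comm]
  unfold jn sm2 SS M
  refine Finset.sum_le_sum fun z _ => ?_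
  rw [Finset.sum_comm]
  refine Finset.sum_le_sum fun j _ => ?_
  rw [← Finset.mul_sum]
  refine mul_le_mul_of_nonneg_left ?_ (hs.1.c0 j)
  exact dy3 ((R.pL (hs.2 j) hp z).nonneg x) ((pBb hs hp j z).nonneg x)
    ((R.pN (hs.2 j) hp z).nonneg x) n

theorem PB_jn (hs : R.gok p s) (hp : p ≠ 0) : PB (R.jn p s) := by
  refine PB_sm2 hs fun j z => ?_
  have h1 := R.pL (hs.2 j) hp z
  have h2 := pBb hs hp j z
  have h3 := R.pN (hs.2 j) hp z
  exact (((h1.mul h2).add (h1.mul h3)).add (h2.mul h3)).smul (by norm_num)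

section jo
variable (hσ : 0 < σ)
include hσ

omit hσ in
/-- second part of a truncated sum -/
lemma trunc_second {σ a b : ℝ} (ha : 0 ≤ a) (hb : 0 ≤ b) :
    0 ≤ min (a + b) σ - min a σ ∧ min (a + b) σ - min a σ ≤ min b σ ∨ σ < 0 := by
  by_cases hσ : 0 ≤ σ
  · left
    have h1 := tl_nonneg hσ ha hb
    unfold tl at h1
    have h2 : min a σ ≤ min (a + b) σ := min_le_min_right _ (by linarith)
    constructor <;> linarith
  · exact Or.inr (not_le.1 hσ)

lemma t2nd {a b : ℝ} (ha : 0 ≤ a) (hb : 0 ≤ b) :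
    0 ≤ min (a + b) σ - min a σ ∧ min (a + b) σ - min a σ ≤ min b σ :=
  (trunc_second ha hb).resolve_right (not_lt.2 hσ.le)

/-- **the joins at a scale**, three forms -/
theorem joins (hs : R.gok p s) (hp : p ≠ 0) (x : ℝ) :
    R.Pt σ p s x ≤ R.PtB σ p s x + R.PtR σ p s x +
      14 * (σ * min (R.AB σ p s x) (R.AR σ p s x)) + 14 * (σ * R.AL σ p s x) ∧
    R.Pt σ p s x ≤ R.PtB σ p s x + 14 * (σ * (R.AR σ p s x + R.AL σ p s x)) ∧
    R.Pt σ p s x ≤ R.PtR σ p s x + 14 * (σ * (R.AB σ p s x + R.AL σ p s x)) := by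
  have nL : ∀ z j, 0 ≤ R.hL p (s.L j) z x := fun z j => (R.pL (hs.2 j) hp z).nonneg x
  have nB : ∀ z j, 0 ≤ R.hB p (s.L j) z x := fun z j => (pBb hs hp j z).nonneg x
  have nN : ∀ z j, 0 ≤ R.hN p (s.L j) z x := fun z j => (R.pN (hs.2 j) hp z).nonneg x
  -- parts: B first
  set fB : δ → s.J → ℝ := fun z j => min (R.hB p (s.L j) z x) σ with hfB
  set fN : δ → s.J → ℝ := fun z j => min (R.hB p (s.L j) z x + R.hN p (s.L j) z x) σ -
    min (R.hB p (s.L j) z x) σ with hfN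
  set fL : δ → s.J → ℝ := fun z j =>
    min (R.hB p (s.L j) z x + R.hN p (s.L j) z x + R.hL p (s.L j) z x) σ -
    min (R.hB p (s.L j) z x + R.hN p (s.L j) z x) σ with hfL
  set gN : δ → s.J → ℝ := fun z j => min (R.hN p (s.L j) z x) σ with hgN
  set gB : δ → s.J → ℝ := fun z j => min (R.hN p (s.L j) z x + R.hB p (s.L j) z x) σ -
    min (R.hN p (s.L j) z x) σ with hgB
  have b1 : ∀ z j, 0 ≤ fB z j := fun z j => le_min (nB z j) hσ.le
  have b2 : ∀ z j, 0 ≤ fN z j ∧ fN z j ≤ gN z j := fun z j => t2nd hσ (nB z j) (nN z j)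
  have b3 : ∀ z j, 0 ≤ fL z j ∧ fL z j ≤ min (R.hL p (s.L j) z x) σ := fun z j =>
    t2nd hσ (add_nonneg (nB z j) (nN z j)) (nL z j)
  have b4 : ∀ z j, 0 ≤ gB z j ∧ gB z j ≤ fB z j := fun z j => t2nd hσ (nN z j) (nB z j)
  have b5 : ∀ z j, 0 ≤ gN z j := fun z j => le_min (nN z j) hσ.le
  have eB : PS σ s.c s.W fB = R.PtB σ p s x := rfl
  have eN : PS σ s.c s.W gN = R.PtR σ p s x := rfl
  have sB' : SS s.c fB = R.AB σ p s x := rfl
  have sN' : SS s.c gN = R.AR σ p s x := rfl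
  have sfN : SS s.c fN ≤ R.AR σ p s x := by
    rw [← sN']
    exact Finset.sum_le_sum fun z _ => M_mono hs.1.c0 fun j => (b2 z j).2
  have sfL : SS s.c fL ≤ R.AL σ p s x :=
    Finset.sum_le_sum fun z _ => M_mono hs.1.c0 fun j => (b3 z j).2
  have sgB : SS s.c gB ≤ R.AB σ p s x := by
    rw [← sB']
    exact Finset.sum_le_sum fun z _ => M_mono hs.1.c0 fun j => (b4 z j).2
  have pN : PS σ s.c s.W fN ≤ R.PtR σ p s x := by
    rw [← eN]
    exact PS_mono hs.1 hσ (fun z j => (b2 z j).1) (fun z j => (b2 z j).2)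
      fun z j => min_le_right _ _
  have e0 : R.Pt σ p s x = PS σ s.c s.W fun z j => (fB z j + fN z j) + fL z j := by
    refine PS_congr fun z j => ?_
    show min (R.h p (s.L j) z x) σ = _
    rw [sp' hs hp j z x]
    have e2 : R.hL p (s.L j) z x + R.hB p (s.L j) z x + R.hN p (s.L j) z x =
      R.hB p (s.L j) z x + R.hN p (s.L j) z x + R.hL p (s.L j) z x := by ring
    rw [e2, hfB, hfN, hfL]
    ring
  have e1 : PS σ s.c s.W (fun z j => fB z j + fN z j) =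
      PS σ s.c s.W fun z j => gN z j + gB z j := by
    refine PS_congr fun z j => ?_
    rw [hfB, hfN, hgN, hgB]
    have : R.hN p (s.L j) z x + R.hB p (s.L j) z x = R.hB p (s.L j) z x + R.hN p (s.L j) z x :=
      add_comm _ _
    simp only [this]
    ring
  have d1 := PS_drop hs.1 hσ (f := fun z j => fB z j + fN z j) (g := fL) fun z j => (b3 z j).1
  have d2 := PS_join hs.1 hσ (f := fB) (g := fN) b1 fun z j => (b2 z j).1
  have d3 := PS_drop hs.1 hσ (f := fB) (g := fN) fun z j => (b2 z j).1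
  have d4 := PS_drop hs.1 hσ (f := gN) (g := gB) fun z j => (b4 z j).1
  rw [← e1] at d4
  have m1 : min (SS s.c fB) (SS s.c fN) ≤ min (R.AB σ p s x) (R.AR σ p s x) :=
    min_le_min (le_of_eq sB') sfN
  have k1 := mul_le_mul_of_nonneg_left m1 hσ.le
  have k2 := mul_le_mul_of_nonneg_left sfN hσ.le
  have k3 := mul_le_mul_of_nonneg_left sfL hσ.le
  have k4 := mul_le_mul_of_nonneg_left sgB hσ.le
  rw [e0]
  refine ⟨by linarith, by linarith, by linarith⟩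

/-! the column -/

theorem col (hs : R.gok p s) (hp : p ≠ 0) (y : ℝ) :
    Ep p (fun x => R.cS σ p s x + R.PR σ p s x) y ≤
      R.Pt σ p (R.C p s) y + Ep p (R.ex σ p s) y := by
  have hp0 : 0 < p := Nat.pos_of_ne_zero hp
  have hp' : (0 : ℝ) < p := by exact_mod_cast hp0
  have hC := gok_C hs hp
  have pE : ∀ z, PB (Ep p fun x => M s.c fun j => R.sgk σ p (s.L j) z x) := fun z =>
    (PB_M hs.1.c0 (f := fun x j => R.sgk σ p (s.L j) z x)
      fun j => (erS hσ hs hp j z).pg).Ep hp0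
  by_cases h2 : 2 ≤ p
  · rw [C_pos R h2] at hC ⊢
    have u1 : ∑ _i : Fin p, 1 / (p : ℝ) = 1 := by
      rw [Finset.sum_const, Finset.card_univ, Fintype.card_fin, nsmul_eq_mul]
      field_simp
    have hh0 : ∀ (z : δ) (x : s.J × Bool),
        0 ≤ R.hk σ p (if x.2 = true then R.cP p (s.L x.1) else R.cN p (s.L x.1)) z y :=
      fun z x => (PB_minc hσ.le (R.ph (hC.2 x) z)).nonneg y
    have hx : ∀ i : ℕ, (p:ℝ) * ((y + i) / p) = y + i := fun i => by field_simp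
    have hCol : ∀ z, Col (1 - 1 / (p : ℝ))
        (fun x : s.J × Bool =>
          R.hk σ p (if x.2 = true then R.cP p (s.L x.1) else R.cN p (s.L x.1)) z y)
        (fun _ : Fin p => 1 / (p : ℝ)) (fun i j => R.sXk σ p (s.L j) z ((y + (i : ℕ)) / p)) := by
      intro z
      refine ⟨fun i => by positivity, u1, fun j => ?_⟩
      obtain ⟨a, Δ, h1, h2, h3, h4, h5⟩ := ER_col (erS hσ hs hp j z) hp0 y
      refine ⟨a, Δ, h1, h2, h3, by simpa using h4, fun i => ?_⟩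
      have h6 : R.sXk σ p (s.L j) z ((y + (i : ℕ)) / p) =
          R.sBk σ p (s.L j) z y + R.sgk σ p (s.L j) z ((y + (i : ℕ)) / p) := by
        unfold sXk
        rw [hx i, ((erS hσ hs hp j z).pB).per_nat]
      rw [h6, h5 i]
      unfold av
      simp
    have key := PS_col hs.1 (RS.q_bd h2) hσ
      (h := fun z (x : s.J × Bool) =>
        R.hk σ p (if x.2 = true then R.cP p (s.L x.1) else R.cN p (s.L x.1)) z y)
      (X := fun (i : Fin p) z j => R.sXk σ p (s.L j) z ((y + (i : ℕ)) / p))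
      hh0 (fun z x => min_le_right _ _) (u := fun _ : Fin p => 1 / (p : ℝ))
      (fun _ => by positivity) u1 hCol
      (g := fun i z => M s.c fun j => R.sgk σ p (s.L j) z ((y + (i : ℕ)) / p))
      (β := fun z => M s.c fun j => R.sBk σ p (s.L j) z y)
      (fun i z => by
        rw [← M_add]
        congr 1
        funext j
        unfold sXk
        rw [hx i, ((erS hσ hs hp j z).pB).per_nat])
    have eE : ∀ f : ℝ → ℝ, Ep p f y = ∑ i : Fin p, (1 / (p:ℝ)) * f ((y + (i:ℕ)) / p) := by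
      intro f
      unfold Ep
      rw [Finset.sum_range, Finset.sum_div]
      exact Finset.sum_congr rfl fun i _ => by ring
    have e1 : Ep p (fun x => R.cS σ p s x + R.PR σ p s x) y =
        ∑ i : Fin p, 1 / (p : ℝ) * (∑ z, (M s.c fun j =>
          R.sgk σ p (s.L j) z ((y + (i : ℕ)) / p)) ^ 2 +
          PS σ s.c s.W fun z j => R.sXk σ p (s.L j) z ((y + (i : ℕ)) / p)) := by
      rw [eE]
      rfl
    have e2 : Ep p (R.ex σ p s) y =
        ∑ z, (Ep p (fun x => M s.c fun j => R.sgk σ p (s.L j) z x) y) ^ 2 := by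
      rw [eE]
      have e3 : ∀ i : Fin p, (1 / (p:ℝ)) * R.ex σ p s ((y + (i:ℕ)) / p) =
          (1 / (p:ℝ)) * (∑ z, (Ep p (fun x => M s.c fun j => R.sgk σ p (s.L j) z x) y) ^ 2) := by
        intro i
        unfold ex
        congr 1
        exact Finset.sum_congr rfl fun z _ => by rw [hx i, (pE z).per_nat]
      rw [Finset.sum_congr rfl fun i _ => e3 i, ← Finset.sum_mul, u1, one_mul]
    have e6 : ∑ z, (∑ i : Fin p, 1 / (p : ℝ) *
        (M s.c fun j => R.sgk σ p (s.L j) z ((y + (i : ℕ)) / p))) ^ 2 =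
        ∑ z, (Ep p (fun x => M s.c fun j => R.sgk σ p (s.L j) z x) y) ^ 2 :=
      Finset.sum_congr rfl fun z _ => by
        rw [eE (fun x => M s.c fun j => R.sgk σ p (s.L j) z x)]
    rw [e1, e2, ← e6]
    exact key
  · -- p = 1 : nothing
    have hp1 : p = 1 := by omega
    subst hp1
    have hx0 : ∀ j z x, R.sXk σ 1 (s.L j) z x = 0 := by
      intro j z x
      obtain ⟨t, ht, e1, e2⟩ := (erS hσ hs hp j z).at one_pos x
      have a0 : R.hk σ 1 (R.cP 1 (s.L j)) z (((1 : ℕ) : ℝ) * x) = 0 := by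
        show min (R.h 1 (R.cP 1 (s.L j)) z _) σ = 0
        rw [(R.no1 (hs.2 j) z _).1, min_eq_left hσ.le]
      have b0 : R.hk σ 1 (R.cN 1 (s.L j)) z (((1 : ℕ) : ℝ) * x) = 0 := by
        show min (R.h 1 (R.cN 1 (s.L j)) z _) σ = 0
        rw [(R.no1 (hs.2 j) z _).2, min_eq_left hσ.le]
      unfold sXk
      rw [e1, e2, a0, b0]
      simp [Bs, D]
    have hg0 : ∀ j z x, R.sgk σ 1 (s.L j) z x = 0 := by
      intro j z x
      have h1 := (erS hσ hs hp j z).pg.nonneg x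
      have h2 := (erS hσ hs hp j z).pB.nonneg (((1 : ℕ) : ℝ) * x)
      have h3 := hx0 j z x
      unfold sXk at h3
      linarith
    have e1 : ∀ x, R.cS σ 1 s x + R.PR σ 1 s x = 0 := by
      intro x
      have h1 : R.cS σ 1 s x = 0 := by
        unfold cS q2
        refine Finset.sum_eq_zero fun z _ => ?_
        simp only [hg0]
        rw [M_const hs.1.c1]
        norm_num
      have h2 : R.PR σ 1 s x ≤ 0 := by
        have h := bR hσ hs hp x
        have h3 : R.be σ 1 s (((1 : ℕ) : ℝ) * x) + R.G σ 1 s x = 0 := by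
          have e : R.be σ 1 s (((1 : ℕ) : ℝ) * x) + R.G σ 1 s x = sm2 s (R.sXk σ 1) x := by
            unfold be G
            show _ = SS s.c fun z j => R.sBk σ 1 (s.L j) z (((1 : ℕ) : ℝ) * x) +
              R.sgk σ 1 (s.L j) z x
            rw [SS_add]
            rfl
          rw [e]
          unfold sm2 SS
          refine Finset.sum_eq_zero fun z _ => ?_
          simp only [hx0]
          rw [M_const hs.1.c1]
        rw [h3] at h
        simpa using h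
      have h3 := (PB_PR hσ hs hp).nonneg x
      linarith
    have e2 : Ep 1 (fun x => R.cS σ 1 s x + R.PR σ 1 s x) y = 0 := by
      unfold Ep
      exact div_eq_zero_iff.2 (Or.inl (Finset.sum_eq_zero fun i _ => e1 _))
    rw [e2]
    have q1 := (PB_Pt hσ hC).nonneg y
    have q2 : 0 ≤ Ep 1 (R.ex σ 1 s) y := by
      unfold Ep
      refine div_nonneg (Finset.sum_nonneg fun i _ => ?_) (by norm_num)
      exact Finset.sum_nonneg fun z _ => sq_nonneg _
    exact add_nonneg q1 q2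

theorem PB_ex (hs : R.gok p s) (hp : p ≠ 0) : PB (R.ex σ p s) := by
  have hp0 : 0 < p := Nat.pos_of_ne_zero hp
  refine PB.sum _ fun z _ => PBsq ?_
  exact ((PB_M hs.1.c0 (f := fun x j => R.sgk σ p (s.L j) z x)
      fun j => (erS hσ hs hp j z).pg).Ep hp0).pull p

/-- the column error is second order -/
theorem ex_le (hs : R.gok p s) (hp : p ≠ 0) (y : ℝ) :
    Ep p (R.ex σ p s) y ≤ (Ep p (R.GT p s) y) ^ 2 := by
  have hp0 : 0 < p := Nat.pos_of_ne_zero hp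
  have hp' : (0 : ℝ) < p := by exact_mod_cast hp0
  have pM : ∀ z, PB (fun x => M s.c fun j => R.sgk σ p (s.L j) z x) := fun z =>
    PB_M hs.1.c0 (f := fun x j => R.sgk σ p (s.L j) z x) fun j => (erS hσ hs hp j z).pg
  have pE : ∀ z, PB (Ep p fun x => M s.c fun j => R.sgk σ p (s.L j) z x) := fun z => (pM z).Ep hp0
  have e1 : Ep p (R.ex σ p s) y =
      ∑ z, (Ep p (fun x => M s.c fun j => R.sgk σ p (s.L j) z x) y) ^ 2 := by
    have hpb : PB fun y => ∑ z, Ep p (fun x => M s.c fun j => R.sgk σ p (s.L j) z x) y ^ 2 :=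
      PB.sum _ fun z _ => PBsq (pE z)
    show (∑ i ∈ Finset.range p, (fun y => ∑ z, Ep p (fun x => M s.c fun j =>
      R.sgk σ p (s.L j) z x) y ^ 2) (p * ((y + (i : ℝ)) / p))) / p = _
    have e5 : ∀ i ∈ Finset.range p, (fun y => ∑ z, Ep p (fun x => M s.c fun j =>
        R.sgk σ p (s.L j) z x) y ^ 2) (p * ((y + (i : ℝ)) / p)) =
        ∑ z, Ep p (fun x => M s.c fun j => R.sgk σ p (s.L j) z x) y ^ 2 := fun i _ =>
      pull_fibre (a := fun y => ∑ z, Ep p (fun x => M s.c fun j =>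
        R.sgk σ p (s.L j) z x) y ^ 2) hp0 hpb.per y i
    rw [Finset.sum_congr rfl e5, Finset.sum_const, Finset.card_range, nsmul_eq_mul]
    field_simp
  rw [e1]
  refine (PN36.sum_sq_le _ _ fun z _ => (pE z).nonneg y).trans ?_
  refine pow_le_pow_left₀ (Finset.sum_nonneg fun z _ => (pE z).nonneg y) ?_ 2
  have e2 : Ep p (R.GT p s) y = ∑ z, Ep p (fun x => M s.c fun j => R.gc p (s.L j) z x) y := by
    show Ep p (fun x => ∑ z, M s.c fun j => R.gc p (s.L j) z x) y = _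
    rw [Crest.Agent.R4P.Grp36.Ep_sum']
  rw [e2]
  refine Finset.sum_le_sum fun z _ => ?_
  unfold Ep
  refine div_le_div_of_nonneg_right (Finset.sum_le_sum fun i _ => ?_) hp'.le
  refine M_mono hs.1.c0 fun j => ?_
  have h1 := tg_eq hσ hs hp j z ((y + (i : ℝ)) / p)
  have h2 := (PB_tgk hσ hs hp j z).nonneg ((y + (i : ℝ)) / p)
  linarith

end jo

end RX

end rx

end Crest.Agent.R4P.RXi343
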