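import Crest.Agent.R4P.TrR_343

/-!
R4 (S0004) with powers, T3 (heights > 1), helper343: **row systems with arbitrary heights**, pieces
for the scaled mode game (`ModeS_16`).

* `PS σ c W f = σ² Σ_z Pot c W (f z / σ)` : potential at the scale `σ`; `PS_born`, `PS_drop`,
  `PS_join`, `PS_mono`, `PS_col`, `PS_split` (a finer family of truncated contents).
* `dy_le` : dyadic sums of the losses of the truncations at a join `≤ 4 a b`.
-/

set_option autoImplicit false
set_option linter.unusedSectionVars false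
set_option linter.unusedVariables false
open MeasureTheory Filter Set

namespace Crest.Agent.R4P.RXs343

open Crest.Agent.R4.Tour104 Crest.Agent.R4.Clos758
open Crest.Agent.R4P.GMer27 Crest.Agent.R4P.GCol27 Crest.Agent.R4P.RSys343 Crest.Agent.R4P.TrR343
open Crest.Agent.R4P.ModeP940 (PP SS PP_col PP_join PP_drop PP_born PP_nonneg PP_mono)

/-! ### dyadic sums -/

/-- loss of the truncations at a join -/
noncomputable def tl (σ a b : ℝ) : ℝ := min a σ + min b σ - min (a + b) σ

lemma tl_comm (σ a b : ℝ) : tl σ a b = tl σ b a := by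
  unfold tl; rw [add_comm a b]; ring

lemma tl_nonneg {σ a b : ℝ} (hσ : 0 ≤ σ) (ha : 0 ≤ a) (hb : 0 ≤ b) : 0 ≤ tl σ a b := by
  unfold tl
  rcases le_total a σ with h1 | h1 <;> rcases le_total b σ with h2 | h2 <;>
    rcases le_total (a + b) σ with h3 | h3 <;>
    simp only [min_eq_left, min_eq_right, h1, h2, h3] <;> linarith

lemma tl_le {σ a b : ℝ} (hσ : 0 ≤ σ) (ha : 0 ≤ a) (hb : 0 ≤ b) : tl σ a b ≤ a := by
  unfold tl
  rcases le_total a σ with h1 | h1 <;> rcases le_total b σ with h2 | h2 <;>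
    rcases le_total (a + b) σ with h3 | h3 <;>
    simp only [min_eq_left, min_eq_right, h1, h2, h3] <;> linarith

lemma tl_zero {σ a b : ℝ} (ha : 0 ≤ a) (hb : 0 ≤ b) (h : a + b ≤ σ) : tl σ a b = 0 := by
  unfold tl
  rw [min_eq_left h, min_eq_left (by linarith), min_eq_left (by linarith)]
  ring

lemma dy_aux {a b : ℝ} (ha : 0 ≤ a) (hab : a ≤ b) (n : ℕ) :
    ∑ l ∈ Finset.range n, (2 : ℝ) ^ l * tl (2 ^ l) a b ≤ a * 2 ^ n ∧
    ∑ l ∈ Finset.range n, (2 : ℝ) ^ l * tl (2 ^ l) a b ≤ 4 * (a * b) := by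
  have hb : 0 ≤ b := ha.trans hab
  induction n with
  | zero =>
    simp only [Finset.range_zero, Finset.sum_empty, pow_zero, mul_one]
    exact ⟨ha, by positivity⟩
  | succ n ih =>
    rw [Finset.sum_range_succ]
    have h2 : (0 : ℝ) < 2 ^ n := by positivity
    have h3 := tl_le h2.le ha hb
    have h4 : (2 : ℝ) ^ n * tl (2 ^ n) a b ≤ 2 ^ n * a := mul_le_mul_of_nonneg_left h3 h2.le
    have h5 : (2 : ℝ) ^ (n + 1) = 2 * 2 ^ n := by ring
    have key : ∑ l ∈ Finset.range n, (2 : ℝ) ^ l * tl (2 ^ l) a b + 2 ^ n * tl (2 ^ n) a b ≤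
        a * 2 ^ (n + 1) := by
      rw [h5]
      nlinarith [ih.1]
    refine ⟨key, ?_⟩
    by_cases h : a + b ≤ 2 ^ n
    · rw [tl_zero ha hb h, mul_zero, add_zero]
      exact ih.2
    · push Not at h
      refine key.trans ?_
      rw [h5]
      nlinarith [mul_nonneg ha (show 0 ≤ 2 * b - 2 ^ n by linarith)]

/-- **dyadic sum of the losses** -/
theorem dy_le {a b : ℝ} (ha : 0 ≤ a) (hb : 0 ≤ b) (n : ℕ) :
    ∑ l ∈ Finset.range n, (2 : ℝ) ^ l * tl (2 ^ l) a b ≤ 4 * (a * b) := by
  rcases le_total a b with h | h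
  · exact (dy_aux ha h n).2
  · have := (dy_aux hb h n).2
    simp only [tl_comm _ b a] at this
    rw [mul_comm b a] at this
    exact this

/-- three parts -/
lemma tl3 (σ a b c : ℝ) : min a σ + min b σ + min c σ - min (a + b + c) σ =
    tl σ a b + tl σ (a + b) c := by
  unfold tl; ring

theorem dy3 {a b c : ℝ} (ha : 0 ≤ a) (hb : 0 ≤ b) (hc : 0 ≤ c) (n : ℕ) :
    ∑ l ∈ Finset.range n, (2 : ℝ) ^ l * (min a (2 ^ l) + min b (2 ^ l) + min c (2 ^ l) -
      min (a + b + c) (2 ^ l)) ≤ 4 * (a * b + a * c + b * c) := by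
  have h1 := dy_le ha hb n
  have h2 := dy_le (add_nonneg ha hb) hc n
  have e : ∀ l : ℕ, (2 : ℝ) ^ l * (min a (2 ^ l) + min b (2 ^ l) + min c (2 ^ l) -
      min (a + b + c) (2 ^ l)) = (2 : ℝ) ^ l * tl (2 ^ l) a b + (2 : ℝ) ^ l * tl (2 ^ l) (a + b) c :=
    fun l => by rw [tl3]; ring
  rw [Finset.sum_congr rfl fun l _ => e l, Finset.sum_add_distrib]
  nlinarith

/-! ### scaled potentials -/

section ps
variable {J δ : Type*} [Fintype J] [Fintype δ] {c : J → ℝ} {W : Set (J → ℝ)} {σ : ℝ}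

/-- potential at the scale `σ` -/
noncomputable def PS (σ : ℝ) (c : J → ℝ) (W : Set (J → ℝ)) (f : δ → J → ℝ) : ℝ :=
  σ ^ 2 * PP c W fun z j => f z j / σ

lemma SS_div (f : δ → J → ℝ) : SS c (fun z j => f z j / σ) = SS c f / σ := by
  unfold SS
  rw [Finset.sum_div]
  refine Finset.sum_congr rfl fun z _ => ?_
  have := M_smul (c := c) (1 / σ) (f z)
  have e : (fun j => 1 / σ * f z j) = fun j => f z j / σ := funext fun j => by ring
  rw [e] at this
  rw [this]; ring

lemma PS_nonneg (H : TC c W) (f : δ → J → ℝ) : 0 ≤ PS σ c W f :=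
  mul_nonneg (sq_nonneg _) (PP_nonneg H _)

lemma PS_born (H : TC c W) (hσ : 0 < σ) {f : δ → J → ℝ} (hf : ∀ z j, 0 ≤ f z j) :
    PS σ c W f ≤ 14 * (σ * SS c f) := by
  have h := PP_born H (h := fun z j => f z j / σ) fun z j => div_nonneg (hf z j) hσ.le
  rw [SS_div] at h
  unfold PS
  have h2 := mul_le_mul_of_nonneg_left h (sq_nonneg σ)
  have e : σ ^ 2 * (14 * (SS c f / σ)) = 14 * (σ * SS c f) := by field_simp
  linarith

lemma PS_drop (H : TC c W) (hσ : 0 < σ) {f g : δ → J → ℝ} (hg : ∀ z j, 0 ≤ g z j) :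
    PS σ c W (fun z j => f z j + g z j) ≤ PS σ c W f + 14 * (σ * SS c g) := by
  have h := PP_drop H (h := fun z j => f z j / σ) (h' := fun z j => g z j / σ)
    fun z j => div_nonneg (hg z j) hσ.le
  rw [SS_div] at h
  unfold PS
  have h2 := mul_le_mul_of_nonneg_left h (sq_nonneg σ)
  have e : σ ^ 2 * (PP c W (fun z j => f z j / σ) + 14 * (SS c g / σ)) =
      σ ^ 2 * PP c W (fun z j => f z j / σ) + 14 * (σ * SS c g) := by field_simp
  have e2 : (fun z j => (f z j + g z j) / σ) = fun z j => f z j / σ + g z j / σ :=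
    funext fun z => funext fun j => add_div _ _ _
  rw [e2]
  linarith

lemma PS_join (H : TC c W) (hσ : 0 < σ) {f g : δ → J → ℝ} (hf : ∀ z j, 0 ≤ f z j)
    (hg : ∀ z j, 0 ≤ g z j) : PS σ c W (fun z j => f z j + g z j) ≤
      PS σ c W f + PS σ c W g + 14 * (σ * min (SS c f) (SS c g)) := by
  have h := PP_join H (h := fun z j => f z j / σ) (h' := fun z j => g z j / σ)
    (fun z j => div_nonneg (hf z j) hσ.le) fun z j => div_nonneg (hg z j) hσ.le
  rw [SS_div, SS_div, min_div_div_right hσ.le] at h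
  unfold PS
  have h2 := mul_le_mul_of_nonneg_left h (sq_nonneg σ)
  have e : σ ^ 2 * (PP c W (fun z j => f z j / σ) + PP c W (fun z j => g z j / σ) +
      14 * (min (SS c f) (SS c g) / σ)) = σ ^ 2 * PP c W (fun z j => f z j / σ) +
      σ ^ 2 * PP c W (fun z j => g z j / σ) + 14 * (σ * min (SS c f) (SS c g)) := by field_simp
  have e2 : (fun z j => (f z j + g z j) / σ) = fun z j => f z j / σ + g z j / σ :=
    funext fun z => funext fun j => add_div _ _ _
  rw [e2]
  linarith

lemma PS_mono (H : TC c W) (hσ : 0 < σ) {f g : δ → J → ℝ} (hf : ∀ z j, 0 ≤ f z j)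
    (hg : ∀ z j, f z j ≤ g z j) (h1 : ∀ z j, g z j ≤ σ) : PS σ c W f ≤ PS σ c W g :=
  mul_le_mul_of_nonneg_left (PP_mono H (fun z j => div_nonneg (hf z j) hσ.le)
    (fun z j => div_le_div_of_nonneg_right (hg z j) hσ.le)
    fun z j => (div_le_one hσ).2 (h1 z j)) (sq_nonneg _)

lemma PS_congr {f g : δ → J → ℝ} (h : ∀ z j, f z j = g z j) : PS σ c W f = PS σ c W g := by
  have : f = g := funext fun z => funext fun j => h z j
  rw [this]

lemma Col_div {ι : Type*} [Fintype ι] {q : ℝ} {u : ι → ℝ} {h : J × Bool → ℝ} {X : ι → J → ℝ}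
    (hσ : 0 < σ) (C : Col q h u X) : Col q (fun x => h x / σ) u (fun i j => X i j / σ) where
  u0 := C.u0
  u1 := C.u1
  rule := fun j => by
    obtain ⟨s, Δ, h1, h2, h3, h4, h5⟩ := C.rule j
    refine ⟨s, Δ / σ, h1, h2, div_nonneg h3 hσ.le, ?_, fun i => ?_⟩
    · have e : h (j, false) / σ - h (j, true) / σ = (h (j, false) - h (j, true)) / σ := by ring
      rw [e]
      rcases le_total (h (j, false) - h (j, true)) 0 with h6 | h6
      · rw [max_eq_right h6] at h4
        have : Δ = 0 := le_antisymm h4 h3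
        rw [this, zero_div]
        exact le_max_right _ _
      · rw [max_eq_left h6] at h4
        exact (div_le_div_of_nonneg_right h4 hσ.le).trans (le_max_left _ _)
    · rw [h5 i]
      unfold av
      ring

/-- **the column at the scale `σ`** -/
theorem PS_col {ι : Type*} [Fintype ι] {q : ℝ} {u : ι → ℝ} (H : TC c W) (hq : 0 < q ∧ q < 1)
    (hσ : 0 < σ) {h : δ → J × Bool → ℝ} {X : ι → δ → J → ℝ} (h0 : ∀ z x, 0 ≤ h z x)
    (h1 : ∀ z x, h z x ≤ σ) (u0 : ∀ i, 0 ≤ u i) (u1 : ∑ i, u i = 1)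
    (C : ∀ z, Col q (h z) u (fun i => X i z)) {g : ι → δ → ℝ} {β : δ → ℝ}
    (hg : ∀ i z, M c (X i z) = β z + g i z) :
    ∑ i, u i * (∑ z, g i z ^ 2 + PS σ c W (X i)) ≤
      PS σ (cT q c) (WT q W) h + ∑ z, (∑ i, u i * g i z) ^ 2 := by
  have hσ' : σ ≠ 0 := hσ.ne'
  have key := PP_col H hq (h := fun z x => h z x / σ) (X := fun i z j => X i z j / σ)
    (fun z x => div_nonneg (h0 z x) hσ.le) (fun z x => (div_le_one hσ).2 (h1 z x)) u0 u1
    (fun z => Col_div hσ (C z)) (g := fun i z => g i z / σ) (β := fun z => β z / σ)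
    (fun i z => by
      have := M_smul (c := c) (1 / σ) (X i z)
      have e : (fun j => 1 / σ * X i z j) = fun j => X i z j / σ := funext fun j => by ring
      rw [e] at this
      rw [this, hg i z]; ring)
  have k2 := mul_le_mul_of_nonneg_left key (sq_nonneg σ)
  have e1 : σ ^ 2 * ∑ i, u i * (∑ z, (g i z / σ) ^ 2 + PP c W fun z j => X i z j / σ) =
      ∑ i, u i * (∑ z, g i z ^ 2 + PS σ c W (X i)) := by
    rw [Finset.mul_sum]
    refine Finset.sum_congr rfl fun i _ => ?_
    have e2 : ∑ z, g i z ^ 2 = σ ^ 2 * ∑ z, (g i z / σ) ^ 2 := by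
      rw [Finset.mul_sum]
      exact Finset.sum_congr rfl fun z _ => by field_simp
    rw [e2]
    unfold PS
    ring
  have e3 : σ ^ 2 * (PP (cT q c) (WT q W) (fun z x => h z x / σ) +
      ∑ z, (∑ i, u i * (g i z / σ)) ^ 2) =
      PS σ (cT q c) (WT q W) h + ∑ z, (∑ i, u i * g i z) ^ 2 := by
    rw [mul_add, Finset.mul_sum]
    unfold PS
    congr 1
    refine Finset.sum_congr rfl fun z _ => ?_
    have e4 : ∑ i, u i * (g i z / σ) = (∑ i, u i * g i z) / σ := by
      rw [Finset.sum_div]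
      exact Finset.sum_congr rfl fun i _ => by ring
    rw [e4]
    field_simp
  rw [e1, e3] at k2
  exact k2

variable {δ' : Type*} [Fintype δ'] [DecidableEq δ']

/-- **a finer family of truncated contents**: `Σ_{r z = z'} h z = g z'` -/
theorem PS_split (H : TC c W) (hσ : 0 < σ) (r : δ → δ') {h : δ → J → ℝ} {g : δ' → J → ℝ}
    (h0 : ∀ z j, 0 ≤ h z j)
    (hs : ∀ z' j, ∑ z ∈ Finset.univ.filter (fun z => r z = z'), h z j = g z' j) :
    PS σ c W (fun z j => min (h z j) σ) ≤ PS σ c W (fun z j => min (g z j) σ) +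
      14 * (σ * (SS c (fun z j => min (h z j) σ) - SS c (fun z j => min (g z j) σ))) := by
  classical
  have hg0 : ∀ z' j, 0 ≤ g z' j := fun z' j => by
    rw [← hs]; exact Finset.sum_nonneg fun z _ => h0 z j
  have hle : ∀ z j, h z j ≤ g (r z) j := fun z j => by
    rw [← hs]
    exact Finset.single_le_sum (f := fun z => h z j) (fun z _ => h0 z j)
      (Finset.mem_filter.2 ⟨Finset.mem_univ _, rfl⟩)
  -- the share of a fine class in the truncated coarse class
  let f : δ → J → ℝ := fun z j => h z j * (min (g (r z) j) σ / g (r z) j)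
  have f0 : ∀ z j, 0 ≤ f z j := fun z j =>
    mul_nonneg (h0 z j) (div_nonneg (le_min (hg0 _ _) hσ.le) (hg0 _ _))
  have fm : ∀ z j, f z j ≤ min (h z j) σ := by
    intro z j
    show h z j * (min (g (r z) j) σ / g (r z) j) ≤ _
    rcases eq_or_lt_of_le (hg0 (r z) j) with h1 | h1
    · rw [← h1, div_zero, mul_zero]
      exact le_min (h0 z j) hσ.le
    · refine le_min ?_ ?_
      · refine mul_le_of_le_one_right (h0 z j) ?_
        rw [div_le_one h1]; exact min_le_left _ _
      · calc h z j * (min (g (r z) j) σ / g (r z) j) ≤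
            g (r z) j * (min (g (r z) j) σ / g (r z) j) :=
              mul_le_mul_of_nonneg_right (hle z j)
                (div_nonneg (le_min (hg0 _ _) hσ.le) (hg0 _ _))
          _ = min (g (r z) j) σ := mul_div_cancel₀ _ h1.ne'
          _ ≤ σ := min_le_right _ _
  have fs : ∀ z' j, ∑ z ∈ Finset.univ.filter (fun z => r z = z'), f z j = min (g z' j) σ := by
    intro z' j
    have e : ∀ z ∈ Finset.univ.filter (fun z => r z = z'), f z j =
        h z j * (min (g z' j) σ / g z' j) := fun z hz => by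
      show h z j * (min (g (r z) j) σ / g (r z) j) = _
      rw [(Finset.mem_filter.1 hz).2]
    rw [Finset.sum_congr rfl e, ← Finset.sum_mul, hs]
    rcases eq_or_lt_of_le (hg0 z' j) with h1 | h1
    · rw [← h1, zero_mul, min_eq_left hσ.le]
    · exact mul_div_cancel₀ _ h1.ne'
  -- the shares
  have k1 : PS σ c W f ≤ PS σ c W (fun z j => min (g z j) σ) := by
    unfold PS
    refine mul_le_mul_of_nonneg_left ?_ (sq_nonneg _)
    refine ModeP940.PP_refine H r (fun z j => div_nonneg (f0 z j) hσ.le) (fun z' j => ?_)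
      (fun z' j => (div_le_one hσ).2 (min_le_right _ _))
    rw [← Finset.sum_div, fs]
  have k2 := PS_drop H hσ (f := f) (g := fun z j => min (h z j) σ - f z j)
    fun z j => sub_nonneg.2 (fm z j)
  have e1 : PS σ c W (fun z j => f z j + (min (h z j) σ - f z j)) =
      PS σ c W (fun z j => min (h z j) σ) := PS_congr fun z j => by ring
  have e2 : SS c (fun z j => min (h z j) σ - f z j) =
      SS c (fun z j => min (h z j) σ) - SS c (fun z j => min (g z j) σ) := by
    have e3 : SS c f = SS c (fun z j => min (g z j) σ) := ModeP940.SS_refine r fs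
    rw [← e3]
    unfold SS
    rw [← Finset.sum_sub_distrib]
    exact Finset.sum_congr rfl fun z _ => M_sub _ _
  rw [e1, e2] at k2
  linarith

/-- the truncated contents of a coarser family are smaller -/
lemma SS_split (c0 : ∀ j, 0 ≤ c j) (hσ : 0 < σ) (r : δ → δ') {h : δ → J → ℝ} {g : δ' → J → ℝ}
    (h0 : ∀ z j, 0 ≤ h z j)
    (hs : ∀ z' j, ∑ z ∈ Finset.univ.filter (fun z => r z = z'), h z j = g z' j) :
    SS c (fun z j => min (g z j) σ) ≤ SS c (fun z j => min (h z j) σ) := by
  classical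
  have key : ∀ z' j, min (g z' j) σ ≤
      ∑ z ∈ Finset.univ.filter (fun z => r z = z'), min (h z j) σ := by
    intro z' j
    rw [← hs]
    by_cases hh : ∃ z ∈ Finset.univ.filter (fun z => r z = z'), σ ≤ h z j
    · obtain ⟨z, hz, hz2⟩ := hh
      refine (min_le_right _ _).trans ?_
      have := Finset.single_le_sum (f := fun z => min (h z j) σ)
        (fun z _ => le_min (h0 z j) hσ.le) hz
      refine le_trans ?_ this
      simp [min_eq_right hz2]
    · push Not at hh
      refine (min_le_left _ _).trans (le_of_eq ?_)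
      exact Finset.sum_congr rfl fun z hz => (min_eq_left (hh z hz).le).symm
  have e : SS c (fun z j => min (h z j) σ) = SS c (fun z' j =>
      ∑ z ∈ Finset.univ.filter (fun z => r z = z'), min (h z j) σ) := by
    refine (ModeP940.SS_refine (c := c) r (h := fun z' j =>
      ∑ z ∈ Finset.univ.filter (fun z => r z = z'), min (h z j) σ)
      (g := fun z j => min (h z j) σ) fun z' j => rfl)
  rw [e]
  exact Finset.sum_le_sum fun z' _ => M_mono c0 fun j => key z' j

end ps

end Crest.Agent.R4P.RXs343
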