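import Crest.Agent.R4P.RseRSK_17
import Crest.Agent.R4P.EKb_17

/-!
R4 (S0004), powers, helper17, TgtCrs (heights): **the energy of the pairs of one index, other retained
part or tag, at all the nodes and at all their raw children, with a logarithmic gain, for the final
numbers**.

* `RSle X K κ p u t` : `Q (RS p) ≤ κ (log p)^(-K) c W` at the state `u`, `t`;
* `RKid X K κ u τ` : `RSle` at the column of `τ` for the node and for its raw children;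
* `tgtRSK_fin` : `All (RKid X K κ)` for all the contexts of the final numbers, any `K`, `κ > 0`.
-/

set_option autoImplicit false
set_option linter.unusedSectionVars false
set_option linter.unusedVariables false

open MeasureTheory Filter

namespace Crest.Agent.R4P.RSK17

open Crest.Agent.R4P.Cnt588 Crest.Agent.R4P.Item758 Crest.Agent.R4P.W363
open Crest.Agent.R4P.Data758 Crest.Agent.R4P.LfDat734
open Crest.Agent.R4P.Bld532 (NS All NodeOk Ws_nonneg)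
open Crest.Agent.R4P.Step588 (NDt)
open Crest.Agent.R4P.WalkIT579 (tp isL nodeOk_hi top_of_nodeOk)
open Crest.Agent.R4P.Skel189 Crest.Agent.R4P.RseSt23 Crest.Agent.R4P.DseCh23
open Crest.Agent.R4P.RseNd23 Crest.Agent.R4P.DseKid23
open Crest.Agent.R4P.DseTk23 (ctx_DH)
open Crest.Agent.R4P.RseRI17 (rs_kidK)
open Crest.Agent.R4P.FinE26 (ForN)
open Crest.Agent.R4P.FinAll26 (NumFin Ev_P2)
open Crest.Agent.R4P.Fin5 (CF)
open Crest.Agent.R4P.ParF5 Crest.Agent.R4P.NumX34 Crest.Agent.R4P.ParT21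
open Crest.Agent.R4P.NumG23
open Crest.Agent.R4P.PruneAcc17 (NoAcc NoAcc.of SxA)
open Crest.Agent.R4P.PruneBad17 (NoBad NoBad.of SxB)
open Crest.Agent.R4P.Frame758 (wt)
open Crest.Agent.R4.Soft104 (w)
open Crest.Agent.R4.Item758 (IL AdI)
open Crest.Agent.R4.ClosR758 (rv Ro)
open Crest.Agent.R4.ClosL758 (Rr Dr)
open Crest.Agent.R4.Tour104 (Q)
open Crest.Agent.R4P.EK17 (val_Uv al_le)

variable {N : Skel189.Num} {γ : ℝ} {p0 P₀ : ℕ}

/-- the energy of `RS p` at a state, gain `κ (log p)^(-K)` -/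
def RSle (X : Ctx N γ p0 P₀) (K κ : ℝ) (p : ℕ) (u : NS) (t : IT) : Prop :=
  Q (RS X X.Y p) (rv Finset.univ (X.g u t).val) (rv Finset.univ (X.g u t).val) ≤
    (κ * Real.log p ^ (-K)) * (u.c * Ws (w X.ψ) t.items)

/-- at the node and at its raw children -/
def RKid (X : Ctx N γ p0 P₀) (K κ : ℝ) (u : NS) : IT → Prop
  | .leaf _ => True
  | .br p Sp t₁ t₀ => RSle X K κ p u (.br p Sp t₁ t₀) ∧
      RSle X K κ p ⟨p, u.c / (1 - 1 / (p : ℝ)), u.A * p, u.B⟩ t₁ ∧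
      RSle X K κ p ⟨p, u.c * p, u.A, u.B * p⟩ t₀
  | .add b t₁ t₀ => RSle X K κ b u (.add b t₁ t₀) ∧
      RSle X K κ b ⟨b + 1, u.c, u.A, u.B⟩ t₁ ∧ RSle X K κ b ⟨b + 1, u.c, u.A, u.B⟩ t₀
  | .up b Sp t => RSle X K κ b u (.up b Sp t) ∧ RSle X K κ b ⟨b, u.c, u.A, u.B⟩ t
  | .pl b t => RSle X K κ b u (.pl b t) ∧
      RSle X K κ b ⟨b + 1, u.c, u.A * b, u.B⟩ t
  | .far b t₁ t₀ => RSle X K κ b u (.far b t₁ t₀) ∧
      RSle X K κ b ⟨b + 1, u.c, u.A, u.B⟩ t₁ ∧ RSle X K κ b ⟨b + 1, u.c, u.A, u.B⟩ t₀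

/-- facts of a context -/
structure GR (X : Ctx N γ p0 P₀) (K κ : ℝ) : Prop where
  nd : ∀ u τ, NF X u τ → ¬ isL τ → RSle X K κ (tp τ) u τ
  kd : ∀ v V, KB X v V → ¬ isL V → ∀ u t, All (KB X) u t → t.items ⊆ V.items →
    (u.B = v.B ∨ u.B = v.B * tp V) → u.n ≤ tp V + 1 → RSle X K κ (tp V) u t

/-- **from the facts to all the nodes** -/
theorem rkid_all {X : Ctx N γ p0 P₀} {K κ : ℝ} (h : GR X K κ) (t : IT) : ∀ u : NS,
    All (KB X) u t → All (RKid X K κ) u t := by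
  induction t with
  | leaf S => intro u _; exact trivial
  | br p Sp t₁ t₀ ih₁ ih₀ =>
    intro u hh
    have hl : ¬ isL (.br p Sp t₁ t₀) := fun h => h
    have a0 : RSle X K κ p u (.br p Sp t₁ t₀) := h.nd u (.br p Sp t₁ t₀) hh.1.nf hl
    have a1 : RSle X K κ p ⟨p, u.c / (1 - 1 / (p : ℝ)), u.A * p, u.B⟩ t₁ :=
      h.kd u (.br p Sp t₁ t₀) hh.1 hl ⟨p, u.c / (1 - 1 / (p : ℝ)), u.A * p, u.B⟩ t₁ hh.2.1
        Finset.subset_union_left (Or.inl rfl) (Nat.le_succ p)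
    have a2 : RSle X K κ p ⟨p, u.c * p, u.A, u.B * p⟩ t₀ :=
      h.kd u (.br p Sp t₁ t₀) hh.1 hl ⟨p, u.c * p, u.A, u.B * p⟩ t₀ hh.2.2
        Finset.subset_union_right (Or.inr rfl) (Nat.le_succ p)
    exact ⟨⟨a0, a1, a2⟩, ih₁ _ hh.2.1, ih₀ _ hh.2.2⟩
  | add b t₁ t₀ ih₁ ih₀ =>
    intro u hh
    have hl : ¬ isL (.add b t₁ t₀) := fun h => h
    have a0 : RSle X K κ b u (.add b t₁ t₀) := h.nd u (.add b t₁ t₀) hh.1.nf hl
    have a1 : RSle X K κ b ⟨b + 1, u.c, u.A, u.B⟩ t₁ :=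
      h.kd u (.add b t₁ t₀) hh.1 hl ⟨b + 1, u.c, u.A, u.B⟩ t₁ hh.2.1
        Finset.subset_union_left (Or.inl rfl) le_rfl
    have a2 : RSle X K κ b ⟨b + 1, u.c, u.A, u.B⟩ t₀ :=
      h.kd u (.add b t₁ t₀) hh.1 hl ⟨b + 1, u.c, u.A, u.B⟩ t₀ hh.2.2
        Finset.subset_union_right (Or.inl rfl) le_rfl
    exact ⟨⟨a0, a1, a2⟩, ih₁ _ hh.2.1, ih₀ _ hh.2.2⟩
  | up b Sp t ih =>
    intro u hh
    have hl : ¬ isL (.up b Sp t) := fun h => h
    have a0 : RSle X K κ b u (.up b Sp t) := h.nd u (.up b Sp t) hh.1.nf hl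
    have a1 : RSle X K κ b ⟨b, u.c, u.A, u.B⟩ t :=
      h.kd u (.up b Sp t) hh.1 hl ⟨b, u.c, u.A, u.B⟩ t hh.2 (Finset.Subset.refl _)
        (Or.inl rfl) (Nat.le_succ b)
    exact ⟨⟨a0, a1⟩, ih _ hh.2⟩
  | pl b t ih =>
    intro u hh
    have hl : ¬ isL (.pl b t) := fun h => h
    have a0 : RSle X K κ b u (.pl b t) := h.nd u (.pl b t) hh.1.nf hl
    have a1 : RSle X K κ b ⟨b + 1, u.c, u.A * b, u.B⟩ t :=
      h.kd u (.pl b t) hh.1 hl ⟨b + 1, u.c, u.A * b, u.B⟩ t hh.2 (Finset.Subset.refl _)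
        (Or.inl rfl) le_rfl
    exact ⟨⟨a0, a1⟩, ih _ hh.2⟩
  | far b t₁ t₀ ih₁ ih₀ =>
    intro u hh
    have hl : ¬ isL (.far b t₁ t₀) := fun h => h
    have a0 : RSle X K κ b u (.far b t₁ t₀) := h.nd u (.far b t₁ t₀) hh.1.nf hl
    have a1 : RSle X K κ b ⟨b + 1, u.c, u.A, u.B⟩ t₁ :=
      h.kd u (.far b t₁ t₀) hh.1 hl ⟨b + 1, u.c, u.A, u.B⟩ t₁ hh.2.1
        Finset.subset_union_left (Or.inl rfl) le_rfl
    have a2 : RSle X K κ b ⟨b + 1, u.c, u.A, u.B⟩ t₀ :=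
      h.kd u (.far b t₁ t₀) hh.1 hl ⟨b + 1, u.c, u.A, u.B⟩ t₀ hh.2.2
        Finset.subset_union_right (Or.inl rfl) le_rfl
    exact ⟨⟨a0, a1, a2⟩, ih₁ _ hh.2.1, ih₀ _ hh.2.2⟩

/-- the facts of the contexts -/
theorem ctx_GR {N : Skel189.Num} {Ct C₀ c γ : ℝ} (h : NumOK N (thF Ct) Ct C₀ (SxF γ N.C1))
    (hN : NumFin N (thF Ct) Ct c) (hG : NumG N) (hc : 10 ≤ c) (K : ℝ) {κ : ℝ} (hκ : 0 < κ) :
    ∃ p₁ : ℕ, ∀ p0 ≥ p₁, ∀ P₀, 2 ≤ P₀ → ∀ X : Ctx N γ p0 P₀, GR X K κ := by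
  have c1 := hN.C1
  have c2 := hN.c2
  have cB := hN.B
  have cA := hN.A
  have cCt := hN.Ct
  have e1 : 10 ≤ N.C1 := hc.trans hN.C1
  have eB := hN.B
  have ec := hN.c2
  have hA' : 0 ≤ aAcc N.C1 := by unfold aAcc; linarith
  have s1 : ∀ p0 ψ S, SxF γ N.C1 p0 ψ S ⊆ SxA γ (aAcc N.C1) N.B N.C1 N.c2 p0 ψ S := by
    intro p0 ψ S
    rw [eB, ec]
    exact Finset.inter_subset_left
  have s2 : ∀ p0 ψ S, SxF γ N.C1 p0 ψ S ⊆ SxB γ N.B N.C1 N.c2 p0 ψ S := by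
    intro p0 ψ S
    rw [eB, ec]
    exact Finset.inter_subset_right
  obtain ⟨q12, H12⟩ := rs_kidK N K (κ := κ) (A' := aAcc N.C1) hκ hA'
  obtain ⟨q13, H13⟩ := RseG10.rse_nodeK N K (κ := κ) hκ
  obtain ⟨q14, H14⟩ := ctx_DH h hG (by linarith) (by linarith) (by linarith)
  obtain ⟨q15, H15⟩ := kid_KQ N (aAcc N.C1)
  obtain ⟨q16, H16⟩ := Crest.Agent.R4.RseN207.log_large 1
  refine ⟨q12 + q13 + q14 + q15 + q16 + 3, fun p0 hp0 P₀ hP2 X => ?_⟩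
  have hD := H14 p0 (by omega) γ P₀ X
  have fac : ∀ p : ℕ, p0 < p → 0 ≤ κ * Real.log p ^ (-K) := fun p hp =>
    mul_nonneg hκ.le (Real.rpow_nonneg (by linarith [H16 p (by omega)]) _)
  refine ⟨fun u τ hn hl => ?_, fun v V hv hl u t hh hsub hB hn' => ?_⟩
  · have h1 := H13 p0 (by omega) γ P₀ hP2 X hD.rse X.Y u τ hn hl Finset.univ
    have e : rv Finset.univ (X.g u τ).val = Uv X X.Y u τ Finset.univ := by
      have hnd := hn.nd
      have hval : ((X.c.D.par X.Y).toG u.B u.A τ).val =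
          fun j => ((X.c.D.par X.Y).toFT u.B u.A τ).U 1 j :=
        Par.toG_val _ hnd.B_pos hnd.fit (node_wts hnd X.Y)
      unfold Uv
      rw [← hval]
      rfl
    unfold RSle
    rw [e]
    refine h1.trans (mul_le_mul_of_nonneg_left (al_le (X := X) hn.c0.le τ Finset.univ) ?_)
    exact fac _ (WalkIT579.nodeOk_hi hn.nd.self.node hl).2.1
  · have hk : Kid X v V (hu u t) (hd t) := kid_of hv hl hh hsub hB hn'
    have hS : N.S2 p0 X.ψ X.S ⊆ SxF γ N.C1 p0 X.ψ X.S := by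
      rw [h.S2]; exact Finset.inter_subset_right
    have hγ : X.c.γ = γ := X.hγ
    have h2 := H12 p0 (by omega) γ P₀ X hD X.Y v V _ _ hk
      (H15 p0 (by omega) γ P₀ hP2 X hD (fun q hq => by
        rw [hγ]; exact NoAcc.of X (hS.trans (s1 _ _ _)) hq) (fun q hq => by
        rw [hγ]; exact NoBad.of X (hS.trans (s2 _ _ _)) hq) v V _ _ hk) Finset.univ
    rw [← val_Uv hh.self.nf.nd] at h2
    have h3 := al_le (X := X) (u := hu u t) (by rw [hu_c]; exact hh.self.nf.c0.le) (hd t)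
      Finset.univ
    rw [hu_c, hd_items] at h3
    rw [hu_c] at h2
    exact h2.trans (mul_le_mul_of_nonneg_left h3 (fac _ hk.tpV.2.1))

/-- **the target**: at all the nodes and raw children -/
def TgtRSK (K κ : ℝ) (N : Skel189.Num) (γ : ℝ) : Prop :=
  Ev N γ fun p0 P₀ X => All (RKid X K κ) ⟨top X.S, 1, 1, 1⟩ X.c.t

/-- **`RS` energies of all the nodes and all the raw children, for the final numbers** -/
theorem tgtRSK_fin (K : ℝ) {κ : ℝ} (hκ : 0 < κ) : ForN ParT21.thF NumG23.SxF (TgtRSK K κ) := by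
  refine ⟨10, fun N Ct C₀ γ h hN hG => ?_⟩
  obtain ⟨q1, H1⟩ := ctx_GR h hN hG le_rfl K hκ
  obtain ⟨q2, H2⟩ := ctx_KB N
  refine ⟨q1 + q2 + 2, fun p0 hp0 => ⟨2, fun P₀ hP X => ?_⟩⟩
  exact rkid_all (H1 p0 (by omega) P₀ hP X) _ _ (H2 p0 (by omega) γ P₀ hP X)

end Crest.Agent.R4P.RSK17
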