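import Crest.Agent.R4P.RsFut_19
import Crest.Agent.R4P.ChU7_17
import Crest.Agent.R4P.LfK_244
import Crest.Agent.R4P.RseRSKb_17
import Crest.Agent.R4P.PN_36
import Crest.Agent.R4P.CtxX_26
import Crest.Agent.R4P.MrgC_35

/-!
R4 (S0004), [W-eSHR] / TgtCrs, helper19: **the hypotheses of `RsSum_19` in a context**.

* `NR` : facts of a node; `hs_all` : `HS` at all the nodes of the decorated trees of the nodes;
* `ctx_SSg` : `SSg chR ≤ dseR + (K + 3) mass` at all the nodes.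
-/

set_option autoImplicit false
set_option linter.unusedSectionVars false
set_option linter.unusedVariables false
open MeasureTheory Filter

namespace Crest.Agent.R4P.RsCtx19

open Crest.Agent.R4P.Cnt588 Crest.Agent.R4P.Item758 Crest.Agent.R4P.W363
open Crest.Agent.R4P.Data758 Crest.Agent.R4P.LfDat734
open Crest.Agent.R4P.Bld532 (NS All NodeOk Bk Ws_nonneg)
open Crest.Agent.R4P.Step588 (NDt ND1 ctx_NDt uq_lt)
open Crest.Agent.R4P.WalkIT579 (tp isL nodeOk_hi top_of_nodeOk)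
open Crest.Agent.R4P.Skel189 Crest.Agent.R4P.RseSt23 Crest.Agent.R4P.RseNd23
open Crest.Agent.R4P.DseCh23 (hd)
open Crest.Agent.R4.Soft104 (w)
open Crest.Agent.R4.ClosR758 Crest.Agent.R4.ClosG758 Crest.Agent.R4.ClosL758
open Crest.Agent.R4.Avg758 Crest.Agent.R4.Fam464
open Crest.Agent.R4.Tour758 Crest.Agent.R4.Tour104 Crest.Agent.R4.Clos758
open Crest.Agent.R4P.Walk560 (DT Side)
open Crest.Agent.R4P.TWc17 Crest.Agent.R4P.RsTie19 Crest.Agent.R4P.RsSum19 Crest.Agent.R4P.RsFut19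
open Crest.Agent.R4P.RSK17 (RSle RKid)
open Crest.Agent.R4P.LfK244 (EXle EKid)
open Crest.Agent.R4P.ChU17 (RawAll KA)

/-! ### item trees -/

section dt
variable {Λ κ : Type*} [Fintype Λ] [DecidableEq Λ] [Fintype κ] [DecidableEq κ]

lemma isLeaf_toDT (D : Par Λ κ) (sp : ℕ → Finset Λ) (t : IT) (b pr : ℕ) :
    (D.toDT sp b pr t).isLeaf ↔ isL t := by
  cases t <;> exact Iff.rfl

lemma top_toDT (D : Par Λ κ) (sp : ℕ → Finset Λ) (t : IT) (b pr : ℕ) :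
    (D.toDT sp b pr t).top = tp t := by
  cases t <;> rfl

lemma cl_toDT (D : Par Λ κ) (sp : ℕ → Finset Λ) (t : IT) : ∀ b pr : ℕ,
    cl (D.toDT sp b pr t) = tp (hd t) := by
  induction t with
  | leaf S => intro b pr; rfl
  | br p Sp t₁ t₀ ih₁ ih₀ => intro b pr; rfl
  | add p t₁ t₀ ih₁ ih₀ => intro b pr; rfl
  | up b' Sp t ih => intro b pr; exact ih b pr
  | pl p t ih => intro b pr; rfl
  | far p t₁ t₀ ih₁ ih₀ => intro b pr; rfl

lemma lf_toDT (D : Par Λ κ) (sp : ℕ → Finset Λ) (t : IT) : ∀ b pr : ℕ,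
    lf (D.toDT sp b pr t) ↔ isL (hd t) := by
  induction t with
  | leaf S => intro b pr; exact Iff.rfl
  | br p Sp t₁ t₀ ih₁ ih₀ => intro b pr; exact Iff.rfl
  | add p t₁ t₀ ih₁ ih₀ => intro b pr; exact Iff.rfl
  | up b' Sp t ih => intro b pr; exact ih b pr
  | pl p t ih => intro b pr; exact Iff.rfl
  | far p t₁ t₀ ih₁ ih₀ => intro b pr; exact Iff.rfl

/-- **the tie data** -/
lemma TD_of {p : ℕ} {w : ℝ} {r : Λ → κ} {t₁ t₀ : DT Λ κ} {v : Λ → ℝ → ℝ} {B G : κ → ℝ → ℝ}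
    (h : PN36.TieOk (DT.br p w r t₁ t₀ v B G)) : TD p w r t₁.g.val t₀.g.val B G where
  hw := by
    have := PN36.TieOk.br h
    exact this.hw
  eB := (PN36.TieOk.br h).eB
  eG := (PN36.TieOk.br h).eG

end dt

variable {N : Skel189.Num} {γ : ℝ} {p0 P₀ : ℕ}

/-- facts of a node -/
structure NR (X : Ctx N γ p0 P₀) (j₀ : X.c.Lam) (K Ke : ℝ) (u : NS) (τ : IT) : Prop where
  nd : NDt X.par (w X.ψ) X.c.t u τ
  nu : X.tm j₀ (X.g u τ) Finset.univ = u.c * Ws (w X.ψ) τ.items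
  rk : RKid X K 1 u τ
  ek : EKid X Ke u τ
  ka : RawAll (KA X u) u τ
  c0 : 0 < u.c

section kids
variable {X : Ctx N γ p0 P₀} {j₀ : X.c.Lam} {K Ke : ℝ}

lemma mu_nn {u : NS} {τ : IT} (h : NR X j₀ K Ke u τ) : 0 ≤ X.tm j₀ (X.g u τ) Finset.univ := by
  rw [h.nu]
  exact mul_nonneg h.c0.le (Ws_nonneg X.hW _)

lemma g_ok {u : NS} {τ : IT} (h : NR X j₀ K Ke u τ) : (X.g u τ).Ok :=
  (X.c.D.par X.Y).toG_Ok h.nd.B_pos h.nd.fit (node_wts h.nd X.Y)

lemma toDT_g' (X : Ctx N γ p0 P₀) (u : NS) (τ : IT) :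
    ((X.c.D.par X.Y).toDT X.c.sp u.B u.A τ).g = X.g u τ :=
  (X.c.D.par X.Y).toDT_g X.c.sp τ u.B u.A

/-- the pairs of `RS` at a state -/
lemma rs_le {u : NS} {t : IT} {p : ℕ} (hp : 3 ≤ p) (hK : 0 ≤ K) (h : NR X j₀ K Ke u t)
    (hr : RSle X K 1 p u t) :
    Q (Rr ((X.c.D.par X.Y).rho p) \ Ro ((X.c.D.par X.Y).rho p)) (X.g u t).val (X.g u t).val ≤
      kq K p * X.tm j₀ (X.g u t) Finset.univ := by
  have h1 : Q (Rr ((X.c.D.par X.Y).rho p) \ Ro ((X.c.D.par X.Y).rho p))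
      (rv Finset.univ (X.g u t).val) (rv Finset.univ (X.g u t).val) ≤
      (1 * Real.log p ^ (-K)) * (u.c * Ws (w X.ψ) t.items) := hr
  rw [rv_univ, ← h.nu, one_mul] at h1
  exact h1.trans (mul_le_mul_of_nonneg_right (log_le_kq hK hp) (mu_nn h))

/-- the change of a child is in `RS` -/
lemma chR_le {u : NS} {t : IT} {p : ℕ} (hp : 3 ≤ p) (hK : 0 ≤ K) (h : NR X j₀ K Ke u t)
    (hr : RSle X K 1 p u t)
    (hl : ¬ ((X.c.D.par X.Y).toDT X.c.sp u.B u.A t).isLeaf) :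
    chR (X.c.D.par X.Y).rho p ((X.c.D.par X.Y).toDT X.c.sp u.B u.A t) ≤
      kq K p * X.tm j₀ ((X.c.D.par X.Y).toDT X.c.sp u.B u.A t).g Finset.univ := by
  classical
  unfold chR
  rw [if_neg hl, toDT_g']
  refine le_trans (Q_mono_set Finset.sdiff_subset (fun j => (g_ok h).pb j)
    (fun j => (g_ok h).pb j)) (rs_le hp hK h hr)

/-- the conditions at a child -/
lemma hc_of {v u : NS} {p : ℕ} {t : IT} (hp : 3 ≤ p) (hK : 0 ≤ K) (h : NR X j₀ K Ke u t)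
    (hr : RSle X K 1 p u t) (he : EXle X Ke p u t) (ka : KA X v p u t) :
    HC (chR (X.c.D.par X.Y).rho) (X.tm j₀) p0 (kq K) ParF5.rg Ke p
      ((X.c.D.par X.Y).toDT X.c.sp u.B u.A t) := by
  classical
  refine ⟨fun hl => ?_, fun hl => ?_, fun hl => ?_, fun hl hlt => ?_⟩
  · unfold chR
    rw [if_pos hl, toDT_g', h.nu]
    have h1 : Q (Finset.univ \ Ro ((X.c.D.par X.Y).rho p))
        (rv Finset.univ (X.g u t).val) (rv Finset.univ (X.g u t).val) ≤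
        Ke * (u.c * Ws (w X.ψ) t.items) := he
    rw [rv_univ] at h1
    exact h1
  · rw [isLeaf_toDT] at hl
    rw [top_toDT]
    exact ka.top hl
  · rw [lf_toDT] at hl
    rw [cl_toDT]
    exact ka.core hl
  · have hl' := hl
    rw [isLeaf_toDT] at hl'
    refine (chR_le hp hK h hr hl).trans (mul_le_mul_of_nonneg_right ?_ ?_)
    · rw [top_toDT]
      exact kq_anti hK (ka.tople hl')
    · rw [toDT_g']
      exact mu_nn h

/-- the condition at a missing child -/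
lemma hm_of {u : NS} {p : ℕ} {t : IT} (hp : 3 ≤ p) (hK : 0 ≤ K) (h : NR X j₀ K Ke u t)
    (hr : RSle X K 1 p u t) :
    HM (chR (X.c.D.par X.Y).rho) (X.tm j₀) (kq K) ParF5.rg p
      ((X.c.D.par X.Y).toDT X.c.sp u.B u.A t) :=
  fun hl _ => chR_le hp hK h hr hl

/-- the conditions at a child without a missing tie -/
lemma hp_of {v u : NS} {p : ℕ} {t : IT} (h : NR X j₀ K Ke u t) (ka : KA X v p u t)
    (hB : u.B = v.B) :
    HP (X.c.D.par X.Y).rho (chR (X.c.D.par X.Y).rho) ParF5.rg p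
      ((X.c.D.par X.Y).toDT X.c.sp u.B u.A t) := by
  classical
  refine ⟨fun hl hrg => ?_, fun hl hrg => ?_⟩
  · rw [lf_toDT] at hl
    rw [cl_toDT] at hrg
    intro j j' h1 h2 h3
    rw [toDT_g'] at h1 h2
    rw [cl_toDT]
    exact ka.noev hl hB hrg j j' h1 h2 h3
  · have hl' := hl
    rw [isLeaf_toDT] at hl'
    rw [top_toDT] at hrg
    have h1 := ka.zero hl' hB hrg
    unfold chR
    rw [if_neg hl, toDT_g', top_toDT]
    refine le_trans (Q_mono_set (fun e he => ?_) (fun j => (g_ok h).pb j)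
      (fun j => (g_ok h).pb j)) h1.le
    unfold Ix at he ⊢
    simp only [Finset.mem_sdiff, Finset.mem_univ, true_and] at he ⊢
    exact ⟨he.1.2, he.2⟩

end kids

section node
variable {X : Ctx N γ p0 P₀} {j₀ : X.c.Lam} {K Ke : ℝ}

set_option maxHeartbeats 1000000 in
/-- **the hypotheses at a node** -/
theorem hs_of (h3 : 3 ≤ p0) (hK : 0 ≤ K) {u : NS} {τ : IT} (h : All (NR X j₀ K Ke) u τ) :
    HS (X.c.D.par X.Y).rho (chR (X.c.D.par X.Y).rho) (X.tm j₀) p0 (kq K) (kq K) (kq K) (sgS N)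
      ParF5.rg Ke ((X.c.D.par X.Y).toDT X.c.sp u.B u.A τ) := by
  have hn := h.self
  have htie : ((X.c.D.par X.Y).toDT X.c.sp u.B u.A τ).All PN36.TieOk :=
    PN36.toDT_TieOk (X.c.D.par X.Y) X.c.sp τ u.B u.A hn.nd.B_pos
      ((X.c.D.par X.Y).toFT_Adm τ u.B u.A hn.nd.B_pos hn.nd.fit (node_wts hn.nd X.Y))
  have hr := hn.rk
  have he := hn.ek
  have hk := hn.ka
  have hno := hn.nd.self.node
  cases τ with
  | leaf S => trivial
  | br p Sp t₁ t₀ =>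
    have hhi := nodeOk_hi hno (fun h => h)
    have hp0 : p0 < p := hhi.2.1
    have hp3 : 3 ≤ p := by omega
    have hT : TD p (1 / (p : ℝ)) ((X.c.D.par X.Y).rho p) _ _ _ _ := TD_of htie.1
    refine ⟨hp0, ?_, hT, ?_, hc_of hp3 hK h.2.1.self hr.2.1 he.2.1 hk.1,
      hp_of h.2.1.self hk.1 rfl, fun _ => ⟨hc_of hp3 hK h.2.2.self hr.2.2 he.2.2 hk.2,
      hm_of hp3 hK h.2.2.self hr.2.2⟩, ?_⟩
    · have : (2:ℝ) ≤ p := by exact_mod_cast (by omega : 2 ≤ p)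
      exact one_div_le_one_div_of_le (by norm_num) this
    · have e := rs_le hp3 hK hn hr.1
      have g := toDT_g' X u (.br p Sp t₁ t₀)
      show Q _ _ _ ≤ kq K p * X.tm j₀
        ((X.c.D.par X.Y).toDT X.c.sp u.B u.A (.br p Sp t₁ t₀)).g Finset.univ
      rw [g]
      exact e
    · have g := toDT_g' X u (.br p Sp t₁ t₀)
      have g0 := toDT_g' X ⟨p, u.c * p, u.A, u.B * p⟩ t₀
      have hpR : (0:ℝ) < p := by exact_mod_cast (by omega : 0 < p)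
      show 1 / (p:ℝ) * X.tm j₀ ((X.c.D.par X.Y).toDT X.c.sp (u.B * p) u.A t₀).g Finset.univ +
        12 * (1 / (p:ℝ)) * X.tm j₀ ((X.c.D.par X.Y).toDT X.c.sp u.B u.A (.br p Sp t₁ t₀)).g
          Finset.univ ≤ sgS N p * X.tm j₀ ((X.c.D.par X.Y).toDT X.c.sp u.B u.A
            (.br p Sp t₁ t₀)).g Finset.univ
      have m0 := mu_nn hn
      have e0 : X.tm j₀ ((X.c.D.par X.Y).toDT X.c.sp (u.B * p) u.A t₀).g Finset.univ =
          u.c * p * Ws (w X.ψ) t₀.items := by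
        rw [g0]
        exact h.2.2.self.nu
      rw [e0, g, hn.nu]
      have hsh : Ws (w X.ψ) t₀.items ≤ 2 * X.par.sg p * Ws (w X.ψ) (t₁.items ∪ t₀.items) :=
        hno.2.2.2.2.2.2.2.2.2.2.2.1
      have hsg : X.par.sg p = Real.log p ^ N.B / p := rfl
      rw [hsg] at hsh
      have h5 := mul_le_mul_of_nonneg_left hsh hn.c0.le
      have e5 : 1 / (p:ℝ) * (u.c * p * Ws (w X.ψ) t₀.items) = u.c * Ws (w X.ψ) t₀.items := by
        field_simp
      rw [e5]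
      have e6 : (IT.br p Sp t₁ t₀).items = t₁.items ∪ t₀.items := rfl
      rw [e6]
      unfold sgS
      have e7 : 12 * (1 / (p:ℝ)) = 12 / (p:ℝ) := by ring
      rw [e7]
      nlinarith
  | add b t₁ t₀ =>
    have hhi := nodeOk_hi hno (fun h => h)
    have hp0 : p0 < b := hhi.2.1
    have hp3 : 3 ≤ b := by omega
    refine ⟨rfl, ?_, ⟨?_, ?_⟩, ⟨?_, ?_⟩⟩
    · have e := rs_le hp3 hK hn hr.1
      have g := toDT_g' X u (.add b t₁ t₀)
      show Q _ ((X.c.D.par X.Y).toDT X.c.sp u.B u.A (.add b t₁ t₀)).g.val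
        ((X.c.D.par X.Y).toDT X.c.sp u.B u.A (.add b t₁ t₀)).g.val ≤ kq K b * X.tm j₀
        ((X.c.D.par X.Y).toDT X.c.sp u.B u.A (.add b t₁ t₀)).g Finset.univ
      rw [g]
      exact e
    · exact hc_of (u := ⟨b + 1, u.c, u.A, u.B⟩) hp3 hK h.2.1.self hr.2.1 he.2.1 hk.1
    · exact hp_of (u := ⟨b + 1, u.c, u.A, u.B⟩) h.2.1.self hk.1 rfl
    · exact hc_of (u := ⟨b + 1, u.c, u.A, u.B⟩) hp3 hK h.2.2.self hr.2.2 he.2.2 hk.2
    · exact hp_of (u := ⟨b + 1, u.c, u.A, u.B⟩) h.2.2.self hk.2 rfl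
  | up b Sp t =>
    have hhi := nodeOk_hi hno (fun h => h)
    have hp0 : p0 < b := hhi.2.1
    have hp3 : 3 ≤ b := by omega
    exact ⟨hc_of (u := ⟨b, u.c, u.A, u.B⟩) hp3 hK h.2.self hr.2 he.2 hk,
      hp_of (u := ⟨b, u.c, u.A, u.B⟩) h.2.self hk rfl⟩
  | pl b t =>
    have hhi := nodeOk_hi hno (fun h => h)
    have hp0 : p0 < b := hhi.2.1
    have hp3 : 3 ≤ b := by omega
    have hT : TD b 0 ((X.c.D.par X.Y).rho b) _ _ _ _ := TD_of htie.1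
    refine ⟨hp0, by norm_num, hT, ?_, hc_of (u := ⟨b + 1, u.c, u.A * b, u.B⟩) hp3 hK h.2.self
      hr.2 he.2 hk, hp_of (u := ⟨b + 1, u.c, u.A * b, u.B⟩) h.2.self hk rfl,
      fun h0 => absurd rfl h0, ?_⟩
    · have e := rs_le hp3 hK hn hr.1
      have g := toDT_g' X u (.pl b t)
      show Q _ _ _ ≤ kq K b * X.tm j₀
        ((X.c.D.par X.Y).toDT X.c.sp u.B u.A (.pl b t)).g Finset.univ
      rw [g]
      exact e
    · have g := toDT_g' X u (.pl b t)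
      have m0 := mu_nn hn
      have : 0 ≤ sgS N b * X.tm j₀ ((X.c.D.par X.Y).toDT X.c.sp u.B u.A (.pl b t)).g
          Finset.univ := by
        rw [g]
        exact mul_nonneg (sgS_nonneg N b) m0
      refine le_trans (le_of_eq ?_) this
      ring
  | far b t₁ t₀ =>
    have hhi := nodeOk_hi hno (fun h => h)
    have hp0 : p0 < b := hhi.2.1
    have hp3 : 3 ≤ b := by omega
    refine ⟨rfl, ?_, ⟨?_, ?_⟩, ⟨?_, ?_⟩⟩
    · have e := rs_le hp3 hK hn hr.1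
      have g := toDT_g' X u (.far b t₁ t₀)
      show Q _ ((X.c.D.par X.Y).toDT X.c.sp u.B u.A (.far b t₁ t₀)).g.val
        ((X.c.D.par X.Y).toDT X.c.sp u.B u.A (.far b t₁ t₀)).g.val ≤ kq K b * X.tm j₀
        ((X.c.D.par X.Y).toDT X.c.sp u.B u.A (.far b t₁ t₀)).g Finset.univ
      rw [g]
      exact e
    · exact hc_of (u := ⟨b + 1, u.c, u.A, u.B⟩) hp3 hK h.2.1.self hr.2.1 he.2.1 hk.1
    · exact hp_of (u := ⟨b + 1, u.c, u.A, u.B⟩) h.2.1.self hk.1 rfl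
    · exact hc_of (u := ⟨b + 1, u.c, u.A, u.B⟩) hp3 hK h.2.2.self hr.2.2 he.2.2 hk.2
    · exact hp_of (u := ⟨b + 1, u.c, u.A, u.B⟩) h.2.2.self hk.2 rfl

/-- **the hypotheses at all the nodes of the decorated tree of a node** -/
theorem hs_all (h3 : 3 ≤ p0) (hK : 0 ≤ K) {u : NS} {τ : IT} (h : All (NR X j₀ K Ke) u τ) :
    ((X.c.D.par X.Y).toDT X.c.sp u.B u.A τ).All
      (HS (X.c.D.par X.Y).rho (chR (X.c.D.par X.Y).rho) (X.tm j₀) p0 (kq K) (kq K) (kq K) (sgS N)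
        ParF5.rg Ke) :=
  Par.toDT_All (X.c.D.par X.Y) X.c.sp (Qp := fun u τ => All (NR X j₀ K Ke) u τ)
    (fun s t h => hs_of h3 hK h) (fun r => trivial) τ u (Step588.All_All _ _ h)

/-- **the sum of a node** -/
theorem SSg_ctx (h3 : 3 ≤ p0) (hK : 0 ≤ K) (hKe : 0 ≤ Ke)
    (hf : ∀ p : ℕ, fq K (sgS N) p0 p ≤ 1) {u : NS} {τ : IT}
    (h : All (NR X j₀ K Ke) u τ)
    (hs : Side (X.c.D.par X.Y).rho (Crest.Agent.R4.Item758.AdI (X.c.D.par X.Y).it) (X.tm j₀)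
      (X.tn j₀) u.n ((X.c.D.par X.Y).toDT X.c.sp u.B u.A τ) Finset.univ) :
    SSg (X.c.D.par X.Y).rho (chR (X.c.D.par X.Y).rho)
        ((X.c.D.par X.Y).toDT X.c.sp u.B u.A τ) ≤
      dseR Finset.univ (X.g u τ) + (Ke + 3) * X.tm j₀ (X.g u τ) Finset.univ := by
  have hh := hs_all h3 hK h
  have key := SSg_le (f1 := fq K (sgS N) p0) (f2 := fq K (sgS N) p0)
    (futS_ok (K := K) (p0 := p0) (sgS_nonneg N)) (fun h => kq_rg h)
    (futS_ok (K := K) (p0 := p0) (sgS_nonneg N)) hKe _ u.n hs hh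
  rw [toDT_g'] at key
  have m0 := mu_nn h.self
  have c1 := hf (cl ((X.c.D.par X.Y).toDT X.c.sp u.B u.A τ))
  have c2 := hf ((X.c.D.par X.Y).toDT X.c.sp u.B u.A τ).top
  have e1 := mul_le_mul_of_nonneg_left (add_le_add (add_le_add (le_refl Ke) c1) c2) m0
  have e2 : Sc (X.c.D.par X.Y).rho ((X.c.D.par X.Y).toDT X.c.sp u.B u.A τ) ≤
      X.tm j₀ (X.g u τ) Finset.univ := by
    by_cases hl : lf ((X.c.D.par X.Y).toDT X.c.sp u.B u.A τ)
    · have e : Sc (X.c.D.par X.Y).rho ((X.c.D.par X.Y).toDT X.c.sp u.B u.A τ) = 0 := if_pos hl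
      rw [e]
      exact m0
    · have h5 := Sc_le hs.wf hh hl
      rw [toDT_g'] at h5
      refine h5.trans ?_
      have h6 : kq K (cl ((X.c.D.par X.Y).toDT X.c.sp u.B u.A τ)) ≤ 1 := by
        unfold kq
        refine Real.rpow_le_one_of_one_le_of_nonpos ?_ (by linarith)
        exact one_le_pow₀ (by norm_num)
      have := mul_le_mul_of_nonneg_right h6 m0
      linarith
  linarith

end node

/-- **the facts of all the nodes** -/
theorem ctx_NR (X : Ctx N γ p0 P₀) (j₀ : X.c.Lam) {K Ke : ℝ}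
    (h1 : All (RKid X K 1) ⟨top X.S, 1, 1, 1⟩ X.c.t)
    (h2 : All (EKid X Ke) ⟨top X.S, 1, 1, 1⟩ X.c.t)
    (h3 : All (fun v V => RawAll (KA X v) v V) ⟨top X.S, 1, 1, 1⟩ X.c.t) :
    All (NR X j₀ K Ke) ⟨top X.S, 1, 1, 1⟩ X.c.t :=
  All.mono (fun u τ hh => ⟨hh.1.1.1, hh.1.1.2.2, hh.1.2.1, hh.1.2.2, hh.2.1, hh.2.2⟩)
    ((((ctx_NDt X).and (CtxX26.ctx_nu X j₀)).and (h1.and h2)).and (h3.and (ctx_cpos X)))

/-- **the sums of all the nodes of a context** -/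
theorem ctx_SSg (X : Ctx N γ p0 P₀) (j₀ : X.c.Lam) {K Ke : ℝ} (h3 : 3 ≤ p0) (hK : 0 ≤ K)
    (hKe : 0 ≤ Ke) (hf : ∀ p : ℕ, fq K (sgS N) p0 p ≤ 1)
    (h1 : All (RKid X K 1) ⟨top X.S, 1, 1, 1⟩ X.c.t)
    (h2 : All (EKid X Ke) ⟨top X.S, 1, 1, 1⟩ X.c.t)
    (h4 : All (fun v V => RawAll (KA X v) v V) ⟨top X.S, 1, 1, 1⟩ X.c.t) :
    All (fun u τ => SSg (X.c.D.par X.Y).rho (chR (X.c.D.par X.Y).rho)
        ((X.c.D.par X.Y).toDT X.c.sp u.B u.A τ) ≤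
      dseR Finset.univ (X.g u τ) + (Ke + 3) * X.tm j₀ (X.g u τ) Finset.univ)
      ⟨top X.S, 1, 1, 1⟩ X.c.t :=
  All.mono (fun u τ hh => SSg_ctx h3 hK hKe hf hh.1 hh.2.2)
    ((Step588.All_All _ _ (ctx_NR X j₀ h1 h2 h4)).and (Mrg35.ctx_side X j₀))

end Crest.Agent.R4P.RsCtx19
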