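import Crest.Agent.R4P.RsSum_19
import Crest.Agent.R4P.NumX_34
import Crest.Agent.R4P.RseN6_30

/-!
R4 (S0004), [W-eSHR] / TgtCrs, helper19: **the numbers of `RsSum_19`**.

* `kq K p = (2^rg p)^(-K)`, `sgS N p = 2 (log p)^B / p + 12 / p`;
* `fq K sg p0 p` : future costs, `futS_ok : FutS`, `fq_le` : at most `2` for `K ≥ 2 B + 2`.
-/

set_option autoImplicit false
set_option linter.unusedSectionVars false
set_option linter.unusedVariables false

namespace Crest.Agent.R4P.RsFut19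

open Crest.Agent.R4P.Skel189 Crest.Agent.R4P.RsSum19
open Crest.Agent.R4P.ParF5 (rg_le lt_rg)

/-- cost of a column (= `TgSelf10.kp`) -/
noncomputable def kq (K : ℝ) (p : ℕ) : ℝ := ((2 : ℝ) ^ ParF5.rg p) ^ (-K)

/-- future costs -/
noncomputable def fq (K : ℝ) (sg : ℕ → ℝ) (p0 p : ℕ) : ℝ :=
  ∑ k ∈ (Finset.range (ParF5.rg p)).filter (fun k => ParF5.rg p0 ≤ k), ((2 : ℝ) ^ k) ^ (-K) +
    ∑ l ∈ (Finset.range (p + 1)).filter (fun l => l.Prime ∧ p0 < l), sg l * kq K l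

/-- shares of the ties -/
noncomputable def sgS (N : Skel189.Num) (p : ℕ) : ℝ := 2 * (Real.log p ^ N.B / p) + 12 / (p : ℝ)

lemma kq_nonneg (K : ℝ) (p : ℕ) : 0 ≤ kq K p := Real.rpow_nonneg (by positivity) _

lemma sgS_nonneg (N : Skel189.Num) (p : ℕ) : 0 ≤ sgS N p := by
  have : 0 ≤ Real.log (p : ℝ) := Real.log_natCast_nonneg p
  unfold sgS
  positivity

lemma kq_anti {K : ℝ} (hK : 0 ≤ K) {p' p : ℕ} (h : p' ≤ p) : kq K p ≤ kq K p' := by
  unfold kq
  refine Real.rpow_le_rpow_of_nonpos (by positivity) ?_ (by linarith)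
  exact pow_le_pow_right₀ (by norm_num) (NumX34.rg_monotone h)

lemma kq_rg {K : ℝ} {p' p : ℕ} (h : ParF5.rg p' = ParF5.rg p) : kq K p' = kq K p := by
  unfold kq; rw [h]

/-- a logarithmic gain -/
lemma log_le_kq {K : ℝ} (hK : 0 ≤ K) {p : ℕ} (hp : 3 ≤ p) : Real.log p ^ (-K) ≤ kq K p := by
  unfold kq
  exact Real.rpow_le_rpow_of_nonpos (by positivity) (ParF5.rg_le hp) (by linarith)

section fut
variable {K : ℝ} {sg : ℕ → ℝ} {p0 : ℕ}

lemma sum1_mono {p' p : ℕ} (h : p' ≤ p) :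
    ∑ k ∈ (Finset.range (ParF5.rg p')).filter (fun k => ParF5.rg p0 ≤ k), ((2 : ℝ) ^ k) ^ (-K) ≤
    ∑ k ∈ (Finset.range (ParF5.rg p)).filter (fun k => ParF5.rg p0 ≤ k), ((2 : ℝ) ^ k) ^ (-K) := by
  refine Finset.sum_le_sum_of_subset_of_nonneg (fun k hk => ?_) fun k _ _ =>
    Real.rpow_nonneg (by positivity) _
  obtain ⟨a1, a2⟩ := Finset.mem_filter.1 hk
  exact Finset.mem_filter.2 ⟨Finset.mem_range.2 ((Finset.mem_range.1 a1).trans_le
    (NumX34.rg_monotone h)), a2⟩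

lemma sum1_jump {p' p : ℕ} (h0 : p0 < p') (hlt : ParF5.rg p' < ParF5.rg p) :
    kq K p' +
    ∑ k ∈ (Finset.range (ParF5.rg p')).filter (fun k => ParF5.rg p0 ≤ k), ((2 : ℝ) ^ k) ^ (-K) ≤
    ∑ k ∈ (Finset.range (ParF5.rg p)).filter (fun k => ParF5.rg p0 ≤ k), ((2 : ℝ) ^ k) ^ (-K) := by
  have hn : ParF5.rg p' ∉ (Finset.range (ParF5.rg p')).filter (fun k => ParF5.rg p0 ≤ k) := by
    simp
  have hs : insert (ParF5.rg p') ((Finset.range (ParF5.rg p')).filter
      (fun k => ParF5.rg p0 ≤ k)) ⊆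
      (Finset.range (ParF5.rg p)).filter (fun k => ParF5.rg p0 ≤ k) := by
    intro k hk
    rcases Finset.mem_insert.1 hk with rfl | hk
    · exact Finset.mem_filter.2 ⟨Finset.mem_range.2 hlt, NumX34.rg_monotone h0.le⟩
    · obtain ⟨a1, a2⟩ := Finset.mem_filter.1 hk
      exact Finset.mem_filter.2 ⟨Finset.mem_range.2 ((Finset.mem_range.1 a1).trans hlt), a2⟩
  have := Finset.sum_le_sum_of_subset_of_nonneg (f := fun k => ((2 : ℝ) ^ k) ^ (-K)) hs
    fun k _ _ => Real.rpow_nonneg (by positivity) _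
  rw [Finset.sum_insert hn] at this
  exact this

lemma sum2_mono (hs : ∀ p, 0 ≤ sg p) {p' p : ℕ} (h : p' ≤ p) :
    ∑ l ∈ (Finset.range (p' + 1)).filter (fun l => l.Prime ∧ p0 < l), sg l * kq K l ≤
    ∑ l ∈ (Finset.range (p + 1)).filter (fun l => l.Prime ∧ p0 < l), sg l * kq K l := by
  refine Finset.sum_le_sum_of_subset_of_nonneg (fun k hk => ?_) fun k _ _ =>
    mul_nonneg (hs k) (kq_nonneg K k)
  obtain ⟨a1, a2⟩ := Finset.mem_filter.1 hk
  have := Finset.mem_range.1 a1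
  exact Finset.mem_filter.2 ⟨Finset.mem_range.2 (by omega), a2⟩

lemma sum2_tie (hs : ∀ p, 0 ≤ sg p) {p' p : ℕ} (hp : p.Prime) (h0 : p0 < p) (h : p' < p) :
    sg p * kq K p +
      ∑ l ∈ (Finset.range (p' + 1)).filter (fun l => l.Prime ∧ p0 < l), sg l * kq K l ≤
    ∑ l ∈ (Finset.range (p + 1)).filter (fun l => l.Prime ∧ p0 < l), sg l * kq K l := by
  have hn : p ∉ (Finset.range (p' + 1)).filter (fun l => l.Prime ∧ p0 < l) := by
    intro hh
    have := Finset.mem_range.1 (Finset.mem_filter.1 hh).1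
    omega
  have hsub : insert p ((Finset.range (p' + 1)).filter (fun l => l.Prime ∧ p0 < l)) ⊆
      (Finset.range (p + 1)).filter (fun l => l.Prime ∧ p0 < l) := by
    intro k hk
    rcases Finset.mem_insert.1 hk with rfl | hk
    · exact Finset.mem_filter.2 ⟨Finset.mem_range.2 (by omega), hp, by omega⟩
    · obtain ⟨a1, a2⟩ := Finset.mem_filter.1 hk
      have := Finset.mem_range.1 a1
      exact Finset.mem_filter.2 ⟨Finset.mem_range.2 (by omega), a2⟩
  have := Finset.sum_le_sum_of_subset_of_nonneg (f := fun l : ℕ => sg l * kq K l) hsub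
    fun k _ _ => mul_nonneg (hs k) (kq_nonneg K k)
  rw [Finset.sum_insert hn] at this
  exact this

/-- **the future costs** -/
theorem futS_ok (hs : ∀ p, 0 ≤ sg p) : FutS p0 (kq K) (kq K) (fq K sg p0) sg ParF5.rg where
  k0 := kq_nonneg K
  t0 := kq_nonneg K
  f0 := fun p => add_nonneg (Finset.sum_nonneg fun k _ => Real.rpow_nonneg (by positivity) _)
    (Finset.sum_nonneg fun l _ => mul_nonneg (hs l) (kq_nonneg K l))
  s0 := hs
  mono := fun h => add_le_add (sum1_mono h) (sum2_mono hs h)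
  rgm := fun h => NumX34.rg_monotone h
  jump := by
    intro p' p h0 h hlt
    have e1 := sum1_jump (K := K) h0 hlt
    have e2 := sum2_mono (K := K) (p0 := p0) hs h
    unfold fq
    linarith
  tie := by
    intro p' p hp h0 h
    have e1 := sum1_mono (K := K) (p0 := p0) h.le
    have e2 := sum2_tie (K := K) hs hp h0 h
    unfold fq
    linarith
  tij := by
    intro p' p hp h0 h hlt
    have e1 := sum1_jump (K := K) h0 hlt
    have e2 := sum2_tie (K := K) hs hp (h0.trans h) h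
    unfold fq
    linarith

end fut

/-- **the future costs are bounded** -/
theorem fq_le (N : Skel189.Num) {K : ℝ} (hK : 2 * N.B + 2 ≤ K) : ∃ p₁ : ℕ, ∀ p0 ≥ p₁,
    ∀ (γ : ℝ) (P₀ : ℕ) (X : Ctx N γ p0 P₀), ∀ p : ℕ, fq K (sgS N) p0 p ≤ 1 := by
  have hB0 : 0 ≤ N.B := by have := N.hB; have := N.hC1; have := N.hc2; linarith
  have h2K : (0:ℝ) < 2 ^ K := Real.rpow_pos_of_pos (by norm_num) _
  obtain ⟨p1, h1⟩ := RseN630.ctx_path N (K - N.B) (by linarith) (ε := 1 / 28 / (2 ^ K))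
    (by positivity)
  obtain ⟨p2, h2⟩ := RseN630.ctx_path N K (by linarith) (ε := 1 / 2) (by norm_num)
  refine ⟨p1 + p2 + 3, fun p0 hp0 γ P₀ X p => ?_⟩
  obtain ⟨-, -, a1, -⟩ := h1 p0 (by omega) γ P₀ X
  obtain ⟨-, -, -, a2⟩ := h2 p0 (by omega) γ P₀ X
  unfold fq
  have s1 : ∑ k ∈ (Finset.range (ParF5.rg p)).filter (fun k => ParF5.rg p0 ≤ k),
      ((2 : ℝ) ^ k) ^ (-K) ≤ 1 / 2 := by
    refine a2 _ fun k hk => ?_
    have h3 := (Finset.mem_filter.1 hk).2
    refine (lt_rg (p := p0)).le.trans ?_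
    exact pow_le_pow_right₀ (by norm_num) (by omega)
  have s2 : ∑ l ∈ (Finset.range (p + 1)).filter (fun l => l.Prime ∧ p0 < l),
      sgS N l * kq K l ≤ 1 / 2 := by
    have h3 := a1 ((Finset.range (p + 1)).filter (fun l => l.Prime ∧ p0 < l))
      fun b hb => (Finset.mem_filter.1 hb).2
    have h4 : ∑ l ∈ (Finset.range (p + 1)).filter (fun l => l.Prime ∧ p0 < l),
        sgS N l * kq K l ≤ ∑ l ∈ (Finset.range (p + 1)).filter (fun l => l.Prime ∧ p0 < l),
        14 * 2 ^ K * (Real.log l ^ (-(K - N.B)) / l + 1 / (l : ℝ) ^ 2) := by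
      refine Finset.sum_le_sum fun l hl => ?_
      obtain ⟨-, -, hl0⟩ := Finset.mem_filter.1 hl
      have hl3 : 3 ≤ l := by omega
      have hlR : (0:ℝ) < l := by exact_mod_cast (by omega : 0 < l)
      have hlog1 : 1 ≤ Real.log l := Bld532.one_le_log_nat hl3
      have hlog : 0 < Real.log l := by linarith
      have h5 : Real.log l / 2 ≤ (2 : ℝ) ^ ParF5.rg l := by
        have := lt_rg (p := l)
        rw [pow_succ] at this
        linarith
      have h6 : kq K l ≤ (Real.log l / 2) ^ (-K) :=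
        Real.rpow_le_rpow_of_nonpos (by positivity) h5 (by linarith)
      have h7 : (Real.log (l:ℝ) / 2) ^ (-K) = 2 ^ K * Real.log l ^ (-K) := by
        rw [Real.div_rpow hlog.le (by norm_num), Real.rpow_neg (by norm_num : (0:ℝ) ≤ 2),
          div_inv_eq_mul, mul_comm]
      rw [h7] at h6
      have hb1 : 1 ≤ Real.log (l:ℝ) ^ N.B := Real.one_le_rpow hlog1 hB0
      have hs : sgS N l ≤ 14 * (Real.log l ^ N.B / l) := by
        unfold sgS
        have : 12 / (l : ℝ) ≤ 12 * (Real.log l ^ N.B / l) := by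
          rw [mul_div_assoc', div_le_div_iff_of_pos_right hlR]
          linarith
        linarith
      have h8 : sgS N l * kq K l ≤ 14 * (Real.log l ^ N.B / l) * (2 ^ K * Real.log l ^ (-K)) :=
        mul_le_mul hs h6 (kq_nonneg K l) (by positivity)
      have h9 : 0 ≤ 14 * 2 ^ K * (1 / (l : ℝ) ^ 2) := by positivity
      have h10 : Real.log (l:ℝ) ^ N.B * Real.log l ^ (-K) = Real.log l ^ (-(K - N.B)) := by
        rw [← Real.rpow_add hlog]; congr 1; ring
      calc sgS N l * kq K l ≤ 14 * (Real.log l ^ N.B / l) * (2 ^ K * Real.log l ^ (-K)) := h8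
        _ = 14 * 2 ^ K * ((Real.log (l:ℝ) ^ N.B * Real.log l ^ (-K)) / l) := by ring
        _ = 14 * 2 ^ K * (Real.log l ^ (-(K - N.B)) / l) := by rw [h10]
        _ ≤ 14 * 2 ^ K * (Real.log l ^ (-(K - N.B)) / l) + 14 * 2 ^ K * (1 / (l : ℝ) ^ 2) := by
          linarith
        _ = _ := by ring
    rw [← Finset.mul_sum] at h4
    refine h4.trans ?_
    calc 14 * 2 ^ K * ∑ l ∈ (Finset.range (p + 1)).filter (fun l => l.Prime ∧ p0 < l),
          (Real.log l ^ (-(K - N.B)) / l + 1 / (l : ℝ) ^ 2) ≤ 14 * 2 ^ K * (1 / 28 / (2 ^ K)) :=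
          mul_le_mul_of_nonneg_left h3 (by positivity)
      _ = 1 / 2 := by field_simp; norm_num
  linarith

end Crest.Agent.R4P.RsFut19
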