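import Crest.Agent.R4.Fam464
import Crest.Agent.R4.ClosR758

/-!
R4 (S0004), [W-eSHR] [M3], helper4: **the loss of the incumbents (V-loss) in the in-class energy
recursion.**

* `DW_sum` : the unmatched challengers of a top class have total `(G - f)⁺` on the fibre.
* `sq_loss` : `Ep (F²) + w (1-w) ((f - G)⁺)² ≤ (1-w) f² + w G²` for every top class.
* `LsOk` : this inequality at the `br` nodes of a closure tree; `FT.toG_LsOk`.
* `vl`, `VL` : loss of a node / weighted sum of the losses below a node, for a population.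
* `din_step_br`, `din_step_add` : local inequalities; `din_loss` : the recursion with the losses kept.
-/

set_option autoImplicit false
set_option linter.unusedSectionVars false
set_option linter.unusedVariables false
open MeasureTheory Filter Set

namespace Crest.Agent.R4P.VLoss4

open Crest.Agent.R4.Tour104 Crest.Agent.R4.Tour758 Crest.Agent.R4.Avg758 Crest.Agent.R4.Clos758
open Crest.Agent.R4.ClosL758 Crest.Agent.R4.ClosG758 Crest.Agent.R4.ClosR758
open Crest.Agent.R4.Lam368 Crest.Agent.R4.Fam464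

/-! ### the column -/

section col
variable {ι κ : Type*} [Fintype ι] [DecidableEq κ] {p n : ℕ} {f g G : ι → ℝ → ℝ} {c : ℕ → ι → κ}

/-- total of the unmatched challengers on the fibre -/
theorem DW_sum (hd : Dat p f g G) (hN : Nested c) (w₀ : ι) (y : ℝ) :
    ∑ i ∈ Finset.range p, DW p f g G c (n + 1) (cl' (c n) w₀) ((y + i) / p) =
      max (fW G (cl' (c n) w₀) y - fW f (cl' (c n) w₀) y) 0 := by
  set W := cl' (c n) w₀ with hW
  have hl := lift_fW hd W
  have e : ∀ S : ℝ, ∑ i ∈ Finset.range p, RW p f g G c (n + 1) W ((y + i) / p) = S →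
      ∑ i ∈ Finset.range p, DW p f g G c (n + 1) W ((y + i) / p) = fW G W y - S := by
    intro S hS
    unfold DW
    rw [Finset.sum_sub_distrib, hl y, hS]
  rcases dichotomy (n := n + 1) hd hN (Nat.lt_succ_self n) w₀ y with ⟨h1, h2, h3⟩ | ⟨h1, h2, h3⟩
  · rw [← hW] at h1 h2 h3
    have h1' : fW f W y ≤ fW G W y := h1
    rw [e _ h2, max_eq_left (by linarith)]
    rfl
  · rw [← hW] at h1 h2 h3
    have h1' : fW G W y ≤ fW f W y := h1
    rw [max_eq_right (by linarith)]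
    refine Finset.sum_eq_zero fun i _ => ?_
    have h4 : fW g W ((y + i) / p) ≤ RW p f g G c (n + 1) W ((y + i) / p) := h3 i
    have h5 := RW_le_top (n := n) hd hN w₀ ((y + i) / p)
    rw [← hW] at h5
    unfold DW
    linarith

/-- **the column with the loss of the incumbents** (`w = 1/p`), every top class -/
theorem sq_loss (hd : Dat p f g G) (hN : Nested c) (w₀ : ι) (y : ℝ) :
    Ep p (fun x => FW p f g G c (n + 1) (cl' (c n) w₀) x ^ 2) y +
        1 / (p : ℝ) * (1 - 1 / (p : ℝ)) *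
          max (fW f (cl' (c n) w₀) y - fW G (cl' (c n) w₀) y) 0 ^ 2 ≤
      (1 - 1 / (p : ℝ)) * fW f (cl' (c n) w₀) y ^ 2 +
        1 / (p : ℝ) * fW G (cl' (c n) w₀) y ^ 2 := by
  have hp := hd.hp
  have hp' : (0 : ℝ) < p := by exact_mod_cast hp
  set W := cl' (c n) w₀ with hW
  have hD := PB_DW_top (n := n) hd hN w₀
  rw [← hW] at hD
  set a := fW f W y with ha
  set b := fW G W y with hb
  set u := max (b - a) 0 with hu
  have hs := DW_sum (n := n) hd hN w₀ y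
  rw [← hW, ← ha, ← hb, ← hu] at hs
  have hu0 : 0 ≤ u := le_max_right _ _
  have m1 : Ep p (DW p f g G c (n + 1) W) y = u / p := by
    unfold Ep; rw [hs]
  have m2 : Ep p (fun x => DW p f g G c (n + 1) W x * DW p f g G c (n + 1) W x) y ≤ u ^ 2 / p := by
    unfold Ep
    refine div_le_div_of_nonneg_right ?_ hp'.le
    have h1 : ∀ i ∈ Finset.range p, DW p f g G c (n + 1) W ((y + i) / p) *
        DW p f g G c (n + 1) W ((y + i) / p) ≤ DW p f g G c (n + 1) W ((y + i) / p) * u := by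
      intro i hi
      refine mul_le_mul_of_nonneg_left ?_ (hD.nonneg _)
      rw [← hs]
      exact Finset.single_le_sum
        (f := fun i : ℕ => DW p f g G c (n + 1) W ((y + i) / p)) (fun i _ => hD.nonneg _) hi
    refine (Finset.sum_le_sum h1).trans (le_of_eq ?_)
    rw [← Finset.sum_mul, hs]; ring
  have key := Ep_FW_mul (c := c) (n := n + 1) hd W W y
  have e2 : (fun x => FW p f g G c (n + 1) W x ^ 2) =
      fun x => FW p f g G c (n + 1) W x * FW p f g G c (n + 1) W x := by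
    funext x; ring
  rw [e2, key, m1]
  have h3 : (max (a - b) 0) ^ 2 + u ^ 2 = (a - b) ^ 2 := by
    rw [hu]
    rcases le_total a b with h | h
    · rw [max_eq_right (by linarith : a - b ≤ 0), max_eq_left (by linarith : 0 ≤ b - a)]; ring
    · rw [max_eq_left (by linarith : 0 ≤ a - b), max_eq_right (by linarith : b - a ≤ 0)]; ring
  have e3 : (max (a - b) 0) ^ 2 = (a - b) ^ 2 - u ^ 2 := by linarith
  rw [e3]
  have e4 : (1 - 1 / (p : ℝ)) * a + b / p = (1 - 1 / (p : ℝ)) * a + 1 / (p : ℝ) * b := by ring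
  rw [e4]
  have e5 : u ^ 2 / (p : ℝ) = 1 / (p : ℝ) * u ^ 2 := by ring
  have e6 : u / (p : ℝ) * (u / p) = 1 / (p : ℝ) * (1 / (p : ℝ)) * u ^ 2 := by ring
  rw [e6]
  rw [e5] at m2
  nlinarith [m2]

end col

/-! ### closure trees -/

section tree
variable {Λ κ : Type*} [Fintype Λ] [DecidableEq Λ] [Fintype κ] [DecidableEq κ]

/-- the column of a `br` node keeps the loss of the incumbents -/
def LsOk : TrG Λ κ → Prop
  | .leaf _ _ => True
  | .br P w r t₁ t₀ v B G => ∀ c y, Ep P (fun x => sm r v c x ^ 2) y +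
      w * (1 - w) * max (sm r t₁.val c y - sm r t₀.val c y) 0 ^ 2 ≤
        (1 - w) * sm r t₁.val c y ^ 2 + w * sm r t₀.val c y ^ 2
  | .add _ _ _ => True

theorem toG_LsOk (t : FT Λ κ) : ∀ b : ℕ, 0 < b → t.Adm b → t.toG.All LsOk := by
  induction t with
  | leaf r L => exact fun b _ h => trivial
  | push n r t ih =>
    intro b hb h
    have hOk := FT.toG_Ok (.push n r t) b hb h
    obtain ⟨hn, hnb, ht⟩ := h
    refine ⟨fun c y => ?_, ih b hb ht, trivial⟩
    have := hOk.2.2.sq c y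
    simpa using this
  | br p n ch t₁ t₀ ih₁ ih₀ =>
    intro b hb h
    have hd := FT.dat hb h
    obtain ⟨hp, hpb, hN, a1, a0⟩ := h
    have hbp : 0 < b * p := Nat.mul_pos hb hp
    refine ⟨fun a y => ?_, ih₁ b hb a1, ih₀ _ hbp a0⟩
    rw [FT.toG_val t₁ b hb a1, FT.toG_val t₀ _ hbp a0]
    show Ep p (fun x => FW p (fun j => t₁.U 1 j) (fun j => t₀.U p j) (fun j => t₀.U 1 j) ch (n + 1)
        (clz (ch n) a) x ^ 2) y + 1 / (p : ℝ) * (1 - 1 / (p : ℝ)) *
        max (fW (fun j => t₁.U 1 j) (clz (ch n) a) y -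
          fW (fun j => t₀.U 1 j) (clz (ch n) a) y) 0 ^ 2 ≤
      (1 - 1 / (p : ℝ)) * fW (fun j => t₁.U 1 j) (clz (ch n) a) y ^ 2 +
        1 / (p : ℝ) * fW (fun j => t₀.U 1 j) (clz (ch n) a) y ^ 2
    rcases (clz (ch n) a).eq_empty_or_nonempty with h2 | ⟨w₀, hw⟩
    · rw [h2]
      simp [FW, fW, Ep]
    · have hw' : ch n w₀ = a := (Finset.mem_filter.1 hw).2
      have h2 : clz (ch n) a = cl' (ch n) w₀ := by
        ext w
        rw [mem_cl', hw']
        simp [clz]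
      rw [h2]
      exact sq_loss hd hN w₀ y
  | add r t₁ t₀ ih₁ ih₀ => exact fun b hb h => ⟨trivial, ih₁ b hb h.1, ih₀ b hb h.2⟩

/-- the loss for a saturated population -/
lemma LsOk.res {P : ℕ} {w : ℝ} {r : Λ → κ} {t₁ t₀ : TrG Λ κ} {v : Λ → ℝ → ℝ} {B G : κ → ℝ → ℝ}
    (h : LsOk (TrG.br P w r t₁ t₀ v B G)) {A : Finset Λ} (hA : Sat A r) (c : κ) (y : ℝ) :
    Ep P (fun x => sm r (rv A v) c x ^ 2) y +
      w * (1 - w) * max (sm r (rv A t₁.val) c y - sm r (rv A t₀.val) c y) 0 ^ 2 ≤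
        (1 - w) * sm r (rv A t₁.val) c y ^ 2 + w * sm r (rv A t₀.val) c y ^ 2 := by
  classical
  rw [sm_rv hA, sm_rv hA, sm_rv hA]
  unfold rk
  split_ifs with hc
  · exact h c y
  · simp [Ep]

/-- loss of a node, population `A`: `w (1-w) ∑_z ∫ ((a_z - b_z)⁺)²` -/
noncomputable def vl (A : Finset Λ) : TrG Λ κ → ℝ
  | .leaf _ _ => 0
  | .br _ w r t₁ t₀ _ _ _ => w * (1 - w) *
      ∑ c, I (fun y => max (sm r (rv A t₁.val) c y - sm r (rv A t₀.val) c y) 0 ^ 2)
  | .add _ _ _ => 0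

/-- weighted sum of the losses of all nodes below `t` (`t` included) -/
noncomputable def VL (A : Finset Λ) : TrG Λ κ → ℝ
  | .leaf _ _ => 0
  | .br P w r t₁ t₀ v B G => vl A (.br P w r t₁ t₀ v B G) + ((1 - w) * VL A t₁ + w * VL A t₀)
  | .add _ t₁ t₀ => VL A t₁ + VL A t₀

lemma PB_max_sub {a b : ℝ → ℝ} (ha : PB a) (hb : PB b) : PB fun y => max (a y - b y) 0 := by
  obtain ⟨M, hM⟩ := ha.bdd
  refine ⟨(ha.meas.sub hb.meas).max measurable_const, fun y => le_max_right _ _,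
    ⟨max M 0, fun y => max_le_max ?_ le_rfl⟩, fun y => ?_⟩
  · linarith [hM y, hb.nonneg y]
  · show max (a (y + 1) - b (y + 1)) 0 = _
    rw [ha.per, hb.per]

lemma PB_loss {r : Λ → κ} {t₁ t₀ : TrG Λ κ} (h1 : t₁.Ok) (h0 : t₀.Ok) (A : Finset Λ) (c : κ) :
    PB fun y => max (sm r (rv A t₁.val) c y - sm r (rv A t₀.val) c y) 0 ^ 2 := by
  have := PB_max_sub (PB_sm (PB_rv (fun j => h1.pb j) A) r c)
    (PB_sm (PB_rv (fun j => h0.pb j) A) r c)
  simpa [sq] using PBsq this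

lemma vl_nonneg {t : TrG Λ κ} (h : t.Ok) (A : Finset Λ) : 0 ≤ vl A t := by
  cases t with
  | leaf r f => exact le_rfl
  | add r t₁ t₀ => exact le_rfl
  | br P w r t₁ t₀ v B G =>
    have hw := h.2.2.w0
    have hw1 : 0 ≤ 1 - w := by linarith [h.2.2.w1]
    exact mul_nonneg (mul_nonneg hw hw1)
      (Finset.sum_nonneg fun c _ => I_nonneg (PB_loss h.1 h.2.1 A c).nonneg)

lemma VL_nonneg {t : TrG Λ κ} (h : t.Ok) (A : Finset Λ) : 0 ≤ VL A t := by
  induction t with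
  | leaf r f => exact le_rfl
  | br P w r t₁ t₀ v B G ih₁ ih₀ =>
    have hw := h.2.2.w0
    have hw1 : 0 ≤ 1 - w := by linarith [h.2.2.w1]
    exact add_nonneg (vl_nonneg h A)
      (add_nonneg (mul_nonneg hw1 (ih₁ h.1)) (mul_nonneg hw (ih₀ h.2.1)))
  | add r t₁ t₀ ih₁ ih₀ => exact add_nonneg (ih₁ h.1) (ih₀ h.2)

/-- **local inequality at a column**: the in-class energy of the parent and the loss -/
theorem din_step_br {P : ℕ} {w : ℝ} {r : Λ → κ} {t₁ t₀ : TrG Λ κ} {v : Λ → ℝ → ℝ}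
    {B G : κ → ℝ → ℝ} (h : (TrG.br P w r t₁ t₀ v B G).Ok) (hl : LsOk (TrG.br P w r t₁ t₀ v B G))
    {A : Finset Λ} (hA : Sat A r) :
    Q (Dr r) (rv A v) (rv A v) + vl A (.br P w r t₁ t₀ v B G) ≤
      (1 - w) * Q (Dr r) (rv A t₁.val) (rv A t₁.val) +
        w * Q (Dr r) (rv A t₀.val) (rv A t₀.val) := by
  obtain ⟨h1, h0, hb⟩ := h
  have hb' := BrOk.res hb hA
  have hw : 0 ≤ 1 - w := by linarith [hb.w1]
  have q1 := PB_rv (fun j => h1.pb j) A
  have q0 := PB_rv (fun j => h0.pb j) A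
  show _ + w * (1 - w) * ∑ c, _ ≤ _
  rw [Q_Dr_sm _ hb'.pv hb'.pv, Q_Dr_sm _ q1 q1, Q_Dr_sm _ q0 q0,
    Finset.mul_sum, Finset.mul_sum, Finset.mul_sum, ← Finset.sum_add_distrib,
    ← Finset.sum_add_distrib]
  refine Finset.sum_le_sum fun a _ => ?_
  have hv2 := PBsq (PB_sm hb'.pv r a)
  have ha2 := PBsq (PB_sm q1 r a)
  have hb2 := PBsq (PB_sm q0 r a)
  have hL := PB_loss (r := r) h1 h0 A a
  simp only [← sq]
  rw [← I_Ep hb.hP hv2.integrableOn, ← I_smul, ← I_smul, ← I_smul,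
    ← I_add (hv2.Ep hb.hP).integrableOn (hL.smul (mul_nonneg hb.w0 hw)).integrableOn,
    ← I_add (ha2.smul hw).integrableOn (hb2.smul hb.w0).integrableOn]
  exact I_mono ((hv2.Ep hb.hP).add (hL.smul (mul_nonneg hb.w0 hw))).integrableOn
    ((ha2.smul hw).add (hb2.smul hb.w0)).integrableOn fun y => hl.res hA a y

/-- **the in-class energy recursion with the losses kept** -/
theorem din_loss {Ad : TrG Λ κ → Finset Λ → Prop} {μ : TrG Λ κ → Finset Λ → ℝ} {ν : TrG Λ κ → ℝ}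
    {A : Finset Λ} {C₀ : ℝ} (hC₀ : 0 ≤ C₀) (t : TrG Λ κ) (h : t.Ok) (hs : t.All LsOk)
    (hN : t.All (AdN Ad)) (hA : Ad t A) (hM : t.All (MassOk Ad μ ν))
    (hl : t.All (LeafInR μ A C₀)) :
    Q (Dr t.part) (rv A t.val) (rv A t.val) + VL A t ≤ C₀ * μ t A + dseR A t := by
  induction t with
  | leaf r f =>
    have h2 : Q (Dr r) (rv A f) (rv A f) ≤ C₀ * μ (TrG.leaf r f) A := hl
    have h3 : dseR A (TrG.leaf r f : TrG Λ κ) = 0 := rfl
    have h4 : VL A (TrG.leaf r f : TrG Λ κ) = 0 := rfl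
    rw [h3, h4, add_zero, add_zero]; exact h2
  | br P w r t₁ t₀ v B G ih₁ ih₀ =>
    obtain ⟨sA, A1, A0⟩ := hN.1 A hA
    have hm := mul_le_mul_of_nonneg_left (hM.1.2.1 A hA) hC₀
    have key := din_step_br h hs.1 sA
    obtain ⟨h1, h0, hb⟩ := h
    have i1 := ih₁ h1 hs.2.1 hN.2.1 A1 hM.2.1 hl.2.1
    have i0 := ih₀ h0 hs.2.2 hN.2.2 A0 hM.2.2 hl.2.2
    have hw : 0 ≤ 1 - w := by linarith [hb.w1]
    have q1 := PB_rv (fun j => h1.pb j) A
    have q0 := PB_rv (fun j => h0.pb j) A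
    have j1 : Q (Dr r) (rv A t₁.val) (rv A t₁.val) ≤
        Q (Dr t₁.part) (rv A t₁.val) (rv A t₁.val) + ic r t₁.part (rv A t₁.val) :=
      Q_le_sdiff _ _ q1 q1
    have j0 : Q (Dr r) (rv A t₀.val) (rv A t₀.val) ≤
        Q (Dr t₀.part) (rv A t₀.val) (rv A t₀.val) + ic r t₀.part (rv A t₀.val) :=
      Q_le_sdiff _ _ q0 q0
    have e1 := mul_le_mul_of_nonneg_left j1 hw
    have e0 := mul_le_mul_of_nonneg_left j0 hb.w0
    have f1 := mul_le_mul_of_nonneg_left i1 hw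
    have f0 := mul_le_mul_of_nonneg_left i0 hb.w0
    show Q (Dr r) (rv A v) (rv A v) +
        (vl A (.br P w r t₁ t₀ v B G) + ((1 - w) * VL A t₁ + w * VL A t₀)) ≤
      C₀ * μ (.br P w r t₁ t₀ v B G) A +
      ((1 - w) * (dseR A t₁ + ic r t₁.part (rv A t₁.val)) +
        w * (dseR A t₀ + ic r t₀.part (rv A t₀.val)))
    linarith
  | add r t₁ t₀ ih₁ ih₀ =>
    obtain ⟨sA, A1, A0⟩ := hN.1 A hA
    have hm := mul_le_mul_of_nonneg_left (hM.1.2.1 A hA) hC₀
    have i1 := ih₁ h.1 hs.2.1 hN.2.1 A1 hM.2.1 hl.2.1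
    have i0 := ih₀ h.2 hs.2.2 hN.2.2 A0 hM.2.2 hl.2.2
    have q1 := PB_rv (fun j => h.1.pb j) A
    have q0 := PB_rv (fun j => h.2.pb j) A
    have j1 : Q (Dr r) (rv A t₁.val) (rv A t₁.val) ≤
        Q (Dr t₁.part) (rv A t₁.val) (rv A t₁.val) + ic r t₁.part (rv A t₁.val) :=
      Q_le_sdiff _ _ q1 q1
    have j0 : Q (Dr r) (rv A t₀.val) (rv A t₀.val) ≤
        Q (Dr t₀.part) (rv A t₀.val) (rv A t₀.val) + ic r t₀.part (rv A t₀.val) :=
      Q_le_sdiff _ _ q0 q0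
    have key : Q (Dr r) (rv A (TrG.add r t₁ t₀).val) (rv A (TrG.add r t₁ t₀).val) =
        Q (Dr r) (rv A t₁.val) (rv A t₁.val) + Q (Dr r) (rv A t₀.val) (rv A t₀.val) +
          2 * Q (Dr r) (rv A t₁.val) (rv A t₀.val) := by
      have e : rv A (TrG.add r t₁ t₀).val = fun j x => rv A t₁.val j x + rv A t₀.val j x :=
        rv_add A t₁.val t₀.val
      rw [e, Q_add_left q1 q0 (fun j => (q1 j).add (q0 j)), Q_add_right q1 q1 q0,
        Q_add_right q0 q1 q0, Dr_symm _ (rv A t₀.val) (rv A t₁.val)]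
      ring
    show Q (Dr r) (rv A (TrG.add r t₁ t₀).val) (rv A (TrG.add r t₁ t₀).val) +
      (VL A t₁ + VL A t₀) ≤ _
    rw [key]
    show _ ≤ C₀ * μ (.add r t₁ t₀) A + ((dseR A t₁ + ic r t₁.part (rv A t₁.val)) +
      (dseR A t₀ + ic r t₀.part (rv A t₀.val)) + 2 * Q (Dr r) (rv A t₁.val) (rv A t₀.val))
    linarith

end tree

end Crest.Agent.R4P.VLoss4
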