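import Crest.Agent.R4P.TWc_17
import Crest.Agent.R4P.VLoss_4

/-!
R4 (S0004), [W-eSHR] / TgtCrs, helper19: **pairs of one index and different worlds at a tie**.

* `zs κ` : pairs of labels which are different and not related; `Rz_zs : Rz (zs κ) r = Rr r \ Ro r`;
* `tie_RS` : `w * Q RS a b + (1 - w) * Q RS a a ≤ (1 + 12 w) * Q RS v v` at a tie or a pull;
* `Q_add_self` : the same at an add node.
-/

set_option autoImplicit false
set_option linter.unusedSectionVars false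
set_option linter.unusedVariables false
open MeasureTheory Filter Set

namespace Crest.Agent.R4P.RsTie19

open Crest.Agent.R4.Tour104 Crest.Agent.R4.Tour758 Crest.Agent.R4.Avg758 Crest.Agent.R4.Clos758
open Crest.Agent.R4.ClosL758 Crest.Agent.R4.ClosG758 Crest.Agent.R4.ClosR758
open Crest.Agent.R4P.TWc17

variable {Λ κ : Type*} [Fintype Λ] [DecidableEq Λ] [Fintype κ] [DecidableEq κ]

/-- symmetric sets of pairs -/
lemma Q_swapZ {ι : Type*} {Z : Finset (ι × ι)} (hZ : ∀ e ∈ Z, (e.2, e.1) ∈ Z)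
    (f f' : ι → ℝ → ℝ) : Q Z f f' = Q Z f' f := by
  unfold Q
  refine Finset.sum_nbij' (fun e => (e.2, e.1)) (fun e => (e.2, e.1)) ?_ ?_ ?_ ?_ ?_
  · intro e he
    exact hZ _ he
  · intro e he
    exact hZ _ he
  · intro e _; rfl
  · intro e _; rfl
  · intro e _; congr 1; funext x; ring

section rel
variable [WRel κ]

open Classical in
/-- labels of one index and different worlds -/
noncomputable def zs (κ : Type*) [Fintype κ] [WRel κ] : Finset (κ × κ) :=
  Finset.univ.filter fun e => e.1 ≠ e.2 ∧ ¬ WRel.rel e.1 e.2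

lemma ZS_zs : ZS (zs κ) := by
  intro e he
  unfold zs at he ⊢
  simp only [Finset.mem_filter, Finset.mem_univ, true_and] at he ⊢
  exact ⟨fun h => he.1 h.symm, fun h => he.2 (WRel.symm h)⟩

lemma Rz_zs (r : Λ → κ) : Rz (zs κ) r = Rr r \ Ro r := by
  ext e
  rw [mem_Rz, Finset.mem_sdiff, mem_Ro]
  unfold zs Rr
  simp only [Finset.mem_filter, Finset.mem_univ, true_and]

end rel

/-- the exact data of a tie or a pull (fields of `PN36.TieD`) -/
structure TD (p : ℕ) (w : ℝ) (r : Λ → κ) (a b : Λ → ℝ → ℝ) (B G : κ → ℝ → ℝ) : Prop where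
  hw : w = 1 / (p : ℝ) ∨ (w = 0 ∧ ∀ c y, sm r b c y = 0)
  eB : ∀ c y, B c y = sm r a c y - w * max (sm r a c y - sm r b c y) 0
  eG : ∀ c, Lift p (fun y => max (sm r b c y - sm r a c y) 0) (G c)

/-- the part of a tie which is constant on the fibres -/
lemma B_ge {p : ℕ} {w : ℝ} {r : Λ → κ} {a b : Λ → ℝ → ℝ} {B G : κ → ℝ → ℝ}
    (h : TD p w r a b B G) (w0 : 0 ≤ w) (pa : ∀ j, PB (a j)) (pb : ∀ j, PB (b j)) (c : κ)
    (y : ℝ) : (1 - w) * sm r a c y ≤ B c y := by
  rw [h.eB]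
  have h1 := (PB_sm pa r c).nonneg y
  have h2 := (PB_sm pb r c).nonneg y
  have h3 : max (sm r a c y - sm r b c y) 0 ≤ sm r a c y := max_le (by linarith) h1
  nlinarith [mul_le_mul_of_nonneg_left h3 w0]

/-- the mean of the unmatched challengers -/
lemma Ep_G {p : ℕ} {w : ℝ} {r : Λ → κ} {a b : Λ → ℝ → ℝ} {B G : κ → ℝ → ℝ}
    (h : TD p w r a b B G) (pa : ∀ j, PB (a j)) (c : κ)
    (y : ℝ) : Ep p (G c) y = w * max (sm r b c y - sm r a c y) 0 := by
  rw [(h.eG c).Ep y]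
  rcases h.hw with hw | ⟨hw, hz⟩
  · rw [hw]; ring
  · have h1 := (PB_sm pa r c).nonneg y
    rw [hw, hz, max_eq_right (by linarith)]
    simp

/-- **one pair of classes at a tie** -/
lemma tie_pair {p : ℕ} {w : ℝ} {r : Λ → κ} {a b v : Λ → ℝ → ℝ} {B G : κ → ℝ → ℝ}
    (h : TD p w r a b B G) (hb : BrOk p w r a b v B G) (pa : ∀ j, PB (a j))
    (pb : ∀ j, PB (b j)) (c c' : κ) :
    (1 - w) ^ 2 * I (fun y => sm r a c y * sm r a c' y) +
      (1 - w) * w * (I (fun y => sm r a c y * max (sm r b c' y - sm r a c' y) 0) +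
        I (fun y => sm r a c' y * max (sm r b c y - sm r a c y) 0)) ≤
      I (fun x => sm r v c x * sm r v c' x) := by
  have w0 := hb.w0
  have w1 : 0 ≤ 1 - w := by linarith [hb.w1]
  have hA := PB_sm pa r c
  have hA' := PB_sm pa r c'
  have hB := PB_sm pb r c
  have hB' := PB_sm pb r c'
  have hV := PB_sm hb.pv r c
  have hV' := PB_sm hb.pv r c'
  have hD : PB fun y => max (sm r b c y - sm r a c y) 0 := VLoss4.PB_max_sub hB hA
  have hD' : PB fun y => max (sm r b c' y - sm r a c' y) 0 := VLoss4.PB_max_sub hB' hA'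
  have q1 := hA.mul hA'
  have q2 := hA.mul hD'
  have q3 := hA'.mul hD
  have q4 := hV.mul hV'
  have q5 := ((q1.smul (by positivity : (0:ℝ) ≤ (1 - w) ^ 2)).add
    ((q2.add q3).smul (mul_nonneg w1 w0)))
  rw [← I_Ep hb.hP q4.integrableOn, ← I_add q2.integrableOn q3.integrableOn, ← I_smul, ← I_smul,
    ← I_add (q1.smul (by positivity : (0:ℝ) ≤ (1 - w) ^ 2)).integrableOn
      ((q2.add q3).smul (mul_nonneg w1 w0)).integrableOn]
  refine I_mono q5.integrableOn (q4.Ep hb.hP).integrableOn fun y => ?_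
  have key := col2_pt_eq hb.hP (hb.col c) (hb.col c') y
  rw [(hb.col c).Ep_eq hb.hP, (hb.col c').Ep_eq hb.hP] at key
  have hgg : 0 ≤ Ep p (fun x => G c x * G c' x) y :=
    Ep_nonneg (fun x => mul_nonneg ((hb.col c).pG.nonneg x) ((hb.col c').pG.nonneg x)) y
  have e1 := Ep_G h pa c y
  have e2 := Ep_G h pa c' y
  have b1 := B_ge h w0 pa pb c y
  have b2 := B_ge h w0 pa pb c' y
  have n1 := hA.nonneg y
  have n2 := hA'.nonneg y
  have n3 := hD.nonneg y
  have n4 := hD'.nonneg y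
  rw [e1, e2] at key
  show (1 - w) ^ 2 * (sm r a c y * sm r a c' y) + (1 - w) * w *
    (sm r a c y * max (sm r b c' y - sm r a c' y) 0 +
      sm r a c' y * max (sm r b c y - sm r a c y) 0) ≤ Ep p (fun x => sm r v c x * sm r v c' x) y
  rw [key]
  have m1 : ((1 - w) * sm r a c y) * ((1 - w) * sm r a c' y) ≤ B c y * B c' y :=
    mul_le_mul b1 b2 (mul_nonneg w1 n2) ((mul_nonneg w1 n1).trans b1)
  have m2 : ((1 - w) * sm r a c y) * (w * max (sm r b c' y - sm r a c' y) 0) ≤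
      B c y * (w * max (sm r b c' y - sm r a c' y) 0) :=
    mul_le_mul_of_nonneg_right b1 (mul_nonneg w0 n4)
  have m3 : ((1 - w) * sm r a c' y) * (w * max (sm r b c y - sm r a c y) 0) ≤
      B c' y * (w * max (sm r b c y - sm r a c y) 0) :=
    mul_le_mul_of_nonneg_right b2 (mul_nonneg w0 n3)
  nlinarith

variable [WRel κ]

/-- **the pairs of one index and different worlds at a tie or a pull** -/
theorem tie_RS {p : ℕ} {w : ℝ} {r : Λ → κ} {a b v : Λ → ℝ → ℝ} {B G : κ → ℝ → ℝ}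
    (h : TD p w r a b B G) (hb : BrOk p w r a b v B G) (pa : ∀ j, PB (a j))
    (pb : ∀ j, PB (b j)) (hw : w ≤ 1 / 2) :
    w * Q (Rr r \ Ro r) a b + (1 - w) * Q (Rr r \ Ro r) a a ≤
      (1 + 12 * w) * Q (Rr r \ Ro r) v v := by
  have w0 := hb.w0
  have w1 : 0 ≤ 1 - w := by linarith [hb.w1]
  rw [← Rz_zs, ← Q_Z_sm (zs κ) r pa pb, ← Q_Z_sm (zs κ) r pa pa, ← Q_Z_sm (zs κ) r hb.pv hb.pv]
  set D : κ → ℝ → ℝ := fun c y => max (sm r b c y - sm r a c y) 0 with hD
  have pD : ∀ c, PB (D c) := fun c => VLoss4.PB_max_sub (PB_sm pb r c) (PB_sm pa r c)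
  have pA := fun c => PB_sm pa r c
  have s1 : (1 - w) ^ 2 * Q (zs κ) (sm r a) (sm r a) +
      (1 - w) * w * (Q (zs κ) (sm r a) D + Q (zs κ) D (sm r a)) ≤ Q (zs κ) (sm r v) (sm r v) := by
    unfold Q
    rw [← Finset.sum_add_distrib, Finset.mul_sum, Finset.mul_sum, ← Finset.sum_add_distrib]
    refine Finset.sum_le_sum fun e _ => ?_
    have := tie_pair h hb pa pb e.1 e.2
    have e2 : (fun x => D e.1 x * sm r a e.2 x) =
        fun y => sm r a e.2 y * max (sm r b e.1 y - sm r a e.1 y) 0 := by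
      funext y; rw [hD]; ring
    rw [e2]
    exact this
  have s2 : Q (zs κ) D (sm r a) = Q (zs κ) (sm r a) D := Q_swapZ ZS_zs _ _
  have s3 : Q (zs κ) (sm r a) (sm r b) ≤ Q (zs κ) (sm r a) D + Q (zs κ) (sm r a) (sm r a) := by
    unfold Q
    rw [← Finset.sum_add_distrib]
    refine Finset.sum_le_sum fun e _ => ?_
    have i1 := (pA e.1).mul (pD e.2)
    have i2 := (pA e.1).mul (pA e.2)
    have i3 := (pA e.1).mul (PB_sm pb r e.2)
    rw [← I_add i1.integrableOn i2.integrableOn]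
    refine I_mono i3.integrableOn (i1.add i2).integrableOn fun y => ?_
    show sm r a e.1 y * sm r b e.2 y ≤ sm r a e.1 y * D e.2 y + sm r a e.1 y * sm r a e.2 y
    have n1 := (pA e.1).nonneg y
    have n2 : sm r b e.2 y - sm r a e.2 y ≤ D e.2 y := le_max_left _ _
    nlinarith [mul_le_mul_of_nonneg_left n2 n1]
  rw [s2] at s1
  have n1 : 0 ≤ Q (zs κ) (sm r a) (sm r a) := Q_nonneg pA pA
  have n2 : 0 ≤ Q (zs κ) (sm r a) D := Q_nonneg pA pD
  set q := Q (zs κ) (sm r a) (sm r a) with hq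
  set x := Q (zs κ) (sm r a) D with hx
  set s := Q (zs κ) (sm r v) (sm r v) with hs
  have s4 : w * Q (zs κ) (sm r a) (sm r b) ≤ w * (x + q) := mul_le_mul_of_nonneg_left s3 w0
  have s5 : (1 + 12 * w) * ((1 - w) ^ 2 * q + (1 - w) * w * (x + x)) ≤ (1 + 12 * w) * s :=
    mul_le_mul_of_nonneg_left s1 (by linarith)
  have c1 : 1 ≤ (1 + 12 * w) * (1 - w) ^ 2 := by
    have : 0 ≤ w * (10 - 23 * w + 12 * w ^ 2) := by
      refine mul_nonneg w0 ?_
      nlinarith
    nlinarith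
  have c2 : w ≤ (1 + 12 * w) * ((1 - w) * w * 2) := by
    have h1 : w ≤ (1 - w) * w * 2 := by nlinarith
    have h2 : 0 ≤ (1 - w) * w * 2 := by positivity
    nlinarith
  have c3 := mul_le_mul_of_nonneg_right c1 n1
  have c4 := mul_le_mul_of_nonneg_right c2 n2
  nlinarith

/-- add nodes -/
lemma Q_add_self {ι : Type*} [Fintype ι] {R : Finset (ι × ι)} (hR : ∀ e ∈ R, (e.2, e.1) ∈ R)
    {a b : ι → ℝ → ℝ} (pa : ∀ j, PB (a j)) (pb : ∀ j, PB (b j)) :
    Q R (fun j x => a j x + b j x) (fun j x => a j x + b j x) =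
      Q R a a + Q R b b + 2 * Q R a b := by
  rw [Q_add_left pa pb (fun j => (pa j).add (pb j)), Q_add_right pa pa pb, Q_add_right pb pa pb,
    Q_swapZ hR b a]
  ring

end Crest.Agent.R4P.RsTie19
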