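import Crest.Agent.R4P.RseRel_23
import Crest.Agent.R4P.SkelPart_3
import Crest.Agent.R4P.TagFac_2

/-!
R4 (S0004), powers pass, helper23: **the energy `rseR` at the nodes of a context**.

* `RseH X` : hypotheses on the worlds (no accuracy thresholds, depth, thinness, tags).
* `PE_link` : a pair of items with a nonzero pair of pieces;
* `rse_node` : the energy of the pairs with one index, different retained parts or tags, at one node.
-/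

set_option autoImplicit false
set_option linter.unusedSectionVars false
set_option linter.unusedVariables false

open MeasureTheory Filter

namespace Crest.Agent.R4P.RseNd23

open Crest.Agent.R4P.Cnt588 Crest.Agent.R4P.Item758 Crest.Agent.R4P.W363
open Crest.Agent.R4P.Data758 Crest.Agent.R4P.OmSt532 Crest.Agent.R4P.OmData532
open Crest.Agent.R4P.LfDat734 Crest.Agent.R4P.WPex189
open Crest.Agent.R4P.Bld532 (NS All NodeOk Bk)
open Crest.Agent.R4P.Step588 (NDt ND1 ctx_NDt uq_lt)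
open Crest.Agent.R4P.WalkIT579 (tp isL nodeOk_hi top_of_nodeOk)
open Crest.Agent.R4P.Skel189 Crest.Agent.R4P.RseSt23
open Crest.Agent.R4.LF363 (Lab)
open Crest.Agent.R4.HVW560 (cof)
open Crest.Agent.R4.AvgItem710 (Dp mul_cof mul_cof' cof_pos cof_coprime exists_of_I_ne)
open Crest.Agent.R4P.AvgItem710
open Crest.Agent.R4P.PairR23 (iF_rel_le)
open Crest.Agent.R4.ClosL758 Crest.Agent.R4.ClosR758 Crest.Agent.R4.Tour104 Crest.Agent.R4.Fam464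
open Crest.Agent.R4.Tour758 Crest.Agent.R4.Avg758
open Crest.Agent.R4P.Frame758
open Crest.Agent.R4.Soft104 (w)
open Crest.Agent.R4

/-- **hypotheses on the worlds** for `rseR` -/
structure RseH {N : Skel189.Num} {γ : ℝ} {p0 P₀ : ℕ} (X : Ctx N γ p0 P₀) : Prop where
  lam : ∀ p, p0 < p → p ≤ top X.S → X.c.lam p = 0
  dep : ∀ p, p0 < p → p ≤ top X.S → 2 * Real.exp (Real.log p ^ (4/5:ℝ)) ≤ 2 ^ X.c.wp.dep p
  thr : ∀ p, p0 < p → (p:ℝ) ^ (-(1/2:ℝ)) ≤ X.c.wp.thr p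
  sep : ∀ p, p0 < p → p ≤ top X.S → ∀ q ∈ X.S', ∀ r ∈ X.S', X.c.tg p q ≠ X.c.tg p r →
    2 ^ p ≤ q / Nat.gcd q r ∨ 2 ^ p ≤ r / Nat.gcd r q

section ctx
variable {N : Skel189.Num} {γ : ℝ} {p0 P₀ : ℕ} {X : Ctx N γ p0 P₀} {u : NS} {τ : IT}

/-- the pairs of pieces of one index, different retained parts or tags -/
noncomputable abbrev RS (X : Ctx N γ p0 P₀) (Y : Finset (ℕ × ℕ × Finset ℕ)) (p : ℕ) :
    Finset (X.c.Lam × X.c.Lam) :=
  Rr ((X.c.D.par Y).rho p) \ Ro ((X.c.D.par Y).rho p)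

lemma mem_RS {Y : Finset (ℕ × ℕ × Finset ℕ)} {p : ℕ} {x : X.c.Lam × X.c.Lam} :
    x ∈ RS X Y p ↔ (X.c.world p x.1.1).1 = (X.c.world p x.2.1).1 ∧
      (ret X.c.t p x.1.1.1 ≠ ret X.c.t p x.2.1.1 ∨ X.c.tg p x.1.1.1 ≠ X.c.tg p x.2.1.1) := by
  rw [← Cf.mem_Rr_Ro, Finset.mem_sdiff, Finset.mem_sdiff, Cf.Ro_par]
  refine and_congr_left fun _ => ?_
  unfold Rr
  rw [Finset.mem_filter, Finset.mem_filter]
  refine and_congr_right fun _ => ?_
  exact not_congr (X.c.D.rho_eq Y p x.1 x.2)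

/-- values of the pieces at a node -/
noncomputable abbrev Uv (X : Ctx N γ p0 P₀) (Y : Finset (ℕ × ℕ × Finset ℕ)) (u : NS) (τ : IT)
    (A : Finset X.c.Lam) : X.c.Lam → ℝ → ℝ :=
  rv A fun j => ((X.c.D.par Y).toFT u.B u.A τ).U 1 j

lemma node_wts (h : NDt X.par (w X.ψ) X.c.t u τ) (Y : Finset (ℕ × ℕ × Finset ℕ)) :
    (X.c.D.par Y).Wts u.A τ :=
  h.wts fun j _ => X.ok.wt _ (Cf.mem_S j) _

/-- **a pair of items with a nonzero pair of pieces** -/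
theorem PE_link (h : NDt X.par (w X.ψ) X.c.t u τ) {Y : Finset (ℕ × ℕ × Finset ℕ)} {p : ℕ}
    {A : Finset X.c.Lam} {e : ℕ × ℕ}
    (he : e ∈ (X.c.D.par Y).PE (RS X Y p) (Uv X Y u τ A) (Uv X Y u τ A)) :
    ∃ j j' : X.c.Lam, j ∈ A ∧ j' ∈ A ∧ e = (j.1.1, j'.1.1) ∧ j.1.1 ∈ τ.items ∧ j'.1.1 ∈ τ.items ∧
      (X.c.world p j.1).1 = (X.c.world p j'.1).1 ∧
      (ret X.c.t p j.1.1 ≠ ret X.c.t p j'.1.1 ∨ X.c.tg p j.1.1 ≠ X.c.tg p j'.1.1) ∧
      ∃ (y : ℝ) (a a' : ℤ),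
        X.c.om j.1.1 (X.c.bp j.1.1 j.1.2) ((mp τ j.1.1 : ℕ) * a) ≠ 0 ∧
        X.c.om j'.1.1 (X.c.bp j'.1.1 j'.1.2) ((mp τ j'.1.1 : ℕ) * a') ≠ 0 ∧
        (u.B : ℝ) / (1 : ℕ) * X.c.bp j.1.1 j.1.2 ≤
          ((j.1.1 / u.A : ℕ) : ℝ) * y - (u.B : ℝ) / (1 : ℕ) * X.c.γ - a ∧
        ((j.1.1 / u.A : ℕ) : ℝ) * y - (u.B : ℝ) / (1 : ℕ) * X.c.γ - a <
          (u.B : ℝ) / (1 : ℕ) * X.c.bp j.1.1 (j.1.2 + 1) ∧
        (u.B : ℝ) / (1 : ℕ) * X.c.bp j'.1.1 j'.1.2 ≤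
          ((j'.1.1 / u.A : ℕ) : ℝ) * y - (u.B : ℝ) / (1 : ℕ) * X.c.γ - a' ∧
        ((j'.1.1 / u.A : ℕ) : ℝ) * y - (u.B : ℝ) / (1 : ℕ) * X.c.γ - a' <
          (u.B : ℝ) / (1 : ℕ) * X.c.bp j'.1.1 (j'.1.2 + 1) := by
  obtain ⟨j, j', hR, hI, e1, e2⟩ := Par.mem_PE.1 he
  obtain ⟨y, y1, y2⟩ := exists_of_I_ne hI
  have hA : j ∈ A := by
    by_contra hc
    exact y1 (congrFun (rv_of_not_mem (f := fun j => ((X.c.D.par Y).toFT u.B u.A τ).U 1 j) hc) y)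
  have hA' : j' ∈ A := by
    by_contra hc
    exact y2 (congrFun (rv_of_not_mem (f := fun j => ((X.c.D.par Y).toFT u.B u.A τ).U 1 j) hc) y)
  have y1' : ((X.c.D.par Y).toFT u.B u.A τ).U 1 j y ≠ 0 := by
    have e := congrFun (rv_of_mem (f := fun j => ((X.c.D.par Y).toFT u.B u.A τ).U 1 j) hA) y
    intro h0
    exact y1 (e.trans h0)
  have y2' : ((X.c.D.par Y).toFT u.B u.A τ).U 1 j' y ≠ 0 := by
    have e := congrFun (rv_of_mem (f := fun j => ((X.c.D.par Y).toFT u.B u.A τ).U 1 j) hA') y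
    intro h0
    exact y2 (e.trans h0)
  obtain ⟨m1, a, o1, l1, l2⟩ := Par.supp _ h.B_pos h.fit (node_wts h Y) (one_dvd _) y1'
  obtain ⟨m2, a', o2, l3, l4⟩ := Par.supp _ h.B_pos h.fit (node_wts h Y) (one_dvd _) y2'
  rw [mem_RS] at hR
  refine ⟨j, j', hA, hA', Prod.ext e1.symm e2.symm, m1, m2, hR.1, hR.2, y, a, a', ?_, ?_, l1, l2,
    l3, l4⟩
  · rw [one_mul] at o1; exact o1
  · rw [one_mul] at o2; exact o2

/-- one index: the same type -/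
lemma isSome_pair {p : ℕ} (hlam : X.c.lam p = 0) {j j' : X.c.Lam}
    (hix : (X.c.world p j.1).1 = (X.c.world p j'.1).1) :
    (X.c.st p j.1.1).isSome = (X.c.st p j'.1.1).isSome := WP.isSome_eq _ hix

/-- radii on the circle of the node -/
noncomputable abbrev RB (X : Ctx N γ p0 P₀) (u : NS) (q : ℕ) : ℝ := (u.B : ℝ) * X.c.rr q

/-- **energy of an unlabelled pair** -/
theorem F_none (h : NDt X.par (w X.ψ) X.c.t u τ) {Y : Finset (ℕ × ℕ × Finset ℕ)} {p : ℕ}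
    (hp : p ≤ top X.S) (hlam : X.c.lam p = 0) {A : Finset X.c.Lam} {e : ℕ × ℕ}
    (h1 : e.1 ∈ τ.items) (h2 : e.2 ∈ τ.items) {η : ℝ} (hη : etaL X.c.wp p ≤ η)
    (hs : X.c.st p e.1 = none)
    (hs' : X.c.st p e.2 = none) :
    (X.c.D.par Y).iF (RS X Y p) (Uv X Y u τ A) (Uv X Y u τ A) e ≤
      2 * ((RB X u e.1 * RB X u e.2) / DA u.A (RB X u) e) * (2 * (η * DA u.A (RB X u) e) + 1) := by
  have hrr : ∀ q, 0 < X.c.rr q := (X.ok.rad Y).pos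
  have hB' : (0 : ℝ) < u.B := by exact_mod_cast h.B_pos
  have hDA : 0 ≤ DA u.A (RB X u) e := by
    unfold DA Crest.Agent.R4.AvgItem710.Dp
    refine le_max_of_le_left ?_
    have := (hrr e.1).le
    positivity
  have hη0 : 0 ≤ η := (etaL_pos _ _).le.trans hη
  have key := iF_rel_le (D := X.c.D.par Y) (ρ := X.c.rr) (b := u.B) (pr := u.A) (c := 1)
    (b' := u.B) (pr' := u.A) (c' := 1) (A := A) (A' := A) (X.ok.rad Y) h.B_pos h.B_pos h.fit h.fit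
    (node_wts h Y) (node_wts h Y) (one_dvd _) (one_dvd _) (RS X Y p) e h1 h2
    (C := u.B * X.c.γ) (C' := u.B * X.c.γ) (δ := η * DA u.A (RB X u) e) (mul_nonneg hη0 hDA)
    (fun x hx _ _ i1 i2 y a a' l1 l2 l3 l4 => by
      rw [mem_RS] at hx
      have i1' : x.1.1.1 = e.1 := i1
      have i2' : x.2.1.1 = e.2 := i2
      rw [← i1'] at l1 l2 h1 hs
      rw [← i2'] at l3 l4 h2 hs'
      have k := rel_none h hp hlam hx.1 h1 h2 hs hs' l1 l2 l3 l4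
      rw [i1', i2'] at k
      exact k.trans (mul_le_mul_of_nonneg_right hη hDA))
  rw [Nat.cast_one, div_one] at key
  exact key

/-- **energy of a labelled pair** -/
theorem F_some (h : NDt X.par (w X.ψ) X.c.t u τ) {Y : Finset (ℕ × ℕ × Finset ℕ)} {p : ℕ}
    (hp : p ≤ top X.S) (hlam : X.c.lam p = 0) {A : Finset X.c.Lam} {e : ℕ × ℕ}
    (h1 : e.1 ∈ τ.items) (h2 : e.2 ∈ τ.items) {σ σ' : ℚ}
    (hs : X.c.st p e.1 = some σ)
    (hs' : X.c.st p e.2 = some σ') :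
    (X.c.D.par Y).iF (RS X Y p) (Uv X Y u τ A) (Uv X Y u τ A) e ≤
      2 * ((RB X u e.1 * RB X u e.2) / DA u.A (RB X u) e) := by
  have key := iF_rel_le (D := X.c.D.par Y) (ρ := X.c.rr) (b := u.B) (pr := u.A) (c := 1)
    (b' := u.B) (pr' := u.A) (c' := 1) (A := A) (A' := A) (X.ok.rad Y) h.B_pos h.B_pos h.fit h.fit
    (node_wts h Y) (node_wts h Y) (one_dvd _) (one_dvd _) (RS X Y p) e h1 h2
    (C := ((u.B * σ : ℚ) : ℝ)) (C' := ((u.B * σ' : ℚ) : ℝ)) (δ := 0) le_rfl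
    (fun x hx _ _ i1 i2 y a a' l1 l2 l3 l4 => by
      rw [mem_RS] at hx
      have i1' : x.1.1.1 = e.1 := i1
      have i2' : x.2.1.1 = e.2 := i2
      rw [← i1'] at l1 l2 h1 hs
      rw [← i2'] at l3 l4 h2 hs'
      have k := (rel_some h hp hlam hx.1 h1 h2 hs hs' l1 l2 l3 l4).2
      rw [i1', i2'] at k
      rw [k, sub_self, abs_zero])
  rw [Nat.cast_one, div_one, mul_zero, zero_add, mul_one] at key
  exact key

end ctx

end Crest.Agent.R4P.RseNd23
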