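import Crest.Agent.R4P.RseG_10
import Crest.Agent.R4P.RseP_23

/-!
R4 (S0004), [W-eSHR], helper10: **the energy `rseR` at one node with a logarithmic gain** (`RseNd_23`,
`RseC2_23` with `κ (log p)^(-K)`).

* `rse_nodeK` : the energy of the pairs of one index, different retained parts or tags, at a node with
  the column `p = tp τ`, is at most `κ (log p)^(-K)` times the mass;
* `ctx_rseK` : at all the nodes of a context (`¬ isL`, `notUp`).
-/

set_option autoImplicit false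
set_option linter.unusedSectionVars false
set_option linter.unusedVariables false

open MeasureTheory Filter

namespace Crest.Agent.R4P.RseG10

open Crest.Agent.R4P.Cnt588 Crest.Agent.R4P.Item758 Crest.Agent.R4P.W363
open Crest.Agent.R4P.Data758 Crest.Agent.R4P.OmSt532 Crest.Agent.R4P.OmData532
open Crest.Agent.R4P.LfDat734 Crest.Agent.R4P.WPex189
open Crest.Agent.R4P.Bld532 (NS All NodeOk Bk)
open Crest.Agent.R4P.Step588 (NDt ND1 ctx_NDt uq_lt)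
open Crest.Agent.R4P.WalkIT579 (tp isL nodeOk_hi top_of_nodeOk)
open Crest.Agent.R4P.Skel189 Crest.Agent.R4P.RseSt23 Crest.Agent.R4P.RseNd23
open Crest.Agent.R4.LF363 (Lab)
open Crest.Agent.R4.HVW560 (cof)
open Crest.Agent.R4.InX944 (DP)
open Crest.Agent.R4.AvgItem710 (Dp mul_cof mul_cof' cof_pos cof_coprime exists_of_I_ne)
open Crest.Agent.R4P.AvgItem710
open Crest.Agent.R4.ClosL758 Crest.Agent.R4.ClosR758 Crest.Agent.R4.Tour104 Crest.Agent.R4.Fam464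
open Crest.Agent.R4.Tour758 Crest.Agent.R4.Avg758
open Crest.Agent.R4.Soft104 (w)
open Crest.Agent.R4.Item758 (IL AdS AdI)
open Crest.Agent.R4

section num
open Crest.Agent.R4.HVW560 (wt)

/-- **tag pairs**, logarithmic gain -/
theorem rseTK (CL K : ℝ) (hCL : 0 ≤ CL) {k : ℝ} (hk : 0 < k) : ∃ p₁ : ℕ, ∀ p : ℕ, p₁ ≤ p →
    ∀ (S : Finset ℕ) (E : Finset (ℕ × ℕ)) (R : ℕ → ℝ) (F : ℕ × ℕ → ℝ), E ⊆ S ×ˢ S →
    (∀ w ∈ S, 0 < w ∧ 0 < R w) → (∀ w ∈ S, R w ≤ CL * Real.log p * wt R w) →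
    (∀ e ∈ E, ∀ l : ℕ, l.Prime → (l ∣ cof e.1 e.2 ∨ l ∣ cof e.2 e.1) → l ≤ p) →
    (∀ e ∈ E, 2^p ≤ cof e.1 e.2 ∨ 2^p ≤ cof e.2 e.1) →
    (∀ e ∈ E, F e ≤ 2 * ((R e.1 * R e.2) / DP R R e)) →
    ∑ e ∈ E, F e ≤ (k * Real.log p ^ (-K)) * ∑ w ∈ S, wt R w := by
  obtain ⟨p1, h1⟩ := RseN530.rseT CL 1
  obtain ⟨p2, h2⟩ := RseG10.smallK 1 0 K hk
  obtain ⟨p3, h3⟩ := Crest.Agent.R4.RseN207.log_large 1
  refine ⟨p1 + p2 + p3 + 1, fun p hp S E R F hE hS hL hsm hbig hF => ?_⟩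
  have k1 := h1 p (by omega) S E R F hE hS hL hsm hbig hF
  have k2 := h2 p (by omega)
  have k3 := h3 p (by omega)
  have hp0 : (0:ℝ) < p := by
    have : 0 < p := by omega
    exact_mod_cast this
  have hwt0 : 0 ≤ ∑ w ∈ S, wt R w := Finset.sum_nonneg fun w hw => by
    have := (hS w hw).2.le
    unfold Crest.Agent.R4.HVW560.wt
    positivity
  refine k1.trans (mul_le_mul_of_nonneg_right ?_ hwt0)
  refine le_trans ?_ k2
  have e1 : (p:ℝ) ^ (-(1:ℝ)) = Real.exp (-Real.log p) := by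
    rw [Real.rpow_def_of_pos hp0]; congr 1; ring
  rw [e1, Real.rpow_zero, mul_one, one_mul]
  refine Real.exp_le_exp.2 ?_
  have h45 : Real.log (p:ℝ) ^ (4/5:ℝ) ≤ Real.log p := by
    calc Real.log (p:ℝ) ^ (4/5:ℝ) ≤ Real.log (p:ℝ) ^ (1:ℝ) :=
          Real.rpow_le_rpow_of_exponent_le k3 (by norm_num)
      _ = Real.log p := Real.rpow_one _
  have h0 : 0 ≤ Real.log (p:ℝ) ^ (4/5:ℝ) := Real.rpow_nonneg (by linarith) _
  linarith

/-- **unlabelled pairs**, item coordinates -/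
theorem rseUK' (CL C2 K : ℝ) (hCL : 0 ≤ CL) (hC2 : 0 ≤ C2) {κ : ℝ} (hκ : 0 < κ) :
    ∃ p₁ : ℕ, ∀ p : ℕ, p₁ ≤ p →
    ∀ (A : ℕ) (η θ : ℝ) (T : Finset ℕ) (E : Finset (ℕ × ℕ)) (R : ℕ → ℝ) (F : ℕ × ℕ → ℝ),
    (∀ q ∈ T, A ∣ q) →
    0 < η → η ≤ Real.exp (-(Real.log p ^ (4/5:ℝ))) → 1 ≤ η * p → E ⊆ T ×ˢ T →
    (∀ q ∈ T, 0 < q / A ∧ 0 < R q) → (∀ q ∈ T, R q ≤ CL * Real.log p * wA A R q) →
    (∀ z : ℝ, (p:ℝ)^2 ≤ z → ∀ q ∈ T, Crest.Agent.R4.ClsB.Tame z 1 (q / A)) →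
    ∑ q ∈ T, wA A R q ≤ Real.log p ^ C2 →
    (∀ e ∈ E, p ≤ cof (e.1 / A) (e.2 / A) ∨ p ≤ cof (e.2 / A) (e.1 / A)) →
    (∀ e ∈ E, F e ≤ 2 * ((R e.1 * R e.2) / DA A R e) * (2 * (η * DA A R e) + 1)) →
    (∀ e ∈ E, 0 < F e → ∃ m m' : ℤ,
      |(m + θ) * (cof (e.2 / A) (e.1 / A) : ℕ) - (m' + θ) * (cof (e.1 / A) (e.2 / A) : ℕ)| ≤
        η * DA A R e) →
    (∀ q ∈ T, R q * (η * p) ≤ 1 → ∀ ρ, ¬ Lab θ (R q) ρ) →
    ∑ e ∈ E, F e ≤ (κ * Real.log p ^ (-K)) * ∑ q ∈ T, wA A R q := by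
  obtain ⟨p₁, H⟩ := RseG10.rseUK CL C2 K hCL hC2 hκ
  refine ⟨p₁, fun p hp A η θ T E R F hA hη hη1 hηp hE hT hL htm hM hbig hF hrel hlab => ?_⟩
  have key := H p hp η θ (T.image (· / A)) (E.image fun e => (e.1 / A, e.2 / A))
    (fun v => R (A * v)) (fun e => F (A * e.1, A * e.2)) hη hη1 hηp (sub_tr hE)
    (fun v hv => by
      obtain ⟨q, hq, rfl⟩ := Finset.mem_image.1 hv
      have h1 := hT q hq
      exact ⟨h1.1, by rw [Nat.mul_div_cancel' (hA q hq)]; exact h1.2⟩)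
    (fun v hv => by
      obtain ⟨q, hq, rfl⟩ := Finset.mem_image.1 hv
      have h1 := hL q hq
      rw [wt_tr A R (hA q hq)]
      exact (R_tr A R (hA q hq)).le.trans h1)
    (fun z hz v hv => by
      obtain ⟨q, hq, rfl⟩ := Finset.mem_image.1 hv
      exact htm z hz q hq)
    (by
      rw [sum_tr1 hA]
      exact le_trans (le_of_eq (Finset.sum_congr rfl fun q hq => wt_tr A R (hA q hq))) hM)
    (fun x hx => by
      obtain ⟨e, he, rfl⟩ := Finset.mem_image.1 hx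
      exact hbig e he)
    (fun x hx => by
      obtain ⟨e, he, rfl⟩ := Finset.mem_image.1 hx
      obtain ⟨a1, a2⟩ := Finset.mem_product.1 (hE he)
      have d1 := hA _ a1
      have d2 := hA _ a2
      have h1 := hF e he
      rw [DP_eq A R d1 d2]
      simp only [Nat.mul_div_cancel' d1, Nat.mul_div_cancel' d2]
      refine h1.trans (le_of_eq ?_)
      ring)
    (fun x hx h0 => by
      obtain ⟨e, he, rfl⟩ := Finset.mem_image.1 hx
      obtain ⟨a1, a2⟩ := Finset.mem_product.1 (hE he)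
      have d1 := hA _ a1
      have d2 := hA _ a2
      rw [DP_eq A R d1 d2]
      simp only [Nat.mul_div_cancel' d1, Nat.mul_div_cancel' d2] at h0
      exact hrel e he h0)
    (fun v hv => by
      obtain ⟨q, hq, rfl⟩ := Finset.mem_image.1 hv
      have h1 := hlab q hq
      simp only [Nat.mul_div_cancel' (hA q hq)]
      exact h1)
  rw [sum_tr2 hA hE, sum_tr1 hA] at key
  have e1 : ∑ e ∈ E, F e = ∑ e ∈ E, F (A * (e.1 / A), A * (e.2 / A)) := by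
    refine Finset.sum_congr rfl fun e he => ?_
    obtain ⟨a1, a2⟩ := Finset.mem_product.1 (hE he)
    rw [Nat.mul_div_cancel' (hA _ a1), Nat.mul_div_cancel' (hA _ a2)]
  rw [e1]
  refine key.trans (le_of_eq ?_)
  congr 1
  exact Finset.sum_congr rfl fun q hq => wt_tr A R (hA q hq)

/-- **labelled pairs**, item coordinates -/
theorem rseLK' (CL C2 K : ℝ) (hCL : 0 ≤ CL) (hC2 : 0 ≤ C2) {κ : ℝ} (hκ : 0 < κ) :
    ∃ p₁ : ℕ, ∀ p : ℕ, p₁ ≤ p →
    ∀ (A : ℕ) (θ : ℝ) (T : Finset ℕ) (E : Finset (ℕ × ℕ)) (R : ℕ → ℝ) (lab : ℕ → ℚ)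
      (Λf : Finset ℚ) (F : ℕ × ℕ → ℝ),
    (∀ q ∈ T, A ∣ q) →
    ((Λf.card : ℕ) : ℝ) ≤ Real.log p → E ⊆ T ×ˢ T →
    (∀ q ∈ T, 0 < q / A ∧ 0 < R q) → (∀ q ∈ T, R q ≤ CL * Real.log p * wA A R q) →
    ∑ q ∈ T, wA A R q ≤ Real.log p ^ C2 →
    (∀ q ∈ T, Lab θ (R q) (lab q) ∨ (lab q ∈ Λf ∧ (p:ℝ)⁻¹ ≤ R q)) →
    (∀ e ∈ E, F e ≤ 2 * ((R e.1 * R e.2) / DA A R e)) →
    (∀ e ∈ E, 0 < F e → lab e.1 ≠ lab e.2 ∧ (p:ℝ) ≤ (LL207.Zc (lab e.1) (lab e.2) : ℝ) ∧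
      ∃ m m' : ℤ, ((m:ℝ) + lab e.1) * (cof (e.2 / A) (e.1 / A) : ℕ) =
        (m' + lab e.2) * (cof (e.1 / A) (e.2 / A) : ℕ)) →
    ∑ e ∈ E, F e ≤ (κ * Real.log p ^ (-K)) * ∑ q ∈ T, wA A R q := by
  obtain ⟨p₁, H⟩ := RseG10.rseLK CL C2 K hCL hC2 hκ
  refine ⟨p₁, fun p hp A θ T E R lab Λf F hA hΛ hE hT hL hM hlab hF hex => ?_⟩
  have key := H p hp θ (T.image (· / A)) (E.image fun e => (e.1 / A, e.2 / A))
    (fun v => R (A * v)) (fun v => R (A * v)) (fun v => lab (A * v)) Λf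
    (fun e => F (A * e.1, A * e.2)) hΛ (sub_tr hE)
    (fun v hv => by
      obtain ⟨q, hq, rfl⟩ := Finset.mem_image.1 hv
      have h1 := hT q hq
      exact ⟨h1.1, by rw [Nat.mul_div_cancel' (hA q hq)]; exact h1.2⟩)
    (fun v hv => by
      obtain ⟨q, hq, rfl⟩ := Finset.mem_image.1 hv
      have h1 := hL q hq
      rw [wt_tr A R (hA q hq)]
      exact (R_tr A R (hA q hq)).le.trans h1)
    (by
      rw [sum_tr1 hA]
      exact le_trans (le_of_eq (Finset.sum_congr rfl fun q hq => wt_tr A R (hA q hq))) hM)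
    (fun v hv => by
      obtain ⟨q, hq, rfl⟩ := Finset.mem_image.1 hv
      simp only [Nat.mul_div_cancel' (hA q hq)]
      rcases hlab q hq with h1 | h1
      · exact Or.inl ⟨h1, le_rfl⟩
      · exact Or.inr h1)
    (fun x hx => by
      obtain ⟨e, he, rfl⟩ := Finset.mem_image.1 hx
      obtain ⟨a1, a2⟩ := Finset.mem_product.1 (hE he)
      have d1 := hA _ a1
      have d2 := hA _ a2
      have h1 := hF e he
      rw [DP_eq A R d1 d2]
      simp only [Nat.mul_div_cancel' d1, Nat.mul_div_cancel' d2]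
      exact h1)
    (fun x hx h0 => by
      obtain ⟨e, he, rfl⟩ := Finset.mem_image.1 hx
      obtain ⟨a1, a2⟩ := Finset.mem_product.1 (hE he)
      have d1 := hA _ a1
      have d2 := hA _ a2
      simp only [Nat.mul_div_cancel' d1, Nat.mul_div_cancel' d2] at h0 ⊢
      exact hex e he h0)
  rw [sum_tr2 hA hE, sum_tr1 hA] at key
  have e1 : ∑ e ∈ E, F e = ∑ e ∈ E, F (A * (e.1 / A), A * (e.2 / A)) := by
    refine Finset.sum_congr rfl fun e he => ?_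
    obtain ⟨a1, a2⟩ := Finset.mem_product.1 (hE he)
    rw [Nat.mul_div_cancel' (hA _ a1), Nat.mul_div_cancel' (hA _ a2)]
  rw [e1]
  refine key.trans (le_of_eq ?_)
  congr 1
  exact Finset.sum_congr rfl fun q hq => wt_tr A R (hA q hq)

/-- **tag pairs**, item coordinates -/
theorem rseTK' (CL K : ℝ) (hCL : 0 ≤ CL) {k : ℝ} (hk : 0 < k) : ∃ p₁ : ℕ, ∀ p : ℕ, p₁ ≤ p →
    ∀ (A : ℕ) (T : Finset ℕ) (E : Finset (ℕ × ℕ)) (R : ℕ → ℝ) (F : ℕ × ℕ → ℝ),
    (∀ q ∈ T, A ∣ q) → E ⊆ T ×ˢ T →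
    (∀ q ∈ T, 0 < q / A ∧ 0 < R q) → (∀ q ∈ T, R q ≤ CL * Real.log p * wA A R q) →
    (∀ e ∈ E, ∀ l : ℕ, l.Prime → (l ∣ cof (e.1 / A) (e.2 / A) ∨ l ∣ cof (e.2 / A) (e.1 / A)) →
      l ≤ p) →
    (∀ e ∈ E, 2^p ≤ cof (e.1 / A) (e.2 / A) ∨ 2^p ≤ cof (e.2 / A) (e.1 / A)) →
    (∀ e ∈ E, F e ≤ 2 * ((R e.1 * R e.2) / DA A R e)) →
    ∑ e ∈ E, F e ≤ (k * Real.log p ^ (-K)) * ∑ q ∈ T, wA A R q := by
  obtain ⟨p₁, H⟩ := rseTK CL K hCL hk
  refine ⟨p₁, fun p hp A T E R F hA hE hT hL hsm hbig hF => ?_⟩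
  have key := H p hp (T.image (· / A)) (E.image fun e => (e.1 / A, e.2 / A))
    (fun v => R (A * v)) (fun e => F (A * e.1, A * e.2)) (sub_tr hE)
    (fun v hv => by
      obtain ⟨q, hq, rfl⟩ := Finset.mem_image.1 hv
      have h1 := hT q hq
      exact ⟨h1.1, by rw [Nat.mul_div_cancel' (hA q hq)]; exact h1.2⟩)
    (fun v hv => by
      obtain ⟨q, hq, rfl⟩ := Finset.mem_image.1 hv
      have h1 := hL q hq
      rw [wt_tr A R (hA q hq)]
      exact (R_tr A R (hA q hq)).le.trans h1)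
    (fun x hx l hl hd => by
      obtain ⟨e, he, rfl⟩ := Finset.mem_image.1 hx
      exact hsm e he l hl hd)
    (fun x hx => by
      obtain ⟨e, he, rfl⟩ := Finset.mem_image.1 hx
      exact hbig e he)
    (fun x hx => by
      obtain ⟨e, he, rfl⟩ := Finset.mem_image.1 hx
      obtain ⟨a1, a2⟩ := Finset.mem_product.1 (hE he)
      have d1 := hA _ a1
      have d2 := hA _ a2
      have h1 := hF e he
      rw [DP_eq A R d1 d2]
      simp only [Nat.mul_div_cancel' d1, Nat.mul_div_cancel' d2]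
      exact h1)
  rw [sum_tr2 hA hE, sum_tr1 hA] at key
  have e1 : ∑ e ∈ E, F e = ∑ e ∈ E, F (A * (e.1 / A), A * (e.2 / A)) := by
    refine Finset.sum_congr rfl fun e he => ?_
    obtain ⟨a1, a2⟩ := Finset.mem_product.1 (hE he)
    rw [Nat.mul_div_cancel' (hA _ a1), Nat.mul_div_cancel' (hA _ a2)]
  rw [e1]
  refine key.trans (le_of_eq ?_)
  congr 1
  exact Finset.sum_congr rfl fun q hq => wt_tr A R (hA q hq)


end num

section ctx
open Crest.Agent.R4P.Frame758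
variable {N : Skel189.Num} {γ : ℝ} {p0 P₀ : ℕ}

set_option maxHeartbeats 1000000 in
/-- **the energy of the pairs of one index, different retained parts or tags, at one node** -/
theorem rse_nodeK (N : Skel189.Num) (K : ℝ) {κ : ℝ} (hκ : 0 < κ) : ∃ p₁ : ℕ, ∀ p0 ≥ p₁,
    ∀ (γ : ℝ) (P₀ : ℕ), 2 ≤ P₀ → ∀ X : Ctx N γ p0 P₀, RseH X →
    ∀ (Y : Finset (ℕ × ℕ × Finset ℕ)) (u : NS) (τ : IT), NF X u τ → ¬ isL τ →
    ∀ A : Finset X.c.Lam,
      Q (RS X Y (tp τ)) (Uv X Y u τ A) (Uv X Y u τ A) ≤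
        (κ * Real.log (tp τ) ^ (-K)) * (u.c * ∑ q ∈ al X τ A, w X.ψ q) := by
  classical
  have hc2 := N.hc2
  have hCT := Step588.CT_pos
  obtain ⟨p1, h1⟩ := alive_facts N
  obtain ⟨p2, h2⟩ := rseUK' (2 * Step588.CT) N.c2 K (by positivity) hc2 (κ := κ / 3) (by positivity)
  obtain ⟨p3, h3⟩ := rseLK' (2 * Step588.CT) N.c2 K (by positivity) hc2 (κ := κ / 3) (by positivity)
  obtain ⟨p4, h4⟩ := rseTK' (2 * Step588.CT) K (by positivity) (k := κ / 3) (by positivity)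
  obtain ⟨p5, h5⟩ := num_p (N.c2 + 2)
  refine ⟨p1 + p2 + p3 + p4 + p5, fun p0 hp0 γ P₀ hP X hX Y u τ hN hl A => ?_⟩
  have h := hN.nd
  obtain ⟨k1, k2, k3, k4⟩ := nodeOk_hi h.self.node hl
  have k2' : p0 < tp τ := k2
  set p := tp τ with hp
  have hpt : p ≤ top X.S := k3.le.trans hN.lvl
  obtain ⟨n1, n2, n3, n4, n5⟩ := h5 p (by omega)
  have hpR : (0:ℝ) < p := by exact_mod_cast (by omega : 0 < p)
  have hpR1 : (1:ℝ) ≤ p := by exact_mod_cast (by omega : 1 ≤ p)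
  have hlam := hX.lam p k2' hpt
  have hdep := hX.dep p k2' hpt
  have hthr := hX.thr p k2'
  set T : Finset ℕ := al X τ A with hT
  have hTm : ∀ q ∈ T, q ∈ τ.items ∧ q ∈ X.S' := fun q hq => by
    rw [hT] at hq
    unfold al at hq
    obtain ⟨a1, a2⟩ := Finset.mem_filter.1 hq
    exact ⟨a1, a2.1⟩
  have hTF : ∀ q ∈ T, AlF X u τ q := fun q hq =>
    h1 p0 (by omega) γ P₀ hP X u τ hN hl q (hTm q hq).1 (hTm q hq).2
  set D := X.c.D.par Y with hD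
  set F : ℕ × ℕ → ℝ := fun e => D.iF (RS X Y p) (Uv X Y u τ A) (Uv X Y u τ A) e with hF
  set E : Finset (ℕ × ℕ) := D.PE (RS X Y p) (Uv X Y u τ A) (Uv X Y u τ A) with hE
  set st : ℕ → Option ℚ := fun q => X.c.st p q with hst
  have hET : ∀ e ∈ E, e.1 ∈ T ∧ e.2 ∈ T := by
    intro e he
    obtain ⟨j, j', hj, hj', rfl, i1, i2, -, -, y, a, a', o1, o2, -⟩ := PE_link h he
    have hs1 : j.1.1 ∈ X.S' := by
      by_contra hc
      exact o1 (X.om_zero hc _ _)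
    have hs2 : j'.1.1 ∈ X.S' := by
      by_contra hc
      exact o2 (X.om_zero hc _ _)
    rw [hT]
    unfold al
    exact ⟨Finset.mem_filter.2 ⟨i1, hs1, j, hj, rfl⟩, Finset.mem_filter.2 ⟨i2, hs2, j', hj', rfl⟩⟩
  have hsome : ∀ e ∈ E, (st e.1).isSome = (st e.2).isSome := by
    intro e he
    obtain ⟨j, j', hj, hj', rfl, i1, i2, hix, -⟩ := PE_link h he
    exact isSome_pair hlam hix
  have hwA0 : ∀ q ∈ T, 0 ≤ wA u.A (RB X u) q := fun q hq => by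
    unfold wA
    have := (hTF q hq).R0.le
    positivity
  -- masses
  have hM : ∑ q ∈ T, wA u.A (RB X u) q ≤ u.c * ∑ q ∈ T, w X.ψ q := by
    rw [Finset.mul_sum]
    exact Finset.sum_le_sum fun q hq => (hTF q hq).wle
  have hM2 : ∑ q ∈ T, wA u.A (RB X u) q ≤ Real.log p ^ N.c2 := by
    refine hM.trans (le_trans ?_ k1)
    refine mul_le_mul_of_nonneg_left ?_ hN.c0.le
    unfold Ws
    refine Finset.sum_le_sum_of_subset_of_nonneg (fun q hq => (hTm q hq).1) fun q _ _ => X.hW q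
  have hsub : ∀ T' ⊆ T, ∑ q ∈ T', wA u.A (RB X u) q ≤ ∑ q ∈ T, wA u.A (RB X u) q := fun T' hT' =>
    Finset.sum_le_sum_of_subset_of_nonneg hT' fun q hq _ => hwA0 q hq
  -- the three parts
  set TU := T.filter fun q => (st q).isSome = false with hTU
  set TL := T.filter fun q => (st q).isSome = true with hTL
  set EU := E.filter fun e => (st e.1).isSome = false with hEU
  set EL := (E.filter fun e => ¬ (st e.1).isSome = false).filter
    (fun e => ret X.c.t p e.1 ≠ ret X.c.t p e.2) with hEL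
  set ET := (E.filter fun e => ¬ (st e.1).isSome = false).filter
    (fun e => ¬ ret X.c.t p e.1 ≠ ret X.c.t p e.2) with hETd
  have hsplit : ∑ e ∈ E, F e = ∑ e ∈ EU, F e + (∑ e ∈ EL, F e + ∑ e ∈ ET, F e) := by
    rw [Finset.sum_filter_add_sum_filter_not, Finset.sum_filter_add_sum_filter_not]
  have hA0 : 0 < u.A := h.A_pos
  -- a cofactor of the pairs with different retained parts
  have hcofr : ∀ q ∈ T, ∀ r ∈ T, ret X.c.t p q ≠ ret X.c.t p r →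
      p ≤ cof (q / u.A) (r / u.A) ∨ p ≤ cof (r / u.A) (q / u.A) := by
    intro q hq r hr hne
    obtain ⟨b, hb, hpb, hh⟩ := sep_ret h X.tOk hl (hTm q hq).1 (hTm r hr).1 hne
    rcases hh with ⟨-, b1, b2⟩ | ⟨-, b1, b2⟩
    · left
      have h6 := Nat.le_of_dvd (Nat.div_pos (Nat.le_of_dvd (hTF q hq).pos (Nat.gcd_dvd_left _ _))
        (Nat.gcd_pos_of_pos_left _ (hTF q hq).pos)) (dvd_cof hb b1 b2)
      exact hpb.le.trans h6
    · right
      have h6 := Nat.le_of_dvd (Nat.div_pos (Nat.le_of_dvd (hTF r hr).pos (Nat.gcd_dvd_left _ _))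
        (Nat.gcd_pos_of_pos_left _ (hTF r hr).pos)) (dvd_cof hb b1 b2)
      exact hpb.le.trans h6
  have hcoft : ∀ q ∈ T, ∀ r ∈ T, X.c.tg p q ≠ X.c.tg p r →
      2 ^ p ≤ cof (q / u.A) (r / u.A) ∨ 2 ^ p ≤ cof (r / u.A) (q / u.A) := by
    intro q hq r hr hne
    rw [cof_div hA0 (hTF q hq).dvd (hTF r hr).dvd, cof_div hA0 (hTF r hr).dvd (hTF q hq).dvd]
    exact hX.sep p k2' hpt q (hTm q hq).2 r (hTm r hr).2 hne
  have hp2p : p ≤ 2 ^ p := Nat.lt_two_pow_self.le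
  -- unlabelled
  have hEUle : ∑ e ∈ EU, F e ≤ (κ / 3 * Real.log p ^ (-K)) * ∑ q ∈ TU, wA u.A (RB X u) q := by
    set η : ℝ := Real.exp (-(Real.log p ^ (4/5:ℝ))) with hη
    have hη0 : 0 < η := Real.exp_pos _
    have hηe : etaL X.c.wp p ≤ η := by
      unfold etaL
      rw [hη, Real.exp_neg, ← one_div, div_le_div_iff₀ (by positivity) (Real.exp_pos _)]
      linarith
    have hsqp : (p:ℝ) ^ (1/2:ℝ) * (p:ℝ) ^ (1/2:ℝ) = p := by
      rw [← Real.rpow_add hpR]; norm_num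
    have hsq0 : 0 < (p:ℝ) ^ (1/2:ℝ) := Real.rpow_pos_of_pos hpR _
    have hsq1 : 1 ≤ (p:ℝ) ^ (1/2:ℝ) := Real.one_le_rpow hpR1 (by norm_num)
    have hinv : (p:ℝ) ^ (-(1/2:ℝ)) * (p:ℝ) ^ (1/2:ℝ) = 1 := by
      rw [← Real.rpow_add hpR]; norm_num
    have hηp' : (p:ℝ) ^ (1/2:ℝ) ≤ η * p := by
      have e1 : η * Real.exp (Real.log p ^ (4/5:ℝ)) = 1 := by
        rw [hη, ← Real.exp_add]; simp
      calc (p:ℝ) ^ (1/2:ℝ) = (η * Real.exp (Real.log p ^ (4/5:ℝ))) * (p:ℝ) ^ (1/2:ℝ) := by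
            rw [e1, one_mul]
        _ = η * (Real.exp (Real.log p ^ (4/5:ℝ)) * (p:ℝ) ^ (1/2:ℝ)) := by ring
        _ ≤ η * ((p:ℝ) ^ (1/2:ℝ) * (p:ℝ) ^ (1/2:ℝ)) :=
            mul_le_mul_of_nonneg_left (mul_le_mul_of_nonneg_right n3 hsq0.le) hη0.le
        _ = η * p := by rw [hsqp]
    have hEUT : EU ⊆ TU ×ˢ TU := by
      intro e he
      obtain ⟨he1, he2⟩ := Finset.mem_filter.1 he
      obtain ⟨t1, t2⟩ := hET e he1
      have hs := hsome e he1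
      exact Finset.mem_product.2 ⟨Finset.mem_filter.2 ⟨t1, he2⟩,
        Finset.mem_filter.2 ⟨t2, hs ▸ he2⟩⟩
    have hnone : ∀ q, (st q).isSome = false → st q = none := fun q hq => by
      rw [← Option.not_isSome_iff_eq_none, hq]; simp
    refine h2 p (by omega) u.A η (u.B * X.c.γ) TU EU (RB X u) F
      (fun q hq => (hTF q (Finset.mem_filter.1 hq).1).dvd) hη0 le_rfl (hsq1.trans hηp') hEUT
      (fun q hq => ⟨(hTF q (Finset.mem_filter.1 hq).1).pos, (hTF q (Finset.mem_filter.1 hq).1).R0⟩)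
      (fun q hq => (hTF q (Finset.mem_filter.1 hq).1).lo)
      (fun z hz q hq => (hTF q (Finset.mem_filter.1 hq).1).tame z hz)
      ((hsub TU (Finset.filter_subset _ _)).trans hM2) ?_ ?_ ?_ ?_
    · intro e he
      obtain ⟨he1, he2⟩ := Finset.mem_filter.1 he
      obtain ⟨t1, t2⟩ := hET e he1
      obtain ⟨j, j', hj, hj', hee, i1, i2, hix, hdis, -⟩ := PE_link h he1
      have hd' : ret X.c.t p e.1 ≠ ret X.c.t p e.2 ∨ X.c.tg p e.1 ≠ X.c.tg p e.2 := by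
        rw [hee]; exact hdis
      rcases hd' with hd' | hd'
      · exact hcofr _ t1 _ t2 hd'
      · rcases hcoft _ t1 _ t2 hd' with h6 | h6
        · exact Or.inl (hp2p.trans h6)
        · exact Or.inr (hp2p.trans h6)
    · intro e he
      obtain ⟨he1, he2⟩ := Finset.mem_filter.1 he
      obtain ⟨t1, t2⟩ := hET e he1
      exact F_none h hpt hlam (hTm _ t1).1 (hTm _ t2).1 hηe (hnone _ he2)
        (hnone _ (hsome e he1 ▸ he2))
    · intro e he _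
      obtain ⟨he1, he2⟩ := Finset.mem_filter.1 he
      have hs2 := hsome e he1
      obtain ⟨j, j', hj, hj', hee, i1, i2, hix, hdis, y, a, a', o1, o2, l1, l2, l3, l4⟩ :=
        PE_link h he1
      subst hee
      have k := rel_none h hpt hlam hix i1 i2 (hnone _ he2) (hnone _ (hs2 ▸ he2)) l1 l2 l3 l4
      refine ⟨a, a', k.trans (mul_le_mul_of_nonneg_right hηe ?_)⟩
      unfold DA Crest.Agent.R4.AvgItem710.Dp
      refine le_max_of_le_left ?_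
      have := (X.ok.rad Y).pos j.1.1
      positivity
    · intro q hq hthin ρ
      obtain ⟨hq1, hq2⟩ := Finset.mem_filter.1 hq
      have hf := hTF q hq1
      have hR : RB X u q = u.B * X.c.r q := by
        show (u.B:ℝ) * X.c.rr q = _
        rw [hf.rr]
      rw [hR]
      refine st_noneB h X.tOk hl (hTm q hq1).1 hlam (hnone _ hq2) ?_ ρ
      rw [← hR]
      refine le_trans ?_ hthr
      have h7 : RB X u q * (p:ℝ) ^ (1/2:ℝ) ≤ 1 :=
        (mul_le_mul_of_nonneg_left hηp' hf.R0.le).trans hthin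
      calc RB X u q = RB X u q * ((p:ℝ) ^ (-(1/2:ℝ)) * (p:ℝ) ^ (1/2:ℝ)) := by rw [hinv, mul_one]
        _ = (RB X u q * (p:ℝ) ^ (1/2:ℝ)) * (p:ℝ) ^ (-(1/2:ℝ)) := by ring
        _ ≤ 1 * (p:ℝ) ^ (-(1/2:ℝ)) :=
            mul_le_mul_of_nonneg_right h7 (Real.rpow_nonneg hpR.le _)
        _ = _ := one_mul _
  -- labels
  have hsomeL : ∀ q, ¬ (st q).isSome = false → ∃ σ, st q = some σ := fun q hq => by
    rw [Bool.not_eq_false] at hq
    exact Option.isSome_iff_exists.1 hq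
  have hELle : ∑ e ∈ EL, F e ≤ (κ / 3 * Real.log p ^ (-K)) * ∑ q ∈ TL, wA u.A (RB X u) q := by
    have hK : ∀ s : ℕ, tp τ < s → Real.log p ^ (N.c2 + 2) ≤ s * X.c.wp.thr s := by
      intro s hs
      have hsR : (0:ℝ) < s := by
        have : 0 < s := by omega
        exact_mod_cast this
      have hps : (p:ℝ) ≤ s := by exact_mod_cast hs.le
      have h6 := hX.thr s (k2'.trans hs)
      have h7 : (s:ℝ) ^ (1/2:ℝ) = s * (s:ℝ) ^ (-(1/2:ℝ)) := by
        conv_rhs => rw [← Real.rpow_one (s:ℝ), ← Real.rpow_mul hsR.le, ← Real.rpow_add hsR]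
        norm_num
      calc Real.log p ^ (N.c2 + 2) ≤ (p:ℝ) ^ (1/2:ℝ) := n5
        _ ≤ (s:ℝ) ^ (1/2:ℝ) := Real.rpow_le_rpow hpR.le hps (by norm_num)
        _ = s * (s:ℝ) ^ (-(1/2:ℝ)) := h7
        _ ≤ s * X.c.wp.thr s := mul_le_mul_of_nonneg_left h6 hsR.le
    have hthr0 : 0 < X.c.wp.thr (tp τ) := (Real.rpow_pos_of_pos hpR _).trans_le hthr
    have hK4 : 32 * (Real.log p ^ (N.c2 + 2)) ^ 4 < (tp τ : ℝ) ^ 2 * X.c.wp.thr (tp τ) ^ 2 := by
      refine n4.trans_le ?_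
      have h7 : ((p:ℝ) ^ (-(1/2:ℝ))) ^ 2 ≤ X.c.wp.thr (tp τ) ^ 2 :=
        pow_le_pow_left₀ (Real.rpow_nonneg hpR.le _) hthr 2
      have h8 : ((p:ℝ) ^ (-(1/2:ℝ))) ^ 2 = (p:ℝ)⁻¹ := by
        rw [← Real.rpow_natCast, ← Real.rpow_mul hpR.le, ← Real.rpow_neg_one]
        norm_num
      rw [h8] at h7
      calc (p:ℝ) = (p:ℝ) ^ 2 * (p:ℝ)⁻¹ := by field_simp
        _ ≤ (p:ℝ) ^ 2 * X.c.wp.thr (tp τ) ^ 2 := mul_le_mul_of_nonneg_left h7 (sq_nonneg _)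
    obtain ⟨Λf, hΛ, hlab⟩ := lab_nodeB h X.tOk hl (wp := X.c.wp) (wpL := X.c.wpL) (lam := X.c.lam)
      (lv := X.c.lv) (γ := X.c.γ) (r := X.c.r) hK hthr0 hK4
    have hELT : EL ⊆ TL ×ˢ TL := by
      intro e he
      obtain ⟨he1, he2⟩ := Finset.mem_filter.1 he
      obtain ⟨he3, he4⟩ := Finset.mem_filter.1 he1
      obtain ⟨t1, t2⟩ := hET e he3
      have hs := hsome e he3
      rw [Bool.not_eq_false] at he4
      exact Finset.mem_product.2 ⟨Finset.mem_filter.2 ⟨t1, he4⟩,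
        Finset.mem_filter.2 ⟨t2, hs ▸ he4⟩⟩
    refine h3 p (by omega) u.A (u.B * X.c.γ) TL EL (RB X u)
      (fun q => (u.B : ℚ) * (st q).getD 0) Λf F
      (fun q hq => (hTF q (Finset.mem_filter.1 hq).1).dvd) ?_ hELT
      (fun q hq => ⟨(hTF q (Finset.mem_filter.1 hq).1).pos, (hTF q (Finset.mem_filter.1 hq).1).R0⟩)
      (fun q hq => (hTF q (Finset.mem_filter.1 hq).1).lo)
      ((hsub TL (Finset.filter_subset _ _)).trans hM2) ?_ ?_ ?_
    · have : ((Λf.card : ℕ) : ℝ) ≤ 1 := by exact_mod_cast hΛ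
      linarith
    · intro q hq
      obtain ⟨hq1, hq2⟩ := Finset.mem_filter.1 hq
      have hf := hTF q hq1
      obtain ⟨σ, hσ⟩ := Option.isSome_iff_exists.1 hq2
      have hR : RB X u q = u.B * X.c.r q := by
        show (u.B:ℝ) * X.c.rr q = _
        rw [hf.rr]
      rw [hσ, Option.getD_some, hR]
      rcases hlab q (hTm q hq1).1 hf.hi σ hσ with h6 | h6
      · exact Or.inl h6
      · refine Or.inr ⟨h6.1, le_trans ?_ h6.2.le⟩
        refine le_trans ?_ hthr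
        rw [← Real.rpow_neg_one]
        exact Real.rpow_le_rpow_of_exponent_le hpR1 (by norm_num)
    · intro e he
      obtain ⟨he1, he2⟩ := Finset.mem_filter.1 he
      obtain ⟨he3, he4⟩ := Finset.mem_filter.1 he1
      obtain ⟨t1, t2⟩ := hET e he3
      obtain ⟨σ, hσ⟩ := hsomeL _ he4
      obtain ⟨σ', hσ'⟩ := hsomeL e.2 (hsome e he3 ▸ he4)
      exact F_some h hpt hlam (hTm _ t1).1 (hTm _ t2).1 hσ hσ'
    · intro e he _
      obtain ⟨he1, he2⟩ := Finset.mem_filter.1 he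
      obtain ⟨he3, he4⟩ := Finset.mem_filter.1 he1
      have hs2 := hsome e he3
      obtain ⟨σ, hσ⟩ := hsomeL _ he4
      obtain ⟨σ', hσ'⟩ := hsomeL e.2 (hs2 ▸ he4)
      rw [hσ, hσ', Option.getD_some, Option.getD_some]
      obtain ⟨j, j', hj, hj', hee, i1, i2, hix, hdis, y, a, a', o1, o2, l1, l2, l3, l4⟩ :=
        PE_link h he3
      subst hee
      obtain ⟨x1, x2⟩ := rel_some h hpt hlam hix i1 i2 hσ hσ' l1 l2 l3 l4
      have hpos1 : 0 < j.1.1 / u.A := Nat.pos_of_ne_zero (h.div_ne i1)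
      have hcop : Nat.Coprime (cof (j.1.1 / u.A) (j'.1.1 / u.A)) (cof (j'.1.1 / u.A) (j.1.1 / u.A)) :=
        cof_coprime hpos1
      have key : p ≤ LL207.Zc ((u.B : ℚ) * σ) ((u.B : ℚ) * σ') ∧
          ((u.B : ℚ) * σ) ≠ ((u.B : ℚ) * σ') := by
        obtain ⟨b, hb, hpb, hh⟩ := sep_ret h X.tOk hl i1 i2 he2
        rcases hh with ⟨b0, b1, b2⟩ | ⟨b0, b1, b2⟩
        · have hden : b ∣ ((u.B : ℚ) * σ').den :=
            alive_den h i1 le_rfl hl hσ b0 hpb.le b1 o1 b2 x1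
          have := RseAr23.Zc_of_exact hb (dvd_cof hb b1 b2) hcop ((u.B : ℚ) * σ)
            ((u.B : ℚ) * σ') x2 hden
          exact ⟨hpb.le.trans this.1, this.2⟩
        · have hden : b ∣ ((u.B : ℚ) * σ).den :=
            alive_den h i2 le_rfl hl hσ' b0 hpb.le b1 o2 b2 x1.symm
          have := RseAr23.Zc_of_exact' hb (dvd_cof hb b1 b2) hcop ((u.B : ℚ) * σ)
            ((u.B : ℚ) * σ') x2 hden
          exact ⟨hpb.le.trans this.1, this.2⟩
      exact ⟨key.2, by exact_mod_cast key.1, a, a', x2⟩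
  -- tags
  have hETle : ∑ e ∈ ET, F e ≤ (κ / 3 * Real.log p ^ (-K)) * ∑ q ∈ T, wA u.A (RB X u) q := by
    refine h4 p (by omega) u.A T ET (RB X u) F (fun q hq => (hTF q hq).dvd) ?_
      (fun q hq => ⟨(hTF q hq).pos, (hTF q hq).R0⟩) (fun q hq => (hTF q hq).lo) ?_ ?_ ?_
    · intro e he
      obtain ⟨he1, he2⟩ := Finset.mem_filter.1 he
      obtain ⟨he3, he4⟩ := Finset.mem_filter.1 he1
      exact Finset.mem_product.2 (hET e he3)
    · intro e he l hlp hld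
      obtain ⟨he1, he2⟩ := Finset.mem_filter.1 he
      obtain ⟨he3, he4⟩ := Finset.mem_filter.1 he1
      obtain ⟨t1, t2⟩ := hET e he3
      rw [not_not] at he2
      rcases hld with hld | hld
      · exact smooth_ret h X.tOk hl (hTm _ t1).1 (hTm _ t2).1 he2 hlp hld
      · exact smooth_ret h X.tOk hl (hTm _ t2).1 (hTm _ t1).1 he2.symm hlp hld
    · intro e he
      obtain ⟨he1, he2⟩ := Finset.mem_filter.1 he
      obtain ⟨he3, he4⟩ := Finset.mem_filter.1 he1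
      obtain ⟨t1, t2⟩ := hET e he3
      rw [not_not] at he2
      obtain ⟨j, j', hj, hj', hee, i1, i2, hix, hdis, -⟩ := PE_link h he3
      have hd' : ret X.c.t p e.1 ≠ ret X.c.t p e.2 ∨ X.c.tg p e.1 ≠ X.c.tg p e.2 := by
        rw [hee]; exact hdis
      exact hcoft _ t1 _ t2 (hd'.resolve_left (not_not.2 he2))
    · intro e he
      obtain ⟨he1, he2⟩ := Finset.mem_filter.1 he
      obtain ⟨he3, he4⟩ := Finset.mem_filter.1 he1
      obtain ⟨t1, t2⟩ := hET e he3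
      obtain ⟨σ, hσ⟩ := hsomeL _ he4
      obtain ⟨σ', hσ'⟩ := hsomeL e.2 (hsome e he3 ▸ he4)
      exact F_some h hpt hlam (hTm _ t1).1 (hTm _ t2).1 hσ hσ'
  rw [D.Q_eq]
  show ∑ e ∈ E, F e ≤ _
  rw [hsplit]
  have hlK : 0 ≤ Real.log (p : ℝ) ^ (-K) := Real.rpow_nonneg (by linarith) _
  have hκ3 : 0 ≤ κ / 3 * Real.log (p : ℝ) ^ (-K) := by positivity
  have s1 := mul_le_mul_of_nonneg_left (hsub TU (Finset.filter_subset _ _)) hκ3
  have s2 := mul_le_mul_of_nonneg_left (hsub TL (Finset.filter_subset _ _)) hκ3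
  have s3 := mul_le_mul_of_nonneg_left hM (mul_nonneg hκ.le hlK)
  have e3 : κ * Real.log (p : ℝ) ^ (-K) * ∑ q ∈ T, wA u.A (RB X u) q =
      3 * ((κ / 3 * Real.log (p : ℝ) ^ (-K)) * ∑ q ∈ T, wA u.A (RB X u) q) := by ring
  linarith



/-- **the energy `rseR` at all the nodes of a context, logarithmic gain** -/
theorem ctx_rseK (N : Skel189.Num) (K : ℝ) {κ : ℝ} (hκ : 0 < κ) : ∃ p₁ : ℕ, ∀ p0 ≥ p₁,
    ∀ (γ : ℝ) (P₀ : ℕ), 2 ≤ P₀ → ∀ X : Ctx N γ p0 P₀, RseH X →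
      All (fun u τ => ¬ isL τ → notUp τ → rseR Finset.univ (X.g u τ) ≤
        (κ * Real.log (tp τ) ^ (-K)) *
          (u.c * ∑ j ∈ (Finset.univ : Finset X.c.Lam).filter (fun j => X.c.D.it j ∈ τ.items),
            Frame758.wt X.c.D j)) ⟨top X.S, 1, 1, 1⟩ X.c.t := by
  obtain ⟨p1, h1⟩ := ctx_NF N
  obtain ⟨p2, h2⟩ := rse_nodeK N K hκ
  obtain ⟨p3, h3⟩ := Crest.Agent.R4.RseN207.log_large 1
  refine ⟨p1 + p2 + p3, fun p0 hp0 γ P₀ hP X hX => ?_⟩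
  refine All.mono (fun u τ hN hl hu => ?_) (h1 p0 (by omega) γ P₀ hP X)
  have h := hN.nd
  obtain ⟨k1, k2, k3, k4⟩ := nodeOk_hi h.self.node hl
  have k2' : p0 < tp τ := k2
  have hlg : 1 ≤ Real.log (tp τ) := h3 _ (by omega)
  rw [rseR_eq hN.nd hl hu _]
  refine (h2 p0 (by omega) γ P₀ hP X hX X.Y u τ hN hl _).trans ?_
  refine mul_le_mul_of_nonneg_left (mass_al hN.c0.le (fun j j' _ => by simp)) ?_
  exact mul_nonneg hκ.le (Real.rpow_nonneg (by linarith) _)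

end ctx

end Crest.Agent.R4P.RseG10
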