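import Crest.Agent.R4P.RseSt_23
import Crest.Agent.R4P.RseN_24
import Crest.Agent.R4P.RseT_738

/-!
R4 (S0004), powers pass, helper23: **the energy `rseR` at a node**, relations and item coordinates.

* `rseU'`, `rseL'`, `rseT'` : the numbers of `RseN_24`, `RseT_738` in item coordinates (`q = A w`);
* `pt_node` : a point of a piece in a window of a node;
* `rel_none`, `rel_some` : the relations of two unlabelled / labelled pieces with one index;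
* `sep_ret`, `smooth_ret` : different retained parts give a prime `> p` of one cofactor, equal retained
  parts give `p`-smooth cofactors.
-/

set_option autoImplicit false
set_option linter.unusedSectionVars false
set_option linter.unusedVariables false

namespace Crest.Agent.R4P.RseNd23

open Crest.Agent.R4P.Cnt588 Crest.Agent.R4P.Item758 Crest.Agent.R4P.W363
open Crest.Agent.R4P.Data758 Crest.Agent.R4P.OmSt532 Crest.Agent.R4P.OmData532
open Crest.Agent.R4P.LfDat734 Crest.Agent.R4P.WPex189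
open Crest.Agent.R4P.Bld532 (NS All NodeOk Bk)
open Crest.Agent.R4P.Step588 (NDt ND1 ctx_NDt uq_lt)
open Crest.Agent.R4P.WalkIT579 (tp isL nodeOk_hi top_of_nodeOk)
open Crest.Agent.R4P.Skel189 Crest.Agent.R4P.RseSt23
open Crest.Agent.R4.Soft104 (w)
open Crest.Agent.R4.LF363 (Lab)
open Crest.Agent.R4.HVW560 (cof wt)
open Crest.Agent.R4.InX944 (DP)
open Crest.Agent.R4.AvgItem710 (Dp mul_cof mul_cof' cof_pos cof_coprime)
open Crest.Agent.R4

/-! ### item coordinates -/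

section tr
variable {A : ℕ} {T : Finset ℕ}

lemma sum_tr1 (hT : ∀ q ∈ T, A ∣ q) (g : ℕ → ℝ) :
    ∑ v ∈ T.image (· / A), g v = ∑ q ∈ T, g (q / A) := by
  refine Finset.sum_image fun q hq r hr h => ?_
  have h' : q / A = r / A := h
  rw [← Nat.mul_div_cancel' (hT q hq), ← Nat.mul_div_cancel' (hT r hr), h']

lemma sum_tr2 (hT : ∀ q ∈ T, A ∣ q) {E : Finset (ℕ × ℕ)} (hE : E ⊆ T ×ˢ T) (g : ℕ × ℕ → ℝ) :
    ∑ e ∈ E.image (fun e => (e.1 / A, e.2 / A)), g e = ∑ e ∈ E, g (e.1 / A, e.2 / A) := by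
  refine Finset.sum_image fun e he f hf h => ?_
  have h1 : e.1 / A = f.1 / A := congrArg Prod.fst h
  have h2 : e.2 / A = f.2 / A := congrArg Prod.snd h
  obtain ⟨a1, a2⟩ := Finset.mem_product.1 (hE he)
  obtain ⟨b1, b2⟩ := Finset.mem_product.1 (hE hf)
  apply Prod.ext
  · rw [← Nat.mul_div_cancel' (hT _ a1), ← Nat.mul_div_cancel' (hT _ b1), h1]
  · rw [← Nat.mul_div_cancel' (hT _ a2), ← Nat.mul_div_cancel' (hT _ b2), h2]

lemma sub_tr {E : Finset (ℕ × ℕ)} (hE : E ⊆ T ×ˢ T) :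
    E.image (fun e => (e.1 / A, e.2 / A)) ⊆ T.image (· / A) ×ˢ T.image (· / A) := by
  intro x hx
  obtain ⟨e, he, rfl⟩ := Finset.mem_image.1 hx
  obtain ⟨a1, a2⟩ := Finset.mem_product.1 (hE he)
  exact Finset.mem_product.2 ⟨Finset.mem_image_of_mem _ a1, Finset.mem_image_of_mem _ a2⟩

end tr

/-- weighted radius of an item on the circle of a node -/
noncomputable def wA (A : ℕ) (R : ℕ → ℝ) (q : ℕ) : ℝ := R q * (((q / A).totient : ℝ) / ((q / A : ℕ) : ℝ))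

/-- `D` of a pair of items on the circle of a node -/
noncomputable def DA (A : ℕ) (R : ℕ → ℝ) (e : ℕ × ℕ) : ℝ := Dp (e.1 / A) (e.2 / A) (R e.1) (R e.2)

lemma DP_eq (A : ℕ) (R : ℕ → ℝ) {q r : ℕ} (hq : A ∣ q) (hr : A ∣ r) :
    DP (fun v => R (A * v)) (fun v => R (A * v)) (q / A, r / A) = DA A R (q, r) := by
  unfold Crest.Agent.R4.InX944.DP DA Crest.Agent.R4.AvgItem710.Dp
  simp only
  rw [Nat.mul_div_cancel' hq, Nat.mul_div_cancel' hr]

lemma wt_tr (A : ℕ) (R : ℕ → ℝ) {q : ℕ} (hq : A ∣ q) : wt (fun v => R (A * v)) (q / A) = wA A R q := by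
  unfold Crest.Agent.R4.HVW560.wt wA
  show R (A * (q / A)) * _ = _
  rw [Nat.mul_div_cancel' hq]

lemma R_tr (A : ℕ) (R : ℕ → ℝ) {q : ℕ} (hq : A ∣ q) : (fun v => R (A * v)) (q / A) = R q := by
  show R (A * (q / A)) = _
  rw [Nat.mul_div_cancel' hq]

/-- **unlabelled pairs**, item coordinates -/
theorem rseU' (CL C2 : ℝ) (hCL : 0 ≤ CL) (hC2 : 0 ≤ C2) {κ : ℝ} (hκ : 0 < κ) :
    ∃ p₁ : ℕ, ∀ p : ℕ, p₁ ≤ p →
    ∀ (A : ℕ) (η θ : ℝ) (T : Finset ℕ) (E : Finset (ℕ × ℕ)) (R : ℕ → ℝ) (F : ℕ × ℕ → ℝ),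
    (∀ q ∈ T, A ∣ q) →
    0 < η → η ≤ Real.exp (-(Real.log p ^ (4/5:ℝ))) → 1 ≤ η * p → E ⊆ T ×ˢ T →
    (∀ q ∈ T, 0 < q / A ∧ 0 < R q) → (∀ q ∈ T, R q ≤ CL * Real.log p * wA A R q) →
    (∀ z : ℝ, (p:ℝ)^2 ≤ z → ∀ q ∈ T, Crest.Agent.R4.ClsB.Tame z 1 (q / A)) →
    ∑ q ∈ T, wA A R q ≤ Real.log p ^ C2 →
    (∀ e ∈ E, p ≤ cof (e.1 / A) (e.2 / A) ∨ p ≤ cof (e.2 / A) (e.1 / A)) →
    (∀ e ∈ E, F e ≤ 2 * ((R e.1 * R e.2) / DA A R e) * (2 * (η * DA A R e) + 1)) →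
    (∀ e ∈ E, 0 < F e → ∃ m m' : ℤ,
      |(m + θ) * (cof (e.2 / A) (e.1 / A) : ℕ) - (m' + θ) * (cof (e.1 / A) (e.2 / A) : ℕ)| ≤
        η * DA A R e) →
    (∀ q ∈ T, R q * (η * p) ≤ 1 → ∀ ρ, ¬ Lab θ (R q) ρ) →
    ∑ e ∈ E, F e ≤ κ * ∑ q ∈ T, wA A R q := by
  obtain ⟨p₁, H⟩ := RseN24.rseU CL C2 hCL hC2 hκ
  refine ⟨p₁, fun p hp A η θ T E R F hA hη hη1 hηp hE hT hL htm hM hbig hF hrel hlab => ?_⟩
  have key := H p hp η θ (T.image (· / A)) (E.image fun e => (e.1 / A, e.2 / A))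
    (fun v => R (A * v)) (fun e => F (A * e.1, A * e.2)) hη hη1 hηp (sub_tr hE)
    (fun v hv => by
      obtain ⟨q, hq, rfl⟩ := Finset.mem_image.1 hv
      have h1 := hT q hq
      exact ⟨h1.1, by rw [Nat.mul_div_cancel' (hA q hq)]; exact h1.2⟩)
    (fun v hv => by
      obtain ⟨q, hq, rfl⟩ := Finset.mem_image.1 hv
      have h1 := hL q hq
      rw [wt_tr A R (hA q hq)]
      exact (R_tr A R (hA q hq)).le.trans h1)
    (fun z hz v hv => by
      obtain ⟨q, hq, rfl⟩ := Finset.mem_image.1 hv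
      exact htm z hz q hq)
    (by
      rw [sum_tr1 hA]
      exact le_trans (le_of_eq (Finset.sum_congr rfl fun q hq => wt_tr A R (hA q hq))) hM)
    (fun x hx => by
      obtain ⟨e, he, rfl⟩ := Finset.mem_image.1 hx
      exact hbig e he)
    (fun x hx => by
      obtain ⟨e, he, rfl⟩ := Finset.mem_image.1 hx
      obtain ⟨a1, a2⟩ := Finset.mem_product.1 (hE he)
      have d1 := hA _ a1
      have d2 := hA _ a2
      have h1 := hF e he
      rw [DP_eq A R d1 d2]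
      simp only [Nat.mul_div_cancel' d1, Nat.mul_div_cancel' d2]
      refine h1.trans (le_of_eq ?_)
      ring)
    (fun x hx h0 => by
      obtain ⟨e, he, rfl⟩ := Finset.mem_image.1 hx
      obtain ⟨a1, a2⟩ := Finset.mem_product.1 (hE he)
      have d1 := hA _ a1
      have d2 := hA _ a2
      rw [DP_eq A R d1 d2]
      simp only [Nat.mul_div_cancel' d1, Nat.mul_div_cancel' d2] at h0
      exact hrel e he h0)
    (fun v hv => by
      obtain ⟨q, hq, rfl⟩ := Finset.mem_image.1 hv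
      have h1 := hlab q hq
      simp only [Nat.mul_div_cancel' (hA q hq)]
      exact h1)
  rw [sum_tr2 hA hE, sum_tr1 hA] at key
  have e1 : ∑ e ∈ E, F e = ∑ e ∈ E, F (A * (e.1 / A), A * (e.2 / A)) := by
    refine Finset.sum_congr rfl fun e he => ?_
    obtain ⟨a1, a2⟩ := Finset.mem_product.1 (hE he)
    rw [Nat.mul_div_cancel' (hA _ a1), Nat.mul_div_cancel' (hA _ a2)]
  rw [e1]
  refine key.trans (le_of_eq ?_)
  congr 1
  exact Finset.sum_congr rfl fun q hq => wt_tr A R (hA q hq)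

/-- **labelled pairs**, item coordinates -/
theorem rseL' (CL C2 : ℝ) (hCL : 0 ≤ CL) (hC2 : 0 ≤ C2) {κ : ℝ} (hκ : 0 < κ) :
    ∃ p₁ : ℕ, ∀ p : ℕ, p₁ ≤ p →
    ∀ (A : ℕ) (θ : ℝ) (T : Finset ℕ) (E : Finset (ℕ × ℕ)) (R : ℕ → ℝ) (lab : ℕ → ℚ)
      (Λf : Finset ℚ) (F : ℕ × ℕ → ℝ),
    (∀ q ∈ T, A ∣ q) →
    ((Λf.card : ℕ) : ℝ) ≤ Real.log p → E ⊆ T ×ˢ T →
    (∀ q ∈ T, 0 < q / A ∧ 0 < R q) → (∀ q ∈ T, R q ≤ CL * Real.log p * wA A R q) →
    ∑ q ∈ T, wA A R q ≤ Real.log p ^ C2 →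
    (∀ q ∈ T, Lab θ (R q) (lab q) ∨ (lab q ∈ Λf ∧ (p:ℝ)⁻¹ ≤ R q)) →
    (∀ e ∈ E, F e ≤ 2 * ((R e.1 * R e.2) / DA A R e)) →
    (∀ e ∈ E, 0 < F e → lab e.1 ≠ lab e.2 ∧ (p:ℝ) ≤ (LL207.Zc (lab e.1) (lab e.2) : ℝ) ∧
      ∃ m m' : ℤ, ((m:ℝ) + lab e.1) * (cof (e.2 / A) (e.1 / A) : ℕ) =
        (m' + lab e.2) * (cof (e.1 / A) (e.2 / A) : ℕ)) →
    ∑ e ∈ E, F e ≤ κ * ∑ q ∈ T, wA A R q := by
  obtain ⟨p₁, H⟩ := RseN24.rseL CL C2 hCL hC2 hκ
  refine ⟨p₁, fun p hp A θ T E R lab Λf F hA hΛ hE hT hL hM hlab hF hex => ?_⟩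
  have key := H p hp θ (T.image (· / A)) (E.image fun e => (e.1 / A, e.2 / A))
    (fun v => R (A * v)) (fun v => R (A * v)) (fun v => lab (A * v)) Λf
    (fun e => F (A * e.1, A * e.2)) hΛ (sub_tr hE)
    (fun v hv => by
      obtain ⟨q, hq, rfl⟩ := Finset.mem_image.1 hv
      have h1 := hT q hq
      exact ⟨h1.1, by rw [Nat.mul_div_cancel' (hA q hq)]; exact h1.2⟩)
    (fun v hv => by
      obtain ⟨q, hq, rfl⟩ := Finset.mem_image.1 hv
      have h1 := hL q hq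
      rw [wt_tr A R (hA q hq)]
      exact (R_tr A R (hA q hq)).le.trans h1)
    (by
      rw [sum_tr1 hA]
      exact le_trans (le_of_eq (Finset.sum_congr rfl fun q hq => wt_tr A R (hA q hq))) hM)
    (fun v hv => by
      obtain ⟨q, hq, rfl⟩ := Finset.mem_image.1 hv
      simp only [Nat.mul_div_cancel' (hA q hq)]
      rcases hlab q hq with h1 | h1
      · exact Or.inl ⟨h1, le_rfl⟩
      · exact Or.inr h1)
    (fun x hx => by
      obtain ⟨e, he, rfl⟩ := Finset.mem_image.1 hx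
      obtain ⟨a1, a2⟩ := Finset.mem_product.1 (hE he)
      have d1 := hA _ a1
      have d2 := hA _ a2
      have h1 := hF e he
      rw [DP_eq A R d1 d2]
      simp only [Nat.mul_div_cancel' d1, Nat.mul_div_cancel' d2]
      exact h1)
    (fun x hx h0 => by
      obtain ⟨e, he, rfl⟩ := Finset.mem_image.1 hx
      obtain ⟨a1, a2⟩ := Finset.mem_product.1 (hE he)
      have d1 := hA _ a1
      have d2 := hA _ a2
      simp only [Nat.mul_div_cancel' d1, Nat.mul_div_cancel' d2] at h0 ⊢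
      exact hex e he h0)
  rw [sum_tr2 hA hE, sum_tr1 hA] at key
  have e1 : ∑ e ∈ E, F e = ∑ e ∈ E, F (A * (e.1 / A), A * (e.2 / A)) := by
    refine Finset.sum_congr rfl fun e he => ?_
    obtain ⟨a1, a2⟩ := Finset.mem_product.1 (hE he)
    rw [Nat.mul_div_cancel' (hA _ a1), Nat.mul_div_cancel' (hA _ a2)]
  rw [e1]
  refine key.trans (le_of_eq ?_)
  congr 1
  exact Finset.sum_congr rfl fun q hq => wt_tr A R (hA q hq)

/-- **tag pairs**, item coordinates -/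
theorem rseT' (CL : ℝ) (hCL : 0 ≤ CL) {k : ℝ} (hk : 0 < k) : ∃ p₁ : ℕ, ∀ p : ℕ, p₁ ≤ p →
    ∀ (A : ℕ) (T : Finset ℕ) (E : Finset (ℕ × ℕ)) (R : ℕ → ℝ) (F : ℕ × ℕ → ℝ),
    (∀ q ∈ T, A ∣ q) → E ⊆ T ×ˢ T →
    (∀ q ∈ T, 0 < q / A ∧ 0 < R q) → (∀ q ∈ T, R q ≤ CL * Real.log p * wA A R q) →
    (∀ e ∈ E, ∀ l : ℕ, l.Prime → (l ∣ cof (e.1 / A) (e.2 / A) ∨ l ∣ cof (e.2 / A) (e.1 / A)) →
      l ≤ p) →
    (∀ e ∈ E, 2^p ≤ cof (e.1 / A) (e.2 / A) ∨ 2^p ≤ cof (e.2 / A) (e.1 / A)) →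
    (∀ e ∈ E, F e ≤ 2 * ((R e.1 * R e.2) / DA A R e)) →
    ∑ e ∈ E, F e ≤ k * ∑ q ∈ T, wA A R q := by
  obtain ⟨p₁, H⟩ := RseT738.rseT CL hCL hk
  refine ⟨p₁, fun p hp A T E R F hA hE hT hL hsm hbig hF => ?_⟩
  have key := H p hp (T.image (· / A)) (E.image fun e => (e.1 / A, e.2 / A))
    (fun v => R (A * v)) (fun e => F (A * e.1, A * e.2)) (sub_tr hE)
    (fun v hv => by
      obtain ⟨q, hq, rfl⟩ := Finset.mem_image.1 hv
      have h1 := hT q hq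
      exact ⟨h1.1, by rw [Nat.mul_div_cancel' (hA q hq)]; exact h1.2⟩)
    (fun v hv => by
      obtain ⟨q, hq, rfl⟩ := Finset.mem_image.1 hv
      have h1 := hL q hq
      rw [wt_tr A R (hA q hq)]
      exact (R_tr A R (hA q hq)).le.trans h1)
    (fun x hx l hl hd => by
      obtain ⟨e, he, rfl⟩ := Finset.mem_image.1 hx
      exact hsm e he l hl hd)
    (fun x hx => by
      obtain ⟨e, he, rfl⟩ := Finset.mem_image.1 hx
      exact hbig e he)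
    (fun x hx => by
      obtain ⟨e, he, rfl⟩ := Finset.mem_image.1 hx
      obtain ⟨a1, a2⟩ := Finset.mem_product.1 (hE he)
      have d1 := hA _ a1
      have d2 := hA _ a2
      have h1 := hF e he
      rw [DP_eq A R d1 d2]
      simp only [Nat.mul_div_cancel' d1, Nat.mul_div_cancel' d2]
      exact h1)
  rw [sum_tr2 hA hE, sum_tr1 hA] at key
  have e1 : ∑ e ∈ E, F e = ∑ e ∈ E, F (A * (e.1 / A), A * (e.2 / A)) := by
    refine Finset.sum_congr rfl fun e he => ?_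
    obtain ⟨a1, a2⟩ := Finset.mem_product.1 (hE he)
    rw [Nat.mul_div_cancel' (hA _ a1), Nat.mul_div_cancel' (hA _ a2)]
  rw [e1]
  refine key.trans (le_of_eq ?_)
  congr 1
  exact Finset.sum_congr rfl fun q hq => wt_tr A R (hA q hq)

end Crest.Agent.R4P.RseNd23
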