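import Crest.Agent.R4P.RseRIa_17
import Crest.Agent.R4P.DseK_23

/-!
R4 (S0004), powers, helper17, [W-eSHR] / M6, TgtExit, **[RI]**, part 2: at a child `(u, τ)` of a node
`(v, V)` which is not a leaf, the pairs of pieces with one index at the column `tp V`, different retained
parts or tags there, and different indices at the child.

* `RI X Y p m`, `mem_RI`;
* `missU'`, `dLLM'` : item coordinates;
* `ri_kid` : the energy of these pairs is at most `κ` times the mass.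
-/

set_option autoImplicit false
set_option linter.unusedSectionVars false
set_option linter.unusedVariables false

open MeasureTheory Filter

namespace Crest.Agent.R4P.RseRI17

open Crest.Agent.R4P.Cnt588 Crest.Agent.R4P.Item758 Crest.Agent.R4P.W363
open Crest.Agent.R4P.Data758 Crest.Agent.R4P.LfDat734 Crest.Agent.R4P.OmSt532
open Crest.Agent.R4P.OmData532 Crest.Agent.R4P.WPex189
open Crest.Agent.R4P.Bld532 (NS All NodeOk Bk)
open Crest.Agent.R4P.Step588 (NDt ND1 ctx_NDt uq_lt)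
open Crest.Agent.R4P.WalkIT579 (tp isL nodeOk_hi top_of_nodeOk)
open Crest.Agent.R4P.Skel189 Crest.Agent.R4P.RseSt23 Crest.Agent.R4P.RseNd23
open Crest.Agent.R4P.AvgItem710
open Crest.Agent.R4P.PairR23 (iF_rel_le)
open Crest.Agent.R4.ClosL758 Crest.Agent.R4.ClosR758 Crest.Agent.R4.Tour104 Crest.Agent.R4.Fam464
open Crest.Agent.R4.Tour758 Crest.Agent.R4.Avg758 Crest.Agent.R4.ClosG758
open Crest.Agent.R4P.Frame758
open Crest.Agent.R4.Soft104 (w)
open Crest.Agent.R4.LF363 (Lab)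
open Crest.Agent.R4.HVW560 (cof wt)
open Crest.Agent.R4.InX944 (DP)
open Crest.Agent.R4.ClsB (Tame)
open Crest.Agent.R4.DensAcc33 (Accd)
open Crest.Agent.R4.AvgItem710 (Dp mul_cof mul_cof' cof_coprime exists_of_I_ne)
open Crest.Agent.R4P.StB21
open Crest.Agent.R4P.DseCh23
open Crest.Agent.R4P.DseN23
open Crest.Agent.R4P.DseKid23
open Crest.Agent.R4

/-! ### item coordinates -/

/-- `missU` in item coordinates -/
theorem missU' (CL C2 A' K : ℝ) (hA' : 0 ≤ A') : ∃ p₁ : ℕ, ∀ p m : ℕ, p₁ ≤ m → m ≤ p → p.Prime →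
    ∀ (A : ℕ) (θ η Th : ℝ) (T : Finset ℕ) (E : Finset (ℕ × ℕ)) (R : ℕ → ℝ) (F : ℕ × ℕ → ℝ)
      (s' : ℕ → Option ℚ),
    (∀ q ∈ T, A ∣ q) →
    0 < η → η ≤ Real.exp (-(Real.log p ^ (4/5:ℝ))) → (p:ℝ) ^ (-(1/10):ℝ) ≤ η →
    (m:ℝ) ^ (-(1/2:ℝ)) ≤ Th →
    E ⊆ T ×ˢ T → (∀ e ∈ E, e.1 ≠ e.2) →
    (∀ q ∈ T, 0 < q / A ∧ 0 < R q) → (∀ q ∈ T, R q ≤ CL * Real.log p * wA A R q) →
    (∀ z : ℝ, (p:ℝ)^2 ≤ z → ∀ q ∈ T, Tame z 1 (q / A)) →
    ∑ q ∈ T, wA A R q ≤ Real.log p ^ C2 →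
    (∀ e ∈ E, 0 ≤ F e) →
    (∀ e ∈ E, F e ≤ 2 * ((R e.1 * R e.2) / DA A R e) * (2 * (η * DA A R e) + 1)) →
    (∀ e ∈ E, ∃ a a' : ℤ,
      |((a:ℝ) + θ) * (cof (e.2 / A) (e.1 / A) : ℕ) - (a' + θ) * (cof (e.1 / A) (e.2 / A) : ℕ)| ≤
        η * DA A R e ∧
      ∀ ρ : ℚ, s' e.1 = some ρ → s' e.2 = some ρ →
        ¬ ((a:ℝ) + ρ) * (cof (e.2 / A) (e.1 / A) : ℕ) = (a' + ρ) * (cof (e.1 / A) (e.2 / A) : ℕ)) →
    (∀ q ∈ T, ∀ ρ, R q ≤ Th → Lab θ (R q) ρ → s' q = some ρ) →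
    (∀ q ∈ T, ∀ ρ, ¬ Lab (θ / p) (R q / p) ρ) →
    (T.Nonempty → ¬ Accd (θ / p) (Real.log p ^ A') p) →
    ∑ e ∈ E, F e ≤ Real.log p ^ (-K) * ∑ q ∈ T, wA A R q := by
  obtain ⟨p₁, H⟩ := missU CL C2 A' K hA'
  refine ⟨p₁, fun p m hm hmp hpp A θ η Th T E R F s' hA hη hη1 hη2 hTh hE hne hT hL htm hM hF0 hF
    hrel hk hnl hacc => ?_⟩
  have key := H p m hm hmp hpp θ η Th (T.image (· / A)) (E.image fun e => (e.1 / A, e.2 / A))
    (fun v => R (A * v)) (fun e => F (A * e.1, A * e.2)) (fun v => s' (A * v)) hη hη1 hη2 hTh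
    (sub_tr hE)
    (fun x hx => by
      obtain ⟨e, he, rfl⟩ := Finset.mem_image.1 hx
      obtain ⟨a1, a2⟩ := Finset.mem_product.1 (hE he)
      intro heq
      have heq' : e.1 / A = e.2 / A := heq
      apply hne e he
      rw [← Nat.mul_div_cancel' (hA _ a1), heq', Nat.mul_div_cancel' (hA _ a2)])
    (fun v hv => by
      obtain ⟨q, hq, rfl⟩ := Finset.mem_image.1 hv
      have h1 := hT q hq
      exact ⟨h1.1, by rw [Nat.mul_div_cancel' (hA q hq)]; exact h1.2⟩)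
    (fun v hv => by
      obtain ⟨q, hq, rfl⟩ := Finset.mem_image.1 hv
      have h1 := hL q hq
      rw [wt_tr A R (hA q hq)]
      exact (R_tr A R (hA q hq)).le.trans h1)
    (fun z hz v hv => by
      obtain ⟨q, hq, rfl⟩ := Finset.mem_image.1 hv
      exact htm z hz q hq)
    (by
      rw [sum_tr1 hA]
      exact le_trans (le_of_eq (Finset.sum_congr rfl fun q hq => wt_tr A R (hA q hq))) hM)
    (fun x hx => by
      obtain ⟨e, he, rfl⟩ := Finset.mem_image.1 hx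
      obtain ⟨a1, a2⟩ := Finset.mem_product.1 (hE he)
      simp only [Nat.mul_div_cancel' (hA _ a1), Nat.mul_div_cancel' (hA _ a2)]
      exact hF0 e he)
    (fun x hx => by
      obtain ⟨e, he, rfl⟩ := Finset.mem_image.1 hx
      obtain ⟨a1, a2⟩ := Finset.mem_product.1 (hE he)
      have d1 := hA _ a1
      have d2 := hA _ a2
      have h1 := hF e he
      rw [DP_eq A R d1 d2]
      simp only [Nat.mul_div_cancel' d1, Nat.mul_div_cancel' d2]
      exact h1)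
    (fun x hx => by
      obtain ⟨e, he, rfl⟩ := Finset.mem_image.1 hx
      obtain ⟨a1, a2⟩ := Finset.mem_product.1 (hE he)
      have d1 := hA _ a1
      have d2 := hA _ a2
      obtain ⟨a, a', h1, h2⟩ := hrel e he
      refine ⟨a, a', ?_, fun ρ h3 h4 => ?_⟩
      · unfold dv
        rw [DP_eq A R d1 d2]
        exact h1
      · simp only [Nat.mul_div_cancel' d1, Nat.mul_div_cancel' d2] at h3 h4
        exact h2 ρ h3 h4)
    (fun v hv ρ h1 h2 => by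
      obtain ⟨q, hq, rfl⟩ := Finset.mem_image.1 hv
      simp only [Nat.mul_div_cancel' (hA q hq)] at h1 h2 ⊢
      exact hk q hq ρ h1 h2)
    (fun v hv ρ => by
      obtain ⟨q, hq, rfl⟩ := Finset.mem_image.1 hv
      simp only [Nat.mul_div_cancel' (hA q hq)]
      exact hnl q hq ρ)
    (fun hn => hacc (Finset.image_nonempty.1 hn))
  rw [sum_tr2 hA hE, sum_tr1 hA] at key
  have e1 : ∑ e ∈ E, F e = ∑ e ∈ E, F (A * (e.1 / A), A * (e.2 / A)) := by
    refine Finset.sum_congr rfl fun e he => ?_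
    obtain ⟨a1, a2⟩ := Finset.mem_product.1 (hE he)
    rw [Nat.mul_div_cancel' (hA _ a1), Nat.mul_div_cancel' (hA _ a2)]
  rw [e1]
  refine key.trans (le_of_eq ?_)
  congr 1
  exact Finset.sum_congr rfl fun q hq => wt_tr A R (hA q hq)

/-- `dLLM` in item coordinates -/
theorem dLLM' (CL C2 : ℝ) (hCL : 0 ≤ CL) (hC2 : 0 ≤ C2) : ∃ p₁ : ℕ, ∀ p : ℕ, p₁ ≤ p → p.Prime →
    ∀ (A : ℕ) (θ : ℝ) (T : Finset ℕ) (E : Finset (ℕ × ℕ)) (R : ℕ → ℝ) (lam : ℕ → ℚ)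
      (F : ℕ × ℕ → ℝ),
    (∀ q ∈ T, A ∣ q) → E ⊆ T ×ˢ T →
    (∀ q ∈ T, 0 < q / A ∧ 0 < R q) → (∀ q ∈ T, R q ≤ CL * Real.log p * wA A R q) →
    (∀ q ∈ T, R q ≤ Real.log p ^ C2) →
    ∑ q ∈ T, wA A R q ≤ Real.log p ^ C2 →
    (∀ q ∈ T, Lab θ (R q / p) (lam q)) →
    (∀ (ρ : ℚ) (a : ℝ), Lab θ a ρ → p ∣ ρ.den → Real.exp ((p:ℝ)^(1/20:ℝ)) < ρ.den) →
    (∀ e ∈ E, F e ≤ 2 * ((R e.1 * R e.2) / DA A R e)) →
    (∀ e ∈ E, 0 < F e → lam e.1 ≠ lam e.2 ∧ ∃ m m' : ℤ,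
      ((m:ℝ) + (((p:ℚ) * lam e.1 : ℚ) : ℝ)) * (cof (e.2 / A) (e.1 / A) : ℕ) =
        (m' + (((p:ℚ) * lam e.2 : ℚ) : ℝ)) * (cof (e.1 / A) (e.2 / A) : ℕ)) →
    ∑ e ∈ E, F e ≤ (p:ℝ)^(-(1/40):ℝ) * ∑ q ∈ T, wA A R q := by
  obtain ⟨p₁, H⟩ := LLM24.dLLM CL C2 hCL hC2
  refine ⟨p₁, fun p hp hpp A θ T E R lam F hA hE hT hL hR hM hlab hbad hF hex => ?_⟩
  have key := H p hp hpp θ (T.image (· / A)) (E.image fun e => (e.1 / A, e.2 / A))
    (fun v => R (A * v)) (fun v => lam (A * v)) (fun e => F (A * e.1, A * e.2)) (sub_tr hE)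
    (fun v hv => by
      obtain ⟨q, hq, rfl⟩ := Finset.mem_image.1 hv
      have h1 := hT q hq
      exact ⟨h1.1, by rw [Nat.mul_div_cancel' (hA q hq)]; exact h1.2⟩)
    (fun v hv => by
      obtain ⟨q, hq, rfl⟩ := Finset.mem_image.1 hv
      have h1 := hL q hq
      rw [wt_tr A R (hA q hq)]
      exact (R_tr A R (hA q hq)).le.trans h1)
    (fun v hv => by
      obtain ⟨q, hq, rfl⟩ := Finset.mem_image.1 hv
      exact (R_tr A R (hA q hq)).le.trans (hR q hq))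
    (by
      rw [sum_tr1 hA]
      exact le_trans (le_of_eq (Finset.sum_congr rfl fun q hq => wt_tr A R (hA q hq))) hM)
    (fun v hv => by
      obtain ⟨q, hq, rfl⟩ := Finset.mem_image.1 hv
      simp only [Nat.mul_div_cancel' (hA q hq)]
      exact hlab q hq)
    hbad
    (fun x hx => by
      obtain ⟨e, he, rfl⟩ := Finset.mem_image.1 hx
      obtain ⟨a1, a2⟩ := Finset.mem_product.1 (hE he)
      have d1 := hA _ a1
      have d2 := hA _ a2
      have h1 := hF e he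
      rw [DP_eq A R d1 d2]
      simp only [Nat.mul_div_cancel' d1, Nat.mul_div_cancel' d2]
      exact h1)
    (fun x hx h0 => by
      obtain ⟨e, he, rfl⟩ := Finset.mem_image.1 hx
      obtain ⟨a1, a2⟩ := Finset.mem_product.1 (hE he)
      have d1 := hA _ a1
      have d2 := hA _ a2
      simp only [Nat.mul_div_cancel' d1, Nat.mul_div_cancel' d2] at h0 ⊢
      exact hex e he h0)
  rw [sum_tr2 hA hE, sum_tr1 hA] at key
  have e1 : ∑ e ∈ E, F e = ∑ e ∈ E, F (A * (e.1 / A), A * (e.2 / A)) := by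
    refine Finset.sum_congr rfl fun e he => ?_
    obtain ⟨a1, a2⟩ := Finset.mem_product.1 (hE he)
    rw [Nat.mul_div_cancel' (hA _ a1), Nat.mul_div_cancel' (hA _ a2)]
  rw [e1]
  refine key.trans (le_of_eq ?_)
  congr 1
  exact Finset.sum_congr rfl fun q hq => wt_tr A R (hA q hq)

lemma num_small {κ : ℝ} (hκ : 0 < κ) : ∃ p₁ : ℕ, ∀ p : ℕ, p₁ ≤ p →
    Real.log p ^ (-(1:ℝ)) ≤ κ ∧ (p:ℝ) ^ (-(1/40):ℝ) ≤ κ := by
  have e1 : Tendsto (fun n : ℕ => Real.log (n:ℝ) ^ (-(1:ℝ))) atTop (nhds 0) :=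
    (tendsto_rpow_neg_atTop one_pos).comp
      (Real.tendsto_log_atTop.comp tendsto_natCast_atTop_atTop)
  have e2 : Tendsto (fun n : ℕ => (n:ℝ) ^ (-(1/40):ℝ)) atTop (nhds 0) :=
    (tendsto_rpow_neg_atTop (by norm_num)).comp tendsto_natCast_atTop_atTop
  obtain ⟨n, hn⟩ := eventually_atTop.1
    ((e1.eventually_le_const hκ).and (e2.eventually_le_const hκ))
  exact ⟨n, fun p hp => hn p hp⟩

/-- two labels of one target and one radius are equal -/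
lemma Lab_uniq {θ r : ℝ} {ρ σ : ℚ} (hL : Lab θ r ρ) (hL' : Lab θ r σ) : σ = ρ := by
  by_contra hne
  have hne' : ρ ≠ σ := fun e => hne e.symm
  have key := (LL207.two_labels hL hL' hne').1
  have hR := hL.pos
  rw [max_self] at key
  have d1 := hL.den
  have d2 := hL'.den
  have e3 : ((ρ.den : ℝ) * σ.den) ^ 5 * r ^ 2 ≤ 1 := by
    have := mul_le_mul d1 d2 (by positivity) zero_le_one
    calc ((ρ.den : ℝ) * σ.den) ^ 5 * r ^ 2 =
          ((ρ.den : ℝ) ^ 5 * r) * ((σ.den : ℝ) ^ 5 * r) := by ring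
      _ ≤ 1 := by linarith
  have hR1 : r ≤ 1 / 10 := hL.le
  have e4 : 32 * r ^ 4 * ((ρ.den : ℝ) * σ.den) ^ 5 =
      32 * r ^ 2 * (((ρ.den : ℝ) * σ.den) ^ 5 * r ^ 2) := by ring
  rw [e4] at key
  have e5 : r ^ 2 ≤ (1/10) ^ 2 := pow_le_pow_left₀ hR.le hR1 2
  have e6 : 0 ≤ ((ρ.den : ℝ) * σ.den) ^ 5 * r ^ 2 := by positivity
  nlinarith

/-! ### pairs of pieces -/

section ctx
variable {N : Skel189.Num} {γ : ℝ} {p0 P₀ : ℕ} {X : Ctx N γ p0 P₀} {v u : NS} {V τ : IT}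
  {Y : Finset (ℕ × ℕ × Finset ℕ)} {A : Finset X.c.Lam}

/-- one index at the column `p`, different retained parts or tags there, different indices at `m` -/
noncomputable def RI (X : Ctx N γ p0 P₀) (Y : Finset (ℕ × ℕ × Finset ℕ)) (p m : ℕ) :
    Finset (X.c.Lam × X.c.Lam) := RS X Y p ∩ Ro ((X.c.D.par Y).rho m)

lemma mem_RI {p m : ℕ} {x : X.c.Lam × X.c.Lam} : x ∈ RI X Y p m ↔ x ∈ RS X Y p ∧
    (X.c.world m x.1.1).1 ≠ (X.c.world m x.2.1).1 := by
  unfold RI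
  rw [Finset.mem_inter, Cf.Ro_par, Cf.mem_Ro]

/-- a pair of pieces of the relation `T` with a common point -/
structure PtI (X : Ctx N γ p0 P₀) (A : Finset X.c.Lam) (u : NS) (τ : IT)
    (T : Finset (X.c.Lam × X.c.Lam)) (e : ℕ × ℕ) (j j' : X.c.Lam) (y z z' : ℝ) (a a' : ℤ) :
    Prop where
  mA : j ∈ A
  mA' : j' ∈ A
  e1 : j.1.1 = e.1
  e2 : j'.1.1 = e.2
  i1 : e.1 ∈ τ.items
  i2 : e.2 ∈ τ.items
  s1 : e.1 ∈ X.S'
  s2 : e.2 ∈ X.S'
  rc : (j, j') ∈ T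
  o1 : X.c.om e.1 (X.c.bp j.1.1 j.1.2) ((mp τ e.1 : ℕ) * a) ≠ 0
  o2 : X.c.om e.2 (X.c.bp j'.1.1 j'.1.2) ((mp τ e.2 : ℕ) * a') ≠ 0
  l1 : (u.B : ℝ) / (1 : ℕ) * X.c.bp j.1.1 j.1.2 ≤
    ((j.1.1 / u.A : ℕ) : ℝ) * y - (u.B : ℝ) / (1 : ℕ) * X.c.γ - a
  l2 : ((j.1.1 / u.A : ℕ) : ℝ) * y - (u.B : ℝ) / (1 : ℕ) * X.c.γ - a <
    (u.B : ℝ) / (1 : ℕ) * X.c.bp j.1.1 (j.1.2 + 1)
  l3 : (u.B : ℝ) / (1 : ℕ) * X.c.bp j'.1.1 j'.1.2 ≤
    ((j'.1.1 / u.A : ℕ) : ℝ) * y - (u.B : ℝ) / (1 : ℕ) * X.c.γ - a'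
  l4 : ((j'.1.1 / u.A : ℕ) : ℝ) * y - (u.B : ℝ) / (1 : ℕ) * X.c.γ - a' <
    (u.B : ℝ) / (1 : ℕ) * X.c.bp j'.1.1 (j'.1.2 + 1)
  hz : (u.B : ℝ) * z = ((e.1 / u.A : ℕ) : ℝ) * y - u.B * X.c.γ - a
  hz' : (u.B : ℝ) * z' = ((e.2 / u.A : ℕ) : ℝ) * y - u.B * X.c.γ - a'
  za : X.c.D.al j ≤ z
  zb : z < X.c.D.be j
  za' : X.c.D.al j' ≤ z'
  zb' : z' < X.c.D.be j'

/-- **a pair of items with a nonzero pair of pieces** -/
theorem PE_T (h : NDt X.par (w X.ψ) X.c.t u τ) {T : Finset (X.c.Lam × X.c.Lam)} {e : ℕ × ℕ}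
    (he : e ∈ (X.c.D.par Y).PE T (Uv X Y u τ A) (Uv X Y u τ A)) :
    ∃ (j j' : X.c.Lam) (y z z' : ℝ) (a a' : ℤ), PtI X A u τ T e j j' y z z' a a' := by
  obtain ⟨j, j', hR, hI, e1, e2⟩ := Par.mem_PE.1 he
  obtain ⟨y, y1, y2⟩ := exists_of_I_ne hI
  have hA : j ∈ A := by
    by_contra hc
    exact y1 (congrFun (rv_of_not_mem (f := fun j => ((X.c.D.par Y).toFT u.B u.A τ).U 1 j) hc) y)
  have hA' : j' ∈ A := by
    by_contra hc
    exact y2 (congrFun (rv_of_not_mem (f := fun j => ((X.c.D.par Y).toFT u.B u.A τ).U 1 j) hc) y)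
  have y1' : ((X.c.D.par Y).toFT u.B u.A τ).U 1 j y ≠ 0 := by
    have e := congrFun (rv_of_mem (f := fun j => ((X.c.D.par Y).toFT u.B u.A τ).U 1 j) hA) y
    intro h0
    exact y1 (e.trans h0)
  have y2' : ((X.c.D.par Y).toFT u.B u.A τ).U 1 j' y ≠ 0 := by
    have e := congrFun (rv_of_mem (f := fun j => ((X.c.D.par Y).toFT u.B u.A τ).U 1 j) hA') y
    intro h0
    exact y2 (e.trans h0)
  obtain ⟨m1, a, o1, l1, l2⟩ := Par.supp _ h.B_pos h.fit (node_wts h Y) (one_dvd _) y1'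
  obtain ⟨m2, a', o2, l3, l4⟩ := Par.supp _ h.B_pos h.fit (node_wts h Y) (one_dvd _) y2'
  rw [one_mul] at o1 o2
  have e1' : j.1.1 = e.1 := e1
  have e2' : j'.1.1 = e.2 := e2
  have m1' : j.1.1 ∈ τ.items := m1
  have m2' : j'.1.1 ∈ τ.items := m2
  have o1' : X.c.om j.1.1 (X.c.bp j.1.1 j.1.2) ((mp τ j.1.1 : ℕ) * a) ≠ 0 := o1
  have o2' : X.c.om j'.1.1 (X.c.bp j'.1.1 j'.1.2) ((mp τ j'.1.1 : ℕ) * a') ≠ 0 := o2
  have l1' : (u.B : ℝ) / (1 : ℕ) * X.c.bp j.1.1 j.1.2 ≤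
    ((j.1.1 / u.A : ℕ) : ℝ) * y - (u.B : ℝ) / (1 : ℕ) * X.c.γ - a := l1
  have l2' : ((j.1.1 / u.A : ℕ) : ℝ) * y - (u.B : ℝ) / (1 : ℕ) * X.c.γ - a <
    (u.B : ℝ) / (1 : ℕ) * X.c.bp j.1.1 (j.1.2 + 1) := l2
  have l3' : (u.B : ℝ) / (1 : ℕ) * X.c.bp j'.1.1 j'.1.2 ≤
    ((j'.1.1 / u.A : ℕ) : ℝ) * y - (u.B : ℝ) / (1 : ℕ) * X.c.γ - a' := l3
  have l4' : ((j'.1.1 / u.A : ℕ) : ℝ) * y - (u.B : ℝ) / (1 : ℕ) * X.c.γ - a' <
    (u.B : ℝ) / (1 : ℕ) * X.c.bp j'.1.1 (j'.1.2 + 1) := l4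
  obtain ⟨z, q1, q2, q3, q4⟩ := pt_kid h.B_pos l1' l2'
  obtain ⟨z', q5, q6, q7, q8⟩ := pt_kid h.B_pos l3' l4'
  have hs1 : j.1.1 ∈ X.S' := by
    by_contra hc
    exact o1' (X.om_zero hc _ _)
  have hs2 : j'.1.1 ∈ X.S' := by
    by_contra hc
    exact o2' (X.om_zero hc _ _)
  refine ⟨j, j', y, z, z', a, a', ?_⟩
  rw [e1'] at m1' hs1 q1 q2
  rw [e2'] at m2' hs2 q5 q6
  exact
    { mA := hA
      mA' := hA'
      e1 := e1'
      e2 := e2'
      i1 := m1'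
      i2 := m2'
      s1 := hs1
      s2 := hs2
      rc := hR
      o1 := by rw [e1'] at o1' ⊢; exact o1'
      o2 := by rw [e2'] at o2' ⊢; exact o2'
      l1 := l1'
      l2 := l2'
      l3 := l3'
      l4 := l4'
      hz := q1
      hz' := q5
      za := q3
      zb := q4
      za' := q7
      zb' := q8 }

lemma PE_T_sub (h : NDt X.par (w X.ψ) X.c.t u τ) {T : Finset (X.c.Lam × X.c.Lam)} :
    (X.c.D.par Y).PE T (Uv X Y u τ A) (Uv X Y u τ A) ⊆ al X τ A ×ˢ al X τ A := by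
  classical
  intro e he
  obtain ⟨j, j', y, z, z', a, a', k⟩ := PE_T h he
  unfold al
  exact Finset.mem_product.2 ⟨Finset.mem_filter.2 ⟨k.i1, k.s1, j, k.mA, k.e1⟩,
    Finset.mem_filter.2 ⟨k.i2, k.s2, j', k.mA', k.e2⟩⟩

/-- **energy of an unlabelled pair** -/
theorem F_none_T (h : NDt X.par (w X.ψ) X.c.t u τ) {p : ℕ} {T : Finset (X.c.Lam × X.c.Lam)}
    (hT : ∀ x ∈ T, (X.c.world p x.1.1).1 = (X.c.world p x.2.1).1)
    (hp : p ≤ top X.S) (hlam : X.c.lam p = 0) {e : ℕ × ℕ}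
    (h1 : e.1 ∈ τ.items) (h2 : e.2 ∈ τ.items) {η : ℝ} (hη : etaL X.c.wp p ≤ η)
    (hs : X.c.st p e.1 = none) (hs' : X.c.st p e.2 = none) :
    (X.c.D.par Y).iF T (Uv X Y u τ A) (Uv X Y u τ A) e ≤
      2 * ((RB X u e.1 * RB X u e.2) / DA u.A (RB X u) e) * (2 * (η * DA u.A (RB X u) e) + 1) := by
  have hrr : ∀ q, 0 < X.c.rr q := (X.ok.rad Y).pos
  have hB' : (0 : ℝ) < u.B := by exact_mod_cast h.B_pos
  have hDA : 0 ≤ DA u.A (RB X u) e := by
    unfold DA Crest.Agent.R4.AvgItem710.Dp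
    refine le_max_of_le_left ?_
    have := (hrr e.1).le
    positivity
  have hη0 : 0 ≤ η := (etaL_pos _ _).le.trans hη
  have key := iF_rel_le (D := X.c.D.par Y) (ρ := X.c.rr) (b := u.B) (pr := u.A) (c := 1)
    (b' := u.B) (pr' := u.A) (c' := 1) (A := A) (A' := A) (X.ok.rad Y) h.B_pos h.B_pos h.fit h.fit
    (node_wts h Y) (node_wts h Y) (one_dvd _) (one_dvd _) T e h1 h2
    (C := u.B * X.c.γ) (C' := u.B * X.c.γ) (δ := η * DA u.A (RB X u) e) (mul_nonneg hη0 hDA)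
    (fun x hx _ _ i1 i2 y a a' l1 l2 l3 l4 => by
      have hw := hT x hx
      have i1' : x.1.1.1 = e.1 := i1
      have i2' : x.2.1.1 = e.2 := i2
      rw [← i1'] at l1 l2 h1 hs
      rw [← i2'] at l3 l4 h2 hs'
      have k := rel_none h hp hlam hw h1 h2 hs hs' l1 l2 l3 l4
      rw [i1', i2'] at k
      exact k.trans (mul_le_mul_of_nonneg_right hη hDA))
  rw [Nat.cast_one, div_one] at key
  exact key

/-- **energy of a labelled pair** -/
theorem F_some_T (h : NDt X.par (w X.ψ) X.c.t u τ) {p : ℕ} {T : Finset (X.c.Lam × X.c.Lam)}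
    (hT : ∀ x ∈ T, (X.c.world p x.1.1).1 = (X.c.world p x.2.1).1)
    (hp : p ≤ top X.S) (hlam : X.c.lam p = 0) {e : ℕ × ℕ}
    (h1 : e.1 ∈ τ.items) (h2 : e.2 ∈ τ.items) {σ σ' : ℚ}
    (hs : X.c.st p e.1 = some σ) (hs' : X.c.st p e.2 = some σ') :
    (X.c.D.par Y).iF T (Uv X Y u τ A) (Uv X Y u τ A) e ≤
      2 * ((RB X u e.1 * RB X u e.2) / DA u.A (RB X u) e) := by
  have key := iF_rel_le (D := X.c.D.par Y) (ρ := X.c.rr) (b := u.B) (pr := u.A) (c := 1)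
    (b' := u.B) (pr' := u.A) (c' := 1) (A := A) (A' := A) (X.ok.rad Y) h.B_pos h.B_pos h.fit h.fit
    (node_wts h Y) (node_wts h Y) (one_dvd _) (one_dvd _) T e h1 h2
    (C := ((u.B * σ : ℚ) : ℝ)) (C' := ((u.B * σ' : ℚ) : ℝ)) (δ := 0) le_rfl
    (fun x hx _ _ i1 i2 y a a' l1 l2 l3 l4 => by
      have hw := hT x hx
      have i1' : x.1.1.1 = e.1 := i1
      have i2' : x.2.1.1 = e.2 := i2
      rw [← i1'] at l1 l2 h1 hs
      rw [← i2'] at l3 l4 h2 hs'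
      have k := (rel_some h hp hlam hw h1 h2 hs hs' l1 l2 l3 l4).2
      rw [i1', i2'] at k
      rw [k, sub_self, abs_zero])
  rw [Nat.cast_one, div_one, mul_zero, zero_add, mul_one] at key
  exact key

/-- **alive pieces**, labels of a higher column -/
theorem alive_denT (h : NDt X.par (w X.ψ) X.c.t u τ) {q : ℕ} (hq : q ∈ τ.items) {p : ℕ}
    {σ : ℚ} (hσ : X.c.st p q = some σ) {b : ℕ}
    (hb : b ∈ X.c.t.uq q) (hpb : p ≤ b) (hbw : b ∣ q / u.A) {z : ℝ} {a : ℤ}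
    (ha : X.c.om q z ((mp τ q : ℕ) * a) ≠ 0) {W' : ℕ} (hbW : ¬ b ∣ W') {σ' : ℚ} {a' : ℤ}
    (hex : ((a:ℝ) + ((u.B * σ : ℚ) : ℝ)) * W' = ((a':ℝ) + σ') * (q / u.A : ℕ)) : b ∣ σ'.den := by
  by_contra hden
  apply ha
  have hlp : b.Prime := (uq_lt X.tOk hb).1
  have hq' : q ∈ X.c.t.items := h.self.sub hq
  have hle := X.om_le q z (((mp τ q : ℕ) : ℤ) * a)
  have h0 : omL X.c.wp X.c.wpL X.c.γ X.c.r X.c.t X.c.lv X.c.S' q (((mp τ q : ℕ) : ℤ) * a) = 0 := by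
    unfold omL omT
    have hd := h.rd q hq' b hb
    have hpp : 0 < q / Item758.pp X.c.t q := by
      have h1 := h.dvd q hq'
      have h2 := h.pos q hq'
      exact Nat.div_pos (Nat.le_of_dvd h2 h1) (Nat.pos_of_dvd_of_pos h1 h2)
    refine omw_zero (l := b) (Nat.mem_primeFactors.2 ⟨hlp, hd, hpp.ne'⟩) hb
      (ρ := (mp X.c.t q : ℚ) * σ) (lb_mem_TE hb hpb (stB_lbAt hσ)) ?_
    have e1 := h.self.mp q hq
    exact dead_core hlp hbw hbW hden (τ := (u.B : ℚ) * σ) (τ' := σ') (m := ((mp τ q : ℕ) : ℤ))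
      (by rw [e1]; push_cast; ring) hex
  have hnn : 0 ≤ X.c.om q z (((mp τ q : ℕ) : ℤ) * a) := by
    have hS : q ∈ X.c.S := by rw [← X.ok.items]; exact hq'
    exact (X.ok.wt q hS z).nonneg _
  rw [h0] at hle
  exact le_antisymm hle hnn

/-- **different retained parts at the column of the parent** -/
theorem sepK (h : Kid X v V u τ) {q r : ℕ} (hq : q ∈ τ.items) (hr : r ∈ τ.items)
    (hne : W363.ret X.c.t (tp V) q ≠ W363.ret X.c.t (tp V) r) :
    ∃ b : ℕ, b.Prime ∧ tp V < b ∧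
      ((b ∈ X.c.t.uq q ∧ b ∣ q / u.A ∧ ¬ b ∣ r / u.A) ∨
       (b ∈ X.c.t.uq r ∧ b ∣ r / u.A ∧ ¬ b ∣ q / u.A)) := by
  have hset : (X.c.t.uq q).filter (tp V < ·) ≠ (X.c.t.uq r).filter (tp V < ·) := by
    intro e
    apply hne
    unfold W363.ret
    rw [e]
  have hex : ∃ b, (b ∈ X.c.t.uq q ∧ tp V < b ∧ b ∉ X.c.t.uq r) ∨
      (b ∈ X.c.t.uq r ∧ tp V < b ∧ b ∉ X.c.t.uq q) := by
    by_contra hc
    push Not at hc
    apply hset
    ext b
    rw [Finset.mem_filter, Finset.mem_filter]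
    constructor
    · rintro ⟨h1, h2⟩
      exact ⟨(hc b).1 h1 h2, h2⟩
    · rintro ⟨h1, h2⟩
      exact ⟨(hc b).2 h1 h2, h2⟩
  obtain ⟨b, hb⟩ := hex
  have hlv := h.lvl_le
  rcases hb with ⟨h1, h2, h3⟩ | ⟨h1, h2, h3⟩
  · have hp := (uq_lt X.tOk h1).1
    obtain ⟨g1, g2⟩ := h.uq_sep hq hr hp (by omega) h1 h3
    exact ⟨b, hp, h2, Or.inl ⟨h1, g1, g2⟩⟩
  · have hp := (uq_lt X.tOk h1).1
    obtain ⟨g1, g2⟩ := h.uq_sep hr hq hp (by omega) h1 h3
    exact ⟨b, hp, h2, Or.inr ⟨h1, g1, g2⟩⟩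

/-- **equal retained parts at the column of the parent: smooth cofactors** -/
theorem smoothK (h : Kid X v V u τ) {q r : ℕ} (hq : q ∈ τ.items) (hr : r ∈ τ.items)
    (he : W363.ret X.c.t (tp V) q = W363.ret X.c.t (tp V) r) {l : ℕ} (hl : l.Prime)
    (hd : l ∣ cof (q / u.A) (r / u.A)) : l ≤ tp V := by
  by_contra hc
  rw [not_le] at hc
  have hnd := h.hu.nd
  have hlt : lvl u τ < l := lt_of_le_of_lt h.lvl_le hc
  have h1 : cof (q / u.A) (r / u.A) * Nat.gcd (q / u.A) (r / u.A) = q / u.A :=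
    Nat.div_mul_cancel (Nat.gcd_dvd_left _ _)
  have h2 : l ∣ q / u.A := by rw [← h1]; exact hd.mul_right _
  have h3 : ¬ l ∣ r / u.A := by
    intro h3
    have h4 : l ∣ Nat.gcd (q / u.A) (r / u.A) := Nat.dvd_gcd h2 h3
    refine hnd.self.rad q hq l hl (h.prime_ge hl hlt) ?_
    rw [← h1, pow_two]
    exact Nat.mul_dvd_mul hd h4
  have h5 := h.uq_of hq hl hlt h2
  have h6 := (dvd_ret X.tOk hl (p := tp V) (q := q)).2 ⟨h5, hc⟩
  rw [he] at h6
  exact h3 (hnd.rt_dvd hr ((dvd_ret X.tOk hl).1 h6).1)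

end ctx

/-! ### the child -/

section main
variable {N : Skel189.Num} {γ : ℝ} {p0 P₀ : ℕ}

set_option maxHeartbeats 4000000 in
/-- **[RI]: the pairs with one index at the column of the parent, different retained parts or tags
there, different indices at the child** -/
theorem ri_kid (N : Skel189.Num) {κ A' : ℝ} (hκ : 0 < κ) (hA' : 0 ≤ A') : ∃ p₁ : ℕ, ∀ p0 ≥ p₁,
    ∀ (γ : ℝ) (P₀ : ℕ) (X : Ctx N γ p0 P₀), DH X →
    ∀ (Y : Finset (ℕ × ℕ × Finset ℕ)) (v : NS) (V : IT) (u : NS) (τ : IT),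
    Kid X v V u τ → ¬ isL τ → KQ X v V u τ A' → ∀ A : Finset X.c.Lam,
      Q (RI X Y (tp V) (tp τ)) (Uv X Y u τ A) (Uv X Y u τ A) ≤
        κ * (u.c * ∑ q ∈ al X τ A, w X.ψ q) := by
  classical
  have hB1 := N.hB
  have hC1 := N.hC1
  have hc2 := N.hc2
  have hCT := Step588.CT_pos
  have hC2 : 0 ≤ N.B + N.c2 + 3 := by linarith
  obtain ⟨p2, h2⟩ := rseU' (2 * Step588.CT) (N.B + N.c2 + 3) (by positivity) hC2 (κ := κ / 3)
    (by positivity)
  obtain ⟨p3, h3⟩ := rseL' (2 * Step588.CT) (N.B + N.c2 + 3) (by positivity) hC2 (κ := κ / 3)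
    (by positivity)
  obtain ⟨p4, h4⟩ := rseT' (2 * Step588.CT) (by positivity) (k := κ / 3) (by positivity)
  obtain ⟨p5, h5⟩ := num_p (N.c2 + 2)
  obtain ⟨p6, h6⟩ := missU' (2 * Step588.CT) (N.B + N.c2 + 3) A' 1 hA'
  obtain ⟨p7, h7⟩ := dLLM' (2 * Step588.CT) (N.B + N.c2 + 3) (by positivity) hC2
  obtain ⟨p8, h8⟩ := num_small (κ := κ / 3) (by positivity)
  obtain ⟨p9, h9⟩ := num_eta
  obtain ⟨p10, h10⟩ := num_log
  refine ⟨p2 + p3 + p4 + p5 + p6 + p7 + p8 + p9 + p10 + 2,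
    fun p0 hp0 γ P₀ X hD Y v V u τ hk hl hQ A => ?_⟩
  have h := hk.hu.nd
  obtain ⟨k1, k2, k3⟩ := hk.tpV
  obtain ⟨g1, g2, g3, g4⟩ := hk.node hl
  have hlv : lvl u τ = tp τ := lvl_node hl
  have hpt : tp V ≤ top X.S := hk.tpVt
  set p := tp V with hp
  set m := tp τ with hm
  obtain ⟨n1, n2, n3, n4, n5⟩ := h5 p (by omega)
  have hlm : 4 ≤ Real.log m := h10 _ (by omega)
  have hlp : 4 ≤ Real.log p := h10 _ (by omega)
  have hmR : (0:ℝ) < m := by exact_mod_cast (by omega : 0 < m)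
  have hpR : (0:ℝ) < p := by exact_mod_cast (by omega : 0 < p)
  have hpR1 : (1:ℝ) ≤ p := by exact_mod_cast (by omega : 1 ≤ p)
  have hmpR : (m:ℝ) ≤ p := by exact_mod_cast g4
  have hlmp : Real.log m ≤ Real.log p := Real.log_le_log hmR hmpR
  have hlam := hD.rse.lam p k2 hpt
  have hdep := hD.rse.dep p k2 hpt
  have hthr := hD.rse.thr p k2
  set T : Finset ℕ := al X τ A with hT
  have hTm : ∀ q ∈ T, q ∈ τ.items ∧ q ∈ X.S' := fun q hq => al_mem hq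
  set D := X.c.D.par Y with hDd
  set F : ℕ × ℕ → ℝ := fun e => D.iF (RI X Y p m) (Uv X Y u τ A) (Uv X Y u τ A) e with hF
  set E : Finset (ℕ × ℕ) := D.PE (RI X Y p m) (Uv X Y u τ A) (Uv X Y u τ A) with hE
  have hET0 : E ⊆ T ×ˢ T := PE_T_sub h
  have hET : ∀ e ∈ E, e.1 ∈ T ∧ e.2 ∈ T := fun e he => Finset.mem_product.1 (hET0 he)
  rw [D.Q_eq]
  show ∑ e ∈ E, F e ≤ _
  rcases Finset.eq_empty_or_nonempty T with h0 | ⟨q₀, hq₀⟩
  · have hE0 : E = ∅ := by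
      rw [Finset.eq_empty_iff_forall_notMem]
      intro e he
      have := (hET e he).1
      rw [h0] at this
      simp at this
    rw [hE0, h0]
    simp
  have hA0 : 0 < u.A := h.A_pos
  have hdvd : ∀ q ∈ T, u.A ∣ q := al_dvd h
  have hpos : ∀ q ∈ T, 0 < q / u.A ∧ 0 < RB X u q := fun q hq =>
    ⟨Nat.pos_of_ne_zero (h.div_ne (hTm q hq).1), (hQ.aq q (hTm q hq).1 (hTm q hq).2).R0⟩
  have hwA0 : ∀ q ∈ T, 0 ≤ wA u.A (RB X u) q := fun q hq => by
    unfold wA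
    have := (hpos q hq).2.le
    positivity
  have hlo : ∀ q ∈ T, RB X u q ≤ 2 * Step588.CT * Real.log p * wA u.A (RB X u) q := by
    intro q hq
    have h1 := (hQ.aq q (hTm q hq).1 (hTm q hq).2).lo
    rw [hlv] at h1
    refine h1.trans (mul_le_mul_of_nonneg_right ?_ (hwA0 q hq))
    exact mul_le_mul_of_nonneg_left hlmp (by positivity)
  have htame : ∀ z : ℝ, (p:ℝ) ^ 2 ≤ z → ∀ q ∈ T, Tame z 1 (q / u.A) := by
    intro z hz q hq
    refine (hQ.aq q (hTm q hq).1 (hTm q hq).2).tame z ?_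
    rw [hlv]
    exact (pow_le_pow_left₀ hmR.le hmpR 2).trans hz
  -- masses
  have hM : ∑ q ∈ T, wA u.A (RB X u) q ≤ u.c * ∑ q ∈ T, w X.ψ q := by
    rw [Finset.mul_sum]
    exact Finset.sum_le_sum fun q hq => hQ.wle q (hTm q hq).1 (hTm q hq).2
  have hM2 : ∑ q ∈ T, wA u.A (RB X u) q ≤ Real.log p ^ (N.B + N.c2 + 3) := by
    have h1 := hQ.ms ⟨q₀, (hTm q₀ hq₀).1⟩
    rw [hlv] at h1
    refine hM.trans (le_trans ?_ (h1.trans (Real.rpow_le_rpow (by linarith) hlmp hC2)))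
    refine mul_le_mul_of_nonneg_left ?_ hk.hu.c0.le
    unfold Ws
    exact Finset.sum_le_sum_of_subset_of_nonneg (fun q hq => (hTm q hq).1) fun q _ _ => X.hW q
  have hsub : ∀ T' ⊆ T, ∑ q ∈ T', wA u.A (RB X u) q ≤ ∑ q ∈ T, wA u.A (RB X u) q := fun T' hT' =>
    Finset.sum_le_sum_of_subset_of_nonneg hT' fun q hq _ => hwA0 q hq
  -- the pairs
  have hTix : ∀ x ∈ RI X Y p m, (X.c.world p x.1.1).1 = (X.c.world p x.2.1).1 := fun x hx =>
    (mem_RS.1 (mem_RI.1 hx).1).1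
  have hPt : ∀ e ∈ E, ∃ (j j' : X.c.Lam) (y z z' : ℝ) (a a' : ℤ),
      PtI X A u τ (RI X Y p m) e j j' y z z' a a' := fun e he => PE_T h he
  have hdis : ∀ e ∈ E, W363.ret X.c.t p e.1 ≠ W363.ret X.c.t p e.2 ∨
      X.c.tg p e.1 ≠ X.c.tg p e.2 := by
    intro e he
    obtain ⟨j, j', y, z, z', a, a', k⟩ := hPt e he
    have h1 := (mem_RS.1 (mem_RI.1 k.rc).1).2
    rw [← k.e1, ← k.e2]
    exact h1
  have hne : ∀ e ∈ E, e.1 ≠ e.2 := by
    intro e he heq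
    rcases hdis e he with h1 | h1
    · exact h1 (by rw [heq])
    · exact h1 (by rw [heq])
  set st : ℕ → Option ℚ := fun q => X.c.st p q with hst
  have hsome : ∀ e ∈ E, (st e.1).isSome = (st e.2).isSome := by
    intro e he
    obtain ⟨j, j', y, z, z', a, a', k⟩ := hPt e he
    have h1 := isSome_pair (X := X) hlam (hTix _ k.rc)
    have e1 : j.1.1 = e.1 := k.e1
    have e2 : j'.1.1 = e.2 := k.e2
    simp only at h1
    rw [e1, e2] at h1
    exact h1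
  -- the three parts
  set TU := T.filter fun q => (st q).isSome = false with hTU
  set TL := T.filter fun q => (st q).isSome = true with hTL
  set EU := E.filter fun e => (st e.1).isSome = false with hEU
  set EL := (E.filter fun e => ¬ (st e.1).isSome = false).filter
    (fun e => W363.ret X.c.t p e.1 ≠ W363.ret X.c.t p e.2) with hEL
  set ET := (E.filter fun e => ¬ (st e.1).isSome = false).filter
    (fun e => ¬ W363.ret X.c.t p e.1 ≠ W363.ret X.c.t p e.2) with hETd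
  have hsplit : ∑ e ∈ E, F e = ∑ e ∈ EU, F e + (∑ e ∈ EL, F e + ∑ e ∈ ET, F e) := by
    rw [Finset.sum_filter_add_sum_filter_not, Finset.sum_filter_add_sum_filter_not]
  have hF0 : ∀ e, 0 ≤ F e := by
    intro e
    have hU : ∀ (i : X.c.Lam) (t : ℝ), 0 ≤ Uv X Y u τ A i t := by
      intro i t
      have hpb := PB_rv (fun i => FT.pb h.B_pos
        ((X.c.D.par Y).toFT_Adm τ u.B u.A h.B_pos h.fit (node_wts h Y)) (one_dvd u.B) i) A i
      exact hpb.nonneg t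
    exact (X.c.D.par Y).iF_nonneg _ hU hU e
  -- a cofactor of the pairs with different retained parts
  have hcofr : ∀ q ∈ T, ∀ r ∈ T, W363.ret X.c.t p q ≠ W363.ret X.c.t p r →
      p ≤ cof (q / u.A) (r / u.A) ∨ p ≤ cof (r / u.A) (q / u.A) := by
    intro q hq r hr hne
    obtain ⟨b, hb, hpb, hh⟩ := sepK hk (hTm q hq).1 (hTm r hr).1 hne
    rcases hh with ⟨-, b1, b2⟩ | ⟨-, b1, b2⟩
    · left
      have h6 := Nat.le_of_dvd (Nat.div_pos (Nat.le_of_dvd (hpos q hq).1 (Nat.gcd_dvd_left _ _))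
        (Nat.gcd_pos_of_pos_left _ (hpos q hq).1)) (RseNd23.dvd_cof hb b1 b2)
      exact hpb.le.trans h6
    · right
      have h6 := Nat.le_of_dvd (Nat.div_pos (Nat.le_of_dvd (hpos r hr).1 (Nat.gcd_dvd_left _ _))
        (Nat.gcd_pos_of_pos_left _ (hpos r hr).1)) (RseNd23.dvd_cof hb b1 b2)
      exact hpb.le.trans h6
  have hcoft : ∀ q ∈ T, ∀ r ∈ T, X.c.tg p q ≠ X.c.tg p r →
      2 ^ p ≤ cof (q / u.A) (r / u.A) ∨ 2 ^ p ≤ cof (r / u.A) (q / u.A) := by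
    intro q hq r hr hne
    rw [cof_div hA0 (hdvd q hq) (hdvd r hr), cof_div hA0 (hdvd r hr) (hdvd q hq)]
    exact hD.rse.sep p k2 hpt q (hTm q hq).2 r (hTm r hr).2 hne
  have hp2p : p ≤ 2 ^ p := Nat.lt_two_pow_self.le
  have hnone : ∀ q, (st q).isSome = false → st q = none := fun q hq => by
    rw [← Option.not_isSome_iff_eq_none, hq]; simp
  have hsomeL : ∀ q, ¬ (st q).isSome = false → ∃ σ, st q = some σ := fun q hq => by
    rw [Bool.not_eq_false] at hq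
    exact Option.isSome_iff_exists.1 hq
  set η : ℝ := Real.exp (-(Real.log p ^ (4/5:ℝ))) with hη
  have hη0 : 0 < η := Real.exp_pos _
  have hηe : etaL X.c.wp p ≤ η := etaL_le hD hk
  have hEUT : EU ⊆ TU ×ˢ TU := by
    intro e he
    obtain ⟨he1, he2⟩ := Finset.mem_filter.1 he
    obtain ⟨t1, t2⟩ := hET e he1
    have hs := hsome e he1
    exact Finset.mem_product.2 ⟨Finset.mem_filter.2 ⟨t1, he2⟩,
      Finset.mem_filter.2 ⟨t2, hs ▸ he2⟩⟩
  have hFn : ∀ e ∈ EU, F e ≤ 2 * ((RB X u e.1 * RB X u e.2) / DA u.A (RB X u) e) *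
      (2 * (η * DA u.A (RB X u) e) + 1) := by
    intro e he
    obtain ⟨he1, he2⟩ := Finset.mem_filter.1 he
    obtain ⟨t1, t2⟩ := hET e he1
    exact F_none_T h hTix hpt hlam (hTm _ t1).1 (hTm _ t2).1 hηe (hnone _ he2)
      (hnone _ (hsome e he1 ▸ he2))
  have hFs : ∀ e ∈ E, ¬ (st e.1).isSome = false →
      F e ≤ 2 * ((RB X u e.1 * RB X u e.2) / DA u.A (RB X u) e) := by
    intro e he he4
    obtain ⟨t1, t2⟩ := hET e he
    obtain ⟨σ, hσ⟩ := hsomeL _ he4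
    obtain ⟨σ', hσ'⟩ := hsomeL e.2 (hsome e he ▸ he4)
    exact F_some_T h hTix hpt hlam (hTm _ t1).1 (hTm _ t2).1 hσ hσ'
  -- relation of the unlabelled pairs
  have hrelN : ∀ e ∈ EU, ∀ (j j' : X.c.Lam) (y z z' : ℝ) (a a' : ℤ),
      PtI X A u τ (RI X Y p m) e j j' y z z' a a' →
      |((a:ℝ) + u.B * X.c.γ) * (cof (e.2 / u.A) (e.1 / u.A) : ℕ) -
        (a' + u.B * X.c.γ) * (cof (e.1 / u.A) (e.2 / u.A) : ℕ)| ≤ η * DA u.A (RB X u) e := by
    intro e he j j' y z z' a a' k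
    obtain ⟨he1, he2⟩ := Finset.mem_filter.1 he
    have hs2 := hsome e he1
    have e1 : j.1.1 = e.1 := k.e1
    have e2 : j'.1.1 = e.2 := k.e2
    have key := rel_none h hpt hlam (hTix _ k.rc) (by rw [e1]; exact k.i1)
      (by rw [e2]; exact k.i2) (by rw [e1]; exact hnone _ he2)
      (by rw [e2]; exact hnone _ (hs2 ▸ he2)) k.l1 k.l2 k.l3 k.l4
    rw [e1, e2] at key
    refine key.trans (mul_le_mul_of_nonneg_right hηe ?_)
    unfold DA Crest.Agent.R4.AvgItem710.Dp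
    refine le_max_of_le_left ?_
    have := ((X.ok.rad Y).pos e.1).le
    positivity
  have hκ3 : 0 < κ / 3 := by positivity
  -- exact relation of the labelled pairs with different retained parts
  have hrelL : ∀ e ∈ EL, ∃ (σ σ' : ℚ) (a a' : ℤ), st e.1 = some σ ∧ st e.2 = some σ' ∧
      ((a:ℝ) + ((u.B * σ : ℚ) : ℝ)) * (cof (e.2 / u.A) (e.1 / u.A) : ℕ) =
        (a' + ((u.B * σ' : ℚ) : ℝ)) * (cof (e.1 / u.A) (e.2 / u.A) : ℕ) ∧
      p ≤ LL207.Zc ((u.B : ℚ) * σ) ((u.B : ℚ) * σ') ∧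
      ((u.B : ℚ) * σ) ≠ ((u.B : ℚ) * σ') := by
    intro e he
    obtain ⟨he1, he2⟩ := Finset.mem_filter.1 he
    obtain ⟨he3, he4⟩ := Finset.mem_filter.1 he1
    have hs2 := hsome e he3
    obtain ⟨σ, hσ⟩ := hsomeL _ he4
    obtain ⟨σ', hσ'⟩ := hsomeL e.2 (hs2 ▸ he4)
    obtain ⟨t1, t2⟩ := hET e he3
    obtain ⟨j, j', y, z, z', a, a', k⟩ := hPt e he3
    have e1 : j.1.1 = e.1 := k.e1
    have e2 : j'.1.1 = e.2 := k.e2
    obtain ⟨x1, x2⟩ := rel_some h hpt hlam (hTix _ k.rc) (by rw [e1]; exact k.i1)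
      (by rw [e2]; exact k.i2) (by rw [e1]; exact hσ) (by rw [e2]; exact hσ') k.l1 k.l2 k.l3 k.l4
    rw [e1, e2] at x1 x2
    have hcop : Nat.Coprime (cof (e.1 / u.A) (e.2 / u.A)) (cof (e.2 / u.A) (e.1 / u.A)) :=
      cof_coprime (hpos _ t1).1
    refine ⟨σ, σ', a, a', hσ, hσ', x2, ?_⟩
    obtain ⟨b, hb, hpb, hh⟩ := sepK hk k.i1 k.i2 he2
    rcases hh with ⟨b0, b1, b2⟩ | ⟨b0, b1, b2⟩
    · have hden : b ∣ ((u.B : ℚ) * σ').den :=
        alive_denT h k.i1 hσ b0 hpb.le b1 k.o1 b2 x1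
      have := RseAr23.Zc_of_exact hb (RseNd23.dvd_cof hb b1 b2) hcop ((u.B : ℚ) * σ)
        ((u.B : ℚ) * σ') x2 hden
      exact ⟨hpb.le.trans this.1, this.2⟩
    · have hden : b ∣ ((u.B : ℚ) * σ).den :=
        alive_denT h k.i2 hσ' b0 hpb.le b1 k.o2 b2 x1.symm
      have := RseAr23.Zc_of_exact' hb (RseNd23.dvd_cof hb b1 b2) hcop ((u.B : ℚ) * σ)
        ((u.B : ℚ) * σ') x2 hden
      exact ⟨hpb.le.trans this.1, this.2⟩
  have hELT : EL ⊆ TL ×ˢ TL := by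
    intro e he
    obtain ⟨he1, he2⟩ := Finset.mem_filter.1 he
    obtain ⟨he3, he4⟩ := Finset.mem_filter.1 he1
    obtain ⟨t1, t2⟩ := hET e he3
    have hs := hsome e he3
    rw [Bool.not_eq_false] at he4
    exact Finset.mem_product.2 ⟨Finset.mem_filter.2 ⟨t1, he4⟩,
      Finset.mem_filter.2 ⟨t2, hs ▸ he4⟩⟩
  have hFL : ∀ e ∈ EL, F e ≤ 2 * ((RB X u e.1 * RB X u e.2) / DA u.A (RB X u) e) := by
    intro e he
    obtain ⟨he1, he2⟩ := Finset.mem_filter.1 he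
    obtain ⟨he3, he4⟩ := Finset.mem_filter.1 he1
    exact hFs e he3 he4
  -- unlabelled pairs
  have hEUle : ∑ e ∈ EU, F e ≤ κ / 3 * ∑ q ∈ TU, wA u.A (RB X u) q := by
    rcases hk.B with hB | hB
    · have hsqp : (p:ℝ) ^ (1/2:ℝ) * (p:ℝ) ^ (1/2:ℝ) = p := by
        rw [← Real.rpow_add hpR]; norm_num
      have hsq0 : 0 < (p:ℝ) ^ (1/2:ℝ) := Real.rpow_pos_of_pos hpR _
      have hsq1 : 1 ≤ (p:ℝ) ^ (1/2:ℝ) := Real.one_le_rpow hpR1 (by norm_num)
      have hinv : (p:ℝ) ^ (-(1/2:ℝ)) * (p:ℝ) ^ (1/2:ℝ) = 1 := by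
        rw [← Real.rpow_add hpR]; norm_num
      have hηp' : (p:ℝ) ^ (1/2:ℝ) ≤ η * p := by
        have e1 : η * Real.exp (Real.log p ^ (4/5:ℝ)) = 1 := by
          rw [hη, ← Real.exp_add]; simp
        calc (p:ℝ) ^ (1/2:ℝ) = (η * Real.exp (Real.log p ^ (4/5:ℝ))) * (p:ℝ) ^ (1/2:ℝ) := by
              rw [e1, one_mul]
          _ = η * (Real.exp (Real.log p ^ (4/5:ℝ)) * (p:ℝ) ^ (1/2:ℝ)) := by ring
          _ ≤ η * ((p:ℝ) ^ (1/2:ℝ) * (p:ℝ) ^ (1/2:ℝ)) :=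
              mul_le_mul_of_nonneg_left (mul_le_mul_of_nonneg_right n3 hsq0.le) hη0.le
          _ = η * p := by rw [hsqp]
      refine h2 p (by omega) u.A η (u.B * X.c.γ) TU EU (RB X u) F
        (fun q hq => hdvd q (Finset.mem_filter.1 hq).1) hη0 le_rfl (hsq1.trans hηp') hEUT
        (fun q hq => hpos q (Finset.mem_filter.1 hq).1)
        (fun q hq => hlo q (Finset.mem_filter.1 hq).1)
        (fun z hz q hq => htame z hz q (Finset.mem_filter.1 hq).1)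
        ((hsub TU (Finset.filter_subset _ _)).trans hM2) ?_ hFn ?_ ?_
      · intro e he
        obtain ⟨he1, he2⟩ := Finset.mem_filter.1 he
        obtain ⟨t1, t2⟩ := hET e he1
        rcases hdis e he1 with hd' | hd'
        · exact hcofr _ t1 _ t2 hd'
        · rcases hcoft _ t1 _ t2 hd' with h6 | h6
          · exact Or.inl (hp2p.trans h6)
          · exact Or.inr (hp2p.trans h6)
      · intro e he _
        obtain ⟨j, j', y, z, z', a, a', k⟩ := hPt e (Finset.mem_filter.1 he).1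
        exact ⟨a, a', hrelN e he j j' y z z' a a' k⟩
      · intro q hq hthin ρ
        obtain ⟨hq1, hq2⟩ := Finset.mem_filter.1 hq
        have hR : RB X u q = v.B * X.c.r q := by rw [RB_al hq1, hB]
        have hθ : (u.B : ℝ) * X.c.γ = v.B * X.c.γ := by rw [hB]
        rw [hR, hθ]
        refine st_noneB hk.hv.nd X.tOk hk.lV (hk.sub (hTm q hq1).1) hlam (hnone _ hq2) ?_ ρ
        rw [← hR]
        refine le_trans ?_ hthr
        have hR0 := (hpos q hq1).2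
        have h7 : RB X u q * (p:ℝ) ^ (1/2:ℝ) ≤ 1 :=
          (mul_le_mul_of_nonneg_left hηp' hR0.le).trans hthin
        calc RB X u q = RB X u q * ((p:ℝ) ^ (-(1/2:ℝ)) * (p:ℝ) ^ (1/2:ℝ)) := by
              rw [hinv, mul_one]
          _ = (RB X u q * (p:ℝ) ^ (1/2:ℝ)) * (p:ℝ) ^ (-(1/2:ℝ)) := by ring
          _ ≤ 1 * (p:ℝ) ^ (-(1/2:ℝ)) :=
              mul_le_mul_of_nonneg_right h7 (Real.rpow_nonneg hpR.le _)
          _ = _ := one_mul _
    · -- the missing child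
      have hp0' : (p : ℝ) ≠ 0 := hpR.ne'
      have hBR : (u.B : ℝ) = v.B * p := by rw [hB]; push_cast; rfl
      have eθ : (u.B : ℝ) * X.c.γ / (p : ℝ) = v.B * X.c.γ := by
        rw [hBR]; field_simp
      have eRp : ∀ q ∈ T, RB X u q / (p : ℝ) = v.B * X.c.r q := by
        intro q hq
        rw [RB_al hq, hBR]; field_simp
      refine (h6 p m (by omega) g4 k1 u.A (u.B * X.c.γ) η (thK X u τ) TU EU (RB X u) F
        (fun q => (stK X τ q).map fun σ => (u.B : ℚ) * σ)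
        (fun q hq => hdvd q (Finset.mem_filter.1 hq).1) hη0 le_rfl (h9 p (by omega)) ?_ hEUT
        (fun e he => hne e (Finset.mem_filter.1 he).1)
        (fun q hq => hpos q (Finset.mem_filter.1 hq).1)
        (fun q hq => hlo q (Finset.mem_filter.1 hq).1)
        (fun z hz q hq => htame z hz q (Finset.mem_filter.1 hq).1)
        ((hsub TU (Finset.filter_subset _ _)).trans hM2) (fun e _ => hF0 e) hFn ?_ ?_ ?_ ?_).trans
        (mul_le_mul_of_nonneg_right (h8 p (by omega)).1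
          (Finset.sum_nonneg fun q hq => hwA0 q (Finset.mem_filter.1 hq).1))
      · rw [thK_node hl]
        exact hD.rse.thr _ g2
      · intro e he
        have he1 := (Finset.mem_filter.1 he).1
        obtain ⟨j, j', y, z, z', a, a', k⟩ := hPt e he1
        refine ⟨a, a', hrelN e he j j' y z z' a a' k, fun ρ h11 h12 hex => ?_⟩
        obtain ⟨t1, t2⟩ := hET e he1
        obtain ⟨σ, hσ, r1⟩ := map_some h11
        obtain ⟨σ', hσ', r2⟩ := map_some h12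
        have m1 : u.A * (e.1 / u.A) = e.1 := Nat.mul_div_cancel' (hdvd _ t1)
        have m2 : u.A * (e.2 / u.A) = e.2 := Nat.mul_div_cancel' (hdvd _ t2)
        have w1 := (hpos _ t1).1
        have w2 := (hpos _ t2).1
        have g11 : ((a:ℝ) + ρ) * ((e.2 / u.A : ℕ):ℝ) = (a' + ρ) * ((e.1 / u.A : ℕ):ℝ) :=
          ex_mul (A' := 1) w1 hex
        have hix : ixK X u τ e.1 z = ixK X u τ e.2 z' := by
          refine ixK_same (W := e.1 / u.A) (W' := e.2 / u.A) hA0 h.B_pos w1 w2 m1.symm m2.symm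
            k.hz k.hz' hσ hσ' ?_
          have w1' : ((e.1 / u.A : ℕ) : ℝ) ≠ 0 := by exact_mod_cast w1.ne'
          have w2' : ((e.2 / u.A : ℕ) : ℝ) ≠ 0 := by exact_mod_cast w2.ne'
          have e5 : (ρ:ℝ) = u.B * σ := by rw [r1]; push_cast; ring
          have e6 : (ρ:ℝ) = u.B * σ' := by rw [r2]; push_cast; ring
          rw [← e5, ← e6, div_eq_div_iff w1' w2']
          exact g11
        apply (mem_RI.1 k.rc).2
        have hle : m ≤ top X.S := g4.trans hpt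
        unfold ixK at hix
        rw [wpK_node hl, stK_node hl, stK_node hl, hlv] at hix
        have e1 : j.1.1 = e.1 := k.e1
        have e2 : j'.1.1 = e.2 := k.e2
        rw [← e1, ← e2] at hix
        rw [X.ok.ix_point hle j k.za k.zb, X.ok.ix_point hle j' k.za' k.zb'] at hix
        exact hix
      · intro q hq ρ hR hL
        obtain ⟨hq1, hq2⟩ := Finset.mem_filter.1 hq
        rw [RB_al hq1] at hR hL
        have h11 := K_thin hD.th hk (hTm q hq1).1 hR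
        rw [h11]
        cases h12 : lab0 X.c.γ (X.c.r q) u.B with
        | none => exact absurd hL (lab0_none h12 ρ)
        | some σ =>
          have h13 := lab0_spec h.B_pos h12
          show some ((u.B : ℚ) * σ) = some ρ
          rw [Lab_uniq hL h13]
      · intro q hq ρ
        obtain ⟨hq1, hq2⟩ := Finset.mem_filter.1 hq
        have h11 := hnone _ hq2
        have h12 := (K_miss hD.th hk (hTm q hq1).1 (hTm q hq1).2 hB).2
        rw [eθ, eRp q hq1]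
        exact lab0_none (h12.symm.trans h11) ρ
      · intro hn
        rw [eθ]
        obtain ⟨q, hq⟩ := hn
        obtain ⟨hq1, hq2⟩ := Finset.mem_filter.1 hq
        exact hQ.accM hB q (hTm q hq1).1 (hTm q hq1).2
  -- labels
  have hELle : ∑ e ∈ EL, F e ≤ κ / 3 * ∑ q ∈ TL, wA u.A (RB X u) q := by
    rcases hk.B with hB | hB
    · have hK : ∀ s : ℕ, tp V < s → Real.log p ^ (N.c2 + 2) ≤ s * X.c.wp.thr s := by
        intro s hs
        have hsR : (0:ℝ) < s := by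
          have : 0 < s := by omega
          exact_mod_cast this
        have hps : (p:ℝ) ≤ s := by exact_mod_cast hs.le
        have h6 := hD.rse.thr s (k2.trans hs)
        have h7 : (s:ℝ) ^ (1/2:ℝ) = s * (s:ℝ) ^ (-(1/2:ℝ)) := by
          conv_rhs => rw [← Real.rpow_one (s:ℝ), ← Real.rpow_mul hsR.le, ← Real.rpow_add hsR]
          norm_num
        calc Real.log p ^ (N.c2 + 2) ≤ (p:ℝ) ^ (1/2:ℝ) := n5
          _ ≤ (s:ℝ) ^ (1/2:ℝ) := Real.rpow_le_rpow hpR.le hps (by norm_num)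
          _ = s * (s:ℝ) ^ (-(1/2:ℝ)) := h7
          _ ≤ s * X.c.wp.thr s := mul_le_mul_of_nonneg_left h6 hsR.le
      have hthr0 : 0 < X.c.wp.thr (tp V) := (Real.rpow_pos_of_pos hpR _).trans_le hthr
      have hK4 : 32 * (Real.log p ^ (N.c2 + 2)) ^ 4 < (tp V : ℝ) ^ 2 * X.c.wp.thr (tp V) ^ 2 := by
        refine n4.trans_le ?_
        have h7 : ((p:ℝ) ^ (-(1/2:ℝ))) ^ 2 ≤ X.c.wp.thr (tp V) ^ 2 :=
          pow_le_pow_left₀ (Real.rpow_nonneg hpR.le _) hthr 2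
        have h8 : ((p:ℝ) ^ (-(1/2:ℝ))) ^ 2 = (p:ℝ)⁻¹ := by
          rw [← Real.rpow_natCast, ← Real.rpow_mul hpR.le, ← Real.rpow_neg_one]
          norm_num
        rw [h8] at h7
        calc (p:ℝ) = (p:ℝ) ^ 2 * (p:ℝ)⁻¹ := by field_simp
          _ ≤ (p:ℝ) ^ 2 * X.c.wp.thr (tp V) ^ 2 := mul_le_mul_of_nonneg_left h7 (sq_nonneg _)
      obtain ⟨Λf, hΛ, hlab⟩ := lab_nodeB hk.hv.nd X.tOk hk.lV (wp := X.c.wp) (wpL := X.c.wpL)
        (lam := X.c.lam) (lv := X.c.lv) (γ := X.c.γ) (r := X.c.r) hK hthr0 hK4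
      refine h3 p (by omega) u.A (u.B * X.c.γ) TL EL (RB X u)
        (fun q => (u.B : ℚ) * (st q).getD 0) Λf F
        (fun q hq => hdvd q (Finset.mem_filter.1 hq).1) ?_ hELT
        (fun q hq => hpos q (Finset.mem_filter.1 hq).1)
        (fun q hq => hlo q (Finset.mem_filter.1 hq).1)
        ((hsub TL (Finset.filter_subset _ _)).trans hM2) ?_ hFL ?_
      · have : ((Λf.card : ℕ) : ℝ) ≤ 1 := by exact_mod_cast hΛ
        linarith
      · intro q hq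
        obtain ⟨hq1, hq2⟩ := Finset.mem_filter.1 hq
        obtain ⟨σ, hσ⟩ := Option.isSome_iff_exists.1 hq2
        have hcol := hk.hv.rd.col hk.lV q (hk.sub (hTm q hq1).1) (hTm q hq1).2
        rw [rr_al hq1] at hcol
        rw [hσ, Option.getD_some, RB_al hq1, hB]
        rcases hlab q (hk.sub (hTm q hq1).1) hcol σ hσ with h6 | h6
        · exact Or.inl h6
        · refine Or.inr ⟨h6.1, le_trans ?_ h6.2.le⟩
          refine le_trans ?_ hthr
          rw [← Real.rpow_neg_one]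
          exact Real.rpow_le_rpow_of_exponent_le hpR1 (by norm_num)
      · intro e he _
        obtain ⟨σ, σ', a, a', s1, s2, x2, x3, x4⟩ := hrelL e he
        rw [s1, s2, Option.getD_some, Option.getD_some]
        exact ⟨x4, by exact_mod_cast x3, a, a', x2⟩
    · have hpq : (p : ℚ) ≠ 0 := by exact_mod_cast hpR.ne'
      have hp0' : (p : ℝ) ≠ 0 := hpR.ne'
      have hBR : (u.B : ℝ) = v.B * p := by rw [hB]; push_cast; rfl
      have hBQ : (u.B : ℚ) = v.B * p := by rw [hB]; push_cast; rfl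
      have eRp : ∀ q ∈ T, RB X u q / (p : ℝ) = v.B * X.c.r q := by
        intro q hq
        rw [RB_al hq, hBR]; field_simp
      have eB : ∀ σ : ℚ, (p : ℚ) * ((v.B : ℚ) * σ) = (u.B : ℚ) * σ := by
        intro σ; rw [hBQ]; ring
      refine (h7 p (by omega) k1 u.A (v.B * X.c.γ) TL EL (RB X u)
        (fun q => (v.B : ℚ) * (st q).getD 0) F
        (fun q hq => hdvd q (Finset.mem_filter.1 hq).1) hELT
        (fun q hq => hpos q (Finset.mem_filter.1 hq).1)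
        (fun q hq => hlo q (Finset.mem_filter.1 hq).1)
        (fun q hq => hQ.hi q (hTm q (Finset.mem_filter.1 hq).1).1
          (hTm q (Finset.mem_filter.1 hq).1).2)
        ((hsub TL (Finset.filter_subset _ _)).trans hM2) ?_ ?_ hFL ?_).trans
        (mul_le_mul_of_nonneg_right (h8 p (by omega)).2
          (Finset.sum_nonneg fun q hq => hwA0 q (Finset.mem_filter.1 hq).1))
      · intro q hq
        obtain ⟨hq1, hq2⟩ := Finset.mem_filter.1 hq
        obtain ⟨σ, hσ⟩ := Option.isSome_iff_exists.1 hq2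
        have h12 := (K_miss hD.th hk (hTm q hq1).1 (hTm q hq1).2 hB).2
        rw [hσ, Option.getD_some, eRp q hq1]
        exact lab0_spec hk.hv.nd.B_pos (h12.symm.trans hσ)
      · exact hQ.badM hB q₀ (hTm q₀ hq₀).1 (hTm q₀ hq₀).2
      · intro e he _
        obtain ⟨σ, σ', a, a', s1, s2, x2, x3, x4⟩ := hrelL e he
        rw [s1, s2, Option.getD_some, Option.getD_some, eB, eB]
        refine ⟨fun h11 => x4 ?_, a, a', x2⟩
        rw [← eB, ← eB, h11]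
  -- tags
  have hETle : ∑ e ∈ ET, F e ≤ κ / 3 * ∑ q ∈ T, wA u.A (RB X u) q := by
    refine h4 p (by omega) u.A T ET (RB X u) F hdvd ?_ hpos hlo ?_ ?_ ?_
    · intro e he
      obtain ⟨he1, he2⟩ := Finset.mem_filter.1 he
      obtain ⟨he3, he4⟩ := Finset.mem_filter.1 he1
      exact Finset.mem_product.2 (hET e he3)
    · intro e he l hlp hld
      obtain ⟨he1, he2⟩ := Finset.mem_filter.1 he
      obtain ⟨he3, he4⟩ := Finset.mem_filter.1 he1
      obtain ⟨t1, t2⟩ := hET e he3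
      rw [not_not] at he2
      rcases hld with hld | hld
      · exact smoothK hk (hTm _ t1).1 (hTm _ t2).1 he2 hlp hld
      · exact smoothK hk (hTm _ t2).1 (hTm _ t1).1 he2.symm hlp hld
    · intro e he
      obtain ⟨he1, he2⟩ := Finset.mem_filter.1 he
      obtain ⟨he3, he4⟩ := Finset.mem_filter.1 he1
      obtain ⟨t1, t2⟩ := hET e he3
      rw [not_not] at he2
      exact hcoft _ t1 _ t2 ((hdis e he3).resolve_left (not_not.2 he2))
    · intro e he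
      obtain ⟨he1, he2⟩ := Finset.mem_filter.1 he
      obtain ⟨he3, he4⟩ := Finset.mem_filter.1 he1
      exact hFs e he3 he4
  rw [hsplit]
  have s1 := mul_le_mul_of_nonneg_left (hsub TU (Finset.filter_subset _ _)) hκ3.le
  have s2 := mul_le_mul_of_nonneg_left (hsub TL (Finset.filter_subset _ _)) hκ3.le
  have s3 := mul_le_mul_of_nonneg_left hM hκ.le
  linarith

end main

end Crest.Agent.R4P.RseRI17
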