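import Crest.Agent.R4P.DseD_28

/-!
R4 (S0004), powers, helper17, [W-eSHR] / M6, TgtExit, **[RI]**, part 1 (numbers): unlabelled pairs of the
missing child of a tie `p` which are not in one index of the child.

* `missU` : the energy of such pairs is at most `(log p)^(-K)` times the mass (a copy of `DseD28.dE` with
  another relation: a pair with one label `ρ` at the child and exact centres is excluded).
-/

set_option autoImplicit false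
open Finset

namespace Crest.Agent.R4P.RseRI17

open Crest.Agent.R4
open Crest.Agent.R4.HVW560 (cof wt)
open Crest.Agent.R4.InX944 (DP)
open Crest.Agent.R4.LF363 (Lab)
open Crest.Agent.R4.DensAcc33 (Accd)
open Crest.Agent.R4P.DseN23
open Crest.Agent.R4P.DseD28

set_option maxHeartbeats 1000000 in
/-- **unlabelled pairs of the missing child of a tie which are not in one index of the child** -/
theorem missU (CL C2 A K : ℝ) (hA : 0 ≤ A) : ∃ p₁ : ℕ, ∀ p m : ℕ, p₁ ≤ m → m ≤ p → p.Prime →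
    ∀ (θ η Th : ℝ) (S : Finset ℕ) (E : Finset (ℕ × ℕ)) (R : ℕ → ℝ) (F : ℕ × ℕ → ℝ)
      (s' : ℕ → Option ℚ),
    0 < η → η ≤ Real.exp (-(Real.log p ^ (4/5:ℝ))) → (p:ℝ) ^ (-(1/10):ℝ) ≤ η →
    (m:ℝ) ^ (-(1/2:ℝ)) ≤ Th →
    E ⊆ S ×ˢ S → (∀ e ∈ E, e.1 ≠ e.2) →
    (∀ w ∈ S, 0 < w ∧ 0 < R w) → (∀ w ∈ S, R w ≤ CL * Real.log p * wt R w) →
    (∀ z : ℝ, (p:ℝ)^2 ≤ z → ∀ w ∈ S, Crest.Agent.R4.ClsB.Tame z 1 w) →
    ∑ w ∈ S, wt R w ≤ Real.log p ^ C2 →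
    (∀ e ∈ E, 0 ≤ F e) →
    (∀ e ∈ E, F e ≤ 2 * ((R e.1 * R e.2) / DP R R e) * (2 * (η * DP R R e) + 1)) →
    (∀ e ∈ E, ∃ a a' : ℤ, dv θ a a' e ≤ η * DP R R e ∧
      ∀ ρ, s' e.1 = some ρ → s' e.2 = some ρ → ¬ Ex a a' ρ ρ e) →
    (∀ w ∈ S, ∀ ρ, R w ≤ Th → Lab θ (R w) ρ → s' w = some ρ) →
    (∀ w ∈ S, ∀ ρ, ¬ Lab (θ / p) (R w / p) ρ) →
    (S.Nonempty → ¬ Accd (θ / p) (Real.log p ^ A) p) →
    ∑ e ∈ E, F e ≤ Real.log p ^ (-K) * ∑ w ∈ S, wt R w := by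
  obtain ⟨p1, h1⟩ := DsD128.dNN CL C2 A K hA
  obtain ⟨p2, h2⟩ := exp45 1 0
  refine ⟨p1 + p2 + 20, fun p m hm hmp hpp θ η Th S E R F s' hη0 hη1' hη hT0 hsub hne' hpos hlo
    htame hmass hF0 hFn hlk hkthin hnl hacc => ?_⟩
  have hl := (h2 m (by omega)).1
  obtain ⟨n, hn, hlow, key⟩ := h1 p (by omega)
  have hp20 : (20:ℝ) ≤ p := by
    have : 20 ≤ p := by omega
    exact_mod_cast this
  have hp0 : (0:ℝ) < p := by linarith
  have hp1 : (1:ℝ) ≤ p := by linarith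
  have hm0 : (0:ℝ) < m := by
    have : 0 < m := by omega
    exact_mod_cast this
  refine key θ η S E R F hη0 hη1' hsub hne' hpos hlo htame hmass hF0 ?_ ?_
  · intro e he
    have := hFn e he
    rwa [← mul_assoc] at this
  intro e he _
  obtain ⟨a, a', hdv, hsame⟩ := hlk e he
  refine ⟨a, a', hdv, fun hFS => ?_⟩
  obtain ⟨m1, m2⟩ := Finset.mem_product.1 (hsub he)
  obtain ⟨q1, r1⟩ := hpos _ m1
  obtain ⟨q2, r2⟩ := hpos _ m2
  obtain ⟨t, ρ, t1, t2, t3, l1, l2, d1, n1, n2, -, hex⟩ :=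
    DsD128.FSe_spec hn hFS hη0 r1 r2 q1 q2
  have hx : Ex a a' ρ ρ e := hex a a' hdv
  have hne : S.Nonempty := ⟨_, m1⟩
  have ht400 : (2:ℝ)^400 ≤ t := (pow_le_pow_right₀ (by norm_num) hn).trans t1
  have ht0 : 0 < t := Dich579.t_pos ht400
  have ht1 : 1 ≤ t := Dich579.one_le_t ht400
  -- the radii
  obtain ⟨D1, D2⟩ := R_le_DP q1 q2 r1 r2
  have e1 : η * R e.1 ≤ t⁻¹ := by
    refine le_trans (mul_le_mul_of_nonneg_left D1 hη0.le) ?_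
    rwa [← one_div]
  have e2 : η * R e.2 ≤ t⁻¹ := by
    refine le_trans (mul_le_mul_of_nonneg_left D2 hη0.le) ?_
    rwa [← one_div]
  have hpq : (p:ℝ) ^ (1/10:ℝ) * (p:ℝ) ^ (-(1/10):ℝ) = 1 := by
    rw [← Real.rpow_add hp0]; norm_num
  have hppos : 0 < (p:ℝ) ^ (1/10:ℝ) := Real.rpow_pos_of_pos hp0 _
  have hR : ∀ r : ℝ, 0 < r → η * r ≤ t⁻¹ → r ≤ (p:ℝ) ^ (1/10:ℝ) * t⁻¹ := by
    intro r hr hrt
    calc r = (p:ℝ) ^ (1/10:ℝ) * ((p:ℝ) ^ (-(1/10):ℝ) * r) := by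
          rw [← mul_assoc, hpq, one_mul]
      _ ≤ (p:ℝ) ^ (1/10:ℝ) * (η * r) :=
          mul_le_mul_of_nonneg_left (mul_le_mul_of_nonneg_right hη hr.le) hppos.le
      _ ≤ _ := mul_le_mul_of_nonneg_left hrt hppos.le
  have hR1 := hR _ r1 e1
  have hR2 := hR _ r2 e2
  have hd0 : (0:ℝ) ≤ ρ.den := Nat.cast_nonneg _
  have d5 : (ρ.den:ℝ) ^ 5 ≤ t ^ (105/200:ℝ) := by
    calc (ρ.den:ℝ) ^ 5 ≤ (t ^ (21/200:ℝ)) ^ 5 := pow_le_pow_left₀ hd0 d1 5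
      _ = t ^ (105/200:ℝ) := by
          rw [← Real.rpow_natCast, ← Real.rpow_mul ht0.le]; norm_num
  have d5t : (ρ.den:ℝ) ^ 5 * t⁻¹ ≤ t ^ (-(95/200):ℝ) := by
    calc (ρ.den:ℝ) ^ 5 * t⁻¹ ≤ t ^ (105/200:ℝ) * t⁻¹ :=
          mul_le_mul_of_nonneg_right d5 (by positivity)
      _ = _ := by
          rw [← Real.rpow_neg_one, ← Real.rpow_add ht0]; norm_num
  -- `den^5 R`
  have d5R : ∀ r : ℝ, 0 < r → r ≤ (p:ℝ) ^ (1/10:ℝ) * t⁻¹ →
      (ρ.den:ℝ) ^ 5 * r ≤ (p:ℝ) ^ (1/10:ℝ) * t ^ (-(95/200):ℝ) := by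
    intro r hr hrt
    calc (ρ.den:ℝ) ^ 5 * r ≤ (ρ.den:ℝ) ^ 5 * ((p:ℝ) ^ (1/10:ℝ) * t⁻¹) :=
          mul_le_mul_of_nonneg_left hrt (by positivity)
      _ = (p:ℝ) ^ (1/10:ℝ) * ((ρ.den:ℝ) ^ 5 * t⁻¹) := by ring
      _ ≤ _ := mul_le_mul_of_nonneg_left d5t hppos.le
  have hη1 : η ≤ 1 := hη1'.trans (Real.exp_le_one_iff.2 (by
      have h6 : (0:ℝ) ≤ Real.log (p:ℝ) := Real.log_nonneg hp1
      have : 0 ≤ Real.log (p:ℝ) ^ (4/5:ℝ) := Real.rpow_nonneg h6 _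
      linarith))
  rcases lt_or_ge ((p:ℝ) ^ (9/5:ℝ)) t with ht | ht
  · -- thin radii: the label `ρ` is found
    have hp95 : 0 < (p:ℝ) ^ (9/5:ℝ) := Real.rpow_pos_of_pos hp0 _
    have hti : t⁻¹ ≤ (p:ℝ) ^ (-(9/5):ℝ) := by
      rw [Real.rpow_neg hp0.le]
      exact inv_anti₀ hp95 ht.le
    have hsm : (p:ℝ) ^ (1/10:ℝ) * t⁻¹ ≤ (p:ℝ) ^ (-(17/10):ℝ) := by
      calc (p:ℝ) ^ (1/10:ℝ) * t⁻¹ ≤ (p:ℝ) ^ (1/10:ℝ) * (p:ℝ) ^ (-(9/5):ℝ) :=
            mul_le_mul_of_nonneg_left hti hppos.le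
        _ = _ := by rw [← Real.rpow_add hp0]; norm_num
    have hsm1 : (p:ℝ) ^ (-(17/10):ℝ) ≤ 1 / 10 := by
      calc (p:ℝ) ^ (-(17/10):ℝ) ≤ (p:ℝ) ^ (-1:ℝ) :=
            Real.rpow_le_rpow_of_exponent_le hp1 (by norm_num)
        _ = 1 / p := by rw [Real.rpow_neg_one, one_div]
        _ ≤ 1 / 10 := one_div_le_one_div_of_le (by norm_num) (by linarith)
    have hsmT : (p:ℝ) ^ (-(17/10):ℝ) ≤ Th := by
      refine le_trans ?_ hT0
      refine (Real.rpow_le_rpow_of_exponent_le hp1 (show -(17/10:ℝ) ≤ -(1/2) by norm_num)).trans ?_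
      exact Real.rpow_le_rpow_of_nonpos hm0 (by exact_mod_cast hmp) (by norm_num)
    have hden : (p:ℝ) ^ (1/10:ℝ) * t ^ (-(95/200):ℝ) ≤ 1 := by
      have h6 : t ^ (-(95/200):ℝ) ≤ ((p:ℝ) ^ (9/5:ℝ)) ^ (-(95/200):ℝ) :=
        Real.rpow_le_rpow_of_nonpos hp95 ht.le (by norm_num)
      rw [← Real.rpow_mul hp0.le] at h6
      calc (p:ℝ) ^ (1/10:ℝ) * t ^ (-(95/200):ℝ) ≤
            (p:ℝ) ^ (1/10:ℝ) * (p:ℝ) ^ (9/5 * (-(95/200)):ℝ) :=
            mul_le_mul_of_nonneg_left h6 hppos.le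
        _ = (p:ℝ) ^ (1/10 + 9/5 * (-(95/200)):ℝ) := by rw [← Real.rpow_add hp0]
        _ ≤ 1 := Real.rpow_le_one_of_one_le_of_nonpos hp1 (by norm_num)
    have L1 : Lab θ (R e.1) ρ := DsD128.Lab_up hη0 hη1 l1 ((hR1.trans hsm).trans hsm1)
      ((d5R _ r1 hR1).trans hden)
    have L2 : Lab θ (R e.2) ρ := DsD128.Lab_up hη0 hη1 l2 ((hR2.trans hsm).trans hsm1)
      ((d5R _ r2 hR2).trans hden)
    have k1 := hkthin _ m1 ρ ((hR1.trans hsm).trans hsmT) L1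
    have k2 := hkthin _ m2 ρ ((hR2.trans hsm).trans hsmT) L2
    exact hsame ρ k1 k2 hx
  · -- `p` does not divide the numerator
    have hpn : ¬ (p : ℤ) ∣ ρ.num := by
      intro hdvd
      have hdd := den_div hpp.pos hdvd
      have hp110 : (p:ℝ) ^ (1/10:ℝ) ≤ p := by
        conv_rhs => rw [← Real.rpow_one (p:ℝ)]
        exact Real.rpow_le_rpow_of_exponent_le hp1 (by norm_num)
      have ht10 : t⁻¹ ≤ 1 / 10 := by
        rw [one_div]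
        exact inv_anti₀ (by norm_num) (Dich579.ten_le ht400)
      refine hnl _ m1 (ρ / p) ⟨by positivity, ?_, ?_, ?_⟩
      · rw [div_le_iff₀ hp0]
        calc R e.1 ≤ (p:ℝ) ^ (1/10:ℝ) * t⁻¹ := hR1
          _ ≤ p * (1 / 10) := mul_le_mul hp110 ht10 (by positivity) hp0.le
          _ = _ := by ring
      · have h6 : ((ρ / (p:ℚ)).den : ℝ) ^ 5 ≤ (ρ.den : ℝ) ^ 5 :=
          pow_le_pow_left₀ (Nat.cast_nonneg _) (by exact_mod_cast hdd) 5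
        have h7 := d5R _ r1 hR1
        have h8 : t ^ (-(95/200):ℝ) ≤ 1 := tpow ht1 (by norm_num)
        have h9 : (p:ℝ) ^ (1/10:ℝ) * t ^ (-(95/200):ℝ) ≤ p :=
          (mul_le_of_le_one_right hppos.le h8).trans hp110
        calc ((ρ / (p:ℚ)).den : ℝ) ^ 5 * (R e.1 / p) ≤ (ρ.den : ℝ) ^ 5 * (R e.1 / p) :=
              mul_le_mul_of_nonneg_right h6 (by positivity)
          _ = ((ρ.den : ℝ) ^ 5 * R e.1) / p := by ring
          _ ≤ p / p := div_le_div_of_nonneg_right (h7.trans h9) hp0.le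
          _ = 1 := div_self hp0.ne'
      · have h6 : |θ - ρ| ^ 5 ≤ R e.1 ^ 4 := by
          calc |θ - ρ| ^ 5 ≤ (t ^ (39/200:ℝ) * (η * R e.1)) ^ 5 :=
                pow_le_pow_left₀ (abs_nonneg _) n1 5
            _ = (t ^ (39/200:ℝ)) ^ 5 * (η * R e.1) * (η * R e.1) ^ 4 := by ring
            _ ≤ t * t⁻¹ * R e.1 ^ 4 := by
                have g1 : (t ^ (39/200:ℝ)) ^ 5 ≤ t := by
                  rw [← Real.rpow_natCast, ← Real.rpow_mul ht0.le]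
                  conv_rhs => rw [← Real.rpow_one t]
                  exact Real.rpow_le_rpow_of_exponent_le ht1 (by norm_num)
                have g2 : (η * R e.1) ^ 4 ≤ R e.1 ^ 4 :=
                  pow_le_pow_left₀ (by positivity) (mul_le_of_le_one_left r1.le hη1) 4
                exact mul_le_mul (mul_le_mul g1 e1 (by positivity) ht0.le) g2 (by positivity)
                  (by positivity)
            _ = R e.1 ^ 4 := by rw [mul_inv_cancel₀ ht0.ne', one_mul]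
        have h7 : θ / p - ((ρ / (p:ℚ) : ℚ) : ℝ) = (θ - ρ) / p := by
          push_cast
          ring
        rw [h7, abs_div, abs_of_pos hp0, div_pow, div_pow]
        have h8 : (p:ℝ) ^ 4 ≤ (p:ℝ) ^ 5 := pow_le_pow_right₀ hp1 (by norm_num)
        exact div_le_div₀ (by positivity) h6 (by positivity) h8
    refine hacc hne ⟨t, hlow.trans t1, ht, ρ.den, ρ.den_pos, d1, ρ.num, hpn, ?_⟩
    have hden0 : (0:ℝ) < ρ.den := by exact_mod_cast ρ.den_pos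
    have e3 : (ρ.den : ℝ) * p * (θ / p) - ρ.num = ρ.den * (θ - ρ) := by
      have a1 : (ρ:ℝ) * ρ.den = ρ.num := by exact_mod_cast Rat.mul_den_eq_num ρ
      rw [← a1]
      field_simp
    rw [e3, abs_mul, abs_of_pos hden0]
    calc (ρ.den:ℝ) * |θ - ρ| ≤ t ^ (21/200:ℝ) * (t ^ (39/200:ℝ) * (η * R e.1)) :=
          mul_le_mul d1 n1 (abs_nonneg _) (by positivity)
      _ ≤ t ^ (21/200:ℝ) * (t ^ (39/200:ℝ) * t⁻¹) := by gcongr
      _ = t ^ (-(7/10):ℝ) := by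
          rw [← Real.rpow_neg_one, ← Real.rpow_add ht0, ← Real.rpow_add ht0]; norm_num

end Crest.Agent.R4P.RseRI17
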