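import Crest.Agent.R4P.RseRI_17
import Crest.Agent.R4P.RseG2_10

/-!
R4 (S0004), powers, helper17, [W-eSHR] / M6: **the energy of the pairs with one index at the column of
the parent, different retained parts or tags there, at ANY child** (leaf or not, no condition on the
indices of the child).

* `rs_kidK` : at most `κ (log p)^(-K)` times the mass (`p` = column of the parent), for any `κ > 0`, `K`.
-/

set_option autoImplicit false
set_option linter.unusedSectionVars false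
set_option linter.unusedVariables false

open MeasureTheory Filter

namespace Crest.Agent.R4P.RseRI17

open Crest.Agent.R4P.Cnt588 Crest.Agent.R4P.Item758 Crest.Agent.R4P.W363
open Crest.Agent.R4P.Data758 Crest.Agent.R4P.LfDat734 Crest.Agent.R4P.OmSt532
open Crest.Agent.R4P.OmData532 Crest.Agent.R4P.WPex189
open Crest.Agent.R4P.Bld532 (NS All NodeOk Bk)
open Crest.Agent.R4P.Step588 (NDt ND1 ctx_NDt uq_lt)
open Crest.Agent.R4P.WalkIT579 (tp isL nodeOk_hi top_of_nodeOk)
open Crest.Agent.R4P.Skel189 Crest.Agent.R4P.RseSt23 Crest.Agent.R4P.RseNd23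
open Crest.Agent.R4P.AvgItem710
open Crest.Agent.R4P.PairR23 (iF_rel_le)
open Crest.Agent.R4.ClosL758 Crest.Agent.R4.ClosR758 Crest.Agent.R4.Tour104 Crest.Agent.R4.Fam464
open Crest.Agent.R4.Tour758 Crest.Agent.R4.Avg758 Crest.Agent.R4.ClosG758
open Crest.Agent.R4P.Frame758
open Crest.Agent.R4.Soft104 (w)
open Crest.Agent.R4.LF363 (Lab)
open Crest.Agent.R4.HVW560 (cof wt)
open Crest.Agent.R4.InX944 (DP)
open Crest.Agent.R4.ClsB (Tame)
open Crest.Agent.R4.DensAcc33 (Accd)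
open Crest.Agent.R4.AvgItem710 (Dp mul_cof mul_cof' cof_coprime exists_of_I_ne)
open Crest.Agent.R4P.StB21
open Crest.Agent.R4P.DseCh23
open Crest.Agent.R4P.DseN23
open Crest.Agent.R4P.DseKid23
open Crest.Agent.R4

/-- numbers: the two small factors, with a gain -/
lemma num_smallK (K : ℝ) {κ : ℝ} (hκ : 0 < κ) : ∃ p₁ : ℕ, ∀ p : ℕ, p₁ ≤ p →
    Real.log p ^ (-(K + 1)) ≤ κ * Real.log p ^ (-K) ∧
      (p:ℝ) ^ (-(1/40):ℝ) ≤ κ * Real.log p ^ (-K) := by
  obtain ⟨p1, h1⟩ := num_small hκ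
  obtain ⟨p2, h2⟩ := RseP24.log_le_rpow (1 / κ) K (δ := 1/40) (by norm_num)
  obtain ⟨p3, h3⟩ := num_log
  refine ⟨p1 + p2 + p3 + 1, fun p hp => ?_⟩
  have hl := h3 p (by omega)
  have hl0 : 0 < Real.log (p:ℝ) := by linarith
  have hp0 : (0:ℝ) < p := by
    have : 0 < p := by omega
    exact_mod_cast this
  have hK0 : 0 < Real.log (p:ℝ) ^ (-K) := Real.rpow_pos_of_pos hl0 _
  constructor
  · have e : Real.log (p:ℝ) ^ (-(K + 1)) = Real.log p ^ (-(1:ℝ)) * Real.log p ^ (-K) := by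
      rw [← Real.rpow_add hl0]; congr 1; ring
    rw [e]
    exact mul_le_mul_of_nonneg_right (h1 p (by omega)).1 hK0.le
  · have k2 := h2 p (by omega)
    have e1 : (p:ℝ) ^ (-(1/40):ℝ) * (p:ℝ) ^ ((1/40):ℝ) = 1 := by
      rw [← Real.rpow_add hp0]; norm_num
    have e2 : Real.log (p:ℝ) ^ K * Real.log (p:ℝ) ^ (-K) = 1 := by
      rw [← Real.rpow_add hl0]; norm_num
    have hq0 : 0 < (p:ℝ) ^ (-(1/40):ℝ) := Real.rpow_pos_of_pos hp0 _
    have k3 := mul_le_mul_of_nonneg_left k2 (mul_pos (mul_pos hκ hK0) hq0).le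
    calc (p:ℝ) ^ (-(1/40):ℝ)
        = κ * Real.log (p:ℝ) ^ (-K) * (p:ℝ) ^ (-(1/40):ℝ) * (1 / κ * Real.log (p:ℝ) ^ K) := by
          have : κ * Real.log (p:ℝ) ^ (-K) * (p:ℝ) ^ (-(1/40):ℝ) * (1 / κ * Real.log (p:ℝ) ^ K) =
            (κ * (1/κ)) * (Real.log (p:ℝ) ^ K * Real.log (p:ℝ) ^ (-K)) * (p:ℝ) ^ (-(1/40):ℝ) := by
            ring
          rw [this, e2, mul_one_div_cancel hκ.ne']
          ring
      _ ≤ κ * Real.log (p:ℝ) ^ (-K) * (p:ℝ) ^ (-(1/40):ℝ) * (p:ℝ) ^ ((1/40):ℝ) := k3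
      _ = κ * Real.log (p:ℝ) ^ (-K) := by
          rw [mul_assoc (κ * Real.log (p:ℝ) ^ (-K)), e1, mul_one]

section main
variable {N : Skel189.Num} {γ : ℝ} {p0 P₀ : ℕ}

set_option maxHeartbeats 4000000 in
/-- **the pairs with one index at the column of the parent, different retained parts or tags there, at
any child** (a leaf or not) -/
theorem rs_kidK (N : Skel189.Num) (K : ℝ) {κ A' : ℝ} (hκ : 0 < κ) (hA' : 0 ≤ A') : ∃ p₁ : ℕ, ∀ p0 ≥ p₁,
    ∀ (γ : ℝ) (P₀ : ℕ) (X : Ctx N γ p0 P₀), DH X →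
    ∀ (Y : Finset (ℕ × ℕ × Finset ℕ)) (v : NS) (V : IT) (u : NS) (τ : IT),
    Kid X v V u τ → KQ X v V u τ A' → ∀ A : Finset X.c.Lam,
      Q (RS X Y (tp V)) (Uv X Y u τ A) (Uv X Y u τ A) ≤
        (κ * Real.log (tp V) ^ (-K)) * (u.c * ∑ q ∈ al X τ A, w X.ψ q) := by
  classical
  have hB1 := N.hB
  have hC1 := N.hC1
  have hc2 := N.hc2
  have hCT := Step588.CT_pos
  have hC2 : 0 ≤ N.B + N.c2 + 3 := by linarith
  obtain ⟨p2, h2⟩ := RseG10.rseUK' (2 * Step588.CT) (N.B + N.c2 + 3) K (by positivity) hC2 (κ := κ / 3)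
    (by positivity)
  obtain ⟨p3, h3⟩ := RseG10.rseLK' (2 * Step588.CT) (N.B + N.c2 + 3) K (by positivity) hC2 (κ := κ / 3)
    (by positivity)
  obtain ⟨p4, h4⟩ := RseG10.rseTK' (2 * Step588.CT) K (by positivity) (k := κ / 3) (by positivity)
  obtain ⟨p5, h5⟩ := num_p (N.c2 + 2)
  obtain ⟨p6, h6⟩ := missU' (2 * Step588.CT) (N.B + N.c2 + 3) A' (K + 1) hA'
  obtain ⟨p7, h7⟩ := dLLM' (2 * Step588.CT) (N.B + N.c2 + 3) (by positivity) hC2
  obtain ⟨p8, h8⟩ := num_smallK K (κ := κ / 12) (by positivity)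
  obtain ⟨p9, h9⟩ := num_eta
  obtain ⟨p10, h10⟩ := num_log
  obtain ⟨p11, h11⟩ := RseG10.rseTK' (2 * Step588.CT) K (by positivity) (k := κ / 12) (by positivity)
  obtain ⟨p12, h12⟩ := exp45 (48 / κ * (2 * Step588.CT) ^ 2) (2 + (N.B + N.c2 + 3) + K)
  refine ⟨p2 + p3 + p4 + p5 + p6 + p7 + p8 + p9 + p10 + p11 + p12 + 2,
    fun p0 hp0 γ P₀ X hD Y v V u τ hk hQ A => ?_⟩
  have h := hk.hu.nd
  obtain ⟨k1, k2, k3⟩ := hk.tpV
  have hpt : tp V ≤ top X.S := hk.tpVt
  have g4 : lvl u τ ≤ tp V := hk.lvl_le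
  set p := tp V with hp
  set m := lvl u τ with hm
  obtain ⟨n1, n2, n3, n4, n5⟩ := h5 p (by omega)
  have hlp : 4 ≤ Real.log p := h10 _ (by omega)
  have hpR : (0:ℝ) < p := by exact_mod_cast (by omega : 0 < p)
  have hpR1 : (1:ℝ) ≤ p := by exact_mod_cast (by omega : 1 ≤ p)
  have hmpR : (m:ℝ) ≤ p := by exact_mod_cast g4
  have hlam := hD.rse.lam p k2 hpt
  have hdep := hD.rse.dep p k2 hpt
  have hthr := hD.rse.thr p k2
  set T : Finset ℕ := al X τ A with hT
  have hTm : ∀ q ∈ T, q ∈ τ.items ∧ q ∈ X.S' := fun q hq => al_mem hq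
  set D := X.c.D.par Y with hDd
  set F : ℕ × ℕ → ℝ := fun e => D.iF (RS X Y p) (Uv X Y u τ A) (Uv X Y u τ A) e with hF
  set E : Finset (ℕ × ℕ) := D.PE (RS X Y p) (Uv X Y u τ A) (Uv X Y u τ A) with hE
  have hET0 : E ⊆ T ×ˢ T := PE_T_sub h
  have hET : ∀ e ∈ E, e.1 ∈ T ∧ e.2 ∈ T := fun e he => Finset.mem_product.1 (hET0 he)
  rw [D.Q_eq]
  show ∑ e ∈ E, F e ≤ _
  rcases Finset.eq_empty_or_nonempty T with h0 | ⟨q₀, hq₀⟩
  · have hE0 : E = ∅ := by
      rw [Finset.eq_empty_iff_forall_notMem]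
      intro e he
      have := (hET e he).1
      rw [h0] at this
      simp at this
    rw [hE0, h0]
    simp
  have hm0 : p0 ≤ m := hk.lvl_ge (hTm q₀ hq₀).1
  have hlm : 4 ≤ Real.log m := h10 _ (by omega)
  have hmR : (0:ℝ) < m := by exact_mod_cast (by omega : 0 < m)
  have hlmp : Real.log m ≤ Real.log p := Real.log_le_log hmR hmpR
  have hA0 : 0 < u.A := h.A_pos
  have hdvd : ∀ q ∈ T, u.A ∣ q := al_dvd h
  have hpos : ∀ q ∈ T, 0 < q / u.A ∧ 0 < RB X u q := fun q hq =>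
    ⟨Nat.pos_of_ne_zero (h.div_ne (hTm q hq).1), (hQ.aq q (hTm q hq).1 (hTm q hq).2).R0⟩
  have hwA0 : ∀ q ∈ T, 0 ≤ wA u.A (RB X u) q := fun q hq => by
    unfold wA
    have := (hpos q hq).2.le
    positivity
  have hlo : ∀ q ∈ T, RB X u q ≤ 2 * Step588.CT * Real.log p * wA u.A (RB X u) q := by
    intro q hq
    have h1 := (hQ.aq q (hTm q hq).1 (hTm q hq).2).lo
    refine h1.trans (mul_le_mul_of_nonneg_right ?_ (hwA0 q hq))
    exact mul_le_mul_of_nonneg_left hlmp (by positivity)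
  have htame : ∀ z : ℝ, (p:ℝ) ^ 2 ≤ z → ∀ q ∈ T, Tame z 1 (q / u.A) := by
    intro z hz q hq
    refine (hQ.aq q (hTm q hq).1 (hTm q hq).2).tame z ?_
    exact (pow_le_pow_left₀ hmR.le hmpR 2).trans hz
  -- masses
  have hM : ∑ q ∈ T, wA u.A (RB X u) q ≤ u.c * ∑ q ∈ T, w X.ψ q := by
    rw [Finset.mul_sum]
    exact Finset.sum_le_sum fun q hq => hQ.wle q (hTm q hq).1 (hTm q hq).2
  have hM2 : ∑ q ∈ T, wA u.A (RB X u) q ≤ Real.log p ^ (N.B + N.c2 + 3) := by
    have h1 := hQ.ms ⟨q₀, (hTm q₀ hq₀).1⟩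
    refine hM.trans (le_trans ?_ (h1.trans (Real.rpow_le_rpow (by linarith) hlmp hC2)))
    refine mul_le_mul_of_nonneg_left ?_ hk.hu.c0.le
    unfold Ws
    exact Finset.sum_le_sum_of_subset_of_nonneg (fun q hq => (hTm q hq).1) fun q _ _ => X.hW q
  have hsub : ∀ T' ⊆ T, ∑ q ∈ T', wA u.A (RB X u) q ≤ ∑ q ∈ T, wA u.A (RB X u) q := fun T' hT' =>
    Finset.sum_le_sum_of_subset_of_nonneg hT' fun q hq _ => hwA0 q hq
  -- the pairs
  have hTix : ∀ x ∈ RS X Y p, (X.c.world p x.1.1).1 = (X.c.world p x.2.1).1 := fun x hx =>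
    (mem_RS.1 hx).1
  have hPt : ∀ e ∈ E, ∃ (j j' : X.c.Lam) (y z z' : ℝ) (a a' : ℤ),
      PtI X A u τ (RS X Y p) e j j' y z z' a a' := fun e he => PE_T h he
  have hdis : ∀ e ∈ E, W363.ret X.c.t p e.1 ≠ W363.ret X.c.t p e.2 ∨
      X.c.tg p e.1 ≠ X.c.tg p e.2 := by
    intro e he
    obtain ⟨j, j', y, z, z', a, a', k⟩ := hPt e he
    have h1 := (mem_RS.1 k.rc).2
    rw [← k.e1, ← k.e2]
    exact h1
  have hne : ∀ e ∈ E, e.1 ≠ e.2 := by
    intro e he heq
    rcases hdis e he with h1 | h1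
    · exact h1 (by rw [heq])
    · exact h1 (by rw [heq])
  set st : ℕ → Option ℚ := fun q => X.c.st p q with hst
  have hsome : ∀ e ∈ E, (st e.1).isSome = (st e.2).isSome := by
    intro e he
    obtain ⟨j, j', y, z, z', a, a', k⟩ := hPt e he
    have h1 := isSome_pair (X := X) hlam (hTix _ k.rc)
    have e1 : j.1.1 = e.1 := k.e1
    have e2 : j'.1.1 = e.2 := k.e2
    simp only at h1
    rw [e1, e2] at h1
    exact h1
  -- the three parts
  set TU := T.filter fun q => (st q).isSome = false with hTU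
  set TL := T.filter fun q => (st q).isSome = true with hTL
  set EU := E.filter fun e => (st e.1).isSome = false with hEU
  set EL := (E.filter fun e => ¬ (st e.1).isSome = false).filter
    (fun e => W363.ret X.c.t p e.1 ≠ W363.ret X.c.t p e.2) with hEL
  set ET := (E.filter fun e => ¬ (st e.1).isSome = false).filter
    (fun e => ¬ W363.ret X.c.t p e.1 ≠ W363.ret X.c.t p e.2) with hETd
  have hsplit : ∑ e ∈ E, F e = ∑ e ∈ EU, F e + (∑ e ∈ EL, F e + ∑ e ∈ ET, F e) := by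
    rw [Finset.sum_filter_add_sum_filter_not, Finset.sum_filter_add_sum_filter_not]
  have hF0 : ∀ e, 0 ≤ F e := by
    intro e
    have hU : ∀ (i : X.c.Lam) (t : ℝ), 0 ≤ Uv X Y u τ A i t := by
      intro i t
      have hpb := PB_rv (fun i => FT.pb h.B_pos
        ((X.c.D.par Y).toFT_Adm τ u.B u.A h.B_pos h.fit (node_wts h Y)) (one_dvd u.B) i) A i
      exact hpb.nonneg t
    exact (X.c.D.par Y).iF_nonneg _ hU hU e
  -- a cofactor of the pairs with different retained parts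
  have hcofr : ∀ q ∈ T, ∀ r ∈ T, W363.ret X.c.t p q ≠ W363.ret X.c.t p r →
      p ≤ cof (q / u.A) (r / u.A) ∨ p ≤ cof (r / u.A) (q / u.A) := by
    intro q hq r hr hne
    obtain ⟨b, hb, hpb, hh⟩ := sepK hk (hTm q hq).1 (hTm r hr).1 hne
    rcases hh with ⟨-, b1, b2⟩ | ⟨-, b1, b2⟩
    · left
      have h6 := Nat.le_of_dvd (Nat.div_pos (Nat.le_of_dvd (hpos q hq).1 (Nat.gcd_dvd_left _ _))
        (Nat.gcd_pos_of_pos_left _ (hpos q hq).1)) (RseNd23.dvd_cof hb b1 b2)
      exact hpb.le.trans h6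
    · right
      have h6 := Nat.le_of_dvd (Nat.div_pos (Nat.le_of_dvd (hpos r hr).1 (Nat.gcd_dvd_left _ _))
        (Nat.gcd_pos_of_pos_left _ (hpos r hr).1)) (RseNd23.dvd_cof hb b1 b2)
      exact hpb.le.trans h6
  have hcoft : ∀ q ∈ T, ∀ r ∈ T, X.c.tg p q ≠ X.c.tg p r →
      2 ^ p ≤ cof (q / u.A) (r / u.A) ∨ 2 ^ p ≤ cof (r / u.A) (q / u.A) := by
    intro q hq r hr hne
    rw [cof_div hA0 (hdvd q hq) (hdvd r hr), cof_div hA0 (hdvd r hr) (hdvd q hq)]
    exact hD.rse.sep p k2 hpt q (hTm q hq).2 r (hTm r hr).2 hne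
  have hp2p : p ≤ 2 ^ p := Nat.lt_two_pow_self.le
  have hnone : ∀ q, (st q).isSome = false → st q = none := fun q hq => by
    rw [← Option.not_isSome_iff_eq_none, hq]; simp
  have hsomeL : ∀ q, ¬ (st q).isSome = false → ∃ σ, st q = some σ := fun q hq => by
    rw [Bool.not_eq_false] at hq
    exact Option.isSome_iff_exists.1 hq
  set η : ℝ := Real.exp (-(Real.log p ^ (4/5:ℝ))) with hη
  have hη0 : 0 < η := Real.exp_pos _
  have hηe : etaL X.c.wp p ≤ η := etaL_le hD hk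
  have hEUT : EU ⊆ TU ×ˢ TU := by
    intro e he
    obtain ⟨he1, he2⟩ := Finset.mem_filter.1 he
    obtain ⟨t1, t2⟩ := hET e he1
    have hs := hsome e he1
    exact Finset.mem_product.2 ⟨Finset.mem_filter.2 ⟨t1, he2⟩,
      Finset.mem_filter.2 ⟨t2, hs ▸ he2⟩⟩
  have hFn : ∀ e ∈ EU, F e ≤ 2 * ((RB X u e.1 * RB X u e.2) / DA u.A (RB X u) e) *
      (2 * (η * DA u.A (RB X u) e) + 1) := by
    intro e he
    obtain ⟨he1, he2⟩ := Finset.mem_filter.1 he
    obtain ⟨t1, t2⟩ := hET e he1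
    exact F_none_T h hTix hpt hlam (hTm _ t1).1 (hTm _ t2).1 hηe (hnone _ he2)
      (hnone _ (hsome e he1 ▸ he2))
  have hFs : ∀ e ∈ E, ¬ (st e.1).isSome = false →
      F e ≤ 2 * ((RB X u e.1 * RB X u e.2) / DA u.A (RB X u) e) := by
    intro e he he4
    obtain ⟨t1, t2⟩ := hET e he
    obtain ⟨σ, hσ⟩ := hsomeL _ he4
    obtain ⟨σ', hσ'⟩ := hsomeL e.2 (hsome e he ▸ he4)
    exact F_some_T h hTix hpt hlam (hTm _ t1).1 (hTm _ t2).1 hσ hσ'
  -- relation of the unlabelled pairs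
  have hrelN : ∀ e ∈ EU, ∀ (j j' : X.c.Lam) (y z z' : ℝ) (a a' : ℤ),
      PtI X A u τ (RS X Y p) e j j' y z z' a a' →
      |((a:ℝ) + u.B * X.c.γ) * (cof (e.2 / u.A) (e.1 / u.A) : ℕ) -
        (a' + u.B * X.c.γ) * (cof (e.1 / u.A) (e.2 / u.A) : ℕ)| ≤ η * DA u.A (RB X u) e := by
    intro e he j j' y z z' a a' k
    obtain ⟨he1, he2⟩ := Finset.mem_filter.1 he
    have hs2 := hsome e he1
    have e1 : j.1.1 = e.1 := k.e1
    have e2 : j'.1.1 = e.2 := k.e2
    have key := rel_none h hpt hlam (hTix _ k.rc) (by rw [e1]; exact k.i1)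
      (by rw [e2]; exact k.i2) (by rw [e1]; exact hnone _ he2)
      (by rw [e2]; exact hnone _ (hs2 ▸ he2)) k.l1 k.l2 k.l3 k.l4
    rw [e1, e2] at key
    refine key.trans (mul_le_mul_of_nonneg_right hηe ?_)
    unfold DA Crest.Agent.R4.AvgItem710.Dp
    refine le_max_of_le_left ?_
    have := ((X.ok.rad Y).pos e.1).le
    positivity
  have hlp0 : 0 < Real.log p := by linarith
  set G : ℝ := Real.log p ^ (-K) with hGd
  have hG0 : 0 < G := Real.rpow_pos_of_pos hlp0 _
  have hκ3 : 0 < κ / 3 * G := by positivity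
  -- exact relation of the labelled pairs with different retained parts
  have hrelL : ∀ e ∈ EL, ∃ (σ σ' : ℚ) (a a' : ℤ), st e.1 = some σ ∧ st e.2 = some σ' ∧
      ((a:ℝ) + ((u.B * σ : ℚ) : ℝ)) * (cof (e.2 / u.A) (e.1 / u.A) : ℕ) =
        (a' + ((u.B * σ' : ℚ) : ℝ)) * (cof (e.1 / u.A) (e.2 / u.A) : ℕ) ∧
      p ≤ LL207.Zc ((u.B : ℚ) * σ) ((u.B : ℚ) * σ') ∧
      ((u.B : ℚ) * σ) ≠ ((u.B : ℚ) * σ') := by
    intro e he
    obtain ⟨he1, he2⟩ := Finset.mem_filter.1 he
    obtain ⟨he3, he4⟩ := Finset.mem_filter.1 he1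
    have hs2 := hsome e he3
    obtain ⟨σ, hσ⟩ := hsomeL _ he4
    obtain ⟨σ', hσ'⟩ := hsomeL e.2 (hs2 ▸ he4)
    obtain ⟨t1, t2⟩ := hET e he3
    obtain ⟨j, j', y, z, z', a, a', k⟩ := hPt e he3
    have e1 : j.1.1 = e.1 := k.e1
    have e2 : j'.1.1 = e.2 := k.e2
    obtain ⟨x1, x2⟩ := rel_some h hpt hlam (hTix _ k.rc) (by rw [e1]; exact k.i1)
      (by rw [e2]; exact k.i2) (by rw [e1]; exact hσ) (by rw [e2]; exact hσ') k.l1 k.l2 k.l3 k.l4
    rw [e1, e2] at x1 x2
    have hcop : Nat.Coprime (cof (e.1 / u.A) (e.2 / u.A)) (cof (e.2 / u.A) (e.1 / u.A)) :=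
      cof_coprime (hpos _ t1).1
    refine ⟨σ, σ', a, a', hσ, hσ', x2, ?_⟩
    obtain ⟨b, hb, hpb, hh⟩ := sepK hk k.i1 k.i2 he2
    rcases hh with ⟨b0, b1, b2⟩ | ⟨b0, b1, b2⟩
    · have hden : b ∣ ((u.B : ℚ) * σ').den :=
        alive_denT h k.i1 hσ b0 hpb.le b1 k.o1 b2 x1
      have := RseAr23.Zc_of_exact hb (RseNd23.dvd_cof hb b1 b2) hcop ((u.B : ℚ) * σ)
        ((u.B : ℚ) * σ') x2 hden
      exact ⟨hpb.le.trans this.1, this.2⟩
    · have hden : b ∣ ((u.B : ℚ) * σ).den :=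
        alive_denT h k.i2 hσ' b0 hpb.le b1 k.o2 b2 x1.symm
      have := RseAr23.Zc_of_exact' hb (RseNd23.dvd_cof hb b1 b2) hcop ((u.B : ℚ) * σ)
        ((u.B : ℚ) * σ') x2 hden
      exact ⟨hpb.le.trans this.1, this.2⟩
  have hELT : EL ⊆ TL ×ˢ TL := by
    intro e he
    obtain ⟨he1, he2⟩ := Finset.mem_filter.1 he
    obtain ⟨he3, he4⟩ := Finset.mem_filter.1 he1
    obtain ⟨t1, t2⟩ := hET e he3
    have hs := hsome e he3
    rw [Bool.not_eq_false] at he4
    exact Finset.mem_product.2 ⟨Finset.mem_filter.2 ⟨t1, he4⟩,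
      Finset.mem_filter.2 ⟨t2, hs ▸ he4⟩⟩
  have hFL : ∀ e ∈ EL, F e ≤ 2 * ((RB X u e.1 * RB X u e.2) / DA u.A (RB X u) e) := by
    intro e he
    obtain ⟨he1, he2⟩ := Finset.mem_filter.1 he
    obtain ⟨he3, he4⟩ := Finset.mem_filter.1 he1
    exact hFs e he3 he4
  -- unlabelled pairs
  have hEUle : ∑ e ∈ EU, F e ≤ (κ / 3 * G) * ∑ q ∈ T, wA u.A (RB X u) q := by
    rcases hk.B with hB | hB
    · have hsqp : (p:ℝ) ^ (1/2:ℝ) * (p:ℝ) ^ (1/2:ℝ) = p := by
        rw [← Real.rpow_add hpR]; norm_num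
      have hsq0 : 0 < (p:ℝ) ^ (1/2:ℝ) := Real.rpow_pos_of_pos hpR _
      have hsq1 : 1 ≤ (p:ℝ) ^ (1/2:ℝ) := Real.one_le_rpow hpR1 (by norm_num)
      have hinv : (p:ℝ) ^ (-(1/2:ℝ)) * (p:ℝ) ^ (1/2:ℝ) = 1 := by
        rw [← Real.rpow_add hpR]; norm_num
      have hηp' : (p:ℝ) ^ (1/2:ℝ) ≤ η * p := by
        have e1 : η * Real.exp (Real.log p ^ (4/5:ℝ)) = 1 := by
          rw [hη, ← Real.exp_add]; simp
        calc (p:ℝ) ^ (1/2:ℝ) = (η * Real.exp (Real.log p ^ (4/5:ℝ))) * (p:ℝ) ^ (1/2:ℝ) := by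
              rw [e1, one_mul]
          _ = η * (Real.exp (Real.log p ^ (4/5:ℝ)) * (p:ℝ) ^ (1/2:ℝ)) := by ring
          _ ≤ η * ((p:ℝ) ^ (1/2:ℝ) * (p:ℝ) ^ (1/2:ℝ)) :=
              mul_le_mul_of_nonneg_left (mul_le_mul_of_nonneg_right n3 hsq0.le) hη0.le
          _ = η * p := by rw [hsqp]
      refine le_trans ?_ (mul_le_mul_of_nonneg_left (hsub TU (Finset.filter_subset _ _)) hκ3.le)
      refine h2 p (by omega) u.A η (u.B * X.c.γ) TU EU (RB X u) F
        (fun q hq => hdvd q (Finset.mem_filter.1 hq).1) hη0 le_rfl (hsq1.trans hηp') hEUT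
        (fun q hq => hpos q (Finset.mem_filter.1 hq).1)
        (fun q hq => hlo q (Finset.mem_filter.1 hq).1)
        (fun z hz q hq => htame z hz q (Finset.mem_filter.1 hq).1)
        ((hsub TU (Finset.filter_subset _ _)).trans hM2) ?_ hFn ?_ ?_
      · intro e he
        obtain ⟨he1, he2⟩ := Finset.mem_filter.1 he
        obtain ⟨t1, t2⟩ := hET e he1
        rcases hdis e he1 with hd' | hd'
        · exact hcofr _ t1 _ t2 hd'
        · rcases hcoft _ t1 _ t2 hd' with h6 | h6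
          · exact Or.inl (hp2p.trans h6)
          · exact Or.inr (hp2p.trans h6)
      · intro e he _
        obtain ⟨j, j', y, z, z', a, a', k⟩ := hPt e (Finset.mem_filter.1 he).1
        exact ⟨a, a', hrelN e he j j' y z z' a a' k⟩
      · intro q hq hthin ρ
        obtain ⟨hq1, hq2⟩ := Finset.mem_filter.1 hq
        have hR : RB X u q = v.B * X.c.r q := by rw [RB_al hq1, hB]
        have hθ : (u.B : ℝ) * X.c.γ = v.B * X.c.γ := by rw [hB]
        rw [hR, hθ]
        refine st_noneB hk.hv.nd X.tOk hk.lV (hk.sub (hTm q hq1).1) hlam (hnone _ hq2) ?_ ρ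
        rw [← hR]
        refine le_trans ?_ hthr
        have hR0 := (hpos q hq1).2
        have h7 : RB X u q * (p:ℝ) ^ (1/2:ℝ) ≤ 1 :=
          (mul_le_mul_of_nonneg_left hηp' hR0.le).trans hthin
        calc RB X u q = RB X u q * ((p:ℝ) ^ (-(1/2:ℝ)) * (p:ℝ) ^ (1/2:ℝ)) := by
              rw [hinv, mul_one]
          _ = (RB X u q * (p:ℝ) ^ (1/2:ℝ)) * (p:ℝ) ^ (-(1/2:ℝ)) := by ring
          _ ≤ 1 * (p:ℝ) ^ (-(1/2:ℝ)) :=
              mul_le_mul_of_nonneg_right h7 (Real.rpow_nonneg hpR.le _)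
          _ = _ := one_mul _
    · -- the missing child
      have hp0' : (p : ℝ) ≠ 0 := hpR.ne'
      have hBR : (u.B : ℝ) = v.B * p := by rw [hB]; push_cast; rfl
      have eθ : (u.B : ℝ) * X.c.γ / (p : ℝ) = v.B * X.c.γ := by
        rw [hBR]; field_simp
      have eRp : ∀ q ∈ T, RB X u q / (p : ℝ) = v.B * X.c.r q := by
        intro q hq
        rw [RB_al hq, hBR]; field_simp
      set ER := EU.filter (fun e => W363.ret X.c.t p e.1 ≠ W363.ret X.c.t p e.2) with hERd
      set EG := EU.filter (fun e => ¬ W363.ret X.c.t p e.1 ≠ W363.ret X.c.t p e.2) with hEGd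
      have hsp : ∑ e ∈ EU, F e = ∑ e ∈ ER, F e + ∑ e ∈ EG, F e := by
        rw [Finset.sum_filter_add_sum_filter_not]
      have hMU0 : 0 ≤ ∑ q ∈ TU, wA u.A (RB X u) q :=
        Finset.sum_nonneg fun q hq => hwA0 q (Finset.mem_filter.1 hq).1
      -- different retained parts
      have hER : ∑ e ∈ ER, F e ≤ (κ / 12 * G) * ∑ q ∈ TU, wA u.A (RB X u) q := by
        refine (h6 p m (by omega) g4 k1 u.A (u.B * X.c.γ) η (thK X u τ) TU ER (RB X u) F
          (fun q => (stK X τ q).map fun σ => (u.B : ℚ) * σ)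
          (fun q hq => hdvd q (Finset.mem_filter.1 hq).1) hη0 le_rfl (h9 p (by omega)) ?_
          ((Finset.filter_subset _ _).trans hEUT)
          (fun e he => hne e (Finset.mem_filter.1 (Finset.mem_filter.1 he).1).1)
          (fun q hq => hpos q (Finset.mem_filter.1 hq).1)
          (fun q hq => hlo q (Finset.mem_filter.1 hq).1)
          (fun z hz q hq => htame z hz q (Finset.mem_filter.1 hq).1)
          ((hsub TU (Finset.filter_subset _ _)).trans hM2) (fun e _ => hF0 e)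
          (fun e he => hFn e (Finset.mem_filter.1 he).1) ?_ ?_ ?_ ?_).trans
          (mul_le_mul_of_nonneg_right (h8 p (by omega)).1 hMU0)
        · by_cases hl : isL τ
          · obtain ⟨S, rfl⟩ := isL_iff.1 hl
            rw [thK_leaf]
            exact hD.thrL0 _ hm0
          · rw [thK_node hl, hm, lvl_node hl]
            exact hD.rse.thr _ (hk.node hl).2.1
        · intro e he
          obtain ⟨heU, hret⟩ := Finset.mem_filter.1 he
          have he1 := (Finset.mem_filter.1 heU).1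
          obtain ⟨j, j', y, z, z', a, a', k⟩ := hPt e he1
          refine ⟨a, a', hrelN e heU j j' y z z' a a' k, fun ρ h11' h12' hex => ?_⟩
          obtain ⟨t1, t2⟩ := hET e he1
          obtain ⟨σ, hσ, r1⟩ := map_some h11'
          obtain ⟨σ', hσ', r2⟩ := map_some h12'
          have w1 := (hpos _ t1).1
          have w2 := (hpos _ t2).1
          have g11 : ((a:ℝ) + ρ) * ((e.2 / u.A : ℕ):ℝ) = (a' + ρ) * ((e.1 / u.A : ℕ):ℝ) :=
            ex_mul (A' := 1) w1 hex
          have hcop : Nat.Coprime (cof (e.1 / u.A) (e.2 / u.A)) (cof (e.2 / u.A) (e.1 / u.A)) :=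
            cof_coprime w1
          obtain ⟨b, hb, hpb, hh⟩ := sepK hk k.i1 k.i2 hret
          have hmb : lvl u τ < b := lt_of_le_of_lt g4 hpb
          rcases hh with ⟨b0, b1, b2⟩ | ⟨b0, b1, b2⟩
          · have hden : b ∣ ρ.den := kid_alive hk k.i1 hσ hb hmb b1 k.o1 b2 (a' := a')
              (by rw [← r1]; exact g11)
            exact (RseAr23.Zc_of_exact hb (RseNd23.dvd_cof hb b1 b2) hcop ρ ρ hex hden).2 rfl
          · have hden : b ∣ ρ.den := kid_alive hk k.i2 hσ' hb hmb b1 k.o2 b2 (a' := a)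
              (by rw [← r2]; exact g11.symm)
            exact (RseAr23.Zc_of_exact' hb (RseNd23.dvd_cof hb b1 b2) hcop ρ ρ hex hden).2 rfl
        · intro q hq ρ hR hL
          obtain ⟨hq1, hq2⟩ := Finset.mem_filter.1 hq
          rw [RB_al hq1] at hR hL
          have h11 := K_thin hD.th hk (hTm q hq1).1 hR
          rw [h11]
          cases h12 : lab0 X.c.γ (X.c.r q) u.B with
          | none => exact absurd hL (lab0_none h12 ρ)
          | some σ =>
            have h13 := lab0_spec h.B_pos h12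
            show some ((u.B : ℚ) * σ) = some ρ
            rw [Lab_uniq hL h13]
        · intro q hq ρ
          obtain ⟨hq1, hq2⟩ := Finset.mem_filter.1 hq
          have h11 := hnone _ hq2
          have h12 := (K_miss hD.th hk (hTm q hq1).1 (hTm q hq1).2 hB).2
          rw [eθ, eRp q hq1]
          exact lab0_none (h12.symm.trans h11) ρ
        · intro hn
          rw [eθ]
          obtain ⟨q, hq⟩ := hn
          obtain ⟨hq1, hq2⟩ := Finset.mem_filter.1 hq
          exact hQ.accM hB q (hTm q hq1).1 (hTm q hq1).2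
      -- tags
      have hEG : ∑ e ∈ EG, F e ≤ (κ / 6 * G) * ∑ q ∈ T, wA u.A (RB X u) q := by
        have hEGT : EG ⊆ T ×ˢ T := fun e he => hET0 (Finset.mem_filter.1
          (Finset.mem_filter.1 he).1).1
        have hDA0 : ∀ e ∈ EG, 0 < DA u.A (RB X u) e := by
          intro e he
          obtain ⟨t1, t2⟩ := Finset.mem_product.1 (hEGT he)
          have h13 := hpos _ t1
          have h14 := hpos _ t2
          unfold DA Crest.Agent.R4.AvgItem710.Dp
          refine lt_max_of_lt_left (mul_pos ?_ h13.2)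
          exact_mod_cast DseN23.cof_pos h14.1
        have q1 : ∑ e ∈ EG, 2 * ((RB X u e.1 * RB X u e.2) / DA u.A (RB X u) e) ≤
            (κ / 12 * G) * ∑ q ∈ T, wA u.A (RB X u) q := by
          refine h11 p (by omega) u.A T EG (RB X u) _ hdvd hEGT hpos hlo ?_ ?_ fun e he => le_rfl
          · intro e he l hlp hld
            obtain ⟨heU, he2⟩ := Finset.mem_filter.1 he
            obtain ⟨t1, t2⟩ := Finset.mem_product.1 (hEGT he)
            rw [not_not] at he2
            rcases hld with hld | hld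
            · exact smoothK hk (hTm _ t1).1 (hTm _ t2).1 he2 hlp hld
            · exact smoothK hk (hTm _ t2).1 (hTm _ t1).1 he2.symm hlp hld
          · intro e he
            obtain ⟨heU, he2⟩ := Finset.mem_filter.1 he
            obtain ⟨t1, t2⟩ := Finset.mem_product.1 (hEGT he)
            rw [not_not] at he2
            exact hcoft _ t1 _ t2 ((hdis e (Finset.mem_filter.1 heU).1).resolve_left
              (not_not.2 he2))
        have q2 : ∑ e ∈ EG, 4 * η * (RB X u e.1 * RB X u e.2) ≤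
            (κ / 12 * G) * ∑ q ∈ T, wA u.A (RB X u) q := by
          have hR0 : ∀ q ∈ T, 0 ≤ RB X u q := fun q hq => (hpos q hq).2.le
          have s1 : ∑ e ∈ EG, (RB X u e.1 * RB X u e.2) ≤ (∑ q ∈ T, RB X u q) ^ 2 := by
            rw [pow_two, Finset.sum_mul_sum, ← Finset.sum_product']
            refine Finset.sum_le_sum_of_subset_of_nonneg hEGT fun e he _ => ?_
            obtain ⟨t1, t2⟩ := Finset.mem_product.1 he
            exact mul_nonneg (hR0 _ t1) (hR0 _ t2)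
          set M := ∑ q ∈ T, wA u.A (RB X u) q with hMd
          have hM0 : 0 ≤ M := Finset.sum_nonneg hwA0
          have s2 : ∑ q ∈ T, RB X u q ≤ 2 * Step588.CT * Real.log p * M := by
            rw [hMd, Finset.mul_sum]
            exact Finset.sum_le_sum hlo
          have s20 : 0 ≤ ∑ q ∈ T, RB X u q := Finset.sum_nonneg hR0
          have s3 : (∑ q ∈ T, RB X u q) ^ 2 ≤ (2 * Step588.CT * Real.log p * M) ^ 2 :=
            pow_le_pow_left₀ s20 s2 2
          obtain ⟨-, s4⟩ := h12 p (by omega)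
          rw [← hη] at s4
          have s5 : Real.log p ^ (2 + (N.B + N.c2 + 3) + K) =
              Real.log p ^ 2 * Real.log p ^ (N.B + N.c2 + 3) * Real.log p ^ K := by
            rw [Real.rpow_add hlp0, Real.rpow_add hlp0]
            norm_num
          have s5' : Real.log p ^ K * G = 1 := by
            rw [hGd, ← Real.rpow_add hlp0]
            norm_num
          rw [s5] at s4
          rw [← Finset.mul_sum]
          have hlC : 0 ≤ Real.log p ^ (N.B + N.c2 + 3) := Real.rpow_nonneg hlp0.le _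
          calc 4 * η * ∑ e ∈ EG, (RB X u e.1 * RB X u e.2)
              ≤ 4 * η * (2 * Step588.CT * Real.log p * M) ^ 2 :=
                mul_le_mul_of_nonneg_left (s1.trans s3) (by positivity)
            _ = 4 * η * ((2 * Step588.CT) ^ 2 * Real.log p ^ 2 * M) * M := by ring
            _ ≤ 4 * η * ((2 * Step588.CT) ^ 2 * Real.log p ^ 2 *
                Real.log p ^ (N.B + N.c2 + 3)) * M := by
                refine mul_le_mul_of_nonneg_right (mul_le_mul_of_nonneg_left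
                  (mul_le_mul_of_nonneg_left hM2 (by positivity)) (by positivity)) hM0
            _ = κ / 12 * (48 / κ * (2 * Step588.CT) ^ 2 *
                (Real.log p ^ 2 * Real.log p ^ (N.B + N.c2 + 3) * (Real.log p ^ K * G)) * η) *
                M := by
                rw [s5']
                field_simp
                ring
            _ = κ / 12 * (48 / κ * (2 * Step588.CT) ^ 2 *
                (Real.log p ^ 2 * Real.log p ^ (N.B + N.c2 + 3) * Real.log p ^ K) * η) * G *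
                M := by ring
            _ ≤ κ / 12 * 1 * G * M := by
                refine mul_le_mul_of_nonneg_right (mul_le_mul_of_nonneg_right
                  (mul_le_mul_of_nonneg_left s4 (by positivity)) hG0.le) hM0
            _ = κ / 12 * G * M := by ring
        calc ∑ e ∈ EG, F e ≤ ∑ e ∈ EG, (2 * ((RB X u e.1 * RB X u e.2) / DA u.A (RB X u) e) +
              4 * η * (RB X u e.1 * RB X u e.2)) := by
              refine Finset.sum_le_sum fun e he => ?_
              refine (hFn e (Finset.mem_filter.1 he).1).trans (le_of_eq ?_)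
              have := (hDA0 e he).ne'
              field_simp
              ring
          _ ≤ _ := by
              rw [Finset.sum_add_distrib]
              linarith
      rw [hsp]
      have s6 := mul_le_mul_of_nonneg_left (hsub TU (Finset.filter_subset _ _))
        (by positivity : 0 ≤ κ / 12 * G)
      have s7 : 0 ≤ (κ / 12 * G) * ∑ q ∈ T, wA u.A (RB X u) q :=
        mul_nonneg (by positivity) (Finset.sum_nonneg hwA0)
      linarith
  -- labels
  have hELle : ∑ e ∈ EL, F e ≤ (κ / 3 * G) * ∑ q ∈ TL, wA u.A (RB X u) q := by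
    rcases hk.B with hB | hB
    · have hK : ∀ s : ℕ, tp V < s → Real.log p ^ (N.c2 + 2) ≤ s * X.c.wp.thr s := by
        intro s hs
        have hsR : (0:ℝ) < s := by
          have : 0 < s := by omega
          exact_mod_cast this
        have hps : (p:ℝ) ≤ s := by exact_mod_cast hs.le
        have h6 := hD.rse.thr s (k2.trans hs)
        have h7 : (s:ℝ) ^ (1/2:ℝ) = s * (s:ℝ) ^ (-(1/2:ℝ)) := by
          conv_rhs => rw [← Real.rpow_one (s:ℝ), ← Real.rpow_mul hsR.le, ← Real.rpow_add hsR]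
          norm_num
        calc Real.log p ^ (N.c2 + 2) ≤ (p:ℝ) ^ (1/2:ℝ) := n5
          _ ≤ (s:ℝ) ^ (1/2:ℝ) := Real.rpow_le_rpow hpR.le hps (by norm_num)
          _ = s * (s:ℝ) ^ (-(1/2:ℝ)) := h7
          _ ≤ s * X.c.wp.thr s := mul_le_mul_of_nonneg_left h6 hsR.le
      have hthr0 : 0 < X.c.wp.thr (tp V) := (Real.rpow_pos_of_pos hpR _).trans_le hthr
      have hK4 : 32 * (Real.log p ^ (N.c2 + 2)) ^ 4 < (tp V : ℝ) ^ 2 * X.c.wp.thr (tp V) ^ 2 := by
        refine n4.trans_le ?_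
        have h7 : ((p:ℝ) ^ (-(1/2:ℝ))) ^ 2 ≤ X.c.wp.thr (tp V) ^ 2 :=
          pow_le_pow_left₀ (Real.rpow_nonneg hpR.le _) hthr 2
        have h8 : ((p:ℝ) ^ (-(1/2:ℝ))) ^ 2 = (p:ℝ)⁻¹ := by
          rw [← Real.rpow_natCast, ← Real.rpow_mul hpR.le, ← Real.rpow_neg_one]
          norm_num
        rw [h8] at h7
        calc (p:ℝ) = (p:ℝ) ^ 2 * (p:ℝ)⁻¹ := by field_simp
          _ ≤ (p:ℝ) ^ 2 * X.c.wp.thr (tp V) ^ 2 := mul_le_mul_of_nonneg_left h7 (sq_nonneg _)
      obtain ⟨Λf, hΛ, hlab⟩ := lab_nodeB hk.hv.nd X.tOk hk.lV (wp := X.c.wp) (wpL := X.c.wpL)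
        (lam := X.c.lam) (lv := X.c.lv) (γ := X.c.γ) (r := X.c.r) hK hthr0 hK4
      refine h3 p (by omega) u.A (u.B * X.c.γ) TL EL (RB X u)
        (fun q => (u.B : ℚ) * (st q).getD 0) Λf F
        (fun q hq => hdvd q (Finset.mem_filter.1 hq).1) ?_ hELT
        (fun q hq => hpos q (Finset.mem_filter.1 hq).1)
        (fun q hq => hlo q (Finset.mem_filter.1 hq).1)
        ((hsub TL (Finset.filter_subset _ _)).trans hM2) ?_ hFL ?_
      · have : ((Λf.card : ℕ) : ℝ) ≤ 1 := by exact_mod_cast hΛ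
        linarith
      · intro q hq
        obtain ⟨hq1, hq2⟩ := Finset.mem_filter.1 hq
        obtain ⟨σ, hσ⟩ := Option.isSome_iff_exists.1 hq2
        have hcol := hk.hv.rd.col hk.lV q (hk.sub (hTm q hq1).1) (hTm q hq1).2
        rw [rr_al hq1] at hcol
        rw [hσ, Option.getD_some, RB_al hq1, hB]
        rcases hlab q (hk.sub (hTm q hq1).1) hcol σ hσ with h6 | h6
        · exact Or.inl h6
        · refine Or.inr ⟨h6.1, le_trans ?_ h6.2.le⟩
          refine le_trans ?_ hthr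
          rw [← Real.rpow_neg_one]
          exact Real.rpow_le_rpow_of_exponent_le hpR1 (by norm_num)
      · intro e he _
        obtain ⟨σ, σ', a, a', s1, s2, x2, x3, x4⟩ := hrelL e he
        rw [s1, s2, Option.getD_some, Option.getD_some]
        exact ⟨x4, by exact_mod_cast x3, a, a', x2⟩
    · have hpq : (p : ℚ) ≠ 0 := by exact_mod_cast hpR.ne'
      have hp0' : (p : ℝ) ≠ 0 := hpR.ne'
      have hBR : (u.B : ℝ) = v.B * p := by rw [hB]; push_cast; rfl
      have hBQ : (u.B : ℚ) = v.B * p := by rw [hB]; push_cast; rfl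
      have eRp : ∀ q ∈ T, RB X u q / (p : ℝ) = v.B * X.c.r q := by
        intro q hq
        rw [RB_al hq, hBR]; field_simp
      have eB : ∀ σ : ℚ, (p : ℚ) * ((v.B : ℚ) * σ) = (u.B : ℚ) * σ := by
        intro σ; rw [hBQ]; ring
      refine (h7 p (by omega) k1 u.A (v.B * X.c.γ) TL EL (RB X u)
        (fun q => (v.B : ℚ) * (st q).getD 0) F
        (fun q hq => hdvd q (Finset.mem_filter.1 hq).1) hELT
        (fun q hq => hpos q (Finset.mem_filter.1 hq).1)
        (fun q hq => hlo q (Finset.mem_filter.1 hq).1)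
        (fun q hq => hQ.hi q (hTm q (Finset.mem_filter.1 hq).1).1
          (hTm q (Finset.mem_filter.1 hq).1).2)
        ((hsub TL (Finset.filter_subset _ _)).trans hM2) ?_ ?_ hFL ?_).trans
        (mul_le_mul_of_nonneg_right ((h8 p (by omega)).2.trans (by nlinarith))
          (Finset.sum_nonneg fun q hq => hwA0 q (Finset.mem_filter.1 hq).1))
      · intro q hq
        obtain ⟨hq1, hq2⟩ := Finset.mem_filter.1 hq
        obtain ⟨σ, hσ⟩ := Option.isSome_iff_exists.1 hq2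
        have h12 := (K_miss hD.th hk (hTm q hq1).1 (hTm q hq1).2 hB).2
        rw [hσ, Option.getD_some, eRp q hq1]
        exact lab0_spec hk.hv.nd.B_pos (h12.symm.trans hσ)
      · exact hQ.badM hB q₀ (hTm q₀ hq₀).1 (hTm q₀ hq₀).2
      · intro e he _
        obtain ⟨σ, σ', a, a', s1, s2, x2, x3, x4⟩ := hrelL e he
        rw [s1, s2, Option.getD_some, Option.getD_some, eB, eB]
        refine ⟨fun h11 => x4 ?_, a, a', x2⟩
        rw [← eB, ← eB, h11]
  -- tags
  have hETle : ∑ e ∈ ET, F e ≤ (κ / 3 * G) * ∑ q ∈ T, wA u.A (RB X u) q := by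
    refine h4 p (by omega) u.A T ET (RB X u) F hdvd ?_ hpos hlo ?_ ?_ ?_
    · intro e he
      obtain ⟨he1, he2⟩ := Finset.mem_filter.1 he
      obtain ⟨he3, he4⟩ := Finset.mem_filter.1 he1
      exact Finset.mem_product.2 (hET e he3)
    · intro e he l hlp hld
      obtain ⟨he1, he2⟩ := Finset.mem_filter.1 he
      obtain ⟨he3, he4⟩ := Finset.mem_filter.1 he1
      obtain ⟨t1, t2⟩ := hET e he3
      rw [not_not] at he2
      rcases hld with hld | hld
      · exact smoothK hk (hTm _ t1).1 (hTm _ t2).1 he2 hlp hld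
      · exact smoothK hk (hTm _ t2).1 (hTm _ t1).1 he2.symm hlp hld
    · intro e he
      obtain ⟨he1, he2⟩ := Finset.mem_filter.1 he
      obtain ⟨he3, he4⟩ := Finset.mem_filter.1 he1
      obtain ⟨t1, t2⟩ := hET e he3
      rw [not_not] at he2
      exact hcoft _ t1 _ t2 ((hdis e he3).resolve_left (not_not.2 he2))
    · intro e he
      obtain ⟨he1, he2⟩ := Finset.mem_filter.1 he
      obtain ⟨he3, he4⟩ := Finset.mem_filter.1 he1
      exact hFs e he3 he4
  rw [hsplit]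
  have s2 := mul_le_mul_of_nonneg_left (hsub TL (Finset.filter_subset _ _)) hκ3.le
  have s3 := mul_le_mul_of_nonneg_left hM (mul_pos hκ hG0).le
  linarith

end main

end Crest.Agent.R4P.RseRI17
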