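import Crest.Agent.R4P.RseNd_23
import Crest.Agent.R4P.CtxItem_6

/-!
R4 (S0004), powers pass, helper23: **the pairs of one node in one index class**.

* `pt_node` : a point of a piece in a window of a node;
* `rel_none`, `rel_some` : the relations of two unlabelled / labelled pieces with one index;
* `sep_ret`, `smooth_ret` : different retained parts give a prime `> p` of one cofactor, equal retained
  parts give `p`-smooth cofactors.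
-/

set_option autoImplicit false
set_option linter.unusedSectionVars false
set_option linter.unusedVariables false

namespace Crest.Agent.R4P.RseNd23

open Crest.Agent.R4P.Cnt588 Crest.Agent.R4P.Item758 Crest.Agent.R4P.W363
open Crest.Agent.R4P.Data758 Crest.Agent.R4P.OmSt532 Crest.Agent.R4P.OmData532
open Crest.Agent.R4P.LfDat734 Crest.Agent.R4P.WPex189
open Crest.Agent.R4P.Bld532 (NS All NodeOk Bk)
open Crest.Agent.R4P.Step588 (NDt ND1 ctx_NDt uq_lt)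
open Crest.Agent.R4P.WalkIT579 (tp isL nodeOk_hi top_of_nodeOk)
open Crest.Agent.R4P.Skel189 Crest.Agent.R4P.RseSt23
open Crest.Agent.R4.Soft104 (w)
open Crest.Agent.R4.LF363 (Lab)
open Crest.Agent.R4.HVW560 (cof wt)
open Crest.Agent.R4.AvgItem710 (Dp mul_cof mul_cof' cof_pos cof_coprime)
open Crest.Agent.R4

section ctx
variable {N : Skel189.Num} {γ : ℝ} {p0 P₀ : ℕ} {X : Ctx N γ p0 P₀} {u : NS} {τ : IT}

/-- **a point of a piece in a window of a node** -/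
lemma pt_node (hB : 0 < u.B) {j : X.c.Lam} {W : ℕ} {y : ℝ} {a : ℤ} {p : ℕ} (hp : p ≤ top X.S)
    (l1 : (u.B : ℝ) / (1 : ℕ) * X.c.bp j.1.1 j.1.2 ≤ (W : ℝ) * y - (u.B : ℝ) / (1 : ℕ) * X.c.γ - a)
    (l2 : (W : ℝ) * y - (u.B : ℝ) / (1 : ℕ) * X.c.γ - a <
      (u.B : ℝ) / (1 : ℕ) * X.c.bp j.1.1 (j.1.2 + 1)) :
    ∃ z : ℝ, (u.B : ℝ) * z = W * y - u.B * X.c.γ - a ∧ |z| ≤ X.c.r j.1.1 ∧
      X.c.wp.ix X.c.γ p j.1.1 (X.c.st p j.1.1) z = (X.c.world p j.1).1 := by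
  have hB' : (0 : ℝ) < u.B := by exact_mod_cast hB
  rw [Nat.cast_one, div_one] at l1 l2
  have h0 : (u.B : ℝ) * ((W * y - u.B * X.c.γ - a) / u.B) = W * y - u.B * X.c.γ - a := by
    field_simp
  refine ⟨(W * y - u.B * X.c.γ - a) / u.B, h0, ?_, ?_⟩
  · have h1 : X.c.bp j.1.1 j.1.2 ≤ (W * y - u.B * X.c.γ - a) / u.B := by
      rw [le_div_iff₀ hB']; linarith
    have h2 : (W * y - u.B * X.c.γ - a) / u.B < X.c.bp j.1.1 (j.1.2 + 1) := by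
      rw [div_lt_iff₀ hB']; linarith
    have h3 := X.ok.bp_ge j j.1.2
    have h4 := X.ok.bp_le j (Cf.k_lt j)
    rw [abs_le]
    exact ⟨by linarith, by linarith⟩
  · refine X.ok.ix_point hp j ?_ ?_
    · show X.c.bp j.1.1 j.1.2 ≤ _
      rw [le_div_iff₀ hB']; linarith
    · show _ < X.c.bp j.1.1 (j.1.2 + 1)
      rw [div_lt_iff₀ hB']; linarith

lemma exp_nonneg' (P : WP) (p : ℕ) : 0 ≤ Real.exp (1 / 2 ^ (P.dep p)) - 1 := by
  have := Real.add_one_le_exp (1 / 2 ^ (P.dep p) : ℝ)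
  have h5 : (0 : ℝ) ≤ 1 / 2 ^ (P.dep p) := by positivity
  linarith

/-- **the relation of two unlabelled pieces with one index** -/
theorem rel_none (h : NDt X.par (w X.ψ) X.c.t u τ) {p : ℕ} (hp : p ≤ top X.S)
    (hlam : X.c.lam p = 0) {j j' : X.c.Lam} (hix : (X.c.world p j.1).1 = (X.c.world p j'.1).1)
    (hj : j.1.1 ∈ τ.items) (hj' : j'.1.1 ∈ τ.items)
    (hs : X.c.st p j.1.1 = none)
    (hs' : X.c.st p j'.1.1 = none) {y : ℝ} {a a' : ℤ}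
    (l1 : (u.B : ℝ) / (1 : ℕ) * X.c.bp j.1.1 j.1.2 ≤
      ((j.1.1 / u.A : ℕ) : ℝ) * y - (u.B : ℝ) / (1 : ℕ) * X.c.γ - a)
    (l2 : ((j.1.1 / u.A : ℕ) : ℝ) * y - (u.B : ℝ) / (1 : ℕ) * X.c.γ - a <
      (u.B : ℝ) / (1 : ℕ) * X.c.bp j.1.1 (j.1.2 + 1))
    (l3 : (u.B : ℝ) / (1 : ℕ) * X.c.bp j'.1.1 j'.1.2 ≤
      ((j'.1.1 / u.A : ℕ) : ℝ) * y - (u.B : ℝ) / (1 : ℕ) * X.c.γ - a')
    (l4 : ((j'.1.1 / u.A : ℕ) : ℝ) * y - (u.B : ℝ) / (1 : ℕ) * X.c.γ - a' <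
      (u.B : ℝ) / (1 : ℕ) * X.c.bp j'.1.1 (j'.1.2 + 1)) :
    |((a:ℝ) + u.B * X.c.γ) * (cof (j'.1.1 / u.A) (j.1.1 / u.A) : ℕ) -
      (a' + u.B * X.c.γ) * (cof (j.1.1 / u.A) (j'.1.1 / u.A) : ℕ)| ≤
      etaL X.c.wp p * DA u.A (fun q => u.B * X.c.rr q) (j.1.1, j'.1.1) := by
  have hB := h.B_pos
  obtain ⟨z, e1, z1, i1⟩ := pt_node hB hp l1 l2
  obtain ⟨z', e2, z2, i2⟩ := pt_node hB hp l3 l4
  rw [hix, ← i2] at i1
  rw [hs, hs'] at i1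
  have hq0 : 0 < j.1.1 := X.sys.pos _ (X.mem_S j)
  have hq0' : 0 < j'.1.1 := X.sys.pos _ (X.mem_S j')
  have hSj : j.1.1 ∈ X.c.S := Cf.mem_S j
  have hSj' : j'.1.1 ∈ X.c.S := Cf.mem_S j'
  have key := X.fine.close hp hSj hSj' hq0 hq0' z1 z2 (Cf.r_pos j) (Cf.r_pos j') i1
  have hd := h.bk.dvd _ hj
  have hd' := h.bk.dvd _ hj'
  have hw : 0 < j.1.1 / u.A := Nat.pos_of_ne_zero (h.div_ne hj)
  have hw' : 0 < j'.1.1 / u.A := Nat.pos_of_ne_zero (h.div_ne hj')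
  have h2 := R4.PairC944.rel_of_off (γ := X.c.γ) (c := X.c.γ) (c' := X.c.γ) (q := j.1.1)
    (r := j'.1.1) (A := u.A) (B := u.B) (w := j.1.1 / u.A) (w' := j'.1.1 / u.A) h.A_pos hB hw hw'
    (Nat.mul_div_cancel' hd).symm (Nat.mul_div_cancel' hd').symm e1 e2
    (T := 0) (ψ := X.c.r j.1.1) (ψ' := X.c.r j'.1.1) (η := Real.exp (1 / 2 ^ (X.c.wp.dep p)) - 1)
    (κ := 0) (exp_nonneg' _ _) (by norm_num)
    (by
      refine key.trans (le_trans (le_of_eq ?_) (le_max_left _ _))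
      rw [zero_add, one_mul, one_mul])
    (by
      rw [zero_mul, zero_add, mul_one]
      refine mul_nonneg (exp_nonneg' _ _) ?_
      unfold Crest.Agent.R4.AvgItem710.Dp
      refine le_max_of_le_left ?_
      have := (Cf.r_pos j).le
      positivity)
  rw [zero_add, mul_one] at h2
  refine h2.trans ?_
  have e3 : DA u.A (fun q => u.B * X.c.rr q) (j.1.1, j'.1.1) =
      Dp (j.1.1 / u.A) (j'.1.1 / u.A) (u.B * X.c.r j.1.1) (u.B * X.c.r j'.1.1) := by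
    unfold DA
    simp only
    rw [Cf.rr_eq, Cf.rr_eq]
  rw [e3]
  refine mul_le_mul_of_nonneg_right (exp_le_etaL _ _) ?_
  unfold Crest.Agent.R4.AvgItem710.Dp
  refine le_max_of_le_left ?_
  have := (Cf.r_pos j).le
  positivity

/-- **the relation of two labelled pieces with one index**: exact centres -/
theorem rel_some (h : NDt X.par (w X.ψ) X.c.t u τ) {p : ℕ} (hp : p ≤ top X.S)
    (hlam : X.c.lam p = 0) {j j' : X.c.Lam} (hix : (X.c.world p j.1).1 = (X.c.world p j'.1).1)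
    (hj : j.1.1 ∈ τ.items) (hj' : j'.1.1 ∈ τ.items) {σ σ' : ℚ}
    (hs : X.c.st p j.1.1 = some σ)
    (hs' : X.c.st p j'.1.1 = some σ') {y : ℝ} {a a' : ℤ}
    (l1 : (u.B : ℝ) / (1 : ℕ) * X.c.bp j.1.1 j.1.2 ≤
      ((j.1.1 / u.A : ℕ) : ℝ) * y - (u.B : ℝ) / (1 : ℕ) * X.c.γ - a)
    (l2 : ((j.1.1 / u.A : ℕ) : ℝ) * y - (u.B : ℝ) / (1 : ℕ) * X.c.γ - a <
      (u.B : ℝ) / (1 : ℕ) * X.c.bp j.1.1 (j.1.2 + 1))
    (l3 : (u.B : ℝ) / (1 : ℕ) * X.c.bp j'.1.1 j'.1.2 ≤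
      ((j'.1.1 / u.A : ℕ) : ℝ) * y - (u.B : ℝ) / (1 : ℕ) * X.c.γ - a')
    (l4 : ((j'.1.1 / u.A : ℕ) : ℝ) * y - (u.B : ℝ) / (1 : ℕ) * X.c.γ - a' <
      (u.B : ℝ) / (1 : ℕ) * X.c.bp j'.1.1 (j'.1.2 + 1)) :
    ((a:ℝ) + ((u.B * σ : ℚ) : ℝ)) * ((j'.1.1 / u.A : ℕ) : ℝ) =
      (a' + ((u.B * σ' : ℚ) : ℝ)) * ((j.1.1 / u.A : ℕ) : ℝ) ∧
    ((a:ℝ) + ((u.B * σ : ℚ) : ℝ)) * (cof (j'.1.1 / u.A) (j.1.1 / u.A) : ℕ) =
      (a' + ((u.B * σ' : ℚ) : ℝ)) * (cof (j.1.1 / u.A) (j'.1.1 / u.A) : ℕ) := by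
  have hB := h.B_pos
  obtain ⟨z, e1, z1, i1⟩ := pt_node hB hp l1 l2
  obtain ⟨z', e2, z2, i2⟩ := pt_node hB hp l3 l4
  rw [hix, ← i2] at i1
  rw [hs, hs'] at i1
  have hd := h.bk.dvd _ hj
  have hd' := h.bk.dvd _ hj'
  have hw : 0 < j.1.1 / u.A := Nat.pos_of_ne_zero (h.div_ne hj)
  have hw' : 0 < j'.1.1 / u.A := Nat.pos_of_ne_zero (h.div_ne hj')
  have hBK : u.B ≤ Kc X.S := by
    have h1 := X.mp_le (q := j.1.1)
    rw [h.self.mp _ hj] at h1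
    have h2 : 0 < mp τ j.1.1 := by
      rw [BldF542.mp_eq_prod τ u.n h.self.ok]
      exact Finset.prod_pos fun s hs => (BldF542.mt_lt τ u.n h.self.ok _ s hs).1.pos
    exact (Nat.le_mul_of_pos_right _ h2).trans h1
  exact exact_node X.fine hp (Cf.mem_S j) (Cf.mem_S j') (X.sys.pos _ (X.mem_S j))
    (X.sys.pos _ (X.mem_S j')) (stB_lbAt hs) (stB_lbAt hs') h.A_pos hB hw hw'
    (Nat.mul_div_cancel' hd).symm
    (Nat.mul_div_cancel' hd').symm hBK e1 e2 z1 z2 i1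

end ctx

/-! ### retained parts -/

section ret
variable {P : Bld532.Par} {W : ℕ → ℝ} {t' : IT} {u : NS} {τ : IT}

/-- **different retained parts**: a prime above the column which is retained in exactly one of the
items, it divides exactly one of the moduli -/
theorem sep_ret (h : NDt P W t' u τ) {n : ℕ} (hO : t'.Ok n) (hl : ¬ isL τ) {q r : ℕ}
    (hq : q ∈ τ.items) (hr : r ∈ τ.items) (hne : ret t' (tp τ) q ≠ ret t' (tp τ) r) :
    ∃ b : ℕ, b.Prime ∧ tp τ < b ∧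
      ((b ∈ t'.uq q ∧ b ∣ q / u.A ∧ ¬ b ∣ r / u.A) ∨
       (b ∈ t'.uq r ∧ b ∣ r / u.A ∧ ¬ b ∣ q / u.A)) := by
  have key : ∀ b : ℕ, tp τ < b → b.Prime → u.n ≤ b := fun b hb hp => by
    rcases Crest.Agent.R4P.WalkIT579.prime_ge h.self.node hl hp hb.le with h1 | h1
    · omega
    · exact h1
  have hset : (t'.uq q).filter (tp τ < ·) ≠ (t'.uq r).filter (tp τ < ·) := by
    intro e
    apply hne
    unfold ret
    rw [e]
  have hex : ∃ b, (b ∈ t'.uq q ∧ tp τ < b ∧ b ∉ t'.uq r) ∨ (b ∈ t'.uq r ∧ tp τ < b ∧ b ∉ t'.uq q) := by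
    by_contra hc
    push Not at hc
    apply hset
    ext b
    rw [Finset.mem_filter, Finset.mem_filter]
    constructor
    · rintro ⟨h1, h2⟩
      exact ⟨(hc b).1 h1 h2, h2⟩
    · rintro ⟨h1, h2⟩
      exact ⟨(hc b).2 h1 h2, h2⟩
  obtain ⟨b, hb⟩ := hex
  rcases hb with ⟨h1, h2, h3⟩ | ⟨h1, h2, h3⟩
  · have hp := (uq_lt hO h1).1
    refine ⟨b, hp, h2, Or.inl ⟨h1, h.rt_dvd hq h1, fun h4 => h3 ?_⟩⟩
    exact (h.uq_ge hO hr (key b h2 hp)).2 ⟨hp, h4⟩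
  · have hp := (uq_lt hO h1).1
    refine ⟨b, hp, h2, Or.inr ⟨h1, h.rt_dvd hr h1, fun h4 => h3 ?_⟩⟩
    exact (h.uq_ge hO hq (key b h2 hp)).2 ⟨hp, h4⟩

lemma dvd_cof {x y b : ℕ} (hb : b.Prime) (hx : b ∣ x) (hy : ¬ b ∣ y) : b ∣ cof x y := by
  have h1 : cof x y * Nat.gcd x y = x := Nat.div_mul_cancel (Nat.gcd_dvd_left x y)
  rw [← h1] at hx
  rcases hb.dvd_mul.1 hx with h2 | h2
  · exact h2
  · exact absurd (h2.trans (Nat.gcd_dvd_right x y)) hy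

/-- **equal retained parts: the cofactors are `p`-smooth** -/
theorem smooth_ret (h : NDt P W t' u τ) {n : ℕ} (hO : t'.Ok n) (hl : ¬ isL τ) {q r : ℕ}
    (hq : q ∈ τ.items) (hr : r ∈ τ.items) (he : ret t' (tp τ) q = ret t' (tp τ) r) {l : ℕ}
    (hlp : l.Prime) (hd : l ∣ cof (q / u.A) (r / u.A)) : l ≤ tp τ := by
  by_contra hc
  push Not at hc
  have hln : u.n ≤ l := by
    rcases Crest.Agent.R4P.WalkIT579.prime_ge h.self.node hl hlp hc.le with h1 | h1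
    · omega
    · exact h1
  have h1 : cof (q / u.A) (r / u.A) * Nat.gcd (q / u.A) (r / u.A) = q / u.A :=
    Nat.div_mul_cancel (Nat.gcd_dvd_left _ _)
  have h2 : l ∣ q / u.A := by rw [← h1]; exact hd.mul_right _
  have h3 : l ∣ r / u.A := h.prime_iff hO hl (y := tp τ + 1) (Nat.lt_succ_self _)
    (Nat.lt_succ_self _) hq hr he hlp hc h2
  have h4 : l ∣ Nat.gcd (q / u.A) (r / u.A) := Nat.dvd_gcd h2 h3
  refine h.self.rad q hq l hlp hln ?_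
  rw [← h1, pow_two]
  exact Nat.mul_dvd_mul hd h4

lemma cof_div {A q r : ℕ} (hA : 0 < A) (hq : A ∣ q) (hr : A ∣ r) :
    cof (q / A) (r / A) = q / Nat.gcd q r := by
  obtain ⟨x, rfl⟩ := hq
  obtain ⟨y, rfl⟩ := hr
  rw [Nat.mul_div_cancel_left _ hA, Nat.mul_div_cancel_left _ hA, Nat.gcd_mul_left,
    Nat.mul_div_mul_left _ _ hA]
  rfl

end ret

end Crest.Agent.R4P.RseNd23
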