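import Crest.Agent.R4P.WalkS560
import Crest.Agent.R4P.WalkB560

/-!
R4 (S0004), powers pass (helper14, port of helper245's `R4/SHR0_245`): classes which only REFINE
downwards have no merges.

* `RefD wr Bd n R` : the relation `R` of a state is contained in `Ro (wr p)`, up to the bad pairs `Bd p`, for
  every column `p ≤ n`; `Refines wr Bd`.
* `eBR` : the local merge cost of the pairs in `Bd s.p`; `eSHR_eq_eBR`, `WS_eSHR_eq` : with `Refines`,
  the walk sums of `eSHR` and `eBR` agree; `WS_eSHR_zero` : no bad pairs, no merges.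
-/

set_option autoImplicit false
set_option linter.unusedSectionVars false
set_option linter.unusedVariables false
open MeasureTheory Filter Set

namespace Crest.Agent.R4P.SHR0_245

open Crest.Agent.R4.Tour104 Crest.Agent.R4.Tour758 Crest.Agent.R4.Avg758 Crest.Agent.R4.Clos758
open Crest.Agent.R4.ClosL758 Crest.Agent.R4.ClosG758 Crest.Agent.R4.ClosR758
open Crest.Agent.R4P.ClosR442 Crest.Agent.R4P.Walk560

variable {Λ κ : Type*} [Fintype Λ] [DecidableEq Λ] [DecidableEq κ] [WRel κ] [Fintype κ]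
  {wr : ℕ → Λ → κ} {Ad : TrG Λ κ → Finset Λ → Prop}
  {μ : TrG Λ κ → Finset Λ → ℝ} {ν : TrG Λ κ → ℝ} {n : ℕ}

/-- the relation of a state below all lower columns, up to the bad pairs -/
def RefD (wr : ℕ → Λ → κ) (Bd : ℕ → Finset (Λ × Λ)) (n : ℕ) (R : Finset (Λ × Λ)) : Prop :=
  ∀ p ≤ n, R \ Ro (wr p) ⊆ Bd p

/-- the classes refine downwards, up to the bad pairs -/
def Refines (wr : ℕ → Λ → κ) (Bd : ℕ → Finset (Λ × Λ)) : Prop :=
  ∀ p' p, p < p' → Ro (wr p') \ Ro (wr p) ⊆ Bd p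

lemma RefD.mono {Bd : ℕ → Finset (Λ × Λ)} {R : Finset (Λ × Λ)} {m : ℕ} (h : RefD wr Bd n R)
    (hm : m ≤ n) : RefD wr Bd m R := fun p hp => h p (hp.trans hm)

lemma RefD.of_wr {Bd : ℕ → Finset (Λ × Λ)} (h : Refines wr Bd) (p : ℕ) :
    RefD wr Bd p (Ro (wr p)) := by
  intro p' hp'
  rcases eq_or_lt_of_le hp' with rfl | h1
  · rw [Finset.sdiff_self]
    exact Finset.empty_subset _
  · exact h p p' h1

/-- the relation of the continuing states -/
lemma nxt_R {stp : Stp Λ κ} {s : St Λ κ} (h : Inv wr Ad μ ν n s) :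
    ∀ q ∈ nxt stp s, q.2.R = s.R ∨ q.2.R = Ro (wr s.p) := by
  intro q hq
  have hq := (mem_nxt.1 hq).1
  have hL := h.L
  have hR := h.R
  unfold nxt0 at hq
  by_cases h1 : s.t.isLeaf ∨ s.t'.isLeaf
  · simp [h1] at hq
  by_cases h2 : stp s
  · simp [h1, h2] at hq
  rw [if_neg h1, if_neg h2] at hq
  by_cases hPL : s.isPL
  · rw [if_pos hPL] at hq
    obtain ⟨w, r, t₁, t₀, v, B, G, -, et, h3⟩ := St.isPL_cases hPL
    rw [et] at hL
    have e := hL.br.2.2.2.1
    rcases h3 with ⟨-, e3⟩ | ⟨-, -, e3⟩ <;> rw [e3] at hq <;>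
      simp only [List.mem_cons, List.not_mem_nil, or_false] at hq <;>
      rcases hq with rfl | rfl <;> exact Or.inr (by show Ro r = _; rw [e])
  by_cases hPR : s.isPR
  · rw [if_neg hPL, if_pos hPR] at hq
    obtain ⟨w, r, t₁, t₀, v, B, G, -, et, h3⟩ := St.isPR_cases hPR
    rw [et] at hR
    have e := hR.br.2.2.2.1
    rcases h3 with ⟨-, e3⟩ | ⟨-, -, e3⟩ <;> rw [e3] at hq <;>
      simp only [List.mem_cons, List.not_mem_nil, or_false] at hq <;>
      rcases hq with rfl | rfl <;> exact Or.inr (by show Ro r = _; rw [e])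
  rw [if_neg hPL, if_neg hPR] at hq
  rcases hv : vw s.p s.t with ⟨w, r, t₁, t₀, v, B, G⟩ | ⟨r, t₁, t₀⟩ | ⟨Sp, u⟩ <;>
  rcases hv' : vw s.p s.t' with ⟨w', r', t₁', t₀', v', B', G'⟩ | ⟨r', t₁', t₀'⟩ | ⟨Sp', u'⟩ <;>
  simp only [hv, hv'] at hq
  · simp only [List.mem_cons, List.not_mem_nil, or_false] at hq
    rw [vw_br hv] at hL
    have e := hL.br.2.2.2.1
    rcases hq with rfl | rfl | rfl | rfl <;> exact Or.inr (by rw [e])
  · simp only [List.mem_cons, List.not_mem_nil, or_false] at hq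
    subst hq; exact Or.inl rfl
  · simp only [List.mem_cons, List.not_mem_nil, or_false] at hq
    rw [vw_br hv] at hL
    have e := hL.br.2.2.2.1
    rcases hq with rfl | rfl <;> exact Or.inr (by rw [e])
  · simp only [List.mem_cons, List.not_mem_nil, or_false] at hq
    subst hq; exact Or.inl rfl
  · split_ifs at hq with hj hl <;>
      simp only [List.mem_cons, List.not_mem_nil, or_false] at hq
    · rcases hq with rfl | rfl <;> exact Or.inl rfl
    · subst hq; exact Or.inl rfl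
    · subst hq; exact Or.inl rfl
  · split_ifs at hq with hj <;>
      simp only [List.mem_cons, List.not_mem_nil, or_false] at hq
    · rcases hq with rfl | rfl <;> exact Or.inl rfl
    · subst hq; exact Or.inl rfl
  · simp only [List.mem_cons, List.not_mem_nil, or_false] at hq
    rw [vw_br hv'] at hR
    have e := hR.br.2.2.2.1
    rcases hq with rfl | rfl <;> exact Or.inr (by rw [e])
  · split_ifs at hq with hj <;>
      simp only [List.mem_cons, List.not_mem_nil, or_false] at hq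
    · rcases hq with rfl | rfl <;> exact Or.inl rfl
    · subst hq; exact Or.inl rfl
  · simp only [List.mem_cons, List.not_mem_nil, or_false] at hq
    subst hq; exact Or.inl rfl

/-- invariant: walk invariant and `RefD` -/
def InvR (wr : ℕ → Λ → κ) (Ad : TrG Λ κ → Finset Λ → Prop)
    (μ : TrG Λ κ → Finset Λ → ℝ) (ν : TrG Λ κ → ℝ) (Bd : ℕ → Finset (Λ × Λ)) (s : St Λ κ) : Prop :=
  ∃ n, Inv wr Ad μ ν n s ∧ RefD wr Bd n s.R

lemma InvR.next {Bd : ℕ → Finset (Λ × Λ)} (hB : Refines wr Bd) {stp : Stp Λ κ} {s : St Λ κ}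
    (h : InvR wr Ad μ ν Bd s) : ∀ q ∈ nxt stp s, InvR wr Ad μ ν Bd q.2 ∧ 0 ≤ q.1 := by
  obtain ⟨n, h, hR⟩ := h
  intro q hq
  have hl : ¬ (s.t.isLeaf ∨ s.t'.isLeaf) := by
    intro hl
    have := (mem_nxt.1 hq).1
    simp [nxt0, hl] at this
  rw [not_or] at hl
  obtain ⟨-, hpn⟩ := p_prime h hl.1 hl.2
  refine ⟨⟨s.p, (h.next q hq).1, ?_⟩, (h.next q hq).2⟩
  rcases nxt_R h q hq with e | e
  · rw [e]; exact hR.mono hpn
  · rw [e]; exact RefD.of_wr hB s.p

/-- relation change of a pre-step, bad pairs only -/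
noncomputable def shrB (Bd : ℕ → Finset (Λ × Λ)) (s : St Λ κ) : Vw Λ κ → ℝ
  | .br _ r _ _ _ _ _ => Qs { s with R := (s.R \ Ro r) ∩ Bd s.p }
  | _ => 0

open Classical in
/-- the merges of the bad pairs only -/
noncomputable def eBR (stp : Stp Λ κ) (Bd : ℕ → Finset (Λ × Λ)) (s : St Λ κ) : ℝ :=
  if s.t.isLeaf ∨ s.t'.isLeaf then 0 else if stp s then 0 else
  if s.isPL then shrB Bd s (vw s.p s.t) else if s.isPR then shrB Bd s (vw s.p s.t') else
  match vw s.p s.t, vw s.p s.t' with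
  | .br _ r _ _ _ _ _, .br _ _ _ _ _ _ _ => Qs { s with R := (s.R \ Ro r) ∩ Bd s.p }
  | .br _ r _ _ _ _ _, .up _ _ => Qs { s with R := (s.R \ Ro r) ∩ Bd s.p }
  | .up _ _, .br _ r _ _ _ _ _ => Qs { s with R := (s.R \ Ro r) ∩ Bd s.p }
  | _, _ => 0

lemma eSHR_eq_eBR {stp : Stp Λ κ} {Bd : ℕ → Finset (Λ × Λ)} {s : St Λ κ}
    (h : InvR wr Ad μ ν Bd s) : eSHR stp s = eBR stp Bd s := by
  obtain ⟨n, h, hR⟩ := h
  unfold eSHR eBR
  by_cases h1 : s.t.isLeaf ∨ s.t'.isLeaf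
  · simp only [h1, if_true]
  by_cases h2 : stp s
  · simp only [h1, h2, if_true, if_false]
  simp only [h1, h2, if_false]
  rw [not_or] at h1
  obtain ⟨-, hpn⟩ := p_prime h h1.1 h1.2
  have key : ∀ r : Λ → κ, r = wr s.p → (s.R \ Ro r) ∩ Bd s.p = s.R \ Ro r := by
    intro r hr
    subst hr
    exact Finset.inter_eq_left.2 (hR s.p hpn)
  have hL := h.L
  have hRR := h.R
  have kL : s.shr (vw s.p s.t) = shrB Bd s (vw s.p s.t) := by
    rcases hv : vw s.p s.t with ⟨w, r, t₁, t₀, v, B, G⟩ | ⟨r, t₁, t₀⟩ | ⟨Sp, u⟩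
    · rw [vw_br hv] at hL
      simp only [St.shr, shrB]
      rw [key r hL.br.2.2.2.1]
    · rfl
    · rfl
  have kR : s.shr (vw s.p s.t') = shrB Bd s (vw s.p s.t') := by
    rcases hv : vw s.p s.t' with ⟨w, r, t₁, t₀, v, B, G⟩ | ⟨r, t₁, t₀⟩ | ⟨Sp, u⟩
    · rw [vw_br hv] at hRR
      simp only [St.shr, shrB]
      rw [key r hRR.br.2.2.2.1]
    · rfl
    · rfl
  rw [kL, kR]
  by_cases hPL : s.isPL
  · simp only [hPL, if_true]
  by_cases hPR : s.isPR
  · simp only [hPL, hPR, if_true, if_false]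
  simp only [hPL, hPR, if_false]
  rcases hv : vw s.p s.t with ⟨w, r, t₁, t₀, v, B, G⟩ | ⟨r, t₁, t₀⟩ | ⟨Sp, u⟩ <;>
  rcases hv' : vw s.p s.t' with ⟨w', r', t₁', t₀', v', B', G'⟩ | ⟨r', t₁', t₀'⟩ | ⟨Sp', u'⟩ <;>
  simp only
  · rw [vw_br hv] at hL
    rw [key r hL.br.2.2.2.1]
  · rw [vw_br hv] at hL
    rw [key r hL.br.2.2.2.1]
  · rw [vw_br hv'] at hRR
    rw [key r' hRR.br.2.2.2.1]

/-- the walk sum of the merges is the walk sum of the bad merges -/
theorem WS_eSHR_eq {stp : Stp Λ κ} {Bd : ℕ → Finset (Λ × Λ)} (hB : Refines wr Bd) {s : St Λ κ}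
    (hs : InvR wr Ad μ ν Bd s) : WS stp (eSHR stp) s = WS stp (eBR stp Bd) s := by
  apply le_antisymm
  · exact W_mono (Inv := InvR wr Ad μ ν Bd) (fun s => nxt_rank stp s)
      (fun s hs => hs.next hB) (fun s hs => (eSHR_eq_eBR hs).le) s hs
  · exact W_mono (Inv := InvR wr Ad μ ν Bd) (fun s => nxt_rank stp s)
      (fun s hs => hs.next hB) (fun s hs => (eSHR_eq_eBR hs).ge) s hs

lemma Qs_empty {s : St Λ κ} (h : s.R = ∅) : Qs s = 0 := by
  simp [Qs, Q, h]

lemma eBR_empty (stp : Stp Λ κ) (s : St Λ κ) : eBR stp (fun _ => ∅) s = 0 := by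
  have k : ∀ v : Vw Λ κ, shrB (fun _ => ∅) s v = 0 := by
    intro v
    rcases v with ⟨w, r, t₁, t₀, v, B, G⟩ | ⟨r, t₁, t₀⟩ | ⟨Sp, u⟩
    · exact Qs_empty (by simp)
    · rfl
    · rfl
  unfold eBR
  by_cases h1 : s.t.isLeaf ∨ s.t'.isLeaf
  · simp only [h1, if_true]
  by_cases h2 : stp s
  · simp only [h1, h2, if_true, if_false]
  simp only [h1, h2, if_false, k]
  by_cases hPL : s.isPL
  · simp only [hPL, if_true]
  by_cases hPR : s.isPR
  · simp only [hPL, hPR, if_true, if_false]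
  simp only [hPL, hPR, if_false]
  rcases hv : vw s.p s.t with ⟨w, r, t₁, t₀, v, B, G⟩ | ⟨r, t₁, t₀⟩ | ⟨Sp, u⟩ <;>
  rcases hv' : vw s.p s.t' with ⟨w', r', t₁', t₀', v', B', G'⟩ | ⟨r', t₁', t₀'⟩ | ⟨Sp', u'⟩ <;>
  simp only
  · exact Qs_empty (by simp)
  · exact Qs_empty (by simp)
  · exact Qs_empty (by simp)

/-- **classes which refine downwards: no merges** -/
theorem WS_eSHR_zero {stp : Stp Λ κ} (hB : Refines wr (fun _ => ∅)) {s : St Λ κ}
    (hs : InvR wr Ad μ ν (fun _ => ∅) s) : WS stp (eSHR stp) s = 0 := by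
  rw [WS_eSHR_eq hB hs]
  apply le_antisymm
  · have := W_le_super (Inv := InvR wr Ad μ ν (fun _ => ∅)) (Φ := fun _ => (0 : ℝ))
      (loc := eBR stp (fun _ => ∅)) (fun s => nxt_rank stp s)
      (fun s hs => hs.next hB) (fun s hs => by
        rw [eBR_empty]
        simp) s hs
    exact this
  · exact W_nonneg (Inv := InvR wr Ad μ ν (fun _ => ∅)) (fun s => nxt_rank stp s)
      (fun s hs => hs.next hB) (fun s hs => (eBR_empty stp s).ge) s hs

/-- the self state -/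
lemma InvR_self {Bd : ℕ → Finset (Λ × Λ)} {d : DT Λ κ} {A : Finset Λ} (h : Side wr Ad μ ν n d A)
    (hp : ∀ p ≤ n, Ro d.g.part \ Ro (wr p) ⊆ Bd p) : InvR wr Ad μ ν Bd (selfSt d A) :=
  ⟨n, Inv_self h, hp⟩

/-- pairwise form of `Refines` : a pair which is related above and not below is bad -/
lemma Refines_iff {Bd : ℕ → Finset (Λ × Λ)} : Refines wr Bd ↔ ∀ p' p, p < p' → ∀ i j : Λ,
    WRel.rel (wr p' i) (wr p' j) → ¬ WRel.rel (wr p i) (wr p j) → (i, j) ∈ Bd p := by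
  constructor
  · intro h p' p hp i j h1 h2
    exact h p' p hp (Finset.mem_sdiff.2 ⟨mem_Ro.2 h1, fun h => h2 (mem_Ro.1 h)⟩)
  · intro h p' p hp e he
    rw [Finset.mem_sdiff] at he
    exact h p' p hp e.1 e.2 (mem_Ro.1 he.1) fun h' => he.2 (mem_Ro.2 h')

end Crest.Agent.R4P.SHR0_245
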