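import Crest.Agent.R4P.Joi_943

/-!
R4 (S0004), [T6], helper18: **one real class of one node has one root label** (pure rationals, `Lab`,
`lab0`).

`θ = B γ`, `B` = the product of the missing ties of the node.  At the column `l` of a tie the P item
(cofactor `wP`) and the N item (cofactor `wN`, `l ∤ wN`) carry labels of the SAME `θ` (the state of an
item at its own missing tie `l` uses the missing ties `> l` only).  If the two real centres coincide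
and the type `(x, y)` (`wP = x g`, `wN = y g`) is small, the two labels are equal.

* `den_dvd_of` : `m a = n + m' b`, `m` coprime to `den a` => `den a ∣ den b`-type divisibility.
* `same_root`  : the abstract statement, multipliers `m`, `m'` coprime to the denominators.
* `same_root_tie` : thin P and N at a tie `l`; `same_root_up` : the same at the upper stage (fat P).
* `same_root_lab0` : on `lab0`, from the equality of the centres.
* `acc_or_den` : two different labels of one `θ`: the product of the denominators is large.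
-/

set_option autoImplicit false

namespace Crest.Agent.R4P.SRoot18

open Crest.Agent.R4.LF363 Crest.Agent.R4P.W363

/-- the denominator of `n + c b` divides that of `b` -/
lemma den_lin_dvd (n : ℤ) (c : ℕ) (b : ℚ) : ((n : ℚ) + c * b).den ∣ b.den := by
  have e : (n : ℚ) + c * b = Rat.divInt (n * b.den + c * b.num) (b.den : ℤ) := by
    rw [Rat.divInt_eq_div]
    have hb : (b.den : ℚ) ≠ 0 := by exact_mod_cast b.den_nz
    conv_lhs => rw [← Rat.num_div_den b]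
    push_cast
    field_simp
  rw [e]
  have := Rat.den_dvd (n * b.den + c * b.num) (b.den : ℤ)
  exact_mod_cast this

/-- `c a = z`, `c = y m`, `m` coprime to `den a`: `den a ∣ y * den z` -/
lemma den_dvd_mul {a z : ℚ} {y m : ℕ} (hc : ((y * m : ℕ) : ℚ) * a = z)
    (hm : Nat.Coprime m a.den) (hpos : 0 < y * m) : a.den ∣ y * z.den := by
  have h1 : a = z / ((y * m : ℕ) : ℚ) := by
    have : ((y * m : ℕ) : ℚ) ≠ 0 := by exact_mod_cast hpos.ne'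
    rw [← hc]; field_simp
  have h2 : a.den ∣ z.den * (y * m) := by
    rw [h1]; exact Joi943.den_div_dvd z (y * m)
  have h3 : a.den ∣ (y * z.den) * m := by
    have e : z.den * (y * m) = (y * z.den) * m := by ring
    rwa [e] at h2
  exact Nat.Coprime.dvd_of_dvd_mul_right hm.symm h3

/-- two rationals differ by at least `1 / (k k')` -/
lemma gap {a b : ℚ} (h : a ≠ b) : (1 : ℝ) ≤ (a.den : ℝ) * b.den * |(a : ℝ) - b| := by
  have h1 := rat_gap h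
  calc (1 : ℝ) ≤ _ := h1
    _ = (a.den : ℝ) * b.den * |(a : ℝ) - b| := by push_cast; ring

/-- **one class, one label** (abstract) -/
theorem same_root {θ r₁ r₂ : ℝ} {ρ₁ ρ₂ : ℚ} {x y m m' : ℕ} (hx : 0 < x) (hy : 0 < y) (hm0 : 0 < m)
    (hm0' : 0 < m') (h1 : Lab θ r₁ ρ₁) (h2 : Lab θ r₂ ρ₂)
    (hc : ∃ n : ℤ, ((y * m : ℕ) : ℚ) * ρ₁ = n + ((x * m' : ℕ) : ℚ) * ρ₂)
    (hm : Nat.Coprime m ρ₁.den) (hm' : Nat.Coprime m' ρ₂.den)
    (hT1 : (2 * (x : ℝ)) ^ 5 * r₁ ^ 2 < 1) (hT2 : (2 * (y : ℝ)) ^ 5 * r₂ ^ 2 < 1) : ρ₁ = ρ₂ := by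
  by_contra hne
  obtain ⟨n, hn⟩ := hc
  -- divisibility of the denominators
  have d1 : ρ₁.den ∣ y * ρ₂.den := by
    refine (den_dvd_mul (z := n + ((x * m' : ℕ) : ℚ) * ρ₂) hn hm (Nat.mul_pos hy hm0)).trans ?_
    exact Nat.mul_dvd_mul_left y (den_lin_dvd n (x * m') ρ₂)
  have d2 : ρ₂.den ∣ x * ρ₁.den := by
    have e : ((x * m' : ℕ) : ℚ) * ρ₂ = ((-n : ℤ) : ℚ) + ((y * m : ℕ) : ℚ) * ρ₁ := by
      rw [hn]; push_cast; ring
    refine (den_dvd_mul (z := ((-n : ℤ) : ℚ) + ((y * m : ℕ) : ℚ) * ρ₁) e hm'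
      (Nat.mul_pos hx hm0')).trans ?_
    exact Nat.mul_dvd_mul_left x (den_lin_dvd (-n) (y * m) ρ₁)
  have k1 : (ρ₁.den : ℝ) ≤ y * ρ₂.den := by
    exact_mod_cast Nat.le_of_dvd (Nat.mul_pos hy ρ₂.den_pos) d1
  have k2 : (ρ₂.den : ℝ) ≤ x * ρ₁.den := by
    exact_mod_cast Nat.le_of_dvd (Nat.mul_pos hx ρ₁.den_pos) d2
  have p1 : (0 : ℝ) < ρ₁.den := by exact_mod_cast ρ₁.den_pos
  have p2 : (0 : ℝ) < ρ₂.den := by exact_mod_cast ρ₂.den_pos
  have hg := gap hne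
  have hr1 := h1.pos
  have hr2 := h2.pos
  -- the distance
  set e : ℝ := max |θ - ρ₁| |θ - ρ₂| with he
  have e0 : 0 ≤ e := le_trans (abs_nonneg _) (le_max_left _ _)
  have hd : |(ρ₁ : ℝ) - ρ₂| ≤ 2 * e := by
    have := abs_sub (θ - ρ₂) (θ - ρ₁)
    have e' : (θ - ρ₂) - (θ - ρ₁) = (ρ₁ : ℝ) - ρ₂ := by ring
    rw [e'] at this
    have a1 : |θ - ρ₁| ≤ e := le_max_left _ _
    have a2 : |θ - ρ₂| ≤ e := le_max_right _ _
    linarith
  have h1k : 1 ≤ (ρ₁.den : ℝ) * ρ₂.den * (2 * e) :=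
    hg.trans (mul_le_mul_of_nonneg_left hd (by positivity))
  have h5 : 1 ≤ ((ρ₁.den : ℝ) * ρ₂.den) ^ 5 * (32 * e ^ 5) := by
    have := one_le_pow₀ h1k (n := 5)
    have e'' : ((ρ₁.den : ℝ) * ρ₂.den * (2 * e)) ^ 5 =
        ((ρ₁.den : ℝ) * ρ₂.den) ^ 5 * (32 * e ^ 5) := by ring
    linarith [this, e''.le, e''.ge]
  rcases le_total r₂ r₁ with hr | hr
  · -- `r₁` is the larger radius
    have he5 : e ^ 5 ≤ r₁ ^ 4 := by
      rcases le_total |θ - ρ₁| |θ - ρ₂| with hh | hh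
      · rw [he, max_eq_right hh]
        exact h2.near.trans (pow_le_pow_left₀ hr2.le hr 4)
      · rw [he, max_eq_left hh]
        exact h1.near
    have hk : ((ρ₁.den : ℝ) * ρ₂.den) ^ 5 * r₁ ^ 2 ≤ (x : ℝ) ^ 5 := by
      have a1 : (ρ₁.den : ℝ) * ρ₂.den ≤ x * (ρ₁.den : ℝ) ^ 2 := by nlinarith
      have a2 : ((ρ₁.den : ℝ) * ρ₂.den) ^ 5 ≤ (x * (ρ₁.den : ℝ) ^ 2) ^ 5 :=
        pow_le_pow_left₀ (by positivity) a1 5
      have a3 : ((ρ₁.den : ℝ) ^ 5 * r₁) ^ 2 ≤ 1 := by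
        have := h1.den
        have h0 : 0 ≤ (ρ₁.den : ℝ) ^ 5 * r₁ := by positivity
        nlinarith
      calc ((ρ₁.den : ℝ) * ρ₂.den) ^ 5 * r₁ ^ 2 ≤ (x * (ρ₁.den : ℝ) ^ 2) ^ 5 * r₁ ^ 2 :=
            mul_le_mul_of_nonneg_right a2 (by positivity)
        _ = (x : ℝ) ^ 5 * ((ρ₁.den : ℝ) ^ 5 * r₁) ^ 2 := by ring
        _ ≤ (x : ℝ) ^ 5 * 1 := mul_le_mul_of_nonneg_left a3 (by positivity)
        _ = (x : ℝ) ^ 5 := mul_one _
    have : (1 : ℝ) < 1 := by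
      calc (1 : ℝ) ≤ ((ρ₁.den : ℝ) * ρ₂.den) ^ 5 * (32 * e ^ 5) := h5
        _ ≤ ((ρ₁.den : ℝ) * ρ₂.den) ^ 5 * (32 * r₁ ^ 4) := by
            refine mul_le_mul_of_nonneg_left ?_ (by positivity); linarith
        _ = 32 * r₁ ^ 2 * (((ρ₁.den : ℝ) * ρ₂.den) ^ 5 * r₁ ^ 2) := by ring
        _ ≤ 32 * r₁ ^ 2 * (x : ℝ) ^ 5 := mul_le_mul_of_nonneg_left hk (by positivity)
        _ = (2 * (x : ℝ)) ^ 5 * r₁ ^ 2 := by ring
        _ < 1 := hT1
    exact lt_irrefl _ this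
  · have he5 : e ^ 5 ≤ r₂ ^ 4 := by
      rcases le_total |θ - ρ₁| |θ - ρ₂| with hh | hh
      · rw [he, max_eq_right hh]
        exact h2.near
      · rw [he, max_eq_left hh]
        exact h1.near.trans (pow_le_pow_left₀ hr1.le hr 4)
    have hk : ((ρ₁.den : ℝ) * ρ₂.den) ^ 5 * r₂ ^ 2 ≤ (y : ℝ) ^ 5 := by
      have a1 : (ρ₁.den : ℝ) * ρ₂.den ≤ y * (ρ₂.den : ℝ) ^ 2 := by nlinarith
      have a2 : ((ρ₁.den : ℝ) * ρ₂.den) ^ 5 ≤ (y * (ρ₂.den : ℝ) ^ 2) ^ 5 :=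
        pow_le_pow_left₀ (by positivity) a1 5
      have a3 : ((ρ₂.den : ℝ) ^ 5 * r₂) ^ 2 ≤ 1 := by
        have := h2.den
        have h0 : 0 ≤ (ρ₂.den : ℝ) ^ 5 * r₂ := by positivity
        nlinarith
      calc ((ρ₁.den : ℝ) * ρ₂.den) ^ 5 * r₂ ^ 2 ≤ (y * (ρ₂.den : ℝ) ^ 2) ^ 5 * r₂ ^ 2 :=
            mul_le_mul_of_nonneg_right a2 (by positivity)
        _ = (y : ℝ) ^ 5 * ((ρ₂.den : ℝ) ^ 5 * r₂) ^ 2 := by ring
        _ ≤ (y : ℝ) ^ 5 * 1 := mul_le_mul_of_nonneg_left a3 (by positivity)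
        _ = (y : ℝ) ^ 5 := mul_one _
    have : (1 : ℝ) < 1 := by
      calc (1 : ℝ) ≤ ((ρ₁.den : ℝ) * ρ₂.den) ^ 5 * (32 * e ^ 5) := h5
        _ ≤ ((ρ₁.den : ℝ) * ρ₂.den) ^ 5 * (32 * r₂ ^ 4) := by
            refine mul_le_mul_of_nonneg_left ?_ (by positivity); linarith
        _ = 32 * r₂ ^ 2 * (((ρ₁.den : ℝ) * ρ₂.den) ^ 5 * r₂ ^ 2) := by ring
        _ ≤ 32 * r₂ ^ 2 * (y : ℝ) ^ 5 := mul_le_mul_of_nonneg_left hk (by positivity)
        _ = (2 * (y : ℝ)) ^ 5 * r₂ ^ 2 := by ring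
        _ < 1 := hT2
    exact lt_irrefl _ this

/-- **thin P and N of one real class at a tie `l`** -/
theorem same_root_tie {θ rP rN : ℝ} {ρP ρN : ℚ} {x y l : ℕ} (hx : 0 < x) (hy : 0 < y) (hl : l.Prime)
    (hP : Lab θ rP ρP) (hN : Lab θ rN ρN)
    (hc : ∃ n : ℤ, (y : ℚ) * ρP = n + (x : ℚ) * (l * ρN)) (hd : ¬ l ∣ ρN.den)
    (hT1 : (2 * (x : ℝ)) ^ 5 * rP ^ 2 < 1) (hT2 : (2 * (y : ℝ)) ^ 5 * rN ^ 2 < 1) : ρP = ρN := by
  obtain ⟨n, hn⟩ := hc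
  refine same_root (m := 1) (m' := l) hx hy one_pos hl.pos hP hN ⟨n, ?_⟩ (Nat.coprime_one_left _)
    ((Nat.Prime.coprime_iff_not_dvd hl).2 hd) hT1 hT2
  push_cast
  rw [mul_one, hn]; ring

/-- **fat P (label of the stage `b`, `B = s b`) and N**, the label of N persists to the stage `b` -/
theorem same_root_up {θ rP rN : ℝ} {ρP ρN : ℚ} {x y l s : ℕ} (hx : 0 < x) (hy : 0 < y)
    (hl : l.Prime) (hs : s.Prime) (hP : Lab θ rP ρP) (hN : Lab (s * θ) (s * rN) ρN)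
    (hpers : (s : ℤ) ∣ ρN.num)
    (hc : ∃ n : ℤ, (y : ℚ) * (s * ρP) = n + (x : ℚ) * (l * ρN)) (hd : ¬ l ∣ ρN.den)
    (hsP : ¬ s ∣ ρP.den)
    (hT1 : (2 * (x : ℝ)) ^ 5 * rP ^ 2 < 1) (hT2 : (2 * (y : ℝ)) ^ 5 * rN ^ 2 < 1) :
    ρP = ρN / s := by
  obtain ⟨n, hn⟩ := hc
  have hs0 : (s : ℚ) ≠ 0 := by exact_mod_cast hs.ne_zero
  have hsR : (0 : ℝ) < s := by exact_mod_cast hs.pos
  have hrN : 0 < rN := by
    have := hN.pos
    exact (mul_pos_iff_of_pos_left hsR).1 this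
  have hdd : (ρN / s : ℚ).den ∣ ρN.den := Joi943.den_div_of_dvd ρN hs.pos hpers
  have hle : ((ρN / s : ℚ).den : ℝ) ≤ ρN.den := by
    exact_mod_cast Nat.le_of_dvd ρN.den_pos hdd
  have hs1 : (1 : ℝ) ≤ s := by exact_mod_cast hs.one_lt.le
  have hden : ((ρN / s : ℚ).den : ℝ) ^ 5 * rN ≤ 1 := by
    calc ((ρN / s : ℚ).den : ℝ) ^ 5 * rN ≤ (ρN.den : ℝ) ^ 5 * rN :=
          mul_le_mul_of_nonneg_right (pow_le_pow_left₀ (Nat.cast_nonneg _) hle 5) hrN.le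
      _ ≤ (ρN.den : ℝ) ^ 5 * (s * rN) := by
          refine mul_le_mul_of_nonneg_left ?_ (by positivity)
          nlinarith
      _ ≤ 1 := hN.den
  have hN' : Lab θ rN (ρN / s) := Joi943.persist hs.pos hN hden
  -- `s` does not divide the denominator of `ρN / s`
  have hcop : Nat.Coprime ρN.num.natAbs ρN.den := ρN.reduced
  have hsN : ¬ s ∣ (ρN / s : ℚ).den := by
    intro h
    have h1 : s ∣ ρN.den := h.trans hdd
    have h2 : s ∣ ρN.num.natAbs := Int.natCast_dvd.1 hpers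
    have h3 : s ∣ Nat.gcd ρN.num.natAbs ρN.den := Nat.dvd_gcd h2 h1
    rw [hcop] at h3
    exact hs.one_lt.ne' (Nat.dvd_one.1 h3)
  have hlN : ¬ l ∣ (ρN / s : ℚ).den := fun h => hd (h.trans hdd)
  refine same_root (m := s) (m' := l * s) hx hy hs.pos (Nat.mul_pos hl.pos hs.pos) hP hN'
    ⟨n, ?_⟩ ((Nat.Prime.coprime_iff_not_dvd hs).2 hsP) ?_ hT1 hT2
  · push_cast
    have e : (x : ℚ) * (l * s) * (ρN / s) = x * (l * ρN) := by field_simp
    rw [e, ← hn]; ring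
  · exact Nat.Coprime.mul_left ((Nat.Prime.coprime_iff_not_dvd hl).2 hlN)
      ((Nat.Prime.coprime_iff_not_dvd hs).2 hsN)

/-- **on `lab0`**: P item `(ψP, wP = x g)`, N item `(ψN, wN = y g)` of one node (missing product `B`),
both with the label of the stage `B`; centres `(n + B σ) / w` and `(n' + l B σ') / w'` equal. -/
theorem same_root_lab0 {γ ψP ψN : ℝ} {B l x y g : ℕ} {σP σN : ℚ} (hB : 0 < B) (hx : 0 < x)
    (hy : 0 < y) (hg : 0 < g) (hl : l.Prime) (hP : lab0 γ ψP B = some σP)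
    (hN : lab0 γ ψN B = some σN) {n n' : ℤ}
    (hc : ((n : ℚ) + B * σP) / ((x * g : ℕ) : ℚ) = ((n' : ℚ) + l * (B * σN)) / ((y * g : ℕ) : ℚ))
    (hd : ¬ l ∣ (B * σN : ℚ).den)
    (hT1 : (2 * (x : ℝ)) ^ 5 * (B * ψP) ^ 2 < 1) (hT2 : (2 * (y : ℝ)) ^ 5 * (B * ψN) ^ 2 < 1) :
    σP = σN := by
  have h1 := lab0_spec hB hP
  have h2 := lab0_spec hB hN
  have hx' : (x : ℚ) ≠ 0 := by exact_mod_cast hx.ne'
  have hy' : (y : ℚ) ≠ 0 := by exact_mod_cast hy.ne'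
  have hg' : (g : ℚ) ≠ 0 := by exact_mod_cast hg.ne'
  have hB' : (B : ℚ) ≠ 0 := by exact_mod_cast hB.ne'
  have key : (y : ℚ) * (B * σP) = ((x * n' - y * n : ℤ) : ℚ) + (x : ℚ) * (l * (B * σN)) := by
    push_cast at hc ⊢
    rw [div_eq_div_iff (mul_ne_zero hx' hg') (mul_ne_zero hy' hg')] at hc
    have h3 : ((n : ℚ) + B * σP) * y = (n' + l * (B * σN)) * x := by
      have : ((n : ℚ) + B * σP) * y * g = (n' + l * (B * σN)) * x * g := by linarith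
      exact mul_right_cancel₀ hg' this
    linarith
  have := same_root_tie hx hy hl h1 h2 ⟨_, key⟩ hd hT1 hT2
  exact mul_left_cancel₀ hB' this

/-- two different labels of one `θ`: `1 ≤ k₁ k₂ (|θ - ρ₁| + |θ - ρ₂|)` -/
theorem acc_or_den {θ : ℝ} {ρ₁ ρ₂ : ℚ} (hne : ρ₁ ≠ ρ₂) :
    (1 : ℝ) ≤ (ρ₁.den : ℝ) * ρ₂.den * (|θ - ρ₁| + |θ - ρ₂|) := by
  refine (gap hne).trans (mul_le_mul_of_nonneg_left ?_ (by positivity))
  have := abs_sub (θ - ρ₂) (θ - ρ₁)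
  have e' : (θ - ρ₂) - (θ - ρ₁) = (ρ₁ : ℝ) - ρ₂ := by ring
  rw [e'] at this
  linarith

end Crest.Agent.R4P.SRoot18
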