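import Crest.Agent.R4P.HgR_9
import Crest.Agent.R4P.RsSum_19

/-!
R4 (S0004), powers, helper9, [TgtCrs] (2): **from the group walk to the tree**.

* `pp l` : the largest prime `≤ l`; `kdp wr ix l = ix ∘ wr (pp l)` : the classes of the group walk.
* `CP p c` : the child `c` of a column `p` has the next column; `CPn` : at all the nodes.
* `SS_le_SSd` : `SS W kd n p [(1, t)] ≤ 8 W (chg wr p t + SSd wr t)` for `p + dep t ≤ n`.
* `HgL_mono` : the heights increase with the fuel.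
* **`HgL_tree`** : `I (HgL² - H0²) ≤ 8 W SSd` for a single node, any fuel.
-/

set_option autoImplicit false
set_option linter.unusedVariables false
set_option linter.unusedSectionVars false

open MeasureTheory Set

namespace Crest.Agent.R4P.SSp9

open Crest.Agent.R4.Tour104 Crest.Agent.R4.Tour758 Crest.Agent.R4.Clos758
open Crest.Agent.R4.ClosL758 Crest.Agent.R4.ClosG758 Crest.Agent.R4.ClosR758
open Crest.Agent.R4P.Walk560 Crest.Agent.R4P.Grp36 Crest.Agent.R4P.PN36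
open Crest.Agent.R4P.LogG51 Crest.Agent.R4P.LogL51 Crest.Agent.R4P.HgR9
open Crest.Agent.R4P.RsSum19 (Ix chg SSd)

variable {Λ κ : Type*} [Fintype Λ] [DecidableEq Λ] [Fintype κ] [DecidableEq κ]
  {δ : Type*} [Fintype δ] [DecidableEq δ]

/-! ### linearity -/

lemma SS_zero (W : ℝ) (kd : ℕ → Λ → δ) (p : ℕ) (g : Gp Λ κ) :
    SS W kd 0 p g = 4 * W * ls (eE (kd p)) g := rfl

lemma SS_succ0 (W : ℝ) (kd : ℕ → Λ → δ) (n : ℕ) (g : Gp Λ κ) :
    SS W kd (n + 1) 0 g = 4 * W * ls (eE (kd 0)) g := by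
  conv_lhs => unfold SS
  rw [if_pos rfl]

lemma SS_succ (W : ℝ) (kd : ℕ → Λ → δ) (n : ℕ) {p : ℕ} (hp : p ≠ 0) (g : Gp Λ κ) :
    SS W kd (n + 1) p g =
      8 * W * ls (eA p (kd p)) g + 4 * W * ls (eE (kd p)) (gL p g) +
        8 * W * ls (eT (kd p)) (gB p g) + 4 * W * ls (eC (kd p) (kd (p - 1))) (gN p g) +
        SS W kd n p (gC p g) + SS W kd n (p - 1) (gN p g) := by
  conv_lhs => unfold SS
  rw [if_neg hp]

lemma SS_append (W : ℝ) (kd : ℕ → Λ → δ) : ∀ (n p : ℕ) (g h : Gp Λ κ),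
    SS W kd n p (g ++ h) = SS W kd n p g + SS W kd n p h := by
  intro n
  induction n with
  | zero => intro p g h; rw [SS_zero, SS_zero, SS_zero, ls_append]; ring
  | succ n ih =>
    intro p g h
    by_cases hp : p = 0
    · subst hp; rw [SS_succ0, SS_succ0, SS_succ0, ls_append]; ring
    · rw [SS_succ W kd n hp, SS_succ W kd n hp, SS_succ W kd n hp, gL_append, gB_append, gN_append,
        gC_append, ls_append, ls_append, ls_append, ls_append, ih, ih]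
      ring

lemma SS_smG (W : ℝ) (kd : ℕ → Λ → δ) : ∀ (n p : ℕ) (c : ℝ) (g : Gp Λ κ),
    SS W kd n p (smG c g) = c * SS W kd n p g := by
  intro n
  induction n with
  | zero => intro p c g; rw [SS_zero, SS_zero, ls_smG]; ring
  | succ n ih =>
    intro p c g
    by_cases hp : p = 0
    · subst hp; rw [SS_succ0, SS_succ0, ls_smG]; ring
    · rw [SS_succ W kd n hp, SS_succ W kd n hp, gL_smG, gB_smG, gN_smG,
        gC_smG, ls_smG, ls_smG, ls_smG, ls_smG, ih, ih]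
      ring

lemma SS_nil (W : ℝ) (kd : ℕ → Λ → δ) (n p : ℕ) : SS W kd n p ([] : Gp Λ κ) = 0 := by
  have := SS_append W kd n p ([] : Gp Λ κ) []
  rw [List.append_nil] at this
  linarith

lemma SS_one (W : ℝ) (kd : ℕ → Λ → δ) (n p : ℕ) (c : ℝ) (t : DT Λ κ) :
    SS W kd n p [(c, t)] = c * SS W kd n p [(1, t)] := by
  rw [← SS_smG]
  simp [smG]

lemma SS_two (W : ℝ) (kd : ℕ → Λ → δ) (n p : ℕ) (c c' : ℝ) (t t' : DT Λ κ) :
    SS W kd n p [(c, t), (c', t')] = c * SS W kd n p [(1, t)] + c' * SS W kd n p [(1, t')] := by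
  have := SS_append W kd n p [(c, t)] [(c', t')]
  rw [List.singleton_append] at this
  rw [this, SS_one, SS_one W kd n p c']

/-- the sums only see the resolved group -/
lemma SS_congr (W : ℝ) (kd : ℕ → Λ → δ) (n : ℕ) {p : ℕ} (hp : p ≠ 0) {g h : Gp Λ κ}
    (e : rsG p g = rsG p h) : SS W kd (n + 1) p g - 8 * W * ls (eA p (kd p)) g =
      SS W kd (n + 1) p h - 8 * W * ls (eA p (kd p)) h := by
  have eB : gB p g = gB p h := by unfold gB; rw [e]
  have eR : gR p g = gR p h := by unfold gR; rw [e]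
  have eL : gL p g = gL p h := by unfold gL; rw [eR]
  have eN : gN p g = gN p h := by unfold gN; rw [eR]
  have eC : gC p g = gC p h := by unfold gC; rw [eB]
  rw [SS_succ W kd n hp, SS_succ W kd n hp, eB, eL, eN, eC]
  ring

/-! ### a single node -/

/-- a leaf -/
lemma SS_leaf (W : ℝ) (kd : ℕ → Λ → δ) (n : ℕ) {p : ℕ} (hp : p ≠ 0) (r : Λ → κ) (f : Λ → ℝ → ℝ) :
    SS W kd (n + 1) p [(1, (.leaf r f : DT Λ κ))] = 4 * W * Q (Dr (kd p)) f f := by
  rw [SS_succ W kd n hp]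
  have e1 : gB p [((1 : ℝ), (.leaf r f : DT Λ κ))] = [] := by simp [gB, rsG, rs, isB]
  have e2 : gL p [((1 : ℝ), (.leaf r f : DT Λ κ))] = [(1, .leaf r f)] := by
    simp [gL, gR, rsG, rs, isB, isLf]
  have e3 : gN p [((1 : ℝ), (.leaf r f : DT Λ κ))] = [] := by simp [gN, gR, rsG, rs, isB, isLf]
  have e4 : gC p [((1 : ℝ), (.leaf r f : DT Λ κ))] = [] := by unfold gC; rw [e1]; rfl
  have e5 : ls (eE (kd p)) [((1 : ℝ), (.leaf r f : DT Λ κ))] = Q (Dr (kd p)) f f := by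
    rw [ls_cons, ls_nil]
    show 1 * Q (Dr (kd p)) f f + 0 = _
    ring
  have e6 : ls (eA p (kd p)) [((1 : ℝ), (.leaf r f : DT Λ κ))] = 0 := by
    rw [ls_cons, ls_nil]
    simp [eA]
  rw [e1, e2, e3, e4, SS_nil, SS_nil, e5, e6, ls_nil, ls_nil]
  ring

/-- a waiting node -/
lemma SS_wait (W : ℝ) (kd : ℕ → Λ → δ) (n : ℕ) {p : ℕ} (hp : p ≠ 0) {t : DT Λ κ}
    (hl : ¬ t.isLeaf) (ht : t.top ≠ p) :
    SS W kd (n + 1) p [(1, t)] = 4 * W * eC (kd p) (kd (p - 1)) t + SS W kd n (p - 1) [(1, t)] := by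
  rw [SS_succ W kd n hp]
  have hrs : rs p t = [t] := by
    cases t with
    | leaf r f => exact absurd trivial hl
    | br q w r t₁ t₀ v B G => rfl
    | add q r t₁ t₀ => unfold rs; rw [if_neg (show ¬ q = p from ht)]
    | up q Sp t => unfold rs; rw [if_neg (show ¬ q = p from ht)]
  have hB : isB p t = false := by
    cases t with
    | leaf r f => rfl
    | br q w r t₁ t₀ v B G =>
      have : ¬ q = p := ht
      simp [isB, this]
    | add q r t₁ t₀ => rfl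
    | up q Sp t => rfl
  have hL : isLf t = false := (isLf_false_iff t).2 hl
  have hA : eA p (kd p) t = 0 := by
    cases t with
    | leaf r f => rfl
    | br q w r t₁ t₀ v B G => rfl
    | add q r t₁ t₀ => unfold eA; rw [if_neg (show ¬ q = p from ht)]
    | up q Sp t => unfold eA; rw [if_neg (show ¬ q = p from ht)]
  have e1 : gB p [((1 : ℝ), t)] = [] := by simp [gB, rsG, hrs, hB]
  have e2 : gL p [((1 : ℝ), t)] = [] := by simp [gL, gR, rsG, hrs, hB, hL]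
  have e3 : gN p [((1 : ℝ), t)] = [(1, t)] := by simp [gN, gR, rsG, hrs, hB, hL]
  have e4 : gC p [((1 : ℝ), t)] = [] := by unfold gC; rw [e1]; rfl
  rw [e1, e2, e3, e4, SS_nil, ls_nil, ls_nil, ls_cons, ls_cons, ls_nil, ls_nil, hA]
  ring

/-- a tie or pull -/
lemma SS_br (W : ℝ) (kd : ℕ → Λ → δ) (n : ℕ) {p : ℕ} (hp : p ≠ 0) (w : ℝ) (r : Λ → κ)
    (t₁ t₀ : DT Λ κ) (v : Λ → ℝ → ℝ) (B G : κ → ℝ → ℝ) :
    SS W kd (n + 1) p [(1, .br p w r t₁ t₀ v B G)] =
      8 * W * (w * Q (Dr (kd p) \ Dr r) t₁.g.val t₀.g.val) +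
        ((1 - w) * SS W kd n p [(1, t₁)] + w * SS W kd n p [(1, t₀)]) := by
  rw [SS_succ W kd n hp]
  have e1 : gB p [((1 : ℝ), (.br p w r t₁ t₀ v B G : DT Λ κ))] =
      [(1, .br p w r t₁ t₀ v B G)] := by simp [gB, rsG, rs, isB]
  have e2 : gL p [((1 : ℝ), (.br p w r t₁ t₀ v B G : DT Λ κ))] = [] := by
    simp [gL, gR, rsG, rs, isB]
  have e3 : gN p [((1 : ℝ), (.br p w r t₁ t₀ v B G : DT Λ κ))] = [] := by
    simp [gN, gR, rsG, rs, isB]
  have e4 : gC p [((1 : ℝ), (.br p w r t₁ t₀ v B G : DT Λ κ))] =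
      [(1 * (1 - w), t₁), (1 * w, t₀)] := by unfold gC; rw [e1]; rfl
  rw [e1, e2, e3, e4, SS_nil, SS_two, ls_nil, ls_nil, ls_cons, ls_cons, ls_nil, ls_nil]
  show 8 * W * (1 * 0 + 0) + 4 * W * 0 + 8 * W * (1 * (w * Q (Dr (kd p) \ Dr r) t₁.g.val t₀.g.val)
    + 0) + 4 * W * 0 + (1 * (1 - w) * SS W kd n p [(1, t₁)] + 1 * w * SS W kd n p [(1, t₀)]) + 0 = _
  ring

/-- an add node -/
lemma SS_add (W : ℝ) (kd : ℕ → Λ → δ) (n : ℕ) {p : ℕ} (hp : p ≠ 0) (r : Λ → κ) (t₁ t₀ : DT Λ κ) :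
    SS W kd (n + 1) p [(1, .add p r t₁ t₀)] =
      8 * W * Q (Dr (kd p)) t₁.g.val t₀.g.val + SS W kd (n + 1) p [(1, t₁)] +
        SS W kd (n + 1) p [(1, t₀)] := by
  have e : rsG p [((1 : ℝ), (.add p r t₁ t₀ : DT Λ κ))] = rsG p [((1 : ℝ), t₁), (1, t₀)] := by
    simp [rsG, rs]
  have h := SS_congr W kd n hp e
  have h2 := SS_two W kd (n + 1) p 1 1 t₁ t₀
  have h3 : ls (eA p (kd p)) [((1 : ℝ), (.add p r t₁ t₀ : DT Λ κ))] =
      eA p (kd p) t₁ + eA p (kd p) t₀ + Q (Dr (kd p)) t₁.g.val t₀.g.val := by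
    have he : eA p (kd p) (.add p r t₁ t₀ : DT Λ κ) =
        eA p (kd p) t₁ + eA p (kd p) t₀ + Q (Dr (kd p)) t₁.g.val t₀.g.val := by
      conv_lhs => unfold eA
      rw [if_pos rfl]
    rw [ls_cons, ls_nil, he]
    ring
  have h4 : ls (eA p (kd p)) [((1 : ℝ), t₁), (1, t₀)] = eA p (kd p) t₁ + eA p (kd p) t₀ := by
    rw [ls_cons, ls_cons, ls_nil]; ring
  rw [h3, h4, h2] at h
  linarith

/-- an up node -/
lemma SS_up (W : ℝ) (kd : ℕ → Λ → δ) (n : ℕ) {p : ℕ} (hp : p ≠ 0) (Sp : Finset Λ) (t : DT Λ κ) :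
    SS W kd (n + 1) p [(1, .up p Sp t)] = SS W kd (n + 1) p [(1, t)] := by
  have e : rsG p [((1 : ℝ), (.up p Sp t : DT Λ κ))] = rsG p [((1 : ℝ), t)] := by
    simp [rsG, rs]
  have h := SS_congr W kd n hp e
  have h3 : ls (eA p (kd p)) [((1 : ℝ), (.up p Sp t : DT Λ κ))] =
      ls (eA p (kd p)) [((1 : ℝ), t)] := by
    rw [ls_cons, ls_nil, ls_cons, ls_nil]
    conv_lhs => unfold eA
    rw [if_pos rfl]
  rw [h3] at h
  linarith

/-! ### the classes of the walk -/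

/-- the largest prime `≤ l` -/
noncomputable def pp (l : ℕ) : ℕ := Nat.findGreatest Nat.Prime l

lemma pp_prime {p : ℕ} (hp : p.Prime) : pp p = p := Nat.findGreatest_eq hp

lemma pp_eq {q l : ℕ} (hq : q.Prime) (hl : q ≤ l) (h : ∀ r, r.Prime → r ≤ l → r ≤ q) :
    pp l = q := by
  refine le_antisymm ?_ (Nat.le_findGreatest hl hq)
  exact h _ (Nat.findGreatest_spec hl hq) (Nat.findGreatest_le l)

/-- the classes of the group walk: those of the largest prime `≤ l` -/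
noncomputable def kdp (wr : ℕ → Λ → κ) (ix : κ → δ) (l : ℕ) (j : Λ) : δ := ix (wr (pp l) j)

lemma kdp_prime (wr : ℕ → Λ → κ) (ix : κ → δ) {p : ℕ} (hp : p.Prime) :
    kdp wr ix p = fun j => ix (wr p j) := by
  funext j
  show ix (wr (pp p) j) = _
  rw [pp_prime hp]

/-- the child `c` of the column `p` has the next column -/
def CP (p : ℕ) (c : DT Λ κ) : Prop :=
  c.isLeaf ∨ (c.top.Prime ∧ c.top ≤ p ∧ ∀ r, r.Prime → r < p → r ≤ c.top)

/-- at a node -/
def CPn (wr : ℕ → Λ → κ) : DT Λ κ → Prop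
  | .leaf _ _ => True
  | .br p w r t₁ t₀ _ _ _ => p.Prime ∧ 0 ≤ w ∧ w ≤ 1 ∧ r = wr p ∧ CP p t₁ ∧ CP p t₀
  | .add p _ t₁ t₀ => p.Prime ∧ CP p t₁ ∧ CP p t₀
  | .up p _ t => p.Prime ∧ CP p t

/-- number of ties and pulls on a path -/
def dep : DT Λ κ → ℕ
  | .leaf _ _ => 0
  | .br _ _ _ t₁ t₀ _ _ _ => 1 + max (dep t₁) (dep t₀)
  | .add _ _ t₁ t₀ => max (dep t₁) (dep t₀)
  | .up _ _ t => dep t

section walk
variable [WRel κ] {wr : ℕ → Λ → κ} {ix : κ → δ}

lemma Dr_ix (hix : ∀ a b : κ, WRel.rel a b ↔ ix a ≠ ix b) (r : Λ → κ) :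
    Dr (fun j => ix (r j)) = Ix r := by
  classical
  ext e
  unfold Ix Dr
  rw [Finset.mem_sdiff, Finset.mem_filter, mem_Ro]
  simp only [Finset.mem_univ, true_and]
  rw [hix]
  exact not_not.symm

lemma Dr_rs (hix : ∀ a b : κ, WRel.rel a b ↔ ix a ≠ ix b) (r : Λ → κ) :
    Dr (fun j => ix (r j)) \ Dr r = Rr r \ Ro r := by
  classical
  ext e
  unfold Dr Rr
  rw [Finset.mem_sdiff, Finset.mem_sdiff, Finset.mem_filter, Finset.mem_filter, Finset.mem_filter,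
    mem_Ro]
  simp only [Finset.mem_univ, true_and]
  rw [hix]
  constructor
  · rintro ⟨h1, h2⟩; exact ⟨h2, not_not.2 h1⟩
  · rintro ⟨h1, h2⟩; exact ⟨not_not.1 h2, h1⟩

lemma Q_nn {R : Finset (Λ × Λ)} {f g : Λ → ℝ → ℝ} (hf : ∀ j, PB (f j)) (hg : ∀ j, PB (g j)) :
    0 ≤ Q R f g := by
  unfold Q
  exact Finset.sum_nonneg fun e _ => I_nonneg fun x =>
    mul_nonneg ((hf e.1).nonneg x) ((hg e.2).nonneg x)

lemma chg_nn {p : ℕ} {c : DT Λ κ} (h : ∀ j, PB (c.g.val j)) : 0 ≤ chg wr p c := by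
  unfold chg
  split_ifs
  · exact Q_nn h h
  · exact Q_nn h h

/-- the waiting levels without a prime -/
lemma desc0 (W : ℝ) {t : DT Λ κ} (hl : ¬ t.isLeaf) (hq : t.top.Prime) (n : ℕ) : ∀ d : ℕ,
    (∀ r, r.Prime → r ≤ t.top + d → r ≤ t.top) →
    SS W (kdp wr ix) (n + d) (t.top + d) [(1, t)] = SS W (kdp wr ix) n t.top [(1, t)] := by
  intro d
  induction d with
  | zero => intro _; rfl
  | succ d ih =>
    intro h
    have h' : ∀ r, r.Prime → r ≤ t.top + d → r ≤ t.top := fun r hr hh => h r hr (by omega)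
    have e := SS_wait W (kdp wr ix) (n + d) (p := t.top + d + 1) (by omega) hl (by omega)
    have ek : kdp wr ix (t.top + d + 1) = kdp wr ix (t.top + d) := by
      funext j
      show ix (wr (pp (t.top + d + 1)) j) = ix (wr (pp (t.top + d)) j)
      rw [pp_eq hq (by omega) (fun r hr hh => h r hr (by omega)), pp_eq hq (by omega) h']
    have e0 : eC (kdp wr ix (t.top + d + 1)) (kdp wr ix (t.top + d)) t = 0 := by
      unfold eC
      rw [ek, Finset.sdiff_self]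
      simp [Q]
    rw [Nat.add_sub_cancel, e0] at e
    have e2 : n + (d + 1) = n + d + 1 := rfl
    have e3 : t.top + (d + 1) = t.top + d + 1 := rfl
    rw [e2, e3, e, ih h']
    ring

/-- **from the walk to the tree** -/
theorem SS_le_SSd {W : ℝ} (hW : 0 < W) (hix : ∀ a b : κ, WRel.rel a b ↔ ix a ≠ ix b)
    (t : DT Λ κ) : t.All (CPn wr) → (t.All fun t => ∀ j, PB (t.g.val j)) →
    (¬ t.isLeaf → t.top.Prime → ∀ n, t.top + dep t ≤ n →
      SS W (kdp wr ix) n t.top [(1, t)] ≤ 8 * W * SSd wr t) ∧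
    ∀ p, p.Prime → CP p t → ∀ n, p + dep t ≤ n →
      SS W (kdp wr ix) n p [(1, t)] ≤ 8 * W * (chg wr p t + SSd wr t) := by
  classical
  -- the second part from the first one
  have key : ∀ t : DT Λ κ, (∀ j, PB (t.g.val j)) → ¬ t.isLeaf →
      (t.top.Prime → ∀ n, t.top + dep t ≤ n →
        SS W (kdp wr ix) n t.top [(1, t)] ≤ 8 * W * SSd wr t) →
      ∀ p, p.Prime → CP p t → ∀ n, p + dep t ≤ n →
        SS W (kdp wr ix) n p [(1, t)] ≤ 8 * W * (chg wr p t + SSd wr t) := by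
    intro t pv hl h p hp hc n hn
    rcases hc with hc | ⟨hq, hqp, hr⟩
    · exact absurd hc hl
    have h0 := chg_nn (wr := wr) (p := p) pv
    rcases hqp.eq_or_lt with e | hlt
    · have := h hq n (by omega)
      rw [e] at this
      nlinarith
    · obtain ⟨d, hd⟩ : ∃ d, p = t.top + d + 1 := ⟨p - t.top - 1, by omega⟩
      obtain ⟨m, hm⟩ : ∃ m, n = m + d + 1 := ⟨n - d - 1, by omega⟩
      have h1 := SS_wait W (kdp wr ix) (m + d) (p := p) hp.ne_zero hl hlt.ne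
      have h2 := desc0 (wr := wr) (ix := ix) W hl hq m d fun r hr' hh => hr r hr' (by omega)
      have h3 := h hq m (by omega)
      have e1 : p - 1 = t.top + d := by omega
      have ek : kdp wr ix (t.top + d) = kdp wr ix t.top := by
        funext j
        show ix (wr (pp (t.top + d)) j) = ix (wr (pp t.top) j)
        rw [pp_eq hq (by omega) fun r hr' hh => hr r hr' (by omega), pp_prime hq]
      have e2 : eC (kdp wr ix p) (kdp wr ix (p - 1)) t = chg wr p t := by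
        unfold eC chg
        rw [if_neg hl, e1, ek, kdp_prime wr ix hp, kdp_prime wr ix hq, Dr_ix hix, Dr_ix hix]
      rw [hm, h1, e2, e1, h2]
      nlinarith
  induction t with
  | leaf r f =>
    intro _ hp
    refine ⟨fun h => absurd trivial h, fun p hpr _ n hn => ?_⟩
    obtain ⟨m, rfl⟩ : ∃ m, n = m + 1 := ⟨n - 1, by have := hpr.pos; omega⟩
    rw [SS_leaf W (kdp wr ix) m hpr.ne_zero, kdp_prime wr ix hpr, Dr_ix hix]
    have e1 : chg wr p (.leaf r f : DT Λ κ) = Q (Ix (wr p)) f f := by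
      unfold chg
      rw [if_pos (show (DT.leaf r f : DT Λ κ).isLeaf from trivial)]
      rfl
    have e2 : SSd wr (.leaf r f : DT Λ κ) = 0 := rfl
    have h1 : 0 ≤ Q (Ix (wr p)) f f := Q_nn (hp.self) (hp.self)
    rw [e1, e2]
    nlinarith
  | br p w r t₁ t₀ v B G ih₁ ih₀ =>
    intro hc hv
    have own : (DT.br p w r t₁ t₀ v B G : DT Λ κ).top.Prime →
        ∀ n, (DT.br p w r t₁ t₀ v B G : DT Λ κ).top + dep (DT.br p w r t₁ t₀ v B G : DT Λ κ) ≤ n →
        SS W (kdp wr ix) n (DT.br p w r t₁ t₀ v B G : DT Λ κ).top [(1, .br p w r t₁ t₀ v B G)] ≤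
          8 * W * SSd wr (.br p w r t₁ t₀ v B G) := by
      intro hpr n hn
      obtain ⟨hpp, hw0, hw1, hr, c1, c0⟩ := hc.1
      have hn' : p + (1 + max (dep t₁) (dep t₀)) ≤ n := hn
      obtain ⟨m, rfl⟩ : ∃ m, n = m + 1 := ⟨n - 1, by omega⟩
      have i1 := (ih₁ hc.2.1 hv.2.1).2 p hpp c1 m (by omega)
      have i0 := (ih₀ hc.2.2 hv.2.2).2 p hpp c0 m (by omega)
      show SS W (kdp wr ix) (m + 1) p [(1, .br p w r t₁ t₀ v B G)] ≤ _
      rw [SS_br W (kdp wr ix) m hpp.ne_zero, kdp_prime wr ix hpp]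
      have e1 : Dr (fun j => ix (wr p j)) \ Dr r = Rr r \ Ro r := by
        rw [hr]; exact Dr_rs hix (wr p)
      rw [e1]
      have e2 : SSd wr (.br p w r t₁ t₀ v B G : DT Λ κ) =
        w * Q (Rr r \ Ro r) t₁.g.val t₀.g.val +
          ((1 - w) * (chg wr p t₁ + SSd wr t₁) + w * (chg wr p t₀ + SSd wr t₀)) := rfl
      rw [e2]
      have j1 := mul_le_mul_of_nonneg_left i1 (sub_nonneg.2 hw1)
      have j0 := mul_le_mul_of_nonneg_left i0 hw0
      nlinarith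
    exact ⟨fun _ => own, key _ hv.self (fun h => h) own⟩
  | add p r t₁ t₀ ih₁ ih₀ =>
    intro hc hv
    have own : (DT.add p r t₁ t₀ : DT Λ κ).top.Prime →
        ∀ n, (DT.add p r t₁ t₀ : DT Λ κ).top + dep (DT.add p r t₁ t₀ : DT Λ κ) ≤ n →
        SS W (kdp wr ix) n (DT.add p r t₁ t₀ : DT Λ κ).top [(1, .add p r t₁ t₀)] ≤
          8 * W * SSd wr (.add p r t₁ t₀) := by
      intro hpr n hn
      obtain ⟨hpp, c1, c0⟩ := hc.1
      have hn' : p + max (dep t₁) (dep t₀) ≤ n := hn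
      obtain ⟨m, rfl⟩ : ∃ m, n = m + 1 := ⟨n - 1, by have := hpp.pos; omega⟩
      have i1 := (ih₁ hc.2.1 hv.2.1).2 p hpp c1 (m + 1) (by omega)
      have i0 := (ih₀ hc.2.2 hv.2.2).2 p hpp c0 (m + 1) (by omega)
      show SS W (kdp wr ix) (m + 1) p [(1, .add p r t₁ t₀)] ≤ _
      rw [SS_add W (kdp wr ix) m hpp.ne_zero, kdp_prime wr ix hpp, Dr_ix hix]
      have e2 : SSd wr (.add p r t₁ t₀ : DT Λ κ) = 2 * Q (Ix (wr p)) t₁.g.val t₀.g.val +
          ((chg wr p t₁ + SSd wr t₁) + (chg wr p t₀ + SSd wr t₀)) := rfl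
      rw [e2]
      have h1 : 0 ≤ Q (Ix (wr p)) t₁.g.val t₀.g.val := Q_nn hv.2.1.self hv.2.2.self
      nlinarith [mul_nonneg hW.le h1]
    exact ⟨fun _ => own, key _ hv.self (fun h => h) own⟩
  | up p Sp t ih =>
    intro hc hv
    have own : (DT.up p Sp t : DT Λ κ).top.Prime →
        ∀ n, (DT.up p Sp t : DT Λ κ).top + dep (DT.up p Sp t : DT Λ κ) ≤ n →
        SS W (kdp wr ix) n (DT.up p Sp t : DT Λ κ).top [(1, .up p Sp t)] ≤
          8 * W * SSd wr (.up p Sp t) := by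
      intro hpr n hn
      obtain ⟨hpp, c1⟩ := hc.1
      have hn' : p + dep t ≤ n := hn
      obtain ⟨m, rfl⟩ : ∃ m, n = m + 1 := ⟨n - 1, by have := hpp.pos; omega⟩
      have i1 := (ih hc.2 hv.2).2 p hpp c1 (m + 1) (by omega)
      show SS W (kdp wr ix) (m + 1) p [(1, .up p Sp t)] ≤ _
      rw [SS_up W (kdp wr ix) m hpp.ne_zero]
      exact i1
    exact ⟨fun _ => own, key _ hv.self (fun h => h) own⟩

end walk

/-! ### the heights -/

lemma HgL_mono (kd : ℕ → Λ → δ) (H0 : ℝ) : ∀ (n p : ℕ) (g : Gp Λ κ) (x : ℝ),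
    HgL kd H0 n p g x ≤ HgL kd H0 (n + 1) p g x := by
  intro n
  induction n with
  | zero => intro p g x; exact base_le_HgL kd H0 1 p g x
  | succ n ih =>
    intro p g x
    by_cases hp : p = 0
    · subst hp; rw [HgL_succ0, HgL_succ0]
    · rw [HgL_succ kd H0 n hp, HgL_succ kd H0 (n + 1) hp]
      exact max_le_max le_rfl (max_le_max (ih _ _ _) (ih _ _ _))

lemma HgL_mono' (kd : ℕ → Λ → δ) (H0 : ℝ) {n m : ℕ} (h : n ≤ m) (p : ℕ) (g : Gp Λ κ) (x : ℝ) :
    HgL kd H0 n p g x ≤ HgL kd H0 m p g x := by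
  induction m, h using Nat.le_induction with
  | base => exact le_rfl
  | succ m _ ih => exact ih.trans (HgL_mono kd H0 m p g x)

section final
variable [WRel κ] {wr : ℕ → Λ → κ} {ix : κ → δ}

lemma GAll_Rf {t : DT Λ κ} (h : t.All (CPn wr)) : GAll (Rf (kdp wr ix)) [((1 : ℝ), t)] := by
  refine GAll.one (DT.All.mono (fun t ht => ?_) h)
  cases t with
  | leaf r f => trivial
  | br p w r t₁ t₀ v B G =>
    obtain ⟨hp, -, -, hr, -, -⟩ := ht
    exact ⟨ix, fun j => by rw [kdp_prime wr ix hp, hr]⟩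
  | add p r t₁ t₀ => trivial
  | up p Sp t => trivial

/-- **the heights of a single node** -/
theorem HgL_tree {W H0 : ℝ} (hW : 0 < W) (h0 : 0 ≤ H0)
    (hix : ∀ a b : κ, WRel.rel a b ↔ ix a ≠ ix b) {t : DT Λ κ} (hl : ¬ t.isLeaf)
    (ht : t.top.Prime) (hc : t.All (CPn wr)) (hg : GOk [((1 : ℝ), t)]) (hn : t.All NOk)
    (hw : ∀ n, WOk W n t.top [((1 : ℝ), t)]) (n : ℕ) :
    I (fun x => HgL (kdp wr ix) H0 n t.top [((1 : ℝ), t)] x ^ 2 - H0 ^ 2) ≤ 8 * W * SSd wr t := by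
  set m := max n (t.top + dep t) with hm
  have h1 := HgL_le hW (kdp wr ix) h0 m t.top [((1 : ℝ), t)] hg (GAll.one hn) (GAll_Rf hc) (hw m)
  have h2 := (SS_le_SSd (ix := ix) hW hix t hc (hg.pb _ (List.mem_singleton_self _))).1 hl ht m
    (le_max_right _ _)
  have h3 : 0 ≤ ls (fun t => rI W (kdp wr ix t.top) (HgL (kdp wr ix) H0 m t.top [((1 : ℝ), t)])
      t.g.val) [((1 : ℝ), t)] := ls_nonneg hg.c fun m _ => rI_nonneg hW _ _ _
  have h3' : 0 ≤ ls (fun t' => rI W (kdp wr ix t.top) (HgL (kdp wr ix) H0 m t.top [((1 : ℝ), t)])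
      t'.g.val) [((1 : ℝ), t)] := ls_nonneg hg.c fun m _ => rI_nonneg hW _ _ _
  have pn := PB_HgL (kdp wr ix) h0 n t.top hg
  have pm := PB_HgL (kdp wr ix) h0 m t.top hg
  have b : ∀ x, H0 ≤ HgL (kdp wr ix) H0 n t.top [((1 : ℝ), t)] x :=
    fun x => base_le_HgL (kdp wr ix) H0 n _ _ x
  have q1 : PB fun x => HgL (kdp wr ix) H0 n t.top [((1 : ℝ), t)] x ^ 2 - H0 ^ 2 := by
    have q := PBsq pn
    obtain ⟨B, hB⟩ := q.bdd
    refine ⟨q.meas.sub measurable_const, fun x => ?_, ⟨B, fun x => ?_⟩, fun x => ?_⟩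
    · have := pow_le_pow_left₀ h0 (b x) 2
      linarith
    · have := hB x
      nlinarith [sq_nonneg H0]
    · show HgL (kdp wr ix) H0 n t.top [((1 : ℝ), t)] (x + 1) ^ 2 - H0 ^ 2 = _
      rw [pn.per]
  have q3 : PB fun _ : ℝ => H0 ^ 2 := PB.const (by positivity)
  have Ic : I (fun _ : ℝ => H0 ^ 2) = H0 ^ 2 := by simp [I]
  have h4 : I (fun x => HgL (kdp wr ix) H0 n t.top [((1 : ℝ), t)] x ^ 2 - H0 ^ 2) +
      I (fun _ : ℝ => H0 ^ 2) ≤
      I (fun x => HgL (kdp wr ix) H0 m t.top [((1 : ℝ), t)] x ^ 2) := by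
    rw [← I_add q1.integrableOn q3.integrableOn]
    refine I_mono (q1.add q3).integrableOn (PBsq pm).integrableOn fun x => ?_
    have h5 := pow_le_pow_left₀ (h0.trans (b x))
      (HgL_mono' (kdp wr ix) H0 (le_max_left n (t.top + dep t)) t.top [((1 : ℝ), t)] x) 2
    rw [← hm] at h5
    linarith
  linarith

end final

end Crest.Agent.R4P.SSp9
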