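import Mathlib

/-!
# R4P/ScalP_10 : the pairwise form of the norm theorem

For one tie column of a pair of nodes: `x` = norm of the in-node energy of the
inaccurate / unlabelled pieces at the node, `x1`, `x0` the same at the children
(present, missing), `y` = norm of the raised missing functions, `e` = error
(in-node new pairs, entries).  The product `x * x'` pays the children's product of
`E`-values, `1/2 * y * y'`, and loses only one-node quantities.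
-/

namespace ScalP10

/-- Cauchy-Schwarz in the plane. -/
theorem cs2 {a b c d x x' : ℝ} (hx : 0 ≤ x) (hx' : 0 ≤ x')
    (h1 : a ^ 2 + b ^ 2 ≤ x ^ 2) (h2 : c ^ 2 + d ^ 2 ≤ x' ^ 2) :
    a * c + b * d ≤ x * x' := by
  have h3 : (a * c + b * d) ^ 2 ≤ (x * x') ^ 2 := by
    have h4 : (a * c + b * d) ^ 2 ≤ (a ^ 2 + b ^ 2) * (c ^ 2 + d ^ 2) := by
      nlinarith [sq_nonneg (a * d - b * c)]
    have h5 : (a ^ 2 + b ^ 2) * (c ^ 2 + d ^ 2) ≤ x ^ 2 * x' ^ 2 :=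
      mul_le_mul h1 h2 (by positivity) (by positivity)
    calc (a * c + b * d) ^ 2 ≤ (a ^ 2 + b ^ 2) * (c ^ 2 + d ^ 2) := h4
      _ ≤ x ^ 2 * x' ^ 2 := h5
      _ = (x * x') ^ 2 := by ring
  exact (abs_le_of_sq_le_sq' h3 (mul_nonneg hx hx')).2

/-- A heavy node: `y` is large against the loss, so it pays a linear growth. -/
theorem heavy {w x1 x0 y e x : ℝ} (hw : 0 ≤ w) (hw0 : w ≤ 1 / 1000)
    (hx1 : 0 ≤ x1) (hx0 : 0 ≤ x0)
    (H1 : ((1 - w) * x1) ^ 2 + y ^ 2 ≤ x ^ 2)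
    (H2 : w * x0 ^ 2 ≤ 2 * (y ^ 2 + w * e ^ 2))
    (hh : 10000 * (w * x1 ^ 2 + w * e ^ 2) ≤ w * x0 ^ 2) :
    ((1 - w) * x1 + w * x0) ^ 2 + 3 / 4 * y ^ 2 ≤ x ^ 2 := by
  have h1 : 2 * (x1 * x0) ≤ 100 * x1 ^ 2 + x0 ^ 2 / 100 := by
    nlinarith [sq_nonneg (10 * x1 - x0 / 10)]
  have h2 : w * (2 * (x1 * x0)) ≤ w * (100 * x1 ^ 2 + x0 ^ 2 / 100) :=
    mul_le_mul_of_nonneg_left h1 hw
  have h3 : w * (w * x0 ^ 2) ≤ 1 / 1000 * (w * x0 ^ 2) :=
    mul_le_mul_of_nonneg_right hw0 (by positivity)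
  have h4 : 0 ≤ w * (x1 * x0) := by positivity
  have h5 : 0 ≤ w * (w * (x1 * x0)) := by positivity
  have h6 : 0 ≤ w * e ^ 2 := by positivity
  have h7 : 0 ≤ w * x1 ^ 2 := by positivity
  nlinarith

/-- **The pairwise norm inequality.** -/
theorem pair_ineq {w x x1 x0 y e x' x1' x0' y' e' : ℝ} (hw : 0 ≤ w) (hw0 : w ≤ 1 / 1000)
    (hx : 0 ≤ x) (hx1 : 0 ≤ x1) (hx0 : 0 ≤ x0) (hy : 0 ≤ y)
    (hx' : 0 ≤ x') (hx1' : 0 ≤ x1') (hx0' : 0 ≤ x0') (hy' : 0 ≤ y')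
    (H1 : ((1 - w) * x1) ^ 2 + y ^ 2 ≤ x ^ 2)
    (H2 : w * x0 ^ 2 ≤ 2 * (y ^ 2 + w * e ^ 2))
    (H1' : ((1 - w) * x1') ^ 2 + y' ^ 2 ≤ x' ^ 2)
    (H2' : w * x0' ^ 2 ≤ 2 * (y' ^ 2 + w * e' ^ 2)) :
    ((1 - w) * x1 + w * x0) * ((1 - w) * x1' + w * x0') + 1 / 2 * (y * y')
      ≤ x * x' + 10001 * ((w * x1 ^ 2 + w * e ^ 2) + (w * x1' ^ 2 + w * e' ^ 2))
        + w ^ 3 * (x0 ^ 2 + x0' ^ 2) := by
  have hw1 : 0 ≤ 1 - w := by linarith
  have e1 : 0 ≤ w * e ^ 2 := by positivity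
  have e2 : 0 ≤ w * e' ^ 2 := by positivity
  have e3 : 0 ≤ w * x1 ^ 2 := by positivity
  have e4 : 0 ≤ w * x1' ^ 2 := by positivity
  have e5 : 0 ≤ w ^ 3 * x0 ^ 2 := by positivity
  have e6 : 0 ≤ w ^ 3 * x0' ^ 2 := by positivity
  have e7 : 0 ≤ y * y' := by positivity
  -- cross terms
  have c1 : 2 * (w * (x1 * x0')) ≤ w * x1 ^ 2 + w * x0' ^ 2 := by
    nlinarith [mul_nonneg hw (sq_nonneg (x1 - x0'))]
  have c2 : 2 * (w * (x0 * x1')) ≤ w * x0 ^ 2 + w * x1' ^ 2 := by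
    nlinarith [mul_nonneg hw (sq_nonneg (x0 - x1'))]
  have c3 : 2 * (w ^ 2 * (x0 * x0')) ≤ w * x0 ^ 2 + w ^ 3 * x0' ^ 2 := by
    nlinarith [mul_nonneg hw (sq_nonneg (x0 - w * x0'))]
  have c4 : 2 * (w ^ 2 * (x0 * x0')) ≤ w ^ 3 * x0 ^ 2 + w * x0' ^ 2 := by
    nlinarith [mul_nonneg hw (sq_nonneg (w * x0 - x0'))]
  have d1 : w * (1 - w) * (x1 * x0') ≤ w * (x1 * x0') := by
    have : 0 ≤ w * w * (x1 * x0') := by positivity
    nlinarith
  have d2 : w * (1 - w) * (x0 * x1') ≤ w * (x0 * x1') := by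
    have : 0 ≤ w * w * (x0 * x1') := by positivity
    nlinarith
  have ex : ((1 - w) * x1 + w * x0) * ((1 - w) * x1' + w * x0')
      = (1 - w) * x1 * ((1 - w) * x1') + w * (1 - w) * (x1 * x0') + w * (1 - w) * (x0 * x1')
        + w ^ 2 * (x0 * x0') := by ring
  rcases le_total (w * x0 ^ 2) (10000 * (w * x1 ^ 2 + w * e ^ 2)) with hV | hV
  · rcases le_total (w * x0' ^ 2) (10000 * (w * x1' ^ 2 + w * e' ^ 2)) with hW | hW
    · -- bad, bad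
      have h := cs2 hx hx' H1 H1'
      rw [ex]
      nlinarith
    · -- bad, heavy
      have hh := heavy hw hw0 hx1' hx0' H1' H2' hW
      have h : (1 - w) * x1 * ((1 - w) * x1' + w * x0') + y * (3 / 4 * y') ≤ x * x' := by
        apply cs2 hx hx' H1
        have : (3 / 4 * y') ^ 2 ≤ 3 / 4 * y' ^ 2 := by nlinarith [sq_nonneg y']
        linarith
      rw [ex]
      nlinarith
  · have hh := heavy hw hw0 hx1 hx0 H1 H2 hV
    rcases le_total (w * x0' ^ 2) (10000 * (w * x1' ^ 2 + w * e' ^ 2)) with hW | hW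
    · have h : ((1 - w) * x1 + w * x0) * ((1 - w) * x1') + (3 / 4 * y) * y' ≤ x * x' := by
        apply cs2 hx hx' _ H1'
        have : (3 / 4 * y) ^ 2 ≤ 3 / 4 * y ^ 2 := by nlinarith [sq_nonneg y]
        linarith
      rw [ex]
      nlinarith
    · have hh' := heavy hw hw0 hx1' hx0' H1' H2' hW
      have h : ((1 - w) * x1 + w * x0) * ((1 - w) * x1' + w * x0') + (3 / 4 * y) * (3 / 4 * y')
          ≤ x * x' := by
        apply cs2 hx hx'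
        · have : (3 / 4 * y) ^ 2 ≤ 3 / 4 * y ^ 2 := by nlinarith [sq_nonneg y]
          linarith
        · have : (3 / 4 * y') ^ 2 ≤ 3 / 4 * y' ^ 2 := by nlinarith [sq_nonneg y']
          linarith
      nlinarith

end ScalP10
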