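import Crest.Agent.R4P.KerW_878

/-!
R4 (S0004), A-part, helper9: **adaptive scale** (heights > 1 and multiplicities with `L²` only).
Pure real inequalities.

Scale `s = 2^k`.
* `Ws s` : weight with density `√(s min(t,s))` (`(4/3) √s x^(3/2)` up to `s`, slope `2 s` above).
* `ph s x = (x - s)⁺`.
* `Rs k I x = Σ_(k < i ≤ I) 2^i (x - 2^i/4)⁺` : the reserve.
* `Ws_un`, `Rs_un` : losses of an unmatched content; `cut_un` : they pay `Ws s f + s (f-s)⁺`.
* `Rs_le : Rs ≤ 8 x²`, `Rs_join : surplus ≤ 16 a a'`.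
-/

set_option autoImplicit false
set_option linter.unusedVariables false

open Set MeasureTheory

namespace Crest.Agent.R4P.Scale9

open Crest.Agent.R4P.KerW878

/-! ### weights of increasing densities -/

section mono

variable {om : ℝ → ℝ}

lemma wo_sub (hc : Continuous om) (a b : ℝ) : Wo om b - Wo om a = ∫ t in a..b, 2 * om t := by
  unfold Wo
  have h : ∀ a b : ℝ, IntervalIntegrable (fun t => 2 * om t) volume a b := fun a b =>
    (hc.const_mul 2 |>.intervalIntegrable a b : _)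
  exact intervalIntegral.integral_interval_sub_left (h 0 b) (h 0 a)

lemma wo_AW (hc : Continuous om) (h0 : ∀ t, 0 ≤ t → 0 ≤ om t)
    (hm : ∀ s t, 0 ≤ s → s ≤ t → om s ≤ om t) : AW (Wo om) := by
  have hii : ∀ a b : ℝ, IntervalIntegrable (fun t => 2 * om t) volume a b := fun a b =>
    (hc.const_mul 2 |>.intervalIntegrable a b : _)
  refine ⟨by unfold Wo; simp, fun x y hx hxy => ?_, ?_⟩
  · have := wo_sub hc x y
    have h2 : 0 ≤ ∫ t in x..y, 2 * om t := intervalIntegral.integral_nonneg hxy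
      fun t ht => mul_nonneg zero_le_two (h0 t (hx.trans ht.1))
    linarith
  · have hd : ∀ x : ℝ, HasDerivAt (Wo om) (2 * om x) x := fun x =>
      intervalIntegral.integral_hasDerivAt_right (hii 0 x)
        (hc.const_mul 2 |>.stronglyMeasurableAtFilter _ _) (hc.const_mul 2).continuousAt
    refine MonotoneOn.convexOn_of_deriv (convex_Ici 0)
      (fun x _ => (hd x).continuousAt.continuousWithinAt)
      (fun x _ => (hd x).differentiableAt.differentiableWithinAt) ?_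
    intro x hx y hy hxy
    rw [interior_Ici] at hx hy
    rw [(hd x).deriv, (hd y).deriv]
    have := hm x y (le_of_lt hx) hxy
    linarith

lemma wo_le_of_le {om' : ℝ → ℝ} (hc : Continuous om) (hc' : Continuous om') {x : ℝ} (hx : 0 ≤ x)
    (h : ∀ t, 0 ≤ t → t ≤ x → om t ≤ om' t) : Wo om x ≤ Wo om' x := by
  unfold Wo
  refine intervalIntegral.integral_mono_on hx
    (hc.const_mul 2 |>.intervalIntegrable _ _ : _) (hc'.const_mul 2 |>.intervalIntegrable _ _ : _)
    fun t ht => ?_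
  have := h t ht.1 ht.2
  linarith

end mono

/-! ### the low part -/

/-- density at scale `s` -/
noncomputable def oms (s t : ℝ) : ℝ := Real.sqrt (s * min t s)

/-- weight at scale `s` -/
noncomputable def Ws (s : ℝ) : ℝ → ℝ := Wo (oms s)

lemma oms_cont (s : ℝ) : Continuous (oms s) := by
  unfold oms
  exact Real.continuous_sqrt.comp (continuous_const.mul (continuous_id.min continuous_const))

lemma oms_nn (s t : ℝ) : 0 ≤ oms s t := Real.sqrt_nonneg _

lemma oms_mono {s t t' : ℝ} (hs : 0 ≤ s) (h : t ≤ t') : oms s t ≤ oms s t' :=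
  Real.sqrt_le_sqrt (mul_le_mul_of_nonneg_left (min_le_min_right _ h) hs)

lemma oms_le {s t : ℝ} (hs : 0 ≤ s) : oms s t ≤ s := by
  unfold oms
  calc Real.sqrt (s * min t s) ≤ Real.sqrt (s * s) :=
        Real.sqrt_le_sqrt (mul_le_mul_of_nonneg_left (min_le_right _ _) hs)
    _ = s := Real.sqrt_mul_self hs

lemma oms_scale {s t l : ℝ} (hl : 0 ≤ l) (ht : 0 ≤ t) (hts : t ≤ s) :
    oms s (l * t) ≤ Real.sqrt l * oms s t := by
  unfold oms
  rw [← Real.sqrt_mul hl, min_eq_left hts]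
  refine Real.sqrt_le_sqrt ?_
  have : min (l * t) s ≤ l * t := min_le_left _ _
  calc s * min (l * t) s ≤ s * (l * t) := mul_le_mul_of_nonneg_left this (ht.trans hts)
    _ = l * (s * t) := by ring

lemma oms_scale_s {s s' t : ℝ} (hs : 0 ≤ s) (h : s ≤ s') (ht : 0 ≤ t) : oms s t ≤ oms s' t := by
  unfold oms
  refine Real.sqrt_le_sqrt ?_
  exact mul_le_mul h (min_le_min_left _ h) (le_min ht hs) (hs.trans h)

lemma Ws_AW {s : ℝ} (hs : 0 ≤ s) : AW (Ws s) :=
  wo_AW (oms_cont s) (fun t _ => oms_nn s t) fun t t' _ h => oms_mono hs h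

lemma Ws_le {s x : ℝ} (hs : 0 ≤ s) (hx : 0 ≤ x) : Ws s x ≤ 2 * s * x := by
  have h := wo_le_of_le (om' := fun _ => s) (oms_cont s) continuous_const hx
    fun t _ _ => oms_le hs
  refine h.trans (le_of_eq ?_)
  unfold Wo
  rw [intervalIntegral.integral_const, smul_eq_mul]
  ring

lemma Ws_mono_s {s s' x : ℝ} (hs : 0 ≤ s) (h : s ≤ s') (hx : 0 ≤ x) : Ws s x ≤ Ws s' x :=
  wo_le_of_le (oms_cont s) (oms_cont s') hx fun t ht _ => oms_scale_s hs h ht

lemma Ws_scale {s x l : ℝ} (hl : 0 ≤ l) (hx : 0 ≤ x) (hxs : x ≤ s) :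
    Ws s (l * x) ≤ l * Real.sqrt l * Ws s x := by
  have e : Ws s (l * x) = l * ∫ t in (0 : ℝ)..x, 2 * oms s (l * t) := by
    unfold Ws Wo
    rw [← smul_eq_mul l (∫ t in (0 : ℝ)..x, 2 * oms s (l * t)),
      intervalIntegral.smul_integral_comp_mul_left (fun t => 2 * oms s t) l, mul_zero]
  rw [e, mul_assoc]
  refine mul_le_mul_of_nonneg_left ?_ hl
  unfold Ws Wo
  rw [← intervalIntegral.integral_const_mul]
  refine intervalIntegral.integral_mono_on hx ?_ ?_ ?_
  · exact (((oms_cont s).comp (continuous_const.mul continuous_id)).const_mul 2).intervalIntegrable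
      0 x
  · exact (((oms_cont s).const_mul 2).const_mul _).intervalIntegrable 0 x
  · intro t ht
    have := oms_scale (s := s) hl ht.1 (ht.2.trans hxs)
    nlinarith

/-- the loss of an unmatched content below the scale -/
lemma Ws_un {s w a : ℝ} (hw0 : 0 ≤ w) (hw1 : w ≤ 1) (ha : 0 ≤ a) (has : a ≤ s) :
    w * (1 - w) * Ws s a ≤ 2 * Dl (Ws s) w a 0 := by
  have hs : 0 ≤ s := ha.trans has
  rw [Dl_of_ge ha, (Ws_AW hs).zero, mul_zero, add_zero, add_zero]
  have h1 := Ws_scale (s := s) (l := 1 - w) (by linarith) ha has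
  have h2 : Real.sqrt (1 - w) ≤ 1 - w / 2 := by
    rw [Real.sqrt_le_left (by linarith)]
    nlinarith [sq_nonneg w]
  have h3 := (Ws_AW hs).nonneg ha
  have h4 : (1 - w) * Real.sqrt (1 - w) * Ws s a ≤ (1 - w) * (1 - w / 2) * Ws s a :=
    mul_le_mul_of_nonneg_right (mul_le_mul_of_nonneg_left h2 (by linarith)) h3
  nlinarith

/-! ### hinges -/

/-- the hinge -/
def ph (c x : ℝ) : ℝ := max (x - c) 0

lemma ph_nn (c x : ℝ) : 0 ≤ ph c x := le_max_right _ _

lemma ph_le {c x : ℝ} (hc : 0 ≤ c) (hx : 0 ≤ x) : ph c x ≤ x := max_le (by linarith) hx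

lemma ph_ge (c x : ℝ) : x - c ≤ ph c x := le_max_left _ _

lemma ph_AW {c : ℝ} (hc : 0 ≤ c) : AW (ph c) := by
  refine ⟨?_, fun x y _ h => max_le_max (by linarith) le_rfl, ?_⟩
  · unfold ph; rw [max_eq_right]; linarith
  · refine ⟨convex_Ici 0, fun x hx y hy a b ha hb hab => ?_⟩
    simp only [smul_eq_mul]
    unfold ph
    refine max_le ?_ ?_
    · have h1 : x - c ≤ max (x - c) 0 := le_max_left _ _
      have h2 : y - c ≤ max (y - c) 0 := le_max_left _ _
      have h3 := mul_le_mul_of_nonneg_left h1 ha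
      have h4 := mul_le_mul_of_nonneg_left h2 hb
      have h5 : a * x + b * y - c = a * (x - c) + b * (y - c) := by
        linear_combination c * hab
      linarith
    · exact add_nonneg (mul_nonneg ha (le_max_right _ _)) (mul_nonneg hb (le_max_right _ _))

lemma ph_anti {c c' x : ℝ} (h : c ≤ c') : ph c' x ≤ ph c x := max_le_max (by linarith) le_rfl

lemma ph_lip {c x y : ℝ} (hxy : x ≤ y) : ph c y - ph c x ≤ y - x := by
  unfold ph
  rcases le_total (y - c) 0 with h | h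
  · rw [max_eq_right h, max_eq_right (by linarith)]; linarith
  · rw [max_eq_left h]
    have := le_max_left (x - c) 0
    linarith

/-- join surplus of a hinge -/
lemma ph_join {c a a' : ℝ} (hc : 0 ≤ c) (ha : 0 ≤ a) (ha' : 0 ≤ a') :
    ph c (a + a') - ph c a - ph c a' ≤ if c < a + a' then min a a' else 0 := by
  split_ifs with h
  · have h1 := ph_lip (c := c) (show a ≤ a + a' by linarith)
    have h2 := ph_lip (c := c) (show a' ≤ a + a' by linarith)
    have h3 := ph_nn c a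
    have h4 := ph_nn c a'
    refine le_min ?_ ?_ <;> linarith
  · have : ph c (a + a') = 0 := by unfold ph; rw [max_eq_right]; linarith
    have h3 := ph_nn c a
    have h4 := ph_nn c a'
    linarith

/-- loss of a hinge, unmatched content -/
lemma ph_un {c w a : ℝ} (hc : 0 ≤ c) (ha : 0 ≤ a) (h : c ≤ (1 - w) * a) (hw0 : 0 ≤ w)
    (hw1 : w ≤ 1) : Dl (ph c) w a 0 = w * c := by
  rw [Dl_of_ge ha, (ph_AW hc).zero, mul_zero, add_zero, add_zero]
  unfold ph
  have : (1 - w) * a ≤ a := by nlinarith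
  rw [max_eq_left (by linarith), max_eq_left (by linarith)]
  ring

lemma AW_const_mul {W : ℝ → ℝ} (h : AW W) {c : ℝ} (hc : 0 ≤ c) : AW (fun x => c * W x) := by
  refine ⟨by simp [h.zero], fun x y hx hxy => mul_le_mul_of_nonneg_left (h.mono hx hxy) hc, ?_⟩
  exact h.conv.smul hc

lemma AW_add {W W' : ℝ → ℝ} (h : AW W) (h' : AW W') : AW (fun x => W x + W' x) := by
  refine ⟨by simp [h.zero, h'.zero], fun x y hx hxy => add_le_add (h.mono hx hxy)
    (h'.mono hx hxy), ?_⟩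
  exact h.conv.add h'.conv

lemma AW_zero : AW (fun _ => 0) :=
  ⟨rfl, fun _ _ _ _ => le_rfl, convexOn_const 0 (convex_Ici 0)⟩

lemma AW_sum {ι : Type*} (s : Finset ι) {W : ι → ℝ → ℝ} (h : ∀ i ∈ s, AW (W i)) :
    AW (fun x => ∑ i ∈ s, W i x) := by
  classical
  induction s using Finset.induction_on with
  | empty => simpa using AW_zero
  | insert i s hi ih =>
    have h1 := h i (Finset.mem_insert_self _ _)
    have h2 := ih fun j hj => h j (Finset.mem_insert_of_mem hj)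
    have := AW_add h1 h2
    simpa [Finset.sum_insert hi] using this

lemma Dl_add (W W' : ℝ → ℝ) (w a b : ℝ) :
    Dl (fun x => W x + W' x) w a b = Dl W w a b + Dl W' w a b := by
  unfold Dl; ring

lemma Dl_mul (W : ℝ → ℝ) (c w a b : ℝ) : Dl (fun x => c * W x) w a b = c * Dl W w a b := by
  unfold Dl; ring

lemma Dl_sum {ι : Type*} (s : Finset ι) (W : ι → ℝ → ℝ) (w a b : ℝ) :
    Dl (fun x => ∑ i ∈ s, W i x) w a b = ∑ i ∈ s, Dl (W i) w a b := by
  unfold Dl
  simp only [Finset.mul_sum, Finset.sum_sub_distrib, Finset.sum_add_distrib]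

/-! ### the reserve -/

/-- the reserve above the scale `2^k` -/
noncomputable def Rs (k I : ℕ) (x : ℝ) : ℝ := ∑ i ∈ Finset.Ioc k I, 2 ^ i * ph (2 ^ i / 4) x

lemma Rs_AW (k I : ℕ) : AW (Rs k I) :=
  AW_sum _ fun i _ => AW_const_mul (ph_AW (by positivity)) (by positivity)

lemma Rs_nn (k I : ℕ) (x : ℝ) : 0 ≤ Rs k I x :=
  Finset.sum_nonneg fun i _ => mul_nonneg (by positivity) (ph_nn _ _)

/-- geometric sums over the dyadic scales below `y` -/
lemma geo_sum (s : Finset ℕ) {y : ℝ} (hy : 0 ≤ y) :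
    ∑ i ∈ s, (if (2 : ℝ) ^ i < y then (2 : ℝ) ^ i else 0) ≤ 2 * y := by
  classical
  rw [← Finset.sum_filter]
  rcases Finset.eq_empty_or_nonempty (s.filter fun i => (2 : ℝ) ^ i < y) with h | h
  · rw [h, Finset.sum_empty]; linarith
  · obtain ⟨m, hm, hmax⟩ := (s.filter fun i => (2 : ℝ) ^ i < y).exists_max_image id h
    have h1 : (s.filter fun i => (2 : ℝ) ^ i < y) ⊆ Finset.range (m + 1) := fun i hi =>
      Finset.mem_range.2 (Nat.lt_succ_of_le (hmax i hi))
    have h2 : ∑ i ∈ s.filter (fun i => (2 : ℝ) ^ i < y), (2 : ℝ) ^ i ≤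
        ∑ i ∈ Finset.range (m + 1), (2 : ℝ) ^ i :=
      Finset.sum_le_sum_of_subset_of_nonneg h1 fun i _ _ => by positivity
    have h3 : ∑ i ∈ Finset.range (m + 1), (2 : ℝ) ^ i = 2 ^ (m + 1) - 1 := by
      have := geom_sum_eq (show (2 : ℝ) ≠ 1 by norm_num) (m + 1)
      rw [this]; ring
    have h4 := (Finset.mem_filter.1 hm).2
    rw [h3, pow_succ] at h2
    linarith

lemma Rs_le (k I : ℕ) {x : ℝ} (hx : 0 ≤ x) : Rs k I x ≤ 8 * x ^ 2 := by
  have h1 : ∀ i ∈ Finset.Ioc k I, (2 : ℝ) ^ i * ph (2 ^ i / 4) x ≤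
      (if (2 : ℝ) ^ i < 4 * x then (2 : ℝ) ^ i else 0) * x := by
    intro i _
    split_ifs with h
    · exact mul_le_mul_of_nonneg_left (ph_le (by positivity) hx) (by positivity)
    · have : ph (2 ^ i / 4) x = 0 := by
        unfold ph; rw [max_eq_right]; linarith
      rw [this]; simp
  refine (Finset.sum_le_sum h1).trans ?_
  rw [← Finset.sum_mul]
  have := geo_sum (Finset.Ioc k I) (show 0 ≤ 4 * x by linarith)
  nlinarith

/-- **join surplus of the reserve**: paid in `L²` -/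
lemma Rs_join (k I : ℕ) {a a' : ℝ} (ha : 0 ≤ a) (ha' : 0 ≤ a') :
    Rs k I (a + a') - Rs k I a - Rs k I a' ≤ 16 * (a * a') := by
  unfold Rs
  rw [← Finset.sum_sub_distrib, ← Finset.sum_sub_distrib]
  have h1 : ∀ i ∈ Finset.Ioc k I, (2 : ℝ) ^ i * ph (2 ^ i / 4) (a + a') -
      2 ^ i * ph (2 ^ i / 4) a - 2 ^ i * ph (2 ^ i / 4) a' ≤
      (if (2 : ℝ) ^ i < 4 * (a + a') then (2 : ℝ) ^ i else 0) * min a a' := by
    intro i _
    have h2 := ph_join (c := 2 ^ i / 4) (by positivity) ha ha'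
    have h3 := mul_le_mul_of_nonneg_left h2 (show (0 : ℝ) ≤ 2 ^ i by positivity)
    have h4 : (2 : ℝ) ^ i * ph (2 ^ i / 4) (a + a') - 2 ^ i * ph (2 ^ i / 4) a -
      2 ^ i * ph (2 ^ i / 4) a' = 2 ^ i * (ph (2 ^ i / 4) (a + a') - ph (2 ^ i / 4) a -
      ph (2 ^ i / 4) a') := by ring
    rw [h4]
    refine h3.trans (le_of_eq ?_)
    by_cases h : (2 : ℝ) ^ i / 4 < a + a'
    · rw [if_pos h, if_pos (by linarith)]
    · rw [if_neg h, if_neg (by linarith)]; ring
  refine (Finset.sum_le_sum h1).trans ?_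
  rw [← Finset.sum_mul]
  have h5 := geo_sum (Finset.Ioc k I) (show 0 ≤ 4 * (a + a') by linarith)
  have h6 : 0 ≤ min a a' := le_min ha ha'
  have h7 := mul_le_mul_of_nonneg_right h5 h6
  refine h7.trans ?_
  rcases le_total a a' with h | h
  · rw [min_eq_left h]; nlinarith
  · rw [min_eq_right h]; nlinarith

/-- the reserve released by a change of scale -/
lemma Rs_drop {k k' I : ℕ} (h : k < k') (hI : k' ≤ I) (x : ℝ) :
    (2 : ℝ) ^ k' * (x - 2 ^ k' / 4) ≤ Rs k I x - Rs k' I x := by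
  have e : Rs k I x = Rs k' I x + ∑ i ∈ Finset.Ioc k k', 2 ^ i * ph (2 ^ i / 4) x := by
    unfold Rs
    rw [add_comm, ← Finset.sum_union]
    · rw [Finset.Ioc_union_Ioc_eq_Ioc h.le hI]
    · rw [Finset.disjoint_left]
      intro i hi hi'
      exact absurd (Finset.mem_Ioc.1 hi).2 (not_le.2 (Finset.mem_Ioc.1 hi').1)
  have h1 : (2 : ℝ) ^ k' * ph (2 ^ k' / 4) x ≤ ∑ i ∈ Finset.Ioc k k', 2 ^ i * ph (2 ^ i / 4) x :=
    Finset.single_le_sum (f := fun i => (2 : ℝ) ^ i * ph (2 ^ i / 4) x)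
      (fun i _ => mul_nonneg (by positivity) (ph_nn _ _)) (Finset.mem_Ioc.2 ⟨h, le_rfl⟩)
  have h2 := mul_le_mul_of_nonneg_left (ph_ge (2 ^ k' / 4) x) (show (0 : ℝ) ≤ 2 ^ k' by positivity)
  linarith

/-- a dyadic number between `a` and `2 a` -/
lemma exists_dy {k : ℕ} {a : ℝ} (h : 2 ^ k ≤ a) : ∃ i : ℕ, k < i ∧ (2 : ℝ) ^ i ≤ 2 * a ∧ a < 2 ^ i := by
  obtain ⟨i, h1, h2⟩ := exists_nat_pow_near (show (1 : ℝ) ≤ a from (one_le_pow₀ one_le_two).trans h)
    (show (1 : ℝ) < 2 by norm_num)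
  refine ⟨i + 1, ?_, ?_, h2⟩
  · by_contra hc
    have : (2 : ℝ) ^ (i + 1) ≤ 2 ^ k := pow_le_pow_right₀ one_le_two (by omega)
    linarith
  · rw [pow_succ]; linarith

/-- **the loss of an unmatched content above the scale** -/
lemma Rs_un {k I : ℕ} {w a : ℝ} (hw0 : 0 ≤ w) (hw1 : w ≤ 1 / 2) (ha : 2 ^ k ≤ a)
    (haI : 2 * a ≤ 2 ^ I) : w * a ^ 2 ≤ 4 * Dl (Rs k I) w a 0 := by
  have ha0 : 0 < a := lt_of_lt_of_le (by positivity) ha
  obtain ⟨i, h1, h2, h3⟩ := exists_dy ha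
  have hiI : i ≤ I := by
    by_contra hc
    have : (2 : ℝ) ^ I < 2 ^ i := pow_lt_pow_right₀ (by norm_num) (by omega)
    linarith
  have e : Dl (Rs k I) w a 0 = ∑ j ∈ Finset.Ioc k I, 2 ^ j * Dl (ph (2 ^ j / 4)) w a 0 := by
    have : Rs k I = fun x => ∑ j ∈ Finset.Ioc k I, 2 ^ j * ph (2 ^ j / 4) x := rfl
    rw [this, Dl_sum]
    exact Finset.sum_congr rfl fun j _ => Dl_mul _ _ _ _ _
  have h4 : (2 : ℝ) ^ i * Dl (ph (2 ^ i / 4)) w a 0 ≤
      ∑ j ∈ Finset.Ioc k I, 2 ^ j * Dl (ph (2 ^ j / 4)) w a 0 :=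
    Finset.single_le_sum (f := fun j => (2 : ℝ) ^ j * Dl (ph (2 ^ j / 4)) w a 0)
      (fun j _ => mul_nonneg (by positivity)
        (Dl_nonneg (ph_AW (by positivity)) hw0 (by linarith) ha0.le le_rfl))
      (Finset.mem_Ioc.2 ⟨h1, hiI⟩)
  have h5 : Dl (ph (2 ^ i / 4)) w a 0 = w * (2 ^ i / 4) :=
    ph_un (by positivity) ha0.le (by nlinarith) hw0 (by linarith)
  rw [h5] at h4
  rw [e]
  have h6 : a ^ 2 ≤ (2 ^ i) ^ 2 := by
    have : (0 : ℝ) ≤ 2 ^ i := by positivity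
    nlinarith
  nlinarith

/-! ### the cut of an unmatched content -/

/-- **the losses pay `Ws s f + s (f-s)⁺`** -/
theorem cut_un {k I : ℕ} {w a : ℝ} (hw0 : 0 ≤ w) (hw1 : w ≤ 1 / 2) (ha : 0 ≤ a)
    (haI : 2 * a ≤ 2 ^ I) :
    w * (Ws (2 ^ k) a + 2 ^ k * ph (2 ^ k) a) ≤
      4 * Dl (Ws (2 ^ k)) w a 0 + 12 * Dl (Rs k I) w a 0 := by
  have hs : (0 : ℝ) ≤ 2 ^ k := by positivity
  have hD1 : 0 ≤ Dl (Ws (2 ^ k)) w a 0 := Dl_nonneg (Ws_AW hs) hw0 (by linarith) ha le_rfl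
  have hD2 : 0 ≤ Dl (Rs k I) w a 0 := Dl_nonneg (Rs_AW k I) hw0 (by linarith) ha le_rfl
  rcases le_total a (2 ^ k) with h | h
  · have h1 := Ws_un hw0 (by linarith) ha h
    have h2 : ph (2 ^ k) a = 0 := by unfold ph; rw [max_eq_right]; linarith
    have h3 := (Ws_AW hs).nonneg ha
    rw [h2, mul_zero, add_zero]
    have h4 : w * Ws (2 ^ k) a ≤ 2 * (w * (1 - w) * Ws (2 ^ k) a) := by
      have : w * Ws (2 ^ k) a * (1 - 2 * (1 - w)) ≤ 0 :=
        mul_nonpos_of_nonneg_of_nonpos (mul_nonneg hw0 h3) (by linarith)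
      nlinarith
    linarith
  · have h1 := Rs_un hw0 hw1 h haI
    have h2 := Ws_le hs ha
    have h3 := ph_le hs ha
    have h4 : (2 : ℝ) ^ k * ph (2 ^ k) a ≤ 2 ^ k * a := mul_le_mul_of_nonneg_left h3 hs
    have h5 : (2 : ℝ) ^ k * a ≤ a * a := mul_le_mul_of_nonneg_right h ha
    have h6 : Ws (2 ^ k) a + 2 ^ k * ph (2 ^ k) a ≤ 3 * a ^ 2 := by nlinarith
    have h7 := mul_le_mul_of_nonneg_left h6 hw0
    linarith

end Crest.Agent.R4P.Scale9
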