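import Crest.Agent.R4P.StratF_36

/-!
R4 (S0004), powers, `TgtCrs`, helper244: **codes and item masses** (T2 of helper26 #26414).

* `StI p τ k` : a non-leaf part of the item tree `τ` has exactly `k` ties / pulls at `p`.
* `massI` : then the items with relative exponent `k` have mass `≥ lo p / 2` (open nodes).
* `xf_sep`, `jf_sep` : at the crossing states no exponent is substantial on both sides.
* `Hd`, `Fr` : a closed node is not dead (a chain of pulls above a leaf): `bld_Hd`.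
-/

set_option autoImplicit false
set_option linter.unusedSectionVars false
set_option linter.unusedVariables false
open MeasureTheory Filter Set

namespace Crest.Agent.R4P.Sep244

open Crest.Agent.R4P.Cnt588
open Crest.Agent.R4P.Bld532 (NS All NodeOk Bk dv nd mem_dv mem_nd Ws_mono Ws_nonneg plk)
open Crest.Agent.R4P.StratN36 Crest.Agent.R4P.StratX36
open Crest.Agent.R4P.WalkIT579 (tp isL top_of_nodeOk bk_of_nodeOk nodeOk_hi)
open Crest.Agent.R4P

/-- item-level codes -/
def StI (p : ℕ) : IT → ℕ → Prop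
  | .leaf _, _ => False
  | .br q _ _ _, k => (q ≠ p ∧ k = 0) ∨ (q = p ∧ k = 1)
  | .pl q t, k => (q ≠ p ∧ k = 0) ∨ (q = p ∧ ∃ k', StI p t k' ∧ k = k' + 1)
  | .add q t₁ t₀, k => (q ≠ p ∧ k = 0) ∨ (q = p ∧ (StI p t₁ k ∨ StI p t₀ k))
  | .far q t₁ t₀, k => (q ≠ p ∧ k = 0) ∨ (q = p ∧ (StI p t₁ k ∨ StI p t₀ k))
  | .up q _ t, k => (q ≠ p ∧ k = 0) ∨ (q = p ∧ StI p t k)

/-- a closed non-leaf tree has the code `0` only -/
lemma StI_closed {p : ℕ} {τ : IT} {k : ℕ} (h : StI p τ k) (hc : tp τ ≠ p) : k = 0 ∧ ¬ isL τ := by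
  cases τ with
  | leaf S => exact absurd h id
  | br q Sp t₁ t₀ => rcases h with h | h; exacts [⟨h.2, id⟩, absurd h.1 hc]
  | add q t₁ t₀ => rcases h with h | h; exacts [⟨h.2, id⟩, absurd h.1 hc]
  | up q Sp t => rcases h with h | h; exacts [⟨h.2, id⟩, absurd h.1 hc]
  | pl q t => rcases h with h | h; exacts [⟨h.2, id⟩, absurd h.1 hc]
  | far q t₁ t₀ => rcases h with h | h; exacts [⟨h.2, id⟩, absurd h.1 hc]

lemma StI_not_leaf {p : ℕ} {τ : IT} {k : ℕ} (h : StI p τ k) : ¬ isL τ := by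
  cases τ with
  | leaf S => exact absurd h id
  | br q Sp t₁ t₀ => exact id
  | add q t₁ t₀ => exact id
  | up q Sp t => exact id
  | pl q t => exact id
  | far q t₁ t₀ => exact id

section
variable {P : Bld532.Par} {W : ℕ → ℝ}

/-- the parameters -/
structure PS (P : Bld532.Par) (W : ℕ → ℝ) : Prop where
  pg : PG P W
  gap : ∀ p, p.Prime → P.p0 < p → 8 * P.sg p * P.hi p < P.lo p

lemma ex_mul {p A : ℕ} (hp : p.Prime) (hA : 0 < A) : ex p (A * p) = ex p A + 1 := by
  unfold ex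
  rw [Nat.factorization_mul hA.ne' hp.ne_zero, Finsupp.add_apply, hp.factorization_self]

lemma ws_union_le (hW : ∀ q, 0 ≤ W q) (S T : Finset ℕ) : Ws W (S ∪ T) ≤ Ws W S + Ws W T := by
  unfold Ws
  rw [← Finset.sum_union_inter]
  have : 0 ≤ ∑ q ∈ S ∩ T, W q := Finset.sum_nonneg fun q _ => hW q
  linarith

/-- share of a filter and its complement -/
lemma ws_filter (S : Finset ℕ) (Q : ℕ → Prop) [DecidablePred Q] :
    Ws W (S.filter Q) + Ws W (S.filter fun q => ¬ Q q) = Ws W S :=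
  Finset.sum_filter_add_sum_filter_not S Q W

/-- the top column of an open non-leaf node -/
lemma tp_open {u : NS} {τ : IT} {p : ℕ} (h : NodeOk P W u τ) (hp : p.Prime) (hn : u.n = p + 1)
    (hl : ¬ isL τ) : tp τ = p := by
  obtain ⟨a1, a2, a3⟩ := top_of_nodeOk h hl
  refine le_antisymm ?_ (a3 p hp (by rw [hn]; exact Nat.lt_succ_self p))
  rw [hn] at a2
  exact Nat.lt_succ_iff.1 a2

/-- tie: masses of the node, explicit exponents -/
lemma br_mass (hW : ∀ q, 0 ≤ W q) (hsg : ∀ k, 0 ≤ P.sg k) {u : NS} {b : ℕ} {Sp : Finset ℕ}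
    {t₁ t₀ : IT} (h : NodeOk P W u (.br b Sp t₁ t₀)) :
    Ws W ((t₁.items ∪ t₀.items).filter (fun q => ¬ ex b q = ex b u.A + 1)) ≤
        4 * P.sg b * Ws W (t₁.items ∪ t₀.items) ∧
      DomN P W b (ex b u.A + 1) t₁.items ∧ DomN P W b (ex b u.A) t₀.items := by
  obtain ⟨hb, hbn, hp0, hmax, hBk, h1, h0, hSp, h3, hlo, hhi, hs0, hsp⟩ := h
  set S := t₁.items ∪ t₀.items with hS
  have hpos : ∀ q ∈ S, 0 < q := hBk.pos
  have hdv : ∀ q ∈ S, u.A ∣ q := hBk.dvd
  have hex : ∀ q ∈ S, ex b u.A ≤ ex b q := fun q hq => ex_le (hpos q hq) (hdv q hq)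
  have h2 : ∀ q ∈ S, ex b q ≤ ex b u.A + 2 := by
    intro q hq
    have := h3 q hq
    rw [dvd_iff hb (hpos q hq) (hdv q hq)] at this
    omega
  have m1 : ∀ q, q ∈ t₁.items ↔ q ∈ S ∧ ex b u.A + 1 ≤ ex b q := by
    intro q
    rw [h1, mem_dv]
    refine and_congr_right fun hq => ?_
    have := dvd_iff (k := 1) hb (hpos q hq) (hdv q hq)
    rwa [pow_one] at this
  have m0 : ∀ q, q ∈ t₀.items ↔ q ∈ S ∧ ex b q = ex b u.A := by
    intro q
    rw [h0, mem_nd]
    refine and_congr_right fun hq => ?_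
    have := dvd_iff (k := 1) hb (hpos q hq) (hdv q hq)
    rw [pow_one] at this
    rw [this]
    have := hex q hq
    omega
  have mS : ∀ q, q ∈ Sp ↔ q ∈ S ∧ ex b u.A + 2 ≤ ex b q := by
    intro q
    rw [hSp, mem_dv]
    exact and_congr_right fun hq => dvd_iff (k := 2) hb (hpos q hq) (hdv q hq)
  have sub1 : t₁.items ⊆ S := Finset.subset_union_left
  have W1 := Ws_mono hW sub1
  have s0 := hsg b
  have nS := Ws_nonneg hW S
  have n1 := Ws_nonneg hW t₁.items
  have n0 := Ws_nonneg hW t₀.items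
  have hmul : 2 * P.sg b * Ws W t₁.items ≤ 2 * P.sg b * Ws W S :=
    mul_le_mul_of_nonneg_left W1 (by linarith)
  refine ⟨?_, ⟨fun q hq _ => ?_, ?_⟩, ⟨fun q hq _ => ?_, ?_⟩⟩
  · have e : S.filter (fun q => ¬ ex b q = ex b u.A + 1) ⊆ t₀.items ∪ Sp := by
      intro q hq
      obtain ⟨hq, hne⟩ := Finset.mem_filter.1 hq
      have := hex q hq
      rw [Finset.mem_union, m0, mS]
      by_cases h : ex b q = ex b u.A
      · exact Or.inl ⟨hq, h⟩
      · exact Or.inr ⟨hq, by omega⟩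
    calc _ ≤ Ws W (t₀.items ∪ Sp) := Ws_mono hW e
      _ ≤ Ws W t₀.items + Ws W Sp := ws_union_le hW _ _
      _ ≤ 2 * P.sg b * Ws W S + 2 * P.sg b * Ws W t₁.items := add_le_add hs0 hsp
      _ ≤ 4 * P.sg b * Ws W S := by linarith
  · have h' := (m1 q).1 hq; have := h2 q h'.1; omega
  · have e : t₁.items.filter (fun q => ex b q ≠ ex b u.A + 1) ⊆ Sp := by
      intro q hq
      obtain ⟨hq, hne⟩ := Finset.mem_filter.1 hq
      have h' := (m1 q).1 hq
      rw [mS]
      exact ⟨h'.1, by omega⟩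
    have : 0 ≤ P.sg b * Ws W t₁.items := mul_nonneg s0 n1
    calc _ ≤ Ws W Sp := Ws_mono hW e
      _ ≤ 2 * P.sg b * Ws W t₁.items := hsp
      _ ≤ 4 * P.sg b * Ws W t₁.items := by linarith
  · have h' := (m0 q).1 hq; omega
  · have e : t₀.items.filter (fun q => ex b q ≠ ex b u.A) = ∅ := by
      rw [Finset.filter_eq_empty_iff]
      intro q hq hne
      exact hne ((m0 q).1 hq).2
    rw [e]
    simp only [Ws, Finset.sum_empty]
    have := mul_nonneg s0 n0
    have e2 : (4 : ℝ) * P.sg b * ∑ q ∈ t₀.items, W q = 4 * (P.sg b * Ws W t₀.items) := by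
      unfold Ws; ring
    rw [e2]; linarith

/-- up node: explicit exponent -/
lemma up_mass (hW : ∀ q, 0 ≤ W q) (hsg : ∀ k, 0 ≤ P.sg k) {u : NS} {b : ℕ} {Sp : Finset ℕ} {t : IT}
    (h : NodeOk P W u (.up b Sp t)) : DomN P W b (ex b u.A) t.items := by
  obtain ⟨hb, hbn, hp0, hmax, hBk, hSp, h2, hlo, hhi, hsp⟩ := h
  have hpos : ∀ q ∈ t.items, 0 < q := hBk.pos
  have hdv : ∀ q ∈ t.items, u.A ∣ q := hBk.dvd
  refine ⟨fun q hq _ => ?_, ?_⟩
  · have h' := h2 q hq
    rw [dvd_iff hb (hpos q hq) (hdv q hq)] at h'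
    have := ex_le (p := b) (hpos q hq) (hdv q hq)
    omega
  · have e : t.items.filter (fun q => ex b q ≠ ex b u.A) ⊆ Sp := by
      intro q hq
      obtain ⟨hq, hne⟩ := Finset.mem_filter.1 hq
      rw [hSp, mem_dv]
      refine ⟨hq, ?_⟩
      have h3 := dvd_iff (k := 1) hb (hpos q hq) (hdv q hq)
      rw [pow_one] at h3
      rw [h3]
      have := ex_le (p := b) (hpos q hq) (hdv q hq)
      omega
    have : 0 ≤ P.sg b * Ws W t.items := mul_nonneg (hsg b) (Ws_nonneg hW _)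
    calc _ ≤ Ws W Sp := Ws_mono hW e
      _ ≤ 2 * P.sg b * Ws W t.items := hsp
      _ ≤ 4 * P.sg b * Ws W t.items := by linarith

/-- half of the mass -/
lemma half_of {s m m' l : ℝ} (hs0 : 0 ≤ s) (hs : 8 * s < 1) (hl : 0 < l) {c : ℝ} (hc : 0 < c)
    (hlo : l ≤ c * (m + m')) (hm' : m' ≤ 4 * s * (m + m')) : l / 2 ≤ c * m := by
  have h1 : 0 < c * (m + m') := hl.trans_le hlo
  have h2 : 0 < m + m' := pos_of_mul_pos_right h1 hc.le
  have h3 : 4 * s * (m + m') ≤ 1 / 2 * (m + m') := mul_le_mul_of_nonneg_right (by linarith) h2.le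
  have h4 : c * m' ≤ c * (1 / 2 * (m + m')) := mul_le_mul_of_nonneg_left (hm'.trans h3) hc.le
  have e : c * (m + m') = c * m + c * m' := by ring
  have e2 : c * (1 / 2 * (m + m')) = 1 / 2 * (c * (m + m')) := by ring
  linarith

/-- **(a) the codes of an open node are substantial** -/
theorem massI (hG : PG P W) {p : ℕ} (hp : p.Prime) :
    ∀ (τ : IT) (u : NS) (k : ℕ), 0 < u.c → All (NodeOk P W) u τ → tp τ = p → StI p τ k →
      P.lo p / 2 ≤ u.c * Ws W (τ.items.filter fun q => ex p q = ex p u.A + k) := by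
  intro τ
  induction τ with
  | leaf S => intro u k _ _ _ h; exact absurd h id
  | br q Sp t₁ t₀ ih₁ ih₀ =>
    intro u k hc hA ht hk
    have e : q = p := ht
    subst e
    have hk1 : k = 1 := by
      rcases hk with h | h
      · exact absurd rfl h.1
      · exact h.2
    subst hk1
    obtain ⟨h1, -, -⟩ := br_mass hG.w0 hG.sg0 hA.1
    have hok : NodeOk P W u (.br q Sp t₁ t₀) := hA.1
    have hp0 := hok.2.2.1
    have hlo : P.lo q ≤ u.c * Ws W (t₁.items ∪ t₀.items) := hok.2.2.2.2.2.2.2.2.2.1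
    have es := ws_filter (W := W) (t₁.items ∪ t₀.items) (fun x => ex q x = ex q u.A + 1)
    rw [← es] at hlo h1
    exact half_of (hG.sg0 q) (hG.sg8 q hp hp0) (hG.lo0 q hp hp0) hc hlo h1
  | add q t₁ t₀ ih₁ ih₀ =>
    intro u k hc hA ht hk
    have e : q = p := ht
    subst e
    rcases hk with h | ⟨-, h | h⟩
    · exact absurd rfl h.1
    · have hq : ¬ isL t₁ := StI_not_leaf h
      have := ih₁ ⟨q + 1, u.c, u.A, u.B⟩ k hc hA.2.1 (tp_open hA.2.1.self hp rfl hq) h
      refine this.trans (mul_le_mul_of_nonneg_left (Ws_mono hG.w0 ?_) hc.le)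
      exact Finset.filter_subset_filter _ Finset.subset_union_left
    · have hq : ¬ isL t₀ := StI_not_leaf h
      have := ih₀ ⟨q + 1, u.c, u.A, u.B⟩ k hc hA.2.2 (tp_open hA.2.2.self hp rfl hq) h
      refine this.trans (mul_le_mul_of_nonneg_left (Ws_mono hG.w0 ?_) hc.le)
      exact Finset.filter_subset_filter _ Finset.subset_union_right
  | up q Sp t ih =>
    intro u k hc hA ht hk
    have e : q = p := ht
    subst e
    rcases hk with h | ⟨-, h⟩
    · exact absurd rfl h.1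
    have hq : ¬ isL t := StI_not_leaf h
    have h2 := (top_of_nodeOk hA.2.self hq).2.1
    obtain ⟨k0, -⟩ := StI_closed h (ne_of_lt h2)
    subst k0
    have h1 := (up_mass hG.w0 hG.sg0 hA.1).tail
    have hok : NodeOk P W u (.up q Sp t) := hA.1
    have hp0 := hok.2.2.1
    have hlo : P.lo q ≤ u.c * Ws W t.items := hok.2.2.2.2.2.2.2.1
    have es := ws_filter (W := W) t.items (fun x => ex q x = ex q u.A)
    have h1' : Ws W (t.items.filter fun x => ¬ ex q x = ex q u.A) ≤ 4 * P.sg q * Ws W t.items := h1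
    rw [← es] at hlo h1'
    exact half_of (hG.sg0 q) (hG.sg8 q hp hp0) (hG.lo0 q hp hp0) hc hlo h1'
  | pl q t ih =>
    intro u k hc hA ht hk
    have e : q = p := ht
    subst e
    rcases hk with h | ⟨-, k', h, hk'⟩
    · exact absurd rfl h.1
    have hq : ¬ isL t := StI_not_leaf h
    have := ih ⟨q + 1, u.c, u.A * q, u.B⟩ k' hc hA.2 (tp_open hA.2.self hp rfl hq) h
    have hA0 : 0 < u.A := (bk_of_nodeOk hA.1).Apos
    have e2 : ex q (u.A * q) + k' = ex q u.A + k := by rw [ex_mul hp hA0, hk']; omega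
    show P.lo q / 2 ≤ u.c * Ws W (t.items.filter fun x => ex q x = ex q u.A + k)
    rw [← e2]
    exact this
  | far q t₁ t₀ ih₁ ih₀ =>
    intro u k hc hA ht hk
    have e : q = p := ht
    subst e
    rcases hk with h | ⟨-, h | h⟩
    · exact absurd rfl h.1
    · have hq : ¬ isL t₁ := StI_not_leaf h
      have := ih₁ ⟨q + 1, u.c, u.A, u.B⟩ k hc hA.2.1 (tp_open hA.2.1.self hp rfl hq) h
      refine this.trans (mul_le_mul_of_nonneg_left (Ws_mono hG.w0 ?_) hc.le)
      exact Finset.filter_subset_filter _ Finset.subset_union_left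
    · have hq : ¬ isL t₀ := StI_not_leaf h
      have := ih₀ ⟨q + 1, u.c, u.A, u.B⟩ k hc hA.2.2 (tp_open hA.2.2.self hp rfl hq) h
      refine this.trans (mul_le_mul_of_nonneg_left (Ws_mono hG.w0 ?_) hc.le)
      exact Finset.filter_subset_filter _ Finset.subset_union_right

/-! ### no exponent is substantial on both sides -/

lemma ne_of_ws {S : Finset ℕ} {Q : ℕ → Prop} [DecidablePred Q] {l c : ℝ} (hl : 0 < l)
    (h : l ≤ c * Ws W (S.filter Q)) : ∃ q ∈ S, Q q := by
  by_contra hn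
  push Not at hn
  have e : S.filter Q = ∅ := Finset.filter_eq_empty_iff.2 fun q hq => hn q hq
  rw [e] at h
  simp only [Ws, Finset.sum_empty, mul_zero] at h
  linarith

/-- **(b) one-sided step**: `c` = factor of the processed node -/
theorem xf_sep (hS : PS P W) {p : ℕ} (hp : p.Prime) (hp0 : P.p0 < p) {c : ℝ} (hc : 0 < c)
    {T X C Y : Finset ℕ} {k : ℕ} {dX dC : Prop} (hx : XF P W p k T X C Y dX dC)
    (hT : c * Ws W T ≤ P.hi p) {e e' : ℕ}
    (hX : P.lo p / 2 ≤ c * Ws W (X.filter fun q => ex p q = e))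
    (hY : 4 * P.sg p * Ws W Y < Ws W (Y.filter fun q => ex p q = e')) : e ≠ e' + k := by
  have hG := hS.pg
  have hW := hG.w0
  have sg0 := hG.sg0 p
  have gap := hS.gap p hp hp0
  have lo0 := hG.lo0 p hp hp0
  have nT : 0 ≤ c * Ws W T := mul_nonneg hc.le (Ws_nonneg hW T)
  have hi0 : 0 ≤ P.hi p := nT.trans hT
  have sT : P.sg p * (c * Ws W T) ≤ P.sg p * P.hi p := mul_le_mul_of_nonneg_left hT sg0
  have shi : 0 ≤ P.sg p * P.hi p := mul_nonneg sg0 hi0
  intro he
  rcases hx with ⟨J, hN, hY'⟩ | ⟨J, hN, hY'⟩ | ⟨K, hN, -⟩ | ⟨K, K', hN, hne, -, hY'⟩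
  · -- low
    obtain ⟨q, hq, hqe⟩ := ne_of_ws (by linarith) hX
    rw [hN.t0, Finset.mem_filter] at hq
    have hlt : e < J := by rw [← hqe]; exact hq.2
    have e1 : Y.filter (fun q => ex p q = e') ⊆ Y.filter (fun q => ex p q + k < J) := by
      intro x hx
      obtain ⟨hx, hxe⟩ := Finset.mem_filter.1 hx
      exact Finset.mem_filter.2 ⟨hx, by omega⟩
    have := Ws_mono hW e1
    linarith
  · -- high
    obtain ⟨q, hq, hqe⟩ := ne_of_ws (by linarith) hX
    rw [hN.t1, Finset.mem_filter] at hq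
    have hlt : J ≤ e := by rw [← hqe]; exact hq.2
    have e1 : Y.filter (fun q => ex p q = e') ⊆ Y.filter (fun q => J ≤ ex p q + k) := by
      intro x hx
      obtain ⟨hx, hxe⟩ := Finset.mem_filter.1 hx
      exact Finset.mem_filter.2 ⟨hx, by omega⟩
    have := Ws_mono hW e1
    linarith
  · -- far
    have e1 : X.filter (fun q => ex p q = e) ⊆
        T.filter (fun q => ex p q < K) ∪ T.filter (fun q => K < ex p q) := by
      intro x hx
      obtain ⟨hx, -⟩ := Finset.mem_filter.1 hx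
      rw [hN.t1, Finset.mem_filter] at hx
      rw [Finset.mem_union, Finset.mem_filter, Finset.mem_filter]
      rcases hx.2 with h | h
      · exact Or.inl ⟨hx.1, by omega⟩
      · exact Or.inr ⟨hx.1, by omega⟩
    have h1 : Ws W (X.filter (fun q => ex p q = e)) ≤ 2 * P.sg p * Ws W T :=
      (Ws_mono hW e1).trans ((ws_union_le hW _ _).trans (by linarith [hN.lo, hN.hi]))
    have h2 := mul_le_mul_of_nonneg_left h1 hc.le
    have e2 : c * (2 * P.sg p * Ws W T) = 2 * (P.sg p * (c * Ws W T)) := by ring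
    linarith
  · -- near
    have hK : e = K := by
      by_contra hne'
      have e1 : X.filter (fun q => ex p q = e) ⊆
          T.filter (fun q => ex p q < K) ∪ T.filter (fun q => K < ex p q) := by
        intro x hx
        obtain ⟨hx, hxe⟩ := Finset.mem_filter.1 hx
        rw [hN.t0, Finset.mem_filter] at hx
        rw [Finset.mem_union, Finset.mem_filter, Finset.mem_filter]
        rcases lt_or_gt_of_ne hne' with h | h
        · exact Or.inl ⟨hx.1, by omega⟩
        · exact Or.inr ⟨hx.1, by omega⟩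
      have h1 : Ws W (X.filter (fun q => ex p q = e)) ≤ 2 * P.sg p * Ws W T :=
        (Ws_mono hW e1).trans ((ws_union_le hW _ _).trans (by linarith [hN.lo, hN.hi]))
      have h2 := mul_le_mul_of_nonneg_left h1 hc.le
      have e2 : c * (2 * P.sg p * Ws W T) = 2 * (P.sg p * (c * Ws W T)) := by ring
      linarith
    have hK' : e' + k = K' := by
      by_contra hne'
      have e1 : Y.filter (fun q => ex p q = e') ⊆ Y.filter (fun q => ex p q + k ≠ K') := by
        intro x hx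
        obtain ⟨hx, hxe⟩ := Finset.mem_filter.1 hx
        exact Finset.mem_filter.2 ⟨hx, by rw [hxe]; exact hne'⟩
      have := Ws_mono hW e1
      linarith
    exact hne (by rw [← hK', ← he, hK])

/-- **joint step** -/
theorem jf_sep (hS : PS P W) {p : ℕ} (hp : p.Prime) (hp0 : P.p0 < p) {c c' : ℝ} (hc : 0 < c)
    (hc' : 0 < c') {T T₁ T₀ T' T₁' T₀' : Finset ℕ} (hj : JF P W p T T₁ T₀ T' T₁' T₀')
    (hT : c * Ws W T ≤ P.hi p) (hT' : c' * Ws W T' ≤ P.hi p) {e e' : ℕ} :
    (P.lo p / 2 ≤ c * Ws W (T₁.filter fun q => ex p q = e) →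
      P.lo p / 2 ≤ c' * Ws W (T₀'.filter fun q => ex p q = e') → e ≠ e') ∧
    (P.lo p / 2 ≤ c * Ws W (T₀.filter fun q => ex p q = e) →
      P.lo p / 2 ≤ c' * Ws W (T₁'.filter fun q => ex p q = e') → e ≠ e') := by
  have hG := hS.pg
  have hW := hG.w0
  have sg0 := hG.sg0 p
  have gap := hS.gap p hp hp0
  have lo0 := hG.lo0 p hp hp0
  have far : ∀ {c : ℝ} {T X C : Finset ℕ} {K e : ℕ}, 0 < c → c * Ws W T ≤ P.hi p →
      FarN P W p K T X C → P.lo p / 2 ≤ c * Ws W (X.filter fun q => ex p q = e) → False := by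
    intro c T X C K e hc hT hN hX
    have nT : 0 ≤ c * Ws W T := mul_nonneg hc.le (Ws_nonneg hW T)
    have hi0 : 0 ≤ P.hi p := nT.trans hT
    have sT : P.sg p * (c * Ws W T) ≤ P.sg p * P.hi p := mul_le_mul_of_nonneg_left hT sg0
    have shi : 0 ≤ P.sg p * P.hi p := mul_nonneg sg0 hi0
    have e1 : X.filter (fun q => ex p q = e) ⊆
        T.filter (fun q => ex p q < K) ∪ T.filter (fun q => K < ex p q) := by
      intro x hx
      obtain ⟨hx, -⟩ := Finset.mem_filter.1 hx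
      rw [hN.t1, Finset.mem_filter] at hx
      rw [Finset.mem_union, Finset.mem_filter, Finset.mem_filter]
      rcases hx.2 with h | h
      · exact Or.inl ⟨hx.1, by omega⟩
      · exact Or.inr ⟨hx.1, by omega⟩
    have h1 : Ws W (X.filter (fun q => ex p q = e)) ≤ 2 * P.sg p * Ws W T :=
      (Ws_mono hW e1).trans ((ws_union_le hW _ _).trans (by linarith [hN.lo, hN.hi]))
    have h2 := mul_le_mul_of_nonneg_left h1 hc.le
    have e2 : c * (2 * P.sg p * Ws W T) = 2 * (P.sg p * (c * Ws W T)) := by ring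
    linarith
  rcases hj with ⟨J, hN, hN'⟩ | ⟨K, hN, hN'⟩
  · constructor
    · intro h h' he
      obtain ⟨q, hq, hqe⟩ := ne_of_ws (by linarith) h
      obtain ⟨q', hq', hqe'⟩ := ne_of_ws (by linarith) h'
      rw [hN.t1, Finset.mem_filter] at hq
      rw [hN'.t0, Finset.mem_filter] at hq'
      omega
    · intro h h' he
      obtain ⟨q, hq, hqe⟩ := ne_of_ws (by linarith) h
      obtain ⟨q', hq', hqe'⟩ := ne_of_ws (by linarith) h'
      rw [hN.t0, Finset.mem_filter] at hq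
      rw [hN'.t1, Finset.mem_filter] at hq'
      omega
  · exact ⟨fun h _ _ => far hc hT hN h, fun _ h' _ => far hc' hT' hN' h'⟩

/-! ### closed nodes are not dead -/

/-- dead: a leaf or pulls above a leaf -/
def ddI : IT → Prop
  | .leaf _ => True
  | .pl _ t => ddI t
  | _ => False

/-- fresh: a leaf or alive -/
def Fr (t : IT) : Prop := isL t ∨ ¬ ddI t

/-- the children of the ties and up nodes are fresh -/
def Hd : IT → Prop
  | .leaf _ => True
  | .br _ _ t₁ t₀ => Fr t₁ ∧ Fr t₀ ∧ Hd t₁ ∧ Hd t₀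
  | .up _ _ t => Fr t ∧ Hd t
  | .add _ t₁ t₀ => Hd t₁ ∧ Hd t₀
  | .far _ t₁ t₀ => Hd t₁ ∧ Hd t₀
  | .pl _ t => Hd t

lemma plk_Hd (p j : ℕ) {t : IT} (h : Hd t) : Hd (plk p j t) := by
  induction j with
  | zero => exact h
  | succ j ih => exact ih

lemma plk_dd (p j : ℕ) {t : IT} (h : ¬ ddI t) : ¬ ddI (plk p j t) := by
  induction j with
  | zero => exact h
  | succ j ih => exact ih

lemma chain_Hd (W : ℕ → ℝ) (p : ℕ) (rec : ℝ → ℕ → Finset ℕ → IT)
    (hrec : ∀ c A S, Hd (rec c A S) ∧ Fr (rec c A S)) :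
    ∀ (f : ℕ) (c : ℝ) (A : ℕ) (S : Finset ℕ), Hd (Bld532.chain P W p rec f c A S) ∧
      Fr (Bld532.chain P W p rec f c A S) := by
  intro f
  induction f with
  | zero => intro c A S; exact ⟨trivial, Or.inl trivial⟩
  | succ f ih =>
    intro c A S
    unfold Bld532.chain
    split_ifs with h1 h2
    · exact ⟨trivial, Or.inl trivial⟩
    · exact ⟨⟨plk_Hd _ _ (ih _ _ _).1, (ih _ _ _).1⟩, Or.inr id⟩
    · have key : ∀ (K : ℕ) (S' : Finset ℕ), Hd (Bld532.fin1 P W p rec c A K S') ∧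
          Fr (Bld532.fin1 P W p rec c A K S') := by
        intro K S'
        unfold Bld532.fin1
        split_ifs with h3
        · exact ⟨trivial, Or.inl trivial⟩
        · cases K with
          | zero => exact ⟨⟨(hrec _ _ _).2, (hrec _ _ _).1⟩, Or.inr id⟩
          | succ K =>
            refine ⟨plk_Hd _ _ ⟨(hrec _ _ _).2, (hrec _ _ _).2, (hrec _ _ _).1, (hrec _ _ _).1⟩, ?_⟩
            exact Or.inr (plk_dd _ _ id)
      unfold Bld532.farw
      split_ifs with h4
      · exact key _ _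
      · exact ⟨⟨trivial, (key _ _).1⟩, Or.inr id⟩

/-- **the built tree** -/
theorem bld_Hd (W : ℕ → ℝ) : ∀ (n : ℕ) (c : ℝ) (A : ℕ) (S : Finset ℕ),
    Hd (Bld532.bld P W n c A S) ∧ Fr (Bld532.bld P W n c A S) := by
  intro n
  induction n with
  | zero => intro c A S; exact ⟨trivial, Or.inl trivial⟩
  | succ k ih =>
    intro c A S
    unfold Bld532.bld
    split_ifs with hk
    · exact chain_Hd W k _ ih _ _ _ _
    · exact ih _ _ _

lemma Hd_All : ∀ (t : IT) (s : NS), Hd t → All (fun _ τ => Hd τ) s t := by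
  intro t
  induction t with
  | leaf S => intro s h; exact h
  | br p Sp t₁ t₀ ih1 ih0 => intro s h; exact ⟨h, ih1 _ h.2.2.1, ih0 _ h.2.2.2⟩
  | add b t₁ t₀ ih1 ih0 => intro s h; exact ⟨h, ih1 _ h.1, ih0 _ h.2⟩
  | up b Sp t ih => intro s h; exact ⟨h, ih _ h.2⟩
  | pl b t ih => intro s h; exact ⟨h, ih _ h⟩
  | far b t₁ t₀ ih1 ih0 => intro s h; exact ⟨h, ih1 _ h.1, ih0 _ h.2⟩

/-- alive nodes have positive mass -/
lemma pos_of_alive (hG : PG P W) : ∀ (τ : IT) (u : NS), 0 < u.c → All (NodeOk P W) u τ → ¬ ddI τ →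
    0 < Ws W τ.items := by
  intro τ
  induction τ with
  | leaf S => intro u _ _ h; exact absurd trivial h
  | br q Sp t₁ t₀ _ _ =>
    intro u hc hA _
    have hok : NodeOk P W u (.br q Sp t₁ t₀) := hA.1
    have hlo : P.lo q ≤ u.c * Ws W (t₁.items ∪ t₀.items) := hok.2.2.2.2.2.2.2.2.2.1
    exact pos_of_mul_pos_right ((hG.lo0 q hok.1 hok.2.2.1).trans_le hlo) hc.le
  | add q t₁ t₀ _ _ =>
    intro u hc hA _
    have hok : NodeOk P W u (.add q t₁ t₀) := hA.1
    have hlo : P.lo q ≤ u.c * Ws W (t₁.items ∪ t₀.items) := hok.2.2.2.2.2.2.1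
    exact pos_of_mul_pos_right ((hG.lo0 q hok.1 hok.2.2.1).trans_le hlo) hc.le
  | up q Sp t _ =>
    intro u hc hA _
    have hok : NodeOk P W u (.up q Sp t) := hA.1
    have hlo : P.lo q ≤ u.c * Ws W t.items := hok.2.2.2.2.2.2.2.1
    exact pos_of_mul_pos_right ((hG.lo0 q hok.1 hok.2.2.1).trans_le hlo) hc.le
  | pl q t ih => intro u hc hA h; exact ih ⟨q + 1, u.c, u.A * q, u.B⟩ hc hA.2 h
  | far q t₁ t₀ _ _ =>
    intro u hc hA _
    have hok : NodeOk P W u (.far q t₁ t₀) := hA.1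
    have hlo : P.lo q ≤ u.c * Ws W (t₁.items ∪ t₀.items) := hok.2.2.2.2.2.2.1
    exact pos_of_mul_pos_right ((hG.lo0 q hok.1 hok.2.2.1).trans_le hlo) hc.le

end

end Crest.Agent.R4P.Sep244
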