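import Crest.Agent.R4P.SepI_244
import Crest.Agent.R4P.CrsD_26

/-!
R4 (S0004), powers, `TgtCrs`, helper244: **codes of the crossing pairs are disjoint** (`CrsD26.CD`) for
the strategy `StX` (T2 of helper26 #26414, SEP of helper29 #26645).

* `Cs_toDT` : the codes of `D.toDT sp b pr τ` are the item-level codes `StI p τ`.
* `SW` : witness invariant of the pair walk (item form of both sides, circle, levels; a side which is
  closed at the column `p` of the other side is dominated by the exponent `ex p A` and is alive or a leaf);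
  `SW.self`, `SW.next`.
* `SW.cd` : **`CD (StX st μ D.it rB P.sg) s`**.
-/

set_option autoImplicit false
set_option linter.unusedSectionVars false
set_option linter.unusedVariables false
open MeasureTheory Filter Set

namespace Crest.Agent.R4P.Sep244

open Crest.Agent.R4.Tour104 Crest.Agent.R4.Tour758 Crest.Agent.R4.Avg758 Crest.Agent.R4.Clos758
open Crest.Agent.R4.ClosL758 Crest.Agent.R4.ClosG758 Crest.Agent.R4.ClosR758
open Crest.Agent.R4P.Cnt588 Crest.Agent.R4P.Walk560 Crest.Agent.R4P.Item758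
open Crest.Agent.R4P.Bld532 (NS All NodeOk Bk dv nd mem_dv mem_nd Ws_mono Ws_nonneg)
open Crest.Agent.R4 Crest.Agent.R4P
open Crest.Agent.R4P.StratN36 Crest.Agent.R4P.StratX36 Crest.Agent.R4P.VWalk36
open Crest.Agent.R4P.WalkIT579 (tp isL top_of_nodeOk bk_of_nodeOk nodeOk_hi Lv)
open Crest.Agent.R4P.Dd26 Crest.Agent.R4P.CrsD26

section
variable {Λ κ : Type*} [Fintype Λ] [DecidableEq Λ] [Fintype κ] [DecidableEq κ] [WRel κ]
  {D : Par Λ κ} {sp : ℕ → Finset Λ} {P : Bld532.Par} {W : ℕ → ℝ} {Qp : NS → IT → Prop}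
  {μ : TrG Λ κ → Finset Λ → ℝ} {rB : DT Λ κ → ℕ}

/-- the codes of a built tree -/
lemma Cs_toDT {p : ℕ} (hp : p ≠ 0) : ∀ (τ : IT) (b pr k : ℕ),
    k ∈ Cs p (D.toDT sp b pr τ) ↔ StI p τ k := by
  intro τ
  induction τ with
  | leaf S => intro b pr k; exact Iff.rfl
  | br q Sp t₁ t₀ ih₁ ih₀ =>
    intro b pr k
    show ((q ≠ p ∧ k = 0) ∨ (q = p ∧ (1 / (q : ℝ)) ≠ 0 ∧ k = 1) ∨
      (q = p ∧ (1 / (q : ℝ)) = 0 ∧ ∃ e' ∈ Cs p (D.toDT sp b (pr * q) t₁), k = e' + 1)) ↔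
      ((q ≠ p ∧ k = 0) ∨ (q = p ∧ k = 1))
    by_cases hq : q = p
    · subst hq
      have h1 : (1 / (q : ℝ)) ≠ 0 := by positivity
      simp [hp]
    · simp [hq]
  | add q t₁ t₀ ih₁ ih₀ =>
    intro b pr k
    show ((q ≠ p ∧ k = 0) ∨ (q = p ∧ (k ∈ Cs p (D.toDT sp b pr t₁) ∨
      k ∈ Cs p (D.toDT sp b pr t₀)))) ↔ _
    rw [ih₁, ih₀]
    exact Iff.rfl
  | up q Sp t ih =>
    intro b pr k
    show ((q ≠ p ∧ k = 0) ∨ (q = p ∧ k ∈ Cs p (D.toDT sp b pr t))) ↔ _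
    rw [ih]
    exact Iff.rfl
  | pl q t ih =>
    intro b pr k
    show ((q ≠ p ∧ k = 0) ∨ (q = p ∧ (0 : ℝ) ≠ 0 ∧ k = 1) ∨
      (q = p ∧ (0 : ℝ) = 0 ∧ ∃ e' ∈ Cs p (D.toDT sp b (pr * q) t), k = e' + 1)) ↔
      ((q ≠ p ∧ k = 0) ∨ (q = p ∧ ∃ k', StI p t k' ∧ k = k' + 1))
    simp only [ih, ne_eq, not_true_eq_false, false_and, and_false, false_or, true_and]
  | far q t₁ t₀ ih₁ ih₀ =>
    intro b pr k
    show ((q ≠ p ∧ k = 0) ∨ (q = p ∧ (k ∈ Cs p (D.toDT sp b pr t₁) ∨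
      k ∈ Cs p (D.toDT sp b pr t₀)))) ↔ _
    rw [ih₁, ih₀]
    exact Iff.rfl

/-- a side which is closed at `p`: dominated by the exponent `ex p A`, alive or a leaf -/
def ClA (P : Bld532.Par) (W : ℕ → ℝ) (p : ℕ) (u : NS) (τ : IT) : Prop :=
  DomN P W p (ex p u.A) τ.items ∧ Fr τ

/-- **witness invariant** -/
structure SW (D : Par Λ κ) (sp : ℕ → Finset Λ) (P : Bld532.Par) (W : ℕ → ℝ)
    (Qp : NS → IT → Prop) (s : St Λ κ) (u u' : NS) (τ τ' : IT) : Prop where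
  tL : s.t = D.toDT sp u.B u.A τ
  tR : s.t' = D.toDT sp u'.B u'.A τ'
  qL : All Qp u τ
  qR : All Qp u' τ'
  circ : u.A * u.B * s.M = u'.A * u'.B * s.M'
  lv : ∃ m, Lv u.n u'.n s.M s.M' m
  cl : ¬ s.t.isLeaf → ¬ s.t'.isLeaf →
    (s.t'.top < s.t.top → ClA P W s.t.top u' τ') ∧ (s.t.top < s.t'.top → ClA P W s.t'.top u τ)

/-- **hypotheses on the nodes** -/
structure QH (D : Par Λ κ) (P : Bld532.Par) (W : ℕ → ℝ) (μ : TrG Λ κ → Finset Λ → ℝ)
    (rB : DT Λ κ → ℕ) (Qp : NS → IT → Prop) : Prop where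
  nf : ∀ u τ, Qp u τ → NF D P W μ rB u τ
  hd : ∀ u τ, Qp u τ → Hd τ

/-- self states -/
theorem SW.self {u : NS} {τ : IT} (h : All Qp u τ) (A : Finset Λ) :
    SW D sp P W Qp (selfSt (D.toDT sp u.B u.A τ) A) u u τ τ where
  tL := rfl
  tR := rfl
  qL := h
  qR := h
  circ := rfl
  lv := ⟨u.n, fun l _ h => h.le, fun l _ h => h.le, fun l _ h => h, fun l _ h => h,
    fun l hl h1 => absurd (Nat.dvd_one.1 h1) hl.one_lt.ne',
    fun l hl h1 => absurd (Nat.dvd_one.1 h1) hl.one_lt.ne'⟩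
  cl := fun _ _ => ⟨fun h => absurd h (lt_irrefl _), fun h => absurd h (lt_irrefl _)⟩

section facts
variable {s : St Λ κ} {u u' : NS} {τ τ' : IT}

lemma nl_of {b pr : ℕ} {σ : IT} (h : ¬ (D.toDT sp b pr σ).isLeaf) : ¬ isL σ := fun h2 =>
  h ((WalkIT579.toDT_leaf D sp _ _ _).2 h2)

/-- the column of a non-leaf state is a prime, and the threshold of the levels -/
theorem SW.lvp (hQ : QH D P W μ rB Qp) (h : SW D sp P W Qp s u u' τ τ') (hl : ¬ s.t.isLeaf)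
    (hl' : ¬ s.t'.isLeaf) : s.p.Prime ∧ Lv u.n u'.n s.M s.M' s.p := by
  obtain ⟨m, hm⟩ := h.lv
  obtain ⟨a1, a2, a3⟩ := top_of_nodeOk (hQ.nf _ _ h.qL.self).ok (nl_of (h.tL ▸ hl))
  obtain ⟨b1, b2, b3⟩ := top_of_nodeOk (hQ.nf _ _ h.qR.self).ok (nl_of (h.tR ▸ hl'))
  have e1 : s.t.top = tp τ := by rw [h.tL]; exact WalkIT579.toDT_top D sp _ _ τ
  have e2 : s.t'.top = tp τ' := by rw [h.tR]; exact WalkIT579.toDT_top D sp _ _ τ'
  have p1 : tp τ ≤ s.p := by rw [← e1]; exact le_max_left _ _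
  have p2 : tp τ' ≤ s.p := by rw [← e2]; exact le_max_right _ _
  have hor : s.p = tp τ ∨ s.p = tp τ' := by
    unfold St.p
    rw [e1, e2]
    rcases le_total (tp τ) (tp τ') with h | h
    · exact Or.inr (max_eq_right h)
    · exact Or.inl (max_eq_left h)
  have hpp : s.p.Prime := by
    rcases hor with e | e <;> rw [e]
    · exact a1
    · exact b1
  have hpm : s.p ≤ m := by
    rcases hor with e | e <;> rw [e]
    · exact hm.le _ a1 a2
    · exact hm.le' _ b1 b2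
  exact ⟨hpp, fun l hl hln => (a3 l hl hln).trans p1, fun l hl hln => (b3 l hl hln).trans p2,
    fun l hl hlp => hm.lt l hl (hlp.trans_le hpm), fun l hl hlp => hm.lt' l hl (hlp.trans_le hpm),
    fun l hl hd => hpm.trans (hm.M l hl hd), fun l hl hd => hpm.trans (hm.M' l hl hd)⟩

/-- the landed witness of the strategy facts -/
theorem SW.wt (hQ : QH D P W μ rB Qp) (h : SW D sp P W Qp s u u' τ τ') :
    WT D sp Qp s u u' τ τ' where
  tL := h.tL
  tR := h.tR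
  qL := h.qL
  qR := h.qR
  lv := fun hl hl' l hlp hlt => by
    have h2 := (h.lvp hQ hl hl').2
    exact ⟨h2.lt l hlp hlt, h2.lt' l hlp hlt⟩

/-- the landed invariant of the closed sides -/
theorem SW.bs (hG : PG P W) (hQ : QH D P W μ rB Qp) (h : SW D sp P W Qp s u u' τ τ') :
    BS P.sg μ D.it s := by
  intro hl hl'
  obtain ⟨c1, c2⟩ := h.cl hl hl'
  refine ⟨fun hlt => ?_, fun hlt => ?_⟩
  · rw [h.tR]
    exact bside_of hG.w0 (hQ.nf _ _ h.qR.self) sp (c1 hlt).1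
  · rw [h.tL]
    exact bside_of hG.w0 (hQ.nf _ _ h.qL.self) sp (c2 hlt).1

end facts

/-! ### the sides of a child -/

/-- one side of a child: not moved, open at `p`, or closed at `p` and dominated by `ex p A` -/
def Mw (D : Par Λ κ) (sp : ℕ → Finset Λ) (P : Bld532.Par) (W : ℕ → ℝ) (Qp : NS → IT → Prop)
    (p : ℕ) (u : NS) (τ : IT) (k : ℕ) (d : DT Λ κ) : Prop :=
  ∃ (v : NS) (σ : IT), d = D.toDT sp v.B v.A σ ∧ All Qp v σ ∧ v.A * v.B = u.A * u.B * k ∧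
    ((v = u ∧ σ = τ) ∨ v.n = p + 1 ∨ (v.n = p ∧ ClA P W p v σ))

section mw
variable {p : ℕ} {u : NS} {τ : IT} {d d₁ d₀ : DT Λ κ} {w : ℝ} {r : Λ → κ} {v : Λ → ℝ → ℝ}
  {B G : κ → ℝ → ℝ} {Sp : Finset Λ}

lemma Mw.self (hq : All Qp u τ) : Mw D sp P W Qp p u τ 1 (D.toDT sp u.B u.A τ) :=
  ⟨u, τ, rfl, hq, (mul_one _).symm, Or.inl ⟨rfl, rfl⟩⟩

/-- children of a tie or of a pull -/
lemma Mw.br (hG : PG P W) (hQ : QH D P W μ rB Qp)
    (hd : D.toDT sp u.B u.A τ = .br p w r d₁ d₀ v B G) (hq : All Qp u τ) :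
    Mw D sp P W Qp p u τ p d₁ ∧ (w ≠ 0 → Mw D sp P W Qp p u τ p d₀) := by
  rcases AvgItem710.toDT_br hd with ⟨S, t₁, t₀, rfl, -, rfl, rfl, -, -⟩ | ⟨t₁, rfl, -, rfl, -, hw, -⟩
  · have hok := (hQ.nf _ _ hq.1).ok
    obtain ⟨-, m1, m0⟩ := br_mass hG.w0 hG.sg0 hok
    obtain ⟨f1, f0, -, -⟩ := hQ.hd _ _ hq.1
    have hA0 : 0 < u.A := (bk_of_nodeOk hok).Apos
    refine ⟨⟨_, t₁, rfl, hq.2.1, by show u.A * p * u.B = u.A * u.B * p; ring,
        Or.inr (Or.inr ⟨rfl, ?_, f1⟩)⟩,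
      fun _ => ⟨_, t₀, rfl, hq.2.2, by show u.A * (u.B * p) = u.A * u.B * p; ring,
        Or.inr (Or.inr ⟨rfl, m0, f0⟩)⟩⟩
    show DomN P W p (ex p (u.A * p)) t₁.items
    rw [ex_mul hok.1 hA0]
    exact m1
  · exact ⟨⟨⟨p + 1, u.c, u.A * p, u.B⟩, t₁, rfl, hq.2,
        by show u.A * p * u.B = u.A * u.B * p; ring, Or.inr (Or.inl rfl)⟩,
      fun h => absurd hw h⟩

/-- children of an add node (SEP or FAR) -/
lemma Mw.add (hd : D.toDT sp u.B u.A τ = .add p r d₁ d₀) (hq : All Qp u τ) :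
    Mw D sp P W Qp p u τ 1 d₁ ∧ Mw D sp P W Qp p u τ 1 d₀ := by
  obtain ⟨t₁, t₀, ht, -, rfl, rfl⟩ := AvgItem710.toDT_add hd
  rcases ht with rfl | rfl
  · exact ⟨⟨⟨p + 1, u.c, u.A, u.B⟩, t₁, rfl, hq.2.1, (mul_one _).symm, Or.inr (Or.inl rfl)⟩,
      ⟨⟨p + 1, u.c, u.A, u.B⟩, t₀, rfl, hq.2.2, (mul_one _).symm, Or.inr (Or.inl rfl)⟩⟩
  · exact ⟨⟨⟨p + 1, u.c, u.A, u.B⟩, t₁, rfl, hq.2.1, (mul_one _).symm, Or.inr (Or.inl rfl)⟩,
      ⟨⟨p + 1, u.c, u.A, u.B⟩, t₀, rfl, hq.2.2, (mul_one _).symm, Or.inr (Or.inl rfl)⟩⟩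

/-- the `up` view -/
lemma Mw.up (hG : PG P W) (hQ : QH D P W μ rB Qp)
    (hd : vw p (D.toDT sp u.B u.A τ) = .up Sp d) (hq : All Qp u τ) :
    Mw D sp P W Qp p u τ 1 d := by
  rcases vw_up hd with h | ⟨-, rfl, -⟩
  · obtain ⟨S, t₁, rfl, -, rfl⟩ := AvgItem710.toDT_up h
    have hok := (hQ.nf _ _ hq.1).ok
    have hm : DomN P W p (ex p u.A) t₁.items := up_mass hG.w0 hG.sg0 hok
    exact ⟨⟨p, u.c, u.A, u.B⟩, t₁, rfl, hq.2, (mul_one _).symm,
      Or.inr (Or.inr ⟨rfl, hm, (hQ.hd _ _ hq.1).1⟩)⟩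
  · exact Mw.self hq

/-- the chosen child of an add node -/
lemma Mw.c {stp : Stp Λ κ} {s : St Λ κ} {k : ℕ}
    (h : Mw D sp P W Qp p u τ k d₁ ∧ Mw D sp P W Qp p u τ k d₀) :
    Mw D sp P W Qp p u τ k (stp.c s d₁ d₀) := by
  rcases stp.c_or s d₁ d₀ with ⟨e, -⟩ | ⟨e, -⟩ <;> rw [e]
  · exact h.1
  · exact h.2

/-- top column of a moved side -/
lemma mw_top (hQ : QH D P W μ rB Qp) (hp : p.Prime) {t : DT Λ κ} (ht : t = D.toDT sp u.B u.A τ)
    (hq : All Qp u τ) (hl : ¬ t.isLeaf) (hlt : ∀ l : ℕ, l.Prime → l < p → l < u.n)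
    (htp : t.top ≤ p) {v : NS} {σ : IT} (e : d = D.toDT sp v.B v.A σ) (hσ : All Qp v σ)
    (hc : (v = u ∧ σ = τ) ∨ v.n = p + 1 ∨ (v.n = p ∧ ClA P W p v σ)) (hd : ¬ d.isLeaf) :
    d.top = p ∨ (d.top < p ∧ d.top.Prime ∧ (∀ l : ℕ, l.Prime → l < p → l ≤ d.top) ∧
      ((v = u ∧ σ = τ ∧ d = t) ∨ ClA P W p v σ)) := by
  obtain ⟨a1, a2, a3⟩ := top_of_nodeOk (hQ.nf _ _ hσ.self).ok (nl_of (e ▸ hd))
  have et : d.top = tp σ := by rw [e, WalkIT579.toDT_top]
  rcases hc with ⟨rfl, rfl⟩ | hn | ⟨hn, hb⟩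
  · have ed : d = t := by rw [e, ht]
    by_cases h1 : d.top = p
    · exact Or.inl h1
    · have h2 : d.top < p := lt_of_le_of_ne (ed ▸ htp) h1
      exact Or.inr ⟨h2, by rw [et]; exact a1, fun l hlp hll => by
        rw [et]; exact a3 l hlp (hlt l hlp hll), Or.inl ⟨rfl, rfl, ed⟩⟩
  · left
    rw [et]
    refine le_antisymm ?_ (a3 p hp (by rw [hn]; exact Nat.lt_succ_self p))
    rw [hn] at a2
    exact Nat.lt_succ_iff.1 a2
  · right
    refine ⟨by rw [et, ← hn]; exact a2, by rw [et]; exact a1, fun l hlp hll => ?_, Or.inr hb⟩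
    rw [et]
    exact a3 l hlp (by rw [hn]; exact hll)

end mw

section next
variable {u u' : NS} {τ τ' : IT}

/-- the two sides of a child -/
theorem SW.of_Mw (hQ : QH D P W μ rB Qp) {s q : St Λ κ} (h : SW D sp P W Qp s u u' τ τ')
    (hl : ¬ s.t.isLeaf) (hl' : ¬ s.t'.isLeaf) {k k' : ℕ}
    (hL : Mw D sp P W Qp s.p u τ k q.t) (hR : Mw D sp P W Qp s.p u' τ' k' q.t')
    (hM : q.M ∣ s.p * s.M) (hM' : q.M' ∣ s.p * s.M')
    (e : u.A * u.B * k * q.M = u'.A * u'.B * k' * q.M') :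
    ∃ v v' σ σ', SW D sp P W Qp q v v' σ σ' := by
  obtain ⟨hp, hlv⟩ := h.lvp hQ hl hl'
  obtain ⟨v, σ, h1, h2, h3, h4⟩ := hL
  obtain ⟨v', σ', h1', h2', h3', h4'⟩ := hR
  have hn : v.n = u.n ∨ v.n = s.p ∨ v.n = s.p + 1 := by
    rcases h4 with ⟨rfl, -⟩ | h | h
    · exact Or.inl rfl
    · exact Or.inr (Or.inr h)
    · exact Or.inr (Or.inl h.1)
  have hn' : v'.n = u'.n ∨ v'.n = s.p ∨ v'.n = s.p + 1 := by
    rcases h4' with ⟨rfl, -⟩ | h | h
    · exact Or.inl rfl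
    · exact Or.inr (Or.inr h)
    · exact Or.inr (Or.inl h.1)
  refine ⟨v, v', σ, σ', h1, h1', h2, h2', by rw [h3, h3']; exact e, ⟨s.p,
    hlv.step hp hn hn' hM hM'⟩, fun hq hq' => ?_⟩
  have hpL : s.t.top ≤ s.p := le_max_left _ _
  have hpR : s.t'.top ≤ s.p := le_max_right _ _
  obtain ⟨c1, c2⟩ := h.cl hl hl'
  have a := mw_top hQ hp h.tL h.qL hl hlv.lt hpL h1 h2 h4 hq
  have b := mw_top hQ hp h.tR h.qR hl' hlv.lt' hpR h1' h2' h4' hq'
  constructor
  · intro hlt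
    rcases a with a | ⟨a1, a2, a3, a4⟩
    · rcases b with b | ⟨b1, b2, b3, b4⟩
      · omega
      · rw [a]
        rcases b4 with ⟨rfl, rfl, ed⟩ | b4
        · rw [ed] at b1
          have h5 : s.t.top = s.p := by
            unfold St.p at b1 ⊢
            rcases le_total s.t.top s.t'.top with h3 | h3
            · rw [max_eq_right h3] at b1; omega
            · rw [max_eq_left h3]
          have := c1 (by rw [h5]; exact b1)
          rw [h5] at this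
          exact this
        · exact b4
    · rcases b with b | ⟨b1, b2, b3, b4⟩
      · omega
      · exact absurd (b3 _ a2 a1) (not_le.2 hlt)
  · intro hlt
    rcases b with b | ⟨b1, b2, b3, b4⟩
    · rcases a with a | ⟨a1, a2, a3, a4⟩
      · omega
      · rw [b]
        rcases a4 with ⟨rfl, rfl, ed⟩ | a4
        · rw [ed] at a1
          have h5 : s.t'.top = s.p := by
            unfold St.p at a1 ⊢
            rcases le_total s.t.top s.t'.top with h3 | h3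
            · rw [max_eq_right h3]
            · rw [max_eq_left h3] at a1; omega
          have := c2 (by rw [h5]; exact a1)
          rw [h5] at this
          exact this
        · exact a4
    · rcases a with a | ⟨a1, a2, a3, a4⟩
      · omega
      · exact absurd (a3 _ b2 b1) (not_le.2 hlt)

set_option maxHeartbeats 1000000 in
/-- **the witness invariant is preserved by the walk** (any strategy) -/
theorem SW.next (hG : PG P W) (hQ : QH D P W μ rB Qp) {stp : Stp Λ κ} {s : St Λ κ}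
    (h : SW D sp P W Qp s u u' τ τ') :
    ∀ q ∈ nxt stp s, ∃ v v' σ σ', SW D sp P W Qp q.2 v v' σ σ' := by
  intro q hq'
  obtain ⟨hq, hq0⟩ := mem_nxt.1 hq'
  unfold nxt0 at hq
  by_cases h1 : s.t.isLeaf ∨ s.t'.isLeaf
  · simp [h1] at hq
  by_cases h2 : stp s
  · simp [h1, h2] at hq
  rw [if_neg h1, if_neg h2] at hq
  rw [not_or] at h1
  have hsL : Mw D sp P W Qp s.p u τ 1 s.t := by rw [h.tL]; exact Mw.self h.qL
  have hsR : Mw D sp P W Qp s.p u' τ' 1 s.t' := by rw [h.tR]; exact Mw.self h.qR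
  have hMM : s.M ∣ s.p * s.M := Dvd.intro_left _ rfl
  have hMM' : s.M' ∣ s.p * s.M' := Dvd.intro_left _ rfl
  by_cases hPL : s.isPL
  · rw [if_pos hPL] at hq
    obtain ⟨w, r, t₁, t₀, v, B, G, hv, et, hc⟩ := St.isPL_cases hPL
    obtain ⟨m1, m0⟩ := Mw.br hG hQ (h.tL.symm.trans et) h.qL
    rcases hc with ⟨hd, hs⟩ | ⟨hd, hw, hs⟩
    · rw [hs] at hq
      have e : s.p * (s.M / s.p) = s.M := Nat.mul_div_cancel' hd
      have hM1 : s.M / s.p ∣ s.p * s.M := (Nat.div_dvd_of_dvd hd).trans hMM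
      have ec : u.A * u.B * s.p * (s.M / s.p) = u'.A * u'.B * 1 * s.M' := by
        rw [mul_assoc, e, mul_one]; exact h.circ
      simp only [List.mem_cons, List.not_mem_nil, or_false] at hq
      rcases hq with rfl | rfl
      · exact SW.of_Mw (q := s.fL r t₁) hQ h h1.1 h1.2 m1 hsR hM1 hMM' ec
      · exact SW.of_Mw (q := s.fL r t₀) hQ h h1.1 h1.2 (m0 hq0) hsR hM1 hMM' ec
    · rw [hs] at hq
      simp only [List.mem_cons, List.not_mem_nil, or_false] at hq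
      rcases hq with rfl | rfl
      · refine SW.of_Mw (q := s.pL r t₁) hQ h h1.1 h1.2 m1 hsR hMM dvd_rfl ?_
        show u.A * u.B * s.p * s.M = u'.A * u'.B * 1 * (s.p * s.M')
        calc u.A * u.B * s.p * s.M = (u.A * u.B * s.M) * s.p := by ring
          _ = (u'.A * u'.B * s.M') * s.p := by rw [h.circ]
          _ = _ := by ring
      · exact absurd hw hq0
  rw [if_neg hPL] at hq
  by_cases hPR : s.isPR
  · rw [if_pos hPR] at hq
    obtain ⟨w, r, t₁, t₀, v, B, G, hv, et, hc⟩ := St.isPR_cases hPR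
    obtain ⟨m1, m0⟩ := Mw.br hG hQ (h.tR.symm.trans et) h.qR
    rcases hc with ⟨hd, hs⟩ | ⟨hd, hw, hs⟩
    · rw [hs] at hq
      have e : s.p * (s.M' / s.p) = s.M' := Nat.mul_div_cancel' hd
      have hM1 : s.M' / s.p ∣ s.p * s.M' := (Nat.div_dvd_of_dvd hd).trans hMM'
      have ec : u.A * u.B * 1 * s.M = u'.A * u'.B * s.p * (s.M' / s.p) := by
        rw [mul_assoc (u'.A * u'.B), e, mul_one]; exact h.circ
      simp only [List.mem_cons, List.not_mem_nil, or_false] at hq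
      rcases hq with rfl | rfl
      · exact SW.of_Mw (q := s.fR r t₁) hQ h h1.1 h1.2 hsL m1 hMM hM1 ec
      · exact SW.of_Mw (q := s.fR r t₀) hQ h h1.1 h1.2 hsL (m0 hq0) hMM hM1 ec
    · rw [hs] at hq
      simp only [List.mem_cons, List.not_mem_nil, or_false] at hq
      rcases hq with rfl | rfl
      · refine SW.of_Mw (q := s.pR r t₁) hQ h h1.1 h1.2 hsL m1 dvd_rfl hMM' ?_
        show u.A * u.B * 1 * (s.p * s.M) = u'.A * u'.B * s.p * s.M'
        calc u.A * u.B * 1 * (s.p * s.M) = (u.A * u.B * s.M) * s.p := by ring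
          _ = (u'.A * u'.B * s.M') * s.p := by rw [h.circ]
          _ = _ := by ring
      · exact absurd hw hq0
  rw [if_neg hPR] at hq
  have c11 : u.A * u.B * 1 * s.M = u'.A * u'.B * 1 * s.M' := by
    rw [mul_one, mul_one]; exact h.circ
  have cpp : u.A * u.B * s.p * s.M = u'.A * u'.B * s.p * s.M' := by
    calc u.A * u.B * s.p * s.M = (u.A * u.B * s.M) * s.p := by ring
      _ = (u'.A * u'.B * s.M') * s.p := by rw [h.circ]
      _ = _ := by ring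
  have cp1 : u.A * u.B * s.p * s.M = u'.A * u'.B * 1 * (s.p * s.M') := by
    rw [cpp]; ring
  have c1p : u.A * u.B * 1 * (s.p * s.M) = u'.A * u'.B * s.p * s.M' := by
    rw [← cpp]; ring
  rcases hv : vw s.p s.t with ⟨w, r, t₁, t₀, v, B, G⟩ | ⟨r, t₁, t₀⟩ | ⟨Sp, d⟩ <;>
  rcases hv' : vw s.p s.t' with ⟨w', r', t₁', t₀', v', B', G'⟩ | ⟨r', t₁', t₀'⟩ | ⟨Sp', d'⟩ <;>
  simp only [hv, hv'] at hq
  · -- br br
    obtain ⟨m1, m0⟩ := Mw.br hG hQ (h.tL.symm.trans (vw_br hv)) h.qL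
    obtain ⟨m1', m0'⟩ := Mw.br hG hQ (h.tR.symm.trans (vw_br hv')) h.qR
    simp only [List.mem_cons, List.not_mem_nil, or_false] at hq
    rcases hq with rfl | rfl | rfl | rfl
    · exact SW.of_Mw hQ h h1.1 h1.2 m1 m1' hMM hMM' cpp
    · exact SW.of_Mw hQ h h1.1 h1.2 m1 (m0' (right_ne_zero_of_mul hq0)) hMM hMM' cpp
    · exact SW.of_Mw hQ h h1.1 h1.2 (m0 (left_ne_zero_of_mul hq0)) m1' hMM hMM' cpp
    · exact SW.of_Mw hQ h h1.1 h1.2
        (m0 (left_ne_zero_of_mul hq0)) (m0' (right_ne_zero_of_mul hq0)) hMM hMM' cpp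
  · -- br add
    have m' := Mw.add (P := P) (W := W) (h.tR.symm.trans (vw_add hv')) h.qR
    simp only [List.mem_cons, List.not_mem_nil, or_false] at hq
    subst hq
    exact SW.of_Mw hQ h h1.1 h1.2 hsL (Mw.c m') hMM hMM' c11
  · -- br up
    obtain ⟨m1, m0⟩ := Mw.br hG hQ (h.tL.symm.trans (vw_br hv)) h.qL
    have m' := Mw.up hG hQ (h.tR ▸ hv') h.qR
    simp only [List.mem_cons, List.not_mem_nil, or_false] at hq
    rcases hq with rfl | rfl
    · exact SW.of_Mw hQ h h1.1 h1.2 m1 m' hMM dvd_rfl cp1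
    · exact SW.of_Mw hQ h h1.1 h1.2 (m0 hq0) m' hMM dvd_rfl cp1
  · -- add br
    have m := Mw.add (P := P) (W := W) (h.tL.symm.trans (vw_add hv)) h.qL
    simp only [List.mem_cons, List.not_mem_nil, or_false] at hq
    subst hq
    exact SW.of_Mw hQ h h1.1 h1.2 (Mw.c m) hsR hMM hMM' c11
  · -- add add
    have m := Mw.add (P := P) (W := W) (h.tL.symm.trans (vw_add hv)) h.qL
    have m' := Mw.add (P := P) (W := W) (h.tR.symm.trans (vw_add hv')) h.qR
    split_ifs at hq with hj hl <;>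
      simp only [List.mem_cons, List.not_mem_nil, or_false] at hq
    · rcases hq with rfl | rfl
      · exact SW.of_Mw hQ h h1.1 h1.2 m.1 m'.1 hMM hMM' c11
      · exact SW.of_Mw hQ h h1.1 h1.2 m.2 m'.2 hMM hMM' c11
    · subst hq
      exact SW.of_Mw hQ h h1.1 h1.2 (Mw.c m) hsR hMM hMM' c11
    · subst hq
      exact SW.of_Mw hQ h h1.1 h1.2 hsL (Mw.c m') hMM hMM' c11
  · -- add up
    have m := Mw.add (P := P) (W := W) (h.tL.symm.trans (vw_add hv)) h.qL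
    have m' := Mw.up hG hQ (h.tR ▸ hv') h.qR
    split_ifs at hq with hj <;>
      simp only [List.mem_cons, List.not_mem_nil, or_false] at hq
    · rcases hq with rfl | rfl
      · exact SW.of_Mw hQ h h1.1 h1.2 m.1 m' hMM hMM' c11
      · exact SW.of_Mw hQ h h1.1 h1.2 m.2 m' hMM hMM' c11
    · subst hq
      exact SW.of_Mw hQ h h1.1 h1.2 (Mw.c m) hsR hMM hMM' c11
  · -- up br
    have m := Mw.up hG hQ (h.tL ▸ hv) h.qL
    obtain ⟨m1', m0'⟩ := Mw.br hG hQ (h.tR.symm.trans (vw_br hv')) h.qR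
    simp only [List.mem_cons, List.not_mem_nil, or_false] at hq
    rcases hq with rfl | rfl
    · exact SW.of_Mw hQ h h1.1 h1.2 m m1' dvd_rfl hMM' c1p
    · exact SW.of_Mw hQ h h1.1 h1.2 m (m0' hq0) dvd_rfl hMM' c1p
  · -- up add
    have m := Mw.up hG hQ (h.tL ▸ hv) h.qL
    have m' := Mw.add (P := P) (W := W) (h.tR.symm.trans (vw_add hv')) h.qR
    split_ifs at hq with hj <;>
      simp only [List.mem_cons, List.not_mem_nil, or_false] at hq
    · rcases hq with rfl | rfl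
      · exact SW.of_Mw hQ h h1.1 h1.2 m m'.1 hMM hMM' c11
      · exact SW.of_Mw hQ h h1.1 h1.2 m m'.2 hMM hMM' c11
    · subst hq
      exact SW.of_Mw hQ h h1.1 h1.2 hsL (Mw.c m') hMM hMM' c11
  · -- up up
    have m := Mw.up hG hQ (h.tL ▸ hv) h.qL
    have m' := Mw.up hG hQ (h.tR ▸ hv') h.qR
    simp only [List.mem_cons, List.not_mem_nil, or_false] at hq
    subst hq
    exact SW.of_Mw hQ h h1.1 h1.2 m m' hMM hMM' c11

end next

/-! ### codes of the crossing pairs -/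

section cd
variable {u u' : NS} {τ τ' : IT} {s : St Λ κ} {st : St Λ κ → Prop}

/-- the exponents of the circle -/
lemma circ_ex {p A B A' B' a b : ℕ} (hp : p.Prime) (hA : 0 < A) (hB : 0 < B) (hA' : 0 < A')
    (hB' : 0 < B') (h : A * B * p ^ a = A' * B' * p ^ b) :
    ex p A + ex p B + a = ex p A' + ex p B' + b := by
  have h1 := congrArg (fun n => n.factorization p) h
  have hpa : p ^ a ≠ 0 := pow_ne_zero _ hp.ne_zero
  have hpb : p ^ b ≠ 0 := pow_ne_zero _ hp.ne_zero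
  simp only [Nat.factorization_mul (Nat.mul_pos hA hB).ne' hpa,
    Nat.factorization_mul (Nat.mul_pos hA' hB').ne' hpb, Nat.factorization_mul hA.ne' hB.ne',
    Nat.factorization_mul hA'.ne' hB'.ne', Nat.factorization_pow, Finsupp.add_apply,
    Finsupp.smul_apply, hp.factorization_self, smul_eq_mul, mul_one] at h1
  exact h1

/-- the code of a partner -/
theorem partner (hS : PS P W) {p : ℕ} (hp : p.Prime) (hp0 : P.p0 < p) {v : NS} {σ : IT} {k : ℕ}
    (hc : 0 < v.c) (hA : All (NodeOk P W) v σ) (hcl : tp σ = p ∨ ClA P W p v σ)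
    (hk : StI p σ k) :
    4 * P.sg p * Ws W σ.items < Ws W (σ.items.filter fun q => ex p q = ex p v.A + k) := by
  have hG := hS.pg
  have sg0 := hG.sg0 p
  have sg8 := hG.sg8 p hp hp0
  by_cases ht : tp σ = p
  · have h1 := massI hG hp σ v k hc hA ht hk
    have h2 := (nodeOk_hi hA.self (StI_not_leaf hk)).1
    rw [ht] at h2
    have h3 : 4 * P.sg p * (v.c * Ws W σ.items) ≤ 4 * P.sg p * P.hi p :=
      mul_le_mul_of_nonneg_left h2 (by linarith)
    have h4 := hS.gap p hp hp0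
    have h5 : v.c * (4 * P.sg p * Ws W σ.items) <
        v.c * Ws W (σ.items.filter fun q => ex p q = ex p v.A + k) := by
      have e : v.c * (4 * P.sg p * Ws W σ.items) = 4 * P.sg p * (v.c * Ws W σ.items) := by ring
      rw [e]
      linarith
    exact lt_of_mul_lt_mul_left h5 hc.le
  · obtain ⟨hD, hF⟩ := hcl.resolve_left ht
    obtain ⟨k0, hl⟩ := StI_closed hk ht
    subst k0
    have hpos := pos_of_alive hG σ v hc hA (hF.resolve_left hl)
    have es := ws_filter (W := W) σ.items (fun q => ex p q = ex p v.A)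
    have ht' : Ws W (σ.items.filter fun q => ¬ ex p q = ex p v.A) ≤ 4 * P.sg p * Ws W σ.items :=
      hD.tail
    have h3 : 8 * P.sg p * Ws W σ.items < 1 * Ws W σ.items := mul_lt_mul_of_pos_right sg8 hpos
    show 4 * P.sg p * Ws W σ.items < Ws W (σ.items.filter fun q => ex p q = ex p v.A)
    linarith

/-- the right side at the column of the state -/
lemma SW.sideR (hQ : QH D P W μ rB Qp) (h : SW D sp P W Qp s u u' τ τ') (hl : ¬ s.t.isLeaf)
    (hl' : ¬ s.t'.isLeaf) (ht : s.t.top = s.p) : tp τ' = s.p ∨ ClA P W s.p u' τ' := by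
  have e2 : s.t'.top = tp τ' := by rw [h.tR]; exact WalkIT579.toDT_top D sp _ _ τ'
  have hle : s.t'.top ≤ s.p := le_max_right _ _
  rcases hle.lt_or_eq with h1 | h1
  · right
    have := (h.cl hl hl').1 (by rw [ht]; exact h1)
    rwa [ht] at this
  · left; rw [← e2]; exact h1

lemma SW.sideL (hQ : QH D P W μ rB Qp) (h : SW D sp P W Qp s u u' τ τ') (hl : ¬ s.t.isLeaf)
    (hl' : ¬ s.t'.isLeaf) (ht : s.t'.top = s.p) : tp τ = s.p ∨ ClA P W s.p u τ := by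
  have e2 : s.t.top = tp τ := by rw [h.tL]; exact WalkIT579.toDT_top D sp _ _ τ
  have hle : s.t.top ≤ s.p := le_max_left _ _
  rcases hle.lt_or_eq with h1 | h1
  · right
    have := (h.cl hl hl').2 (by rw [ht]; exact h1)
    rwa [ht] at this
  · left; rw [← e2]; exact h1

/-- mass of an open node -/
lemma hi_of {p : ℕ} {v : NS} {σ σ₁ σ₀ : IT} (h : NodeOk P W v σ)
    (hσ : σ = .add p σ₁ σ₀ ∨ (σ = .far p σ₁ σ₀ ∧ ∃ F, σ₁ = .leaf F)) :
    v.c * Ws W σ.items ≤ P.hi p := by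
  rcases hσ with rfl | ⟨rfl, -⟩
  · exact (nodeOk_hi h id).1
  · exact (nodeOk_hi h id).1

set_option maxHeartbeats 1000000 in
/-- **the codes of the crossing pairs are disjoint** -/
theorem SW.cd (hS : PS P W) (hQ : QH D P W μ rB Qp) (h : SW D sp P W Qp s u u' τ τ') :
    CD (StX st μ D.it rB P.sg) s := by
  classical
  intro a b hMa hMb hab z hz e he e' he' heq
  have hG := hS.pg
  unfold crs at hz
  by_cases h1 : s.t.isLeaf ∨ s.t'.isLeaf
  · simp [h1] at hz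
  by_cases h2 : (StX st μ D.it rB P.sg) s
  · simp [h1, h2] at hz
  by_cases h3 : s.isPL ∨ s.isPR
  · simp [h1, h2, h3] at hz
  rw [if_neg h1, if_neg h2, if_neg h3] at hz
  rw [not_or] at h1 h3
  have hWT := h.wt hQ
  have hBS := h.bs hG hQ
  obtain ⟨hp, hlv⟩ := h.lvp hQ h1.1 h1.2
  obtain ⟨-, hp0⟩ := hWT.prime hQ.nf h1.1 h1.2
  have nL := hQ.nf _ _ h.qL.self
  have nR := hQ.nf _ _ h.qR.self
  have bL := bk_of_nodeOk nL.ok
  have bR := bk_of_nodeOk nR.ok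
  have aL : All (NodeOk P W) u τ := h.qL.mono fun _ _ hh => (hQ.nf _ _ hh).ok
  have aR : All (NodeOk P W) u' τ' := h.qR.mono fun _ _ hh => (hQ.nf _ _ hh).ok
  have hcirc : ex s.p u.A + ex s.p u.B + a = ex s.p u'.A + ex s.p u'.B + b :=
    circ_ex hp bL.Apos bL.Bpos bR.Apos bR.Bpos (by rw [← hMa, ← hMb]; exact h.circ)
  have left : ∀ {r : Λ → κ} {t₁ t₀ : DT Λ κ}, vw s.p s.t = .add r t₁ t₀ →
      (¬ isAdd s.p s.t' ∨
        (isAdd s.p s.t' ∧ ¬ (StX st μ D.it rB P.sg).jt s ∧ (StX st μ D.it rB P.sg).lf s)) →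
      ∀ e ∈ Cs s.p ((StX st μ D.it rB P.sg).x s t₁ t₀), ∀ e' ∈ Cs s.p s.t', b + e ≠ a + e' := by
    intro r t₁ t₀ hv hpr e he e' he' heq
    obtain ⟨σ₁, σ₀, hAC, h0, hx⟩ := one_left (st := st) hG hQ.nf hWT hBS h1.1 h1.2 h3.2 hv hpr
    have ht := top_eq_p ⟨r, t₁, t₀, hv⟩
    have hT := hi_of nL.ok hAC.it
    rw [h.tR, Cs_toDT hp.ne_zero] at he'
    have hY := partner hS hp hp0 nR.c0 aR (h.sideR hQ h1.1 h1.2 ht) he'
    rcases hx with ⟨ho, hx⟩ | ⟨ho, hx⟩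
    · have ex' : (StX st μ D.it rB P.sg).x s t₁ t₀ = t₀ := by unfold Stp.x; rw [if_pos ho]
      rw [ex', hAC.e0, Cs_toDT hp.ne_zero] at he
      have a0 : All (NodeOk P W) ⟨s.p + 1, u.c, u.A, u.B⟩ σ₀ :=
        hAC.q0.mono fun _ _ hh => (hQ.nf _ _ hh).ok
      have hX := massI hG hp σ₀ ⟨s.p + 1, u.c, u.A, u.B⟩ e nL.c0 a0
        (tp_open a0.self hp rfl (StI_not_leaf he)) he
      refine xf_sep hS hp hp0 nL.c0 hx hT hX hY ?_
      show ex s.p u.A + e = ex s.p u'.A + e' + ex s.p u'.B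
      omega
    · have ex' : (StX st μ D.it rB P.sg).x s t₁ t₀ = t₁ := by unfold Stp.x; rw [if_neg ho]
      rw [ex', hAC.e1, Cs_toDT hp.ne_zero] at he
      have a0 : All (NodeOk P W) ⟨s.p + 1, u.c, u.A, u.B⟩ σ₁ :=
        hAC.q1.mono fun _ _ hh => (hQ.nf _ _ hh).ok
      have hX := massI hG hp σ₁ ⟨s.p + 1, u.c, u.A, u.B⟩ e nL.c0 a0
        (tp_open a0.self hp rfl (StI_not_leaf he)) he
      refine xf_sep hS hp hp0 nL.c0 hx hT hX hY ?_
      show ex s.p u.A + e = ex s.p u'.A + e' + ex s.p u'.B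
      omega
  have right : ∀ {r : Λ → κ} {t₁ t₀ : DT Λ κ}, vw s.p s.t' = .add r t₁ t₀ →
      (¬ isAdd s.p s.t ∨
        (isAdd s.p s.t ∧ ¬ (StX st μ D.it rB P.sg).jt s ∧ ¬ (StX st μ D.it rB P.sg).lf s)) →
      ∀ e ∈ Cs s.p s.t, ∀ e' ∈ Cs s.p ((StX st μ D.it rB P.sg).x s t₁ t₀), b + e ≠ a + e' := by
    intro r t₁ t₀ hv hpr e he e' he' heq
    obtain ⟨σ₁, σ₀, hAC, h0, hx⟩ := one_right (st := st) hG hQ.nf hWT hBS h1.1 h1.2 h3.1 hv hpr
    have ht := top_eq_p' ⟨r, t₁, t₀, hv⟩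
    have hT := hi_of nR.ok hAC.it
    rw [h.tL, Cs_toDT hp.ne_zero] at he
    have hY := partner hS hp hp0 nL.c0 aL (h.sideL hQ h1.1 h1.2 ht) he
    rcases hx with ⟨ho, hx⟩ | ⟨ho, hx⟩
    · have ex' : (StX st μ D.it rB P.sg).x s t₁ t₀ = t₀ := by unfold Stp.x; rw [if_pos ho]
      rw [ex', hAC.e0, Cs_toDT hp.ne_zero] at he'
      have a0 : All (NodeOk P W) ⟨s.p + 1, u'.c, u'.A, u'.B⟩ σ₀ :=
        hAC.q0.mono fun _ _ hh => (hQ.nf _ _ hh).ok
      have hX := massI hG hp σ₀ ⟨s.p + 1, u'.c, u'.A, u'.B⟩ e' nR.c0 a0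
        (tp_open a0.self hp rfl (StI_not_leaf he')) he'
      refine xf_sep hS hp hp0 nR.c0 hx hT hX hY ?_
      show ex s.p u'.A + e' = ex s.p u.A + e + ex s.p u.B
      omega
    · have ex' : (StX st μ D.it rB P.sg).x s t₁ t₀ = t₁ := by unfold Stp.x; rw [if_neg ho]
      rw [ex', hAC.e1, Cs_toDT hp.ne_zero] at he'
      have a0 : All (NodeOk P W) ⟨s.p + 1, u'.c, u'.A, u'.B⟩ σ₁ :=
        hAC.q1.mono fun _ _ hh => (hQ.nf _ _ hh).ok
      have hX := massI hG hp σ₁ ⟨s.p + 1, u'.c, u'.A, u'.B⟩ e' nR.c0 a0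
        (tp_open a0.self hp rfl (StI_not_leaf he')) he'
      refine xf_sep hS hp hp0 nR.c0 hx hT hX hY ?_
      show ex s.p u'.A + e' = ex s.p u.A + e + ex s.p u.B
      omega
  rcases hv : vw s.p s.t with ⟨w, r, t₁, t₀, v, B, G⟩ | ⟨r, t₁, t₀⟩ | ⟨Sp, d⟩ <;>
  rcases hv' : vw s.p s.t' with ⟨w', r', t₁', t₀', v', B', G'⟩ | ⟨r', t₁', t₀'⟩ | ⟨Sp', d'⟩ <;>
  simp only [hv, hv'] at hz
  · simp at hz
  · simp only [List.mem_cons, List.not_mem_nil, or_false] at hz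
    subst hz
    exact right hv' (Or.inl fun ⟨r, a, b, h⟩ => by rw [hv] at h; cases h) e he e' he' heq
  · simp at hz
  · simp only [List.mem_cons, List.not_mem_nil, or_false] at hz
    subst hz
    exact left hv (Or.inl fun ⟨r, a, b, h⟩ => by rw [hv'] at h; cases h) e he e' he' heq
  · have a1 : isAdd s.p s.t := ⟨r, t₁, t₀, hv⟩
    have a2 : isAdd s.p s.t' := ⟨r', t₁', t₀', hv'⟩
    split_ifs at hz with hj hl <;>
      simp only [List.mem_cons, List.not_mem_nil, or_false] at hz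
    · obtain ⟨σ₁, σ₀, σ₁', σ₀', hAC, hAC', j0, j0', hJ⟩ :=
        joint_add (st := st) hG hQ.nf hWT hv hv' hj
      have hT := hi_of nL.ok hAC.it
      have hT' := hi_of nR.ok hAC'.it
      rcases hz with rfl | rfl
      · have he1 : e ∈ Cs s.p t₁ := he
        have he2 : e' ∈ Cs s.p t₀' := he'
        rw [hAC.e1, Cs_toDT hp.ne_zero] at he1
        rw [hAC'.e0, Cs_toDT hp.ne_zero] at he2
        have b1 : All (NodeOk P W) ⟨s.p + 1, u.c, u.A, u.B⟩ σ₁ :=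
          hAC.q1.mono fun _ _ hh => (hQ.nf _ _ hh).ok
        have b2 : All (NodeOk P W) ⟨s.p + 1, u'.c, u'.A, u'.B⟩ σ₀' :=
          hAC'.q0.mono fun _ _ hh => (hQ.nf _ _ hh).ok
        have hX := massI hG hp σ₁ ⟨s.p + 1, u.c, u.A, u.B⟩ e nL.c0 b1
          (tp_open b1.self hp rfl (StI_not_leaf he1)) he1
        have hY := massI hG hp σ₀' ⟨s.p + 1, u'.c, u'.A, u'.B⟩ e' nR.c0 b2
          (tp_open b2.self hp rfl (StI_not_leaf he2)) he2
        refine (jf_sep hS hp hp0 nL.c0 nR.c0 hJ hT hT').1 hX hY ?_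
        show ex s.p u.A + e = ex s.p u'.A + e'
        omega
      · have he1 : e ∈ Cs s.p t₀ := he
        have he2 : e' ∈ Cs s.p t₁' := he'
        rw [hAC.e0, Cs_toDT hp.ne_zero] at he1
        rw [hAC'.e1, Cs_toDT hp.ne_zero] at he2
        have b1 : All (NodeOk P W) ⟨s.p + 1, u.c, u.A, u.B⟩ σ₀ :=
          hAC.q0.mono fun _ _ hh => (hQ.nf _ _ hh).ok
        have b2 : All (NodeOk P W) ⟨s.p + 1, u'.c, u'.A, u'.B⟩ σ₁' :=
          hAC'.q1.mono fun _ _ hh => (hQ.nf _ _ hh).ok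
        have hX := massI hG hp σ₀ ⟨s.p + 1, u.c, u.A, u.B⟩ e nL.c0 b1
          (tp_open b1.self hp rfl (StI_not_leaf he1)) he1
        have hY := massI hG hp σ₁' ⟨s.p + 1, u'.c, u'.A, u'.B⟩ e' nR.c0 b2
          (tp_open b2.self hp rfl (StI_not_leaf he2)) he2
        refine (jf_sep hS hp hp0 nL.c0 nR.c0 hJ hT hT').2 hX hY ?_
        show ex s.p u.A + e = ex s.p u'.A + e'
        omega
    · subst hz
      exact left hv (Or.inr ⟨a2, hj, hl⟩) e he e' he' heq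
    · subst hz
      exact right hv' (Or.inr ⟨a1, hj, hl⟩) e he e' he' heq
  · have a1 : isAdd s.p s.t := ⟨r, t₁, t₀, hv⟩
    have a2 : ¬ isAdd s.p s.t' := fun ⟨r, a, b, h⟩ => by rw [hv'] at h; cases h
    split_ifs at hz with hj
    · exact absurd ⟨a1, ⟨Sp', d', hv'⟩⟩ hj.1
    · simp only [List.mem_cons, List.not_mem_nil, or_false] at hz
      subst hz
      exact left hv (Or.inl a2) e he e' he' heq
  · simp at hz
  · have a1 : ¬ isAdd s.p s.t := fun ⟨r, a, b, h⟩ => by rw [hv] at h; cases h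
    have a2 : isAdd s.p s.t' := ⟨r', t₁', t₀', hv'⟩
    split_ifs at hz with hj
    · exact absurd ⟨⟨Sp, d, hv⟩, a2⟩ hj.2.1
    · simp only [List.mem_cons, List.not_mem_nil, or_false] at hz
      subst hz
      exact right hv' (Or.inl a1) e he e' he' heq
  · simp at hz

end cd

end

end Crest.Agent.R4P.Sep244
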