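import Crest.Agent.R4P.StepRad947
import Crest.Agent.R4P.Chi464f
import Crest.Agent.R4P.Chi464d
import Crest.Agent.R4P.PowTag83

/-!
R4 (S0004), POWERS: port of helper189's + helper464's `R4/SkelMain464` (helper2): **MAIN from the
contexts**, with the closed exclusion, for all systems.

* `Ctx.root'`, `ctx_XD` : the weights of a context are the weights `omX`.
* `ctx_card` : at most `b^(1/4)` classes at the `up` prime `b`.
* `MAIN_of_ctx`, `MAIN_of_parts` : the main theorem from the contexts / from the obligations.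
-/

set_option autoImplicit false

open Filter

namespace Crest.Agent.R4P.Skel189

open Crest.Agent.R4P.Cnt588 Crest.Agent.R4.Max709 Crest.Agent.R4.Tour104 Crest.Agent.R4P.Item758
open Crest.Agent.R4P.Bld532 Crest.Agent.R4P.PrunePar33 Crest.Agent.R4P.PruneSep532
open Crest.Agent.R4P.Data758 Crest.Agent.R4P.OmData532 Crest.Agent.R4P.LfDat734
open Crest.Agent.R4P.W363 Crest.Agent.R4P.WPex189 Crest.Agent.R4P.Asm532 Crest.Agent.R4P.Walk560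
open Crest.Agent.R4.Soft104 Crest.Agent.R4P.Frame758
open Crest.Agent.R4P.Step588 Crest.Agent.R4P.Chi464
open Crest.Agent.R4P.Om532 Crest.Agent.R4P.OmSt532 Crest.Agent.R4.Ovl560 Crest.Agent.R4.LF363
open Crest.Agent.R4P.Fac393 (Fac)
open Crest.Agent.R4.Fin532 (MAIN)

/-! ### numbers -/

lemma PPb_le_rpow (b : ℕ) : (PPb b : ℝ) ≤ Real.log b ^ (1 / 8 : ℝ) :=
  Nat.floor_le (Real.rpow_nonneg (Real.log_natCast_nonneg b) _)

lemma PPb_le (b : ℕ) : PPb b ≤ b := by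
  have h1 := PPb_le_rpow b
  have h3 := Real.log_natCast_nonneg b
  rcases le_total (Real.log b) 1 with h4 | h4
  · have h5 : Real.log b ^ (1 / 8 : ℝ) ≤ 1 := Real.rpow_le_one h3 h4 (by norm_num)
    have h6 : (PPb b : ℝ) ≤ 1 := h1.trans h5
    have h7 : PPb b ≤ 1 := by exact_mod_cast h6
    rcases Nat.eq_zero_or_pos b with rfl | hb
    · have h8 : PPb 0 = 0 := by
        unfold PPb
        rw [Nat.cast_zero, Real.log_zero, Real.zero_rpow (by norm_num), Nat.floor_zero]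
      rw [h8]
    · omega
  · have h2 : Real.log b ≤ b := (Real.log_le_self (Nat.cast_nonneg b))
    have h5 : Real.log b ^ (1 / 8 : ℝ) ≤ Real.log b ^ (1 : ℝ) :=
      Real.rpow_le_rpow_of_exponent_le h4 (by norm_num)
    rw [Real.rpow_one] at h5
    have h6 : (PPb b : ℝ) ≤ b := h1.trans (h5.trans h2)
    exact_mod_cast h6

/-- `PV (PPb b) ≤ b ^ (1 / 100)` -/
lemma PV_PPb (Fc : Fac) : ∀ b : ℕ, Real.exp (1600 ^ 2) ≤ b →
    ((Fc.PV (PPb b) : ℕ) : ℝ) ≤ (b : ℝ) ^ (1 / 100 : ℝ) := by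
  intro b hb
  have hb0 : (0 : ℝ) < b := (Real.exp_pos _).trans_le hb
  have hL : (1600 : ℝ) ^ 2 ≤ Real.log b := by rwa [Real.le_log_iff_exp_le hb0]
  have hL0 : 0 < Real.log b := lt_of_lt_of_le (by norm_num) hL
  have hP1 : 1 ≤ PPb b := by
    unfold PPb
    rw [Nat.one_le_floor_iff]
    exact Real.one_le_rpow (by linarith) (by norm_num)
  have h1 := Fc.size (PPb b) hP1
  have h1' : ((Fc.PV (PPb b) : ℕ) : ℝ) ≤ (4 : ℝ) ^ (8 * PPb b ^ 4) := by exact_mod_cast h1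
  refine h1'.trans ?_
  have h4 : (4 : ℝ) ≤ Real.exp 2 := by
    have h5 : (2 : ℝ) ≤ Real.exp 1 := by
      have := Real.add_one_le_exp (1 : ℝ)
      linarith
    have h6 : Real.exp 2 = Real.exp 1 * Real.exp 1 := by rw [← Real.exp_add]; norm_num
    rw [h6]
    nlinarith
  have h2 : (4 : ℝ) ^ (8 * PPb b ^ 4) ≤ Real.exp 2 ^ (8 * PPb b ^ 4) :=
    pow_le_pow_left₀ (by norm_num) h4 _
  refine h2.trans ?_
  rw [← Real.exp_nat_mul, Real.rpow_def_of_pos hb0]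
  refine Real.exp_le_exp.2 ?_
  push_cast
  have h7 : (PPb b : ℝ) ^ 4 ≤ Real.log b ^ (1 / 2 : ℝ) := by
    have h8 : (PPb b : ℝ) ^ 4 ≤ (Real.log b ^ (1 / 8 : ℝ)) ^ 4 :=
      pow_le_pow_left₀ (Nat.cast_nonneg _) (PPb_le_rpow b) 4
    rw [← Real.rpow_natCast (Real.log b ^ (1 / 8 : ℝ)), ← Real.rpow_mul hL0.le] at h8
    norm_num at h8 ⊢
    exact h8
  rw [← Real.sqrt_eq_rpow] at h7
  have h9 : (1600 : ℝ) ≤ Real.sqrt (Real.log b) := by
    rw [show (1600 : ℝ) = Real.sqrt (1600 ^ 2) by rw [Real.sqrt_sq (by norm_num)]]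
    exact Real.sqrt_le_sqrt hL
  have h10 : Real.sqrt (Real.log b) * Real.sqrt (Real.log b) = Real.log b :=
    Real.mul_self_sqrt hL0.le
  nlinarith

lemma num_card (a a' : ℝ) : ∃ b₀ : ℕ, ∀ b : ℕ, b₀ ≤ b → ∀ (Fc : Fac) (J : ℕ) (Rb : ℝ), 0 ≤ Rb →
    (J : ℝ) ≤ 3 + Real.log b ^ a → Rb ≤ Real.log b ^ a' →
    (J : ℝ) + (Fc.PV (PPb b) : ℝ) * (J * (2 * ((Fc.PV (PPb b) : ℝ) * Rb) + 1)) ≤
      (b : ℝ) ^ (1 / 4 : ℝ) := by
  have e1 := ((isLittleO_log_rpow_rpow_atTop a (show (0 : ℝ) < 1 / 40 by norm_num)).bound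
    (show (0 : ℝ) < 1 / 2 by norm_num))
  have e2 := ((isLittleO_log_rpow_rpow_atTop a' (show (0 : ℝ) < 1 / 40 by norm_num)).bound
    (show (0 : ℝ) < 1 by norm_num))
  have e3 := (tendsto_rpow_atTop (show (0 : ℝ) < 1 / 40 by norm_num)).eventually_ge_atTop 8
  obtain ⟨x₀, hx⟩ := eventually_atTop.1 ((e1.and e2).and e3)
  refine ⟨⌈x₀⌉₊ + 1 + ⌈Real.exp (1600 ^ 2)⌉₊, fun b hb Fc J Rb hRb hJ hR => ?_⟩
  have hb0 : 0 < b := by omega
  have hbR : (0 : ℝ) < b := by exact_mod_cast hb0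
  have hxb : x₀ ≤ b := (Nat.le_ceil x₀).trans (by exact_mod_cast (by omega : ⌈x₀⌉₊ ≤ b))
  have hbe : Real.exp (1600 ^ 2) ≤ b :=
    (Nat.le_ceil _).trans (by exact_mod_cast (by omega : ⌈Real.exp (1600 ^ 2)⌉₊ ≤ b))
  obtain ⟨⟨g1, g2⟩, g3⟩ := hx b hxb
  set U : ℝ := (b : ℝ) ^ (1 / 40 : ℝ) with hU
  have hU0 : 0 < U := by linarith
  have hL := Real.log_natCast_nonneg b
  rw [Real.norm_of_nonneg (Real.rpow_nonneg hL _), Real.norm_of_nonneg hU0.le] at g1 g2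
  have hJU : (J : ℝ) ≤ U := by linarith
  have hRU : Rb ≤ U := by linarith
  have hb1 : (1 : ℝ) ≤ b := by exact_mod_cast hb0
  have hPU : (Fc.PV (PPb b) : ℝ) ≤ U :=
    (PV_PPb Fc b hbe).trans (Real.rpow_le_rpow_of_exponent_le hb1 (by norm_num))
  have hP0 : (0 : ℝ) ≤ (Fc.PV (PPb b) : ℝ) := Nat.cast_nonneg _
  have hJ0 : (0 : ℝ) ≤ J := Nat.cast_nonneg _
  have h5 : (Fc.PV (PPb b) : ℝ) * Rb ≤ U * U := mul_le_mul hPU hRU hRb hU0.le
  have h6 : (J : ℝ) * (2 * ((Fc.PV (PPb b) : ℝ) * Rb) + 1) ≤ U * (2 * (U * U) + 1) :=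
    mul_le_mul hJU (by linarith) (by positivity) hU0.le
  have h7 : (Fc.PV (PPb b) : ℝ) * (J * (2 * ((Fc.PV (PPb b) : ℝ) * Rb) + 1)) ≤
      U * (U * (2 * (U * U) + 1)) :=
    mul_le_mul hPU h6 (by positivity) hU0.le
  have e5 : (b : ℝ) ^ (1 / 4 : ℝ) = U ^ 10 := by
    rw [hU, ← Real.rpow_natCast, ← Real.rpow_mul hbR.le]
    norm_num
  rw [e5]
  have h8 : U + U * (U * (2 * (U * U) + 1)) ≤ U ^ 5 := by
    have h9 : U ^ 4 * 8 ≤ U ^ 4 * U := mul_le_mul_of_nonneg_left g3 (by positivity)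
    have h10 : 1 ≤ U ^ 2 := by nlinarith
    have h11 : U ^ 2 ≤ U ^ 4 := by nlinarith
    have h12 : U ≤ U ^ 2 := by nlinarith
    nlinarith
  have h13 : U ^ 5 ≤ U ^ 10 := pow_le_pow_right₀ (by linarith) (by norm_num)
  linarith

/-! ### the weights of a context -/

section ctx

variable {N : Num} {γ : ℝ} {p0 P₀ : ℕ} (X : Ctx N γ p0 P₀)

/-- the root facts -/
lemma Ctx.root : Root X.c.t (top X.S) where
  ok := X.tOk
  fit := X.fit

/-- base classes of a context -/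
noncomputable abbrev Ctx.Tc (X : Ctx N γ p0 P₀) : ℕ → ℕ → Finset ℚ :=
  TcL X.c.wp X.c.wpL X.c.γ X.c.r X.c.t X.c.lv

/-- target of the leaf rule -/
noncomputable abbrev Ctx.th (X : Ctx N γ p0 P₀) : ℕ → ℝ := thL X.c.γ X.c.t

/-- radius of the leaf rule -/
noncomputable abbrev Ctx.ph (X : Ctx N γ p0 P₀) : ℕ → ℝ := phL X.c.wpL X.c.γ X.c.r X.c.t X.c.lv

/-- label of the leaf rule -/
noncomputable abbrev Ctx.lab (X : Ctx N γ p0 P₀) : ℕ → Option ℚ :=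
  labL X.c.wpL X.c.γ X.c.r X.c.t X.c.lv

lemma rrf_eq (c : Cf) : rrf c.r = c.rr := rfl

lemma Ctx.om_eq (q : ℕ) (z : ℝ) : X.c.om q z =
    omX X.fac X.c.γ X.c.rr X.S' X.Tc X.c.t PPb X.th X.ph X.lab q z := by
  rw [X.om]; rfl

lemma Tc_emp {q b : ℕ} (h : b ∉ X.c.t.uq q) : X.Tc q b = ∅ := by
  show TE _ _ _ _ _ _ q b = ∅
  unfold TE
  rw [if_neg h]

/-- `up` primes divide the leaf modulus -/
lemma Ctx.rd {q b : ℕ} (hq : q ∈ X.c.t.items) (hb : b ∈ rt X.c.t q) : b ∣ q / pp X.c.t q :=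
  OmSt532.bld_ret_dvd X.nodes hq hb

/-- **the weights of a context are the weights with the closed exclusion** -/
theorem ctx_XD (Y : Finset (ℕ × ℕ × Finset ℕ)) :
    XD X.fac (X.c.D.par Y) X.c.rr X.S' X.Tc X.c.t PPb X.th X.ph X.lab (top X.S) where
  root := X.root
  om := fun j => X.om_eq _ _
  lo := (X.ok.rad Y).al
  hi := (X.ok.rad Y).be
  bx := by
    intro j b hb β hβ h1 h2
    refine X.ok.bpx _ (Cf.mem_S j) (Cf.r_pos j) β ?_ j.1.2 h1 h2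
    rw [X.bx]
    exact Finset.mem_biUnion.2 ⟨b, hb, hβ⟩
  dvd := fun q hq => X.ok.dvd q (by rw [X.hS, ← X.items]; exact hq)
  rd := fun q hq b hb => X.rd hq hb
  prm := fun q _ b hb => (rt_prime X.c.t X.tOk q b hb).1
  PP := PPb_le

/-- the classes of the pieces of a context -/
noncomputable abbrev Ctx.Tz (X : Ctx N γ p0 P₀) (z : ℝ) : ℕ → ℕ → Finset ℚ :=
  Chi464.Tz X.fac X.c.γ X.c.rr X.S' X.Tc X.c.t PPb z

end ctx

/-- `up` primes are `> p0` -/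
lemma uq_gt {N : Num} {γ : ℝ} {p0 P₀ : ℕ} (X : Ctx N γ p0 P₀) {q b : ℕ} (hb : b ∈ X.c.t.uq q) :
    p0 < b :=
  (cols_of_All _ _ _ _ X.nodes q b (Or.inr (Or.inr hb))).2.1

/-- **at most `b^(1/4)` classes** at the `up` prime `b` -/
theorem ctx_card (N : Num) : ∃ p₁ : ℕ, ∀ p0 ≥ p₁, ∀ (γ : ℝ) (P₀ : ℕ), 2 ≤ P₀ →
    ∀ X : Ctx N γ p0 P₀, ∀ (z : ℝ), ∀ q ∈ X.S', ∀ b ∈ X.c.t.uq q,
      ((X.Tz z q b).card : ℝ) ≤ (b : ℝ) ^ (1 / 4 : ℝ) := by
  obtain ⟨p1, h1⟩ := ctx_rd N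
  obtain ⟨b₀, h2⟩ := num_card (N.C1 + N.c2 + 1) (N.B + N.c2 + 2)
  refine ⟨p1 + b₀, fun p0 hp0 γ P₀ hP X z q hq b hb => ?_⟩
  have hrd := h1 p0 (by omega) γ P₀ hP X
  have hgt := uq_gt X hb
  have hpr := (rt_prime X.c.t X.tOk q b hb).1
  have hqi : q ∈ X.c.t.items := by rw [X.items]; exact X.prn.sub hq
  have hJr : ∀ r ∈ X.S', (X.Tc r b).card ≤ 3 + ⌊Real.log b ^ (N.C1 + N.c2 + 1)⌋₊ := by
    intro r hr
    refine (card_TE _ _ _ _ _ _ _ _).trans (Nat.add_le_add_left (Nat.le_floor ?_) _)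
    have := (X.prn.pr r hr).mt b hgt.le
    rw [X.ht]
    exact this
  have hlog := Real.log_natCast_nonneg b
  refine (card_Tz (J := 3 + ⌊Real.log b ^ (N.C1 + N.c2 + 1)⌋₊)
    (Rb := Real.log b ^ (N.B + N.c2 + 2)) X.root hqi PPb hpr (PPb_le b) ?_ (hJr q hq) ?_
    (Real.rpow_nonneg hlog _) z).trans ?_
  · intro r hr
    exact hJr r (mem_mates.1 hr).2.1
  · intro r hr
    exact rd_root hrd (Finset.mem_union_right _ hb) (PPb_le b) hgt
      (mem_mates.1 hr).1 (mem_mates.1 hr).2.1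
  · refine h2 b (by omega) X.fac _ _ (Real.rpow_nonneg hlog _) ?_ le_rfl
    push_cast
    have := Nat.floor_le (Real.rpow_nonneg hlog (N.C1 + N.c2 + 1))
    linarith

/-! ### existence of contexts -/

/-- **a context from a system, a pruned set and world parameters** -/
theorem exists_ctx {N : Num} {γ : ℝ} {p0 P₀ : ℕ} {ψ : ℕ → ℝ} {S S' : Finset ℕ}
    (hgood : (Bld532.par N.B N.C1 N.c2 p0).Good)
    (hS : SysM P₀ ψ S) (hp : Prn N p0 ψ S S') {wp wpL : WP}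
    (hthr : wp.thr = N.thr p0) (hdep : wp.dep = N.dep p0 ψ S)
    (hfine : Fine wp γ (fun q => ψ q / 2) (N.tree p0 ψ S) S (top S) (Kc S))
    (hthrL : wpL.thr = N.thrL p0) (hdepL : wpL.dep = N.depL p0)
    (hfineL : Fine wpL γ (fun q => ψ q / 2) (N.tree p0 ψ S) S (top S) (Kc S))
    (hsame : wp.ρ₀ = wpL.ρ₀ ∧ wp.n₀ = wpL.n₀ ∧ wp.δ₀ = wpL.δ₀ ∧ wp.n₁ = wpL.n₁) :
    ∃ X : Ctx N γ p0 P₀, X.S' = S' ∧ X.fac = N.fac p0 ψ S ∧ X.c.γ = γ ∧
      (X.c.r = fun q => ψ q / 2) ∧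
      X.c.t = N.tree p0 ψ S ∧ X.c.wp = wp ∧ X.c.wpL = wpL ∧
      X.c.lv = LfDat734.lv (N.tree p0 ψ S) (top S) := by
  classical
  set t := N.tree p0 ψ S with ht
  set r : ℕ → ℝ := fun q => ψ q / 2 with hr
  set lv := LfDat734.lv t (top S) with hlv
  set n := top S with hn
  have hW : ∀ q, 0 ≤ w ψ q := fun q => w_nonneg hS.nonneg q
  have hBk := Bk.root S hS.pos n
  have hAll : All (NodeOk (Bld532.par N.B N.C1 N.c2 p0) (w ψ)) ⟨n, 1, 1, 1⟩ t :=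
    bld_All_root _ (w ψ) hW hgood n S hS.pos
  have hit : t.items = S := bld_items _ (w ψ) hW hgood n 1 1 1 S hBk
  have hF : Fit 1 1 t := Fit_of_NodeOk hAll
  obtain ⟨K, bp, hK, hbp⟩ := exists_bp2 S r
    (fun q => zbB wp wpL (N.lam p0 ψ S) γ r t lv (Finset.range (n + 1)) q ∪
      (wpL.zb γ r t (Finset.range (n + 1)) q ∪ bxL (N.fac p0 ψ S) γ r t q)) (N.hd1 p0 ψ S)
  set c : Cf := ⟨γ, r, S, S', K, bp, wp, wpL, t, lv,
    fun q z => omXL (N.fac p0 ψ S) wp wpL γ r t lv S' q z, N.d1 p0 ψ S,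
    N.lam p0 ψ S, bxL (N.fac p0 ψ S) γ r t, N.tg p0 ψ S, N.tgL p0 ψ S⟩ with hc
  have hLW : ∀ q, LW (q / pp t q).primeFactors (uw (thL γ t q) (phL wpL γ r t lv q)
      (labL wpL γ r t lv q)) := fun q => LW_uw _ _ _ _
  have hle : ∀ q, ∀ l ∈ (q / pp t q).primeFactors, ∀ a,
      uw (thL γ t q) (phL wpL γ r t lv q) (labL wpL γ r t lv q) l a ≤ 1 :=
    fun q l _ a => uw_le_one _ _ _ _ _
  have hok : c.Ok n :=
    { tOk := bld_Ok _ (w ψ) hW hgood n 1 1 1 S hBk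
      items := hit
      pos := hS.pos
      sub := hp.sub
      r' := fun q hq => half_pos (hp.pos q hq)
      bp0 := fun q hq hr => (hbp q hq hr).1
      bpK := fun q hq hr => (hbp q hq hr).2.1
      bpm := fun q hq hr => (hbp q hq hr).2.2.1
      bpz := fun q hq hr z hz => (hbp q hq hr).2.2.2.1 z (Finset.mem_union_left _ hz)
      bpL := fun q hq hr z hz => (hbp q hq hr).2.2.2.1 z
        (Finset.mem_union_right _ (Finset.mem_union_left _ hz))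
      bpx := fun q hq hr z hz => (hbp q hq hr).2.2.2.1 z
        (Finset.mem_union_right _ (Finset.mem_union_right _ hz))
      fine := fun q hq hr => (hbp q hq hr).2.2.2.2
      dvd := fun q hq => by
        have := (BldF542.pp_dvd t 1 1 hF q (by rw [hit]; exact hq)).2.1
        rwa [one_mul] at this
      wt := fun q _ z => omw_Wt (hLW q)
      le1 := fun q _ z a => omw_le_one (hLW q) (hle q) a }
  exact ⟨{ ψ := ψ
           S := S
           S' := S'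
           sys := hS
           good := hgood
           prn := hp
           c := c
           hγ := rfl
           hr := fun _ => rfl
           hS := rfl
           hS' := rfl
           ht := rfl
           thr := hthr
           dep := hdep
           lam := rfl
           thrL := hthrL
           depL := hdepL
           fine := hfine
           fineL := hfineL
           same := hsame
           lv := rfl
           om := rfl
           bx := rfl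
           d1 := rfl
           tg := rfl
           tgL := rfl
           ok := hok }, rfl, rfl, rfl, rfl, rfl, rfl, rfl, rfl⟩

/-- **the hypothesis on the further pruned set** -/
def HS2 (N : Num) : Prop :=
  ∃ p₁ : ℕ, ∀ p0 ≥ p₁, ∃ Q₁ : ℕ, ∀ P₀ ≥ Q₁, ∀ (ψ : ℕ → ℝ) (S : Finset ℕ),
      SysM P₀ ψ S → N.S2 p0 ψ S ⊆ S ∧ (1 - 1 / 4) * Ws (w ψ) S ≤ Ws (w ψ) (N.S2 p0 ψ S)

/-- **MAIN from the contexts** -/
theorem MAIN_of_ctx (N : Num) {γ : ℝ} (hS2 : HS2 N)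
    (H : ∀ p₁ : ℕ, ∃ p0 ≥ p₁, ∃ C C₀ η B δ₀ : ℝ, 0 ≤ C ∧ 0 ≤ C₀ ∧ 0 ≤ η ∧ 0 ≤ B ∧ 0 ≤ δ₀ ∧
      ∃ Q₁ : ℕ, ∀ P₀ ≥ Q₁, ∀ X : Ctx N γ p0 P₀, ∀ j₀ : X.c.Lam,
        ∃ stp δ, X.c.Outs (top X.S) C C₀ η B δ₀ j₀ stp δ) : MAIN γ := by
  classical
  obtain ⟨p1, h1⟩ := omT_cond4 N.B N.C1 N.c2 N.hC1 N.hc2 N.hB
  obtain ⟨p2, h2⟩ := exists_pruned N.B N.C1 N.c2 N.a N.a' N.A N.hC1 N.hc2 N.ha N.hA N.hB' N.ha'
  obtain ⟨p3, h3⟩ := hS2
  obtain ⟨p4, h4⟩ := ctx_card N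
  obtain ⟨p5, h5⟩ := LeafA734.rt_half N.B (N.C1 + N.c2) (by
    have := N.hB; have := N.hC1; have := N.hc2; linarith)
  obtain ⟨p0, hp0, C, C₀, η, B, δ₀, hC, hC₀, hη, hB, hδ₀, Q₁, hX⟩ := H (p1 + p2 + p3 + p4 + p5)
  obtain ⟨Q3, h3'⟩ := h3 p0 (by omega)
  obtain ⟨P₀, hP₀⟩ : ∃ P₀, P₀ = 2 + Q₁ + Q3 := ⟨_, rfl⟩
  refine MAIN_of_data (c₀ := 1 / 2) (C := C) (C₀ := C₀) (η := η) (B := B) (δ₀ := δ₀)
    (by norm_num) hC hC₀ hη hB hδ₀ P₀ fun ψ S hS => ?_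
  obtain ⟨k1, k2⟩ := h3' P₀ (by omega) ψ S hS
  obtain ⟨hgood, h2'⟩ := h2 p0 (by omega)
  obtain ⟨S', hsub2, hpos, hmass, hPr, hpth⟩ := h2' ψ S P₀ hS (top S)
    (N.S2 p0 ψ S) k1 k2
  have hsub : S' ⊆ S := hsub2.trans k1
  have hprn : Prn N p0 ψ S S' := ⟨hsub, hsub2, hpos, hmass, hPr,
    fun q hq P hP => (hpth q hq P hP).1, fun q hq P hP => (hpth q hq P hP).2⟩
  set t := N.tree p0 ψ S with ht
  obtain ⟨wp, wpL, hthr, hdep, hthrL, hdepL, hsm1, hsm2, hsm3, hsm4, hfine, hfineL⟩ :=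
    exists_fine2 (N.thr p0) (N.thrL p0) (N.dep p0 ψ S) (N.depL p0) γ (fun q => ψ q / 2) t S
      (top S) (Kc S)
  set lv := LfDat734.lv t (top S) with hlv
  set om : ℕ → ℝ → ℤ → ℝ := fun q z =>
    omXL (N.fac p0 ψ S) wp wpL γ (fun q => ψ q / 2) t lv S' q z with hom
  have hW : ∀ q, 0 ≤ w ψ q := fun q => w_nonneg hS.nonneg q
  have hAll : All (NodeOk (Bld532.par N.B N.C1 N.c2 p0) (w ψ)) ⟨top S, 1, 1, 1⟩ t :=
    bld_All_root _ (w ψ) hW hgood (top S) S hS.pos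
  have hcols : ∀ q b, (b ∈ t.mt q ∨ b ∈ t.sp q ∨ b ∈ t.uq q) → p0 < b :=
    fun q b hb => (cols_of_All _ _ _ _ hAll q b hb).2.1
  -- the number of the classes
  have hcard : ∀ (z : ℝ), ∀ q ∈ S', ∀ b ∈ t.uq q,
      ((Chi464.Tz (N.fac p0 ψ S) γ (rrf fun q => ψ q / 2) S'
        (TcL wp wpL γ (fun q => ψ q / 2) t lv) t PPb z
        q b).card : ℝ) ≤ (b : ℝ) ^ (1 / 4 : ℝ) := by
    intro z q hq b hb
    obtain ⟨X, x1, x1', x2, x3, x4, x5, x6, x7⟩ :=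
      exists_ctx (P₀ := P₀) hgood hS hprn hthr hdep hfine hthrL hdepL hfineL
        ⟨hsm1, hsm2, hsm3, hsm4⟩
    have key := h4 p0 (by omega) γ P₀ (by omega) X z q (by rw [x1]; exact hq) b
      (by rw [x4]; exact hb)
    have e : X.Tz z = Chi464.Tz (N.fac p0 ψ S) γ (rrf fun q => ψ q / 2) S'
        (TcL wp wpL γ (fun q => ψ q / 2) t lv) t PPb z := by
      show Chi464.Tz X.fac X.c.γ (rrf X.c.r) X.S' (TcL X.c.wp X.c.wpL X.c.γ X.c.r X.c.t X.c.lv)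
        X.c.t PPb z = _
      rw [x1, x1', x2, x3, x4, x5, x6, x7]
    rw [e] at key
    exact key
  have hcond : ∀ z : ℝ, _ := fun z => h1 p0 (by omega) ψ S P₀ (by omega) hS (top S) S' hsub hPr
    (Chi464.Tz (N.fac p0 ψ S) γ (rrf fun q => ψ q / 2) S'
      (TcL wp wpL γ (fun q => ψ q / 2) t lv) t PPb z)
    (thL γ t) (phL wpL γ (fun q => ψ q / 2) t lv) (labL wpL γ (fun q => ψ q / 2) t lv)
    (fun q hq b hb => hcard z q hq b hb)
  refine ⟨Bld532.par N.B N.C1 N.c2 p0, top S, S', wp, wpL, lv, om, N.d1 p0 ψ S,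
    N.lam p0 ψ S, bxL (N.fac p0 ψ S) γ (fun q => ψ q / 2) t, N.tg p0 ψ S, N.tgL p0 ψ S,
    hgood, N.hd1 p0 ψ S, hsub, hpos, hmass, ?_,
    fun q hq z => (hcond z).1 q hq, fun q hq z => (hcond z).2.1 q hq,
    fun q hq h z => (hcond z).2.2.1 q hq h, fun q hq z => (hcond z).2.2.2.1 q hq, ?_⟩
  · intro q hq
    exact (h5 p0 (by omega) t q (hPr q hq) fun b hb => hcols q b hb).1
  intro c e1 e2 e3 e4 e5 e6 e7 e8 e9 e10 e11 e12 e13 e14 hok j₀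
  have e2' : c.r = fun q => ψ q / 2 := funext e2
  exact hX P₀ (by omega)
    { ψ := ψ
      S := S
      S' := S'
      sys := hS
      good := hgood
      prn := hprn
      c := c
      hγ := e1
      hr := e2
      hS := e3
      hS' := e4
      ht := e5
      thr := by rw [e6, hthr]
      dep := by rw [e6, hdep]
      lam := e11
      thrL := by rw [e7, hthrL]
      depL := by rw [e7, hdepL]
      fine := by
        rw [e6, e1, e2', e3, show c.t = t from e5]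
        exact hfine
      fineL := by
        rw [e7, e1, e2', e3, show c.t = t from e5]
        exact hfineL
      same := by
        rw [e6, e7]
        exact ⟨hsm1, hsm2, hsm3, hsm4⟩
      lv := by rw [e8, hlv, show c.t = t from e5]
      om := by rw [e9, hom, e6, e7, e1, e2', e8, show c.t = t from e5]
      bx := by rw [e12, e1, e2', show c.t = t from e5]
      d1 := e10
      tg := e13
      tgL := e14
      ok := hok } j₀

/-- **the obligations, one by one** (every owner: prove yours for every context). All the constants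
may depend on `p0` (but not on `P₀` and the system). -/
theorem MAIN_of_parts (N : Num) {γ : ℝ} (hS2 : HS2 N)
    {C C₀ η B δ₀ : ℕ → ℝ} (hC : ∀ p, 0 ≤ C p)
    (hC₀ : ∀ p, 0 ≤ C₀ p) (hη : ∀ p, 0 ≤ η p) (hB : ∀ p, 0 ≤ B p) (hδ₀ : ∀ p, 0 ≤ δ₀ p)
    (leafE : ∃ p₁ : ℕ, ∀ p0 ≥ p₁, ∃ Q₁ : ℕ, ∀ P₀ ≥ Q₁, ∀ X : Ctx N γ p0 P₀,
      LeafAll (LeafE X.c.D (wt X.c.D) (C p0)) 1 1 1 X.c.t)
    (leafI : ∃ p₁ : ℕ, ∀ p0 ≥ p₁, ∃ Q₁ : ℕ, ∀ P₀ ≥ Q₁, ∀ X : Ctx N γ p0 P₀,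
      LeafAll (LeafI X.c.D (wt X.c.D) (C₀ p0)) 1 1 1 X.c.t)
    (node : ∃ p₁ : ℕ, ∀ p0 ≥ p₁, ∃ Q₁ : ℕ, ∀ P₀ ≥ Q₁, ∀ X : Ctx N γ p0 P₀, ∀ j₀ : X.c.Lam,
      ∃ stp δ, (∀ s : St X.c.Lam (Lb (WL X.c.Lam) (leafs 1 1 X.c.t)), s.O = ∅ → s.O' = ∅ → ¬ stp s) ∧
        (∀ (d : DT X.c.Lam (Lb (WL X.c.Lam) (leafs 1 1 X.c.t))) (A : Finset X.c.Lam),
          stp.jt (selfSt d A)) ∧
        (tG X.c.D (leafs 1 1 X.c.t) 1 1 X.c.t).All
          (Crest.Agent.R4.ClosR758.SlackR (Crest.Agent.R4.Item758.AdI X.c.D.it) δ) ∧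
        δ (tG X.c.D (leafs 1 1 X.c.t) 1 1 X.c.t) Finset.univ ≤ δ₀ p0 ∧
        Bld532.All (fun s t' => NodeE X.c.D (leafs 1 1 X.c.t) X.c.sp (wt X.c.D) (clf X.c.t 1) j₀ stp δ
          (B p0) (η p0) (16 * (C p0 + C₀ p0 + η p0 + B p0 + 1)) s.B s.A t') ⟨top X.S, 1, 1, 1⟩ X.c.t) :
    MAIN γ := by
  refine MAIN_of_ctx N hS2 fun p₁ => ?_
  obtain ⟨p1, h1⟩ := leafE
  obtain ⟨p2, h2⟩ := leafI
  obtain ⟨p3, h3⟩ := node
  obtain ⟨p0, hp⟩ : ∃ p0, p0 = p₁ + p1 + p2 + p3 := ⟨_, rfl⟩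
  refine ⟨p0, by omega, C p0, C₀ p0, η p0, B p0, δ₀ p0, hC _, hC₀ _, hη _, hB _, hδ₀ _, ?_⟩
  obtain ⟨Q1, k1⟩ := h1 p0 (by omega)
  obtain ⟨Q2, k2⟩ := h2 p0 (by omega)
  obtain ⟨Q3, k3⟩ := h3 p0 (by omega)
  refine ⟨Q1 + Q2 + Q3, fun P₀ hP X j₀ => ?_⟩
  obtain ⟨stp, δ, a1, a1', a2, a3, a4⟩ := k3 P₀ (by omega) X j₀
  exact ⟨stp, δ,
    { stp0 := a1
      jt0 := a1'
      slack := a2
      slack0 := a3
      leafE := k1 _ (by omega) X
      leafI := k2 _ (by omega) X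
      node := a4 }⟩

end Crest.Agent.R4P.Skel189
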