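import Crest.Agent.R4P.StB_21
import Crest.Agent.R4P.Joi_943

/-!
R4 (S0004), powers pass, [B2], helper24: **the changes of the item states** (`Cf.st` = `stB`,
`lam = 0`), going UP.

`p' ≤ p` two columns, `Bl c p q` = product of the missing ties above `p` (one stage = one value of
`lst (mt q)`), thin at `p` = `Bl c p q * r q ≤ thr p`.

* `fat_some`, `fat_none`  : the state of a fat item: the label `lab0 B'` of the stage before the last
  missing tie (`B = s B'`); if there is none: the present label, if births are anticipated.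
* `two`                   : a label is the present label or (fat) the label of the previous stage.
* `same_change`           : **the same stage**: a change happens only at the crossing of `thr`
  (`thr p < B r ≤ thr p'`), from the present label `lab0 B` (or none) to the KEPT label
  `lab0 B' = some κ ≠ lab0 B` (never to `none`).
* `miss_change`           : **across a missing tie** (`B' = p B`): from the present label `lab0 (p B)`
  to `lab0 B`; if the item is fat below the tie: `lab0 B = none` (a death, births anticipated).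
* `change_lab0`           : the state below a change is the present label.
* `death_size`, `birth_size` : sizes of the denominators at a change.
* `near_anti`             : accuracy is inherited upwards (`B ∣`-smaller stages): going up a label dies
  only by its denominator, going down it dies by accuracy or denominator.
* `ix_some`               : the index of a labelled piece does not depend on the column.
* node level (`NDt`, alive items): `node_two`, `node_same_change`, `node_miss_change`.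
-/

set_option autoImplicit false
set_option linter.unusedSectionVars false
set_option linter.unusedVariables false

namespace Crest.Agent.R4P.StCh24

open Crest.Agent.R4P.Cnt588 Crest.Agent.R4P.Item758 Crest.Agent.R4P.W363
open Crest.Agent.R4P.Data758 Crest.Agent.R4P.OmSt532 Crest.Agent.R4P.OmData532
open Crest.Agent.R4P.LfDat734 Crest.Agent.R4P.WPex189
open Crest.Agent.R4P.Bld532 (NS All NodeOk Bk)
open Crest.Agent.R4P.Step588 (NDt ND1 ctx_NDt uq_lt)
open Crest.Agent.R4P.WalkIT579 (tp isL nodeOk_hi top_of_nodeOk)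
open Crest.Agent.R4P.Skel189 Crest.Agent.R4P.RseSt23 Crest.Agent.R4P.StB21
open Crest.Agent.R4P.Link758 (Bl)
open Crest.Agent.R4.Soft104 (w)
open Crest.Agent.R4.LF363 (Lab)

/-! ### labels -/

/-- **death of a label, going up across `s`** (`B s → B`): its denominator is not admissible at `B` -/
theorem death_size {γ ψ : ℝ} {B s : ℕ} {σ : ℚ} (hs : 0 < s) (hB : 0 < B)
    (h : lab0 γ ψ (s * B) = some σ) (hne : lab0 γ ψ B ≠ some σ) :
    1 < ((B * σ : ℚ).den : ℝ) ^ 5 * (B * ψ) := Joi943.changed hs hB h hne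

/-- the label at `s B` of the value `σ` -/
lemma lab0_of_Lab {γ ψ : ℝ} {b : ℕ} {σ : ℚ} (hb : 0 < b) (h : Lab (b * γ) (b * ψ) (b * σ)) :
    lab0 γ ψ b = some σ := by
  rw [lab0_eq_some h]
  congr 1
  have : (b : ℚ) ≠ 0 := by exact_mod_cast hb.ne'
  field_simp

/-- **birth of a label, going up across `s`** (`s B → B`): at `s B` its denominator is not admissible
or it is not accurate -/
theorem birth_size {γ ψ : ℝ} {B s : ℕ} {τ : ℚ} (hs : 0 < s) (hB : 0 < B)
    (h : lab0 γ ψ B = some τ) (hne : lab0 γ ψ (s * B) ≠ some τ)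
    (hthin : ((s * B : ℕ) : ℝ) * ψ ≤ 1 / 10) :
    1 < ((((s * B : ℕ) : ℚ) * τ).den : ℝ) ^ 5 * (((s * B : ℕ) : ℝ) * ψ) ∨
      (((s * B : ℕ) : ℝ) * ψ) ^ 4 < |((s * B : ℕ) : ℝ) * γ - ((s * B : ℕ) : ℝ) * τ| ^ 5 := by
  by_contra hc
  push Not at hc
  obtain ⟨h1, h2⟩ := hc
  have hsB : 0 < s * B := Nat.mul_pos hs hB
  have hL := lab0_spec hB h
  have hψ : 0 < ψ := by
    have := hL.pos
    have hB' : (0:ℝ) < B := by exact_mod_cast hB
    exact (mul_pos_iff_of_pos_left hB').1 this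
  refine hne (lab0_of_Lab hsB ⟨?_, hthin, h1, ?_⟩)
  · have : (0:ℝ) < ((s * B : ℕ) : ℝ) := by exact_mod_cast hsB
    positivity
  · push_cast at h2 ⊢
    exact h2

/-- **accuracy is inherited upwards** -/
theorem near_anti {γ ψ : ℝ} {B s : ℕ} {τ : ℚ} (hs : 0 < s) (hB : 0 < B)
    (h : |((s * B : ℕ) : ℝ) * γ - ((s * B : ℕ) : ℝ) * τ| ^ 5 ≤ (((s * B : ℕ) : ℝ) * ψ) ^ 4) :
    |(B : ℝ) * γ - (B : ℝ) * τ| ^ 5 ≤ ((B : ℝ) * ψ) ^ 4 := by
  have hs1 : (1 : ℝ) ≤ s := by exact_mod_cast hs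
  have hs0 : (0 : ℝ) < s := by linarith
  have e : ((s * B : ℕ) : ℝ) * γ - ((s * B : ℕ) : ℝ) * τ = s * ((B : ℝ) * γ - (B : ℝ) * τ) := by
    push_cast; ring
  have e2 : (((s * B : ℕ) : ℝ) * ψ) ^ 4 = (s : ℝ) ^ 4 * ((B : ℝ) * ψ) ^ 4 := by
    push_cast; ring
  rw [e, abs_mul, abs_of_pos hs0, mul_pow, e2] at h
  have h3 : (s : ℝ) ^ 4 * |(B : ℝ) * γ - (B : ℝ) * τ| ^ 5 ≤ (s : ℝ) ^ 4 * ((B : ℝ) * ψ) ^ 4 := by
    refine le_trans (mul_le_mul_of_nonneg_right ?_ (by positivity)) h
    exact pow_le_pow_right₀ hs1 (by norm_num)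
  exact le_of_mul_le_mul_left h3 (by positivity)

section cf
variable {c : Cf} {n p p' q : ℕ}

/-- thin at the last missing tie above `p` (always the case for an alive item) -/
def TL (c : Cf) (p q : ℕ) : Prop :=
  ∀ s L, lst (c.t.mt q) p = s :: L → (L.prod : ℝ) * c.r q ≤ c.wp.thr s

lemma Bl_cons {s : ℕ} {L : List ℕ} (hL : lst (c.t.mt q) p = s :: L) : Bl c p q = s * L.prod := by
  unfold Bl
  rw [hL, List.prod_cons]

lemma wst_fat {s : ℕ} {L : List ℕ} (hL : lst (c.t.mt q) p = s :: L)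
    (hs : (L.prod : ℝ) * c.r q ≤ c.wp.thr s) (hfat : c.wp.thr p < (Bl c p q : ℝ) * c.r q) :
    c.wp.st c.γ c.r c.t p q = lab0 c.γ (c.r q) L.prod := by
  unfold WP.st
  unfold Bl at hfat
  rw [hL] at hfat ⊢
  rw [List.prod_cons] at hfat
  unfold Crest.Agent.R4.W363.sta
  rw [if_neg (not_le.2 hfat), sta_thin hs]

/-- **fat, the previous stage has a label: it is kept** -/
theorem fat_some (hl : c.lam p = 0) {s : ℕ} {L : List ℕ} (hL : lst (c.t.mt q) p = s :: L)
    (hs : (L.prod : ℝ) * c.r q ≤ c.wp.thr s) (hfat : c.wp.thr p < (Bl c p q : ℝ) * c.r q) {κ : ℚ}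
    (h : lab0 c.γ (c.r q) L.prod = some κ) : c.st p q = some κ :=
  stB_zero_some hl (by rw [wst_fat hL hs hfat, h])

/-- **fat, the previous stage has no label: the present label, if births are anticipated** -/
theorem fat_none {s : ℕ} {L : List ℕ} (hL : lst (c.t.mt q) p = s :: L)
    (hs : (L.prod : ℝ) * c.r q ≤ c.wp.thr s) (hfat : c.wp.thr p < (Bl c p q : ℝ) * c.r q)
    (h : lab0 c.γ (c.r q) L.prod = none) :
    (bt c p q → c.st p q = lab0 c.γ (c.r q) (Bl c p q)) ∧ (¬ bt c p q → c.st p q = none) := by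
  have e : c.st p q = fbA c.wpL c.γ c.r c.t c.lv p q :=
    stB_of_none (by rw [wst_fat hL hs hfat, h])
  rw [e]
  unfold fbA
  exact ⟨fun hb => by rw [if_pos hb]; rfl, fun hb => by rw [if_neg hb]⟩

/-- no missing tie above `p`: the state is the label of the stage `1` -/
theorem nil_st (hl : c.lam p = 0) (hL : lst (c.t.mt q) p = []) :
    c.st p q = lab0 c.γ (c.r q) 1 := by
  have e : c.wp.st c.γ c.r c.t p q = lab0 c.γ (c.r q) 1 := by
    unfold WP.st
    rw [hL]
    rfl
  cases h : lab0 c.γ (c.r q) 1 with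
  | some κ => exact stB_zero_some hl (by rw [e, h])
  | none =>
    have e2 : c.st p q = fbA c.wpL c.γ c.r c.t c.lv p q := stB_of_none (by rw [e, h])
    rw [e2]
    unfold fbA
    split_ifs
    · rw [hL, List.prod_nil, h]
    · rfl

/-- **the two possible labels** of an item: the present label, or (fat) the label of the previous
stage -/
theorem two (hl : c.lam p = 0) (hT : TL c p q) {σ : ℚ} (h : c.st p q = some σ) :
    lab0 c.γ (c.r q) (Bl c p q) = some σ ∨
      ∃ s L, lst (c.t.mt q) p = s :: L ∧ c.wp.thr p < (Bl c p q : ℝ) * c.r q ∧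
        lab0 c.γ (c.r q) L.prod = some σ := by
  cases hL : lst (c.t.mt q) p with
  | nil =>
    left
    rw [nil_st hl hL] at h
    unfold Bl
    rw [hL, List.prod_nil, h]
  | cons s L =>
    rcases lt_or_ge (c.wp.thr p) ((Bl c p q : ℝ) * c.r q) with hf | hf
    · cases hk : lab0 c.γ (c.r q) L.prod with
      | some κ =>
        right
        rw [fat_some hl hL (hT s L hL) hf hk] at h
        exact ⟨s, L, rfl, hf, by rw [hk, h]⟩
      | none =>
        left
        obtain ⟨h1, h2⟩ := fat_none hL (hT s L hL) hf hk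
        by_cases hb : bt c p q
        · rw [← h1 hb, h]
        · rw [h2 hb] at h
          exact absurd h (by simp)
    · left
      rw [← thin hl hf, h]

/-- **the same stage** -/
theorem same_change (hO : c.t.Ok n) (hl : c.lam p = 0) (hl' : c.lam p' = 0) (hp : p' ≤ p)
    (hm : ∀ l ∈ c.t.mt q, p' < l → p < l) (hthr : c.wp.thr p ≤ c.wp.thr p')
    (hL' : c.wp.thr p' ≤ c.wpL.thr (c.lv q)) (hT : TL c p q) (hne : c.st p' q ≠ c.st p q) :
    ∃ s L κ, lst (c.t.mt q) p = s :: L ∧ c.wp.thr p < (Bl c p q : ℝ) * c.r q ∧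
      (Bl c p q : ℝ) * c.r q ≤ c.wp.thr p' ∧ c.st p' q = lab0 c.γ (c.r q) (Bl c p q) ∧
      c.st p q = some κ ∧ lab0 c.γ (c.r q) L.prod = some κ ∧
      lab0 c.γ (c.r q) (s * L.prod) ≠ some κ := by
  have hLe : lst (c.t.mt q) p' = lst (c.t.mt q) p := IxRange34.lst_congr hp hm
  have hBl : Bl c p' q = Bl c p q := by unfold Bl; rw [hLe]
  have h1 : (Bl c p q : ℝ) * c.r q ≤ c.wp.thr p' := by
    by_contra hc
    rw [← hBl] at hc
    exact hne (same_fat hl hl' hp hm hthr (not_le.1 hc))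
  have e1 : c.st p' q = lab0 c.γ (c.r q) (Bl c p q) := by
    rw [← hBl] at h1 ⊢
    exact thin hl' h1
  have h2 : c.wp.thr p < (Bl c p q : ℝ) * c.r q := by
    by_contra hc
    exact hne (by rw [e1, thin hl (not_lt.1 hc)])
  cases hL : lst (c.t.mt q) p with
  | nil =>
    exfalso
    refine hne ?_
    rw [e1, nil_st hl hL]
    unfold Bl
    rw [hL, List.prod_nil]
  | cons s L =>
    cases hk : lab0 c.γ (c.r q) L.prod with
    | none =>
      exfalso
      obtain ⟨k1, k2⟩ := fat_none hL (hT s L hL) h2 hk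
      by_cases hb : bt c p q
      · exact hne (by rw [e1, k1 hb])
      · have h3 := hb
        unfold bt btA at hb
        push Not at hb
        obtain ⟨b1, b2⟩ := hb
        rw [← Bl_all hO b1] at b2
        exact absurd (h1.trans hL') (not_le.2 b2)
    | some κ =>
      have e2 := fat_some hl hL (hT s L hL) h2 hk
      refine ⟨s, L, κ, rfl, h2, h1, e1, e2, hk, ?_⟩
      rw [← Bl_cons hL, ← e1, ← e2]
      exact hne

/-- **a missing tie at the column `p`** (the item is thin at `p`) -/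
theorem miss_change (hl : c.lam p = 0) (hl' : c.lam p' = 0)
    (hL : lst (c.t.mt q) p' = p :: lst (c.t.mt q) p)
    (hthin : (Bl c p q : ℝ) * c.r q ≤ c.wp.thr p) (hne : c.st p' q ≠ c.st p q) :
    c.st p q = lab0 c.γ (c.r q) (Bl c p q) ∧
      c.st p' q = lab0 c.γ (c.r q) (p * Bl c p q) ∧
      (c.wp.thr p' < (Bl c p' q : ℝ) * c.r q → bt c p' q ∧ c.st p q = none ∧
        ∃ σ, c.st p' q = some σ) := by
  have e0 := thin hl hthin
  have hBl : Bl c p' q = p * Bl c p q := by
    unfold Bl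
    rw [hL, List.prod_cons]
  rcases lt_or_ge (c.wp.thr p') ((Bl c p' q : ℝ) * c.r q) with hf | hf
  · cases hk : c.st p q with
    | some σ =>
      exfalso
      exact hne (by rw [miss_some hl hl' hL hthin hf hk, hk])
    | none =>
      by_cases hb : bt c p' q
      · have e1 := miss_none_bt hl hL hthin hf hk hb
        refine ⟨by rw [← e0, hk], by rw [← hBl, e1], fun _ => ⟨hb, rfl, ?_⟩⟩
        cases h2 : c.st p' q with
        | some σ => exact ⟨σ, rfl⟩
        | none => exact absurd (by rw [h2, hk]) hne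
      · exfalso
        have e1 := miss_none hl hL hthin hf hk
        unfold fbA at e1
        rw [if_neg hb] at e1
        exact hne (by rw [e1, hk])
  · refine ⟨e0, by rw [← hBl]; exact thin hl' hf, fun h => absurd h (not_lt.2 hf)⟩

/-- **the state below a change is the present label** -/
theorem change_lab0 (hO : c.t.Ok n) (hl : c.lam p = 0) (hl' : c.lam p' = 0) (hp : p' ≤ p)
    (hthr : c.wp.thr p ≤ c.wp.thr p') (hL' : c.wp.thr p' ≤ c.wpL.thr (c.lv q)) (hT : TL c p q)
    (hcase : (∀ l ∈ c.t.mt q, p' < l → p < l) ∨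
      (lst (c.t.mt q) p' = p :: lst (c.t.mt q) p ∧ (Bl c p q : ℝ) * c.r q ≤ c.wp.thr p))
    (hne : c.st p' q ≠ c.st p q) : c.st p' q = lab0 c.γ (c.r q) (Bl c p' q) := by
  rcases hcase with hm | ⟨hL, ht⟩
  · obtain ⟨s, L, κ, -, -, -, h, -⟩ := same_change hO hl hl' hp hm hthr hL' hT hne
    have hBl : Bl c p' q = Bl c p q := by
      unfold Bl; rw [IxRange34.lst_congr hp hm]
    rw [h, hBl]
  · obtain ⟨-, h, -⟩ := miss_change hl hl' hL ht hne
    rw [h]
    congr 1
    unfold Bl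
    rw [hL, List.prod_cons]

/-- **the index of a labelled piece does not depend on the column** -/
theorem ix_some {γ : ℝ} {σ : ℚ} (P : WP) {z : ℝ} (p p' q : ℕ) :
    P.ix γ p q (some σ) z = P.ix γ p' q (some σ) z := rfl

end cf

/-! ### nodes -/

section node
variable {N : Skel189.Num} {γ : ℝ} {p0 P₀ : ℕ} {X : Ctx N γ p0 P₀} {u u' : NS} {τ τ' : IT}

/-- alive items are thin at the last missing tie -/
lemma TL_node (hT : TH X) (h : NDt X.par (w X.ψ) X.c.t u τ) (hr : Step588.RdOk X u τ)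
    (hl : ¬ isL τ) {q : ℕ} (hq : q ∈ τ.items) (hqs : q ∈ X.S') : TL X.c (tp τ) q :=
  fun s L hL => (lst_cons hT h hr hl hq hqs hL).1

/-- **the two possible labels at a node** -/
theorem node_two (hT : TH X) (h : NDt X.par (w X.ψ) X.c.t u τ) (hr : Step588.RdOk X u τ)
    (hl : ¬ isL τ) {q : ℕ} (hq : q ∈ τ.items) (hqs : q ∈ X.S') {σ : ℚ}
    (hs : X.c.st (tp τ) q = some σ) :
    lab0 X.c.γ (X.c.r q) u.B = some σ ∨
      ∃ s b, s.Prime ∧ u.B = s * b ∧ tp τ < s ∧ (∀ l ∈ b.primeFactors, s < l) ∧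
        X.c.wp.thr (tp τ) < (u.B : ℝ) * X.c.r q ∧ lab0 X.c.γ (X.c.r q) b = some σ := by
  rcases two (hT.lam _) (TL_node hT h hr hl hq hqs) hs with h1 | ⟨s, L, h1, h2, h3⟩
  · left
    rwa [Bl_node h hl hq] at h1
  · right
    have h4 : s ∈ lst (X.c.t.mt q) (tp τ) := by rw [h1]; exact List.mem_cons_self
    have h5 := Crest.Agent.R4.W363.mem_lst.1 h4
    have h6 := (BldF542.mt_lt X.c.t (top X.S) X.tOk q s h5.1).1
    have h7 : u.B = s * L.prod := by rw [← Bl_node h hl hq, Bl_cons h1]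
    rw [Bl_node h hl hq] at h2
    refine ⟨s, L.prod, h6, h7, h5.2, ?_, h2, h3⟩
    intro l hl'
    have h8 : Squarefree u.B := h.bk.sfB
    have hlp := Nat.prime_of_mem_primeFactors hl'
    have hld := Nat.dvd_of_mem_primeFactors hl'
    have h9 : l ∈ L := by
      have hL : ∀ x ∈ L, x.Prime := by
        intro x hx
        have : x ∈ lst (X.c.t.mt q) (tp τ) := by rw [h1]; exact List.mem_cons_of_mem _ hx
        exact (BldF542.mt_lt X.c.t (top X.S) X.tOk q x
          (Crest.Agent.R4.W363.mem_lst.1 this).1).1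
      obtain ⟨x, hx, hx2⟩ := (hlp.prime.dvd_prod_iff).1 hld
      rw [(Nat.prime_dvd_prime_iff_eq hlp (hL x hx)).1 hx2]
      exact hx
    have h10 : (lst (X.c.t.mt q) (tp τ)).Pairwise (· ≤ ·) := by
      unfold Crest.Agent.R4.W363.lst
      exact Finset.pairwise_sort _ _
    rw [h1, List.pairwise_cons] at h10
    have h11 := h10.1 l h9
    rcases lt_or_eq_of_le h11 with h | h
    · exact h
    · exfalso
      rw [h7, Nat.squarefree_mul_iff] at h8
      have h12 : s ∣ L.prod := by rw [h]; exact hld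
      have h13 := Nat.Coprime.eq_one_of_dvd h8.1 h12
      exact h6.one_lt.ne' h13

/-- **the same stage, at a node**: a change happens at the crossing of `thr`, to the kept label -/
theorem node_same_change (hT : TH X) (h : NDt X.par (w X.ψ) X.c.t u τ) (hr : Step588.RdOk X u τ)
    (h' : NDt X.par (w X.ψ) X.c.t u' τ') (hl : ¬ isL τ) (hl' : ¬ isL τ') {q : ℕ}
    (hq : q ∈ τ.items) (hq' : q ∈ τ'.items) (hqs : q ∈ X.S') (hB : u'.B = u.B)
    (hp : tp τ' ≤ tp τ) (hlv : p0 ≤ X.c.lv q) (hlv' : X.c.lv q ≤ tp τ')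
    (hne : X.c.st (tp τ') q ≠ X.c.st (tp τ) q) :
    ∃ s b κ, s.Prime ∧ u.B = s * b ∧ tp τ < s ∧
      X.c.wp.thr (tp τ) < (u.B : ℝ) * X.c.r q ∧ (u.B : ℝ) * X.c.r q ≤ X.c.wp.thr (tp τ') ∧
      X.c.st (tp τ') q = lab0 X.c.γ (X.c.r q) u.B ∧ X.c.st (tp τ) q = some κ ∧
      lab0 X.c.γ (X.c.r q) b = some κ ∧ lab0 X.c.γ (X.c.r q) (s * b) ≠ some κ := by
  have k := (nodeOk_hi h'.self.node hl').2.1
  obtain ⟨s, L, κ, h1, h2, h3, h4, h5, h6, h7⟩ := same_change X.tOk (hT.lam _) (hT.lam _) hp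
    (mt_same h h' hl hl' hq hq' hB) (hT.anti _ _ (le_of_lt k) hp) (hT.leL _ _ hlv hlv')
    (TL_node hT h hr hl hq hqs) hne
  rw [Bl_node h hl hq] at h2 h3 h4
  have g4 : s ∈ lst (X.c.t.mt q) (tp τ) := by rw [h1]; exact List.mem_cons_self
  have g5 := Crest.Agent.R4.W363.mem_lst.1 g4
  exact ⟨s, L.prod, κ, (BldF542.mt_lt X.c.t (top X.S) X.tOk q s g5.1).1,
    by rw [← Bl_node h hl hq, Bl_cons h1], g5.2, h2, h3, h4, h5, h6, h7⟩

/-- **across a missing tie, at a node** -/
theorem node_miss_change (hT : TH X) (h : NDt X.par (w X.ψ) X.c.t u τ)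
    (h' : NDt X.par (w X.ψ) X.c.t u' τ') (hr' : Step588.RdOk X u' τ') (hl : ¬ isL τ)
    (hl' : ¬ isL τ') {q : ℕ} (hq : q ∈ τ.items) (hq' : q ∈ τ'.items) (hqs : q ∈ X.S')
    (hB : u'.B = u.B * tp τ) (hne : X.c.st (tp τ') q ≠ X.c.st (tp τ) q) :
    X.c.st (tp τ) q = lab0 X.c.γ (X.c.r q) u.B ∧
      X.c.st (tp τ') q = lab0 X.c.γ (X.c.r q) (tp τ * u.B) ∧
      (X.c.wp.thr (tp τ') < (u'.B : ℝ) * X.c.r q → bt X.c (tp τ') q ∧ X.c.st (tp τ) q = none ∧
        ∃ σ, X.c.st (tp τ') q = some σ) := by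
  have h1 := miss_thin hT h hl h' hr' hq' hqs hB
  rw [← Bl_node h hl hq] at h1
  have h2 := miss_change (hT.lam _) (hT.lam _) (lst_miss h h' hl hl' hq hq' hB) h1 hne
  rw [Bl_node h hl hq, Bl_node h' hl' hq'] at h2
  exact h2

/-- **the deaths across a missing tie**: the denominator is not admissible above -/
theorem node_miss_death (hT : TH X) (h : NDt X.par (w X.ψ) X.c.t u τ)
    (h' : NDt X.par (w X.ψ) X.c.t u' τ') (hr' : Step588.RdOk X u' τ') (hl : ¬ isL τ)
    (hl' : ¬ isL τ') {q : ℕ} (hq : q ∈ τ.items) (hq' : q ∈ τ'.items) (hqs : q ∈ X.S')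
    (hB : u'.B = u.B * tp τ) {σ : ℚ} (hs : X.c.st (tp τ') q = some σ)
    (hne : X.c.st (tp τ) q ≠ some σ) :
    1 < (((u.B : ℚ) * σ).den : ℝ) ^ 5 * (u.B * X.c.r q) := by
  obtain ⟨h1, h2, -⟩ := node_miss_change hT h h' hr' hl hl' hq hq' hqs hB (by rw [hs]; exact hne.symm)
  have hp := (top_of_nodeOk h.self.node hl).1
  have hB0 : 0 < u.B := Nat.pos_of_ne_zero h.bk.sfB.ne_zero
  rw [h2] at hs
  rw [h1] at hne
  exact death_size hp.pos hB0 hs hne

/-- **the births across a missing tie** -/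
theorem node_miss_birth (hT : TH X) (h : NDt X.par (w X.ψ) X.c.t u τ)
    (h' : NDt X.par (w X.ψ) X.c.t u' τ') (hr' : Step588.RdOk X u' τ') (hl : ¬ isL τ)
    (hl' : ¬ isL τ') {q : ℕ} (hq : q ∈ τ.items) (hq' : q ∈ τ'.items) (hqs : q ∈ X.S')
    (hB : u'.B = u.B * tp τ) {κ : ℚ} (hs : X.c.st (tp τ) q = some κ)
    (hne : X.c.st (tp τ') q ≠ some κ) (h10 : ((tp τ * u.B : ℕ) : ℝ) * X.c.r q ≤ 1 / 10) :
    1 < ((((tp τ * u.B : ℕ) : ℚ) * κ).den : ℝ) ^ 5 * (((tp τ * u.B : ℕ) : ℝ) * X.c.r q) ∨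
      (((tp τ * u.B : ℕ) : ℝ) * X.c.r q) ^ 4 <
        |((tp τ * u.B : ℕ) : ℝ) * X.c.γ - ((tp τ * u.B : ℕ) : ℝ) * κ| ^ 5 := by
  obtain ⟨h1, h2, -⟩ := node_miss_change hT h h' hr' hl hl' hq hq' hqs hB (by rw [hs]; exact hne)
  have hp := (top_of_nodeOk h.self.node hl).1
  have hB0 : 0 < u.B := Nat.pos_of_ne_zero h.bk.sfB.ne_zero
  rw [h1] at hs
  rw [h2] at hne
  exact birth_size hp.pos hB0 hs hne h10

end node

end Crest.Agent.R4P.StCh24
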