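import Crest.Agent.R4P.SkelMain_2

/-!
R4 (S0004), powers pass: port of the first part of helper588's `R4/StepFin588` (helper6): `CM`,
`ctx_CM` : means of the weights of a context (464's closed exclusion).
-/

set_option autoImplicit false
set_option linter.unusedSectionVars false
set_option linter.unusedVariables false
open MeasureTheory Filter

namespace Crest.Agent.R4P.Step588

open Crest.Agent.R4.Tour104 Crest.Agent.R4.Tour758 Crest.Agent.R4.Avg758 Crest.Agent.R4.Clos758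
open Crest.Agent.R4.ClosL758 Crest.Agent.R4.ClosG758 Crest.Agent.R4.Lam368
open Crest.Agent.R4.Piece464 Crest.Agent.R4.Fam464 Crest.Agent.R4P.Cnt588 Crest.Agent.R4P.Item758
open Crest.Agent.R4P.W363 Crest.Agent.R4P.Data758 Crest.Agent.R4P.OmSt532 Crest.Agent.R4P.Om532
open Crest.Agent.R4.Ovl560 Crest.Agent.R4.LF363 Crest.Agent.R4P.OmData532
open Crest.Agent.R4P.Bld532 (NS All NodeOk Bk)
open Crest.Agent.R4P.Skel189 Crest.Agent.R4P.Chi464
open Crest.Agent.R4.Soft104 (w)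

variable {N : Skel189.Num} {γ : ℝ} {p0 P₀ : ℕ}

/-- means of the weights of a context -/
structure CM (X : Ctx N γ p0 P₀) : Prop where
  sum : ∀ z, ∀ q ∈ X.S', ∑ l ∈ (q / pp X.c.t q).primeFactors.filter (· ∈ rt X.c.t q),
    ((X.Tz z q l).card : ℝ) / l ≤ 1 / 2
  mean2 : ∀ z, ∀ q ∈ X.S', ∀ T' : ℕ → ℕ → Finset ℚ,
    mnw (q / pp X.c.t q) (omT X.c.t X.S' T' X.th X.ph X.lab q) ≤
      2 * mnw (q / pp X.c.t q) (X.c.om q z)

theorem ctx_CM (N : Skel189.Num) : ∃ p₁ : ℕ, ∀ p0 ≥ p₁, ∀ (γ : ℝ) (P₀ : ℕ), 2 ≤ P₀ →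
    ∀ X : Ctx N γ p0 P₀, CM X := by
  obtain ⟨p1, h1⟩ := omT_cond4 N.B N.C1 N.c2 N.hC1 N.hc2 N.hB
  obtain ⟨p2, h2⟩ := ctx_card N
  refine ⟨p1 + p2, fun p0 hp0 γ P₀ hP X => ?_⟩
  have ht : Bld532.bld (Bld532.par N.B N.C1 N.c2 p0) (w X.ψ) (top X.S) 1 1 X.S = X.c.t := X.ht.symm
  have key := h1 p0 (by omega) X.ψ X.S P₀ hP X.sys (top X.S) X.S' X.prn.sub
    (fun q hq => X.prn.pr q hq)
  rw [ht] at key
  have hc := h2 p0 (by omega) γ P₀ hP X
  constructor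
  · intro z q hq
    exact (key (X.Tz z) X.th X.ph X.lab (hc z)).2.2.2.2.2 q hq
  · intro z q hq T'
    have := (key (X.Tz z) X.th X.ph X.lab (hc z)).2.2.2.2.1 q hq T'
    rw [X.om_eq]
    exact this

end Crest.Agent.R4P.Step588
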