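import Crest.Agent.R4P.StepPer588
import Crest.Agent.R4P.StepCut588
import Crest.Agent.R4P.DataA758
import Crest.Agent.R4P.WPex189

/-!
R4 (S0004), powers pass, helper76: **the hypotheses of `Step588` for the concrete data** with powers
and tags (`DataA758`); port of the section `the data` of helper189's `R4/StepData189`.

* `Cf.rtg p q = Nat.pair (ret p q) (tg p q)` : retained part and tag of an item in one number
  (`Cf.rtg_iff`, `Cf.rtg_ret`, `Cf.rtg_tg`)
* `data_Cov`, `data_Wld` (second component `c.rtg`), `data_WOk`, `data_fine`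
-/

set_option autoImplicit false
set_option linter.unusedSectionVars false
set_option linter.unusedVariables false
open MeasureTheory Filter

namespace Crest.Agent.R4P.Step588

open Crest.Agent.R4.Tour104 Crest.Agent.R4.Tour758 Crest.Agent.R4.Avg758 Crest.Agent.R4.Clos758
open Crest.Agent.R4.ClosL758 Crest.Agent.R4.ClosG758 Crest.Agent.R4.Lam368
open Crest.Agent.R4.Piece464 Crest.Agent.R4.Fam464 Crest.Agent.R4P.Cnt588 Crest.Agent.R4P.Item758
open Crest.Agent.R4P.W363 Crest.Agent.R4P.Data758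

/-! ### retained part and tag in one number -/

/-- retained part and tag of the item `q` at the column `p` -/
noncomputable def _root_.Crest.Agent.R4P.Data758.Cf.rtg (c : Cf) (p q : ℕ) : ℕ :=
  Nat.pair (ret c.t p q) (c.tg p q)

lemma _root_.Crest.Agent.R4P.Data758.Cf.rtg_iff (c : Cf) (p q r : ℕ) :
    c.rtg p q = c.rtg p r ↔ ret c.t p q = ret c.t p r ∧ c.tg p q = c.tg p r :=
  Nat.pair_eq_pair

/-- the second component of the world determines the retained part (the hypothesis `hrt` of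
`Wld.ret_iff`, `NDt.hrp_ext`) -/
lemma _root_.Crest.Agent.R4P.Data758.Cf.rtg_ret (c : Cf) (p q r : ℕ)
    (h : c.rtg p q = c.rtg p r) : ret c.t p q = ret c.t p r :=
  ((c.rtg_iff p q r).1 h).1

lemma _root_.Crest.Agent.R4P.Data758.Cf.rtg_tg (c : Cf) (p q r : ℕ)
    (h : c.rtg p q = c.rtg p r) : c.tg p q = c.tg p r :=
  ((c.rtg_iff p q r).1 h).2

/-! ### the data -/

section
variable {c : Cf} {n : ℕ}

theorem data_Cov (h : c.Ok n) (X : Finset (ℕ × ℕ × Finset ℕ)) : Cov (c.D.par X) c.rr where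
  cov := by
    classical
    intro j z h1 h2
    have h1' : -c.rr j.1.1 ≤ z := h1
    have h2' : z < c.rr j.1.1 := h2
    rw [Cf.rr_eq] at h1' h2'
    have hj := Cf.mem_S j
    have hr := Cf.r_pos j
    have hex : ∃ m, z < c.bp j.1.1 m := ⟨c.K, by rw [h.bpK _ hj hr]; exact h2'⟩
    obtain ⟨m, hm⟩ : ∃ m, m = Nat.find hex := ⟨_, rfl⟩
    have h3 : z < c.bp j.1.1 m := by rw [hm]; exact Nat.find_spec hex
    have h4 : ∀ k < m, ¬ z < c.bp j.1.1 k := fun k hk => Nat.find_min hex (by rw [← hm]; exact hk)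
    have hmK : m ≤ c.K := by
      rw [hm]; exact Nat.find_min' hex (by rw [h.bpK _ hj hr]; exact h2')
    rcases Nat.eq_zero_or_pos m with h0 | h0
    · rw [h0, h.bp0 _ hj hr] at h3; linarith
    · have hk : m - 1 < c.K := by omega
      refine ⟨⟨(j.1.1, m - 1), Finset.mem_product.2 ⟨Finset.mem_filter.2 ⟨hj, hr⟩,
        Finset.mem_range.2 hk⟩⟩, rfl, ?_, ?_⟩
      · exact not_lt.1 (h4 (m - 1) (by omega))
      · show z < c.bp j.1.1 (m - 1 + 1)
        rw [Nat.sub_add_cancel h0]; exact h3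
  al := (h.rad X).al
  be := (h.rad X).be
  dj := by
    intro j k z e h1 h2 h3 h4
    by_contra hne
    rcases h.disj' j k hne e with h5 | h5
    · exact absurd (lt_of_lt_of_le h2 h5) (not_lt.2 h3)
    · exact absurd (lt_of_lt_of_le h4 h5) (not_lt.2 h1)

/-- the classes are given by the worlds `W*` (index; retained part and tag) at the columns `≤ n` -/
theorem data_Wld (h : c.Ok n) (X : Finset (ℕ × ℕ × Finset ℕ)) {C : Finset ℕ}
    (hC : ∀ p ∈ C, p ≤ n) : Wld (c.D.par X) c.wp c.st c.rtg C where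
  rho := by
    intro p _ j k
    rw [Par0.rho_eq, Cf.D_rho]
    unfold Cf.world
    rw [Prod.ext_iff]
    refine and_congr Iff.rfl ?_
    refine Iff.trans ?_ (c.rtg_iff p j.1.1 k.1.1).symm
    exact Prod.ext_iff
  pt := fun p hp j z h1 h2 => h.ix_point (hC p hp) j h1 h2

/-- `Fine` world parameters give `WOk` (`N = B * sn ≤ K`) -/
theorem data_WOk (h : c.Ok n) (X : Finset (ℕ × ℕ × Finset ℕ)) {C T : Finset ℕ} {K dm N : ℕ}
    (hf : WPex189.Fine c.wp c.γ c.r c.t c.S n K) (hC : ∀ p ∈ C, p ≤ n) (hT : T ⊆ c.S)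
    (hdep : ∀ p ∈ C, c.wp.dep p ≤ dm) (hN : N ≤ K) :
    WOk (c.D.par X) c.wp c.st C T dm N where
  dep := hdep
  δ := hf.δ0
  snap := by
    intro p hp q hq r hr σ τ hσ hτ
    refine le_trans ?_ (hf.gridB p (hC p hp) p (hC p hp) q (hT hq) r (hT hr) σ τ
      (stB_lbAt hσ) (stB_lbAt hτ))
    refine mul_le_mul_of_nonneg_left ?_ hf.δ0.le
    have key : N * ((σ.den * q) * (τ.den * r)) ≤ K * ((σ.den * q) * (τ.den * r)) :=
      Nat.mul_le_mul_right _ hN
    exact_mod_cast key
  rng := by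
    intro p hp j hj σ hσ z h1 h2
    have h1' : c.bp j.1.1 j.1.2 ≤ z := h1
    have h2' : z < c.bp j.1.1 (j.1.2 + 1) := h2
    refine hf.offB p (hC p hp) j.1.1 (Cf.mem_S j) (h.pos _ (Cf.mem_S j)) σ (stB_lbAt hσ) z ?_
    rw [abs_le]
    exact ⟨(h.bp_ge j _).trans h1', (h2'.le).trans (h.bp_le j (Cf.k_lt j))⟩

/-- the grid of the pieces is fine -/
theorem data_fine (h : c.Ok n) (X : Finset (ℕ × ℕ × Finset ℕ)) {sn B : ℕ}
    (hd : (sn : ℝ) * c.d1 * B ≤ 1) (j : c.Lam) :
    (sn : ℝ) * ((c.D.par X).be j - (c.D.par X).al j) * B ≤ 1 := by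
  refine le_trans ?_ hd
  have h1 : (c.D.par X).be j - (c.D.par X).al j ≤ c.d1 :=
    h.fine _ (Cf.mem_S j) (Cf.r_pos j) _ (Cf.k_lt j)
  exact mul_le_mul_of_nonneg_right (mul_le_mul_of_nonneg_left h1 (Nat.cast_nonneg _))
    (Nat.cast_nonneg _)

end

end Crest.Agent.R4P.Step588
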