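import Crest.Agent.R4P.StepRes_6
import Crest.Agent.R4P.StepNC_6
import Crest.Agent.R4P.StepItem2_7

/-!
R4 (S0004), powers pass: port of the first half of helper588's `R4/StepItem2F588` (helper6):
**`item_step2` for any function below the item sum of the cut**.

`B = mpc y t q * PV` with any common denominator `PV`, `pml y ∣ PV` (`PV = Fac.PV y`).
-/

set_option autoImplicit false
set_option linter.unusedSectionVars false
set_option linter.unusedVariables false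
open MeasureTheory Filter

namespace Crest.Agent.R4P.Step588

open Crest.Agent.R4.Tour104 Crest.Agent.R4.Tour758 Crest.Agent.R4.Avg758 Crest.Agent.R4.Clos758
open Crest.Agent.R4.ClosL758 Crest.Agent.R4.ClosG758 Crest.Agent.R4.Lam368
open Crest.Agent.R4.Piece464 Crest.Agent.R4.Fam464 Crest.Agent.R4P.Cnt588 Crest.Agent.R4P.Item758
open Crest.Agent.R4P.W363

section
variable {Λ κ : Type*} [Fintype Λ] [DecidableEq κ] [DecidableEq Λ]

/-- **(F2)** with fat items, for any function `F` below the item sum of the cut -/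
theorem item_step2F {D : Par Λ κ} {P : WP} {stt : ℕ → ℕ → Option ℚ} {rtt : ℕ → ℕ → ℕ}
    {C : Finset ℕ} {dm b pr N y K V0 u NR q PV : ℕ} {R : ℕ → ℝ} {t : IT} (hPV0 : 0 < PV)
    (hPV : pml y ∣ PV) (hC : Cov D R)
    (hom : ∀ j a, D.om j a ≤ 1)
    (hab : ∀ j, D.al j ≤ D.be j) (hw : Wld D P stt rtt C) (hρ : 0 < P.ρ₀) (hb : 0 < b)
    (hF : Fit b pr t) (hW : D.Wts pr t) (hO : t.Ok N) (hy : y ≤ N) (hq : q ∈ t.items)
    (ho : WOk D P stt C (subt y t q).items dm (mpc y t q * PV * b))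
    (hfine : ∀ j, (b : ℝ) * (D.be j - D.al j) * ((mpc y t q * PV : ℕ) : ℝ) ≤ 1)
    (hcols : cols (subt y t q) ⊆ C)
    {rp : ℕ → ℕ} (hrp : ∀ p ∈ cols (subt y t q), ∀ q' ∈ (subt y t q).items,
      ∀ r ∈ (subt y t q).items, rtt p q' = rtt p r → rp q' = rp r)
    (hK : 0 < K) (hu : 0 < u) {v : ℕ → ℕ}
    (hv : ∀ r ∈ (subt y t q).items, rp r = rp q → r / (pr * ppc y t q) = u * v r)
    (hV : ∀ r ∈ (subt y t q).items, rp r = rp q → v r ≤ V0)
    (hper : ∀ j, D.it j ∈ (subt y t q).items → rp (D.it j) = rp q →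
      ∀ a, D.om j (a + v (D.it j)) = D.om j a) {E0 : ℝ} (hE0 : 1 / 2 ≤ E0)
    (hR : ∀ r ∈ (subt y t q).items, rp r = rp q → 0 < R r ∧ (b : ℝ) * R r ≤ E0)
    (hNR : ((subt y t q).items.filter (fun r => rp r = rp q)).card ≤ NR)
    (homc : OmC D P (subt y t q) dm (mpc y t q) b (pr * ppc y t q) (mpc y t q * PV) R rp q)
    {F : ℝ → ℝ} (hFle : ∀ x, F x ≤
      Fq D (b * mpc y t q) (pr * ppc y t q) (subt y t q) (mpc y t q) q ((ppc y t q : ℕ) * x)) :
    IZ2 F (b * R q) K (v q) (q / pr) (b * D.γ)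
      (I (Fq D b pr t 1 q) / prfc y t q +
          60 * E0 * NR * ((mpc y t q * PV : ℕ) : ℝ) * (V0 : ℝ) ^ 2 * (2 ^ (dm + 2) + 1) * √K *
            (2 * (3 * (b * R q)) / (K * v q))) (2 * E0) := by
  classical
  set m := mpc y t q with hm_def
  set ϖ := ppc y t q with hϖ_def
  set t2 := subt y t q with ht2_def
  have hm : 0 < m := mpc_pos y t q hO
  have hϖ : 0 < ϖ := ppc_pos y t q hO
  have hq2 : q ∈ t2.items := mem_subt y t hq
  have hF2 : Fit (b * m) (pr * ϖ) t2 := Fit_subt y t q hF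
  have hW2 : D.Wts (pr * ϖ) t2 := Wts_subt y t q (Fit_dj hF) hW
  have hO2 : t2.Ok y := Ok_subt y t q hO hy
  have hb2 : 0 < b * m := Nat.mul_pos hb hm
  have hc2 : m ∣ b * m := Dvd.intro_left b rfl
  obtain ⟨hq0, hprq, -⟩ := hF2.item q hq2
  have hpr2 : 0 < pr * ϖ := Nat.pos_of_dvd_of_pos hprq hq0
  have hpr : 0 < pr := Nat.pos_of_mul_pos_right hpr2
  have hB : 0 < m * PV := Nat.mul_pos hm hPV0
  have hbR : (0 : ℝ) < b := by exact_mod_cast hb
  -- moduli
  have hvpos : ∀ r ∈ t2.items, rp r = rp q → 0 < v r := by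
    intro r hr hrq
    obtain ⟨hr0, hprr, -⟩ := hF2.item r hr
    have h1 : 0 < r / (pr * ϖ) := Nat.div_pos (Nat.le_of_dvd hr0 hprr) hpr2
    rw [hv r hr hrq] at h1
    exact Nat.pos_of_ne_zero (by rintro h; rw [h] at h1; simp at h1)
  have hvq : 0 < v q := hvpos q hq2 rfl
  have hw0 : q / (pr * ϖ) = u * v q := hv q hq2 rfl
  have hRq := hR q hq2 rfl
  have hbRq : 0 < (b : ℝ) * R q := mul_pos hbR hRq.1
  -- bad windows
  have hρ1 : 0 < min ((b : ℝ) * R q) (1/2) := lt_min hbRq (by norm_num)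
  obtain ⟨bad, -, hcard, hgood⟩ := good_badE (B := m * PV) (sn := b) (θ := b * D.γ)
    (ρ := min (b * R q) (1/2)) hC hw ho hb2 hF2 hW2 rfl hB
    (NB_of_Ok t2 hO2 (Nat.mul_dvd_mul_left m hPV)) hfine hpr2 hcols hrp
    hq2 homc hρ hvq hK hE0 (hV q hq2 rfl) hρ1 (min_le_right _ _) hw0
    (fun r hr hrq => ⟨hvpos r hr hrq, hV r hr hrq, hv r hr hrq⟩)
    (fun r hr hrq => ⟨(mul_pos hbR (hR r hr hrq).1).le, (hR r hr hrq).2⟩)
  -- majorant on the subtree
  obtain ⟨n, κ', hn1, hnR, hOk, hmaj, hI⟩ := maj2 (PB_Fq D q hb2 hF2 hW2 hc2) hu hvq hK hbRq hw0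
    (per_const hw hb2 hF2 hW2 hc2 hcols hrp hq2 hu hv hper)
    (Fq_le_arc hC hom hb2 hF2 hW2 rfl hq2) bad hgood
  have hdiv : ϖ * (q / (pr * ϖ)) = q / pr := by
    obtain ⟨k, hk⟩ := hprq
    rw [hk, Nat.mul_div_cancel_left k hpr2, mul_assoc pr ϖ k, Nat.mul_div_cancel_left _ hpr]
  have hRH : (b : ℝ) * R q ≤ 2 * E0 * min ((b : ℝ) * R q) (1/2) := by
    rcases le_or_gt ((b : ℝ) * R q) (1/2) with h | h
    · rw [min_eq_left h]
      exact le_mul_of_one_le_left hbRq.le (by linarith)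
    · rw [min_eq_right h.le]
      have := hRq.2
      linarith
  refine ⟨min ((b : ℝ) * R q) (1/2), n, wl (min ((b : ℝ) * R q) (1/2)) K,
    fun i => wl (min ((b : ℝ) * R q) (1/2)) K (i + 1), κ', hρ1, min_le_left _ _, hRH, hn1, hnR,
    ?_, ?_, ?_⟩
  · have := hOk.push hϖ
    rwa [hdiv] at this
  · intro x
    refine (hFle x).trans ((hmaj _).trans (le_of_eq ?_))
    rw [← WF_push, hdiv]
  · have hprf0 : 0 < prfc y t q := prfc_pos y t q hO
    have e2 : I (Fq D (b * m) (pr * ϖ) t2 m q) = I (Fq D b pr t 1 q) / prfc y t q := by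
      rw [eq_div_iff hprf0.ne']
      exact I_Fq_cut D hab hb hF hW hO hq
    rw [← hdiv, I_WF_push hϖ hOk.w0 hOk.vw hOk.wt]
    refine hI.trans ?_
    rw [e2]
    have hx0 : 0 ≤ 2 * (3 * (b * R q)) / (K * v q) := by
      have := hbRq.le
      positivity
    have hcard' : (bad.card : ℝ) ≤ 60 * E0 * NR * ((m * PV : ℕ) : ℝ) * (V0 : ℝ) ^ 2 *
        (2 ^ (dm + 2) + 1) * √K := by
      refine hcard.trans ?_
      have hNR' : ((t2.items.filter (fun r => rp r = rp q)).card : ℝ) ≤ NR := by exact_mod_cast hNR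
      have h3 : (60 * E0 : ℝ) * ((t2.items.filter (fun r => rp r = rp q)).card : ℝ) ≤
          60 * E0 * NR := mul_le_mul_of_nonneg_left hNR' (by linarith)
      have h4 : (0 : ℝ) ≤ ((m * PV : ℕ) : ℝ) := Nat.cast_nonneg _
      have h5 := mul_le_mul_of_nonneg_right h3 h4
      have h6 := mul_le_mul_of_nonneg_right h5 (sq_nonneg (V0 : ℝ))
      have h7 := mul_le_mul_of_nonneg_right h6 (show (0 : ℝ) ≤ 2 ^ (dm + 2) + 1 by positivity)
      exact mul_le_mul_of_nonneg_right h7 (Real.sqrt_nonneg _)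
    have := mul_le_mul_of_nonneg_right hcard' hx0
    linarith

/-- **`item_step2F` with hypotheses for the alive mates only** -/
theorem item_step2F_al {D : Par Λ κ} {Al : Finset ℕ} (hdead : ∀ j, D.it j ∉ Al → ∀ a, D.om j a = 0)
    {P : WP} {stt : ℕ → ℕ → Option ℚ} {rtt : ℕ → ℕ → ℕ}
    {C : Finset ℕ} {dm b pr N y K V0 u NR q PV : ℕ} {R : ℕ → ℝ} {t : IT} (hPV0 : 0 < PV)
    (hPV : pml y ∣ PV) (hC : Cov D R)
    (hom : ∀ j a, D.om j a ≤ 1)
    (hab : ∀ j, D.al j ≤ D.be j) (hw : Wld D P stt rtt C) (hρ : 0 < P.ρ₀) (hb : 0 < b)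
    (hF : Fit b pr t) (hW : D.Wts pr t) (hO : t.Ok N) (hy : y ≤ N) (hq : q ∈ t.items)
    (hqA : q ∈ Al)
    (ho : WOk D P stt C (subt y t q).items dm (mpc y t q * PV * b))
    (hfine : ∀ j, (b : ℝ) * (D.be j - D.al j) * ((mpc y t q * PV : ℕ) : ℝ) ≤ 1)
    (hcols : cols (subt y t q) ⊆ C)
    {rp : ℕ → ℕ} (hrp : ∀ p ∈ cols (subt y t q), ∀ q' ∈ (subt y t q).items,
      ∀ r ∈ (subt y t q).items, rtt p q' = rtt p r → rp q' = rp r)
    (hK : 0 < K) (hu : 0 < u) {v : ℕ → ℕ}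
    (hv : ∀ r ∈ (subt y t q).items, r ∈ Al → rp r = rp q → r / (pr * ppc y t q) = u * v r)
    (hV : ∀ r ∈ (subt y t q).items, r ∈ Al → rp r = rp q → v r ≤ V0)
    (hper : ∀ j, D.it j ∈ (subt y t q).items → D.it j ∈ Al → rp (D.it j) = rp q →
      ∀ a, D.om j (a + v (D.it j)) = D.om j a) {E0 : ℝ} (hE0 : 1 / 2 ≤ E0)
    (hR : ∀ r ∈ (subt y t q).items, r ∈ Al → rp r = rp q → 0 < R r ∧ (b : ℝ) * R r ≤ E0)
    (hNR : ((subt y t q).items.filter (fun r => r ∈ Al ∧ rp r = rp q)).card ≤ NR)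
    (homc : OmCA D P (subt y t q) dm (mpc y t q) b (pr * ppc y t q) (mpc y t q * PV) R rp q
      Al)
    {F : ℝ → ℝ} (hFle : ∀ x, F x ≤
      Fq D (b * mpc y t q) (pr * ppc y t q) (subt y t q) (mpc y t q) q ((ppc y t q : ℕ) * x)) :
    IZ2 F (b * R q) K (v q) (q / pr) (b * D.γ)
      (I (Fq D b pr t 1 q) / prfc y t q +
          60 * E0 * NR * ((mpc y t q * PV : ℕ) : ℝ) * (V0 : ℝ) ^ 2 * (2 ^ (dm + 2) + 1) * √K *
            (2 * (3 * (b * R q)) / (K * v q))) (2 * E0) := by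
  classical
  set rp' : ℕ → ℕ := fun r => if r ∈ Al then rp r + 1 else 0 with hrp'
  have key : ∀ r, rp' r = rp' q → r ∈ Al ∧ rp r = rp q := by
    intro r h
    simp only [hrp', if_pos hqA] at h
    by_cases hr : r ∈ Al
    · rw [if_pos hr] at h
      exact ⟨hr, Nat.add_right_cancel h⟩
    · rw [if_neg hr] at h
      omega
  have hb2 : 0 < b * mpc y t q := Nat.mul_pos hb (mpc_pos y t q hO)
  have hFle' : ∀ x, F x ≤ Fq (D.res Al) (b * mpc y t q) (pr * ppc y t q) (subt y t q)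
      (mpc y t q) q ((ppc y t q : ℕ) * x) := fun x => by
    rw [← Fq_res D hdead hb2 (Fit_subt y t q hF) (Wts_subt y t q (Fit_dj hF) hW) _ q]
    exact hFle x
  rw [Fq_res D hdead hb hF hW 1 q]
  refine item_step2F (D := D.res Al) (P := P) (stt := stt) (rtt := rttA Al rtt) (C := C) (dm := dm)
    (N := N) (u := u) (NR := NR) (rp := rp') hPV0 hPV hC.res (fun j a => hom j.1 a)
    (fun j => hab j.1)
    hw.res hρ hb hF (fun j hj => hW j.1 hj) hO hy hq ho.res (fun j => hfine j.1) hcols ?_ hK hu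
    (fun r hr e => hv r hr (key r e).1 (key r e).2) (fun r hr e => hV r hr (key r e).1 (key r e).2)
    (fun j hj e => hper j.1 hj j.2 (key _ e).2) hE0
    (fun r hr e => hR r hr (key r e).1 (key r e).2) ?_ ?_ hFle'
  · intro p hp q' hq' r hr e
    unfold rttA at e
    simp only [hrp']
    by_cases h1 : q' ∈ Al
    · by_cases h2 : r ∈ Al
      · rw [if_pos h1, if_pos h2] at e
        rw [if_pos h1, if_pos h2, hrp p hp q' hq' r hr (Nat.add_right_cancel e)]
      · rw [if_pos h1, if_neg h2] at e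
        omega
    · by_cases h2 : r ∈ Al
      · rw [if_neg h1, if_pos h2] at e
        omega
      · rw [if_neg h1, if_neg h2]
  · refine le_trans (Finset.card_le_card fun r hr => ?_) hNR
    obtain ⟨h1, h2⟩ := Finset.mem_filter.1 hr
    exact Finset.mem_filter.2 ⟨h1, key r h2⟩
  · intro x x' hfl j k M hj hj2 ek a1 a2 z hz
    refine homc x x' (fun r hr hrA hre e he => ?_) j.1 k.1 M hj j.2 (key _ hj2).2 ek a1 a2 z hz
    refine hfl r hr ?_ e he
    simp only [hrp', if_pos hrA, if_pos hqA, hre]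

end

end Crest.Agent.R4P.Step588
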