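import Crest.Agent.R4P.OSWS245
import Crest.Agent.R4P.GSt927
import Crest.Agent.R4P.StopIS95

/-!
R4 powers pass (S0004), helper9 (after helper693's `R4/StopCtx693`, helper927's `R4/OF927`): **invariants of
the walk for the stop symbol**.

* `OFP` : the sum `∑ l ^ (-11/12)` over the settled one-sided columns; `OFP.le_one` at a fresh column.
* `RI` : inside a chain the relation of the state is that of its column; at a stopped state it is the
  relation of the previous column `x.n` (a prime, the next one after `x.s.p`), and both trees have the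
  column `x.s.p`; `RI.next`, `RI.start`.
-/

set_option autoImplicit false
set_option linter.unusedSectionVars false
set_option linter.unusedVariables false
set_option linter.unusedSimpArgs false

namespace Crest.Agent.R4P.StopCtx9

open Crest.Agent.R4.Tour104 Crest.Agent.R4.Tour758 Crest.Agent.R4.Avg758 Crest.Agent.R4.Clos758
open Crest.Agent.R4.ClosL758 Crest.Agent.R4.ClosG758 Crest.Agent.R4.ClosR758
open Crest.Agent.R4P.Cnt588 Crest.Agent.R4P.Walk560 Crest.Agent.R4P.Item758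
open Crest.Agent.R4P.AvgItem710 Crest.Agent.R4P.WalkIT579
open Crest.Agent.R4P.Bld532 (NS All NodeOk Bk)
open Crest.Agent.R4P.Res927 Crest.Agent.R4P.GSt927 Crest.Agent.R4P.OSWS245
open Crest.Agent.R4P

variable {Λ κ : Type*} [Fintype Λ] [DecidableEq Λ] [Fintype κ] [DecidableEq κ] [WRel κ]
  {D : Par Λ κ} {sp : ℕ → Finset Λ} {P : Bld532.Par} {W : ℕ → ℝ} {U : ℕ → Finset ℕ}
  {Qp : NS → IT → Prop} {stp : Stp Λ κ} {dv : DT Λ κ → Λ → Prop} {p0 : ℕ}

/-! ### the sum with exponent `11/12` -/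

/-- twelfth root -/
noncomputable def rt (n : ℕ) : ℝ := (n : ℝ) ^ (1 / 12 : ℝ)

lemma rt_pos {n : ℕ} (h : 0 < n) : 0 < rt n := Real.rpow_pos_of_pos (by exact_mod_cast h) _

lemma rt_mono {m n : ℕ} (h : m ≤ n) : rt m ≤ rt n :=
  Real.rpow_le_rpow (Nat.cast_nonneg _) (by exact_mod_cast h) (by norm_num)

lemma rt_pow (n k : ℕ) : rt n ^ k = (n : ℝ) ^ ((k : ℝ) / 12) := by
  unfold rt
  rw [← Real.rpow_natCast, ← Real.rpow_mul (Nat.cast_nonneg _)]
  congr 1
  ring

lemma rt12 (n : ℕ) : rt n ^ 12 = n := by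
  rw [rt_pow]
  norm_num

lemma rt11 {n : ℕ} (h : 0 < n) : (n : ℝ) ^ (-(11 / 12) : ℝ) = 1 / (n : ℝ) * rt n := by
  have h0 : (0 : ℝ) < n := by exact_mod_cast h
  unfold rt
  rw [one_div, ← Real.rpow_neg_one, ← Real.rpow_add h0]
  norm_num

lemma rt4 {n : ℕ} (h : 0 < n) : (n : ℝ) ^ (-(1 / 3) : ℝ) = 1 / rt n ^ 4 := by
  rw [rt_pow, Real.rpow_neg (Nat.cast_nonneg _), one_div]
  norm_num

lemma one_le_rt {n : ℕ} (h : 0 < n) : 1 ≤ rt n := by
  have h6 : rt 1 ≤ rt n := rt_mono h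
  have h7 : rt 1 = 1 := by unfold rt; simp
  rwa [h7] at h6

/-- the elementary inequality -/
lemma elem {a b m : ℝ} (hb : 0 < b) (hab : b ≤ a) (hm0 : 0 ≤ m) (hm : m ≤ 2 / a ^ 4) :
    2 / 3 / a ^ 3 + m * a ≤ 2 / 3 / b ^ 3 + m * b := by
  have ha : 0 < a := hb.trans_le hab
  have h1 : m * (a - b) ≤ 2 / a ^ 4 * (a - b) := mul_le_mul_of_nonneg_right hm (by linarith)
  have h2 : 2 / a ^ 4 * (a - b) ≤ 2 / 3 / b ^ 3 - 2 / 3 / a ^ 3 := by
    have e1 : 2 / 3 / b ^ 3 - 2 / 3 / a ^ 3 = (2 / 3) * (a * (a ^ 3 - b ^ 3)) / (a ^ 4 * b ^ 3) := by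
      field_simp
    have e2 : 2 / a ^ 4 * (a - b) = 2 * (a - b) * b ^ 3 / (a ^ 4 * b ^ 3) := by
      field_simp
    rw [e1, e2]
    refine div_le_div_of_nonneg_right ?_ (by positivity)
    have h3 : b ^ 3 ≤ a * (a ^ 2 + a * b + b ^ 2) / 3 := by
      have : b ^ 3 = b * b ^ 2 := by ring
      have k1 : b * b ^ 2 ≤ a * b ^ 2 := mul_le_mul_of_nonneg_right hab (by positivity)
      have k2 : b ^ 2 ≤ a ^ 2 := by nlinarith
      have k3 : b ^ 2 ≤ a * b := by nlinarith
      nlinarith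
    have h4 : 0 ≤ a - b := by linarith
    have e3 : a * (a ^ 3 - b ^ 3) = (a - b) * (a * (a ^ 2 + a * b + b ^ 2)) := by ring
    rw [e3]
    nlinarith [mul_le_mul_of_nonneg_left h3 h4]
  linarith

/-- the sum over the settled one-sided columns -/
noncomputable def fS (s : St Λ κ) : ℝ := ∑ q ∈ sO s ∪ sO' s, (q : ℝ) ^ (-(11 / 12) : ℝ)

/-- invariant of the settled one-sided columns -/
structure OFP (x : XSt Λ κ) : Prop where
  m : mS x.s ≤ 2 / rt x.n ^ 4
  f : fS x.s ≤ 2 / 3 / rt x.n ^ 3 + mS x.s * rt x.n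

/-- the settled columns along a step -/
lemma sS_step {s q : St Λ κ} (h : OGe s) (hs : OStep s q) :
    (sO q ∪ sO' q = sO s ∪ sO' s ∨ sO q ∪ sO' q = insert s.p (sO s ∪ sO' s)) ∧
      s.p ∉ sO s ∪ sO' s := by
  obtain ⟨a1, a2, a3⟩ := sO_step h hs
  obtain ⟨b1, b2, b3⟩ := sO'_step h hs
  refine ⟨?_, by rw [Finset.mem_union, not_or]; exact ⟨a3, b3⟩⟩
  rcases a1 with h | h <;> rcases b1 with h' | h' <;> rw [h, h']
  · exact Or.inl rfl
  · exact Or.inr (Finset.union_insert _ _ _)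
  · exact Or.inr (Finset.insert_union _ _ _)
  · refine Or.inr ?_
    rw [Finset.insert_union, Finset.union_insert, Finset.insert_idem]

lemma OFP.next (hst : ∀ s : St Λ κ, ¬ stp s → ¬ stpN s) {x : XSt Λ κ} (hX : XI x) (hO : OI p0 x)
    (h : OFP x) : ∀ e ∈ steps stp dv x, OFP e.y := by
  intro e he
  obtain ⟨h1, h2⟩ := steps_act he
  obtain ⟨hpp, hpn⟩ := steps_p hX he
  have hn : e.y.n = max x.s.p (e.y.s.p + 1) := (steps_mv he).1.n
  have hs := steps_O hX e he
  have hpe := hs.pe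
  have hpos : 0 < x.s.p := hpp.pos
  have h3 := hO.mS_le (hst _ h2)
  have hm0 := mS_nonneg x.s
  rw [rt4 hpos] at h3
  by_cases hq : e.y.s.p = x.s.p
  · -- the same column
    have hn' : e.y.n = x.s.p + 1 := by rw [hn, hq]; omega
    have hle : x.s.p + 1 ≤ x.n := hpn
    have e1 := mS_same hO.ge hs hq
    have e2 : fS e.y.s = fS x.s := by
      have a1 : sO e.y.s ∪ sO' e.y.s = sO x.s ∪ sO' x.s := by
        rcases (sS_step hO.ge hs).1 with k | k
        · exact k
        · exfalso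
          have hm : x.s.p ∈ sO e.y.s ∪ sO' e.y.s := by rw [k]; exact Finset.mem_insert_self _ _
          rcases Finset.mem_union.1 hm with hm | hm
          · have := (Finset.mem_filter.1 hm).2
            omega
          · have := (Finset.mem_filter.1 hm).2
            omega
      unfold fS
      rw [a1]
    have hb := rt_pos (n := x.s.p + 1) (by omega)
    have hab := rt_mono hle
    refine ⟨?_, ?_⟩
    · rw [hn', e1]
      refine h3.trans ?_
      rw [div_le_div_iff₀ (by have := rt_pos hpos; positivity) (by positivity), one_mul]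
      have k1 : rt (x.s.p + 1) ^ 12 ≤ (rt x.s.p ^ 4 * 2) ^ 3 := by
        have k2 : (rt x.s.p ^ 4 * 2) ^ 3 = rt x.s.p ^ 12 * 8 := by ring
        rw [k2, rt12, rt12]
        have : (1:ℝ) ≤ x.s.p := by exact_mod_cast hpos
        push_cast
        linarith
      have k3 : rt (x.s.p + 1) ^ 12 = (rt (x.s.p + 1) ^ 4) ^ 3 := by ring
      rw [k3] at k1
      have k4 : (0:ℝ) ≤ rt x.s.p ^ 4 * 2 := by have := rt_pos hpos; positivity
      have := le_of_pow_le_pow_left₀ (by norm_num : (3:ℕ) ≠ 0) k4 k1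
      linarith
    · rw [hn', e1, e2]
      exact h.f.trans (elem hb hab hm0 h.m)
  · -- a new column
    have hn' : e.y.n = x.s.p := by rw [hn]; omega
    have hb := rt_pos hpos
    have hab := rt_mono hpn.le
    have hel := elem hb hab hm0 h.m
    have hf := h.f.trans hel
    have h4 : 1 / (x.s.p : ℝ) ≤ 1 / rt x.s.p ^ 4 := by
      refine one_div_le_one_div_of_le (by positivity) ?_
      calc rt x.s.p ^ 4 ≤ rt x.s.p ^ 12 := pow_le_pow_right₀ (one_le_rt hpos) (by norm_num)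
        _ = x.s.p := rt12 _
    obtain ⟨hc, hnot⟩ := sS_step hO.ge hs
    rcases hc with hc | hc
    · have k : mS e.y.s = mS x.s := by unfold mS; rw [hc]
      have k' : fS e.y.s = fS x.s := by unfold fS; rw [hc]
      refine ⟨?_, ?_⟩
      · rw [hn', k]
        refine h3.trans ?_
        exact div_le_div_of_nonneg_right (by norm_num) (by positivity)
      · rw [hn', k, k']; exact hf
    · have k : mS e.y.s = mS x.s + 1 / (x.s.p : ℝ) := by
        unfold mS
        rw [hc, Finset.sum_insert hnot, add_comm]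
      have k' : fS e.y.s = fS x.s + 1 / (x.s.p : ℝ) * rt x.s.p := by
        unfold fS
        rw [hc, Finset.sum_insert hnot, rt11 hpos]
        ring
      refine ⟨?_, ?_⟩
      · rw [hn', k]
        have e5 : 2 / rt x.s.p ^ 4 = 1 / rt x.s.p ^ 4 + 1 / rt x.s.p ^ 4 := by ring
        rw [e5]
        exact add_le_add h3 h4
      · rw [hn', k, k']
        linarith

/-- no one-sided columns -/
lemma OFP.start {x : XSt Λ κ} (hO : x.s.O = ∅) (hO' : x.s.O' = ∅) : OFP x := by
  have e0 : sO x.s ∪ sO' x.s = ∅ := by unfold sO sO'; rw [hO, hO']; simp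
  have e1 : mS x.s = 0 := by unfold mS; rw [e0]; simp
  have e2 : fS x.s = 0 := by unfold fS; rw [e0]; simp
  have h0 : 0 ≤ rt x.n := Real.rpow_nonneg (Nat.cast_nonneg _) _
  exact ⟨by rw [e1]; positivity, by rw [e1, e2]; positivity⟩

/-- both sums are at most one (fresh column) -/
lemma OFP.le_one {x : XSt Λ κ} (h : OFP x) (hO : OI p0 x) (hn : 64 ≤ x.n)
    (hp : x.s.p ∉ x.s.O ∪ x.s.O') :
    ∑ l ∈ x.s.O, (l : ℝ) ^ (-(11 / 12) : ℝ) ≤ 1 ∧ ∑ l ∈ x.s.O', (l : ℝ) ^ (-(11 / 12) : ℝ) ≤ 1 := by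
  rw [Finset.mem_union, not_or] at hp
  have eO : sO x.s = x.s.O := by rw [sO_erase hO.ge, Finset.erase_eq_of_notMem hp.1]
  have eO' : sO' x.s = x.s.O' := by rw [sO'_erase hO.ge, Finset.erase_eq_of_notMem hp.2]
  have hb := rt_pos (n := x.n) (by omega)
  have h1 : (64 : ℝ) ≤ rt x.n ^ 12 := by rw [rt12]; exact_mod_cast hn
  have h2 : (8 : ℝ) / 3 ≤ rt x.n ^ 3 := by
    by_contra hc
    push Not at hc
    have h3 : (rt x.n ^ 3) ^ 4 < (8 / 3 : ℝ) ^ 4 := pow_lt_pow_left₀ hc (by positivity) (by norm_num)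
    have h4 : (rt x.n ^ 3) ^ 4 = rt x.n ^ 12 := by rw [← pow_mul]
    rw [h4] at h3
    norm_num at h3
    linarith
  have h5 : fS x.s ≤ 1 := by
    refine h.f.trans ?_
    have h6 : mS x.s * rt x.n ≤ 2 / rt x.n ^ 4 * rt x.n := mul_le_mul_of_nonneg_right h.m hb.le
    have h7 : 2 / rt x.n ^ 4 * rt x.n = 2 / rt x.n ^ 3 := by
      field_simp
    have h8 : 2 / 3 / rt x.n ^ 3 + 2 / rt x.n ^ 3 = (8 / 3) / rt x.n ^ 3 := by ring
    have h9 : (8 / 3 : ℝ) / rt x.n ^ 3 ≤ 1 := by
      rw [div_le_one (by positivity)]; exact h2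
    linarith
  unfold fS at h5
  rw [eO, eO'] at h5
  constructor
  · refine le_trans (Finset.sum_le_sum_of_subset_of_nonneg Finset.subset_union_left
      fun q _ _ => Real.rpow_nonneg (Nat.cast_nonneg _) _) h5
  · refine le_trans (Finset.sum_le_sum_of_subset_of_nonneg Finset.subset_union_right
      fun q _ _ => Real.rpow_nonneg (Nat.cast_nonneg _) _) h5

/-! ### the relation of a state -/

/-- the relation along a step -/
lemma R_step {wr : ℕ → Λ → κ} {s : St Λ κ} (h : WrN wr s.t) (h' : WrN wr s.t') :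
    ∀ q ∈ nxt stp s, q.2.R = Ro (wr s.p) ∨ (q.2.R = s.R ∧ q.2.O = s.O ∧ q.2.O' = s.O') := by
  intro q hq
  have hq := (mem_nxt.1 hq).1
  have kL : ∀ {w r t₁ t₀ v B G}, vw s.p s.t = .br w r t₁ t₀ v B G → r = wr s.p := by
    intro w r t₁ t₀ v B G hv
    rw [vw_br hv] at h
    exact h
  have kR : ∀ {w r t₁ t₀ v B G}, vw s.p s.t' = .br w r t₁ t₀ v B G → r = wr s.p := by
    intro w r t₁ t₀ v B G hv
    rw [vw_br hv] at h'
    exact h'
  unfold nxt0 at hq
  by_cases h1 : s.t.isLeaf ∨ s.t'.isLeaf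
  · simp [h1] at hq
  by_cases h2 : stp s
  · simp [h1, h2] at hq
  rw [if_neg h1, if_neg h2] at hq
  by_cases hPL : s.isPL
  · rw [if_pos hPL] at hq
    obtain ⟨w, r, t₁, t₀, v, B, G, hv, et, ⟨-, e⟩ | ⟨-, -, e⟩⟩ := St.isPL_cases hPL
    · rw [e] at hq
      simp only [List.mem_cons, List.not_mem_nil, or_false] at hq
      left
      rw [← kL hv]
      rcases hq with rfl | rfl <;> rfl
    · rw [e] at hq
      simp only [List.mem_cons, List.not_mem_nil, or_false] at hq
      left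
      rw [← kL hv]
      rcases hq with rfl | rfl <;> rfl
  by_cases hPR : s.isPR
  · rw [if_neg hPL, if_pos hPR] at hq
    obtain ⟨w, r, t₁, t₀, v, B, G, hv, et, ⟨-, e⟩ | ⟨-, -, e⟩⟩ := St.isPR_cases hPR
    · rw [e] at hq
      simp only [List.mem_cons, List.not_mem_nil, or_false] at hq
      left
      rw [← kR hv]
      rcases hq with rfl | rfl <;> rfl
    · rw [e] at hq
      simp only [List.mem_cons, List.not_mem_nil, or_false] at hq
      left
      rw [← kR hv]
      rcases hq with rfl | rfl <;> rfl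
  rw [if_neg hPL, if_neg hPR] at hq
  rcases hv : vw s.p s.t with ⟨w, r, t₁, t₀, v, B, G⟩ | ⟨r, t₁, t₀⟩ | ⟨Sp, u⟩ <;>
  rcases hv' : vw s.p s.t' with ⟨w', r', t₁', t₀', v', B', G'⟩ | ⟨r', t₁', t₀'⟩ | ⟨Sp', u'⟩ <;>
  simp only [hv, hv'] at hq
  · left
    rw [← kL hv]
    simp only [List.mem_cons, List.not_mem_nil, or_false] at hq
    rcases hq with rfl | rfl | rfl | rfl <;> rfl
  · simp only [List.mem_cons, List.not_mem_nil, or_false] at hq
    subst hq
    exact Or.inr ⟨rfl, rfl, rfl⟩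
  · left
    rw [← kL hv]
    simp only [List.mem_cons, List.not_mem_nil, or_false] at hq
    rcases hq with rfl | rfl <;> rfl
  · simp only [List.mem_cons, List.not_mem_nil, or_false] at hq
    subst hq
    exact Or.inr ⟨rfl, rfl, rfl⟩
  · split_ifs at hq with hj hl <;> simp only [List.mem_cons, List.not_mem_nil, or_false] at hq
    · rcases hq with rfl | rfl <;> exact Or.inr ⟨rfl, rfl, rfl⟩
    · subst hq; exact Or.inr ⟨rfl, rfl, rfl⟩
    · subst hq; exact Or.inr ⟨rfl, rfl, rfl⟩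
  · split_ifs at hq with hj <;> simp only [List.mem_cons, List.not_mem_nil, or_false] at hq
    · rcases hq with rfl | rfl <;> exact Or.inr ⟨rfl, rfl, rfl⟩
    · subst hq; exact Or.inr ⟨rfl, rfl, rfl⟩
  · left
    rw [← kR hv']
    simp only [List.mem_cons, List.not_mem_nil, or_false] at hq
    rcases hq with rfl | rfl <;> rfl
  · split_ifs at hq with hj <;> simp only [List.mem_cons, List.not_mem_nil, or_false] at hq
    · rcases hq with rfl | rfl <;> exact Or.inr ⟨rfl, rfl, rfl⟩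
    · subst hq; exact Or.inr ⟨rfl, rfl, rfl⟩
  · simp only [List.mem_cons, List.not_mem_nil, or_false] at hq
    subst hq
    exact Or.inr ⟨rfl, rfl, rfl⟩

/-- the relation of a state and the previous column -/
structure RI (wr : ℕ → Λ → κ) (x : XSt Λ κ) : Prop where
  /-- inside a chain -/
  ch : x.s.p ∈ x.s.O ∪ x.s.O' → x.s.R = Ro (wr x.s.p)
  /-- at a stopped state -/
  st : stpN x.s → ¬ x.s.t.isLeaf → ¬ x.s.t'.isLeaf →
    x.s.R = Ro (wr x.n) ∧ x.n.Prime ∧ (∀ l : ℕ, l.Prime → l < x.n → l ≤ x.s.p) ∧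
      x.s.t.top = x.s.p ∧ x.s.t'.top = x.s.p

theorem RI.next (hst : ∀ s : St Λ κ, ¬ stp s → ¬ stpN s) {x : XSt Λ κ} (hX : XI x) (hO : OI p0 x)
    {u u' : NS} {τ τ' : IT} (hI : IS D sp P W U x.s u u' τ τ') (h : RI D.rho x) :
    ∀ e ∈ steps stp dv x, RI D.rho e.y := by
  intro e he
  obtain ⟨h1, h2⟩ := steps_act he
  obtain ⟨hpp, hpn⟩ := steps_p hX he
  have hs := steps_O hX e he
  have hpe := hs.pe
  have hn : e.y.n = max x.s.p (e.y.s.p + 1) := (steps_mv he).1.n
  have hwL : WrN D.rho x.s.t := by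
    rw [hI.tL]
    cases τ <;> first | rfl | trivial
  have hwR : WrN D.rho x.s.t' := by
    rw [hI.tR]
    cases τ' <;> first | rfl | trivial
  have hR := R_step (stp := stp) hwL hwR _ (steps_nxt he)
  have hIn := hI.next _ (steps_nxt he)
  simp only at hR hIn
  refine ⟨fun hm => ?_, fun hsN hl hl' => ?_⟩
  · -- inside a chain
    have hq : e.y.s.p = x.s.p := by
      refine le_antisymm hpe ?_
      rcases Finset.mem_insert.1 (hs.sub hm) with k | k
      · exact k.ge
      · exact hO.ge _ k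
    rw [hq]
    rcases hR with hR | ⟨hR, ho, ho'⟩
    · exact hR
    · rw [hR]
      refine h.ch ?_
      rw [← ho, ← ho', ← hq]
      exact hm
  · -- a stopped state
    have hlt : e.y.s.p < x.s.p := by
      refine lt_of_le_of_ne hpe fun hq => ?_
      have hge := hO.ge.next hs
      have e1 := mS_same hO.ge hs hq
      have e2 : mO e.y.s = mS e.y.s := by
        have hnot := hsN.2
        rw [Finset.mem_union, not_or] at hnot
        unfold mO mS
        rw [sO_erase hge, sO'_erase hge, Finset.erase_eq_of_notMem hnot.1,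
          Finset.erase_eq_of_notMem hnot.2]
      have e3 := hO.mS_lt (hst _ h2) hpp.pos
      have e4 := hsN.1.2
      rw [e2, e1, hq] at e4
      linarith
    have hn' : e.y.n = x.s.p := by rw [hn]; omega
    obtain ⟨v, v', σ, σ', g1, g2⟩ := hIn
    obtain ⟨g3, g4⟩ := g1.lvp hl hl'
    obtain ⟨a1, a2, a3⟩ := top_of_nodeOk g1.qL.self.1 (g1.nl hl)
    obtain ⟨b1, b2, b3⟩ := top_of_nodeOk g1.qR.self.1 (g1.nl' hl')
    rw [hn']
    refine ⟨?_, hpp, fun l hl1 hl2 => g4.le l hl1 (g2.lt l hl1 hl2), ?_, ?_⟩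
    · rcases hR with hR | ⟨hR, ho, ho'⟩
      · exact hR
      · rw [hR]
        refine h.ch ?_
        by_contra hc
        have e3 := mO_lt_of_notN (hst _ h2) hc hpp.pos
        have e4 := hsN.1.2
        have e5 : mO e.y.s = mO x.s := by unfold mO; rw [ho, ho']
        rw [e5] at e4
        have e6 : (x.s.p : ℝ) ^ (-(1/3) : ℝ) ≤ (e.y.s.p : ℝ) ^ (-(1/3) : ℝ) :=
          Real.rpow_le_rpow_of_nonpos (by exact_mod_cast g3.pos) (by exact_mod_cast hpe)
            (by norm_num)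
        linarith
    · refine le_antisymm (le_max_left _ _) ?_
      rw [g1.top]
      exact a3 _ g3 (g2.lt _ g3 hlt)
    · refine le_antisymm (le_max_right _ _) ?_
      rw [g1.top']
      exact b3 _ g3 (g2.lt' _ g3 hlt)

/-- no one-sided columns -/
lemma RI.start {wr : ℕ → Λ → κ} {x : XSt Λ κ} (hO : x.s.O = ∅) (hO' : x.s.O' = ∅) : RI wr x :=
  ⟨fun h => by simp [hO, hO'] at h, fun h => absurd h (stpN_root _ hO hO')⟩

/-- Bertrand -/
lemma prev_le {n p : ℕ} (hp : p ≠ 0) (hmax : ∀ r : ℕ, r.Prime → r < n → r ≤ p) : n ≤ 2 * p := by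
  by_contra hc
  obtain ⟨r, h1, h2, h3⟩ := Nat.exists_prime_lt_and_le_two_mul p hp
  have := hmax r h1 (by omega)
  omega

end Crest.Agent.R4P.StopCtx9
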