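import Crest.Agent.R4P.StopInv_9
import Crest.Agent.R4P.StepState2_7
import Crest.Agent.R4P.LinkG758
import Crest.Agent.R4P.IMI194

/-!
R4 powers pass (S0004), helper9 (after helper693's `R4/StopCtx693`): **the stop symbol of a self state is
zero**.

* `fsy_data` : 95's `FSY` from 758's `[F]` pairs (`Y` = previous column).
* `SB`, `GSP` : node facts and constants; `stop_local` : `eSTOP ≤ 0` at a state; `eSTOP_final` : walk sum `≤ 0`.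
-/

set_option autoImplicit false
set_option linter.unusedSectionVars false
set_option linter.unusedVariables false

namespace Crest.Agent.R4P.StopCtx9

open Crest.Agent.R4.Tour104 Crest.Agent.R4.Tour758 Crest.Agent.R4.Avg758 Crest.Agent.R4.Clos758
open Crest.Agent.R4.ClosL758 Crest.Agent.R4.ClosG758 Crest.Agent.R4.ClosR758
open Crest.Agent.R4.Fam464 Crest.Agent.R4P.Cnt588 Crest.Agent.R4P.Walk560 Crest.Agent.R4.Piece464
open Crest.Agent.R4P.Item758 Crest.Agent.R4P.AvgItem710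
open Crest.Agent.R4P.Data758 Crest.Agent.R4P.WalkIT579
open Crest.Agent.R4P.Bld532 (NS All NodeOk Bk)
open Crest.Agent.R4P.GInst194 Crest.Agent.R4P.NMW710 Crest.Agent.R4P.GSt927
open Crest.Agent.R4P.Res927 Crest.Agent.R4P.OSWS245
open Crest.Agent.R4P.StopW95 Crest.Agent.R4P.StopFF95
open Crest.Agent.R4P.Link758 Crest.Agent.R4P.LinkG758
open Crest.Agent.R4.DeepSt579 (tq tq_nonneg tq_le_one rd)
open Crest.Agent.R4.HVW560 (cof)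
open Crest.Agent.R4P.Step588 (ItHi2 high_stop2)
open Crest.Agent.R4.StepNum442 (Kn)
open Crest.Agent.R4P.GSplit194
open Crest.Agent.R4P

/-! ### `FSY` -/

section fsy
variable {c : Cf} {n : ℕ}

theorem fsy_data (h : c.Ok n) (X : Finset (ℕ × ℕ × Finset ℕ)) {sp : ℕ → Finset c.Lam}
    {s : St c.Lam (Lb (WL c.Lam) X)} {u u' : NS} {τ τ' : IT} {N m : ℕ}
    (hs : StI (c.D.par X) sp s u.B u.A τ u'.B u'.A τ')
    (hcirc : u.A * u.B * s.M = u'.A * u'.B * s.M')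
    (mf : MF c.t u τ) (mf' : MF c.t u' τ') (hm : m.Prime)
    (hn : ∀ l : ℕ, l.Prime → l < m → l < u.n) (hn' : ∀ l : ℕ, l.Prime → l < m → l < u'.n)
    (hmt : ∀ q, ∀ s ∈ τ.mt q, s ≤ m) (hmt' : ∀ q, ∀ s ∈ τ'.mt q, s ≤ m) (hmn : m ≤ n)
    (hRo : s.R = Ro ((c.D.par X).rho m)) (hthr : (1 : ℝ) / 2 ^ N ≤ c.wp.thr m)
    (hac : ∀ q, ¬ Ac c m q) :
    FSY (c.D.par X) c.rr N (m : ℝ) s u.B u.A τ u'.B u'.A τ' (fun _ => False) := by
  have hm1 : (1 : ℝ) ≤ m := by exact_mod_cast hm.one_le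
  have Y1 : ∀ b : ℕ, (((if m ∣ b then m else 1 : ℕ)) : ℝ) ≤ m := by
    intro b
    split_ifs
    · exact le_rfl
    · simpa using hm1
  have key := fsokY h hmn X (M := s.M) (M' := s.M') (b := u.B) (pr := u.A) (c₁ := 1) (b' := u'.B)
    (pr' := u'.A) (c₁' := 1) (N := N) (k₀ := if m ∣ u.B then m else 1)
    (k₀' := if m ∣ u'.B then m else 1) (t := τ) (t' := τ') (A := s.A) (A' := s.A') (Y := (m : ℝ))
    hs.M0 hs.M0' hs.L.hb hs.R.hb hs.L.hF hs.R.hF hs.L.hW hs.R.hW (one_dvd _) (one_dvd _)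
    (by rw [Nat.div_one, Nat.div_one]; linarith)
    (fun q hq => by rw [Nat.div_one]; exact Bl_gen mf hm hn (hmt q) hq)
    (fun q hq => by rw [Nat.div_one]; exact Bl_gen mf' hm hn' (hmt' q) hq)
    (Y1 _) (Y1 _) hthr
  intro e i1 i2 hD hpos hFS
  rw [hRo] at hpos
  rcases key e i1 i2 hD hpos hFS with k | k | k
  · exact Or.inl k
  · exact absurd k (hac _)
  · exact absurd k (hac _)

end fsy

/-! ### the walk -/

section walk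
variable {Λ κ : Type*} [Fintype Λ] [DecidableEq Λ] [Fintype κ] [DecidableEq κ] [WRel κ]
  {D : Par Λ κ} {sp : ℕ → Finset Λ} {ρ : ℕ → ℝ} {Al : Finset ℕ} {P : Bld532.Par}
  {W : ℕ → ℝ} {U : ℕ → Finset ℕ} {CL C1 C2 c₀ N0 Ch : ℝ} {p0 : ℕ} {stp : Stp Λ κ}
  {Qp : NS → IT → Prop}

/-- moduli of the windows -/
noncomputable def Vn (p : ℕ) : ℕ := ⌊Real.exp ((p : ℝ) ^ (1 / 4 : ℝ))⌋₊
/-- fatness -/
noncomputable def Hn (p : ℕ) : ℝ := 2 * Real.exp ((p : ℝ) ^ (1 / 8 : ℝ))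
/-- relative error -/
noncomputable def ηn (p : ℕ) : ℝ := Real.exp (-((p : ℝ) ^ (1 / 2 : ℝ)) / 4)
/-- threshold -/
noncomputable def Tn (p : ℕ) : ℝ := Real.exp (20 * (p : ℝ) ^ (1 / 2 : ℝ))

lemma Vn_le (p : ℕ) : (Vn p : ℝ) ≤ Real.exp ((p : ℝ) ^ (1 / 4 : ℝ)) :=
  Nat.floor_le (Real.exp_pos _).le

/-- the error term -/
noncomputable def e3 (Ch : ℝ) (p : ℕ) : ℝ :=
  Ch ^ 2 * (4 * ηn p + ηn p ^ 2) +
    18 * Hn p / Tn p * ((Vn p : ℝ) * Vn p * ((Kn p * (Vn p + 2)) * (Kn p * (Vn p + 2))))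

lemma e3_nonneg (Ch : ℝ) (p : ℕ) : 0 ≤ e3 Ch p := by
  unfold e3 Hn Tn ηn
  positivity

lemma sum_ff {α : Type*} (S : Finset α) (Q : α → Prop) (i : DecidablePred Q) (f : α → ℝ)
    (h : ∀ a, ¬ Q a) : (@Finset.filter α Q i S).sum f = 0 := by
  rw [Finset.filter_false_of_mem fun e _ => h e]
  exact Finset.sum_empty

/-- node facts of the stop rule -/
structure SB (D : Par Λ κ) (ρ : ℕ → ℝ) (Al : Finset ℕ) (P : Bld532.Par) (W : ℕ → ℝ)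
    (U : ℕ → Finset ℕ) (CL c₀ Ch : ℝ) (u : NS) (τ : IT) : Prop where
  nq : NQ P W U u τ
  lg : ¬ isL τ → ∀ q ∈ Al, q ∈ τ.items → 1 ≤ CL * Real.log (tp τ) * tq (q / u.A)
  mean : ∀ j, D.it j ∈ Al → D.it j ∈ τ.items →
    c₀ * tq (D.it j / (u.A * pp τ (D.it j))) ≤ mnw (D.it j / (u.A * pp τ (D.it j))) (D.om j)
  ph : ∀ q ∈ Al, q ∈ τ.items → tq (q / u.A) ≤ 2 * (prf τ q * tq (q / (u.A * pp τ q)))
  ms : ∀ q ∈ Al, q ∈ τ.items → (u.B : ℝ) * tq (q / u.A) ≤ 2 * (u.c * tq q)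
  ih : ¬ isL τ → ∀ q ∈ Al, q ∈ τ.items →
    ItHi2 D ρ u.B u.A τ (Kn (tp τ)) (Vn (tp τ)) Ch (ηn (tp τ)) (Hn (tp τ)) q

/-- constants of the stop rule -/
structure GSP (D : Par Λ κ) (ρ : ℕ → ℝ) (Al : Finset ℕ) (P : Bld532.Par) (W : ℕ → ℝ)
    (U : ℕ → Finset ℕ) (CL C1 C2 c₀ N0 Ch : ℝ) (p0 : ℕ) : Prop where
  hst : StopCls2 N0
  sc : SC N0 CL C2 (c₀ / 2) p0
  sf : SF CL p0
  CL0 : 0 ≤ CL
  ni : ∀ p, p0 ≤ p → NI D ρ Al P W C1 c₀ p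
  hi : ∀ p, p0 ≤ p → ∀ k : ℕ, P.p0 < k → k ≤ p → 2 * P.hi k ≤ (Real.log p) ^ C2
  pp0 : p0 ≤ P.p0
  Ut : ∀ p, p0 ≤ p → ∀ q ∈ Al, ∀ z : ℝ, (p:ℝ) ≤ z →
    ∑ l ∈ (U q).filter (fun l : ℕ => z < (l : ℝ)), (1 : ℝ) / l ≤ z ^ (-(1 / 2 : ℝ))
  T : ∀ p : ℕ, p0 ≤ p → Tn p ≤ Real.exp (p * ((p:ℝ)^(-(1/3):ℝ)/4)/20)
  e : ∀ p : ℕ, p0 ≤ p → e3 Ch p * (CL * Real.log p * (1/c₀))^2 ≤ 1
  Y : ∀ p : ℕ, p0 ≤ p → 2 * (p : ℝ) ≤ Real.exp (p * ((p:ℝ)^(-(1/3):ℝ)/4))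
  n64 : 64 ≤ p0

/-- scale of the `[F]` pairs -/
noncomputable def nS (p : ℕ) : ℕ := ⌊100 * (p * ((p:ℝ)^(-(1/3):ℝ)/4)) / Real.log 2⌋₊

/-- item form from the two invariants -/
lemma IS_of {B₀ B₀' : ℕ} {x : XSt Λ κ} {u u' : NS} {τ τ' : IT}
    (hnq : ∀ u τ, Qp u τ → NQ P W U u τ) (h : HI D sp Qp B₀ B₀' x u u' τ τ')
    (hj : JS x.s u u') : IS D sp P W U x.s u u' τ τ' where
  tL := h.L.eq
  tR := h.R.eq
  qL := h.qL.mono hnq
  qR := h.qR.mono hnq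
  circ := hj.circ
  lv := by
    obtain ⟨m, h1, h2, h3, h4, h5⟩ := hj.lv
    exact ⟨m, h1, h2, fun l a b => (h3 l a b).1, fun l a b => (h3 l a b).2, h4, h5⟩

/-- **a stopped state costs nothing** -/
theorem stop_local (H : GSP D ρ Al P W U CL C1 C2 c₀ N0 Ch p0)
    (hQ : ∀ u τ, Qp u τ → SB D ρ Al P W U CL c₀ Ch u τ)
    (hstp : ∀ s, stp s → stpN s) {B₀ B₀' : ℕ} {x : XSt Λ κ} {u u' : NS} {τ τ' : IT}
    (h : HI D sp Qp B₀ B₀' x u u' τ τ') (hj : JS x.s u u') (hX : XI x) (hO : OI p0 x)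
    (hof : OFP x) (hr : RI D.rho x)
    (hFS : ¬ x.s.t.isLeaf → ¬ x.s.t'.isLeaf → p0 ≤ x.s.p → x.s.p < x.n → x.n ≤ 2 * x.s.p →
      x.n.Prime → (∀ l : ℕ, l.Prime → l < x.n → l ≤ x.s.p) → tp τ = x.s.p → tp τ' = x.s.p →
      x.s.R = Ro (D.rho x.n) →
      FSY D ρ (nS x.s.p) x.n x.s u.B u.A τ u'.B u'.A τ' (fun _ => False))
    {μ : TrG Λ κ → Finset Λ → ℝ} {ν : TrG Λ κ → ℝ} {B cμ : ℝ} (hc : 1 ≤ cμ)
    (hB : cμ ^ 2 * (Ch ^ 2 + 2) ≤ B)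
    (hμ : ∑ j ∈ x.s.A, mI x.s.t j ≤ cμ * μ x.s.t.g x.s.A)
    (hμ' : ∑ j ∈ x.s.A', mI x.s.t' j ≤ cμ * μ x.s.t'.g x.s.A')
    (hν : 0 ≤ ν x.s.t.g) (hν' : 0 ≤ ν x.s.t'.g) :
    eSTOP stp μ ν B x.s ≤ 0 := by
  classical
  unfold eSTOP
  split_ifs with h1 h2
  · exact le_rfl
  swap
  · exact le_rfl
  have hl0 : ¬ x.s.t.isLeaf := fun k => h1 (Or.inl k)
  have hl0' : ¬ x.s.t'.isLeaf := fun k => h1 (Or.inr k)
  have hnq : ∀ u τ, Qp u τ → NQ P W U u τ := fun u τ h => (hQ u τ h).nq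
  have hI := IS_of hnq h hj
  have hsN := hstp _ h2
  obtain ⟨r1, r2, r3, r4, r5⟩ := hr.st hsN hl0 hl0'
  have hl : ¬ isL τ := hI.nl hl0
  have hl' : ¬ isL τ' := hI.nl' hl0'
  have q1 := hQ _ _ h.qL.self
  have q2 := hQ _ _ h.qR.self
  have t1 : tp τ = x.s.p := by rw [← hI.top]; exact r4
  have t2 : tp τ' = x.s.p := by rw [← hI.top']; exact r5
  have hpp : x.s.p.Prime := (hI.lvp hl0 hl0').1
  have hpn : x.s.p < x.n := hX.n
  have hp : p0 ≤ x.s.p := hO.p_ge h1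
  have hp1 : 1 ≤ x.s.p := hpp.one_lt.le
  have hbig : x.n ≤ 2 * x.s.p := prev_le hpp.ne_zero r3
  have hni := H.ni _ hp
  have hok : ¬ x.s.p ∣ x.s.M ∧ ¬ x.s.p ∣ x.s.M' := by
    have := hsN.2
    rw [Finset.mem_union, not_or] at this
    exact ⟨fun hd => this.2 ((h.mL.mem hpp).2 hd), fun hd => this.1 ((h.mR.mem hpp).2 hd)⟩
  have fL : NF D Al CL c₀ x.s.p u τ x.s.A :=
    ⟨h.ilL, fun q hq hqt => by have := q1.lg hl q hq hqt; rwa [t1] at this, q1.mean, q1.ph, q1.ms⟩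
  have fR : NF D Al CL c₀ x.s.p u' τ' x.s.A' :=
    ⟨h.ilR, fun q hq hqt => by have := q2.lg hl' q hq hqt; rwa [t2] at this, q2.mean, q2.ph, q2.ms⟩
  have hUt := H.Ut _ hp
  have nL := NSd_L hI hl0 hl0' hok.1 fL hUt
  have nR := NSd_R hI hl0 hl0' hok.2 fR hUt
  have hT1 : (1 : ℝ) ≤ Tn x.s.p := by
    unfold Tn
    exact Real.one_le_exp (by positivity)
  have hhigh := high_stop2 hni.rad h.st h.ilL h.ilR Al (K := Kn x.s.p) (V0 := Vn x.s.p)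
    (C1 := Ch) (η := ηn x.s.p) (T := Tn x.s.p) (H := Hn x.s.p) (by linarith)
    (by unfold ηn; positivity) (by unfold Hn; positivity)
    (fun q hq => by
      have := q1.ih hl q (mem_Qi.1 hq).2.1 (mem_Qi.1 hq).1
      rwa [t1] at this)
    (fun q hq => by
      have := q2.ih hl' q (mem_Qi.1 hq).2.1 (mem_Qi.1 hq).1
      rwa [t2] at this)
  have sums := hof.le_one hO (by have := H.n64; omega) hsN.2
  have hYn : (1 : ℝ) ≤ x.n := by exact_mod_cast hp1.trans hpn.le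
  have hUt' : ∀ q ∈ Al, ∑ l ∈ (U q).filter (fun l : ℕ => x.s.p < l), (1 : ℝ) / l ≤
      (x.s.p:ℝ) ^ (-(1 / 2 : ℝ)) := fun q hq => by
    have h3 := hUt q hq x.s.p le_rfl
    have e1 : (U q).filter (fun l : ℕ => (x.s.p:ℝ) < (l : ℝ)) =
        (U q).filter (fun l : ℕ => x.s.p < l) :=
      Finset.filter_congr fun l _ => by rw [Nat.cast_lt]
    rw [e1] at h3
    exact h3
  have hmass : (x.s.p:ℝ)^(-(1/3):ℝ) ≤
      ∑ l ∈ x.s.M'.primeFactors ∪ x.s.M.primeFactors, 1/(l:ℝ) := by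
    rw [h.mL.eq, h.mR.eq]
    exact hsN.1.2
  have key := stop_state2 (n := nS x.s.p) (T := Tn x.s.p) (Ch := Ch ^ 2) (e₃ := e3 Ch x.s.p)
    (Y := (x.n : ℝ)) (Qf := fun _ => False) H.hst H.sc H.sf hni hl hl' h.st one_pos nL nR H.CL0
    (H.hi _ hp) hp t1.le t2.le hok.1 hok.2 rfl
    (by rw [h.mL.eq]; exact sums.2) (by rw [h.mR.eq]; exact sums.1)
    (UpP_L hI hl0 hl0') (UpP_R hI hl0 hl0') hUt' hmass hT1 (H.T _ hp) hYn
    (le_trans (by exact_mod_cast hbig) (H.Y _ hp))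
    (hFS hl0 hl0' hp hpn hbig r2 r3 t1 t2 r1) (sq_nonneg _)
    (e3_nonneg _ _) (H.e _ hp) hhigh hν hν'
  have key2 : Qs x.s ≤ (Ch ^ 2 + 2) * Lh (∑ j ∈ x.s.A, mI x.s.t j) (ν x.s.t.g)
      (∑ j ∈ x.s.A', mI x.s.t' j) (ν x.s.t'.g) := by
    rw [sum_ff] at key
    · rw [add_zero] at key
      exact key
    · exact fun e he => he.2.2
  clear key
  have mnn : ∀ (d : DT Λ κ), d.g.Ok → ∀ j, 0 ≤ mI d j := fun d hd j => by
    unfold mI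
    exact I_nonneg fun x => (hd.pb j).nonneg x
  have okL : x.s.t.g.Ok := by rw [h.L.eq, D.toDT_g]; exact D.toG_Ok h.L.hb h.L.hF h.L.hW
  have okR : x.s.t'.g.Ok := by rw [h.R.eq, D.toDT_g]; exact D.toG_Ok h.R.hb h.R.hF h.R.hW
  have nΦ : 0 ≤ ∑ j ∈ x.s.A, mI x.s.t j := Finset.sum_nonneg fun j _ => mnn _ okL j
  have nΦ' : 0 ≤ ∑ j ∈ x.s.A', mI x.s.t' j := Finset.sum_nonneg fun j _ => mnn _ okR j
  refine max_le le_rfl ?_
  generalize (∑ j ∈ x.s.A, mI x.s.t j) = Φ at *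
  generalize (∑ j ∈ x.s.A', mI x.s.t' j) = Φ' at *
  generalize μ x.s.t.g x.s.A = m at *
  generalize μ x.s.t'.g x.s.A' = m' at *
  generalize ν x.s.t.g = v at *
  generalize ν x.s.t'.g = v' at *
  have m0 : 0 ≤ m := by
    by_contra hc0
    push Not at hc0
    have : cμ * m < 0 := mul_neg_of_pos_of_neg (by linarith) hc0
    linarith
  have m0' : 0 ≤ m' := by
    by_contra hc0
    push Not at hc0
    have : cμ * m' < 0 := mul_neg_of_pos_of_neg (by linarith) hc0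
    linarith
  have hL1 : Lh Φ v Φ' v' ≤ cμ ^ 2 * Lh m v m' v' := by
    have c2 : cμ ≤ cμ ^ 2 := by nlinarith
    unfold Lh
    have a1 : Φ * Φ' ≤ (cμ * m) * (cμ * m') := mul_le_mul hμ hμ' nΦ' (nΦ.trans hμ)
    have a2 : Φ * v' ≤ cμ ^ 2 * (m * v') := by
      calc Φ * v' ≤ (cμ * m) * v' := mul_le_mul_of_nonneg_right hμ hν'
        _ = cμ * (m * v') := by ring
        _ ≤ _ := mul_le_mul_of_nonneg_right c2 (mul_nonneg m0 hν')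
    have a3 : v * Φ' ≤ cμ ^ 2 * (v * m') := by
      calc v * Φ' ≤ v * (cμ * m') := mul_le_mul_of_nonneg_left hμ' hν
        _ = cμ * (v * m') := by ring
        _ ≤ _ := mul_le_mul_of_nonneg_right c2 (mul_nonneg hν m0')
    have a4 : cμ * m ≤ cμ ^ 2 * m := mul_le_mul_of_nonneg_right c2 m0
    have a5 : cμ * m' ≤ cμ ^ 2 * m' := mul_le_mul_of_nonneg_right c2 m0'
    have e6 : cμ ^ 2 * (m * m' + (m * v' + v * m') / 2 + (m + m') / 2) =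
        (cμ * m) * (cμ * m') + (cμ ^ 2 * (m * v') + cμ ^ 2 * (v * m')) / 2 +
          (cμ ^ 2 * m + cμ ^ 2 * m') / 2 := by ring
    rw [e6]
    linarith
  have hL0 : 0 ≤ Lh m v m' v' := Lh_nonneg m0 hν m0' hν'
  have h9 : (Ch ^ 2 + 2) * Lh Φ v Φ' v' ≤ B * Lh m v m' v' := by
    calc (Ch ^ 2 + 2) * Lh Φ v Φ' v' ≤ (Ch ^ 2 + 2) * (cμ ^ 2 * Lh m v m' v') :=
          mul_le_mul_of_nonneg_left hL1 (by positivity)
      _ = (cμ ^ 2 * (Ch ^ 2 + 2)) * Lh m v m' v' := by ring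
      _ ≤ _ := mul_le_mul_of_nonneg_right hB hL0
  linarith

lemma topGe_toDT {s : NS} {t : IT} (hpp : p0 ≤ P.p0) (h : All (NodeOk P W) s t) :
    (D.toDT sp s.B s.A t).All (TopGe p0) := by
  refine D.toDT_All sp (Qp := NodeOk P W) (fun s t ht => ?_) (fun r hl => absurd trivial hl) t s h
  intro hl
  have hl2 : ¬ isL t := fun h2 => hl ((toDT_leaf D sp _ _ t).2 h2)
  have h1 := (nodeOk_hi ht hl2).2.1
  rw [toDT_top D sp _ _ t]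
  omega

/-- **THE STOP SYMBOL OF A SELF STATE IS ZERO** -/
theorem eSTOP_final (H : GSP D ρ Al P W U CL C1 C2 c₀ N0 Ch p0) (spo : D.SpOk sp)
    (il : ∀ b, IL D.it (sp b))
    (hQ : ∀ u τ, Qp u τ → SB D ρ Al P W U CL c₀ Ch u τ)
    (hstp : ∀ s, stp s → stpN s) (hst : ∀ s : St Λ κ, ¬ stp s → ¬ stpN s)
    {u : NS} {τ : IT} {A : Finset Λ} (hs : SideI D sp u.B u.A τ A (D.toDT sp u.B u.A τ))
    (hq : All Qp u τ) (hilA : IL D.it A) (hO : τ.Ok u.n) (hn0 : 0 < u.n)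
    (fs : ∀ (x : XSt Λ κ) (v v' : NS) (σ σ' : IT), HI D sp Qp u.B u.B x v v' σ σ' →
      JS x.s v v' → x.n ≤ u.n → ¬ x.s.t.isLeaf → ¬ x.s.t'.isLeaf → p0 ≤ x.s.p → x.s.p < x.n →
      x.n ≤ 2 * x.s.p → x.n.Prime → (∀ l : ℕ, l.Prime → l < x.n → l ≤ x.s.p) → tp σ = x.s.p →
      tp σ' = x.s.p → x.s.R = Ro (D.rho x.n) →
      FSY D ρ (nS x.s.p) x.n x.s v.B v.A σ v'.B v'.A σ' (fun _ => False))
    {μ : TrG Λ κ → Finset Λ → ℝ} {ν : TrG Λ κ → ℝ} {B cμ : ℝ} (hc : 1 ≤ cμ)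
    (hB : cμ ^ 2 * (Ch ^ 2 + 2) ≤ B)
    (hμ : ∀ (v : NS) (σ : IT) (A : Finset Λ) (d : DT Λ κ), All Qp v σ →
      SideI D sp v.B v.A σ A d → ∑ j ∈ A, mI d j ≤ cμ * μ d.g A)
    (hν : ∀ (v : NS) (σ : IT) (A : Finset Λ) (d : DT Λ κ), All Qp v σ →
      SideI D sp v.B v.A σ A d → 0 ≤ ν d.g) :
    WS stp (eSTOP stp μ ν B) (selfSt (D.toDT sp u.B u.A τ) A) ≤ 0 := by
  classical
  have hnq : ∀ u τ, Qp u τ → NQ P W U u τ := fun u τ h => (hQ u τ h).nq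
  have hN' : ∀ u τ, Qp u τ → NodeOk P W u τ := fun u τ h => (hQ u τ h).nq.1
  have hp1 : 1 ≤ p0 := le_trans (by norm_num) H.n64
  have hni := H.ni p0 le_rfl
  set d := D.toDT sp u.B u.A τ with hd
  set dv : DT Λ κ → Λ → Prop := IMI194.dvM mI with hdv
  set I : XSt Λ κ → Prop := fun x => XI x ∧ OI p0 x ∧ OFP x ∧ RI D.rho x ∧ x.n ≤ u.n ∧
    ∃ v v' σ σ', HI D sp Qp u.B u.B x v v' σ σ' ∧ JS x.s v v' with hIdef
  have hI : ∀ x, I x → ∀ e ∈ steps stp dv x, I e.y := by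
    intro x hx e he
    obtain ⟨h1, h2, h3, h4, h7, v, v', σ, σ', h5, h6⟩ := hx
    exact ⟨h1.next e he, h2.next hp1 hst h1 e he, h3.next hst h1 h2 e he,
      h4.next hst h1 h2 (IS_of hnq h5 h6) e he, (steps_top h1 he).2.2.2.trans h7,
      HJ.next spo il hN' h1 h5 h6 e he⟩
  have colD : d.Col u.n := D.toDT_Col sp τ u.n u.B u.A hO
  have imD : d.All (Res927.IM dv mI) :=
    IMI194.IM_toDT hni.ab τ u.B u.A u.n hs.hb hO hs.hF hs.hW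
  have tgD : d.All (TopGe p0) := topGe_toDT H.pp0 (hq.mono hN')
  have hn : (selfSt d A).p < u.n := by
    show max d.top d.top < _
    rw [max_self]
    exact colD.top_lt hn0
  have hX : IX p0 dv mI (XSt.st u.n (selfSt d A)) :=
    IX_start (s := selfSt d A) colD colD hn imD imD tgD tgD rfl rfl
  have hx : I (XSt.st u.n (selfSt d A)) :=
    ⟨hX.xi, hX.oi, OFP.start rfl rfl, RI.start rfl rfl, le_refl u.n, u, u, τ, τ,
      HI.self hs hO hq hilA, JS.self u d A⟩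
  have hloc : ∀ x, I x → eSTOP stp μ ν B x.s ≤ 0 := by
    intro x hx
    obtain ⟨h1, h2, h3, h4, h7, v, v', σ, σ', h5, h6⟩ := hx
    exact stop_local H hQ hstp h5 h6 h1 h2 h3 h4
      (fun a1 a2 a3 a4 a5 a6 a7 a8 a9 a10 =>
        fs x v v' σ σ' h5 h6 h7 a1 a2 a3 a4 a5 a6 a7 a8 a9 a10)
      hc hB (hμ _ _ _ _ h5.qL h5.L) (hμ _ _ _ _ h5.qR h5.R) (hν _ _ _ _ h5.qL h5.L)
      (hν _ _ _ _ h5.qR h5.R)
  have key := W_mono (nxH_rank stp dv) (Inv := fun x => I x ∧ TC dv mI x)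
    (f := fun x => eSTOP stp μ ν B x.s) (g := fun _ => (0 : ℝ))
    (fun x hx q hq => by
      obtain ⟨e, he, rfl⟩ := List.mem_map.1 hq
      have := steps_w hx.2.wL hx.2.wR e he
      exact ⟨⟨hI x hx.1 e he, hx.2.next e he⟩, mul_nonneg this.1.le this.2.le⟩)
    (fun x hx => hloc x hx.1) (XSt.st u.n (selfSt d A)) ⟨hx, hX.tc⟩
  have h0 := W_smul (nxH_rank stp dv) 0 (fun _ => (0 : ℝ))
    (XSt.st u.n (selfSt d A))
  simp only [mul_zero, zero_mul] at h0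
  have h9 := WS_eq_H stp dv (eSTOP stp μ ν B) (XSt.st u.n (selfSt d A))
  rw [h0] at key
  exact h9.le.trans key

end walk

end Crest.Agent.R4P.StopCtx9
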