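import Crest.Agent.R4P.StratN_36
import Crest.Agent.R4P.VWalkM_36
import Crest.Agent.R4P.Strip_29
import Crest.Agent.R4P.Dd_26

/-!
R4 (S0004), powers, helper36: **the strategy of the pair walk** for full populations and the facts at
its crossing states.

* `StX st μ it rB sg` : the strategy, a function of the masses of the two trees and of `rB` = the
  product of the missing primes of a node, read from its tree (`Blind`, `NoSplit`, `jt` at self states).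
  The exponents of the partner are the **effective** ones `ex b q + ex b (rB Y)`.
* `BS` : invariant of the states: a side which is already closed at the column of the other side is
  dominated there; `BS.next`.
* `one_left`, `one_right`, `joint` : the facts (`XF`) at the add steps.
-/

set_option autoImplicit false
set_option linter.unusedSectionVars false
set_option linter.unusedVariables false
open MeasureTheory Filter Set

namespace Crest.Agent.R4P.StratX36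

open Crest.Agent.R4.Tour104 Crest.Agent.R4.Tour758 Crest.Agent.R4.Avg758 Crest.Agent.R4.Clos758
open Crest.Agent.R4.ClosL758 Crest.Agent.R4.ClosG758 Crest.Agent.R4.ClosR758
open Crest.Agent.R4P.Cnt588 Crest.Agent.R4P.Walk560 Crest.Agent.R4P.Item758
open Crest.Agent.R4P.Bld532 (NS All NodeOk Bk dv nd mem_dv mem_nd Ws_mono Ws_nonneg)
open Crest.Agent.R4 Crest.Agent.R4P
open Crest.Agent.R4P.StratN36 Crest.Agent.R4P.Strip29 Crest.Agent.R4P.VWalk36
open Crest.Agent.R4P.WalkIT579 (tp isL top_of_nodeOk)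
open Crest.Agent.R4P.Dd26

section
variable {Λ κ : Type*} [Fintype Λ] [DecidableEq Λ]

lemma dd_strip (t : DT Λ κ) : dd (strip t) ↔ dd t := by
  induction t with
  | leaf r f => exact Iff.rfl
  | br b w r t₁ t₀ v B G ih₁ ih₀ => exact and_congr Iff.rfl ih₁
  | add b r t₁ t₀ ih₁ ih₀ => exact Iff.rfl
  | up b Sp t ih => exact Iff.rfl

open Classical in
/-- mass function of a tree -/
noncomputable def mm (μ : TrG Λ κ → Finset Λ → ℝ) (it : Λ → ℕ) (t : DT Λ κ) (Q : ℕ → Prop) : ℝ :=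
  μ t.g (Finset.univ.filter fun j => Q (it j))

lemma mm_strip (μ : TrG Λ κ → Finset Λ → ℝ) (it : Λ → ℕ) (t : DT Λ κ) :
    mm μ it (strip t) = mm μ it t := by
  funext Q
  unfold mm
  rw [strip_g]

/-- the view at `p` is an add node -/
def isAdd (p : ℕ) (t : DT Λ κ) : Prop := ∃ r t₁ t₀, vw p t = .add r t₁ t₀
/-- the view at `p` is an up node (or absent) -/
def isUp (p : ℕ) (t : DT Λ κ) : Prop := ∃ Sp u, vw p t = .up Sp u

lemma isAdd_strip (p : ℕ) (t : DT Λ κ) : isAdd p (strip t) ↔ isAdd p t := by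
  unfold isAdd
  rw [vw_strip]
  rcases hv : vw p t with ⟨w, r, t₁, t₀, v, B, G⟩ | ⟨r, t₁, t₀⟩ | ⟨Sp, u⟩ <;> simp [Vst]

lemma isUp_strip (p : ℕ) (t : DT Λ κ) : isUp p (strip t) ↔ isUp p t := by
  unfold isUp
  rw [vw_strip]
  rcases hv : vw p t with ⟨w, r, t₁, t₀, v, B, G⟩ | ⟨r, t₁, t₀⟩ | ⟨Sp, u⟩ <;> simp [Vst]

/-- the near child of a far node is dead -/
def nDead (p : ℕ) (T : DT Λ κ) : Prop := ∃ r t₁ t₀, vw p T = .add r t₁ t₀ ∧ dd t₀

/-- is the present child `t₁` of the processed node `T` the continuing one, `Y` = partner -/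
def onF (μ : TrG Λ κ → Finset Λ → ℝ) (it : Λ → ℕ) (rB : DT Λ κ → ℕ) (sg : ℕ → ℝ) (p : ℕ)
    (T Y : DT Λ κ) : Prop :=
  match cd (sg p) p (mm μ it T) with
  | .inl J => (isAdd p Y ∧ ∃ J', cd (sg p) p (mm μ it Y) = .inl J') ∨
      J ≤ dK (sg p) p (mm μ it Y) + ex p (rB Y)
  | .inr K => ¬ nDead p T ∧ dK (sg p) p (mm μ it Y) + ex p (rB Y) ≠ K

/-- of two add nodes the left one is processed -/
def lfF (μ : TrG Λ κ → Finset Λ → ℝ) (it : Λ → ℕ) (sg : ℕ → ℝ) (p : ℕ) (T Y : DT Λ κ) : Prop :=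
  match cd (sg p) p (mm μ it T), cd (sg p) p (mm μ it Y) with
  | .inl J, .inl J' => J < J'
  | .inl _, .inr _ => True
  | .inr _, .inl _ => False
  | .inr _, .inr _ => True

open Classical in
/-- **the strategy** -/
noncomputable def StX (st : St Λ κ → Prop) (μ : TrG Λ κ → Finset Λ → ℝ) (it : Λ → ℕ)
    (rB : DT Λ κ → ℕ) (sg : ℕ → ℝ) : Stp Λ κ where
  st := st
  jt s := ¬ (isAdd s.p s.t ∧ isUp s.p s.t') ∧ ¬ (isUp s.p s.t ∧ isAdd s.p s.t') ∧
    cd (sg s.p) s.p (mm μ it s.t) = cd (sg s.p) s.p (mm μ it s.t')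
  lf s := lfF μ it sg s.p s.t s.t'
  on s := if isAdd s.p s.t ∧ (¬ isAdd s.p s.t' ∨ lfF μ it sg s.p s.t s.t') then
    onF μ it rB sg s.p s.t s.t' else onF μ it rB sg s.p s.t' s.t

variable {st : St Λ κ → Prop} {μ : TrG Λ κ → Finset Λ → ℝ} {it : Λ → ℕ} {rB : DT Λ κ → ℕ}
  {sg : ℕ → ℝ}

lemma nDead_strip (p : ℕ) (T : DT Λ κ) : nDead p (strip T) ↔ nDead p T := by
  unfold nDead
  rw [vw_strip]
  rcases hv : vw p T with ⟨w, r, t₁, t₀, v, B, G⟩ | ⟨r, t₁, t₀⟩ | ⟨Sp, u⟩ <;>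
    simp [Vst, dd_strip]

lemma onF_strip (hr : ∀ t, rB (strip t) = rB t) (p : ℕ) (T Y : DT Λ κ) :
    onF μ it rB sg p (strip T) (strip Y) ↔ onF μ it rB sg p T Y := by
  unfold onF
  rw [mm_strip, mm_strip, isAdd_strip, hr, nDead_strip]

lemma lfF_strip (p : ℕ) (T Y : DT Λ κ) :
    lfF μ it sg p (strip T) (strip Y) ↔ lfF μ it sg p T Y := by
  unfold lfF
  rw [mm_strip, mm_strip]

/-- the strategy does not look at the sets of the up nodes -/
theorem StX_blind (hst : ∀ s, st (stS s) ↔ st s) (hr : ∀ t, rB (strip t) = rB t) :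
    Blind (StX st μ it rB sg) where
  st := hst
  jt s := by
    show (¬ (isAdd (stS s).p (strip s.t) ∧ isUp (stS s).p (strip s.t')) ∧
      ¬ (isUp (stS s).p (strip s.t) ∧ isAdd (stS s).p (strip s.t')) ∧
      cd (sg (stS s).p) (stS s).p (mm μ it (strip s.t)) =
        cd (sg (stS s).p) (stS s).p (mm μ it (strip s.t'))) ↔ _
    rw [stS_p, isAdd_strip, isAdd_strip, isUp_strip, isUp_strip, mm_strip, mm_strip]
    exact Iff.rfl
  lf s := by
    show lfF μ it sg (stS s).p (strip s.t) (strip s.t') ↔ _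
    rw [stS_p, lfF_strip]
    exact Iff.rfl
  on s := by
    classical
    show (if isAdd (stS s).p (strip s.t) ∧ (¬ isAdd (stS s).p (strip s.t') ∨
      lfF μ it sg (stS s).p (strip s.t) (strip s.t')) then
      onF μ it rB sg (stS s).p (strip s.t) (strip s.t') else
      onF μ it rB sg (stS s).p (strip s.t') (strip s.t)) ↔ (if isAdd s.p s.t ∧ (¬ isAdd s.p s.t' ∨
        lfF μ it sg s.p s.t s.t') then onF μ it rB sg s.p s.t s.t' else
        onF μ it rB sg s.p s.t' s.t)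
    rw [stS_p]
    simp only [isAdd_strip, lfF_strip]
    split_ifs
    · exact onF_strip hr _ _ _
    · exact onF_strip hr _ _ _

/-- the strategy never splits a population -/
theorem StX_nosplit : NoSplit (StX st μ it rB sg) :=
  ⟨fun s r t₁ t₀ u Sp h h' hj => hj.1 ⟨⟨r, t₁, t₀, h⟩, ⟨Sp, u, h'⟩⟩,
    fun s r t₁ t₀ u Sp h h' hj => hj.2.1 ⟨⟨Sp, u, h⟩, ⟨r, t₁, t₀, h'⟩⟩⟩

lemma not_add_up {p : ℕ} {t : DT Λ κ} : ¬ (isAdd p t ∧ isUp p t) := by
  rintro ⟨⟨r, t₁, t₀, h⟩, ⟨Sp, u, h'⟩⟩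
  rw [h] at h'
  cases h'

/-- self states are processed jointly -/
theorem StX_jt [DecidableEq κ] [WRel κ] (d : DT Λ κ) (A : Finset Λ) :
    (StX st μ it rB sg).jt (selfSt d A) :=
  ⟨not_add_up, fun h => not_add_up ⟨h.2, h.1⟩, rfl⟩

end

section
variable {Λ κ : Type*} [Fintype Λ] [DecidableEq Λ] [Fintype κ] [DecidableEq κ] [WRel κ]
  {D : Par Λ κ} {sp : ℕ → Finset Λ} {P : Bld532.Par} {W : ℕ → ℝ} {Qp : NS → IT → Prop}
  {μ : TrG Λ κ → Finset Λ → ℝ} {rB : DT Λ κ → ℕ}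

/-- **node facts** used here -/
structure NF (D : Par Λ κ) (P : Bld532.Par) (W : ℕ → ℝ) (μ : TrG Λ κ → Finset Λ → ℝ)
    (rB : DT Λ κ → ℕ) (u : NS) (τ : IT) : Prop where
  ok : NodeOk P W u τ
  c0 : 0 < u.c
  ms : ∀ (Q : ℕ → Prop) [DecidablePred Q],
    μ (D.toG u.B u.A τ) (Finset.univ.filter fun j => Q (D.it j)) = u.c * Ws W (τ.items.filter Q)
  rb : ∀ sp, rB (D.toDT sp u.B u.A τ) = u.B

/-- parameters -/
structure PG (P : Bld532.Par) (W : ℕ → ℝ) : Prop where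
  w0 : ∀ q, 0 ≤ W q
  sg0 : ∀ k, 0 ≤ P.sg k
  sg8 : ∀ k, k.Prime → P.p0 < k → 8 * P.sg k < 1
  lo0 : ∀ k, k.Prime → P.p0 < k → 0 < P.lo k

lemma NF.msOf {u : NS} {τ : IT} (h : NF D P W μ rB u τ) (sp : ℕ → Finset Λ) :
    MsOf W u.c τ.items (mm μ D.it (D.toDT sp u.B u.A τ)) := by
  intro Q hQ
  have h1 := h.ms Q
  unfold mm
  rw [D.toDT_g]
  rw [← h1]
  congr 1
  ext j
  simp

/-- a side is dominated at `p` -/
def BSide (sg : ℕ → ℝ) (μ : TrG Λ κ → Finset Λ → ℝ) (it : Λ → ℕ) (p : ℕ) (t : DT Λ κ) : Prop :=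
  ∃ K, mm μ it t (fun q => ex p q ≠ K) ≤ 4 * sg p * mm μ it t (fun _ => True) ∧
    mm μ it t (fun q => ¬ (K ≤ ex p q + 1 ∧ ex p q ≤ K + 1)) = 0

lemma bside_of (hW : ∀ q, 0 ≤ W q) {u : NS} {τ : IT} (h : NF D P W μ rB u τ) (sp : ℕ → Finset Λ)
    {p K : ℕ} (hd : DomN P W p K τ.items) : BSide P.sg μ D.it p (D.toDT sp u.B u.A τ) := by
  have hm := h.msOf sp
  refine ⟨K, ?_, ?_⟩
  · rw [hm.top, hm (fun q => ex p q ≠ K)]
    have := mul_le_mul_of_nonneg_left hd.tail h.c0.le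
    linarith
  · rw [hm (fun q => ¬ (K ≤ ex p q + 1 ∧ ex p q ≤ K + 1))]
    have e : Ws W (τ.items.filter (fun q => ¬ (K ≤ ex p q + 1 ∧ ex p q ≤ K + 1))) = 0 := by
      refine Finset.sum_eq_zero fun q hq => ?_
      obtain ⟨hq, hn⟩ := Finset.mem_filter.1 hq
      by_contra h0
      exact hn (hd.near q hq (lt_of_le_of_ne (hW q) (Ne.symm h0)))
    rw [e, mul_zero]

lemma bside_dom (hW : ∀ q, 0 ≤ W q) {u : NS} {τ : IT} (h : NF D P W μ rB u τ) {p : ℕ}
    (hb : BSide P.sg μ D.it p (D.toDT sp u.B u.A τ)) : ∃ K, DomN P W p K τ.items := by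
  have hm := h.msOf sp
  obtain ⟨K, h1, h2⟩ := hb
  rw [hm.top, hm (fun q => ex p q ≠ K)] at h1
  rw [hm (fun q => ¬ (K ≤ ex p q + 1 ∧ ex p q ≤ K + 1))] at h2
  refine ⟨K, ?_, ?_⟩
  · intro q hq hq0
    by_contra hn
    have h3 : 0 < Ws W (τ.items.filter (fun q => ¬ (K ≤ ex p q + 1 ∧ ex p q ≤ K + 1))) := by
      unfold Ws
      exact Finset.sum_pos' (fun q' _ => hW q') ⟨q, Finset.mem_filter.2 ⟨hq, hn⟩, hq0⟩
    have := mul_pos h.c0 h3
    linarith
  · have : u.c * Ws W (τ.items.filter (fun q => ex p q ≠ K)) ≤ u.c * (4 * P.sg p * Ws W τ.items) := by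
      linarith
    exact le_of_mul_le_mul_left this h.c0

/-- item witness of a state -/
structure WT (D : Par Λ κ) (sp : ℕ → Finset Λ) (Qp : NS → IT → Prop) (s : St Λ κ) (u u' : NS)
    (τ τ' : IT) : Prop where
  tL : s.t = D.toDT sp u.B u.A τ
  tR : s.t' = D.toDT sp u'.B u'.A τ'
  qL : All Qp u τ
  qR : All Qp u' τ'
  lv : ¬ s.t.isLeaf → ¬ s.t'.isLeaf → ∀ l : ℕ, l.Prime → l < s.p → l < u.n ∧ l < u'.n

/-- **invariant**: the closed side is dominated at the column of the other side -/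
def BS (sg : ℕ → ℝ) (μ : TrG Λ κ → Finset Λ → ℝ) (it : Λ → ℕ) (s : St Λ κ) : Prop :=
  ¬ s.t.isLeaf → ¬ s.t'.isLeaf →
    (s.t'.top < s.t.top → BSide sg μ it s.t.top s.t') ∧
    (s.t.top < s.t'.top → BSide sg μ it s.t'.top s.t)

lemma BS.self (sg : ℕ → ℝ) (μ : TrG Λ κ → Finset Λ → ℝ) (it : Λ → ℕ) (d : DT Λ κ) (A : Finset Λ) :
    BS sg μ it (selfSt d A) := fun _ _ =>
  ⟨fun h => absurd h (lt_irrefl _), fun h => absurd h (lt_irrefl _)⟩

/-- one side of a child: not moved, still open, or closed at `p` and dominated -/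
def Sd (D : Par Λ κ) (sp : ℕ → Finset Λ) (Qp : NS → IT → Prop) (sg : ℕ → ℝ)
    (μ : TrG Λ κ → Finset Λ → ℝ) (p : ℕ) (t t₁ : DT Λ κ) : Prop :=
  t₁ = t ∨ ∃ (v : NS) (σ : IT), t₁ = D.toDT sp v.B v.A σ ∧ All Qp v σ ∧
    (v.n = p + 1 ∨ (v.n = p ∧ BSide sg μ D.it p t₁))

section sd
variable {u : NS} {τ : IT} {p : ℕ}

lemma Sd.br (hG : PG P W) (hQ : ∀ u τ, Qp u τ → NF D P W μ rB u τ) {w : ℝ} {r : Λ → κ}
    {d₁ d₀ : DT Λ κ} {v : Λ → ℝ → ℝ} {B G : κ → ℝ → ℝ}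
    (hd : D.toDT sp u.B u.A τ = .br p w r d₁ d₀ v B G) (hq : All Qp u τ) (t : DT Λ κ) :
    Sd D sp Qp P.sg μ p t d₁ ∧ (w ≠ 0 → Sd D sp Qp P.sg μ p t d₀) := by
  rcases AvgItem710.toDT_br hd with ⟨S, t₁, t₀, rfl, -, rfl, rfl, -, -⟩ | ⟨t₁, rfl, -, rfl, -, hw, -⟩
  · obtain ⟨K, -, k1, k0⟩ := domN_br hG.w0 hG.sg0 (hQ _ _ hq.1).ok
    refine ⟨Or.inr ⟨_, t₁, rfl, hq.2.1, Or.inr ⟨rfl, ?_⟩⟩,
      fun _ => Or.inr ⟨_, t₀, rfl, hq.2.2, Or.inr ⟨rfl, ?_⟩⟩⟩
    · exact bside_of hG.w0 (hQ _ _ hq.2.1.self) sp k1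
    · exact bside_of hG.w0 (hQ _ _ hq.2.2.self) sp k0
  · exact ⟨Or.inr ⟨⟨p + 1, u.c, u.A * p, u.B⟩, t₁, rfl, hq.2, Or.inl rfl⟩, fun h => absurd hw h⟩

lemma Sd.add {r : Λ → κ} {d₁ d₀ : DT Λ κ}
    (hd : D.toDT sp u.B u.A τ = .add p r d₁ d₀) (hq : All Qp u τ) (t : DT Λ κ) :
    Sd D sp Qp P.sg μ p t d₁ ∧ Sd D sp Qp P.sg μ p t d₀ := by
  obtain ⟨t₁, t₀, ht, -, rfl, rfl⟩ := AvgItem710.toDT_add hd
  rcases ht with rfl | rfl
  · exact ⟨Or.inr ⟨⟨p + 1, u.c, u.A, u.B⟩, t₁, rfl, hq.2.1, Or.inl rfl⟩,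
      Or.inr ⟨⟨p + 1, u.c, u.A, u.B⟩, t₀, rfl, hq.2.2, Or.inl rfl⟩⟩
  · exact ⟨Or.inr ⟨⟨p + 1, u.c, u.A, u.B⟩, t₁, rfl, hq.2.1, Or.inl rfl⟩,
      Or.inr ⟨⟨p + 1, u.c, u.A, u.B⟩, t₀, rfl, hq.2.2, Or.inl rfl⟩⟩

lemma Sd.up (hG : PG P W) (hQ : ∀ u τ, Qp u τ → NF D P W μ rB u τ) {d : DT Λ κ} {Sp : Finset Λ}
    (hd : vw p (D.toDT sp u.B u.A τ) = .up Sp d) (hq : All Qp u τ) :
    Sd D sp Qp P.sg μ p (D.toDT sp u.B u.A τ) d := by
  rcases vw_up hd with h | ⟨-, rfl, -⟩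
  · obtain ⟨S, t₁, rfl, -, rfl⟩ := AvgItem710.toDT_up h
    obtain ⟨K, k⟩ := domN_up hG.w0 hG.sg0 (hQ _ _ hq.1).ok
    exact Or.inr ⟨⟨p, u.c, u.A, u.B⟩, t₁, rfl, hq.2, Or.inr ⟨rfl,
      bside_of hG.w0 (hQ _ _ hq.2.self) sp k⟩⟩
  · exact Or.inl rfl

lemma Sd.c {stp : Stp Λ κ} {s : St Λ κ} {t d₁ d₀ : DT Λ κ}
    (h : Sd D sp Qp P.sg μ p t d₁ ∧ Sd D sp Qp P.sg μ p t d₀) :
    Sd D sp Qp P.sg μ p t (stp.c s d₁ d₀) := by
  rcases stp.c_or s d₁ d₀ with ⟨e, -⟩ | ⟨e, -⟩ <;> rw [e]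
  · exact h.1
  · exact h.2

/-- top column of a moved side: `p`, or the largest prime below `p` -/
lemma Sd.top (hQ : ∀ u τ, Qp u τ → NF D P W μ rB u τ) {t t₁ : DT Λ κ} (hp : p.Prime)
    (ht : t = D.toDT sp u.B u.A τ) (hq : All Qp u τ) (hlv : ∀ l : ℕ, l.Prime → l < p → l < u.n)
    (htp : t.top ≤ p) (hl : ¬ t.isLeaf) (hl1 : ¬ t₁.isLeaf)
    (h : Sd D sp Qp P.sg μ p t t₁) :
    t₁.top = p ∨ (t₁.top < p ∧ t₁.top.Prime ∧ (∀ l : ℕ, l.Prime → l < p → l ≤ t₁.top) ∧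
      (t₁ = t ∨ BSide P.sg μ D.it p t₁)) := by
  have hlf : ∀ {σ : IT} {b pr : ℕ}, ¬ (D.toDT sp b pr σ).isLeaf → ¬ isL σ := fun h1 h2 =>
    h1 ((WalkIT579.toDT_leaf D sp _ _ _).2 h2)
  rcases h with rfl | ⟨v, σ, e, hσ, hn | ⟨hn, hb⟩⟩
  · by_cases h1 : t₁.top = p
    · exact Or.inl h1
    · have h2 : t₁.top < p := lt_of_le_of_ne htp h1
      obtain ⟨a1, a2, a3⟩ := top_of_nodeOk (hQ _ _ hq.self).ok (hlf (ht ▸ hl))
      have et : t₁.top = tp τ := by rw [ht, WalkIT579.toDT_top]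
      exact Or.inr ⟨h2, by rw [et]; exact a1, fun l hlp hll => by
        rw [et]; exact a3 l hlp (hlv l hlp hll), Or.inl rfl⟩
  · obtain ⟨a1, a2, a3⟩ := top_of_nodeOk (hQ _ _ hσ.self).ok (hlf (e ▸ hl1))
    have et : t₁.top = tp σ := by rw [e, WalkIT579.toDT_top]
    left
    rw [et]
    refine le_antisymm ?_ (a3 p hp (by rw [hn]; exact Nat.lt_succ_self p))
    rw [hn] at a2
    exact Nat.lt_succ_iff.1 a2
  · obtain ⟨a1, a2, a3⟩ := top_of_nodeOk (hQ _ _ hσ.self).ok (hlf (e ▸ hl1))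
    have et : t₁.top = tp σ := by rw [e, WalkIT579.toDT_top]
    right
    refine ⟨by rw [et, ← hn]; exact a2, by rw [et]; exact a1, fun l hlp hll => ?_, Or.inr hb⟩
    rw [et]
    exact a3 l hlp (by rw [hn]; exact hll)

end sd

lemma BS.of_Sd (hQ : ∀ u τ, Qp u τ → NF D P W μ rB u τ) {s q : St Λ κ} {u u' : NS} {τ τ' : IT}
    (h : WT D sp Qp s u u' τ τ') (hB : BS P.sg μ D.it s) (hl : ¬ s.t.isLeaf) (hl' : ¬ s.t'.isLeaf)
    (hL : Sd D sp Qp P.sg μ s.p s.t q.t) (hR : Sd D sp Qp P.sg μ s.p s.t' q.t') (hp : s.p.Prime) :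
    BS P.sg μ D.it q := by
  intro hq hq'
  have hpL : s.t.top ≤ s.p := le_max_left _ _
  have hpR : s.t'.top ≤ s.p := le_max_right _ _
  have hlv := h.lv hl hl'
  have a := hL.top hQ hp h.tL h.qL (fun l h1 h2 => (hlv l h1 h2).1) hpL hl hq
  have b := hR.top hQ hp h.tR h.qR (fun l h1 h2 => (hlv l h1 h2).2) hpR hl' hq'
  constructor
  · intro hlt
    rcases a with a | ⟨a1, a2, a3, a4⟩
    · rcases b with b | ⟨b1, b2, b3, b4⟩
      · omega
      · rw [a]
        rcases b4 with e | b4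
        · rw [e]
          have h1 : s.t'.top < s.p := by rw [← e]; exact b1
          have h2 : s.t.top = s.p := by
            unfold St.p at h1 ⊢
            rcases le_total s.t.top s.t'.top with h3 | h3
            · rw [max_eq_right h3] at h1; omega
            · rw [max_eq_left h3]
          have := (hB hl hl').1 (by rw [h2]; exact h1)
          rw [h2] at this
          exact this
        · exact b4
    · rcases b with b | ⟨b1, b2, b3, b4⟩
      · omega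
      · exact absurd (b3 _ a2 a1) (not_le.2 hlt)
  · intro hlt
    rcases b with b | ⟨b1, b2, b3, b4⟩
    · rcases a with a | ⟨a1, a2, a3, a4⟩
      · omega
      · rw [b]
        rcases a4 with e | a4
        · rw [e]
          have h1 : s.t.top < s.p := by rw [← e]; exact a1
          have h2 : s.t'.top = s.p := by
            unfold St.p at h1 ⊢
            rcases le_total s.t.top s.t'.top with h3 | h3
            · rw [max_eq_right h3]
            · rw [max_eq_left h3] at h1; omega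
          have := (hB hl hl').2 (by rw [h2]; exact h1)
          rw [h2] at this
          exact this
        · exact a4
    · rcases a with a | ⟨a1, a2, a3, a4⟩
      · omega
      · exact absurd (a3 _ b2 b1) (not_le.2 hlt)

lemma WT.prime (hQ : ∀ u τ, Qp u τ → NF D P W μ rB u τ) {s : St Λ κ} {u u' : NS} {τ τ' : IT}
    (h : WT D sp Qp s u u' τ τ') (hl : ¬ s.t.isLeaf) (hl' : ¬ s.t'.isLeaf) :
    s.p.Prime ∧ P.p0 < s.p := by
  have key : ∀ {v : NS} {σ : IT}, NodeOk P W v σ → ¬ isL σ → (tp σ).Prime ∧ P.p0 < tp σ := by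
    intro v σ hn hnl
    cases σ with
    | leaf S => exact absurd trivial hnl
    | br p Sp t₁ t₀ => exact ⟨hn.1, hn.2.2.1⟩
    | add b t₁ t₀ => exact ⟨hn.1, hn.2.2.1⟩
    | up b Sp t => exact ⟨hn.1, hn.2.2.1⟩
    | pl b t => exact ⟨hn.1, hn.2.2.1⟩
    | far b t₁ t₀ => exact ⟨hn.1, hn.2.2.1⟩
  have hlf : ∀ {σ : IT} {b pr : ℕ}, ¬ (D.toDT sp b pr σ).isLeaf → ¬ isL σ := fun h1 h2 =>
    h1 ((WalkIT579.toDT_leaf D sp _ _ _).2 h2)
  have a := key (hQ _ _ h.qL.self).ok (hlf (h.tL ▸ hl))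
  have b := key (hQ _ _ h.qR.self).ok (hlf (h.tR ▸ hl'))
  have e1 : s.t.top = tp τ := by rw [h.tL, WalkIT579.toDT_top]
  have e2 : s.t'.top = tp τ' := by rw [h.tR, WalkIT579.toDT_top]
  unfold St.p
  rw [e1, e2]
  rcases le_total (tp τ) (tp τ') with h | h
  · rw [max_eq_right h]; exact b
  · rw [max_eq_left h]; exact a

set_option maxHeartbeats 1000000 in
/-- **the invariant is preserved by the walk** (any strategy) -/
theorem BS.next (hG : PG P W) (hQ : ∀ u τ, Qp u τ → NF D P W μ rB u τ) {stp : Stp Λ κ}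
    {s : St Λ κ} {u u' : NS} {τ τ' : IT} (h : WT D sp Qp s u u' τ τ') (hB : BS P.sg μ D.it s) :
    ∀ q ∈ nxt stp s, BS P.sg μ D.it q.2 := by
  intro q hq'
  obtain ⟨hq, hq0⟩ := mem_nxt.1 hq'
  unfold nxt0 at hq
  by_cases h1 : s.t.isLeaf ∨ s.t'.isLeaf
  · simp [h1] at hq
  by_cases h2 : stp s
  · simp [h1, h2] at hq
  rw [if_neg h1, if_neg h2] at hq
  rw [not_or] at h1
  obtain ⟨hp, -⟩ := h.prime hQ h1.1 h1.2
  have key : ∀ (q : St Λ κ), Sd D sp Qp P.sg μ s.p s.t q.t → Sd D sp Qp P.sg μ s.p s.t' q.t' →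
      BS P.sg μ D.it q := fun q hL hR => BS.of_Sd hQ h hB h1.1 h1.2 hL hR hp
  have sL : Sd D sp Qp P.sg μ s.p s.t s.t := Or.inl rfl
  have sR : Sd D sp Qp P.sg μ s.p s.t' s.t' := Or.inl rfl
  by_cases hPL : s.isPL
  · rw [if_pos hPL] at hq
    obtain ⟨w, r, t₁, t₀, v, B, G, hv, et, hc⟩ := St.isPL_cases hPL
    obtain ⟨m1, m0⟩ := Sd.br hG hQ (h.tL.symm.trans et) h.qL s.t
    rcases hc with ⟨hd, hs⟩ | ⟨hd, hw, hs⟩
    · rw [hs] at hq
      simp only [List.mem_cons, List.not_mem_nil, or_false] at hq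
      rcases hq with rfl | rfl
      · exact key _ m1 sR
      · exact key _ (m0 hq0) sR
    · rw [hs] at hq
      simp only [List.mem_cons, List.not_mem_nil, or_false] at hq
      rcases hq with rfl | rfl
      · exact key _ m1 sR
      · exact absurd hw hq0
  rw [if_neg hPL] at hq
  by_cases hPR : s.isPR
  · rw [if_pos hPR] at hq
    obtain ⟨w, r, t₁, t₀, v, B, G, hv, et, hc⟩ := St.isPR_cases hPR
    obtain ⟨m1, m0⟩ := Sd.br hG hQ (h.tR.symm.trans et) h.qR s.t'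
    rcases hc with ⟨hd, hs⟩ | ⟨hd, hw, hs⟩
    · rw [hs] at hq
      simp only [List.mem_cons, List.not_mem_nil, or_false] at hq
      rcases hq with rfl | rfl
      · exact key _ sL m1
      · exact key _ sL (m0 hq0)
    · rw [hs] at hq
      simp only [List.mem_cons, List.not_mem_nil, or_false] at hq
      rcases hq with rfl | rfl
      · exact key _ sL m1
      · exact absurd hw hq0
  rw [if_neg hPR] at hq
  rcases hv : vw s.p s.t with ⟨w, r, t₁, t₀, v, B, G⟩ | ⟨r, t₁, t₀⟩ | ⟨Sp, d⟩ <;>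
  rcases hv' : vw s.p s.t' with ⟨w', r', t₁', t₀', v', B', G'⟩ | ⟨r', t₁', t₀'⟩ | ⟨Sp', d'⟩ <;>
  simp only [hv, hv'] at hq
  · obtain ⟨m1, m0⟩ := Sd.br hG hQ (h.tL.symm.trans (vw_br hv)) h.qL s.t
    obtain ⟨n1, n0⟩ := Sd.br hG hQ (h.tR.symm.trans (vw_br hv')) h.qR s.t'
    simp only [List.mem_cons, List.not_mem_nil, or_false] at hq
    rcases hq with rfl | rfl | rfl | rfl
    · exact key _ m1 n1
    · exact key _ m1 (n0 (right_ne_zero_of_mul hq0))
    · exact key _ (m0 (left_ne_zero_of_mul hq0)) n1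
    · exact key _ (m0 (left_ne_zero_of_mul hq0)) (n0 (right_ne_zero_of_mul hq0))
  · have n := Sd.add (P := P) (μ := μ) (h.tR.symm.trans (vw_add hv')) h.qR s.t'
    simp only [List.mem_cons, List.not_mem_nil, or_false] at hq
    subst hq
    exact key _ sL (Sd.c n)
  · obtain ⟨m1, m0⟩ := Sd.br hG hQ (h.tL.symm.trans (vw_br hv)) h.qL s.t
    have n : Sd D sp Qp P.sg μ s.p s.t' d' := by
      have e := h.tR
      rw [e] at hv'
      rw [e]
      exact Sd.up hG hQ hv' h.qR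
    simp only [List.mem_cons, List.not_mem_nil, or_false] at hq
    rcases hq with rfl | rfl
    · exact key _ m1 n
    · exact key _ (m0 hq0) n
  · have n := Sd.add (P := P) (μ := μ) (h.tL.symm.trans (vw_add hv)) h.qL s.t
    simp only [List.mem_cons, List.not_mem_nil, or_false] at hq
    subst hq
    exact key _ (Sd.c n) sR
  · have m := Sd.add (P := P) (μ := μ) (h.tL.symm.trans (vw_add hv)) h.qL s.t
    have n := Sd.add (P := P) (μ := μ) (h.tR.symm.trans (vw_add hv')) h.qR s.t'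
    split_ifs at hq with hj hl <;>
      simp only [List.mem_cons, List.not_mem_nil, or_false] at hq
    · rcases hq with rfl | rfl
      · exact key _ m.1 n.1
      · exact key _ m.2 n.2
    · subst hq
      exact key _ (Sd.c m) sR
    · subst hq
      exact key _ sL (Sd.c n)
  · have m := Sd.add (P := P) (μ := μ) (h.tL.symm.trans (vw_add hv)) h.qL s.t
    have n : Sd D sp Qp P.sg μ s.p s.t' d' := by
      have e := h.tR
      rw [e] at hv'
      rw [e]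
      exact Sd.up hG hQ hv' h.qR
    split_ifs at hq with hj <;>
      simp only [List.mem_cons, List.not_mem_nil, or_false] at hq
    · rcases hq with rfl | rfl
      · exact key _ m.1 n
      · exact key _ m.2 n
    · subst hq
      exact key _ (Sd.c m) sR
  · obtain ⟨n1, n0⟩ := Sd.br hG hQ (h.tR.symm.trans (vw_br hv')) h.qR s.t'
    have m : Sd D sp Qp P.sg μ s.p s.t d := by
      have e := h.tL
      rw [e] at hv
      rw [e]
      exact Sd.up hG hQ hv h.qL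
    simp only [List.mem_cons, List.not_mem_nil, or_false] at hq
    rcases hq with rfl | rfl
    · exact key _ m n1
    · exact key _ m (n0 hq0)
  · have n := Sd.add (P := P) (μ := μ) (h.tR.symm.trans (vw_add hv')) h.qR s.t'
    have m : Sd D sp Qp P.sg μ s.p s.t d := by
      have e := h.tL
      rw [e] at hv
      rw [e]
      exact Sd.up hG hQ hv h.qL
    split_ifs at hq with hj <;>
      simp only [List.mem_cons, List.not_mem_nil, or_false] at hq
    · rcases hq with rfl | rfl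
      · exact key _ m n.1
      · exact key _ m n.2
    · subst hq
      exact key _ sL (Sd.c n)
  · have m : Sd D sp Qp P.sg μ s.p s.t d := by
      have e := h.tL
      rw [e] at hv
      rw [e]
      exact Sd.up hG hQ hv h.qL
    have n : Sd D sp Qp P.sg μ s.p s.t' d' := by
      have e := h.tR
      rw [e] at hv'
      rw [e]
      exact Sd.up hG hQ hv' h.qR
    simp only [List.mem_cons, List.not_mem_nil, or_false] at hq
    subst hq
    exact key _ m n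

end

end Crest.Agent.R4P.StratX36
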