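import Crest.Agent.R4P.TWcert_17
import Crest.Agent.R4P.FrameT_26

/-!
R4 (S0004), POWERS, helper26, [W-eSHR] / M6, second half: **the flagged walk does not look at the sets
`Sp`**, and the flagged walk sum is an error functional of the frame.

* `nxF0_stS`, `eF_stS`, `WF_stS` : stripped states;
* `selfE_walkF` : `FrameT26.SelfE` for `ER d A = WF stp (eF stp μ ν B) (self, selfSt d A)`.
-/

set_option autoImplicit false
set_option linter.unusedSectionVars false
set_option linter.unusedVariables false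
set_option linter.unusedSimpArgs false
open MeasureTheory Filter Set

namespace Crest.Agent.R4P.StripT26

open Crest.Agent.R4.Tour104 Crest.Agent.R4.Tour758 Crest.Agent.R4.Avg758 Crest.Agent.R4.Clos758
open Crest.Agent.R4.ClosL758 Crest.Agent.R4.ClosG758 Crest.Agent.R4.ClosR758
open Crest.Agent.R4P.ClosR442 Crest.Agent.R4P.Walk560 Crest.Agent.R4P.TWc17
open Crest.Agent.R4P.VWalk36 (crs eX_eq)
open Crest.Agent.R4P.Strip29 Crest.Agent.R4P.TW17

section
variable {Λ κ : Type*} [Fintype Λ] [DecidableEq Λ] [DecidableEq κ] [WRel κ]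

/-- strip a flagged state -/
def stF (z : Fl × St Λ κ) : Fl × St Λ κ := (z.1, stS z.2)

/-- strip a weighted flagged state -/
def qF (q : ℝ × (Fl × St Λ κ)) : ℝ × (Fl × St Λ κ) := (q.1, stF q.2)

lemma vw_stS (s : St Λ κ) : vw (stS s).p (stS s).t = Vst (vw s.p s.t) := by
  rw [stS_p]; exact vw_strip _ _

lemma vw_stS' (s : St Λ κ) : vw (stS s).p (stS s).t' = Vst (vw s.p s.t') := by
  rw [stS_p]; exact vw_strip _ _

lemma leaf_stS (s : St Λ κ) : ((stS s).t.isLeaf ∨ (stS s).t'.isLeaf) ↔ (s.t.isLeaf ∨ s.t'.isLeaf) := by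
  simp [stS]

lemma two_stS (s : St Λ κ) : two (stS s) ↔ two s := by
  unfold two
  rw [isPL_stS, isPR_stS, vw_stS, vw_stS']
  rcases hv : vw s.p s.t with ⟨w, r, t₁, t₀, v, B, G⟩ | ⟨r, t₁, t₀⟩ | ⟨Sp, u⟩ <;>
  rcases hv' : vw s.p s.t' with ⟨w', r', t₁', t₀', v', B', G'⟩ | ⟨r', t₁', t₀'⟩ | ⟨Sp', u'⟩ <;>
  exact Iff.rfl

lemma one_stS (s : St Λ κ) : one (stS s) ↔ one s := by
  unfold one
  rw [isPL_stS, isPR_stS, vw_stS, vw_stS']
  rcases hv : vw s.p s.t with ⟨w, r, t₁, t₀, v, B, G⟩ | ⟨r, t₁, t₀⟩ | ⟨Sp, u⟩ <;>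
  rcases hv' : vw s.p s.t' with ⟨w', r', t₁', t₀', v', B', G'⟩ | ⟨r', t₁', t₀'⟩ | ⟨Sp', u'⟩ <;>
  exact Iff.rfl

lemma exH_stS {stp : Stp Λ κ} (hb : Blind stp) (s : St Λ κ) : exH stp (stS s) ↔ exH stp s := by
  unfold exH
  rw [hb.st, one_stS]

lemma stay_stS (q : St Λ κ) : stay (stS q) ↔ stay q := by
  unfold stay
  rw [stS_p]
  simp [stS]

lemma flS_stS (q : St Λ κ) : flS (stS q) = flS q := by
  unfold flS
  by_cases h : stay q
  · rw [if_pos h, if_pos ((stay_stS q).2 h)]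
  · rw [if_neg h, if_neg (fun h' => h ((stay_stS q).1 h'))]

variable {stp : Stp Λ κ}

/-- the continuing flagged states of the stripped state -/
lemma nxF0_stS (hb : Blind stp) (hn : NoSplit stp) (z : Fl × St Λ κ) :
    nxF0 stp (stF z) = (nxF0 stp z).map qF := by
  obtain ⟨f, s⟩ := z
  have key : ∀ (g g' : St Λ κ → Fl), (∀ q, g (stS q) = g' q) → ∀ l : List (ℝ × St Λ κ),
      ((l.map qS).map fun q => (q.1, (g q.2, q.2))) =
        (l.map fun q => (q.1, (g' q.2, q.2))).map qF := by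
    intro g g' hg l
    rw [List.map_map, List.map_map]
    refine List.map_congr_left fun q _ => ?_
    show (q.1, (g (stS q.2), stS q.2)) = (q.1, (g' q.2, stS q.2))
    rw [hg]
  have e := nxt0_stS hb hn s
  cases f with
  | old =>
    show (nxt0 stp (stS s)).map (fun q => (q.1, (Fl.old, q.2))) =
      ((nxt0 stp s).map fun q => (q.1, (Fl.old, q.2))).map qF
    rw [e]
    exact key (fun _ => Fl.old) (fun _ => Fl.old) (fun _ => rfl) _
  | self =>
    show nxF0 stp (Fl.self, stS s) = (nxF0 stp (Fl.self, s)).map qF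
    simp only [nxF0]
    rw [e]
    generalize nxt0 stp s = l
    match l with
    | [] => rfl
    | [a] => rfl
    | [a, b] => rfl
    | [a, b, c] => rfl
    | [a, b, c, d] => rfl
    | a :: b :: c :: d :: e :: l =>
      exact key (fun _ => Fl.self) (fun _ => Fl.self) (fun _ => rfl) (a :: b :: c :: d :: e :: l)
  | top =>
    show nxF0 stp (Fl.top, stS s) = (nxF0 stp (Fl.top, s)).map qF
    simp only [nxF0]
    have h1 := exH_stS hb s
    have h2 := two_stS s
    by_cases c1 : exH stp s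
    · rw [if_pos c1, if_pos (h1.2 c1), e]
      exact key (fun _ => Fl.old) (fun _ => Fl.old) (fun _ => rfl) _
    rw [if_neg c1, if_neg (fun h => c1 (h1.1 h))]
    by_cases c2 : two s
    · rw [if_pos c2, if_pos (h2.2 c2), e]
      exact key (fun _ => Fl.top) (fun _ => Fl.top) (fun _ => rfl) _
    rw [if_neg c2, if_neg (fun h => c2 (h2.1 h)), e]
    exact key flS flS flS_stS _

/-- the crossing states of the stripped state -/
lemma crs_stS (hb : Blind stp) (hn : NoSplit stp) (s : St Λ κ) :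
    crs stp (stS s) = (crs stp s).map stS := by
  have e1 := vw_stS s
  have e2 := vw_stS' s
  have hl := leaf_stS s
  by_cases h1 : s.t.isLeaf ∨ s.t'.isLeaf
  · have h1' := hl.2 h1
    simp [crs, h1, h1']
  have h1' : ¬ ((stS s).t.isLeaf ∨ (stS s).t'.isLeaf) := fun h => h1 (hl.1 h)
  by_cases h2 : stp s
  · have h2' := (hb.st s).2 h2
    simp [crs, h1, h1', h2, h2']
  have h2' : ¬ stp (stS s) := fun h => h2 ((hb.st s).1 h)
  by_cases hP : s.isPL ∨ s.isPR
  · have hP' : (stS s).isPL ∨ (stS s).isPR := by rwa [isPL_stS, isPR_stS]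
    simp [crs, h1, h1', h2, h2', hP, hP']
  have hP' : ¬ ((stS s).isPL ∨ (stS s).isPR) := by rwa [isPL_stS, isPR_stS]
  simp only [crs, if_neg h1, if_neg h1', if_neg h2, if_neg h2', if_neg hP, if_neg hP', e1, e2]
  rcases hv : vw s.p s.t with ⟨w, r, t₁, t₀, v, B, G⟩ | ⟨r, t₁, t₀⟩ | ⟨Sp, u⟩ <;>
  rcases hv' : vw s.p s.t' with ⟨w', r', t₁', t₀', v', B', G'⟩ | ⟨r', t₁', t₀'⟩ | ⟨Sp', u'⟩ <;>
  simp only [Vst, List.map_nil]
  · rw [hb.x]; rfl
  · rw [hb.x]; rfl
  · have hj := hb.jt s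
    have hf := hb.lf s
    by_cases h3 : stp.jt s
    · rw [if_pos h3, if_pos (hj.2 h3)]; rfl
    · rw [if_neg h3, if_neg (fun h => h3 (hj.1 h))]
      by_cases h4 : stp.lf s
      · rw [if_pos h4, if_pos (hf.2 h4), hb.x]; rfl
      · rw [if_neg h4, if_neg (fun h => h4 (hf.1 h)), hb.x]; rfl
  · have h3 := hn.1 s r t₁ t₀ u' Sp' hv hv'
    rw [if_neg h3, if_neg (fun h => h3 ((hb.jt s).1 h)), hb.x]; rfl
  · have h3 := hn.2 s r' t₁' t₀' u Sp hv hv'
    rw [if_neg h3, if_neg (fun h => h3 ((hb.jt s).1 h)), hb.x]; rfl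

variable [Fintype κ]

lemma Qs_R (s : St Λ κ) (R : Finset (Λ × Λ)) : Qs { stS s with R := R } = Qs { s with R := R } := by
  simp [Qs, stS]

lemma Xs_R (μ : TrG Λ κ → Finset Λ → ℝ) (B : ℝ) (s : St Λ κ) (R : Finset (Λ × Λ)) :
    Xs μ B { stS s with R := R } = Xs μ B { s with R := R } := by
  simp [Xs, Qs, stS]

lemma ex_stS (s : St Λ κ) : ex (stS s) = ex s := Qs_R s _

lemma exS_stS (q : St Λ κ) : exS (stS q) = exS q := by
  unfold exS
  by_cases h : stay q
  · rw [if_pos h, if_pos ((stay_stS q).2 h)]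
  · rw [if_neg h, if_neg (fun h' => h ((stay_stS q).1 h')), ex_stS]

lemma exsum_stS (hb : Blind stp) (hn : NoSplit stp) (s : St Λ κ) :
    ((nxt0 stp (stS s)).map fun q => q.1 * exS q.2).sum =
      ((nxt0 stp s).map fun q => q.1 * exS q.2).sum := by
  rw [nxt0_stS hb hn, List.map_map]
  congr 1
  refine List.map_congr_left fun q _ => ?_
  show q.1 * exS (stS q.2) = q.1 * exS q.2
  rw [exS_stS]

lemma Xcrs_stS (hb : Blind stp) (hn : NoSplit stp) (μ : TrG Λ κ → Finset Λ → ℝ) (B : ℝ)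
    (R : Finset (Λ × Λ)) (s : St Λ κ) :
    ((crs stp (stS s)).map fun z => Xs μ B { z with R := R }).sum =
      ((crs stp s).map fun z => Xs μ B { z with R := R }).sum := by
  rw [crs_stS hb hn, List.map_map]
  congr 1
  refine List.map_congr_left fun z _ => ?_
  exact Xs_R μ B z R

lemma eG_stS (s : St Λ κ) : eG (stS s) = eG s := by
  unfold eG
  rw [vw_stS, vw_stS']
  rcases hv : vw s.p s.t with ⟨w, r, t₁, t₀, v, B, G⟩ | ⟨r, t₁, t₀⟩ | ⟨Sp, u⟩ <;>
  rcases hv' : vw s.p s.t' with ⟨w', r', t₁', t₀', v', B', G'⟩ | ⟨r', t₁', t₀'⟩ | ⟨Sp', u'⟩ <;>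
  rfl

/-- **the error of the flagged certificate does not depend on the sets `Sp`** -/
lemma eF_stS (hb : Blind stp) (hn : NoSplit stp) (μ : TrG Λ κ → Finset Λ → ℝ)
    (ν : TrG Λ κ → ℝ) (B : ℝ) (z : Fl × St Λ κ) :
    eF stp μ ν B (stF z) = eF stp μ ν B z := by
  obtain ⟨f, s⟩ := z
  have ha : eAll stp μ ν B (stS s) = eAll stp μ ν B s := by
    obtain ⟨h1, h2, h3, h4, h5⟩ := eAll_stS hb hn μ ν B s
    unfold eAll
    rw [h1, h2, h3, h4, h5]
  cases f with
  | self => exact ha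
  | old => exact ha
  | top =>
    show eF stp μ ν B (Fl.top, stS s) = eF stp μ ν B (Fl.top, s)
    simp only [eF]
    have hl := leaf_stS s
    have h1 := exH_stS hb s
    have h2 := two_stS s
    by_cases c0 : s.t.isLeaf ∨ s.t'.isLeaf
    · rw [if_pos c0, if_pos (hl.2 c0)]
    rw [if_neg c0, if_neg (fun h => c0 (hl.1 h))]
    by_cases c1 : exH stp s
    · rw [if_pos c1, if_pos (h1.2 c1), ex_stS, ha]
    rw [if_neg c1, if_neg (fun h => c1 (h1.1 h))]
    by_cases c2 : two s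
    · rw [if_pos c2, if_pos (h2.2 c2), eG_stS]
    rw [if_neg c2, if_neg (fun h => c2 (h2.1 h)), Xcrs_stS hb hn, exsum_stS hb hn]

/-- **flagged walk sums of stripped states** -/
theorem WF_stS (hb : Blind stp) (hn : NoSplit stp) {loc : Fl × St Λ κ → ℝ}
    (hloc : ∀ z, loc (stF z) = loc z) :
    ∀ (k : ℕ) (z : Fl × St Λ κ), rkF z < k → WF stp loc (stF z) = WF stp loc z := by
  intro k
  induction k with
  | zero => intro z hz; omega
  | succ k ih =>
    intro z hz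
    rw [WF_eq0, WF_eq0, hloc, nxF0_stS hb hn, List.map_map]
    congr 2
    refine List.map_congr_left fun q hq => ?_
    have h1 := nxF0_rank stp z q hq
    show q.1 * WF stp loc (stF q.2) = q.1 * WF stp loc q.2
    rw [ih q.2 (by omega)]

theorem WF_strip (hb : Blind stp) (hn : NoSplit stp) (μ : TrG Λ κ → Finset Λ → ℝ)
    (ν : TrG Λ κ → ℝ) (B : ℝ) (z : Fl × St Λ κ) :
    WF stp (eF stp μ ν B) (stF z) = WF stp (eF stp μ ν B) z :=
  WF_stS hb hn (eF_stS hb hn μ ν B) (rkF z + 1) z (Nat.lt_succ_self _)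

/-- the flagged walk sum vanishes at leaves -/
lemma WF_leaf (μ : TrG Λ κ → Finset Λ → ℝ) (ν : TrG Λ κ → ℝ) (B : ℝ) (r : Λ → κ)
    (f : Λ → ℝ → ℝ) (A : Finset Λ) :
    WF stp (eF stp μ ν B) (Fl.self, selfSt (DT.leaf r f : DT Λ κ) A) = 0 := by
  rw [WF_eq0]
  have hl : (selfSt (DT.leaf r f : DT Λ κ) A).t.isLeaf ∨
    (selfSt (DT.leaf r f : DT Λ κ) A).t'.isLeaf := Or.inl trivial
  have e0 : eF stp μ ν B (Fl.self, selfSt (DT.leaf r f : DT Λ κ) A) = 0 := by
    show eAll stp μ ν B (selfSt (DT.leaf r f : DT Λ κ) A) = 0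
    simp [eAll, eNM, eOS, eSHR, eX, eSTOP, hl]
  have e1 : nxt0 stp (selfSt (DT.leaf r f : DT Λ κ) A) = [] := by simp [nxt0, hl]
  have e2 : nxF0 stp (Fl.self, selfSt (DT.leaf r f : DT Λ κ) A) = [] := by
    simp only [nxF0, e1, List.map_nil]
  rw [e0, e2]; simp

/-- **the flagged walk sum is an error functional of the frame** -/
theorem selfE_walkF {wr : ℕ → Λ → κ} {Ad : TrG Λ κ → Finset Λ → Prop}
    {μ : TrG Λ κ → Finset Λ → ℝ} {ν : TrG Λ κ → ℝ} {B : ℝ} (hB : 0 ≤ B)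
    (hb : Blind stp) (hn : NoSplit stp)
    (hstp : ∀ s : St Λ κ, s.O = ∅ → s.O' = ∅ → ¬ stp s)
    (hjt : ∀ (d : DT Λ κ) (A : Finset Λ), stp.jt (selfSt d A)) :
    FrameT26.SelfE wr Ad μ ν B fun d A => WF stp (eF stp μ ν B) (Fl.self, selfSt d A) := by
  refine ⟨fun n d A hS hp => selfZ_walk hB hstp hjt d n A hS hp, fun d => ?_, fun r => ?_⟩
  · have h := WF_strip hb hn μ ν B (Fl.self, selfSt d Finset.univ)
    have e : stF (Fl.self, selfSt d Finset.univ) =
        (Fl.self, selfSt (strip d) (Finset.univ : Finset Λ)) := by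
      show (Fl.self, stS (selfSt d Finset.univ)) = _
      rw [selfSt_strip]
    rw [e] at h
    exact h
  · exact le_of_eq (WF_leaf μ ν B r _ _)

end

end Crest.Agent.R4P.StripT26
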