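import Crest.Agent.R4P.TE_26
import Crest.Agent.R4P.StripT_26

/-!
R4 (S0004), POWERS, helper26, [M8]: **the walk with terminal exits does not look at the sets `Sp`**
(`eT_stS`), and its walk sum is an error functional of the frame (`selfE_walkE`).
-/

set_option autoImplicit false
set_option linter.unusedSectionVars false
set_option linter.unusedVariables false
set_option linter.unusedSimpArgs false
open MeasureTheory Filter Set

namespace Crest.Agent.R4P.StripE26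

open Crest.Agent.R4.Tour104 Crest.Agent.R4.Tour758 Crest.Agent.R4.Avg758 Crest.Agent.R4.Clos758
open Crest.Agent.R4.ClosL758 Crest.Agent.R4.ClosG758 Crest.Agent.R4.ClosR758
open Crest.Agent.R4P.ClosR442 Crest.Agent.R4P.Walk560 Crest.Agent.R4P.TWc17
open Crest.Agent.R4P.VWalk36 (crs eX_eq)
open Crest.Agent.R4P.Strip29 Crest.Agent.R4P.TW17 Crest.Agent.R4P.TE26 Crest.Agent.R4P.StripT26

section
variable {Λ κ : Type*} [Fintype Λ] [DecidableEq Λ] [DecidableEq κ] [WRel κ] [Fintype κ]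
  {stp : Stp Λ κ}

lemma xL_stS (μ : TrG Λ κ → Finset Λ → ℝ) (ν : TrG Λ κ → ℝ) (B : ℝ) (s : St Λ κ) :
    xL μ ν B (stS s) = xL μ ν B s := by
  simp [xL, Qs, stS]

lemma xLS_stS (μ : TrG Λ κ → Finset Λ → ℝ) (ν : TrG Λ κ → ℝ) (B : ℝ) (q : St Λ κ) :
    xLS μ ν B (stS q) = xLS μ ν B q := by
  unfold xLS
  by_cases h : stay q
  · rw [if_pos h, if_pos ((stay_stS q).2 h)]
  · rw [if_neg h, if_neg (fun h' => h ((stay_stS q).1 h')), xL_stS]

lemma xLsum_stS (hb : Blind stp) (hn : NoSplit stp) (μ : TrG Λ κ → Finset Λ → ℝ)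
    (ν : TrG Λ κ → ℝ) (B : ℝ) (s : St Λ κ) :
    ((nxt0 stp (stS s)).map fun q => q.1 * xLS μ ν B q.2).sum =
      ((nxt0 stp s).map fun q => q.1 * xLS μ ν B q.2).sum := by
  rw [nxt0_stS hb hn, List.map_map]
  congr 1
  refine List.map_congr_left fun q _ => ?_
  show q.1 * xLS μ ν B (stS q.2) = q.1 * xLS μ ν B q.2
  rw [xLS_stS]

/-- **the error of the certificate with terminal exits does not depend on the sets `Sp`** -/
lemma eT_stS (hb : Blind stp) (hn : NoSplit stp) (μ : TrG Λ κ → Finset Λ → ℝ)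
    (ν : TrG Λ κ → ℝ) (B : ℝ) (z : Fl × St Λ κ) :
    eT stp μ ν B (stF z) = eT stp μ ν B z := by
  obtain ⟨f, s⟩ := z
  cases f with
  | self =>
    obtain ⟨h1, h2, h3, h4, h5⟩ := eAll_stS hb hn μ ν B s
    show eAll stp μ ν B (stS s) = eAll stp μ ν B s
    unfold eAll
    rw [h1, h2, h3, h4, h5]
  | old => rfl
  | top =>
    show eT stp μ ν B (Fl.top, stS s) = eT stp μ ν B (Fl.top, s)
    simp only [eT]
    have hl := leaf_stS s
    have h1 := exH_stS hb s
    have h2 := two_stS s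
    by_cases c0 : s.t.isLeaf ∨ s.t'.isLeaf
    · rw [if_pos c0, if_pos (hl.2 c0)]
    rw [if_neg c0, if_neg (fun h => c0 (hl.1 h))]
    by_cases c1 : exH stp s
    · rw [if_pos c1, if_pos (h1.2 c1), xL_stS]
    rw [if_neg c1, if_neg (fun h => c1 (h1.1 h))]
    by_cases c2 : two s
    · rw [if_pos c2, if_pos (h2.2 c2), eG_stS]
    rw [if_neg c2, if_neg (fun h => c2 (h2.1 h)), Xcrs_stS hb hn, xLsum_stS hb hn]

theorem WF_stripE (hb : Blind stp) (hn : NoSplit stp) (μ : TrG Λ κ → Finset Λ → ℝ)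
    (ν : TrG Λ κ → ℝ) (B : ℝ) (z : Fl × St Λ κ) :
    WF stp (eT stp μ ν B) (stF z) = WF stp (eT stp μ ν B) z :=
  WF_stS hb hn (eT_stS hb hn μ ν B) (rkF z + 1) z (Nat.lt_succ_self _)

/-- the flagged walk sum vanishes at leaves -/
lemma WFE_leaf (μ : TrG Λ κ → Finset Λ → ℝ) (ν : TrG Λ κ → ℝ) (B : ℝ) (r : Λ → κ)
    (f : Λ → ℝ → ℝ) (A : Finset Λ) :
    WF stp (eT stp μ ν B) (Fl.self, selfSt (DT.leaf r f : DT Λ κ) A) = 0 := by
  rw [WF_eq0]
  have hl : (selfSt (DT.leaf r f : DT Λ κ) A).t.isLeaf ∨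
    (selfSt (DT.leaf r f : DT Λ κ) A).t'.isLeaf := Or.inl trivial
  have e0 : eT stp μ ν B (Fl.self, selfSt (DT.leaf r f : DT Λ κ) A) = 0 := by
    show eAll stp μ ν B (selfSt (DT.leaf r f : DT Λ κ) A) = 0
    simp [eAll, eNM, eOS, eSHR, eX, eSTOP, hl]
  have e1 : nxt0 stp (selfSt (DT.leaf r f : DT Λ κ) A) = [] := by simp [nxt0, hl]
  have e2 : nxF0 stp (Fl.self, selfSt (DT.leaf r f : DT Λ κ) A) = [] := by
    simp only [nxF0, e1, List.map_nil]
  rw [e0, e2]; simp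

/-- **the walk sum with terminal exits is an error functional of the frame** -/
theorem selfE_walkE {wr : ℕ → Λ → κ} {Ad : TrG Λ κ → Finset Λ → Prop}
    {μ : TrG Λ κ → Finset Λ → ℝ} {ν : TrG Λ κ → ℝ} {B : ℝ} (hB : 0 ≤ B)
    (hb : Blind stp) (hn : NoSplit stp)
    (hstp : ∀ s : St Λ κ, s.O = ∅ → s.O' = ∅ → ¬ stp s)
    (hjt : ∀ (d : DT Λ κ) (A : Finset Λ), stp.jt (selfSt d A)) :
    FrameT26.SelfE wr Ad μ ν B fun d A => WF stp (eT stp μ ν B) (Fl.self, selfSt d A) := by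
  refine ⟨fun n d A hS hp => selfZ_walkE hB hstp hjt d n A hS hp, fun d => ?_, fun r => ?_⟩
  · have h := WF_stripE hb hn μ ν B (Fl.self, selfSt d Finset.univ)
    have e : stF (Fl.self, selfSt d Finset.univ) =
        (Fl.self, selfSt (strip d) (Finset.univ : Finset Λ)) := by
      show (Fl.self, stS (selfSt d Finset.univ)) = _
      rw [selfSt_strip]
    rw [e] at h
    exact h
  · exact le_of_eq (WFE_leaf μ ν B r _ _)

end

end Crest.Agent.R4P.StripE26
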