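import Crest.Agent.R4P.CStop_25
import Crest.Agent.R4P.IvX_29
import Crest.Agent.R4P.CopM_34
import Crest.Agent.R4P.ShrG_28
import Crest.Agent.R4P.SameLf_30

/-!
R4P (S0004), helper25, module D, group [X]: **exchange of the two sides of a state of the cross walk**.

* `swS` : the state with the sides exchanged (relations `Ro r` are symmetric); `Xs_sw`, `YI_sw`, `sum_Ep_sw`;
* `swV`, `swP` : values and predicates with the sides exchanged; `SE_sw`, `pot_sw`, `FL_sw`, `VcL_sw`, `VxL_sw`, `VU_sw`;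
* `FZ_sw`, `LC_sw`, `Cop_sw`, `LkG_sw`, `PE_sw`, `LoS_sw`, `cf_sw`, `fut_sw`, `PhiM_sw`, `PhiG_sw`.
-/

set_option autoImplicit false
set_option linter.unusedSectionVars false
set_option linter.unusedVariables false
open Finset

namespace Crest.Agent.R4P.SwapX25

open Crest.Agent.R4.HVW560 Crest.Agent.R4P.AvgItem710
open Crest.Agent.R4.Tour104 Crest.Agent.R4.Tour758 Crest.Agent.R4.Avg758 Crest.Agent.R4.Clos758
open Crest.Agent.R4.ClosL758 Crest.Agent.R4.ClosG758 Crest.Agent.R4.ClosR758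
open Crest.Agent.R4.Fam464 Crest.Agent.R4P.Cnt588 Crest.Agent.R4P.Walk560 Crest.Agent.R4P.Item758
open Crest.Agent.R4P.Bld532 (NS All NodeOk Bk dv nd mem_dv mem_nd)
open Crest.Agent.R4P.GSt927 Crest.Agent.R4P.WalkIT579 Crest.Agent.R4P.NMW710
open Crest.Agent.R4P.CrossLoc25 Crest.Agent.R4P.CrossLocC25 Crest.Agent.R4P.WalkC
open Crest.Agent.R4P.CyC25 Crest.Agent.R4P.YI25
open Crest.Agent.R4P.Data758 Crest.Agent.R4.Piece464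
open Crest.Agent.R4P.BlksP29 Crest.Agent.R4P.GlueP29 Crest.Agent.R4P.IvX29
open Crest.Agent.R4P.ShrW34 Crest.Agent.R4P.ShrG28
open Crest.Agent.R4P.CofMono28 (SD)
open Crest.Agent.R4P.SameIx30 (VU Vm)

variable {Λ κ : Type*} [Fintype Λ] [DecidableEq Λ] [Fintype κ] [DecidableEq κ] [WRel κ]
  {D : Par Λ κ} {sp : ℕ → Finset Λ} {P : Bld532.Par} {W : ℕ → ℝ} {Qp : NS → IT → Prop}
  {Al : Finset ℕ} {RP : Finset (Λ × Λ) → Prop} {ρ : ℕ → ℝ}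

/-- a value with the sides exchanged -/
def swV (V : ℝ × ℝ → ℕ × ℕ → ℝ) (sc : ℝ × ℝ) (e : ℕ × ℕ) : ℝ := V (sc.2, sc.1) (e.2, e.1)

/-- a predicate with the sides exchanged -/
def swP (L : ℝ × ℝ → ℕ × ℕ → Prop) (sc : ℝ × ℝ) (e : ℕ × ℕ) : Prop := L (sc.2, sc.1) (e.2, e.1)

/-- a function of the pair with the sides exchanged -/
def swE {α : Type*} (f : ℕ × ℕ → α) (e : ℕ × ℕ) : α := f (e.2, e.1)

/-- a state with the sides exchanged -/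
def swS (s : St Λ κ) : St Λ κ := ⟨s.M', s.M, s.O', s.O, s.R, s.t', s.A', s.t, s.A⟩

lemma swS_p (s : St Λ κ) : (swS s).p = s.p := max_comm _ _

lemma swS_swS (s : St Λ κ) : swS (swS s) = s := rfl

/-- **energy** -/
lemma Qs_sw {s : St Λ κ} {r : Λ → κ} (hR : s.R = Ro r) : Qs (swS s) = Qs s := by
  unfold Qs swS
  simp only
  rw [hR, Q_Ro_swap]

lemma Xs_sw {μ : TrG Λ κ → Finset Λ → ℝ} {B : ℝ} {s : St Λ κ} {r : Λ → κ} (hR : s.R = Ro r) :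
    Xs μ B (swS s) = Xs μ B s := by
  unfold Xs
  rw [Qs_sw hR]
  show max 0 (Qs s - B * (μ s.t'.g s.A' * μ s.t.g s.A)) = _
  rw [mul_comm (μ s.t'.g s.A')]

/-- **item data** -/
lemma YI_sw {s : St Λ κ} {u u' : NS} {τ τ' : IT} (h : YI D sp Qp RP s u u' τ τ') :
    YI D sp Qp RP (swS s) u' u τ' τ where
  L := h.R
  R := h.L
  mL := by rw [swS_p]; exact h.mR
  mR := by rw [swS_p]; exact h.mL
  circ := h.circ.symm
  lv := by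
    obtain ⟨m, h1, h2, h3, h4⟩ := h.lv
    exact ⟨m, h2, h1, h4, h3⟩
  rp := h.rp

/-- **sums over the item pairs** -/
lemma sum_Ep_sw (s : St Λ κ) (τ τ' : IT) (F : ℕ × ℕ → ℝ) :
    ∑ e ∈ Ep D Al (swS s) τ' τ, F e = ∑ e ∈ Ep D Al s τ τ', F (e.2, e.1) :=
  sum_prod_swap _ _ _

lemma mem_Ep_sw {s : St Λ κ} {τ τ' : IT} {e : ℕ × ℕ} :
    e ∈ Ep D Al (swS s) τ' τ ↔ (e.2, e.1) ∈ Ep D Al s τ τ' := by
  show e ∈ Qi D Al τ' s.A' ×ˢ Qi D Al τ s.A ↔ (e.2, e.1) ∈ Qi D Al τ s.A ×ˢ Qi D Al τ' s.A'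
  rw [Finset.mem_product, Finset.mem_product]
  exact and_comm

/-- **scale pairs** -/
lemma SE_sw (M b pr M' b' pr' : ℕ) (e : ℕ × ℕ) : SE M' b' pr' M b pr (e.2, e.1) =
    ((SE M b pr M' b' pr' e).2, (SE M b pr M' b' pr' e).1) := by
  show sc (sd (e.2 / pr') M' (b' : ℝ)) (sd (e.1 / pr) M (b : ℝ)) = _
  exact sc_swap _ _

lemma SE_pos' (M b pr M' b' pr' : ℕ) (e : ℕ × ℕ) : 0 ≤ (SE M b pr M' b' pr' e).2 := by
  have h := SE_pos M' b' pr' M b pr (e.2, e.1)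
  rw [SE_sw] at h
  exact h

lemma XC_sw {l M pr M' pr' : ℕ} {τ τ' : IT} {e : ℕ × ℕ} :
    XC l M' pr' M pr τ' τ (e.2, e.1) ↔ XC l M pr M' pr' τ τ' e := by
  unfold XC
  simp only
  exact or_comm

/-- values which agree at the scale pair give the same potential -/
lemma pot_congr {Vs Vs' : ℝ × ℝ → ℕ × ℕ → ℝ} {Vc Vc' Vx Vx' : ℕ → ℝ × ℝ → ℕ × ℕ → ℝ}
    {M b pr M' b' pr' : ℕ} {τ τ' : IT} {e : ℕ × ℕ}
    (h0 : Vs (SE M b pr M' b' pr' e) e = Vs' (SE M b pr M' b' pr' e) e)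
    (h1 : ∀ l, Vc l (SE M b pr M' b' pr' e) e = Vc' l (SE M b pr M' b' pr' e) e)
    (h2 : ∀ l, Vx l (SE M b pr M' b' pr' e) e = Vx' l (SE M b pr M' b' pr' e) e) :
    pot Vs Vc Vx M b pr M' b' pr' τ τ' e = pot Vs' Vc' Vx' M b pr M' b' pr' τ τ' e := by
  unfold pot cT
  rw [h0]
  simp only [h1, h2]

/-- **the potential** -/
theorem pot_sw (Vs : ℝ × ℝ → ℕ × ℕ → ℝ) (Vc Vx : ℕ → ℝ × ℝ → ℕ × ℕ → ℝ)
    (M b pr M' b' pr' : ℕ) (τ τ' : IT) (e : ℕ × ℕ) :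
    pot (swV Vs) (fun l => swV (Vc l)) (fun l => swV (Vx l)) M' b' pr' M b pr τ' τ (e.2, e.1) =
      pot Vs Vc Vx M b pr M' b' pr' τ τ' e := by
  classical
  unfold pot
  rw [SE_sw]
  rw [mul_comm (b' : ℝ), Finset.union_comm]
  congr 2
  refine Finset.sum_congr rfl fun l _ => ?_
  unfold cT
  rw [SE_sw]
  show 2 * Vc l (SE M b pr M' b' pr' e) e + _ = _
  congr 1
  by_cases h : XC l M pr M' pr' τ τ' e
  · rw [if_pos h, if_pos (XC_sw.2 h)]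
    rfl
  · rw [if_neg h, if_neg (fun h' => h (XC_sw.1 h'))]

theorem potS_sw (Vs : ℝ × ℝ → ℕ × ℕ → ℝ) (Vc Vx : ℕ → ℝ × ℝ → ℕ × ℕ → ℝ) (s : St Λ κ)
    (u u' : NS) (τ τ' : IT) (e : ℕ × ℕ) :
    potS (swV Vs) (fun l => swV (Vc l)) (fun l => swV (Vx l)) (swS s) u' u τ' τ (e.2, e.1) =
      potS Vs Vc Vx s u u' τ τ' e := pot_sw _ _ _ _ _ _ _ _ _ _ _ _

open Classical in
/-- **low part** -/
lemma FL_sw (Lo : ℝ × ℝ → ℕ × ℕ → Prop) (ρ : ℕ → ℝ) (γ : ℝ) {s : ℝ × ℝ} (h1 : 0 ≤ s.1)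
    (h2 : 0 ≤ s.2) (e : ℕ × ℕ) :
    FL (swP Lo) ρ γ (s.2, s.1) (e.2, e.1) = FL Lo ρ γ s e := by
  unfold FL
  show (if Lo s e ∧ 0 ≤ s.2 then Fsc γ (ρ e.2) (ρ e.1) (s.2, s.1) else 0) = _
  rw [Fsc_swap]
  by_cases h : Lo s e
  · rw [if_pos ⟨h, h2⟩, if_pos ⟨h, h1⟩]
  · rw [if_neg (fun k => h k.1), if_neg (fun k => h k.1)]

/-- column values at a scale pair -/
lemma VcL_sw (Pc : ℕ → ℕ × ℕ → Prop) (γ : ℝ) (ρ : ℕ → ℝ) (Lo : ℝ × ℝ → ℕ × ℕ → Prop) (l : ℕ)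
    {s : ℝ × ℝ} (h1 : 0 ≤ s.1) (h2 : 0 ≤ s.2) (e : ℕ × ℕ) :
    VcL (fun l => swE (Pc l)) γ ρ (swP Lo) l (s.2, s.1) (e.2, e.1) = VcL Pc γ ρ Lo l s e := by
  unfold VcL
  rw [FL_sw Lo ρ γ h1 h2]
  rfl

open Classical in
lemma VxL_sw (Px : ℕ → ℕ × ℕ → Prop) (γ : ℝ) (ρ : ℕ → ℝ) (Lo : ℝ × ℝ → ℕ × ℕ → Prop) (l : ℕ)
    {s : ℝ × ℝ} (h1 : 0 ≤ s.1) (h2 : 0 ≤ s.2) (e : ℕ × ℕ) :
    VxL (fun l => swE (Px l)) γ ρ (swP Lo) l (s.2, s.1) (e.2, e.1) = VxL Px γ ρ Lo l s e := by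
  have hl : (0:ℝ) ≤ l := Nat.cast_nonneg l
  have key := FL_sw Lo ρ γ (s := (l * s.1, l * s.2)) (mul_nonneg hl h1) (mul_nonneg hl h2) e
  unfold VxL
  show (if Px l e then FL (swP Lo) ρ γ (l * s.2, l * s.1) (e.2, e.1) else 0) = _
  simp only at key
  rw [key]

/-- **the potential with the concrete values** -/
theorem potL_sw {Vs Vs' : ℝ × ℝ → ℕ × ℕ → ℝ} (Pc Px : ℕ → ℕ × ℕ → Prop) (γ : ℝ) (ρ : ℕ → ℝ)
    (Lo : ℝ × ℝ → ℕ × ℕ → Prop) (M b pr M' b' pr' : ℕ) (τ τ' : IT) (e : ℕ × ℕ)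
    (h0 : Vs' ((SE M b pr M' b' pr' e).2, (SE M b pr M' b' pr' e).1) (e.2, e.1) =
      Vs (SE M b pr M' b' pr' e) e) :
    pot Vs' (VcL (fun l => swE (Pc l)) γ ρ (swP Lo)) (VxL (fun l => swE (Px l)) γ ρ (swP Lo))
      M' b' pr' M b pr τ' τ (e.2, e.1) =
      pot Vs (VcL Pc γ ρ Lo) (VxL Px γ ρ Lo) M b pr M' b' pr' τ τ' e := by
  rw [← pot_sw Vs (VcL Pc γ ρ Lo) (VxL Px γ ρ Lo)]
  have p1 := SE_pos M b pr M' b' pr' e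
  have p2 := SE_pos' M b pr M' b' pr' e
  refine pot_congr ?_ (fun l => ?_) fun l => ?_
  · rw [SE_sw, h0]
    rfl
  · rw [SE_sw, VcL_sw Pc γ ρ Lo l p1 p2]
    rfl
  · rw [SE_sw, VxL_sw Px γ ρ Lo l p1 p2]
    rfl

open Classical in
/-- values of the merges -/
lemma Vm_sw (PP : ℕ × ℕ → Prop) (ρ : ℕ → ℝ) {s : ℝ × ℝ} (h1 : 0 ≤ s.1) (h2 : 0 ≤ s.2)
    (e : ℕ × ℕ) : Vm (swE PP) ρ (s.2, s.1) (e.2, e.1) = Vm PP ρ s e := by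
  unfold Vm
  show (if PP e ∧ 0 ≤ s.2 then 2 * (ρ e.2 * ρ e.1 / Dsc (ρ e.2) (ρ e.1) (s.2, s.1)) else 0) = _
  rw [Dsc_swap, mul_comm (ρ e.2)]
  by_cases h : PP e
  · rw [if_pos ⟨h, h2⟩, if_pos ⟨h, h1⟩]
  · rw [if_neg (fun k => h k.1), if_neg (fun k => h k.1)]

open Classical in
lemma VU_sw (PP : ℕ × ℕ → Prop) (Lo : ℝ × ℝ → ℕ × ℕ → Prop) (ρ : ℕ → ℝ) (γ : ℝ) {s : ℝ × ℝ}
    (h1 : 0 ≤ s.1) (h2 : 0 ≤ s.2) (e : ℕ × ℕ) :
    VU (swE PP) (swP Lo) ρ γ (s.2, s.1) (e.2, e.1) = VU PP Lo ρ γ s e := by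
  unfold VU
  show (if PP e then FL (swP Lo) ρ γ (s.2, s.1) (e.2, e.1) +
    Vm (swE PP) ρ (s.2, s.1) (e.2, e.1) else 0) = _
  rw [FL_sw Lo ρ γ h1 h2, Vm_sw PP ρ h1 h2]

/-- **pairs which count** -/
lemma PE_sw {R : Finset (Λ × Λ)} {r : Λ → κ} (hR : R = Ro r) {φ ψ : Λ → ℝ → ℝ} {e : ℕ × ℕ} :
    (e.2, e.1) ∈ D.PE R ψ φ ↔ e ∈ D.PE R φ ψ := by
  have hsym : ∀ j j' : Λ, (j, j') ∈ R → (j', j) ∈ R := by
    intro j j' h
    rw [hR, mem_Ro] at h ⊢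
    exact WRel.symm h
  have hI : ∀ j j' : Λ, I (fun y => φ j y * ψ j' y) = I (fun y => ψ j' y * φ j y) := by
    intro j j'
    congr 1
    funext y
    exact mul_comm _ _
  rw [Par.mem_PE, Par.mem_PE]
  constructor
  · rintro ⟨j, j', h1, h2, h3, h4⟩
    exact ⟨j', j, hsym _ _ h1, by rw [hI]; exact h2, h4, h3⟩
  · rintro ⟨j, j', h1, h2, h3, h4⟩
    exact ⟨j', j, hsym _ _ h1, by rw [← hI]; exact h2, h4, h3⟩

/-- **the common predicate** -/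
lemma LkG_sw {s₀ : ℝ × ℝ} {l : ℕ} {e : ℕ × ℕ} (h : LkG D Qp s₀ l e) :
    LkG D Qp (s₀.2, s₀.1) l (e.2, e.1) := by
  obtain ⟨M, v, t, A, c, M', v', t', A', c', h1, h2, h3, h4, h5⟩ := h
  refine ⟨M', v', t', A', c', M, v, t, A, c, h2, h1, h3.symm, ?_, (PE_sw rfl).2 h5⟩
  rw [SE_sw, h4]

lemma SD_comm (x y : ℕ) (T : ℝ) : SD x y T = SD y x T := by
  unfold CofMono28.SD
  rw [mul_comm]

lemma LoS_sw {Lo : ℝ × ℝ → ℕ × ℕ → Prop} {x0 y0 : ℕ × ℕ → ℕ} {T : ℝ}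
    (h : HiLeafS28.LoS Lo ρ x0 y0 T) : HiLeafS28.LoS (swP Lo) ρ (swE y0) (swE x0) T where
  T := fun s e hn => by
    have := h.T (s.2, s.1) (e.2, e.1) hn
    simp only at this
    rwa [Dsc_swap] at this
  sd := fun s e hn => by
    have := h.sd (s.2, s.1) (e.2, e.1) hn
    simp only at this
    rw [Dsc_swap, SD_comm] at this
    exact this

lemma LoX_sw {Lo : ℝ × ℝ → ℕ × ℕ → Prop} {x0 y0 : ℕ × ℕ → ℕ}
    (h : TBLeaf28.LoX Lo ρ x0 y0) : TBLeaf28.LoX (swP Lo) ρ (swE y0) (swE x0) where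
  two := fun s e hn => by
    have := h.two (s.2, s.1) (e.2, e.1) hn
    simp only at this
    rwa [Dsc_swap] at this
  sd := fun s e hn => by
    have := h.sd (s.2, s.1) (e.2, e.1) hn
    simp only at this
    rw [Dsc_swap, SD_comm] at this
    exact this

lemma JC_sw {x0 y0 : ℕ × ℕ → ℕ} {M pr M' pr' : ℕ} {e : ℕ × ℕ}
    (h : TBLeaf28.JC x0 y0 M pr M' pr' e) : TBLeaf28.JC (swE y0) (swE x0) M' pr' M pr (e.2, e.1) :=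
  ⟨h.py, h.px, h.y, h.x⟩

/-- the threshold of the stops -/
lemma LoSt_sw {T : ℝ} {p0 : ℕ} {x0 y0 : ℕ × ℕ → ℕ} (s : ℝ × ℝ) (e : ℕ × ℕ) :
    swP (StopLeaf28.LoSt T p0 ρ x0 y0) s e ↔ StopLeaf28.LoSt T p0 ρ (swE y0) (swE x0) s e := by
  unfold swP StopLeaf28.LoSt swE
  simp only [Dsc_swap, SD_comm (x0 (e.2, e.1))]

/-! ### invariants of the walk -/

section inv
variable {b Mz Mz' : ℕ} {x0 y0 g g' : ℕ × ℕ → ℕ} {s : St Λ κ} {u u' : NS} {τ τ' : IT}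

lemma FZ_sw (h : CStop25.FZ D Al b Mz Mz' x0 y0 g g' s u u' τ τ') :
    CStop25.FZ D Al b Mz' Mz (swE y0) (swE x0) (swE g') (swE g) (swS s) u' u τ' τ where
  pb := by rw [swS_p]; exact h.pb
  se := fun e he => by
    have h1 := h.se _ (mem_Ep_sw.1 he)
    have h2 := SE_sw s.M u.B u.A s.M' u'.B u'.A (e.2, e.1)
    show SE s.M' u'.B u'.A s.M u.B u.A e = _
    rw [show e = ((e.2, e.1).2, (e.2, e.1).1) from rfl, h2, h1]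
    rfl
  pos := fun e he => by
    obtain ⟨h1, h2⟩ := h.pos _ (mem_Ep_sw.1 he)
    exact ⟨h2, h1⟩
  nd := fun e he l hl hlb => by
    obtain ⟨h1, h2⟩ := h.nd _ (mem_Ep_sw.1 he) l hl hlb
    exact ⟨h2, h1⟩
  us := fun l hl hlb => by
    obtain ⟨h1, h2⟩ := h.us l hl hlb
    exact ⟨h2, h1⟩

lemma LC_sw (h : LC D s) : LC D (swS s) := by
  obtain ⟨l, h1, h2, h3⟩ := h
  exact ⟨l, h1, h2, by rw [swS_p]; exact h3⟩

lemma Cop_sw (h : CopM34.Cop s) : CopM34.Cop (swS s) := Nat.Coprime.symm h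

end inv

/-! ### merges -/

section mg
variable {mtt : ℕ → Finset ℕ} {rg : ℕ → ℕ} {s : St Λ κ} {u u' : NS} {τ τ' : IT}

lemma Ro_symm {r : Λ → κ} {j j' : Λ} (h : (j, j') ∈ Ro r) : (j', j) ∈ Ro r := by
  rw [mem_Ro] at h ⊢
  exact WRel.symm h

lemma Cln_sw {r : Λ → κ} (hR : s.R = Ro r) {e : ℕ × ℕ} (h : Cln D s e) :
    Cln D (swS s) (e.2, e.1) := by
  intro j j' hj hj' hm
  rw [swS_p]
  refine Ro_symm (h j' j hj' hj ?_)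
  have hm' : (j, j') ∈ s.R := hm
  rw [hR] at hm' ⊢
  exact Ro_symm hm'

lemma cf_sw {r : Λ → κ} (hR : s.R = Ro r) (e : ℕ × ℕ) :
    ShrW34.cf D (swS s) (e.2, e.1) = ShrW34.cf D s e := by
  unfold ShrW34.cf
  by_cases h : Cln D s e
  · rw [if_pos h, if_pos (Cln_sw hR h)]
  · rw [if_neg h, if_neg]
    intro h'
    have := Cln_sw (s := swS s) hR h'
    rw [swS_swS] at this
    exact h this

lemma fut_sw (U : ℕ → ℝ) (p : ℕ) (e : ℕ × ℕ) :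
    fut mtt rg U p (e.2, e.1) = fut mtt rg U p e := by
  unfold fut
  simp only
  ring

lemma PhiG_sw (H : ℕ → ℝ) {r : Λ → κ} (hR : s.R = Ro r) (e : ℕ × ℕ) :
    PhiG D W mtt rg H (swS s) u' u τ' τ (e.2, e.1) = PhiG D W mtt rg H s u u' τ τ' e := by
  unfold PhiG
  rw [cf_sw hR, swS_p, fut_sw]
  unfold pm
  simp only
  ring

lemma PhiM_congr {U U' : ℕ → ℝ × ℝ → ℕ × ℕ → ℝ} {e : ℕ × ℕ}
    (h : ∀ k, U k (SE s.M u.B u.A s.M' u'.B u'.A e) e = U' k (SE s.M u.B u.A s.M' u'.B u'.A e) e) :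
    PhiM D mtt rg U s u u' τ τ' e = PhiM D mtt rg U' s u u' τ τ' e := by
  unfold PhiM
  simp only [h]

/-- **values `V'` which are the exchanged ones at the scale pair** -/
lemma PhiM_sw {V V' : ℝ × ℝ → ℕ × ℕ → ℝ} {r : Λ → κ} (hR : s.R = Ro r) (e : ℕ × ℕ)
    (h : V' ((SE s.M u.B u.A s.M' u'.B u'.A e).2, (SE s.M u.B u.A s.M' u'.B u'.A e).1)
      (e.2, e.1) = V (SE s.M u.B u.A s.M' u'.B u'.A e) e) :
    PhiM D mtt rg (fun _ => V') (swS s) u' u τ' τ (e.2, e.1) =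
      PhiM D mtt rg (fun _ => V) s u u' τ τ' e := by
  have e1 : SE (swS s).M u'.B u'.A (swS s).M' u.B u.A (e.2, e.1) =
      ((SE s.M u.B u.A s.M' u'.B u'.A e).2, (SE s.M u.B u.A s.M' u'.B u'.A e).1) :=
    SE_sw _ _ _ _ _ _ _
  unfold PhiM
  simp only [e1, h]
  rw [cf_sw hR, swS_p, fut_sw, mul_comm (u'.B : ℝ)]

end mg

end Crest.Agent.R4P.SwapX25
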