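import Crest.Agent.R4P.TWdef_17
import Crest.Agent.R4P.WalkB560

/-!
R4 (S0004), powers, helper17, [W-eSHR] / M6 (TOP walk), part 3: **the flagged walk is a certificate**.

* `step_cert` : one step of the pair walk with the relation `f.R s.R` (`univ` at the top states);
* `walk_certF` : the flagged walk is a certificate `PWRz` with error `WF (eF ..)`;
* `selfZ_walk`, **`closure_walkF`** : the closure theorem.
-/

set_option autoImplicit false
set_option linter.unusedSectionVars false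
set_option linter.unusedVariables false
set_option linter.unusedSimpArgs false
open MeasureTheory Filter Set

namespace Crest.Agent.R4P.TW17

open Crest.Agent.R4.Tour104 Crest.Agent.R4.Tour758 Crest.Agent.R4.Avg758 Crest.Agent.R4.Clos758
open Crest.Agent.R4.ClosL758 Crest.Agent.R4.ClosG758 Crest.Agent.R4.ClosR758
open Crest.Agent.R4P.ClosR442 Crest.Agent.R4P.ClosP542 Crest.Agent.R4P.Walk560
open Crest.Agent.R4P.TWc17
open Crest.Agent.R4P.VWalk36 (crs eX_eq)
open Crest.Agent.R4P.Mrg35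

variable {Λ κ : Type*} [Fintype Λ] [DecidableEq Λ] [DecidableEq κ] [WRel κ] [Fintype κ]

/-- the class relation of a flag -/
noncomputable def Fl.Z : Fl → Finset (κ × κ)
  | .top => Finset.univ
  | _ => orel κ

/-- the effective relation of a flag -/
def Fl.R (f : Fl) (R : Finset (Λ × Λ)) : Finset (Λ × Λ) :=
  match f with
  | .top => Finset.univ
  | _ => R

lemma Fl.ZS (f : Fl) : ZS (f.Z : Finset (κ × κ)) := by
  cases f with
  | self => exact ZS_orel
  | top => exact ZS_univ
  | old => exact ZS_orel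

lemma Fl.R_Ro (f : Fl) (r : Λ → κ) : f.R (Ro r) = Rz f.Z r := by
  cases f with
  | self => exact (Rz_orel r).symm
  | top => exact (Rz_univ r).symm
  | old => exact (Rz_orel r).symm

section
variable {wr : ℕ → Λ → κ} {Ad : TrG Λ κ → Finset Λ → Prop}
  {μ : TrG Λ κ → Finset Λ → ℝ} {ν : TrG Λ κ → ℝ} {n : ℕ} {B : ℝ}

/-! ### one-sided rules, either child goes on -/

lemma decLz {M M' : ℕ} {R : Finset (Λ × Λ)} (hB : 0 ≤ B) {r : Λ → κ} {t₁ t₀ t' : TrG Λ κ}
    {A A' : Finset Λ} {e₀ x e : ℝ}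
    (hN : (TrG.add r t₁ t₀).All (AdN Ad)) (hm : (TrG.add r t₁ t₀).All (MassOk Ad μ ν))
    (hm' : t'.All (MassOk Ad μ ν))
    (hA : Ad (TrG.add r t₁ t₀) A) (hA' : Ad t' A') (hE : Ad t' ∅)
    (h₀ : PWRz Ad μ ν B M M' R t₀ A t' A' e₀)
    (hx : Q R (avg M (rv A t₁.val)) (avg M' (rv A' t'.val)) ≤ B * (μ t₁ A * μ t' A') + x)
    (he : e₀ + x ≤ e) : PWRz Ad μ ν B M M' R (.add r t₁ t₀) A t' A' e := by
  have hd : Dec Ad (TrG.add r t₁ t₀) A t₁ A t₀ A := Dec.add
  have ad := hd.ad hN hA
  have n0 := (hd.all hm).2.self.base.nn _ ad.2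
  have nE := hm'.self.base.nn _ hE
  refine PWRz.dec (x₁₀ := x) (x₀₁ := 0) (e₁ := 0) (e₀ := e₀) hd
    (Dec.set (A₁ := ∅) (A₀ := A') (by simp) (Finset.disjoint_empty_left _) hE hA')
    (PWRz.emptyR hB (hd.all hm).1.self hm'.self ad.1 hE) h₀ hx ?_ (by linarith)
  rw [Q_empty_right]; positivity

lemma decRz {M M' : ℕ} {R : Finset (Λ × Λ)} (hB : 0 ≤ B) {r : Λ → κ} {t t₁' t₀' : TrG Λ κ}
    {A A' : Finset Λ} {e₀ x e : ℝ}
    (hN' : (TrG.add r t₁' t₀').All (AdN Ad)) (hm : t.All (MassOk Ad μ ν))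
    (hm' : (TrG.add r t₁' t₀').All (MassOk Ad μ ν))
    (hA : Ad t A) (hA' : Ad (TrG.add r t₁' t₀') A') (hE : Ad t ∅)
    (h₀ : PWRz Ad μ ν B M M' R t A t₀' A' e₀)
    (hx : Q R (avg M (rv A t.val)) (avg M' (rv A' t₁'.val)) ≤ B * (μ t A * μ t₁' A') + x)
    (he : e₀ + x ≤ e) : PWRz Ad μ ν B M M' R t A (.add r t₁' t₀') A' e := by
  have hd : Dec Ad (TrG.add r t₁' t₀') A' t₁' A' t₀' A' := Dec.add
  have ad := hd.ad hN' hA'
  have n0 := (hd.all hm').2.self.base.nn _ ad.2
  have nE := hm.self.base.nn _ hE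
  refine PWRz.dec (x₁₀ := 0) (x₀₁ := x) (e₁ := 0) (e₀ := e₀)
    (Dec.set (A₁ := ∅) (A₀ := A) (by simp) (Finset.disjoint_empty_left _) hE hA) hd
    (PWRz.emptyL hB hm.self (hd.all hm').1.self ad.1 hE) h₀ ?_ hx (by linarith)
  rw [Q_empty_left]; positivity

/-- the left add node is processed, partner whole -/
lemma oneLz {stp : Stp Λ κ} (hB : 0 ≤ B) {s : St Λ κ} {p : ℕ} {r : Λ → κ} {t₁ t₀ : DT Λ κ}
    (R : Finset (Λ × Λ))
    (hs : s.t = .add p r t₁ t₀) (hL : Side wr Ad μ ν n s.t s.A) (hR : Side wr Ad μ ν n s.t' s.A')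
    {e₁ : ℝ} (c : PWRz Ad μ ν B s.M s.M' R (stp.c s t₁ t₀).g s.A s.t'.g s.A' e₁) :
    PWRz Ad μ ν B s.M s.M' R s.t.g s.A s.t'.g s.A'
      (e₁ + Xs μ B { s with R := R, t := stp.x s t₁ t₀ }) := by
  have gL : s.t.g.All (AdN Ad) := (hL.wf.mono fun d hd => hd.adN).g
  have mL : s.t.g.All (MassOk Ad μ ν) := (hL.wf.mono fun d hd => hd.mass).g
  have mR : s.t'.g.All (MassOk Ad μ ν) := (hR.wf.mono fun d hd => hd.mass).g
  have ER := hR.wf.self.adE
  have aL := hL.ad
  have hX := Qs_le_Xs μ B { s with R := R, t := stp.x s t₁ t₀ }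
  have eg : s.t.g = TrG.add r t₁.g t₀.g := congrArg DT.g hs
  rw [eg] at gL mL aL ⊢
  rcases stp.c_or s t₁ t₀ with ⟨hc, hx⟩ | ⟨hc, hx⟩
  · rw [hc] at c
    rw [hx] at hX ⊢
    exact PWRz.decL hB gL mL mR aL hR.ad ER Dec.add c hX le_rfl
  · rw [hc] at c
    rw [hx] at hX ⊢
    exact decLz hB gL mL mR aL hR.ad ER c hX le_rfl

/-- the right add node is processed, partner whole -/
lemma oneRz {stp : Stp Λ κ} (hB : 0 ≤ B) {s : St Λ κ} {p : ℕ} {r : Λ → κ} {t₁ t₀ : DT Λ κ}
    (R : Finset (Λ × Λ))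
    (hs : s.t' = .add p r t₁ t₀) (hL : Side wr Ad μ ν n s.t s.A) (hR : Side wr Ad μ ν n s.t' s.A')
    {e₁ : ℝ} (c : PWRz Ad μ ν B s.M s.M' R s.t.g s.A (stp.c s t₁ t₀).g s.A' e₁) :
    PWRz Ad μ ν B s.M s.M' R s.t.g s.A s.t'.g s.A'
      (e₁ + Xs μ B { s with R := R, t' := stp.x s t₁ t₀ }) := by
  have gR : s.t'.g.All (AdN Ad) := (hR.wf.mono fun d hd => hd.adN).g
  have mL : s.t.g.All (MassOk Ad μ ν) := (hL.wf.mono fun d hd => hd.mass).g
  have mR : s.t'.g.All (MassOk Ad μ ν) := (hR.wf.mono fun d hd => hd.mass).g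
  have EL := hL.wf.self.adE
  have aR := hR.ad
  have hX := Qs_le_Xs μ B { s with R := R, t' := stp.x s t₁ t₀ }
  have eg : s.t'.g = TrG.add r t₁.g t₀.g := congrArg DT.g hs
  rw [eg] at gR mR aR ⊢
  rcases stp.c_or s t₁ t₀ with ⟨hc, hx⟩ | ⟨hc, hx⟩
  · rw [hc] at c
    rw [hx] at hX ⊢
    exact PWRz.decR hB gR mL mR hL.ad aR EL Dec.add c hX le_rfl
  · rw [hc] at c
    rw [hx] at hX ⊢
    exact decRz hB gR mL mR hL.ad aR EL c hX le_rfl

/-! ### one step -/

open Classical in
/-- relation change of a column step -/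
noncomputable def shZ (f : Fl) (s : St Λ κ) : Vw Λ κ → ℝ
  | .br _ r _ _ _ _ _ => Qs { s with R := f.R s.R \ f.R (Ro r) }
  | _ => 0

open Classical in
/-- error of one step with the relation of the flag -/
noncomputable def eZ (stp : Stp Λ κ) (μ : TrG Λ κ → Finset Λ → ℝ) (B : ℝ) (f : Fl)
    (s : St Λ κ) : ℝ :=
  if s.isPL then shZ f s (vw s.p s.t) else if s.isPR then shZ f s (vw s.p s.t') else
  match vw s.p s.t, vw s.p s.t' with
  | .br _ r _ _ _ _ G, .br _ _ _ _ _ _ G' =>
      Q f.Z (avg s.M (rk s.A r G)) (avg s.M' (rk s.A' r G')) +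
        Qs { s with R := f.R s.R \ f.R (Ro r) }
  | .br _ r _ _ _ _ G, .up _ _ =>
      os f.Z s.p (avg s.M (rk s.A r G)) (sm r (avg s.M' (rv s.A' s.t'.g.val))) +
        Qs { s with R := f.R s.R \ f.R (Ro r) }
  | .up _ _, .br _ r _ _ _ _ G =>
      os f.Z s.p (avg s.M' (rk s.A' r G)) (sm r (avg s.M (rv s.A s.t.g.val))) +
        Qs { s with R := f.R s.R \ f.R (Ro r) }
  | .br _ _ _ _ _ _ _, .add _ t₁' t₀' => Xs μ B { s with R := f.R s.R, t' := stp.x s t₁' t₀' }
  | .add _ t₁ t₀, .br _ _ _ _ _ _ _ => Xs μ B { s with R := f.R s.R, t := stp.x s t₁ t₀ }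
  | .add _ t₁ t₀, .add _ t₁' t₀' =>
      if stp.jt s then
        Xs μ B { s with R := f.R s.R, t := t₁, t' := t₀' } +
          Xs μ B { s with R := f.R s.R, t := t₀, t' := t₁' }
      else if stp.lf s then Xs μ B { s with R := f.R s.R, t := stp.x s t₁ t₀ }
      else Xs μ B { s with R := f.R s.R, t' := stp.x s t₁' t₀' }
  | .add _ t₁ t₀, .up Sp u =>
      if stp.jt s then
        Xs μ B { s with R := f.R s.R, t := t₁, t' := u, A' := s.A' \ Sp } +
          Xs μ B { s with R := f.R s.R, t := t₀, t' := u, A' := s.A' ∩ Sp }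
      else Xs μ B { s with R := f.R s.R, t := stp.x s t₁ t₀ }
  | .up Sp u, .add _ t₁' t₀' =>
      if stp.jt s then
        Xs μ B { s with R := f.R s.R, t := u, A := s.A ∩ Sp, t' := t₀' } +
          Xs μ B { s with R := f.R s.R, t := u, A := s.A \ Sp, t' := t₁' }
      else Xs μ B { s with R := f.R s.R, t' := stp.x s t₁' t₀' }
  | .up _ _, .up _ _ => 0

set_option maxHeartbeats 4000000 in
/-- **one step of the pair walk with the relation of the flag** -/
theorem step_cert {stp : Stp Λ κ} (hB : 0 ≤ B) (f : Fl) {F : St Λ κ → ℝ} {s : St Λ κ}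
    (h : Inv wr Ad μ ν n s) (h1 : ¬ (s.t.isLeaf ∨ s.t'.isLeaf)) (h2 : ¬ stp s)
    (hcont : ∀ q ∈ nxt0 stp s, PWRz Ad μ ν B q.2.M q.2.M' (f.R q.2.R) q.2.t.g q.2.A q.2.t'.g
      q.2.A' (F q.2)) :
    PWRz Ad μ ν B s.M s.M' (f.R s.R) s.t.g s.A s.t'.g s.A'
      (eZ stp μ B f s + ((nxt0 stp s).map fun q => q.1 * F q.2).sum) := by
  have h1' := h1
  rw [not_or] at h1'
  obtain ⟨hpp, hpn⟩ := p_prime h h1'.1 h1'.2
  have hL := h.L
  have hR := h.R
  have hpL : s.t.top ≤ s.p := le_max_left _ _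
  have hpR : s.t'.top ≤ s.p := le_max_right _ _
  have hZ := Fl.ZS (κ := κ) f
  by_cases hPL : s.isPL
  · obtain ⟨w, r, t₁, t₀, v, B₁, G, hv, et, h3⟩ := St.isPL_cases hPL
    have e0 : eZ stp μ B f s = Qs { s with R := f.R s.R \ f.R (Ro r) } := by
      simp [eZ, hPL, shZ, hv]
    have eg : s.t.g = TrG.br s.p w r t₁.g t₀.g v B₁ G := congrArg DT.g et
    have hpul : PulN s.t := hL.wf.self.pul
    rw [et] at hpul
    rcases h3 with ⟨hd, e⟩ | ⟨hd, hw, e⟩
    · have e1 : nxt0 stp s = [(1 - w, s.fL r t₁), (w, s.fL r t₀)] := by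
        simp [nxt0, h1, h2, hPL, e]
      rw [e1] at hcont
      have c1 := hcont _ (List.mem_cons_self)
      have c0 := hcont _ (List.mem_cons_of_mem _ (List.mem_cons_self))
      rw [e0, e1]
      have e2 : f.R (s.fL r t₁).R = Rz f.Z r := Fl.R_Ro f r
      have e3 : f.R (s.fL r t₀).R = Rz f.Z r := Fl.R_Ro f r
      simp only [e2, e3] at c1 c0
      have key : PWRz Ad μ ν B (s.p * (s.M / s.p)) s.M' (Rz f.Z r)
          (TrG.br s.p w r t₁.g t₀.g v B₁ G) s.A s.t'.g s.A' _ :=
        PWRz.fcL (w := w) hZ c1 c0 le_rfl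
      rw [← eg, Nat.mul_div_cancel' hd] at key
      refine PWRz.shrink key ?_
      rw [← Fl.R_Ro f r]
      simp only [List.map_cons, List.map_nil, List.sum_cons, List.sum_nil, Qs]
      linarith
    · have e1 : nxt0 stp s = [(1 - w, s.pL r t₁), (w, s.pL r t₀)] := by
        simp [nxt0, h1, h2, hPL, e]
      rw [e1] at hcont
      have c1 := hcont _ (List.mem_cons_self)
      have c0 := hcont _ (List.mem_cons_of_mem _ (List.mem_cons_self))
      rw [e0, e1]
      have cL : Nat.Coprime s.p s.M := (Nat.Prime.coprime_iff_not_dvd hpp).2 hd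
      have e2 : f.R (s.pL r t₁).R = Rz f.Z r := Fl.R_Ro f r
      have e3 : f.R (s.pL r t₀).R = Rz f.Z r := Fl.R_Ro f r
      simp only [e2, e3] at c1 c0
      have key : PWRz Ad μ ν B s.M s.M' (Rz f.Z r) (TrG.br s.p w r t₁.g t₀.g v B₁ G) s.A
          s.t'.g s.A' _ := PWRz.colL (w := w) hZ cL c1 c0 le_rfl
      rw [(hpul hw).2, avg_rk_zero, os_zero, zero_add] at key
      rw [(hpul hw).2] at eg
      rw [← eg] at key
      refine PWRz.shrink key ?_
      rw [← Fl.R_Ro f r]
      simp only [List.map_cons, List.map_nil, List.sum_cons, List.sum_nil, Qs]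
      linarith
  by_cases hPR : s.isPR
  · obtain ⟨w, r, t₁, t₀, v, B₁, G, hv, et, h3⟩ := St.isPR_cases hPR
    have e0 : eZ stp μ B f s = Qs { s with R := f.R s.R \ f.R (Ro r) } := by
      simp [eZ, hPL, hPR, shZ, hv]
    have eg : s.t'.g = TrG.br s.p w r t₁.g t₀.g v B₁ G := congrArg DT.g et
    have hpul : PulN s.t' := hR.wf.self.pul
    rw [et] at hpul
    rcases h3 with ⟨hd, e⟩ | ⟨hd, hw, e⟩
    · have e1 : nxt0 stp s = [(1 - w, s.fR r t₁), (w, s.fR r t₀)] := by
        simp [nxt0, h1, h2, hPL, hPR, e]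
      rw [e1] at hcont
      have c1 := hcont _ (List.mem_cons_self)
      have c0 := hcont _ (List.mem_cons_of_mem _ (List.mem_cons_self))
      rw [e0, e1]
      have e2 : f.R (s.fR r t₁).R = Rz f.Z r := Fl.R_Ro f r
      have e3 : f.R (s.fR r t₀).R = Rz f.Z r := Fl.R_Ro f r
      simp only [e2, e3] at c1 c0
      have key : PWRz Ad μ ν B s.M (s.p * (s.M' / s.p)) (Rz f.Z r) s.t.g s.A
          (TrG.br s.p w r t₁.g t₀.g v B₁ G) s.A' _ :=
        PWRz.fcR (w := w) hZ c1 c0 le_rfl
      rw [← eg, Nat.mul_div_cancel' hd] at key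
      refine PWRz.shrink key ?_
      rw [← Fl.R_Ro f r]
      simp only [List.map_cons, List.map_nil, List.sum_cons, List.sum_nil, Qs]
      linarith
    · have e1 : nxt0 stp s = [(1 - w, s.pR r t₁), (w, s.pR r t₀)] := by
        simp [nxt0, h1, h2, hPL, hPR, e]
      rw [e1] at hcont
      have c1 := hcont _ (List.mem_cons_self)
      have c0 := hcont _ (List.mem_cons_of_mem _ (List.mem_cons_self))
      rw [e0, e1]
      have cR : Nat.Coprime s.p s.M' := (Nat.Prime.coprime_iff_not_dvd hpp).2 hd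
      have e2 : f.R (s.pR r t₁).R = Rz f.Z r := Fl.R_Ro f r
      have e3 : f.R (s.pR r t₀).R = Rz f.Z r := Fl.R_Ro f r
      simp only [e2, e3] at c1 c0
      have key : PWRz Ad μ ν B s.M s.M' (Rz f.Z r) s.t.g s.A
          (TrG.br s.p w r t₁.g t₀.g v B₁ G) s.A' _ := PWRz.colR (w := w) hZ cR c1 c0 le_rfl
      rw [(hpul hw).2, avg_rk_zero, os_zero, zero_add] at key
      rw [(hpul hw).2] at eg
      rw [← eg] at key
      refine PWRz.shrink key ?_
      rw [← Fl.R_Ro f r]
      simp only [List.map_cons, List.map_nil, List.sum_cons, List.sum_nil, Qs]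
      linarith
  rcases hv : vw s.p s.t with ⟨w, r, t₁, t₀, v, B₁, G⟩ | ⟨r, t₁, t₀⟩ | ⟨Sp, u⟩ <;>
  rcases hv' : vw s.p s.t' with ⟨w', r', t₁', t₀', v', B', G'⟩ | ⟨r', t₁', t₀'⟩ | ⟨Sp', u'⟩
  · -- br br
    have e1 : nxt0 stp s = [((1 - w) * (1 - w'), { s with R := Ro r, t := t₁, t' := t₁' }),
        ((1 - w) * w', { s with R := Ro r, t := t₁, t' := t₀' }),
        (w * (1 - w'), { s with R := Ro r, t := t₀, t' := t₁' }),
        (w * w', { s with R := Ro r, t := t₀, t' := t₀' })] := by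
      simp [nxt0, h1, h2, hPL, hPR, hv, hv']
    have e0 : eZ stp μ B f s = Q f.Z (avg s.M (rk s.A r G)) (avg s.M' (rk s.A' r G')) +
        Qs { s with R := f.R s.R \ f.R (Ro r) } := by
      simp [eZ, hPL, hPR, hv, hv']
    rw [e1] at hcont
    have c11 := hcont _ (List.mem_cons_self)
    have c10 := hcont _ (List.mem_cons_of_mem _ (List.mem_cons_self))
    have c01 := hcont _ (List.mem_cons_of_mem _ (List.mem_cons_of_mem _ (List.mem_cons_self)))
    have c00 := hcont _ (List.mem_cons_of_mem _ (List.mem_cons_of_mem _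
      (List.mem_cons_of_mem _ (List.mem_cons_self))))
    rw [e0, e1]
    have et := vw_br hv
    have et' := vw_br hv'
    have cL : Nat.Coprime s.p s.M :=
      (Nat.Prime.coprime_iff_not_dvd hpp).2 (St.not_isPL_br hPL hv hv')
    have cR : Nat.Coprime s.p s.M' :=
      (Nat.Prime.coprime_iff_not_dvd hpp).2 (St.not_isPR_br hPR hv hv')
    rw [et] at hL
    rw [et'] at hR
    obtain ⟨-, -, -, hr, -⟩ := hL.br
    obtain ⟨-, -, -, hr', -⟩ := hR.br
    have err : r' = r := by rw [hr, hr']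
    subst err
    simp only [Fl.R_Ro] at c11 c10 c01 c00
    have key : PWRz Ad μ ν B s.M s.M' (Rz f.Z r') (TrG.br s.p w r' t₁.g t₀.g v B₁ G) s.A
        (TrG.br s.p w' r' t₁'.g t₀'.g v' B' G') s.A' _ :=
      PWRz.col2 (w := w) (w' := w') hZ cL cR c11 c10 c01 c00 le_rfl
    have eg : s.t.g = TrG.br s.p w r' t₁.g t₀.g v B₁ G := congrArg DT.g et
    have eg' : s.t'.g = TrG.br s.p w' r' t₁'.g t₀'.g v' B' G' := congrArg DT.g et'
    rw [← eg, ← eg'] at key
    refine PWRz.shrink key ?_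
    rw [← Fl.R_Ro f r']
    simp only [List.map_cons, List.map_nil, List.sum_cons, List.sum_nil, Qs]
    linarith
  · -- br add
    have e1 : nxt0 stp s = [(1, { s with t' := stp.c s t₁' t₀' })] := by
      simp [nxt0, h1, h2, hPL, hPR, hv, hv']
    have e0 : eZ stp μ B f s = Xs μ B { s with R := f.R s.R, t' := stp.x s t₁' t₀' } := by
      simp [eZ, hPL, hPR, hv, hv']
    rw [e1] at hcont
    have c := hcont _ (List.mem_cons_self)
    rw [e0, e1]
    have key := oneRz hB (f.R s.R) (vw_add hv') hL hR c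
    simp only [List.map_cons, List.map_nil, List.sum_cons, List.sum_nil, one_mul, add_zero]
    rw [add_comm]
    exact key
  · -- br up
    have e1 : nxt0 stp s =
        [(1 - w, { s with M' := s.p * s.M', O := insert s.p s.O, R := Ro r, t := t₁, t' := u' }),
         (w, { s with M' := s.p * s.M', O := insert s.p s.O, R := Ro r, t := t₀, t' := u' })] := by
      simp [nxt0, h1, h2, hPL, hPR, hv, hv']
    have e0 : eZ stp μ B f s =
        os f.Z s.p (avg s.M (rk s.A r G)) (sm r (avg s.M' (rv s.A' s.t'.g.val))) +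
        Qs { s with R := f.R s.R \ f.R (Ro r) } := by
      simp [eZ, hPL, hPR, hv, hv']
    rw [e1] at hcont
    have c1 := hcont _ (List.mem_cons_self)
    have c0 := hcont _ (List.mem_cons_of_mem _ (List.mem_cons_self))
    rw [e0, e1]
    have et := vw_br hv
    have cL : Nat.Coprime s.p s.M :=
      (Nat.Prime.coprime_iff_not_dvd hpp).2 (St.not_isPL_up hPL hv hv').1
    have eg := vw_up_g hv'
    simp only [eg, Fl.R_Ro] at c1 c0
    have key : PWRz Ad μ ν B s.M s.M' (Rz f.Z r) (TrG.br s.p w r t₁.g t₀.g v B₁ G) s.A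
        s.t'.g s.A' _ := PWRz.colL (w := w) hZ cL c1 c0 le_rfl
    have eg : s.t.g = TrG.br s.p w r t₁.g t₀.g v B₁ G := congrArg DT.g et
    rw [← eg] at key
    refine PWRz.shrink key ?_
    rw [← Fl.R_Ro f r]
    simp only [List.map_cons, List.map_nil, List.sum_cons, List.sum_nil, Qs]
    linarith
  · -- add br
    have e1 : nxt0 stp s = [(1, { s with t := stp.c s t₁ t₀ })] := by
      simp [nxt0, h1, h2, hPL, hPR, hv, hv']
    have e0 : eZ stp μ B f s = Xs μ B { s with R := f.R s.R, t := stp.x s t₁ t₀ } := by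
      simp [eZ, hPL, hPR, hv, hv']
    rw [e1] at hcont
    have c := hcont _ (List.mem_cons_self)
    rw [e0, e1]
    have key := oneLz hB (f.R s.R) (vw_add hv) hL hR c
    simp only [List.map_cons, List.map_nil, List.sum_cons, List.sum_nil, one_mul, add_zero]
    rw [add_comm]
    exact key
  · -- add add
    by_cases hj : stp.jt s
    · have e1 : nxt0 stp s =
          [(1, { s with t := t₁, t' := t₁' }), (1, { s with t := t₀, t' := t₀' })] := by
        simp [nxt0, h1, h2, hPL, hPR, hv, hv', hj]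
      have e0 : eZ stp μ B f s = Xs μ B { s with R := f.R s.R, t := t₁, t' := t₀' } +
          Xs μ B { s with R := f.R s.R, t := t₀, t' := t₁' } := by
        simp [eZ, hPL, hPR, hv, hv', hj]
      rw [e1] at hcont
      have c1 := hcont _ (List.mem_cons_self)
      have c0 := hcont _ (List.mem_cons_of_mem _ (List.mem_cons_self))
      rw [e0, e1]
      have et := vw_add hv
      have et' := vw_add hv'
      have hX := Qs_le_Xs μ B { s with R := f.R s.R, t := t₁, t' := t₀' }
      have hY := Qs_le_Xs μ B { s with R := f.R s.R, t := t₀, t' := t₁' }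
      refine PWRz.dec (A₁ := s.A) (A₀ := s.A) (A₁' := s.A') (A₀' := s.A')
        (t₁ := t₁.g) (t₀ := t₀.g) (t₁' := t₁'.g) (t₀' := t₀'.g) ?_ ?_ c1 c0 hX hY ?_
      · rw [et]; exact Dec.add
      · rw [et']; exact Dec.add
      · simp only [List.map_cons, List.map_nil, List.sum_cons, List.sum_nil]
        linarith
    · by_cases hl : stp.lf s
      · have e1 : nxt0 stp s = [(1, { s with t := stp.c s t₁ t₀ })] := by
          simp [nxt0, h1, h2, hPL, hPR, hv, hv', hj, hl]
        have e0 : eZ stp μ B f s = Xs μ B { s with R := f.R s.R, t := stp.x s t₁ t₀ } := by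
          simp [eZ, hPL, hPR, hv, hv', hj, hl]
        rw [e1] at hcont
        have c := hcont _ (List.mem_cons_self)
        rw [e0, e1]
        have key := oneLz hB (f.R s.R) (vw_add hv) hL hR c
        simp only [List.map_cons, List.map_nil, List.sum_cons, List.sum_nil, one_mul, add_zero]
        rw [add_comm]
        exact key
      · have e1 : nxt0 stp s = [(1, { s with t' := stp.c s t₁' t₀' })] := by
          simp [nxt0, h1, h2, hPL, hPR, hv, hv', hj, hl]
        have e0 : eZ stp μ B f s = Xs μ B { s with R := f.R s.R, t' := stp.x s t₁' t₀' } := by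
          simp [eZ, hPL, hPR, hv, hv', hj, hl]
        rw [e1] at hcont
        have c := hcont _ (List.mem_cons_self)
        rw [e0, e1]
        have key := oneRz hB (f.R s.R) (vw_add hv') hL hR c
        simp only [List.map_cons, List.map_nil, List.sum_cons, List.sum_nil, one_mul, add_zero]
        rw [add_comm]
        exact key
  · -- add up
    by_cases hj : stp.jt s
    · have e1 : nxt0 stp s = [(1, { s with t := t₁, t' := u', A' := s.A' ∩ Sp' }),
          (1, { s with t := t₀, t' := u', A' := s.A' \ Sp' })] := by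
        simp [nxt0, h1, h2, hPL, hPR, hv, hv', hj]
      have e0 : eZ stp μ B f s =
          Xs μ B { s with R := f.R s.R, t := t₁, t' := u', A' := s.A' \ Sp' } +
          Xs μ B { s with R := f.R s.R, t := t₀, t' := u', A' := s.A' ∩ Sp' } := by
        simp [eZ, hPL, hPR, hv, hv', hj]
      rw [e1] at hcont
      have c1 := hcont _ (List.mem_cons_self)
      have c0 := hcont _ (List.mem_cons_of_mem _ (List.mem_cons_self))
      rw [e0, e1]
      have et := vw_add hv
      obtain ⟨-, b1, b0⟩ := hR.vwup hv' hpR hpp.pos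
      have eg := vw_up_g hv'
      have hX := Qs_le_Xs μ B { s with R := f.R s.R, t := t₁, t' := u', A' := s.A' \ Sp' }
      have hY := Qs_le_Xs μ B { s with R := f.R s.R, t := t₀, t' := u', A' := s.A' ∩ Sp' }
      refine PWRz.dec (A₁ := s.A) (A₀ := s.A) (A₁' := s.A' ∩ Sp') (A₀' := s.A' \ Sp')
        (t₁ := t₁.g) (t₀ := t₀.g) (t₁' := u'.g) (t₀' := u'.g) ?_ ?_ c1 c0 hX hY ?_
      · rw [et]; exact Dec.add
      · rw [← eg]
        refine Dec.set ?_ ?_ b1.ad b0.ad
        · rw [Finset.union_comm]; exact (Finset.sdiff_union_inter _ _).symm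
        · rw [Finset.disjoint_left]
          intro x hx hx'
          exact (Finset.mem_sdiff.1 hx').2 (Finset.mem_inter.1 hx).2
      · simp only [List.map_cons, List.map_nil, List.sum_cons, List.sum_nil]
        linarith
    · have e1 : nxt0 stp s = [(1, { s with t := stp.c s t₁ t₀ })] := by
        simp [nxt0, h1, h2, hPL, hPR, hv, hv', hj]
      have e0 : eZ stp μ B f s = Xs μ B { s with R := f.R s.R, t := stp.x s t₁ t₀ } := by
        simp [eZ, hPL, hPR, hv, hv', hj]
      rw [e1] at hcont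
      have c := hcont _ (List.mem_cons_self)
      rw [e0, e1]
      have key := oneLz hB (f.R s.R) (vw_add hv) hL hR c
      simp only [List.map_cons, List.map_nil, List.sum_cons, List.sum_nil, one_mul, add_zero]
      rw [add_comm]
      exact key
  · -- up br
    have e1 : nxt0 stp s =
        [(1 - w', { s with M := s.p * s.M, O' := insert s.p s.O', R := Ro r', t := u, t' := t₁' }),
         (w', { s with M := s.p * s.M, O' := insert s.p s.O', R := Ro r', t := u, t' := t₀' })] := by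
      simp [nxt0, h1, h2, hPL, hPR, hv, hv']
    have e0 : eZ stp μ B f s =
        os f.Z s.p (avg s.M' (rk s.A' r' G')) (sm r' (avg s.M (rv s.A s.t.g.val))) +
        Qs { s with R := f.R s.R \ f.R (Ro r') } := by
      simp [eZ, hPL, hPR, hv, hv']
    rw [e1] at hcont
    have c1 := hcont _ (List.mem_cons_self)
    have c0 := hcont _ (List.mem_cons_of_mem _ (List.mem_cons_self))
    rw [e0, e1]
    have et' := vw_br hv'
    have cR : Nat.Coprime s.p s.M' :=
      (Nat.Prime.coprime_iff_not_dvd hpp).2 (St.not_isPR_up hPR hv hv').1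
    have eg := vw_up_g hv
    simp only [eg, Fl.R_Ro] at c1 c0
    have key : PWRz Ad μ ν B s.M s.M' (Rz f.Z r') s.t.g s.A
        (TrG.br s.p w' r' t₁'.g t₀'.g v' B' G') s.A' _ :=
      PWRz.colR (w := w') hZ cR c1 c0 le_rfl
    have eg' : s.t'.g = TrG.br s.p w' r' t₁'.g t₀'.g v' B' G' := congrArg DT.g et'
    rw [← eg'] at key
    refine PWRz.shrink key ?_
    rw [← Fl.R_Ro f r']
    simp only [List.map_cons, List.map_nil, List.sum_cons, List.sum_nil, Qs]
    linarith
  · -- up add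
    by_cases hj : stp.jt s
    · have e1 : nxt0 stp s = [(1, { s with t := u, A := s.A ∩ Sp, t' := t₁' }),
          (1, { s with t := u, A := s.A \ Sp, t' := t₀' })] := by
        simp [nxt0, h1, h2, hPL, hPR, hv, hv', hj]
      have e0 : eZ stp μ B f s =
          Xs μ B { s with R := f.R s.R, t := u, A := s.A ∩ Sp, t' := t₀' } +
          Xs μ B { s with R := f.R s.R, t := u, A := s.A \ Sp, t' := t₁' } := by
        simp [eZ, hPL, hPR, hv, hv', hj]
      rw [e1] at hcont
      have c1 := hcont _ (List.mem_cons_self)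
      have c0 := hcont _ (List.mem_cons_of_mem _ (List.mem_cons_self))
      rw [e0, e1]
      have et' := vw_add hv'
      obtain ⟨-, a1, a0⟩ := hL.vwup hv hpL hpp.pos
      have eg := vw_up_g hv
      have hX := Qs_le_Xs μ B { s with R := f.R s.R, t := u, A := s.A ∩ Sp, t' := t₀' }
      have hY := Qs_le_Xs μ B { s with R := f.R s.R, t := u, A := s.A \ Sp, t' := t₁' }
      refine PWRz.dec (A₁ := s.A ∩ Sp) (A₀ := s.A \ Sp) (A₁' := s.A') (A₀' := s.A')
        (t₁ := u.g) (t₀ := u.g) (t₁' := t₁'.g) (t₀' := t₀'.g) ?_ ?_ c1 c0 hX hY ?_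
      · rw [← eg]
        refine Dec.set ?_ ?_ a1.ad a0.ad
        · rw [Finset.union_comm]; exact (Finset.sdiff_union_inter _ _).symm
        · rw [Finset.disjoint_left]
          intro x hx hx'
          exact (Finset.mem_sdiff.1 hx').2 (Finset.mem_inter.1 hx).2
      · rw [et']; exact Dec.add
      · simp only [List.map_cons, List.map_nil, List.sum_cons, List.sum_nil]
        linarith
    · have e1 : nxt0 stp s = [(1, { s with t' := stp.c s t₁' t₀' })] := by
        simp [nxt0, h1, h2, hPL, hPR, hv, hv', hj]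
      have e0 : eZ stp μ B f s = Xs μ B { s with R := f.R s.R, t' := stp.x s t₁' t₀' } := by
        simp [eZ, hPL, hPR, hv, hv', hj]
      rw [e1] at hcont
      have c := hcont _ (List.mem_cons_self)
      rw [e0, e1]
      have key := oneRz hB (f.R s.R) (vw_add hv') hL hR c
      simp only [List.map_cons, List.map_nil, List.sum_cons, List.sum_nil, one_mul, add_zero]
      rw [add_comm]
      exact key
  · -- up up
    have e1 : nxt0 stp s = [(1, { s with t := u, t' := u' })] := by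
      simp [nxt0, h1, h2, hPL, hPR, hv, hv']
    have e0 : eZ stp μ B f s = 0 := by
      simp [eZ, hPL, hPR, hv, hv']
    rw [e1] at hcont
    have c := hcont _ (List.mem_cons_self)
    rw [e0, e1]
    simp only [List.map_cons, List.map_nil, List.sum_cons, List.sum_nil, zero_add, one_mul,
      add_zero]
    rw [← vw_up_g hv, ← vw_up_g hv']
    exact c

/-! ### values of the step error -/

lemma Qs_self_sdiff (s : St Λ κ) (R : Finset (Λ × Λ)) : Qs { s with R := R \ R } = 0 := by
  unfold Qs Q; simp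

lemma eZ_id {stp : Stp Λ κ} {s : St Λ κ} {f : Fl} (hf : f ≠ Fl.top)
    (h1 : ¬ (s.t.isLeaf ∨ s.t'.isLeaf)) (h2 : ¬ stp s) :
    eZ stp μ B f s = eAll stp μ ν B s := by
  have hR : ∀ R : Finset (Λ × Λ), f.R R = R := by
    intro R; cases f with
    | self => rfl
    | top => exact absurd rfl hf
    | old => rfl
  have hZ : (f.Z : Finset (κ × κ)) = orel κ := by
    cases f with
    | self => rfl
    | top => exact absurd rfl hf
    | old => rfl
  by_cases hPL : s.isPL
  · obtain ⟨w, r, t₁, t₀, v, B₁, G, hv, et, h3⟩ := St.isPL_cases hPL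
    simp [eZ, eAll, eNM, eOS, eSHR, eX, eSTOP, h1, h2, hPL, St.shr, shZ, hv, hR]
  by_cases hPR : s.isPR
  · obtain ⟨w, r, t₁, t₀, v, B₁, G, hv, et, h3⟩ := St.isPR_cases hPR
    simp [eZ, eAll, eNM, eOS, eSHR, eX, eSTOP, h1, h2, hPL, hPR, St.shr, shZ, hv, hR]
  rcases hv : vw s.p s.t with ⟨w, r, t₁, t₀, v, B₁, G⟩ | ⟨r, t₁, t₀⟩ | ⟨Sp, u⟩ <;>
  rcases hv' : vw s.p s.t' with ⟨w', r', t₁', t₀', v', B', G'⟩ | ⟨r', t₁', t₀'⟩ | ⟨Sp', u'⟩
  · simp [eZ, eAll, eNM, eOS, eSHR, eX, eSTOP, h1, h2, hPL, hPR, hv, hv', hR, hZ]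
  · simp [eZ, eAll, eNM, eOS, eSHR, eX, eSTOP, h1, h2, hPL, hPR, hv, hv', hR, hZ]
  · simp [eZ, eAll, eNM, eOS, eSHR, eX, eSTOP, h1, h2, hPL, hPR, hv, hv', hR, hZ]
  · simp [eZ, eAll, eNM, eOS, eSHR, eX, eSTOP, h1, h2, hPL, hPR, hv, hv', hR, hZ]
  · by_cases hj : stp.jt s <;> by_cases hl : stp.lf s <;>
      simp [eZ, eAll, eNM, eOS, eSHR, eX, eSTOP, h1, h2, hPL, hPR, hv, hv', hR, hZ, hj, hl]
  · by_cases hj : stp.jt s <;>
      simp [eZ, eAll, eNM, eOS, eSHR, eX, eSTOP, h1, h2, hPL, hPR, hv, hv', hR, hZ, hj]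
  · simp [eZ, eAll, eNM, eOS, eSHR, eX, eSTOP, h1, h2, hPL, hPR, hv, hv', hR, hZ]
  · by_cases hj : stp.jt s <;>
      simp [eZ, eAll, eNM, eOS, eSHR, eX, eSTOP, h1, h2, hPL, hPR, hv, hv', hR, hZ, hj]
  · simp [eZ, eAll, eNM, eOS, eSHR, eX, eSTOP, h1, h2, hPL, hPR, hv, hv', hR, hZ]

lemma eZ_two {stp : Stp Λ κ} {s : St Λ κ} (h2 : two s) : eZ stp μ B Fl.top s = eG s := by
  obtain ⟨hPL, hPR, w, r, t₁, t₀, v, B₁, G, w', r', t₁', t₀', v', B₁', G', hv, hv'⟩ := two_cases h2
  have e : Qs { s with R := (Finset.univ : Finset (Λ × Λ)) \ Finset.univ } = 0 :=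
    Qs_self_sdiff s _
  simp only [eZ, eG, hv, hv', if_neg hPL, if_neg hPR, Fl.R, Fl.Z]
  rw [e, add_zero]

lemma eZ_add {stp : Stp Λ κ} {s : St Λ κ} (h1 : ¬ (s.t.isLeaf ∨ s.t'.isLeaf)) (hs : ¬ stp s)
    (h2 : ¬ two s) (h3 : ¬ one s) :
    eZ stp μ B Fl.top s = ((crs stp s).map fun z => Xs μ B { z with R := Finset.univ }).sum := by
  have e : Qs { s with R := (Finset.univ : Finset (Λ × Λ)) \ Finset.univ } = 0 :=
    Qs_self_sdiff s _
  by_cases hPL : s.isPL
  · obtain ⟨w, r, t₁, t₀, v, B₁, G, hv, et, h3⟩ := St.isPL_cases hPL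
    have ec : crs stp s = [] := by simp [crs, h1, hs, hPL]
    rw [ec]
    simp only [eZ, if_pos hPL, hv, shZ, Fl.R, List.map_nil, List.sum_nil]
    exact e
  by_cases hPR : s.isPR
  · obtain ⟨w, r, t₁, t₀, v, B₁, G, hv, et, h3⟩ := St.isPR_cases hPR
    have ec : crs stp s = [] := by simp [crs, h1, hs, hPL, hPR]
    rw [ec]
    simp only [eZ, if_neg hPL, if_pos hPR, hv, shZ, Fl.R, List.map_nil, List.sum_nil]
    exact e
  rcases hv : vw s.p s.t with ⟨w, r, t₁, t₀, v, B₁, G⟩ | ⟨r, t₁, t₀⟩ | ⟨Sp, u⟩ <;>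
  rcases hv' : vw s.p s.t' with ⟨w', r', t₁', t₀', v', B', G'⟩ | ⟨r', t₁', t₀'⟩ | ⟨Sp', u'⟩
  · exact absurd (two_of hPL hPR hv hv') h2
  · simp [eZ, crs, h1, hs, hPL, hPR, hv, hv', Fl.R]
  · exact absurd ⟨hPL, hPR, by rw [hv, hv']; trivial⟩ h3
  · simp [eZ, crs, h1, hs, hPL, hPR, hv, hv', Fl.R]
  · by_cases hj : stp.jt s <;> by_cases hl : stp.lf s <;>
      simp [eZ, crs, h1, hs, hPL, hPR, hv, hv', Fl.R, hj, hl]
  · by_cases hj : stp.jt s <;>
      simp [eZ, crs, h1, hs, hPL, hPR, hv, hv', Fl.R, hj]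
  · exact absurd ⟨hPL, hPR, by rw [hv, hv']; trivial⟩ h3
  · by_cases hj : stp.jt s <;>
      simp [eZ, crs, h1, hs, hPL, hPR, hv, hv', Fl.R, hj]
  · simp [eZ, crs, h1, hs, hPL, hPR, hv, hv', Fl.R]

/-! ### the children lists -/

lemma nxF0_old (stp : Stp Λ κ) (s : St Λ κ) :
    nxF0 stp (Fl.old, s) = (nxt0 stp s).map fun q => (q.1, (Fl.old, q.2)) := rfl

lemma sum_flag {stp : Stp Λ κ} (s : St Λ κ) (g : St Λ κ → Fl) (F : Fl × St Λ κ → ℝ) :
    (((nxt0 stp s).map fun q => (q.1, (g q.2, q.2))).map fun q => q.1 * F q.2).sum =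
      ((nxt0 stp s).map fun q => q.1 * F (g q.2, q.2)).sum := by
  rw [List.map_map]; rfl

/-- a stop or a leaf -/
lemma cert_end {stp : Stp Λ κ} {R : Finset (Λ × Λ)} {s : St Λ κ} {e : ℝ} (he : 0 ≤ e)
    (h1 : s.t.isLeaf ∨ s.t'.isLeaf) :
    PWRz Ad μ ν B s.M s.M' R s.t.g s.A s.t'.g s.A' e := by
  obtain ⟨M, M', O, O', R₀, t, A, t', A'⟩ := s
  rcases h1 with h1 | h1
  · cases t with
    | leaf r f => exact PWRz.leafL he
    | br _ _ _ _ _ _ _ _ => exact absurd h1 id
    | add _ _ _ _ => exact absurd h1 id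
    | up _ _ _ => exact absurd h1 id
  · cases t' with
    | leaf r f => exact PWRz.leafR he
    | br _ _ _ _ _ _ _ _ => exact absurd h1 id
    | add _ _ _ _ => exact absurd h1 id
    | up _ _ _ => exact absurd h1 id

/-- a smaller relation costs nothing -/
lemma PWRz.sub {M M' : ℕ} {R R' : Finset (Λ × Λ)} {t t' : TrG Λ κ} {A A' : Finset Λ} {e : ℝ}
    (h : PWRz Ad μ ν B M M' R' t A t' A' e) (hR : R ⊆ R') : PWRz Ad μ ν B M M' R t A t' A' e := by
  refine PWRz.shrink h ?_
  rw [Finset.sdiff_eq_empty_iff_subset.2 hR]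
  unfold Q
  simp

set_option maxHeartbeats 4000000 in
/-- **the flagged walk is a certificate** -/
theorem walk_certF {stp : Stp Λ κ} (hB : 0 ≤ B) :
    ∀ (k n : ℕ) (z : Fl × St Λ κ), rkF z < k → Inv wr Ad μ ν n z.2 →
      PWRz Ad μ ν B z.2.M z.2.M' (z.1.R z.2.R) z.2.t.g z.2.A z.2.t'.g z.2.A'
        (WF stp (eF stp μ ν B) z) := by
  intro k
  induction k with
  | zero => intro n z hz; omega
  | succ k ih =>
    rintro n ⟨f, s⟩ hz h
    simp only at h ⊢
    have hcont : ∀ (f' : Fl), ∀ q ∈ nxt0 stp s, PWRz Ad μ ν B q.2.M q.2.M' (f'.R q.2.R) q.2.t.g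
        q.2.A q.2.t'.g q.2.A' (WF stp (eF stp μ ν B) (f', q.2)) := fun f' q hq =>
      ih s.p (f', q.2) (by
        have := nxt0_rank stp s q hq
        have e1 : rkF (f', q.2) = q.2.rank := rfl
        have e2 : rkF (f, s) = s.rank := rfl
        omega) (h.next0 q hq).1
    -- the old step
    have hold : ∀ f' : Fl, f' ≠ Fl.top → PWRz Ad μ ν B s.M s.M' s.R s.t.g s.A s.t'.g s.A'
        (eAll stp μ ν B s + ((nxt0 stp s).map fun q =>
          q.1 * WF stp (eF stp μ ν B) (f', q.2)).sum) := by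
      intro f' hf'
      have hR : ∀ R : Finset (Λ × Λ), f'.R R = R := by
        intro R; cases f' with
        | self => rfl
        | top => exact absurd rfl hf'
        | old => rfl
      by_cases h1 : s.t.isLeaf ∨ s.t'.isLeaf
      · have e0 : eAll stp μ ν B s = 0 := by
          simp [eAll, eNM, eOS, eSHR, eX, eSTOP, h1]
        have e1 : nxt0 stp s = [] := by simp [nxt0, h1]
        rw [e0, e1]
        simp only [List.map_nil, List.sum_nil, add_zero]
        exact cert_end (stp := stp) le_rfl h1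
      by_cases h2 : stp s
      · have e1 : nxt0 stp s = [] := by simp [nxt0, h1, h2]
        have e0 : eAll stp μ ν B s =
            max 0 (Qs s - B * Lh (μ s.t.g s.A) (ν s.t.g) (μ s.t'.g s.A') (ν s.t'.g)) := by
          simp [eAll, eNM, eOS, eSHR, eX, eSTOP, h1, h2]
        rw [e0, e1]
        simp only [List.map_nil, List.sum_nil, add_zero]
        refine PWRz.stop ?_
        have := le_max_right 0 (Qs s - B * Lh (μ s.t.g s.A) (ν s.t.g) (μ s.t'.g s.A') (ν s.t'.g))
        unfold Qs at this ⊢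
        linarith
      have key := step_cert (ν := ν) hB f' (F := fun q => WF stp (eF stp μ ν B) (f', q)) h h1 h2
        (fun q hq => hcont f' q hq)
      rw [eZ_id (ν := ν) hf' h1 h2, hR] at key
      exact key
    cases f with
    | old =>
      rw [WF_eq0, nxF0_old, sum_flag s (fun _ => Fl.old)]
      exact hold Fl.old (by decide)
    | self =>
      show PWRz Ad μ ν B s.M s.M' s.R s.t.g s.A s.t'.g s.A' _
      rw [WF_eq0]
      show PWRz Ad μ ν B s.M s.M' s.R s.t.g s.A s.t'.g s.A' (eAll stp μ ν B s + _)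
      by_cases h2 : two s ∧ ¬ (s.t.isLeaf ∨ s.t'.isLeaf) ∧ ¬ stp s
      · obtain ⟨h2, h1, hs⟩ := h2
        obtain ⟨hPL, hPR, w, r, t₁, t₀, v, B₁, G, w', r', t₁', t₀', v', B₁', G', hv, hv'⟩ :=
          two_cases h2
        have h1' := h1
        rw [not_or] at h1'
        obtain ⟨hpp, hpn⟩ := p_prime h h1'.1 h1'.2
        have hL := h.L
        have hR := h.R
        have e1 : nxt0 stp s = [((1 - w) * (1 - w'), { s with R := Ro r, t := t₁, t' := t₁' }),
            ((1 - w) * w', { s with R := Ro r, t := t₁, t' := t₀' }),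
            (w * (1 - w'), { s with R := Ro r, t := t₀, t' := t₁' }),
            (w * w', { s with R := Ro r, t := t₀, t' := t₀' })] := by
          simp [nxt0, h1, hs, hPL, hPR, hv, hv']
        have e2 : nxF0 stp (Fl.self, s) =
            [((1 - w) * (1 - w'), (Fl.self, { s with R := Ro r, t := t₁, t' := t₁' })),
            ((1 - w) * w', (Fl.top, { s with R := Ro r, t := t₁, t' := t₀' })),
            (w * (1 - w'), (Fl.top, { s with R := Ro r, t := t₀, t' := t₁' })),
            (w * w', (Fl.self, { s with R := Ro r, t := t₀, t' := t₀' }))] := by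
          simp only [nxF0, e1]
        have e0 : eAll stp μ ν B s = Q (orel κ) (avg s.M (rk s.A r G)) (avg s.M' (rk s.A' r G')) +
            Qs { s with R := s.R \ Ro r } := by
          simp [eAll, eNM, eOS, eSHR, eX, eSTOP, h1, hs, hPL, hPR, hv, hv']
        have m11 : ((1 - w) * (1 - w'), ({ s with R := Ro r, t := t₁, t' := t₁' } : St Λ κ)) ∈
          nxt0 stp s := by rw [e1]; simp
        have m10 : ((1 - w) * w', ({ s with R := Ro r, t := t₁, t' := t₀' } : St Λ κ)) ∈
          nxt0 stp s := by rw [e1]; simp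
        have m01 : (w * (1 - w'), ({ s with R := Ro r, t := t₀, t' := t₁' } : St Λ κ)) ∈
          nxt0 stp s := by rw [e1]; simp
        have m00 : (w * w', ({ s with R := Ro r, t := t₀, t' := t₀' } : St Λ κ)) ∈
          nxt0 stp s := by rw [e1]; simp
        have c11 := hcont Fl.self _ m11
        have c10 := PWRz.sub (hcont Fl.top _ m10) (Finset.subset_univ (Ro r))
        have c01 := PWRz.sub (hcont Fl.top _ m01) (Finset.subset_univ (Ro r))
        have c00 := hcont Fl.self _ m00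
        have cL : Nat.Coprime s.p s.M :=
          (Nat.Prime.coprime_iff_not_dvd hpp).2 (St.not_isPL_br hPL hv hv')
        have cR : Nat.Coprime s.p s.M' :=
          (Nat.Prime.coprime_iff_not_dvd hpp).2 (St.not_isPR_br hPR hv hv')
        have et := vw_br hv
        have et' := vw_br hv'
        rw [et] at hL
        rw [et'] at hR
        obtain ⟨-, -, -, hr, -⟩ := hL.br
        obtain ⟨-, -, -, hr', -⟩ := hR.br
        have err : r' = r := by rw [hr, hr']
        subst err
        have conv : ∀ {t t' : TrG Λ κ} {e : ℝ}, PWRz Ad μ ν B s.M s.M' (Ro r') t s.A t' s.A' e →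
            PWRz Ad μ ν B s.M s.M' (Rz (orel κ) r') t s.A t' s.A' e := fun hh => by
          rw [Rz_orel]; exact hh
        have key : PWRz Ad μ ν B s.M s.M' (Rz (orel κ) r') (TrG.br s.p w r' t₁.g t₀.g v B₁ G) s.A
            (TrG.br s.p w' r' t₁'.g t₀'.g v' B₁' G') s.A' _ :=
          PWRz.col2 (w := w) (w' := w') ZS_orel cL cR (conv c11) (conv c10) (conv c01) (conv c00) le_rfl
        have eg : s.t.g = TrG.br s.p w r' t₁.g t₀.g v B₁ G := congrArg DT.g et
        have eg' : s.t'.g = TrG.br s.p w' r' t₁'.g t₀'.g v' B₁' G' := congrArg DT.g et'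
        rw [← eg, ← eg', Rz_orel] at key
        rw [e0, e2]
        refine PWRz.shrink key ?_
        simp only [List.map_cons, List.map_nil, List.sum_cons, List.sum_nil, Qs]
        linarith
      · have e2 : nxF0 stp (Fl.self, s) = (nxt0 stp s).map fun q => (q.1, (Fl.self, q.2)) := by
          have hne : ∀ a b c d, nxt0 stp s ≠ [a, b, c, d] := by
            intro a b c d hh
            refine h2 ?_
            have hl : ¬ (s.t.isLeaf ∨ s.t'.isLeaf) := by
              intro hl
              simp [nxt0, hl] at hh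
            have hs : ¬ stp s := by
              intro hs
              simp [nxt0, hl, hs] at hh
            refine ⟨?_, hl, hs⟩
            have hPL : ¬ s.isPL := by
              intro hPL
              obtain ⟨w, r, t₁, t₀, v, B₁, G, hv, et, h3⟩ := St.isPL_cases hPL
              rcases h3 with ⟨-, e⟩ | ⟨-, -, e⟩ <;> simp [nxt0, hl, hs, hPL, e] at hh
            have hPR : ¬ s.isPR := by
              intro hPR
              obtain ⟨w, r, t₁, t₀, v, B₁, G, hv, et, h3⟩ := St.isPR_cases hPR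
              rcases h3 with ⟨-, e⟩ | ⟨-, -, e⟩ <;> simp [nxt0, hl, hs, hPL, hPR, e] at hh
            refine ⟨hPL, hPR, ?_⟩
            rcases hv : vw s.p s.t with ⟨w, r, t₁, t₀, v, B₁, G⟩ | ⟨r, t₁, t₀⟩ | ⟨Sp, u⟩ <;>
            rcases hv' : vw s.p s.t' with ⟨w', r', t₁', t₀', v', B', G'⟩ | ⟨r', t₁', t₀'⟩ |
              ⟨Sp', u'⟩ <;>
            simp only [nxt0, if_neg hl, if_neg hs, if_neg hPL, if_neg hPR, hv, hv'] at hh ⊢
            all_goals (first | trivial | (split_ifs at hh <;> simp at hh) | simp at hh)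
          simp only [nxF0]
        rw [e2, sum_flag s (fun _ => Fl.self)]
        exact hold Fl.self (by decide)
    | top =>
      show PWRz Ad μ ν B s.M s.M' Finset.univ s.t.g s.A s.t'.g s.A' _
      rw [WF_eq0]
      by_cases h1 : s.t.isLeaf ∨ s.t'.isLeaf
      · refine cert_end (stp := stp) ?_ h1
        have e1 : nxt0 stp s = [] := by simp [nxt0, h1]
        have e2 : nxF0 stp (Fl.top, s) = [] := by
          simp only [nxF0, e1]
          split_ifs <;> rfl
        rw [e2]
        simp only [eF, if_pos h1, List.map_nil, List.sum_nil, add_zero]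
        exact le_rfl
      by_cases hx : exH stp s
      · have e2 : nxF0 stp (Fl.top, s) = (nxt0 stp s).map fun q => (q.1, (Fl.old, q.2)) := by
          simp only [nxF0, if_pos hx]
        have e3 : eF stp μ ν B (Fl.top, s) = ex s + eAll stp μ ν B s := by
          simp only [eF, if_neg h1, if_pos hx]
        rw [e2, e3, sum_flag s (fun _ => Fl.old)]
        refine PWRz.shrink (hold Fl.old (by decide)) ?_
        simp only [ex, Qs]
        linarith
      have hs : ¬ stp s := fun hs => hx (Or.inl hs)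
      have ho : ¬ one s := fun ho => hx (Or.inr ho)
      by_cases h2 : two s
      · have e2 : nxF0 stp (Fl.top, s) = (nxt0 stp s).map fun q => (q.1, (Fl.top, q.2)) := by
          simp only [nxF0, if_neg hx, if_pos h2]
        have e3 : eF stp μ ν B (Fl.top, s) = eG s := by
          simp only [eF, if_neg h1, if_neg hx, if_pos h2]
        rw [e2, e3, sum_flag s (fun _ => Fl.top), ← eZ_two (stp := stp) (μ := μ) (B := B) h2]
        exact step_cert (ν := ν) hB Fl.top (F := fun q => WF stp (eF stp μ ν B) (Fl.top, q)) h h1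
          hs (fun q hq => hcont Fl.top q hq)
      · have e2 : nxF0 stp (Fl.top, s) = (nxt0 stp s).map fun q => (q.1, (flS q.2, q.2)) := by
          simp only [nxF0, if_neg hx, if_neg h2]
        have e3 : eF stp μ ν B (Fl.top, s) =
            ((crs stp s).map fun z => Xs μ B { z with R := Finset.univ }).sum +
            ((nxt0 stp s).map fun q => q.1 * exS q.2).sum := by
          simp only [eF, if_neg h1, if_neg hx, if_neg h2]
        rw [e2, e3, sum_flag s flS, ← eZ_add h1 hs h2 ho]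
        have key := step_cert (ν := ν) hB Fl.top
          (F := fun q => WF stp (eF stp μ ν B) (flS q, q) + exS q) h h1 hs (fun q hq => by
            show PWRz Ad μ ν B q.2.M q.2.M' Finset.univ q.2.t.g q.2.A q.2.t'.g q.2.A'
              (WF stp (eF stp μ ν B) (flS q.2, q.2) + exS q.2)
            by_cases hst : stay q.2
            · have e4 : flS q.2 = Fl.top := by unfold flS; rw [if_pos hst]
              have e5 : exS q.2 = 0 := by unfold exS; rw [if_pos hst]
              rw [e4, e5, add_zero]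
              exact hcont Fl.top q hq
            · have e4 : flS q.2 = Fl.old := by unfold flS; rw [if_neg hst]
              have e5 : exS q.2 = ex q.2 := by unfold exS; rw [if_neg hst]
              rw [e4, e5]
              refine PWRz.shrink (hcont Fl.old q hq) ?_
              simp only [ex, Qs, Fl.R]
              linarith)
        have e6 : ((nxt0 stp s).map fun q => q.1 *
            (WF stp (eF stp μ ν B) (flS q.2, q.2) + exS q.2)).sum =
            ((nxt0 stp s).map fun q => q.1 * WF stp (eF stp μ ν B) (flS q.2, q.2)).sum +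
            ((nxt0 stp s).map fun q => q.1 * exS q.2).sum :=
          sum_map_add _ (fun q => WF stp (eF stp μ ν B) (flS q, q)) exS
        rw [e6] at key
        refine PWRz.sub (R' := Finset.univ) ?_ (Finset.Subset.refl _)
        have e7 : eZ stp μ B Fl.top s + (((nxt0 stp s).map fun q => q.1 *
            WF stp (eF stp μ ν B) (flS q.2, q.2)).sum +
            ((nxt0 stp s).map fun q => q.1 * exS q.2).sum) =
            eZ stp μ B Fl.top s + ((nxt0 stp s).map fun q => q.1 * exS q.2).sum +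
            ((nxt0 stp s).map fun q => q.1 * WF stp (eF stp μ ν B) (flS q.2, q.2)).sum := by ring
        rw [e7] at key
        exact key

/-! ### the closure theorem -/

set_option maxHeartbeats 2000000 in
/-- **the self certificate of a node** -/
theorem selfZ_walk {stp : Stp Λ κ} (hB : 0 ≤ B)
    (hstp : ∀ s : St Λ κ, s.O = ∅ → s.O' = ∅ → ¬ stp s)
    (hjt : ∀ (d : DT Λ κ) (A : Finset Λ), stp.jt (selfSt d A)) (d : DT Λ κ) :
    ∀ (n : ℕ) (A : Finset Λ), Side wr Ad μ ν n d A → ¬ PulG d.g →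
      SelfZ Ad μ ν B d.g A (WF stp (eF stp μ ν B) (Fl.self, selfSt d A)) := by
  induction d with
  | leaf r f =>
    intro n A h hpul
    show (0 : ℝ) ≤ _
    rw [WF_eq0]
    have hl : (selfSt (DT.leaf r f : DT Λ κ) A).t.isLeaf ∨
      (selfSt (DT.leaf r f : DT Λ κ) A).t'.isLeaf := Or.inl trivial
    have e0 : eF stp μ ν B (Fl.self, selfSt (DT.leaf r f : DT Λ κ) A) = 0 := by
      show eAll stp μ ν B (selfSt (DT.leaf r f : DT Λ κ) A) = 0
      simp [eAll, eNM, eOS, eSHR, eX, eSTOP, hl]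
    have e1 : nxt0 stp (selfSt (DT.leaf r f : DT Λ κ) A) = [] := by simp [nxt0, hl]
    have e2 : nxF0 stp (Fl.self, selfSt (DT.leaf r f : DT Λ κ) A) = [] := by
      simp only [nxF0, e1, List.map_nil]
    rw [e0, e2]; simp
  | br p w r t₁ t₀ v B₁ G ih₁ ih₀ =>
    intro n A h hpul
    set s := selfSt (DT.br p w r t₁ t₀ v B₁ G : DT Λ κ) A with hs
    have hl : ¬ (s.t.isLeaf ∨ s.t'.isLeaf) := by simp [hs, selfSt, DT.isLeaf]
    have hst : ¬ stp s := hstp s rfl rfl
    have hj : stp.jt s := hjt _ _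
    have hp : s.p = p := by simp [hs, St.p, selfSt, DT.top]
    have hv : vw s.p s.t = .br w r t₁ t₀ v B₁ G := by rw [hp]; simp [hs, selfSt, vw]
    have hv' : vw s.p s.t' = .br w r t₁ t₀ v B₁ G := by rw [hp]; simp [hs, selfSt, vw]
    have hpp : p.Prime := h.col.1
    have hw : w ≠ 0 := fun hw => hpul ⟨hw, (h.wf.1.pul hw).2⟩
    have hd : ¬ p ∣ 1 := fun hd => hpp.one_lt.ne' (Nat.dvd_one.1 hd)
    have hPL : ¬ s.isPL := by
      unfold St.isPL
      simp only [hv, hv']
      rw [hp]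
      exact hd
    have hPR : ¬ s.isPR := by
      unfold St.isPR
      simp only [hv, hv']
      rw [hp]
      exact hd
    have e1 : nxt0 stp s = [((1 - w) * (1 - w), { s with R := Ro r, t := t₁, t' := t₁ }),
        ((1 - w) * w, { s with R := Ro r, t := t₁, t' := t₀ }),
        (w * (1 - w), { s with R := Ro r, t := t₀, t' := t₁ }),
        (w * w, { s with R := Ro r, t := t₀, t' := t₀ })] := by
      simp [nxt0, hl, hst, hPL, hPR, hv, hv', hj]
    have e2 : nxF0 stp (Fl.self, s) =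
        [((1 - w) * (1 - w), (Fl.self, { s with R := Ro r, t := t₁, t' := t₁ })),
        ((1 - w) * w, (Fl.top, { s with R := Ro r, t := t₁, t' := t₀ })),
        (w * (1 - w), (Fl.top, { s with R := Ro r, t := t₀, t' := t₁ })),
        (w * w, (Fl.self, { s with R := Ro r, t := t₀, t' := t₀ }))] := by
      simp only [nxF0, e1]
    have e0 : eF stp μ ν B (Fl.self, s) =
        Q (orel κ) (avg s.M (rk s.A r G)) (avg s.M' (rk s.A' r G)) +
        Qs { s with R := s.R \ Ro r } := by
      show eAll stp μ ν B s = _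
      simp [eAll, eNM, eOS, eSHR, eX, eSTOP, hl, hst, hPL, hPR, hv, hv', hj]
    have hI := Inv_self h
    have hc : ∀ (f : Fl), ∀ q ∈ nxt0 stp s, PWRz Ad μ ν B q.2.M q.2.M' (f.R q.2.R) q.2.t.g q.2.A
        q.2.t'.g q.2.A' (WF stp (eF stp μ ν B) (f, q.2)) := fun f q hq =>
      walk_certF hB (rkF (f, q.2) + 1) s.p (f, q.2) (Nat.lt_succ_self _) (hI.next0 q hq).1
    have m11 : ((1 - w) * (1 - w), ({ s with R := Ro r, t := t₁, t' := t₁ } : St Λ κ)) ∈
      nxt0 stp s := by rw [e1]; simp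
    have m10 : ((1 - w) * w, ({ s with R := Ro r, t := t₁, t' := t₀ } : St Λ κ)) ∈
      nxt0 stp s := by rw [e1]; simp
    have m01 : (w * (1 - w), ({ s with R := Ro r, t := t₀, t' := t₁ } : St Λ κ)) ∈
      nxt0 stp s := by rw [e1]; simp
    have m00 : (w * w, ({ s with R := Ro r, t := t₀, t' := t₀ } : St Λ κ)) ∈
      nxt0 stp s := by rw [e1]; simp
    have c11 := hc Fl.self _ m11
    have c10 := PWRz.sub (hc Fl.top _ m10) (Finset.subset_univ (Ro r))
    have c01 := PWRz.sub (hc Fl.top _ m01) (Finset.subset_univ (Ro r))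
    have c00 := hc Fl.self _ m00
    rw [WF_eq0, e0, e2]
    have hR : s.R = Ro r := rfl
    rw [hR, Qs_sdiff_self]
    refine ⟨_, _, _, _, c11, c10, c01, c00, ?_⟩
    have hM : s.M = 1 := rfl
    have hM' : s.M' = 1 := rfl
    have hA : s.A = A := rfl
    have hA' : s.A' = A := rfl
    simp only [List.map_cons, List.map_nil, List.sum_cons, List.sum_nil]
    rw [hM, hM', hA, hA']
    have ea : avg 1 (rk A r G) = rk A r G := avg_one _
    rw [ea]
    linarith
  | add b r t₁ t₀ ih₁ ih₀ =>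
    intro n A h hpul
    set s := selfSt (DT.add b r t₁ t₀ : DT Λ κ) A with hs
    have hl : ¬ (s.t.isLeaf ∨ s.t'.isLeaf) := by simp [hs, selfSt, DT.isLeaf]
    have hst : ¬ stp s := hstp s rfl rfl
    have hj : stp.jt s := hjt _ _
    have hp : s.p = b := by simp [hs, St.p, selfSt, DT.top]
    have hv : vw s.p s.t = .add r t₁ t₀ := by rw [hp]; simp [hs, selfSt, vw]
    have hv' : vw s.p s.t' = .add r t₁ t₀ := by rw [hp]; simp [hs, selfSt, vw]
    have hPL : ¬ s.isPL := by unfold St.isPL; simp only [hv, hv']; exact fun h => h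
    have hPR : ¬ s.isPR := by unfold St.isPR; simp only [hv, hv']; exact fun h => h
    have e1 : nxt0 stp s =
        [(1, { s with t := t₁, t' := t₁ }), (1, { s with t := t₀, t' := t₀ })] := by
      simp [nxt0, hl, hst, hPL, hPR, hv, hv', hj]
    have e2 : nxF0 stp (Fl.self, s) =
        [(1, (Fl.self, { s with t := t₁, t' := t₁ })),
          (1, (Fl.self, { s with t := t₀, t' := t₀ }))] := by
      simp only [nxF0, e1, List.map_cons, List.map_nil]
    have e0 : eF stp μ ν B (Fl.self, s) =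
        Xs μ B { s with t := t₁, t' := t₀ } + Xs μ B { s with t := t₀, t' := t₁ } := by
      show eAll stp μ ν B s = _
      simp [eAll, eNM, eOS, eSHR, eX, eSTOP, hl, hst, hPL, hPR, hv, hv', hj]
    have hI := Inv_self h
    have hc : ∀ q ∈ nxt0 stp s, PWRz Ad μ ν B q.2.M q.2.M' q.2.R q.2.t.g q.2.A
        q.2.t'.g q.2.A' (WF stp (eF stp μ ν B) (Fl.self, q.2)) := fun q hq =>
      walk_certF hB (rkF (Fl.self, q.2) + 1) s.p (Fl.self, q.2) (Nat.lt_succ_self _)
        (hI.next0 q hq).1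
    have m1 : ((1 : ℝ), ({ s with t := t₁, t' := t₁ } : St Λ κ)) ∈ nxt0 stp s := by rw [e1]; simp
    have m0 : ((1 : ℝ), ({ s with t := t₀, t' := t₀ } : St Λ κ)) ∈ nxt0 stp s := by rw [e1]; simp
    have c1 := hc _ m1
    have c0 := hc _ m0
    rw [WF_eq0, e0, e2]
    have hX := Qs_le_Xs μ B { s with t := t₁, t' := t₀ }
    have hY := Qs_le_Xs μ B { s with t := t₀, t' := t₁ }
    have hQ : ∀ (f f' : Λ → ℝ → ℝ), Q s.R (avg s.M (rv s.A f)) (avg s.M' (rv s.A' f')) =
        Q (Ro r) (rv A f) (rv A f') := by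
      intro f f'
      show Q (Ro r) (avg 1 (rv A f)) (avg 1 (rv A f')) = _
      rw [avg_one, avg_one]
    unfold Qs at hX hY
    simp only at hX hY
    rw [hQ] at hX hY
    refine ⟨_, _, _, _, c1, c0, hX, hY, ?_⟩
    simp only [List.map_cons, List.map_nil, List.sum_cons, List.sum_nil]
    linarith
  | up b Sp u ih =>
    intro n A h hpul
    set s := selfSt (DT.up b Sp u : DT Λ κ) A with hs
    have hl : ¬ (s.t.isLeaf ∨ s.t'.isLeaf) := by simp [hs, selfSt, DT.isLeaf]
    have hst : ¬ stp s := hstp s rfl rfl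
    have hj : stp.jt s := hjt _ _
    have hp : s.p = b := by simp [hs, St.p, selfSt, DT.top]
    have hv : vw s.p s.t = .up Sp u := by rw [hp]; simp [hs, selfSt, vw]
    have hv' : vw s.p s.t' = .up Sp u := by rw [hp]; simp [hs, selfSt, vw]
    have hPL : ¬ s.isPL := by unfold St.isPL; simp only [hv, hv']; exact fun h => h
    have hPR : ¬ s.isPR := by unfold St.isPR; simp only [hv, hv']; exact fun h => h
    have e1 : nxt0 stp s = [(1, { s with t := u, t' := u })] := by
      simp [nxt0, hl, hst, hPL, hPR, hv, hv', hj]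
    have e2 : nxF0 stp (Fl.self, s) = [(1, (Fl.self, { s with t := u, t' := u }))] := by
      simp only [nxF0, e1, List.map_cons, List.map_nil]
    have e0 : eF stp μ ν B (Fl.self, s) = 0 := by
      show eAll stp μ ν B s = _
      simp [eAll, eNM, eOS, eSHR, eX, eSTOP, hl, hst, hPL, hPR, hv, hv', hj]
    have e3 : ({ s with t := u, t' := u } : St Λ κ) = selfSt u A := rfl
    have := ih b A ⟨h.ok, h.ad, h.col.2.2.mono (Nat.le_succ b), h.wf.2⟩ hpul
    rw [WF_eq0, e0, e2, e3]
    simp only [List.map_cons, List.map_nil, List.sum_cons, List.sum_nil, zero_add, one_mul,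
      add_zero]
    exact this

/-- **closure theorem with the flagged walk** -/
theorem closure_walkF {δ : TrG Λ κ → Finset Λ → ℝ} {C C₀ η : ℝ} (hC : 0 ≤ C) (hC₀ : 0 ≤ C₀)
    (hη : 0 ≤ η) (hB : 0 ≤ B) {stp : Stp Λ κ}
    (hstp : ∀ s : St Λ κ, s.O = ∅ → s.O' = ∅ → ¬ stp s)
    (hjt : ∀ (d : DT Λ κ) (A : Finset Λ), stp.jt (selfSt d A)) (d : DT Λ κ) (h : d.g.Ok)
    (hcol : d.Col n) (hwf : d.All (NodeOk wr Ad μ ν)) (hd : d.g.All (SlackR Ad δ))
    (hl : d.g.All (LeafSMR Ad μ ν C)) (hl0 : d.g.All (LeafIn Ad μ C₀))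
    (herr : d.All fun r => ¬ PulG r.g →
      Below (SMR Ad μ ν δ (16 * (C + C₀ + η + B + 1))) r.g →
      ∀ A, Ad r.g A → A.Nonempty →
      dseR A r.g + rseR A r.g + WF stp (eF stp μ ν B) (Fl.self, selfSt r A) ≤
        η * (μ r.g A + μ r.g A * ν r.g) + δ r.g A)
    (hU : Ad d.g Finset.univ) :
    I (fun x => d.g.tot x ^ 2) ≤ (16 * (C + C₀ + η + B + 1)) *
      (μ d.g Finset.univ + μ d.g Finset.univ * ν d.g + δ d.g Finset.univ) := by
  have hN : d.g.All (AdN Ad) := (hwf.mono fun r hr => hr.adN).g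
  have hM : d.g.All (MassOk Ad μ ν) := (hwf.mono fun r hr => hr.mass).g
  have key : d.g.All fun r => ¬ PulG r → Below (SMR Ad μ ν δ (16 * (C + C₀ + η + B + 1))) r →
      ∀ A, Ad r A → A.Nonempty →
      ∃ e, SelfZ Ad μ ν B r A e ∧
        dseR A r + rseR A r + e ≤ η * (μ r A + μ r A * ν r) + δ r A := by
    refine DT.All.g (t := d) ?_
    refine ((all_sub h hcol hwf).and herr).mono ?_
    rintro r ⟨⟨hr, ⟨m, hm⟩, hw⟩, he⟩ hpul hb A hA hne
    exact ⟨_, selfZ_walk hB hstp hjt r m A ⟨hr, hA, hm.mono (Nat.le_succ m), hw⟩ hpul,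
      he hpul hb A hA hne⟩
  exact closureZ_root hC hC₀ hη hB d.g h hN hM hd hl hl0 key hU

end

end Crest.Agent.R4P.TW17
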