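import Crest.Agent.R4P.GainX_36

/-!
R4 (S0004) with powers, TgtTop, helper28: **telescoping of the cross energies of a group walk**.

Two class maps per column: `zd p : Λ → ζ` (the relation of the cost, e.g. the index of the column) and
`kd p : Λ → δ` (the classes of the game, finer going up: `kd p i = kd p j → kd (p-1) i = kd (p-1) j`).

* `PE S g` : energy of the pairs of `S` in the group function; `En_eq`.
* `Rr p g` : energy of the pairs with equal `zd p` and different `kd p`;
  `Lv p g` : the pairs of `Rr (p-1)` which leave the class of `zd` at `p`.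
* `tele` : `Σ Cov (zd p) ≤ Σ Cov (zd p, kd p) + Rr (top) + Σ Lv`.
* `cost_cov` : the cost of a tie group `I Σ_z (Σ_{ix c = z} GmG c)^2` is `Cov` plus the second order
  term `I Σ_z (Ep G_z)^2`.
-/

set_option autoImplicit false
set_option linter.unusedSectionVars false
set_option linter.unusedVariables false
open MeasureTheory Filter Set

namespace Crest.Agent.R4P.Tele28

open Crest.Agent.R4.Tour104 Crest.Agent.R4.Tour758 Crest.Agent.R4.Avg758 Crest.Agent.R4.Clos758
open Crest.Agent.R4.ClosL758 Crest.Agent.R4.ClosG758 Crest.Agent.R4.ClosR758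
open Crest.Agent.R4P.ClosR442 Crest.Agent.R4P.Grp36
open Crest.Agent.R4P.Xfer36 Crest.Agent.R4P.TopC36 Crest.Agent.R4P.PN36 Crest.Agent.R4P.GainX36
open Crest.Agent.R4P.Walk560 (DT WrN)

variable {Λ κ : Type} [Fintype Λ] [DecidableEq Λ] [Fintype κ] [DecidableEq κ]

/-! ### energies of sets of pairs -/

/-- energy of the pairs of `S` -/
noncomputable def PE (S : Finset (Λ × Λ)) (g : Gp Λ κ) : ℝ :=
  ∑ e ∈ S, I (fun x => gval g e.1 x * gval g e.2 x)

lemma term_nonneg {g : Gp Λ κ} (h : GOk g) (e : Λ × Λ) :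
    0 ≤ I (fun x => gval g e.1 x * gval g e.2 x) :=
  I_nonneg fun x => mul_nonneg ((PB_gval h _).nonneg x) ((PB_gval h _).nonneg x)

lemma PE_nonneg {g : Gp Λ κ} (h : GOk g) (S : Finset (Λ × Λ)) : 0 ≤ PE S g :=
  Finset.sum_nonneg fun e _ => term_nonneg h e

lemma PE_mono {g : Gp Λ κ} (h : GOk g) {S T : Finset (Λ × Λ)} (hST : S ⊆ T) : PE S g ≤ PE T g :=
  Finset.sum_le_sum_of_subset_of_nonneg hST fun e _ _ => term_nonneg h e

lemma PE_union_le {g : Gp Λ κ} (h : GOk g) {S T U : Finset (Λ × Λ)} (hs : U ⊆ S ∪ T) :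
    PE U g ≤ PE S g + PE T g := by
  refine (PE_mono h hs).trans ?_
  unfold PE
  rw [← Finset.sum_union_inter]
  exact le_add_of_nonneg_right (Finset.sum_nonneg fun e _ => term_nonneg h e)

lemma PE_split {p : ℕ} {g : Gp Λ κ} (h : GOk g) (S : Finset (Λ × Λ)) :
    PE S (gB p g) + PE S (gR p g) ≤ PE S g := by
  unfold PE
  rw [← Finset.sum_add_distrib]
  refine Finset.sum_le_sum fun e _ => ?_
  have b1 := PB_gval (h.gB (p := p)) e.1
  have b2 := PB_gval (h.gB (p := p)) e.2
  have r1 := PB_gval (h.gR (p := p)) e.1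
  have r2 := PB_gval (h.gR (p := p)) e.2
  have t1 := PB_gval h e.1
  have t2 := PB_gval h e.2
  rw [← I_add (b1.mul b2).integrableOn (r1.mul r2).integrableOn]
  refine I_mono ((b1.mul b2).add (r1.mul r2)).integrableOn (t1.mul t2).integrableOn fun x => ?_
  rw [gval_split p g e.1 x, gval_split p g e.2 x]
  nlinarith [mul_nonneg (b1.nonneg x) (r2.nonneg x), mul_nonneg (r1.nonneg x) (b2.nonneg x)]

section en
variable {δ : Type*} [Fintype δ] [DecidableEq δ]

/-- the energy of a class map is an energy of pairs -/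
lemma En_eq (κd : Λ → δ) {g : Gp Λ κ} (h : GOk g) :
    En κd g = PE (Finset.univ.filter fun e : Λ × Λ => κd e.1 = κd e.2) g := by
  unfold En PE
  have e1 : ∀ d, I (fun x => cval κd g d x ^ 2) =
      ∑ e ∈ Finset.univ.filter (fun e : Λ × Λ => κd e.1 = d ∧ κd e.2 = d),
        I (fun x => gval g e.1 x * gval g e.2 x) := by
    intro d
    rw [← I_sum _ fun e _ => ((PB_gval h e.1).mul (PB_gval h e.2)).integrableOn]
    congr 1
    funext x
    unfold cval
    rw [sq, Finset.sum_mul_sum, ← Finset.sum_product']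
    refine Finset.sum_congr ?_ fun e _ => rfl
    ext e
    simp only [Finset.mem_product, Finset.mem_filter, Finset.mem_univ, true_and]
  rw [Finset.sum_congr rfl fun d _ => e1 d, ← Finset.sum_fiberwise (Finset.univ.filter
    fun e : Λ × Λ => κd e.1 = κd e.2) (fun e => κd e.1)]
  refine Finset.sum_congr rfl fun d _ => Finset.sum_congr ?_ fun e _ => rfl
  ext e
  simp only [Finset.mem_filter, Finset.mem_univ, true_and]
  constructor
  · rintro ⟨h1, h2⟩; exact ⟨h1.trans h2.symm, h1⟩
  · rintro ⟨h1, h2⟩; exact ⟨h2, h1 ▸ h2⟩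

end en

/-! ### the telescoping -/

section tele
variable {ζ δ : Type*} [Fintype ζ] [DecidableEq ζ] [Fintype δ] [DecidableEq δ]
  (zd : ℕ → Λ → ζ) (kd : ℕ → Λ → δ)

/-- the common refinement -/
def jd (p : ℕ) (j : Λ) : ζ × δ := (zd p j, kd p j)

/-- pairs with equal `zd p` and different `kd p` -/
def RS (p : ℕ) : Finset (Λ × Λ) :=
  Finset.univ.filter fun e => zd p e.1 = zd p e.2 ∧ kd p e.1 ≠ kd p e.2

/-- the pairs of `RS (p-1)` which leave at `p` -/
def LvS (p : ℕ) : Finset (Λ × Λ) :=
  Finset.univ.filter fun e => zd (p - 1) e.1 = zd (p - 1) e.2 ∧ kd (p - 1) e.1 ≠ kd (p - 1) e.2 ∧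
    zd p e.1 ≠ zd p e.2

/-- cross energy -/
noncomputable def Rr (p : ℕ) (g : Gp Λ κ) : ℝ := PE (RS zd kd p) g

/-- energy of the leaving pairs -/
noncomputable def Lv (p : ℕ) (g : Gp Λ κ) : ℝ := PE (LvS zd kd p) g

/-- sum of the leaving energies over the walk -/
noncomputable def LS : ℕ → ℕ → Gp Λ κ → ℝ
  | 0, _, _ => 0
  | n + 1, p, g => if p = 0 then 0 else
      Lv zd kd p (gR p g) + LS n p (gC p g) + LS n (p - 1) (gR p g)

lemma En_zd {p : ℕ} {g : Gp Λ κ} (h : GOk g) :
    En (zd p) g = En (jd zd kd p) g + Rr zd kd p g := by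
  rw [En_eq _ h, En_eq _ h]
  unfold Rr PE
  rw [← Finset.sum_union]
  · refine Finset.sum_congr ?_ fun e _ => rfl
    ext e
    simp only [RS, jd, Finset.mem_union, Finset.mem_filter, Finset.mem_univ, true_and, Prod.mk.injEq]
    tauto
  · rw [Finset.disjoint_left]
    intro e h1 h2
    simp only [RS, jd, Finset.mem_filter, Finset.mem_univ, true_and, Prod.mk.injEq] at h1 h2
    exact h2.2 h1.2

lemma Rr_nonneg (p : ℕ) {g : Gp Λ κ} (h : GOk g) : 0 ≤ Rr zd kd p g := PE_nonneg h _

lemma Lv_nonneg (p : ℕ) {g : Gp Λ κ} (h : GOk g) : 0 ≤ Lv zd kd p g := PE_nonneg h _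

lemma Rr_pred {p : ℕ} (hk : ∀ i j, kd p i = kd p j → kd (p - 1) i = kd (p - 1) j)
    {g : Gp Λ κ} (h : GOk g) : Rr zd kd (p - 1) g ≤ Rr zd kd p g + Lv zd kd p g := by
  refine PE_union_le h ?_
  intro e he
  simp only [RS, LvS, Finset.mem_union, Finset.mem_filter, Finset.mem_univ, true_and] at he ⊢
  by_cases hz : zd p e.1 = zd p e.2
  · exact Or.inl ⟨hz, fun h' => he.2 (hk _ _ h')⟩
  · exact Or.inr ⟨he.1, he.2, hz⟩

/-- **the telescoping of the cross energies** -/
theorem tele (hk : ∀ p i j, kd p i = kd p j → kd (p - 1) i = kd (p - 1) j) :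
    ∀ (n p : ℕ) (g : Gp Λ κ), GOk g →
      GS (fun p g => Cov (zd p) p g) n p g ≤ GS (fun p g => Cov (jd zd kd p) p g) n p g +
        Rr zd kd p g + LS zd kd n p g := by
  intro n
  induction n with
  | zero =>
    intro p g hg
    have := Rr_nonneg zd kd p hg
    simp only [GS, LS]
    linarith
  | succ n ih =>
    intro p g hg
    have h0 := Rr_nonneg zd kd p hg
    unfold GS LS
    split_ifs with hp
    · linarith
    · have h1 := ih p _ (hg.gC (p := p))
      have h2 := ih (p - 1) _ (hg.gR (p := p))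
      have e1 := En_gB (zd p) (p := p) hg
      have e2 := En_gB (jd zd kd p) (p := p) hg
      have f1 := En_zd zd kd (p := p) (hg.gB (p := p))
      have f2 := En_zd zd kd (p := p) (hg.gC (p := p))
      have h3 : Rr zd kd p (gB p g) + Rr zd kd p (gR p g) ≤ Rr zd kd p g := PE_split hg _
      have h4 := Rr_pred zd kd (hk p) (hg.gR (p := p))
      linarith

end tele

/-! ### the cost of a tie group -/

section cost
variable {ι : Type} [Fintype ι] [DecidableEq ι] {ix : κ → ι} {p : ℕ} {wr : ℕ → Λ → κ}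

/-- the part of a tie group which is constant on the fibres -/
noncomputable def BG (g : Gp Λ κ) (c : κ) (y : ℝ) : ℝ :=
  (g.map fun m => m.1 * (match m.2 with
    | .br _ _ _ _ _ _ B _ => B c y
    | _ => 0)).sum

lemma PB_BG {g : Gp Λ κ} (hw : ∀ m ∈ g, 0 ≤ m.1) (hg : ∀ m ∈ g, m.2.g.Ok)
    (hb : ∀ m ∈ g, isB p m.2 = true) (c : κ) : PB (BG g c) := by
  induction g with
  | nil => exact PB.const le_rfl
  | cons m g ih =>
    obtain ⟨w, r, t₁, t₀, v, B, G, e⟩ := isB_eq (hb m (by simp))
    have hm := hg m (by simp)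
    rw [e] at hm
    have e1 : BG (m :: g) c = fun y => m.1 * B c y + BG g c y := by
      funext y
      simp [BG, e]
    rw [e1]
    exact ((hm.2.2.col c).pB.smul (hw m (by simp))).add
      (ih (fun a ha => hw a (List.mem_cons_of_mem _ ha))
        (fun a ha => hg a (List.mem_cons_of_mem _ ha))
        (fun a ha => hb a (List.mem_cons_of_mem _ ha)))

/-- class functions of a tie group -/
lemma cval_tie [WRel κ] {g : Gp Λ κ} (hg : ∀ m ∈ g, NOk m.2) (hb : ∀ m ∈ g, isB p m.2 = true)
    (hr : ∀ m ∈ g, WrN wr m.2) (z : ι) (x : ℝ) :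
    cval (fun j => ix (wr p j)) g z x =
      ∑ c ∈ Finset.univ.filter (fun c => ix c = z), BG g c (p * x) + ixF ix (GmG g) z x := by
  unfold ixF
  rw [← Finset.sum_add_distrib]
  induction g with
  | nil => simp [cval, BG, GmG]
  | cons m g ih =>
    obtain ⟨w, r, t₁, t₀, v, B, G, e⟩ := isB_eq (hb m (by simp))
    have hm := hg m (by simp)
    have hr' := hr m (by simp)
    have ih' := ih (fun a ha => hg a (List.mem_cons_of_mem _ ha))
      (fun a ha => hb a (List.mem_cons_of_mem _ ha)) (fun a ha => hr a (List.mem_cons_of_mem _ ha))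
    have e1 : cval (fun j => ix (wr p j)) (m :: g) z x =
        m.1 * ∑ j ∈ Finset.univ.filter (fun j => ix (wr p j) = z), m.2.g.val j x +
          cval (fun j => ix (wr p j)) g z x := by
      unfold cval
      rw [Finset.mul_sum, ← Finset.sum_add_distrib]
      exact Finset.sum_congr rfl fun j _ => gval_cons m g j x
    rw [e1, ih']
    have e2 : ∀ c, BG (m :: g) c (p * x) + GmG (m :: g) c x =
        m.1 * (B c (p * x) + Gm m.2 c x) + (BG g c (p * x) + GmG g c x) := by
      intro c
      have : BG (m :: g) c (p * x) = m.1 * B c (p * x) + BG g c (p * x) := by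
        simp [BG, e]
      rw [this, GmG_cons]
      ring
    have e5 : ∑ c ∈ Finset.univ.filter (fun c => ix c = z),
        (m.1 * (B c (p * x) + Gm m.2 c x) + (BG g c (p * x) + GmG g c x)) =
        m.1 * (∑ c ∈ Finset.univ.filter (fun c => ix c = z), (B c (p * x) + Gm m.2 c x)) +
        ∑ c ∈ Finset.univ.filter (fun c => ix c = z), (BG g c (p * x) + GmG g c x) := by
      rw [Finset.sum_add_distrib, Finset.mul_sum]
    rw [Finset.sum_congr rfl fun c _ => e2 c, e5]
    congr 2
    have hrr : r = wr p := by rw [e] at hr'; exact hr'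
    have hG : ∀ c, PB (G c) := by
      have := hm.2
      rw [e] at this
      exact fun c => (this.2.2.col c).pG
    have e3 : ∀ c, B c (p * x) + Gm m.2 c x = sm (wr p) v c x := by
      intro c
      have h1 : Gm m.2 c = G c := by
        rw [e]
        funext x
        unfold Gm
        simp only [if_pos hG]
      have h2 : TieD p w r t₁.g.val t₀.g.val v B G := by
        have := hm.1
        rw [e] at this
        exact TieOk.br this
      rw [h1, ← hrr]
      exact (h2.ev c x).symm
    rw [Finset.sum_congr rfl fun c _ => e3 c]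
    have e4 : ∀ j, m.2.g.val j x = v j x := by intro j; rw [e]; rfl
    simp only [e4]
    unfold sm
    rw [← Finset.sum_fiberwise_of_maps_to (t := Finset.univ.filter (fun c => ix c = z))
      (g := fun j => wr p j)]
    · refine Finset.sum_congr rfl fun c hc => Finset.sum_congr ?_ fun j _ => rfl
      ext j
      simp only [Finset.mem_filter, Finset.mem_univ, true_and] at hc ⊢
      constructor
      · rintro ⟨_, h2⟩; exact h2
      · intro h2; exact ⟨by rw [h2]; exact hc, h2⟩
    · intro j hj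
      simpa using hj

/-- **the cost of a tie group** : covariance plus second order term -/
theorem cost_cov [WRel κ] {g : Gp Λ κ} (hp : 0 < p) (hw : Wg g) (hG : GOk g)
    (hg : ∀ m ∈ g, NOk m.2)
    (hb : ∀ m ∈ g, isB p m.2 = true) (hr : ∀ m ∈ g, WrN wr m.2) :
    I (fun x => ∑ z, ixF ix (GmG g) z x ^ 2) = Cov (fun j => ix (wr p j)) p g +
      ∑ z, I (fun y => Ep p (ixF ix (GmG g) z) y ^ 2) := by
  have pG : ∀ z, PB (ixF ix (GmG g) z) := fun z => PB_ixF (PB_GmG hw) z
  rw [I_sum _ fun z _ => (PBsq (pG z)).integrableOn]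
  unfold Cov
  rw [← Finset.sum_add_distrib]
  refine Finset.sum_congr rfl fun z _ => ?_
  set F := ixF ix (GmG g) z with hF
  set b : ℝ → ℝ := fun y => ∑ c ∈ Finset.univ.filter (fun c => ix c = z), BG g c y with hbd
  have pb : PB b := PB.sum _ fun c _ =>
    PB_BG (fun m hm => (hw m hm).1) (fun m hm => (hg m hm).2) hb c
  have pF : PB F := pG z
  have pC : PB (cval (fun j => ix (wr p j)) g z) := PB_cval _ hG z
  have eC : cval (fun j => ix (wr p j)) g z = fun x => b (p * x) + F x :=
    funext fun x => cval_tie hg hb hr z x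
  have pbF : PB fun x => b (p * x) := pb.pull p
  -- mean
  have e1 : ∀ y, Ep p (cval (fun j => ix (wr p j)) g z) y = b y + Ep p F y := by
    intro y
    rw [eC, Ep_add]
    have := Ep_pull_mul hp (f := fun _ => (1 : ℝ)) pb.per y
    simp only [mul_one] at this
    rw [this, Ep_const hp, mul_one]
  -- second moment
  have e2 : ∀ y, Ep p (fun x => cval (fun j => ix (wr p j)) g z x ^ 2) y =
      b y ^ 2 + 2 * (b y * Ep p F y) + Ep p (fun x => F x ^ 2) y := by
    intro y
    have e3 : (fun x => cval (fun j => ix (wr p j)) g z x ^ 2) =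
        fun x => (b (p * x) * (b (p * x) + 2 * F x)) + F x ^ 2 := by
      rw [eC]; funext x; ring
    rw [e3, Ep_add, Ep_pull_mul hp pb.per y, Ep_add, Ep_smul]
    have := Ep_pull_mul hp (f := fun _ => (1 : ℝ)) pb.per y
    simp only [mul_one] at this
    rw [this, Ep_const hp, mul_one]
    ring
  have pE : PB (Ep p F) := pF.Ep hp
  have pS : PB (Ep p fun x => F x ^ 2) := (PBsq pF).Ep hp
  have e4 : I (fun x => cval (fun j => ix (wr p j)) g z x ^ 2) =
      I (fun y => b y ^ 2 + 2 * (b y * Ep p F y) + Ep p (fun x => F x ^ 2) y) := by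
    rw [← I_Ep hp (PBsq pC).integrableOn]
    congr 1
    exact funext e2
  have e5 : I (fun y => Ep p (cval (fun j => ix (wr p j)) g z) y ^ 2) =
      I (fun y => (b y ^ 2 + 2 * (b y * Ep p F y)) + Ep p F y ^ 2) := by
    congr 1
    funext y
    rw [e1 y]; ring
  have pX : PB fun y => b y ^ 2 + 2 * (b y * Ep p F y) :=
    (PBsq pb).add ((pb.mul pE).smul (by norm_num))
  have e6 : I (fun y => b y ^ 2 + 2 * (b y * Ep p F y) + Ep p (fun x => F x ^ 2) y) =
      I (fun y => b y ^ 2 + 2 * (b y * Ep p F y)) + I (fun x => F x ^ 2) := by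
    rw [I_add pX.integrableOn pS.integrableOn]
    congr 1
    exact I_Ep hp (PBsq pF).integrableOn
  rw [e4, e5, e6, I_add pX.integrableOn (PBsq pE).integrableOn]
  ring

end cost

end Crest.Agent.R4P.Tele28
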