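import Crest.Agent.R4P.VLoss2_4
import Crest.Agent.R4P.DseInd_21
import Crest.Agent.R4P.TgtDF_7

/-!
R4 (S0004), [W-eSHR] [M3], helper4: the V-loss for the trees of a context (`VLoss_4`).

* `g_LsOk` : the trees of a context keep the loss of the incumbents.
* `in_all`, `tgtL_fin` : energy + losses + lifts + births `≤ a (mu + mu²)` at all the nodes.
* `in_loss` : `Q (Dr) (rv A f) (rv A f) + VL A ≤ C₀ ma + dseR A` at every node.
-/

set_option autoImplicit false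
set_option linter.unusedSectionVars false
set_option linter.unusedVariables false

namespace Crest.Agent.R4P.VLossC4

open Crest.Agent.R4P.Cnt588 Crest.Agent.R4P.Item758 Crest.Agent.R4P.W363
open Crest.Agent.R4P.Data758 Crest.Agent.R4P.LfDat734
open Crest.Agent.R4P.Bld532 (NS All NodeOk Bk)
open Crest.Agent.R4P.Step588 (NDt ND1 ctx_NDt uq_lt All_All)
open Crest.Agent.R4P.WalkIT579 (tp isL nodeOk_hi top_of_nodeOk)
open Crest.Agent.R4P.Skel189 Crest.Agent.R4P.RseSt23 Crest.Agent.R4P.DseCh23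
open Crest.Agent.R4P.RseNd23
open Crest.Agent.R4P.Dse22 (chE LocOk dse_le dse_items)
open Crest.Agent.R4P.DseFin21 Crest.Agent.R4P.LeafIa21 Crest.Agent.R4P.DseInd21
open Crest.Agent.R4P.Frame758 (LeafAll LeafI wt tG tM tN CxOk leafIn_of tM_eq AdL_AdI)
open Crest.Agent.R4.Soft104 (w)
open Crest.Agent.R4.Item758 (IL AdI AdS AdI_all AdI_AdN)
open Crest.Agent.R4.ClosR758 (dseR din_leR LeafIn AdN MassOk)
open Crest.Agent.R4.ClosG758 Crest.Agent.R4.ClosL758 Crest.Agent.R4.Avg758 Crest.Agent.R4.Fam464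
open Crest.Agent.R4.ClosR758 Crest.Agent.R4.Tour758 Crest.Agent.R4.Tour104 Crest.Agent.R4.Clos758
open Crest.Agent.R4P.VLoss4
open Crest.Agent.R4P.Fin5 (CF)
open Crest.Agent.R4P.SkelF29 (PartF)

section gen
variable {Λ κ : Type*} [Fintype Λ] [DecidableEq Λ] [Fintype κ] [DecidableEq κ]

/-- item trees keep the loss of the incumbents -/
lemma par_LqOk (D : Par Λ κ) {t : IT} {b pr : ℕ} (hb : 0 < b) (hF : Fit b pr t)
    (hW : D.Wts pr t) : (D.toG b pr t).All LqOk :=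
  toG_LqOk _ b hb (D.toFT_Adm t b pr hb hF hW)

/-- item trees keep the loss of the incumbents -/
lemma par_LsOk (D : Par Λ κ) {t : IT} {b pr : ℕ} (hb : 0 < b) (hF : Fit b pr t)
    (hW : D.Wts pr t) : (D.toG b pr t).All LsOk :=
  toG_LsOk _ b hb (D.toFT_Adm t b pr hb hF hW)

end gen

variable {N : Skel189.Num} {γ : ℝ} {p0 P₀ : ℕ} {X : Ctx N γ p0 P₀}

/-- **the in-class energy of a node with the losses of all the nodes below** -/
theorem in_loss {C₀ : ℝ} (hC₀ : 0 ≤ C₀) (hLI : LeafAll (LeafIa X.c (wt X.c.D) C₀) 1 1 1 X.c.t)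
    (j₀ : X.c.Lam) :
    All (fun u τ => ∀ A, AdI X.c.D.it (X.g u τ) A →
      Q (Dr (X.g u τ).part) (rv A (X.g u τ).val) (rv A (X.g u τ).val) + VL A (X.g u τ) ≤
        C₀ * ma X A u τ + dseR A (X.g u τ)) ⟨top X.S, 1, 1, 1⟩ X.c.t := by
  have h1 : LeafAll (LeafI X.c.D (Wa X) C₀) 1 1 1 X.c.t :=
    LeafAll_mono (fun _ _ _ _ h => LeafI_of_a h) _ _ _ _ hLI
  have h2 := All_LeafAll X.c.t ⟨top X.S, 1, 1, 1⟩ h1
  refine All.mono (fun u τ hh A hA => ?_)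
    (((ctx_NDt X).and h2).and ((ctx_fit X).and
      ((All_leafs X.c.t ⟨top X.S, 1, 1, 1⟩).and (ctx_CxOk X))))
  obtain ⟨⟨hn, hl⟩, hF, hlf, hcx⟩ := hh
  have hok : (X.g u τ).Ok := (X.c.D.par X.Y).toG_Ok hn.B_pos hF (node_wts hn X.Y)
  have hls : (X.g u τ).All LsOk := par_LsOk (X.c.D.par X.Y) hn.B_pos hF (node_wts hn X.Y)
  have hnn := X.c.D.dec_nonneg (fun j => Wa_nonneg (X := X) j) (fun S => cx_nonneg X S) X.Y
  have hM := MassOk_muR (Ad := AdI X.c.D.it) hnn (X.c.D.dec_union (Wa X) X.cx X.Y) j₀ hok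
  have hli := leafIn_of (X := X.Y) X.c.D (AdL_AdI X.c.D.it) (fun j => Wa_nonneg (X := X) j)
    (fun S => cx_nonneg X S) j₀ hC₀ τ u.c u.B u.A hF hlf hcx hl
  have key := din_loss hC₀ (X.g u τ) hok hls (AdI_all _ _) hA hM
    (LeafIn.all hli (AdN.all (AdI_all _ _) hA))
  have e := tM_eq (X := X.Y) X.c.D (Wa X) j₀ hF hlf hcx A
  have e' : muR (X.c.D.dec (Wa X) X.cx X.Y) j₀ (X.g u τ) A = ma X A u τ := e
  rw [e'] at key
  exact key

/-- **the in-class energy of a node with the losses, the lifts and the births of all the nodes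
below** -/
theorem in_all {C₀ : ℝ} (hC₀ : 0 ≤ C₀) (hLI : LeafAll (LeafIa X.c (wt X.c.D) C₀) 1 1 1 X.c.t)
    (j₀ : X.c.Lam) :
    All (fun u τ => ∀ A, AdI X.c.D.it (X.g u τ) A →
      Q (Dr (X.g u τ).part) (rv A (X.g u τ).val) (rv A (X.g u τ).val) + VL A (X.g u τ) +
        LF A (X.g u τ) + BT A (X.g u τ) ≤
        C₀ * ma X A u τ + dseR A (X.g u τ)) ⟨top X.S, 1, 1, 1⟩ X.c.t := by
  have h1 : LeafAll (LeafI X.c.D (Wa X) C₀) 1 1 1 X.c.t :=
    LeafAll_mono (fun _ _ _ _ h => LeafI_of_a h) _ _ _ _ hLI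
  have h2 := All_LeafAll X.c.t ⟨top X.S, 1, 1, 1⟩ h1
  refine All.mono (fun u τ hh A hA => ?_)
    (((ctx_NDt X).and h2).and ((ctx_fit X).and
      ((All_leafs X.c.t ⟨top X.S, 1, 1, 1⟩).and (ctx_CxOk X))))
  obtain ⟨⟨hn, hl⟩, hF, hlf, hcx⟩ := hh
  have hok : (X.g u τ).Ok := (X.c.D.par X.Y).toG_Ok hn.B_pos hF (node_wts hn X.Y)
  have hls : (X.g u τ).All LqOk := par_LqOk (X.c.D.par X.Y) hn.B_pos hF (node_wts hn X.Y)
  have hnn := X.c.D.dec_nonneg (fun j => Wa_nonneg (X := X) j) (fun S => cx_nonneg X S) X.Y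
  have hM := MassOk_muR (Ad := AdI X.c.D.it) hnn (X.c.D.dec_union (Wa X) X.cx X.Y) j₀ hok
  have hli := leafIn_of (X := X.Y) X.c.D (AdL_AdI X.c.D.it) (fun j => Wa_nonneg (X := X) j)
    (fun S => cx_nonneg X S) j₀ hC₀ τ u.c u.B u.A hF hlf hcx hl
  have key := din_all hC₀ (X.g u τ) hok hls (AdI_all _ _) hA hM
    (LeafIn.all hli (AdN.all (AdI_all _ _) hA))
  have e := tM_eq (X := X.Y) X.c.D (Wa X) j₀ hF hlf hcx A
  have e' : muR (X.c.D.dec (Wa X) X.cx X.Y) j₀ (X.g u τ) A = ma X A u τ := e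
  rw [e'] at key
  exact key

/-- everything which the in-class energy recursion of a node pays: energy of the node, losses,
lifts, births of all the nodes below -/
noncomputable def EL (X : Ctx N γ p0 P₀) (u : NS) (τ : IT) (A : Finset X.c.Lam) : ℝ :=
  Q (Dr (X.g u τ).part) (rv A (X.g u τ).val) (rv A (X.g u τ).val) + VL A (X.g u τ) +
    LF A (X.g u τ) + BT A (X.g u τ)

/-- **the target of [M3]** -/
def TgtL (N : Skel189.Num) (γ : ℝ) : Prop :=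
  ∃ a : ℝ, 0 ≤ a ∧ Ev N γ fun p0 P₀ X => CF X → ∀ (j₀ : X.c.Lam) (Hb : NS → IT → Prop),
    PartF X j₀ Hb (fun u τ A => EL X u τ A) a

open Crest.Agent.R4P.ParF5 Crest.Agent.R4P.NumX34 Crest.Agent.R4P.ParT21 in
open Crest.Agent.R4P.FinAll26 (TgtX TgtB TgtD NumFin) in
open Crest.Agent.R4P.NumG23 in
/-- **[M3]** for the final numbers -/
theorem tgtL_fin : ∃ c : ℝ, ∀ (N : Skel189.Num) (Ct C₀ γ : ℝ),
    NumOK N (thF Ct) Ct C₀ (SxF γ N.C1) → NumFin N (thF Ct) Ct c → NumG N → TgtL N γ := by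
  obtain ⟨c0, CI, hc0, hCI, HI⟩ := leafIa_ctx
  obtain ⟨c1, HD⟩ := Crest.Agent.R4P.TgtDF7.tgtD_fin
  refine ⟨max c1 (max (1 / c0) 10), fun N Ct C₀ γ h hN hG => ?_⟩
  have c2 := hN.C1
  have c3 : 1 / c0 ≤ N.C1 := ((le_max_left _ _).trans (le_max_right _ _)).trans c2
  have c4 : 10 ≤ N.C1 := ((le_max_right _ _).trans (le_max_right _ _)).trans c2
  have hN' : NumFin N (thF Ct) Ct c1 := Crest.Agent.R4P.EndD23.NumFin.weaken hN (le_max_left _ _)
  obtain ⟨a, ha, hD⟩ := HD N Ct C₀ γ h hN' hG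
  obtain ⟨p₂, hL⟩ := h.lnum
  have cA := hN.A
  have ca' := hN.a'
  have ca := hN.a
  have cCt := hN.Ct
  have hCt : 0 ≤ Ct := h.Ct0
  obtain ⟨q1, H1⟩ := HI N _ _ _ _ p₂ h.c20 (by linarith) c3 le_rfl hL
  obtain ⟨q2, H2⟩ := hD
  refine ⟨CI + a, by linarith, q1 + q2, fun p0 hp0 => ?_⟩
  obtain ⟨Q2, H2⟩ := H2 p0 (by omega)
  refine ⟨Q2 + 2, fun P₀ hP X hC j₀ Hb => ?_⟩
  have hP2 : 2 ≤ P₀ := by omega
  have k1 := H2 P₀ (by omega) X hC j₀ Hb
  have k2 := in_all (X := X) (by linarith) (H1 p0 (by omega) γ P₀ hP2 X) j₀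
  unfold PartF at k1 ⊢
  refine All.mono (fun u τ hh => ?_)
    (((k1.and k2).and (ctx_tM X j₀)).and ((ctx_mumu X j₀).and (ctx_cpos X)))
  intro hp hb
  obtain ⟨⟨⟨g1, g2⟩, g3⟩, g4, hc⟩ := hh
  have e : X.mu j₀ u τ Finset.univ = u.c * ∑ j ∈ Finset.univ.filter
      (fun j => X.c.D.it j ∈ τ.items), wt X.c.D j := g3 _
  have m1 := ma_le_mu (X := X) hc.le Finset.univ τ
  have m2 := g2 Finset.univ (Crest.Agent.R4.Item758.AdI_univ _ _)
  have m3 := g1 hp hb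
  have m4 : ma X Finset.univ u τ ≤ X.mu j₀ u τ Finset.univ := by rw [e]; exact m1
  have m5 : 0 ≤ ma X Finset.univ u τ := ma_nonneg (X := X) hc.le _ _
  have m6 := mul_le_mul_of_nonneg_left m4 (by linarith : (0 : ℝ) ≤ CI)
  have m7 : 0 ≤ X.mu j₀ u τ Finset.univ * X.mu j₀ u τ Finset.univ :=
    mul_self_nonneg _
  show EL X u τ Finset.univ ≤ (CI + a) * _
  unfold EL
  have m8 : 0 ≤ CI * (X.mu j₀ u τ Finset.univ * X.mu j₀ u τ Finset.univ) :=
    mul_nonneg (by linarith) m7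
  nlinarith [m2, m3, m6, m8]

end Crest.Agent.R4P.VLossC4
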