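import Crest.Agent.R4P.FinT_26
import Crest.Agent.R4P.VLossC_4
import Crest.Agent.R4P.RseG2_10

/-!
R4 (S0004), [W-eSHR], helper10: **`TgtSelf`, the abstract part**: the extra errors of the self states
of the flagged walk.

* `dgs R d` : diagonal states; `cl d` : first column of `d` which is not an up column, `lf d` : the
  core of `d` is a leaf; `NoEv wr p c` : the relations of the pieces of `c` at `p` persist at `cl c`;
* `Fut` : future costs, `HN` : hypotheses at the nodes;
* `WF_self_le` : `WF (xS) (self, dgs R d) ≤ pending pairs + BT + μ fut (cl d)`.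
-/

set_option autoImplicit false
set_option linter.unusedSectionVars false
set_option linter.unusedVariables false
set_option linter.unusedSimpArgs false
open MeasureTheory Filter Set

namespace Crest.Agent.R4P.TgSelf10

open Crest.Agent.R4.Tour104 Crest.Agent.R4.Tour758 Crest.Agent.R4.Avg758 Crest.Agent.R4.Clos758
open Crest.Agent.R4.ClosL758 Crest.Agent.R4.ClosG758 Crest.Agent.R4.ClosR758
open Crest.Agent.R4P.ClosR442 Crest.Agent.R4P.Walk560
open Crest.Agent.R4P.VWalk36 (crs)
open Crest.Agent.R4P.Mrg35 Crest.Agent.R4P.TW17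
open Crest.Agent.R4P.VLoss4 (BT bt BT_nonneg ic_nonneg)

variable {Λ κ : Type*} [Fintype Λ] [DecidableEq Λ] [DecidableEq κ] [WRel κ] [Fintype κ]
  {wr : ℕ → Λ → κ} {Ad : TrG Λ κ → Finset Λ → Prop}
  {μ : TrG Λ κ → Finset Λ → ℝ} {ν : TrG Λ κ → ℝ} {n : ℕ} {stp : Stp Λ κ}

/-- diagonal states -/
noncomputable def dgs (R : Finset (Λ × Λ)) (d : DT Λ κ) : St Λ κ :=
  ⟨1, 1, ∅, ∅, R, d, Finset.univ, d, Finset.univ⟩

/-- first column which is not an up column -/
def cl : DT Λ κ → ℕ
  | .leaf _ _ => 0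
  | .br p _ _ _ _ _ _ _ => p
  | .add b _ _ _ => b
  | .up _ _ t => cl t

/-- the core is a leaf -/
def lf : DT Λ κ → Prop
  | .leaf _ _ => True
  | .up _ _ t => lf t
  | _ => False

/-- the relations of the pieces of `c` at the column `p` persist at the first column of `c` -/
def NoEv (wr : ℕ → Λ → κ) (p : ℕ) (c : DT Λ κ) : Prop :=
  ∀ j j' : Λ, c.g.val j ≠ (fun _ => 0) → c.g.val j' ≠ (fun _ => 0) →
    (j, j') ∈ Ro (wr p) → (j, j') ∈ Ro (wr (cl c))

/-- the future costs -/
structure Fut (p0 : ℕ) (κf fut : ℕ → ℝ) (rg : ℕ → ℕ) : Prop where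
  k0 : ∀ p, 0 ≤ κf p
  f0 : ∀ p, 0 ≤ fut p
  mono : ∀ {p' p : ℕ}, p' ≤ p → fut p' ≤ fut p
  rgm : ∀ {p' p : ℕ}, p' ≤ p → rg p' ≤ rg p
  jump : ∀ {p' p : ℕ}, p0 < p' → p' ≤ p → rg p' < rg p → κf p' + fut p' ≤ fut p
  tie : ∀ {p' p : ℕ}, p.Prime → p0 < p' → p' < p → rg p' = rg p →
    1 / (p : ℝ) * κf p' + fut p' ≤ fut p

/-- the hypotheses at the nodes -/
def HN (wr : ℕ → Λ → κ) (μ : TrG Λ κ → Finset Λ → ℝ) (p0 : ℕ) (κf : ℕ → ℝ) (rg : ℕ → ℕ) :
    DT Λ κ → Prop
  | .leaf _ _ => True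
  | .br p w r t₁ t₀ v B G => w ≤ 1 / (p : ℝ) ∧
      Q (Rr r \ Ro r) v v ≤ κf p * μ (DT.br p w r t₁ t₀ v B G).g Finset.univ ∧
      (¬ lf t₁ → p0 < cl t₁ ∧ (rg (cl t₁) = rg p → NoEv wr p t₁)) ∧ (¬ lf t₀ → p0 < cl t₀)
  | .add b r t₁ t₀ => r = wr b ∧
      Q (Rr r \ Ro r) (DT.add b r t₁ t₀).g.val (DT.add b r t₁ t₀).g.val ≤
        κf b * μ (DT.add b r t₁ t₀).g Finset.univ ∧
      (¬ lf t₁ → p0 < cl t₁ ∧ (rg (cl t₁) = rg b → NoEv wr b t₁)) ∧
      (¬ lf t₀ → p0 < cl t₀ ∧ (rg (cl t₀) = rg b → NoEv wr b t₀))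
  | .up _ _ _ => True

variable {p0 : ℕ} {κf fut : ℕ → ℝ} {rg : ℕ → ℕ}

lemma Q_congr0 {R : Finset (Λ × Λ)} {f f' : Λ → ℝ → ℝ}
    (h : ∀ e ∈ R, f e.1 = (fun _ => 0) ∨ f' e.2 = fun _ => 0) : Q R f f' = 0 := by
  unfold Q
  refine Finset.sum_eq_zero fun e he => ?_
  rcases h e he with h1 | h1
  · rw [h1]; simp [I]
  · rw [h1]; simp [I]

lemma Qs_dgs (R T : Finset (Λ × Λ)) (d : DT Λ κ) :
    Qs { dgs R d with R := T } = Q T d.g.val d.g.val := by
  show Q T (avg 1 (rv Finset.univ d.g.val)) (avg 1 (rv Finset.univ d.g.val)) = _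
  rw [rv_univ, avg_one]

lemma cl_lt {d : DT Λ κ} (h : d.Col n) (hl : ¬ lf d) : cl d < n := by
  induction d generalizing n with
  | leaf r f => exact absurd trivial hl
  | br p w r t₁ t₀ v B G ih₁ ih₀ => exact h.2.1
  | add b r t₁ t₀ ih₁ ih₀ => exact h.2.1
  | up b Sp t ih => exact (ih h.2.2 hl).trans h.2.1

lemma cl_lf {d : DT Λ κ} (hl : lf d) : cl d = 0 := by
  induction d with
  | leaf r f => rfl
  | br p w r t₁ t₀ v B G ih₁ ih₀ => exact absurd hl (fun h => h)
  | add b r t₁ t₀ ih₁ ih₀ => exact absurd hl (fun h => h)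
  | up b Sp t ih => exact ih hl

lemma part_core {d : DT Λ κ} (hw : d.All (NodeOk wr Ad μ ν)) (h : d.All (HN wr μ p0 κf rg))
    (hl : ¬ lf d) : d.g.part = wr (cl d) := by
  induction d with
  | leaf r f => exact absurd trivial hl
  | br p w r t₁ t₀ v B G ih₁ ih₀ => exact hw.1.wrn
  | add b r t₁ t₀ ih₁ ih₀ => exact h.1.1
  | up b Sp t ih => exact ih hw.2 h.2 hl

lemma rse_core {d : DT Λ κ} (hw : d.All (NodeOk wr Ad μ ν)) (h : d.All (HN wr μ p0 κf rg))
    (hl : ¬ lf d) : Q (Rr (wr (cl d)) \ Ro (wr (cl d))) d.g.val d.g.val ≤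
      κf (cl d) * μ d.g Finset.univ := by
  induction d with
  | leaf r f => exact absurd trivial hl
  | br p w r t₁ t₀ v B G ih₁ ih₀ =>
    have e : r = wr p := hw.1.wrn
    have := h.1.2.1
    rw [e] at this
    have e2 : (DT.br p w r t₁ t₀ v B G : DT Λ κ).g.val = v := rfl
    rw [e2]
    show Q (Rr (wr p) \ Ro (wr p)) v v ≤ κf p * μ (DT.br p w r t₁ t₀ v B G).g Finset.univ
    rw [← e] at this ⊢
    exact this
  | add b r t₁ t₀ ih₁ ih₀ =>
    have e : r = wr b := h.1.1
    have := h.1.2.1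
    show Q (Rr (wr b) \ Ro (wr b)) (DT.add b r t₁ t₀).g.val (DT.add b r t₁ t₀).g.val ≤
      κf b * μ (DT.add b r t₁ t₀).g Finset.univ
    rw [← e]
    exact this
  | up b Sp t ih => exact ih hw.2 h.2 hl

open Classical in
/-- pending pairs of a diagonal state -/
noncomputable def pn (wr : ℕ → Λ → κ) (R : Finset (Λ × Λ)) (d : DT Λ κ) : ℝ :=
  if lf d then 0 else Q (R \ Ro (wr (cl d))) d.g.val d.g.val

/-- **the potential** -/
noncomputable def Tp (wr : ℕ → Λ → κ) (μ : TrG Λ κ → Finset Λ → ℝ) (fut : ℕ → ℝ)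
    (R : Finset (Λ × Λ)) (d : DT Λ κ) : ℝ :=
  pn wr R d + BT Finset.univ d.g + μ d.g Finset.univ * fut (cl d)

/-- **newborn pairs of a child** `c` of the column `p` -/
lemma pn_child {p : ℕ} {c : DT Λ κ} (ok : c.g.Ok) (hw : c.All (NodeOk wr Ad μ ν))
    (h : c.All (HN wr μ p0 κf rg)) (hm : 0 ≤ μ c.g Finset.univ) (hk : ∀ p, 0 ≤ κf p)
    (T : Finset (Λ × Λ)) (hl : ¬ lf c) :
    pn wr T c ≤ Q (T \ Ro (wr p)) c.g.val c.g.val + ic c.g.part (wr p) c.g.val +
      κf (cl c) * μ c.g Finset.univ ∧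
    (NoEv wr p c → pn wr T c ≤ Q (T \ Ro (wr p)) c.g.val c.g.val) := by
  classical
  have pv : ∀ j, PB (c.g.val j) := fun j => ok.pb j
  have e0 : pn wr T c = Q (T \ Ro (wr (cl c))) c.g.val c.g.val := if_neg hl
  have hp := part_core hw h hl
  have hr := rse_core hw h hl
  constructor
  · rw [e0]
    have s1 := Q_le_sdiff (T \ Ro (wr (cl c))) (T \ Ro (wr p)) pv pv
    have s2 := Q_le_sdiff ((T \ Ro (wr (cl c))) \ (T \ Ro (wr p))) (Dr c.g.part \ Dr (wr p)) pv pv
    have s3 : Q (((T \ Ro (wr (cl c))) \ (T \ Ro (wr p))) \ (Dr c.g.part \ Dr (wr p)))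
        c.g.val c.g.val ≤ Q (Rr (wr (cl c)) \ Ro (wr (cl c))) c.g.val c.g.val := by
      refine Q_mono_set (fun e he => ?_) pv pv
      simp only [Finset.mem_sdiff, not_and, not_not] at he
      obtain ⟨⟨⟨hT, h1⟩, h2⟩, h3⟩ := he
      have h4 : e ∈ Ro (wr p) := h2 hT
      refine Finset.mem_sdiff.2 ⟨?_, h1⟩
      by_contra hne
      have h5 : e ∈ Dr c.g.part := by
        rw [hp]
        unfold Rr at hne
        unfold Dr
        simp only [Finset.mem_filter, Finset.mem_univ, true_and, ne_eq, not_not] at hne ⊢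
        exact hne
      have h6 := h3 h5
      have h7 := Ro_subset _ h4
      unfold Rr at h7
      unfold Dr at h6
      simp only [Finset.mem_filter, Finset.mem_univ, true_and] at h6 h7
      exact h7 h6
    have e1 : ic c.g.part (wr p) c.g.val =
        Q (Dr c.g.part \ Dr (wr p)) c.g.val c.g.val := rfl
    rw [e1]
    linarith
  · intro hne
    rw [e0]
    have s1 := Q_le_sdiff (T \ Ro (wr (cl c))) (T \ Ro (wr p)) pv pv
    have s2 : Q ((T \ Ro (wr (cl c))) \ (T \ Ro (wr p))) c.g.val c.g.val = 0 := by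
      refine Q_congr0 fun e he => ?_
      simp only [Finset.mem_sdiff, not_and, not_not] at he
      obtain ⟨⟨hT, h1⟩, h2⟩ := he
      by_contra hc
      rw [not_or] at hc
      exact h1 (hne e.1 e.2 hc.1 hc.2 (h2 hT))
    linarith

/-- the errors `xS` vanish after the self states -/
lemma WF_xS_zero : ∀ (k : ℕ) (f : Fl) (s : St Λ κ), s.rank < k → f ≠ Fl.self →
    WF stp (xS wr stp) (f, s) = 0 := by
  intro k
  induction k with
  | zero => intro f s h; omega
  | succ k ih =>
    intro f s hs hf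
    rw [WF_eq0]
    have h0 : xS wr stp (f, s) = 0 := by
      cases f with
      | self => exact absurd rfl hf
      | top => rfl
      | old => rfl
    have h1 : ∀ q ∈ nxF0 stp (f, s), q.2.1 ≠ Fl.self := by
      intro q hq
      cases f with
      | self => exact absurd rfl hf
      | top =>
        simp only [nxF0] at hq
        split_ifs at hq
        · obtain ⟨x, hx, rfl⟩ := List.mem_map.1 hq
          simp
        · obtain ⟨x, hx, rfl⟩ := List.mem_map.1 hq
          simp
        · obtain ⟨x, hx, rfl⟩ := List.mem_map.1 hq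
          show flS x.2 ≠ Fl.self
          unfold flS
          split_ifs <;> simp
      | old =>
        simp only [nxF0] at hq
        obtain ⟨x, hx, rfl⟩ := List.mem_map.1 hq
        simp
    rw [h0, zero_add]
    refine List.sum_eq_zero fun x hx => ?_
    obtain ⟨q, hq, rfl⟩ := List.mem_map.1 hx
    have hr := nxF0_rank stp (f, s) q hq
    have hr' : q.2.2.rank < k := by
      have e1 : rkF q.2 = q.2.2.rank := rfl
      have e2 : rkF (f, s) = s.rank := rfl
      rw [e1, e2] at hr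
      omega
    show q.1 * WF stp (xS wr stp) (q.2.1, q.2.2) = 0
    rw [ih q.2.1 q.2.2 hr' (h1 q hq), mul_zero]

lemma WF_xS_top (s : St Λ κ) : WF stp (xS wr stp) (Fl.top, s) = 0 :=
  WF_xS_zero _ _ s (Nat.lt_succ_self _) (by simp)

lemma pn_nonneg {d : DT Λ κ} (ok : d.g.Ok) (R : Finset (Λ × Λ)) : 0 ≤ pn wr R d := by
  unfold pn
  split_ifs
  · exact le_rfl
  · exact Q_nonneg (fun j => ok.pb j) (fun j => ok.pb j)

set_option maxHeartbeats 2000000 in
/-- **the extra errors of the self states** -/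
theorem WF_self_le (hf : Fut p0 κf fut rg) (hstp : ∀ s : St Λ κ, s.O = ∅ → s.O' = ∅ → ¬ stp s)
    (hjt : ∀ (R : Finset (Λ × Λ)) (d : DT Λ κ), stp.jt (dgs R d)) (d : DT Λ κ) :
    ∀ (n : ℕ) (R : Finset (Λ × Λ)), Side wr Ad μ ν n d Finset.univ → d.All (HN wr μ p0 κf rg) →
      WF stp (xS wr stp) (Fl.self, dgs R d) ≤ Tp wr μ fut R d := by
  classical
  induction d with
  | leaf r f =>
    intro n R h hn
    rw [WF_eq0]
    have hl : (dgs R (DT.leaf r f : DT Λ κ)).t.isLeaf ∨
      (dgs R (DT.leaf r f : DT Λ κ)).t'.isLeaf := Or.inl trivial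
    have e1 : nxt0 stp (dgs R (DT.leaf r f : DT Λ κ)) = [] := by simp [nxt0, hl]
    have e0 : xS wr stp (Fl.self, dgs R (DT.leaf r f : DT Λ κ)) = 0 := by
      simp [xS, eSHR, eMX, crs, hl]
    have e2 : nxF0 stp (Fl.self, dgs R (DT.leaf r f : DT Λ κ)) = [] := by
      simp only [nxF0, e1, List.map_nil]
    rw [e0, e2]
    have hm : 0 ≤ μ (DT.leaf r f : DT Λ κ).g Finset.univ := h.wf.self.mass.base.nn _ h.ad
    have h1 := mul_nonneg hm (hf.f0 (cl (DT.leaf r f : DT Λ κ)))
    have h2 := BT_nonneg h.ok (Finset.univ : Finset Λ)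
    have h3 := pn_nonneg (wr := wr) h.ok R
    unfold Tp
    simp only [List.map_nil, List.sum_nil, add_zero]
    linarith
  | up b Sp t ih =>
    intro n R h hn
    rw [WF_eq0]
    set s := dgs R (DT.up b Sp t : DT Λ κ) with hs
    have hl : ¬ (s.t.isLeaf ∨ s.t'.isLeaf) := by simp [hs, dgs, DT.isLeaf]
    have hst : ¬ stp s := hstp s rfl rfl
    have hp : s.p = b := by simp [hs, St.p, dgs, DT.top]
    have hv : vw s.p s.t = .up Sp t := by rw [hp]; simp [hs, dgs, vw]
    have hv' : vw s.p s.t' = .up Sp t := by rw [hp]; simp [hs, dgs, vw]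
    have hPL : ¬ s.isPL := by
      unfold St.isPL
      simp only [hv, hv', not_false_eq_true]
    have hPR : ¬ s.isPR := by
      unfold St.isPR
      simp only [hv, hv', not_false_eq_true]
    have e1 : nxt0 stp s = [(1, dgs R t)] := by
      have : nxt0 stp s = [(1, { s with t := t, t' := t })] := by
        simp [nxt0, hl, hst, hPL, hPR, hv, hv']
      rw [this]; rfl
    have e2 : nxF0 stp (Fl.self, s) = [(1, (Fl.self, dgs R t))] := by
      simp only [nxF0, e1, List.map_cons, List.map_nil]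
    have e0 : xS wr stp (Fl.self, s) = 0 := by
      simp [xS, eSHR, eMX, crs, hl, hst, hPL, hPR, hv, hv']
    rw [e0, e2]
    obtain ⟨c1, -, -⟩ := h.vwup (p := b) (by simp [vw] : vw b (DT.up b Sp t : DT Λ κ) = .up Sp t)
      le_rfl h.col.1.pos
    have key := ih b R c1 hn.2
    simp only [List.map_cons, List.map_nil, List.sum_cons, List.sum_nil, one_mul, add_zero, zero_add]
    refine key.trans (le_of_eq ?_)
    rfl
  | add b r t₁ t₀ ih₁ ih₀ =>
    intro n R h hn
    rw [WF_eq0]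
    set s := dgs R (DT.add b r t₁ t₀ : DT Λ κ) with hs
    have hl : ¬ (s.t.isLeaf ∨ s.t'.isLeaf) := by simp [hs, dgs, DT.isLeaf]
    have hst : ¬ stp s := hstp s rfl rfl
    have hj : stp.jt s := hjt _ _
    have hp : s.p = b := by simp [hs, St.p, dgs, DT.top]
    have hv : vw s.p s.t = .add r t₁ t₀ := by rw [hp]; simp [hs, dgs, vw]
    have hv' : vw s.p s.t' = .add r t₁ t₀ := by rw [hp]; simp [hs, dgs, vw]
    have hPL : ¬ s.isPL := by
      unfold St.isPL
      simp only [hv, hv', not_false_eq_true]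
    have hPR : ¬ s.isPR := by
      unfold St.isPR
      simp only [hv, hv', not_false_eq_true]
    have e1 : nxt0 stp s = [(1, dgs R t₁), (1, dgs R t₀)] := by
      have : nxt0 stp s = [(1, { s with t := t₁, t' := t₁ }), (1, { s with t := t₀, t' := t₀ })] := by
        simp [nxt0, hl, hst, hPL, hPR, hv, hv', hj]
      rw [this]; rfl
    have e2 : nxF0 stp (Fl.self, s) = [(1, (Fl.self, dgs R t₁)), (1, (Fl.self, dgs R t₀))] := by
      simp only [nxF0, e1, List.map_cons, List.map_nil]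
    have h01 := h.add
    have ok1 := h01.1.ok
    have ok0 := h01.2.ok
    have p1 : ∀ j, PB (t₁.g.val j) := fun j => ok1.pb j
    have p2 : ∀ j, PB (t₀.g.val j) := fun j => ok0.pb j
    obtain ⟨hr, hrse, k1, k0⟩ := hn.1
    have e0 : xS wr stp (Fl.self, s) = Q (R \ Ro (wr b)) t₁.g.val t₀.g.val +
        Q (R \ Ro (wr b)) t₀.g.val t₁.g.val := by
      have ec : crs stp s = [{ s with t := t₁, t' := t₀ }, { s with t := t₀, t' := t₁ }] := by
        simp [crs, hl, hst, hPL, hPR, hv, hv', hj]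
      have es : eSHR stp s = 0 := by simp [eSHR, hl, hst, hPL, hPR, hv, hv']
      have q1 : Qs ({ s with t := t₁, t' := t₀, R := R \ Ro (wr b) } : St Λ κ) =
          Q (R \ Ro (wr b)) t₁.g.val t₀.g.val := by
        show Q (R \ Ro (wr b)) (avg 1 (rv Finset.univ t₁.g.val))
          (avg 1 (rv Finset.univ t₀.g.val)) = _
        rw [rv_univ, rv_univ, avg_one, avg_one]
      have q0 : Qs ({ s with t := t₀, t' := t₁, R := R \ Ro (wr b) } : St Λ κ) =
          Q (R \ Ro (wr b)) t₀.g.val t₁.g.val := by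
        show Q (R \ Ro (wr b)) (avg 1 (rv Finset.univ t₀.g.val))
          (avg 1 (rv Finset.univ t₁.g.val)) = _
        rw [rv_univ, rv_univ, avg_one, avg_one]
      show eSHR stp s + eMX wr stp s = _
      unfold eMX
      rw [es, ec, hp]
      simp only [List.map_cons, List.map_nil, List.sum_cons, List.sum_nil, zero_add, add_zero]
      rw [← q1, ← q0]
      rfl
    rw [e0, e2]
    simp only [List.map_cons, List.map_nil, List.sum_cons, List.sum_nil, one_mul, add_zero]
    have i1 := ih₁ b R h01.1 hn.2.1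
    have i0 := ih₀ b R h01.2 hn.2.2
    have m1 : 0 ≤ μ t₁.g Finset.univ := h01.1.wf.self.mass.base.nn _ h01.1.ad
    have m0 : 0 ≤ μ t₀.g Finset.univ := h01.2.wf.self.mass.base.nn _ h01.2.ad
    have mm : μ t₁.g Finset.univ + μ t₀.g Finset.univ ≤
        μ (DT.add b r t₁ t₀ : DT Λ κ).g Finset.univ := h.wf.1.mass.2.1 _ h.ad
    have nic1 := ic_nonneg t₁.g.part (wr b) p1
    have nic0 := ic_nonneg t₀.g.part (wr b) p2
    -- one child
    have child : ∀ c : DT Λ κ, Side wr Ad μ ν b c Finset.univ → c.All (HN wr μ p0 κf rg) →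
        (¬ lf c → p0 < cl c ∧ (rg (cl c) = rg b → NoEv wr b c)) →
        pn wr R c + μ c.g Finset.univ * fut (cl c) ≤
          Q (R \ Ro (wr b)) c.g.val c.g.val + ic c.g.part (wr b) c.g.val +
            μ c.g Finset.univ * fut b := by
      intro c hc hcn hk
      have pc : ∀ j, PB (c.g.val j) := fun j => hc.ok.pb j
      have mc : 0 ≤ μ c.g Finset.univ := hc.wf.self.mass.base.nn _ hc.ad
      have nq : 0 ≤ Q (R \ Ro (wr b)) c.g.val c.g.val := Q_nonneg pc pc
      have nic := ic_nonneg c.g.part (wr b) pc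
      by_cases hlc : lf c
      · have e : pn wr R c = 0 := if_pos hlc
        have e' := cl_lf hlc
        have := mul_le_mul_of_nonneg_left (hf.mono (Nat.zero_le b)) mc
        rw [e, e']
        linarith
      · obtain ⟨kp, ke⟩ := hk hlc
        have hle : cl c ≤ b := Nat.lt_succ_iff.1 (cl_lt hc.col hlc)
        obtain ⟨a1, a2⟩ := pn_child (p := b) hc.ok hc.wf hcn mc hf.k0 R hlc
        rcases (hf.rgm hle).lt_or_eq with hlt | heq
        · have := mul_le_mul_of_nonneg_left (hf.jump kp hle hlt) mc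
          nlinarith
        · have a3 := a2 (ke heq)
          have := mul_le_mul_of_nonneg_left (hf.mono hle) mc
          linarith
    have c1 := child t₁ h01.1 hn.2.1 k1
    have c0 := child t₀ h01.2 hn.2.2 k0
    have hpn : pn wr R (DT.add b r t₁ t₀ : DT Λ κ) =
        Q (R \ Ro (wr b)) t₁.g.val t₁.g.val + Q (R \ Ro (wr b)) t₀.g.val t₀.g.val +
          (Q (R \ Ro (wr b)) t₁.g.val t₀.g.val + Q (R \ Ro (wr b)) t₀.g.val t₁.g.val) := by
      have e : pn wr R (DT.add b r t₁ t₀ : DT Λ κ) = Q (R \ Ro (wr b))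
        (fun j x => t₁.g.val j x + t₀.g.val j x) (fun j x => t₁.g.val j x + t₀.g.val j x) :=
        if_neg (fun h => h)
      rw [e, Q_add_left p1 p2 (fun j => (p1 j).add (p2 j)), Q_add_right p1 p1 p2,
        Q_add_right p2 p1 p2]
      ring
    have hbt : BT Finset.univ (DT.add b r t₁ t₀ : DT Λ κ).g =
        (ic t₁.g.part (wr b) t₁.g.val + ic t₀.g.part (wr b) t₀.g.val) +
          (BT Finset.univ t₁.g + BT Finset.univ t₀.g) := by
      show (ic t₁.g.part r (rv Finset.univ t₁.g.val) + ic t₀.g.part r (rv Finset.univ t₀.g.val)) +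
        (BT Finset.univ t₁.g + BT Finset.univ t₀.g) = _
      rw [rv_univ, rv_univ, hr]
    have hmf := mul_le_mul_of_nonneg_right mm (hf.f0 b)
    unfold Tp at i1 i0 ⊢
    rw [hpn, hbt]
    show _ ≤ _ + _ + μ (DT.add b r t₁ t₀ : DT Λ κ).g Finset.univ * fut b
    nlinarith
  | br p w r t₁ t₀ v B G ih₁ ih₀ =>
    intro n R h hn
    rw [WF_eq0]
    set s := dgs R (DT.br p w r t₁ t₀ v B G : DT Λ κ) with hs
    have hl : ¬ (s.t.isLeaf ∨ s.t'.isLeaf) := by simp [hs, dgs, DT.isLeaf]
    have hst : ¬ stp s := hstp s rfl rfl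
    have hp : s.p = p := by simp [hs, St.p, dgs, DT.top]
    have hv : vw s.p s.t = .br w r t₁ t₀ v B G := by rw [hp]; simp [hs, dgs, vw]
    have hv' : vw s.p s.t' = .br w r t₁ t₀ v B G := by rw [hp]; simp [hs, dgs, vw]
    have hpp : p.Prime := h.col.1
    have hd : ¬ p ∣ 1 := fun hd => hpp.one_lt.ne' (Nat.dvd_one.1 hd)
    have hPL : ¬ s.isPL := by
      unfold St.isPL
      simp only [hv, hv']
      rw [hp]
      exact hd
    have hPR : ¬ s.isPR := by
      unfold St.isPR
      simp only [hv, hv']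
      rw [hp]
      exact hd
    have e1 : nxt0 stp s = [((1 - w) * (1 - w), { s with R := Ro r, t := t₁, t' := t₁ }),
        ((1 - w) * w, { s with R := Ro r, t := t₁, t' := t₀ }),
        (w * (1 - w), { s with R := Ro r, t := t₀, t' := t₁ }),
        (w * w, { s with R := Ro r, t := t₀, t' := t₀ })] := by
      simp [nxt0, hl, hst, hPL, hPR, hv, hv']
    have e2 : nxF0 stp (Fl.self, s) =
        [((1 - w) * (1 - w), (Fl.self, dgs (Ro r) t₁)),
          ((1 - w) * w, (Fl.top, { s with R := Ro r, t := t₁, t' := t₀ })),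
          (w * (1 - w), (Fl.top, { s with R := Ro r, t := t₀, t' := t₁ })),
          (w * w, (Fl.self, dgs (Ro r) t₀))] := by
      simp only [nxF0, e1]
      rfl
    have e0 : xS wr stp (Fl.self, s) = Q (R \ Ro r) v v := by
      have ec : crs stp s = [] := by simp [crs, hl, hst, hPL, hPR, hv, hv']
      have es : eSHR stp s = Qs { s with R := s.R \ Ro r } := by
        simp [eSHR, hl, hst, hPL, hPR, hv, hv']
      show eSHR stp s + eMX wr stp s = _
      unfold eMX
      rw [es, ec]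
      simp only [List.map_nil, List.sum_nil, add_zero]
      exact Qs_dgs R (R \ Ro r) _
    rw [e0, e2]
    simp only [List.map_cons, List.map_nil, List.sum_cons, List.sum_nil, add_zero, WF_xS_top,
      mul_zero, zero_add]
    obtain ⟨s1, s0, hb, hr, hsat⟩ := h.br
    obtain ⟨hwp, hrse, k1, k0⟩ := hn.1
    have w0 := hb.w0
    have w1 : 0 ≤ 1 - w := by linarith [hb.w1]
    have w2 : 1 - w ≤ 1 := by linarith
    have p1 : ∀ j, PB (t₁.g.val j) := fun j => s1.ok.pb j
    have p2 : ∀ j, PB (t₀.g.val j) := fun j => s0.ok.pb j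
    have i1 := ih₁ p (Ro r) s1 hn.2.1
    have i0 := ih₀ p (Ro r) s0 hn.2.2
    have m1 : 0 ≤ μ t₁.g Finset.univ := s1.wf.self.mass.base.nn _ s1.ad
    have m0 : 0 ≤ μ t₀.g Finset.univ := s0.wf.self.mass.base.nn _ s0.ad
    have mm : (1 - w) * μ t₁.g Finset.univ + w * μ t₀.g Finset.univ ≤
        μ (DT.br p w r t₁ t₀ v B G : DT Λ κ).g Finset.univ := h.wf.1.mass.2.1 _ h.ad
    have nic1 := ic_nonneg t₁.g.part (wr p) p1
    have nic0 := ic_nonneg t₀.g.part (wr p) p2
    have bt1 := BT_nonneg s1.ok (Finset.univ : Finset Λ)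
    have bt0 := BT_nonneg s0.ok (Finset.univ : Finset Λ)
    have ez : Ro r \ Ro (wr p) = ∅ := by rw [hr]; exact Finset.sdiff_self _
    have ezQ : ∀ f : Λ → ℝ → ℝ, Q (Ro r \ Ro (wr p)) f f = 0 := by
      intro f; rw [ez]; exact Finset.sum_empty
    have hf1 := hf.f0 p
    -- the present child
    have c1 : pn wr (Ro r) t₁ + μ t₁.g Finset.univ * fut (cl t₁) ≤
        ic t₁.g.part (wr p) t₁.g.val + μ t₁.g Finset.univ * fut p := by
      by_cases hlc : lf t₁
      · have e : pn wr (Ro r) t₁ = 0 := if_pos hlc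
        have e' := cl_lf hlc
        have := mul_le_mul_of_nonneg_left (hf.mono (Nat.zero_le p)) m1
        rw [e, e']
        linarith
      · obtain ⟨kp, ke⟩ := k1 hlc
        have hle : cl t₁ ≤ p := Nat.lt_succ_iff.1 (cl_lt s1.col hlc)
        obtain ⟨a1, a2⟩ := pn_child (p := p) s1.ok s1.wf hn.2.1 m1 hf.k0 (Ro r) hlc
        rw [ezQ] at a1 a2
        rcases (hf.rgm hle).lt_or_eq with hlt | heq
        · have := mul_le_mul_of_nonneg_left (hf.jump kp hle hlt) m1
          nlinarith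
        · have a3 := a2 (ke heq)
          have := mul_le_mul_of_nonneg_left (hf.mono hle) m1
          linarith
    -- the missing child
    have c0 : w * w * (pn wr (Ro r) t₀ + μ t₀.g Finset.univ * fut (cl t₀)) ≤
        w * (ic t₀.g.part (wr p) t₀.g.val + μ t₀.g Finset.univ * fut p) := by
      by_cases hlc : lf t₀
      · have e : pn wr (Ro r) t₀ = 0 := if_pos hlc
        have e' := cl_lf hlc
        have h1 := mul_le_mul_of_nonneg_left (hf.mono (Nat.zero_le p)) m0
        rw [e, e', zero_add, mul_assoc]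
        refine mul_le_mul_of_nonneg_left ?_ w0
        have h2 : w * (μ t₀.g Finset.univ * fut 0) ≤ 1 * (μ t₀.g Finset.univ * fut 0) :=
          mul_le_mul_of_nonneg_right hb.w1 (mul_nonneg m0 (hf.f0 0))
        linarith
      · have kp := k0 hlc
        by_cases hw0 : w = 0
        · rw [hw0]; simp
        have hcol := (h.col.2.2.2.2 hw0).2
        have hlt0 : cl t₀ < p := cl_lt hcol hlc
        obtain ⟨a1, -⟩ := pn_child (p := p) s0.ok s0.wf hn.2.2 m0 hf.k0 (Ro r) hlc
        rw [ezQ] at a1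
        rw [mul_assoc]
        refine mul_le_mul_of_nonneg_left ?_ w0
        have hk := hf.k0 (cl t₀)
        have hfc := hf.f0 (cl t₀)
        have step : w * κf (cl t₀) + fut (cl t₀) ≤ fut p := by
          rcases (hf.rgm hlt0.le).lt_or_eq with hlt | heq
          · have := hf.jump kp hlt0.le hlt
            nlinarith [mul_le_mul_of_nonneg_right hb.w1 hk]
          · have := hf.tie hpp kp hlt0 heq
            nlinarith [mul_le_mul_of_nonneg_right hwp hk]
        have h3 : w * pn wr (Ro r) t₀ ≤ w * (0 + ic t₀.g.part (wr p) t₀.g.val +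
            κf (cl t₀) * μ t₀.g Finset.univ) := mul_le_mul_of_nonneg_left a1 w0
        have h4 : w * ic t₀.g.part (wr p) t₀.g.val ≤ 1 * ic t₀.g.part (wr p) t₀.g.val :=
          mul_le_mul_of_nonneg_right hb.w1 nic0
        have h5 : w * (μ t₀.g Finset.univ * fut (cl t₀)) ≤
            1 * (μ t₀.g Finset.univ * fut (cl t₀)) :=
          mul_le_mul_of_nonneg_right hb.w1 (mul_nonneg m0 hfc)
        have h6 := mul_le_mul_of_nonneg_left step m0
        nlinarith
    have hpn : pn wr R (DT.br p w r t₁ t₀ v B G : DT Λ κ) = Q (R \ Ro r) v v := by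
      rw [hr]
      exact if_neg (fun h => h)
    have hbt : BT Finset.univ (DT.br p w r t₁ t₀ v B G : DT Λ κ).g =
        ((1 - w) * ic t₁.g.part (wr p) t₁.g.val + w * ic t₀.g.part (wr p) t₀.g.val) +
          ((1 - w) * BT Finset.univ t₁.g + w * BT Finset.univ t₀.g) := by
      show ((1 - w) * ic t₁.g.part r (rv Finset.univ t₁.g.val) +
        w * ic t₀.g.part r (rv Finset.univ t₀.g.val)) +
        ((1 - w) * BT Finset.univ t₁.g + w * BT Finset.univ t₀.g) = _
      rw [rv_univ, rv_univ, hr]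
    have hmf := mul_le_mul_of_nonneg_right mm hf1
    unfold Tp at i1 i0 ⊢
    rw [hpn, hbt]
    show _ ≤ _ + _ + μ (DT.br p w r t₁ t₀ v B G : DT Λ κ).g Finset.univ * fut p
    -- collect
    have j1 : (1 - w) * (1 - w) * WF stp (xS wr stp) (Fl.self, dgs (Ro r) t₁) ≤
        (1 - w) * (ic t₁.g.part (wr p) t₁.g.val + μ t₁.g Finset.univ * fut p +
          BT Finset.univ t₁.g) := by
      rw [mul_assoc]
      refine mul_le_mul_of_nonneg_left ?_ w1
      have x0 : 0 ≤ ic t₁.g.part (wr p) t₁.g.val + μ t₁.g Finset.univ * fut p +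
          BT Finset.univ t₁.g := by
        have := mul_nonneg m1 hf1
        linarith
      have x1 : WF stp (xS wr stp) (Fl.self, dgs (Ro r) t₁) ≤
          ic t₁.g.part (wr p) t₁.g.val + μ t₁.g Finset.univ * fut p + BT Finset.univ t₁.g := by
        linarith
      calc (1 - w) * WF stp (xS wr stp) (Fl.self, dgs (Ro r) t₁)
          ≤ (1 - w) * (ic t₁.g.part (wr p) t₁.g.val + μ t₁.g Finset.univ * fut p +
            BT Finset.univ t₁.g) := mul_le_mul_of_nonneg_left x1 w1
        _ ≤ 1 * (ic t₁.g.part (wr p) t₁.g.val + μ t₁.g Finset.univ * fut p +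
            BT Finset.univ t₁.g) := mul_le_mul_of_nonneg_right w2 x0
        _ = _ := one_mul _
    have j0 : w * w * WF stp (xS wr stp) (Fl.self, dgs (Ro r) t₀) ≤
        w * (ic t₀.g.part (wr p) t₀.g.val + μ t₀.g Finset.univ * fut p) +
          w * BT Finset.univ t₀.g := by
      have x1 := mul_le_mul_of_nonneg_left i0 (mul_nonneg w0 w0)
      have x2 : w * w * BT Finset.univ t₀.g ≤ w * BT Finset.univ t₀.g := by
        have : w * w ≤ w * 1 := mul_le_mul_of_nonneg_left hb.w1 w0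
        calc w * w * BT Finset.univ t₀.g ≤ (w * 1) * BT Finset.univ t₀.g :=
              mul_le_mul_of_nonneg_right this bt0
          _ = _ := by ring
      nlinarith
    nlinarith

end Crest.Agent.R4P.TgSelf10
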