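import Crest.Agent.R4P.Xfer_36
import Crest.Agent.R4P.TE_26

/-!
R4 (S0004) with powers, group [W-eSHR], helper36: **`xC` of the flagged walk is bounded by the group walk**.

* `kC t t'` : the kernel `Q (univ \ orel) G G'` of two ties (`0` otherwise, nonnegative).
* `WF_xC_le` : for a diagonal start, `WF stp (xC stp) (self, s) ≤ GS (ker kC) N s.p [(1, s.t)]`.
-/

set_option autoImplicit false
set_option linter.unusedSectionVars false
set_option linter.unusedVariables false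
open MeasureTheory Filter Set

namespace Crest.Agent.R4P.TopC36

open Crest.Agent.R4.Tour104 Crest.Agent.R4.Tour758 Crest.Agent.R4.Avg758 Crest.Agent.R4.Clos758
open Crest.Agent.R4.ClosL758 Crest.Agent.R4.ClosG758 Crest.Agent.R4.ClosR758
open Crest.Agent.R4P.ClosR442 Crest.Agent.R4P.Walk560 Crest.Agent.R4P.Grp36
open Crest.Agent.R4P.Xfer36 Crest.Agent.R4P.TW17 Crest.Agent.R4P.TWc17 Crest.Agent.R4P.TE26

variable {Λ κ : Type*} [Fintype Λ] [DecidableEq Λ] [Fintype κ] [DecidableEq κ] [WRel κ]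

open Classical in
/-- the kernel of `xC` -/
noncomputable def kC : DT Λ κ → DT Λ κ → ℝ
  | .br _ _ _ _ _ _ _ G, .br _ _ _ _ _ _ _ G' =>
      if (∀ c, PB (G c)) ∧ (∀ c, PB (G' c)) then
        Q ((Finset.univ : Finset (κ × κ)) \ orel κ) G G' else 0
  | _, _ => 0

lemma kC_nonneg (t t' : DT Λ κ) : 0 ≤ kC t t' := by
  unfold kC
  split
  · split_ifs with h
    · exact Q_nonneg h.1 h.2
    · exact le_rfl
  · exact le_rfl

lemma avg_one {Λ' : Type*} (f : Λ' → ℝ → ℝ) : avg 1 f = f := by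
  funext j x
  unfold avg Ep
  simp

lemma rk_le {A : Finset Λ} {r : Λ → κ} {G : κ → ℝ → ℝ} (h : ∀ c, PB (G c)) (c : κ) (x : ℝ) :
    rk A r G c x ≤ G c x := by
  unfold rk
  split_ifs
  · exact le_rfl
  · exact (h c).nonneg x

lemma PB_rk {A : Finset Λ} {r : Λ → κ} {G : κ → ℝ → ℝ} (h : ∀ c, PB (G c)) (c : κ) :
    PB (rk A r G c) := by
  unfold rk
  split_ifs
  · exact h c
  · exact PB.const le_rfl

lemma Q_rk_le {R : Finset (κ × κ)} {A A' : Finset Λ} {r r' : Λ → κ} {G G' : κ → ℝ → ℝ}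
    (h : ∀ c, PB (G c)) (h' : ∀ c, PB (G' c)) : Q R (rk A r G) (rk A' r' G') ≤ Q R G G' := by
  unfold Q
  refine Finset.sum_le_sum fun e _ => ?_
  refine I_mono ((PB_rk h _).mul (PB_rk h' _)).integrableOn ((h _).mul (h' _)).integrableOn
    fun x => ?_
  exact mul_le_mul (rk_le h _ x) (rk_le h' _ x) ((PB_rk h' _).nonneg x) ((h _).nonneg x)

variable {wr : ℕ → Λ → κ} {Ad : TrG Λ κ → Finset Λ → Prop}
  {μ : TrG Λ κ → Finset Λ → ℝ} {ν : TrG Λ κ → ℝ} {n : ℕ} {stp : Stp Λ κ} {s : St Λ κ}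

lemma xC_old (s : St Λ κ) : xC stp (Fl.old, s) = 0 := rfl
lemma xC_self (s : St Λ κ) : xC stp (Fl.self, s) = 0 := rfl

lemma WFC_old (stp : Stp Λ κ) : ∀ (k : ℕ) (s : St Λ κ), s.rank < k →
    WF stp (xC stp) (Fl.old, s) = 0 := by
  intro k
  induction k with
  | zero => intro s h; exact absurd h (Nat.not_lt_zero _)
  | succ k ih =>
    intro s hs
    rw [WF_eq0, xC_old, zero_add]
    refine List.sum_eq_zero fun x hx => ?_
    obtain ⟨q, hq, rfl⟩ := List.mem_map.1 hx
    obtain ⟨q', hq', rfl⟩ := List.mem_map.1 hq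
    have := nxt0_rank stp s q' hq'
    show q'.1 * WF stp (xC stp) (Fl.old, q'.2) = 0
    rw [ih q'.2 (by omega), mul_zero]

lemma WFC_leaf (f : Fl) (hl : s.t.isLeaf ∨ s.t'.isLeaf) : WF stp (xC stp) (f, s) = 0 := by
  have e : nxt0 stp s = [] := by simp [nxt0, hl]
  rw [WF_eq0]
  cases f with
  | self =>
    have e2 : nxF0 stp (Fl.self, s) = [] := by simp [nxF0, e]
    rw [e2, xC_self]; simp
  | top =>
    have e2 : nxF0 stp (Fl.top, s) = [] := by simp [nxF0, e]
    rw [e2]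
    simp [xC, hl]
  | old =>
    have e2 : nxF0 stp (Fl.old, s) = [] := by simp [nxF0, e]
    rw [e2, xC_old]; simp

/-- at a two-sided column -/
lemma eC_le (h : Inv wr Ad μ ν n s) (hM : s.M = 1) (hM' : s.M' = 1) (h2 : two s)
    (hl : ¬ (s.t.isLeaf ∨ s.t'.isLeaf)) (hs : ¬ stp s) :
    eC s ≤ eK (fun _ => kC) stp s := by
  obtain ⟨hPL, hPR, w, r, t₁, t₀, v, B₁, G, w', r', t₁', t₀', v', B₁', G', hv, hv'⟩ := two_cases h2
  have ht := vw_br hv
  have ht' := vw_br hv'
  have hb := h.L.ok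
  have hb' := h.R.ok
  rw [ht] at hb
  rw [ht'] at hb'
  have pG : ∀ c, PB (G c) := fun c => (hb.2.2.col c).pG
  have pG' : ∀ c, PB (G' c) := fun c => (hb'.2.2.col c).pG
  have e1 : eK (fun _ => kC) stp s = kC s.t s.t' := by
    unfold eK
    rw [if_neg hl, if_neg hs, if_neg (not_or.2 ⟨hPL, hPR⟩)]
    simp only [hv, hv']
  have e3 : kC (DT.br s.p w r t₁ t₀ v B₁ G) (DT.br s.p w' r' t₁' t₀' v' B₁' G') =
      Q ((Finset.univ : Finset (κ × κ)) \ orel κ) G G' := by
    unfold kC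
    simp only
    split_ifs with hc
    · congr!
    · exact absurd ⟨pG, pG'⟩ hc
  have e2 : eC s = Q ((Finset.univ : Finset (κ × κ)) \ orel κ) (rk s.A r G) (rk s.A' r G') := by
    unfold eC
    simp only [hv, hv', hM, hM', avg_one]
  rw [e1, e2, ht, ht', e3]
  exact Q_rk_le pG pG'

/-- the children of a diagonal state: no averages -/
lemma Diag.nextM (hd : Diag s) (hj : stp.jt s) (h : Inv wr Ad μ ν n s) :
    ∀ q ∈ nxt0 stp s, q.2.M = 1 ∧ q.2.M' = 1 := by
  intro q hq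
  by_cases hl : s.t.isLeaf ∨ s.t'.isLeaf
  · have e : nxt0 stp s = [] := by simp [nxt0, hl]
    simp only [e, List.not_mem_nil] at hq
  by_cases hs : stp s
  · have e : nxt0 stp s = [] := by simp [nxt0, hl, hs]
    simp only [e, List.not_mem_nil] at hq
  have hl' := hl
  rw [not_or] at hl'
  have hp := (p_prime h hl'.1 hl'.2).1
  have hd1 : ¬ s.p ∣ 1 := fun hh => hp.one_lt.ne' (Nat.dvd_one.1 hh)
  have e' : vw s.p s.t' = vw s.p s.t := by rw [hd.t]
  rcases hv : vw s.p s.t with ⟨w, r, t₁, t₀, v, B₁, G⟩ | ⟨r, t₁, t₀⟩ | ⟨Sp, u⟩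
  · rw [hv] at e'
    have hPL : ¬ s.isPL := by
      unfold St.isPL
      simp only [hv, e', hd.M]
      exact hd1
    have hPR : ¬ s.isPR := by
      unfold St.isPR
      simp only [hv, e', hd.M']
      exact hd1
    have e : nxt0 stp s = [((1 - w) * (1 - w), { s with R := Ro r, t := t₁, t' := t₁ }),
        ((1 - w) * w, { s with R := Ro r, t := t₁, t' := t₀ }),
        (w * (1 - w), { s with R := Ro r, t := t₀, t' := t₁ }),
        (w * w, { s with R := Ro r, t := t₀, t' := t₀ })] := by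
      simp [nxt0, hl, hs, hPL, hPR, hv, e']
    simp only [e, List.mem_cons, List.not_mem_nil, or_false] at hq
    rcases hq with rfl | rfl | rfl | rfl <;> exact ⟨hd.M, hd.M'⟩
  · rw [hv] at e'
    have hPL : ¬ s.isPL := by unfold St.isPL; simp only [hv, e']; exact fun h => h
    have hPR : ¬ s.isPR := by unfold St.isPR; simp only [hv, e']; exact fun h => h
    have e : nxt0 stp s =
        [(1, { s with t := t₁, t' := t₁ }), (1, { s with t := t₀, t' := t₀ })] := by
      simp [nxt0, hl, hs, hPL, hPR, hv, e', hj]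
    simp only [e, List.mem_cons, List.not_mem_nil, or_false] at hq
    rcases hq with rfl | rfl <;> exact ⟨hd.M, hd.M'⟩
  · rw [hv] at e'
    have hPL : ¬ s.isPL := by unfold St.isPL; simp only [hv, e']; exact fun h => h
    have hPR : ¬ s.isPR := by unfold St.isPR; simp only [hv, e']; exact fun h => h
    have e : nxt0 stp s = [(1, { s with t := u, t' := u })] := by
      simp [nxt0, hl, hs, hPL, hPR, hv, e']
    simp only [e, List.mem_cons, List.not_mem_nil, or_false] at hq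
    subst hq
    exact ⟨hd.M, hd.M'⟩

/-- no open one-sided columns -/
lemma stay_one {m : ℕ} {q : St Λ κ} (h : Inv wr Ad μ ν m q) (hM : q.M = 1) (hM' : q.M' = 1) :
    Stay q := by
  have e1 : q.O' = ∅ := by
    refine Finset.eq_empty_of_forall_notMem fun p hp => ?_
    obtain ⟨h1, -, h2⟩ := h.aL.mem p hp
    rw [hM] at h2
    exact h1.one_lt.ne' (Nat.dvd_one.1 h2)
  have e2 : q.O = ∅ := by
    refine Finset.eq_empty_of_forall_notMem fun p hp => ?_
    obtain ⟨h1, -, h2⟩ := h.aR.mem p hp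
    rw [hM'] at h2
    exact h1.one_lt.ne' (Nat.dvd_one.1 h2)
  refine ⟨?_, ?_⟩
  · rw [e2]; exact Finset.empty_subset _
  · rw [e1]; exact Finset.empty_subset _

open Classical in
/-- the function of the transfer -/
noncomputable def ΦC (stp : Stp Λ κ) (s : St Λ κ) : ℝ :=
  if Diag s then max (WF stp (xC stp) (Fl.self, s)) (WF stp (xC stp) (Fl.top, s))
  else WF stp (xC stp) (Fl.top, s)

lemma top_le_Φ (stp : Stp Λ κ) (s : St Λ κ) : WF stp (xC stp) (Fl.top, s) ≤ ΦC stp s := by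
  unfold ΦC
  split_ifs
  · exact le_max_right _ _
  · exact le_rfl

lemma self_le_Φ (stp : Stp Λ κ) {s : St Λ κ} (h : Diag s) :
    WF stp (xC stp) (Fl.self, s) ≤ ΦC stp s := by
  unfold ΦC
  rw [if_pos h]
  exact le_max_left _ _

lemma eC_nonneg (h : Inv wr Ad μ ν n s) : 0 ≤ eC s := by
  rcases hv : vw s.p s.t with ⟨w, r, t₁, t₀, v, B₁, G⟩ | ⟨r, t₁, t₀⟩ | ⟨Sp, u⟩ <;>
  rcases hv' : vw s.p s.t' with ⟨w', r', t₁', t₀', v', B₁', G'⟩ | ⟨r', t₁', t₀'⟩ | ⟨Sp', u'⟩
  · have hb := h.L.ok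
    have hb' := h.R.ok
    rw [vw_br hv] at hb
    rw [vw_br hv'] at hb'
    have pG : ∀ c, PB (G c) := fun c => (hb.2.2.col c).pG
    have pG' : ∀ c, PB (G' c) := fun c => (hb'.2.2.col c).pG
    unfold eC
    simp only [hv, hv']
    exact Q_nonneg (fun c => PB_avg h.aL.M0 (PB_rk pG) c) (fun c => PB_avg h.aR.M0 (PB_rk pG') c)
  all_goals
    unfold eC
    simp only [hv, hv']
    exact le_rfl

lemma xC_nonneg (h : Inv wr Ad μ ν n s) (f : Fl) : 0 ≤ xC stp (f, s) := by
  cases f with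
  | self => exact le_rfl
  | old => exact le_rfl
  | top =>
    unfold xC
    simp only
    split_ifs
    · exact le_rfl
    · exact le_rfl
    · exact eC_nonneg h
    · exact le_rfl

lemma WFC_nonneg (h : Inv wr Ad μ ν n s) (f : Fl) : 0 ≤ WF stp (xC stp) (f, s) :=
  WF_nonneg (Ad := Ad) (μ := μ) (ν := ν) (wr := wr) (z := (f, s))
    (fun z hz => by obtain ⟨m, hm⟩ := hz; exact xC_nonneg hm z.1) ⟨n, h⟩

lemma ΦC_nonneg (h : Inv wr Ad μ ν n s) : 0 ≤ ΦC stp s :=
  (WFC_nonneg h Fl.top).trans (top_le_Φ stp s)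

lemma exV_nonneg (h : Inv wr Ad μ ν n s) : 0 ≤ exV (ΦC stp) s := by
  unfold exV
  split_ifs
  · exact ΦC_nonneg h
  · exact le_rfl

lemma eK_nonneg (stp : Stp Λ κ) (s : St Λ κ) : 0 ≤ eK (fun _ => kC) stp s := by
  unfold eK
  split_ifs
  · exact le_rfl
  · exact le_rfl
  · exact le_rfl
  · rcases hv : vw s.p s.t with ⟨w, r, t₁, t₀, v, B₁, G⟩ | ⟨r, t₁, t₀⟩ | ⟨Sp, u⟩ <;>
    rcases hv' : vw s.p s.t' with ⟨w', r', t₁', t₀', v', B₁', G'⟩ | ⟨r', t₁', t₀'⟩ | ⟨Sp', u'⟩
    · exact kC_nonneg _ _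
    all_goals exact le_rfl

lemma sum_nonneg' (h : Inv wr Ad μ ν n s) :
    0 ≤ ((nxt0 stp s).map fun q => q.1 * exV (ΦC stp) q.2).sum := by
  refine List.sum_nonneg fun x hx => ?_
  obtain ⟨q, hq, rfl⟩ := List.mem_map.1 hx
  obtain ⟨h1, h2⟩ := h.next0 q hq
  exact mul_nonneg h2 (exV_nonneg h1)

/-- the sum over the flagged children -/
lemma sum_le (h : Inv wr Ad μ ν n s) {f : Fl}
    (hc : ∀ q ∈ nxF0 stp (f, s), WF stp (xC stp) q.2 ≤ exV (ΦC stp) q.2.2) :
    ((nxF0 stp (f, s)).map fun q => q.1 * WF stp (xC stp) q.2).sum ≤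
      ((nxt0 stp s).map fun q => q.1 * exV (ΦC stp) q.2).sum := by
  have e : (nxt0 stp s).map (fun q => q.1 * exV (ΦC stp) q.2) =
      (nxF0 stp (f, s)).map fun q => q.1 * exV (ΦC stp) q.2.2 := by
    rw [← nxF0_snd stp (f, s), List.map_map]
    rfl
  rw [e]
  refine List.sum_le_sum fun q hq => ?_
  have h2 : 0 ≤ q.1 := (h.next0 (q.1, q.2.2) (mem_nxF0 hq)).2
  exact mul_le_mul_of_nonneg_left (hc q hq) h2

/-- the top states -/
lemma top_step (h : Inv wr Ad μ ν n s) {a b : ℕ} (hT : TI s.p a b s) :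
    WF stp (xC stp) (Fl.top, s) ≤ eK (fun _ => kC) stp s +
      ((nxt0 stp s).map fun q => q.1 * exV (ΦC stp) q.2).sum := by
  have hE := eK_nonneg stp s
  have hS : 0 ≤ ((nxt0 stp s).map fun q => q.1 * exV (ΦC stp) q.2).sum := sum_nonneg' h
  by_cases hl : s.t.isLeaf ∨ s.t'.isLeaf
  · rw [WFC_leaf Fl.top hl]; linarith
  by_cases hx : exH stp s
  · have e : xC stp (Fl.top, s) = 0 := by
      simp only [xC]
      rw [if_neg hl, if_pos hx]
    have e2 : ((nxF0 stp (Fl.top, s)).map fun q => q.1 * WF stp (xC stp) q.2).sum = 0 := by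
      refine List.sum_eq_zero fun x hx' => ?_
      obtain ⟨q, hq, rfl⟩ := List.mem_map.1 hx'
      simp only [nxF0, if_pos hx] at hq
      obtain ⟨q', hq', rfl⟩ := List.mem_map.1 hq
      show q'.1 * WF stp (xC stp) (Fl.old, q'.2) = 0
      rw [WFC_old stp (q'.2.rank + 1) q'.2 (Nat.lt_succ_self _), mul_zero]
    rw [WF_eq0, e, e2]; linarith
  have hs : ¬ stp s := fun hs => hx (Or.inl hs)
  by_cases h2 : two s
  · have e : xC stp (Fl.top, s) = eC s := by
      simp only [xC]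
      rw [if_neg hl, if_neg hx, if_pos h2]
    obtain ⟨hPL, hPR, w, r, t₁, t₀, v, B₁, G, w', r', t₁', t₀', v', B₁', G', hv, hv'⟩ :=
      two_cases h2
    have hl' := hl
    rw [not_or] at hl'
    have hp := (p_prime h hl'.1 hl'.2).1
    have ha : a = 0 := by
      by_contra hne
      exact St.not_isPL_br hPL hv hv' (by rw [hT.M]; exact dvd_pow_self _ hne)
    have hb : b = 0 := by
      by_contra hne
      exact St.not_isPR_br hPR hv hv' (by rw [hT.M']; exact dvd_pow_self _ hne)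
    subst ha hb
    have hM : s.M = 1 := by rw [hT.M]; simp
    have hM' : s.M' = 1 := by rw [hT.M']; simp
    rw [WF_eq0, e]
    refine add_le_add (eC_le h hM hM' h2 hl hs) (sum_le h fun q hq => ?_)
    have hn : nxt0 stp s = [((1 - w) * (1 - w'), { s with R := Ro r, t := t₁, t' := t₁' }),
        ((1 - w) * w', { s with R := Ro r, t := t₁, t' := t₀' }),
        (w * (1 - w'), { s with R := Ro r, t := t₀, t' := t₁' }),
        (w * w', { s with R := Ro r, t := t₀, t' := t₀' })] := by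
      simp [nxt0, hl, hs, hPL, hPR, hv, hv']
    have hq' := mem_nxF0 hq
    have hI := (h.next0 _ hq').1
    have hMq : q.2.2.M = 1 ∧ q.2.2.M' = 1 := by
      rw [hn] at hq'
      simp only [List.mem_cons, List.not_mem_nil, or_false] at hq'
      rcases hq' with hq' | hq' | hq' | hq' <;>
      · have e2 := congrArg Prod.snd hq'
        simp only at e2
        rw [e2]
        exact ⟨hM, hM'⟩
    have hf : q.2.1 = Fl.top := by
      simp only [nxF0, if_neg hx, if_pos h2] at hq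
      obtain ⟨q', -, rfl⟩ := List.mem_map.1 hq
      rfl
    unfold exV
    rw [if_pos (stay_one hI hMq.1 hMq.2)]
    have := top_le_Φ stp q.2.2
    rw [← hf] at this
    exact this
  · have e : xC stp (Fl.top, s) = 0 := by
      simp only [xC]
      rw [if_neg hl, if_neg hx, if_neg h2]
    rw [WF_eq0, e]
    refine add_le_add hE (sum_le h fun q hq => ?_)
    have hI := (h.next0 _ (mem_nxF0 hq)).1
    simp only [nxF0, if_neg hx, if_neg h2] at hq
    obtain ⟨q', -, rfl⟩ := List.mem_map.1 hq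
    show WF stp (xC stp) (flS q'.2, q'.2) ≤ exV (ΦC stp) q'.2
    have hI' : Inv wr Ad μ ν s.p q'.2 := hI
    unfold flS
    by_cases hst : stay q'.2
    · rw [if_pos hst]
      by_cases hlf : q'.2.t.isLeaf ∨ q'.2.t'.isLeaf
      · rw [WFC_leaf Fl.top hlf]
        exact exV_nonneg hI'
      · have h3 : q'.2.O ∪ q'.2.O' ⊆ {q'.2.p} := by
          rcases hst with h3 | h3 | h3
          · exact absurd (Or.inl h3) hlf
          · exact absurd (Or.inr h3) hlf
          · exact h3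
        unfold exV
        rw [if_pos ⟨Finset.subset_union_left.trans h3, Finset.subset_union_right.trans h3⟩]
        exact top_le_Φ stp q'.2
    · rw [if_neg hst, WFC_old stp (q'.2.rank + 1) q'.2 (Nat.lt_succ_self _)]
      exact exV_nonneg hI'

/-- the self states -/
lemma self_step (hd : Diag s) (hj : stp.jt s) (h : Inv wr Ad μ ν n s) :
    WF stp (xC stp) (Fl.self, s) ≤ eK (fun _ => kC) stp s +
      ((nxt0 stp s).map fun q => q.1 * exV (ΦC stp) q.2).sum := by
  have hE := eK_nonneg stp s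
  rw [WF_eq0, xC_self]
  refine add_le_add hE (sum_le h fun q hq => ?_)
  have hq' := mem_nxF0 hq
  have hI := (h.next0 _ hq').1
  obtain ⟨hM, hM'⟩ := Diag.nextM hd hj h _ hq'
  unfold exV
  rw [if_pos (stay_one hI hM hM')]
  obtain ⟨c, f, q2⟩ := q
  cases f with
  | self => exact self_le_Φ stp (hd.next hj h _ hq rfl)
  | top => exact top_le_Φ stp q2
  | old =>
    show WF stp (xC stp) (Fl.old, q2) ≤ _
    rw [WFC_old stp (q2.rank + 1) q2 (Nat.lt_succ_self _)]
    exact ΦC_nonneg hI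

/-- **`xC` of the flagged walk is bounded by the group walk** -/
theorem WF_xC_le (hjt : ∀ s : St Λ κ, Diag s → stp.jt s) (h : Inv wr Ad μ ν n s) (hd : Diag s) :
    ∃ N, WF stp (xC stp) (Fl.self, s) ≤
      GS (fun p g => ker (fun _ => kC) p g g) N s.p [((1 : ℝ), s.t)] := by
  obtain ⟨N, hN⟩ := xferT_self (k := fun _ => kC) (stp := stp) (wr := wr) (Ad := Ad) (μ := μ)
    (ν := ν) (Φ := ΦC stp) (fun _ m m' => kC_nonneg m m') (fun n s a b hI hT => by
      unfold ΦC
      split_ifs with hds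
      · exact max_le (self_step hds (hjt s hds) hI) (top_step hI hT)
      · exact top_step hI hT) h hd.M hd.M' hd.t
  exact ⟨N, (self_le_Φ stp hd).trans hN⟩

/-! ### the Gram form -/

open Classical in
/-- the lift part of a tie (`0` for the other nodes) -/
noncomputable def Gm : DT Λ κ → κ → ℝ → ℝ
  | .br _ _ _ _ _ _ _ G => fun c x => if (∀ c, PB (G c)) then G c x else 0
  | _ => fun _ _ => 0

lemma PB_Gm (t : DT Λ κ) (c : κ) : PB (Gm t c) := by
  unfold Gm
  split
  · by_cases h : ∀ c, PB (‹κ → ℝ → ℝ› c)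
    · simp only [if_pos h]; exact h c
    · simp only [if_neg h]; exact PB.const le_rfl
  · exact PB.const le_rfl

lemma kC_eq (t t' : DT Λ κ) : kC t t' = Q ((Finset.univ : Finset (κ × κ)) \ orel κ) (Gm t) (Gm t') := by
  have z1 : ∀ (R : Finset (κ × κ)) (f : κ → ℝ → ℝ), Q R (fun _ _ => (0 : ℝ)) f = 0 := by
    intro R f
    unfold Q
    refine Finset.sum_eq_zero fun e _ => ?_
    simp [I]
  have z2 : ∀ (R : Finset (κ × κ)) (f : κ → ℝ → ℝ), Q R f (fun _ _ => (0 : ℝ)) = 0 := by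
    intro R f
    unfold Q
    refine Finset.sum_eq_zero fun e _ => ?_
    simp [I]
  rcases t with ⟨r, f⟩ | ⟨p, w, r, t₁, t₀, v, B, G⟩ | ⟨p, r, t₁, t₀⟩ | ⟨p, Sp, t⟩
  · show 0 = Q _ (fun _ _ => (0 : ℝ)) _
    rw [z1]
  · rcases t' with ⟨r', f'⟩ | ⟨p', w', r', t₁', t₀', v', B', G'⟩ | ⟨p', r', t₁', t₀'⟩ | ⟨p', Sp', t'⟩
    · show 0 = Q _ _ (fun _ _ => (0 : ℝ))
      rw [z2]
    · unfold kC Gm
      simp only
      by_cases h : ∀ c, PB (G c)
      · by_cases h' : ∀ c, PB (G' c)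
        · simp only [if_pos h, if_pos h', if_pos (And.intro h h')]
        · have : ¬ ((∀ c, PB (G c)) ∧ ∀ c, PB (G' c)) := fun hh => h' hh.2
          simp only [if_neg h', if_neg this, z2]
      · have : ¬ ((∀ c, PB (G c)) ∧ ∀ c, PB (G' c)) := fun hh => h hh.1
        simp only [if_neg h, if_neg this, z1]
    · show 0 = Q _ _ (fun _ _ => (0 : ℝ))
      rw [z2]
    · show 0 = Q _ _ (fun _ _ => (0 : ℝ))
      rw [z2]
  · show 0 = Q _ (fun _ _ => (0 : ℝ)) _
    rw [z1]
  · show 0 = Q _ (fun _ _ => (0 : ℝ)) _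
    rw [z1]

/-- the lift part of a group -/
noncomputable def GmG (g : Gp Λ κ) (c : κ) (x : ℝ) : ℝ := (g.map fun m => m.1 * Gm m.2 c x).sum

lemma GmG_cons (m : ℝ × DT Λ κ) (g : Gp Λ κ) :
    GmG (m :: g) = fun c x => m.1 * Gm m.2 c x + GmG g c x := by
  funext c x
  simp [GmG]

lemma PB_GmG {g : Gp Λ κ} (h : Wg g) (c : κ) : PB (GmG g c) := by
  induction g with
  | nil => exact PB.const le_rfl
  | cons m g ih =>
    rw [GmG_cons]
    exact ((PB_Gm m.2 c).smul (h m (by simp)).1).add (ih fun a ha => h a (List.mem_cons_of_mem _ ha))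

lemma Q_smul_left' {R : Finset (κ × κ)} (c : ℝ) (f g : κ → ℝ → ℝ) :
    Q R (fun j x => c * f j x) g = c * Q R f g := by
  unfold Q
  rw [Finset.mul_sum]
  refine Finset.sum_congr rfl fun e _ => ?_
  rw [← I_smul]
  congr 1
  funext x
  ring

lemma Q_smul_right' {R : Finset (κ × κ)} (c : ℝ) (f g : κ → ℝ → ℝ) :
    Q R f (fun j x => c * g j x) = c * Q R f g := by
  unfold Q
  rw [Finset.mul_sum]
  refine Finset.sum_congr rfl fun e _ => ?_
  rw [← I_smul]
  congr 1
  funext x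
  ring

lemma Q_zero_left' {R : Finset (κ × κ)} (g : κ → ℝ → ℝ) : Q R (fun _ _ => (0 : ℝ)) g = 0 := by
  unfold Q
  refine Finset.sum_eq_zero fun e _ => ?_
  simp [I]

lemma Q_zero_right' {R : Finset (κ × κ)} (g : κ → ℝ → ℝ) : Q R g (fun _ _ => (0 : ℝ)) = 0 := by
  unfold Q
  refine Finset.sum_eq_zero fun e _ => ?_
  simp [I]

lemma ker_eq1 {m : ℝ × DT Λ κ} {h : Gp Λ κ} (hh : Wg h) :
    (h.map fun m' => m.1 * m'.1 * kC m.2 m'.2).sum =
      m.1 * Q ((Finset.univ : Finset (κ × κ)) \ orel κ) (Gm m.2) (GmG h) := by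
  induction h with
  | nil =>
    show (0 : ℝ) = m.1 * Q _ (Gm m.2) (fun _ _ => (0 : ℝ))
    rw [Q_zero_right', mul_zero]
  | cons m' h ih =>
    have hh' : Wg h := fun a ha => hh a (List.mem_cons_of_mem _ ha)
    rw [List.map_cons, List.sum_cons, ih hh', GmG_cons,
      Q_add_right (PB_Gm m.2) (fun c => (PB_Gm m'.2 c).smul (hh m' (by simp)).1)
        (PB_GmG hh'), Q_smul_right', kC_eq]
    ring

/-- **the kernel of a group is a Gram form** -/
theorem ker_eq {p : ℕ} {g h : Gp Λ κ} (hg : Wg g) (hh : Wg h) :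
    ker (fun _ => kC) p g h =
      Q ((Finset.univ : Finset (κ × κ)) \ orel κ) (GmG g) (GmG h) := by
  induction g with
  | nil =>
    show (0 : ℝ) = Q _ (fun _ _ => (0 : ℝ)) (GmG h)
    rw [Q_zero_left']
  | cons m g ih =>
    have hg' : Wg g := fun a ha => hg a (List.mem_cons_of_mem _ ha)
    rw [ker_cons, ih hg', GmG_cons,
      Q_add_left (fun c => (PB_Gm m.2 c).smul (hg m (by simp)).1) (PB_GmG hg') (PB_GmG hh),
      Q_smul_left', ker_eq1 hh]

/-- the function of an index class -/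
noncomputable def ixF {ι : Type*} [DecidableEq ι] (ix : κ → ι) (F : κ → ℝ → ℝ) (z : ι) (x : ℝ) : ℝ :=
  ∑ c ∈ Finset.univ.filter (fun c => ix c = z), F c x

lemma PB_ixF {ι : Type*} [DecidableEq ι] {ix : κ → ι} {F : κ → ℝ → ℝ} (hF : ∀ c, PB (F c)) (z : ι) :
    PB (ixF ix F z) := by
  unfold ixF
  exact PB.sum _ fun c _ => hF c

/-- **the not related pairs**, if `rel` is `≠` of an index -/
theorem Q_ix {ι : Type*} [Fintype ι] [DecidableEq ι] {ix : κ → ι}
    (hix : ∀ a b : κ, WRel.rel a b ↔ ix a ≠ ix b) {F F' : κ → ℝ → ℝ} (hF : ∀ c, PB (F c))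
    (hF' : ∀ c, PB (F' c)) : Q ((Finset.univ : Finset (κ × κ)) \ orel κ) F F' =
      I (fun x => ∑ z, ixF ix F z x * ixF ix F' z x) := by
  rw [I_sum _ fun z _ => ((PB_ixF hF z).mul (PB_ixF hF' z)).integrableOn]
  unfold Q
  have e1 : ∀ z : ι, I (fun x => ixF ix F z x * ixF ix F' z x) =
      ∑ e ∈ (Finset.univ.filter (fun c => ix c = z)) ×ˢ (Finset.univ.filter (fun c => ix c = z)),
        I (fun x => F e.1 x * F' e.2 x) := by
    intro z
    rw [← I_sum _ fun e _ => ((hF e.1).mul (hF' e.2)).integrableOn]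
    congr 1
    funext x
    unfold ixF
    rw [Finset.sum_mul_sum, Finset.sum_product]
  rw [Finset.sum_congr rfl fun z _ => e1 z]
  rw [← Finset.sum_fiberwise_of_maps_to (s := (Finset.univ : Finset (κ × κ)) \ orel κ)
    (t := (Finset.univ : Finset ι)) (g := fun e => ix e.1) (fun e _ => Finset.mem_univ _)]
  refine Finset.sum_congr rfl fun z _ => Finset.sum_congr ?_ fun _ _ => rfl
  ext e
  simp only [Finset.mem_filter, Finset.mem_sdiff, Finset.mem_univ, true_and, mem_orel, hix,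
    ne_eq, not_not, Finset.mem_product]
  constructor
  · rintro ⟨h1, h2⟩; exact ⟨h2, by rw [← h1]; exact h2⟩
  · rintro ⟨h1, h2⟩; exact ⟨by rw [h1, h2], h1⟩

/-- congruence of the group sums on nonnegative groups -/
lemma GS_congrW {loc loc' : ℕ → Gp Λ κ → ℝ} (h : ∀ p g, Wg g → loc p g = loc' p g) :
    ∀ (n p : ℕ) (g : Gp Λ κ), Wg g → GS loc n p g = GS loc' n p g := by
  intro n
  induction n with
  | zero => intro p g _; rfl
  | succ n ih =>
    intro p g hg
    unfold GS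
    split_ifs with hp
    · rfl
    · rw [h p _ hg.gB, ih p _ hg.gC, ih (p - 1) _ hg.gR]

/-- monotony of the group sums on nonnegative groups -/
lemma GS_monoW {loc loc' : ℕ → Gp Λ κ → ℝ} (h : ∀ p g, Wg g → loc p g ≤ loc' p g) :
    ∀ (n p : ℕ) (g : Gp Λ κ), Wg g → GS loc n p g ≤ GS loc' n p g := by
  intro n
  induction n with
  | zero => intro p g _; exact le_rfl
  | succ n ih =>
    intro p g hg
    unfold GS
    split_ifs with hp
    · exact le_rfl
    · exact add_le_add (add_le_add (h p _ hg.gB) (ih p _ hg.gC)) (ih (p - 1) _ hg.gR)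

/-- **the group walk of `kC`, index form** -/
theorem GS_ker_ix {ι : Type*} [Fintype ι] [DecidableEq ι] {ix : κ → ι}
    (hix : ∀ a b : κ, WRel.rel a b ↔ ix a ≠ ix b) (n p : ℕ) {g : Gp Λ κ} (hg : Wg g) :
    GS (fun p g => ker (fun _ => kC) p g g) n p g =
      GS (fun _ g => I (fun x => ∑ z, ixF ix (GmG g) z x ^ 2)) n p g := by
  refine GS_congrW (fun p g hg => ?_) n p g hg
  rw [ker_eq hg hg, Q_ix hix (PB_GmG hg) (PB_GmG hg)]
  congr 1
  funext x
  exact Finset.sum_congr rfl fun z _ => (sq _).symm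

end Crest.Agent.R4P.TopC36
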