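import Crest.Agent.R4P.FinEB_25
import Crest.Agent.R4P.GWg_343
import Crest.Agent.R4P.VCtx_29

/-!
R4 (S0004) with powers, [MB] T2, helper25: **the glue of the group games**.

* `GTopW ε N γ P` : the group walks `TopX36.GW` of the nodes with the bootstrap hypothesis;
  `tgtTopPB_ofW` : **`TgtTopPB` from `GTopW`**; `GTopB.toW`.
* `Game ε N γ P` : the group walks are at most
  `a (mu + mu²) + b I tot + c GS SO + ε I tot²`; `gTopW_of_game`, `tgtTopPB_of_game`.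
* `Full ε N γ P` : `GW ≤ a (mu + mu²) + b GS locF + ε I tot²`, nested class maps, closed heights `≤ 1`;
  `game_of_full`.
-/

set_option autoImplicit false
set_option linter.unusedSectionVars false
set_option linter.unusedVariables false

open MeasureTheory Filter

namespace Crest.Agent.R4P.TopG25

open Crest.Agent.R4.Tour104 Crest.Agent.R4.Tour758 Crest.Agent.R4.Avg758 Crest.Agent.R4.Clos758
open Crest.Agent.R4.ClosL758 Crest.Agent.R4.ClosG758 Crest.Agent.R4.ClosR758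
open Crest.Agent.R4.Fam464 Crest.Agent.R4P.Cnt588 Crest.Agent.R4P.Walk560 Crest.Agent.R4P.Item758
open Crest.Agent.R4.Soft104 Crest.Agent.R4.Max709
open Crest.Agent.R4P.Bld532 (NS All NodeOk)
open Crest.Agent.R4P.Data758 Crest.Agent.R4P.SkelF29 Crest.Agent.R4P.Strip29
open Crest.Agent.R4P.Skel189 Crest.Agent.R4P.OSWS245 Crest.Agent.R4P.ParF5 Crest.Agent.R4P.Fin5
open Crest.Agent.R4P.NumX34
open Crest.Agent.R4P.PayA26 Crest.Agent.R4P.FinX26 Crest.Agent.R4P.Mrg35 Crest.Agent.R4P.PayR26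
open Crest.Agent.R4P.FinAll26 Crest.Agent.R4P.TW17 Crest.Agent.R4P.StripT26
open Crest.Agent.R4P.SkelE26 Crest.Agent.R4P.FrameT26 Crest.Agent.R4P.FinT26 Crest.Agent.R4P.FinE26
open Crest.Agent.R4P.TE26 Crest.Agent.R4P.StripE26
open Crest.Agent.R4P
open Crest.Agent.R4P.FinEE26 Crest.Agent.R4P.SxT6 Crest.Agent.R4P.SxE26
open Crest.Agent.R4P.Grp36 Crest.Agent.R4P.Xfer36 Crest.Agent.R4P.TopC36
open Crest.Agent.R4P.TopX36 Crest.Agent.R4P.PN36
open Crest.Agent.R4P.FinEB25 Crest.Agent.R4P.SecO25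
open Crest.Agent.R4P.GWa343 Crest.Agent.R4P.GWb343 Crest.Agent.R4P.GWd343 Crest.Agent.R4P.GWe343
open Crest.Agent.R4P.GWf343 Crest.Agent.R4P.GWg343

variable {N : Skel189.Num} {γ : ℝ}

/-- **the group walks at all nodes with the bootstrap hypothesis** -/
def GTopW (ε : ℝ) (N : Skel189.Num) (γ : ℝ) (P : ∀ {p0 P₀ : ℕ} (X : Ctx N γ p0 P₀), Prop) : Prop :=
  ∃ a : ℝ, 0 ≤ a ∧ ∀ M : ℝ, 0 ≤ M → Ev N γ fun p0 P₀ X => CF X → P X → ∀ (j₀ : X.c.Lam) (Kb : ℝ),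
    0 ≤ Kb → Kb ≤ M * Real.log p0 ^ M →
    All (fun u τ => BootF X j₀ (fun _ _ => 0) Kb u τ → ∀ n,
      GW X n u τ ≤ a * (X.mu j₀ u τ Finset.univ +
      X.mu j₀ u τ Finset.univ * X.mu j₀ u τ Finset.univ) +
      ε * I (fun x => tt Finset.univ (X.g u τ) x ^ 2)) ⟨top X.S, 1, 1, 1⟩ X.c.t

/-- **the top target from the group walks** -/
theorem tgtWPB_ofW {ε : ℝ} {P : ∀ {p0 P₀ : ℕ} (X : Ctx N γ p0 P₀), Prop} (h : GTopW ε N γ P) :
    TgtWPB ε N γ P fun X j₀ => xC (SXN X j₀) := by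
  obtain ⟨a, ha, h⟩ := h
  refine ⟨a, ha, fun M hM => (h M hM).mono fun p0 P₀ X hh hC hP j₀ Kb k1 k2 => ?_⟩
  refine All.mono (fun u τ hh _ hb => ?_) (All.and (hh hC hP j₀ Kb k1 k2) (ctx_xC_le X j₀))
  obtain ⟨n, hn⟩ := hh.2
  have h2 := hh.1 hb n
  show WF (SXN X j₀) (xC (SXN X j₀)) (Fl.self, X.self u τ Finset.univ) -
    ε * I (fun x => tt Finset.univ (X.g u τ) x ^ 2) ≤ _
  linarith

theorem tgtTopPB_ofW {ε : ℝ} {Sy : ℝ → ℝ → ℕ → (ℕ → ℝ) → Finset ℕ → Finset ℕ}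
    (h : GTopW ε N γ fun X => InS Sy N γ X) : TgtTopPB ε Sy N γ := tgtWPB_ofW h

lemma GTopB.toW {ε : ℝ} {P : ∀ {p0 P₀ : ℕ} (X : Ctx N γ p0 P₀), Prop} (h : GTopB ε N γ P) :
    GTopW ε N γ P := by
  obtain ⟨a, ha, h⟩ := h
  refine ⟨a, ha, fun M hM => (h M hM).mono fun p0 P₀ X hh hC hP j₀ Kb k1 k2 => ?_⟩
  refine All.mono (fun u τ hh hb n => ?_) (All.and (hh hC hP j₀ Kb k1 k2)
    (All.and (ctx_Wg X j₀) (ctx_NOk X j₀)))
  exact (GS_lD_le n _ hh.2.1 (GAll.one hh.2.2)).trans (hh.1 hb n)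

/-- **the game form** of the bound of the group walks -/
def Game (ε : ℝ) (N : Skel189.Num) (γ : ℝ) (P : ∀ {p0 P₀ : ℕ} (X : Ctx N γ p0 P₀), Prop) : Prop :=
  ∃ a b c : ℝ, 0 ≤ a ∧ 0 ≤ b ∧ 0 ≤ c ∧ ∀ M : ℝ, 0 ≤ M → Ev N γ fun p0 P₀ X => CF X → P X →
    ∀ (j₀ : X.c.Lam) (Kb : ℝ), 0 ≤ Kb → Kb ≤ M * Real.log p0 ^ M →
    All (fun u τ => BootF X j₀ (fun _ _ => 0) Kb u τ → ∀ n,
      GW X n u τ ≤ a * (X.mu j₀ u τ Finset.univ +
      X.mu j₀ u τ Finset.univ * X.mu j₀ u τ Finset.univ) +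
      b * I (fun x => tt Finset.univ (X.g u τ) x) +
      c * GS SO n (X.self u τ Finset.univ).p [((1 : ℝ), (X.self u τ Finset.univ).t)] +
      ε * I (fun x => tt Finset.univ (X.g u τ) x ^ 2)) ⟨top X.S, 1, 1, 1⟩ X.c.t

/-- total of a node -/
lemma tot_le {p0 P₀ : ℕ} {X : Ctx N γ p0 P₀} {j₀ : X.c.Lam} {u : NS} {τ : IT}
    (h : VCtx29.QV X j₀ u τ) (hok : (X.self u τ Finset.univ).t.g.Ok) :
    I (fun x => tt Finset.univ (X.g u τ) x) ≤ 4 * X.mu j₀ u τ Finset.univ := by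
  have e : I (fun x => tt Finset.univ (X.g u τ) x) =
      ∑ j, GInst194.mI (X.self u τ Finset.univ).t j := by
    have e1 : (fun x => tt Finset.univ (X.g u τ) x) = fun x => ∑ j, (X.g u τ).val j x := by
      funext x
      unfold tt
      rw [rv_univ]
    have e2 : X.g u τ = (X.self u τ Finset.univ).t.g :=
      (Item758.Par.toDT_g (X.c.D.par X.Y) X.c.sp τ u.B u.A).symm
    rw [e1, e2, I_sum _ fun j _ => (hok.pb j).integrableOn]
    rfl
  rw [e]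
  exact h.le Finset.univ

/-- **the game form is enough** -/
theorem gTopW_of_game {ε : ℝ} {P : ∀ {p0 P₀ : ℕ} (X : Ctx N γ p0 P₀), Prop} (h : Game ε N γ P) :
    GTopW ε N γ P := by
  obtain ⟨a, b, c, ha, hb, hc, h⟩ := h
  refine ⟨a + 4 * b + c, by positivity, fun M hM => ?_⟩
  obtain ⟨p1, h1⟩ := ctx_SO N M hM (ε := 1) one_pos
  obtain ⟨p2, h2⟩ := VCtx29.ctx_QV N
  have hE : Ev N γ fun p0 P₀ X => ∀ (j₀ : X.c.Lam) (Kb : ℝ), 0 ≤ Kb →
      Kb ≤ M * Real.log p0 ^ M →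
      All (fun u τ => (BootF X j₀ (fun _ _ => 0) Kb u τ → ∀ n p,
        GS SO n p [((1 : ℝ), (X.self u τ Finset.univ).t)] ≤ 1 * X.mu j₀ u τ Finset.univ) ∧
        VCtx29.QV X j₀ u τ) ⟨top X.S, 1, 1, 1⟩ X.c.t :=
    Ev.of (p₁ := p1 + p2) fun p0 hp0 P₀ hP X j₀ Kb k0 k1 =>
      All.and (h1 p0 (by omega) γ P₀ X j₀ Kb k0 k1) (h2 p0 (by omega) γ P₀ hP X j₀)
  refine ((h M hM).and hE).mono ?_
  rintro p0 P₀ X ⟨hh, he⟩ hC hP j₀ Kb k1 k2
  refine All.mono (fun u τ hh hB n => ?_) (All.and (hh hC hP j₀ Kb k1 k2)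
    (All.and (All.and (he j₀ Kb k1 k2) (ctx_side X j₀)) (ctx_mumu X j₀)))
  obtain ⟨g1, ⟨⟨g2, g3⟩, g4⟩, g5⟩ := hh
  have x1 := g1 hB n
  have x2 := g2 hB n (X.self u τ Finset.univ).p
  have x3 := tot_le g3 g4.2.ok
  have x4 := (g5 Finset.univ).1
  have x5 := (g5 Finset.univ).2
  have y1 := mul_le_mul_of_nonneg_left x2 hc
  have y2 := mul_le_mul_of_nonneg_left x3 hb
  have y3 := mul_nonneg hb x5
  have y4 := mul_nonneg hc x5
  linarith

theorem tgtTopPB_of_game {ε : ℝ} {Sy : ℝ → ℝ → ℕ → (ℕ → ℝ) → Finset ℕ → Finset ℕ}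
    (h : Game ε N γ fun X => InS Sy N γ X) : TgtTopPB ε Sy N γ :=
  tgtTopPB_ofW (gTopW_of_game h)

/-- **the full classes** : nested class maps, a closed height condition `≤ 1`, and the bound of the
group walks by the walk sum `locF` of the full classes -/
def Full (ε : ℝ) (N : Skel189.Num) (γ : ℝ) (P : ∀ {p0 P₀ : ℕ} (X : Ctx N γ p0 P₀), Prop) : Prop :=
  ∃ a b : ℝ, 0 ≤ a ∧ 0 ≤ b ∧ ∀ M : ℝ, 0 ≤ M → Ev N γ fun p0 P₀ X => CF X → P X →
    ∀ (j₀ : X.c.Lam) (Kb : ℝ), 0 ≤ Kb → Kb ≤ M * Real.log p0 ^ M →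
    (∀ p j j', (X.c.D.par X.Y).rho p j = (X.c.D.par X.Y).rho p j' →
      (X.c.D.par X.Y).rho (p - 1) j = (X.c.D.par X.Y).rho (p - 1) j') ∧
    ∃ HB : ℕ → List (DT X.c.Lam (LbX X)) → Prop,
      (∀ {p L}, BI (FX (X.c.D.par X.Y).rho) p L → HB p L →
        ∀ z x, bc ((X.c.D.par X.Y).rho p) L z x ≤ 1) ∧
      (∀ {p L}, BI (FX (X.c.D.par X.Y).rho) p L → HB p L → p ≠ 0 →
        HB p ((GWa343.bB p L).map chP)) ∧
      (∀ {p L}, BI (FX (X.c.D.par X.Y).rho) p L → HB p L → p ≠ 0 →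
        HB p ((GWa343.bB p L).map chN)) ∧
      (∀ {p L}, BI (FX (X.c.D.par X.Y).rho) p L → HB p L → p ≠ 0 →
        HB (p - 1) (GWc343.bN p L)) ∧
      All (fun u τ => HB (X.self u τ Finset.univ).t.top [(X.self u τ Finset.univ).t])
        ⟨top X.S, 1, 1, 1⟩ X.c.t ∧
      All (fun u τ => BootF X j₀ (fun _ _ => 0) Kb u τ → ∀ n,
        GW X n u τ ≤ a * (X.mu j₀ u τ Finset.univ +
        X.mu j₀ u τ Finset.univ * X.mu j₀ u τ Finset.univ) +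
        b * GS locF n (X.self u τ Finset.univ).p [((1 : ℝ), (X.self u τ Finset.univ).t)] +
        ε * I (fun x => tt Finset.univ (X.g u τ) x ^ 2)) ⟨top X.S, 1, 1, 1⟩ X.c.t

/-- **the game of the full classes** -/
theorem game_of_full {ε ε' : ℝ} (hε : ε < ε') {P : ∀ {p0 P₀ : ℕ} (X : Ctx N γ p0 P₀), Prop}
    (h : Full ε N γ P) : Game ε' N γ P := by
  obtain ⟨a, b, ha, hb, h⟩ := h
  set e : ℝ := (ε' - ε) / (b + 1) with he
  have hb1 : 0 < b + 1 := by linarith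
  have he0 : 0 < e := div_pos (by linarith) hb1
  have hee : b * e ≤ ε' - ε := by
    rw [he, mul_div_assoc', div_le_iff₀ hb1]
    nlinarith
  set C : ℝ := 86 + 100 * Log51.Lc (e / 100) with hC
  refine ⟨a, b * |C|, 3 * b, ha, by positivity, by positivity, fun M hM => ?_⟩
  obtain ⟨p1, h1⟩ := CtxNF36.par_PG N
  have hE : Ev N γ fun p0 P₀ X => StratX36.PG X.par (w X.ψ) :=
    Ev.of (p₁ := p1) fun p0 hp0 P₀ hP X => h1 p0 hp0 (w X.ψ) fun q => by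
      have := X.sys.nonneg q
      unfold w
      positivity
  refine ((h M hM).and hE).mono ?_
  rintro p0 P₀ X ⟨hh, hG⟩ hC' hP j₀ Kb k1 k2
  obtain ⟨hk, HB, b1, b2, b3, b4, b5, b6⟩ := hh hC' hP j₀ Kb k1 k2
  have H := BI.invB (F := FX (X.c.D.par X.Y).rho) (kd := (X.c.D.par X.Y).rho) (HB := HB)
    (fun t ht => ht.1) (fun t ht => ht.2.1) b1 b2 b3 b4
  refine All.mono (fun u τ hh hB n => ?_) (All.and b6 (All.and b5 (All.and (ctx_BI X j₀ hG)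
    (ctx_side X j₀))))
  obtain ⟨g1, g2, g3, g4⟩ := hh
  have x1 := g1 hB n
  have hp : (X.self u τ Finset.univ).p = (X.self u τ Finset.univ).t.top := max_self _
  have x2 := T2F_one H (fun {p L} hL _ => BI.bok hL.1 (fun t ht => ht.1) (fun t ht => ht.2.2)) hk n
    (X.self u τ Finset.univ).t.top (t := (X.self u τ Finset.univ).t) ⟨g3, g2⟩ he0
  have e2 : X.g u τ = (X.self u τ Finset.univ).t.g :=
    (Item758.Par.toDT_g (X.c.D.par X.Y) X.c.sp τ u.B u.A).symm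
  have e1 : ∀ x, tt Finset.univ (X.g u τ) x = ∑ j, (X.self u τ Finset.univ).t.g.val j x := by
    intro x
    unfold tt
    rw [rv_univ, e2]
  simp only [e1] at x1 ⊢
  rw [hp] at x1 ⊢
  have I0 : 0 ≤ I (fun x => ∑ j, (X.self u τ Finset.univ).t.g.val j x) :=
    I_nonneg fun x => Finset.sum_nonneg fun j _ => (g4.2.ok.pb j).nonneg x
  have I2 : 0 ≤ I (fun x => (∑ j, (X.self u τ Finset.univ).t.g.val j x) ^ 2) :=
    I_nonneg fun x => sq_nonneg _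
  have x3 := mul_le_mul_of_nonneg_left x2 hb
  have x4 : C * I (fun x => ∑ j, (X.self u τ Finset.univ).t.g.val j x) ≤
      |C| * I (fun x => ∑ j, (X.self u τ Finset.univ).t.g.val j x) :=
    mul_le_mul_of_nonneg_right (le_abs_self C) I0
  have x5 := mul_le_mul_of_nonneg_left x4 hb
  have x6 := mul_le_mul_of_nonneg_right hee I2
  have e3 : GS SOl n (X.self u τ Finset.univ).t.top [((1 : ℝ), (X.self u τ Finset.univ).t)] =
      GS SO n (X.self u τ Finset.univ).t.top [((1 : ℝ), (X.self u τ Finset.univ).t)] := rfl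
  rw [e3] at x3
  nlinarith

end Crest.Agent.R4P.TopG25
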