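import Crest.Agent.R4P.ClsSh_36
import Crest.Agent.R4P.LinkC_33
import Crest.Agent.R4P.NumX_34

/-!
R4P (S0004), helper36, group [X]: **the potentials at a crossing state as summands of helper32's class numbers**.

* `ctx_mt` : missing ties of the items of `S'` (sum, number).
* `FAll_of` : `FAll` of PotSum_32 from a bound by `K b b' [P e] (FL + Vm)`.
* `pot_split` : the potential of a pair = one summand without raise + the exits.
-/

set_option autoImplicit false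
set_option linter.unusedSectionVars false
set_option linter.unusedVariables false
open Finset

namespace Crest.Agent.R4P.TotC36

open Crest.Agent.R4.Tour104 Crest.Agent.R4.Tour758 Crest.Agent.R4.Avg758 Crest.Agent.R4.Clos758
open Crest.Agent.R4.ClosL758 Crest.Agent.R4.ClosG758 Crest.Agent.R4.ClosR758
open Crest.Agent.R4.Fam464 Crest.Agent.R4P.Cnt588 Crest.Agent.R4P.Walk560 Crest.Agent.R4.Piece464
open Crest.Agent.R4P.Item758 Crest.Agent.R4P.AvgItem710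
open Crest.Agent.R4P.Data758 Crest.Agent.R4P.WalkIT579
open Crest.Agent.R4P.Bld532 (NS All NodeOk Bk)
open Crest.Agent.R4P.Res927 Crest.Agent.R4P.GSt927
open Crest.Agent.R4P.Skel189 (Ctx top Part PartW)
open Crest.Agent.R4.Soft104
open Crest.Agent.R4P.CrsFacts26 Crest.Agent.R4P.AsmX26
open Crest.Agent.R4P.StratN36 (ex)
open Crest.Agent.R4.AvgItem710 (rf)
open Crest.Agent.R4P.LLTot33 (xR yR)
open Crest.Agent.R4.CrossShot709 (lev)
open Crest.Agent.R4P.NumCls32 Crest.Agent.R4P.StripP33 Crest.Agent.R4P.ShotP33 Crest.Agent.R4P.BrP33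
open Crest.Agent.R4P.ShotTot33 (fe mc)
open Crest.Agent.R4.DeepSt579 (tq tq_nonneg tq_mono rd)
open Crest.Agent.R4P.ClsCtx36 Crest.Agent.R4P.PotSum32 Crest.Agent.R4P.ClsSh36
open Crest.Agent.R4P.CrossLoc25 (FL)
open Crest.Agent.R4P.CrossLocC25 (cT XC)
open Crest.Agent.R4P.YI25 (pot)
open Crest.Agent.R4P.SameIx30 (Vm)
open Crest.Agent.R4P.NumTot33
open Crest.Agent.R4P.StopLeaf28 (LoSt)
open Crest.Agent.R4.CrossLoc709 (SE)
open Crest.Agent.R4.NMW710 (Dq)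
open Crest.Agent.R4P.LinkC33
open Crest.Agent.R4P

/-! ### missing ties -/

/-- **missing ties of the items of `S'`** -/
theorem ctx_mt (N : Skel189.Num) : ∃ p₁ : ℕ, 3 ≤ p₁ ∧ ∀ p0 ≥ p₁, ∀ (γ : ℝ) (P₀ : ℕ) (X : Ctx N γ p0 P₀),
    ∀ q ∈ X.S', (∑ l ∈ X.c.t.mt q, (l:ℝ)^(-(11/12):ℝ) ≤ 1) ∧ ∀ b : ℕ, p0 ≤ b →
      (((X.c.t.mt q).filter (· ≤ b)).card : ℝ) ≤ Real.log b ^ (N.C1 + N.c2 + 1) := by
  obtain ⟨p1, h1⟩ := PrunePar33.Pr_tails N.B (N.C1 + N.c2) 0 1 (11/12) (by norm_num) le_rfl (by norm_num)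
    (by have := N.hB; have := N.hC1; have := N.hc2; linarith)
  refine ⟨p1 + 3, by omega, fun p0 hp0 γ P₀ X q hq => ?_⟩
  have hpr := NI927.ctx_pr X hq
  refine ⟨?_, fun b hb => hpr.mt b hb⟩
  obtain ⟨h2, -, -⟩ := h1 p0 (by omega) X.c.t q hpr p0 le_rfl
  have e : (X.c.t.mt q).filter (fun b => p0 < b) = X.c.t.mt q :=
    Finset.filter_true_of_mem fun p hp => (NI927.ctx_cols X q p (Or.inl hp))
  rw [e] at h2
  refine h2.trans ?_
  have hp1 : (1:ℝ) ≤ p0 := by exact_mod_cast (by omega : 1 ≤ p0)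
  exact Real.rpow_le_one_of_one_le_of_nonpos hp1 (by norm_num)

/-! ### the records of PotSum_32 -/

section fall
variable {Lo : ℝ × ℝ → ℕ × ℕ → Prop} {P PP : ℕ × ℕ → Prop} {ρ : ℕ → ℝ} {γ θ θ' K C CT cl CL : ℝ}
  {s M b pr M' b' pr' a₀ : ℕ} {V W : Finset ℕ} {F : ℕ × ℕ → ℝ}

open Classical in
/-- the value of a pair -/
noncomputable def UV (Lo : ℝ × ℝ → ℕ × ℕ → Prop) (P PP : ℕ × ℕ → Prop) (ρ : ℕ → ℝ) (γ : ℝ) (s : ℝ × ℝ)
    (e : ℕ × ℕ) : ℝ := if P e then FL Lo ρ γ s e + Vm PP ρ s e else 0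

lemma UV_nonneg (hρ : ∀ q, 0 < ρ q) (s : ℝ × ℝ) (e : ℕ × ℕ) : 0 ≤ UV Lo P PP ρ γ s e := by
  unfold UV
  split_ifs
  · exact add_nonneg (CrossLoc25.FL_nonneg hρ _ _ _) (SameIx30.Vm_nonneg hρ _ _ _)
  · exact le_rfl

lemma AX.Dq0 (h : AX CL s M b pr 1 M' b' pr' 1 ρ V W) {e : ℕ × ℕ} (he : e ∈ V ×ˢ W) :
    0 < Dq ρ M b pr 1 M' b' pr' 1 e := by
  obtain ⟨h1, h2⟩ := Finset.mem_product.1 he
  obtain ⟨q0, qd⟩ := h.hV _ h1
  obtain ⟨r0, rd'⟩ := h.hW _ h2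
  have w1 : 0 < e.1 / pr := Nat.div_pos (Nat.le_of_dvd q0 qd) (Nat.pos_of_dvd_of_pos qd q0)
  have w2 : 0 < e.2 / pr' := Nat.div_pos (Nat.le_of_dvd r0 rd') (Nat.pos_of_dvd_of_pos rd' r0)
  unfold Dq
  refine Crest.Agent.R4.Step588.Da_pos' w1 h.hM w2 h.hM' ?_
  unfold rd
  have := h.hρ e.1
  have hb : (0:ℝ) < b := by exact_mod_cast h.hb
  positivity

/-- sizes of the summand -/
theorem sizes (hX : AX CL s M b pr 1 M' b' pr' 1 ρ V W) (hl : 8 ≤ Real.log s) (hK0 : 0 ≤ K)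
    (hK : K ≤ (Real.log s)^C)
    (hF : ∀ e ∈ V ×ˢ W, F e ≤ K * ((b:ℝ) * b' * UV Lo P PP ρ γ (SE M b pr M' b' pr' e) e))
    (hLo : ∀ e ∈ V ×ˢ W, Lo (SE M b pr M' b' pr' e) e → LoD ((Real.log s)^CT) (Dq ρ M b pr 1 M' b' pr' 1)
      (xR M pr M' pr') (yR M pr M' pr') e) :
    (∀ e ∈ V ×ˢ W, Dq ρ M b pr 1 M' b' pr' 1 e ≤ 1 →
      F e ≤ (Real.log s)^(C+1) * (rd b 1 ρ e.1 * rd b' 1 ρ e.2 / Dq ρ M b pr 1 M' b' pr' 1 e)) ∧
    (∀ e ∈ V ×ˢ W, 1 < Dq ρ M b pr 1 M' b' pr' 1 e →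
      F e ≤ (Real.log s)^(C+1) * (rd b 1 ρ e.1 * rd b' 1 ρ e.2 / Dq ρ M b pr 1 M' b' pr' 1 e) ∨
        (LoD ((Real.log s)^CT) (Dq ρ M b pr 1 M' b' pr' 1) (xR M pr M' pr') (yR M pr M' pr') e ∧
          F e ≤ (Real.log s)^(C+1) * (rd b 1 ρ e.1 * rd b' 1 ρ e.2))) ∧
    (∀ e ∈ V ×ˢ W, 0 < F e → P e) := by
  have hl0 : 0 < Real.log s := by linarith
  have hK8 : K * 8 ≤ (Real.log s)^(C+1) := by
    rw [Real.rpow_add hl0, Real.rpow_one]
    have : 0 < (Real.log s)^C := by positivity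
    nlinarith
  have hrd : ∀ b q : ℕ, 0 ≤ rd b 1 ρ q := fun b q => by
    unfold rd
    have := hX.hρ q
    positivity
  refine ⟨fun e he h1 => ?_, fun e he h1 => ?_, fun e he h1 => ?_⟩
  · have hD := AX.Dq0 hX he
    have hR : 0 ≤ rd b 1 ρ e.1 * rd b' 1 ρ e.2 / Dq ρ M b pr 1 M' b' pr' 1 e :=
      div_nonneg (mul_nonneg (hrd _ _) (hrd _ _)) hD.le
    refine (hF e he).trans ?_
    by_cases hP : P e
    · have e1 : UV Lo P PP ρ γ (SE M b pr M' b' pr' e) e =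
          FL Lo ρ γ (SE M b pr M' b' pr' e) e + Vm PP ρ (SE M b pr M' b' pr' e) e := if_pos hP
      rw [e1]
      have h2 := FV_le_one (F := fun e => (b:ℝ) * b' * (FL Lo ρ γ (SE M b pr M' b' pr' e) e +
        Vm PP ρ (SE M b pr M' b' pr' e) e)) hX.hρ hD le_rfl h1
      calc _ ≤ K * (8 * (rd b 1 ρ e.1 * rd b' 1 ρ e.2 / Dq ρ M b pr 1 M' b' pr' 1 e)) :=
            mul_le_mul_of_nonneg_left h2 hK0
        _ = (K * 8) * (rd b 1 ρ e.1 * rd b' 1 ρ e.2 / Dq ρ M b pr 1 M' b' pr' 1 e) := by ring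
        _ ≤ _ := mul_le_mul_of_nonneg_right hK8 hR
    · have e1 : UV Lo P PP ρ γ (SE M b pr M' b' pr' e) e = 0 := if_neg hP
      rw [e1, mul_zero, mul_zero]
      exact mul_nonneg (by positivity) hR
  · have hD := AX.Dq0 hX he
    have hR : 0 ≤ rd b 1 ρ e.1 * rd b' 1 ρ e.2 / Dq ρ M b pr 1 M' b' pr' 1 e :=
      div_nonneg (mul_nonneg (hrd _ _) (hrd _ _)) hD.le
    by_cases hP : P e
    · have e1 : UV Lo P PP ρ γ (SE M b pr M' b' pr' e) e =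
          FL Lo ρ γ (SE M b pr M' b' pr' e) e + Vm PP ρ (SE M b pr M' b' pr' e) e := if_pos hP
      have h0 := hF e he
      rw [e1] at h0
      rcases FV_gt (F := fun e => (b:ℝ) * b' * (FL Lo ρ γ (SE M b pr M' b' pr' e) e +
        Vm PP ρ (SE M b pr M' b' pr' e) e)) hX.hρ le_rfl h1 with h2 | ⟨h2, h3⟩
      · left
        refine h0.trans ?_
        calc _ ≤ K * (8 * (rd b 1 ρ e.1 * rd b' 1 ρ e.2 / Dq ρ M b pr 1 M' b' pr' 1 e)) :=
              mul_le_mul_of_nonneg_left h2 hK0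
          _ = (K * 8) * (rd b 1 ρ e.1 * rd b' 1 ρ e.2 / Dq ρ M b pr 1 M' b' pr' 1 e) := by ring
          _ ≤ _ := mul_le_mul_of_nonneg_right hK8 hR
      · right
        refine ⟨hLo e he h2, h0.trans ?_⟩
        calc _ ≤ K * (8 * (rd b 1 ρ e.1 * rd b' 1 ρ e.2)) := mul_le_mul_of_nonneg_left h3 hK0
          _ = (K * 8) * (rd b 1 ρ e.1 * rd b' 1 ρ e.2) := by ring
          _ ≤ _ := mul_le_mul_of_nonneg_right hK8 (mul_nonneg (hrd _ _) (hrd _ _))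
    · left
      have e1 : UV Lo P PP ρ γ (SE M b pr M' b' pr' e) e = 0 := if_neg hP
      have h0 := hF e he
      rw [e1, mul_zero, mul_zero] at h0
      exact h0.trans (mul_nonneg (by positivity) hR)
  · by_contra hP
    have e1 : UV Lo P PP ρ γ (SE M b pr M' b' pr' e) e = 0 := if_neg hP
    have h0 := hF e he
    rw [e1, mul_zero, mul_zero] at h0
    linarith

/-- **`FAll`** -/
theorem FAll_of (hX : AX CL s M b pr 1 M' b' pr' 1 ρ V W) (hl : 8 ≤ Real.log s) (hK0 : 0 ≤ K)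
    (hK : K ≤ (Real.log s)^C)
    (hF : ∀ e ∈ V ×ˢ W, F e ≤ K * ((b:ℝ) * b' * UV Lo P PP ρ γ (SE M b pr M' b' pr' e) e))
    (hLo : ∀ e ∈ V ×ˢ W, Lo (SE M b pr M' b' pr' e) e → LoD ((Real.log s)^CT) (Dq ρ M b pr 1 M' b' pr' 1)
      (xR M pr M' pr') (yR M pr M' pr') e)
    (hrel : ∀ e ∈ V ×ˢ W, P e → RelI γ ρ M b pr 1 M' b' pr' 1 e)
    (hfg : ∀ e ∈ V ×ˢ W, P e → fe s M' pr e.1 ≠ fe s M pr' e.2 →
      FSs s γ ρ (lev cl s) M b pr 1 M' b' pr' 1 ((e.1 / pr).factorization s) ((e.2 / pr').factorization s) e →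
      FLow s (dex ((e.1 / pr).factorization s) (M.factorization s) ((e.2 / pr').factorization s)
          (M'.factorization s)) a₀ (rf (itm s pr e.1) (st s M)) (rf (itm s pr' e.2) (st s M'))
        (if fe s M' pr e.1 < fe s M pr' e.2 then θ else θ')
        (Dq ρ M b pr 1 M' b' pr' 1 e)) :
    FAll (C+1) CT cl s M b pr 1 M' b' pr' 1 a₀ γ θ θ' ρ V W F := by
  obtain ⟨k1, k2, k3⟩ := sizes (CT := CT) hX hl hK0 hK hF hLo
  exact ⟨k1, k2, fun e he _ h0 => hrel e he (k3 e he h0), fun e he hne _ h0 hFS => hfg e he (k3 e he h0) hne hFS⟩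

end fall

/-! ### the potential -/

section pots
variable {Vs : ℝ × ℝ → ℕ × ℕ → ℝ} {Vc Vx : ℕ → ℝ × ℝ → ℕ × ℕ → ℝ} {U : ℝ}
  {M b pr M' b' pr' s : ℕ} {τ τ' : IT} {e : ℕ × ℕ} {n : ℝ}

open Classical in
/-- the summand of the exit at `l` -/
noncomputable def fx (Vx : ℕ → ℝ × ℝ → ℕ × ℕ → ℝ) (M b pr M' b' pr' : ℕ) (τ τ' : IT) (l : ℕ) (e : ℕ × ℕ) : ℝ :=
  (b:ℝ) * b' * (if l ∈ τ.mt e.1 ∪ τ'.mt e.2 then Vx l (SE M b pr M' b' pr' e) e else 0)

/-- **the potential of a pair** : a summand at the letters of the state, and the exits -/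
theorem pot_split (hVx : ∀ l s e, 0 ≤ Vx l s e) (hU : 0 ≤ U)
    (h1 : Vs (SE M b pr M' b' pr' e) e ≤ U)
    (h2 : ∀ l ∈ τ.mt e.1 ∪ τ'.mt e.2, Vc l (SE M b pr M' b' pr' e) e ≤ U)
    (hT : ∀ l ∈ τ.mt e.1 ∪ τ'.mt e.2, l.Prime ∧ l ≤ s)
    (hn : ((τ.mt e.1 ∪ τ'.mt e.2).card : ℝ) ≤ n) :
    pot Vs Vc Vx M b pr M' b' pr' τ τ' e ≤ (1 + 2 * n) * ((b:ℝ) * b' * U) +
      ∑ l ∈ (Finset.range s).filter Nat.Prime, fx Vx M b pr M' b' pr' τ τ' l e +
      fx Vx M b pr M' b' pr' τ τ' s e := by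
  classical
  set S := SE M b pr M' b' pr' e with hS
  set m := τ.mt e.1 ∪ τ'.mt e.2 with hm
  have hB : (0:ℝ) ≤ (b:ℝ) * b' := by positivity
  have e1 : ∑ l ∈ m, cT Vc Vx l M b pr M' b' pr' τ τ' e ≤ 2 * n * U + ∑ l ∈ m, Vx l S e := by
    calc ∑ l ∈ m, cT Vc Vx l M b pr M' b' pr' τ τ' e ≤ ∑ l ∈ m, (2 * U + Vx l S e) := by
          refine Finset.sum_le_sum fun l hl => ?_
          unfold CrossLocC25.cT
          have := h2 l hl
          have := hVx l S e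
          split_ifs <;> linarith
      _ = m.card * (2 * U) + ∑ l ∈ m, Vx l S e := by
          rw [Finset.sum_add_distrib, Finset.sum_const, nsmul_eq_mul]
      _ ≤ _ := by
          have : (m.card : ℝ) * (2 * U) ≤ n * (2 * U) := mul_le_mul_of_nonneg_right hn (by linarith)
          linarith
  have e2 : ∑ l ∈ m, Vx l S e ≤ ∑ l ∈ (Finset.range s).filter Nat.Prime, (if l ∈ m then Vx l S e else 0) +
      (if s ∈ m then Vx s S e else 0) := by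
    have h3 : m ⊆ insert s ((Finset.range s).filter Nat.Prime) := by
      intro l hl
      obtain ⟨k1, k2⟩ := hT l hl
      rcases k2.lt_or_eq with h | h
      · exact Finset.mem_insert_of_mem (Finset.mem_filter.2 ⟨Finset.mem_range.2 h, k1⟩)
      · rw [h]; exact Finset.mem_insert_self _ _
    have h4 : ∑ l ∈ m, Vx l S e = ∑ l ∈ m, (if l ∈ m then Vx l S e else 0) :=
      Finset.sum_congr rfl fun l hl => by rw [if_pos hl]
    rw [h4]
    refine (Finset.sum_le_sum_of_subset_of_nonneg h3 fun l _ _ => ?_).trans ?_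
    · by_cases hl : l ∈ m
      · rw [if_pos hl]; exact hVx _ _ _
      · rw [if_neg hl]
    · rw [Finset.sum_insert (by rw [Finset.mem_filter, Finset.mem_range]; exact fun h => absurd h.1 (lt_irrefl _)),
        add_comm]
  unfold YI25.pot fx
  rw [← Finset.mul_sum, ← hS]
  have e3 : Vs S e + ∑ l ∈ m, cT Vc Vx l M b pr M' b' pr' τ τ' e ≤ (1 + 2 * n) * U +
      (∑ l ∈ (Finset.range s).filter Nat.Prime, (if l ∈ m then Vx l S e else 0) +
      (if s ∈ m then Vx s S e else 0)) := by linarith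
  calc (b:ℝ) * b' * (Vs S e + ∑ l ∈ m, cT Vc Vx l M b pr M' b' pr' τ τ' e)
      ≤ (b:ℝ) * b' * ((1 + 2 * n) * U +
      (∑ l ∈ (Finset.range s).filter Nat.Prime, (if l ∈ m then Vx l S e else 0) +
      (if s ∈ m then Vx s S e else 0))) := mul_le_mul_of_nonneg_left e3 hB
    _ = _ := by ring

end pots

end Crest.Agent.R4P.TotC36
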