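import Crest.Agent.R4P.GWf_343

/-!
R4 (S0004) with powers, T3 (heights > 1), helper343: **truncation of the rows of a bundle**.

`a`, `b` = contents of the child bundles P, N of one class; `w = 1/p`; `D a b = (b - a)⁺`,
`Bs w a b = (1-w) a + w b - w D`; row `X_i = Bs + s_i D`.

* `D_add`, `Bs_add` : short + tall = everything; `trunc_le` : the truncated row is below
  `min (row) σ`.
* `gb K z x`, `bb K z y` : the two parts of a bundle; `bc_dec`, `rowX` : **exact row**.
* `gS σ K z x`, `gT σ K z x` : short and tall lift parts; `rowS` : exact rows of the truncated contents;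
  `eS` : the births, `eS_nonneg`; `minrow` : `min (bc) σ = bS (p x) + gS x + eS x`,
  `excrow` : `(bc - σ)⁺ = bT (p x) + gT x - eS x`.
-/

set_option autoImplicit false
set_option linter.unusedSectionVars false
set_option linter.unusedVariables false
open MeasureTheory Filter Set

namespace Crest.Agent.R4P.TrR343

open Crest.Agent.R4.Tour104 Crest.Agent.R4.Tour758 Crest.Agent.R4.Avg758 Crest.Agent.R4.Clos758
open Crest.Agent.R4.ClosL758 Crest.Agent.R4.ClosG758 Crest.Agent.R4.ClosR758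
open Crest.Agent.R4P.ClosR442 Crest.Agent.R4P.Grp36
open Crest.Agent.R4P.Xfer36 Crest.Agent.R4P.TopC36 Crest.Agent.R4P.PN36
open Crest.Agent.R4P.GainX36 (vT PB_vT)
open Crest.Agent.R4P.GMer27 Crest.Agent.R4P.GCol27 Crest.Agent.R4P.GWa343 Crest.Agent.R4P.GWb343
open Crest.Agent.R4P.GWc343 Crest.Agent.R4P.GWd343 Crest.Agent.R4P.GWe343 Crest.Agent.R4P.GWf343
open Crest.Agent.R4P.Walk560 (DT WrN)

/-! ### numbers -/

/-- unmatched part -/
noncomputable def D (a b : ℝ) : ℝ := max (b - a) 0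

/-- constant part of a row -/
noncomputable def Bs (w a b : ℝ) : ℝ := (1 - w) * a + w * b - w * D a b

/-- excess over `σ` -/
noncomputable def xs (σ a : ℝ) : ℝ := max (a - σ) 0

lemma D_nonneg (a b : ℝ) : 0 ≤ D a b := le_max_right _ _

lemma min_add_xs (σ a : ℝ) : min a σ + xs σ a = a := by
  unfold xs
  rcases le_total a σ with h | h
  · rw [min_eq_left h, max_eq_right (by linarith)]; ring
  · rw [min_eq_right h, max_eq_left (by linarith)]; ring

lemma xs_nonneg (σ a : ℝ) : 0 ≤ xs σ a := le_max_right _ _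

lemma D_add (σ a b : ℝ) : D (min a σ) (min b σ) + D (xs σ a) (xs σ b) = D a b := by
  unfold D xs
  rcases le_total a σ with h1 | h1 <;> rcases le_total b σ with h2 | h2
  · rw [min_eq_left h1, min_eq_left h2, max_eq_right (show a - σ ≤ 0 by linarith),
      max_eq_right (show b - σ ≤ 0 by linarith)]
    simp
  · rw [min_eq_left h1, min_eq_right h2, max_eq_right (show a - σ ≤ 0 by linarith),
      max_eq_left (show 0 ≤ b - σ by linarith), max_eq_left (show 0 ≤ σ - a by linarith),
      max_eq_left (show 0 ≤ b - σ - 0 by linarith), max_eq_left (show 0 ≤ b - a by linarith)]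
    ring
  · rw [min_eq_right h1, min_eq_left h2, max_eq_left (show 0 ≤ a - σ by linarith),
      max_eq_right (show b - σ ≤ 0 by linarith),
      max_eq_right (show 0 - (a - σ) ≤ 0 by linarith), max_eq_right (show b - a ≤ 0 by linarith)]
    ring
  · rw [min_eq_right h1, min_eq_right h2, max_eq_left (show 0 ≤ a - σ by linarith),
      max_eq_left (show 0 ≤ b - σ by linarith)]
    have e : b - σ - (a - σ) = b - a := by ring
    rw [e]
    simp

lemma Bs_add (w σ a b : ℝ) : Bs w (min a σ) (min b σ) + Bs w (xs σ a) (xs σ b) = Bs w a b := by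
  have h1 := min_add_xs σ a
  have h2 := min_add_xs σ b
  have h3 := D_add σ a b
  unfold Bs
  linear_combination (1 - w) * h1 + w * h2 - w * h3

lemma D_min_le (σ a b : ℝ) : D (min a σ) (min b σ) ≤ D a b := by
  have := D_add σ a b
  have := D_nonneg (xs σ a) (xs σ b)
  linarith

/-- the row lies between -/
lemma row_bd {w a b s : ℝ} (hw : 0 ≤ w) (hw1 : w ≤ 1) (hs : 0 ≤ s) (hs1 : s ≤ 1) {σ : ℝ}
    (ha : a ≤ σ) (hb : b ≤ σ) : Bs w a b + s * D a b ≤ σ := by
  unfold Bs D
  rcases le_total a b with h | h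
  · rw [max_eq_left (by linarith)]
    nlinarith
  · rw [max_eq_right (by linarith)]
    nlinarith

lemma row_nonneg {w a b s : ℝ} (hw : 0 ≤ w) (hw1 : w ≤ 1) (hs : 0 ≤ s) (ha : 0 ≤ a) (hb : 0 ≤ b) :
    0 ≤ Bs w a b + s * D a b := by
  unfold Bs D
  rcases le_total a b with h | h
  · rw [max_eq_left (by linarith)]
    nlinarith [mul_nonneg hs (show 0 ≤ b - a by linarith)]
  · rw [max_eq_right (by linarith)]
    nlinarith [mul_nonneg hw hb, mul_nonneg (show 0 ≤ 1 - w by linarith) ha]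

/-- **the truncated row is below the truncation of the row** -/
lemma trunc_le {w a b s σ : ℝ} (hw : 0 ≤ w) (hw1 : w ≤ 1) (hs : 0 ≤ s) (hs1 : s ≤ 1) :
    Bs w (min a σ) (min b σ) + s * D (min a σ) (min b σ) ≤ min (Bs w a b + s * D a b) σ := by
  refine le_min ?_ (row_bd hw hw1 hs hs1 (min_le_right _ _) (min_le_right _ _))
  have h1 := Bs_add w σ a b
  have h2 := D_add σ a b
  have h3 := row_nonneg (w := w) (s := s) hw hw1 hs (xs_nonneg σ a) (xs_nonneg σ b)
  have h4 : s * D a b = s * D (min a σ) (min b σ) + s * D (xs σ a) (xs σ b) := by rw [← h2]; ring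
  linarith

/-! ### PB -/

lemma PB_minc {f : ℝ → ℝ} {σ : ℝ} (hσ : 0 ≤ σ) (hf : PB f) : PB fun x => min (f x) σ :=
  ⟨hf.meas.min measurable_const, fun x => le_min (hf.nonneg x) hσ,
    ⟨σ, fun x => min_le_right _ _⟩, fun x => by
      show min (f (x + 1)) σ = _
      rw [hf.per]⟩

lemma PB_xs {f : ℝ → ℝ} {σ : ℝ} (hσ : 0 ≤ σ) (hf : PB f) : PB fun x => xs σ (f x) := by
  obtain ⟨A, hA⟩ := hf.bdd
  refine ⟨(hf.meas.sub_const σ).max measurable_const, fun x => xs_nonneg _ _,
    ⟨A, fun x => ?_⟩, fun x => ?_⟩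
  · have := hA x
    have := hf.nonneg x
    exact max_le (by linarith) (by linarith)
  · show max (f (x + 1) - σ) 0 = _
    rw [hf.per]; rfl

lemma PB_D {f g : ℝ → ℝ} (hf : PB f) (hg : PB g) : PB fun x => D (f x) (g x) :=
  PB_max0 hg hf

lemma PB_div {f g : ℝ → ℝ} (hf : PB f) (hg : PB g) (h : ∀ x, f x ≤ g x) : PB fun x => f x / g x := by
  refine ⟨hf.meas.div hg.meas, fun x => div_nonneg (hf.nonneg x) (hg.nonneg x),
    ⟨1, fun x => div_le_one_of_le₀ (h x) (hg.nonneg x)⟩, fun x => ?_⟩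
  show f (x + 1) / g (x + 1) = _
  rw [hf.per, hg.per]

/-! ### exact rows of functions -/

/-- **exact row** : `B` constant part, `g` lift part of the row with the contents `a` (P), `b` (N) -/
structure ER (p : ℕ) (a b B g : ℝ → ℝ) : Prop where
  pa : PB a
  pb : PB b
  pB : PB B
  pg : PB g
  row : ∀ y, (∃ s : Fin p → ℝ, (∀ i, 0 ≤ s i ∧ s i ≤ 1) ∧ ∑ i, 1 / (p : ℝ) * s i = 1 / (p : ℝ) ∧
      ∀ i : Fin p, g ((y + (i : ℕ)) / p) = s i * D (a y) (b y)) ∧
      B y = Bs (1 / (p : ℝ)) (a y) (b y)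

section er
variable {p : ℕ} {a b B g : ℝ → ℝ}

lemma w01 (hp : 0 < p) : 0 ≤ 1 / (p : ℝ) ∧ 1 / (p : ℝ) ≤ 1 := by
  have hp1 : (1 : ℝ) ≤ p := by exact_mod_cast hp
  have hp' : (0 : ℝ) < p := by exact_mod_cast hp
  exact ⟨by positivity, by rw [div_le_one hp']; exact hp1⟩

/-- at a point -/
lemma ER.at (hp : 0 < p) (h : ER p a b B g) (x : ℝ) : ∃ s, (0 ≤ s ∧ s ≤ 1) ∧
    g x = s * D (a (p * x)) (b (p * x)) ∧ B (p * x) = Bs (1 / (p : ℝ)) (a (p * x)) (b (p * x)) := by
  obtain ⟨⟨s, h1, -, h3⟩, h4⟩ := h.row (p * x)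
  have hp' : (p : ℝ) ≠ 0 := by exact_mod_cast hp.ne'
  refine ⟨s ⟨0, hp⟩, h1 _, ?_, h4⟩
  have := h3 ⟨0, hp⟩
  have e : ((p : ℝ) * x + (((⟨0, hp⟩ : Fin p) : ℕ) : ℝ)) / p = x := by
    show ((p : ℝ) * x + ((0 : ℕ) : ℝ)) / p = x
    field_simp
    simp
  rw [e] at this
  exact this

/-- short contents -/
noncomputable def sB (p : ℕ) (σ : ℝ) (a b : ℝ → ℝ) (y : ℝ) : ℝ :=
  Bs (1 / (p : ℝ)) (min (a y) σ) (min (b y) σ)
/-- short lift part -/
noncomputable def sg (p : ℕ) (σ : ℝ) (a b g : ℝ → ℝ) (x : ℝ) : ℝ :=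
  g x * (D (min (a (p * x)) σ) (min (b (p * x)) σ) / D (a (p * x)) (b (p * x)))
/-- tall constant part -/
noncomputable def tB (p : ℕ) (σ : ℝ) (a b : ℝ → ℝ) (y : ℝ) : ℝ :=
  Bs (1 / (p : ℝ)) (xs σ (a y)) (xs σ (b y))
/-- tall lift part -/
noncomputable def tg (p : ℕ) (σ : ℝ) (a b g : ℝ → ℝ) (x : ℝ) : ℝ :=
  g x * (D (xs σ (a (p * x))) (xs σ (b (p * x))) / D (a (p * x)) (b (p * x)))
/-- **births of the truncation** -/
noncomputable def sE (p : ℕ) (σ : ℝ) (a b B g : ℝ → ℝ) (x : ℝ) : ℝ :=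
  min (B (p * x) + g x) σ - (sB p σ a b (p * x) + sg p σ a b g x)

lemma Bs_nonneg {w a b : ℝ} (hw : 0 ≤ w) (hw1 : w ≤ 1) (ha : 0 ≤ a) (hb : 0 ≤ b) : 0 ≤ Bs w a b := by
  have := row_nonneg (w := w) (s := 0) hw hw1 le_rfl ha hb
  simpa using this

lemma PB_Bs {f h : ℝ → ℝ} {w : ℝ} (hw : 0 ≤ w) (hw1 : w ≤ 1) (hf : PB f) (hh : PB h) :
    PB fun y => Bs w (f y) (h y) := by
  obtain ⟨A, hA⟩ := hf.bdd
  obtain ⟨C, hC⟩ := hh.bdd
  have hD := PB_D hf hh
  refine ⟨((hf.meas.const_mul _).add (hh.meas.const_mul _)).sub (hD.meas.const_mul _),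
    fun x => Bs_nonneg hw hw1 (hf.nonneg x) (hh.nonneg x), ⟨A + C, fun x => ?_⟩, fun x => ?_⟩
  · unfold Bs
    have h1 := hf.nonneg x
    have h2 := hh.nonneg x
    have h3 := hA x
    have h4 := hC x
    have h5 := mul_nonneg hw (D_nonneg (f x) (h x))
    have h6 : w * h x ≤ h x := mul_le_of_le_one_left h2 hw1
    have h7 : (1 - w) * f x ≤ f x := mul_le_of_le_one_left h1 (by linarith)
    linarith
  · show Bs w (f (x + 1)) (h (x + 1)) = _
    rw [hf.per, hh.per]

lemma frac_le (σ a b : ℝ) : D (xs σ a) (xs σ b) ≤ D a b := by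
  have := D_add σ a b
  have := D_nonneg (min a σ) (min b σ)
  linarith

/-- **short contents: exact row** -/
theorem ER.short (hp : 0 < p) (h : ER p a b B g) {σ : ℝ} (hσ : 0 ≤ σ) :
    ER p (fun y => min (a y) σ) (fun y => min (b y) σ) (sB p σ a b) (sg p σ a b g) := by
  obtain ⟨w0, w1⟩ := w01 hp
  have hp' : (p : ℝ) ≠ 0 := by exact_mod_cast hp.ne'
  have q1 := PB_minc hσ h.pa
  have q2 := PB_minc hσ h.pb
  have pfr : PB fun y => D (min (a y) σ) (min (b y) σ) / D (a y) (b y) :=
    PB_div (PB_D q1 q2) (PB_D h.pa h.pb) fun y => D_min_le σ (a y) (b y)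
  refine ⟨q1, q2, PB_Bs w0 w1 q1 q2, h.pg.mul (pfr.pull p), fun y => ⟨?_, rfl⟩⟩
  obtain ⟨⟨s, h1, h2, h3⟩, -⟩ := h.row y
  refine ⟨s, h1, h2, fun i => ?_⟩
  have e : (D (min (a (p * ((y + (i : ℕ)) / p))) σ) (min (b (p * ((y + (i : ℕ)) / p))) σ) /
      D (a (p * ((y + (i : ℕ)) / p))) (b (p * ((y + (i : ℕ)) / p)))) =
      D (min (a y) σ) (min (b y) σ) / D (a y) (b y) := by
    rw [mul_div_cancel₀ _ hp', h.pa.per_nat, h.pb.per_nat]
  unfold sg
  rw [e, h3 i]
  have h5 := D_min_le σ (a y) (b y)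
  have h6 := D_nonneg (min (a y) σ) (min (b y) σ)
  rcases eq_or_ne (D (a y) (b y)) 0 with h7 | h7
  · rw [h7] at h5 ⊢
    have : D (min (a y) σ) (min (b y) σ) = 0 := le_antisymm h5 h6
    rw [this]; simp
  · field_simp

/-- **tall contents: exact row** -/
theorem ER.tall (hp : 0 < p) (h : ER p a b B g) {σ : ℝ} (hσ : 0 ≤ σ) :
    ER p (fun y => xs σ (a y)) (fun y => xs σ (b y)) (tB p σ a b) (tg p σ a b g) := by
  obtain ⟨w0, w1⟩ := w01 hp
  have hp' : (p : ℝ) ≠ 0 := by exact_mod_cast hp.ne'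
  have q1 := PB_xs hσ h.pa
  have q2 := PB_xs hσ h.pb
  have pfr : PB fun y => D (xs σ (a y)) (xs σ (b y)) / D (a y) (b y) :=
    PB_div (PB_D q1 q2) (PB_D h.pa h.pb) fun y => frac_le σ (a y) (b y)
  refine ⟨q1, q2, PB_Bs w0 w1 q1 q2, h.pg.mul (pfr.pull p), fun y => ⟨?_, rfl⟩⟩
  obtain ⟨⟨s, h1, h2, h3⟩, -⟩ := h.row y
  refine ⟨s, h1, h2, fun i => ?_⟩
  have e : (D (xs σ (a (p * ((y + (i : ℕ)) / p)))) (xs σ (b (p * ((y + (i : ℕ)) / p)))) /
      D (a (p * ((y + (i : ℕ)) / p))) (b (p * ((y + (i : ℕ)) / p)))) =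
      D (xs σ (a y)) (xs σ (b y)) / D (a y) (b y) := by
    rw [mul_div_cancel₀ _ hp', h.pa.per_nat, h.pb.per_nat]
  unfold tg
  rw [e, h3 i]
  have h5 := frac_le σ (a y) (b y)
  have h6 := D_nonneg (xs σ (a y)) (xs σ (b y))
  rcases eq_or_ne (D (a y) (b y)) 0 with h7 | h7
  · rw [h7] at h5 ⊢
    have : D (xs σ (a y)) (xs σ (b y)) = 0 := le_antisymm h5 h6
    rw [this]; simp
  · field_simp

/-- the two lift parts -/
lemma ER.lift_add (hp : 0 < p) (h : ER p a b B g) (σ x : ℝ) :
    sg p σ a b g x + tg p σ a b g x = g x := by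
  obtain ⟨s, -, h2, -⟩ := h.at hp x
  unfold sg tg
  have h5 := D_add σ (a (p * x)) (b (p * x))
  rw [← mul_add, ← add_div, h5]
  rcases eq_or_ne (D (a (p * x)) (b (p * x))) 0 with h7 | h7
  · rw [h2, h7]; simp
  · rw [div_self h7, mul_one]

/-- the two constant parts -/
lemma ER.const_add (h : ER p a b B g) (σ y : ℝ) : sB p σ a b y + tB p σ a b y = B y := by
  rw [(h.row y).2]
  exact Bs_add _ _ _ _

/-- the births are nonnegative -/
theorem ER.sE_nonneg (hp : 0 < p) (h : ER p a b B g) {σ : ℝ} (hσ : 0 ≤ σ) (x : ℝ) :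
    0 ≤ sE p σ a b B g x := by
  obtain ⟨w0, w1⟩ := w01 hp
  obtain ⟨s, h1, h2, h3⟩ := h.at hp x
  unfold sE sB sg
  rw [h2, h3]
  have key := trunc_le (a := a (p * x)) (b := b (p * x)) (σ := σ) w0 w1 h1.1 h1.2
  have h5 := D_min_le σ (a (p * x)) (b (p * x))
  have h6 := D_nonneg (min (a (p * x)) σ) (min (b (p * x)) σ)
  have e : s * D (a (p * x)) (b (p * x)) * (D (min (a (p * x)) σ) (min (b (p * x)) σ) /
      D (a (p * x)) (b (p * x))) = s * D (min (a (p * x)) σ) (min (b (p * x)) σ) := by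
    rcases eq_or_ne (D (a (p * x)) (b (p * x))) 0 with h7 | h7
    · rw [h7] at h5 ⊢
      have : D (min (a (p * x)) σ) (min (b (p * x)) σ) = 0 := le_antisymm h5 h6
      rw [this]; simp
    · field_simp
  rw [e]
  linarith

/-- births -/
theorem ER.PB_sE (hp : 0 < p) (h : ER p a b B g) {σ : ℝ} (hσ : 0 ≤ σ) : PB (sE p σ a b B g) := by
  have h1 := h.short hp hσ
  have q1 : PB fun x => min (B (p * x) + g x) σ := PB_minc hσ ((h.pB.pull p).add h.pg)
  have q2 : PB fun x => sB p σ a b (p * x) + sg p σ a b g x := (h1.pB.pull p).add h1.pg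
  refine ⟨q1.meas.sub q2.meas, h.sE_nonneg hp hσ, ?_, fun x => ?_⟩
  · obtain ⟨A, hA⟩ := q1.bdd
    exact ⟨A, fun x => by
      have := hA x
      have := q2.nonneg x
      show min (B (p * x) + g x) σ - (sB p σ a b (p * x) + sg p σ a b g x) ≤ A
      linarith⟩
  · have e1 := q1.per x
    have e2 := q2.per x
    show min (B (p * (x + 1)) + g (x + 1)) σ -
      (sB p σ a b (p * (x + 1)) + sg p σ a b g (x + 1)) = _
    rw [e1, e2]
    rfl

/-- **short content of the row** -/
lemma min_row (σ x : ℝ) : min (B (p * x) + g x) σ =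
    sB p σ a b (p * x) + sg p σ a b g x + sE p σ a b B g x := by unfold sE; ring

/-- **tall content of the row** -/
lemma ER.xs_row (hp : 0 < p) (h : ER p a b B g) (σ x : ℝ) : xs σ (B (p * x) + g x) =
    tB p σ a b (p * x) + tg p σ a b g x - sE p σ a b B g x := by
  have h1 := min_add_xs σ (B (p * x) + g x)
  have h2 := h.lift_add hp σ x
  have h3 := h.const_add σ (p * x)
  have h4 := min_row (p := p) (a := a) (b := b) (B := B) (g := g) σ x
  linarith

end er

/-! ### bundles -/

section bun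
variable {Λ κ : Type} [Fintype Λ] [DecidableEq Λ] [Fintype κ] [DecidableEq κ]

/-- lift part of a bundle -/
noncomputable def gb (K : List (DT Λ κ)) (z : κ) (x : ℝ) : ℝ := (K.map fun t => Gm t z x).sum

/-- constant part of a bundle -/
noncomputable def bb (K : List (DT Λ κ)) (z : κ) (y : ℝ) : ℝ := (K.map fun t => Bm t z y).sum

lemma PB_lsum {f : DT Λ κ → ℝ → ℝ} (hf : ∀ t, PB (f t)) (K : List (DT Λ κ)) :
    PB fun x => (K.map fun t => f t x).sum := by
  induction K with
  | nil => exact PB.const le_rfl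
  | cons t K ih =>
    simp only [List.map_cons, List.sum_cons]
    exact (hf t).add ih

lemma PB_gb (K : List (DT Λ κ)) (z : κ) : PB (gb K z) := PB_lsum (fun t => PB_Gm' t z) K
lemma PB_bb (K : List (DT Λ κ)) (z : κ) : PB (bb K z) := PB_lsum (fun t => PB_Bm t z) K

variable {kd : Λ → κ} {p : ℕ} {K : List (DT Λ κ)}

/-- the content of a bundle of ties and pulls -/
lemma bc_dec (h : BOk kd p K) (z : κ) (x : ℝ) : bc kd K z x = bb K z (p * x) + gb K z x := by
  induction K with
  | nil => simp [bb, gb]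
  | cons t K ih =>
    have h1 : cf kd t z x = vT t z x := cf_v h (by simp) z x
    have h2 := tie_dec (h.ok t (by simp)).1 (h.ok t (by simp)).2 z x
    rw [bc_cons, ih h.tail, h1, h2]
    simp only [bb, gb, List.map_cons, List.sum_cons]
    ring

/-- **a bundle is an exact row** -/
theorem rowX (hp : 0 < p) (h : BOk kd p K) (z : κ) (y : ℝ) :
    ∃ s : Fin p → ℝ, (∀ i, 0 ≤ s i ∧ s i ≤ 1) ∧ ∑ i, 1 / (p : ℝ) * s i = 1 / (p : ℝ) ∧
      (∀ i : Fin p, gb K z ((y + (i : ℕ)) / p) =
        s i * D (bc kd (K.map chP) z y) (bc kd (K.map chN) z y)) ∧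
      bb K z y = Bs (1 / (p : ℝ)) (bc kd (K.map chP) z y) (bc kd (K.map chN) z y) ∧
      ((K.filter fun t => decide (wT t ≠ 0)).length = 0 →
        bc kd (K.map chN) z y = bc kd (K.map chP) z y ∧ ∀ x, gb K z x = 0) := by
  have hp' : (0 : ℝ) < p := by exact_mod_cast hp
  have hp1 : (1 : ℝ) ≤ p := by exact_mod_cast hp
  induction K with
  | nil =>
    refine ⟨fun _ => 1 / (p : ℝ), fun i => ⟨by positivity, ?_⟩, ?_, fun i => ?_, ?_,
      fun _ => ⟨rfl, fun x => rfl⟩⟩
    · rw [div_le_one hp']; exact hp1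
    · rw [Finset.sum_const, Finset.card_univ, Fintype.card_fin, nsmul_eq_mul]
      field_simp
    · simp [gb, D]
    · simp [bb, Bs, D]
  | cons t K ih =>
    obtain ⟨s, a1, a2, a3, a4, a5⟩ := ih h.tail
    obtain ⟨w, r, t₁, t₀, v, B, G, e⟩ := isB_eq (h.ok t (by simp)).2
    have hok := (h.ok t (by simp)).1
    have hb := (h.ok t (by simp)).2
    have ea : cf kd (chP t) z y = aT t z y := cf_a h (by simp) z y
    have en : cf kd (chN t) z y = nT t z y := cf_n h (by simp) z y
    have hlift := lift_Gm hok hb z y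
    have eg : gb (t :: K) z = fun x => Gm t z x + gb K z x := funext fun x => by simp [gb]
    have eb : bb (t :: K) z y = Bm t z y + bb K z y := by simp [bb]
    have hT : TieD p w r t₁.g.val t₀.g.val v B G := by
      have := hok.1
      rw [e] at this
      exact TieOk.br this
    have pB : ∀ c, PB (B c) := fun c => by
      have := hok.2
      rw [e] at this
      exact (this.2.2.col c).pB
    have eBm : Bm t z y = aT t z y - w * max (aT t z y - bT t z y) 0 := by
      rw [e]
      have e9 : Bm (DT.br p w r t₁ t₀ v B G) z y = B z y := by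
        unfold Bm
        simp only [if_pos pB]
      rw [e9]
      exact hT.eB z y
    have ewT : wT t = w := by rw [e]; rfl
    have pGm : PB (Gm t z) := PB_Gm' t z
    simp only [List.map_cons, bc_cons, ea, en]
    by_cases hw : w = 0
    · -- a pull
      have hn : nT t z y = aT t z y := by unfold nT; rw [ewT, if_pos hw]
      have hb0 : ∀ c y, bT t c y = 0 := by
        intro c y'
        rcases hT.hw with h1 | h1
        · exfalso
          rw [hw] at h1
          have : (0:ℝ) < 1 / p := by positivity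
          linarith
        · rw [e]
          exact h1.2 c y'
      have haN : ∀ y', 0 ≤ aT t z y' := fun y' => (aT_PB hok.2 hb z).nonneg y'
      have hG0 : ∀ x, Gm t z x = 0 := by
        intro x
        have hl := lift_Gm hok hb z (p * x)
        have e1 : dT t z (p * x) = 0 := by
          unfold dT
          rw [hb0]
          exact max_eq_right (by linarith [haN (p * x)])
        rw [e1] at hl
        have h2 := (Finset.sum_eq_zero_iff_of_nonneg fun i _ => pGm.nonneg _).1 hl 0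
          (Finset.mem_range.2 hp)
        have e2 : ((p : ℝ) * x + ((0 : ℕ) : ℝ)) / p = x := by field_simp; simp
        rw [e2] at h2
        exact h2
      have hBm : Bm t z y = aT t z y := by rw [eBm, hw]; ring
      refine ⟨s, a1, a2, fun i => ?_, ?_, fun hl => ?_⟩
      · rw [eg]
        show Gm t z _ + gb K z _ = _
        rw [hG0, a3 i, zero_add, hn]
        congr 1
        unfold D
        congr 1
        ring
      · rw [eb, hBm, a4, hn]
        unfold Bs D
        have e3 : aT t z y + bc kd (K.map chN) z y - (aT t z y + bc kd (K.map chP) z y) =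
          bc kd (K.map chN) z y - bc kd (K.map chP) z y := by ring
        rw [e3]
        ring
      · rw [List.filter_cons_of_neg (by simpa [ewT] using hw)] at hl
        obtain ⟨h1, h2⟩ := a5 hl
        refine ⟨by rw [hn, h1], fun x => ?_⟩
        rw [eg]
        show Gm t z x + gb K z x = 0
        rw [hG0, h2, add_zero]
    · -- a tie
      have hl : (K.filter fun t => decide (wT t ≠ 0)).length = 0 := by
        have := h.one
        rw [List.filter_cons_of_pos (by simpa [ewT] using hw), List.length_cons] at this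
        omega
      obtain ⟨h1, h2⟩ := a5 hl
      have hw' : w = 1 / (p : ℝ) := hT.hw.resolve_right fun h => hw h.1
      have hn : nT t z y = bT t z y := by unfold nT; rw [ewT, if_neg hw]
      obtain ⟨s', b1, b2, b3⟩ := shares hp (fun i : Fin p => Gm t z ((y + (i : ℕ)) / p))
        (fun i => pGm.nonneg _) (d := dT t z y) (by
          rw [← hlift, ← Fin.sum_univ_eq_sum_range (fun i => Gm t z ((y + i) / p)) p])
      have hD : D (aT t z y + bc kd (K.map chP) z y) (nT t z y + bc kd (K.map chN) z y) =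
          dT t z y := by
        unfold D dT
        rw [hn, h1]
        congr 1
        ring
      refine ⟨s', b1, b2, fun i => ?_, ?_, fun hl' => ?_⟩
      · rw [eg]
        show Gm t z _ + gb K z _ = _
        rw [h2, add_zero, hD]
        exact b3 i
      · rw [eb, eBm, a4]
        unfold Bs
        rw [hD, h1]
        have e5 : D (bc kd (K.map chP) z y) (bc kd (K.map chP) z y) = 0 := by simp [D]
        rw [e5, hn, hw']
        unfold dT
        rcases le_total (aT t z y) (bT t z y) with h | h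
        · rw [max_eq_right (show aT t z y - bT t z y ≤ 0 by linarith),
            max_eq_left (show 0 ≤ bT t z y - aT t z y by linarith)]
          ring
        · rw [max_eq_left (show 0 ≤ aT t z y - bT t z y by linarith),
            max_eq_right (show bT t z y - aT t z y ≤ 0 by linarith)]
          ring
      · rw [List.filter_cons_of_pos (by simpa [ewT] using hw), List.length_cons] at hl'
        omega

/-- **a bundle of ties and pulls is an exact row** -/
theorem ER_bundle (hp : 0 < p) (h : BOk kd p K) (hP : PBL (K.map chP)) (hN : PBL (K.map chN))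
    (z : κ) : ER p (bc kd (K.map chP) z) (bc kd (K.map chN) z) (bb K z) (gb K z) where
  pa := PB_bc hP z
  pb := PB_bc hN z
  pB := PB_bb K z
  pg := PB_gb K z
  row := fun y => by
    obtain ⟨s, h1, h2, h3, h4, -⟩ := rowX hp h z y
    exact ⟨⟨s, h1, h2, h3⟩, h4⟩

end bun

end Crest.Agent.R4P.TrR343
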