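import Crest.Agent.R4P.DataA758

/-!
R4 (S0004), POWERS, helper31: **the unlabelled classes are nested, labels are static** (the U row of
the class-change list of the columns).

* `ix_none_mono` : two unlabelled points in one cell of depth `dep p` are in one cell of every smaller
  depth (the offsets from the true centres do not depend on the level).
* `ix_some_const` : the index of a labelled point does not depend on the level.
* `rho_none_down`, `rho_some_iff` : the same for the classes `rho` of the concrete data.
-/

set_option autoImplicit false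

namespace Crest.Agent.R4P.UNest31

open Crest.Agent.R4P.W363 Crest.Agent.R4P.Data758

/-- unlabelled points: same cell at `p` implies same cell at `p'` if `dep p' ≤ dep p` -/
lemma ix_none_mono (P : WP) {γ : ℝ} {p p' q r : ℕ} {z z' : ℝ} (hd : P.dep p' ≤ P.dep p)
    (h : P.ix γ p q none z = P.ix γ p r none z') :
    P.ix γ p' q none z = P.ix γ p' r none z' := by
  unfold WP.ix at h ⊢
  refine Prod.ext rfl ?_
  have hc : cell (brk P.ρ₀ P.n₀ (P.dep p)) (off γ (ctr γ none) q z) =
      cell (brk P.ρ₀ P.n₀ (P.dep p)) (off γ (ctr γ none) r z') := congrArg Prod.snd h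
  show cell (brk P.ρ₀ P.n₀ (P.dep p')) _ = cell (brk P.ρ₀ P.n₀ (P.dep p')) _
  exact cell_mono_set (brk_mono _ _ hd) hc

/-- labelled points: the index does not depend on the level -/
lemma ix_some_const (P : WP) {γ : ℝ} (p p' : ℕ) {q : ℕ} {σ : ℚ} {z : ℝ} :
    P.ix γ p q (some σ) z = P.ix γ p' q (some σ) z := rfl

/-- same state at two levels, `dep` monotone: same index at the upper level implies same index at
the lower level -/
lemma ix_down (P : WP) {γ : ℝ} {p p' q r : ℕ} {s s' : Option ℚ} {z z' : ℝ}
    (hd : P.dep p' ≤ P.dep p) (h : P.ix γ p q s z = P.ix γ p r s' z') :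
    P.ix γ p' q s z = P.ix γ p' r s' z' := by
  have hs := WP.isSome_eq P h
  cases s with
  | none =>
    cases s' with
    | none => exact ix_none_mono P hd h
    | some τ => simp at hs
  | some σ =>
    cases s' with
    | none => simp at hs
    | some τ => exact h

/-- the class `rho` of the data: same index iff same `W*` index -/
lemma rho_ix_iff (c : Cf) (p : ℕ) (i j : c.Lam) :
    (c.D.rho p i).ix = (c.D.rho p j).ix ↔
      c.wp.ix c.γ p i.1.1 (c.st p i.1.1) (c.bp i.1.1 i.1.2) =
        c.wp.ix c.γ p j.1.1 (c.st p j.1.1) (c.bp j.1.1 j.1.2) := by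
  show rep (fun j : c.Lam => (c.world p j).1) i = rep (fun j : c.Lam => (c.world p j).1) j ↔ _
  rw [rep_eq_iff]
  rfl

/-- **nested classes**: if the states of `i` and `j` do not change between `p' ≤ p` (dep monotone),
then one class at `p` implies one class at `p'`: going up the classes only split -/
theorem rho_down (c : Cf) {p p' : ℕ} (hd : c.wp.dep p' ≤ c.wp.dep p) {i j : c.Lam}
    (hi : c.st p' i.1.1 = c.st p i.1.1) (hj : c.st p' j.1.1 = c.st p j.1.1)
    (h : (c.D.rho p i).ix = (c.D.rho p j).ix) : (c.D.rho p' i).ix = (c.D.rho p' j).ix := by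
  rw [rho_ix_iff] at h ⊢
  rw [hi, hj]
  exact ix_down c.wp hd h

/-- labelled pieces whose labels do not change: one class at `p` iff one class at `p'` -/
theorem rho_some_iff (c : Cf) {p p' : ℕ} {i j : c.Lam} {σ τ : ℚ}
    (hi : c.st p i.1.1 = some σ) (hi' : c.st p' i.1.1 = some σ)
    (hj : c.st p j.1.1 = some τ) (hj' : c.st p' j.1.1 = some τ) :
    (c.D.rho p i).ix = (c.D.rho p j).ix ↔ (c.D.rho p' i).ix = (c.D.rho p' j).ix := by
  rw [rho_ix_iff, rho_ix_iff, hi, hi', hj, hj']
  exact Iff.rfl

/-- labelled and unlabelled pieces are never in one class -/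
theorem rho_isSome (c : Cf) {p : ℕ} {i j : c.Lam} (h : (c.D.rho p i).ix = (c.D.rho p j).ix) :
    (c.st p i.1.1).isSome = (c.st p j.1.1).isSome := by
  rw [rho_ix_iff] at h
  exact WP.isSome_eq _ h

end Crest.Agent.R4P.UNest31
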