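import Crest.Agent.R4P.VLoss_4

/-!
R4 (S0004), [W-eSHR] [M3], helper4: **the in-class energy recursion with ALL the terms kept**
(V-loss of the incumbents, lifts, births).

* `sq_loss_eq` : the exact identity of the column of a top class:
  `Ep (F²) + w (1-w) ((f-G)⁺)² + (w ((G-f)⁺)² - Ep (D²)) = (1-w) f² + w G²`.
* `Ep_DW_sq_le` : `Ep (D²) ≤ w ((G-f)⁺)²`.
* `LqOk` : both at the `br` nodes of a closure tree; `toG_LqOk`.
* `lf`, `LF` : the lifts of a node / weighted sum over the nodes below;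
  `bt`, `BT` : the births (pairs in one class at the child, not at the node) / weighted sum.
* `din_all` : `Q (Dr) (rv A f) (rv A f) + VL A t + LF A t + BT A t ≤ C₀ μ t A + dseR A t`.
-/

set_option autoImplicit false
set_option linter.unusedSectionVars false
set_option linter.unusedVariables false
open MeasureTheory Filter Set

namespace Crest.Agent.R4P.VLoss4

open Crest.Agent.R4.Tour104 Crest.Agent.R4.Tour758 Crest.Agent.R4.Avg758 Crest.Agent.R4.Clos758
open Crest.Agent.R4.ClosL758 Crest.Agent.R4.ClosG758 Crest.Agent.R4.ClosR758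
open Crest.Agent.R4.Lam368 Crest.Agent.R4.Fam464

/-! ### the column -/

section col
variable {ι κ : Type*} [Fintype ι] [DecidableEq κ] {p n : ℕ} {f g G : ι → ℝ → ℝ} {c : ℕ → ι → κ}

/-- the mean of the unmatched challengers of a top class -/
theorem Ep_DW_eq (hd : Dat p f g G) (hN : Nested c) (w₀ : ι) (y : ℝ) :
    Ep p (DW p f g G c (n + 1) (cl' (c n) w₀)) y =
      1 / (p : ℝ) * max (fW G (cl' (c n) w₀) y - fW f (cl' (c n) w₀) y) 0 := by
  have hs := DW_sum (n := n) hd hN w₀ y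
  unfold Ep
  rw [hs]; ring

/-- the squares of the unmatched challengers of a top class -/
theorem Ep_DW_sq_le (hd : Dat p f g G) (hN : Nested c) (w₀ : ι) (y : ℝ) :
    Ep p (fun x => DW p f g G c (n + 1) (cl' (c n) w₀) x ^ 2) y ≤
      1 / (p : ℝ) * max (fW G (cl' (c n) w₀) y - fW f (cl' (c n) w₀) y) 0 ^ 2 := by
  have hp := hd.hp
  have hp' : (0 : ℝ) < p := by exact_mod_cast hp
  set W := cl' (c n) w₀ with hW
  have hD := PB_DW_top (n := n) hd hN w₀
  rw [← hW] at hD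
  set u := max (fW G W y - fW f W y) 0 with hu
  have hs := DW_sum (n := n) hd hN w₀ y
  rw [← hW, ← hu] at hs
  have e : 1 / (p : ℝ) * u ^ 2 = u ^ 2 / p := by ring
  rw [e]
  unfold Ep
  refine div_le_div_of_nonneg_right ?_ hp'.le
  have h1 : ∀ i ∈ Finset.range p, DW p f g G c (n + 1) W ((y + i) / p) ^ 2 ≤
      DW p f g G c (n + 1) W ((y + i) / p) * u := by
    intro i hi
    rw [sq]
    refine mul_le_mul_of_nonneg_left ?_ (hD.nonneg _)
    rw [← hs]
    exact Finset.single_le_sum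
      (f := fun i : ℕ => DW p f g G c (n + 1) W ((y + i) / p)) (fun i _ => hD.nonneg _) hi
  refine (Finset.sum_le_sum h1).trans (le_of_eq ?_)
  rw [← Finset.sum_mul, hs]; ring

/-- **the exact identity of the column** (`w = 1/p`), every top class -/
theorem sq_loss_eq (hd : Dat p f g G) (hN : Nested c) (w₀ : ι) (y : ℝ) :
    Ep p (fun x => FW p f g G c (n + 1) (cl' (c n) w₀) x ^ 2) y +
        1 / (p : ℝ) * (1 - 1 / (p : ℝ)) *
          max (fW f (cl' (c n) w₀) y - fW G (cl' (c n) w₀) y) 0 ^ 2 +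
        (1 / (p : ℝ) * max (fW G (cl' (c n) w₀) y - fW f (cl' (c n) w₀) y) 0 ^ 2 -
          Ep p (fun x => DW p f g G c (n + 1) (cl' (c n) w₀) x ^ 2) y) =
      (1 - 1 / (p : ℝ)) * fW f (cl' (c n) w₀) y ^ 2 +
        1 / (p : ℝ) * fW G (cl' (c n) w₀) y ^ 2 := by
  have hp := hd.hp
  have hp' : (0 : ℝ) < p := by exact_mod_cast hp
  have m1 := Ep_DW_eq (n := n) hd hN w₀ y
  set W := cl' (c n) w₀ with hW
  set a := fW f W y with ha
  set b := fW G W y with hb
  set u := max (b - a) 0 with hu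
  have key := Ep_FW_mul (c := c) (n := n + 1) hd W W y
  have e2 : (fun x => FW p f g G c (n + 1) W x ^ 2) =
      fun x => FW p f g G c (n + 1) W x * FW p f g G c (n + 1) W x := by
    funext x; ring
  have e3 : (fun x => DW p f g G c (n + 1) W x ^ 2) =
      fun x => DW p f g G c (n + 1) W x * DW p f g G c (n + 1) W x := by
    funext x; ring
  rw [e2, e3, key, m1]
  have h3 : (max (a - b) 0) ^ 2 + u ^ 2 = (a - b) ^ 2 := by
    rw [hu]
    rcases le_total a b with h | h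
    · rw [max_eq_right (by linarith : a - b ≤ 0), max_eq_left (by linarith : 0 ≤ b - a)]; ring
    · rw [max_eq_left (by linarith : 0 ≤ a - b), max_eq_right (by linarith : b - a ≤ 0)]; ring
  have e4 : (max (a - b) 0) ^ 2 = (a - b) ^ 2 - u ^ 2 := by linarith
  rw [e4]
  have e5 : b / (p : ℝ) = 1 / (p : ℝ) * b := by ring
  rw [e5]
  ring

end col

/-! ### closure trees -/

section tree
variable {Λ κ : Type*} [Fintype Λ] [DecidableEq Λ] [Fintype κ] [DecidableEq κ]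

/-- the column of a `br` node: exact identity -/
def LqOk : TrG Λ κ → Prop
  | .leaf _ _ => True
  | .br P w r t₁ t₀ v B G => (∀ c, PB (G c)) ∧
      (∀ c y, Ep P (fun x => sm r v c x ^ 2) y +
        w * (1 - w) * max (sm r t₁.val c y - sm r t₀.val c y) 0 ^ 2 +
        (w * max (sm r t₀.val c y - sm r t₁.val c y) 0 ^ 2 - Ep P (fun x => G c x ^ 2) y) =
          (1 - w) * sm r t₁.val c y ^ 2 + w * sm r t₀.val c y ^ 2) ∧
      ∀ c y, Ep P (fun x => G c x ^ 2) y ≤ w * max (sm r t₀.val c y - sm r t₁.val c y) 0 ^ 2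
  | .add _ _ _ => True

lemma LqOk.ls {t : TrG Λ κ} (h : LqOk t) : LsOk t := by
  cases t with
  | leaf r f => trivial
  | add r t₁ t₀ => trivial
  | br P w r t₁ t₀ v B G =>
    intro c y
    have h1 := h.2.1 c y
    have h2 := h.2.2 c y
    linarith

theorem toG_LqOk (t : FT Λ κ) : ∀ b : ℕ, 0 < b → t.Adm b → t.toG.All LqOk := by
  induction t with
  | leaf r L => exact fun b _ h => trivial
  | push n r t ih =>
    intro b hb h
    obtain ⟨hn, hnb, ht⟩ := h
    have pb : ∀ j, PB (t.U 1 j) := fun j => FT.pb hb ht (one_dvd _) j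
    have hv := FT.toG_val t b hb ht
    refine ⟨⟨fun c => PB.const le_rfl, fun a y => ?_, fun a y => ?_⟩, ih b hb ht, trivial⟩
    · have hp2 : ∀ x, sm r (t.U 1) a (x + 1) ^ 2 = sm r (t.U 1) a x ^ 2 := fun x => by
        rw [(PB_sm pb r a).per]
      have e : (fun x => sm r (fun j x => t.U 1 j (n * x)) a x ^ 2) =
          fun x => sm r (t.U 1) a (n * x) ^ 2 * 1 := by
        funext x; exact (mul_one _).symm
      rw [e, Ep_pull_mul (a := fun x => sm r (t.U 1) a x ^ 2) hn hp2, Ep_const hn, hv]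
      show _ + 0 * (1 - 0) * _ + (0 * _ - Ep n (fun x => (0 : ℝ) ^ 2) y) =
        (1 - 0) * sm r (fun j => t.U 1 j) a y ^ 2 + 0 * _
      have e0 : Ep n (fun x => (0 : ℝ) ^ 2) y = 0 := by simp [Ep]
      rw [e0]
      ring
    · have e0 : Ep n (fun x => (0 : ℝ) ^ 2) y = 0 := by simp [Ep]
      show Ep n (fun x => (0 : ℝ) ^ 2) y ≤ 0 * _
      rw [e0, zero_mul]
  | br p n ch t₁ t₀ ih₁ ih₀ =>
    intro b hb h
    have hd := FT.dat hb h
    obtain ⟨hp, hpb, hN, a1, a0⟩ := h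
    have hbp : 0 < b * p := Nat.mul_pos hb hp
    have hemp : ∀ a, clz (ch n) a = ∅ ∨ ∃ w₀, clz (ch n) a = cl' (ch n) w₀ := by
      intro a
      rcases (clz (ch n) a).eq_empty_or_nonempty with h2 | ⟨w₀, hw⟩
      · exact Or.inl h2
      · refine Or.inr ⟨w₀, ?_⟩
        have hw' : ch n w₀ = a := (Finset.mem_filter.1 hw).2
        ext w
        rw [mem_cl', hw']
        simp [clz]
    have hD0 : ∀ x, DW p (fun j => t₁.U 1 j) (fun j => t₀.U p j) (fun j => t₀.U 1 j) ch (n + 1)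
        (∅ : Finset Λ) x = 0 := by
      intro x
      simp [DW, fW, RW]
    refine ⟨⟨fun a => ?_, fun a y => ?_, fun a y => ?_⟩, ih₁ b hb a1, ih₀ _ hbp a0⟩
    · show PB (DW p (fun j => t₁.U 1 j) (fun j => t₀.U p j) (fun j => t₀.U 1 j) ch (n + 1)
        (clz (ch n) a))
      rcases hemp a with h2 | ⟨w₀, h2⟩
      · rw [h2]
        have e : DW p (fun j => t₁.U 1 j) (fun j => t₀.U p j) (fun j => t₀.U 1 j) ch (n + 1)
          (∅ : Finset Λ) = fun _ => 0 := funext hD0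
        rw [e]; exact PB.const le_rfl
      · rw [h2]; exact PB_DW_top hd hN w₀
    · rw [FT.toG_val t₁ b hb a1, FT.toG_val t₀ _ hbp a0]
      show Ep p (fun x => FW p (fun j => t₁.U 1 j) (fun j => t₀.U p j) (fun j => t₀.U 1 j) ch
          (n + 1) (clz (ch n) a) x ^ 2) y + 1 / (p : ℝ) * (1 - 1 / (p : ℝ)) *
          max (fW (fun j => t₁.U 1 j) (clz (ch n) a) y -
            fW (fun j => t₀.U 1 j) (clz (ch n) a) y) 0 ^ 2 +
          (1 / (p : ℝ) * max (fW (fun j => t₀.U 1 j) (clz (ch n) a) y -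
            fW (fun j => t₁.U 1 j) (clz (ch n) a) y) 0 ^ 2 -
            Ep p (fun x => DW p (fun j => t₁.U 1 j) (fun j => t₀.U p j) (fun j => t₀.U 1 j) ch
              (n + 1) (clz (ch n) a) x ^ 2) y) =
        (1 - 1 / (p : ℝ)) * fW (fun j => t₁.U 1 j) (clz (ch n) a) y ^ 2 +
          1 / (p : ℝ) * fW (fun j => t₀.U 1 j) (clz (ch n) a) y ^ 2
      rcases hemp a with h2 | ⟨w₀, h2⟩
      · rw [h2]
        simp [FW, fW, Ep, hD0]
      · rw [h2]
        exact sq_loss_eq hd hN w₀ y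
    · rw [FT.toG_val t₁ b hb a1, FT.toG_val t₀ _ hbp a0]
      show Ep p (fun x => DW p (fun j => t₁.U 1 j) (fun j => t₀.U p j) (fun j => t₀.U 1 j) ch
              (n + 1) (clz (ch n) a) x ^ 2) y ≤
        1 / (p : ℝ) * max (fW (fun j => t₀.U 1 j) (clz (ch n) a) y -
            fW (fun j => t₁.U 1 j) (clz (ch n) a) y) 0 ^ 2
      rcases hemp a with h2 | ⟨w₀, h2⟩
      · rw [h2]
        simp [fW, Ep, hD0]
      · rw [h2]
        exact Ep_DW_sq_le hd hN w₀ y
  | add r t₁ t₀ ih₁ ih₀ => exact fun b hb h => ⟨trivial, ih₁ b hb h.1, ih₀ b hb h.2⟩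

/-- the exact identity for a saturated population -/
lemma LqOk.res {P : ℕ} {w : ℝ} {r : Λ → κ} {t₁ t₀ : TrG Λ κ} {v : Λ → ℝ → ℝ} {B G : κ → ℝ → ℝ}
    (h : LqOk (TrG.br P w r t₁ t₀ v B G)) {A : Finset Λ} (hA : Sat A r) :
    (∀ c, PB (rk A r G c)) ∧
    (∀ c y, Ep P (fun x => sm r (rv A v) c x ^ 2) y +
      w * (1 - w) * max (sm r (rv A t₁.val) c y - sm r (rv A t₀.val) c y) 0 ^ 2 +
      (w * max (sm r (rv A t₀.val) c y - sm r (rv A t₁.val) c y) 0 ^ 2 -
        Ep P (fun x => rk A r G c x ^ 2) y) =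
        (1 - w) * sm r (rv A t₁.val) c y ^ 2 + w * sm r (rv A t₀.val) c y ^ 2) ∧
    ∀ c y, Ep P (fun x => rk A r G c x ^ 2) y ≤
      w * max (sm r (rv A t₀.val) c y - sm r (rv A t₁.val) c y) 0 ^ 2 := by
  classical
  refine ⟨fun c => ?_, fun c y => ?_, fun c y => ?_⟩
  · unfold rk
    split_ifs with hc
    · exact h.1 c
    · exact PB.const le_rfl
  · rw [sm_rv hA, sm_rv hA, sm_rv hA]
    unfold rk
    split_ifs with hc
    · exact h.2.1 c y
    · simp [Ep]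
  · rw [sm_rv hA, sm_rv hA]
    unfold rk
    split_ifs with hc
    · exact h.2.2 c y
    · simp [Ep]

/-- lifts of a node, population `A`: `w ∑_z ∫ ((b_z - a_z)⁺)² - ∑_z ∫ D_z²` -/
noncomputable def lf (A : Finset Λ) : TrG Λ κ → ℝ
  | .leaf _ _ => 0
  | .br _ w r t₁ t₀ _ _ G =>
      ∑ c, (w * I (fun y => max (sm r (rv A t₀.val) c y - sm r (rv A t₁.val) c y) 0 ^ 2) -
        I (fun x => rk A r G c x ^ 2))
  | .add _ _ _ => 0

/-- weighted sum of the lifts of all nodes below `t` (`t` included) -/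
noncomputable def LF (A : Finset Λ) : TrG Λ κ → ℝ
  | .leaf _ _ => 0
  | .br P w r t₁ t₀ v B G => lf A (.br P w r t₁ t₀ v B G) + ((1 - w) * LF A t₁ + w * LF A t₀)
  | .add _ t₁ t₀ => LF A t₁ + LF A t₀

/-- births of a node: pairs of one class at the child which are not in one class at the node -/
noncomputable def bt (A : Finset Λ) : TrG Λ κ → ℝ
  | .leaf _ _ => 0
  | .br _ w r t₁ t₀ _ _ _ => (1 - w) * ic t₁.part r (rv A t₁.val) + w * ic t₀.part r (rv A t₀.val)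
  | .add r t₁ t₀ => ic t₁.part r (rv A t₁.val) + ic t₀.part r (rv A t₀.val)

/-- weighted sum of the births of all nodes below `t` (`t` included) -/
noncomputable def BT (A : Finset Λ) : TrG Λ κ → ℝ
  | .leaf _ _ => 0
  | .br P w r t₁ t₀ v B G => bt A (.br P w r t₁ t₀ v B G) + ((1 - w) * BT A t₁ + w * BT A t₀)
  | .add r t₁ t₀ => bt A (.add r t₁ t₀) + (BT A t₁ + BT A t₀)

lemma I_le_of_Ep_le {P : ℕ} (hP : 0 < P) {f h : ℝ → ℝ} (hf : PB f) (hh : PB h)
    (H : ∀ y, Ep P f y ≤ h y) : I f ≤ I h := by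
  rw [← I_Ep hP hf.integrableOn]
  exact I_mono (hf.Ep hP).integrableOn hh.integrableOn H

lemma lf_nonneg {t : TrG Λ κ} (h : t.Ok) (hq : LqOk t) {A : Finset Λ} (hA : Sat A t.part) :
    0 ≤ lf A t := by
  cases t with
  | leaf r f => exact le_rfl
  | add r t₁ t₀ => exact le_rfl
  | br P w r t₁ t₀ v B G =>
    obtain ⟨hG, _, hle⟩ := hq.res hA
    obtain ⟨h1, h0, hb⟩ := h
    refine Finset.sum_nonneg fun c _ => ?_
    have hL : PB fun y => max (sm r (rv A t₀.val) c y - sm r (rv A t₁.val) c y) 0 ^ 2 :=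
      PB_loss (r := r) h0 h1 A c
    have hL2 := hL.smul hb.w0
    have hG2 : PB fun x => rk A r G c x ^ 2 := by simpa [sq] using PBsq (hG c)
    rw [← I_smul]
    exact sub_nonneg.2 (I_le_of_Ep_le hb.hP hG2 hL2 fun y => hle c y)

lemma ic_nonneg (r r' : Λ → κ) {f : Λ → ℝ → ℝ} (hf : ∀ j, PB (f j)) : 0 ≤ ic r r' f := by
  unfold ic Q
  exact Finset.sum_nonneg fun d _ => I_nonneg ((hf d.1).mul (hf d.2)).nonneg

lemma bt_nonneg {t : TrG Λ κ} (h : t.Ok) (A : Finset Λ) : 0 ≤ bt A t := by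
  cases t with
  | leaf r f => exact le_rfl
  | add r t₁ t₀ =>
    exact add_nonneg (ic_nonneg _ _ (PB_rv (fun j => h.1.pb j) A))
      (ic_nonneg _ _ (PB_rv (fun j => h.2.pb j) A))
  | br P w r t₁ t₀ v B G =>
    obtain ⟨h1, h0, hb⟩ := h
    have hw : 0 ≤ 1 - w := by linarith [hb.w1]
    exact add_nonneg (mul_nonneg hw (ic_nonneg _ _ (PB_rv (fun j => h1.pb j) A)))
      (mul_nonneg hb.w0 (ic_nonneg _ _ (PB_rv (fun j => h0.pb j) A)))

lemma LF_nonneg {Ad : TrG Λ κ → Finset Λ → Prop} {t : TrG Λ κ} (h : t.Ok) (hq : t.All LqOk)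
    {A : Finset Λ} (hN : t.All (AdN Ad)) (hA : Ad t A) : 0 ≤ LF A t := by
  induction t with
  | leaf r f => exact le_rfl
  | add r t₁ t₀ ih₁ ih₀ =>
    obtain ⟨sA, A1, A0⟩ := hN.1 A hA
    exact add_nonneg (ih₁ h.1 hq.2.1 hN.2.1 A1) (ih₀ h.2 hq.2.2 hN.2.2 A0)
  | br P w r t₁ t₀ v B G ih₁ ih₀ =>
    obtain ⟨sA, A1, A0⟩ := hN.1 A hA
    have hw0 := h.2.2.w0
    have hw : 0 ≤ 1 - w := by linarith [h.2.2.w1]
    exact add_nonneg (lf_nonneg h hq.1 sA) (add_nonneg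
      (mul_nonneg hw (ih₁ h.1 hq.2.1 hN.2.1 A1)) (mul_nonneg hw0 (ih₀ h.2.1 hq.2.2 hN.2.2 A0)))

lemma BT_nonneg {t : TrG Λ κ} (h : t.Ok) (A : Finset Λ) : 0 ≤ BT A t := by
  induction t with
  | leaf r f => exact le_rfl
  | add r t₁ t₀ ih₁ ih₀ => exact add_nonneg (bt_nonneg h A) (add_nonneg (ih₁ h.1) (ih₀ h.2))
  | br P w r t₁ t₀ v B G ih₁ ih₀ =>
    have hw0 := h.2.2.w0
    have hw : 0 ≤ 1 - w := by linarith [h.2.2.w1]
    exact add_nonneg (bt_nonneg h A) (add_nonneg (mul_nonneg hw (ih₁ h.1))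
      (mul_nonneg hw0 (ih₀ h.2.1)))

/-- `Q (Dr r) + Q (Dr r' \ Dr r) = Q (Dr r') + Q (Dr r \ Dr r')` -/
lemma Q_ic_eq (r r' : Λ → κ) {f : Λ → ℝ → ℝ} :
    Q (Dr r) f f + ic r' r f = Q (Dr r') f f + ic r r' f := by
  classical
  have h1 : Q (Dr r) f f = Q (Dr r ∩ Dr r') f f + ic r r' f := by
    unfold ic Q
    rw [← Finset.sum_union (Finset.disjoint_left.2 fun x hx hx' =>
      (Finset.mem_sdiff.1 hx').2 (Finset.mem_inter.1 hx).2)]
    refine Finset.sum_congr ?_ fun _ _ => rfl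
    ext x; simp only [Finset.mem_union, Finset.mem_inter, Finset.mem_sdiff]; tauto
  have h2 : Q (Dr r') f f = Q (Dr r ∩ Dr r') f f + ic r' r f := by
    unfold ic Q
    rw [← Finset.sum_union (Finset.disjoint_left.2 fun x hx hx' =>
      (Finset.mem_sdiff.1 hx').2 (Finset.mem_inter.1 hx).1)]
    refine Finset.sum_congr ?_ fun _ _ => rfl
    ext x; simp only [Finset.mem_union, Finset.mem_inter, Finset.mem_sdiff]; tauto
  rw [h1, h2]; ring

/-- **local identity at a column** -/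
theorem din_step_eq {P : ℕ} {w : ℝ} {r : Λ → κ} {t₁ t₀ : TrG Λ κ} {v : Λ → ℝ → ℝ}
    {B G : κ → ℝ → ℝ} (h : (TrG.br P w r t₁ t₀ v B G).Ok) (hl : LqOk (TrG.br P w r t₁ t₀ v B G))
    {A : Finset Λ} (hA : Sat A r) :
    Q (Dr r) (rv A v) (rv A v) + vl A (.br P w r t₁ t₀ v B G) + lf A (.br P w r t₁ t₀ v B G) =
      (1 - w) * Q (Dr r) (rv A t₁.val) (rv A t₁.val) +
        w * Q (Dr r) (rv A t₀.val) (rv A t₀.val) := by
  obtain ⟨h1, h0, hb⟩ := h
  obtain ⟨hG, heq, _⟩ := hl.res hA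
  have hb' := BrOk.res hb hA
  have hw : 0 ≤ 1 - w := by linarith [hb.w1]
  have q1 := PB_rv (fun j => h1.pb j) A
  have q0 := PB_rv (fun j => h0.pb j) A
  show _ + w * (1 - w) * ∑ c, _ + ∑ c, _ = _
  rw [Q_Dr_sm _ hb'.pv hb'.pv, Q_Dr_sm _ q1 q1, Q_Dr_sm _ q0 q0,
    Finset.mul_sum, Finset.mul_sum, Finset.mul_sum, ← Finset.sum_add_distrib,
    ← Finset.sum_add_distrib, ← Finset.sum_add_distrib]
  refine Finset.sum_congr rfl fun a _ => ?_
  have hv2 := PBsq (PB_sm hb'.pv r a)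
  have ha2 := PBsq (PB_sm q1 r a)
  have hb2 := PBsq (PB_sm q0 r a)
  have hL := PB_loss (r := r) h1 h0 A a
  have hL' : PB fun y => max (sm r (rv A t₀.val) a y - sm r (rv A t₁.val) a y) 0 ^ 2 :=
    PB_loss (r := r) h0 h1 A a
  have hG2 : PB fun x => rk A r G a x ^ 2 := by simpa [sq] using PBsq (hG a)
  simp only [← sq]
  have hv2' : PB fun x => sm r (rv A v) a x ^ 2 := by simpa [sq] using hv2
  have ha2' : PB fun x => sm r (rv A t₁.val) a x ^ 2 := by simpa [sq] using ha2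
  have hb2' : PB fun x => sm r (rv A t₀.val) a x ^ 2 := by simpa [sq] using hb2
  have k1 := hL.smul (mul_nonneg hb.w0 hw)
  have k2 := hL'.smul hb.w0
  have e1 : I (fun x => sm r (rv A v) a x ^ 2) +
      w * (1 - w) * I (fun y => max (sm r (rv A t₁.val) a y - sm r (rv A t₀.val) a y) 0 ^ 2) +
      w * I (fun y => max (sm r (rv A t₀.val) a y - sm r (rv A t₁.val) a y) 0 ^ 2) =
      (1 - w) * I (fun x => sm r (rv A t₁.val) a x ^ 2) +
        w * I (fun x => sm r (rv A t₀.val) a x ^ 2) + I (fun x => rk A r G a x ^ 2) := by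
    rw [← I_Ep hb.hP hv2'.integrableOn, ← I_Ep hb.hP hG2.integrableOn, ← I_smul, ← I_smul,
      ← I_smul, ← I_smul,
      ← I_add (hv2'.Ep hb.hP).integrableOn k1.integrableOn,
      ← I_add ((hv2'.Ep hb.hP).add k1).integrableOn k2.integrableOn,
      ← I_add (ha2'.smul hw).integrableOn (hb2'.smul hb.w0).integrableOn,
      ← I_add ((ha2'.smul hw).add (hb2'.smul hb.w0)).integrableOn (hG2.Ep hb.hP).integrableOn]
    congr 1
    funext y
    have := heq a y
    show _ + w * (1 - w) * _ + w * _ = _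
    linarith
  linarith

/-- **the in-class energy recursion with all the terms kept** -/
theorem din_all {Ad : TrG Λ κ → Finset Λ → Prop} {μ : TrG Λ κ → Finset Λ → ℝ} {ν : TrG Λ κ → ℝ}
    {A : Finset Λ} {C₀ : ℝ} (hC₀ : 0 ≤ C₀) (t : TrG Λ κ) (h : t.Ok) (hs : t.All LqOk)
    (hN : t.All (AdN Ad)) (hA : Ad t A) (hM : t.All (MassOk Ad μ ν))
    (hl : t.All (LeafInR μ A C₀)) :
    Q (Dr t.part) (rv A t.val) (rv A t.val) + VL A t + LF A t + BT A t ≤
      C₀ * μ t A + dseR A t := by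
  induction t with
  | leaf r f =>
    have h2 : Q (Dr r) (rv A f) (rv A f) ≤ C₀ * μ (TrG.leaf r f) A := hl
    have h3 : dseR A (TrG.leaf r f : TrG Λ κ) = 0 := rfl
    have h4 : VL A (TrG.leaf r f : TrG Λ κ) = 0 := rfl
    have h5 : LF A (TrG.leaf r f : TrG Λ κ) = 0 := rfl
    have h6 : BT A (TrG.leaf r f : TrG Λ κ) = 0 := rfl
    rw [h3, h4, h5, h6, add_zero, add_zero, add_zero, add_zero]; exact h2
  | br P w r t₁ t₀ v B G ih₁ ih₀ =>
    obtain ⟨sA, A1, A0⟩ := hN.1 A hA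
    have hm := mul_le_mul_of_nonneg_left (hM.1.2.1 A hA) hC₀
    have key := din_step_eq h hs.1 sA
    obtain ⟨h1, h0, hb⟩ := h
    have i1 := ih₁ h1 hs.2.1 hN.2.1 A1 hM.2.1 hl.2.1
    have i0 := ih₀ h0 hs.2.2 hN.2.2 A0 hM.2.2 hl.2.2
    have hw : 0 ≤ 1 - w := by linarith [hb.w1]
    have j1 := Q_ic_eq r t₁.part (f := rv A t₁.val)
    have j0 := Q_ic_eq r t₀.part (f := rv A t₀.val)
    have f1 := mul_le_mul_of_nonneg_left i1 hw
    have f0 := mul_le_mul_of_nonneg_left i0 hb.w0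
    have e1 : (1 - w) * Q (Dr r) (rv A t₁.val) (rv A t₁.val) +
        (1 - w) * ic t₁.part r (rv A t₁.val) =
        (1 - w) * Q (Dr t₁.part) (rv A t₁.val) (rv A t₁.val) +
        (1 - w) * ic r t₁.part (rv A t₁.val) := by
      rw [← mul_add, ← mul_add, j1]
    have e0 : w * Q (Dr r) (rv A t₀.val) (rv A t₀.val) + w * ic t₀.part r (rv A t₀.val) =
        w * Q (Dr t₀.part) (rv A t₀.val) (rv A t₀.val) + w * ic r t₀.part (rv A t₀.val) := by
      rw [← mul_add, ← mul_add, j0]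
    show Q (Dr r) (rv A v) (rv A v) +
        (vl A (.br P w r t₁ t₀ v B G) + ((1 - w) * VL A t₁ + w * VL A t₀)) +
        (lf A (.br P w r t₁ t₀ v B G) + ((1 - w) * LF A t₁ + w * LF A t₀)) +
        (((1 - w) * ic t₁.part r (rv A t₁.val) + w * ic t₀.part r (rv A t₀.val)) +
          ((1 - w) * BT A t₁ + w * BT A t₀)) ≤
      C₀ * μ (.br P w r t₁ t₀ v B G) A +
      ((1 - w) * (dseR A t₁ + ic r t₁.part (rv A t₁.val)) +
        w * (dseR A t₀ + ic r t₀.part (rv A t₀.val)))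
    linarith
  | add r t₁ t₀ ih₁ ih₀ =>
    obtain ⟨sA, A1, A0⟩ := hN.1 A hA
    have hm := mul_le_mul_of_nonneg_left (hM.1.2.1 A hA) hC₀
    have i1 := ih₁ h.1 hs.2.1 hN.2.1 A1 hM.2.1 hl.2.1
    have i0 := ih₀ h.2 hs.2.2 hN.2.2 A0 hM.2.2 hl.2.2
    have q1 := PB_rv (fun j => h.1.pb j) A
    have q0 := PB_rv (fun j => h.2.pb j) A
    have j1 := Q_ic_eq r t₁.part (f := rv A t₁.val)
    have j0 := Q_ic_eq r t₀.part (f := rv A t₀.val)
    have key : Q (Dr r) (rv A (TrG.add r t₁ t₀).val) (rv A (TrG.add r t₁ t₀).val) =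
        Q (Dr r) (rv A t₁.val) (rv A t₁.val) + Q (Dr r) (rv A t₀.val) (rv A t₀.val) +
          2 * Q (Dr r) (rv A t₁.val) (rv A t₀.val) := by
      have e : rv A (TrG.add r t₁ t₀).val = fun j x => rv A t₁.val j x + rv A t₀.val j x :=
        rv_add A t₁.val t₀.val
      rw [e, Q_add_left q1 q0 (fun j => (q1 j).add (q0 j)), Q_add_right q1 q1 q0,
        Q_add_right q0 q1 q0, Dr_symm _ (rv A t₀.val) (rv A t₁.val)]
      ring
    show Q (Dr r) (rv A (TrG.add r t₁ t₀).val) (rv A (TrG.add r t₁ t₀).val) +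
      (VL A t₁ + VL A t₀) + (LF A t₁ + LF A t₀) +
      ((ic t₁.part r (rv A t₁.val) + ic t₀.part r (rv A t₀.val)) + (BT A t₁ + BT A t₀)) ≤ _
    rw [key]
    show _ ≤ C₀ * μ (.add r t₁ t₀) A + ((dseR A t₁ + ic r t₁.part (rv A t₁.val)) +
      (dseR A t₀ + ic r t₀.part (rv A t₀.val)) + 2 * Q (Dr r) (rv A t₁.val) (rv A t₀.val))
    linarith

end tree

end Crest.Agent.R4P.VLoss4
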