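import Crest.Agent.R4P.WalkS560
import Crest.Agent.R4.WalkX560

/-!
R4 (S0004) with powers, module D, helper36 (after helper812): the **unsplit walk** `V` of the crossing
costs on the trees with powers.

Shapes `ZS = (M, M', t, t')`; the moduli are needed for the pending pulls of a chain (`p ∣ M`: the
next tie or pull of the left side at `p` is free).  The populations `A`, `A'` are never split.
Rules at the column `p = z.p`: left add, right add (both children, weight one); free steps; joint step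
of two `br` nodes (four children); `br` against `up` / absent: the partner modulus is multiplied.

`stp M M' p` : stop rule.  `SI stp` : it does not change inside a chain.

* `V_nonneg`, `V_addL`, `V_addR`, `V_splitL`, `V_splitR`, `V_monoL`, `V_monoR` (Z0)
* commutations: `V_aL`, `V_aR`, `V_fL`, `V_fR`, `V_pL`, `V_pR`, `V_uL`, `V_uR`.
-/

set_option autoImplicit false
set_option linter.unusedSectionVars false
set_option linter.unusedVariables false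
open MeasureTheory Filter Set

namespace Crest.Agent.R4P.VWalk36

open Crest.Agent.R4.Tour104 Crest.Agent.R4.Tour758 Crest.Agent.R4.Avg758 Crest.Agent.R4.Clos758
open Crest.Agent.R4.ClosL758 Crest.Agent.R4.ClosG758 Crest.Agent.R4.ClosR758
open Crest.Agent.R4P.ClosR442 Crest.Agent.R4P.Walk560
open Crest.Agent.R4.WalkX560 (MX)

/-- shapes -/
structure ZS (Λ κ : Type*) where
  M : ℕ
  M' : ℕ
  t : DT Λ κ
  t' : DT Λ κ

variable {Λ κ : Type*}

/-- the column of a shape -/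
def ZS.p (z : ZS Λ κ) : ℕ := max z.t.top z.t'.top

def ZS.rank (z : ZS Λ κ) : ℕ := z.t.size + z.t'.size

variable [Fintype Λ] [DecidableEq Λ]

open Classical in
/-- the continuing shapes -/
noncomputable def zn (stp : ℕ → ℕ → ℕ → Prop) (z : ZS Λ κ) : List (ℝ × ZS Λ κ) :=
  if z.t.isLeaf ∧ z.t'.isLeaf then [] else if stp z.M z.M' z.p then [] else
  match vw z.p z.t, vw z.p z.t' with
  | .add _ t₁ t₀, _ => [(1, { z with t := t₁ }), (1, { z with t := t₀ })]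
  | .br _ _ _ _ _ _ _, .add _ t₁' t₀' => [(1, { z with t' := t₁' }), (1, { z with t' := t₀' })]
  | .up _ _, .add _ t₁' t₀' => [(1, { z with t' := t₁' }), (1, { z with t' := t₀' })]
  | .br w _ t₁ t₀ _ _ _, .br w' _ t₁' t₀' _ _ _ =>
      if z.p ∣ z.M then
        [(1 - w, { z with M := z.M / z.p, t := t₁ }), (w, { z with M := z.M / z.p, t := t₀ })]
      else if z.p ∣ z.M' then
        [(1 - w', { z with M' := z.M' / z.p, t' := t₁' }),
         (w', { z with M' := z.M' / z.p, t' := t₀' })]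
      else
        [((1 - w) * (1 - w'), { z with t := t₁, t' := t₁' }),
         ((1 - w) * w', { z with t := t₁, t' := t₀' }),
         (w * (1 - w'), { z with t := t₀, t' := t₁' }),
         (w * w', { z with t := t₀, t' := t₀' })]
  | .br w _ t₁ t₀ _ _ _, .up _ _ =>
      if z.p ∣ z.M then
        [(1 - w, { z with M := z.M / z.p, t := t₁ }), (w, { z with M := z.M / z.p, t := t₀ })]
      else
        [(1 - w, { z with M' := z.p * z.M', t := t₁ }), (w, { z with M' := z.p * z.M', t := t₀ })]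
  | .up _ _, .br w' _ t₁' t₀' _ _ _ =>
      if z.p ∣ z.M' then
        [(1 - w', { z with M' := z.M' / z.p, t' := t₁' }),
         (w', { z with M' := z.M' / z.p, t' := t₀' })]
      else
        [(1 - w', { z with M := z.p * z.M, t' := t₁' }), (w', { z with M := z.p * z.M, t' := t₀' })]
  | .up _ u, .up _ u' => [(1, { z with t := u, t' := u' })]

lemma leaf_top {t : DT Λ κ} (h : t.isLeaf) : t.top = 0 := by
  cases t with
  | leaf r f => rfl
  | br _ _ _ _ _ _ _ _ => exact absurd h id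
  | add _ _ _ _ => exact absurd h id
  | up _ _ _ => exact absurd h id

lemma vw_leaf {p : ℕ} {t : DT Λ κ} (h : t.isLeaf) : vw p t = .up ∅ t := by
  cases t with
  | leaf r f => rfl
  | br _ _ _ _ _ _ _ _ => exact absurd h id
  | add _ _ _ _ => exact absurd h id
  | up _ _ _ => exact absurd h id

/-- a non-leaf side has the column of the shape, or the other one has -/
lemma live {z : ZS Λ κ} (h : ¬ (z.t.isLeaf ∧ z.t'.isLeaf)) :
    (¬ z.t.isLeaf ∧ z.t.top = z.p) ∨ (¬ z.t'.isLeaf ∧ z.t'.top = z.p) ∨ z.p = 0 := by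
  unfold ZS.p
  by_cases h1 : z.t.isLeaf
  · have h2 : ¬ z.t'.isLeaf := fun h2 => h ⟨h1, h2⟩
    rw [leaf_top h1]
    exact Or.inr (Or.inl ⟨h2, by simp⟩)
  · by_cases h2 : z.t'.isLeaf
    · rw [leaf_top h2]
      exact Or.inl ⟨h1, by simp⟩
    · rcases le_total z.t.top z.t'.top with h | h
      · exact Or.inr (Or.inl ⟨h2, (max_eq_right h).symm⟩)
      · exact Or.inl ⟨h1, (max_eq_left h).symm⟩

lemma zn_rank (stp : ℕ → ℕ → ℕ → Prop) (z : ZS Λ κ) : ∀ q ∈ zn stp z, q.2.rank < z.rank := by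
  intro q hq
  by_cases h1 : z.t.isLeaf ∧ z.t'.isLeaf
  · simp [zn, h1] at hq
  by_cases h2 : stp z.M z.M' z.p
  · simp [zn, h1, h2] at hq
  rw [zn, if_neg h1, if_neg h2] at hq
  rcases hv : vw z.p z.t with ⟨w, r, t₁, t₀, v, B, G⟩ | ⟨r, t₁, t₀⟩ | ⟨Sp, u⟩ <;>
  rcases hv' : vw z.p z.t' with ⟨w', r', t₁', t₀', v', B', G'⟩ | ⟨r', t₁', t₀'⟩ | ⟨Sp', u'⟩ <;>
  simp only [hv, hv'] at hq
  · have e := congrArg DT.size (vw_br hv)
    have e' := congrArg DT.size (vw_br hv')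
    simp only [DT.size] at e e'
    split_ifs at hq with hd hd' <;> simp only [List.mem_cons, List.not_mem_nil, or_false] at hq
    · rcases hq with rfl | rfl <;> simp only [ZS.rank] <;> omega
    · rcases hq with rfl | rfl <;> simp only [ZS.rank] <;> omega
    · rcases hq with rfl | rfl | rfl | rfl <;> simp only [ZS.rank] <;> omega
  · have e' := congrArg DT.size (vw_add hv')
    simp only [DT.size] at e'
    simp only [List.mem_cons, List.not_mem_nil, or_false] at hq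
    rcases hq with rfl | rfl <;> simp only [ZS.rank] <;> omega
  · have e := congrArg DT.size (vw_br hv)
    simp only [DT.size] at e
    split_ifs at hq with hd <;> simp only [List.mem_cons, List.not_mem_nil, or_false] at hq <;>
      rcases hq with rfl | rfl <;> simp only [ZS.rank] <;> omega
  · have e := congrArg DT.size (vw_add hv)
    simp only [DT.size] at e
    simp only [List.mem_cons, List.not_mem_nil, or_false] at hq
    rcases hq with rfl | rfl <;> simp only [ZS.rank] <;> omega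
  · have e := congrArg DT.size (vw_add hv)
    simp only [DT.size] at e
    simp only [List.mem_cons, List.not_mem_nil, or_false] at hq
    rcases hq with rfl | rfl <;> simp only [ZS.rank] <;> omega
  · have e := congrArg DT.size (vw_add hv)
    simp only [DT.size] at e
    simp only [List.mem_cons, List.not_mem_nil, or_false] at hq
    rcases hq with rfl | rfl <;> simp only [ZS.rank] <;> omega
  · have e' := congrArg DT.size (vw_br hv')
    simp only [DT.size] at e'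
    split_ifs at hq with hd <;> simp only [List.mem_cons, List.not_mem_nil, or_false] at hq <;>
      rcases hq with rfl | rfl <;> simp only [ZS.rank] <;> omega
  · have e' := congrArg DT.size (vw_add hv')
    simp only [DT.size] at e'
    simp only [List.mem_cons, List.not_mem_nil, or_false] at hq
    rcases hq with rfl | rfl <;> simp only [ZS.rank] <;> omega
  · have l := vw_up_size hv
    have l' := vw_up_size hv'
    simp only [List.mem_cons, List.not_mem_nil, or_false] at hq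
    have key : u.size < z.t.size ∨ u'.size < z.t'.size := by
      by_cases ha : z.t.isLeaf
      · have hb : ¬ z.t'.isLeaf := fun hb => h1 ⟨ha, hb⟩
        refine Or.inr (vw_up_size_lt hv' hb ?_)
        unfold ZS.p
        rw [leaf_top ha]; simp
      · by_cases hb : z.t'.isLeaf
        · refine Or.inl (vw_up_size_lt hv ha ?_)
          unfold ZS.p
          rw [leaf_top hb]; simp
        · rcases le_total z.t.top z.t'.top with h | h
          · exact Or.inr (vw_up_size_lt hv' hb (max_eq_right h).symm)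
          · exact Or.inl (vw_up_size_lt hv ha (max_eq_left h).symm)
    subst hq
    simp only [ZS.rank]; omega

open Classical in
/-- the costs -/
noncomputable def cz (stp : ℕ → ℕ → ℕ → Prop) (a : ℕ → ℝ) (μ : TrG Λ κ → Finset Λ → ℝ)
    (A A' : Finset Λ) (z : ZS Λ κ) : ℝ :=
  if z.t.isLeaf ∧ z.t'.isLeaf then 0 else if stp z.M z.M' z.p then 0 else
  match vw z.p z.t, vw z.p z.t' with
  | .br w _ _ t₀ _ _ _, .br w' _ _ t₀' _ _ _ =>
      if z.p ∣ z.M then 0 else if z.p ∣ z.M' then 0 else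
        a z.p * (w * μ t₀.g A) * (w' * μ t₀'.g A')
  | .br w _ _ t₀ _ _ _, .up _ _ =>
      if z.p ∣ z.M then 0 else a z.p * (w * μ t₀.g A) * μ z.t'.g A'
  | .up _ _, .br w' _ _ t₀' _ _ _ =>
      if z.p ∣ z.M' then 0 else a z.p * μ z.t.g A * (w' * μ t₀'.g A')
  | _, _ => 0

/-- **the unsplit walk sum** -/
noncomputable def V (stp : ℕ → ℕ → ℕ → Prop) (a : ℕ → ℝ) (μ : TrG Λ κ → Finset Λ → ℝ)
    (z : ZS Λ κ) (A A' : Finset Λ) : ℝ :=
  W (zn stp) ZS.rank (cz stp a μ A A') z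

lemma V_eq (stp : ℕ → ℕ → ℕ → Prop) (a : ℕ → ℝ) (μ : TrG Λ κ → Finset Λ → ℝ)
    (z : ZS Λ κ) (A A' : Finset Λ) :
    V stp a μ z A A' = cz stp a μ A A' z +
      ((zn stp z).map fun q => q.1 * V stp a μ q.2 A A').sum :=
  W_eq (zn_rank stp) _ z

/-- weights of the ties -/
def ZW : DT Λ κ → Prop
  | .br _ w _ _ _ _ _ _ => 0 ≤ w ∧ w ≤ 1
  | _ => True

def ZOk (z : ZS Λ κ) : Prop := z.t.All ZW ∧ z.t'.All ZW

lemma zn_ok {stp : ℕ → ℕ → ℕ → Prop} (z : ZS Λ κ) (h : ZOk z) :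
    ∀ q ∈ zn stp z, ZOk q.2 ∧ 0 ≤ q.1 := by
  intro q hq
  by_cases h1 : z.t.isLeaf ∧ z.t'.isLeaf
  · simp [zn, h1] at hq
  by_cases h2 : stp z.M z.M' z.p
  · simp [zn, h1, h2] at hq
  obtain ⟨hL, hR⟩ := h
  rw [zn, if_neg h1, if_neg h2] at hq
  rcases hv : vw z.p z.t with ⟨w, r, t₁, t₀, v, B, G⟩ | ⟨r, t₁, t₀⟩ | ⟨Sp, u⟩ <;>
  rcases hv' : vw z.p z.t' with ⟨w', r', t₁', t₀', v', B', G'⟩ | ⟨r', t₁', t₀'⟩ | ⟨Sp', u'⟩ <;>
  simp only [hv, hv'] at hq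
  · have hL2 := hL
    have hR2 := hR
    rw [vw_br hv] at hL
    rw [vw_br hv'] at hR
    obtain ⟨⟨w0, w1⟩, a1, a0⟩ := hL
    obtain ⟨⟨w0', w1'⟩, b1, b0⟩ := hR
    have q1 : 0 ≤ 1 - w := by linarith
    have q2 : 0 ≤ 1 - w' := by linarith
    split_ifs at hq with hd hd' <;> simp only [List.mem_cons, List.not_mem_nil, or_false] at hq
    · rcases hq with rfl | rfl
      · exact ⟨⟨a1, hR2⟩, q1⟩
      · exact ⟨⟨a0, hR2⟩, w0⟩
    · rcases hq with rfl | rfl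
      · exact ⟨⟨hL2, b1⟩, q2⟩
      · exact ⟨⟨hL2, b0⟩, w0'⟩
    · rcases hq with rfl | rfl | rfl | rfl
      · exact ⟨⟨a1, b1⟩, mul_nonneg q1 q2⟩
      · exact ⟨⟨a1, b0⟩, mul_nonneg q1 w0'⟩
      · exact ⟨⟨a0, b1⟩, mul_nonneg w0 q2⟩
      · exact ⟨⟨a0, b0⟩, mul_nonneg w0 w0'⟩
  · rw [vw_add hv'] at hR
    obtain ⟨-, b1, b0⟩ := hR
    simp only [List.mem_cons, List.not_mem_nil, or_false] at hq
    rcases hq with rfl | rfl
    · exact ⟨⟨hL, b1⟩, zero_le_one⟩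
    · exact ⟨⟨hL, b0⟩, zero_le_one⟩
  · rw [vw_br hv] at hL
    obtain ⟨⟨w0, w1⟩, a1, a0⟩ := hL
    have q1 : 0 ≤ 1 - w := by linarith
    split_ifs at hq with hd <;> simp only [List.mem_cons, List.not_mem_nil, or_false] at hq <;>
      rcases hq with rfl | rfl
    · exact ⟨⟨a1, hR⟩, q1⟩
    · exact ⟨⟨a0, hR⟩, w0⟩
    · exact ⟨⟨a1, hR⟩, q1⟩
    · exact ⟨⟨a0, hR⟩, w0⟩
  · rw [vw_add hv] at hL
    obtain ⟨-, a1, a0⟩ := hL
    simp only [List.mem_cons, List.not_mem_nil, or_false] at hq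
    rcases hq with rfl | rfl
    · exact ⟨⟨a1, hR⟩, zero_le_one⟩
    · exact ⟨⟨a0, hR⟩, zero_le_one⟩
  · rw [vw_add hv] at hL
    obtain ⟨-, a1, a0⟩ := hL
    simp only [List.mem_cons, List.not_mem_nil, or_false] at hq
    rcases hq with rfl | rfl
    · exact ⟨⟨a1, hR⟩, zero_le_one⟩
    · exact ⟨⟨a0, hR⟩, zero_le_one⟩
  · rw [vw_add hv] at hL
    obtain ⟨-, a1, a0⟩ := hL
    simp only [List.mem_cons, List.not_mem_nil, or_false] at hq
    rcases hq with rfl | rfl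
    · exact ⟨⟨a1, hR⟩, zero_le_one⟩
    · exact ⟨⟨a0, hR⟩, zero_le_one⟩
  · rw [vw_br hv'] at hR
    obtain ⟨⟨w0, w1⟩, b1, b0⟩ := hR
    have q1 : 0 ≤ 1 - w' := by linarith
    split_ifs at hq with hd <;> simp only [List.mem_cons, List.not_mem_nil, or_false] at hq <;>
      rcases hq with rfl | rfl
    · exact ⟨⟨hL, b1⟩, q1⟩
    · exact ⟨⟨hL, b0⟩, w0⟩
    · exact ⟨⟨hL, b1⟩, q1⟩
    · exact ⟨⟨hL, b0⟩, w0⟩
  · rw [vw_add hv'] at hR
    obtain ⟨-, b1, b0⟩ := hR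
    simp only [List.mem_cons, List.not_mem_nil, or_false] at hq
    rcases hq with rfl | rfl
    · exact ⟨⟨hL, b1⟩, zero_le_one⟩
    · exact ⟨⟨hL, b0⟩, zero_le_one⟩
  · have a := vw_up_all hv hL
    have b := vw_up_all hv' hR
    simp only [List.mem_cons, List.not_mem_nil, or_false] at hq
    subst hq
    exact ⟨⟨a, b⟩, zero_le_one⟩

section z0
variable [DecidableEq κ] [Fintype κ] [WRel κ]
  {μ : TrG Λ κ → Finset Λ → ℝ} {a : ℕ → ℝ} {stp : ℕ → ℕ → ℕ → Prop}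

lemma zw_br {p : ℕ} {t : DT Λ κ} (h : t.All ZW) {w : ℝ} {r : Λ → κ} {t₁ t₀ : DT Λ κ}
    {v : Λ → ℝ → ℝ} {B G : κ → ℝ → ℝ} (hv : vw p t = .br w r t₁ t₀ v B G) : 0 ≤ w := by
  rw [vw_br hv] at h
  exact h.1.1

lemma cz_nonneg (hμ : MX μ) (ha : ∀ p, 0 ≤ a p) (A A' : Finset Λ) (z : ZS Λ κ) (h : ZOk z) :
    0 ≤ cz stp a μ A A' z := by
  by_cases h1 : z.t.isLeaf ∧ z.t'.isLeaf
  · simp [cz, h1]
  by_cases h2 : stp z.M z.M' z.p
  · simp [cz, h1, h2]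
  have ha' := ha z.p
  rcases hv : vw z.p z.t with ⟨w, r, t₁, t₀, v, B, G⟩ | ⟨r, t₁, t₀⟩ | ⟨Sp, u⟩ <;>
  rcases hv' : vw z.p z.t' with ⟨w', r', t₁', t₀', v', B', G'⟩ | ⟨r', t₁', t₀'⟩ | ⟨Sp', u'⟩ <;>
  simp only [cz, h1, h2, hv, hv', if_false, le_refl]
  · have := zw_br h.1 hv
    have := zw_br h.2 hv'
    have := hμ.nn t₀.g A
    have := hμ.nn t₀'.g A'
    split_ifs
    · exact le_rfl
    · exact le_rfl
    · positivity
  · have := zw_br h.1 hv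
    have := hμ.nn t₀.g A
    have := hμ.nn z.t'.g A'
    split_ifs
    · exact le_rfl
    · positivity
  · have := zw_br h.2 hv'
    have := hμ.nn z.t.g A
    have := hμ.nn t₀'.g A'
    split_ifs
    · exact le_rfl
    · positivity

theorem V_nonneg (hμ : MX μ) (ha : ∀ p, 0 ≤ a p) (A A' : Finset Λ) {z : ZS Λ κ} (h : ZOk z) :
    0 ≤ V stp a μ z A A' :=
  W_nonneg (zn_rank stp) (Inv := ZOk) zn_ok (fun z hz => cz_nonneg hμ ha A A' z hz) z h

/-- `x₁ + x₂ ≤ x ⟹ c x₁ d + c x₂ d ≤ c x d` -/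
lemma mul3 {c x₁ x₂ x d : ℝ} (h : x₁ + x₂ ≤ x) (hc : 0 ≤ c) (hd : 0 ≤ d) :
    c * x₁ * d + c * x₂ * d ≤ c * x * d := by
  have := mul_le_mul_of_nonneg_right (mul_le_mul_of_nonneg_left h hc) hd
  linarith

/-- `x₁ + x₂ ≤ x ⟹ c x₁ + c x₂ ≤ c x` -/
lemma mul2 {c x₁ x₂ x : ℝ} (h : x₁ + x₂ ≤ x) (hc : 0 ≤ c) :
    c * x₁ + c * x₂ ≤ c * x := by
  have := mul_le_mul_of_nonneg_left h hc
  linarith

lemma cz_addL (hμ : MX μ) (ha : ∀ p, 0 ≤ a p) {A₁ A₂ A : Finset Λ} (A' : Finset Λ)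
    (hA : ∀ t, μ t A₁ + μ t A₂ ≤ μ t A) (z : ZS Λ κ) (h : ZOk z) :
    cz stp a μ A₁ A' z + cz stp a μ A₂ A' z ≤ cz stp a μ A A' z := by
  by_cases h1 : z.t.isLeaf ∧ z.t'.isLeaf
  · simp [cz, h1]
  by_cases h2 : stp z.M z.M' z.p
  · simp [cz, h1, h2]
  have ha' := ha z.p
  rcases hv : vw z.p z.t with ⟨w, r, t₁, t₀, v, B, G⟩ | ⟨r, t₁, t₀⟩ | ⟨Sp, u⟩ <;>
  rcases hv' : vw z.p z.t' with ⟨w', r', t₁', t₀', v', B', G'⟩ | ⟨r', t₁', t₀'⟩ | ⟨Sp', u'⟩ <;>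
  simp only [cz, h1, h2, hv, hv', if_false, add_zero, le_refl]
  · have w0 := zw_br h.1 hv
    have w0' := zw_br h.2 hv'
    have n := hμ.nn t₀'.g A'
    have k : w * μ t₀.g A₁ + w * μ t₀.g A₂ ≤ w * μ t₀.g A := mul2 (hA t₀.g) w0
    split_ifs
    · simp
    · simp
    · exact mul3 k ha' (by positivity)
  · have w0 := zw_br h.1 hv
    have n := hμ.nn z.t'.g A'
    have k : w * μ t₀.g A₁ + w * μ t₀.g A₂ ≤ w * μ t₀.g A := mul2 (hA t₀.g) w0
    split_ifs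
    · simp
    · exact mul3 k ha' n
  · have w0' := zw_br h.2 hv'
    have n := hμ.nn t₀'.g A'
    split_ifs
    · simp
    · exact mul3 (hA z.t.g) ha' (by positivity)

lemma cz_addR (hμ : MX μ) (ha : ∀ p, 0 ≤ a p) {A₁ A₂ A : Finset Λ} (A' : Finset Λ)
    (hA : ∀ t, μ t A₁ + μ t A₂ ≤ μ t A) (z : ZS Λ κ) (h : ZOk z) :
    cz stp a μ A' A₁ z + cz stp a μ A' A₂ z ≤ cz stp a μ A' A z := by
  by_cases h1 : z.t.isLeaf ∧ z.t'.isLeaf
  · simp [cz, h1]
  by_cases h2 : stp z.M z.M' z.p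
  · simp [cz, h1, h2]
  have ha' := ha z.p
  rcases hv : vw z.p z.t with ⟨w, r, t₁, t₀, v, B, G⟩ | ⟨r, t₁, t₀⟩ | ⟨Sp, u⟩ <;>
  rcases hv' : vw z.p z.t' with ⟨w', r', t₁', t₀', v', B', G'⟩ | ⟨r', t₁', t₀'⟩ | ⟨Sp', u'⟩ <;>
  simp only [cz, h1, h2, hv, hv', if_false, add_zero, le_refl]
  · have w0 := zw_br h.1 hv
    have w0' := zw_br h.2 hv'
    have n := hμ.nn t₀.g A'
    split_ifs
    · simp
    · simp
    · exact mul2 (mul2 (hA t₀'.g) w0') (by positivity)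
  · have w0 := zw_br h.1 hv
    have n := hμ.nn t₀.g A'
    split_ifs
    · simp
    · exact mul2 (hA z.t'.g) (by positivity)
  · have w0' := zw_br h.2 hv'
    have n := hμ.nn z.t.g A'
    split_ifs
    · simp
    · exact mul2 (mul2 (hA t₀'.g) w0') (by positivity)

/-- **`V` is superadditive in the left population** -/
theorem V_addL (hμ : MX μ) (ha : ∀ p, 0 ≤ a p) {A₁ A₂ A : Finset Λ} (A' : Finset Λ)
    (hA : ∀ t, μ t A₁ + μ t A₂ ≤ μ t A) {z : ZS Λ κ} (h : ZOk z) :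
    V stp a μ z A₁ A' + V stp a μ z A₂ A' ≤ V stp a μ z A A' := by
  unfold V
  rw [← W_add (zn_rank stp)]
  exact W_mono (zn_rank stp) (Inv := ZOk) zn_ok (fun z hz => cz_addL hμ ha A' hA z hz) z h

/-- **`V` is superadditive in the right population** -/
theorem V_addR (hμ : MX μ) (ha : ∀ p, 0 ≤ a p) {A₁ A₂ A : Finset Λ} (A' : Finset Λ)
    (hA : ∀ t, μ t A₁ + μ t A₂ ≤ μ t A) {z : ZS Λ κ} (h : ZOk z) :
    V stp a μ z A' A₁ + V stp a μ z A' A₂ ≤ V stp a μ z A' A := by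
  unfold V
  rw [← W_add (zn_rank stp)]
  exact W_mono (zn_rank stp) (Inv := ZOk) zn_ok (fun z hz => cz_addR hμ ha A' hA z hz) z h

theorem V_splitL (hμ : MX μ) (ha : ∀ p, 0 ≤ a p) (A A' S : Finset Λ) {z : ZS Λ κ} (h : ZOk z) :
    V stp a μ z (A ∩ S) A' + V stp a μ z (A \ S) A' ≤ V stp a μ z A A' :=
  V_addL hμ ha A' (fun t => hμ.split t A S) h

theorem V_splitR (hμ : MX μ) (ha : ∀ p, 0 ≤ a p) (A A' S : Finset Λ) {z : ZS Λ κ} (h : ZOk z) :
    V stp a μ z A (A' ∩ S) + V stp a μ z A (A' \ S) ≤ V stp a μ z A A' :=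
  V_addR hμ ha A (fun t => hμ.split t A' S) h

lemma MX.mono (hμ : MX μ) {A B : Finset Λ} (h : A ⊆ B) (t : TrG Λ κ) : μ t A ≤ μ t B := by
  have h1 := hμ.split t B A
  rw [Finset.inter_eq_right.2 h] at h1
  linarith [hμ.nn t (B \ A)]

theorem V_monoL (hμ : MX μ) (ha : ∀ p, 0 ≤ a p) {A B : Finset Λ} (A' : Finset Λ) (hA : A ⊆ B)
    {z : ZS Λ κ} (h : ZOk z) : V stp a μ z A A' ≤ V stp a μ z B A' := by
  have h1 := V_splitL (stp := stp) hμ ha B A' A h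
  rw [Finset.inter_eq_right.2 hA] at h1
  linarith [V_nonneg (stp := stp) hμ ha (B \ A) A' h]

theorem V_monoR (hμ : MX μ) (ha : ∀ p, 0 ≤ a p) {A B : Finset Λ} (A' : Finset Λ) (hA : A ⊆ B)
    {z : ZS Λ κ} (h : ZOk z) : V stp a μ z A' A ≤ V stp a μ z A' B := by
  have h1 := V_splitR (stp := stp) hμ ha A' B A h
  rw [Finset.inter_eq_right.2 hA] at h1
  linarith [V_nonneg (stp := stp) hμ ha A' (B \ A) h]

end z0


/-! ### commutations inside a chain -/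

/-- the stop rule does not change inside a chain -/
structure SI (stp : ℕ → ℕ → ℕ → Prop) : Prop where
  L : ∀ p M M' : ℕ, p.Prime → (stp (p * M) M' p ↔ stp M M' p)
  R : ∀ p M M' : ℕ, p.Prime → (stp M (p * M') p ↔ stp M M' p)

section comm
variable {μ : TrG Λ κ → Finset Λ → ℝ} {a : ℕ → ℝ} {stp : ℕ → ℕ → ℕ → Prop} {A A' : Finset Λ}
  {p M M' : ℕ} {t t' : DT Λ κ}

lemma SI.divL (h : SI stp) (hp : p.Prime) (hd : p ∣ M) (hs : ¬ stp M M' p) :
    ¬ stp (M / p) M' p := by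
  rw [← h.L p (M / p) M' hp, Nat.mul_div_cancel' hd]; exact hs

lemma SI.divR (h : SI stp) (hp : p.Prime) (hd : p ∣ M') (hs : ¬ stp M M' p) :
    ¬ stp M (M' / p) p := by
  rw [← h.R p M (M' / p) hp, Nat.mul_div_cancel' hd]; exact hs

lemma SI.mulL (h : SI stp) (hp : p.Prime) (hs : ¬ stp M M' p) : ¬ stp (p * M) M' p := by
  rw [h.L p M M' hp]; exact hs

lemma SI.mulR (h : SI stp) (hp : p.Prime) (hs : ¬ stp M M' p) : ¬ stp M (p * M') p := by
  rw [h.R p M M' hp]; exact hs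

/-- `vw p t` is not an add node -/
def NA (p : ℕ) (t : DT Λ κ) : Prop := ∀ r t₁ t₀, vw p t ≠ .add r t₁ t₀

lemma NA_br {w : ℝ} {r : Λ → κ} {t₁ t₀ : DT Λ κ} {v : Λ → ℝ → ℝ} {B G : κ → ℝ → ℝ}
    (h : vw p t = .br w r t₁ t₀ v B G) : NA p t := fun _ _ _ h' => by rw [h] at h'; cases h'

lemma NA_up {Sp : Finset Λ} {u : DT Λ κ} (h : vw p t = .up Sp u) : NA p t :=
  fun _ _ _ h' => by rw [h] at h'; cases h'

lemma nleaf_br {w : ℝ} {r : Λ → κ} {t₁ t₀ : DT Λ κ} {v : Λ → ℝ → ℝ} {B G : κ → ℝ → ℝ}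
    (h : vw p t = .br w r t₁ t₀ v B G) : ¬ t.isLeaf := by rw [vw_br h]; exact id

lemma nleaf_add {r : Λ → κ} {t₁ t₀ : DT Λ κ} (h : vw p t = .add r t₁ t₀) : ¬ t.isLeaf := by
  rw [vw_add h]; exact id

/-- left add -/
lemma d1 (hz : max t.top t'.top = p) (hs : ¬ stp M M' p) {r : Λ → κ} {t₁ t₀ : DT Λ κ}
    (hv : vw p t = .add r t₁ t₀) :
    V stp a μ ⟨M, M', t, t'⟩ A A' =
      V stp a μ ⟨M, M', t₁, t'⟩ A A' + V stp a μ ⟨M, M', t₀, t'⟩ A A' := by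
  have hp : (⟨M, M', t, t'⟩ : ZS Λ κ).p = p := hz
  have h1 : ¬ (t.isLeaf ∧ t'.isLeaf) := fun h => nleaf_add hv h.1
  rw [V_eq]
  simp [cz, zn, hp, h1, hs, hv]

/-- right add -/
lemma d2 (hz : max t.top t'.top = p) (hs : ¬ stp M M' p) {r : Λ → κ} {t₁ t₀ : DT Λ κ}
    (hn : NA p t) (hv : vw p t' = .add r t₁ t₀) :
    V stp a μ ⟨M, M', t, t'⟩ A A' =
      V stp a μ ⟨M, M', t, t₁⟩ A A' + V stp a μ ⟨M, M', t, t₀⟩ A A' := by
  have hp : (⟨M, M', t, t'⟩ : ZS Λ κ).p = p := hz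
  have h1 : ¬ (t.isLeaf ∧ t'.isLeaf) := fun h => nleaf_add hv h.2
  rw [V_eq]
  rcases hv2 : vw p t with ⟨w, r, t₁, t₀, v, B, G⟩ | ⟨r, t₁, t₀⟩ | ⟨Sp, u⟩
  · simp [cz, zn, hp, h1, hs, hv, hv2]
  · exact absurd hv2 (hn _ _ _)
  · simp [cz, zn, hp, h1, hs, hv, hv2]

/-- free left step -/
lemma d3 (hz : max t.top t'.top = p) (hs : ¬ stp M M' p) {w : ℝ} {r : Λ → κ} {t₁ t₀ : DT Λ κ}
    {v : Λ → ℝ → ℝ} {B G : κ → ℝ → ℝ} (hv : vw p t = .br w r t₁ t₀ v B G) (hn : NA p t')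
    (hd : p ∣ M) :
    V stp a μ ⟨M, M', t, t'⟩ A A' =
      (1 - w) * V stp a μ ⟨M / p, M', t₁, t'⟩ A A' + w * V stp a μ ⟨M / p, M', t₀, t'⟩ A A' := by
  have hp : (⟨M, M', t, t'⟩ : ZS Λ κ).p = p := hz
  have h1 : ¬ (t.isLeaf ∧ t'.isLeaf) := fun h => nleaf_br hv h.1
  rw [V_eq]
  rcases hv2 : vw p t' with ⟨w, r, t₁, t₀, v, B, G⟩ | ⟨r, t₁, t₀⟩ | ⟨Sp, u⟩
  · simp [cz, zn, hp, h1, hs, hv, hv2, hd]
  · exact absurd hv2 (hn _ _ _)
  · simp [cz, zn, hp, h1, hs, hv, hv2, hd]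

/-- free right step -/
lemma d4 (hz : max t.top t'.top = p) (hs : ¬ stp M M' p) {w : ℝ} {r : Λ → κ} {t₁ t₀ : DT Λ κ}
    {v : Λ → ℝ → ℝ} {B G : κ → ℝ → ℝ} (hv : vw p t' = .br w r t₁ t₀ v B G) (hn : NA p t)
    (hd : p ∣ M') (hb : (∃ w r t₁ t₀ v B G, vw p t = .br w r t₁ t₀ v B G) → ¬ p ∣ M) :
    V stp a μ ⟨M, M', t, t'⟩ A A' =
      (1 - w) * V stp a μ ⟨M, M' / p, t, t₁⟩ A A' + w * V stp a μ ⟨M, M' / p, t, t₀⟩ A A' := by
  have hp : (⟨M, M', t, t'⟩ : ZS Λ κ).p = p := hz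
  have h1 : ¬ (t.isLeaf ∧ t'.isLeaf) := fun h => nleaf_br hv h.2
  rw [V_eq]
  rcases hv2 : vw p t with ⟨w, r, t₁, t₀, v, B, G⟩ | ⟨r, t₁, t₀⟩ | ⟨Sp, u⟩
  · have hb' := hb ⟨_, _, _, _, _, _, _, hv2⟩
    simp [cz, zn, hp, h1, hs, hv, hv2, hd, hb']
  · exact absurd hv2 (hn _ _ _)
  · simp [cz, zn, hp, h1, hs, hv, hv2, hd]

/-- joint step -/
lemma d5 (hz : max t.top t'.top = p) (hs : ¬ stp M M' p) {w : ℝ} {r : Λ → κ} {t₁ t₀ : DT Λ κ}
    {v : Λ → ℝ → ℝ} {B G : κ → ℝ → ℝ} (hv : vw p t = .br w r t₁ t₀ v B G)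
    {w' : ℝ} {r' : Λ → κ} {t₁' t₀' : DT Λ κ} {v' : Λ → ℝ → ℝ} {B' G' : κ → ℝ → ℝ}
    (hv' : vw p t' = .br w' r' t₁' t₀' v' B' G') (hd : ¬ p ∣ M) (hd' : ¬ p ∣ M') :
    V stp a μ ⟨M, M', t, t'⟩ A A' = a p * (w * μ t₀.g A) * (w' * μ t₀'.g A') +
      ((1 - w) * (1 - w') * V stp a μ ⟨M, M', t₁, t₁'⟩ A A' +
        (1 - w) * w' * V stp a μ ⟨M, M', t₁, t₀'⟩ A A' +
        w * (1 - w') * V stp a μ ⟨M, M', t₀, t₁'⟩ A A' +
        w * w' * V stp a μ ⟨M, M', t₀, t₀'⟩ A A') := by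
  have hp : (⟨M, M', t, t'⟩ : ZS Λ κ).p = p := hz
  have h1 : ¬ (t.isLeaf ∧ t'.isLeaf) := fun h => nleaf_br hv h.1
  rw [V_eq]
  simp [cz, zn, hp, h1, hs, hv, hv', hd, hd']
  ring

/-- left `br` against `up` -/
lemma d6 (hz : max t.top t'.top = p) (hs : ¬ stp M M' p) {w : ℝ} {r : Λ → κ} {t₁ t₀ : DT Λ κ}
    {v : Λ → ℝ → ℝ} {B G : κ → ℝ → ℝ} (hv : vw p t = .br w r t₁ t₀ v B G)
    {Sp : Finset Λ} {u : DT Λ κ} (hv' : vw p t' = .up Sp u) (hd : ¬ p ∣ M) :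
    V stp a μ ⟨M, M', t, t'⟩ A A' = a p * (w * μ t₀.g A) * μ t'.g A' +
      ((1 - w) * V stp a μ ⟨M, p * M', t₁, t'⟩ A A' +
        w * V stp a μ ⟨M, p * M', t₀, t'⟩ A A') := by
  have hp : (⟨M, M', t, t'⟩ : ZS Λ κ).p = p := hz
  have h1 : ¬ (t.isLeaf ∧ t'.isLeaf) := fun h => nleaf_br hv h.1
  rw [V_eq]
  simp [cz, zn, hp, h1, hs, hv, hv', hd]

/-- right `br` against `up` -/
lemma d7 (hz : max t.top t'.top = p) (hs : ¬ stp M M' p) {w : ℝ} {r : Λ → κ} {t₁ t₀ : DT Λ κ}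
    {v : Λ → ℝ → ℝ} {B G : κ → ℝ → ℝ} (hv' : vw p t' = .br w r t₁ t₀ v B G)
    {Sp : Finset Λ} {u : DT Λ κ} (hv : vw p t = .up Sp u) (hd : ¬ p ∣ M') :
    V stp a μ ⟨M, M', t, t'⟩ A A' = a p * μ t.g A * (w * μ t₀.g A') +
      ((1 - w) * V stp a μ ⟨p * M, M', t, t₁⟩ A A' +
        w * V stp a μ ⟨p * M, M', t, t₀⟩ A A') := by
  have hp : (⟨M, M', t, t'⟩ : ZS Λ κ).p = p := hz
  have h1 : ¬ (t.isLeaf ∧ t'.isLeaf) := fun h => nleaf_br hv' h.2
  rw [V_eq]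
  simp [cz, zn, hp, h1, hs, hv, hv', hd]

/-- `up` against `up` -/
lemma d8 (hz : max t.top t'.top = p) (hs : ¬ stp M M' p) (h1 : ¬ (t.isLeaf ∧ t'.isLeaf))
    {Sp : Finset Λ} {u : DT Λ κ} (hv : vw p t = .up Sp u)
    {Sp' : Finset Λ} {u' : DT Λ κ} (hv' : vw p t' = .up Sp' u') :
    V stp a μ ⟨M, M', t, t'⟩ A A' = V stp a μ ⟨M, M', u, u'⟩ A A' := by
  have hp : (⟨M, M', t, t'⟩ : ZS Λ κ).p = p := hz
  rw [V_eq]
  simp [cz, zn, hp, h1, hs, hv, hv']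

/-- column `p` does not occur at the top -/
lemma vw_of_ne {t : DT Λ κ} (h : t.isLeaf ∨ t.top ≠ p) : vw p t = .up ∅ t := by
  cases t with
  | leaf r f => rfl
  | br q w r t₁ t₀ v B G =>
    rcases h with h | h
    · exact absurd h id
    · simp [vw, show ¬ q = p from h]
  | add q r t₁ t₀ =>
    rcases h with h | h
    · exact absurd h id
    · simp [vw, show ¬ q = p from h]
  | up q Sp u =>
    rcases h with h | h
    · exact absurd h id
    · simp [vw, show ¬ q = p from h]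

lemma vw_br_self {w : ℝ} {r : Λ → κ} {t₁ t₀ : DT Λ κ} {v : Λ → ℝ → ℝ} {B G : κ → ℝ → ℝ} :
    vw p (.br p w r t₁ t₀ v B G) = .br w r t₁ t₀ v B G := by simp [vw]

lemma vw_add_self {r : Λ → κ} {t₁ t₀ : DT Λ κ} : vw p (.add p r t₁ t₀) = .add r t₁ t₀ := by
  simp [vw]

lemma vw_up_self {Sp : Finset Λ} {u : DT Λ κ} : vw p (.up p Sp u) = .up Sp u := by simp [vw]

/-- **right add**, any left side -/
theorem V_aR (hp : p.Prime) {r' : Λ → κ} {t₁' t₀' : DT Λ κ} (h1 : t₁'.Col (p + 1))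
    (h0 : t₀'.Col (p + 1)) (hs : ¬ stp M M' p) : ∀ t : DT Λ κ, t.Col (p + 1) →
    V stp a μ ⟨M, M', t, .add p r' t₁' t₀'⟩ A A' =
      V stp a μ ⟨M, M', t, t₁'⟩ A A' + V stp a μ ⟨M, M', t, t₀'⟩ A A' := by
  intro t
  have key : ∀ t : DT Λ κ, t.Col (p + 1) → NA p t →
      V stp a μ ⟨M, M', t, .add p r' t₁' t₀'⟩ A A' =
      V stp a μ ⟨M, M', t, t₁'⟩ A A' + V stp a μ ⟨M, M', t, t₀'⟩ A A' := fun t ht hn =>
    d2 (max_eq_right ht.top_le) hs hn vw_add_self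
  induction t with
  | leaf r f => intro ht; exact key _ ht (NA_up (Sp := ∅) (u := .leaf r f) rfl)
  | br q w r t₁ t₀ v B G ih₁ ih₀ =>
    intro ht
    by_cases hq : q = p
    · subst hq; exact key _ ht (NA_br vw_br_self)
    · exact key _ ht (NA_up (vw_of_ne (Or.inr hq)))
  | add q r t₁ t₀ ih₁ ih₀ =>
    intro ht
    by_cases hq : q = p
    · subst hq
      rw [d1 (t := .add q r t₁ t₀) (t' := .add q r' t₁' t₀') (max_self q) hs vw_add_self,
        ih₁ ht.2.2.1, ih₀ ht.2.2.2,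
        d1 (t := .add q r t₁ t₀) (t' := t₁') (max_eq_left h1.top_le) hs vw_add_self,
        d1 (t := .add q r t₁ t₀) (t' := t₀') (max_eq_left h0.top_le) hs vw_add_self]
      ring
    · exact key _ ht (NA_up (vw_of_ne (Or.inr hq)))
  | up q Sp u ih =>
    intro ht
    by_cases hq : q = p
    · subst hq; exact key _ ht (NA_up vw_up_self)
    · exact key _ ht (NA_up (vw_of_ne (Or.inr hq)))

/-- **left add** -/
theorem V_aL {r : Λ → κ} {t₁ t₀ : DT Λ κ} (hs : ¬ stp M M' p) (ht' : t'.Col (p + 1)) :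
    V stp a μ ⟨M, M', .add p r t₁ t₀, t'⟩ A A' =
      V stp a μ ⟨M, M', t₁, t'⟩ A A' + V stp a μ ⟨M, M', t₀, t'⟩ A A' :=
  d1 (max_eq_left ht'.top_le) hs vw_add_self

lemma Col.br1 {q n : ℕ} {w : ℝ} {r : Λ → κ} {t₁ t₀ : DT Λ κ} {v : Λ → ℝ → ℝ} {B G : κ → ℝ → ℝ}
    (h : (DT.br q w r t₁ t₀ v B G).Col n) : t₁.Col (q + 1) ∧ t₀.Col (q + 1) := ⟨h.2.2.1, h.2.2.2.1⟩

/-- **free left step**, any right side -/
theorem V_fL (hI : SI stp) (hp : p.Prime) {w : ℝ} {r : Λ → κ} {t₁ t₀ : DT Λ κ}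
    {v : Λ → ℝ → ℝ} {B G : κ → ℝ → ℝ} (h1 : t₁.Col (p + 1)) (h0 : t₀.Col (p + 1))
    (hc : (DT.br p w r t₁ t₀ v B G).Col (p + 1)) (hd : p ∣ M) (hs : ¬ stp M M' p) :
    ∀ t' : DT Λ κ, t'.Col (p + 1) →
    V stp a μ ⟨M, M', .br p w r t₁ t₀ v B G, t'⟩ A A' =
      (1 - w) * V stp a μ ⟨M / p, M', t₁, t'⟩ A A' + w * V stp a μ ⟨M / p, M', t₀, t'⟩ A A' := by
  intro t'
  have hs2 := hI.divL hp hd hs
  have key : ∀ t' : DT Λ κ, t'.Col (p + 1) → NA p t' →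
      V stp a μ ⟨M, M', .br p w r t₁ t₀ v B G, t'⟩ A A' =
      (1 - w) * V stp a μ ⟨M / p, M', t₁, t'⟩ A A' + w * V stp a μ ⟨M / p, M', t₀, t'⟩ A A' :=
    fun t' ht hn => d3 (max_eq_left ht.top_le) hs vw_br_self hn hd
  induction t' with
  | leaf r f => intro ht; exact key _ ht (NA_up (Sp := ∅) (u := .leaf r f) rfl)
  | br q w r t₁ t₀ v B G ih₁ ih₀ =>
    intro ht
    by_cases hq : q = p
    · subst hq; exact key _ ht (NA_br vw_br_self)
    · exact key _ ht (NA_up (vw_of_ne (Or.inr hq)))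
  | add q r' t₁' t₀' ih₁ ih₀ =>
    intro ht
    by_cases hq : q = p
    · subst hq
      rw [V_aR hp ht.2.2.1 ht.2.2.2 hs _ hc, ih₁ ht.2.2.1, ih₀ ht.2.2.2,
        V_aR hp ht.2.2.1 ht.2.2.2 hs2 _ h1, V_aR hp ht.2.2.1 ht.2.2.2 hs2 _ h0]
      ring
    · exact key _ ht (NA_up (vw_of_ne (Or.inr hq)))
  | up q Sp u ih =>
    intro ht
    by_cases hq : q = p
    · subst hq; exact key _ ht (NA_up vw_up_self)
    · exact key _ ht (NA_up (vw_of_ne (Or.inr hq)))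

/-- **free right step**, any left side -/
theorem V_fR (hI : SI stp) (hp : p.Prime) {w : ℝ} {r : Λ → κ} {t₁' t₀' : DT Λ κ}
    {v : Λ → ℝ → ℝ} {B G : κ → ℝ → ℝ} (h1 : t₁'.Col (p + 1)) (h0 : t₀'.Col (p + 1))
    (hc : (DT.br p w r t₁' t₀' v B G).Col (p + 1)) (hd : p ∣ M') :
    ∀ (t : DT Λ κ) (M : ℕ), ¬ stp M M' p → t.Col (p + 1) →
    V stp a μ ⟨M, M', t, .br p w r t₁' t₀' v B G⟩ A A' =
      (1 - w) * V stp a μ ⟨M, M' / p, t, t₁'⟩ A A' +
        w * V stp a μ ⟨M, M' / p, t, t₀'⟩ A A' := by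
  intro t
  have key : ∀ (t : DT Λ κ) (M : ℕ), ¬ stp M M' p → t.Col (p + 1) → NA p t →
      ((∃ w r t₁ t₀ v B G, vw p t = .br w r t₁ t₀ v B G) → ¬ p ∣ M) →
      V stp a μ ⟨M, M', t, .br p w r t₁' t₀' v B G⟩ A A' =
      (1 - w) * V stp a μ ⟨M, M' / p, t, t₁'⟩ A A' +
        w * V stp a μ ⟨M, M' / p, t, t₀'⟩ A A' :=
    fun t M hs ht hn hb => d4 (max_eq_right ht.top_le) hs vw_br_self hn hd hb
  have hu : ∀ {t : DT Λ κ} {Sp : Finset Λ} {u : DT Λ κ} {M : ℕ}, vw p t = .up Sp u →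
      ((∃ w r t₁ t₀ v B G, vw p t = .br w r t₁ t₀ v B G) → ¬ p ∣ M) := by
    intro t Sp u M h ⟨_, _, _, _, _, _, _, h'⟩
    rw [h] at h'; cases h'
  induction t with
  | leaf r f =>
    intro M hs ht
    exact key _ M hs ht (NA_up (Sp := ∅) (u := .leaf r f) rfl)
      (hu (Sp := ∅) (u := .leaf r f) rfl)
  | br q wl rl t₁ t₀ vl Bl Gl ih₁ ih₀ =>
    intro M hs ht
    by_cases hq : q = p
    · subst hq
      by_cases hM : q ∣ M
      · have hs1 := hI.divL hp hM hs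
        have hs2 := hI.divR hp hd hs
        rw [V_fL hI hp ht.2.2.1 ht.2.2.2.1 ht hM hs _ hc, ih₁ (M / q) hs1 ht.2.2.1,
          ih₀ (M / q) hs1 ht.2.2.2.1, V_fL hI hp ht.2.2.1 ht.2.2.2.1 ht hM hs2 _ h1,
          V_fL hI hp ht.2.2.1 ht.2.2.2.1 ht hM hs2 _ h0]
        ring
      · exact key _ M hs ht (NA_br vw_br_self) fun _ => hM
    · exact key _ M hs ht (NA_up (vw_of_ne (Or.inr hq))) (hu (vw_of_ne (Or.inr hq)))
  | add q rl t₁ t₀ ih₁ ih₀ =>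
    intro M hs ht
    by_cases hq : q = p
    · subst hq
      have hs2 := hI.divR hp hd hs
      rw [V_aL hs hc, ih₁ M hs ht.2.2.1, ih₀ M hs ht.2.2.2, V_aL hs2 h1, V_aL hs2 h0]
      ring
    · exact key _ M hs ht (NA_up (vw_of_ne (Or.inr hq))) (hu (vw_of_ne (Or.inr hq)))
  | up q Sp u ih =>
    intro M hs ht
    by_cases hq : q = p
    · subst hq
      exact key _ M hs ht (NA_up vw_up_self) (hu vw_up_self)
    · exact key _ M hs ht (NA_up (vw_of_ne (Or.inr hq))) (hu (vw_of_ne (Or.inr hq)))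

/-- **left pull**, any right side -/
theorem V_pL (hI : SI stp) (hp : p.Prime) {r : Λ → κ} {t₁ t₀ : DT Λ κ}
    {v : Λ → ℝ → ℝ} {B G : κ → ℝ → ℝ} (h1 : t₁.Col (p + 1))
    (hc : (DT.br p 0 r t₁ t₀ v B G).Col (p + 1)) (hd : ¬ p ∣ M) :
    ∀ (t' : DT Λ κ) (M' : ℕ), ¬ stp M M' p → t'.Col (p + 1) →
    V stp a μ ⟨M, M', .br p 0 r t₁ t₀ v B G, t'⟩ A A' =
      V stp a μ ⟨M, p * M', t₁, t'⟩ A A' := by
  intro t'
  have key : ∀ (t' : DT Λ κ) (M' : ℕ), ¬ stp M M' p → t'.Col (p + 1) →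
      (∃ Sp u, vw p t' = .up Sp u) →
      V stp a μ ⟨M, M', .br p 0 r t₁ t₀ v B G, t'⟩ A A' =
      V stp a μ ⟨M, p * M', t₁, t'⟩ A A' := by
    intro t' M' hs ht ⟨Sp, u, hu⟩
    rw [d6 (p := p) (t := .br p 0 r t₁ t₀ v B G) (t' := t') (max_eq_left ht.top_le) hs
      vw_br_self hu hd]
    ring
  induction t' with
  | leaf r f => intro M' hs ht; exact key _ M' hs ht ⟨_, _, rfl⟩
  | br q w' r' t₁' t₀' v' B' G' ih₁ ih₀ =>
    intro M' hs ht
    by_cases hq : q = p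
    · subst hq
      have hsR := hI.mulR hp hs
      have eR : q * M' / q = M' := Nat.mul_div_cancel_left _ hp.pos
      have key2 := V_fR (a := a) (μ := μ) (A := A) (A' := A') hI hp ht.2.2.1 ht.2.2.2.1 ht
        (Dvd.intro _ rfl : q ∣ q * M') t₁ M hsR h1
      rw [eR] at key2
      have em : max (DT.br q 0 r t₁ t₀ v B G).top (DT.br q w' r' t₁' t₀' v' B' G').top = q :=
        max_self q
      by_cases hM' : q ∣ M'
      · have hs2 := hI.divR hp hM' hs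
        have e2 : q * (M' / q) = M' := Nat.mul_div_cancel' hM'
        rw [d4 em hs vw_br_self (NA_br vw_br_self) hM' (fun _ => hd),
          ih₁ (M' / q) hs2 ht.2.2.1, ih₀ (M' / q) hs2 ht.2.2.2.1, e2, key2]
      · rw [d5 em hs vw_br_self vw_br_self hd hM', key2]
        ring
    · exact key _ M' hs ht ⟨_, _, vw_of_ne (Or.inr hq)⟩
  | add q r' t₁' t₀' ih₁ ih₀ =>
    intro M' hs ht
    by_cases hq : q = p
    · subst hq
      have hsR := hI.mulR hp hs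
      rw [V_aR hp ht.2.2.1 ht.2.2.2 hs _ hc, ih₁ M' hs ht.2.2.1, ih₀ M' hs ht.2.2.2,
        V_aR hp ht.2.2.1 ht.2.2.2 hsR _ h1]
    · exact key _ M' hs ht ⟨_, _, vw_of_ne (Or.inr hq)⟩
  | up q Sp u ih =>
    intro M' hs ht
    by_cases hq : q = p
    · subst hq; exact key _ M' hs ht ⟨_, _, vw_up_self⟩
    · exact key _ M' hs ht ⟨_, _, vw_of_ne (Or.inr hq)⟩

/-- **right pull**, any left side -/
theorem V_pR (hI : SI stp) (hp : p.Prime) {r : Λ → κ} {t₁' t₀' : DT Λ κ}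
    {v : Λ → ℝ → ℝ} {B G : κ → ℝ → ℝ} (h1 : t₁'.Col (p + 1))
    (hc : (DT.br p 0 r t₁' t₀' v B G).Col (p + 1)) (hd : ¬ p ∣ M') :
    ∀ (t : DT Λ κ) (M : ℕ), ¬ stp M M' p → t.Col (p + 1) →
    V stp a μ ⟨M, M', t, .br p 0 r t₁' t₀' v B G⟩ A A' =
      V stp a μ ⟨p * M, M', t, t₁'⟩ A A' := by
  intro t
  have key : ∀ (t : DT Λ κ) (M : ℕ), ¬ stp M M' p → t.Col (p + 1) →
      (∃ Sp u, vw p t = .up Sp u) →
      V stp a μ ⟨M, M', t, .br p 0 r t₁' t₀' v B G⟩ A A' =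
      V stp a μ ⟨p * M, M', t, t₁'⟩ A A' := by
    intro t M hs ht ⟨Sp, u, hu⟩
    rw [d7 (p := p) (t := t) (t' := .br p 0 r t₁' t₀' v B G) (max_eq_right ht.top_le) hs
      vw_br_self hu hd]
    ring
  induction t with
  | leaf r f => intro M hs ht; exact key _ M hs ht ⟨_, _, rfl⟩
  | br q w rl t₁ t₀ vl Bl Gl ih₁ ih₀ =>
    intro M hs ht
    by_cases hq : q = p
    · subst hq
      have hsL := hI.mulL hp hs
      have eL : q * M / q = M := Nat.mul_div_cancel_left _ hp.pos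
      have key2 := V_fL (a := a) (μ := μ) (A := A) (A' := A') hI hp ht.2.2.1 ht.2.2.2.1 ht
        (Dvd.intro _ rfl : q ∣ q * M) hsL _ h1
      rw [eL] at key2
      have em : max (DT.br q w rl t₁ t₀ vl Bl Gl).top (DT.br q 0 r t₁' t₀' v B G).top = q :=
        max_self q
      by_cases hM : q ∣ M
      · have hs2 := hI.divL hp hM hs
        have e2 : q * (M / q) = M := Nat.mul_div_cancel' hM
        rw [V_fL hI hp ht.2.2.1 ht.2.2.2.1 ht hM hs _ hc, ih₁ (M / q) hs2 ht.2.2.1,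
          ih₀ (M / q) hs2 ht.2.2.2.1, e2, key2]
      · rw [d5 em hs vw_br_self vw_br_self hM hd, key2]
        ring
    · exact key _ M hs ht ⟨_, _, vw_of_ne (Or.inr hq)⟩
  | add q rl t₁ t₀ ih₁ ih₀ =>
    intro M hs ht
    by_cases hq : q = p
    · subst hq
      have hsL := hI.mulL hp hs
      rw [V_aL hs hc, ih₁ M hs ht.2.2.1, ih₀ M hs ht.2.2.2, V_aL hsL h1]
    · exact key _ M hs ht ⟨_, _, vw_of_ne (Or.inr hq)⟩
  | up q Sp u ih =>
    intro M hs ht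
    by_cases hq : q = p
    · subst hq; exact key _ M hs ht ⟨_, _, vw_up_self⟩
    · exact key _ M hs ht ⟨_, _, vw_of_ne (Or.inr hq)⟩

/-- a tree with columns `< p` -/
lemma low_vw {u : DT Λ κ} (hp : 0 < p) (h : u.Col p) : vw p u = .up ∅ u :=
  vw_of_ne (Or.inr (h.top_lt hp).ne)

/-- **retained column on the left**: nothing happens -/
theorem V_uL (hI : SI stp) (hp : p.Prime) {Sp : Finset Λ} {u : DT Λ κ} (hu : u.Col p) :
    ∀ (t' : DT Λ κ) (M M' : ℕ), ¬ stp M M' p → t'.Col (p + 1) →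
    V stp a μ ⟨M, M', .up p Sp u, t'⟩ A A' = V stp a μ ⟨M, M', u, t'⟩ A A' := by
  intro t'
  have hc : (DT.up p Sp u).Col (p + 1) := ⟨hp, Nat.lt_succ_self p, hu⟩
  have hu1 : u.Col (p + 1) := hu.mono (Nat.le_succ p)
  have hvu := low_vw hp.pos hu
  have key : ∀ (t' : DT Λ κ) (M M' : ℕ), ¬ stp M M' p → t'.Col (p + 1) →
      vw p t' = .up ∅ t' →
      V stp a μ ⟨M, M', .up p Sp u, t'⟩ A A' = V stp a μ ⟨M, M', u, t'⟩ A A' := by
    intro t' M M' hs ht hv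
    exact d8 (p := p) (t := .up p Sp u) (t' := t') (max_eq_left ht.top_le) hs (fun h => h.1)
      vw_up_self hv
  induction t' with
  | leaf r f => intro M M' hs ht; exact key _ M M' hs ht rfl
  | br q w r t₁ t₀ v B G ih₁ ih₀ =>
    intro M M' hs ht
    by_cases hq : q = p
    · subst hq
      have e1 : max (DT.up q Sp u).top (DT.br q w r t₁ t₀ v B G).top = q := max_self q
      have e2 : max u.top (DT.br q w r t₁ t₀ v B G).top = q := max_eq_right hu1.top_le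
      by_cases hM' : q ∣ M'
      · have hs2 := hI.divR hp hM' hs
        rw [d4 e1 hs vw_br_self (NA_up vw_up_self) hM' (by
              rintro ⟨_, _, _, _, _, _, _, h'⟩; rw [vw_up_self] at h'; cases h'),
          d4 e2 hs vw_br_self (NA_up hvu) hM' (by
              rintro ⟨_, _, _, _, _, _, _, h'⟩; rw [hvu] at h'; cases h'),
          ih₁ _ _ hs2 ht.2.2.1, ih₀ _ _ hs2 ht.2.2.2.1]
      · have hs2 := hI.mulL hp hs
        rw [d7 e1 hs vw_br_self vw_up_self hM', d7 e2 hs vw_br_self hvu hM',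
          ih₁ _ _ hs2 ht.2.2.1, ih₀ _ _ hs2 ht.2.2.2.1]
        rfl
    · exact key _ M M' hs ht (vw_of_ne (Or.inr hq))
  | add q r t₁ t₀ ih₁ ih₀ =>
    intro M M' hs ht
    by_cases hq : q = p
    · subst hq
      rw [V_aR hp ht.2.2.1 ht.2.2.2 hs _ hc, V_aR hp ht.2.2.1 ht.2.2.2 hs _ hu1,
        ih₁ _ _ hs ht.2.2.1, ih₀ _ _ hs ht.2.2.2]
    · exact key _ M M' hs ht (vw_of_ne (Or.inr hq))
  | up q Sp' u' ih =>
    intro M M' hs ht
    by_cases hq : q = p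
    · subst hq
      rw [d8 (p := q) (t := .up q Sp u) (t' := .up q Sp' u') (max_self q) hs (fun h => h.1)
          vw_up_self vw_up_self,
        d8 (p := q) (t := u) (t' := .up q Sp' u') (max_eq_right hu1.top_le) hs (fun h => h.2)
          hvu vw_up_self]
    · exact key _ M M' hs ht (vw_of_ne (Or.inr hq))

/-- **retained column on the right**: nothing happens -/
theorem V_uR (hI : SI stp) (hp : p.Prime) {Sp : Finset Λ} {u : DT Λ κ} (hu : u.Col p) :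
    ∀ (t : DT Λ κ) (M M' : ℕ), ¬ stp M M' p → t.Col (p + 1) →
    V stp a μ ⟨M, M', t, .up p Sp u⟩ A A' = V stp a μ ⟨M, M', t, u⟩ A A' := by
  intro t
  have hc : (DT.up p Sp u).Col (p + 1) := ⟨hp, Nat.lt_succ_self p, hu⟩
  have hu1 : u.Col (p + 1) := hu.mono (Nat.le_succ p)
  have hvu := low_vw hp.pos hu
  have key : ∀ (t : DT Λ κ) (M M' : ℕ), ¬ stp M M' p → t.Col (p + 1) →
      vw p t = .up ∅ t →
      V stp a μ ⟨M, M', t, .up p Sp u⟩ A A' = V stp a μ ⟨M, M', t, u⟩ A A' := by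
    intro t M M' hs ht hv
    exact d8 (p := p) (t := t) (t' := .up p Sp u) (max_eq_right ht.top_le) hs (fun h => h.2) hv
      vw_up_self
  induction t with
  | leaf r f => intro M M' hs ht; exact key _ M M' hs ht rfl
  | br q w r t₁ t₀ v B G ih₁ ih₀ =>
    intro M M' hs ht
    by_cases hq : q = p
    · subst hq
      by_cases hM : q ∣ M
      · have hs2 := hI.divL hp hM hs
        rw [V_fL hI hp ht.2.2.1 ht.2.2.2.1 ht hM hs _ hc,
          V_fL hI hp ht.2.2.1 ht.2.2.2.1 ht hM hs _ hu1,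
          ih₁ _ _ hs2 ht.2.2.1, ih₀ _ _ hs2 ht.2.2.2.1]
      · have hs2 := hI.mulR hp hs
        rw [d6 (p := q) (t := .br q w r t₁ t₀ v B G) (t' := .up q Sp u) (max_self q) hs
            vw_br_self vw_up_self hM,
          d6 (p := q) (t := .br q w r t₁ t₀ v B G) (t' := u) (max_eq_left hu1.top_le) hs
            vw_br_self hvu hM,
          ih₁ _ _ hs2 ht.2.2.1, ih₀ _ _ hs2 ht.2.2.2.1]
        rfl
    · exact key _ M M' hs ht (vw_of_ne (Or.inr hq))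
  | add q r t₁ t₀ ih₁ ih₀ =>
    intro M M' hs ht
    by_cases hq : q = p
    · subst hq
      rw [V_aL hs hc, V_aL hs hu1, ih₁ _ _ hs ht.2.2.1, ih₀ _ _ hs ht.2.2.2]
    · exact key _ M M' hs ht (vw_of_ne (Or.inr hq))
  | up q Sp' u' ih =>
    intro M M' hs ht
    by_cases hq : q = p
    · subst hq
      rw [d8 (p := q) (t := .up q Sp' u') (t' := .up q Sp u) (max_self q) hs (fun h => h.1)
          vw_up_self vw_up_self,
        d8 (p := q) (t := .up q Sp' u') (t' := u) (max_eq_left hu1.top_le) hs (fun h => h.1)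
          vw_up_self hvu]
    · exact key _ M M' hs ht (vw_of_ne (Or.inr hq))

/-- the `up` view on the left -/
theorem V_vL (hI : SI stp) (hp : p.Prime) (hs : ¬ stp M M' p) (ht : t.Col (p + 1))
    (ht' : t'.Col (p + 1)) {Sp : Finset Λ} {u : DT Λ κ} (hv : vw p t = .up Sp u) :
    V stp a μ ⟨M, M', t, t'⟩ A A' = V stp a μ ⟨M, M', u, t'⟩ A A' := by
  rcases vw_up hv with rfl | ⟨-, rfl, -⟩
  · exact V_uL hI hp ht.2.2 t' M M' hs ht'
  · rfl

/-- the `up` view on the right -/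
theorem V_vR (hI : SI stp) (hp : p.Prime) (hs : ¬ stp M M' p) (ht : t.Col (p + 1))
    (ht' : t'.Col (p + 1)) {Sp : Finset Λ} {u : DT Λ κ} (hv : vw p t' = .up Sp u) :
    V stp a μ ⟨M, M', t, t'⟩ A A' = V stp a μ ⟨M, M', t, u⟩ A A' := by
  rcases vw_up hv with rfl | ⟨-, rfl, -⟩
  · exact V_uR hI hp ht'.2.2 t M M' hs ht
  · rfl

end comm

end Crest.Agent.R4P.VWalk36
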