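import Crest.Agent.R4P.KerW_878

/-!
R4 (S0004), A-part, helper878: **in-node joins for the weight `W`, pointwise**.

* `Wo_slope` : `W y - W x ≤ 2 om(y) (y - x)`;
* `wjoin` : contents `h i ∈ [0,1]` of one class with child classes `c i`: the surplus
  `W (Σ h) - Σ_c W (Σ_c h)` is at most `8 C Σ φ (Z i j)` over the pairs of nonzero contents in
  different child classes, if every content has at most `T²` partners with `Z ≤ T` and
  `om n ≤ C n φ (√n / 2)`;
* `Ujoin` : the same for two arbitrary partitions `r` (above), `r'` (below);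
* `om1_phi`, `W1_Ujoin` : `om1`, `φ Z = (1 + log (max Z 1))²`, `C = 25/4`.
-/

set_option autoImplicit false
set_option linter.unusedVariables false

open Set Finset

namespace Crest.Agent.R4P.KerW878

section slope

variable {om : ℝ → ℝ}

lemma Wo_slope (h : OmOk om) {x y : ℝ} (hx : 0 ≤ x) (hxy : x ≤ y) :
    Wo om y - Wo om x ≤ 2 * om y * (y - x) := by
  rw [Wo_sub h]
  have h1 : (∫ t in x..y, 2 * om t) ≤ ∫ t in x..y, 2 * om y :=
    intervalIntegral.integral_mono_on hxy (h.ii x y) intervalIntegrable_const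
      fun t ht => by have := h.mono (hx.trans ht.1) ht.2; linarith
  rw [intervalIntegral.integral_const, smul_eq_mul] at h1
  linarith

end slope

section join

variable {om : ℝ → ℝ} {ι κ : Type*} [DecidableEq κ]

open Classical in
/-- the nonzero contents -/
noncomputable def nz (s : Finset ι) (h : ι → ℝ) : Finset ι := s.filter fun i => h i ≠ 0

lemma mem_nz {s : Finset ι} {h : ι → ℝ} {i : ι} : i ∈ nz s h ↔ i ∈ s ∧ h i ≠ 0 := by
  classical
  unfold nz; rw [Finset.mem_filter]

lemma sum_nz {s : Finset ι} {h : ι → ℝ} : ∑ i ∈ nz s h, h i = ∑ i ∈ s, h i := by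
  classical
  unfold nz
  rw [Finset.sum_filter_ne_zero]

/-- **surplus of a join** -/
theorem wjoin (hom : OmOk om) (s : Finset ι) {h : ι → ℝ} {c : ι → κ} {Z : ι → ι → ℝ}
    {φ : ℝ → ℝ} {C : ℝ} (h0 : ∀ i ∈ s, 0 ≤ h i) (h1 : ∀ i ∈ s, h i ≤ 1)
    (hφ : ∀ x, 0 ≤ φ x) (hφm : ∀ ⦃x y⦄, x ≤ y → φ x ≤ φ y)
    (hZ : ∀ i ∈ nz s h, ∀ T : ℝ, 0 ≤ T → (((nz s h).filter fun j => Z i j ≤ T).card : ℝ) ≤ T ^ 2)
    (hC : ∀ n : ℕ, 2 ≤ n → om n ≤ C * n * φ (Real.sqrt n / 2)) :
    Wo om (∑ i ∈ s, h i) - ∑ k ∈ s.image c, Wo om (∑ i ∈ s.filter (fun i => c i = k), h i) ≤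
      8 * C * ∑ i ∈ nz s h, ∑ j ∈ (nz s h).filter (fun j => c i ≠ c j), φ (Z i j) := by
  classical
  have hW := Wo_AW hom
  set s' := nz s h with hs'
  have sub : s' ⊆ s := fun i hi => (mem_nz.1 hi).1
  have hC0 : 0 ≤ ∑ i ∈ s', ∑ j ∈ s'.filter (fun j => c i ≠ c j), φ (Z i j) :=
    Finset.sum_nonneg fun i _ => Finset.sum_nonneg fun j _ => hφ _
  have part0 : ∀ k, 0 ≤ Wo om (∑ i ∈ s.filter (fun i => c i = k), h i) := fun k =>
    hW.nonneg (Finset.sum_nonneg fun i hi => h0 i (Finset.mem_filter.1 hi).1)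
  rcases s'.eq_empty_or_nonempty with he | hne
  · -- no content
    have e0 : ∑ i ∈ s, h i = 0 := by rw [← sum_nz, ← hs', he, Finset.sum_empty]
    rw [e0, hW.zero, he, Finset.sum_empty, mul_zero]
    have := Finset.sum_nonneg fun k (_ : k ∈ s.image c) => part0 k
    linarith
  · -- the class with the largest number of contents
    set cnt : κ → ℕ := fun k => (s'.filter fun i => c i = k).card with hcnt
    obtain ⟨k, hk, hmax⟩ := Finset.exists_max_image (s'.image c) cnt (hne.image c)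
    have hks : k ∈ s.image c := Finset.image_subset_image sub hk
    set n := s'.card with hn
    set m := (s'.filter fun i => c i ≠ k).card with hm
    have hnm : cnt k + m = n := Finset.card_filter_add_card_filter_not (s := s') (fun i => c i = k)
    set A := ∑ i ∈ s, h i with hA
    set a := ∑ i ∈ s.filter (fun i => c i = k), h i with ha
    have ea : a = ∑ i ∈ s'.filter (fun i => c i = k), h i := by
      rw [ha]
      refine (Finset.sum_subset (fun i hi => ?_) fun i hi hi' => ?_).symm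
      · obtain ⟨x1, x2⟩ := Finset.mem_filter.1 hi
        exact Finset.mem_filter.2 ⟨sub x1, x2⟩
      · obtain ⟨x1, x2⟩ := Finset.mem_filter.1 hi
        by_contra hc
        exact hi' (Finset.mem_filter.2 ⟨mem_nz.2 ⟨x1, hc⟩, x2⟩)
    have eA : A = ∑ i ∈ s', h i := by rw [hA, hs', sum_nz]
    have eAa : A - a = ∑ i ∈ s'.filter (fun i => c i ≠ k), h i := by
      rw [eA, ea, ← Finset.sum_filter_add_sum_filter_not s' (fun i => c i = k)]
      ring
    have ha0 : 0 ≤ a := Finset.sum_nonneg fun i hi => h0 i (Finset.mem_filter.1 hi).1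
    have hAn : A ≤ n := by
      rw [eA, hn]
      have : ∑ i ∈ s', h i ≤ ∑ i ∈ s', (1 : ℝ) := Finset.sum_le_sum fun i hi => h1 i (sub hi)
      simpa using this
    have hAam : A - a ≤ m := by
      rw [eAa, hm]
      have : ∑ i ∈ s'.filter (fun i => c i ≠ k), h i ≤ ∑ i ∈ s'.filter (fun i => c i ≠ k), (1 : ℝ) :=
        Finset.sum_le_sum fun i hi => h1 i (sub (Finset.mem_filter.1 hi).1)
      simpa using this
    have hAa0 : 0 ≤ A - a := by
      rw [eAa]; exact Finset.sum_nonneg fun i hi => h0 i (sub (Finset.mem_filter.1 hi).1)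
    -- upper bound of the surplus
    have up : Wo om A - ∑ k ∈ s.image c, Wo om (∑ i ∈ s.filter (fun i => c i = k), h i) ≤
        2 * om n * m := by
      have x1 : Wo om a ≤ ∑ k ∈ s.image c, Wo om (∑ i ∈ s.filter (fun i => c i = k), h i) :=
        Finset.single_le_sum (f := fun k => Wo om (∑ i ∈ s.filter (fun i => c i = k), h i))
          (fun k _ => part0 k) hks
      have x2 := Wo_slope hom ha0 (show a ≤ A by linarith)
      have x3 : om A ≤ om n := hom.mono (by linarith) hAn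
      have x4 : 0 ≤ om A := hom.nn (by linarith)
      have x5 : 2 * om A * (A - a) ≤ 2 * om n * m :=
        mul_le_mul (by linarith) hAam hAa0 (by linarith)
      linarith
    rcases Nat.eq_zero_or_pos m with hm0 | hm0
    · -- one child class
      rw [hm0, Nat.cast_zero, mul_zero] at up
      refine up.trans ?_
      have hCn : 0 ≤ C := by
        have x := hC 2 le_rfl
        by_contra hc
        push Not at hc
        have x1 : 0 < om ((2 : ℕ) : ℝ) := hom.pos (by norm_num)
        have x2 : C * ((2 : ℕ) : ℝ) * φ (Real.sqrt ((2 : ℕ) : ℝ) / 2) ≤ 0 :=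
          mul_nonpos_of_nonpos_of_nonneg (by push_cast; linarith) (hφ _)
        exact absurd (x1.trans_le x) (not_lt.2 x2)
      positivity
    -- at least two contents
    have hk1 : 1 ≤ cnt k := by
      obtain ⟨i, hi, hik⟩ := Finset.mem_image.1 hk
      exact Finset.card_pos.2 ⟨i, Finset.mem_filter.2 ⟨hi, hik⟩⟩
    have hn2 : 2 ≤ n := by omega
    have hn0 : (0 : ℝ) < n := by exact_mod_cast (by omega : 0 < n)
    have hCn := hC n hn2
    set T := Real.sqrt n / 2 with hT
    have hT0 : 0 ≤ T := by positivity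
    have hT2 : T ^ 2 = n / 4 := by
      rw [hT, div_pow, Real.sq_sqrt hn0.le]; norm_num
    -- lower bound for one content outside of the largest class
    have low : ∀ i ∈ s'.filter (fun i => c i ≠ k), (n : ℝ) / 4 * φ T ≤
        ∑ j ∈ s'.filter (fun j => c i ≠ c j), φ (Z i j) := by
      intro i hi
      obtain ⟨hi1, hi2⟩ := Finset.mem_filter.1 hi
      have y1 : cnt (c i) ≤ cnt k := hmax _ (Finset.mem_image_of_mem c hi1)
      have y2 : cnt (c i) ≤ m := by
        refine Finset.card_le_card fun j hj => ?_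
        obtain ⟨j1, j2⟩ := Finset.mem_filter.1 hj
        exact Finset.mem_filter.2 ⟨j1, by rw [j2]; exact hi2⟩
      have y3 : cnt (c i) + (s'.filter fun j => c i ≠ c j).card = n := by
        have := Finset.card_filter_add_card_filter_not (s := s') (fun j => c j = c i)
        have e : (s'.filter fun j => c i ≠ c j) = s'.filter fun j => ¬ c j = c i := by
          refine Finset.filter_congr fun j _ => ?_
          exact ne_comm
        rw [e]
        exact this
      have y4 : (n : ℝ) / 2 ≤ ((s'.filter fun j => c i ≠ c j).card : ℝ) := by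
        have z1 : n ≤ 2 * (s'.filter fun j => c i ≠ c j).card := by omega
        have z2 : (n : ℝ) ≤ 2 * ((s'.filter fun j => c i ≠ c j).card : ℝ) := by exact_mod_cast z1
        linarith
      have y5 := hZ i hi1 T hT0
      rw [hT2] at y5
      -- partners with large `Z`
      set J := s'.filter (fun j => c i ≠ c j) with hJ
      have y6 : (n : ℝ) / 4 ≤ ((J.filter fun j => ¬ Z i j ≤ T).card : ℝ) := by
        have z1 := Finset.card_filter_add_card_filter_not (s := J) (fun j => Z i j ≤ T)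
        have z2 : (J.filter fun j => Z i j ≤ T).card ≤ (s'.filter fun j => Z i j ≤ T).card :=
          Finset.card_le_card (Finset.filter_subset_filter _ (Finset.filter_subset _ _))
        have z3 : ((J.filter fun j => Z i j ≤ T).card : ℝ) +
            ((J.filter fun j => ¬ Z i j ≤ T).card : ℝ) = (J.card : ℝ) := by exact_mod_cast z1
        have z4 : ((J.filter fun j => Z i j ≤ T).card : ℝ) ≤
            ((s'.filter fun j => Z i j ≤ T).card : ℝ) := by exact_mod_cast z2
        linarith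
      calc (n : ℝ) / 4 * φ T ≤ ((J.filter fun j => ¬ Z i j ≤ T).card : ℝ) * φ T :=
            mul_le_mul_of_nonneg_right y6 (hφ _)
        _ = ∑ j ∈ J.filter (fun j => ¬ Z i j ≤ T), φ T := by
            rw [Finset.sum_const, nsmul_eq_mul]
        _ ≤ ∑ j ∈ J.filter (fun j => ¬ Z i j ≤ T), φ (Z i j) :=
            Finset.sum_le_sum fun j hj => hφm (not_le.1 (Finset.mem_filter.1 hj).2).le
        _ ≤ ∑ j ∈ J, φ (Z i j) :=
            Finset.sum_le_sum_of_subset_of_nonneg (Finset.filter_subset _ _) fun j _ _ => hφ _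
    have tot : (m : ℝ) * ((n : ℝ) / 4 * φ T) ≤
        ∑ i ∈ s', ∑ j ∈ s'.filter (fun j => c i ≠ c j), φ (Z i j) := by
      calc (m : ℝ) * ((n : ℝ) / 4 * φ T) = ∑ i ∈ s'.filter (fun i => c i ≠ k),
            ((n : ℝ) / 4 * φ T) := by rw [Finset.sum_const, nsmul_eq_mul]
        _ ≤ ∑ i ∈ s'.filter (fun i => c i ≠ k), ∑ j ∈ s'.filter (fun j => c i ≠ c j), φ (Z i j) :=
            Finset.sum_le_sum low
        _ ≤ _ := Finset.sum_le_sum_of_subset_of_nonneg (Finset.filter_subset _ _) fun i _ _ =>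
            Finset.sum_nonneg fun j _ => hφ _
    have hCp : 0 ≤ C := by
      by_contra hc
      push Not at hc
      have x1 : 0 < om (n : ℝ) := hom.pos hn0
      have x2 : C * (n : ℝ) * φ T ≤ 0 :=
        mul_nonpos_of_nonpos_of_nonneg (by nlinarith) (hφ _)
      linarith
    have fin : 2 * om n * m ≤ 8 * C * ((m : ℝ) * ((n : ℝ) / 4 * φ T)) := by
      have := mul_le_mul_of_nonneg_right hCn (show (0 : ℝ) ≤ 2 * m by positivity)
      linarith
    exact up.trans (fin.trans (mul_le_mul_of_nonneg_left tot (by positivity)))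

end join

/-! ### two partitions -/

section parts

variable {om : ℝ → ℝ} {Λ κ : Type*} [Fintype Λ] [Fintype κ] [DecidableEq κ]

/-- the energy of a partition at a point -/
noncomputable def UW (W : ℝ → ℝ) (r : Λ → κ) (f : Λ → ℝ) : ℝ :=
  ∑ k, W (∑ i ∈ Finset.univ.filter (fun i => r i = k), f i)

/-- superadditivity for a finite family -/
lemma AW.sum_le {W : ℝ → ℝ} (h : AW W) {ι : Type*} (s : Finset ι) {f : ι → ℝ}
    (hf : ∀ i ∈ s, 0 ≤ f i) : ∑ i ∈ s, W (f i) ≤ W (∑ i ∈ s, f i) := by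
  classical
  induction s using Finset.induction_on with
  | empty => simp [h.zero]
  | insert a s ha ih =>
    rw [Finset.sum_insert ha, Finset.sum_insert ha]
    have h1 := ih fun i hi => hf i (Finset.mem_insert_of_mem hi)
    have h2 := h.sup_add (hf a (Finset.mem_insert_self _ _))
      (Finset.sum_nonneg fun i hi => hf i (Finset.mem_insert_of_mem hi))
    linarith

open Classical in
/-- **joins between two partitions** (`r` above, `r'` below) -/
theorem Ujoin (hom : OmOk om) (r r' : Λ → κ) {f : Λ → ℝ} {Z : Λ → Λ → ℝ}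
    {φ : ℝ → ℝ} {C : ℝ} (h0 : ∀ i, 0 ≤ f i) (h1 : ∀ i, f i ≤ 1)
    (hφ : ∀ x, 0 ≤ φ x) (hφm : ∀ ⦃x y⦄, x ≤ y → φ x ≤ φ y)
    (hZ : ∀ i, f i ≠ 0 → ∀ T : ℝ, 0 ≤ T →
      ((Finset.univ.filter fun j => (r i = r j ∧ f j ≠ 0) ∧ Z i j ≤ T).card : ℝ) ≤ T ^ 2)
    (hC : ∀ n : ℕ, 2 ≤ n → om n ≤ C * n * φ (Real.sqrt n / 2)) :
    UW (Wo om) r f - UW (Wo om) r' f ≤
      8 * C * ∑ x ∈ Finset.univ.filter (fun x : Λ × Λ =>
        r x.1 = r x.2 ∧ r' x.1 ≠ r' x.2 ∧ f x.1 ≠ 0 ∧ f x.2 ≠ 0), φ (Z x.1 x.2) := by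
  have hW := Wo_AW hom
  set S : κ → Finset Λ := fun k => Finset.univ.filter (fun i => r i = k) with hS
  -- the common refinement is below `r'`
  have ref : ∑ k, ∑ k' ∈ (S k).image r', Wo om (∑ i ∈ (S k).filter (fun i => r' i = k'), f i) ≤
      UW (Wo om) r' f := by
    have e1 : ∀ k, ∑ k' ∈ (S k).image r', Wo om (∑ i ∈ (S k).filter (fun i => r' i = k'), f i) =
        ∑ k', Wo om (∑ i ∈ (S k).filter (fun i => r' i = k'), f i) := by
      intro k
      refine Finset.sum_subset (Finset.subset_univ _) fun k' _ hk' => ?_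
      have : (S k).filter (fun i => r' i = k') = ∅ := by
        rw [Finset.filter_eq_empty_iff]
        intro i hi he
        exact hk' (Finset.mem_image.2 ⟨i, hi, he⟩)
      rw [this, Finset.sum_empty, hW.zero]
    rw [Finset.sum_congr rfl fun k _ => e1 k, Finset.sum_comm]
    unfold UW
    refine Finset.sum_le_sum fun k' _ => ?_
    have e2 : ∑ i ∈ Finset.univ.filter (fun i => r' i = k'), f i =
        ∑ k, ∑ i ∈ (S k).filter (fun i => r' i = k'), f i := by
      rw [← Finset.sum_fiberwise (s := Finset.univ.filter (fun i => r' i = k')) (g := r)]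
      refine Finset.sum_congr rfl fun k _ => Finset.sum_congr ?_ fun _ _ => rfl
      ext i
      simp only [hS, Finset.mem_filter, Finset.mem_univ, true_and]
      exact and_comm
    rw [e2]
    exact hW.sum_le _ fun k _ => Finset.sum_nonneg fun i _ => h0 i
  -- class by class
  have cls : ∀ k, Wo om (∑ i ∈ S k, f i) - ∑ k' ∈ (S k).image r',
      Wo om (∑ i ∈ (S k).filter (fun i => r' i = k'), f i) ≤
      8 * C * ∑ i ∈ nz (S k) f, ∑ j ∈ (nz (S k) f).filter (fun j => r' i ≠ r' j), φ (Z i j) := by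
    intro k
    refine wjoin hom (S k) (fun i _ => h0 i) (fun i _ => h1 i) hφ hφm (fun i hi T hT => ?_) hC
    obtain ⟨i1, i2⟩ := mem_nz.1 hi
    refine le_trans ?_ (hZ i i2 T hT)
    have : ((nz (S k) f).filter fun j => Z i j ≤ T) ⊆
        Finset.univ.filter fun j => (r i = r j ∧ f j ≠ 0) ∧ Z i j ≤ T := by
      intro j hj
      obtain ⟨j1, j2⟩ := Finset.mem_filter.1 hj
      obtain ⟨j3, j4⟩ := mem_nz.1 j1
      refine Finset.mem_filter.2 ⟨Finset.mem_univ _, ⟨?_, j4⟩, j2⟩
      rw [(Finset.mem_filter.1 i1).2, (Finset.mem_filter.1 j3).2]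
    exact_mod_cast Finset.card_le_card this
  have sumc := Finset.sum_le_sum fun k (_ : k ∈ (Finset.univ : Finset κ)) => cls k
  rw [Finset.sum_sub_distrib, ← Finset.mul_sum] at sumc
  have e3 : ∑ k, ∑ i ∈ nz (S k) f, ∑ j ∈ (nz (S k) f).filter (fun j => r' i ≠ r' j), φ (Z i j) =
      ∑ x ∈ Finset.univ.filter (fun x : Λ × Λ =>
        r x.1 = r x.2 ∧ r' x.1 ≠ r' x.2 ∧ f x.1 ≠ 0 ∧ f x.2 ≠ 0), φ (Z x.1 x.2) := by
    have e4 : ∀ k, ∑ i ∈ nz (S k) f, ∑ j ∈ (nz (S k) f).filter (fun j => r' i ≠ r' j), φ (Z i j) =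
        ∑ x ∈ (Finset.univ.filter (fun x : Λ × Λ =>
          r x.1 = r x.2 ∧ r' x.1 ≠ r' x.2 ∧ f x.1 ≠ 0 ∧ f x.2 ≠ 0)).filter (fun x => r x.1 = k),
          φ (Z x.1 x.2) := by
      intro k
      rw [Finset.sum_sigma']
      refine Finset.sum_bij' (fun x _ => (x.1, x.2)) (fun x _ => ⟨x.1, x.2⟩) ?_ ?_ ?_ ?_ ?_
      · intro x hx
        obtain ⟨x1, x2⟩ := Finset.mem_sigma.1 hx
        obtain ⟨x3, x4⟩ := Finset.mem_filter.1 x2
        obtain ⟨y1, y2⟩ := mem_nz.1 x1
        obtain ⟨y3, y4⟩ := mem_nz.1 x3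
        have z1 := (Finset.mem_filter.1 y1).2
        have z2 := (Finset.mem_filter.1 y3).2
        simp only [Finset.mem_filter, Finset.mem_univ, true_and]
        exact ⟨⟨z1.trans z2.symm, x4, y2, y4⟩, z1⟩
      · intro x hx
        simp only [Finset.mem_filter, Finset.mem_univ, true_and] at hx
        obtain ⟨⟨x1, x2, x3, x4⟩, x5⟩ := hx
        rw [Finset.mem_sigma, Finset.mem_filter]
        refine ⟨mem_nz.2 ⟨Finset.mem_filter.2 ⟨Finset.mem_univ _, x5⟩, x3⟩,
          mem_nz.2 ⟨Finset.mem_filter.2 ⟨Finset.mem_univ _, x1.symm.trans x5⟩, x4⟩, x2⟩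
      · intro x _; rfl
      · intro x _; rfl
      · intro x _; rfl
    rw [Finset.sum_congr rfl fun k _ => e4 k]
    exact Finset.sum_fiberwise _ _ _
  rw [e3] at sumc
  have e5 : UW (Wo om) r f = ∑ k, Wo om (∑ i ∈ S k, f i) := rfl
  rw [e5]
  linarith

end parts

/-! ### `om1` -/

/-- the pair weight of `om1` -/
noncomputable def phi1 (Z : ℝ) : ℝ := (1 + Real.log (max Z 1)) ^ 2

lemma phi1_nonneg (x : ℝ) : 0 ≤ phi1 x := sq_nonneg _

lemma phi1_mono ⦃x y : ℝ⦄ (h : x ≤ y) : phi1 x ≤ phi1 y := by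
  unfold phi1
  have h1 : (1 : ℝ) ≤ max x 1 := le_max_right _ _
  have h2 := Real.log_nonneg h1
  have h3 := Real.log_le_log (by linarith) (max_le_max h (le_refl (1 : ℝ)))
  exact pow_le_pow_left₀ (by linarith) (by linarith) 2

lemma om1_phi (n : ℕ) (hn : 2 ≤ n) : om1 n ≤ 25 / 4 * n * phi1 (Real.sqrt n / 2) := by
  have hn2 : (2 : ℝ) ≤ n := by exact_mod_cast hn
  have hn0 : (0 : ℝ) < n := by linarith
  rw [om1_ge (by linarith)]
  unfold phi1
  have hL := Real.log_nonneg (show (1 : ℝ) ≤ n by linarith)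
  have key : 1 + Real.log n ≤ 5 / 2 * (1 + Real.log (max (Real.sqrt n / 2) 1)) := by
    have l2 := Real.log_two_lt_d9
    have l2' := Real.log_two_gt_d9
    have l4 : Real.log 4 = 2 * Real.log 2 := by
      rw [show (4 : ℝ) = 2 ^ 2 by norm_num, Real.log_pow]; norm_num
    rcases le_total (n : ℝ) 4 with h4 | h4
    · have h5 := Real.log_le_log hn0 h4
      have h6 : 0 ≤ Real.log (max (Real.sqrt n / 2) 1) := Real.log_nonneg (le_max_right _ _)
      linarith
    · have h5 := Real.log_le_log (by norm_num : (0 : ℝ) < 4) h4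
      have h7 : 0 < Real.sqrt n := Real.sqrt_pos.2 hn0
      have h6 : Real.log (Real.sqrt n / 2) ≤ Real.log (max (Real.sqrt n / 2) 1) :=
        Real.log_le_log (by positivity) (le_max_left _ _)
      rw [Real.log_div h7.ne' (by norm_num), Real.log_sqrt hn0.le] at h6
      linarith
  have h0 : 0 ≤ 1 + Real.log n := by linarith
  have := pow_le_pow_left₀ h0 key 2
  rw [mul_pow] at this
  have h3 := mul_le_mul_of_nonneg_left this hn0.le
  linarith

open Classical in
/-- **joins between two partitions for `W1`** -/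
theorem W1_Ujoin {Λ κ : Type*} [Fintype Λ] [Fintype κ] [DecidableEq κ] (r r' : Λ → κ) {f : Λ → ℝ}
    {Z : Λ → Λ → ℝ} (h0 : ∀ i, 0 ≤ f i) (h1 : ∀ i, f i ≤ 1)
    (hZ : ∀ i, f i ≠ 0 → ∀ T : ℝ, 0 ≤ T →
      ((Finset.univ.filter fun j => (r i = r j ∧ f j ≠ 0) ∧ Z i j ≤ T).card : ℝ) ≤ T ^ 2) :
    UW W1 r f - UW W1 r' f ≤
      50 * ∑ x ∈ Finset.univ.filter (fun x : Λ × Λ =>
        r x.1 = r x.2 ∧ r' x.1 ≠ r' x.2 ∧ f x.1 ≠ 0 ∧ f x.2 ≠ 0), phi1 (Z x.1 x.2) := by
  have := Ujoin om1_ok r r' h0 h1 phi1_nonneg phi1_mono hZ om1_phi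
  have e : (8 : ℝ) * (25 / 4) = 50 := by norm_num
  rw [e] at this
  exact this

end Crest.Agent.R4P.KerW878
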