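import Mathlib

/-!
R4 (S0004) with powers, helper30: **[Y2]: weight of the nodes of a group whose product of missed
primes lies in one multiplicative window and in one unit class mod `k`** (form of helper4 #25112).

Walk weights of `Grp_36`: `1/l` for a missed `l`, `1 - 1/l` for a present `l`.
-/

set_option autoImplicit false

open Finset

namespace Crest.Agent.R4P.WinY30

/-- weight of the miss set `N` of the columns `S` -/
noncomputable def PW (S N : Finset ℕ) : ℝ :=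
  (∏ l ∈ N, (1 / (l : ℝ))) * ∏ l ∈ S \ N, (1 - 1 / (l : ℝ))

lemma PW_nonneg {S N : Finset ℕ} (hS : ∀ l ∈ S, 1 ≤ l) : 0 ≤ PW S N := by
  refine mul_nonneg (prod_nonneg fun l _ => by positivity) (prod_nonneg fun l hl => ?_)
  have h1 : (1 : ℝ) ≤ l := by exact_mod_cast hS l (mem_sdiff.1 hl).1
  rw [sub_nonneg, div_le_one (by linarith)]
  exact h1

/-- total weight one -/
lemma sum_PW (S : Finset ℕ) : ∑ N ∈ S.powerset, PW S N = 1 := by
  unfold PW
  rw [← prod_add]
  exact prod_eq_one fun l _ => by ring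

/-- removing one miss -/
lemma PW_erase {S N : Finset ℕ} {s : ℕ} (hs : s ∈ N) (hN : N ⊆ S) (h2 : 2 ≤ s) :
    PW S N = PW S (N.erase s) * (1 / ((s : ℝ) - 1)) := by
  have e1 : ∏ l ∈ N, (1 / (l : ℝ)) = (1 / (s : ℝ)) * ∏ l ∈ N.erase s, (1 / (l : ℝ)) :=
    (mul_prod_erase N (fun l => 1 / (l : ℝ)) hs).symm
  have e2 : S \ N.erase s = insert s (S \ N) := by
    ext a
    simp only [mem_sdiff, mem_erase, mem_insert, not_and, ne_eq]
    constructor
    · rintro ⟨h, h'⟩
      by_cases ha : a = s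
      · exact Or.inl ha
      · exact Or.inr ⟨h, h' ha⟩
    · rintro (rfl | ⟨h, h'⟩)
      · exact ⟨hN hs, fun h => absurd rfl h⟩
      · exact ⟨h, fun _ => h'⟩
  have e3 : ∏ l ∈ S \ N.erase s, (1 - 1 / (l : ℝ)) =
      (1 - 1 / (s : ℝ)) * ∏ l ∈ S \ N, (1 - 1 / (l : ℝ)) := by
    rw [e2, prod_insert]
    simp [hs]
  have h2' : (2 : ℝ) ≤ s := by exact_mod_cast h2
  have h3 : (s : ℝ) ≠ 0 := by linarith
  have h4 : (s : ℝ) - 1 ≠ 0 := by linarith
  unfold PW
  rw [e1, e3]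
  field_simp

/-- `k / x ≤ log x - log (x - k)` -/
lemma log_step {x k : ℝ} (hk : 0 ≤ k) (hx : k < x) : k / x ≤ Real.log x - Real.log (x - k) := by
  have hx0 : 0 < x := lt_of_le_of_lt hk hx
  have h1 : 0 < (x - k) / x := div_pos (by linarith) hx0
  have h2 := Real.log_le_sub_one_of_pos h1
  rw [Real.log_div (by linarith) hx0.ne'] at h2
  have h3 : (x - k) / x - 1 = -(k / x) := by field_simp; ring
  linarith

/-- sum of reciprocals over a `k`-separated set -/
lemma sum_sep {k m : ℕ} (hk : 1 ≤ k) (hm : 2 ≤ m) (A : Finset ℕ) :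
    ∀ (M : ℕ), m ≤ M → (∀ s ∈ A, m ≤ s) → (∀ s ∈ A, s ≤ M) →
      (∀ s ∈ A, ∀ t ∈ A, s < t → s + k ≤ t) →
      ∑ s ∈ A, 1 / ((s : ℝ) - 1) ≤ 1 / ((m : ℝ) - 1) +
        (Real.log ((M : ℝ) - 1) - Real.log ((m : ℝ) - 1)) / k := by
  have hm' : (2 : ℝ) ≤ m := by exact_mod_cast hm
  have hk' : (1 : ℝ) ≤ k := by exact_mod_cast hk
  induction A using Finset.induction_on_max with
  | empty =>
    intro M hM _ _ _
    have hM' : (m : ℝ) ≤ M := by exact_mod_cast hM
    have h1 : Real.log ((m : ℝ) - 1) ≤ Real.log ((M : ℝ) - 1) :=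
      Real.log_le_log (by linarith) (by linarith)
    have h2 : 0 ≤ 1 / ((m : ℝ) - 1) := by
      apply div_nonneg zero_le_one; linarith
    have h3 : 0 ≤ (Real.log ((M : ℝ) - 1) - Real.log ((m : ℝ) - 1)) / k :=
      div_nonneg (by linarith) (by linarith)
    rw [sum_empty]
    linarith
  | insert a A ha ih =>
    intro M hM hmA hMA hsep
    have hanot : a ∉ A := fun h => lt_irrefl _ (ha a h)
    rw [sum_insert hanot]
    have hma : m ≤ a := hmA a (mem_insert_self _ _)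
    have haM : a ≤ M := hMA a (mem_insert_self _ _)
    have hma' : (m : ℝ) ≤ a := by exact_mod_cast hma
    have haM' : (a : ℝ) ≤ M := by exact_mod_cast haM
    have hlM : Real.log ((a : ℝ) - 1) ≤ Real.log ((M : ℝ) - 1) :=
      Real.log_le_log (by linarith) (by linarith)
    rcases A.eq_empty_or_nonempty with rfl | ⟨s0, hs0⟩
    · rw [sum_empty, add_zero]
      have h1 : 1 / ((a : ℝ) - 1) ≤ 1 / ((m : ℝ) - 1) :=
        one_div_le_one_div_of_le (by linarith) (by linarith)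
      have h2 : Real.log ((m : ℝ) - 1) ≤ Real.log ((M : ℝ) - 1) :=
        Real.log_le_log (by linarith) (by linarith)
      have h3 : 0 ≤ (Real.log ((M : ℝ) - 1) - Real.log ((m : ℝ) - 1)) / k :=
        div_nonneg (by linarith) (by linarith)
      linarith
    · have h0 : s0 + k ≤ a := hsep s0 (mem_insert_of_mem hs0) a (mem_insert_self _ _) (ha s0 hs0)
      have hms0 := hmA s0 (mem_insert_of_mem hs0)
      have hmk : m ≤ a - k := by omega
      have hka : k ≤ a := by omega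
      have h1 := ih (a - k) hmk (fun s hs => hmA s (mem_insert_of_mem hs)) (fun s hs => by
        have := hsep s (mem_insert_of_mem hs) a (mem_insert_self _ _) (ha s hs)
        omega) (fun s hs t ht => hsep s (mem_insert_of_mem hs) t (mem_insert_of_mem ht))
      rw [Nat.cast_sub hka] at h1
      have h2 : (k : ℝ) < (a : ℝ) - 1 := by
        have : m + k ≤ a := by omega
        have h3 : (m : ℝ) + k ≤ a := by exact_mod_cast this
        linarith
      have h3 := log_step (k := (k : ℝ)) (x := (a : ℝ) - 1) (by linarith) h2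
      have e1 : (a : ℝ) - 1 - k = (a : ℝ) - k - 1 := by ring
      rw [e1] at h3
      have h4 : 1 / ((a : ℝ) - 1) ≤
          (Real.log ((a : ℝ) - 1) - Real.log ((a : ℝ) - k - 1)) / k := by
        rw [le_div_iff₀ (by linarith)]
        calc 1 / ((a : ℝ) - 1) * k = k / ((a : ℝ) - 1) := by ring
          _ ≤ _ := h3
      have h5 : (Real.log ((a : ℝ) - 1) - Real.log ((a : ℝ) - k - 1)) / k +
          (Real.log ((a : ℝ) - k - 1) - Real.log ((m : ℝ) - 1)) / k =
          (Real.log ((a : ℝ) - 1) - Real.log ((m : ℝ) - 1)) / k := by ring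
      have h6 : (Real.log ((a : ℝ) - 1) - Real.log ((m : ℝ) - 1)) / k ≤
          (Real.log ((M : ℝ) - 1) - Real.log ((m : ℝ) - 1)) / k :=
        div_le_div_of_nonneg_right (by linarith) (by linarith)
      linarith

/-- **sum of `1/(s-1)` over the part of one class mod `k` in a multiplicative window** -/
theorem sum_win {k p : ℕ} {T Z : ℝ} (hk : 1 ≤ k) (hp : 2 ≤ p) (hZ : 1 ≤ Z) (A : Finset ℕ)
    (hA : ∀ s ∈ A, p ≤ s) (hT : ∀ s ∈ A, T ≤ (s : ℝ)) (hT' : ∀ s ∈ A, (s : ℝ) ≤ Z * T)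
    (hc : ∀ s ∈ A, ∀ t ∈ A, s ≡ t [MOD k]) :
    ∑ s ∈ A, 1 / ((s : ℝ) - 1) ≤ 1 / ((p : ℝ) - 1) + (1 + Real.log Z) / k := by
  have hp' : (2 : ℝ) ≤ p := by exact_mod_cast hp
  have hk' : (1 : ℝ) ≤ k := by exact_mod_cast hk
  have hlZ : 0 ≤ Real.log Z := Real.log_nonneg hZ
  rcases A.eq_empty_or_nonempty with rfl | hne
  · rw [sum_empty]
    have h2 : 0 ≤ 1 / ((p : ℝ) - 1) := by
      apply div_nonneg zero_le_one; linarith
    have h3 : 0 ≤ (1 + Real.log Z) / k := div_nonneg (by linarith) (by linarith)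
    linarith
  · set m := A.min' hne with hm
    set M := A.max' hne with hM
    have hmA : m ∈ A := min'_mem _ _
    have hMA : M ∈ A := max'_mem _ _
    have hpm : p ≤ m := hA m hmA
    have hmM : m ≤ M := min'_le _ _ hMA
    have h1 := sum_sep hk (le_trans hp hpm) A M hmM (fun s hs => min'_le _ _ hs)
      (fun s hs => le_max' _ _ hs) (fun s hs t ht hst => by
        have h := hc s hs t ht
        have h2 : k ∣ t - s := (Nat.modEq_iff_dvd' hst.le).1 h
        have h3 := Nat.le_of_dvd (by omega) h2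
        omega)
    have hm2 : (2 : ℝ) ≤ m := by
      have : p ≤ m := hpm
      have h : (p : ℝ) ≤ m := by exact_mod_cast this
      linarith
    have hpm' : (p : ℝ) ≤ m := by exact_mod_cast hpm
    have hmM' : (m : ℝ) ≤ M := by exact_mod_cast hmM
    have hMZ : (M : ℝ) ≤ Z * m := by
      calc (M : ℝ) ≤ Z * T := hT' M hMA
        _ ≤ Z * m := mul_le_mul_of_nonneg_left (hT m hmA) (by linarith)
    have h2 : 1 / ((m : ℝ) - 1) ≤ 1 / ((p : ℝ) - 1) :=
      one_div_le_one_div_of_le (by linarith) (by linarith)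
    have h3 : Real.log ((M : ℝ) - 1) - Real.log ((m : ℝ) - 1) ≤ 1 + Real.log Z := by
      rw [← Real.log_div (by linarith) (by linarith)]
      have h4 : ((M : ℝ) - 1) / ((m : ℝ) - 1) ≤ 2 * Z := by
        rw [div_le_iff₀ (by linarith)]
        nlinarith
      have h5 : 0 < ((M : ℝ) - 1) / ((m : ℝ) - 1) := div_pos (by linarith) (by linarith)
      have h6 := Real.log_le_log h5 h4
      rw [Real.log_mul (by norm_num) (by linarith)] at h6
      have h7 := Real.log_two_lt_d9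
      linarith
    have h4 := div_le_div_of_nonneg_right h3 (by linarith : (0 : ℝ) ≤ k)
    linarith

/-- **[Y2]** -/
theorem Y2 {S : Finset ℕ} {p k b : ℕ} {T Z : ℝ} (hp : 2 ≤ p) (hS : ∀ l ∈ S, p ≤ l) (hk : 1 ≤ k)
    (hb : Nat.Coprime b k) (_hT : 0 < T) (hZ : 1 ≤ Z) :
    ∑ N ∈ S.powerset.filter (fun N : Finset ℕ => N.Nonempty ∧ T ≤ ∏ l ∈ N, (l : ℝ) ∧
      ∏ l ∈ N, (l : ℝ) ≤ Z * T ∧ (∏ l ∈ N, l) % k = b % k),
      (∏ l ∈ N, (1 / (l : ℝ))) * (∏ l ∈ S \ N, (1 - 1 / (l : ℝ))) ≤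
      1 / ((p : ℝ) - 1) + (1 + Real.log Z) / k := by
  classical
  set F := S.powerset.filter (fun N : Finset ℕ => N.Nonempty ∧ T ≤ ∏ l ∈ N, (l : ℝ) ∧
      ∏ l ∈ N, (l : ℝ) ≤ Z * T ∧ (∏ l ∈ N, l) % k = b % k) with hF
  set Bd : ℝ := 1 / ((p : ℝ) - 1) + (1 + Real.log Z) / k with hBd
  have hS1 : ∀ l ∈ S, 1 ≤ l := fun l hl => by have := hS l hl; omega
  let c : Finset ℕ → ℕ := fun N => if h : N.Nonempty then N.min' h else 0
  have hc : ∀ N ∈ F, c N ∈ N := by
    intro N hN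
    have h := (mem_filter.1 hN).2.1
    show (if h : N.Nonempty then N.min' h else 0) ∈ N
    rw [dif_pos h]
    exact min'_mem _ _
  -- admissible pairs
  let R : Finset ℕ → Finset ℕ := fun M => S.filter (fun s => s ∉ M ∧
    T ≤ (s : ℝ) * ∏ l ∈ M, (l : ℝ) ∧ (s : ℝ) * ∏ l ∈ M, (l : ℝ) ≤ Z * T ∧
    (s * ∏ l ∈ M, l) % k = b % k)
  let φ : Finset ℕ → (Σ _ : Finset ℕ, ℕ) := fun N => ⟨N.erase (c N), c N⟩
  let f : (Σ _ : Finset ℕ, ℕ) → ℝ := fun x => PW S x.1 * (1 / ((x.2 : ℝ) - 1))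
  have e1 : ∑ N ∈ F, PW S N = ∑ N ∈ F, f (φ N) := by
    refine sum_congr rfl fun N hN => ?_
    have hNS := mem_powerset.1 (mem_filter.1 hN).1
    have h1 := hc N hN
    exact PW_erase h1 hNS (le_trans hp (hS _ (hNS h1)))
  have hinj : Set.InjOn φ (F : Set (Finset ℕ)) := by
    intro N hN N' hN' h
    simp only [φ, Sigma.mk.injEq, heq_eq_eq] at h
    have e := insert_erase (hc N hN)
    have e' := insert_erase (hc N' hN')
    rw [← e, ← e', h.1, h.2]
  have e2 : ∑ N ∈ F, PW S N = ∑ x ∈ F.image φ, f x := by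
    rw [e1, sum_image hinj]
  have e3 : ∑ x ∈ F.image φ, f x ≤
      ∑ M ∈ S.powerset, ∑ s ∈ R M, PW S M * (1 / ((s : ℝ) - 1)) := by
    rw [sum_sigma' S.powerset R (fun M s => PW S M * (1 / ((s : ℝ) - 1)))]
    refine sum_le_sum_of_subset_of_nonneg ?_ fun x hx _ => ?_
    · intro x hx
      obtain ⟨N, hN, rfl⟩ := mem_image.1 hx
      have hN' := mem_filter.1 hN
      have hNS := mem_powerset.1 hN'.1
      have h1 := hc N hN
      refine mem_sigma.2 ⟨mem_powerset.2 ((erase_subset _ _).trans hNS), mem_filter.2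
        ⟨hNS h1, notMem_erase _ _, ?_, ?_, ?_⟩⟩
      · show T ≤ (c N : ℝ) * ∏ l ∈ N.erase (c N), (l : ℝ)
        rw [mul_prod_erase N (fun l => (l : ℝ)) h1]
        exact hN'.2.2.1
      · show (c N : ℝ) * ∏ l ∈ N.erase (c N), (l : ℝ) ≤ Z * T
        rw [mul_prod_erase N (fun l => (l : ℝ)) h1]
        exact hN'.2.2.2.1
      · show (c N * ∏ l ∈ N.erase (c N), l) % k = b % k
        rw [mul_prod_erase N (fun l => l) h1]
        exact hN'.2.2.2.2
    · have h := mem_sigma.1 hx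
      have hs := (mem_filter.1 h.2).1
      have h2 := hS _ hs
      have h3 : (2 : ℝ) ≤ x.2 := by exact_mod_cast le_trans hp h2
      exact mul_nonneg (PW_nonneg hS1) (div_nonneg zero_le_one (by linarith))
  have e4 : ∀ M ∈ S.powerset, ∑ s ∈ R M, PW S M * (1 / ((s : ℝ) - 1)) ≤ PW S M * Bd := by
    intro M hM
    have hMS := mem_powerset.1 hM
    rw [← mul_sum]
    refine mul_le_mul_of_nonneg_left ?_ (PW_nonneg hS1)
    have hMpos : 0 < ∏ l ∈ M, (l : ℝ) := prod_pos fun l hl => by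
      have := hS l (hMS hl)
      exact_mod_cast (by omega : 0 < l)
    refine sum_win (T := T / ∏ l ∈ M, (l : ℝ)) hk hp hZ (R M)
      (fun s hs => hS s (mem_filter.1 hs).1) (fun s hs => ?_) (fun s hs => ?_)
      (fun s hs t ht => ?_)
    · rw [div_le_iff₀ hMpos]
      exact (mem_filter.1 hs).2.2.1
    · rw [← mul_div_assoc, le_div_iff₀ hMpos]
      exact (mem_filter.1 hs).2.2.2.1
    · have h1 : s * ∏ l ∈ M, l ≡ b [MOD k] := (mem_filter.1 hs).2.2.2.2
      have h2 : t * ∏ l ∈ M, l ≡ b [MOD k] := (mem_filter.1 ht).2.2.2.2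
      have h3 : Nat.Coprime (s * ∏ l ∈ M, l) k := by
        have := Nat.ModEq.gcd_eq h1
        unfold Nat.Coprime
        rw [this]
        exact hb
      have h4 : Nat.Coprime k (∏ l ∈ M, l) := (Nat.Coprime.coprime_mul_left h3).symm
      exact Nat.ModEq.cancel_right_of_coprime h4 (h1.trans h2.symm)
  calc ∑ N ∈ F, (∏ l ∈ N, (1 / (l : ℝ))) * (∏ l ∈ S \ N, (1 - 1 / (l : ℝ)))
      = ∑ N ∈ F, PW S N := rfl
    _ ≤ ∑ M ∈ S.powerset, ∑ s ∈ R M, PW S M * (1 / ((s : ℝ) - 1)) := e2.trans_le e3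
    _ ≤ ∑ M ∈ S.powerset, PW S M * Bd := sum_le_sum e4
    _ = Bd := by rw [← sum_mul, sum_PW, one_mul]

end Crest.Agent.R4P.WinY30
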