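import Crest.Agent.R4P.NodeG_33
import Crest.Agent.R4P.BldC153

/-!
R4 (S0004) with powers, [W-eSHR] T2, helper25: **the weights of the ties of a group walk**.

* `VV p t i` : number of the open (non-leaf, items) nodes which `t` gives on the circle `p ^ i x` after
  the column `p`; `VV_zero`, `VV_le_one`.
* `IV p G` : `Σ m.1 VV p m i ≤ 1` for all `i`; preserved by the steps (`IV.gC`, `IV.gR`).
* `tieW_le` : **the ties of a step have total weight at most `1`**.
* `rsT_one` : the resolution of one node has at most one tie.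
* `GSN_monoW` : comparison of local terms with the invariant.
-/

set_option autoImplicit false
set_option linter.unusedSectionVars false
set_option linter.unusedVariables false
open MeasureTheory Filter Set

namespace Crest.Agent.R4P.WtI25

open Crest.Agent.R4P.Cnt588 Crest.Agent.R4P.Item758
open Crest.Agent.R4P.NodeG33
open Crest.Agent.R4P.Bld532 (NS All NodeOk Bk dv nd mem_dv mem_nd plk Par Ws_nonneg Ws_mono)

open Classical in
/-- one on the circle of the node, if it has items -/
noncomputable def ee (t : IT) (i : ℕ) : ℝ := if i = 0 ∧ t.items.Nonempty then 1 else 0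

lemma ee_nonneg (t : IT) (i : ℕ) : 0 ≤ ee t i := by unfold ee; split_ifs <;> norm_num
lemma ee_le_one (t : IT) (i : ℕ) : ee t i ≤ 1 := by unfold ee; split_ifs <;> norm_num
lemma ee_succ (t : IT) (i : ℕ) : ee t (i + 1) = 0 := by unfold ee; simp
lemma ee_empty {t : IT} (h : t.items = ∅) (i : ℕ) : ee t i = 0 := by
  unfold ee; simp [h]

/-- **number of the open nodes on the circle `p ^ i x` after the column `p`** -/
noncomputable def VV (p : ℕ) : IT → ℕ → ℝ
  | .leaf _, _ => 0
  | .br q Sp t₁ t₀, i => if q = p then (if i = 1 then 1 else 0) else ee (.br q Sp t₁ t₀) i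
  | .add q t₁ t₀, i => if q = p then VV p t₁ i + VV p t₀ i else ee (.add q t₁ t₀) i
  | .up q Sp t, i => if q = p then VV p t i else ee (.up q Sp t) i
  | .pl q t, 0 => if q = p then 0 else ee (.pl q t) 0
  | .pl q t, i + 1 => if q = p then VV p t i else 0
  | .far q t₁ t₀, i => if q = p then VV p t₁ i + VV p t₀ i else ee (.far q t₁ t₀) i

lemma VV_nonneg (p : ℕ) (t : IT) : ∀ i, 0 ≤ VV p t i := by
  induction t with
  | leaf S => intro i; exact le_rfl
  | br q Sp t₁ t₀ ih₁ ih₀ =>
    intro i; unfold VV
    split_ifs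
    · norm_num
    · norm_num
    · exact ee_nonneg _ _
  | add q t₁ t₀ ih₁ ih₀ =>
    intro i; unfold VV
    split_ifs
    · exact add_nonneg (ih₁ i) (ih₀ i)
    · exact ee_nonneg _ _
  | up q Sp t ih =>
    intro i; unfold VV
    split_ifs
    · exact ih i
    · exact ee_nonneg _ _
  | pl q t ih =>
    intro i
    cases i with
    | zero =>
      show 0 ≤ if q = p then 0 else ee (.pl q t) 0
      split_ifs
      · exact le_rfl
      · exact ee_nonneg _ _
    | succ i =>
      show 0 ≤ if q = p then VV p t i else 0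
      split_ifs
      · exact ih i
      · exact le_rfl
  | far q t₁ t₀ ih₁ ih₀ =>
    intro i; unfold VV
    split_ifs
    · exact add_nonneg (ih₁ i) (ih₀ i)
    · exact ee_nonneg _ _

lemma VV_plk {p : ℕ} {t : IT} : ∀ (j i : ℕ), i < j → VV p (plk p j t) i = 0 := by
  intro j
  induction j with
  | zero => intro i h; omega
  | succ j ih =>
    intro i h
    cases i with
    | zero =>
      show (if p = p then 0 else ee (.pl p (plk p j t)) 0) = 0
      rw [if_pos rfl]
    | succ i =>
      show (if p = p then VV p (plk p j t) i else 0) = 0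
      rw [if_pos rfl]
      exact ih i (by omega)

section node
variable {P : Par} {W : ℕ → ℝ}

/-- the facts of the parameters -/
structure PO (P : Par) (W : ℕ → ℝ) : Prop where
  W0 : ∀ q, 0 ≤ W q
  lo : ∀ k : ℕ, k.Prime → P.p0 < k → 0 < P.lo k
  sg : ∀ k : ℕ, k.Prime → P.p0 < k → 2 * P.sg k < 1

lemma br_nonempty (hP : PO P W) {s : NS} {p : ℕ} {Sp : Finset ℕ} {t₁ t₀ : IT}
    (h : NodeOk P W s (.br p Sp t₁ t₀)) : ∃ q ∈ t₁.items ∪ t₀.items, p ∣ q / s.A := by
  obtain ⟨hp, h1, h2, h3, h4, h5, h6, h7, h8, h9, h10, h11, h12⟩ := h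
  by_contra hc
  push Not at hc
  have e0 : t₀.items = t₁.items ∪ t₀.items := by
    refine Finset.Subset.antisymm Finset.subset_union_right fun q hq => ?_
    rw [h6]
    exact mem_nd.2 ⟨hq, hc q hq⟩
  have hm := lt_of_lt_of_le (hP.lo p hp h2) h9
  have hS : 0 < Ws W (t₁.items ∪ t₀.items) := by
    rcases (Ws_nonneg hP.W0 (t₁.items ∪ t₀.items)).lt_or_eq with h | h
    · exact h
    · rw [← h, mul_zero] at hm; exact absurd hm (lt_irrefl _)
  rw [← e0] at h11 hS
  have := hP.sg p hp h2
  nlinarith

/-- **no open nodes beyond the exponents of the items** -/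
lemma VV_zero (hP : PO P W) (p : ℕ) (t : IT) : ∀ (s : NS) (k i : ℕ), All (NodeOk P W) s t →
    (∀ q ∈ t.items, ¬ p ^ k ∣ q / s.A) → k ≤ i → VV p t i = 0 := by
  have he : ∀ (t : IT) (A k i : ℕ), (∀ q ∈ t.items, ¬ p ^ k ∣ q / A) → k ≤ i → ee t i = 0 := by
    intro t A k i h hk
    unfold ee
    rw [if_neg]
    rintro ⟨h0, q, hq⟩
    have hk0 : k = 0 := by omega
    rw [hk0, pow_zero] at h
    exact h q hq (one_dvd _)
  induction t with
  | leaf S => intro s k i _ _ _; rfl
  | br q Sp t₁ t₀ ih₁ ih₀ =>
    intro s k i h hi hk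
    unfold VV
    split_ifs with hq h1
    · exfalso
      subst hq
      obtain ⟨r, hr, hd⟩ := br_nonempty hP h.self
      refine hi r hr ?_
      have : k ≤ 1 := by omega
      exact (pow_dvd_pow q this).trans (by rwa [pow_one])
    · rfl
    · exact he _ _ _ _ hi hk
  | add q t₁ t₀ ih₁ ih₀ =>
    intro s k i h hi hk
    unfold VV
    split_ifs with hq
    · rw [ih₁ _ k i h.2.1 (fun r hr => hi r (Finset.mem_union_left _ hr)) hk,
        ih₀ _ k i h.2.2 (fun r hr => hi r (Finset.mem_union_right _ hr)) hk, add_zero]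
    · exact he _ _ _ _ hi hk
  | up q Sp t ih =>
    intro s k i h hi hk
    unfold VV
    split_ifs with hq
    · exact ih _ k i h.2 hi hk
    · exact he _ _ _ _ hi hk
  | pl q t ih =>
    intro s k i h hi hk
    cases i with
    | zero =>
      show (if q = p then 0 else ee (.pl q t) 0) = 0
      split_ifs with hq
      · rfl
      · exact he _ _ _ _ hi hk
    | succ i =>
      show (if q = p then VV p t i else 0) = 0
      split_ifs with hq
      · subst hq
        have hn := h.self
        obtain ⟨hpr, h1, h2, h3, h4, h5, h6⟩ := hn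
        cases k with
        | zero =>
          refine ih _ 0 i h.2 (fun r hr => ?_) (Nat.zero_le _)
          have := hi r hr
          simp at this
        | succ k =>
          refine ih _ k i h.2 (fun r hr hd => hi r hr ?_) (by omega)
          have h7 := h5 r hr
          have e : r / (s.A * q) = r / s.A / q := (Nat.div_div_eq_div_mul _ _ _).symm
          have h8 : q ^ k ∣ r / s.A / q := by rw [← e]; exact hd
          rw [pow_succ]
          exact (Nat.dvd_div_iff_mul_dvd h7).1 h8 |> fun h => by rwa [mul_comm] at h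
      · rfl
  | far q t₁ t₀ ih₁ ih₀ =>
    intro s k i h hi hk
    unfold VV
    split_ifs with hq
    · rw [ih₁ _ k i h.2.1 (fun r hr => hi r (Finset.mem_union_left _ hr)) hk,
        ih₀ _ k i h.2.2 (fun r hr => hi r (Finset.mem_union_right _ hr)) hk, add_zero]
    · exact he _ _ _ _ hi hk

lemma VV_empty (hP : PO P W) {p : ℕ} {t : IT} {s : NS} (h : All (NodeOk P W) s t)
    (he : t.items = ∅) (i : ℕ) : VV p t i = 0 :=
  VV_zero hP p t s 0 i h (by rw [he]; simp) (Nat.zero_le _)

/-- **at most one open node on every circle** -/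
lemma VV_le_one (hP : PO P W) (p : ℕ) (t : IT) : ∀ (s : NS) (i : ℕ), All (NodeOk P W) s t →
    VV p t i ≤ 1 := by
  induction t with
  | leaf S => intro s i _; exact zero_le_one
  | br q Sp t₁ t₀ ih₁ ih₀ =>
    intro s i h
    unfold VV
    split_ifs
    · exact le_rfl
    · exact zero_le_one
    · exact ee_le_one _ _
  | add q t₁ t₀ ih₁ ih₀ =>
    intro s i h
    unfold VV
    split_ifs with hq
    · subst hq
      obtain ⟨hpr, h1, h2, h3, h4, ⟨j, t', hj, e1, h5, h6, h7⟩, h8⟩ := h.self
      by_cases hi : i < j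
      · have : VV q t₁ i = 0 := by rw [e1]; exact VV_plk j i hi
        rw [this, zero_add]
        exact ih₀ _ i h.2.2
      · have : VV q t₀ i = 0 := VV_zero hP q t₀ _ j i h.2.2
          (fun r hr => by rw [h6] at hr; exact (mem_nd.1 hr).2) (by omega)
        rw [this, add_zero]
        exact ih₁ _ i h.2.1
    · exact ee_le_one _ _
  | up q Sp t ih =>
    intro s i h
    unfold VV
    split_ifs
    · exact ih _ i h.2
    · exact ee_le_one _ _
  | pl q t ih =>
    intro s i h
    cases i with
    | zero =>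
      show (if q = p then 0 else ee (.pl q t) 0) ≤ 1
      split_ifs
      · exact zero_le_one
      · exact ee_le_one _ _
    | succ i =>
      show (if q = p then VV p t i else 0) ≤ 1
      split_ifs
      · exact ih _ i h.2
      · exact zero_le_one
  | far q t₁ t₀ ih₁ ih₀ =>
    intro s i h
    unfold VV
    split_ifs with hq
    · obtain ⟨hpr, h1, h2, h3, h4, ⟨K, e1, h5⟩, h8⟩ := h.self
      have : VV p t₁ i = 0 := by rw [e1]; rfl
      rw [this, zero_add]
      exact ih₀ _ i h.2.2
    · exact ee_le_one _ _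

/-- the columns below -/
lemma VV_low {p : ℕ} {t : IT} {s : NS} (h : All (NodeOk P W) s t) (hn : s.n ≤ p) (i : ℕ) :
    VV p t i ≤ if i = 0 then 1 else 0 := by
  have he : ∀ t : IT, ee t i ≤ if i = 0 then 1 else 0 := by
    intro t
    unfold ee
    split_ifs with h1 h2 h2
    · exact le_rfl
    · exact absurd h1.1 h2
    · exact zero_le_one
    · exact le_rfl
  have hnn : (0 : ℝ) ≤ if i = 0 then 1 else 0 := by split_ifs <;> norm_num
  cases t with
  | leaf S => exact hnn
  | br q Sp t₁ t₀ =>
    have hq : q < s.n := h.self.2.1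
    unfold VV
    rw [if_neg (by omega)]
    exact he _
  | add q t₁ t₀ =>
    have hq : q < s.n := h.self.2.1
    unfold VV
    rw [if_neg (by omega)]
    exact he _
  | up q Sp t =>
    have hq : q < s.n := h.self.2.1
    unfold VV
    rw [if_neg (by omega)]
    exact he _
  | pl q t =>
    have hq : q < s.n := h.self.2.1
    cases i with
    | zero =>
      show (if q = p then 0 else ee (.pl q t) 0) ≤ _
      rw [if_neg (by omega)]
      exact he _
    | succ i =>
      show (if q = p then VV p t i else 0) ≤ _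
      rw [if_neg (by omega)]
      exact hnn
  | far q t₁ t₀ =>
    have hq : q < s.n := h.self.2.1
    unfold VV
    rw [if_neg (by omega)]
    exact he _

end node

/-! ### groups -/

/-- weight functional of the circle `p ^ i x` -/
noncomputable abbrev vw (p i : ℕ) : Nd → ℝ := phN fun _ t => VV p t i

lemma vw_nonneg (p i : ℕ) (x : Nd) : 0 ≤ vw p i x := by
  rcases x with z | q
  · exact VV_nonneg p z.2 i
  · exact le_rfl

/-- the functional does not see the resolution -/
lemma vw_rs (p i : ℕ) (x : Nd) : ((rsN p x).map (vw p i)).sum = vw p i x := by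
  rcases x with ⟨s, t⟩ | q
  · show (((rsT p s t).map Sum.inl).map (vw p i)).sum = VV p t i
    rw [List.map_map]
    have e : ((vw p i) ∘ Sum.inl) = fun z : NS × IT => VV p z.2 i := rfl
    rw [e]
    clear e
    induction t generalizing s with
    | leaf S => simp [rsT]
    | br q Sp t₁ t₀ ih₁ ih₀ => simp [rsT]
    | add q t₁ t₀ ih₁ ih₀ =>
      unfold rsT
      split_ifs with hq
      · rw [List.map_append, List.sum_append, ih₁, ih₀]
        show _ = if q = p then VV p t₁ i + VV p t₀ i else _
        rw [if_pos hq]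
      · simp
    | up q Sp t ih =>
      unfold rsT
      split_ifs with hq
      · rw [ih]
        show _ = if q = p then VV p t i else _
        rw [if_pos hq]
      · simp
    | pl q t ih => simp [rsT]
    | far q t₁ t₀ ih₁ ih₀ =>
      unfold rsT
      split_ifs with hq
      · rw [List.map_append, List.sum_append, ih₁, ih₀]
        show _ = if q = p then VV p t₁ i + VV p t₀ i else _
        rw [if_pos hq]
      · simp
  · simp [rsN, phN]

/-- **the weights of the open nodes on every circle are at most `1`** -/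
def IV (p : ℕ) (G : NGp) : Prop := ∀ i, linN (vw p i) G ≤ 1

section inv
variable {P : Par} {W : ℕ → ℝ} {Q : NS → IT → Prop} {c0 : ℝ} {T p : ℕ} {G : NGp}

lemma IV.start (hP : PO P W) {s : NS} {t : IT} (h : All (NodeOk P W) s t) (p : ℕ) :
    IV p [((1 : ℝ), .inl (s, t))] := by
  intro i
  rw [linN_cons, linN_nil, add_zero, one_mul]
  exact VV_le_one hP p t s i h

lemma ngw0 {T : ℕ} {G : NGp} (h : NG Q c0 T G) : ∀ m ∈ G, 0 ≤ m.1 := by
  intro m hm
  have := h m hm
  rcases m with ⟨c, z | q⟩
  · exact this.2.2.2.le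
  · exact (show c = 0 from this).ge

lemma linN_nonneg {φ : Nd → ℝ} (hφ : ∀ x, 0 ≤ φ x) (hw : ∀ m ∈ G, 0 ≤ m.1) : 0 ≤ linN φ G := by
  induction G with
  | nil => simp
  | cons m G ih =>
    rw [linN_cons]
    exact add_nonneg (mul_nonneg (hw m (by simp)) (hφ _))
      (ih fun a ha => hw a (List.mem_cons_of_mem _ ha))

lemma linN_le {φ ψ : Nd → ℝ} (h : ∀ m ∈ G, m.1 * φ m.2 ≤ m.1 * ψ m.2) : linN φ G ≤ linN ψ G := by
  induction G with
  | nil => simp
  | cons m G ih =>
    rw [linN_cons, linN_cons]
    exact add_le_add (h m (by simp)) (ih fun a ha => h a (List.mem_cons_of_mem _ ha))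

lemma vw_split (p i : ℕ) (G : NGp) :
    linN (vw p i) (gBN p G) + linN (vw p i) (gRN p G) = linN (vw p i) G := by
  rw [← linN_rs (vw_rs p i) G]
  exact linN_filter _ (fun x => isBN p x) _

lemma IV.gB (h : IV p G) (hG : NG Q c0 T G) : IV p (gBN p G) := by
  intro i
  have h1 := vw_split p i G
  have h2 := linN_nonneg (vw_nonneg p i) (ngw0 (hG.gR p))
  have := h i
  linarith

lemma IV.gR0 (h : IV p G) (hG : NG Q c0 T G) : IV p (gRN p G) := by
  intro i
  have h1 := vw_split p i G
  have h2 := linN_nonneg (vw_nonneg p i) (ngw0 (hG.gB p))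
  have := h i
  linarith

/-- indicator of the ties -/
def tieN : Nd → ℝ
  | .inl (_, .br _ _ _ _) => 1
  | _ => 0

lemma tieN_nonneg (x : Nd) : 0 ≤ tieN x := by
  rcases x with ⟨s, t⟩ | q
  · cases t <;> simp [tieN]
  · exact le_rfl

/-- **the ties of a step have total weight at most `1`** -/
theorem tieW_le (h : IV p G) (hG : NG Q c0 T G) : linN tieN (gBN p G) ≤ 1 := by
  refine le_trans (linN_le fun m hm => ?_) (h.gB hG 1)
  refine mul_le_mul_of_nonneg_left ?_ (ngw0 (hG.gB p) m hm)
  rcases isBN_cases (List.mem_filter.1 hm).2 with ⟨s, Sp, t₁, t₀, e⟩ | ⟨s, t, e⟩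
  · rw [e]
    show (1 : ℝ) ≤ if p = p then (if (1 : ℕ) = 1 then 1 else 0) else _
    simp
  · rw [e]
    exact VV_nonneg p _ 1

/-- the children of the ties and pulls -/
theorem IV.gC (hP : PO P W) (hQ : ∀ s t, Q s t → NodeOk P W s t) (h : IV p G)
    (hG : NG Q c0 T G) : IV p (gCN p G) := by
  intro i
  refine le_trans ?_ (h.gB hG (i + 1))
  have hB := hG.gB p
  have hb : ∀ m ∈ gBN p G, isBN p m.2 = true := fun m hm => (List.mem_filter.1 hm).2
  unfold gCN
  revert hB hb
  induction gBN p G with
  | nil => intro _ _; simp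
  | cons m g ih =>
    intro hB hb
    rw [List.flatMap_cons, linN_append, linN_cons, linN_smul]
    refine add_le_add ?_ (ih (fun a ha => hB a (List.mem_cons_of_mem _ ha))
      (fun a ha => hb a (List.mem_cons_of_mem _ ha)))
    have hm := hB m (by simp)
    rcases m with ⟨c, x⟩
    rcases isBN_cases (hb (c, x) (by simp)) with ⟨s, Sp, t₁, t₀, e⟩ | ⟨s, t, e⟩
    · simp only at e
      subst e
      obtain ⟨k1, k2, k3, k4⟩ := hm
      refine mul_le_mul_of_nonneg_left ?_ k4.le
      have k5 := (All.mono hQ k1)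
      have hp2 : (2 : ℝ) ≤ p := by exact_mod_cast k5.self.1.two_le
      have hp0 : (0 : ℝ) < p := by linarith
      have hp1 : 0 < 1 - 1 / (p : ℝ) := by
        rw [sub_pos, div_lt_one hp0]; linarith
      have v1 := VV_low (p := p) k5.2.1 le_rfl i
      have v0 := VV_low (p := p) k5.2.2 le_rfl i
      simp only [chN, linN_cons, linN_nil]
      show (1 - 1 / (p : ℝ)) * VV p t₁ i + (1 / (p : ℝ) * VV p t₀ i + 0) ≤
        if p = p then (if i + 1 = 1 then 1 else 0) else _
      rw [if_pos rfl]
      have e1 : (if i + 1 = 1 then (1 : ℝ) else 0) = if i = 0 then 1 else 0 := by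
        by_cases hi : i = 0
        · simp [hi]
        · rw [if_neg (by omega), if_neg hi]
      rw [e1]
      have hq : 0 < 1 / (p : ℝ) := by positivity
      calc (1 - 1 / (p : ℝ)) * VV p t₁ i + (1 / (p : ℝ) * VV p t₀ i + 0) ≤
          (1 - 1 / (p : ℝ)) * (if i = 0 then 1 else 0) + (1 / (p : ℝ) * (if i = 0 then 1 else 0) + 0) :=
            add_le_add (mul_le_mul_of_nonneg_left v1 hp1.le)
              (add_le_add (mul_le_mul_of_nonneg_left v0 hq.le) le_rfl)
        _ = if i = 0 then 1 else 0 := by ring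
    · simp only at e
      subst e
      obtain ⟨k1, k2, k3, k4⟩ := hm
      refine mul_le_mul_of_nonneg_left ?_ k4.le
      simp only [chN, linN_cons, linN_nil]
      show (1 - 0) * VV p t i + (0 * 0 + 0) ≤ if p = p then VV p t i else 0
      rw [if_pos rfl]
      linarith

/-- resolved nodes -/
lemma rsT_hd (p : ℕ) (t : IT) : ∀ (s : NS), ∀ z ∈ rsT p s t,
    (∀ t₁ t₀, z.2 ≠ .add p t₁ t₀) ∧ (∀ Sp t', z.2 ≠ .up p Sp t') ∧ ∀ t₁ t₀, z.2 ≠ .far p t₁ t₀ := by
  induction t with
  | leaf S =>
    intro s z hz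
    simp only [rsT, List.mem_singleton] at hz
    rw [hz]; simp
  | br q Sp t₁ t₀ ih₁ ih₀ =>
    intro s z hz
    simp only [rsT, List.mem_singleton] at hz
    rw [hz]; simp
  | add q t₁ t₀ ih₁ ih₀ =>
    intro s z hz
    unfold rsT at hz
    split_ifs at hz with hq
    · rcases List.mem_append.1 hz with hz | hz
      · exact ih₁ _ z hz
      · exact ih₀ _ z hz
    · rw [List.mem_singleton.1 hz]; simp [hq]
  | up q Sp t ih =>
    intro s z hz
    unfold rsT at hz
    split_ifs at hz with hq
    · exact ih _ z hz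
    · rw [List.mem_singleton.1 hz]; simp [hq]
  | pl q t ih =>
    intro s z hz
    simp only [rsT, List.mem_singleton] at hz
    rw [hz]; simp
  | far q t₁ t₀ ih₁ ih₀ =>
    intro s z hz
    unfold rsT at hz
    split_ifs at hz with hq
    · rcases List.mem_append.1 hz with hz | hz
      · exact ih₁ _ z hz
      · exact ih₀ _ z hz
    · rw [List.mem_singleton.1 hz]; simp [hq]

/-- a resolved node which is not a tie or pull of the column -/
lemma VV_next (hP : PO P W) {s : NS} {t : IT} (h : All (NodeOk P W) s t)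
    (h1 : ∀ t₁ t₀, t ≠ .add p t₁ t₀) (h2 : ∀ Sp t', t ≠ .up p Sp t')
    (h3 : ∀ t₁ t₀, t ≠ .far p t₁ t₀) (hB : isBN p (.inl (s, t)) = false) (p' i : ℕ) :
    VV p' t i ≤ VV p t 0 := by
  by_cases he : t.items = ∅
  · rw [VV_empty hP h he]
    exact VV_nonneg _ _ _
  · have hne : t.items.Nonempty := Finset.nonempty_iff_ne_empty.2 he
    have e0 : ee t 0 = 1 := by unfold ee; simp [hne]
    cases t with
    | leaf S => exact le_rfl
    | br q Sp t₁ t₀ =>
      have hq : q ≠ p := by simpa [isBN] using hB
      refine (VV_le_one hP p' _ s i h).trans (le_of_eq ?_)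
      unfold VV
      rw [if_neg hq, e0]
    | add q t₁ t₀ =>
      have hq : q ≠ p := fun hh => h1 t₁ t₀ (by rw [hh])
      refine (VV_le_one hP p' _ s i h).trans (le_of_eq ?_)
      unfold VV
      rw [if_neg hq, e0]
    | up q Sp t =>
      have hq : q ≠ p := fun hh => h2 Sp t (by rw [hh])
      refine (VV_le_one hP p' _ s i h).trans (le_of_eq ?_)
      unfold VV
      rw [if_neg hq, e0]
    | pl q t =>
      have hq : q ≠ p := by simpa [isBN] using hB
      refine (VV_le_one hP p' _ s i h).trans (le_of_eq ?_)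
      show 1 = if q = p then 0 else ee (.pl q t) 0
      rw [if_neg hq, e0]
    | far q t₁ t₀ =>
      have hq : q ≠ p := fun hh => h3 t₁ t₀ (by rw [hh])
      refine (VV_le_one hP p' _ s i h).trans (le_of_eq ?_)
      unfold VV
      rw [if_neg hq, e0]

/-- the rest at the next column -/
theorem IV.gR (hP : PO P W) (hQ : ∀ s t, Q s t → NodeOk P W s t) (h : IV p G)
    (hG : NG Q c0 T G) (p' : ℕ) : IV p' (gRN p G) := by
  intro i
  refine le_trans (linN_le fun m hm => ?_) (h.gR0 hG 0)
  have hk := hG.gR p m hm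
  refine mul_le_mul_of_nonneg_left ?_ (ngw0 (hG.gR p) m hm)
  obtain ⟨hm1, hm2⟩ := List.mem_filter.1 hm
  have hm2' : isBN p m.2 = false := by simpa using hm2
  obtain ⟨m', h1, h2, h3⟩ := mem_rsG' hm1
  rcases m with ⟨c, x⟩
  rcases m' with ⟨c', x'⟩
  rcases x' with ⟨s, t⟩ | q
  · obtain ⟨z, hz, e⟩ := List.mem_map.1 h3
    simp only at e
    subst e
    have h4 := rsT_hd p t s z hz
    exact VV_next hP (All.mono hQ hk.1) h4.1 h4.2.1 h4.2.2 hm2' p' i
  · have h5 : x = .inr q := by simpa [rsN] using h3
    subst h5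
    exact le_rfl

/-- **comparison of local terms with the invariant** -/
theorem GSN_monoW (hP : PO P W) (hQ : ∀ s t, Q s t → NodeOk P W s t)
    {loc loc' : ℕ → NGp → NGp → ℝ} (hC : C2 Q)
    (h : ∀ (p T : ℕ) (G : NGp), p ≠ 0 → NG Q c0 T G → IV p G →
      loc p (gBN p G) (gRN p G) ≤ loc' p (gBN p G) (gRN p G)) :
    ∀ (n p T : ℕ) (G : NGp), NG Q c0 T G → IV p G → GSN loc n p G ≤ GSN loc' n p G := by
  intro n
  induction n with
  | zero => intro p T G _ _; exact le_rfl
  | succ n ih =>
    intro p T G hG hI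
    unfold GSN
    split_ifs with hp
    · exact le_rfl
    · exact add_le_add (add_le_add (h p T G hp hG hI)
        (ih p _ _ (hG.gC hC p) (hI.gC hP hQ hG))) (ih _ _ _ (hG.gR p) (hI.gR hP hQ hG _))

end inv

end Crest.Agent.R4P.WtI25
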