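import Crest.Agent.R4P.XEx_29
import Crest.Agent.R4P.LogL_51

/-!
R4 (S0004) with powers, `TgtCrs`, helper29: **the bridge** `XP (ker (kX wr)) n p g g = XL kd n p g`.

`kd p j = ix (wr p j)` where `WRel.rel a b ↔ ix a ≠ ix b`.
-/

set_option autoImplicit false
set_option linter.unusedSectionVars false
set_option linter.unusedVariables false
open MeasureTheory Filter Set

namespace Crest.Agent.R4P.XBr29

open Crest.Agent.R4.Tour104 Crest.Agent.R4.Tour758 Crest.Agent.R4.Avg758 Crest.Agent.R4.Clos758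
open Crest.Agent.R4.ClosL758 Crest.Agent.R4.ClosG758 Crest.Agent.R4.ClosR758
open Crest.Agent.R4P.ClosR442 Crest.Agent.R4P.Walk560 Crest.Agent.R4P.Grp36 Crest.Agent.R4P.Xfer36
open Crest.Agent.R4P.CrsD26 Crest.Agent.R4P.XEx29
open Crest.Agent.R4P.LogL51 (gL gN X XL XL_succ X_comm)

variable {Λ κ : Type*}

lemma isLf_eq (t : DT Λ κ) : LogL51.isLf t = CrsD26.isLf t := by cases t <;> rfl

lemma gN_eq (p : ℕ) (g : Gp Λ κ) : gN p g = gRn p g := by
  unfold LogL51.gN CrsD26.gRn
  exact List.filter_congr fun m _ => by rw [isLf_eq]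

lemma gL_eq (p : ℕ) (g : Gp Λ κ) : gL p g = gLf p g := by
  rw [← filter_gR]
  unfold LogL51.gL
  exact List.filter_congr fun m _ => by rw [isLf_eq]

variable [Fintype Λ] [DecidableEq Λ] [DecidableEq κ] [WRel κ] {δ : Type*} [Fintype δ]
  [DecidableEq δ] {wr : ℕ → Λ → κ} {ix : κ → δ}

/-- the class map of the columns -/
def kdI (wr : ℕ → Λ → κ) (ix : κ → δ) (p : ℕ) (j : Λ) : δ := ix (wr p j)

lemma mem_Ro' {r : Λ → κ} {e : Λ × Λ} : e ∈ Ro r ↔ WRel.rel (r e.1) (r e.2) := by
  simp [Ro]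

/-- the energy of the same-`ix` pairs in classes -/
theorem qX_eq (hix : ∀ a b : κ, WRel.rel a b ↔ ix a ≠ ix b) {p q : ℕ} {g h : Gp Λ κ}
    (hg : GX q g) (hh : GX q h) : qX wr p g h = X (kdI wr ix) p g h := by
  unfold qX X
  have pg := hg.pbv
  have ph := hh.pbv
  have pc : ∀ d, PB (cval (kdI wr ix p) g d) := fun d => PB_cval _ hg.gok d
  have pc' : ∀ d, PB (cval (kdI wr ix p) h d) := fun d => PB_cval _ hh.gok d
  rw [I_sum _ fun d _ => ((pc d).mul (pc' d)).integrableOn]
  unfold Q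
  have e1 : ∀ d : δ, I (fun x => cval (kdI wr ix p) g d x * cval (kdI wr ix p) h d x) =
      ∑ e ∈ (Finset.univ.filter (fun j => kdI wr ix p j = d)) ×ˢ
        (Finset.univ.filter (fun j => kdI wr ix p j = d)),
        I (fun x => gval g e.1 x * gval h e.2 x) := by
    intro d
    rw [← I_sum _ fun e _ => ((pg e.1).mul (ph e.2)).integrableOn]
    congr 1
    funext x
    unfold cval
    rw [Finset.sum_mul_sum, Finset.sum_product]
  rw [Finset.sum_congr rfl fun d _ => e1 d]
  rw [← Finset.sum_fiberwise_of_maps_to (s := (Finset.univ : Finset (Λ × Λ)) \ Ro (wr p))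
    (t := (Finset.univ : Finset δ)) (g := fun e => kdI wr ix p e.1) (fun e _ => Finset.mem_univ _)]
  refine Finset.sum_congr rfl fun d _ => Finset.sum_congr ?_ fun _ _ => rfl
  ext e
  simp only [Finset.mem_filter, Finset.mem_sdiff, Finset.mem_univ, true_and, mem_Ro', hix,
    ne_eq, not_not, Finset.mem_product]
  simp only [kdI]
  constructor
  · rintro ⟨h1, h2⟩; exact ⟨h2, by rw [← h1]; exact h2⟩
  · rintro ⟨h1, h2⟩; exact ⟨by rw [h1, h2], h1⟩

lemma qX_comm (hix : ∀ a b : κ, WRel.rel a b ↔ ix a ≠ ix b) {p q : ℕ} {g h : Gp Λ κ}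
    (hg : GX q g) (hh : GX q h) : qX wr p g h = qX wr p h g := by
  rw [qX_eq hix hg hh, qX_eq hix hh hg, X_comm]

/-- **the bridge** -/
theorem XP_eq_XL (hix : ∀ a b : κ, WRel.rel a b ↔ ix a ≠ ix b) : ∀ (n p : ℕ) (g : Gp Λ κ),
    (∀ m ∈ g, 0 ≤ m.1) → (∀ m ∈ g, m.2.All Gd) → (∀ m ∈ g, m.2.Col (p + 1)) →
    XP (ker (kX wr)) n p g g = XL (kdI wr ix) n p g := by
  intro n
  induction n with
  | zero => intro p g _ _ _; rfl
  | succ n ih =>
    intro p g h1 h2 h3
    have hg : GX p g := ⟨h1, h2, h3⟩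
    by_cases hp : p = 0
    · subst hp
      rw [LogL51.XL_succ0]
      simp [XP]
    · rw [XP_succ_eq hp, XL_succ _ n hp, ih p _ hg.gC.c hg.gC.gd hg.gC.col, gL_eq, gN_eq]
      have hcol : ∀ m ∈ gRn p g, m.2.Col (p - 1 + 1) := fun m hm => by
        have e : p - 1 + 1 = p := Nat.succ_pred_eq_of_pos (Nat.pos_of_ne_zero hp)
        rw [e]
        have k1 := hg.gRn.col m hm
        obtain ⟨k2, k3⟩ := List.mem_filter.1 hm
        obtain ⟨k4, k5⟩ := List.mem_filter.1 k2
        obtain ⟨m', -, -, k6⟩ := mem_rsG k4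
        have hl : ¬ m.2.isLeaf := isLf_false.1 (by simpa using k3)
        have hB : ¬ isB p m.2 = true := by simpa using k5
        have htop : m.2.top ≠ p := by
          rcases rs_shape m'.2 m.2 k6 with k7 | k7 | k7
          · exact absurd k7 hB
          · exact absurd k7 hl
          · exact k7
        exact k1.lower (lt_of_le_of_ne k1.top_le htop)
      rw [ih (p - 1) _ hg.gRn.c hg.gRn.gd hcol]
      have e1 : lX (ker (kX wr)) p g g = qX wr p (gLf p g) (gLf p g) +
          2 * qX wr p (gLf p g) (gB p g) + 2 * qX wr p (gLf p g) (gRn p g) +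
          2 * qX wr p (gB p g) (gRn p g) := by
        unfold lX
        rw [ker_kX (p := p) hg.gLf hg.rsG, ker_kX (p := p) hg.gNl hg.gLf,
          ker_kX (p := p) hg.gB hg.gRn, ker_kX (p := p) hg.gRn hg.gB,
          qX_comm hix hg.gRn hg.gB, qX_comm hix hg.gNl hg.gLf]
        have a1 : qX wr p (gLf p g) (rsG p g) = qX wr p (gLf p g) (gLf p g) +
            qX wr p (gLf p g) (gNl p g) := by
          have e : gval (rsG p g) = fun j x => gval (gLf p g) j x + gval (gNl p g) j x :=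
            funext fun j => funext fun x => by rw [gval_rsG]; exact gval_LN p g j x
          unfold qX
          rw [e]
          exact Q_add_right hg.gLf.pbv hg.gLf.pbv hg.gNl.pbv
        have a2 : qX wr p (gLf p g) (gNl p g) = qX wr p (gLf p g) (gB p g) +
            qX wr p (gLf p g) (gRn p g) := by
          have e : gval (gNl p g) = fun j x => gval (gB p g) j x + gval (gRn p g) j x :=
            funext fun j => funext fun x => gval_BR p g j x
          unfold qX
          rw [e]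
          exact Q_add_right hg.gLf.pbv hg.gB.pbv hg.gRn.pbv
        rw [a1, a2]; ring
      rw [e1, qX_eq hix hg.gLf hg.gLf, qX_eq hix hg.gLf hg.gB, qX_eq hix hg.gLf hg.gRn,
        qX_eq hix hg.gB hg.gRn]

/-- the bridge for one node -/
theorem XP_eq_XL_one (hix : ∀ a b : κ, WRel.rel a b ↔ ix a ≠ ix b) {n p : ℕ} {t : DT Λ κ}
    (h : t.All Gd) (hc : t.Col (p + 1)) :
    XP (ker (kX wr)) n p [((1 : ℝ), t)] [((1 : ℝ), t)] = XL (kdI wr ix) n p [((1 : ℝ), t)] :=
  XP_eq_XL hix n p _ (GX.one h hc).c (GX.one h hc).gd (GX.one h hc).col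

end Crest.Agent.R4P.XBr29
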