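import Crest.Agent.R4P.XBr_29

/-!
R4 (S0004) with powers, `TgtCrs`, helper29: **`XL` sees only the classes at the primes**.

`XL_congr` : if `kd q = kd' q` at all primes, then `XL kd n p g = XL kd' n p g` for the groups of the
walk (`GX p g`, no leaf members if `p` is not a prime).
-/

set_option autoImplicit false
set_option linter.unusedSectionVars false
set_option linter.unusedVariables false
open MeasureTheory Filter Set

namespace Crest.Agent.R4P.XPr29

open Crest.Agent.R4.Tour104 Crest.Agent.R4.Tour758 Crest.Agent.R4.Avg758 Crest.Agent.R4.Clos758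
open Crest.Agent.R4.ClosL758 Crest.Agent.R4.ClosG758 Crest.Agent.R4.ClosR758
open Crest.Agent.R4P.ClosR442 Crest.Agent.R4P.Walk560 Crest.Agent.R4P.Grp36 Crest.Agent.R4P.Xfer36
open Crest.Agent.R4P.CrsD26 Crest.Agent.R4P.XEx29 Crest.Agent.R4P.XBr29
open Crest.Agent.R4P.LogL51 (gL gN X XL XL_succ X_comm)

section
variable {Λ κ : Type*}

lemma rs_np {p : ℕ} (hp : ¬ p.Prime) {t : DT Λ κ} (h : t.Col (p + 1)) : rs p t = [t] := by
  cases t with
  | leaf r f => rfl
  | br q w r t₁ t₀ v B G => rfl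
  | add q r t₁ t₀ =>
    have h1 : q ≠ p := fun e => hp (e ▸ h.1)
    simp only [rs, if_neg h1]
  | up q Sp t =>
    have h1 : q ≠ p := fun e => hp (e ▸ h.1)
    simp only [rs, if_neg h1]

lemma isB_np {p : ℕ} (hp : ¬ p.Prime) {t : DT Λ κ} (h : t.Col (p + 1)) : isB p t = false := by
  cases t with
  | leaf r f => rfl
  | br q w r t₁ t₀ v B G =>
    have h1 : q ≠ p := fun e => hp (e ▸ h.1)
    simp [isB, h1]
  | add q r t₁ t₀ => rfl
  | up q Sp t => rfl

/-- no leaf members when `p` is not a prime -/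
def NLf (p : ℕ) (g : Gp Λ κ) : Prop := p.Prime ∨ ∀ m ∈ g, ¬ m.2.isLeaf

lemma NLf_gN {p : ℕ} {g : Gp Λ κ} : NLf (p - 1) (gN p g) := Or.inr fun m hm => by
  have h := (LogL51.mem_gN hm).2
  exact (LogL51.isLf_false_iff m.2).1 h

end

variable {Λ κ : Type*} [Fintype Λ] [DecidableEq Λ] [DecidableEq κ] {δ : Type*} [Fintype δ]
  [DecidableEq δ]

lemma gB_np {p : ℕ} (hp : ¬ p.Prime) {g : Gp Λ κ} (h : GX p g) : gB p g = [] := by
  rw [List.eq_nil_iff_forall_not_mem]
  intro m hm
  obtain ⟨h1, h2⟩ := mem_gB hm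
  obtain ⟨m', h3, -, h4⟩ := mem_rsG h1
  rw [rs_np hp (h.col m' h3), List.mem_singleton] at h4
  rw [h4, isB_np hp (h.col m' h3)] at h2
  exact Bool.false_ne_true h2

lemma gL_np {p : ℕ} (hp : ¬ p.Prime) {g : Gp Λ κ} (h : GX p g) (hl : NLf p g) : gL p g = [] := by
  rw [List.eq_nil_iff_forall_not_mem]
  intro m hm
  obtain ⟨h1, h2⟩ := LogL51.mem_gL hm
  obtain ⟨m', h3, -, h4⟩ := mem_rsG (List.mem_filter.1 h1).1
  rw [rs_np hp (h.col m' h3), List.mem_singleton] at h4
  rw [h4] at h2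
  exact (hl.resolve_left hp) m' h3 ((LogL51.isLf_iff m'.2).1 h2)

/-- the crossing energies of the empty group -/
lemma X_nil_left (kd : ℕ → Λ → δ) (p : ℕ) (h : Gp Λ κ) : X kd p ([] : Gp Λ κ) h = 0 := by
  unfold X
  have e : (fun x => ∑ d, cval (kd p) ([] : Gp Λ κ) d x * cval (kd p) h d x) = fun _ => (0 : ℝ) := by
    funext x
    refine Finset.sum_eq_zero fun d _ => ?_
    have : cval (kd p) ([] : Gp Λ κ) d x = 0 := by
      unfold cval
      exact Finset.sum_eq_zero fun j _ => by simp [gval]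
    rw [this, zero_mul]
  rw [e]
  simp [I]

lemma X_congr {kd kd' : ℕ → Λ → δ} {p : ℕ} (h : kd p = kd' p) (g g' : Gp Λ κ) :
    X kd p g g' = X kd' p g g' := by
  unfold X; rw [h]

/-- the columns of `gN` -/
lemma GX_gN {p : ℕ} (hp : p ≠ 0) {g : Gp Λ κ} (hg : GX p g) : GX (p - 1) (gN p g) := by
  rw [gN_eq]
  refine ⟨hg.gRn.c, hg.gRn.gd, fun m hm => ?_⟩
  have e : p - 1 + 1 = p := Nat.succ_pred_eq_of_pos (Nat.pos_of_ne_zero hp)
  rw [e]
  have k1 := hg.gRn.col m hm
  obtain ⟨k2, k3⟩ := List.mem_filter.1 hm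
  obtain ⟨k4, k5⟩ := List.mem_filter.1 k2
  obtain ⟨m', -, -, k6⟩ := mem_rsG k4
  have hl : ¬ m.2.isLeaf := isLf_false.1 (by simpa using k3)
  have hB : ¬ isB p m.2 = true := by simpa using k5
  have htop : m.2.top ≠ p := by
    rcases rs_shape m'.2 m.2 k6 with k7 | k7 | k7
    · exact absurd k7 hB
    · exact absurd k7 hl
    · exact k7
  exact k1.lower (lt_of_le_of_ne k1.top_le htop)

/-- **`XL` sees only the classes at the primes** -/
theorem XL_congr {kd kd' : ℕ → Λ → δ} (h : ∀ q : ℕ, q.Prime → kd q = kd' q) :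
    ∀ (n p : ℕ) (g : Gp Λ κ), GX p g → NLf p g → XL kd n p g = XL kd' n p g := by
  intro n
  induction n with
  | zero => intro p g _ _; rfl
  | succ n ih =>
    intro p g hg hl
    by_cases hp : p = 0
    · subst hp; rw [LogL51.XL_succ0, LogL51.XL_succ0]
    · rw [XL_succ _ n hp, XL_succ _ n hp, ih (p - 1) _ (GX_gN hp hg) NLf_gN]
      by_cases hpr : p.Prime
      · rw [ih p _ hg.gC (Or.inl hpr), X_congr (h p hpr), X_congr (h p hpr), X_congr (h p hpr),
          X_congr (h p hpr)]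
      · have hC : gC p g = [] := by unfold gC; rw [gB_np hpr hg]; rfl
        have e : ∀ k : ℕ → Λ → δ, XL k n p (gC p g) = XL k n p ([] : Gp Λ κ) := fun k => by rw [hC]
        have hn : GX p ([] : Gp Λ κ) := hC ▸ hg.gC
        rw [hC, ih p _ hn (Or.inr fun m hm => absurd hm List.not_mem_nil), gL_np hpr hg hl,
          gB_np hpr hg]
        simp only [X_nil_left]

/-- the group of one node -/
lemma NLf_one {t : DT Λ κ} {p : ℕ} (hc : t.Col (p + 1)) (hp : p = t.top) :
    NLf p [((1 : ℝ), t)] ∨ p = 0 := by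
  cases t with
  | leaf r f => exact Or.inr hp
  | br q w r t₁ t₀ v B G => exact Or.inl (Or.inl (by rw [hp]; exact hc.1))
  | add q r t₁ t₀ => exact Or.inl (Or.inl (by rw [hp]; exact hc.1))
  | up q Sp t => exact Or.inl (Or.inl (by rw [hp]; exact hc.1))

/-- **`XL` of a node sees only the classes at the primes** -/
theorem XL_congr_one {kd kd' : ℕ → Λ → δ} (h : ∀ q : ℕ, q.Prime → kd q = kd' q) {t : DT Λ κ}
    (hg : t.All Gd) (hc : t.Col (t.top + 1)) (n : ℕ) :
    XL kd n t.top [((1 : ℝ), t)] = XL kd' n t.top [((1 : ℝ), t)] := by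
  rcases NLf_one hc rfl with h1 | h1
  · exact XL_congr h n _ _ (GX.one hg hc) h1
  · rw [h1]
    cases n with
    | zero => rfl
    | succ n => rw [LogL51.XL_succ0, LogL51.XL_succ0]

end Crest.Agent.R4P.XPr29
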