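import Crest.Agent.R4P.Walk560

/-!
R4 (S0004), trees with powers, module D (crossing pairs): **the cross walk**, definitions (helper11).

States `s : St` as in the pair walk.  Differences to `nxt0`:

* BOTH children of an add (or far) node continue, with the whole partner (the left one is processed first);
  there are no crossing pairs;
* a leaf is an absent column (`vw p leaf = up ∅ leaf`); the walk ends at (leaf, leaf') and at the stops;
* no exits: ties are processed as in the pair walk (the scale pair of a pair of items is invariant, or it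
  is multiplied by `p` when both items raise; all item costs are antitone in the scale);
* one-sided tie against a LEAF: the population of the leaf is split by `pr s` (the pieces whose item still
  contains the prime); only the part without the prime gets the column in `O` / `O'`.
-/

set_option autoImplicit false
set_option linter.unusedSectionVars false
set_option linter.unusedVariables false
open MeasureTheory Filter Set

namespace Crest.Agent.R4P.XWalk11

open Crest.Agent.R4.Tour104 Crest.Agent.R4.Tour758 Crest.Agent.R4.Avg758 Crest.Agent.R4.Clos758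
open Crest.Agent.R4.ClosL758 Crest.Agent.R4.ClosG758 Crest.Agent.R4.ClosR758
open Crest.Agent.R4P.ClosR442 Crest.Agent.R4P.Walk560

variable {Λ κ : Type*}

section defs
variable [Fintype Λ] [DecidableEq Λ]

/-- stop rule `st` of the cross walk, and the pieces `pr s` of a leaf partner which contain the prime of
the column -/
structure XStp (Λ κ : Type*) where
  st : St Λ κ → Prop
  pr : St Λ κ → Finset Λ

variable [DecidableEq κ] [WRel κ]

open Classical in
/-- the part of the right population with the prime, at a one-sided tie column of the left side -/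
noncomputable def XStp.pR (stp : XStp Λ κ) (s : St Λ κ) : Finset Λ :=
  if s.t'.isLeaf then stp.pr s else ∅

open Classical in
/-- the part of the left population with the prime, at a one-sided tie column of the right side -/
noncomputable def XStp.pL (stp : XStp Λ κ) (s : St Λ κ) : Finset Λ :=
  if s.t.isLeaf then stp.pr s else ∅

open Classical in
/-- the continuing states of the cross walk (with the phantom states of the pulls) -/
noncomputable def nx0 (stp : XStp Λ κ) (s : St Λ κ) : List (ℝ × St Λ κ) :=
  if s.t.isLeaf ∧ s.t'.isLeaf then [] else if stp.st s then [] else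
  if s.isPL then s.stL else if s.isPR then s.stR else
  match vw s.p s.t, vw s.p s.t' with
  | .br w r t₁ t₀ _ _ _, .br w' _ t₁' t₀' _ _ _ =>
      [((1 - w) * (1 - w'), { s with R := Ro r, t := t₁, t' := t₁' }),
       ((1 - w) * w', { s with R := Ro r, t := t₁, t' := t₀' }),
       (w * (1 - w'), { s with R := Ro r, t := t₀, t' := t₁' }),
       (w * w', { s with R := Ro r, t := t₀, t' := t₀' })]
  | .br w r t₁ t₀ _ _ _, .up _ u =>
      [(1 - w, { s with M' := s.p * s.M', R := Ro r, t := t₁, t' := u, A' := s.A' ∩ (stp.pR s) }),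
       (w, { s with M' := s.p * s.M', R := Ro r, t := t₀, t' := u, A' := s.A' ∩ (stp.pR s) }),
       (1 - w, { s with M' := s.p * s.M', O := insert s.p s.O, R := Ro r, t := t₁, t' := u, A' := s.A' \ (stp.pR s) }),
       (w, { s with M' := s.p * s.M', O := insert s.p s.O, R := Ro r, t := t₀, t' := u, A' := s.A' \ (stp.pR s) })]
  | .up _ u, .br w r t₁' t₀' _ _ _ =>
      [(1 - w, { s with M := s.p * s.M, R := Ro r, t := u, A := s.A ∩ (stp.pL s), t' := t₁' }),
       (w, { s with M := s.p * s.M, R := Ro r, t := u, A := s.A ∩ (stp.pL s), t' := t₀' }),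
       (1 - w, { s with M := s.p * s.M, O' := insert s.p s.O', R := Ro r, t := u, A := s.A \ (stp.pL s), t' := t₁' }),
       (w, { s with M := s.p * s.M, O' := insert s.p s.O', R := Ro r, t := u, A := s.A \ (stp.pL s), t' := t₀' })]
  | .add _ t₁ t₀, _ => [(1, { s with t := t₁ }), (1, { s with t := t₀ })]
  | _, .add _ t₁' t₀' => [(1, { s with t' := t₁' }), (1, { s with t' := t₀' })]
  | .up _ u, .up _ u' => [(1, { s with t := u, t' := u' })]

open Classical in
/-- the continuing states of the cross walk -/
noncomputable def nx (stp : XStp Λ κ) (s : St Λ κ) : List (ℝ × St Λ κ) :=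
  (nx0 stp s).filter fun q => q.1 ≠ 0

lemma mem_nx {stp : XStp Λ κ} {s : St Λ κ} {q : ℝ × St Λ κ} :
    q ∈ nx stp s ↔ q ∈ nx0 stp s ∧ q.1 ≠ 0 := by
  simp [nx, List.mem_filter]

/-- walk sums of the cross walk -/
noncomputable def WX (stp : XStp Λ κ) (loc : St Λ κ → ℝ) (s : St Λ κ) : ℝ :=
  W (nx stp) St.rank loc s

end defs

section costs
variable [Fintype Λ] [DecidableEq Λ] [Fintype κ] [DecidableEq κ] [WRel κ]

open Classical in
/-- two-sided near misses of the cross walk -/
noncomputable def eNMX (stp : XStp Λ κ) (s : St Λ κ) : ℝ :=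
  if s.t.isLeaf ∧ s.t'.isLeaf then 0 else if stp.st s then 0 else if s.isPL ∨ s.isPR then 0 else
  match vw s.p s.t, vw s.p s.t' with
  | .br _ r _ _ _ _ G, .br _ _ _ _ _ _ G' =>
      Q (orel κ) (avg s.M (rk s.A r G)) (avg s.M' (rk s.A' r G'))
  | _, _ => 0

open Classical in
/-- one-sided columns of the cross walk: the two parts of the partner -/
noncomputable def eOSX (stp : XStp Λ κ) (s : St Λ κ) : ℝ :=
  if s.t.isLeaf ∧ s.t'.isLeaf then 0 else if stp.st s then 0 else if s.isPL ∨ s.isPR then 0 else
  match vw s.p s.t, vw s.p s.t' with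
  | .br _ r _ _ _ _ G, .up _ _ =>
      os (orel κ) s.p (avg s.M (rk s.A r G)) (sm r (avg s.M' (rv (s.A' ∩ stp.pR s) s.t'.g.val))) +
      os (orel κ) s.p (avg s.M (rk s.A r G)) (sm r (avg s.M' (rv (s.A' \ stp.pR s) s.t'.g.val)))
  | .up _ _, .br _ r _ _ _ _ G =>
      os (orel κ) s.p (avg s.M' (rk s.A' r G)) (sm r (avg s.M (rv (s.A ∩ stp.pL s) s.t.g.val))) +
      os (orel κ) s.p (avg s.M' (rk s.A' r G)) (sm r (avg s.M (rv (s.A \ stp.pL s) s.t.g.val)))
  | _, _ => 0

open Classical in
/-- pairs which are in one world below but not above -/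
noncomputable def eSHRX (stp : XStp Λ κ) (s : St Λ κ) : ℝ :=
  if s.t.isLeaf ∧ s.t'.isLeaf then 0 else if stp.st s then 0 else
  if s.isPL then s.shr (vw s.p s.t) else if s.isPR then s.shr (vw s.p s.t') else
  match vw s.p s.t, vw s.p s.t' with
  | .br _ r _ _ _ _ _, .br _ _ _ _ _ _ _ => Qs { s with R := s.R \ Ro r }
  | .br _ r _ _ _ _ _, .up _ _ => Qs { s with R := s.R \ Ro r }
  | .up _ _, .br _ r _ _ _ _ _ => Qs { s with R := s.R \ Ro r }
  | _, _ => 0

open Classical in
/-- cost of the end states: (leaf, leaf') and stops -/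
noncomputable def eENDX (stp : XStp Λ κ) (μ : TrG Λ κ → Finset Λ → ℝ) (B : ℝ) (s : St Λ κ) : ℝ :=
  if s.t.isLeaf ∧ s.t'.isLeaf then Xs μ B s else if stp.st s then Xs μ B s else 0

/-- all the costs of the cross walk -/
noncomputable def eAllX (stp : XStp Λ κ) (μ : TrG Λ κ → Finset Λ → ℝ) (B : ℝ) (s : St Λ κ) : ℝ :=
  eNMX stp s + eOSX stp s + eSHRX stp s + eENDX stp μ B s

end costs

end Crest.Agent.R4P.XWalk11
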