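import Crest.Agent.R4P.Grp_36

/-!
R4 (S0004) with powers, group [W-eSHR], helper36: **transfer of the pair walk to the group walk**.

`ker k p g h = Σ c c' k p m m'`; for every nonnegative kernel `k` on nodes, a function `Φ` of the states
of the pair walk which satisfies the recursion inequality
`Φ s ≤ eK k stp s + Σ_{q ∈ nxt0 stp s} q.1 * (if Stay q.2 then Φ q.2 else 0)`
(`Stay q` : no open one-sided column above the current one; `eK` = `k` at the two-sided columns) is bounded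
by the sum of `k` over the full product walk of the two nodes: `xfer`, `xfer_self`.
-/

set_option autoImplicit false
set_option linter.unusedSectionVars false
set_option linter.unusedVariables false
open MeasureTheory Filter Set

namespace Crest.Agent.R4P.Xfer36

open Crest.Agent.R4.Tour104 Crest.Agent.R4.Tour758 Crest.Agent.R4.Avg758 Crest.Agent.R4.Clos758
open Crest.Agent.R4.ClosL758 Crest.Agent.R4.ClosG758 Crest.Agent.R4.ClosR758
open Crest.Agent.R4P.ClosR442 Crest.Agent.R4P.Walk560 Crest.Agent.R4P.Grp36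

variable {Λ κ : Type*}

/-! ### kernels -/

/-- bilinear form of a kernel -/
noncomputable def ker (k : ℕ → DT Λ κ → DT Λ κ → ℝ) (p : ℕ) (g h : Gp Λ κ) : ℝ :=
  (g.map fun m => (h.map fun m' => m.1 * m'.1 * k p m.2 m'.2).sum).sum

section kers
variable {k : ℕ → DT Λ κ → DT Λ κ → ℝ}

@[simp] lemma ker_nil_left (p : ℕ) (h : Gp Λ κ) : ker k p [] h = 0 := rfl

lemma ker_cons (p : ℕ) (m : ℝ × DT Λ κ) (g h : Gp Λ κ) :
    ker k p (m :: g) h = (h.map fun m' => m.1 * m'.1 * k p m.2 m'.2).sum + ker k p g h := by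
  simp [ker]

lemma ker_add_left (p : ℕ) (g g' h : Gp Λ κ) : ker k p (g ++ g') h = ker k p g h + ker k p g' h := by
  simp [ker]

lemma ker_add_right (p : ℕ) (g h h' : Gp Λ κ) : ker k p g (h ++ h') = ker k p g h + ker k p g h' := by
  induction g with
  | nil => simp [ker]
  | cons m g ih => rw [ker_cons, ker_cons, ker_cons, ih, List.map_append, List.sum_append]; ring

lemma sum_smul_list {α : Type*} (c : ℝ) (l : List α) (F : α → ℝ) :
    (l.map fun a => c * F a).sum = c * (l.map F).sum := by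
  induction l with
  | nil => simp
  | cons a l ih => rw [List.map_cons, List.sum_cons, ih, List.map_cons, List.sum_cons]; ring

lemma ker_sm_left (c : ℝ) (p : ℕ) (g h : Gp Λ κ) : ker k p (smG c g) h = c * ker k p g h := by
  induction g with
  | nil => simp [ker]
  | cons m g ih =>
    show ker k p ((c * m.1, m.2) :: smG c g) h = _
    rw [ker_cons, ih, ker_cons]
    have e : (h.map fun m' => c * m.1 * m'.1 * k p m.2 m'.2) =
        h.map fun m' => c * (m.1 * m'.1 * k p m.2 m'.2) :=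
      List.map_congr_left fun m' _ => by ring
    show (h.map fun m' => c * m.1 * m'.1 * k p m.2 m'.2).sum + _ = _
    rw [e, sum_smul_list]; ring

lemma ker_sm_right (c : ℝ) (p : ℕ) (g h : Gp Λ κ) : ker k p g (smG c h) = c * ker k p g h := by
  induction g with
  | nil => simp [ker]
  | cons m g ih =>
    rw [ker_cons, ih, ker_cons, mul_add]
    congr 1
    unfold smG
    rw [List.map_map, ← sum_smul_list]
    congr 1
    exact List.map_congr_left fun m' _ => by simp only [Function.comp]; ring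

/-- weights in `[0, 1]` -/
def W01 : DT Λ κ → Prop
  | .br _ w _ _ _ _ _ _ => 0 ≤ w ∧ w ≤ 1
  | _ => True

/-- nonnegative groups -/
def Wg (g : Gp Λ κ) : Prop := ∀ m ∈ g, 0 ≤ m.1 ∧ m.2.All W01

lemma Wg.nil : Wg ([] : Gp Λ κ) := fun _ h => absurd h (by simp)

lemma Wg.one {t : DT Λ κ} (h : t.All W01) : Wg [((1 : ℝ), t)] := by
  intro m hm
  rw [List.mem_singleton.1 hm]
  exact ⟨zero_le_one, h⟩

lemma Wg.append {g h : Gp Λ κ} (hg : Wg g) (hh : Wg h) : Wg (g ++ h) :=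
  fun m hm => (List.mem_append.1 hm).elim (hg m) (hh m)

lemma Wg.sm {c : ℝ} (hc : 0 ≤ c) {g : Gp Λ κ} (hg : Wg g) : Wg (smG c g) := by
  intro m hm
  obtain ⟨m', hm', rfl⟩ := List.mem_map.1 hm
  exact ⟨mul_nonneg hc (hg m' hm').1, (hg m' hm').2⟩

lemma Wg.rsG {p : ℕ} {g : Gp Λ κ} (h : Wg g) : Wg (rsG p g) := by
  intro m hm
  obtain ⟨m', h1, h2, h3⟩ := mem_rsG hm
  exact ⟨by rw [h2]; exact (h m' h1).1, rs_all p (h m' h1).2 _ h3⟩

lemma Wg.gB {p : ℕ} {g : Gp Λ κ} (h : Wg g) : Wg (gB p g) :=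
  fun m hm => (h.rsG (p := p)) m (List.mem_filter.1 hm).1

lemma Wg.gR {p : ℕ} {g : Gp Λ κ} (h : Wg g) : Wg (gR p g) :=
  fun m hm => (h.rsG (p := p)) m (List.mem_filter.1 hm).1

lemma Wg.gC {p : ℕ} {g : Gp Λ κ} (h : Wg g) : Wg (gC p g) := by
  intro m hm
  obtain ⟨m', h1, q, h2, rfl⟩ := mem_gC hm
  have h3 := h.gB (p := p) m' h1
  obtain ⟨w, r, t₁, t₀, v, B, G, e⟩ := isB_eq (mem_gB h1).2
  obtain ⟨h4, h5⟩ := h3
  rw [e] at h5 h2
  simp only [chd, List.mem_cons, List.not_mem_nil, or_false] at h2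
  have hw : 0 ≤ w ∧ w ≤ 1 := h5.1
  rcases h2 with rfl | rfl
  · exact ⟨mul_nonneg h4 (by linarith [hw.2]), h5.2.1⟩
  · exact ⟨mul_nonneg h4 hw.1, h5.2.2⟩

lemma Wg.it {p : ℕ} {g : Gp Λ κ} (h : Wg g) (a : ℕ) : Wg ((Grp36.gC p)^[a] g) := by
  induction a generalizing g with
  | zero => exact h
  | succ a ih => exact ih h.gC

lemma ker_nonneg (hk : ∀ p m m', 0 ≤ k p m m') {p : ℕ} {g h : Gp Λ κ} (hg : Wg g) (hh : Wg h) :
    0 ≤ ker k p g h := by
  refine List.sum_nonneg fun x hx => ?_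
  obtain ⟨m, hm, rfl⟩ := List.mem_map.1 hx
  refine List.sum_nonneg fun y hy => ?_
  obtain ⟨m', hm', rfl⟩ := List.mem_map.1 hy
  exact mul_nonneg (mul_nonneg (hg m hm).1 (hh m' hm').1) (hk _ _ _)

lemma PS_nonneg (hk : ∀ p m m', 0 ≤ k p m m') : ∀ (n p : ℕ) (g h : Gp Λ κ), Wg g → Wg h →
    0 ≤ PS (ker k) n p g h := by
  intro n
  induction n with
  | zero => intro p g h _ _; exact le_rfl
  | succ n ih =>
    intro p g h hg hh
    unfold PS
    split_ifs
    · exact le_rfl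
    · exact add_nonneg (add_nonneg (ker_nonneg hk hg.gB hh.gB) (ih _ _ _ hg.gC hh.gC))
        (ih _ _ _ hg.gR hh.gR)

lemma PS_succ (hk : ∀ p m m', 0 ≤ k p m m') : ∀ (n p : ℕ) (g h : Gp Λ κ), Wg g → Wg h →
    PS (ker k) n p g h ≤ PS (ker k) (n + 1) p g h := by
  intro n
  induction n with
  | zero => intro p g h hg hh; exact PS_nonneg hk 1 p g h hg hh
  | succ n ih =>
    intro p g h hg hh
    unfold PS
    split_ifs
    · exact le_rfl
    · exact add_le_add (add_le_add le_rfl (ih _ _ _ hg.gC hh.gC)) (ih _ _ _ hg.gR hh.gR)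

lemma PS_mono_n (hk : ∀ p m m', 0 ≤ k p m m') {n n' p : ℕ} (hn : n ≤ n') {g h : Gp Λ κ}
    (hg : Wg g) (hh : Wg h) : PS (ker k) n p g h ≤ PS (ker k) n' p g h := by
  induction n', hn using Nat.le_induction with
  | base => exact le_rfl
  | succ m _ ih => exact ih.trans (PS_succ hk m p g h hg hh)

/-! ### members without the column `p` -/

lemma rs_of_ne {p : ℕ} {t : DT Λ κ} (h : t.isLeaf ∨ t.top ≠ p) : rs p t = [t] := by
  cases t with
  | leaf r f => rfl
  | br q w r t₁ t₀ v B G => rfl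
  | add q r t₁ t₀ =>
    have hq : q ≠ p := h.resolve_left id
    simp [rs, hq]
  | up q Sp t =>
    have hq : q ≠ p := h.resolve_left id
    simp [rs, hq]

lemma isB_of_ne {p : ℕ} {t : DT Λ κ} (h : t.isLeaf ∨ t.top ≠ p) : isB p t = false := by
  cases t with
  | leaf r f => rfl
  | br q w r t₁ t₀ v B G =>
    have hq : q ≠ p := h.resolve_left id
    simp [isB, hq]
  | add q r t₁ t₀ => rfl
  | up q Sp t => rfl

/-- all members are below `p` -/
def Lo (p : ℕ) (g : Gp Λ κ) : Prop := ∀ m ∈ g, m.2.isLeaf ∨ m.2.top ≠ p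

lemma rsG_lo {p : ℕ} {g : Gp Λ κ} (h : Lo p g) : rsG p g = g := by
  induction g with
  | nil => rfl
  | cons m g ih =>
    rw [rsG_cons, ih (fun a ha => h a (List.mem_cons_of_mem _ ha)), rs_of_ne (h m (by simp))]
    rfl

lemma gB_lo {p : ℕ} {g : Gp Λ κ} (h : Lo p g) : gB p g = [] := by
  unfold gB
  rw [rsG_lo h]
  refine List.filter_eq_nil_iff.2 fun m hm => ?_
  simp [isB_of_ne (h m hm)]

lemma gR_lo {p : ℕ} {g : Gp Λ κ} (h : Lo p g) : gR p g = g := by
  unfold gR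
  rw [rsG_lo h]
  refine List.filter_eq_self.2 fun m hm => ?_
  simp [isB_of_ne (h m hm)]

lemma gC_lo {p : ℕ} {g : Gp Λ κ} (h : Lo p g) : gC p g = [] := by
  unfold gC; rw [gB_lo h]; rfl

/-! ### congruence -/

lemma gB_congr {p : ℕ} {g g' : Gp Λ κ} (h : rsG p g = rsG p g') : gB p g = gB p g' := by
  unfold gB; rw [h]

lemma gR_congr {p : ℕ} {g g' : Gp Λ κ} (h : rsG p g = rsG p g') : gR p g = gR p g' := by
  unfold gR; rw [h]

lemma gC_congr {p : ℕ} {g g' : Gp Λ κ} (h : rsG p g = rsG p g') : gC p g = gC p g' := by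
  unfold gC; rw [gB_congr h]

lemma PS_congr_left {ℓ : ℕ → Gp Λ κ → Gp Λ κ → ℝ} {n p : ℕ} {g g' : Gp Λ κ}
    (e : rsG p g = rsG p g') (a : ℕ) (h : Gp Λ κ) :
    PS ℓ n p ((gC p)^[a] g) h = PS ℓ n p ((gC p)^[a] g') h := by
  cases a with
  | zero =>
    cases n with
    | zero => rfl
    | succ n =>
      simp only [Function.iterate_zero, id_eq]
      unfold PS; rw [gB_congr e, gC_congr e, gR_congr e]
  | succ a => rw [Function.iterate_succ_apply, Function.iterate_succ_apply, gC_congr e]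

lemma PS_congr_right {ℓ : ℕ → Gp Λ κ → Gp Λ κ → ℝ} {n p : ℕ} {h h' : Gp Λ κ}
    (e : rsG p h = rsG p h') (b : ℕ) (g : Gp Λ κ) :
    PS ℓ n p g ((gC p)^[b] h) = PS ℓ n p g ((gC p)^[b] h') := by
  cases b with
  | zero =>
    cases n with
    | zero => rfl
    | succ n =>
      simp only [Function.iterate_zero, id_eq]
      unfold PS; rw [gB_congr e, gC_congr e, gR_congr e]
  | succ a => rw [Function.iterate_succ_apply, Function.iterate_succ_apply, gC_congr e]

lemma it_append (p a : ℕ) (g h : Gp Λ κ) :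
    (gC p)^[a] (g ++ h) = (gC p)^[a] g ++ (gC p)^[a] h := by
  induction a generalizing g h with
  | zero => rfl
  | succ a ih =>
    rw [Function.iterate_succ_apply, Function.iterate_succ_apply, Function.iterate_succ_apply,
      gC_append, ih]

lemma it_sm (p a : ℕ) (c : ℝ) (g : Gp Λ κ) : (gC p)^[a] (smG c g) = smG c ((gC p)^[a] g) := by
  induction a generalizing g with
  | zero => rfl
  | succ a ih => rw [Function.iterate_succ_apply, Function.iterate_succ_apply, gC_smG, ih]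

end kers

/-! ### upper bounds by the product walk -/

/-- `x` is bounded by the product walk of `g` and `h` at the level `p` -/
structure UB (k : ℕ → DT Λ κ → DT Λ κ → ℝ) (p : ℕ) (g h : Gp Λ κ) (x : ℝ) : Prop where
  wg : Wg g
  wh : Wg h
  le : ∃ n, x ≤ PS (ker k) n p g h

section ub
variable {k : ℕ → DT Λ κ → DT Λ κ → ℝ}

lemma UB.of_le {p : ℕ} {g h : Gp Λ κ} {x y : ℝ} (u : UB k p g h y) (hx : x ≤ y) : UB k p g h x :=
  ⟨u.wg, u.wh, u.le.imp fun n hn => hx.trans hn⟩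

lemma UB.zero {p : ℕ} {g h : Gp Λ κ} (hg : Wg g) (hh : Wg h) : UB k p g h 0 :=
  ⟨hg, hh, 0, le_rfl⟩

variable (hk : ∀ p m m', 0 ≤ k p m m')
include hk

lemma UB.appL {p : ℕ} {g₁ g₀ h : Gp Λ κ} {x y : ℝ} (u : UB k p g₁ h x) (v : UB k p g₀ h y) :
    UB k p (g₁ ++ g₀) h (x + y) := by
  obtain ⟨n, hn⟩ := u.le
  obtain ⟨m, hm⟩ := v.le
  refine ⟨u.wg.append v.wg, u.wh, max n m, ?_⟩
  rw [PS_add_left ker_add_left]
  exact add_le_add (hn.trans (PS_mono_n hk (le_max_left _ _) u.wg u.wh))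
    (hm.trans (PS_mono_n hk (le_max_right _ _) v.wg v.wh))

lemma UB.appR {p : ℕ} {g h₁ h₀ : Gp Λ κ} {x y : ℝ} (u : UB k p g h₁ x) (v : UB k p g h₀ y) :
    UB k p g (h₁ ++ h₀) (x + y) := by
  obtain ⟨n, hn⟩ := u.le
  obtain ⟨m, hm⟩ := v.le
  refine ⟨u.wg, u.wh.append v.wh, max n m, ?_⟩
  rw [PS_add_right ker_add_right]
  exact add_le_add (hn.trans (PS_mono_n hk (le_max_left _ _) u.wg u.wh))
    (hm.trans (PS_mono_n hk (le_max_right _ _) v.wg v.wh))

lemma UB.diag {p : ℕ} {g₁ g₀ h₁ h₀ : Gp Λ κ} {x y : ℝ} (u : UB k p g₁ h₁ x)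
    (v : UB k p g₀ h₀ y) : UB k p (g₁ ++ g₀) (h₁ ++ h₀) (x + y) := by
  have a : UB k p g₁ (h₁ ++ h₀) (x + 0) := UB.appR hk u (UB.zero u.wg v.wh)
  have b : UB k p g₀ (h₁ ++ h₀) (0 + y) := UB.appR hk (UB.zero v.wg u.wh) v
  have := UB.appL hk a b
  simpa using this

lemma UB.subL {p : ℕ} {g₁ g₀ h : Gp Λ κ} {x : ℝ} (u : UB k p g₁ h x) (w : Wg g₀) :
    UB k p (g₁ ++ g₀) h x ∧ UB k p (g₀ ++ g₁) h x := by
  have a := UB.appL hk u (UB.zero w u.wh)
  have b := UB.appL hk (UB.zero w u.wh) u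
  simp only [add_zero, zero_add] at a b
  exact ⟨a, b⟩

lemma UB.subR {p : ℕ} {g h₁ h₀ : Gp Λ κ} {x : ℝ} (u : UB k p g h₁ x) (w : Wg h₀) :
    UB k p g (h₁ ++ h₀) x ∧ UB k p g (h₀ ++ h₁) x := by
  have a := UB.appR hk u (UB.zero u.wg w)
  have b := UB.appR hk (UB.zero u.wg w) u
  simp only [add_zero, zero_add] at a b
  exact ⟨a, b⟩

omit hk in
lemma UB.smL {p : ℕ} {g h : Gp Λ κ} {x c : ℝ} (hc : 0 ≤ c) (u : UB k p g h x) :
    UB k p (smG c g) h (c * x) := by
  obtain ⟨n, hn⟩ := u.le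
  refine ⟨u.wg.sm hc, u.wh, n, ?_⟩
  rw [PS_sm_left (ker_sm_left c)]
  exact mul_le_mul_of_nonneg_left hn hc

omit hk in
lemma UB.smR {p : ℕ} {g h : Gp Λ κ} {x c : ℝ} (hc : 0 ≤ c) (u : UB k p g h x) :
    UB k p g (smG c h) (c * x) := by
  obtain ⟨n, hn⟩ := u.le
  refine ⟨u.wg, u.wh.sm hc, n, ?_⟩
  rw [PS_sm_right (ker_sm_right c)]
  exact mul_le_mul_of_nonneg_left hn hc

omit hk in
lemma UB.congrL {p a : ℕ} {g g' h : Gp Λ κ} {x : ℝ} (e : rsG p g = rsG p g') (wg : Wg g')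
    (u : UB k p ((gC p)^[a] g) h x) : UB k p ((gC p)^[a] g') h x :=
  ⟨wg.it a, u.wh, u.le.imp fun n hn => by rw [← PS_congr_left e a h]; exact hn⟩

omit hk in
lemma UB.congrR {p b : ℕ} {g h h' : Gp Λ κ} {x : ℝ} (e : rsG p h = rsG p h') (wh : Wg h')
    (u : UB k p g ((gC p)^[b] h) x) : UB k p g ((gC p)^[b] h') x :=
  ⟨u.wg, wh.it b, u.le.imp fun n hn => by rw [← PS_congr_right e b g]; exact hn⟩

/-- one step of both groups -/
lemma UB.step {p : ℕ} {g h : Gp Λ κ} {x : ℝ} (hp : p ≠ 0) (wg : Wg g) (wh : Wg h)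
    (u : UB k p (gC p g) (gC p h) x) : UB k p g h (ker k p (gB p g) (gB p h) + x) := by
  obtain ⟨n, hn⟩ := u.le
  refine ⟨wg, wh, n + 1, ?_⟩
  unfold PS
  rw [if_neg hp]
  have := PS_nonneg hk n (p - 1) _ _ (wg.gR (p := p)) (wh.gR (p := p))
  linarith

lemma UB.step' {p : ℕ} {g h : Gp Λ κ} {x : ℝ} (hp : p ≠ 0) (wg : Wg g) (wh : Wg h)
    (u : UB k p (gC p g) (gC p h) x) : UB k p g h x :=
  (UB.step hk hp wg wh u).of_le (by
    have := ker_nonneg (k := k) (p := p) hk (wg.gB (p := p)) (wh.gB (p := p))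
    linarith)

/-- raising the level -/
lemma UB.raise1 {p : ℕ} {g h : Gp Λ κ} {x : ℝ} (u : UB k p g h x) (hg : Lo (p + 1) g)
    (hh : Lo (p + 1) h) : UB k (p + 1) g h x := by
  obtain ⟨n, hn⟩ := u.le
  refine ⟨u.wg, u.wh, n + 1, ?_⟩
  unfold PS
  rw [if_neg (Nat.succ_ne_zero p), gB_lo hg, gC_lo hg, gR_lo hg, gR_lo hh]
  have h1 := PS_nonneg hk n (p + 1) [] _ Wg.nil (u.wh.gC (p := p + 1))
  show x ≤ 0 + PS (ker k) n (p + 1) [] (gC (p + 1) h) + PS (ker k) n p g h
  linarith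

lemma UB.raise {p q : ℕ} (hpq : p ≤ q) {g h : Gp Λ κ} {x : ℝ} (u : UB k p g h x)
    (hg : ∀ m ∈ g, m.2.top ≤ p) (hh : ∀ m ∈ h, m.2.top ≤ p) : UB k q g h x := by
  induction q, hpq using Nat.le_induction with
  | base => exact u
  | succ q hq ih =>
    exact UB.raise1 hk ih (fun m hm => Or.inr (by have := hg m hm; omega))
      (fun m hm => Or.inr (by have := hh m hm; omega))

end ub

/-! ### states -/

/-- the state has no open one-sided column above the current one -/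
def Stay (q : St Λ κ) : Prop := q.O ⊆ {q.p} ∧ q.O' ⊆ {q.p}

/-- exponents of a state: the averaging moduli are powers of the current prime `P` -/
structure TI (P a b : ℕ) (s : St Λ κ) : Prop where
  M : s.M = P ^ a
  M' : s.M' = P ^ b
  ab : a = 0 ∨ b = 0
  oL : a ≠ 0 → P ∈ s.O'
  oR : b ≠ 0 → P ∈ s.O

section walk
variable [Fintype Λ] [DecidableEq Λ] [Fintype κ] [DecidableEq κ] [WRel κ]

open Classical in
/-- the kernel at the two-sided columns -/
noncomputable def eK (k : ℕ → DT Λ κ → DT Λ κ → ℝ) (stp : Stp Λ κ) (s : St Λ κ) : ℝ :=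
  if s.t.isLeaf ∨ s.t'.isLeaf then 0 else if stp s then 0 else if s.isPL ∨ s.isPR then 0 else
  match vw s.p s.t, vw s.p s.t' with
  | .br _ _ _ _ _ _ _, .br _ _ _ _ _ _ _ => k s.p s.t s.t'
  | _, _ => 0

variable {wr : ℕ → Λ → κ} {Ad : TrG Λ κ → Finset Λ → Prop}
  {μ : TrG Λ κ → Finset Λ → ℝ} {ν : TrG Λ κ → ℝ} {stp : Stp Λ κ}
  {k : ℕ → DT Λ κ → DT Λ κ → ℝ}

lemma ok_W01 {t : DT Λ κ} (h : t.g.Ok) : t.All W01 := by
  induction t with
  | leaf r f => trivial
  | br q w r t₁ t₀ v B G ih₁ ih₀ => exact ⟨⟨h.2.2.w0, h.2.2.w1⟩, ih₁ h.1, ih₀ h.2.1⟩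
  | add q r t₁ t₀ ih₁ ih₀ => exact ⟨trivial, ih₁ h.1, ih₀ h.2⟩
  | up q Sp t ih => exact ⟨trivial, ih h⟩

lemma rsG_add1 {p : ℕ} {r : Λ → κ} {t₁ t₀ : DT Λ κ} :
    rsG p ([((1 : ℝ), t₁)] ++ [((1 : ℝ), t₀)]) = rsG p [((1 : ℝ), DT.add p r t₁ t₀)] := by
  simp [rsG, rs]

lemma rsG_up1 {p : ℕ} {t u : DT Λ κ} {Sp : Finset Λ} (h : vw p t = .up Sp u) :
    rsG p [((1 : ℝ), u)] = rsG p [((1 : ℝ), t)] := by
  rcases vw_up h with rfl | ⟨-, rfl, -⟩
  · simp [rsG, rs]
  · rfl

lemma gC_br1 {p : ℕ} {w : ℝ} {r : Λ → κ} {t₁ t₀ : DT Λ κ} {v : Λ → ℝ → ℝ} {B G : κ → ℝ → ℝ} :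
    gC p [((1 : ℝ), DT.br p w r t₁ t₀ v B G)] =
      smG (1 - w) [((1 : ℝ), t₁)] ++ smG w [((1 : ℝ), t₀)] := by
  simp [gC, gB, rsG, rs, isB, chd, smG]

lemma gB_br1 {p : ℕ} {w : ℝ} {r : Λ → κ} {t₁ t₀ : DT Λ κ} {v : Λ → ℝ → ℝ} {B G : κ → ℝ → ℝ} :
    gB p [((1 : ℝ), DT.br p w r t₁ t₀ v B G)] = [((1 : ℝ), DT.br p w r t₁ t₀ v B G)] := by
  simp [gB, rsG, rs, isB]

/-- the bound of a state -/
def SB (k : ℕ → DT Λ κ → DT Λ κ → ℝ) (P a b : ℕ) (s : St Λ κ) (x : ℝ) : Prop :=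
  UB k P ((gC P)^[a] [((1 : ℝ), s.t)]) ((gC P)^[b] [((1 : ℝ), s.t')]) x

section steps
variable (hk : ∀ p m m', 0 ≤ k p m m')
include hk

lemma UB.brL {p a : ℕ} {w : ℝ} {r : Λ → κ} {t₁ t₀ : DT Λ κ} {v : Λ → ℝ → ℝ} {B G : κ → ℝ → ℝ}
    {h : Gp Λ κ} {x₁ x₀ : ℝ} (hw : 0 ≤ w ∧ w ≤ 1)
    (u₁ : UB k p ((gC p)^[a] [((1 : ℝ), t₁)]) h x₁) (u₀ : UB k p ((gC p)^[a] [((1 : ℝ), t₀)]) h x₀) :
    UB k p ((gC p)^[a + 1] [((1 : ℝ), DT.br p w r t₁ t₀ v B G)]) h ((1 - w) * x₁ + w * x₀) := by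
  rw [Function.iterate_succ_apply, gC_br1, it_append, it_sm, it_sm]
  exact UB.appL hk (UB.smL (by linarith [hw.2]) u₁) (UB.smL hw.1 u₀)

lemma UB.brR {p b : ℕ} {w : ℝ} {r : Λ → κ} {t₁ t₀ : DT Λ κ} {v : Λ → ℝ → ℝ} {B G : κ → ℝ → ℝ}
    {g : Gp Λ κ} {x₁ x₀ : ℝ} (hw : 0 ≤ w ∧ w ≤ 1)
    (u₁ : UB k p g ((gC p)^[b] [((1 : ℝ), t₁)]) x₁) (u₀ : UB k p g ((gC p)^[b] [((1 : ℝ), t₀)]) x₀) :
    UB k p g ((gC p)^[b + 1] [((1 : ℝ), DT.br p w r t₁ t₀ v B G)]) ((1 - w) * x₁ + w * x₀) := by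
  rw [Function.iterate_succ_apply, gC_br1, it_append, it_sm, it_sm]
  exact UB.appR hk (UB.smR (by linarith [hw.2]) u₁) (UB.smR hw.1 u₀)

lemma UB.addLL {p a : ℕ} {r : Λ → κ} {t₁ t₀ : DT Λ κ} {h : Gp Λ κ} {x₁ x₀ : ℝ}
    (h1 : t₁.All W01) (h0 : t₀.All W01)
    (u₁ : UB k p ((gC p)^[a] [((1 : ℝ), t₁)]) h x₁) (u₀ : UB k p ((gC p)^[a] [((1 : ℝ), t₀)]) h x₀) :
    UB k p ((gC p)^[a] [((1 : ℝ), DT.add p r t₁ t₀)]) h (x₁ + x₀) := by
  refine UB.congrL (rsG_add1 (r := r)) (Wg.one ⟨trivial, h1, h0⟩) ?_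
  rw [it_append]
  exact UB.appL hk u₁ u₀

lemma UB.addRR {p b : ℕ} {r : Λ → κ} {t₁ t₀ : DT Λ κ} {g : Gp Λ κ} {x₁ x₀ : ℝ}
    (h1 : t₁.All W01) (h0 : t₀.All W01)
    (u₁ : UB k p g ((gC p)^[b] [((1 : ℝ), t₁)]) x₁) (u₀ : UB k p g ((gC p)^[b] [((1 : ℝ), t₀)]) x₀) :
    UB k p g ((gC p)^[b] [((1 : ℝ), DT.add p r t₁ t₀)]) (x₁ + x₀) := by
  refine UB.congrR (rsG_add1 (r := r)) (Wg.one ⟨trivial, h1, h0⟩) ?_
  rw [it_append]
  exact UB.appR hk u₁ u₀

lemma UB.addL1 {p a : ℕ} {r : Λ → κ} {t₁ t₀ c : DT Λ κ} {h : Gp Λ κ} {x : ℝ}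
    (h1 : t₁.All W01) (h0 : t₀.All W01) (hc : c = t₁ ∨ c = t₀)
    (u : UB k p ((gC p)^[a] [((1 : ℝ), c)]) h x) :
    UB k p ((gC p)^[a] [((1 : ℝ), DT.add p r t₁ t₀)]) h x := by
  rcases hc with rfl | rfl
  · have := UB.addLL hk (r := r) h1 h0 u (UB.zero ((Wg.one h0).it a) u.wh)
    simpa using this
  · have := UB.addLL hk (r := r) h1 h0 (UB.zero ((Wg.one h1).it a) u.wh) u
    simpa using this

lemma UB.addR1 {p b : ℕ} {r : Λ → κ} {t₁ t₀ c : DT Λ κ} {g : Gp Λ κ} {x : ℝ}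
    (h1 : t₁.All W01) (h0 : t₀.All W01) (hc : c = t₁ ∨ c = t₀)
    (u : UB k p g ((gC p)^[b] [((1 : ℝ), c)]) x) :
    UB k p g ((gC p)^[b] [((1 : ℝ), DT.add p r t₁ t₀)]) x := by
  rcases hc with rfl | rfl
  · have := UB.addRR hk (r := r) h1 h0 u (UB.zero u.wg ((Wg.one h0).it b))
    simpa using this
  · have := UB.addRR hk (r := r) h1 h0 (UB.zero u.wg ((Wg.one h1).it b)) u
    simpa using this

lemma UB.addD {p a b : ℕ} {r r' : Λ → κ} {t₁ t₀ t₁' t₀' : DT Λ κ} {x₁ x₀ : ℝ}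
    (h1 : t₁.All W01) (h0 : t₀.All W01) (h1' : t₁'.All W01) (h0' : t₀'.All W01)
    (u₁ : UB k p ((gC p)^[a] [((1 : ℝ), t₁)]) ((gC p)^[b] [((1 : ℝ), t₁')]) x₁)
    (u₀ : UB k p ((gC p)^[a] [((1 : ℝ), t₀)]) ((gC p)^[b] [((1 : ℝ), t₀')]) x₀) :
    UB k p ((gC p)^[a] [((1 : ℝ), DT.add p r t₁ t₀)]) ((gC p)^[b] [((1 : ℝ), DT.add p r' t₁' t₀')])
      (x₁ + x₀) :=
  UB.addLL hk h1 h0 (UB.addR1 hk h1' h0' (Or.inl rfl) u₁) (UB.addR1 hk h1' h0' (Or.inr rfl) u₀)

omit hk in
lemma UB.upL {p a : ℕ} {t u : DT Λ κ} {Sp : Finset Λ} {h : Gp Λ κ} {x : ℝ}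
    (hv : vw p t = .up Sp u) (ht : t.All W01) (U : UB k p ((gC p)^[a] [((1 : ℝ), u)]) h x) :
    UB k p ((gC p)^[a] [((1 : ℝ), t)]) h x :=
  UB.congrL (rsG_up1 hv) (Wg.one ht) U

omit hk in
lemma UB.upR {p b : ℕ} {t u : DT Λ κ} {Sp : Finset Λ} {g : Gp Λ κ} {x : ℝ}
    (hv : vw p t = .up Sp u) (ht : t.All W01) (U : UB k p g ((gC p)^[b] [((1 : ℝ), u)]) x) :
    UB k p g ((gC p)^[b] [((1 : ℝ), t)]) x :=
  UB.congrR (rsG_up1 hv) (Wg.one ht) U

end steps

open Classical in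
/-- value `0` at the exits -/
noncomputable def exV (Φ : St Λ κ → ℝ) (q : St Λ κ) : ℝ := if Stay q then Φ q else 0

set_option maxHeartbeats 2000000 in
/-- **TRANSFER**, with the exponents -/
theorem xferT (hk : ∀ p m m', 0 ≤ k p m m') {Φ : St Λ κ → ℝ}
    (hΦ : ∀ n s a b, Inv wr Ad μ ν n s → TI s.p a b s → Φ s ≤ eK k stp s +
      ((nxt0 stp s).map fun q => q.1 * exV Φ q.2).sum) :
    ∀ (N n : ℕ) (s : St Λ κ) (a b : ℕ), s.rank < N → Inv wr Ad μ ν n s → TI s.p a b s →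
      SB k s.p a b s (Φ s) := by
  intro N
  induction N with
  | zero => intro n s a b hN; exact absurd hN (Nat.not_lt_zero _)
  | succ N ih =>
    intro n s a b hN h hTI
    have wl : s.t.All W01 := ok_W01 h.L.ok
    have wr' : s.t'.All W01 := ok_W01 h.R.ok
    refine UB.of_le ?_ (hΦ n s a b h hTI)
    by_cases h1 : s.t.isLeaf ∨ s.t'.isLeaf
    · have hL : nxt0 stp s = [] := by unfold nxt0; rw [if_pos h1]
      have hK : eK k stp s = 0 := by unfold eK; rw [if_pos h1]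
      rw [hL, hK]
      simpa using UB.zero ((Wg.one wl).it a) ((Wg.one wr').it b)
    by_cases h2 : stp s
    · have hL : nxt0 stp s = [] := by unfold nxt0; rw [if_neg h1, if_pos h2]
      have hK : eK k stp s = 0 := by unfold eK; rw [if_neg h1, if_pos h2]
      rw [hL, hK]
      simpa using UB.zero ((Wg.one wl).it a) ((Wg.one wr').it b)
    have h1' := not_or.1 h1
    obtain ⟨hpp, hpn⟩ := p_prime h h1'.1 h1'.2
    have hp0 : s.p ≠ 0 := hpp.ne_zero
    have child : ∀ (c : ℝ) (q : St Λ κ), (c, q) ∈ nxt0 stp s → ∀ a' b', TI s.p a' b' q →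
        UB k s.p ((gC s.p)^[a'] [((1 : ℝ), q.t)]) ((gC s.p)^[b'] [((1 : ℝ), q.t')]) (exV Φ q) := by
      intro c q hq a' b' hT
      have hinv := (h.next0 _ hq).1
      have hr := nxt0_rank stp s _ hq
      simp only at hinv hr
      unfold exV
      by_cases hs : Stay q
      · rw [if_pos hs]
        have tl : q.t.top ≤ s.p := hinv.L.col.top_le
        have tr : q.t'.top ≤ s.p := hinv.R.col.top_le
        have hqp : q.p ≤ s.p := max_le tl tr
        by_cases e : q.p = s.p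
        · have := ih s.p q a' b' (by omega) hinv (by rw [e]; exact hT)
          rw [e] at this
          exact this
        · have ha : a' = 0 := by
            by_contra hne
            exact e (Finset.mem_singleton.1 (hs.2 (hT.oL hne))).symm
          have hb : b' = 0 := by
            by_contra hne
            exact e (Finset.mem_singleton.1 (hs.1 (hT.oR hne))).symm
          subst ha hb
          have := ih s.p q 0 0 (by omega) hinv
            ⟨by rw [hT.M]; simp, by rw [hT.M']; simp, Or.inl rfl, fun h => absurd rfl h,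
              fun h => absurd rfl h⟩
          refine UB.raise hk hqp this ?_ ?_
          · intro m hm
            simp only [Function.iterate_zero, id_eq, List.mem_singleton] at hm
            rw [hm]; exact le_max_left _ _
          · intro m hm
            simp only [Function.iterate_zero, id_eq, List.mem_singleton] at hm
            rw [hm]; exact le_max_right _ _
      · rw [if_neg hs]
        exact UB.zero ((Wg.one (ok_W01 hinv.L.ok)).it a') ((Wg.one (ok_W01 hinv.R.ok)).it b')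
    by_cases hpl : s.isPL
    · obtain ⟨w, r, t₁, t₀, v, B, G, hv, ht, hcase⟩ := St.isPL_cases hpl
      have hK : eK k stp s = 0 := by
        unfold eK; rw [if_neg h1, if_neg h2, if_pos (Or.inl hpl)]
      have hL : nxt0 stp s = s.stL := by unfold nxt0; rw [if_neg h1, if_neg h2, if_pos hpl]
      have hW : (DT.br s.p w r t₁ t₀ v B G).All W01 := by rw [← ht]; exact wl
      rcases hcase with ⟨hd, hst⟩ | ⟨hd, hw, hst⟩
      · have ha : a ≠ 0 := by
          rintro rfl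
          rw [hTI.M, pow_zero] at hd
          exact hpp.one_lt.ne' (Nat.dvd_one.1 hd)
        obtain ⟨a', rfl⟩ := Nat.exists_eq_succ_of_ne_zero ha
        have hb : b = 0 := hTI.ab.resolve_left ha
        subst hb
        have hT : ∀ t, TI s.p a' 0 (s.fL r t) := fun t => by
          have e : s.M / s.p = s.p ^ a' := by
            rw [hTI.M, pow_succ]; exact Nat.mul_div_cancel _ hpp.pos
          refine ⟨e, hTI.M', Or.inr rfl, fun hne => ?_, fun h => absurd rfl h⟩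
          show s.p ∈ dwn s.p (s.M / s.p) s.O'
          unfold dwn
          rw [if_pos (by rw [e]; exact dvd_pow_self _ hne)]
          exact hTI.oL ha
        have c1 : UB k s.p ((gC s.p)^[a'] [((1 : ℝ), t₁)]) ((gC s.p)^[0] [((1 : ℝ), s.t')])
            (exV Φ (s.fL r t₁)) := child (1 - w) (s.fL r t₁) (by rw [hL, hst]; simp) a' 0 (hT t₁)
        have c0 : UB k s.p ((gC s.p)^[a'] [((1 : ℝ), t₀)]) ((gC s.p)^[0] [((1 : ℝ), s.t')])
            (exV Φ (s.fL r t₀)) := child w (s.fL r t₀) (by rw [hL, hst]; simp) a' 0 (hT t₀)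
        rw [hL, hst, hK]
        have := UB.brL hk (r := r) (v := v) (B := B) (G := G) hW.1 c1 c0
        rw [← ht] at this
        simpa [SB] using this
      · have ha : a = 0 := by
          by_contra hne
          exact hd (by rw [hTI.M]; exact dvd_pow_self _ hne)
        subst ha
        have hT : ∀ t, TI s.p 0 (b + 1) (s.pL r t) := fun t => by
          refine ⟨hTI.M, ?_, Or.inl rfl, fun h => absurd rfl h, fun _ => ?_⟩
          · show s.p * s.M' = _
            rw [hTI.M', pow_succ, mul_comm]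
          · show s.p ∈ insert s.p s.O
            exact Finset.mem_insert_self _ _
        have c1 : UB k s.p ((gC s.p)^[0] [((1 : ℝ), t₁)]) ((gC s.p)^[b + 1] [((1 : ℝ), s.t')])
            (exV Φ (s.pL r t₁)) :=
          child (1 - w) (s.pL r t₁) (by rw [hL, hst]; simp) 0 (b + 1) (hT t₁)
        have c0 : UB k s.p ((gC s.p)^[0] [((1 : ℝ), t₀)]) ((gC s.p)^[b + 1] [((1 : ℝ), s.t')])
            (exV Φ (s.pL r t₀)) := child w (s.pL r t₀) (by rw [hL, hst]; simp) 0 (b + 1) (hT t₀)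
        rw [hL, hst, hK]
        have := UB.brL hk (r := r) (v := v) (B := B) (G := G) hW.1 c1 c0
        rw [← ht, Function.iterate_succ_apply' (gC s.p) b] at this
        have := UB.step' hk hp0 (Wg.one wl) ((Wg.one wr').it b) this
        simpa [SB] using this
    by_cases hpr : s.isPR
    · obtain ⟨w, r, t₁, t₀, v, B, G, hv, ht, hcase⟩ := St.isPR_cases hpr
      have hK : eK k stp s = 0 := by
        unfold eK; rw [if_neg h1, if_neg h2, if_pos (Or.inr hpr)]
      have hL : nxt0 stp s = s.stR := by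
        unfold nxt0; rw [if_neg h1, if_neg h2, if_neg hpl, if_pos hpr]
      have hW : (DT.br s.p w r t₁ t₀ v B G).All W01 := by rw [← ht]; exact wr'
      rcases hcase with ⟨hd, hst⟩ | ⟨hd, hw, hst⟩
      · have hb : b ≠ 0 := by
          rintro rfl
          rw [hTI.M', pow_zero] at hd
          exact hpp.one_lt.ne' (Nat.dvd_one.1 hd)
        obtain ⟨b', rfl⟩ := Nat.exists_eq_succ_of_ne_zero hb
        have ha : a = 0 := hTI.ab.resolve_right hb
        subst ha
        have hT : ∀ t, TI s.p 0 b' (s.fR r t) := fun t => by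
          have e : s.M' / s.p = s.p ^ b' := by
            rw [hTI.M', pow_succ]; exact Nat.mul_div_cancel _ hpp.pos
          refine ⟨hTI.M, e, Or.inl rfl, fun h => absurd rfl h, fun hne => ?_⟩
          show s.p ∈ dwn s.p (s.M' / s.p) s.O
          unfold dwn
          rw [if_pos (by rw [e]; exact dvd_pow_self _ hne)]
          exact hTI.oR hb
        have c1 : UB k s.p ((gC s.p)^[0] [((1 : ℝ), s.t)]) ((gC s.p)^[b'] [((1 : ℝ), t₁)])
            (exV Φ (s.fR r t₁)) := child (1 - w) (s.fR r t₁) (by rw [hL, hst]; simp) 0 b' (hT t₁)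
        have c0 : UB k s.p ((gC s.p)^[0] [((1 : ℝ), s.t)]) ((gC s.p)^[b'] [((1 : ℝ), t₀)])
            (exV Φ (s.fR r t₀)) := child w (s.fR r t₀) (by rw [hL, hst]; simp) 0 b' (hT t₀)
        rw [hL, hst, hK]
        have := UB.brR hk (r := r) (v := v) (B := B) (G := G) hW.1 c1 c0
        rw [← ht] at this
        simpa [SB] using this
      · have hb : b = 0 := by
          by_contra hne
          exact hd (by rw [hTI.M']; exact dvd_pow_self _ hne)
        subst hb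
        have hT : ∀ t, TI s.p (a + 1) 0 (s.pR r t) := fun t => by
          refine ⟨?_, hTI.M', Or.inr rfl, fun _ => ?_, fun h => absurd rfl h⟩
          · show s.p * s.M = _
            rw [hTI.M, pow_succ, mul_comm]
          · show s.p ∈ insert s.p s.O'
            exact Finset.mem_insert_self _ _
        have c1 : UB k s.p ((gC s.p)^[a + 1] [((1 : ℝ), s.t)]) ((gC s.p)^[0] [((1 : ℝ), t₁)])
            (exV Φ (s.pR r t₁)) :=
          child (1 - w) (s.pR r t₁) (by rw [hL, hst]; simp) (a + 1) 0 (hT t₁)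
        have c0 : UB k s.p ((gC s.p)^[a + 1] [((1 : ℝ), s.t)]) ((gC s.p)^[0] [((1 : ℝ), t₀)])
            (exV Φ (s.pR r t₀)) := child w (s.pR r t₀) (by rw [hL, hst]; simp) (a + 1) 0 (hT t₀)
        rw [hL, hst, hK]
        have := UB.brR hk (r := r) (v := v) (B := B) (G := G) hW.1 c1 c0
        rw [← ht, Function.iterate_succ_apply' (gC s.p) a] at this
        have := UB.step' hk hp0 ((Wg.one wl).it a) (Wg.one wr') this
        simpa [SB] using this
    -- no pre-step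
    have hLe := nxt0.eq_1 stp s
    rw [if_neg h1, if_neg h2, if_neg hpl, if_neg hpr] at hLe
    have hKe := eK.eq_1 k stp s
    rw [if_neg h1, if_neg h2, if_neg (not_or.2 ⟨hpl, hpr⟩)] at hKe
    rcases hv : vw s.p s.t with ⟨w, r, t₁, t₀, v, B, G⟩ | ⟨r, t₁, t₀⟩ | ⟨Sp, u⟩ <;>
      rcases hv' : vw s.p s.t' with ⟨w', r', t₁', t₀', v', B', G'⟩ | ⟨r', t₁', t₀'⟩ | ⟨Sp', u'⟩ <;>
      simp only [hv, hv'] at hLe hKe
    · -- br br
      have ha : a = 0 := by
        by_contra hne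
        exact St.not_isPL_br hpl hv hv' (by rw [hTI.M]; exact dvd_pow_self _ hne)
      have hb : b = 0 := by
        by_contra hne
        exact St.not_isPR_br hpr hv hv' (by rw [hTI.M']; exact dvd_pow_self _ hne)
      subst ha hb
      have ht := vw_br hv
      have ht' := vw_br hv'
      have hW : (DT.br s.p w r t₁ t₀ v B G).All W01 := by rw [← ht]; exact wl
      have hW' : (DT.br s.p w' r' t₁' t₀' v' B' G').All W01 := by rw [← ht']; exact wr'
      have hT : ∀ t t' : DT Λ κ, TI s.p 0 0 { s with R := Ro r, t := t, t' := t' } := fun t t' =>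
        ⟨hTI.M, hTI.M', hTI.ab, hTI.oL, hTI.oR⟩
      have c11 : UB k s.p ((gC s.p)^[0] [((1 : ℝ), t₁)]) ((gC s.p)^[0] [((1 : ℝ), t₁')])
          (exV Φ { s with R := Ro r, t := t₁, t' := t₁' }) :=
        child ((1 - w) * (1 - w')) _ (by rw [hLe]; simp) 0 0 (hT t₁ t₁')
      have c10 : UB k s.p ((gC s.p)^[0] [((1 : ℝ), t₁)]) ((gC s.p)^[0] [((1 : ℝ), t₀')])
          (exV Φ { s with R := Ro r, t := t₁, t' := t₀' }) :=
        child ((1 - w) * w') _ (by rw [hLe]; simp) 0 0 (hT t₁ t₀')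
      have c01 : UB k s.p ((gC s.p)^[0] [((1 : ℝ), t₀)]) ((gC s.p)^[0] [((1 : ℝ), t₁')])
          (exV Φ { s with R := Ro r, t := t₀, t' := t₁' }) :=
        child (w * (1 - w')) _ (by rw [hLe]; simp) 0 0 (hT t₀ t₁')
      have c00 : UB k s.p ((gC s.p)^[0] [((1 : ℝ), t₀)]) ((gC s.p)^[0] [((1 : ℝ), t₀')])
          (exV Φ { s with R := Ro r, t := t₀, t' := t₀' }) :=
        child (w * w') _ (by rw [hLe]; simp) 0 0 (hT t₀ t₀')
      have r1 := UB.brR hk (r := r') (v := v') (B := B') (G := G') hW'.1 c11 c10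
      have r0 := UB.brR hk (r := r') (v := v') (B := B') (G := G') hW'.1 c01 c00
      have l := UB.brL hk (r := r) (v := v) (B := B) (G := G) hW.1 r1 r0
      rw [← ht, ← ht'] at l
      have := UB.step hk hp0 (Wg.one wl) (Wg.one wr') l
      rw [hLe, hKe]
      refine UB.of_le this (le_of_eq ?_)
      have e1 : ker k s.p (gB s.p [((1 : ℝ), s.t)]) (gB s.p [((1 : ℝ), s.t')]) =
          k s.p s.t s.t' := by
        rw [ht, ht', gB_br1, gB_br1]
        simp [ker]
      rw [e1]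
      simp only [List.map_cons, List.map_nil, List.sum_cons, List.sum_nil]
      ring
    · -- br add
      have ha : a = 0 := by
        by_contra hne
        exact (St.not_isPL_add hpl hv hv').1 (by rw [hTI.M]; exact dvd_pow_self _ hne)
      subst ha
      have ht' := vw_add hv'
      have hW' : (DT.add s.p r' t₁' t₀').All W01 := by rw [← ht']; exact wr'
      have hT : TI s.p 0 b { s with t' := stp.c s t₁' t₀' } :=
        ⟨hTI.M, hTI.M', hTI.ab, hTI.oL, hTI.oR⟩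
      have c : UB k s.p ((gC s.p)^[0] [((1 : ℝ), s.t)]) ((gC s.p)^[b] [((1 : ℝ), stp.c s t₁' t₀')])
          (exV Φ { s with t' := stp.c s t₁' t₀' }) := child 1 _ (by rw [hLe]; simp) 0 b hT
      rw [hLe, hKe]
      have := UB.addR1 hk (r := r') hW'.2.1 hW'.2.2
        ((stp.c_or s t₁' t₀').imp (fun h => h.1) (fun h => h.1)) c
      rw [← ht'] at this
      simpa [SB] using this
    · -- br up
      have ha : a = 0 := by
        by_contra hne
        exact (St.not_isPL_up hpl hv hv').1 (by rw [hTI.M]; exact dvd_pow_self _ hne)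
      subst ha
      have ht := vw_br hv
      have hW : (DT.br s.p w r t₁ t₀ v B G).All W01 := by rw [← ht]; exact wl
      have hT : ∀ t, TI s.p 0 (b + 1)
          { s with M' := s.p * s.M', O := insert s.p s.O, R := Ro r, t := t, t' := u' } := fun t =>
        ⟨hTI.M, by show s.p * s.M' = _; rw [hTI.M', pow_succ, mul_comm], Or.inl rfl,
          fun h => absurd rfl h, fun _ => Finset.mem_insert_self _ _⟩
      have c1 : UB k s.p ((gC s.p)^[0] [((1 : ℝ), t₁)]) ((gC s.p)^[b + 1] [((1 : ℝ), u')])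
          (exV Φ { s with M' := s.p * s.M', O := insert s.p s.O, R := Ro r, t := t₁, t' := u' }) :=
        child (1 - w) _ (by rw [hLe]; simp) 0 (b + 1) (hT t₁)
      have c0 : UB k s.p ((gC s.p)^[0] [((1 : ℝ), t₀)]) ((gC s.p)^[b + 1] [((1 : ℝ), u')])
          (exV Φ { s with M' := s.p * s.M', O := insert s.p s.O, R := Ro r, t := t₀, t' := u' }) :=
        child w _ (by rw [hLe]; simp) 0 (b + 1) (hT t₀)
      rw [hLe, hKe]
      have wu : u'.All W01 := vw_up_all hv' wr'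
      have := UB.brL hk (r := r) (v := v) (B := B) (G := G) hW.1 c1 c0
      rw [← ht, Function.iterate_succ_apply' (gC s.p) b] at this
      have := UB.step' hk hp0 (Wg.one wl) ((Wg.one wu).it b) this
      have := UB.upR hv' wr' this
      simpa [SB] using this
    · -- add br
      have hb : b = 0 := by
        by_contra hne
        exact (St.not_isPR_add hpr hv hv').1 (by rw [hTI.M']; exact dvd_pow_self _ hne)
      subst hb
      have ht := vw_add hv
      have hW : (DT.add s.p r t₁ t₀).All W01 := by rw [← ht]; exact wl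
      have hT : TI s.p a 0 { s with t := stp.c s t₁ t₀ } :=
        ⟨hTI.M, hTI.M', hTI.ab, hTI.oL, hTI.oR⟩
      have c : UB k s.p ((gC s.p)^[a] [((1 : ℝ), stp.c s t₁ t₀)]) ((gC s.p)^[0] [((1 : ℝ), s.t')])
          (exV Φ { s with t := stp.c s t₁ t₀ }) := child 1 _ (by rw [hLe]; simp) a 0 hT
      rw [hLe, hKe]
      have := UB.addL1 hk (r := r) hW.2.1 hW.2.2
        ((stp.c_or s t₁ t₀).imp (fun h => h.1) (fun h => h.1)) c
      rw [← ht] at this
      simpa [SB] using this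
    · -- add add
      have ht := vw_add hv
      have hW : (DT.add s.p r t₁ t₀).All W01 := by rw [← ht]; exact wl
      have ht' := vw_add hv'
      have hW' : (DT.add s.p r' t₁' t₀').All W01 := by rw [← ht']; exact wr'
      by_cases hj : stp.jt s
      · rw [if_pos hj] at hLe
        have c1 : UB k s.p ((gC s.p)^[a] [((1 : ℝ), t₁)]) ((gC s.p)^[b] [((1 : ℝ), t₁')])
            (exV Φ { s with t := t₁, t' := t₁' }) :=
          child 1 { s with t := t₁, t' := t₁' } (by rw [hLe]; simp) a b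
            ⟨hTI.M, hTI.M', hTI.ab, hTI.oL, hTI.oR⟩
        have c0 : UB k s.p ((gC s.p)^[a] [((1 : ℝ), t₀)]) ((gC s.p)^[b] [((1 : ℝ), t₀')])
            (exV Φ { s with t := t₀, t' := t₀' }) :=
          child 1 { s with t := t₀, t' := t₀' } (by rw [hLe]; simp) a b
            ⟨hTI.M, hTI.M', hTI.ab, hTI.oL, hTI.oR⟩
        rw [hLe, hKe]
        have := UB.addD hk (r := r) (r' := r') hW.2.1 hW.2.2 hW'.2.1 hW'.2.2 c1 c0
        rw [← ht, ← ht'] at this
        simpa [SB] using this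
      · rw [if_neg hj] at hLe
        by_cases hlf : stp.lf s
        · rw [if_pos hlf] at hLe
          have c : UB k s.p ((gC s.p)^[a] [((1 : ℝ), stp.c s t₁ t₀)])
              ((gC s.p)^[b] [((1 : ℝ), s.t')]) (exV Φ { s with t := stp.c s t₁ t₀ }) :=
            child 1 { s with t := stp.c s t₁ t₀ } (by rw [hLe]; simp) a b
              ⟨hTI.M, hTI.M', hTI.ab, hTI.oL, hTI.oR⟩
          rw [hLe, hKe]
          have := UB.addL1 hk (r := r) hW.2.1 hW.2.2
            ((stp.c_or s t₁ t₀).imp (fun h => h.1) (fun h => h.1)) c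
          rw [← ht] at this
          simpa [SB] using this
        · rw [if_neg hlf] at hLe
          have c : UB k s.p ((gC s.p)^[a] [((1 : ℝ), s.t)])
              ((gC s.p)^[b] [((1 : ℝ), stp.c s t₁' t₀')]) (exV Φ { s with t' := stp.c s t₁' t₀' }) :=
            child 1 { s with t' := stp.c s t₁' t₀' } (by rw [hLe]; simp) a b
              ⟨hTI.M, hTI.M', hTI.ab, hTI.oL, hTI.oR⟩
          rw [hLe, hKe]
          have := UB.addR1 hk (r := r') hW'.2.1 hW'.2.2
            ((stp.c_or s t₁' t₀').imp (fun h => h.1) (fun h => h.1)) c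
          rw [← ht'] at this
          simpa [SB] using this
    · -- add up
      have ht := vw_add hv
      have hW : (DT.add s.p r t₁ t₀).All W01 := by rw [← ht]; exact wl
      by_cases hj : stp.jt s
      · rw [if_pos hj] at hLe
        have c1 : UB k s.p ((gC s.p)^[a] [((1 : ℝ), t₁)]) ((gC s.p)^[b] [((1 : ℝ), u')])
            (exV Φ { s with t := t₁, t' := u', A' := s.A' ∩ Sp' }) :=
          child 1 { s with t := t₁, t' := u', A' := s.A' ∩ Sp' } (by rw [hLe]; simp) a b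
            ⟨hTI.M, hTI.M', hTI.ab, hTI.oL, hTI.oR⟩
        have c0 : UB k s.p ((gC s.p)^[a] [((1 : ℝ), t₀)]) ((gC s.p)^[b] [((1 : ℝ), u')])
            (exV Φ { s with t := t₀, t' := u', A' := s.A' \ Sp' }) :=
          child 1 { s with t := t₀, t' := u', A' := s.A' \ Sp' } (by rw [hLe]; simp) a b
            ⟨hTI.M, hTI.M', hTI.ab, hTI.oL, hTI.oR⟩
        rw [hLe, hKe]
        have := UB.upR hv' wr' (UB.addLL hk (r := r) hW.2.1 hW.2.2 c1 c0)
        rw [← ht] at this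
        simpa [SB] using this
      · rw [if_neg hj] at hLe
        have c : UB k s.p ((gC s.p)^[a] [((1 : ℝ), stp.c s t₁ t₀)])
            ((gC s.p)^[b] [((1 : ℝ), s.t')]) (exV Φ { s with t := stp.c s t₁ t₀ }) :=
          child 1 { s with t := stp.c s t₁ t₀ } (by rw [hLe]; simp) a b
            ⟨hTI.M, hTI.M', hTI.ab, hTI.oL, hTI.oR⟩
        rw [hLe, hKe]
        have := UB.addL1 hk (r := r) hW.2.1 hW.2.2
          ((stp.c_or s t₁ t₀).imp (fun h => h.1) (fun h => h.1)) c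
        rw [← ht] at this
        simpa [SB] using this
    · -- up br
      have hb : b = 0 := by
        by_contra hne
        exact (St.not_isPR_up hpr hv hv').1 (by rw [hTI.M']; exact dvd_pow_self _ hne)
      subst hb
      have ht' := vw_br hv'
      have hW' : (DT.br s.p w' r' t₁' t₀' v' B' G').All W01 := by rw [← ht']; exact wr'
      have hT : ∀ t', TI s.p (a + 1) 0
          { s with M := s.p * s.M, O' := insert s.p s.O', R := Ro r', t := u, t' := t' } := fun t' =>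
        ⟨by show s.p * s.M = _; rw [hTI.M, pow_succ, mul_comm], hTI.M', Or.inr rfl,
          fun _ => Finset.mem_insert_self _ _, fun h => absurd rfl h⟩
      have c1 : UB k s.p ((gC s.p)^[a + 1] [((1 : ℝ), u)]) ((gC s.p)^[0] [((1 : ℝ), t₁')])
          (exV Φ { s with M := s.p * s.M, O' := insert s.p s.O', R := Ro r', t := u, t' := t₁' }) :=
        child (1 - w') _ (by rw [hLe]; simp) (a + 1) 0 (hT t₁')
      have c0 : UB k s.p ((gC s.p)^[a + 1] [((1 : ℝ), u)]) ((gC s.p)^[0] [((1 : ℝ), t₀')])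
          (exV Φ { s with M := s.p * s.M, O' := insert s.p s.O', R := Ro r', t := u, t' := t₀' }) :=
        child w' _ (by rw [hLe]; simp) (a + 1) 0 (hT t₀')
      rw [hLe, hKe]
      have wu : u.All W01 := vw_up_all hv wl
      have := UB.brR hk (r := r') (v := v') (B := B') (G := G') hW'.1 c1 c0
      rw [← ht', Function.iterate_succ_apply' (gC s.p) a] at this
      have := UB.step' hk hp0 ((Wg.one wu).it a) (Wg.one wr') this
      have := UB.upL hv wl this
      simpa [SB] using this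
    · -- up add
      have ht' := vw_add hv'
      have hW' : (DT.add s.p r' t₁' t₀').All W01 := by rw [← ht']; exact wr'
      by_cases hj : stp.jt s
      · rw [if_pos hj] at hLe
        have c1 : UB k s.p ((gC s.p)^[a] [((1 : ℝ), u)]) ((gC s.p)^[b] [((1 : ℝ), t₁')])
            (exV Φ { s with t := u, A := s.A ∩ Sp, t' := t₁' }) :=
          child 1 { s with t := u, A := s.A ∩ Sp, t' := t₁' } (by rw [hLe]; simp) a b
            ⟨hTI.M, hTI.M', hTI.ab, hTI.oL, hTI.oR⟩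
        have c0 : UB k s.p ((gC s.p)^[a] [((1 : ℝ), u)]) ((gC s.p)^[b] [((1 : ℝ), t₀')])
            (exV Φ { s with t := u, A := s.A \ Sp, t' := t₀' }) :=
          child 1 { s with t := u, A := s.A \ Sp, t' := t₀' } (by rw [hLe]; simp) a b
            ⟨hTI.M, hTI.M', hTI.ab, hTI.oL, hTI.oR⟩
        rw [hLe, hKe]
        have := UB.upL hv wl (UB.addRR hk (r := r') hW'.2.1 hW'.2.2 c1 c0)
        rw [← ht'] at this
        simpa [SB] using this
      · rw [if_neg hj] at hLe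
        have c : UB k s.p ((gC s.p)^[a] [((1 : ℝ), s.t)])
            ((gC s.p)^[b] [((1 : ℝ), stp.c s t₁' t₀')]) (exV Φ { s with t' := stp.c s t₁' t₀' }) :=
          child 1 { s with t' := stp.c s t₁' t₀' } (by rw [hLe]; simp) a b
            ⟨hTI.M, hTI.M', hTI.ab, hTI.oL, hTI.oR⟩
        rw [hLe, hKe]
        have := UB.addR1 hk (r := r') hW'.2.1 hW'.2.2
          ((stp.c_or s t₁' t₀').imp (fun h => h.1) (fun h => h.1)) c
        rw [← ht'] at this
        simpa [SB] using this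
    · -- up up
      have c : UB k s.p ((gC s.p)^[a] [((1 : ℝ), u)]) ((gC s.p)^[b] [((1 : ℝ), u')])
          (exV Φ { s with t := u, t' := u' }) :=
        child 1 { s with t := u, t' := u' } (by rw [hLe]; simp) a b
          ⟨hTI.M, hTI.M', hTI.ab, hTI.oL, hTI.oR⟩
      rw [hLe, hKe]
      have := UB.upL hv wl (UB.upR hv' wr' c)
      simpa [SB] using this

/-- **TRANSFER** -/
theorem xfer (hk : ∀ p m m', 0 ≤ k p m m') {Φ : St Λ κ → ℝ}
    (hΦ : ∀ n s, Inv wr Ad μ ν n s → Φ s ≤ eK k stp s +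
      ((nxt0 stp s).map fun q => q.1 * exV Φ q.2).sum) :
    ∀ (N n : ℕ) (s : St Λ κ) (a b : ℕ), s.rank < N → Inv wr Ad μ ν n s → TI s.p a b s →
      SB k s.p a b s (Φ s) :=
  xferT hk fun n s _ _ h _ => hΦ n s h

/-- **transfer, self start**, with the exponents -/
theorem xferT_self (hk : ∀ p m m', 0 ≤ k p m m') {Φ : St Λ κ → ℝ}
    (hΦ : ∀ n s a b, Inv wr Ad μ ν n s → TI s.p a b s → Φ s ≤ eK k stp s +
      ((nxt0 stp s).map fun q => q.1 * exV Φ q.2).sum) {n : ℕ} {s : St Λ κ}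
    (h : Inv wr Ad μ ν n s) (hM : s.M = 1) (hM' : s.M' = 1) (he : s.t' = s.t) :
    ∃ N, Φ s ≤ GS (fun p g => ker k p g g) N s.p [((1 : ℝ), s.t)] := by
  have := xferT hk hΦ (s.rank + 1) n s 0 0 (Nat.lt_succ_self _) h
    ⟨by rw [hM]; simp, by rw [hM']; simp, Or.inl rfl, fun h => absurd rfl h, fun h => absurd rfl h⟩
  obtain ⟨N, hN⟩ := this.le
  refine ⟨N, hN.trans (le_of_eq ?_)⟩
  rw [he]
  exact PS_self (ker k) N s.p [((1 : ℝ), s.t)]

/-- **transfer, self start** -/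
theorem xfer_self (hk : ∀ p m m', 0 ≤ k p m m') {Φ : St Λ κ → ℝ}
    (hΦ : ∀ n s, Inv wr Ad μ ν n s → Φ s ≤ eK k stp s +
      ((nxt0 stp s).map fun q => q.1 * exV Φ q.2).sum) {n : ℕ} {s : St Λ κ}
    (h : Inv wr Ad μ ν n s) (hM : s.M = 1) (hM' : s.M' = 1) (he : s.t' = s.t) :
    ∃ N, Φ s ≤ GS (fun p g => ker k p g g) N s.p [((1 : ℝ), s.t)] := by
  have := xfer hk hΦ (s.rank + 1) n s 0 0 (Nat.lt_succ_self _) h
    ⟨by rw [hM]; simp, by rw [hM']; simp, Or.inl rfl, fun h => absurd rfl h, fun h => absurd rfl h⟩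
  obtain ⟨N, hN⟩ := this.le
  refine ⟨N, hN.trans (le_of_eq ?_)⟩
  rw [he]
  exact PS_self (ker k) N s.p [((1 : ℝ), s.t)]

end walk

end Crest.Agent.R4P.Xfer36
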