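import Crest.Agent.R4P.CrossLocC_25

/-!
R4P (S0004), helper25, module D: **moves of an item in the cross walk and the potential of an item pair**.

* side datum of an item: `UI M A q = w / gcd(M, w)`, `FI M A q = M / gcd(M, w)` (`w = q / A`), missing product `B`;
* types of moves (`Kd`): `I` (identity; free steps), `D` (drop: present column, averaging an item with the prime),
  `R` (raise: missing column, averaging an item without the prime);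
* `XC_mono` : both sides can raise at `l` below → both sides can raise at `l` above;
* `pot`, `pot_lk`, `pot_lk_act`; `sum_rects`.
-/

set_option autoImplicit false
set_option linter.unusedSectionVars false
set_option linter.unusedVariables false
open Finset

namespace Crest.Agent.R4P.YI25

open Crest.Agent.R4.HVW560 Crest.Agent.R4P.AvgItem710
open Crest.Agent.R4P.Cnt588
open Crest.Agent.R4P.CrossLoc25 Crest.Agent.R4P.CrossLocC25

/-! ### numbers -/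

section nums
variable {p : ℕ}

/-- the rest and the raising factor -/
def uw (M w : ℕ) : ℕ := w / M.gcd w
def fw (M w : ℕ) : ℕ := M / M.gcd w

lemma UI_eq (M A q : ℕ) : UI M A q = uw M (q / A) := rfl
lemma FI_eq (M A q : ℕ) : FI M A q = fw M (q / A) := rfl

lemma uw_pos {M w : ℕ} (hM : 0 < M) (hw : 0 < w) : 0 < uw M w :=
  Nat.div_pos (Nat.le_of_dvd hw (Nat.gcd_dvd_right _ _)) (Nat.gcd_pos_of_pos_left _ hM)

lemma sd_eq (M A q B : ℕ) : sd (q / A) M (B : ℝ) = (UI M A q, ((FI M A q : ℕ) : ℝ) * B) := rfl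

/-- free step, present -/
lemma uf_fp {M k : ℕ} (hp : 0 < p) :
    uw (p * M) (p * k) = uw M k ∧ fw (p * M) (p * k) = fw M k := by
  unfold uw fw
  rw [Nat.gcd_mul_left, Nat.mul_div_mul_left _ _ hp, Nat.mul_div_mul_left _ _ hp]
  exact ⟨rfl, rfl⟩

/-- free step, missing -/
lemma uf_fm {M w : ℕ} (hp : p.Prime) (hw : ¬ p ∣ w) :
    uw (p * M) w = uw M w ∧ fw (p * M) w = p * fw M w := by
  have hc : Nat.Coprime p w := (Nat.Prime.coprime_iff_not_dvd hp).2 hw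
  have e : (p * M).gcd w = M.gcd w := Nat.Coprime.gcd_mul_left_cancel M hc
  unfold uw fw
  rw [e]
  exact ⟨rfl, Nat.mul_div_assoc p (Nat.gcd_dvd_left _ _)⟩

/-- present column -/
lemma uf_dr {M k : ℕ} (hp : p.Prime) (hM : ¬ p ∣ M) :
    uw M (p * k) = p * uw M k ∧ fw M k = fw M (p * k) := by
  have hc : Nat.Coprime p M := (Nat.Prime.coprime_iff_not_dvd hp).2 hM
  have e : M.gcd (p * k) = M.gcd k := Nat.Coprime.gcd_mul_left_cancel_right k hc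
  unfold uw fw
  rw [e]
  exact ⟨Nat.mul_div_assoc p (Nat.gcd_dvd_right _ _), rfl⟩

/-- averaging, no prime left -/
lemma uf_ra {M w : ℕ} (hp : p.Prime) (hM : 0 < M) (h : ¬ p ∣ uw M w) :
    uw (p * M) w = uw M w ∧ fw (p * M) w = p * fw M w := by
  have hg : 0 < M.gcd w := Nat.gcd_pos_of_pos_left _ hM
  obtain ⟨g, M₁, w₁, hg0, hcop, e1, e2⟩ : ∃ g M₁ w₁, 0 < g ∧ Nat.Coprime M₁ w₁ ∧ M = g * M₁ ∧
      w = g * w₁ := by
    refine ⟨M.gcd w, M / M.gcd w, w / M.gcd w, hg, Nat.coprime_div_gcd_div_gcd hg, ?_, ?_⟩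
    · exact (Nat.mul_div_cancel' (Nat.gcd_dvd_left _ _)).symm
    · exact (Nat.mul_div_cancel' (Nat.gcd_dvd_right _ _)).symm
  subst e1 e2
  have g1 : (g * M₁).gcd (g * w₁) = g := by
    rw [Nat.gcd_mul_left, hcop.gcd_eq_one, mul_one]
  have hw1 : ¬ p ∣ w₁ := by
    unfold uw at h
    rw [g1, Nat.mul_div_cancel_left _ hg0] at h
    exact h
  have hc : Nat.Coprime p w₁ := (Nat.Prime.coprime_iff_not_dvd hp).2 hw1
  have g2 : (p * (g * M₁)).gcd (g * w₁) = g := by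
    rw [← mul_assoc, mul_comm p g, mul_assoc, Nat.gcd_mul_left,
      (Nat.Coprime.mul_left hc hcop).gcd_eq_one, mul_one]
  unfold uw fw
  rw [g1, g2]
  refine ⟨rfl, ?_⟩
  rw [show p * (g * M₁) = g * (p * M₁) by ring, Nat.mul_div_cancel_left _ hg0,
    Nat.mul_div_cancel_left _ hg0]

/-- averaging, another prime -/
lemma uf_av {M w : ℕ} (hp : p.Prime) (hM : 0 < M) (h : p ∣ uw M w) :
    uw M w = p * uw (p * M) w ∧ fw (p * M) w = fw M w := by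
  have hg : 0 < M.gcd w := Nat.gcd_pos_of_pos_left _ hM
  obtain ⟨g, M₁, w₁, hg0, hcop, e1, e2⟩ : ∃ g M₁ w₁, 0 < g ∧ Nat.Coprime M₁ w₁ ∧ M = g * M₁ ∧
      w = g * w₁ := by
    refine ⟨M.gcd w, M / M.gcd w, w / M.gcd w, hg, Nat.coprime_div_gcd_div_gcd hg, ?_, ?_⟩
    · exact (Nat.mul_div_cancel' (Nat.gcd_dvd_left _ _)).symm
    · exact (Nat.mul_div_cancel' (Nat.gcd_dvd_right _ _)).symm
  subst e1 e2
  have g1 : (g * M₁).gcd (g * w₁) = g := by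
    rw [Nat.gcd_mul_left, hcop.gcd_eq_one, mul_one]
  unfold uw at h
  rw [g1, Nat.mul_div_cancel_left _ hg0] at h
  obtain ⟨w₂, rfl⟩ := h
  have hc2 : Nat.Coprime M₁ w₂ := Nat.Coprime.coprime_mul_left_right hcop
  have g2 : (p * (g * M₁)).gcd (g * (p * w₂)) = g * p := by
    rw [show p * (g * M₁) = g * (p * M₁) by ring, Nat.gcd_mul_left, Nat.gcd_mul_left,
      hc2.gcd_eq_one, mul_one]
  have hgp : 0 < g * p := Nat.mul_pos hg0 hp.pos
  unfold uw fw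
  rw [g1, g2, Nat.mul_div_cancel_left _ hg0, Nat.mul_div_cancel_left _ hg0]
  constructor
  · rw [show g * (p * w₂) = g * p * w₂ by ring, Nat.mul_div_cancel_left _ hgp]
  · rw [show p * (g * M₁) = g * p * M₁ by ring, Nat.mul_div_cancel_left _ hgp]

lemma dvd_cof {l u v : ℕ} (hl : l.Prime) (hu : 0 < u) (hv : 0 < v) :
    l ∣ cof u v ↔ v.factorization l < u.factorization l := by
  unfold cof
  have hg : Nat.gcd u v ∣ u := Nat.gcd_dvd_left _ _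
  have h0 : u / Nat.gcd u v ≠ 0 :=
    (Nat.div_pos (Nat.le_of_dvd hu hg) (Nat.gcd_pos_of_pos_left _ hu)).ne'
  rw [hl.dvd_iff_one_le_factorization h0, Nat.factorization_div hg, Nat.factorization_gcd hu.ne' hv.ne']
  simp only [Finsupp.coe_tsub, Pi.sub_apply, Finsupp.inf_apply]
  omega

end nums

/-! ### types of moves -/

/-- type of a move of an item: identity, drop, raise -/
inductive Ty
  | I
  | D
  | R

/-- the combinations of the continuing children -/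
def Ty.ok : Ty → Ty → Prop
  | .I, .I => True
  | .D, .D => True
  | .D, .R => True
  | .R, .D => True
  | _, _ => False

lemma Ty.ok.symm {a b : Ty} (h : a.ok b) : b.ok a := by
  cases a <;> cases b <;> exact h

/-- move of one item (`m` = missing ties below) -/
def Kd : Ty → (p : ℕ) → (m : Finset ℕ) → (U F B V G C : ℕ) → Prop
  | .I, p, m, U, F, B, V, G, C => V = U ∧ ((G = F ∧ C = B) ∨ (F = p * G ∧ C = B * p ∧ p ∉ m))
  | .D, p, m, U, F, B, V, G, C => U = p * V ∧ G = F ∧ C = B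
  | .R, p, m, U, F, B, V, G, C => V = U ∧ ¬ p ∣ U ∧
      ((G = p * F ∧ C = B) ∨ (G = F ∧ C = B * p ∧ p ∉ m))

section kd
variable {p : ℕ} {m m' : Finset ℕ} {U F B V G C U' F' B' V' G' C' : ℕ} {T T' : Ty}

/-- moves of the side data -/
lemma Kd.mv (h : Kd T p m U F B V G C) :
    (T = .I → (((V, (G:ℝ) * C) : ℕ × ℝ) = (U, (F:ℝ) * B))) ∧
    (T = .D → Mv p true (U, (F:ℝ) * B) (V, (G:ℝ) * C)) ∧
    (T = .R → Mv p false (U, (F:ℝ) * B) (V, (G:ℝ) * C)) := by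
  cases T with
  | I =>
    refine ⟨fun _ => ?_, fun e => by simp at e, fun e => by simp at e⟩
    obtain ⟨rfl, ⟨rfl, rfl⟩ | ⟨rfl, rfl, -⟩⟩ := h
    · rfl
    · congr 1
      push_cast
      ring
  | D =>
    refine ⟨fun e => by simp at e, fun _ => ?_, fun e => by simp at e⟩
    obtain ⟨rfl, rfl, rfl⟩ := h
    exact Crest.Agent.R4.CrossInv709.Mv.drop _ _
  | R =>
    refine ⟨fun e => by simp at e, fun e => by simp at e, fun _ => ?_⟩
    obtain ⟨rfl, hU, ⟨rfl, rfl⟩ | ⟨rfl, rfl, -⟩⟩ := h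
    · have := Crest.Agent.R4.CrossInv709.Mv.raise (p := p) V ((F:ℝ) * C) hU
      rw [← mul_assoc] at this
      have e : ((p * F : ℕ) : ℝ) = (p:ℝ) * F := by push_cast; ring
      rw [e]
      exact this
    · have := Crest.Agent.R4.CrossInv709.Mv.raise (p := p) V ((G:ℝ) * B) hU
      have e : (G:ℝ) * ((B * p : ℕ) : ℝ) = (p:ℝ) * ((G:ℝ) * B) := by push_cast; ring
      rw [e]
      exact this

/-- the scale pair does not change -/
lemma Kd.sc (hp : p.Prime) (ht : T.ok T') (h : Kd T p m U F B V G C)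
    (h' : Kd T' p m' U' F' B' V' G' C') :
    sc (V, (G:ℝ) * C) (V', (G':ℝ) * C') = sc (U, (F:ℝ) * B) (U', (F':ℝ) * B') := by
  obtain ⟨a1, a2, a3⟩ := h.mv
  obtain ⟨b1, b2, b3⟩ := h'.mv
  cases T <;> cases T' <;> simp only [Ty.ok] at ht
  · rw [a1 rfl, b1 rfl]
  · exact sc_inv hp (a2 rfl) (b2 rfl) (Or.inl rfl)
  · exact sc_inv hp (a2 rfl) (b3 rfl) (Or.inl rfl)
  · exact sc_inv hp (a3 rfl) (b2 rfl) (Or.inr rfl)

/-- one half of `XC` -/
def Xh (l : ℕ) (m : Finset ℕ) (F U U' : ℕ) : Prop := l ∈ m ∧ ¬ l ∣ F ∧ ¬ l ∣ cof U' U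

/-- raises below are raises above -/
lemma Xh_mono {l : ℕ} (hl : l.Prime) (hp : p.Prime) {M : Finset ℕ} (hm : m ⊆ M) (ht : T.ok T')
    (hU : 0 < U) (hV : 0 < V) (hU' : 0 < U') (hV' : 0 < V') (h : Kd T p m U F B V G C)
    (h' : Kd T' p m' U' F' B' V' G' C') (hx : Xh l m G V V') : Xh l M F U U' := by
  obtain ⟨x1, x2, x3⟩ := hx
  rw [dvd_cof hl hV' hV, not_lt] at x3
  refine ⟨hm x1, ?_, ?_⟩
  · intro hd
    cases T with
    | I =>
      obtain ⟨-, ⟨rfl, -⟩ | ⟨rfl, -, hpm⟩⟩ := h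
      · exact x2 hd
      · rcases (Nat.Prime.dvd_mul hl).1 hd with h1 | h1
        · have := (Nat.prime_dvd_prime_iff_eq hl hp).1 h1
          subst this
          exact hpm x1
        · exact x2 h1
    | D => obtain ⟨-, rfl, -⟩ := h; exact x2 hd
    | R =>
      obtain ⟨-, -, ⟨rfl, -⟩ | ⟨rfl, -, -⟩⟩ := h
      · exact x2 (Dvd.dvd.mul_left hd _)
      · exact x2 hd
  · rw [dvd_cof hl hU' hU, not_lt]
    have hfac : ∀ k : ℕ, 0 < k → (p * k).factorization l = p.factorization l + k.factorization l := by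
      intro k hk
      rw [Nat.factorization_mul hp.ne_zero hk.ne']
      rfl
    cases T <;> cases T' <;> simp only [Ty.ok] at ht
    · obtain ⟨rfl, -⟩ := h
      obtain ⟨rfl, -⟩ := h'
      exact x3
    · obtain ⟨rfl, -, -⟩ := h
      obtain ⟨rfl, -, -⟩ := h'
      rw [hfac _ hV, hfac _ hV']
      exact Nat.add_le_add_left x3 _
    · obtain ⟨rfl, -, -⟩ := h
      obtain ⟨rfl, -, -⟩ := h'
      rw [hfac _ hV]
      exact x3.trans (Nat.le_add_left _ _)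
    · obtain ⟨rfl, hpU, h3⟩ := h
      obtain ⟨rfl, -, -⟩ := h'
      rw [hfac _ hV']
      have hlp : l ≠ p := by
        rintro rfl
        rcases h3 with ⟨rfl, -⟩ | ⟨-, -, hpm⟩
        · exact x2 (dvd_mul_right _ _)
        · exact hpm x1
      have : p.factorization l = 0 :=
        Nat.factorization_eq_zero_of_not_dvd fun hd => hlp ((Nat.prime_dvd_prime_iff_eq hl hp).1 hd)
      rw [this, zero_add]
      exact x3

end kd

/-! ### the potential of a pair -/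

/-- potential of a pair -/
noncomputable def pot (Vs : ℝ × ℝ → ℕ × ℕ → ℝ) (Vc Vx : ℕ → ℝ × ℝ → ℕ × ℕ → ℝ)
    (M b pr M' b' pr' : ℕ) (τ τ' : IT) (e : ℕ × ℕ) : ℝ :=
  ((b : ℝ) * b') * (Vs (SE M b pr M' b' pr' e) e +
    ∑ l ∈ τ.mt e.1 ∪ τ'.mt e.2, cT Vc Vx l M b pr M' b' pr' τ τ' e)

/-- link between a pair at a state and the same pair at a continuing child -/
structure Lk (p M A B M' A' B' : ℕ) (τ τ' : IT) (M₂ A₂ B₂ M₂' A₂' B₂' : ℕ) (σ σ' : IT)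
    (e : ℕ × ℕ) : Prop where
  kd : ∃ T T' : Ty, T.ok T' ∧
    Kd T p (σ.mt e.1) (UI M A e.1) (FI M A e.1) B (UI M₂ A₂ e.1) (FI M₂ A₂ e.1) B₂ ∧
    Kd T' p (σ'.mt e.2) (UI M' A' e.2) (FI M' A' e.2) B' (UI M₂' A₂' e.2) (FI M₂' A₂' e.2) B₂'
  mt : σ.mt e.1 ⊆ τ.mt e.1
  mt' : σ'.mt e.2 ⊆ τ'.mt e.2
  pos : 0 < UI M A e.1 ∧ 0 < UI M₂ A₂ e.1 ∧ 0 < UI M' A' e.2 ∧ 0 < UI M₂' A₂' e.2
  pr : ∀ l ∈ τ.mt e.1 ∪ τ'.mt e.2, l.Prime

section pots
variable {Vs : ℝ × ℝ → ℕ × ℕ → ℝ} {Vc Vx : ℕ → ℝ × ℝ → ℕ × ℕ → ℝ}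
  {p M A B M' A' B' : ℕ} {τ τ' : IT} {M₂ A₂ B₂ M₂' A₂' B₂' : ℕ} {σ σ' : IT} {e : ℕ × ℕ}

lemma Lk.sc (hp : p.Prime) (h : Lk p M A B M' A' B' τ τ' M₂ A₂ B₂ M₂' A₂' B₂' σ σ' e) :
    SE M₂ B₂ A₂ M₂' B₂' A₂' e = SE M B A M' B' A' e := by
  obtain ⟨T, T', ht, h1, h2⟩ := h.kd
  exact Kd.sc hp ht h1 h2

lemma Lk.xc (hp : p.Prime) (h : Lk p M A B M' A' B' τ τ' M₂ A₂ B₂ M₂' A₂' B₂' σ σ' e) {l : ℕ}
    (hx : XC l M₂ A₂ M₂' A₂' σ σ' e) : XC l M A M' A' τ τ' e := by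
  obtain ⟨T, T', ht, h1, h2⟩ := h.kd
  obtain ⟨p1, p2, p3, p4⟩ := h.pos
  rcases hx with hx | hx
  · exact Or.inl (Xh_mono (h.pr l (Finset.mem_union_left _ (h.mt hx.1))) hp h.mt ht p1 p2 p3 p4 h1 h2 hx)
  · exact Or.inr (Xh_mono (h.pr l (Finset.mem_union_right _ (h.mt' hx.1))) hp h.mt' ht.symm p3 p4 p1 p2
      h2 h1 hx)

lemma Lk.cT (h1 : ∀ l s e, 0 ≤ Vc l s e) (h2 : ∀ l s e, 0 ≤ Vx l s e) (hp : p.Prime)
    (h : Lk p M A B M' A' B' τ τ' M₂ A₂ B₂ M₂' A₂' B₂' σ σ' e) (l : ℕ) :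
    cT Vc Vx l M₂ B₂ A₂ M₂' B₂' A₂' σ σ' e ≤ cT Vc Vx l M B A M' B' A' τ τ' e := by
  unfold CrossLocC25.cT
  rw [h.sc hp]
  have k := h2 l (SE M B A M' B' A' e) e
  by_cases hx : XC l M₂ A₂ M₂' A₂' σ σ' e
  · rw [if_pos hx, if_pos (h.xc hp hx)]
  · rw [if_neg hx]
    split_ifs <;> linarith

lemma pot_nonneg (h0 : ∀ s e, 0 ≤ Vs s e) (h1 : ∀ l s e, 0 ≤ Vc l s e)
    (h2 : ∀ l s e, 0 ≤ Vx l s e) (M b pr M' b' pr' : ℕ) (τ τ' : IT) (e : ℕ × ℕ) :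
    0 ≤ pot Vs Vc Vx M b pr M' b' pr' τ τ' e := by
  unfold pot
  exact mul_nonneg (by positivity) (add_nonneg (h0 _ _)
    (Finset.sum_nonneg fun l _ => cT_nonneg h1 h2 _ _ _ _ _ _ _ _ _ _))

/-- stops -/
lemma Vs_le_pot (h0 : ∀ s e, 0 ≤ Vs s e) (h1 : ∀ l s e, 0 ≤ Vc l s e)
    (h2 : ∀ l s e, 0 ≤ Vx l s e) (M b pr M' b' pr' : ℕ) (τ τ' : IT) (e : ℕ × ℕ) :
    (b:ℝ) * b' * Vs (SE M b pr M' b' pr' e) e ≤ pot Vs Vc Vx M b pr M' b' pr' τ τ' e := by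
  unfold pot
  refine mul_le_mul_of_nonneg_left ?_ (by positivity)
  have := Finset.sum_nonneg (s := τ.mt e.1 ∪ τ'.mt e.2) fun l _ =>
    cT_nonneg h1 h2 l M b pr M' b' pr' τ τ' e
  linarith

/-- columns -/
lemma lcC_le_pot (h0 : ∀ s e, 0 ≤ Vs s e) (h1 : ∀ l s e, 0 ≤ Vc l s e)
    (h2 : ∀ l s e, 0 ≤ Vx l s e) (p M b pr M' b' pr' : ℕ) (τ τ' : IT) (e : ℕ × ℕ) :
    lcC Vc Vx p M b pr M' b' pr' τ τ' e ≤ pot Vs Vc Vx M b pr M' b' pr' τ τ' e := by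
  unfold pot lcC
  refine mul_le_mul_of_nonneg_left ?_ (by positivity)
  have hv := h0 (SE M b pr M' b' pr' e) e
  split_ifs with h
  · have := Finset.single_le_sum (f := fun l => CrossLocC25.cT Vc Vx l M b pr M' b' pr' τ τ' e)
      (fun l _ => cT_nonneg h1 h2 l M b pr M' b' pr' τ τ' e) h
    linarith
  · have := Finset.sum_nonneg (s := τ.mt e.1 ∪ τ'.mt e.2) fun l _ =>
      cT_nonneg h1 h2 l M b pr M' b' pr' τ τ' e
    linarith

/-- a pair which continues without paying -/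
lemma pot_lk (h0 : ∀ s e, 0 ≤ Vs s e) (h1 : ∀ l s e, 0 ≤ Vc l s e)
    (h2 : ∀ l s e, 0 ≤ Vx l s e) (hp : p.Prime)
    (h : Lk p M A B M' A' B' τ τ' M₂ A₂ B₂ M₂' A₂' B₂' σ σ' e) {w : ℝ} (hw : 0 ≤ w)
    (hB : w * ((B₂:ℝ) * B₂') ≤ (B:ℝ) * B') :
    w * pot Vs Vc Vx M₂ B₂ A₂ M₂' B₂' A₂' σ σ' e ≤ pot Vs Vc Vx M B A M' B' A' τ τ' e := by
  unfold pot
  rw [h.sc hp, ← mul_assoc]
  have hs : ∑ l ∈ σ.mt e.1 ∪ σ'.mt e.2, CrossLocC25.cT Vc Vx l M₂ B₂ A₂ M₂' B₂' A₂' σ σ' e ≤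
      ∑ l ∈ τ.mt e.1 ∪ τ'.mt e.2, CrossLocC25.cT Vc Vx l M B A M' B' A' τ τ' e :=
    (Finset.sum_le_sum fun l _ => h.cT h1 h2 hp l).trans
      (Finset.sum_le_sum_of_subset_of_nonneg (Finset.union_subset_union h.mt h.mt') fun l _ _ =>
        cT_nonneg h1 h2 _ _ _ _ _ _ _ _ _ _)
  have n1 : 0 ≤ Vs (SE M B A M' B' A' e) e +
      ∑ l ∈ σ.mt e.1 ∪ σ'.mt e.2, CrossLocC25.cT Vc Vx l M₂ B₂ A₂ M₂' B₂' A₂' σ σ' e :=
    add_nonneg (h0 _ _) (Finset.sum_nonneg fun l _ => cT_nonneg h1 h2 _ _ _ _ _ _ _ _ _ _)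
  exact mul_le_mul hB (by linarith) n1 (by positivity)

/-- a pair which continues and pays the column `p` -/
lemma pot_lk_act (h0 : ∀ s e, 0 ≤ Vs s e) (h1 : ∀ l s e, 0 ≤ Vc l s e)
    (h2 : ∀ l s e, 0 ≤ Vx l s e) (hp : p.Prime)
    (h : Lk p M A B M' A' B' τ τ' M₂ A₂ B₂ M₂' A₂' B₂' σ σ' e) {w : ℝ} (hw : 0 ≤ w)
    (hB : w * ((B₂:ℝ) * B₂') ≤ (B:ℝ) * B') (hn : p ∉ σ.mt e.1 ∪ σ'.mt e.2) :
    w * pot Vs Vc Vx M₂ B₂ A₂ M₂' B₂' A₂' σ σ' e + lcC Vc Vx p M B A M' B' A' τ τ' e ≤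
      pot Vs Vc Vx M B A M' B' A' τ τ' e := by
  unfold pot lcC
  rw [h.sc hp, ← mul_assoc]
  set S := ∑ l ∈ σ.mt e.1 ∪ σ'.mt e.2, CrossLocC25.cT Vc Vx l M₂ B₂ A₂ M₂' B₂' A₂' σ σ' e with hS
  have hsub : σ.mt e.1 ∪ σ'.mt e.2 ⊆ (τ.mt e.1 ∪ τ'.mt e.2).erase p := fun l hl =>
    Finset.mem_erase.2 ⟨fun e => hn (e ▸ hl), Finset.union_subset_union h.mt h.mt' hl⟩
  have hs : S ≤ ∑ l ∈ (τ.mt e.1 ∪ τ'.mt e.2).erase p,
      CrossLocC25.cT Vc Vx l M B A M' B' A' τ τ' e :=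
    (Finset.sum_le_sum fun l _ => h.cT h1 h2 hp l).trans
      (Finset.sum_le_sum_of_subset_of_nonneg hsub fun l _ _ =>
        cT_nonneg h1 h2 _ _ _ _ _ _ _ _ _ _)
  have hS0 : 0 ≤ S := Finset.sum_nonneg fun l _ => cT_nonneg h1 h2 _ _ _ _ _ _ _ _ _ _
  have n0 := h0 (SE M B A M' B' A' e) e
  have hBB : (0:ℝ) ≤ (B:ℝ) * B' := by positivity
  have step : w * ((B₂:ℝ) * B₂') * (Vs (SE M B A M' B' A' e) e + S) ≤
      (B:ℝ) * B' * (Vs (SE M B A M' B' A' e) e +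
        ∑ l ∈ (τ.mt e.1 ∪ τ'.mt e.2).erase p, CrossLocC25.cT Vc Vx l M B A M' B' A' τ τ' e) :=
    mul_le_mul hB (by linarith) (by linarith) hBB
  refine le_trans (add_le_add step le_rfl) ?_
  rw [← mul_add]
  refine mul_le_mul_of_nonneg_left ?_ hBB
  split_ifs with hpm
  · have := Finset.sum_erase_add _ (fun l => CrossLocC25.cT Vc Vx l M B A M' B' A' τ τ' e) hpm
    linarith
  · rw [Finset.erase_eq_of_notMem hpm]
    linarith

end pots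

/-- disjoint parts of a finite set -/
lemma sum_rects {ι α : Type*} [DecidableEq ι] (g F : ι → ℝ) (E : α → Finset ι) (f : α → ι → ℝ) :
    ∀ (L : List α) (I : Finset ι)
      (hd : L.Pairwise fun a b => Disjoint (E a) (E b)) (hs : ∀ a ∈ L, E a ⊆ I)
      (h : ∀ a ∈ L, ∀ e ∈ E a, f a e + g e ≤ F e) (hg : ∀ e ∈ I, g e ≤ F e),
      ∑ e ∈ I, g e + (L.map fun a => ∑ e ∈ E a, f a e).sum ≤ ∑ e ∈ I, F e := by
  intro L
  induction L with
  | nil => intro I _ _ _ hg; simpa using Finset.sum_le_sum hg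
  | cons a L ih =>
    intro I hd hs h hg
    rw [List.pairwise_cons] at hd
    have ha := hs a (List.mem_cons_self)
    have key := ih (I \ E a) hd.2 (fun b hb e he => Finset.mem_sdiff.2
        ⟨hs b (List.mem_cons_of_mem _ hb) he, fun h' => Finset.disjoint_left.1 (hd.1 b hb) h' he⟩)
      (fun b hb => h b (List.mem_cons_of_mem _ hb)) (fun e he => hg e (Finset.mem_sdiff.1 he).1)
    have k2 : ∑ e ∈ E a, (f a e + g e) ≤ ∑ e ∈ E a, F e :=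
      Finset.sum_le_sum fun e he => h a (List.mem_cons_self) e he
    rw [Finset.sum_add_distrib] at k2
    have e1 := Finset.sum_sdiff (f := g) ha
    have e2 := Finset.sum_sdiff (f := F) ha
    simp only [List.map_cons, List.sum_cons]
    linarith

end Crest.Agent.R4P.YI25
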