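import Crest.Agent.R4P.YIa_25
import Crest.Agent.R4P.BldF542
import Crest.Agent.R4P.WalkIT579

/-!
R4P (S0004), helper25, module D: **moves of one side of the cross walk on item trees** (`SY`, `Sm`).
-/

set_option autoImplicit false
set_option linter.unusedSectionVars false
set_option linter.unusedVariables false
open Finset

namespace Crest.Agent.R4P.YI25

open Crest.Agent.R4.HVW560 Crest.Agent.R4P.AvgItem710
open Crest.Agent.R4.Tour104 Crest.Agent.R4.Tour758 Crest.Agent.R4.Avg758 Crest.Agent.R4.Clos758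
open Crest.Agent.R4.ClosL758 Crest.Agent.R4.ClosG758 Crest.Agent.R4.ClosR758
open Crest.Agent.R4P.Cnt588 Crest.Agent.R4P.Walk560 Crest.Agent.R4P.Item758
open Crest.Agent.R4P.Bld532 (NS All NodeOk Bk dv nd mem_dv mem_nd)
open Crest.Agent.R4P.GSt927 Crest.Agent.R4P.WalkIT579 Crest.Agent.R4P.NMW710
open Crest.Agent.R4P.CrossLoc25 Crest.Agent.R4P.CrossLocC25

variable {Λ κ : Type*} [Fintype Λ] [DecidableEq Λ] [Fintype κ] [DecidableEq κ] [WRel κ]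
  {D : Par Λ κ} {sp : ℕ → Finset Λ} {P : Bld532.Par} {W : ℕ → ℝ} {Qp : NS → IT → Prop}
  {Al : Finset ℕ}

/-- one side of the cross walk -/
structure SY (D : Par Λ κ) (sp : ℕ → Finset Λ) (Qp : NS → IT → Prop) (u : NS) (τ : IT)
    (A : Finset Λ) (d : DT Λ κ) : Prop where
  S : SideI D sp u.B u.A τ A d
  ok : τ.Ok u.n
  q : All Qp u τ
  il : IL D.it A

/-- hypotheses on the node predicate and on the retained populations (`up` is void for the stripped trees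
`sp = fun _ => ∅`, see `YH.strip`) -/
structure YH (D : Par Λ κ) (sp : ℕ → Finset Λ) (P : Bld532.Par) (W : ℕ → ℝ)
    (Qp : NS → IT → Prop) : Prop where
  nd : ∀ u τ, Qp u τ → NodeOk P W u τ
  up : ∀ u p S t, Qp u (.up p S t) → ∀ j ∈ sp p, D.it j ∈ t.items → p ∣ D.it j / u.A
  spok : D.SpOk sp
  il : ∀ b, IL D.it (sp b)

/-- the stripped trees -/
lemma YH.strip (nd : ∀ u τ, Qp u τ → NodeOk P W u τ) : YH D (fun _ => (∅ : Finset Λ)) P W Qp where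
  nd := nd
  up := fun u p S t _ j hj => absurd hj (Finset.notMem_empty j)
  spok := ⟨fun _ _ _ => Sat_empty _, fun _ _ _ _ => Sat_empty _⟩
  il := fun _ => IL_empty _

/-- level of a side: leaves may stay at a higher level -/
def Lw (m : ℕ) (u : NS) (τ : IT) : Prop :=
  (isL τ ∨ ∀ l : ℕ, l.Prime → l < u.n → l ≤ m) ∧ ∀ l : ℕ, l.Prime → l < m → l < u.n

lemma Lw_of {p : ℕ} {u : NS} {τ : IT} (h : u.n = p ∨ u.n = p + 1) : Lw p u τ := by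
  refine ⟨Or.inr fun l _ hl => ?_, fun l _ hl => ?_⟩ <;> rcases h with h | h <;> omega

/-- numbers of a move: `(A, B, M)`; factor of the circumference -/
inductive Nm (p : ℕ) : ℕ × ℕ × ℕ → ℕ × ℕ × ℕ → ℕ → Prop
  | st (A B M : ℕ) : Nm p (A, B, M) (A, B, M) 1
  | fp (A B M : ℕ) : Nm p (A, B, p * M) (A * p, B, M) 1
  | fm (A B M : ℕ) : Nm p (A, B, p * M) (A, B * p, M) 1
  | pr (A B M : ℕ) : Nm p (A, B, M) (A * p, B, M) p
  | ms (A B M : ℕ) : Nm p (A, B, M) (A, B * p, M) p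
  | av (A B M : ℕ) : Nm p (A, B, M) (A, B, p * M) p

lemma Nm.circ {p f : ℕ} {x y : ℕ × ℕ × ℕ} (h : Nm p x y f) :
    y.1 * y.2.1 * y.2.2 = x.1 * x.2.1 * x.2.2 * f := by
  cases h <;> simp only <;> ring

open Classical in
/-- type of an item under averaging -/
noncomputable def avT (p M A : ℕ) (q : ℕ) : Ty := if p ∣ UI M A q then .D else .R

/-- **move of one side** at the column `p`: types of the items, factor, new modulus, new node -/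
structure Sm (D : Par Λ κ) (Al : Finset ℕ) (sp : ℕ → Finset Λ) (Qp : NS → IT → Prop) (p M : ℕ)
    (u : NS) (τ : IT) (A : Finset Λ) (T : ℕ → Ty) (f M₂ : ℕ) (v : NS) (σ : IT) (A₁ : Finset Λ)
    (d₁ : DT Λ κ) : Prop where
  y : SY D sp Qp v σ A₁ d₁
  it : σ.items ⊆ τ.items
  pop : A₁ ⊆ A
  mt : ∀ q ∈ σ.items, σ.mt q ⊆ τ.mt q
  kd : ∀ q ∈ Qi D Al σ A₁, Kd (T q) p (σ.mt q) (UI M u.A q) (FI M u.A q) u.B (UI M₂ v.A q)
    (FI M₂ v.A q) v.B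
  lw : Lw p v σ
  tp : d₁.top ≤ p
  nm : Nm p (u.A, u.B, M) (v.A, v.B, M₂) f
  M0 : 0 < M₂

lemma mt_le_tp {τ : IT} {n : ℕ} (h : τ.Ok n) {q l : ℕ} (hl : l ∈ τ.mt q) : l ≤ tp τ := by
  cases τ with
  | leaf S => simp [IT.mt] at hl
  | br p Sp t₁ t₀ =>
    simp only [IT.mt] at hl
    split_ifs at hl
    · rcases Finset.mem_insert.1 hl with rfl | hl
      · exact le_rfl
      · exact (BldF542.mt_lt _ _ h.2.2.2.2.2 _ _ hl).2.le
    · exact (BldF542.mt_lt _ _ h.2.2.2.2.1 _ _ hl).2.le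
  | add p t₁ t₀ =>
    simp only [IT.mt] at hl
    split_ifs at hl
    · exact Nat.lt_succ_iff.1 (BldF542.mt_lt _ _ h.2.2.2.2 _ _ hl).2
    · exact Nat.lt_succ_iff.1 (BldF542.mt_lt _ _ h.2.2.2.1 _ _ hl).2
  | up b Sp t => exact (BldF542.mt_lt _ _ h.2.2.2 _ _ hl).2.le
  | pl b t => exact Nat.lt_succ_iff.1 (BldF542.mt_lt _ _ h.2.2 _ _ hl).2
  | far p t₁ t₀ =>
    simp only [IT.mt] at hl
    split_ifs at hl
    · exact Nat.lt_succ_iff.1 (BldF542.mt_lt _ _ h.2.2.2.2 _ _ hl).2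
    · exact Nat.lt_succ_iff.1 (BldF542.mt_lt _ _ h.2.2.2.1 _ _ hl).2

lemma top_lt {u : NS} {τ : IT} {A : Finset Λ} {d : DT Λ κ} (h : SY D sp Qp u τ A d)
    (hn : 0 < u.n) : d.top < u.n := by
  rw [h.S.eq]
  exact (D.toDT_Col sp τ u.n u.B u.A h.ok).top_lt hn

lemma top_le {u : NS} {τ : IT} {A : Finset Λ} {d : DT Λ κ} (h : SY D sp Qp u τ A d) {p : ℕ}
    (hp : 0 < p) (hn : u.n = p ∨ u.n = p + 1) : d.top ≤ p := by
  have := top_lt h (by omega)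
  omega

lemma SY.bk (hh : YH D sp P W Qp) {u : NS} {τ : IT} {A : Finset Λ} {d : DT Λ κ}
    (h : SY D sp Qp u τ A d) : Bk τ.items u := bk_of_nodeOk (hh.nd _ _ h.q.self)

/-- items: positive, divisible by the product of the node -/
lemma SY.pos (hh : YH D sp P W Qp) {u : NS} {τ : IT} {A : Finset Λ} {d : DT Λ κ}
    (h : SY D sp Qp u τ A d) {q : ℕ} (hq : q ∈ τ.items) : 0 < q ∧ u.A ∣ q ∧ 0 < q / u.A := by
  have h0 := (h.bk hh).pos q hq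
  have h1 := (h.bk hh).dvd q hq
  exact ⟨h0, h1, Nat.div_pos (Nat.le_of_dvd h0 h1) (Nat.pos_of_dvd_of_pos h1 h0)⟩

lemma SY.UI0 (hh : YH D sp P W Qp) {u : NS} {τ : IT} {A : Finset Λ} {d : DT Λ κ}
    (h : SY D sp Qp u τ A d) {M q : ℕ} (hM : 0 < M) (hq : q ∈ τ.items) : 0 < UI M u.A q :=
  uw_pos hM (h.pos hh hq).2.2

lemma Qi_items {τ : IT} {A : Finset Λ} {q : ℕ} (h : q ∈ Qi D Al τ A) : q ∈ τ.items := (mem_Qi.1 h).1

lemma Qi_disj {τ₁ τ₀ : IT} {A A' : Finset Λ} (h : Disjoint τ₁.items τ₀.items) :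
    Disjoint (Qi D Al τ₁ A) (Qi D Al τ₀ A') :=
  Finset.disjoint_left.2 fun _ h1 h0 => Finset.disjoint_left.1 h (Qi_items h1) (Qi_items h0)

/-- populations split by a level of items -/
lemma Qi_disj_sp {σ : IT} {A S : Finset Λ} (hS : IL D.it S) :
    Disjoint (Qi D Al σ (A ∩ S)) (Qi D Al σ (A \ S)) := by
  rw [Finset.disjoint_left]
  intro q hq hq'
  obtain ⟨-, -, j, hj, hjq⟩ := mem_Qi.1 hq
  obtain ⟨-, -, k, hk, hkq⟩ := mem_Qi.1 hq'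
  have := (hS j k (hjq.trans hkq.symm)).1 (Finset.mem_inter.1 hj).2
  exact (Finset.mem_sdiff.1 hk).2 this

section side
variable {p M : ℕ} {u : NS} {A : Finset Λ} {d : DT Λ κ} {τ τ₁ τ₀ : IT} {S : Finset ℕ}

lemma Sm.sub {T : ℕ → Ty} {f M₂ : ℕ} {v : NS} {σ : IT} {A₁ : Finset Λ} {d₁ : DT Λ κ}
    (h : Sm D Al sp Qp p M u τ A T f M₂ v σ A₁ d₁) : Qi D Al σ A₁ ⊆ Qi D Al τ A :=
  Qi_sub h.it h.pop

/-- the side stays -/
lemma Sm.stay (h : SY D sp Qp u τ A d) (hM : 0 < M) (hl : Lw p u τ) (ht : d.top ≤ p) :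
    Sm D Al sp Qp p M u τ A (fun _ => .I) 1 M u τ A d where
  y := h
  it := subset_rfl
  pop := subset_rfl
  mt := fun _ _ => subset_rfl
  kd := fun _ _ => ⟨rfl, Or.inl ⟨rfl, rfl⟩⟩
  lw := hl
  tp := ht
  nm := Nm.st _ _ _
  M0 := hM

/-- averaging over `p` -/
lemma Sm.avg {T : ℕ → Ty} {v : NS} {σ : IT} {A₁ : Finset Λ} {d₁ : DT Λ κ} (hp : p.Prime)
    (hA : v.A = u.A) (hB : v.B = u.B)
    (hw : ∀ q ∈ σ.items, 0 < q / u.A)
    (h : Sm D Al sp Qp p M u τ A T 1 M v σ A₁ d₁) :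
    Sm D Al sp Qp p M u τ A (avT p M u.A) p (p * M) v σ A₁ d₁ where
  y := h.y
  it := h.it
  pop := h.pop
  mt := h.mt
  kd := by
    intro q hq
    rw [hA, hB]
    unfold avT
    split_ifs with hd
    · exact ⟨(uf_av hp h.M0 hd).1, (uf_av hp h.M0 hd).2, rfl⟩
    · exact ⟨(uf_ra hp h.M0 hd).1, hd, Or.inl ⟨(uf_ra hp h.M0 hd).2, rfl⟩⟩
  lw := h.lw
  tp := h.tp
  nm := by rw [hA, hB]; exact Nm.av _ _ _
  M0 := Nat.mul_pos hp.pos h.M0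

/-! #### ties -/

lemma SY.br₁ (h : SY D sp Qp u (.br p S τ₁ τ₀) A d) :
    SY D sp Qp ⟨p, u.c / (1 - 1 / (p : ℝ)), u.A * p, u.B⟩ τ₁ A (D.toDT sp u.B (u.A * p) τ₁) :=
  ⟨h.S.br₁, h.ok.2.2.2.2.1, h.q.2.1, h.il⟩

lemma SY.br₀ (h : SY D sp Qp u (.br p S τ₁ τ₀) A d) :
    SY D sp Qp ⟨p, u.c * p, u.A, u.B * p⟩ τ₀ A (D.toDT sp (u.B * p) u.A τ₀) :=
  ⟨h.S.br₀, h.ok.2.2.2.2.2, h.q.2.2, h.il⟩

lemma SY.pl (h : SY D sp Qp u (.pl p τ₁) A d) :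
    SY D sp Qp ⟨p + 1, u.c, u.A * p, u.B⟩ τ₁ A (D.toDT sp u.B (u.A * p) τ₁) :=
  ⟨h.S.pl, h.ok.2.2, h.q.2, h.il⟩

/-- items of the present child -/
lemma br_dvd (hh : YH D sp P W Qp) (h : SY D sp Qp u (.br p S τ₁ τ₀) A d) {q : ℕ}
    (hq : q ∈ τ₁.items) : p ∣ q / u.A := by
  have hN := hh.nd _ _ h.q.self
  have e : τ₁.items = dv u.A p (τ₁.items ∪ τ₀.items) := hN.2.2.2.2.2.1
  rw [e] at hq
  exact (mem_dv.1 hq).2

/-- items of the missing child -/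
lemma br_ndvd (hh : YH D sp P W Qp) (h : SY D sp Qp u (.br p S τ₁ τ₀) A d) {q : ℕ}
    (hq : q ∈ τ₀.items) : ¬ p ∣ q / u.A := by
  have hN := hh.nd _ _ h.q.self
  have e : τ₀.items = nd u.A p (τ₁.items ∪ τ₀.items) := hN.2.2.2.2.2.2.1
  rw [e] at hq
  exact (mem_nd.1 hq).2

lemma pl_dvd (hh : YH D sp P W Qp) (h : SY D sp Qp u (.pl p τ₁) A d) {q : ℕ}
    (hq : q ∈ τ₁.items) : p ∣ q / u.A := by
  have hN := hh.nd _ _ h.q.self
  exact hN.2.2.2.2.2.1 q hq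

lemma br_mt₁ (h : SY D sp Qp u (.br p S τ₁ τ₀) A d) {q : ℕ} (hq : q ∈ τ₁.items) :
    (IT.br p S τ₁ τ₀).mt q = τ₁.mt q := by
  simp only [IT.mt]
  rw [if_neg (Finset.disjoint_left.1 h.ok.2.2.1 hq)]

lemma br_mt₀ {q : ℕ} (hq : q ∈ τ₀.items) : (IT.br p S τ₁ τ₀).mt q = insert p (τ₀.mt q) := by
  simp only [IT.mt]
  rw [if_pos hq]

lemma br_not₁ (h : SY D sp Qp u (.br p S τ₁ τ₀) A d) (q : ℕ) : p ∉ τ₁.mt q := fun hq =>
  lt_irrefl _ (BldF542.mt_lt _ _ h.ok.2.2.2.2.1 _ _ hq).2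

lemma br_not₀ (h : SY D sp Qp u (.br p S τ₁ τ₀) A d) (q : ℕ) : p ∉ τ₀.mt q := fun hq =>
  lt_irrefl _ (BldF542.mt_lt _ _ h.ok.2.2.2.2.2 _ _ hq).2

/-- drop of an item -/
lemma kd_drop (hp : p.Prime) (hM : ¬ p ∣ M) {q B : ℕ} {m : Finset ℕ} (hd : p ∣ q / u.A) :
    Kd .D p m (UI M u.A q) (FI M u.A q) B (UI M (u.A * p) q) (FI M (u.A * p) q) B := by
  obtain ⟨k, hk⟩ := hd
  have e : q / (u.A * p) = k := by
    rw [← Nat.div_div_eq_div_mul, hk]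
    exact Nat.mul_div_cancel_left k hp.pos
  obtain ⟨a1, a2⟩ := uf_dr (M := M) (k := k) hp hM
  refine ⟨?_, ?_, rfl⟩
  · rw [UI_eq, UI_eq, hk, e]; exact a1
  · rw [FI_eq, FI_eq, hk, e]; exact a2

/-- free present step of an item -/
lemma kd_fp (hp : p.Prime) {M₂ q B : ℕ} {m : Finset ℕ} (hd : p ∣ q / u.A) :
    Kd .I p m (UI (p * M₂) u.A q) (FI (p * M₂) u.A q) B (UI M₂ (u.A * p) q) (FI M₂ (u.A * p) q)
      B := by
  obtain ⟨k, hk⟩ := hd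
  have e : q / (u.A * p) = k := by
    rw [← Nat.div_div_eq_div_mul, hk]
    exact Nat.mul_div_cancel_left k hp.pos
  obtain ⟨a1, a2⟩ := uf_fp (M := M₂) (k := k) hp.pos
  refine ⟨?_, Or.inl ⟨?_, rfl⟩⟩
  · rw [UI_eq, UI_eq, hk, e]; exact a1.symm
  · rw [FI_eq, FI_eq, hk, e]; exact a2.symm

/-- present child of a tie -/
lemma Sm.br₁ (hh : YH D sp P W Qp) (h : SY D sp Qp u (.br p S τ₁ τ₀) A d) (hM0 : 0 < M)
    (hM : ¬ p ∣ M) :
    Sm D Al sp Qp p M u (.br p S τ₁ τ₀) A (fun _ => .D) p M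
      ⟨p, u.c / (1 - 1 / (p : ℝ)), u.A * p, u.B⟩ τ₁ A (D.toDT sp u.B (u.A * p) τ₁) where
  y := h.br₁
  it := Finset.subset_union_left
  pop := subset_rfl
  mt := fun q hq => by rw [br_mt₁ h hq]
  kd := fun q hq => kd_drop h.S.hF.1 hM (br_dvd hh h (Qi_items hq))
  lw := Lw_of (Or.inl rfl)
  tp := top_le h.br₁ h.S.hF.1.pos (Or.inl rfl)
  nm := Nm.pr _ _ _
  M0 := hM0

/-- missing child of a tie -/
lemma Sm.br₀ (hh : YH D sp P W Qp) (h : SY D sp Qp u (.br p S τ₁ τ₀) A d) (hM0 : 0 < M) :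
    Sm D Al sp Qp p M u (.br p S τ₁ τ₀) A (fun _ => .R) p M
      ⟨p, u.c * p, u.A, u.B * p⟩ τ₀ A (D.toDT sp (u.B * p) u.A τ₀) where
  y := h.br₀
  it := Finset.subset_union_right
  pop := subset_rfl
  mt := fun q hq => by rw [br_mt₀ hq]; exact Finset.subset_insert _ _
  kd := fun q hq => ⟨rfl, fun hd => br_ndvd hh h (Qi_items hq)
    (hd.trans (Nat.div_dvd_of_dvd (Nat.gcd_dvd_right _ _))), Or.inr ⟨rfl, rfl, br_not₀ h q⟩⟩
  lw := Lw_of (Or.inl rfl)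
  tp := top_le h.br₀ h.S.hF.1.pos (Or.inl rfl)
  nm := Nm.ms _ _ _
  M0 := hM0

/-- free step, present child of a tie -/
lemma Sm.fbr₁ (hh : YH D sp P W Qp) (h : SY D sp Qp u (.br p S τ₁ τ₀) A d) {M₂ : ℕ} (hM0 : 0 < M₂)
    (hM : M = p * M₂) :
    Sm D Al sp Qp p M u (.br p S τ₁ τ₀) A (fun _ => .I) 1 M₂
      ⟨p, u.c / (1 - 1 / (p : ℝ)), u.A * p, u.B⟩ τ₁ A (D.toDT sp u.B (u.A * p) τ₁) where
  y := h.br₁
  it := Finset.subset_union_left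
  pop := subset_rfl
  mt := fun q hq => by rw [br_mt₁ h hq]
  kd := fun q hq => by rw [hM]; exact kd_fp h.S.hF.1 (br_dvd hh h (Qi_items hq))
  lw := Lw_of (Or.inl rfl)
  tp := top_le h.br₁ h.S.hF.1.pos (Or.inl rfl)
  nm := by rw [hM]; exact Nm.fp _ _ _
  M0 := hM0

/-- free step, missing child of a tie -/
lemma Sm.fbr₀ (hh : YH D sp P W Qp) (h : SY D sp Qp u (.br p S τ₁ τ₀) A d) {M₂ : ℕ} (hM0 : 0 < M₂)
    (hM : M = p * M₂) :
    Sm D Al sp Qp p M u (.br p S τ₁ τ₀) A (fun _ => .I) 1 M₂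
      ⟨p, u.c * p, u.A, u.B * p⟩ τ₀ A (D.toDT sp (u.B * p) u.A τ₀) where
  y := h.br₀
  it := Finset.subset_union_right
  pop := subset_rfl
  mt := fun q hq => by rw [br_mt₀ hq]; exact Finset.subset_insert _ _
  kd := fun q hq => by
    have hp : p.Prime := h.S.hF.1
    obtain ⟨a1, a2⟩ := uf_fm (M := M₂) hp (br_ndvd hh h (Qi_items hq))
    refine ⟨?_, Or.inr ⟨?_, rfl, br_not₀ h q⟩⟩
    · rw [hM, UI_eq, UI_eq]; exact a1.symm
    · rw [hM, FI_eq, FI_eq]; exact a2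
  lw := Lw_of (Or.inl rfl)
  tp := top_le h.br₀ h.S.hF.1.pos (Or.inl rfl)
  nm := by rw [hM]; exact Nm.fm _ _ _
  M0 := hM0

/-! #### pulls -/

lemma Sm.pl (hh : YH D sp P W Qp) (h : SY D sp Qp u (.pl p τ₁) A d) (hM0 : 0 < M)
    (hM : ¬ p ∣ M) :
    Sm D Al sp Qp p M u (.pl p τ₁) A (fun _ => .D) p M
      ⟨p + 1, u.c, u.A * p, u.B⟩ τ₁ A (D.toDT sp u.B (u.A * p) τ₁) where
  y := h.pl
  it := subset_rfl
  pop := subset_rfl
  mt := fun q hq => subset_rfl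
  kd := fun q hq => kd_drop h.S.hF.1 hM (pl_dvd hh h (Qi_items hq))
  lw := Lw_of (Or.inr rfl)
  tp := top_le h.pl h.S.hF.1.pos (Or.inr rfl)
  nm := Nm.pr _ _ _
  M0 := hM0

lemma Sm.fpl (hh : YH D sp P W Qp) (h : SY D sp Qp u (.pl p τ₁) A d) {M₂ : ℕ} (hM0 : 0 < M₂)
    (hM : M = p * M₂) :
    Sm D Al sp Qp p M u (.pl p τ₁) A (fun _ => .I) 1 M₂
      ⟨p + 1, u.c, u.A * p, u.B⟩ τ₁ A (D.toDT sp u.B (u.A * p) τ₁) where
  y := h.pl
  it := subset_rfl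
  pop := subset_rfl
  mt := fun q hq => subset_rfl
  kd := fun q hq => by rw [hM]; exact kd_fp h.S.hF.1 (pl_dvd hh h (Qi_items hq))
  lw := Lw_of (Or.inr rfl)
  tp := top_le h.pl h.S.hF.1.pos (Or.inr rfl)
  nm := by rw [hM]; exact Nm.fp _ _ _
  M0 := hM0

/-! #### add views -/

/-- children of an `add` or `far` node -/
lemma Sm.add (hh : YH D sp P W Qp) (h : SY D sp Qp u τ A d) (hτ : τ = .add p τ₁ τ₀ ∨ τ = .far p τ₁ τ₀)
    (hM0 : 0 < M) :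
    Sm D Al sp Qp p M u τ A (fun _ => .I) 1 M ⟨p + 1, u.c, u.A, u.B⟩ τ₁ A (D.toDT sp u.B u.A τ₁) ∧
    Sm D Al sp Qp p M u τ A (fun _ => .I) 1 M ⟨p + 1, u.c, u.A, u.B⟩ τ₀ A (D.toDT sp u.B u.A τ₀) ∧
    Disjoint τ₁.items τ₀.items := by
  obtain ⟨i1, i0⟩ := h.S.addfar hτ
  have hp : p.Prime := by
    rcases hτ with rfl | rfl
    · exact h.ok.1
    · exact h.ok.1
  have hd : Disjoint τ₁.items τ₀.items := by
    rcases hτ with rfl | rfl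
    · exact h.ok.2.2.1
    · exact h.ok.2.2.1
  have y1 : SY D sp Qp ⟨p + 1, u.c, u.A, u.B⟩ τ₁ A (D.toDT sp u.B u.A τ₁) := by
    refine ⟨i1, ?_, ?_, h.il⟩
    · rcases hτ with rfl | rfl
      · exact h.ok.2.2.2.1
      · exact h.ok.2.2.2.1
    · rcases hτ with rfl | rfl
      · exact h.q.2.1
      · exact h.q.2.1
  have y0 : SY D sp Qp ⟨p + 1, u.c, u.A, u.B⟩ τ₀ A (D.toDT sp u.B u.A τ₀) := by
    refine ⟨i0, ?_, ?_, h.il⟩
    · rcases hτ with rfl | rfl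
      · exact h.ok.2.2.2.2
      · exact h.ok.2.2.2.2
    · rcases hτ with rfl | rfl
      · exact h.q.2.2
      · exact h.q.2.2
  refine ⟨⟨y1, ?_, subset_rfl, ?_, fun _ _ => ⟨rfl, Or.inl ⟨rfl, rfl⟩⟩, Lw_of (Or.inr rfl),
    top_le y1 hp.pos (Or.inr rfl), Nm.st _ _ _, hM0⟩, ⟨y0, ?_, subset_rfl, ?_,
    fun _ _ => ⟨rfl, Or.inl ⟨rfl, rfl⟩⟩, Lw_of (Or.inr rfl),
    top_le y0 hp.pos (Or.inr rfl), Nm.st _ _ _, hM0⟩, hd⟩
  · rcases hτ with rfl | rfl <;> exact Finset.subset_union_left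
  · intro q hq
    rcases hτ with rfl | rfl <;> simp only [IT.mt] <;>
      rw [if_neg (Finset.disjoint_left.1 hd hq)]
  · rcases hτ with rfl | rfl <;> exact Finset.subset_union_right
  · intro q hq
    rcases hτ with rfl | rfl <;> simp only [IT.mt] <;> rw [if_pos hq]

/-! #### up views -/

/-- **up view** at the column of a state: the continuing tree, its populations, no missing tie `p` below -/
lemma Sm.up (hh : YH D sp P W Qp) (h : SY D sp Qp u τ A d) (hp : p.Prime) (hM0 : 0 < M)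
    (hl : Lw p u τ) (ht : d.top ≤ p) {Sp : Finset Λ} {e : DT Λ κ} (hv : vw p d = .up Sp e) :
    ∃ (v : NS) (σ : IT), v.A = u.A ∧ v.B = u.B ∧ v.c = u.c ∧
      Sm D Al sp Qp p M u τ A (fun _ => .I) 1 M v σ A e ∧
      Sm D Al sp Qp p M u τ A (fun _ => .I) 1 M v σ (A ∩ Sp) e ∧
      Sm D Al sp Qp p M u τ A (fun _ => .I) 1 M v σ (A \ Sp) e ∧
      (∀ q, p ∉ σ.mt q) ∧
      (∀ q ∈ Qi D Al σ (A ∩ Sp), p ∣ q / u.A) ∧
      Disjoint (Qi D Al σ (A ∩ Sp)) (Qi D Al σ (A \ Sp)) := by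
  rcases vw_up hv with h1 | ⟨rfl, rfl, h2⟩
  · obtain ⟨S, τ₁, rfl, rfl, rfl⟩ := toDT_up (h.S.eq.symm.trans h1)
    have key : ∀ A₁ : Finset Λ, A₁ ⊆ A → SideI D sp u.B u.A τ₁ A₁ (D.toDT sp u.B u.A τ₁) →
        IL D.it A₁ → Sm D Al sp Qp p M u (.up p S τ₁) A (fun _ => .I) 1 M ⟨p, u.c, u.A, u.B⟩ τ₁ A₁
          (D.toDT sp u.B u.A τ₁) := by
      intro A₁ hA hS hi
      have hs : SY D sp Qp ⟨p, u.c, u.A, u.B⟩ τ₁ A₁ (D.toDT sp u.B u.A τ₁) :=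
        ⟨hS, h.ok.2.2.2, h.q.2, hi⟩
      exact ⟨hs, subset_rfl, hA, fun q _ => subset_rfl, fun _ _ => ⟨rfl, Or.inl ⟨rfl, rfl⟩⟩,
        Lw_of (Or.inl rfl), top_le hs hp.pos (Or.inl rfl), Nm.st _ _ _, hM0⟩
    refine ⟨⟨p, u.c, u.A, u.B⟩, τ₁, rfl, rfl, rfl, key _ subset_rfl h.S.up h.il,
      key _ Finset.inter_subset_left (h.S.spl hh.spok).1 (IL_inter h.il (hh.il _)),
      key _ Finset.sdiff_subset (h.S.spl hh.spok).2 (IL_sdiff h.il (hh.il _)),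
      fun q hq => lt_irrefl _ (BldF542.mt_lt _ _ h.ok.2.2.2 _ _ hq).2, ?_, Qi_disj_sp (hh.il _)⟩
    intro q hq
    obtain ⟨hqi, -, j, hj, hjq⟩ := mem_Qi.1 hq
    have := hh.up _ _ _ _ h.q.self j (Finset.mem_inter.1 hj).2 (by rw [hjq]; exact hqi)
    rw [hjq] at this
    exact this
  · simp only [Finset.inter_empty, Finset.sdiff_empty]
    have hn : ∀ q, p ∉ τ.mt q := by
      intro q hq
      have h3 := mt_le_tp h.ok hq
      have h4 : e.top = WalkIT579.tp τ := by rw [h.S.eq]; exact WalkIT579.toDT_top D sp _ _ τ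
      rcases h2 with h2 | h2
      · have h5 : isL τ := by
          rw [h.S.eq] at h2
          exact (WalkIT579.toDT_leaf D sp _ _ τ).1 h2
        cases τ with
        | leaf S => simp [IT.mt] at hq
        | _ => exact absurd h5 id
      · exact h2 (le_antisymm ht (by rw [h4]; exact h3))
    have st := Sm.stay (Al := Al) (M := M) h hM0 hl ht
    refine ⟨u, τ, rfl, rfl, rfl, st, ?_, st, hn, ?_, ?_⟩
    · refine ⟨⟨h.S.pop (AdS_empty _), h.ok, h.q, ?_⟩, subset_rfl, Finset.empty_subset _,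
        fun _ _ => subset_rfl, fun _ _ => ⟨rfl, Or.inl ⟨rfl, rfl⟩⟩, hl, ht, Nm.st _ _ _, hM0⟩
      intro j j' _
      simp
    · intro q hq
      rw [Qi_empty] at hq
      exact absurd hq (Finset.notMem_empty _)
    · rw [Qi_empty]
      exact Finset.disjoint_empty_left _

end side

end Crest.Agent.R4P.YI25
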